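import Crest.Agent.R122.LNvs_410

/-!
# Row 122, LN1, graph part on `VSys` (helper410): "not tree-like" forms for the events

`S` is a structure (a part), `Y` a group; all contacts are virtual contacts through sub-worlds of
`S ∪ Y` (resp. of a larger `P`).

* `conn_of_cut` : `M.Conn` from a connecting family of contacts.
* `outR M C P Z S` : contacts of different labels, at least one of them outside `S`.
* `union_conn`, `not_tl_link` : `M.Conn S`, `Y` connected by contacts not inside `S`, and two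
  different common members `p ≠ q` of `S` and `Y` : `S ∪ Y` is connected and not tree-like (LINK of
  two exits of one part; the return of a line to another member of its part).
* `not_tl_outer` : the same with `Y` disjoint from `S`, connected, in contact with `p ≠ q ∈ S`.
* `not_tl_time`, `not_tl_between`, `not_tl_birth` : two contacts of one pair at distance more than
  `2 ℓ`, a contact of another pair between, a birth between.
-/

set_option autoImplicit false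
set_option linter.unusedSectionVars false

open MeasureTheory Set Filter Topology
open scoped ENNReal NNReal
open Crest.AnalysisR.Kinetic
open Crest.Agent.R122.GIV566 Crest.Agent.R122.VL581

namespace Crest.Agent.R122.LNg410

variable {J κ : Type} [Fintype J] {M : VSys J κ} {C ℓ ς : ℝ} {P Q : Finset J}
  {Z : J → PhasePoint}

/-- `M.Conn` from a connecting family of contacts. -/
theorem conn_of_cut {F : J → J → Prop} (hF : CutConn P F)
    (hFc : ∀ i ∈ P, ∀ j ∈ P, i ≠ j → F i j → ∃ t ∈ Icc 0 M.T, M.VCt C P i j t Z) :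
    M.Conn C P Z :=
  conn_iff.2 (hF.mono fun i hi j hj hij h => Or.inl (by
    obtain ⟨t, ht, h⟩ := hFc i hi j hj hij h
    exact ⟨t, ht, h⟩))

/-- Contacts of different labels, at least one of them outside `S`. -/
def outR (M : VSys J κ) (C : ℝ) (P : Finset J) (Z : J → PhasePoint) (S : Finset J) (i j : J) :
    Prop :=
  (i ∉ S ∨ j ∉ S) ∧ ∃ t, vc M C P Z i j t

theorem outR_mono {S : Finset J} (hPQ : P ⊆ Q) {i j : J} (h : outR M C P Z S i j) :
    outR M C Q Z S i j :=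
  ⟨h.1, by
    obtain ⟨t, ht⟩ := h.2
    exact ⟨t, vc_mono hPQ ht⟩⟩

theorem outR_symm {S : Finset J} {i j : J} (h : outR M C P Z S i j) : outR M C P Z S j i :=
  ⟨h.1.symm, by
    obtain ⟨t, ht⟩ := h.2
    exact ⟨t, vc_symm ht⟩⟩

section

variable [DecidableEq J]

/-- A connected part `S` and a group `Y` connected by contacts, with a common member. -/
theorem union_conn {S Y : Finset J} (hS : M.Conn C S Z) (hY : CutConn Y (outR M C (S ∪ Y) Z S))
    {p : J} (hpS : p ∈ S) (hpY : p ∈ Y) : M.Conn C (S ∪ Y) Z :=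
  conn_iff.2 ((cutConn_mono Finset.subset_union_left hS).union
    (hY.mono fun _ _ _ _ _ h => Or.inl h.2) ⟨p, Finset.mem_inter.2 ⟨hpS, hpY⟩⟩)

/-- In a tree-like connected set: a connected part `S` and a group `Y` connected by contacts which
are not inside `S` have at most one common member. -/
theorem eq_of_link {S Y : Finset J} (hT : M.TreeLike C ℓ ς P Z) (hc : M.Conn C P Z) (hSP : S ⊆ P)
    (hYP : Y ⊆ P) (hS : M.Conn C S Z) (hY : CutConn Y (outR M C P Z S)) {p q : J} (hpS : p ∈ S)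
    (hpY : p ∈ Y) (hqS : q ∈ S) (hqY : q ∈ Y) : p = q := by
  have h1 := cut_of_treeLike hT hc
  have h2 : CutConn S fun i j => (i ∈ S ∧ j ∈ S) ∧ ∃ t, vc M C P Z i j t :=
    (cutConn_mono hSP hS).mono fun i hi j hj _ h => Or.inl ⟨⟨hi, hj⟩, h⟩
  refine h1.inter_subsingleton hSP hYP h2 hY (fun i _ j _ _ h => Or.inl h.2)
    (fun i _ j _ _ h => Or.inl h.2) (fun i hi _ j hj _ _ _ h => ?_) hpS hpY hqS hqY
  rcases h with h | h
  · exact h.1.elim (fun h' => h' hi) (fun h' => h' hj)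
  · exact h.1.elim (fun h' => h' hj) (fun h' => h' hi)

/-- **LINK**: two different members of the part `S` in a group connected outside `S`. -/
theorem not_tl_link {S Y : Finset J} (hS : M.Conn C S Z)
    (hY : CutConn Y (outR M C (S ∪ Y) Z S)) {p q : J} (hpS : p ∈ S)
    (hpY : p ∈ Y) (hqS : q ∈ S) (hqY : q ∈ Y) (hpq : p ≠ q) :
    M.Conn C (S ∪ Y) Z ∧ ¬ M.TreeLike C ℓ ς (S ∪ Y) Z := by
  have h1 := union_conn hS hY hpS hpY
  exact ⟨h1, fun hT => hpq (eq_of_link hT h1 Finset.subset_union_left Finset.subset_union_right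
    hS hY hpS hpY hqS hqY)⟩

/-- The same for a larger set `P ⊇ S ∪ Y` (contacts through sub-worlds of `P`). -/
theorem not_tl_link' {S Y : Finset J} (hc : M.Conn C P Z) (hSP : S ⊆ P)
    (hYP : Y ⊆ P) (hS : M.Conn C S Z)
    (hY : CutConn Y (outR M C P Z S)) {p q : J} (hpS : p ∈ S)
    (hpY : p ∈ Y) (hqS : q ∈ S) (hqY : q ∈ Y) (hpq : p ≠ q) :
    ¬ M.TreeLike C ℓ ς P Z :=
  fun hT => hpq (eq_of_link hT hc hSP hYP hS hY hpS hpY hqS hqY)

/-- **(G4)**: `S` and `Y` connected and disjoint, `Y` in contact with two different members of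
`S`. -/
theorem not_tl_outer {S Y : Finset J} (hS : M.Conn C S Z) (hY : M.Conn C Y Z)
    (hd : Disjoint S Y) {p q x y : J} (hp : p ∈ S) (hq : q ∈ S) (hpq : p ≠ q) (hx : x ∈ Y)
    (hy : y ∈ Y) {t t' : ℝ} (ht : t ∈ Icc 0 M.T) (hpx : M.VCt C (S ∪ Y) p x t Z)
    (ht' : t' ∈ Icc 0 M.T) (hqy : M.VCt C (S ∪ Y) q y t' Z) :
    M.Conn C (S ∪ Y) Z ∧ ¬ M.TreeLike C ℓ ς (S ∪ Y) Z := by
  have hconn : M.Conn C (S ∪ Y) Z := conn_union_of_vct hS hY hp hx ht hpx
  refine ⟨hconn, fun hT => ?_⟩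
  exact (tlg_of_treeLike hT).not_outer_path (conn_iff.1 hconn) Finset.subset_union_left
    Finset.subset_union_right hd (cutConn_mono Finset.subset_union_left hS)
    (cutConn_mono Finset.subset_union_right hY) hp hq hpq hx hy ⟨t, Or.inl ⟨ht, hpx⟩⟩
    ⟨t', Or.inl ⟨ht', hqy⟩⟩

/-- The same inside a larger connected set. -/
theorem not_tl_outer' {S Y : Finset J} (hc : M.Conn C P Z) (hSP : S ⊆ P) (hYP : Y ⊆ P)
    (hS : M.Conn C S Z) (hY : M.Conn C Y Z)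
    (hd : Disjoint S Y) {p q x y : J} (hp : p ∈ S) (hq : q ∈ S) (hpq : p ≠ q) (hx : x ∈ Y)
    (hy : y ∈ Y) {t t' : ℝ} (ht : t ∈ Icc 0 M.T) (hpx : M.VCt C P p x t Z)
    (ht' : t' ∈ Icc 0 M.T) (hqy : M.VCt C P q y t' Z) : ¬ M.TreeLike C ℓ ς P Z :=
  fun hT => (tlg_of_treeLike hT).not_outer_path (conn_iff.1 hc) hSP
    hYP hd (cutConn_mono hSP hS)
    (cutConn_mono hYP hY) hp hq hpq hx hy ⟨t, Or.inl ⟨ht, hpx⟩⟩
    ⟨t', Or.inl ⟨ht', hqy⟩⟩

/-- If a family `F` of contacts connects `P`, every contact pair of the tree-like `P` is in `F`. -/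
theorem mem_of_family (hT : M.TreeLike C ℓ ς P Z) {F : J → J → Prop} (hF : CutConn P F)
    (hFc : ∀ i ∈ P, ∀ j ∈ P, i ≠ j → F i j → ∃ t ∈ Icc 0 M.T, M.VCt C P i j t Z)
    {j k : J} (hj : j ∈ P) (hk : k ∈ P) (hjk : j ≠ k) {t : ℝ} (ht : t ∈ Icc 0 M.T)
    (h : M.VCt C P j k t Z) : F j k ∨ F k j :=
  (tlg_of_treeLike hT).mem_of_cutConn hF (fun i hi j hj hij h => by
    obtain ⟨t, ht, h⟩ := hFc i hi j hj hij h
    exact ⟨t, Or.inl ⟨ht, h⟩⟩) hj hk hjk ⟨ht, h⟩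

/-- **One contact too many**: `F` connects `P` and there is a contact outside `F`. -/
theorem not_tl_extra {F : J → J → Prop} (hF : CutConn P F)
    (hFc : ∀ i ∈ P, ∀ j ∈ P, i ≠ j → F i j → ∃ t ∈ Icc 0 M.T, M.VCt C P i j t Z)
    {j k : J} (hj : j ∈ P) (hk : k ∈ P) (hjk : j ≠ k) {t : ℝ} (ht : t ∈ Icc 0 M.T)
    (h : M.VCt C P j k t Z) (hn : ¬ F j k) (hn' : ¬ F k j) :
    M.Conn C P Z ∧ ¬ M.TreeLike C ℓ ς P Z :=
  ⟨conn_of_cut hF hFc, fun hT => (mem_of_family hT hF hFc hj hk hjk ht h).elim hn hn'⟩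

/-- **Two contacts** of one pair at distance more than `2 ℓ`. -/
theorem not_tl_time (hc : M.Conn C P Z) {i j : J} (hi : i ∈ P) (hj : j ∈ P) (hij : i ≠ j)
    {t t' : ℝ} (ht : t ∈ Icc 0 M.T) (h : M.VCt C P i j t Z) (ht' : t' ∈ Icc 0 M.T)
    (h' : M.VCt C P i j t' Z) (htt : 2 * ℓ < |t - t'|) : ¬ M.TreeLike C ℓ ς P Z :=
  fun hT => absurd ((tlg_of_treeLike hT).two_times hi hj hij (conn_iff.1 hc) ⟨ht, h⟩ ⟨ht', h'⟩)
    (not_le.2 htt)

theorem two_times (hT : M.TreeLike C ℓ ς P Z) (hc : M.Conn C P Z) {i j : J} (hi : i ∈ P)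
    (hj : j ∈ P) (hij : i ≠ j)
    {t t' : ℝ} (ht : t ∈ Icc 0 M.T) (h : M.VCt C P i j t Z) (ht' : t' ∈ Icc 0 M.T)
    (h' : M.VCt C P i j t' Z) : |t - t'| ≤ 2 * ℓ :=
  (tlg_of_treeLike hT).two_times hi hj hij (conn_iff.1 hc) ⟨ht, h⟩ ⟨ht', h'⟩

/-- A contact of another pair between two contacts of one pair. -/
theorem between (hT : M.TreeLike C ℓ ς P Z) (hc : M.Conn C P Z) (hℓς : 2 * ℓ ≤ ς) {i j k l : J}
    (hi : i ∈ P) (hj : j ∈ P) (hij : i ≠ j) (hk : k ∈ P) (hl : l ∈ P) (hkl : k ≠ l)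
    {t t' t'' : ℝ} (ht : t ∈ Icc 0 M.T) (h : M.VCt C P i j t Z) (ht' : t' ∈ Icc 0 M.T)
    (h' : M.VCt C P i j t' Z) (ht'' : t'' ∈ Icc 0 M.T) (h'' : M.VCt C P k l t'' Z)
    (htt : t ≤ t'') (htt' : t'' ≤ t') : (i = k ∧ j = l) ∨ (i = l ∧ j = k) :=
  (tlg_of_treeLike hT).sep (conn_iff.1 hc) hℓς hi hj hij hk hl hkl ⟨ht, h⟩ ⟨ht', h'⟩ ⟨ht'', h''⟩
    htt htt'

theorem not_tl_between (hc : M.Conn C P Z) (hℓς : 2 * ℓ ≤ ς) {i j k l : J}
    (hi : i ∈ P) (hj : j ∈ P) (hij : i ≠ j) (hk : k ∈ P) (hl : l ∈ P) (hkl : k ≠ l)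
    {t t' t'' : ℝ} (ht : t ∈ Icc 0 M.T) (h : M.VCt C P i j t Z) (ht' : t' ∈ Icc 0 M.T)
    (h' : M.VCt C P i j t' Z) (ht'' : t'' ∈ Icc 0 M.T) (h'' : M.VCt C P k l t'' Z)
    (htt : t ≤ t'') (htt' : t'' ≤ t') (hne : ¬ ((i = k ∧ j = l) ∨ (i = l ∧ j = k))) :
    ¬ M.TreeLike C ℓ ς P Z :=
  fun hT => hne (between hT hc hℓς hi hj hij hk hl hkl ht h ht' h' ht'' h'' htt htt')

/-- A contact of another pair in the window of a pair: times of different pairs are more than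
`ς - 2 ℓ` apart. -/
theorem pair_eq_of_near (hT : M.TreeLike C ℓ ς P Z) {i j k l : J}
    (hi : i ∈ P) (hj : j ∈ P) (hij : i ≠ j) (hk : k ∈ P) (hl : l ∈ P) (hkl : k ≠ l)
    {t t' : ℝ} (ht : t ∈ Icc 0 M.T) (h : M.VCt C P i j t Z) (ht' : t' ∈ Icc 0 M.T)
    (h' : M.VCt C P k l t' Z) (htt : |t - t'| ≤ ς - 2 * ℓ) :
    (i = k ∧ j = l) ∨ (i = l ∧ j = k) :=
  (tlg_of_treeLike hT).two_windows hi hj hij hk hl hkl ⟨ht, h⟩ ⟨ht', h'⟩ htt

/-- A birth between two contacts of one pair. -/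
theorem not_birth_between (hT : M.TreeLike C ℓ ς P Z) (hc : M.Conn C P Z) (hℓς : 2 * ℓ ≤ ς)
    {i j : J} (hi : i ∈ P) (hj : j ∈ P) (hij : i ≠ j) {t t' : ℝ} (ht : t ∈ Icc 0 M.T)
    (h : M.VCt C P i j t Z) (ht' : t' ∈ Icc 0 M.T) (h' : M.VCt C P i j t' Z) (k : J) :
    ¬ (t ≤ M.b k ∧ M.b k ≤ t') := by
  rintro ⟨h1, h2⟩
  have hT' := hT
  obtain ⟨_, E, σ, hE, hE2, hE3, hE4, hE5, hE6⟩ := hT
  obtain ⟨e, he, he', h3⟩ := hE6 i hi j hj hij t ht h
  obtain ⟨f, hf, hf', h4⟩ := hE6 i hi j hj hij t' ht' h'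
  have h5 := hE4 e he k
  have h6 := hE4 f hf k
  have hℓ : 0 ≤ ℓ := (abs_nonneg _).trans h3
  by_cases hef : e = f
  · subst hef
    rw [abs_le] at h3 h4
    rw [lt_abs] at h5
    rcases h5 with h5 | h5 <;> linarith [h3.1, h3.2, h4.1, h4.2]
  · have h7 := two_times hT' hc hi hj hij ht h ht' h'
    have h8 := hE5 e he f hf hef
    rw [abs_le] at h3 h4 h7
    rw [lt_abs] at h8 h5 h6
    rcases h8 with h8 | h8 <;> rcases h5 with h5 | h5 <;> rcases h6 with h6 | h6 <;>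
      linarith [h3.1, h3.2, h4.1, h4.2, h7.1, h7.2]

theorem not_tl_birth (hc : M.Conn C P Z) (hℓς : 2 * ℓ ≤ ς)
    {i j : J} (hi : i ∈ P) (hj : j ∈ P) (hij : i ≠ j) {t t' : ℝ} (ht : t ∈ Icc 0 M.T)
    (h : M.VCt C P i j t Z) (ht' : t' ∈ Icc 0 M.T) (h' : M.VCt C P i j t' Z) (k : J)
    (h1 : t ≤ M.b k) (h2 : M.b k ≤ t') : ¬ M.TreeLike C ℓ ς P Z :=
  fun hT => not_birth_between hT hc hℓς hi hj hij ht h ht' h' k ⟨h1, h2⟩

/-- No contact at a birth time (`ℓ ≤ ς`), at `0` or at `T`. -/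
theorem not_tl_at_birth {i j : J} (hi : i ∈ P) (hj : j ∈ P) (hij : i ≠ j) (hℓς : ℓ ≤ ς)
    {t : ℝ} (ht : t ∈ Icc 0 M.T) (h : M.VCt C P i j t Z)
    (hb : t = 0 ∨ t = M.T ∨ ∃ k, t = M.b k) : ¬ M.TreeLike C ℓ ς P Z := by
  intro hT
  rcases hb with hb | hb | ⟨k, hb⟩
  · have h1 := (sep_births hT hi hj hij ⟨ht, h⟩ i).2.1
    linarith
  · have h1 := (sep_births hT hi hj hij ⟨ht, h⟩ i).2.2
    linarith
  · have h1 := (sep_births hT hi hj hij ⟨ht, h⟩ k).1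
    rw [hb, sub_self, abs_zero] at h1
    linarith

/-- **Two exits of one part** (`S` connected): the group `Y₁` of the exit `p` and the group `Y₂` of
the exit `q`, each connected by contacts outside `S`, are disjoint, and there is no contact between
them except of the pair `(p, q)`. -/
theorem two_exits {S Y₁ Y₂ : Finset J} (hT : M.TreeLike C ℓ ς P Z) (hc : M.Conn C P Z)
    (hSP : S ⊆ P) (hYP₁ : Y₁ ⊆ P) (hYP₂ : Y₂ ⊆ P) (hS : M.Conn C S Z)
    (hY₁ : CutConn Y₁ (outR M C P Z S)) (hY₂ : CutConn Y₂ (outR M C P Z S)) {p q : J}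
    (hpS : p ∈ S) (hpY : p ∈ Y₁) (hqS : q ∈ S) (hqY : q ∈ Y₂) (hpq : p ≠ q) :
    Disjoint Y₁ Y₂ ∧ ∀ x ∈ Y₁, ∀ y ∈ Y₂, ∀ t ∈ Icc 0 M.T, M.VCt C P x y t Z → x = p ∧ y = q := by
  have h1 : ∀ x ∈ Y₁, x ∈ S → x = p := fun x hx hxS =>
    eq_of_link hT hc hSP hYP₁ hS hY₁ hxS hx hpS hpY
  have h2 : ∀ x ∈ Y₂, x ∈ S → x = q := fun x hx hxS =>
    eq_of_link hT hc hSP hYP₂ hS hY₂ hxS hx hqS hqY
  constructor
  · rw [Finset.disjoint_left]
    intro x hx hx'
    have h3 : CutConn (Y₁ ∪ Y₂) (outR M C P Z S) :=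
      hY₁.union hY₂ ⟨x, Finset.mem_inter.2 ⟨hx, hx'⟩⟩
    exact hpq (eq_of_link hT hc hSP (Finset.union_subset hYP₁ hYP₂) hS h3 hpS
      (Finset.mem_union_left _ hpY) hqS (Finset.mem_union_right _ hqY))
  · intro x hx y hy t ht h
    by_cases hxy : x ∈ S ∧ y ∈ S
    · exact ⟨h1 x hx hxy.1, h2 y hy hxy.2⟩
    · exfalso
      have h3 : CutConn (Y₁ ∪ Y₂) (outR M C P Z S) :=
        hY₁.union_of_edge hY₂ hx hy (Or.inl ⟨by tauto, t, ht, h⟩)
      exact hpq (eq_of_link hT hc hSP (Finset.union_subset hYP₁ hYP₂) hS h3 hpS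
        (Finset.mem_union_left _ hpY) hqS (Finset.mem_union_right _ hqY))

/-- **Return to another member of the part**: `Y` is the group of the exit `p` (connected by
contacts outside `S`); a contact of a member `x` of `Y` with a member `k ≠ p` of `S` is a contact of
`p` and `k`. -/
theorem ret_member {S Y : Finset J} (hT : M.TreeLike C ℓ ς P Z) (hc : M.Conn C P Z)
    (hSP : S ⊆ P) (hYP : Y ⊆ P) (hS : M.Conn C S Z)
    (hY : CutConn Y (outR M C P Z S)) {p k x : J}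
    (hpS : p ∈ S) (hpY : p ∈ Y) (hk : k ∈ S) (hkp : k ≠ p) (hx : x ∈ Y) {t : ℝ}
    (ht : t ∈ Icc 0 M.T) (h : M.VCt C P x k t Z) : x = p := by
  by_contra hxp
  have hxS : x ∉ S := fun h' => hxp (eq_of_link hT hc hSP hYP hS hY h' hx hpS hpY)
  have h3 : CutConn (Y ∪ {k}) (outR M C P Z S) :=
    hY.union_of_edge (cutConn_singleton k _) hx (Finset.mem_singleton_self k)
      (Or.inl ⟨Or.inl hxS, t, ht, h⟩)
  exact hkp (eq_of_link hT hc hSP (Finset.union_subset hYP (by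
    rw [Finset.singleton_subset_iff]; exact hSP hk)) hS h3 hk
      (Finset.mem_union_right _ (Finset.mem_singleton_self k)) hpS (Finset.mem_union_left _ hpY))

end

end Crest.Agent.R122.LNg410
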