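import Crest.Agent.R122.Causal_291
import Crest.Prelude.Def_KineticLimit

/-!
# Causal-past calculus (row 122, block F4), dynamical part

Worlds are families of paths `z : ℝ → ι → PhasePoint` over finite index types. The only dynamical
input is local uniqueness (`LocUniq`): a group which is isolated in both worlds on a time interval
and starts from the same states has the same states during the interval.

* `agree_of_antitone`: the base lemma.
* `compare`: comparison of a backward cluster in two worlds (autonomy and factorisation).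
* `Fut`, `agree_of_not_fut`: the difference between two worlds spreads through contacts.
* `touch_of_past_ne`: real/ghost touch dichotomy.
-/

set_option autoImplicit false

open Set Filter Topology
open Crest.AnalysisR.Kinetic

namespace Crest.Agent.R122.Causal291

/-- `j` and `k` are in contact at time `s` in the world `z`. -/
def Ct {ι : Type*} (z : ℝ → ι → PhasePoint) (ε : ℝ) (s : ℝ) (j k : ι) : Prop :=
  dist (z s j).1 (z s k).1 ≤ ε

theorem Ct.symm {ι : Type*} {z : ℝ → ι → PhasePoint} {ε : ℝ} {s : ℝ} {j k : ι}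
    (h : Ct z ε s j k) : Ct z ε s k j := by rwa [Ct, dist_comm]

theorem ct_comm {ι : Type*} {z : ℝ → ι → PhasePoint} {ε : ℝ} {s : ℝ} {j k : ι} :
    Ct z ε s j k ↔ Ct z ε s k j := ⟨Ct.symm, Ct.symm⟩

/-- Local uniqueness for a pair of worlds on `[0, T]`: a group (embedded in both index types) which
keeps distance at least `ε` from all other particles in both worlds on `[a, b]` and has the same
states at time `a` has the same states on `[a, b]`. -/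
def LocUniq {ι₁ ι₂ : Type*} (ε T : ℝ) (z₁ : ℝ → ι₁ → PhasePoint) (z₂ : ℝ → ι₂ → PhasePoint) :
    Prop :=
  ∀ (κ : Type) [Finite κ] (e₁ : κ → ι₁) (e₂ : κ → ι₂) (a b : ℝ), Function.Injective e₁ →
    Function.Injective e₂ → 0 ≤ a → a ≤ b → b ≤ T →
    (∀ s ∈ Icc a b, ∀ k, ∀ j ∉ range e₁, ε ≤ dist (z₁ s (e₁ k)).1 (z₁ s j).1) →
    (∀ s ∈ Icc a b, ∀ k, ∀ j ∉ range e₂, ε ≤ dist (z₂ s (e₂ k)).1 (z₂ s j).1) →
    (∀ k, z₁ a (e₁ k) = z₂ a (e₂ k)) → ∀ s ∈ Icc a b, ∀ k, z₁ s (e₁ k) = z₂ s (e₂ k)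

theorem LocUniq.symm {ι₁ ι₂ : Type*} {ε T : ℝ} {z₁ : ℝ → ι₁ → PhasePoint}
    {z₂ : ℝ → ι₂ → PhasePoint} (h : LocUniq ε T z₁ z₂) : LocUniq ε T z₂ z₁ := by
  intro κ _ e₁ e₂ a b he₁ he₂ ha hab hb h1 h2 h0 s hs k
  exact (h κ e₂ e₁ a b he₂ he₁ ha hab hb h2 h1 (fun k => (h0 k).symm) s hs k).symm

section base

variable {ι₁ ι₂ κ : Type} [Finite ι₁] [Finite ι₂] [Finite κ]
variable {z₁ : ℝ → ι₁ → PhasePoint} {z₂ : ℝ → ι₂ → PhasePoint} {e₁ : κ → ι₁} {e₂ : κ → ι₂}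
variable {ε T : ℝ}

/-- Strict isolation at one time persists for a short time. -/
theorem exists_isolated {ι : Type} [Finite ι] {z : ℝ → ι → PhasePoint}
    (hz : ∀ j, ContinuousOn (fun s => z s j) (Icc 0 T)) {s : ℝ} (hs : s ∈ Ico 0 T)
    (A B : Set ι) (h : ∀ k ∈ A, ∀ j ∈ B, ε < dist (z s k).1 (z s j).1) :
    ∃ δ > 0, s + δ ≤ T ∧ ∀ s' ∈ Icc s (s + δ), ∀ k ∈ A, ∀ j ∈ B,
      ε < dist (z s' k).1 (z s' j).1 := by
  have hsI : s ∈ Icc 0 T := ⟨hs.1, hs.2.le⟩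
  have h1 : ∀ k j, k ∈ A → j ∈ B → ∀ᶠ s' in 𝓝[Icc 0 T] s, ε < dist (z s' k).1 (z s' j).1 := by
    intro k j hk hj
    have hc : ContinuousWithinAt (fun s' => dist (z s' k).1 (z s' j).1) (Icc 0 T) s :=
      ((hz k s hsI).fst).dist ((hz j s hsI).fst)
    exact hc.eventually (lt_mem_nhds (h k hk j hj))
  have h2 : ∀ᶠ s' in 𝓝[Icc 0 T] s, ∀ p : ι × ι, p.1 ∈ A → p.2 ∈ B →
      ε < dist (z s' p.1).1 (z s' p.2).1 := by
    rw [Filter.eventually_all]
    intro p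
    by_cases hp : p.1 ∈ A ∧ p.2 ∈ B
    · exact (h1 p.1 p.2 hp.1 hp.2).mono fun s' h _ _ => h
    · exact Eventually.of_forall fun s' hA hB => absurd ⟨hA, hB⟩ hp
  rw [eventually_nhdsWithin_iff, Metric.eventually_nhds_iff] at h2
  obtain ⟨δ, hδ, h2⟩ := h2
  refine ⟨min (δ / 2) (T - s), lt_min (by positivity) (by linarith [hs.2]), ?_, ?_⟩
  · linarith [min_le_right (δ / 2) (T - s)]
  · intro s' hs' k hk j hj
    have h3 : s' ≤ s + δ / 2 := hs'.2.trans (by linarith [min_le_left (δ / 2) (T - s)])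
    have h4 : s' ≤ T := hs'.2.trans (by linarith [min_le_right (δ / 2) (T - s)])
    refine h2 ?_ ⟨hs.1.trans hs'.1, h4⟩ (k, j) hk hj
    rw [Real.dist_eq, abs_lt]
    constructor <;> linarith [hs'.1]

/-- Base lemma: an antitone family of groups, equal at time `0`, and strictly isolated in both
worlds at every time up to which equality is known, consists of particles with equal states. -/
theorem agree_of_antitone
    (hz₁ : ∀ j, ContinuousOn (fun s => z₁ s j) (Icc 0 T))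
    (hz₂ : ∀ j, ContinuousOn (fun s => z₂ s j) (Icc 0 T))
    (hloc : LocUniq ε T z₁ z₂) (he₁ : Function.Injective e₁) (he₂ : Function.Injective e₂)
    (G : ℝ → Set κ) (hG : ∀ s s', 0 ≤ s → s ≤ s' → s' ≤ T → G s' ⊆ G s)
    (h0 : ∀ k ∈ G 0, z₁ 0 (e₁ k) = z₂ 0 (e₂ k))
    (hiso : ∀ s ∈ Ico 0 T, (∀ s' ∈ Icc 0 s, ∀ k ∈ G s', z₁ s' (e₁ k) = z₂ s' (e₂ k)) →
      (∀ k ∈ G s, ∀ j, j ∉ e₁ '' G s → ε < dist (z₁ s (e₁ k)).1 (z₁ s j).1) ∧
      (∀ k ∈ G s, ∀ j, j ∉ e₂ '' G s → ε < dist (z₂ s (e₂ k)).1 (z₂ s j).1)) :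
    ∀ s ∈ Icc 0 T, ∀ k ∈ G s, z₁ s (e₁ k) = z₂ s (e₂ k) := by
  rcases lt_or_ge T 0 with hT | hT
  · intro s hs
    exact absurd (hs.1.trans hs.2) (not_le.2 hT)
  set E : Set ℝ := {s | ∀ s' ∈ Icc 0 s, ∀ k ∈ G s', z₁ s' (e₁ k) = z₂ s' (e₂ k)} with hE
  have hmain : Icc 0 T ⊆ E := by
    refine IsClosed.Icc_subset_of_forall_exists_gt ?_ ?_ ?_
    · -- closed
      rw [← isSeqClosed_iff_isClosed]
      intro u σ hu hlim
      have hσ : σ ∈ Icc 0 T := isClosed_Icc.mem_of_tendsto hlim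
        (Eventually.of_forall fun n => (hu n).2)
      refine ⟨?_, hσ⟩
      intro s' hs' k hk
      rcases lt_or_eq_of_le hs'.2 with h1 | h1
      · obtain ⟨n, hn⟩ := (hlim.eventually (lt_mem_nhds h1)).exists
        exact (hu n).1 s' ⟨hs'.1, hn.le⟩ k hk
      · subst h1
        by_cases h2 : ∃ n, s' ≤ u n
        · obtain ⟨n, hn⟩ := h2
          exact (hu n).1 s' ⟨hs'.1, hn⟩ k hk
        · push Not at h2
          have h3 : ∀ n, z₁ (u n) (e₁ k) = z₂ (u n) (e₂ k) := fun n =>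
            (hu n).1 (u n) ⟨(hu n).2.1, le_rfl⟩ k
              (hG (u n) s' (hu n).2.1 (h2 n).le hσ.2 hk)
          have hlim' : Tendsto u atTop (𝓝[Icc 0 T] s') :=
            tendsto_nhdsWithin_iff.2 ⟨hlim, Eventually.of_forall fun n => (hu n).2⟩
          have h4 : Tendsto (fun n => z₁ (u n) (e₁ k)) atTop (𝓝 (z₁ s' (e₁ k))) :=
            (hz₁ (e₁ k) s' hσ).tendsto.comp hlim'
          have h5 : Tendsto (fun n => z₂ (u n) (e₂ k)) atTop (𝓝 (z₂ s' (e₂ k))) :=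
            (hz₂ (e₂ k) s' hσ).tendsto.comp hlim'
          simp only [h3] at h4
          exact tendsto_nhds_unique h4 h5
    · intro s' hs' k hk
      have : s' = 0 := le_antisymm hs'.2 hs'.1
      subst this
      exact h0 k hk
    · intro s hs y hy
      obtain ⟨h1, h2⟩ := hiso s hs.2 hs.1
      obtain ⟨δ₁, hδ₁, hδ₁T, hi₁⟩ := exists_isolated (ε := ε) hz₁ hs.2 (e₁ '' G s) (e₁ '' G s)ᶜ
        (by rintro _ ⟨k, hk, rfl⟩ j hj; exact h1 k hk j hj)
      obtain ⟨δ₂, hδ₂, hδ₂T, hi₂⟩ := exists_isolated (ε := ε) hz₂ hs.2 (e₂ '' G s) (e₂ '' G s)ᶜ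
        (by rintro _ ⟨k, hk, rfl⟩ j hj; exact h2 k hk j hj)
      set δ := min (min δ₁ δ₂) (y - s) with hδ
      have hδ0 : 0 < δ := lt_min (lt_min hδ₁ hδ₂) (sub_pos.2 hy)
      have hδle₁ : δ ≤ δ₁ := (min_le_left _ _).trans (min_le_left _ _)
      have hδle₂ : δ ≤ δ₂ := (min_le_left _ _).trans (min_le_right _ _)
      have hδy : δ ≤ y - s := min_le_right _ _
      have hsG : ∀ k : G s, z₁ s (e₁ k) = z₂ s (e₂ k) := fun k =>
        hs.1 s ⟨hs.2.1, le_rfl⟩ k k.2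
      have hmem₁ : ∀ k : G s, e₁ (k : κ) ∈ e₁ '' G s := fun k => ⟨k, k.2, rfl⟩
      have hmem₂ : ∀ k : G s, e₂ (k : κ) ∈ e₂ '' G s := fun k => ⟨k, k.2, rfl⟩
      have key := hloc (G s) (fun k => e₁ k) (fun k => e₂ k) s (s + δ)
        (fun k l h => Subtype.ext (he₁ h)) (fun k l h => Subtype.ext (he₂ h)) hs.2.1
        (by linarith) (by linarith)
        (fun s' hs' k j hj => (hi₁ s' ⟨hs'.1, hs'.2.trans (by linarith)⟩ _ (hmem₁ k) j (by
          rintro ⟨l, hl, rfl⟩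
          exact hj ⟨⟨l, hl⟩, rfl⟩)).le)
        (fun s' hs' k j hj => (hi₂ s' ⟨hs'.1, hs'.2.trans (by linarith)⟩ _ (hmem₂ k) j (by
          rintro ⟨l, hl, rfl⟩
          exact hj ⟨⟨l, hl⟩, rfl⟩)).le) hsG
      refine ⟨s + δ, ?_, ⟨by linarith, by linarith⟩⟩
      intro s' hs' k hk
      rcases le_total s' s with h3 | h3
      · exact hs.1 s' ⟨hs'.1, h3⟩ k hk
      · have hkG : k ∈ G s := hG s s' hs.2.1 h3 (hs'.2.trans (by linarith)) hk
        exact key s' ⟨h3, hs'.2⟩ ⟨k, hkG⟩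
  intro s hs k hk
  exact hmain hs s ⟨hs.1, le_rfl⟩ k hk

end base

/-! ### Comparison of backward clusters -/

section compare

variable {ι₁ ι₂ κ : Type} [Finite ι₁] [Finite ι₂] [Finite κ]
variable {z₁ : ℝ → ι₁ → PhasePoint} {z₂ : ℝ → ι₂ → PhasePoint} {e₁ : κ → ι₁} {e₂ : κ → ι₂}
variable {ε T : ℝ}

/-- The active set (as a subset of the common part) of the exploration from `(e₁ i, t)` in the
world `z₁`. -/
def ActC (z₁ : ℝ → ι₁ → PhasePoint) (e₁ : κ → ι₁) (ε t : ℝ) (i : κ) (s : ℝ) : Set κ :=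
  {k | Past (Ct z₁ ε) t (e₁ i) s (e₁ k)}

/-- **Comparison of a backward cluster in two worlds.** Let the backward cluster of `(i, t)` in the
world `z₁` be contained in the common part, with equal initial states. Assume that in the world `z₂`
every particle which is not active at time `s` is at distance more than `ε` from all positions of
`z₁`-active particles at time `s`. Then the active particles have the same states in both worlds and
the explorations coincide. -/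
theorem compare (hz₁ : ∀ j, ContinuousOn (fun s => z₁ s j) (Icc 0 T))
    (hz₂ : ∀ j, ContinuousOn (fun s => z₂ s j) (Icc 0 T))
    (hloc : LocUniq ε T z₁ z₂) (he₁ : Function.Injective e₁) (he₂ : Function.Injective e₂)
    {t : ℝ} (ht : t ∈ Icc 0 T) (i : κ)
    (hcl : BC (Ct z₁ ε) t (e₁ i) ⊆ range e₁)
    (h0 : ∀ k ∈ ActC z₁ e₁ ε t i 0, z₁ 0 (e₁ k) = z₂ 0 (e₂ k))
    (hav : ∀ s ∈ Icc 0 t, ∀ k ∈ ActC z₁ e₁ ε t i s, ∀ j, j ∉ e₂ '' ActC z₁ e₁ ε t i s →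
      ε < dist (z₁ s (e₁ k)).1 (z₂ s j).1) :
    (∀ s ∈ Icc 0 t, ∀ k ∈ ActC z₁ e₁ ε t i s, z₁ s (e₁ k) = z₂ s (e₂ k)) ∧
    (∀ s ∈ Icc 0 t, Act (Ct z₂ ε) t (e₂ i) s = e₂ '' ActC z₁ e₁ ε t i s) := by
  have hsub : Icc 0 t ⊆ Icc 0 T := Icc_subset_Icc_right ht.2
  have hloc' : LocUniq ε t z₁ z₂ := by
    intro κ' _ f₁ f₂ a b hf₁ hf₂ ha hab hb
    exact hloc κ' f₁ f₂ a b hf₁ hf₂ ha hab (hb.trans ht.2)
  have hrange : ∀ s, 0 ≤ s → ∀ j, Past (Ct z₁ ε) t (e₁ i) s j → j ∈ range e₁ :=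
    fun s hs j hj => hcl (hj.mono hs)
  have hagree : ∀ s ∈ Icc 0 t, ∀ k ∈ ActC z₁ e₁ ε t i s, z₁ s (e₁ k) = z₂ s (e₂ k) := by
    refine agree_of_antitone (fun j => (hz₁ j).mono hsub) (fun j => (hz₂ j).mono hsub) hloc' he₁ he₂
      (fun s => ActC z₁ e₁ ε t i s) (fun s s' _ hss' _ k hk => Past.mono hk hss') h0 ?_
    intro s hs hpast
    have hsI : s ∈ Icc 0 t := ⟨hs.1, hs.2.le⟩
    constructor
    · intro k hk j hj
      by_contra hle
      push Not at hle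
      have h1 : Past (Ct z₁ ε) t (e₁ i) s j := Past.contact hk hle
      obtain ⟨l, rfl⟩ := hrange s hs.1 j h1
      exact hj ⟨l, h1, rfl⟩
    · intro k hk j hj
      rw [← hpast s ⟨hs.1, le_rfl⟩ k hk]
      exact hav s hsI k hk j hj
  refine ⟨hagree, fun s hs => ?_⟩
  apply Subset.antisymm
  · -- `⊆`: closedness of the family
    have hcl2 : ∀ s', 0 ≤ s' → Act (Ct z₂ ε) t (e₂ i) s' ⊆ e₂ '' ActC z₁ e₁ ε t i s' := by
      intro s' hs'
      refine Act_subset_of_closed (s₀ := 0) (G := fun s => e₂ '' ActC z₁ e₁ ε t i s) ?_ ?_ ?_ hs'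
      · intro r _ hrt
        exact ⟨i, .root hrt, rfl⟩
      · rintro r r' _ hrr' _ _ ⟨k, hk, rfl⟩
        exact ⟨k, Past.mono hk hrr', rfl⟩
      · rintro r _ l hr hrt ⟨k, hk, rfl⟩ hc
        by_contra hl
        have h1 := hav r ⟨hr, hrt⟩ k hk l hl
        rw [hagree r ⟨hr, hrt⟩ k hk] at h1
        exact absurd hc (not_le.2 h1)
    exact hcl2 s hs.1
  · rintro _ ⟨k, hk, rfl⟩
    -- `⊇`: induction on the exploration in the first world
    have gen : ∀ (s : ℝ) (j : ι₁), Past (Ct z₁ ε) t (e₁ i) s j → 0 ≤ s →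
        ∀ k, e₁ k = j → Past (Ct z₂ ε) t (e₂ i) s (e₂ k) := by
      intro s j h
      induction h with
      | root h =>
        intro _ k hk
        rw [he₁ hk]
        exact .root h
      | @step s s' j l h hc hss' ih =>
        intro hs0 k hk
        subst hk
        have hs'0 : 0 ≤ s' := hs0.trans hss'
        obtain ⟨m, rfl⟩ := hrange s' hs'0 j h
        have hm := ih hs'0 m rfl
        have hs't : s' ≤ t := h.le
        refine .step hm ?_ hss'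
        have hm1 : m ∈ ActC z₁ e₁ ε t i s' := h
        have hk1 : k ∈ ActC z₁ e₁ ε t i s' := Past.contact h hc
        change dist (z₂ s' (e₂ m)).1 (z₂ s' (e₂ k)).1 ≤ ε
        rw [← hagree s' ⟨hs'0, hs't⟩ m hm1, ← hagree s' ⟨hs'0, hs't⟩ k hk1]
        exact hc
    exact gen s (e₁ k) hk hs.1 k rfl

/-- Consequence of `compare`: states agree on the whole protected history. -/
theorem compare_history (hz₁ : ∀ j, ContinuousOn (fun s => z₁ s j) (Icc 0 T))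
    (hz₂ : ∀ j, ContinuousOn (fun s => z₂ s j) (Icc 0 T))
    (hloc : LocUniq ε T z₁ z₂) (he₁ : Function.Injective e₁) (he₂ : Function.Injective e₂)
    {t : ℝ} (ht : t ∈ Icc 0 T) (i : κ)
    (hcl : BC (Ct z₁ ε) t (e₁ i) ⊆ range e₁)
    (h0 : ∀ k ∈ ActC z₁ e₁ ε t i 0, z₁ 0 (e₁ k) = z₂ 0 (e₂ k))
    (hav : ∀ s ∈ Icc 0 t, ∀ k ∈ ActC z₁ e₁ ε t i s, ∀ j, j ∉ e₂ '' ActC z₁ e₁ ε t i s →
      ε < dist (z₁ s (e₁ k)).1 (z₂ s j).1) :
    (∀ s k, Past (Ct z₁ ε) t (e₁ i) s (e₁ k) → ∀ s' ∈ Icc 0 s, z₁ s' (e₁ k) = z₂ s' (e₂ k)) ∧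
    BC (Ct z₂ ε) t (e₂ i) = e₂ '' ActC z₁ e₁ ε t i 0 := by
  obtain ⟨h1, h2⟩ := compare hz₁ hz₂ hloc he₁ he₂ ht i hcl h0 hav
  refine ⟨fun s k hk s' hs' => h1 s' ⟨hs'.1, hs'.2.trans hk.le⟩ k (Past.mono hk hs'.2), ?_⟩
  exact h2 0 ⟨le_rfl, ht.1⟩

/-- **Touch dichotomy.** If the backward cluster of `(i, t)` in the world `z₁` is contained in the
common part, with equal initial states, then either the protected history is the same in the world
`z₂` (states and explorations), or at some time `s ≤ t` some particle of `z₂` which is not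
`z₁`-active comes within `ε` of the `z₁`-position of an active particle. -/
theorem compare_or_touch (hz₁ : ∀ j, ContinuousOn (fun s => z₁ s j) (Icc 0 T))
    (hz₂ : ∀ j, ContinuousOn (fun s => z₂ s j) (Icc 0 T))
    (hloc : LocUniq ε T z₁ z₂) (he₁ : Function.Injective e₁) (he₂ : Function.Injective e₂)
    {t : ℝ} (ht : t ∈ Icc 0 T) (i : κ)
    (hcl : BC (Ct z₁ ε) t (e₁ i) ⊆ range e₁)
    (h0 : ∀ k ∈ ActC z₁ e₁ ε t i 0, z₁ 0 (e₁ k) = z₂ 0 (e₂ k)) :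
    ((∀ s ∈ Icc 0 t, ∀ k ∈ ActC z₁ e₁ ε t i s, z₁ s (e₁ k) = z₂ s (e₂ k)) ∧
      (∀ s ∈ Icc 0 t, Act (Ct z₂ ε) t (e₂ i) s = e₂ '' ActC z₁ e₁ ε t i s)) ∨
    ∃ s ∈ Icc 0 t, ∃ k ∈ ActC z₁ e₁ ε t i s, ∃ j, j ∉ e₂ '' ActC z₁ e₁ ε t i s ∧
      dist (z₁ s (e₁ k)).1 (z₂ s j).1 ≤ ε ∧
      ∀ l, j = e₂ l → z₁ s (e₁ l) ≠ z₂ s (e₂ l) := by
  by_cases hav : ∀ s ∈ Icc 0 t, ∀ k ∈ ActC z₁ e₁ ε t i s, ∀ j, j ∉ e₂ '' ActC z₁ e₁ ε t i s →
      ε < dist (z₁ s (e₁ k)).1 (z₂ s j).1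
  · exact Or.inl (compare hz₁ hz₂ hloc he₁ he₂ ht i hcl h0 hav)
  · right
    push Not at hav
    obtain ⟨s, hs, k, hk, j, hj, hd⟩ := hav
    refine ⟨s, hs, k, hk, j, hj, hd, ?_⟩
    rintro l rfl heq
    refine hj ⟨l, ?_, rfl⟩
    have : Ct z₁ ε s (e₁ k) (e₁ l) := by
      change dist (z₁ s (e₁ k)).1 (z₁ s (e₁ l)).1 ≤ ε
      rw [heq]; exact hd
    exact Past.contact hk this

end compare

/-! ### Spreading of the difference of two worlds -/

section spread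

variable {ι₁ ι₂ κ : Type}

/-- Forward causal closure of the sources: a common particle `k` is in the closure at time `s` if it
has different initial states in the two worlds, or if before `s` it has been in contact, in one of
the two worlds, with a particle which is not common, or with a particle already in the closure. -/
inductive Fut (z₁ : ℝ → ι₁ → PhasePoint) (z₂ : ℝ → ι₂ → PhasePoint) (e₁ : κ → ι₁) (e₂ : κ → ι₂)
    (ε : ℝ) : ℝ → κ → Prop
  | init {s : ℝ} {k : κ} (h : z₁ 0 (e₁ k) ≠ z₂ 0 (e₂ k)) (hs : 0 ≤ s) : Fut z₁ z₂ e₁ e₂ ε s k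
  | new₁ {s s' : ℝ} {k : κ} (j : ι₁) (hj : j ∉ range e₁) (hc : Ct z₁ ε s' j (e₁ k)) (h0 : 0 ≤ s')
      (hs : s' ≤ s) : Fut z₁ z₂ e₁ e₂ ε s k
  | new₂ {s s' : ℝ} {k : κ} (j : ι₂) (hj : j ∉ range e₂) (hc : Ct z₂ ε s' j (e₂ k)) (h0 : 0 ≤ s')
      (hs : s' ≤ s) : Fut z₁ z₂ e₁ e₂ ε s k
  | chain₁ {s s' : ℝ} {k l : κ} (h : Fut z₁ z₂ e₁ e₂ ε s' l) (hc : Ct z₁ ε s' (e₁ l) (e₁ k))
      (hs : s' ≤ s) : Fut z₁ z₂ e₁ e₂ ε s k
  | chain₂ {s s' : ℝ} {k l : κ} (h : Fut z₁ z₂ e₁ e₂ ε s' l) (hc : Ct z₂ ε s' (e₂ l) (e₂ k))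
      (hs : s' ≤ s) : Fut z₁ z₂ e₁ e₂ ε s k

variable {z₁ : ℝ → ι₁ → PhasePoint} {z₂ : ℝ → ι₂ → PhasePoint} {e₁ : κ → ι₁} {e₂ : κ → ι₂}
variable {ε T : ℝ}

theorem Fut.mono {s s' : ℝ} {k : κ} (h : Fut z₁ z₂ e₁ e₂ ε s k) (hs : s ≤ s') :
    Fut z₁ z₂ e₁ e₂ ε s' k := by
  cases h with
  | init h h' => exact .init h (h'.trans hs)
  | new₁ j hj hc h0 h => exact .new₁ j hj hc h0 (h.trans hs)
  | new₂ j hj hc h0 h => exact .new₂ j hj hc h0 (h.trans hs)
  | chain₁ h hc h' => exact .chain₁ h hc (h'.trans hs)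
  | chain₂ h hc h' => exact .chain₂ h hc (h'.trans hs)

theorem Fut.nonneg {s : ℝ} {k : κ} (h : Fut z₁ z₂ e₁ e₂ ε s k) : 0 ≤ s := by
  induction h with
  | init h h' => exact h'
  | new₁ j hj hc h0 h => exact h0.trans h
  | new₂ j hj hc h0 h => exact h0.trans h
  | chain₁ h hc h' ih => exact ih.trans h'
  | chain₂ h hc h' ih => exact ih.trans h'

theorem Fut.symm {s : ℝ} {k : κ} (h : Fut z₁ z₂ e₁ e₂ ε s k) : Fut z₂ z₁ e₂ e₁ ε s k := by
  induction h with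
  | init h h' => exact .init h.symm h'
  | new₁ j hj hc h0 h => exact .new₂ j hj hc h0 h
  | new₂ j hj hc h0 h => exact .new₁ j hj hc h0 h
  | chain₁ h hc h' ih => exact .chain₂ ih hc h'
  | chain₂ h hc h' ih => exact .chain₁ ih hc h'

/-- **Spreading of differences.** A common particle outside the forward causal closure of the
sources has the same state in both worlds. -/
theorem agree_of_not_fut [Finite ι₁] [Finite ι₂] [Finite κ]
    (hz₁ : ∀ j, ContinuousOn (fun s => z₁ s j) (Icc 0 T))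
    (hz₂ : ∀ j, ContinuousOn (fun s => z₂ s j) (Icc 0 T))
    (hloc : LocUniq ε T z₁ z₂) (he₁ : Function.Injective e₁) (he₂ : Function.Injective e₂)
    {s : ℝ} (hs : s ∈ Icc 0 T) {k : κ} (hk : ¬ Fut z₁ z₂ e₁ e₂ ε s k) :
    z₁ s (e₁ k) = z₂ s (e₂ k) := by
  refine agree_of_antitone hz₁ hz₂ hloc he₁ he₂ (fun s => {k | ¬ Fut z₁ z₂ e₁ e₂ ε s k})
    (fun s s' _ hss' _ k hk h => hk (h.mono hss')) ?_ ?_ s hs k hk
  · intro k hk
    by_contra h
    exact hk (.init h le_rfl)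
  · intro s hs _
    constructor
    · intro k hk j hj
      by_contra hle
      push Not at hle
      have hc : Ct z₁ ε s j (e₁ k) := Ct.symm hle
      by_cases hjr : j ∈ range e₁
      · obtain ⟨l, rfl⟩ := hjr
        by_cases hl : Fut z₁ z₂ e₁ e₂ ε s l
        · exact hk (.chain₁ hl hc le_rfl)
        · exact hj ⟨l, hl, rfl⟩
      · exact hk (.new₁ j hjr hc hs.1 le_rfl)
    · intro k hk j hj
      by_contra hle
      push Not at hle
      have hc : Ct z₂ ε s j (e₂ k) := Ct.symm hle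
      by_cases hjr : j ∈ range e₂
      · obtain ⟨l, rfl⟩ := hjr
        by_cases hl : Fut z₁ z₂ e₁ e₂ ε s l
        · exact hk (.chain₂ hl hc le_rfl)
        · exact hj ⟨l, hl, rfl⟩
      · exact hk (.new₂ j hjr hc hs.1 le_rfl)

/-- The history of a particle up to time `s` is the same in both worlds if the particle is outside
the forward causal closure at time `s`. -/
theorem agree_history_of_not_fut [Finite ι₁] [Finite ι₂] [Finite κ]
    (hz₁ : ∀ j, ContinuousOn (fun s => z₁ s j) (Icc 0 T))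
    (hz₂ : ∀ j, ContinuousOn (fun s => z₂ s j) (Icc 0 T))
    (hloc : LocUniq ε T z₁ z₂) (he₁ : Function.Injective e₁) (he₂ : Function.Injective e₂)
    {s : ℝ} (hs : s ≤ T) {k : κ} (hk : ¬ Fut z₁ z₂ e₁ e₂ ε s k) {s' : ℝ} (hs' : s' ∈ Icc 0 s) :
    z₁ s' (e₁ k) = z₂ s' (e₂ k) :=
  agree_of_not_fut hz₁ hz₂ hloc he₁ he₂ ⟨hs'.1, hs'.2.trans hs⟩ fun h => hk (h.mono hs'.2)

/-- **The backward cluster is unchanged unless it meets the forward closure.** If no particle active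
in `z₁` (from `(i, t)`) is outside the common part or in the forward closure, then states and
explorations are the same in both worlds. -/
theorem past_eq_of_disjoint [Finite ι₁] [Finite ι₂] [Finite κ]
    (hz₁ : ∀ j, ContinuousOn (fun s => z₁ s j) (Icc 0 T))
    (hz₂ : ∀ j, ContinuousOn (fun s => z₂ s j) (Icc 0 T))
    (hloc : LocUniq ε T z₁ z₂) (he₁ : Function.Injective e₁) (he₂ : Function.Injective e₂)
    {t : ℝ} (ht : t ∈ Icc 0 T) {i : κ}
    (hi : ∀ s ∈ Icc 0 t, ∀ k, Past (Ct z₁ ε) t (e₁ i) s (e₁ k) → ¬ Fut z₁ z₂ e₁ e₂ ε s k)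
    (hcl : BC (Ct z₁ ε) t (e₁ i) ⊆ range e₁) :
    (∀ s ∈ Icc 0 t, ∀ k ∈ ActC z₁ e₁ ε t i s, z₁ s (e₁ k) = z₂ s (e₂ k)) ∧
      (∀ s ∈ Icc 0 t, Act (Ct z₂ ε) t (e₂ i) s = e₂ '' ActC z₁ e₁ ε t i s) := by
  have hag : ∀ s ∈ Icc 0 t, ∀ k ∈ ActC z₁ e₁ ε t i s, z₁ s (e₁ k) = z₂ s (e₂ k) :=
    fun s hs k hk => agree_of_not_fut hz₁ hz₂ hloc he₁ he₂ ⟨hs.1, hs.2.trans ht.2⟩ (hi s hs k hk)
  refine compare hz₁ hz₂ hloc he₁ he₂ ht i hcl (hag 0 ⟨le_rfl, ht.1⟩) ?_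
  intro s hs k hk j hj
  by_contra hle
  push Not at hle
  have hkf := hi s hs k hk
  rw [hag s hs k hk] at hle
  have hc : Ct z₂ ε s j (e₂ k) := Ct.symm hle
  by_cases hjr : j ∈ range e₂
  · obtain ⟨l, rfl⟩ := hjr
    by_cases hl : Fut z₁ z₂ e₁ e₂ ε s l
    · exact hkf (.chain₂ hl hc le_rfl)
    · refine hj ⟨l, ?_, rfl⟩
      have h1 : z₁ s (e₁ l) = z₂ s (e₂ l) :=
        agree_of_not_fut hz₁ hz₂ hloc he₁ he₂ ⟨hs.1, hs.2.trans ht.2⟩ hl
      refine Past.contact hk ?_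
      change dist (z₁ s (e₁ k)).1 (z₁ s (e₁ l)).1 ≤ ε
      rw [h1, hag s hs k hk]
      exact hle
  · exact hkf (.new₂ j hjr hc hs.1 le_rfl)

end spread

end Crest.Agent.R122.Causal291
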