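import Crest.Agent.R122.TreeLines_335
import Crest.Agent.R122.PathCausal_968
import Crest.Agent.R122.LNvs2_410

/-!
# Row 122, LN1, (X1) part A (helper410): exit data of a tree

For tree data `(ℓ, p)` of `P` with `Ord`/`Valid` on `[0, T]`:

* `le_rel` : collision windows are before the release times of both particles.
* `exists_window_rel` : at its release time a particle of a node tree is in the window of its last
  collision.
* `path_rel` : after its release time a particle is on its final line `fin`.
* `cutConn_tree` : the particles of the tree are connected by collision windows.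
-/

set_option autoImplicit false

open MeasureTheory Set Filter Topology
open Crest.AnalysisR.Kinetic
open scoped Classical

noncomputable section

namespace Crest.Agent.R122.LNTree410

open Kin796 Kin796.CTree Disc416 Tree674 PathFlow968 TreeLines335 LNg410

variable {Φ : Space3 → ℝ} {ε : ℝ}

theorem _root_.Crest.Agent.R122.LNg410.CutConn.map {J J' : Type*} {P : Finset J'}
    {R : J' → J' → Prop} (h : CutConn P R) (e : J' ↪ J)
    {R' : J → J → Prop} (hR : ∀ i ∈ P, ∀ j ∈ P, i ≠ j → R i j → R' (e i) (e j) ∨ R' (e j) (e i)) :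
    CutConn (P.map e) R' := by
  refine ⟨h.1.map, fun Q hQ hne hneP => ?_⟩
  obtain ⟨Q', hQ', rfl⟩ := Finset.subset_map_iff.1 hQ
  obtain ⟨i, hi, j, hj, hjQ, h1⟩ := h.2 Q' hQ' (by simpa using hne) (fun h' => hneP (by rw [h']))
  have hij : i ≠ j := fun h' => hjQ (h' ▸ hi)
  refine ⟨e i, Finset.mem_map_of_mem e hi, e j, Finset.mem_map_of_mem e hj,
    fun h' => hjQ ((Finset.mem_map' e).1 h'), ?_⟩
  rcases h1 with h1 | h1
  · exact hR i (hQ' hi) j hj hij h1
  · exact (hR j hj i (hQ' hi) hij.symm h1).symm

/-- Collision windows are before the release times of both particles. -/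
theorem le_rel (hε : 0 ≤ ε) : ∀ (P : CTree) (T : ℝ) (v : Space3) (p : Par P),
    Ord Φ ε P T v p → ∀ (i j : Idx P) (u : ℝ), InWindow Φ ε P v p i j u →
      u ≤ rel P p i ∧ u ≤ rel P p j
  | leaf, _, _, _, _, _, _, _, h => h.elim
  | node l r, T, v, p, ho, i, j, u, h => by
      have h1 := sin_le hε v p.1 (Φ := Φ)
      rcases h with ⟨rfl, rfl, -, hu⟩ | ⟨i', j', rfl, rfl, h⟩ | ⟨i', j', rfl, rfl, h⟩
      · simp only [rel, Sum.elim_inl, Sum.elim_inr, if_true]
        exact ⟨hu, hu⟩
      · have h2 := le_rel hε l _ _ p.2.1 ho.2.2.1 i' j' u h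
        have h3 := (InWindow.mem hε l _ _ p.2.1 ho.2.2.1 i' j' u h).2.le.trans h1
        simp only [rel, Sum.elim_inl]
        constructor
        · split_ifs
          · exact h3
          · exact h2.1
        · split_ifs
          · exact h3
          · exact h2.2
      · have h2 := le_rel hε r _ _ p.2.2 ho.2.2.2 i' j' u h
        have h3 := (InWindow.mem hε r _ _ p.2.2 ho.2.2.2 i' j' u h).2.le.trans h1
        simp only [rel, Sum.elim_inr]
        constructor
        · split_ifs
          · exact h3
          · exact h2.1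
        · split_ifs
          · exact h3
          · exact h2.2

/-- At its release time a particle is in the window of its last collision. -/
theorem exists_window_rel (hε : 0 ≤ ε) : ∀ (P : CTree) (v : Space3) (p : Par P),
    P ≠ leaf → ∀ i : Idx P, ∃ j, j ≠ i ∧
      (InWindow Φ ε P v p i j (rel P p i) ∨ InWindow Φ ε P v p j i (rel P p i))
  | leaf, _, _, h, _ => absurd rfl h
  | node l r, v, p, _, i => by
      have h1 := sin_le hε v p.1 (Φ := Φ)
      rcases i with i | i
      · by_cases hi : i = root l
        · subst hi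
          refine ⟨Sum.inr (root r), Sum.inr_ne_inl, Or.inl (Or.inl ⟨rfl, rfl, ?_, ?_⟩)⟩ <;>
            simp only [rel, Sum.elim_inl, if_true]
          · exact h1
          · exact le_rfl
        · have hl : l ≠ leaf := by
            rintro rfl
            exact hi rfl
          obtain ⟨j, hj, h2⟩ := exists_window_rel hε l (preV Φ v p.1).1 p.2.1 hl i
          have h3 : rel (node l r) p (Sum.inl i) = rel l p.2.1 i := by
            simp only [rel, Sum.elim_inl, if_neg hi]
          refine ⟨Sum.inl j, fun h' => hj (Sum.inl_injective h'), ?_⟩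
          rw [h3, inWindow_inl, inWindow_inl]
          exact h2
      · by_cases hi : i = root r
        · subst hi
          refine ⟨Sum.inl (root l), Sum.inl_ne_inr, Or.inr (Or.inl ⟨rfl, rfl, ?_, ?_⟩)⟩ <;>
            simp only [rel, Sum.elim_inr, if_true]
          · exact h1
          · exact le_rfl
        · have hr : r ≠ leaf := by
            rintro rfl
            exact hi rfl
          obtain ⟨j, hj, h2⟩ := exists_window_rel hε r (preV Φ v p.1).2 p.2.2 hr i
          have h3 : rel (node l r) p (Sum.inr i) = rel r p.2.2 i := by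
            simp only [rel, Sum.elim_inr, if_neg hi]
          refine ⟨Sum.inr j, fun h' => hj (Sum.inr_injective h'), ?_⟩
          rw [h3, inWindow_inr, inWindow_inr]
          exact h2

/-- After its release time a particle is on its final line. -/
theorem path_rel (hε : 0 < ε) : ∀ (P : CTree) (T : ℝ) (ℓ : PhasePoint) (p : Par P),
    Valid Φ ε P T ℓ.2 p → ∀ (i : Idx P) (u : ℝ), rel P p i ≤ u →
      path Φ ε P ℓ p u i = onLine (fin Φ ε P ℓ p i) u
  | leaf, _, _, _, _, _, _, _ => rfl
  | node l r, T, ℓ, p, hv, i, u, hu => by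
      have h1 := sin_lt hε hv.1.1 (Φ := Φ)
      have hl := fun i hu => path_rel hε l _ (inMap Φ ε ℓ p.1).1 p.2.1 (Valid.left hv) i u hu
      have hr := fun i hu => path_rel hε r _ (inMap Φ ε ℓ p.1).2 p.2.2 (Valid.right hv) i u hu
      by_cases hs : u ≤ Tree674.sin Φ ε ℓ.2 p.1
      · rw [path_node_before ℓ p hs]
        simp only [fin]
        rcases i with i | i
        · simp only [rel, Sum.elim_inl] at hu ⊢
          by_cases hi : i = root l
          · rw [if_pos hi] at hu
            exact absurd (hu.trans hs) (not_le.2 h1)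
          · rw [if_neg hi] at hu
            rw [Function.update_of_ne hi, hl i hu]
        · simp only [rel, Sum.elim_inr] at hu ⊢
          by_cases hi : i = root r
          · rw [if_pos hi] at hu
            exact absurd (hu.trans hs) (not_le.2 h1)
          · rw [if_neg hi] at hu
            rw [Function.update_of_ne hi, hr i hu]
      · have hs' : Tree674.sin Φ ε ℓ.2 p.1 < u := not_le.1 hs
        have hp : path Φ ε (node l r) ℓ p u = Sum.elim
            (Function.update (path Φ ε l (inMap Φ ε ℓ p.1).1 p.2.1 u) (root l)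
              (colPath Φ ε ℓ p.1 u).1)
            (Function.update (path Φ ε r (inMap Φ ε ℓ p.1).2 p.2.2 u) (root r)
              (colPath Φ ε ℓ p.1 u).2) := by
          simp only [path]
          exact if_neg (not_le.2 hs')
        rw [hp]
        simp only [fin]
        rcases i with i | i
        · simp only [rel, Sum.elim_inl] at hu ⊢
          by_cases hi : i = root l
          · rw [if_pos hi] at hu
            subst hi
            simp [colPath, hu]
          · rw [if_neg hi] at hu
            rw [Function.update_of_ne hi, Function.update_of_ne hi, hl i hu]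
        · simp only [rel, Sum.elim_inr] at hu ⊢
          by_cases hi : i = root r
          · rw [if_pos hi] at hu
            subst hi
            simp [colPath, hu]
          · rw [if_neg hi] at hu
            rw [Function.update_of_ne hi, Function.update_of_ne hi, hr i hu]

/-- The particles of a tree are connected by the collision windows. -/
theorem cutConn_tree (hε : 0 ≤ ε) : ∀ (P : CTree) (v : Space3) (p : Par P),
    CutConn (Finset.univ : Finset (Idx P)) fun i j => ∃ u, InWindow Φ ε P v p i j u
  | leaf, _, _ => cutConn_singleton (J := Unit) () _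
  | node l r, v, p => by
      have hl := (cutConn_tree hε l (preV Φ v p.1).1 p.2.1).map
        (⟨Sum.inl, Sum.inl_injective⟩ : Idx l ↪ Idx (node l r))
        (R' := fun i j => ∃ u, InWindow Φ ε (node l r) v p i j u) (fun i _ j _ _ h => Or.inl (by
          obtain ⟨u, hu⟩ := h
          exact ⟨u, inWindow_inl.2 hu⟩))
      have hr := (cutConn_tree hε r (preV Φ v p.1).2 p.2.2).map
        (⟨Sum.inr, Sum.inr_injective⟩ : Idx r ↪ Idx (node l r))
        (R' := fun i j => ∃ u, InWindow Φ ε (node l r) v p i j u) (fun i _ j _ _ h => Or.inl (by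
          obtain ⟨u, hu⟩ := h
          exact ⟨u, inWindow_inr.2 hu⟩))
      have h1 := hl.union_of_edge hr (i := Sum.inl (root l)) (j := Sum.inr (root r))
        (Finset.mem_map.2 ⟨root l, Finset.mem_univ _, rfl⟩)
        (Finset.mem_map.2 ⟨root r, Finset.mem_univ _, rfl⟩)
        (Or.inl ⟨p.1.1, Or.inl ⟨rfl, rfl, sin_le hε v p.1, le_rfl⟩⟩)
      convert h1 using 1
      ext i
      refine ⟨fun _ => ?_, fun _ => Finset.mem_univ _⟩
      rcases i with i | i
      · exact Finset.mem_union_left _ (Finset.mem_map.2 ⟨i, Finset.mem_univ _, rfl⟩)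
      · exact Finset.mem_union_right _ (Finset.mem_map.2 ⟨i, Finset.mem_univ _, rfl⟩)

/-- Validity on a longer interval. -/
theorem ord_mono : ∀ (P : CTree) {T T' : ℝ} (_ : T ≤ T') (v : Space3) (p : Par P),
    Ord Φ ε P T v p → Ord Φ ε P T' v p
  | leaf, _, _, _, _, _, _ => trivial
  | node _ _, _, _, h, _, _, ho => ⟨ho.1.trans_le h, ho.2⟩

theorem valid_mono {P : CTree} {T T' : ℝ} (h : T ≤ T') {v : Space3} {p : Par P}
    (hv : Valid Φ ε P T v p) : Valid Φ ε P T' v p := ⟨hv.1, ord_mono P h v p hv.2⟩

theorem sep_anti {P : CTree} {T T' : ℝ} (h : T ≤ T') {ℓ : PhasePoint} {p : Par P}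
    (hs : Sep Φ ε P T' ℓ p) : Sep Φ ε P T ℓ p :=
  fun i j hij u hu => hs i j hij u ⟨hu.1, hu.2.trans h⟩

/-- Distances after the release time. -/
theorem lt_dist_of_rel (hε : 0 ≤ ε) {P : CTree} {T : ℝ} {ℓ : PhasePoint} {p : Par P}
    (hv : Ord Φ ε P T ℓ.2 p) (hs : Sep Φ ε P T ℓ p) {i k : Idx P} (hki : k ≠ i) {t : ℝ}
    (ht : rel P p i < t) (htT : t ≤ T) :
    ε < dist (path Φ ε P ℓ p t i).1 (path Φ ε P ℓ p t k).1 := by
  refine hs i k hki.symm t ⟨(rel_nonneg hε hv i).trans ht.le, htT⟩ (fun h => ?_) (fun h => ?_)
  · exact absurd (le_rel hε P T ℓ.2 p hv i k t h).1 (not_le.2 ht)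
  · exact absurd (le_rel hε P T ℓ.2 p hv k i t h).2 (not_le.2 ht)

end Crest.Agent.R122.LNTree410

end
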