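import Crest.Agent.R122.RtG_302

/-!
# Almost everywhere statements give null events (row 122, H12), helper302

* `tNull_of_ae` : an event which fails for almost every `(z, w)` (on valid separated trees and
  non-overlapping gases) has a measurable majorant of mass `0`.
* `okNull_of_ae` : `OkNull` from `AllOk` almost everywhere.
-/

set_option autoImplicit false

open MeasureTheory Set Filter Topology
open scoped ENNReal
open Crest.AnalysisR.Kinetic
open Crest.Agent.R122.Flow671 Crest.Agent.R122.Loc45 Crest.Agent.R122.Causal291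
open Crest.Agent.R122.Inf879 Crest.Agent.R122.GC311 Crest.Agent.R122.EDefs602
open Crest.Agent.R122.Kin796 Crest.Agent.R122.Kin796.CTree Crest.Agent.R122.Tree674
open Crest.Agent.R122.InEq2 Crest.Agent.R122.TreeLines335
open Crest.Agent.R122.RtG302

noncomputable section

open scoped Classical

namespace Crest.Agent.R122.OkAE302

variable {Φ : Space3 → ℝ} {f₀ : PhasePoint → ℝ} {ε T' : ℝ} {K : ℕ}

/-- A functional which vanishes almost everywhere has mass `0`. -/
theorem TS_eq_zero_of_ae {H : (P : CTree) → PhasePoint × Par P → (m : ℕ) → Config m → ℝ≥0∞}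
    (h : ∀ P m, ∀ᵐ q : (PhasePoint × Par P) × Config m, H P q.1 m q.2 = 0) :
    TS Φ f₀ ε T' H = 0 := by
  unfold InEq2.TS
  rw [ENNReal.tsum_eq_zero]
  intro P
  have h1 : ∀ m, ∀ᵐ z : PhasePoint × Par P, ∀ᵐ w : Config m, H P z m w = 0 := fun m =>
    Measure.ae_ae_of_ae_prod (h P m)
  have h2 : ∀ᵐ z : PhasePoint × Par P, ∀ m, ∀ᵐ w : Config m, H P z m w = 0 := ae_all_iff.2 h1
  refine (lintegral_congr_ae ?_).trans lintegral_zero
  filter_upwards [h2] with z hz
  have h3 : gcE f₀ ε (fun m w => H P z m w) = 0 := by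
    unfold gcE
    have h4 : ∀ m : ℕ, ∫⁻ w : Config m, gcWeight f₀ ε m w * H P z m w = 0 := by
      intro m
      refine (lintegral_congr_ae ?_).trans lintegral_zero
      filter_upwards [hz m] with w hw
      simp only [hw, mul_zero]
    simp only [h4, mul_zero, tsum_zero]
  by_cases hV : z ∈ {z : PhasePoint × Par P | Valid Φ ε P T' z.1.2 z.2}
  · rw [indicator_of_mem hV, h3, mul_zero, mul_zero]
  · rw [indicator_of_notMem hV]

/-- Measurable hull of the exceptional set. -/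
def hull (Φ : Space3 → ℝ) (ε T' : ℝ) (E : TEv) (P : CTree) (m : ℕ) :
    Set ((PhasePoint × Par P) × Config m) :=
  toMeasurable volume {q : (PhasePoint × Par P) × Config m | Valid Φ ε P T' q.1.1.2 q.1.2 ∧
    Sep Φ ε P T' q.1.1 q.1.2 ∧ q.2 ∈ PairExcluded ε m ∧ E ε P q.1 m q.2}

/-- **Almost everywhere ⇒ null.** -/
theorem exists_maj_of_ae {E : TEv}
    (h : ∀ P : CTree, P.leaves ≤ K → ∀ m, ∀ᵐ q : (PhasePoint × Par P) × Config m,
      Valid Φ ε P T' q.1.1.2 q.1.2 → Sep Φ ε P T' q.1.1 q.1.2 → q.2 ∈ PairExcluded ε m →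
        ¬ E ε P q.1 m q.2) :
    ∃ G, TMaj Φ ε T' K E G ∧ TS Φ f₀ ε T' (fun P z m w => wQ Φ ε P z * G P z m w) = 0 := by
  refine ⟨fun P z m w => if P.leaves ≤ K then (hull Φ ε T' E P m).indicator 1 (z, w) else 0,
    ⟨fun P m => ?_, fun P z m w hP hV hS hw hE => ?_⟩, ?_⟩
  · by_cases hP : P.leaves ≤ K
    · simp only [hP, if_true]
      exact measurable_one.indicator (measurableSet_toMeasurable _ _)
    · simp only [hP, if_false]
      exact measurable_const
  · rw [if_pos hP, indicator_of_mem]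
    · exact le_rfl
    · exact subset_toMeasurable _ _ ⟨hV, hS, hw, hE⟩
  · refine TS_eq_zero_of_ae fun P m => ?_
    by_cases hP : P.leaves ≤ K
    · have h0 : volume (hull Φ ε T' E P m) = 0 := by
        unfold hull
        rw [measure_toMeasurable]
        refine measure_mono_null ?_ (ae_iff.1 (h P hP m))
        rintro q ⟨h1, h2, h3, h4⟩ hc
        exact hc h1 h2 h3 h4
      filter_upwards [compl_mem_ae_iff.2 h0] with q hq
      rw [if_pos hP, indicator_of_notMem hq, mul_zero]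
    · refine Eventually.of_forall fun q => ?_
      show wQ Φ ε P q.1 * (if P.leaves ≤ K then (hull Φ ε T' E P m).indicator 1 (q.1, q.2) else 0)
        = 0
      rw [if_neg hP, mul_zero]

/-- **Almost everywhere ⇒ null.** -/
theorem tNull_of_ae {E : TEv} {ε₁ : ℝ} (hε₁ : 0 < ε₁)
    (h : ∀ ε : ℝ, 0 < ε → ε < ε₁ → ∀ P : CTree, P.leaves ≤ K → ∀ m,
      ∀ᵐ q : (PhasePoint × Par P) × Config m, Valid Φ ε P T' q.1.1.2 q.1.2 →
        Sep Φ ε P T' q.1.1 q.1.2 → q.2 ∈ PairExcluded ε m → ¬ E ε P q.1 m q.2) :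
    TNull Φ f₀ T' K E := by
  intro δ _
  refine ⟨ε₁, hε₁, fun ε hε hlt => ?_⟩
  obtain ⟨G, hG, hm⟩ := exists_maj_of_ae (f₀ := f₀) (h ε hε hlt)
  exact ⟨G, hG, hm.le.trans bot_le⟩

/-- **`OkNull`** from `AllOk` almost everywhere. -/
theorem okNull_of_ae {ε₁ : ℝ} (hε₁ : 0 < ε₁)
    (h : ∀ ε : ℝ, 0 < ε → ε < ε₁ → ∀ P : CTree, P.leaves ≤ K → ∀ m,
      ∀ᵐ q : (PhasePoint × Par P) × Config m, Valid Φ ε P T' q.1.1.2 q.1.2 →
        Sep Φ ε P T' q.1.1 q.1.2 → q.2 ∈ PairExcluded ε m →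
          AllOk Φ ε q.2 (exL Φ ε P q.1)) :
    OkNull Φ f₀ T' K :=
  tNull_of_ae hε₁ fun ε hε hlt P hP m => by
    filter_upwards [h ε hε hlt P hP m] with q hq h1 h2 h3 h4
    exact h4 (hq h1 h2 h3)

end Crest.Agent.R122.OkAE302
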