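import Crest.Agent.R122.QL_424

/-!
# Row 122 (helper424): input for the quenched law of large numbers

* `tree_one`, `prot_one`, `hid_one`, `hid_two` : convergence of the one- and two-point functions in
  `L¹` of the translation, from `GIV`.
* `measurable_damp_hid0`, `measurable_damp_prot0` : measurability of the limits.
* `measurable_unhitInd_treeT`, `measurable_unhitInd_hid` : measurability of the indicators.
-/

set_option autoImplicit false

open MeasureTheory Set Filter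
open scoped ENNReal Topology Classical NNReal
open Crest.AnalysisR.Kinetic Crest.Agent.R122.Kin796 Crest.Agent.R122.Disc416
  Crest.Agent.R122.Tree674 Crest.Agent.R122.TreeEps399 Crest.Agent.R122.Boltz814
  Crest.Agent.R122.Kin416 Crest.Agent.R122.GC311 Crest.Agent.R122.GIV566
  Crest.Agent.R122.GIVUse424

noncomputable section

namespace Crest.Agent.R122.Hid424

open CTree

variable {Φ : Space3 → ℝ} {β T : ℝ} {f₀ : PhasePoint → ℝ} {f : ℝ → PhasePoint → ℝ}

theorem eventually_posL : ∀ᶠ ε in L, (0 : ℝ) < ε := self_mem_nhdsWithin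

/-! ### One tree -/

/-- one tree, arbitrary end times -/
theorem tree_one (hΦ : AdmissiblePotential Φ) {tw : ℝ} (hG : GIV Φ f₀ f T tw) {P : CTree}
    {v : Space3} {p : Par P} {T' : ℝ} (hT' : 0 ≤ T') (hV : Valid Φ 0 P T' v p)
    (hgen : Gen Φ P (0, v) p) {b : Idx P → ℝ} (hb : ∀ i, b i ≤ T') (R : ℝ) :
    Tendsto (fun ε => ∫⁻ X in Metric.closedBall (0 : Space3) R,
      adiff (uG Φ f₀ ε (treeT Φ ε P (X, v) p b) tw) (dampG T f (treeT0 Φ P (X, v) p b) tw))
      L (𝓝 0) := by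
  have key := GIV.use hG hT' (l := L) (εk := fun ε : ℝ => ε) tendsto_id
    (treeT_conv hΦ hT' hV hgen hb) (generic_treeT0 hgen T' b) R
  refine key.congr' ?_
  filter_upwards [eventually_posL] with ε hε
  refine lintegral_congr fun X => ?_
  rw [treeT_shift hΦ hε P X v p b, treeT0_shift P X v p b]

/-- protected tubes -/
theorem prot_one (hΦ : AdmissiblePotential Φ) {tw : ℝ} (hG : GIV Φ f₀ f T tw) (P : CTree)
    {s : ℝ} (hs : 0 < s) :
    ∀ᵐ z : Space3 × Par P, Valid Φ 0 P s z.1 z.2 → ∀ R : ℝ,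
      Tendsto (fun ε => ∫⁻ X in Metric.closedBall (0 : Space3) R,
        adiff (uG Φ f₀ ε (treeT Φ ε P (X, z.1) z.2 (prot P s z.2)) tw)
          (dampG T f (treeT0 Φ P (X, z.1) z.2 (prot P s z.2)) tw)) L (𝓝 0) := by
  filter_upwards [gen_ae_v hΦ P s] with z hz hV R
  exact tree_one hΦ hG hs.le hV (hz hV) (PathFlow968.prot_le le_rfl P s z.1 z.2 hV.2) R

/-- **Hidden tubes, one-point function.** -/
theorem hid_one (hΦ : AdmissiblePotential Φ) {tw : ℝ} (hG : GIV Φ f₀ f T tw) (P : CTree)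
    {T₀ : ℝ} (hT₀ : 0 < T₀) :
    ∀ᵐ z : Space3 × Par P, Valid Φ 0 P T₀ z.1 z.2 → ∀ R : ℝ,
      Tendsto (fun ε => ∫⁻ X in Metric.closedBall (0 : Space3) R,
        adiff (uG Φ f₀ ε (hid Φ ε P (X, z.1) z.2) tw)
          (dampG T f (hid0 Φ P (X, z.1) z.2) tw)) L (𝓝 0) := by
  filter_upwards [gen_ae_v hΦ P T₀] with z hz hV R
  exact tree_one hΦ hG hT₀.le hV (hz hV) (fun i => (hS_lt P hT₀ z.1 z.2 hV i).le) R

/-! ### Two trees with the same root line -/

theorem lip_treeT0 (hΦ : AdmissiblePotential Φ) {P : CTree} {v : Space3} {p : Par P} {T' : ℝ}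
    (hT' : 0 ≤ T') (hV : Valid Φ 0 P T' v p) (hgen : Gen Φ P (0, v) p) (b : Idx P → ℝ) :
    ∃ M : ℝ≥0, ∀ (X : Space3) i, LipschitzOnWith M ((treeT0 Φ P (X, v) p b).c i) (Icc 0 T') := by
  obtain ⟨M, hM, h⟩ := path0_lip hΦ hT' hV hgen
  refine ⟨⟨M, hM⟩, fun X i => LipschitzOnWith.of_dist_le_mul fun s hs u hu => ?_⟩
  have := h X u hu s hs i
  rw [Real.dist_eq]
  exact this

/-- two trees, deterministic form -/
theorem tree_two (hΦ : AdmissiblePotential Φ) (hβ : 0 < β) (hT : 0 < T)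
    (hf : IsRegularKineticSolution Φ β T f₀ f) {tw : ℝ} (hG : GIV Φ f₀ f T tw) {P P' : CTree}
    {v : Space3} {p : Par P} {p' : Par P'} {T₀ : ℝ} (hT₀ : 0 < T₀)
    (hV : Valid Φ 0 P T₀ v p) (hV' : Valid Φ 0 P' T₀ v p') (hgen : Gen Φ P (0, v) p)
    (hgen' : Gen Φ P' (0, v) p') (hglu : Glu Φ P P' (0, v) p p') (R : ℝ) :
    Tendsto (fun ε => ∫⁻ X in Metric.closedBall (0 : Space3) R,
      adiff (uG Φ f₀ ε ((hid Φ ε P (X, v) p).sum (hid Φ ε P' (X, v) p')) tw)
        (dampG T f (hid0 Φ P (X, v) p) tw * dampG T f (hid0 Φ P' (X, v) p') tw)) L (𝓝 0) := by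
  have hb : ∀ i, hS Φ P v p i ≤ T₀ := fun i => (hS_lt P hT₀ v p hV i).le
  have hb' : ∀ i, hS Φ P' v p' i ≤ T₀ := fun i => (hS_lt P' hT₀ v p' hV' i).le
  have hconv := (treeT_conv hΦ hT₀.le hV hgen hb).sum (treeT_conv hΦ hT₀.le hV' hgen' hb')
  have key := GIV.use hG hT₀.le (l := L) (εk := fun ε : ℝ => ε) tendsto_id hconv
    (generic_hid0_sum (ℓ := (0, v)) hV hV' hgen hgen' hglu T₀) R
  obtain ⟨M, hM⟩ := lip_treeT0 hΦ hT₀.le hV hgen (hS Φ P v p)
  obtain ⟨M', hM'⟩ := lip_treeT0 hΦ hT₀.le hV' hgen' (hS Φ P' v p')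
  refine key.congr' ?_
  filter_upwards [eventually_posL] with ε hε
  refine lintegral_congr fun X => ?_
  have e1 : ((treeT Φ ε P (0, v) p (hS Φ P v p)).sum
      (treeT Φ ε P' (0, v) p' (hS Φ P' v p'))).shift X =
      (hid Φ ε P (X, v) p).sum (hid Φ ε P' (X, v) p') := by
    unfold hid
    rw [treeT_shift hΦ hε P X v p, treeT_shift hΦ hε P' X v p']
    unfold Tubes.sum Tubes.shift
    congr 1
    funext i s
    rcases i with i | i <;> rfl
  have e2 : ((treeT0 Φ P (0, v) p (hS Φ P v p)).sum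
      (treeT0 Φ P' (0, v) p' (hS Φ P' v p'))).shift X =
      (hid0 Φ P (X, v) p).sum (hid0 Φ P' (X, v) p') := by
    unfold hid0
    rw [treeT0_shift P X v p, treeT0_shift P' X v p']
    unfold Tubes.sum Tubes.shift
    congr 1
    funext i s
    rcases i with i | i <;> rfl
  rw [e1, e2, dampG_add hβ hT hf (M := max M M') (T' := T₀)
    (S := hid0 Φ P (X, v) p) (S' := hid0 Φ P' (X, v) p')
    (fun i => (hM X i).weaken (le_max_left _ _)) hb
    (fun i => (hM' X i).weaken (le_max_right _ _)) hb']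

/-- **Hidden tubes, two-point function.** -/
theorem hid_two (hΦ : AdmissiblePotential Φ) (hβ : 0 < β) (hT : 0 < T)
    (hf : IsRegularKineticSolution Φ β T f₀ f) {tw : ℝ} (hG : GIV Φ f₀ f T tw) (P P' : CTree)
    {T₀ : ℝ} (hT₀ : 0 < T₀) :
    ∀ᵐ z : Space3 × (Par P × Par P'), Valid Φ 0 P T₀ z.1 z.2.1 → Valid Φ 0 P' T₀ z.1 z.2.2 →
      ∀ R : ℝ, Tendsto (fun ε => ∫⁻ X in Metric.closedBall (0 : Space3) R,
        adiff (uG Φ f₀ ε ((hid Φ ε P (X, z.1) z.2.1).sum (hid Φ ε P' (X, z.1) z.2.2)) tw)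
          (dampG T f (hid0 Φ P (X, z.1) z.2.1) tw * dampG T f (hid0 Φ P' (X, z.1) z.2.2) tw))
        L (𝓝 0) := by
  have q1 : Measure.QuasiMeasurePreserving
      (fun z : Space3 × (Par P × Par P') => (z.1, z.2.1))
      ((volume : Measure Space3).prod ((volume : Measure (Par P)).prod
        (volume : Measure (Par P')))) ((volume : Measure Space3).prod (volume : Measure (Par P))) :=
    MeasureTheory.QuasiMeasurePreserving.prodMap (Measure.QuasiMeasurePreserving.id _)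
      Measure.quasiMeasurePreserving_fst
  have q2 : Measure.QuasiMeasurePreserving
      (fun z : Space3 × (Par P × Par P') => (z.1, z.2.2))
      ((volume : Measure Space3).prod ((volume : Measure (Par P)).prod
        (volume : Measure (Par P')))) ((volume : Measure Space3).prod (volume : Measure (Par P'))) :=
    MeasureTheory.QuasiMeasurePreserving.prodMap (Measure.QuasiMeasurePreserving.id _)
      Measure.quasiMeasurePreserving_snd
  have h1 := q1.ae (gen_ae_v hΦ P T₀)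
  have h2 := q2.ae (gen_ae_v hΦ P' T₀)
  filter_upwards [h1, h2, glu_ae_v hΦ P P'] with z hz1 hz2 hz3 hV hV' R
  exact tree_two hΦ hβ hT hf hG hT₀ hV hV' (hz1 hV) (hz2 hV') (hz3 hV.1 hV'.1) R

/-! ### Measurability of the limits -/

theorem wt_ne_zero : ∀ {P : CTree} {v : Space3} {p : Par P}, Adm Φ P v p → wt Φ P v p ≠ 0
  | leaf, _, _, _ => one_ne_zero
  | node l r, v, p, h => by
      simp only [wt]
      refine mul_ne_zero ?_ (mul_ne_zero (wt_ne_zero h.2.1) (wt_ne_zero h.2.2))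
      have h1 : 0 < ‖v - p.1.2.1‖ := norm_pos_iff.2 (sub_ne_zero.2 h.1.2.1)
      simpa using h1

theorem wt_ne_top' : ∀ {P : CTree} {v : Space3} {p : Par P}, wt Φ P v p ≠ ∞
  | leaf, _, _ => ENNReal.one_ne_top
  | node l r, v, p => by
      simp only [wt]
      exact ENNReal.mul_ne_top ENNReal.ofReal_ne_top (ENNReal.mul_ne_top wt_ne_top' wt_ne_top')

theorem meas4_Dwin_nuF (hf : IsRegularKineticSolution Φ β T f₀ f) (tw : ℝ) :
    Meas4 (Dwin (nuF T f) tw) := by
  have h := Seg814.meas4_Dwin (meas4_damp hf) tw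
  rwa [Dwin_814'] at h

theorem dens_one : ∀ (P : CTree) (t : ℝ) (ℓ : PhasePoint) (p : Par P),
    dens Φ (fun _ _ _ _ => (1 : ℝ≥0∞)) (fun _ _ => 1) P t ℓ p = 1
  | leaf, _, _, _ => by simp [dens]
  | node l r, _, ℓ, p => by
      simp only [dens]
      rw [dens_one l, dens_one r]
      simp

/-- `exp (-Λ)` of the hidden tubes as a quotient of tree weights -/
theorem indicator_damp_hid0 (hβ : 0 < β) (hT : 0 < T)
    (hf : IsRegularKineticSolution Φ β T f₀ f) {tw : ℝ} (htw : 0 ≤ tw) (P : CTree) (T₀ : ℝ)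
    (ℓ : PhasePoint) (p : Par P) :
    {p | Valid Φ 0 P T₀ ℓ.2 p}.indicator (fun p => dampG T f (hid0 Φ P ℓ p) tw) p =
      Seg814.WtS Φ (Dwin (nuF T f) tw) (fun _ _ => 1) P T₀ (ℓ.1 + T₀ • ℓ.2) ℓ.2 p /
      TreeF399.Wt Φ (fun _ _ _ _ => (1 : ℝ≥0∞)) (fun _ _ => 1) P T₀ (ℓ.1 + T₀ • ℓ.2) ℓ.2 p := by
  rw [← TreeF399.weight_eq, ← Seg814.weightS_eq]
  have hx : ((ℓ.1 + T₀ • ℓ.2 - T₀ • ℓ.2, ℓ.2) : PhasePoint) = ℓ := by
    rw [add_sub_cancel_right]
  by_cases hV : Valid Φ 0 P T₀ ℓ.2 p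
  · rw [indicator_of_mem (by exact hV), indicator_of_mem (by exact hV),
      indicator_of_mem (by exact hV), dens_one, mul_one, hx, densS_814,
      densS_eq (finRate_nuF hβ hT hf) htw _ hV, dampG_hid0 hf hV]
    simp only [Finset.prod_const_one, mul_one]
    rw [mul_comm, ENNReal.mul_div_cancel_right (wt_ne_zero hV.1) wt_ne_top']
  · rw [indicator_of_notMem (by exact hV), indicator_of_notMem (by exact hV),
      indicator_of_notMem (by exact hV), ENNReal.zero_div]

/-- `exp (-Λ)` of the protected tubes as a quotient of tree weights -/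
theorem indicator_damp_prot0 (hβ : 0 < β) (hT : 0 < T)
    (hf : IsRegularKineticSolution Φ β T f₀ f) {tw : ℝ} (htw : 0 ≤ tw) (P : CTree) {s : ℝ}
    (hs : 0 ≤ s) (ℓ : PhasePoint) (p : Par P) :
    {p | Valid Φ 0 P s ℓ.2 p}.indicator (fun p => dampG T f (treeT0 Φ P ℓ p (prot P s p)) tw) p =
      TreeF399.Wt Φ (Dwin (nuF T f) tw) (fun _ _ => 1) P s (ℓ.1 + s • ℓ.2) ℓ.2 p /
      TreeF399.Wt Φ (fun _ _ _ _ => (1 : ℝ≥0∞)) (fun _ _ => 1) P s (ℓ.1 + s • ℓ.2) ℓ.2 p := by
  rw [← TreeF399.weight_eq, ← TreeF399.weight_eq]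
  have hx : ((ℓ.1 + s • ℓ.2 - s • ℓ.2, ℓ.2) : PhasePoint) = ℓ := by
    rw [add_sub_cancel_right]
  by_cases hV : Valid Φ 0 P s ℓ.2 p
  · rw [indicator_of_mem (by exact hV), indicator_of_mem (by exact hV),
      indicator_of_mem (by exact hV), dens_one, mul_one, hx,
      dens_eq (finRate_nuF hβ hT hf) htw _ hs hV.2, dampG_prot0 hf hV]
    simp only [Finset.prod_const_one, mul_one]
    rw [mul_comm, ENNReal.mul_div_cancel_right (wt_ne_zero hV.1) wt_ne_top']
  · rw [indicator_of_notMem (by exact hV), indicator_of_notMem (by exact hV),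
      indicator_of_notMem (by exact hV), ENNReal.zero_div]

/-- **Measurability of the damping of the hidden tubes.** -/
theorem measurable_damp_hid0 (hΦ : AdmissiblePotential Φ) (hβ : 0 < β) (hT : 0 < T)
    (hf : IsRegularKineticSolution Φ β T f₀ f) {tw : ℝ} (htw : 0 ≤ tw) (P : CTree) (T₀ : ℝ) :
    Measurable fun z : PhasePoint × Par P => {z : PhasePoint × Par P |
      Valid Φ 0 P T₀ z.1.2 z.2}.indicator (fun z => dampG T f (hid0 Φ P z.1 z.2) tw) z := by
  have hone : Measurable fun p : Space3 × Space3 =>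
    (fun (_ _ : Space3) => (1 : ℝ≥0∞)) p.1 p.2 := measurable_const
  have m1 := Seg814.measurable_WtS (f0 := fun _ _ => 1) hΦ (meas4_Dwin_nuF hf tw) hone P
  have m2 := TreeF399.measurable_Wt (f0 := fun _ _ => 1) hΦ Seg814.meas4_one hone P
  have hg : Measurable fun z : PhasePoint × Par P =>
      (((T₀, z.1.1 + T₀ • z.1.2, z.1.2), z.2) : (ℝ × Space3 × Space3) × Par P) := by
    fun_prop
  have h := (Measurable.comp m1 hg).div (Measurable.comp m2 hg)
  convert h using 1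
  funext z
  exact indicator_damp_hid0 hβ hT hf htw P T₀ z.1 z.2

/-- **Measurability of the damping of the protected tubes**, jointly in the final time. -/
theorem measurable_damp_prot0 (hΦ : AdmissiblePotential Φ) (hβ : 0 < β) (hT : 0 < T)
    (hf : IsRegularKineticSolution Φ β T f₀ f) {tw : ℝ} (htw : 0 ≤ tw) (P : CTree) {s : ℝ}
    (hs : 0 ≤ s) :
    Measurable fun z : PhasePoint × Par P => {z : PhasePoint × Par P |
      Valid Φ 0 P s z.1.2 z.2}.indicator
        (fun z => dampG T f (treeT0 Φ P z.1 z.2 (prot P s z.2)) tw) z := by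
  have hone : Measurable fun p : Space3 × Space3 =>
    (fun (_ _ : Space3) => (1 : ℝ≥0∞)) p.1 p.2 := measurable_const
  have m1 := TreeF399.measurable_Wt (f0 := fun _ _ => 1) hΦ (meas4_Dwin_nuF hf tw) hone P
  have m2 := TreeF399.measurable_Wt (f0 := fun _ _ => 1) hΦ Seg814.meas4_one hone P
  have hg : Measurable fun z : PhasePoint × Par P =>
      (((s, z.1.1 + s • z.1.2, z.1.2), z.2) : (ℝ × Space3 × Space3) × Par P) := by
    fun_prop
  have h := (Measurable.comp m1 hg).div (Measurable.comp m2 hg)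
  convert h using 1
  funext z
  exact indicator_damp_prot0 hβ hT hf htw P hs z.1 z.2

/-! ### Measurability of the indicators -/

/-- tubes along the particles of a random tree, random end times, random world -/
theorem measurable_unhitInd_treeT (hΦ : AdmissiblePotential Φ) {ε : ℝ} (hε : 0 < ε) (P : CTree)
    {ι : Type*} [Fintype ι] {Ω : Type*} [MeasurableSpace Ω] {A : Set Ω} (hA : MeasurableSet A)
    {w : Ω → ι → PhasePoint} (hw : Measurable w) {t : Ω → ℝ} (ht : Measurable t)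
    {ℓ : Ω → PhasePoint} (hℓ : Measurable ℓ) {p : Ω → Par P} (hp : Measurable p)
    (hadm : ∀ ω ∈ A, Adm Φ P (ℓ ω).2 (p ω)) {b : Ω → Idx P → ℝ} {b' : Ω → Idx P → ℝ}
    (hb : Measurable b') (hbb : ∀ ω ∈ A, b ω = b' ω) :
    Measurable fun ω => A.indicator
      (fun ω => unhitInd Φ ε (treeT Φ ε P (ℓ ω) (p ω) (b ω)) (t ω) (w ω)) ω := by
  have h := measurableSet_unhit hΦ hε (κ := Idx P)
    (c := fun ω i s => curveM Φ ε P (ℓ ω) (p ω) i s)
    (fun ω i => continuous_curveM hΦ hε P (ℓ ω) (p ω) i)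
    (fun i s => (measurable_curveM hΦ hε P i).comp
      (f := fun ω => (s, (ℓ ω, p ω))) (measurable_const.prodMk (hℓ.prodMk hp)))
    (b := b') (fun i => (measurable_pi_apply i).comp hb) hw ht
  have e : (fun ω => A.indicator
      (fun ω => unhitInd Φ ε (treeT Φ ε P (ℓ ω) (p ω) (b ω)) (t ω) (w ω)) ω) =
      (A ∩ {ω | ∀ i j, ∀ s ∈ Icc 0 (min (b' ω i) (t ω)),
        ε < dist (curveM Φ ε P (ℓ ω) (p ω) i s) (Flow671.flow Φ ε s (w ω) j).1}).indicator
        (fun _ => 1) := by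
    funext ω
    by_cases hω : ω ∈ A
    · rw [indicator_of_mem hω]
      have hiff : unhit Φ ε (treeT Φ ε P (ℓ ω) (p ω) (b ω)) (t ω) (w ω) ↔
          ω ∈ {ω | ∀ i j, ∀ s ∈ Icc 0 (min (b' ω i) (t ω)),
            ε < dist (curveM Φ ε P (ℓ ω) (p ω) i s) (Flow671.flow Φ ε s (w ω) j).1} := by
        rw [mem_ofPred_eq, ← hbb ω hω]
        simp only [curveM_of_adm (ℓ := ℓ ω) (hadm ω hω)]
        exact Iff.rfl
      unfold unhitInd
      by_cases hu : unhit Φ ε (treeT Φ ε P (ℓ ω) (p ω) (b ω)) (t ω) (w ω)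
      · rw [if_pos hu, indicator_of_mem (show ω ∈ A ∩ _ from ⟨hω, hiff.1 hu⟩)]
      · rw [if_neg hu, indicator_of_notMem fun h => hu (hiff.2 h.2)]
    · rw [indicator_of_notMem hω, indicator_of_notMem fun h => hω h.1]
  rw [e]
  exact measurable_const.indicator (hA.inter h)

/-- **Hidden tubes of a random tree in a random world.** -/
theorem measurable_unhitInd_hid (hΦ : AdmissiblePotential Φ) {ε : ℝ} (hε : 0 < ε) (P : CTree)
    {ι : Type*} [Fintype ι] {Ω : Type*} [MeasurableSpace Ω] {A : Set Ω} (hA : MeasurableSet A)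
    {w : Ω → ι → PhasePoint} (hw : Measurable w) {t : Ω → ℝ} (ht : Measurable t)
    {ℓ : Ω → PhasePoint} (hℓ : Measurable ℓ) {p : Ω → Par P} (hp : Measurable p)
    (hadm : ∀ ω ∈ A, Adm Φ P (ℓ ω).2 (p ω)) :
    Measurable fun ω => A.indicator
      (fun ω => unhitInd Φ ε (hid Φ ε P (ℓ ω) (p ω)) (t ω) (w ω)) ω :=
  measurable_unhitInd_treeT hΦ hε P hA hw ht hℓ hp hadm
    (b := fun ω => hS Φ P (ℓ ω).2 (p ω)) (b' := fun ω => hSM Φ P (ℓ ω).2 (p ω))
    ((measurable_hSM hΦ P).comp (f := fun ω => ((ℓ ω).2, p ω)) (hℓ.snd.prodMk hp))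
    fun ω hω => (hSM_of_adm (hadm ω hω)).symm

end Crest.Agent.R122.Hid424
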