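import Crest.Agent.R122.TransOk_151
import Crest.Agent.R122.LNTreeA_410
import Crest.Agent.R122.OkAE_302
import Crest.Agent.R122.QL2_424

/-!
# Row 122 (helper663): worlds with the exit lines of a tree are good

* `exit_of_window` (T1): at the end of its collision window a pair of a tree is at distance exactly
  `ε` and moves apart.
* `rel_tree` (T1): `Rel` of `TransDefs_151` for the particles of a valid separated tree
  (all particles, including the root at its last collision).
* `startSep_tree` : particles of a tree which are released at the same time start separated.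
* `ae_tree`, `ae_tree_prod` (T2): null sets of time-`0` configurations are null sets of tree
  parameters.
* `ae_okFam_tree`, `ae_allOk` (T3): almost every valid separated tree has good worlds
  `w +` (sub-family of its lines); `okNull` : the input `OkNull` of H12.
-/

set_option autoImplicit false
set_option linter.unusedSectionVars false

open MeasureTheory Set Filter Topology
open scoped ENNReal
open Crest.AnalysisR.Kinetic
open Crest.Agent.R122.Flow671 hiding rel
open Crest.Agent.R122.Loc45 Crest.Agent.R122.Causal291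
open Crest.Agent.R122.Inf879 Crest.Agent.R122.GC311 Crest.Agent.R122.EDefs602
open Crest.Agent.R122.Kin796 Crest.Agent.R122.Kin796.CTree Crest.Agent.R122.Disc416
open Crest.Agent.R122.Tree674 Crest.Agent.R122.PathFlow968 Crest.Agent.R122.TreeLines335
open Crest.Agent.R122.LNTree410 Crest.Agent.R122.TransOk151 Crest.Agent.R122.RtG302

noncomputable section

open scoped Classical

namespace Crest.Agent.R122.AllOk663

variable {Φ : Space3 → ℝ} {ε : ℝ}

/-! ### (T1) The release data of a tree -/

/-- Velocity and position at the exit of a collision: the pair moves apart. -/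
theorem inner_entrance_neg {v : Space3} {a : NodeP} (h : Adm1 Φ v a) :
    inner ℝ (entrancePoint (nb v a) (ng v a)) (ng v a) < 0 := by
  obtain ⟨h1, h2⟩ := nb_mem h
  have hg : 0 < ‖ng v a‖ := norm_pos_iff.2 (ng_ne h)
  unfold entrancePoint
  rw [inner_sub_left, h1, inner_smul_left, real_inner_self_eq_norm_sq, zero_sub, neg_lt_zero]
  have h3 : 0 < Real.sqrt (1 - ‖nb v a‖ ^ 2) := by
    refine Real.sqrt_pos.2 (sub_pos.2 ?_)
    exact pow_lt_one₀ (norm_nonneg _) h2 two_ne_zero
  show 0 < Real.sqrt (1 - ‖nb v a‖ ^ 2) / ‖ng v a‖ * ‖ng v a‖ ^ 2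
  positivity

/-- At the end of its collision window a pair of a tree is at distance exactly `ε` and moves
apart. -/
theorem exit_of_window (hε : 0 < ε) : ∀ (P : CTree) (T : ℝ) (ℓ : PhasePoint) (p : Par P),
    Valid Φ ε P T ℓ.2 p → ∀ (i j : Idx P) (u : ℝ), InWindow Φ ε P ℓ.2 p i j u →
      (u = rel P p i ∨ u = rel P p j) →
      dist (path Φ ε P ℓ p u i).1 (path Φ ε P ℓ p u j).1 = ε ∧
        0 < inner ℝ ((path Φ ε P ℓ p u i).1 - (path Φ ε P ℓ p u j).1)
          ((path Φ ε P ℓ p u i).2 - (path Φ ε P ℓ p u j).2)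
  | leaf, _, _, _, _, _, _, _, h, _ => h.elim
  | node l r, T, ℓ, p, hv, i, j, u, h, hu => by
      rcases h with ⟨rfl, rfl, -, -⟩ | ⟨i', j', rfl, rfl, h⟩ | ⟨i', j', rfl, rfl, h⟩
      · have hu' : u = p.1.1 := by
          rcases hu with hu | hu <;> simpa only [rel, Sum.elim_inl, Sum.elim_inr, if_true] using hu
        have h1 := sin_lt hε hv.1.1 (Φ := Φ)
        have hp : path Φ ε (node l r) ℓ p u = Sum.elim
            (Function.update (path Φ ε l (inMap Φ ε ℓ p.1).1 p.2.1 u) (root l)
              (colPath Φ ε ℓ p.1 u).1)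
            (Function.update (path Φ ε r (inMap Φ ε ℓ p.1).2 p.2.2 u) (root r)
              (colPath Φ ε ℓ p.1 u).2) := by
          simp only [path]
          exact if_neg (not_le.2 (hu' ▸ h1))
        have hc : colPath Φ ε ℓ p.1 u = (onLine ℓ u, onLine (outLine ε ℓ p.1) u) := by
          unfold colPath
          exact if_pos hu'.ge
        have e1 : path Φ ε (node l r) ℓ p u (Sum.inl (root l)) = onLine ℓ u := by
          rw [hp, Sum.elim_inl, Function.update_self, hc]
        have e2 : path Φ ε (node l r) ℓ p u (Sum.inr (root r)) = onLine (outLine ε ℓ p.1) u := by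
          rw [hp, Sum.elim_inr, Function.update_self, hc]
        rw [e1, e2]
        have e3 : (onLine ℓ u).1 - (onLine (outLine ε ℓ p.1) u).1 =
            -(ε • entrancePoint (nb ℓ.2 p.1) (ng ℓ.2 p.1)) := by
          simp only [onLine, outLine, hu']
          module
        have e4 : (onLine ℓ u).2 - (onLine (outLine ε ℓ p.1) u).2 = ng ℓ.2 p.1 := rfl
        refine ⟨?_, ?_⟩
        · rw [dist_eq_norm, e3, norm_neg, norm_smul, norm_entrance hv.1.1, mul_one,
            Real.norm_eq_abs, abs_of_pos hε]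
        · rw [e3, e4, inner_neg_left, inner_smul_left]
          have h2 := inner_entrance_neg hv.1.1
          show 0 < -(ε * inner ℝ (entrancePoint (nb ℓ.2 p.1) (ng ℓ.2 p.1)) (ng ℓ.2 p.1))
          nlinarith
      · have hin := InWindow.mem hε.le l _ _ p.2.1 hv.2.2.2.1 i' j' u h
        have hs : u < Tree674.sin Φ ε ℓ.2 p.1 := hin.2
        have h1 := sin_lt hε hv.1.1 (Φ := Φ)
        have hu' : u = rel l p.2.1 i' ∨ u = rel l p.2.1 j' := by
          simp only [rel, Sum.elim_inl] at hu
          rcases hu with hu | hu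
          · by_cases hi : i' = root l
            · rw [if_pos hi] at hu; linarith
            · rw [if_neg hi] at hu; exact Or.inl hu
          · by_cases hi : j' = root l
            · rw [if_pos hi] at hu; linarith
            · rw [if_neg hi] at hu; exact Or.inr hu
        have h2 := exit_of_window hε l _ (inMap Φ ε ℓ p.1).1 p.2.1 (Valid.left hv) i' j' u h hu'
        rw [path_node_before ℓ p hs.le]
        exact h2
      · have hin := InWindow.mem hε.le r _ _ p.2.2 hv.2.2.2.2 i' j' u h
        have hs : u < Tree674.sin Φ ε ℓ.2 p.1 := hin.2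
        have h1 := sin_lt hε hv.1.1 (Φ := Φ)
        have hu' : u = rel r p.2.2 i' ∨ u = rel r p.2.2 j' := by
          simp only [rel, Sum.elim_inr] at hu
          rcases hu with hu | hu
          · by_cases hi : i' = root r
            · rw [if_pos hi] at hu; linarith
            · rw [if_neg hi] at hu; exact Or.inl hu
          · by_cases hi : j' = root r
            · rw [if_pos hi] at hu; linarith
            · rw [if_neg hi] at hu; exact Or.inr hu
        have h2 := exit_of_window hε r _ (inMap Φ ε ℓ p.1).2 p.2.2 (Valid.right hv) i' j' u h hu'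
        rw [path_node_before ℓ p hs.le]
        exact h2

/-- Release times are in `(0, T)`. -/
theorem rel_mem (hε : 0 ≤ ε) {P : CTree} (hP : P ≠ leaf) {T : ℝ} {v : Space3} {p : Par P}
    (hv : Ord Φ ε P T v p) (i : Idx P) : 0 < rel P p i ∧ rel P p i < T := by
  obtain ⟨j, -, h | h⟩ := exists_window_rel hε P v p hP i (Φ := Φ)
  · exact InWindow.mem hε P T v p hv _ _ _ h
  · exact InWindow.mem hε P T v p hv _ _ _ h

/-- **(T1)** Release data of a valid separated tree: all the particles, including the root (released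
at its last collision). -/
theorem rel_tree (hΦ : AdmissiblePotential Φ) (hε : 0 < ε) {P : CTree} {T : ℝ} {ℓ : PhasePoint}
    {p : Par P} (hv : Valid Φ ε P T ℓ.2 p) (hs : Sep Φ ε P T ℓ p) {S : Set (Idx P)}
    (hS : P = leaf → S = ∅) :
    Rel ε (fun _ => 0) S (rel P p) T (fun t => flow Φ ε t (lines Φ ε P ℓ p)) := by
  have hP : ∀ i ∈ S, P ≠ leaf := fun i hi h => by
    rw [hS h] at hi
    exact hi
  have hrel : ∀ i ∈ S, 0 < rel P p i ∧ rel P p i < T := fun i hi => rel_mem hε.le (hP i hi) hv.2 i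
  refine ⟨fun i hi => (hrel i hi).1, fun i hi => (hrel i hi).2.le, fun i hi => (hrel i hi).1.le,
    fun i hi => ?_, fun i hi t ht j hj _ => ?_⟩
  · have hu : rel P p i ∈ Icc 0 T := ⟨(hrel i hi).1.le, (hrel i hi).2.le⟩
    obtain ⟨j, hj, h⟩ := exists_window_rel hε.le P ℓ.2 p (hP i hi) i (Φ := Φ)
    refine ⟨j, hj, (hrel i hi).1.le, ?_⟩
    show dist (flow Φ ε (rel P p i) (lines Φ ε P ℓ p) i).1
        (flow Φ ε (rel P p i) (lines Φ ε P ℓ p) j).1 = ε ∧
      0 < inner ℝ ((flow Φ ε (rel P p i) (lines Φ ε P ℓ p) i).1 -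
          (flow Φ ε (rel P p i) (lines Φ ε P ℓ p) j).1)
        ((flow Φ ε (rel P p i) (lines Φ ε P ℓ p) i).2 -
          (flow Φ ε (rel P p i) (lines Φ ε P ℓ p) j).2)
    rw [← path_eq_flow hΦ hε hv hs hu]
    rcases h with h | h
    · exact exit_of_window hε P T ℓ p hv i j _ h (Or.inl rfl)
    · obtain ⟨h1, h2⟩ := exit_of_window hε P T ℓ p hv j i _ h (Or.inr rfl)
      refine ⟨by rwa [dist_comm], ?_⟩
      rw [← neg_sub, ← neg_sub (path Φ ε P ℓ p (rel P p i) j).2, inner_neg_neg]
      exact h2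
  · have hu : t ∈ Icc 0 T := ⟨(hrel i hi).1.le.trans ht.1.le, ht.2⟩
    show ε < dist (flow Φ ε t (lines Φ ε P ℓ p) i).1 (flow Φ ε t (lines Φ ε P ℓ p) j).1
    rw [← path_eq_flow hΦ hε hv hs hu]
    exact lt_dist_of_rel hε.le hv.2 hs hj ht.1 ht.2

/-- Particles released at the same time start separated. -/
theorem startSep_tree (hε : 0 < ε) {P : CTree} {T : ℝ} {ℓ : PhasePoint} {p : Par P}
    (hv : Valid Φ ε P T ℓ.2 p) (hs : Sep Φ ε P T ℓ p) {i j : Idx P} (hij : i ≠ j)
    (h : rel P p i = rel P p j) :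
    StartSep ε (onLine (fin Φ ε P ℓ p i) (rel P p i)) (onLine (fin Φ ε P ℓ p j) (rel P p j)) := by
  have hP : P ≠ leaf := by
    rintro rfl
    exact hij rfl
  have hrel := rel_mem hε.le hP hv.2 i
  set u := rel P p i with hu
  have e1 : onLine (fin Φ ε P ℓ p i) u = path Φ ε P ℓ p u i :=
    (path_rel hε P T ℓ p hv i u le_rfl).symm
  have e2 : onLine (fin Φ ε P ℓ p j) u = path Φ ε P ℓ p u j :=
    (path_rel hε P T ℓ p hv j u h.ge).symm
  rw [← h, e1, e2]
  by_cases h1 : InWindow Φ ε P ℓ.2 p i j u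
  · exact Or.inr (exit_of_window hε P T ℓ p hv i j u h1 (Or.inl rfl))
  by_cases h2 : InWindow Φ ε P ℓ.2 p j i u
  · obtain ⟨h3, h4⟩ := exit_of_window hε P T ℓ p hv j i u h2 (Or.inr rfl)
    refine Or.inr ⟨by rwa [dist_comm], ?_⟩
    rw [← neg_sub, ← neg_sub (path Φ ε P ℓ p u j).2, inner_neg_neg]
    exact h4
  · exact Or.inl (hs i j hij u ⟨hrel.1.le, hrel.2.le⟩ h1 h2)

/-- The marked line of a particle is its state at the release time. -/
theorem lineML_fst (hΦ : AdmissiblePotential Φ) (hε : 0 < ε) {P : CTree} {T : ℝ}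
    {z : PhasePoint × Par P} (hv : Valid Φ ε P T z.1.2 z.2) (hs : Sep Φ ε P T z.1 z.2)
    (i : Idx P) (h0 : 0 ≤ rel P z.2 i) (hT : rel P z.2 i ≤ T) : (lineML Φ ε P z i).1 =
      (rel P z.2 i, flow Φ ε (rel P z.2 i) (lines Φ ε P z.1 z.2) i) := by
  show (rel P z.2 i, onLine (fin Φ ε P z.1 z.2 i) (rel P z.2 i)) = _
  rw [← path_rel hε P T z.1 z.2 hv i _ le_rfl, path_eq_flow hΦ hε hv hs ⟨h0, hT⟩]

/-! ### (T2) Transfer of null sets -/

/-- **(T2)** Almost every time-`0` configuration ⇒ almost every tree parameter. -/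
theorem ae_tree (hΦ : AdmissiblePotential Φ) (hε : 0 < ε) (P : CTree) (T : ℝ)
    {Q : (Idx P → PhasePoint) → Prop} (h : ∀ᵐ V : Idx P → PhasePoint, Q V) :
    ∀ᵐ z : PhasePoint × Par P, Valid Φ ε P T z.1.2 z.2 → Q (lines Φ ε P z.1 z.2) := by
  set M : Set (Idx P → PhasePoint) := toMeasurable volume {V | ¬ Q V} with hM
  have hM0 : volume M = 0 := by
    rw [hM, measure_toMeasurable]
    exact h
  have hMm : MeasurableSet M := measurableSet_toMeasurable _ _
  have hH : Measurable fun q : (PhasePoint × Par P) × (Idx P → PhasePoint) =>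
      M.indicator (1 : (Idx P → PhasePoint) → ℝ≥0∞) q.2 :=
    (measurable_one.indicator hMm).comp measurable_snd
  have h1 := treeMeasure_aux hΦ hε T P hH
  have h2 : ∫⁻ V : Idx P → PhasePoint, (Skel Φ ε P T).indicator 1 V *
      M.indicator (1 : (Idx P → PhasePoint) → ℝ≥0∞) V = 0 := by
    refine le_antisymm ?_ bot_le
    calc ∫⁻ V : Idx P → PhasePoint, (Skel Φ ε P T).indicator 1 V *
          M.indicator (1 : (Idx P → PhasePoint) → ℝ≥0∞) V
        ≤ ∫⁻ V : Idx P → PhasePoint, M.indicator (1 : (Idx P → PhasePoint) → ℝ≥0∞) V := by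
          refine lintegral_mono fun V => ?_
          calc (Skel Φ ε P T).indicator 1 V * M.indicator (1 : (Idx P → PhasePoint) → ℝ≥0∞) V
              ≤ 1 * M.indicator (1 : (Idx P → PhasePoint) → ℝ≥0∞) V :=
                mul_le_mul_left (indicator_le_self' (fun _ _ => bot_le) V) _
            _ = _ := one_mul _
      _ = 0 := by
          rw [lintegral_indicator_one hMm, hM0]
  have hL : ∫⁻ z : PhasePoint × Par P,
      vw Φ ε P T z * M.indicator (1 : (Idx P → PhasePoint) → ℝ≥0∞) (linesM Φ ε P z.1 z.2) = 0 := by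
    have h3 : ENNReal.ofReal (ε ^ 2) ^ P.size * ∫⁻ z : PhasePoint × Par P,
        vw Φ ε P T z * M.indicator (1 : (Idx P → PhasePoint) → ℝ≥0∞) (linesM Φ ε P z.1 z.2) = 0 :=
      h1.trans h2
    rcases mul_eq_zero.1 h3 with h4 | h4
    · exact absurd h4 (pow_ne_zero _ (by simpa using hε.ne'))
    · exact h4
  have hm : Measurable fun z : PhasePoint × Par P =>
      vw Φ ε P T z * M.indicator (1 : (Idx P → PhasePoint) → ℝ≥0∞) (linesM Φ ε P z.1 z.2) :=
    (measurable_vw hΦ ε P T).mul ((measurable_one.indicator hMm).comp (measurable_linesM hΦ ε P))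
  rw [lintegral_eq_zero_iff hm] at hL
  filter_upwards [hL] with z hz hv
  have hz' : vw Φ ε P T z *
      M.indicator (1 : (Idx P → PhasePoint) → ℝ≥0∞) (linesM Φ ε P z.1 z.2) = 0 := hz
  rw [vw_of_valid hv, linesM_of_adm ε hv.1] at hz'
  rcases mul_eq_zero.1 hz' with h5 | h5
  · exact absurd h5 (Hid424.wt_ne_zero hv.1)
  · by_contra hQ
    have h6 : lines Φ ε P z.1 z.2 ∈ M := subset_toMeasurable _ _ hQ
    rw [indicator_of_mem h6] at h5
    exact one_ne_zero h5

/-- **(T2)**, product form. -/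
theorem ae_tree_prod (hΦ : AdmissiblePotential Φ) (hε : 0 < ε) (P : CTree) (T : ℝ) {Ω : Type*}
    [MeasurableSpace Ω] {μ : Measure Ω} [SFinite μ] {Q : (Idx P → PhasePoint) × Ω → Prop}
    (h : ∀ᵐ q ∂((volume : Measure (Idx P → PhasePoint)).prod μ), Q q) :
    ∀ᵐ q ∂((volume : Measure (PhasePoint × Par P)).prod μ),
      Valid Φ ε P T q.1.1.2 q.1.2 → Q (lines Φ ε P q.1.1 q.1.2, q.2) := by
  set M : Set ((Idx P → PhasePoint) × Ω) := toMeasurable (volume.prod μ) {q | ¬ Q q} with hM
  have hM0 : (volume.prod μ) M = 0 := by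
    rw [hM, measure_toMeasurable]
    exact h
  have hMm : MeasurableSet M := measurableSet_toMeasurable _ _
  have h1 : ∀ᵐ V : Idx P → PhasePoint, μ (Prod.mk V ⁻¹' M) = 0 :=
    (Measure.measure_prod_null hMm).1 hM0
  have h2 := ae_tree hΦ hε P T h1
  set A : Set ((PhasePoint × Par P) × Ω) :=
    {q | Valid Φ ε P T q.1.1.2 q.1.2 ∧ (linesM Φ ε P q.1.1 q.1.2, q.2) ∈ M} with hA
  have hAm : MeasurableSet A := by
    refine MeasurableSet.inter ((measurableSet_valid hΦ ε P T).preimage measurable_fst) ?_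
    exact hMm.preimage (((measurable_linesM hΦ ε P).comp measurable_fst).prodMk measurable_snd)
  have hA0 : ((volume : Measure (PhasePoint × Par P)).prod μ) A = 0 := by
    rw [Measure.measure_prod_null hAm]
    filter_upwards [h2] with z hz
    by_cases hv : Valid Φ ε P T z.1.2 z.2
    · have h3 := hz hv
      refine measure_mono_null ?_ h3
      rintro w ⟨-, hw⟩
      have hw' : (linesM Φ ε P z.1 z.2, w) ∈ M := hw
      rw [linesM_of_adm ε hv.1] at hw'
      exact hw'
    · refine measure_mono_null ?_ (measure_empty (μ := μ))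
      rintro w ⟨hw, -⟩
      exact absurd hw hv
  filter_upwards [compl_mem_ae_iff.2 hA0] with q hq hv
  by_contra hQ
  refine hq ⟨hv, ?_⟩
  rw [linesM_of_adm ε hv.1]
  exact subset_toMeasurable _ _ hQ

/-! ### (T3) Worlds with exit lines are good -/

/-- **(T3)** All worlds `w +` (sub-family of lines of a valid separated tree) are good; families of
any particles, the root included if the tree is not a leaf. -/
theorem ae_okFam_tree (hΦ : AdmissiblePotential Φ) (hε : 0 < ε) (P : CTree) (T : ℝ) (m : ℕ) :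
    ∀ᵐ q : (PhasePoint × Par P) × Config m, Valid Φ ε P T q.1.1.2 q.1.2 →
      Sep Φ ε P T q.1.1 q.1.2 → q.2 ∈ PairExcluded ε m →
      ∀ (κ : Type) [Fintype κ] (j : κ → Idx P), Function.Injective j → (P = leaf → IsEmpty κ) →
        MW.OkFam Φ ε (MW.cfg q.2) fun x => lineML Φ ε P q.1 (j x) := by
  have h1 := ae_tree_prod hΦ hε P T (ae_okFam_cfg (α := Idx P) hΦ hε m)
  filter_upwards [h1] with q hq hv hs hw κ _ j hj hκ
  have hP : ∀ x : κ, P ≠ leaf := fun x h => (hκ h).false x
  have hrel : ∀ x : κ, 0 < rel P q.1.2 (j x) ∧ rel P q.1.2 (j x) < T := fun x =>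
    rel_mem hε.le (hP x) hv.2 (j x)
  refine hq hv hw (rel P q.1.2) T κ j _ hj (rel_tree hΦ hε hv hs fun h => ?_) (fun x => ?_)
    (fun x y hxy hxy' => ?_)
  · have := hκ h
    exact range_eq_empty j
  · exact lineML_fst hΦ hε hv hs (j x) (hrel x).1.le (hrel x).2.le
  · exact startSep_tree hε hv hs (fun h => hxy (hj h)) hxy'

/-- **(T3)** Exit lines. -/
theorem ae_allOk (hΦ : AdmissiblePotential Φ) (hε : 0 < ε) (P : CTree) (T : ℝ) (m : ℕ) :
    ∀ᵐ q : (PhasePoint × Par P) × Config m, Valid Φ ε P T q.1.1.2 q.1.2 →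
      Sep Φ ε P T q.1.1 q.1.2 → q.2 ∈ PairExcluded ε m → AllOk Φ ε q.2 (exL Φ ε P q.1) := by
  filter_upwards [ae_okFam_tree hΦ hε P T m] with q hq hv hs hw
  refine hq hv hs hw {x : Idx P // x ≠ root P} Subtype.val Subtype.val_injective fun h => ?_
  subst h
  exact ⟨fun x => x.2 rfl⟩

/-- **The input `OkNull` of H12.** -/
theorem okNull (hΦ : AdmissiblePotential Φ) (f₀ : PhasePoint → ℝ) (T' : ℝ) (K : ℕ) :
    OkNull Φ f₀ T' K :=
  OkAE302.okNull_of_ae one_pos fun _ hε _ P _ m => ae_allOk hΦ hε P T' m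

end Crest.Agent.R122.AllOk663

end
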