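import Crest.Agent.R122.CausalGenInf_291

/-!
# Alteration chains for abstract pairs of worlds (row 122, blocks A4 / H12, helper151)

Abstract version (contact relations with births allowed) of 291's `IsAltTime` / `AltCh` and of 45's
`AltAt` / `Alt`:

* `Loc2` : local uniqueness of a group in presence of a second group which is known to agree;
* `IsAltTime`, `exists_altTime` : the alteration time of a common particle;
* `AltCh`, `altCh_of_isAltTime`, `exists_altCh` : every alteration has a reason (closed contacts AT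
  the alteration times, in one of the two worlds);
* `AChain` : explicit finite chain with distinct particles; `exists_aChain`.
-/

set_option autoImplicit false

open Set Filter Topology

namespace Crest.Agent.R122.AltGen151

open Crest.Agent.R122.Causal291 Crest.Agent.R122.CausalGen291

variable {ι₁ ι₂ κ : Type} {X : Type*}

/-- Local uniqueness of the group `G` in presence of a second group `U` which is known to agree. -/
def Loc2 (T : ℝ) (C₁ : ℝ → ι₁ → ι₁ → Prop) (z₁ : ℝ → ι₁ → X) (C₂ : ℝ → ι₂ → ι₂ → Prop)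
    (z₂ : ℝ → ι₂ → X) (e₁ : κ → ι₁) (e₂ : κ → ι₂) : Prop :=
  ∀ (G U : Set κ) (a b : ℝ), 0 ≤ a → a ≤ b → b ≤ T →
    (∀ s ∈ Icc a b, ∀ k ∈ G, ∀ j, j ∉ e₁ '' (G ∪ U) → ¬ C₁ s (e₁ k) j) →
    (∀ s ∈ Icc a b, ∀ k ∈ G, ∀ j, j ∉ e₂ '' (G ∪ U) → ¬ C₂ s (e₂ k) j) →
    (∀ s ∈ Icc a b, ∀ k ∈ U, z₁ s (e₁ k) = z₂ s (e₂ k)) →
    (∀ k ∈ G, z₁ a (e₁ k) = z₂ a (e₂ k)) → ∀ s ∈ Icc a b, ∀ k ∈ G, z₁ s (e₁ k) = z₂ s (e₂ k)

/-- `θ` is the alteration time of `k`: equal states on `[0, θ]`, different states at times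
arbitrarily close after `θ`. -/
structure IsAltTime (z₁ : ℝ → ι₁ → X) (z₂ : ℝ → ι₂ → X) (e₁ : κ → ι₁)
    (e₂ : κ → ι₂) (θ : ℝ) (k : κ) : Prop where
  nonneg : 0 ≤ θ
  agree : ∀ s ∈ Icc 0 θ, z₁ s (e₁ k) = z₂ s (e₂ k)
  differ : ∀ δ > 0, ∃ s, θ < s ∧ s < θ + δ ∧ z₁ s (e₁ k) ≠ z₂ s (e₂ k)

section basic

variable {z₁ : ℝ → ι₁ → X} {z₂ : ℝ → ι₂ → X} {e₁ : κ → ι₁} {e₂ : κ → ι₂}

theorem IsAltTime.symm {θ : ℝ} {k : κ} (h : IsAltTime z₁ z₂ e₁ e₂ θ k) :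
    IsAltTime z₂ z₁ e₂ e₁ θ k where
  nonneg := h.nonneg
  agree s hs := (h.agree s hs).symm
  differ δ hδ := by
    obtain ⟨s, h1, h2, h3⟩ := h.differ δ hδ
    exact ⟨s, h1, h2, h3.symm⟩

theorem IsAltTime.unique {θ θ' : ℝ} {k : κ} (h : IsAltTime z₁ z₂ e₁ e₂ θ k)
    (h' : IsAltTime z₁ z₂ e₁ e₂ θ' k) : θ = θ' := by
  rcases lt_trichotomy θ θ' with h1 | h1 | h1
  · obtain ⟨s, hs1, hs2, hs3⟩ := h.differ (θ' - θ) (by linarith)
    exact absurd (h'.agree s ⟨h.nonneg.trans hs1.le, by linarith⟩) hs3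
  · exact h1
  · obtain ⟨s, hs1, hs2, hs3⟩ := h'.differ (θ - θ') (by linarith)
    exact absurd (h.agree s ⟨h'.nonneg.trans hs1.le, by linarith⟩) hs3

theorem IsAltTime.lt_of_diff {θ s : ℝ} {k : κ} (h : IsAltTime z₁ z₂ e₁ e₂ θ k) (hs : 0 ≤ s)
    (hd : z₁ s (e₁ k) ≠ z₂ s (e₂ k)) : θ < s := by
  by_contra hle
  push Not at hle
  exact hd (h.agree s ⟨hs, hle⟩)

/-- A particle with equal initial states which differs at time `s ≤ T` has an alteration time less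
than `s`. -/
theorem exists_altTime {T : ℝ} {k : κ}
    (hcl : IsClosed {s | s ∈ Icc 0 T ∧ z₁ s (e₁ k) = z₂ s (e₂ k)})
    (h0 : z₁ 0 (e₁ k) = z₂ 0 (e₂ k)) {s : ℝ} (hs : s ∈ Icc 0 T)
    (hd : z₁ s (e₁ k) ≠ z₂ s (e₂ k)) : ∃ θ, IsAltTime z₁ z₂ e₁ e₂ θ k ∧ θ < s := by
  set S : Set ℝ := {r | r ∈ Icc 0 s ∧ ∀ r' ∈ Icc 0 r, z₁ r' (e₁ k) = z₂ r' (e₂ k)} with hS
  have hne : (0 : ℝ) ∈ S := ⟨⟨le_rfl, hs.1⟩, fun r' hr' => by
    rw [le_antisymm hr'.2 hr'.1]; exact h0⟩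
  have hbdd : BddAbove S := ⟨s, fun r hr => hr.1.2⟩
  set θ := sSup S with hθ
  have hθ0 : 0 ≤ θ := le_csSup hbdd hne
  have hθs : θ ≤ s := csSup_le ⟨0, hne⟩ fun r hr => hr.1.2
  have hlt : ∀ r, 0 ≤ r → r < θ → z₁ r (e₁ k) = z₂ r (e₂ k) := by
    intro r hr hrθ
    obtain ⟨r', hr', hrr'⟩ := exists_lt_of_lt_csSup ⟨0, hne⟩ hrθ
    exact hr'.2 r ⟨hr, hrr'.le⟩
  have hat : z₁ θ (e₁ k) = z₂ θ (e₂ k) := by
    rcases eq_or_lt_of_le hθ0 with h1 | h1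
    · rw [← h1]; exact h0
    · have hsub : Ioo 0 θ ⊆ {s | s ∈ Icc 0 T ∧ z₁ s (e₁ k) = z₂ s (e₂ k)} := fun r hr =>
        ⟨⟨hr.1.le, hr.2.le.trans (hθs.trans hs.2)⟩, hlt r hr.1.le hr.2⟩
      have hmem : θ ∈ closure (Ioo 0 θ) := by
        rw [closure_Ioo h1.ne]
        exact ⟨hθ0, le_rfl⟩
      exact ((hcl.closure_subset_iff.2 hsub) hmem).2
  have hagree : ∀ r ∈ Icc 0 θ, z₁ r (e₁ k) = z₂ r (e₂ k) := by
    intro r hr
    rcases lt_or_eq_of_le hr.2 with h1 | h1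
    · exact hlt r hr.1 h1
    · rw [h1]; exact hat
  have hθs' : θ < s := lt_of_le_of_ne hθs (by rintro h1; rw [h1] at hat; exact hd hat)
  refine ⟨θ, ⟨hθ0, hagree, fun δ hδ => ?_⟩, hθs'⟩
  by_contra hno
  push Not at hno
  set r := min (θ + δ / 2) s with hr
  have hr1 : θ < r := lt_min (by linarith) hθs'
  have hr2 : r < θ + δ := (min_le_left _ _).trans_lt (by linarith)
  have hrS : r ∈ S := by
    refine ⟨⟨hθ0.trans hr1.le, min_le_right _ _⟩, fun r' hr' => ?_⟩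
    rcases le_or_gt r' θ with h1 | h1
    · exact hagree r' ⟨hr'.1, h1⟩
    · exact hno r' h1 (hr'.2.trans_lt hr2)
  exact absurd (le_csSup hbdd hrS) (not_le.2 hr1)

end basic

/-- Alteration chains: every link is a contact, in one of the two worlds, AT the alteration time of
the later particle, with a particle which is not common or with a particle whose own alteration
time is not larger. -/
inductive AltCh (C₁ : ℝ → ι₁ → ι₁ → Prop) (z₁ : ℝ → ι₁ → X) (C₂ : ℝ → ι₂ → ι₂ → Prop)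
    (z₂ : ℝ → ι₂ → X) (e₁ : κ → ι₁) (e₂ : κ → ι₂) : ℝ → κ → Prop
  | new₁ {θ : ℝ} {k : κ} (h : IsAltTime z₁ z₂ e₁ e₂ θ k) (j : ι₁) (hj : j ∉ range e₁)
      (hc : C₁ θ j (e₁ k)) : AltCh C₁ z₁ C₂ z₂ e₁ e₂ θ k
  | new₂ {θ : ℝ} {k : κ} (h : IsAltTime z₁ z₂ e₁ e₂ θ k) (j : ι₂) (hj : j ∉ range e₂)
      (hc : C₂ θ j (e₂ k)) : AltCh C₁ z₁ C₂ z₂ e₁ e₂ θ k
  | chain₁ {θ θ' : ℝ} {k l : κ} (h : IsAltTime z₁ z₂ e₁ e₂ θ k)
      (hl : AltCh C₁ z₁ C₂ z₂ e₁ e₂ θ' l) (hθ : θ' ≤ θ) (hc : C₁ θ (e₁ l) (e₁ k)) :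
      AltCh C₁ z₁ C₂ z₂ e₁ e₂ θ k
  | chain₂ {θ θ' : ℝ} {k l : κ} (h : IsAltTime z₁ z₂ e₁ e₂ θ k)
      (hl : AltCh C₁ z₁ C₂ z₂ e₁ e₂ θ' l) (hθ : θ' ≤ θ) (hc : C₂ θ (e₂ l) (e₂ k)) :
      AltCh C₁ z₁ C₂ z₂ e₁ e₂ θ k

section chain

variable {C₁ : ℝ → ι₁ → ι₁ → Prop} {C₂ : ℝ → ι₂ → ι₂ → Prop}
variable {z₁ : ℝ → ι₁ → X} {z₂ : ℝ → ι₂ → X} {e₁ : κ → ι₁} {e₂ : κ → ι₂} {T : ℝ}

theorem AltCh.isAltTime {θ : ℝ} {k : κ} (h : AltCh C₁ z₁ C₂ z₂ e₁ e₂ θ k) :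
    IsAltTime z₁ z₂ e₁ e₂ θ k := by
  cases h with
  | new₁ h _ _ _ => exact h
  | new₂ h _ _ _ => exact h
  | chain₁ h _ _ _ => exact h
  | chain₂ h _ _ _ => exact h

theorem AltCh.symm {θ : ℝ} {k : κ} (h : AltCh C₁ z₁ C₂ z₂ e₁ e₂ θ k) :
    AltCh C₂ z₂ C₁ z₁ e₂ e₁ θ k := by
  induction h with
  | new₁ h j hj hc => exact .new₂ h.symm j hj hc
  | new₂ h j hj hc => exact .new₁ h.symm j hj hc
  | chain₁ h _ hθ hc ih => exact .chain₂ h.symm ih hθ hc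
  | chain₂ h _ hθ hc ih => exact .chain₁ h.symm ih hθ hc

theorem AltCh.fut {θ : ℝ} {k : κ} (h : AltCh C₁ z₁ C₂ z₂ e₁ e₂ θ k) :
    Fut C₁ z₁ C₂ z₂ e₁ e₂ θ k := by
  induction h with
  | new₁ h j hj hc => exact .new₁ j hj hc h.nonneg le_rfl
  | new₂ h j hj hc => exact .new₂ j hj hc h.nonneg le_rfl
  | chain₁ h hl hθ hc ih => exact .chain₁ (ih.mono hθ) hc le_rfl
  | chain₂ h hl hθ hc ih => exact .chain₂ (ih.mono hθ) hc le_rfl

/-- **Alteration chains exist.** If all common particles have equal initial states, then every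
particle with an alteration time less than `T` is at the end of an alteration chain. -/
theorem altCh_of_isAltTime [Finite ι₁] [Finite ι₂] [Finite κ]
    (hp : Pair T C₁ z₁ C₂ z₂ e₁ e₂) (hloc : Loc2 T C₁ z₁ C₂ z₂ e₁ e₂)
    (h0 : ∀ k, z₁ 0 (e₁ k) = z₂ 0 (e₂ k)) {θ : ℝ} {k : κ} (h : IsAltTime z₁ z₂ e₁ e₂ θ k)
    (hθT : θ < T) : AltCh C₁ z₁ C₂ z₂ e₁ e₂ θ k := by
  classical
  by_contra hk
  -- bad particles
  let B : Set (κ × ℝ) := {p | IsAltTime z₁ z₂ e₁ e₂ p.2 p.1 ∧ p.2 < T ∧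
    ¬ AltCh C₁ z₁ C₂ z₂ e₁ e₂ p.2 p.1}
  have hBfin : B.Finite := by
    have hinj : Set.InjOn Prod.fst B := by
      rintro ⟨k, θ⟩ hp ⟨k', θ'⟩ hp' hkk'
      simp only at hkk'
      subst hkk'
      have h5 : θ = θ' := hp.1.unique hp'.1
      rw [h5]
    exact Set.Finite.of_finite_image (Set.toFinite _) hinj
  have hBne : B.Nonempty := ⟨(k, θ), h, hθT, hk⟩
  obtain ⟨⟨k₀, θ₀⟩, hp₀, hmin⟩ := hBfin.exists_minimalFor Prod.snd B hBne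
  have hmin' : ∀ k' θ', IsAltTime z₁ z₂ e₁ e₂ θ' k' → θ' < θ₀ →
      AltCh C₁ z₁ C₂ z₂ e₁ e₂ θ' k' := by
    intro k' θ' h' hlt
    by_contra hno
    have := hmin (j := (k', θ')) ⟨h', hlt.trans hp₀.2.1, hno⟩ hlt.le
    exact absurd hlt (not_lt.2 this)
  have hθ₀ : 0 ≤ θ₀ := hp₀.1.nonneg
  have hθ₀T : θ₀ < T := hp₀.2.1
  -- the three groups
  let G : Set κ := {l | IsAltTime z₁ z₂ e₁ e₂ θ₀ l ∧ ¬ AltCh C₁ z₁ C₂ z₂ e₁ e₂ θ₀ l}
  let D : Set κ := {l | ∃ θ', θ' ≤ θ₀ ∧ AltCh C₁ z₁ C₂ z₂ e₁ e₂ θ' l}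
  let U : Set κ := (G ∪ D)ᶜ
  -- every particle of `U` agrees a bit beyond `θ₀`
  have hU : ∀ l ∈ U, ∃ δ > 0, ∀ s ∈ Icc 0 (θ₀ + δ), s ≤ T → z₁ s (e₁ l) = z₂ s (e₂ l) := by
    intro l hl
    by_cases hex : ∃ s ∈ Icc 0 T, z₁ s (e₁ l) ≠ z₂ s (e₂ l)
    · obtain ⟨s, hs, hd⟩ := hex
      obtain ⟨θ', hθ', hθ's⟩ := exists_altTime (hp.eqc l) (h0 l) hs hd
      have hlt : θ₀ < θ' := by
        by_contra hle
        push Not at hle
        rcases lt_or_eq_of_le hle with h1 | h1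
        · exact hl (Or.inr ⟨θ', hle, hmin' l θ' hθ' h1⟩)
        · subst h1
          by_cases hA : AltCh C₁ z₁ C₂ z₂ e₁ e₂ θ' l
          · exact hl (Or.inr ⟨θ', le_rfl, hA⟩)
          · exact hl (Or.inl ⟨hθ', hA⟩)
      refine ⟨θ' - θ₀, by linarith, fun s hs _ => hθ'.agree s ⟨hs.1, by linarith [hs.2]⟩⟩
    · push Not at hex
      exact ⟨1, one_pos, fun s hs hsT => hex s ⟨hs.1, hsT⟩⟩
  choose! δU hδU hU using hU
  -- common `δ` for `U`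
  have hδ : ∃ δ > 0, ∀ l ∈ U, δ ≤ δU l := by
    by_cases hUe : U.Nonempty
    · obtain ⟨l₀, hl₀, hmin₀⟩ := (Set.toFinite U).exists_minimalFor δU U hUe
      refine ⟨δU l₀, hδU l₀ hl₀, fun l hl => ?_⟩
      rcases le_total (δU l₀) (δU l) with h1 | h1
      · exact h1
      · exact hmin₀ hl h1
    · exact ⟨1, one_pos, fun l hl => absurd ⟨l, hl⟩ hUe⟩
  obtain ⟨δ₀, hδ₀, hδ₀U⟩ := hδ
  -- isolation of `G` from everything outside `G ∪ U` at time `θ₀`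
  have hGD₁ : ∀ x ∈ e₁ '' G, ∀ j ∈ (e₁ '' (G ∪ U))ᶜ, ¬ C₁ θ₀ x j := by
    rintro _ ⟨l, hl, rfl⟩ j hj hc'
    have hc : C₁ θ₀ j (e₁ l) := hp.symm₁ _ _ _ hc'
    by_cases hjr : j ∈ range e₁
    · obtain ⟨m, rfl⟩ := hjr
      have hm : m ∈ D := by
        by_contra hmD
        refine hj ⟨m, ?_, rfl⟩
        by_cases hmG : m ∈ G
        · exact Or.inl hmG
        · exact Or.inr fun hmGD => hmGD.elim hmG hmD
      obtain ⟨θ', hθ', hm'⟩ := hm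
      exact hl.2 (.chain₁ hl.1 hm' hθ' hc)
    · exact hl.2 (.new₁ hl.1 j hjr hc)
  have hGD₂ : ∀ x ∈ e₂ '' G, ∀ j ∈ (e₂ '' (G ∪ U))ᶜ, ¬ C₂ θ₀ x j := by
    rintro _ ⟨l, hl, rfl⟩ j hj hc'
    have hc : C₂ θ₀ j (e₂ l) := hp.symm₂ _ _ _ hc'
    by_cases hjr : j ∈ range e₂
    · obtain ⟨m, rfl⟩ := hjr
      have hm : m ∈ D := by
        by_contra hmD
        refine hj ⟨m, ?_, rfl⟩
        by_cases hmG : m ∈ G
        · exact Or.inl hmG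
        · exact Or.inr fun hmGD => hmGD.elim hmG hmD
      obtain ⟨θ', hθ', hm'⟩ := hm
      exact hl.2 (.chain₂ hl.1 hm' hθ' hc)
    · exact hl.2 (.new₂ hl.1 j hjr hc)
  obtain ⟨δ₁, hδ₁, hδ₁T, hi₁⟩ := exists_isolated hp.closed₁ ⟨hθ₀, hθ₀T⟩ (e₁ '' G)
    (e₁ '' (G ∪ U))ᶜ (fun x hx hx' => hx' (image_mono subset_union_left hx)) hGD₁
  obtain ⟨δ₂, hδ₂, hδ₂T, hi₂⟩ := exists_isolated hp.closed₂ ⟨hθ₀, hθ₀T⟩ (e₂ '' G)
    (e₂ '' (G ∪ U))ᶜ (fun x hx hx' => hx' (image_mono subset_union_left hx)) hGD₂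
  set δ := min δ₀ (min δ₁ δ₂) with hδdef
  have hδpos : 0 < δ := lt_min hδ₀ (lt_min hδ₁ hδ₂)
  have hle₀ : δ ≤ δ₀ := min_le_left _ _
  have hle₁ : δ ≤ δ₁ := (min_le_right _ _).trans (min_le_left _ _)
  have hle₂ : δ ≤ δ₂ := (min_le_right _ _).trans (min_le_right _ _)
  have key := hloc G U θ₀ (θ₀ + δ) hθ₀ (by linarith) (by linarith)
    (fun s hs l hl j hj => hi₁ s ⟨hs.1, hs.2.trans (by linarith)⟩ _ ⟨l, hl, rfl⟩ j hj)
    (fun s hs l hl j hj => hi₂ s ⟨hs.1, hs.2.trans (by linarith)⟩ _ ⟨l, hl, rfl⟩ j hj)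
    (fun s hs l hl => hU l hl s ⟨hθ₀.trans hs.1, hs.2.trans (by linarith [hδ₀U l hl])⟩
      (hs.2.trans (by linarith)))
    (fun l hl => hl.1.agree θ₀ ⟨hθ₀, le_rfl⟩)
  obtain ⟨s, hs1, hs2, hs3⟩ := hp₀.1.differ δ hδpos
  exact hs3 (key s ⟨hs1.le, hs2.le⟩ k₀ ⟨hp₀.1, hp₀.2.2⟩)

/-- Every particle which differs at some time `s ≤ T` is at the end of an alteration chain, with
alteration time less than `s`. -/
theorem exists_altCh [Finite ι₁] [Finite ι₂] [Finite κ]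
    (hp : Pair T C₁ z₁ C₂ z₂ e₁ e₂) (hloc : Loc2 T C₁ z₁ C₂ z₂ e₁ e₂)
    (h0 : ∀ k, z₁ 0 (e₁ k) = z₂ 0 (e₂ k)) {s : ℝ} (hs : s ∈ Icc 0 T) {k : κ}
    (hd : z₁ s (e₁ k) ≠ z₂ s (e₂ k)) : ∃ θ < s, AltCh C₁ z₁ C₂ z₂ e₁ e₂ θ k := by
  obtain ⟨θ, hθ, hθs⟩ := exists_altTime (hp.eqc k) (h0 k) hs hd
  exact ⟨θ, hθs, altCh_of_isAltTime hp hloc h0 hθ (hθs.trans_le hs.2)⟩

end chain

/-! ### Explicit chains -/

/-- An explicit alteration chain `k 0, …, k n` with alteration times `θ 0 ≤ … ≤ θ n`, the particles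
being distinct: the first one is altered by a contact with a particle which is not common, and each
other one by a contact with its predecessor; all contacts take place at the alteration time of the
later particle, in one of the two worlds. -/
structure AChain (C₁ : ℝ → ι₁ → ι₁ → Prop) (z₁ : ℝ → ι₁ → X) (C₂ : ℝ → ι₂ → ι₂ → Prop)
    (z₂ : ℝ → ι₂ → X) (e₁ : κ → ι₁) (e₂ : κ → ι₂) (n : ℕ) (θ : ℕ → ℝ) (k : ℕ → κ) : Prop where
  alt : ∀ i ≤ n, IsAltTime z₁ z₂ e₁ e₂ (θ i) (k i)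
  mono : ∀ i < n, θ i ≤ θ (i + 1)
  link : ∀ i < n, C₁ (θ (i + 1)) (e₁ (k i)) (e₁ (k (i + 1))) ∨
    C₂ (θ (i + 1)) (e₂ (k i)) (e₂ (k (i + 1)))
  src : (∃ j, j ∉ range e₁ ∧ C₁ (θ 0) j (e₁ (k 0))) ∨ ∃ j, j ∉ range e₂ ∧ C₂ (θ 0) j (e₂ (k 0))
  inj : ∀ i ≤ n, ∀ i' ≤ n, k i = k i' → i = i'

section achain

variable {C₁ : ℝ → ι₁ → ι₁ → Prop} {C₂ : ℝ → ι₂ → ι₂ → Prop}
variable {z₁ : ℝ → ι₁ → X} {z₂ : ℝ → ι₂ → X} {e₁ : κ → ι₁} {e₂ : κ → ι₂} {T : ℝ}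

theorem AChain.mono_le {n : ℕ} {θ : ℕ → ℝ} {k : ℕ → κ}
    (h : AChain C₁ z₁ C₂ z₂ e₁ e₂ n θ k) {i j : ℕ} (hij : i ≤ j) (hj : j ≤ n) : θ i ≤ θ j := by
  induction j, hij using Nat.le_induction with
  | base => exact le_rfl
  | succ j hij ih => exact (ih (by omega)).trans (h.mono j (by omega))

theorem AChain.altCh {n : ℕ} {θ : ℕ → ℝ} {k : ℕ → κ}
    (h : AChain C₁ z₁ C₂ z₂ e₁ e₂ n θ k) {i : ℕ} (hi : i ≤ n) :
    AltCh C₁ z₁ C₂ z₂ e₁ e₂ (θ i) (k i) := by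
  induction i with
  | zero =>
    rcases h.src with ⟨j, hj, hc⟩ | ⟨j, hj, hc⟩
    · exact .new₁ (h.alt 0 (Nat.zero_le _)) j hj hc
    · exact .new₂ (h.alt 0 (Nat.zero_le _)) j hj hc
  | succ i ih =>
    rcases h.link i (by omega) with hc | hc
    · exact .chain₁ (h.alt _ hi) (ih (by omega)) (h.mono i (by omega)) hc
    · exact .chain₂ (h.alt _ hi) (ih (by omega)) (h.mono i (by omega)) hc

theorem AChain.fut {n : ℕ} {θ : ℕ → ℝ} {k : ℕ → κ}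
    (h : AChain C₁ z₁ C₂ z₂ e₁ e₂ n θ k) {i : ℕ} (hi : i ≤ n) :
    Fut C₁ z₁ C₂ z₂ e₁ e₂ (θ i) (k i) := (h.altCh hi).fut

/-- The number of links is less than the number of common particles. -/
theorem AChain.lt_card [Finite κ] {n : ℕ} {θ : ℕ → ℝ} {k : ℕ → κ}
    (h : AChain C₁ z₁ C₂ z₂ e₁ e₂ n θ k) : n < Nat.card κ := by
  have := Fintype.ofFinite κ
  have h1 : Function.Injective (fun i : Fin (n + 1) => k i) := fun i j hij =>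
    Fin.ext (h.inj i (by omega) j (by omega) hij)
  have h2 := Fintype.card_le_of_injective _ h1
  rw [Nat.card_eq_fintype_card]
  simpa using h2

/-- **Explicit chains.** -/
theorem AltCh.exists_aChain {θ₀ : ℝ} {k₀ : κ} (h : AltCh C₁ z₁ C₂ z₂ e₁ e₂ θ₀ k₀) :
    ∃ (n : ℕ) (θ : ℕ → ℝ) (k : ℕ → κ), AChain C₁ z₁ C₂ z₂ e₁ e₂ n θ k ∧ θ n = θ₀ ∧ k n = k₀ := by
  classical
  induction h with
  | @new₁ θ₀ k₀ h j hj hc =>
    exact ⟨0, fun _ => θ₀, fun _ => k₀, ⟨fun _ _ => h, by simp, by simp, Or.inl ⟨j, hj, hc⟩,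
      by intro i hi i' hi' _; omega⟩, rfl, rfl⟩
  | @new₂ θ₀ k₀ h j hj hc =>
    exact ⟨0, fun _ => θ₀, fun _ => k₀, ⟨fun _ _ => h, by simp, by simp, Or.inr ⟨j, hj, hc⟩,
      by intro i hi i' hi' _; omega⟩, rfl, rfl⟩
  | @chain₁ θ₀ θ' k₀ l h hl hθ hc ih => exact extend h (Or.inl hc) hθ ih
  | @chain₂ θ₀ θ' k₀ l h hl hθ hc ih => exact extend h (Or.inr hc) hθ ih
where
  extend {θ₀ θ' : ℝ} {k₀ l : κ} (h : IsAltTime z₁ z₂ e₁ e₂ θ₀ k₀)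
      (hc : C₁ θ₀ (e₁ l) (e₁ k₀) ∨ C₂ θ₀ (e₂ l) (e₂ k₀)) (hθ : θ' ≤ θ₀)
      (ih : ∃ (n : ℕ) (θ : ℕ → ℝ) (k : ℕ → κ), AChain C₁ z₁ C₂ z₂ e₁ e₂ n θ k ∧ θ n = θ' ∧
        k n = l) :
      ∃ (n : ℕ) (θ : ℕ → ℝ) (k : ℕ → κ), AChain C₁ z₁ C₂ z₂ e₁ e₂ n θ k ∧ θ n = θ₀ ∧
        k n = k₀ := by
    obtain ⟨n, θ, k, hch, hn, hkn⟩ := ih
    by_cases hin : ∃ i ≤ n, k i = k₀
    · -- `k₀` occurs already: truncate
      obtain ⟨i, hi, hki⟩ := hin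
      have hθi : θ i = θ₀ := by
        have h1 := hch.alt i hi
        rw [hki] at h1
        exact h1.unique h
      exact ⟨i, θ, k, ⟨fun j hj => hch.alt j (hj.trans hi), fun j hj => hch.mono j (by omega),
        fun j hj => hch.link j (by omega), hch.src,
        fun j hj j' hj' => hch.inj j (hj.trans hi) j' (hj'.trans hi)⟩, hθi, hki⟩
    · push Not at hin
      refine ⟨n + 1, fun i => if i ≤ n then θ i else θ₀, fun i => if i ≤ n then k i else k₀,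
        ⟨?_, ?_, ?_, ?_, ?_⟩, by simp, by simp⟩
      · intro i hi
        by_cases h1 : i ≤ n
        · simpa [h1] using hch.alt i h1
        · simpa [h1] using h
      · intro i hi
        have h1 : i ≤ n := by omega
        by_cases h2 : i + 1 ≤ n
        · simpa [h1, h2] using hch.mono i (by omega)
        · have h3 : i = n := by omega
          subst h3
          simpa [h2, hn] using hθ
      · intro i hi
        have h1 : i ≤ n := by omega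
        by_cases h2 : i + 1 ≤ n
        · simpa [h1, h2] using hch.link i (by omega)
        · have h3 : i = n := by omega
          subst h3
          simpa [h2, hkn] using hc
      · simpa using hch.src
      · intro i hi i' hi' hkk
        by_cases h1 : i ≤ n <;> by_cases h2 : i' ≤ n
        · simp only [h1, h2, if_true] at hkk
          exact hch.inj i h1 i' h2 hkk
        · simp only [h1, h2, if_true, if_false] at hkk
          exact absurd hkk (hin i h1)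
        · simp only [h1, h2, if_true, if_false] at hkk
          exact absurd hkk.symm (hin i' h2)
        · omega

/-- Every particle which differs at some time `s ≤ T` is at the end of an explicit alteration chain
with alteration times less than `s`. -/
theorem exists_aChain [Finite ι₁] [Finite ι₂] [Finite κ]
    (hp : Pair T C₁ z₁ C₂ z₂ e₁ e₂) (hloc : Loc2 T C₁ z₁ C₂ z₂ e₁ e₂)
    (h0 : ∀ k, z₁ 0 (e₁ k) = z₂ 0 (e₂ k)) {s : ℝ} (hs : s ∈ Icc 0 T) {k₀ : κ}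
    (hd : z₁ s (e₁ k₀) ≠ z₂ s (e₂ k₀)) :
    ∃ (n : ℕ) (θ : ℕ → ℝ) (k : ℕ → κ), AChain C₁ z₁ C₂ z₂ e₁ e₂ n θ k ∧ θ n < s ∧ k n = k₀ := by
  obtain ⟨θ₀, hθ₀, hch⟩ := exists_altCh hp hloc h0 hs hd
  obtain ⟨n, θ, k, h1, h2, h3⟩ := hch.exists_aChain
  exact ⟨n, θ, k, h1, h2 ▸ hθ₀, h3⟩

end achain

end Crest.Agent.R122.AltGen151
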