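import Mathlib

/-!
# General autonomous flows (row 122, block F1a)

`gflow F U t x` is the flow at time `t` of the autonomous vector field `F`, started at `x`, inside the
set `U` (identity where no global solution inside `U` exists).
-/

set_option autoImplicit false

open MeasureTheory Set Filter Topology
open scoped NNReal

namespace Crest.Agent.R122.Flow671

variable {E : Type*} [NormedAddCommGroup E] [NormedSpace ℝ E]

/-- `γ` is a global solution of `γ' = F γ` inside `U`. -/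
def IsSol (F : E → E) (U : Set E) (γ : ℝ → E) : Prop :=
  ∀ t, γ t ∈ U ∧ HasDerivAt γ (F (γ t)) t

/-- The flow of `F` inside `U`. -/
noncomputable def gflow (F : E → E) (U : Set E) (t : ℝ) (x : E) : E :=
  open scoped Classical in
  if h : ∃ γ : ℝ → E, γ 0 = x ∧ IsSol F U γ then h.choose t else x

theorem IsSol.continuous {F : E → E} {U : Set E} {γ : ℝ → E} (h : IsSol F U γ) : Continuous γ :=
  continuous_iff_continuousAt.2 fun t => (h t).2.continuousAt

theorem IsSol.shift {F : E → E} {U : Set E} {γ : ℝ → E} (h : IsSol F U γ) (s : ℝ) :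
    IsSol F U (fun t => γ (s + t)) := by
  intro t
  refine ⟨(h (s + t)).1, ?_⟩
  have := (h (s + t)).2.scomp t ((hasDerivAt_id t).const_add s)
  simpa [Function.comp_def] using this

theorem IsSol.mono {F : E → E} {U V : Set E} {γ : ℝ → E} (h : IsSol F U γ) (hUV : U ⊆ V) :
    IsSol F V γ := fun t => ⟨hUV (h t).1, (h t).2⟩

theorem IsSol.congr {F G : E → E} {U : Set E} {γ : ℝ → E} (h : IsSol F U γ) (hFG : EqOn F G U) :
    IsSol G U γ := fun t => ⟨(h t).1, by rw [← hFG (h t).1]; exact (h t).2⟩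

/-- Uniqueness, forward in time, on a closed interval, for curves solving the equation (one-sided
derivatives suffice) in an open set on which the field is locally Lipschitz. -/
theorem unique_Icc_right {F : E → E} {U : Set E} (hF : LocallyLipschitzOn U F)
    {γ₁ γ₂ : ℝ → E} {a b : ℝ}
    (h₁c : ContinuousOn γ₁ (Icc a b)) (h₂c : ContinuousOn γ₂ (Icc a b))
    (h₁ : ∀ t ∈ Ico a b, HasDerivWithinAt γ₁ (F (γ₁ t)) (Ici t) t)
    (h₂ : ∀ t ∈ Ico a b, HasDerivWithinAt γ₂ (F (γ₂ t)) (Ici t) t)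
    (hU₁ : ∀ t ∈ Icc a b, γ₁ t ∈ U) (hU₂ : ∀ t ∈ Icc a b, γ₂ t ∈ U)
    (h0 : γ₁ a = γ₂ a) : EqOn γ₁ γ₂ (Icc a b) := by
  classical
  set K : Set E := γ₁ '' Icc a b ∪ γ₂ '' Icc a b with hK
  have hKc : IsCompact K := (isCompact_Icc.image_of_continuousOn h₁c).union
    (isCompact_Icc.image_of_continuousOn h₂c)
  have hKU : K ⊆ U := by
    rintro x (⟨t, ht, rfl⟩ | ⟨t, ht, rfl⟩)
    · exact hU₁ t ht
    · exact hU₂ t ht
  obtain ⟨C, hC⟩ := (hF.mono hKU).exists_lipschitzOnWith_of_compact hKc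
  exact ODE_solution_unique_of_mem_Icc_right (v := fun _ => F) (s := fun _ => K) (K := C)
    (fun t _ => hC) h₁c h₁ (fun t ht => Or.inl ⟨t, Ico_subset_Icc_self ht, rfl⟩)
    h₂c h₂ (fun t ht => Or.inr ⟨t, Ico_subset_Icc_self ht, rfl⟩) h0

/-- Uniqueness, backward in time. -/
theorem unique_Icc_left {F : E → E} {U : Set E} (hF : LocallyLipschitzOn U F)
    {γ₁ γ₂ : ℝ → E} {a b : ℝ}
    (h₁c : ContinuousOn γ₁ (Icc a b)) (h₂c : ContinuousOn γ₂ (Icc a b))
    (h₁ : ∀ t ∈ Ioc a b, HasDerivWithinAt γ₁ (F (γ₁ t)) (Iic t) t)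
    (h₂ : ∀ t ∈ Ioc a b, HasDerivWithinAt γ₂ (F (γ₂ t)) (Iic t) t)
    (hU₁ : ∀ t ∈ Icc a b, γ₁ t ∈ U) (hU₂ : ∀ t ∈ Icc a b, γ₂ t ∈ U)
    (h0 : γ₁ b = γ₂ b) : EqOn γ₁ γ₂ (Icc a b) := by
  classical
  set K : Set E := γ₁ '' Icc a b ∪ γ₂ '' Icc a b with hK
  have hKc : IsCompact K := (isCompact_Icc.image_of_continuousOn h₁c).union
    (isCompact_Icc.image_of_continuousOn h₂c)
  have hKU : K ⊆ U := by
    rintro x (⟨t, ht, rfl⟩ | ⟨t, ht, rfl⟩)
    · exact hU₁ t ht
    · exact hU₂ t ht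
  obtain ⟨C, hC⟩ := (hF.mono hKU).exists_lipschitzOnWith_of_compact hKc
  exact ODE_solution_unique_of_mem_Icc_left (v := fun _ => F) (s := fun _ => K) (K := C)
    (fun t _ => hC) h₁c h₁ (fun t ht => Or.inl ⟨t, Ioc_subset_Icc_self ht, rfl⟩)
    h₂c h₂ (fun t ht => Or.inr ⟨t, Ioc_subset_Icc_self ht, rfl⟩) h0

/-- Uniqueness on a closed interval for two curves which solve the equation at every point of the
interval (derivative within the interval) and agree at one point of the interval. -/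
theorem unique_Icc {F : E → E} {U : Set E} (hF : LocallyLipschitzOn U F)
    {γ₁ γ₂ : ℝ → E} {a b t₀ : ℝ} (ht₀ : t₀ ∈ Icc a b)
    (h₁ : ∀ t ∈ Icc a b, HasDerivWithinAt γ₁ (F (γ₁ t)) (Icc a b) t)
    (h₂ : ∀ t ∈ Icc a b, HasDerivWithinAt γ₂ (F (γ₂ t)) (Icc a b) t)
    (hU₁ : ∀ t ∈ Icc a b, γ₁ t ∈ U) (hU₂ : ∀ t ∈ Icc a b, γ₂ t ∈ U)
    (h0 : γ₁ t₀ = γ₂ t₀) : EqOn γ₁ γ₂ (Icc a b) := by
  have c₁ : ContinuousOn γ₁ (Icc a b) := fun t ht => (h₁ t ht).continuousWithinAt
  have c₂ : ContinuousOn γ₂ (Icc a b) := fun t ht => (h₂ t ht).continuousWithinAt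
  have hsR : Icc t₀ b ⊆ Icc a b := Icc_subset_Icc_left ht₀.1
  have hsL : Icc a t₀ ⊆ Icc a b := Icc_subset_Icc_right ht₀.2
  have hR : EqOn γ₁ γ₂ (Icc t₀ b) := by
    refine unique_Icc_right hF (c₁.mono hsR) (c₂.mono hsR) ?_ ?_ (fun t ht => hU₁ t (hsR ht))
      (fun t ht => hU₂ t (hsR ht)) h0
    · intro t ht
      refine (h₁ t (hsR (Ico_subset_Icc_self ht))).mono_of_mem_nhdsWithin ?_
      exact mem_of_superset (Icc_mem_nhdsGE ht.2) (Icc_subset_Icc_left (ht₀.1.trans ht.1))
    · intro t ht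
      refine (h₂ t (hsR (Ico_subset_Icc_self ht))).mono_of_mem_nhdsWithin ?_
      exact mem_of_superset (Icc_mem_nhdsGE ht.2) (Icc_subset_Icc_left (ht₀.1.trans ht.1))
  have hL : EqOn γ₁ γ₂ (Icc a t₀) := by
    refine unique_Icc_left hF (c₁.mono hsL) (c₂.mono hsL) ?_ ?_ (fun t ht => hU₁ t (hsL ht))
      (fun t ht => hU₂ t (hsL ht)) h0
    · intro t ht
      refine (h₁ t (hsL (Ioc_subset_Icc_self ht))).mono_of_mem_nhdsWithin ?_
      exact mem_of_superset (Icc_mem_nhdsLE ht.1) (Icc_subset_Icc_right (ht.2.trans ht₀.2))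
    · intro t ht
      refine (h₂ t (hsL (Ioc_subset_Icc_self ht))).mono_of_mem_nhdsWithin ?_
      exact mem_of_superset (Icc_mem_nhdsLE ht.1) (Icc_subset_Icc_right (ht.2.trans ht₀.2))
  intro t ht
  rcases le_total t t₀ with h | h
  · exact hL ⟨ht.1, h⟩
  · exact hR ⟨h, ht.2⟩

theorem IsSol.unique {F : E → E} {U : Set E} (hF : LocallyLipschitzOn U F)
    {γ₁ γ₂ : ℝ → E} (h₁ : IsSol F U γ₁) (h₂ : IsSol F U γ₂) {t₀ : ℝ} (h0 : γ₁ t₀ = γ₂ t₀) :
    γ₁ = γ₂ := by
  funext t
  have ht : t ∈ Icc (min t t₀) (max t t₀) := ⟨min_le_left _ _, le_max_left _ _⟩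
  have ht₀ : t₀ ∈ Icc (min t t₀) (max t t₀) := ⟨min_le_right _ _, le_max_right _ _⟩
  exact unique_Icc hF ht₀ (fun s _ => (h₁ s).2.hasDerivWithinAt)
    (fun s _ => (h₂ s).2.hasDerivWithinAt) (fun s _ => (h₁ s).1) (fun s _ => (h₂ s).1) h0 ht

/-- A vector field which is locally Lipschitz on `U` and complete on `U`. -/
structure Complete (F : E → E) (U : Set E) : Prop where
  lip : LocallyLipschitzOn U F
  exists_sol : ∀ x ∈ U, ∃ γ : ℝ → E, γ 0 = x ∧ IsSol F U γ

namespace Complete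

variable {F : E → E} {U : Set E}

theorem isSol (h : Complete F U) {x : E} (hx : x ∈ U) : IsSol F U (fun t => gflow F U t x) := by
  classical
  have hex := h.exists_sol x hx
  have : (fun t => gflow F U t x) = hex.choose := by
    funext t
    rw [gflow, dif_pos hex]
  rw [this]
  exact hex.choose_spec.2

theorem flow_zero (_h : Complete F U) (x : E) : gflow F U 0 x = x := by
  classical
  by_cases hex : ∃ γ : ℝ → E, γ 0 = x ∧ IsSol F U γ
  · rw [gflow, dif_pos hex]; exact hex.choose_spec.1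
  · rw [gflow, dif_neg hex]

theorem flow_of_not_mem {x : E} (hx : x ∉ U) (t : ℝ) : gflow F U t x = x := by
  classical
  rw [gflow, dif_neg]
  rintro ⟨γ, h0, hγ⟩
  exact hx (h0 ▸ (hγ 0).1)

theorem hasDerivAt (h : Complete F U) {x : E} (hx : x ∈ U) (t : ℝ) :
    HasDerivAt (fun t => gflow F U t x) (F (gflow F U t x)) t := (h.isSol hx t).2

theorem flow_mem (h : Complete F U) {x : E} (hx : x ∈ U) (t : ℝ) : gflow F U t x ∈ U :=
  (h.isSol hx t).1

theorem eq_flow (h : Complete F U) {γ : ℝ → E} (hγ : IsSol F U γ) (t : ℝ) :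
    γ t = gflow F U t (γ 0) := by
  have := IsSol.unique h.lip hγ (h.isSol (hγ 0).1) (t₀ := 0) (by rw [h.flow_zero])
  exact congrFun this t

/-- Uniqueness on a closed interval: every curve solving the equation inside `U` at all points of an
interval containing `0` is the flow there. -/
theorem eq_flow_Icc (h : Complete F U) {γ : ℝ → E} {a b : ℝ} (h0 : (0 : ℝ) ∈ Icc a b)
    (hγ : ∀ t ∈ Icc a b, HasDerivWithinAt γ (F (γ t)) (Icc a b) t)
    (hU : ∀ t ∈ Icc a b, γ t ∈ U) {t : ℝ} (ht : t ∈ Icc a b) :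
    γ t = gflow F U t (γ 0) := by
  have hx := hU 0 h0
  exact unique_Icc h.lip h0 hγ (fun s _ => (h.hasDerivAt hx s).hasDerivWithinAt) hU
    (fun s _ => h.flow_mem hx s) (by rw [h.flow_zero]) ht

theorem flow_add (h : Complete F U) (s t : ℝ) (x : E) :
    gflow F U (s + t) x = gflow F U t (gflow F U s x) := by
  by_cases hx : x ∈ U
  · have := h.eq_flow ((h.isSol hx).shift s) t
    simpa using this
  · rw [flow_of_not_mem hx, flow_of_not_mem hx, flow_of_not_mem hx]

theorem flow_neg_flow (h : Complete F U) (t : ℝ) (x : E) :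
    gflow F U (-t) (gflow F U t x) = x := by
  rw [← h.flow_add, add_neg_cancel, h.flow_zero]

theorem flow_flow_neg (h : Complete F U) (t : ℝ) (x : E) :
    gflow F U t (gflow F U (-t) x) = x := by
  rw [← h.flow_add, neg_add_cancel, h.flow_zero]

/-- The time-`t` map as a bijection of the whole space. -/
noncomputable def equiv (h : Complete F U) (t : ℝ) : E ≃ E where
  toFun := gflow F U t
  invFun := gflow F U (-t)
  left_inv := h.flow_neg_flow t
  right_inv := h.flow_flow_neg t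

theorem bijective (h : Complete F U) (t : ℝ) : Function.Bijective (gflow F U t) :=
  (h.equiv t).bijective

theorem preimage_eq_image_neg (h : Complete F U) (t : ℝ) (A : Set E) :
    gflow F U t ⁻¹' A = gflow F U (-t) '' A := by
  ext x
  constructor
  · intro hx
    exact ⟨gflow F U t x, hx, h.flow_neg_flow t x⟩
  · rintro ⟨y, hy, rfl⟩
    simpa [h.flow_flow_neg t y] using hy

theorem mem_iff (h : Complete F U) (t : ℝ) (x : E) : gflow F U t x ∈ U ↔ x ∈ U := by
  constructor
  · intro hx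
    by_contra hn
    rw [flow_of_not_mem hn] at hx
    exact hn hx
  · intro hx
    exact h.flow_mem hx t

/-- If a point's trajectory for the field `F` inside `U` also stays in a set on which `F = G`, it is
the trajectory of `G`. -/
theorem flow_eq_of_eqOn {G : E → E} {V : Set E} (hF : Complete F U) (hG : Complete G V)
    {x : E} (hx : x ∈ U) (hmem : ∀ t, gflow F U t x ∈ V) (heq : ∀ t, F (gflow F U t x) = G (gflow F U t x))
    (t : ℝ) : gflow F U t x = gflow G V t x := by
  have : IsSol G V (fun t => gflow F U t x) := fun t =>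
    ⟨hmem t, by rw [← heq t]; exact hF.hasDerivAt hx t⟩
  have h := hG.eq_flow this t
  simpa [hF.flow_zero] using h

end Complete

/-- Gluing: a uniform local existence time gives global solutions. -/
theorem exists_global_of_uniform {F : E → E} (hF : LocallyLipschitz F) {ε : ℝ} (hε : 0 < ε)
    (h : ∀ x : E, ∃ γ : ℝ → E, γ 0 = x ∧ ∀ t ∈ Icc (-ε) ε, HasDerivWithinAt γ (F (γ t)) (Icc (-ε) ε) t)
    (x : E) : ∃ γ : ℝ → E, γ 0 = x ∧ IsSol F univ γ := by
  choose φ hφ0 hφ using h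
  have hFU : LocallyLipschitzOn univ F := hF.locallyLipschitzOn
  set h : ℝ := ε / 2 with hh
  have hpos : 0 < h := by positivity
  -- shift property
  have hshift : ∀ (x : E) (s : ℝ), s ∈ Icc (-h) h → ∀ r ∈ Icc (-h) h,
      φ (φ x s) r = φ x (s + r) := by
    intro x s hs r hr
    have hsub : ∀ u ∈ Icc (-h) h, s + u ∈ Icc (-ε) ε := by
      intro u hu
      constructor <;> [linarith [hs.1, hu.1]; linarith [hs.2, hu.2]]
    have hmaps : MapsTo (fun u => s + u) (Icc (-h) h) (Icc (-ε) ε) := hsub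
    have h2 : ∀ u ∈ Icc (-h) h, HasDerivWithinAt (fun u => φ x (s + u)) (F (φ x (s + u)))
        (Icc (-h) h) u := by
      intro u hu
      have h1 := hφ x (s + u) (hsub u hu)
      have h3 := h1.scomp u (((hasDerivAt_id u).const_add s).hasDerivWithinAt (s := Icc (-h) h)) hmaps
      simpa [Function.comp_def] using h3
    have hsub' : Icc (-h) h ⊆ Icc (-ε) ε := Icc_subset_Icc (by linarith) (by linarith)
    have h3 : ∀ u ∈ Icc (-h) h, HasDerivWithinAt (φ (φ x s)) (F (φ (φ x s) u)) (Icc (-h) h) u :=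
      fun u hu => (hφ (φ x s) u (hsub' hu)).mono hsub'
    have h0mem : (0 : ℝ) ∈ Icc (-h) h := ⟨by linarith, by linarith⟩
    exact unique_Icc hFU h0mem h3 h2 (fun _ _ => mem_univ _) (fun _ _ => mem_univ _)
      (by simp [hφ0]) hr
  have hmemh : h ∈ Icc (-h) h := ⟨by linarith, le_rfl⟩
  have hmemnh : -h ∈ Icc (-h) h := ⟨le_rfl, by linarith⟩
  let T : Equiv.Perm E :=
    { toFun := fun x => φ x h
      invFun := fun x => φ x (-h)
      left_inv := fun x => by
        change φ (φ x h) (-h) = x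
        rw [hshift x h hmemh (-h) hmemnh, add_neg_cancel, hφ0]
      right_inv := fun x => by
        change φ (φ x (-h)) h = x
        rw [hshift x (-h) hmemnh h hmemh, neg_add_cancel, hφ0] }
  have hT : ∀ (n : ℤ), (T ^ (n + 1)) x = φ ((T ^ n) x) h := by
    intro n
    rw [add_comm, zpow_add, zpow_one, Equiv.Perm.mul_apply]
    rfl
  let γ : ℝ → E := fun t => φ ((T ^ ⌊t / h⌋) x) (t - ⌊t / h⌋ * h)
  have hloc : ∀ (n : ℤ) (t : ℝ), t ∈ Ioo (((n : ℝ) - 1) * h) (((n : ℝ) + 1) * h) →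
      γ t = φ ((T ^ n) x) (t - n * h) := by
    intro n t ht
    rcases le_or_gt ((n : ℝ) * h) t with hle | hlt
    · have : ⌊t / h⌋ = n := by
        rw [Int.floor_eq_iff]
        constructor
        · rw [le_div_iff₀ hpos]; exact hle
        · rw [div_lt_iff₀ hpos]; exact ht.2
      change φ ((T ^ ⌊t / h⌋) x) (t - ⌊t / h⌋ * h) = _
      rw [this]
    · have : ⌊t / h⌋ = n - 1 := by
        rw [Int.floor_eq_iff]
        push_cast
        constructor
        · rw [le_div_iff₀ hpos]; exact ht.1.le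
        · rw [div_lt_iff₀ hpos]; linarith
      change φ ((T ^ ⌊t / h⌋) x) (t - ⌊t / h⌋ * h) = _
      rw [this]
      have hT' := hT (n - 1)
      rw [sub_add_cancel] at hT'
      rw [hT', hshift _ h hmemh (t - n * h)]
      · congr 1
        push_cast
        ring
      · constructor
        · nlinarith [ht.1]
        · nlinarith [ht.2]
  refine ⟨γ, ?_, fun t => ⟨mem_univ _, ?_⟩⟩
  · change φ ((T ^ ⌊(0 : ℝ) / h⌋) x) (0 - ⌊(0 : ℝ) / h⌋ * h) = x
    simp [hφ0]
  · set n : ℤ := ⌊t / h⌋ with hn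
    have h1 : (n : ℝ) * h ≤ t := by
      have := Int.floor_le (t / h)
      rwa [le_div_iff₀ hpos] at this
    have h2 : t < ((n : ℝ) + 1) * h := by
      have := Int.lt_floor_add_one (t / h)
      rwa [div_lt_iff₀ hpos] at this
    have ht : t ∈ Ioo (((n : ℝ) - 1) * h) (((n : ℝ) + 1) * h) := ⟨by nlinarith, h2⟩
    have hev : γ =ᶠ[𝓝 t] fun t => φ ((T ^ n) x) (t - n * h) := by
      filter_upwards [Ioo_mem_nhds ht.1 ht.2] with s hs using hloc n s hs
    have hmem : t - n * h ∈ Ioo (-ε) ε := by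
      constructor
      · linarith
      · nlinarith
    have h3 : HasDerivAt (φ ((T ^ n) x)) (F (φ ((T ^ n) x) (t - n * h))) (t - n * h) :=
      (hφ ((T ^ n) x) (t - n * h) (Ioo_subset_Icc_self hmem)).hasDerivAt (Icc_mem_nhds hmem.1 hmem.2)
    have h4 := h3.scomp t ((hasDerivAt_id t).sub_const (n * h))
    rw [hloc n t ht]
    refine HasDerivAt.congr_of_eventuallyEq ?_ hev
    simpa [Function.comp_def] using h4

/-- Global existence for globally Lipschitz vector fields. -/
theorem complete_of_lipschitz [CompleteSpace E] {F : E → E} {K : ℝ≥0}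
    (hL : LipschitzWith K F) : Complete F univ := by
  refine ⟨(hL.locallyLipschitz).locallyLipschitzOn, fun x _ => ?_⟩
  -- uniform local existence time
  set ε : ℝ := 1 / (2 * (1 + (K : ℝ))) with hε
  have hKpos : (0 : ℝ) < 1 + K := by positivity
  have hεpos : 0 < ε := by positivity
  refine exists_global_of_uniform hL.locallyLipschitz hεpos (fun x => ?_) x
  set A : ℝ := ‖F x‖ + 1 with hA
  have hApos : 0 < A := by positivity
  have hpl : IsPicardLindelof (fun _ : ℝ => F) (tmin := -ε) (tmax := ε)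
      ⟨0, ⟨by linarith, hεpos.le⟩⟩ x ⟨A, hApos.le⟩ 0 ⟨‖F x‖ + K * A, by positivity⟩ K := by
    refine ⟨fun t _ => hL.lipschitzOnWith, fun y _ => continuousOn_const, ?_, ?_⟩
    · intro t _ y hy
      have h1 := hL.dist_le_mul y x
      rw [dist_eq_norm] at h1
      have h2 : dist y x ≤ A := hy
      have h3 : ‖F y‖ ≤ ‖F x‖ + ‖F y - F x‖ := by
        have := norm_add_le (F x) (F y - F x)
        simpa using this
      have h4 : (K : ℝ) * dist y x ≤ K * A := by gcongr
      change ‖F y‖ ≤ ‖F x‖ + K * A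
      linarith
    · change (‖F x‖ + K * A) * max (ε - 0) (0 - -ε) ≤ A - 0
      have h1 : max (ε - 0) (0 - -ε) = ε := by simp
      rw [h1, sub_zero]
      have h2 : ‖F x‖ + K * A ≤ (1 + K) * A := by nlinarith [norm_nonneg (F x)]
      have h3 : (1 + (K : ℝ)) * ε = 1 / 2 := by rw [hε]; field_simp
      calc (‖F x‖ + K * A) * ε ≤ ((1 + K) * A) * ε := by gcongr
        _ = ((1 + K) * ε) * A := by ring
        _ = A / 2 := by rw [h3]; ring
        _ ≤ A := by linarith
  obtain ⟨α, h0, hα⟩ := hpl.exists_eq_forall_mem_Icc_hasDerivWithinAt₀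
  exact ⟨α, h0, hα⟩

end Crest.Agent.R122.Flow671
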