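import Mathlib
import Crest.Prelude.Def_KineticLimit
import Crest.Agent.R122.FlowLip_671

/-!
# The Newton field on configurations indexed by an arbitrary finite type (row 122, block F1b, part 1)

* `grad_zero`, `grad_neg`, `grad_contDiffOn`: facts on `gradient Φ` for admissible `Φ`.
* `nf Φ ε Z`: Newton field on `ι → PhasePoint`; `newtonField Φ ε n = nf Φ ε`.
* `SmoothPot Φ`: even `C²` potentials with range one; the field is globally Lipschitz, the flow is
  complete and volume preserving, energy is conserved.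
-/

set_option autoImplicit false
set_option linter.unusedSectionVars false

open MeasureTheory Set Filter Topology
open scoped NNReal ENNReal
open Crest.AnalysisR.Kinetic

namespace Crest.Agent.R122.Flow671

/-! ## Facts on the gradient -/

theorem gradient_neg_of_even {Φ : Space3 → ℝ} (h : ∀ q, Φ (-q) = Φ q) (q : Space3) :
    gradient Φ (-q) = -gradient Φ q := by
  have h1 : fderiv ℝ Φ (-q) = -fderiv ℝ Φ q := by
    have h2 : fderiv ℝ (fun x => Φ (-x)) q = -fderiv ℝ Φ (-q) := by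
      have := fderiv_comp_smul (𝕜 := ℝ) (f := Φ) (x := q) (-1 : ℝ)
      simpa using this
    have h3 : (fun x => Φ (-x)) = Φ := funext h
    rw [h3] at h2
    rw [h2, neg_neg]
  unfold gradient
  rw [h1, map_neg]

theorem gradient_zero_of_even {Φ : Space3 → ℝ} (h : ∀ q, Φ (-q) = Φ q) : gradient Φ 0 = 0 := by
  have := gradient_neg_of_even h 0
  rw [neg_zero] at this
  have h2 : (2 : ℝ) • gradient Φ 0 = 0 := by
    rw [two_smul]
    nth_rewrite 2 [this]
    exact add_neg_cancel _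
  exact (smul_eq_zero.1 h2).resolve_left (by norm_num)

theorem AdmissiblePotential.even {Φ : Space3 → ℝ} (hΦ : AdmissiblePotential Φ) (q : Space3) :
    Φ (-q) = Φ q := hΦ.radial _ _ (norm_neg q)

theorem gradient_congr_nhds {Φ Ψ : Space3 → ℝ} {q : Space3} (h : Φ =ᶠ[𝓝 q] Ψ) :
    gradient Φ q = gradient Ψ q := by
  unfold gradient
  rw [h.fderiv_eq]

theorem contDiffOn_gradient {Φ : Space3 → ℝ} {s : Set Space3} (hs : IsOpen s)
    (h : ContDiffOn ℝ 2 Φ s) : ContDiffOn ℝ 1 (gradient Φ) s := by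
  have h1 : ContDiffOn ℝ 1 (fderiv ℝ Φ) s := h.fderiv_of_isOpen hs (by norm_num)
  exact (((InnerProductSpace.toDual ℝ Space3).symm.contDiff).of_le le_top).comp_contDiffOn h1

theorem contDiff_gradient {Φ : Space3 → ℝ} (h : ContDiff ℝ 2 Φ) : ContDiff ℝ 1 (gradient Φ) := by
  rw [← contDiffOn_univ] at h ⊢
  exact contDiffOn_gradient isOpen_univ h

/-- The gradient vanishes where the norm is at least one. -/
theorem gradient_eq_zero_of_one_le {Φ : Space3 → ℝ} (hd : ContDiffOn ℝ 2 Φ {q : Space3 | q ≠ 0})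
    (h0 : ∀ q : Space3, 1 ≤ ‖q‖ → Φ q = 0) {q : Space3} (hq : 1 ≤ ‖q‖) : gradient Φ q = 0 := by
  have hopen : IsOpen {q : Space3 | q ≠ 0} := isOpen_ne
  -- strictly outside
  have hout : ∀ p : Space3, 1 < ‖p‖ → gradient Φ p = 0 := by
    intro p hp
    have hev : Φ =ᶠ[𝓝 p] fun _ => (0 : ℝ) := by
      filter_upwards [(isOpen_lt continuous_const continuous_norm).mem_nhds hp] with x hx
      exact h0 x (le_of_lt hx)
    rw [gradient_congr_nhds hev]
    simp [gradient]
  have hq0 : q ≠ 0 := by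
    intro h
    rw [h, norm_zero] at hq
    linarith
  have hcont : ContinuousAt (gradient Φ) q :=
    ((contDiffOn_gradient hopen hd).continuousOn).continuousAt (hopen.mem_nhds hq0)
  -- limit along the outward ray
  have hcurve : Tendsto (fun s : ℝ => (1 + s) • q) (𝓝[>] 0) (𝓝 q) := by
    have : Tendsto (fun s : ℝ => (1 + s) • q) (𝓝 0) (𝓝 ((1 + 0 : ℝ) • q)) :=
      ((continuous_const.add continuous_id).smul continuous_const).tendsto 0
    simp only [add_zero, one_smul] at this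
    exact this.mono_left nhdsWithin_le_nhds
  have h1 : Tendsto (fun s : ℝ => gradient Φ ((1 + s) • q)) (𝓝[>] 0) (𝓝 (gradient Φ q)) :=
    hcont.tendsto.comp hcurve
  have h2 : Tendsto (fun s : ℝ => gradient Φ ((1 + s) • q)) (𝓝[>] 0) (𝓝 0) := by
    refine tendsto_const_nhds.congr' ?_
    filter_upwards [self_mem_nhdsWithin] with s hs
    have hs' : (0 : ℝ) < s := hs
    rw [hout]
    rw [norm_smul, Real.norm_eq_abs, abs_of_pos (by linarith)]
    nlinarith
  exact tendsto_nhds_unique h1 h2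

theorem grad_zero {Φ : Space3 → ℝ} (hΦ : AdmissiblePotential Φ) {q : Space3} (hq : 1 ≤ ‖q‖) :
    gradient Φ q = 0 :=
  gradient_eq_zero_of_one_le hΦ.contDiff_away_from_origin hΦ.eq_zero_of_one_le_norm hq

theorem grad_neg {Φ : Space3 → ℝ} (hΦ : AdmissiblePotential Φ) (q : Space3) :
    gradient Φ (-q) = -gradient Φ q := gradient_neg_of_even (AdmissiblePotential.even hΦ) q

theorem grad_origin {Φ : Space3 → ℝ} (hΦ : AdmissiblePotential Φ) : gradient Φ 0 = 0 :=
  gradient_zero_of_even (AdmissiblePotential.even hΦ)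

/-! ## The Newton field over a finite index type -/

variable {ι κ : Type*} [Fintype ι] [Fintype κ]

/-- Newton's field on configurations indexed by an arbitrary finite type. -/
noncomputable def nf (Φ : Space3 → ℝ) (ε : ℝ) (Z : ι → PhasePoint) : ι → PhasePoint :=
  fun i => ((Z i).2, -(1 / ε) • ∑ j, gradient Φ ((1 / ε) • ((Z i).1 - (Z j).1)))

theorem newtonField_eq_nf' {Φ : Space3 → ℝ} (h0 : gradient Φ 0 = 0) (ε : ℝ) (n : ℕ) :
    newtonField Φ ε n = nf Φ ε := by
  funext Z i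
  unfold newtonField nf
  congr 2
  refine Finset.sum_congr rfl fun j _ => ?_
  by_cases h : j = i
  · subst h
    rw [if_pos rfl, sub_self, smul_zero, h0]
  · rw [if_neg h]

theorem newtonField_eq_nf {Φ : Space3 → ℝ} (hΦ : AdmissiblePotential Φ) (ε : ℝ) (n : ℕ) :
    newtonField Φ ε n = nf Φ ε := newtonField_eq_nf' (grad_origin hΦ) ε n

/-- The total energy: kinetic plus interaction energy (each unordered pair counted once). -/
noncomputable def energy (Φ : Space3 → ℝ) (ε : ℝ) (Z : ι → PhasePoint) : ℝ :=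
  (1 / 2) * ∑ i, ‖(Z i).2‖ ^ 2 +
    (1 / 2) * (∑ i, ∑ j, Φ ((1 / ε) • ((Z i).1 - (Z j).1)) - Fintype.card ι * Φ 0)

theorem hasDerivAt_pos {F : (ι → PhasePoint) → ι → PhasePoint} {γ : ℝ → ι → PhasePoint} {t : ℝ}
    (h : HasDerivAt γ (F (γ t)) t) (i : ι) : HasDerivAt (fun s => (γ s i).1) ((F (γ t) i).1) t := by
  have h1 := (hasDerivAt_pi.1 h) i
  exact (ContinuousLinearMap.fst ℝ Space3 Space3).hasFDerivAt.comp_hasDerivAt t h1

theorem hasDerivAt_vel {F : (ι → PhasePoint) → ι → PhasePoint} {γ : ℝ → ι → PhasePoint} {t : ℝ}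
    (h : HasDerivAt γ (F (γ t)) t) (i : ι) : HasDerivAt (fun s => (γ s i).2) ((F (γ t) i).2) t := by
  have h1 := (hasDerivAt_pi.1 h) i
  exact (ContinuousLinearMap.snd ℝ Space3 Space3).hasFDerivAt.comp_hasDerivAt t h1

/-- Energy has zero derivative along a solution. -/
theorem energy_hasDerivAt_zero {Φ : Space3 → ℝ} (hodd : ∀ q, gradient Φ (-q) = -gradient Φ q)
    {ε : ℝ} {γ : ℝ → ι → PhasePoint} {t : ℝ} (hγ : HasDerivAt γ (nf Φ ε (γ t)) t)
    (hd : ∀ i j, i ≠ j → DifferentiableAt ℝ Φ ((1 / ε) • ((γ t i).1 - (γ t j).1))) :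
    HasDerivAt (fun s => energy Φ ε (γ s)) 0 t := by
  have h0 : gradient Φ 0 = 0 := by
    have := hodd 0
    rw [neg_zero] at this
    have h2 : (2 : ℝ) • gradient Φ 0 = 0 := by
      rw [two_smul]
      nth_rewrite 2 [this]
      exact add_neg_cancel _
    exact (smul_eq_zero.1 h2).resolve_left (by norm_num)
  set q : ι → ι → Space3 := fun i j => (1 / ε) • ((γ t i).1 - (γ t j).1) with hq
  -- kinetic part
  have hK : HasDerivAt (fun s => (1 / 2 : ℝ) * ∑ i, ‖(γ s i).2‖ ^ 2)
      ((1 / 2 : ℝ) * ∑ i, (2 * inner ℝ (γ t i).2 (nf Φ ε (γ t) i).2)) t := by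
    refine HasDerivAt.const_mul _ (HasDerivAt.fun_sum fun i _ => ?_)
    exact (hasDerivAt_vel hγ i).norm_sq
  -- potential part
  have hP : ∀ i j, HasDerivAt (fun s => Φ ((1 / ε) • ((γ s i).1 - (γ s j).1)))
      (inner ℝ (gradient Φ (q i j)) ((1 / ε) • ((γ t i).2 - (γ t j).2))) t := by
    intro i j
    by_cases hij : i = j
    · subst hij
      have : (fun s => Φ ((1 / ε) • ((γ s i).1 - (γ s i).1))) = fun _ => Φ 0 := by
        funext s; rw [sub_self, smul_zero]
      rw [this]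
      simp only [sub_self, smul_zero, inner_zero_right]
      exact hasDerivAt_const _ _
    · have h1 : HasFDerivAt Φ (fderiv ℝ Φ (q i j)) (q i j) := (hd i j hij).hasFDerivAt
      have h2 : HasDerivAt (fun s => (1 / ε) • ((γ s i).1 - (γ s j).1))
          ((1 / ε) • ((γ t i).2 - (γ t j).2)) t :=
        ((hasDerivAt_pos hγ i).sub (hasDerivAt_pos hγ j)).const_smul (1 / ε)
      have h3 := h1.comp_hasDerivAt t h2
      have h4 : fderiv ℝ Φ (q i j) ((1 / ε) • ((γ t i).2 - (γ t j).2))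
          = inner ℝ (gradient Φ (q i j)) ((1 / ε) • ((γ t i).2 - (γ t j).2)) := by
        rw [gradient, InnerProductSpace.toDual_symm_apply]
      rw [← h4]
      exact h3
  have hPP : HasDerivAt (fun s => (1 / 2 : ℝ) * (∑ i, ∑ j, Φ ((1 / ε) • ((γ s i).1 - (γ s j).1))
      - Fintype.card ι * Φ 0))
      ((1 / 2 : ℝ) * (∑ i, ∑ j, inner ℝ (gradient Φ (q i j)) ((1 / ε) • ((γ t i).2 - (γ t j).2)))) t := by
    refine HasDerivAt.const_mul _ (HasDerivAt.sub_const _ ?_)
    exact HasDerivAt.fun_sum fun i _ => HasDerivAt.fun_sum fun j _ => hP i j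
  have htot := hK.add hPP
  have hval : (1 / 2 : ℝ) * ∑ i, (2 * inner ℝ (γ t i).2 (nf Φ ε (γ t) i).2)
      + (1 / 2 : ℝ) * (∑ i, ∑ j, inner ℝ (gradient Φ (q i j)) ((1 / ε) • ((γ t i).2 - (γ t j).2))) = 0 := by
    have e1 : ∀ i, inner ℝ (γ t i).2 (nf Φ ε (γ t) i).2
        = -(1 / ε) * ∑ j, inner ℝ (gradient Φ (q i j)) (γ t i).2 := by
      intro i
      change inner ℝ (γ t i).2 (-(1 / ε) • ∑ j, gradient Φ (q i j)) = _
      rw [real_inner_comm, inner_smul_left, sum_inner]
      rfl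
    have e2 : ∑ i, ∑ j, inner ℝ (gradient Φ (q i j)) ((1 / ε) • ((γ t i).2 - (γ t j).2))
        = (1 / ε) * (2 * ∑ i, ∑ j, inner ℝ (gradient Φ (q i j)) (γ t i).2) := by
      have e3 : ∑ i, ∑ j, inner ℝ (gradient Φ (q i j)) (γ t j).2
          = -∑ i, ∑ j, inner ℝ (gradient Φ (q i j)) (γ t i).2 := by
        rw [Finset.sum_comm, ← Finset.sum_neg_distrib]
        refine Finset.sum_congr rfl fun i _ => ?_
        rw [← Finset.sum_neg_distrib]
        refine Finset.sum_congr rfl fun j _ => ?_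
        have : q j i = -q i j := by
          simp only [hq]
          rw [← smul_neg, neg_sub]
        rw [this, hodd, inner_neg_left]
      simp only [inner_smul_right, inner_sub_right]
      simp only [← Finset.mul_sum, Finset.sum_sub_distrib, e3]
      ring
    rw [e2]
    simp only [e1]
    rw [← Finset.mul_sum, ← Finset.mul_sum]
    ring
  rw [hval] at htot
  exact htot

/-- Total momentum has zero derivative along a solution. -/
theorem momentum_hasDerivAt_zero {Φ : Space3 → ℝ} (hodd : ∀ q, gradient Φ (-q) = -gradient Φ q)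
    {ε : ℝ} {γ : ℝ → ι → PhasePoint} {t : ℝ} (hγ : HasDerivAt γ (nf Φ ε (γ t)) t) :
    HasDerivAt (fun s => ∑ i, (γ s i).2) 0 t := by
  have h1 : HasDerivAt (fun s => ∑ i, (γ s i).2) (∑ i, (nf Φ ε (γ t) i).2) t :=
    HasDerivAt.fun_sum fun i _ => hasDerivAt_vel hγ i
  have h2 : ∑ i, (nf Φ ε (γ t) i).2 = 0 := by
    change ∑ i, -(1 / ε) • ∑ j, gradient Φ ((1 / ε) • ((γ t i).1 - (γ t j).1)) = 0
    rw [← Finset.smul_sum]
    have h3 : ∑ i, ∑ j, gradient Φ ((1 / ε) • ((γ t i).1 - (γ t j).1))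
        = -∑ i, ∑ j, gradient Φ ((1 / ε) • ((γ t i).1 - (γ t j).1)) := by
      nth_rewrite 1 [Finset.sum_comm]
      rw [← Finset.sum_neg_distrib]
      refine Finset.sum_congr rfl fun i _ => ?_
      rw [← Finset.sum_neg_distrib]
      refine Finset.sum_congr rfl fun j _ => ?_
      rw [← hodd, ← smul_neg, neg_sub]
    have h4 : (2 : ℝ) • ∑ i, ∑ j, gradient Φ ((1 / ε) • ((γ t i).1 - (γ t j).1)) = 0 := by
      rw [two_smul]
      nth_rewrite 2 [h3]
      exact add_neg_cancel _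
    rw [(smul_eq_zero.1 h4).resolve_left (by norm_num), smul_zero]
  rw [h2] at h1
  exact h1

/-! ## Nice potentials -/

/-- Even twice continuously differentiable potentials of range one. -/
structure NicePot (Ψ : Space3 → ℝ) : Prop where
  smooth : ContDiff ℝ 2 Ψ
  even : ∀ q, Ψ (-q) = Ψ q
  range : ∀ q : Space3, 1 ≤ ‖q‖ → Ψ q = 0

namespace NicePot

variable {Ψ : Space3 → ℝ}

theorem grad_neg (h : NicePot Ψ) (q : Space3) : gradient Ψ (-q) = -gradient Ψ q :=
  gradient_neg_of_even h.even q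

theorem grad_origin (h : NicePot Ψ) : gradient Ψ 0 = 0 := gradient_zero_of_even h.even

theorem grad_zero (h : NicePot Ψ) {q : Space3} (hq : 1 ≤ ‖q‖) : gradient Ψ q = 0 :=
  gradient_eq_zero_of_one_le (h.smooth.contDiffOn) h.range hq

theorem grad_smooth (h : NicePot Ψ) : ContDiff ℝ 1 (gradient Ψ) := contDiff_gradient h.smooth

theorem grad_lipschitz (h : NicePot Ψ) : ∃ C : ℝ≥0, LipschitzWith C (gradient Ψ) := by
  refine ContDiff.lipschitzWith_of_hasCompactSupport (𝕂 := ℝ) (n := 1) ?_ h.grad_smooth (by norm_num)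
  refine HasCompactSupport.intro (isCompact_closedBall (0 : Space3) 1) fun q hq => ?_
  refine h.grad_zero ?_
  rw [mem_closedBall_zero_iff, not_le] at hq
  exact hq.le

/-- Acceleration as a function of the positions. -/
noncomputable def acc (Ψ : Space3 → ℝ) (ε : ℝ) (x : ι → Space3) : ι → Space3 :=
  fun i => -(1 / ε) • ∑ j, gradient Ψ ((1 / ε) • (x i - x j))

theorem acc_dist_le {C : ℝ≥0} (hC : LipschitzWith C (gradient Ψ)) {ε : ℝ} (hε : 0 < ε)
    (x y : ι → Space3) : dist (acc Ψ ε x) (acc Ψ ε y) ≤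
      (1 / ε) * (Fintype.card ι * (C * ((1 / ε) * 2))) * dist x y := by
  have hpos : 0 ≤ 1 / ε := by positivity
  rw [dist_pi_le_iff (by positivity)]
  intro i
  change dist (-(1 / ε) • ∑ j, gradient Ψ ((1 / ε) • (x i - x j)))
    (-(1 / ε) • ∑ j, gradient Ψ ((1 / ε) • (y i - y j))) ≤ _
  rw [dist_smul₀, norm_neg, Real.norm_of_nonneg hpos, mul_assoc]
  refine mul_le_mul_of_nonneg_left ?_ hpos
  refine (dist_sum_sum_le _ _ _).trans ?_
  have : ∀ j ∈ Finset.univ, dist (gradient Ψ ((1 / ε) • (x i - x j)))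
      (gradient Ψ ((1 / ε) • (y i - y j))) ≤ C * ((1 / ε) * 2) * dist x y := by
    intro j _
    refine (hC.dist_le_mul _ _).trans ?_
    rw [dist_smul₀, Real.norm_of_nonneg hpos, mul_assoc, mul_assoc]
    refine mul_le_mul_of_nonneg_left (mul_le_mul_of_nonneg_left ?_ hpos) C.2
    calc dist (x i - x j) (y i - y j) ≤ dist (x i) (y i) + dist (x j) (y j) := dist_sub_sub_le _ _ _ _
      _ ≤ dist x y + dist x y := add_le_add (dist_le_pi_dist x y i) (dist_le_pi_dist x y j)
      _ = 2 * dist x y := by ring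
  refine (Finset.sum_le_sum this).trans (le_of_eq ?_)
  rw [Finset.sum_const, Finset.card_univ, nsmul_eq_mul]
  ring

theorem nf_eq (ε : ℝ) (Z : ι → PhasePoint) :
    nf Ψ ε Z = fun i => ((Z i).2, acc Ψ ε (fun j => (Z j).1) i) := rfl

theorem dist_fst_le (Z W : ι → PhasePoint) :
    dist (fun j => (Z j).1) (fun j => (W j).1) ≤ dist Z W := by
  rw [dist_pi_le_iff dist_nonneg]
  intro i
  exact (le_max_left _ _).trans (dist_le_pi_dist Z W i)

theorem nf_lipschitz (h : NicePot Ψ) {ε : ℝ} (hε : 0 < ε) :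
    ∃ K : ℝ≥0, LipschitzWith K (nf (ι := ι) Ψ ε) := by
  obtain ⟨C, hC⟩ := h.grad_lipschitz
  set A : ℝ := (1 / ε) * (Fintype.card ι * (C * ((1 / ε) * 2))) with hA
  have hA0 : 0 ≤ A := by positivity
  refine ⟨⟨1 + A, by positivity⟩, LipschitzWith.of_dist_le_mul fun Z W => ?_⟩
  change dist (nf Ψ ε Z) (nf Ψ ε W) ≤ (1 + A) * dist Z W
  rw [dist_pi_le_iff (by positivity)]
  intro i
  rw [nf_eq, nf_eq, Prod.dist_eq]
  refine max_le ?_ ?_
  · have h1 : dist (Z i).2 (W i).2 ≤ dist Z W := (le_max_right _ _).trans (dist_le_pi_dist Z W i)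
    change dist (Z i).2 (W i).2 ≤ _
    nlinarith [dist_nonneg (x := Z) (y := W)]
  · change dist (acc Ψ ε (fun j => (Z j).1) i) (acc Ψ ε (fun j => (W j).1) i) ≤ _
    have h1 := (dist_le_pi_dist (acc Ψ ε (fun j => (Z j).1)) (acc Ψ ε (fun j => (W j).1)) i).trans
      (acc_dist_le hC hε _ _)
    have h2 := mul_le_mul_of_nonneg_left (dist_fst_le Z W) hA0
    have h3 := dist_nonneg (x := Z) (y := W)
    nlinarith

theorem complete (h : NicePot Ψ) {ε : ℝ} (hε : 0 < ε) : Complete (nf (ι := ι) Ψ ε) univ := by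
  obtain ⟨K, hK⟩ := h.nf_lipschitz (ι := ι) hε
  exact complete_of_lipschitz hK

theorem energy_flow (h : NicePot Ψ) {ε : ℝ} (hε : 0 < ε) (t : ℝ) (Z : ι → PhasePoint) :
    energy Ψ ε (gflow (nf Ψ ε) univ t Z) = energy Ψ ε Z := by
  have hc := h.complete (ι := ι) hε
  have hder : ∀ s, HasDerivAt (fun s => energy Ψ ε (gflow (nf Ψ ε) univ s Z)) 0 s := fun s =>
    energy_hasDerivAt_zero h.grad_neg (hc.hasDerivAt (mem_univ Z) s)
      (fun _ _ _ => (h.smooth.differentiable (by norm_num)) _)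
  have := is_const_of_deriv_eq_zero (fun s => (hder s).differentiableAt) (fun s => (hder s).deriv) t 0
  simpa [hc.flow_zero] using this

end NicePot

end Crest.Agent.R122.Flow671
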