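import Mathlib
import Crest.Prelude.Def_KineticLimit
import Crest.Agent.R122.Newton_671

/-!
# Liouville's theorem for nice potentials (row 122, block F1b, part 2)
-/

set_option autoImplicit false
set_option linter.unusedSectionVars false

open MeasureTheory Set Filter Topology
open scoped NNReal ENNReal
open Crest.AnalysisR.Kinetic

namespace Crest.Agent.R122.Flow671

variable {ι : Type*} [Fintype ι]

instance instHaarPhase : (volume : Measure PhasePoint).IsAddHaarMeasure :=
  inferInstanceAs ((volume : Measure Space3).prod (volume : Measure Space3)).IsAddHaarMeasure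

instance instHaarConfig : (volume : Measure (ι → PhasePoint)).IsAddHaarMeasure :=
  MeasureTheory.Measure.pi.isAddHaarMeasure (μ := fun _ : ι => (volume : Measure PhasePoint))

instance instLocFinConfig : IsLocallyFiniteMeasure (volume : Measure (ι → PhasePoint)) :=
  MeasureTheory.Measure.pi.isLocallyFiniteMeasure (μ := fun _ : ι => (volume : Measure PhasePoint))

instance instRegularConfig : (volume : Measure (ι → PhasePoint)).Regular :=
  Measure.Regular.of_sigmaCompactSpace_of_isLocallyFiniteMeasure _

/-- Free streaming by a time step `h`. -/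
def drift (h : ℝ) (Z : ι → PhasePoint) : ι → PhasePoint :=
  fun i => ((Z i).1 + h • (Z i).2, (Z i).2)

/-- Velocity kick by a time step `h`. -/
noncomputable def kick (Ψ : Space3 → ℝ) (ε h : ℝ) (Z : ι → PhasePoint) : ι → PhasePoint :=
  fun i => ((Z i).1, (Z i).2 + h • NicePot.acc Ψ ε (fun j => (Z j).1) i)

theorem measurePreserving_drift (h : ℝ) :
    MeasurePreserving (drift (ι := ι) h) volume volume := by
  have h1 : MeasurePreserving (fun z : PhasePoint => ((z.1 + h • z.2, z.2) : PhasePoint))
      volume volume := by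
    have h2 : MeasurePreserving (fun p : Space3 × Space3 => (p.1, p.2 + h • p.1))
        ((volume : Measure Space3).prod volume) ((volume : Measure Space3).prod volume) := by
      refine MeasurePreserving.skew_product (f := id) (MeasurePreserving.id _)
        (g := fun a c => c + h • a) ?_ ?_
      · fun_prop
      · refine Eventually.of_forall fun a => ?_
        exact (measurePreserving_add_right volume (h • a)).map_eq
    have h3 := (Measure.measurePreserving_swap (μ := (volume : Measure Space3))
      (ν := (volume : Measure Space3))).comp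
      (h2.comp (Measure.measurePreserving_swap (μ := (volume : Measure Space3))
        (ν := (volume : Measure Space3))))
    exact h3
  exact volume_preserving_pi (fun _ => h1)

theorem measurePreserving_kick {Ψ : Space3 → ℝ} (ε h : ℝ) (hc : Continuous (gradient Ψ)) :
    MeasurePreserving (kick (ι := ι) Ψ ε h) volume volume := by
  have hacc : Continuous (NicePot.acc (ι := ι) Ψ ε) := by
    refine continuous_pi fun i => ?_
    change Continuous fun x : ι → Space3 => -(1 / ε) • ∑ j, gradient Ψ ((1 / ε) • (x i - x j))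
    have : ∀ j, Continuous fun x : ι → Space3 => gradient Ψ ((1 / ε) • (x i - x j)) := by
      intro j
      refine hc.comp ?_
      fun_prop
    exact Continuous.const_smul (M := ℝ) (continuous_finsetSum _ fun j _ => this j) (-(1 / ε))
  have h2 : MeasurePreserving (fun p : (ι → Space3) × (ι → Space3) =>
      (p.1, p.2 + h • NicePot.acc Ψ ε p.1))
      ((volume : Measure (ι → Space3)).prod volume) ((volume : Measure (ι → Space3)).prod volume) := by
    refine MeasurePreserving.skew_product (f := id) (MeasurePreserving.id _)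
      (g := fun a c => c + h • NicePot.acc Ψ ε a) ?_ ?_
    · have : Continuous (fun p : (ι → Space3) × (ι → Space3) => p.2 + h • NicePot.acc Ψ ε p.1) := by
        fun_prop
      exact this.measurable
    · refine Eventually.of_forall fun a => ?_
      exact (measurePreserving_add_right volume (h • NicePot.acc Ψ ε a)).map_eq
  have h3 := volume_measurePreserving_arrowProdEquivProdArrow Space3 Space3 ι
  have h4 := (h3.symm _).comp (h2.comp h3)
  exact h4

theorem NicePot.measurePreserving_flow {Ψ : Space3 → ℝ} (hΨ : NicePot Ψ) {ε : ℝ} (hε : 0 < ε) (t : ℝ) :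
    MeasurePreserving (gflow (nf (ι := ι) Ψ ε) univ t) volume volume := by
  obtain ⟨K, hK⟩ := hΨ.nf_lipschitz (ι := ι) hε
  obtain ⟨C, hC⟩ := hΨ.grad_lipschitz
  set A : ℝ := (1 / ε) * (Fintype.card ι * (C * ((1 / ε) * 2))) with hA
  have hA0 : 0 ≤ A := by positivity
  have hacc : ∀ x y : ι → Space3, dist (NicePot.acc Ψ ε x) (NicePot.acc Ψ ε y) ≤ A * dist x y :=
    fun x y => NicePot.acc_dist_le hC hε x y
  -- drift is (1+|h|)-Lipschitz, kick is (1+A|h|)-Lipschitz
  have hdrift : ∀ (h : ℝ) (Z W : ι → PhasePoint), dist (drift h Z) (drift h W) ≤ (1 + |h|) * dist Z W := by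
    intro h Z W
    have hZW := dist_nonneg (x := Z) (y := W)
    rw [dist_pi_le_iff (by positivity)]
    intro i
    have h1 : dist (Z i).1 (W i).1 ≤ dist Z W := (le_max_left _ _).trans (dist_le_pi_dist Z W i)
    have h2 : dist (Z i).2 (W i).2 ≤ dist Z W := (le_max_right _ _).trans (dist_le_pi_dist Z W i)
    rw [Prod.dist_eq]
    refine max_le ?_ ?_
    · change dist ((Z i).1 + h • (Z i).2) ((W i).1 + h • (W i).2) ≤ _
      calc _ ≤ dist (Z i).1 (W i).1 + dist (h • (Z i).2) (h • (W i).2) := dist_add_add_le _ _ _ _
        _ = dist (Z i).1 (W i).1 + |h| * dist (Z i).2 (W i).2 := by rw [dist_smul₀, Real.norm_eq_abs]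
        _ ≤ dist Z W + |h| * dist Z W := by gcongr
        _ = _ := by ring
    · change dist (Z i).2 (W i).2 ≤ _
      nlinarith [abs_nonneg h]
  have hkick : ∀ (h : ℝ) (Z W : ι → PhasePoint),
      dist (kick Ψ ε h Z) (kick Ψ ε h W) ≤ (1 + A * |h|) * dist Z W := by
    intro h Z W
    have hZW := dist_nonneg (x := Z) (y := W)
    rw [dist_pi_le_iff (by positivity)]
    intro i
    have h1 : dist (Z i).1 (W i).1 ≤ dist Z W := (le_max_left _ _).trans (dist_le_pi_dist Z W i)
    have h2 : dist (Z i).2 (W i).2 ≤ dist Z W := (le_max_right _ _).trans (dist_le_pi_dist Z W i)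
    rw [Prod.dist_eq]
    refine max_le ?_ ?_
    · change dist (Z i).1 (W i).1 ≤ _
      have : 0 ≤ A * |h| := by positivity
      nlinarith
    · change dist ((Z i).2 + h • NicePot.acc Ψ ε (fun j => (Z j).1) i)
        ((W i).2 + h • NicePot.acc Ψ ε (fun j => (W j).1) i) ≤ _
      calc _ ≤ dist (Z i).2 (W i).2 + dist (h • NicePot.acc Ψ ε (fun j => (Z j).1) i)
            (h • NicePot.acc Ψ ε (fun j => (W j).1) i) := dist_add_add_le _ _ _ _
        _ = dist (Z i).2 (W i).2 + |h| * dist (NicePot.acc Ψ ε (fun j => (Z j).1) i)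
            (NicePot.acc Ψ ε (fun j => (W j).1) i) := by rw [dist_smul₀, Real.norm_eq_abs]
        _ ≤ dist Z W + |h| * (A * dist Z W) := by
            gcongr
            refine (dist_le_pi_dist (NicePot.acc Ψ ε (fun j => (Z j).1))
              (NicePot.acc Ψ ε (fun j => (W j).1)) i).trans ((hacc _ _).trans ?_)
            exact mul_le_mul_of_nonneg_left (NicePot.dist_fst_le Z W) hA0
        _ = _ := by ring
  refine measurePreserving_of_scheme (C := 1 + 2 * A) hK (S := fun h Z => kick Ψ ε h (drift h Z))
    (by positivity) (fun h => (measurePreserving_kick ε h hΨ.grad_smooth.continuous).comp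
      (measurePreserving_drift h)) ?_ ?_ t
  · -- consistency
    intro h Z hh
    rw [pi_norm_le_iff_of_nonneg (by positivity)]
    intro i
    have e1 : (kick Ψ ε h (drift h Z) - Z - h • nf Ψ ε Z) i
        = (0, h • (NicePot.acc Ψ ε (fun j => (Z j).1 + h • (Z j).2) i
            - NicePot.acc Ψ ε (fun j => (Z j).1) i)) := by
      simp only [kick, drift, NicePot.nf_eq, Pi.sub_apply, Pi.smul_apply]
      ext1
      · simp
      · simp only [Prod.snd_sub, Prod.smul_snd, smul_sub]
        abel
    rw [e1, Prod.norm_mk, norm_zero, max_eq_right (norm_nonneg _), norm_smul, Real.norm_eq_abs,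
      ← dist_eq_norm]
    have h1 := (dist_le_pi_dist (NicePot.acc Ψ ε (fun j => (Z j).1 + h • (Z j).2))
      (NicePot.acc Ψ ε (fun j => (Z j).1)) i).trans (hacc _ _)
    have h2 : dist (fun j => (Z j).1 + h • (Z j).2) (fun j => (Z j).1) ≤ |h| * ‖Z‖ := by
      rw [dist_pi_le_iff (by positivity)]
      intro j
      rw [dist_eq_norm, add_sub_cancel_left, norm_smul, Real.norm_eq_abs]
      gcongr
      exact (le_max_right _ _).trans (norm_le_pi_norm Z j)
    have h3 : A * dist (fun j => (Z j).1 + h • (Z j).2) (fun j => (Z j).1) ≤ A * (|h| * ‖Z‖) :=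
      mul_le_mul_of_nonneg_left h2 hA0
    have h4 : |h| * |h| = h ^ 2 := by rw [← sq, sq_abs]
    calc |h| * dist (NicePot.acc Ψ ε (fun j => (Z j).1 + h • (Z j).2) i)
          (NicePot.acc Ψ ε (fun j => (Z j).1) i)
        ≤ |h| * (A * (|h| * ‖Z‖)) := mul_le_mul_of_nonneg_left (h1.trans h3) (abs_nonneg _)
      _ = A * h ^ 2 * ‖Z‖ := by rw [← h4]; ring
      _ ≤ (1 + 2 * A) * h ^ 2 * (1 + ‖Z‖) := by
          have h5 := sq_nonneg h
          have h6 := norm_nonneg Z
          have h7 : A * h ^ 2 ≤ (1 + 2 * A) * h ^ 2 := by nlinarith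
          have h8 : 0 ≤ (1 + 2 * A) * h ^ 2 := by positivity
          nlinarith
  · -- stability
    intro h Z W hh
    rw [← dist_eq_norm, ← dist_eq_norm]
    have h1 := hkick h (drift h Z) (drift h W)
    have h2 := hdrift h Z W
    have h3 : 0 ≤ 1 + A * |h| := by positivity
    refine (h1.trans (mul_le_mul_of_nonneg_left h2 h3)).trans ?_
    rw [← mul_assoc]
    refine mul_le_mul_of_nonneg_right ?_ dist_nonneg
    have h4 : |h| * |h| ≤ |h| := by nlinarith [abs_nonneg h]
    nlinarith [abs_nonneg h]

end Crest.Agent.R122.Flow671
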