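import Mathlib
import Crest.Prelude.Def_KineticLimit
import Crest.Agent.R122.NewtonLiou_671

/-!
# Newton flow for every admissible potential (row 122, block F1b, part 3): level cut-offs

For a potential with a repulsive core we truncate it at a high level `L`; by energy conservation the
truncated dynamics coincides with the true one on configurations of energy well below `L`.
-/

set_option autoImplicit false
set_option linter.unusedSectionVars false

open MeasureTheory Set Filter Topology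
open scoped NNReal ENNReal
open Crest.AnalysisR.Kinetic

namespace Crest.Agent.R122.Flow671

variable {ι κ : Type*} [Fintype ι] [Fintype κ]

/-- Regular configurations: all of them for a `C²` potential, pairwise distinct positions otherwise. -/
def Dom (Φ : Space3 → ℝ) (ι : Type*) : Set (ι → PhasePoint) :=
  {Z | ContDiff ℝ 2 Φ ∨ ∀ i j, i ≠ j → (Z i).1 ≠ (Z j).1}

/-- Scaled relative position. -/
noncomputable def rel (ε : ℝ) (Z : ι → PhasePoint) (i j : ι) : Space3 := (1 / ε) • ((Z i).1 - (Z j).1)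

theorem rel_ne_zero {ε : ℝ} (hε : 0 < ε) {Z : ι → PhasePoint} {i j : ι} (h : (Z i).1 ≠ (Z j).1) :
    rel ε Z i j ≠ 0 := by
  unfold rel
  rw [smul_ne_zero_iff]
  exact ⟨by positivity, sub_ne_zero.2 h⟩

theorem rel_ne_zero_iff {ε : ℝ} (hε : 0 < ε) {Z : ι → PhasePoint} {i j : ι} :
    rel ε Z i j ≠ 0 ↔ (Z i).1 ≠ (Z j).1 := by
  refine ⟨fun h h' => h ?_, rel_ne_zero hε⟩
  unfold rel
  rw [h', sub_self, smul_zero]

theorem continuous_rel (ε : ℝ) (i j : ι) : Continuous fun Z : ι → PhasePoint => rel ε Z i j := by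
  unfold rel
  fun_prop

theorem rel_swap (ε : ℝ) (Z : ι → PhasePoint) (i j : ι) : rel ε Z j i = -rel ε Z i j := by
  unfold rel
  rw [← smul_neg, neg_sub]

theorem isOpen_Dom (Φ : Space3 → ℝ) : IsOpen (Dom Φ ι) := by
  by_cases h : ContDiff ℝ 2 Φ
  · have : Dom Φ ι = univ := eq_univ_of_forall fun Z => Or.inl h
    rw [this]; exact isOpen_univ
  · have : Dom Φ ι = ⋂ i, ⋂ j, ⋂ (_ : i ≠ j), {Z : ι → PhasePoint | (Z i).1 ≠ (Z j).1} := by
      ext Z
      simp only [Dom, mem_ofPred_eq, mem_iInter]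
      constructor
      · rintro (h' | h')
        · exact absurd h' h
        · exact h'
      · exact fun h' => Or.inr h'
    rw [this]
    refine isOpen_iInter_of_finite fun i => isOpen_iInter_of_finite fun j =>
      isOpen_iInter_of_finite fun _ => ?_
    exact isOpen_ne_fun (by fun_prop) (by fun_prop)

theorem measurableSet_Dom (Φ : Space3 → ℝ) : MeasurableSet (Dom Φ ι) := (isOpen_Dom Φ).measurableSet

theorem exists_lower {Φ : Space3 → ℝ} (hΦ : AdmissiblePotential Φ) :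
    ∃ M : ℝ, 0 ≤ M ∧ ∀ q, q ≠ 0 → -M ≤ Φ q := by
  obtain ⟨B, hB, hst⟩ := hΦ.stable
  refine ⟨B * 2, by positivity, fun q hq => ?_⟩
  have h1 := hst 2 ![q, 0] (by
    intro i j hij
    fin_cases i <;> fin_cases j <;> simp_all)
  have h2 : pairEnergy Φ ![q, 0] = Φ q := by
    simp [pairEnergy, Fin.sum_univ_two]
  rw [h2] at h1
  simpa using h1

/-! ## The truncation -/

/-- Smooth truncation at level `L`: the identity below `L`, the constant `L + 1` above `L + 1`. -/
noncomputable def trunc (L s : ℝ) : ℝ := s + (L + 1 - s) * Real.smoothTransition (s - L)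

theorem trunc_of_le {L s : ℝ} (h : s ≤ L) : trunc L s = s := by
  unfold trunc
  rw [Real.smoothTransition.zero_of_nonpos (by linarith), mul_zero, add_zero]

theorem trunc_of_ge {L s : ℝ} (h : L + 1 ≤ s) : trunc L s = L + 1 := by
  unfold trunc
  rw [Real.smoothTransition.one_of_one_le (by linarith)]
  ring

theorem trunc_ge {L s : ℝ} (h : L ≤ s) : L ≤ trunc L s := by
  rcases le_total (L + 1) s with h' | h'
  · rw [trunc_of_ge h']; linarith
  · unfold trunc
    have := Real.smoothTransition.nonneg (s - L)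
    have : 0 ≤ (L + 1 - s) * Real.smoothTransition (s - L) := by
      apply mul_nonneg _ this
      linarith
    linarith

theorem contDiff_trunc (L : ℝ) : ContDiff ℝ 2 (trunc L) := by
  unfold trunc
  have : ContDiff ℝ 2 Real.smoothTransition := Real.smoothTransition.contDiff
  fun_prop

open scoped Classical in
/-- The potential truncated at level `L` (unchanged if it is `C²`). -/
noncomputable def cut (Φ : Space3 → ℝ) (L : ℝ) : Space3 → ℝ :=
  if ContDiff ℝ 2 Φ then Φ else fun q => if q = 0 then L + 1 else trunc L (Φ q)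

theorem cut_of_contDiff {Φ : Space3 → ℝ} (h : ContDiff ℝ 2 Φ) (L : ℝ) : cut Φ L = Φ := by
  classical
  unfold cut
  rw [if_pos h]

theorem cut_zero_of_core {Φ : Space3 → ℝ} (h : ¬ContDiff ℝ 2 Φ) (L : ℝ) : cut Φ L 0 = L + 1 := by
  classical
  unfold cut
  rw [if_neg h]; simp

theorem cut_of_core {Φ : Space3 → ℝ} (h : ¬ContDiff ℝ 2 Φ) (L : ℝ) {q : Space3} (hq : q ≠ 0) :
    cut Φ L q = trunc L (Φ q) := by
  classical
  unfold cut
  rw [if_neg h]; simp [hq]

theorem cut_nice {Φ : Space3 → ℝ} (hΦ : AdmissiblePotential Φ) {L : ℝ} (hL : 0 ≤ L) :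
    NicePot (cut Φ L) := by
  by_cases h : ContDiff ℝ 2 Φ
  · rw [cut_of_contDiff h]
    exact ⟨h, AdmissiblePotential.even hΦ, hΦ.eq_zero_of_one_le_norm⟩
  · have hcore := hΦ.origin.resolve_left h
    refine ⟨?_, ?_, ?_⟩
    · rw [contDiff_iff_contDiffAt]
      intro q
      by_cases hq : q = 0
      · subst hq
        have hev : cut Φ L =ᶠ[𝓝 0] fun _ => L + 1 := by
          have h1 : ∀ᶠ x in 𝓝[≠] (0 : Space3), L + 1 ≤ Φ x := hcore.eventually_ge_atTop (L + 1)
          rw [eventually_nhdsWithin_iff] at h1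
          filter_upwards [h1] with x hx
          by_cases hx0 : x = 0
          · rw [hx0, cut_zero_of_core h]
          · rw [cut_of_core h L hx0, trunc_of_ge (hx hx0)]
        exact contDiffAt_const.congr_of_eventuallyEq hev
      · have hev : cut Φ L =ᶠ[𝓝 q] fun x => trunc L (Φ x) := by
          filter_upwards [isOpen_ne.mem_nhds hq] with x hx
          exact cut_of_core h L hx
        have h1 : ContDiffAt ℝ 2 Φ q :=
          hΦ.contDiff_away_from_origin.contDiffAt (isOpen_ne.mem_nhds hq)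
        exact ((contDiff_trunc L).contDiffAt.comp q h1).congr_of_eventuallyEq hev
    · intro q
      by_cases hq : q = 0
      · rw [hq, neg_zero]
      · rw [cut_of_core h L hq, cut_of_core h L (neg_ne_zero.2 hq), AdmissiblePotential.even hΦ]
    · intro q hq
      have hq0 : q ≠ 0 := by
        rintro rfl
        rw [norm_zero] at hq; linarith
      rw [cut_of_core h L hq0, hΦ.eq_zero_of_one_le_norm q hq, trunc_of_le hL]

theorem cut_lower {Φ : Space3 → ℝ} (h : ¬ContDiff ℝ 2 Φ) {M L : ℝ} (hM : 0 ≤ M)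
    (hlow : ∀ q, q ≠ 0 → -M ≤ Φ q) (hL : 0 ≤ L) (q : Space3) : -M ≤ cut Φ L q := by
  by_cases hq : q = 0
  · rw [hq, cut_zero_of_core h]; linarith
  · rw [cut_of_core h L hq]
    rcases le_total (Φ q) L with h1 | h1
    · rw [trunc_of_le h1]; exact hlow q hq
    · exact (by linarith : -M ≤ L).trans (trunc_ge h1)

theorem cut_lt {Φ : Space3 → ℝ} (h : ¬ContDiff ℝ 2 Φ) {L : ℝ} {q : Space3} (hq : cut Φ L q < L) :
    q ≠ 0 ∧ Φ q < L := by
  have hq0 : q ≠ 0 := by
    rintro rfl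
    rw [cut_zero_of_core h] at hq; linarith
  refine ⟨hq0, ?_⟩
  rw [cut_of_core h L hq0] at hq
  by_contra hcon
  exact absurd (trunc_ge (not_lt.1 hcon)) (not_le.2 hq)

/-- Good configurations at level `L`: all for a `C²` potential; otherwise all pairs lie in the region
where the potential is below `L`. -/
def Good (Φ : Space3 → ℝ) (ε L : ℝ) (ι : Type*) : Set (ι → PhasePoint) :=
  {Z | ContDiff ℝ 2 Φ ∨ ∀ i j, i ≠ j →
    (1 / ε) • ((Z i).1 - (Z j).1) ≠ 0 ∧ Φ ((1 / ε) • ((Z i).1 - (Z j).1)) < L}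

theorem isOpen_Good {Φ : Space3 → ℝ} (hΦ : AdmissiblePotential Φ) (ε L : ℝ) :
    IsOpen (Good Φ ε L ι) := by
  by_cases h : ContDiff ℝ 2 Φ
  · have : Good Φ ε L ι = univ := eq_univ_of_forall fun Z => Or.inl h
    rw [this]; exact isOpen_univ
  · have : Good Φ ε L ι = ⋂ i, ⋂ j, ⋂ (_ : i ≠ j), {Z : ι → PhasePoint |
        rel ε Z i j ∈ {q : Space3 | q ≠ 0 ∧ Φ q < L}} := by
      ext Z
      simp only [Good, rel, mem_ofPred_eq, mem_iInter]
      constructor
      · rintro (h' | h')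
        · exact absurd h' h
        · exact h'
      · exact fun h' => Or.inr h'
    rw [this]
    refine isOpen_iInter_of_finite fun i => isOpen_iInter_of_finite fun j =>
      isOpen_iInter_of_finite fun _ => ?_
    refine IsOpen.preimage (continuous_rel ε i j) ?_
    exact hΦ.contDiff_away_from_origin.continuousOn.isOpen_inter_preimage isOpen_ne isOpen_Iio

theorem gradient_cut {Φ : Space3 → ℝ} (hΦ : AdmissiblePotential Φ) (h : ¬ContDiff ℝ 2 Φ) {L : ℝ}
    {q : Space3} (hq0 : q ≠ 0) (hq : Φ q < L) : gradient (cut Φ L) q = gradient Φ q := by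
  refine gradient_congr_nhds ?_
  have hopen : IsOpen {q : Space3 | q ≠ 0 ∧ Φ q < L} :=
    hΦ.contDiff_away_from_origin.continuousOn.isOpen_inter_preimage isOpen_ne isOpen_Iio
  filter_upwards [hopen.mem_nhds ⟨hq0, hq⟩] with x hx
  rw [cut_of_core h L hx.1, trunc_of_le hx.2.le]

theorem nf_eq_cut {Φ : Space3 → ℝ} (hΦ : AdmissiblePotential Φ) {ε L : ℝ} (hL : 0 ≤ L)
    {Z : ι → PhasePoint} (hZ : Z ∈ Good Φ ε L ι) : nf Φ ε Z = nf (cut Φ L) ε Z := by
  by_cases h : ContDiff ℝ 2 Φ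
  · rw [cut_of_contDiff h]
  · have hZ' := hZ.resolve_left h
    funext i
    unfold nf
    refine Prod.ext rfl ?_
    change -(1 / ε) • ∑ j, gradient Φ _ = -(1 / ε) • ∑ j, gradient (cut Φ L) _
    congr 1
    refine Finset.sum_congr rfl fun j _ => ?_
    by_cases hij : i = j
    · subst hij
      rw [sub_self, smul_zero, grad_origin hΦ, (cut_nice hΦ hL).grad_origin]
    · rw [gradient_cut hΦ h (hZ' i j hij).1 (hZ' i j hij).2]

/-! ## Energy bounds -/

theorem sum_offDiag (f : ι → ι → ℝ) (c : ℝ) (hc : ∀ i, f i i = c) :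
    ∑ i, ∑ j, f i j - Fintype.card ι * c = by
      classical exact ∑ p ∈ (Finset.univ : Finset ι).offDiag, f p.1 p.2 := by
  classical
  have h1 : ∑ i, ∑ j, f i j = ∑ p ∈ (Finset.univ : Finset ι) ×ˢ (Finset.univ : Finset ι), f p.1 p.2 := by
    rw [Finset.sum_product]
  rw [h1, ← Finset.diag_union_offDiag, Finset.sum_union (Finset.disjoint_diag_offDiag _)]
  have h2 : ∑ p ∈ (Finset.univ : Finset ι).diag, f p.1 p.2 = Fintype.card ι * c := by
    rw [Finset.sum_diag]
    simp [hc]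
  rw [h2]
  ring

theorem energy_eq (Φ : Space3 → ℝ) (ε : ℝ) (Z : ι → PhasePoint) :
    energy Φ ε Z = (1 / 2) * ∑ i, ‖(Z i).2‖ ^ 2 + (1 / 2) * (by
      classical exact ∑ p ∈ (Finset.univ : Finset ι).offDiag, Φ (rel ε Z p.1 p.2)) := by
  unfold energy
  rw [← sum_offDiag (fun i j => Φ (rel ε Z i j)) (Φ 0) (fun i => by
    unfold rel; rw [sub_self, smul_zero])]
  rfl

/-- A single pair is controlled by the energy, given a lower bound of the potential on all pairs. -/
theorem pair_le_energy {Φ : Space3 → ℝ} (heven : ∀ q, Φ (-q) = Φ q) {ε M : ℝ} (hM : 0 ≤ M)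
    {Z : ι → PhasePoint} (hlow : ∀ i j, i ≠ j → -M ≤ Φ (rel ε Z i j)) {i j : ι} (hij : i ≠ j) :
    (1 / 2) * ∑ i, ‖(Z i).2‖ ^ 2 + Φ (rel ε Z i j)
      ≤ energy Φ ε Z + (1 / 2) * (M * (Fintype.card ι : ℝ) ^ 2) := by
  classical
  rw [energy_eq]
  set D : Finset (ι × ι) := (Finset.univ : Finset ι).offDiag with hD
  have h1 : ∑ p ∈ ({(i, j), (j, i)} : Finset (ι × ι)), (Φ (rel ε Z p.1 p.2) + M)
      ≤ ∑ p ∈ D, (Φ (rel ε Z p.1 p.2) + M) := by
    refine Finset.sum_le_sum_of_subset_of_nonneg ?_ ?_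
    · intro p hp
      rw [Finset.mem_insert, Finset.mem_singleton] at hp
      rw [hD, Finset.mem_offDiag]
      rcases hp with rfl | rfl
      · exact ⟨Finset.mem_univ _, Finset.mem_univ _, hij⟩
      · exact ⟨Finset.mem_univ _, Finset.mem_univ _, hij.symm⟩
    · intro p hp _
      rw [hD, Finset.mem_offDiag] at hp
      linarith [hlow p.1 p.2 hp.2.2]
  have h2 : ∑ p ∈ ({(i, j), (j, i)} : Finset (ι × ι)), (Φ (rel ε Z p.1 p.2) + M)
      = 2 * Φ (rel ε Z i j) + 2 * M := by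
    rw [Finset.sum_pair (by
      intro h
      exact hij (Prod.ext_iff.1 h).1)]
    rw [show Φ (rel ε Z (j, i).1 (j, i).2) = Φ (rel ε Z i j) by
      change Φ (rel ε Z j i) = _
      rw [rel_swap, heven]]
    ring
  have h3 : ∑ p ∈ D, (Φ (rel ε Z p.1 p.2) + M) = ∑ p ∈ D, Φ (rel ε Z p.1 p.2) + M * D.card := by
    rw [Finset.sum_add_distrib, Finset.sum_const, nsmul_eq_mul]
    ring
  have h4 : (D.card : ℝ) ≤ (Fintype.card ι : ℝ) ^ 2 := by
    have : D.card ≤ (Fintype.card ι) ^ 2 := by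
      rw [hD, Finset.offDiag_card, Finset.card_univ, sq]
      exact Nat.sub_le _ _
    exact_mod_cast this
  have h5 : M * D.card ≤ M * (Fintype.card ι : ℝ) ^ 2 := mul_le_mul_of_nonneg_left h4 hM
  rw [h2, h3] at h1
  linarith

theorem energy_eq_cut {Φ : Space3 → ℝ} {ε L : ℝ}
    {Z : ι → PhasePoint} (hZ : Z ∈ Good Φ ε L ι) : energy (cut Φ L) ε Z = energy Φ ε Z := by
  classical
  by_cases h : ContDiff ℝ 2 Φ
  · rw [cut_of_contDiff h]
  · have hZ' := hZ.resolve_left h
    rw [energy_eq, energy_eq]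
    congr 2
    refine Finset.sum_congr rfl fun p hp => ?_
    rw [Finset.mem_offDiag] at hp
    have h1 : rel ε Z p.1 p.2 ≠ 0 ∧ Φ (rel ε Z p.1 p.2) < L := hZ' p.1 p.2 hp.2.2
    rw [cut_of_core h L h1.1, trunc_of_le h1.2.le]

/-- Configurations whose energy is well below the level `L`. -/
def Low (Φ : Space3 → ℝ) (ε M L : ℝ) (ι : Type*) [Fintype ι] : Set (ι → PhasePoint) :=
  {Z | Z ∈ Dom Φ ι ∧ (ContDiff ℝ 2 Φ ∨
    energy Φ ε Z + (1 / 2) * (M * (Fintype.card ι : ℝ) ^ 2) < L)}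

theorem Low_subset_Good {Φ : Space3 → ℝ} (hΦ : AdmissiblePotential Φ) {ε M L : ℝ} (hε : 0 < ε)
    (hM : 0 ≤ M) (hlow : ∀ q, q ≠ 0 → -M ≤ Φ q) : Low Φ ε M L ι ⊆ Good Φ ε L ι := by
  rintro Z ⟨hD, hZ⟩
  by_cases h : ContDiff ℝ 2 Φ
  · exact Or.inl h
  · refine Or.inr fun i j hij => ?_
    have hD' := hD.resolve_left h
    have hne : rel ε Z i j ≠ 0 := rel_ne_zero hε (hD' i j hij)
    refine ⟨hne, ?_⟩
    have h1 := pair_le_energy (AdmissiblePotential.even hΦ) (ε := ε) hM (Z := Z)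
      (fun a b hab => hlow _ (rel_ne_zero hε (hD' a b hab))) hij
    have h2 : 0 ≤ (1 / 2 : ℝ) * ∑ i, ‖(Z i).2‖ ^ 2 := by positivity
    have h3 := hZ.resolve_left h
    change Φ (rel ε Z i j) < L
    linarith

/-- The truncated flow started in a low configuration stays good. -/
theorem cut_flow_good {Φ : Space3 → ℝ} (hΦ : AdmissiblePotential Φ) {ε M L : ℝ} (hε : 0 < ε)
    (hM : 0 ≤ M) (hlow : ∀ q, q ≠ 0 → -M ≤ Φ q) (hL : 0 ≤ L) {Z : ι → PhasePoint}
    (hZ : Z ∈ Low Φ ε M L ι) (t : ℝ) : gflow (nf (cut Φ L) ε) univ t Z ∈ Good Φ ε L ι := by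
  by_cases h : ContDiff ℝ 2 Φ
  · exact Or.inl h
  · have hn := cut_nice hΦ hL
    have hE : energy (cut Φ L) ε (gflow (nf (cut Φ L) ε) univ t Z) = energy Φ ε Z := by
      rw [hn.energy_flow hε, energy_eq_cut (Low_subset_Good hΦ hε hM hlow hZ)]
    refine Or.inr fun i j hij => ?_
    have h1 := pair_le_energy hn.even (ε := ε) hM (Z := gflow (nf (cut Φ L) ε) univ t Z)
      (fun a b _ => cut_lower h hM hlow hL _) hij
    have h2 : 0 ≤ (1 / 2 : ℝ) * ∑ i, ‖(gflow (nf (cut Φ L) ε) univ t Z i).2‖ ^ 2 := by positivity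
    have h3 := hZ.2.resolve_left h
    rw [hE] at h1
    exact cut_lt h (by
      change cut Φ L (rel ε (gflow (nf (cut Φ L) ε) univ t Z) i j) < L
      linarith)

theorem Good_subset_Dom {Φ : Space3 → ℝ} {ε L : ℝ} :
    Good Φ ε L ι ⊆ Dom Φ ι := by
  rintro Z (h | h)
  · exact Or.inl h
  · refine Or.inr fun i j hij h' => (h i j hij).1 ?_
    rw [h', sub_self, smul_zero]

theorem exists_Low {Φ : Space3 → ℝ} {ε M : ℝ} {Z : ι → PhasePoint} (hZ : Z ∈ Dom Φ ι) :
    ∃ L : ℝ, 0 ≤ L ∧ Z ∈ Low Φ ε M L ι := by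
  refine ⟨|energy Φ ε Z + (1 / 2) * (M * (Fintype.card ι : ℝ) ^ 2)| + 1, by positivity, hZ, Or.inr ?_⟩
  linarith [le_abs_self (energy Φ ε Z + (1 / 2) * (M * (Fintype.card ι : ℝ) ^ 2))]

/-- **Completeness of the Newton field** for every admissible potential. -/
theorem complete {Φ : Space3 → ℝ} (hΦ : AdmissiblePotential Φ) {ε : ℝ} (hε : 0 < ε) :
    Complete (nf Φ ε) (Dom Φ ι) := by
  obtain ⟨M, hM, hlow⟩ := exists_lower hΦ
  refine ⟨?_, fun Z hZ => ?_⟩
  · intro Z hZ
    obtain ⟨L, hL, hZL⟩ := exists_Low (Φ := Φ) (ε := ε) (M := M) hZ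
    obtain ⟨K, hK⟩ := (cut_nice hΦ hL).nf_lipschitz (ι := ι) hε
    have hG := Low_subset_Good hΦ hε hM hlow hZL
    refine ⟨K, Good Φ ε L ι, mem_nhdsWithin_of_mem_nhds ((isOpen_Good hΦ ε L).mem_nhds hG), ?_⟩
    intro a ha b hb
    rw [nf_eq_cut hΦ hL ha, nf_eq_cut hΦ hL hb]
    exact hK a b
  · obtain ⟨L, hL, hZL⟩ := exists_Low (Φ := Φ) (ε := ε) (M := M) hZ
    have hc := (cut_nice hΦ hL).complete (ι := ι) hε
    refine ⟨fun t => gflow (nf (cut Φ L) ε) univ t Z, hc.flow_zero Z, fun t => ?_⟩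
    have hg := cut_flow_good hΦ hε hM hlow hL hZL t
    refine ⟨Good_subset_Dom hg, ?_⟩
    rw [nf_eq_cut hΦ hL hg]
    exact hc.hasDerivAt (mem_univ Z) t

end Crest.Agent.R122.Flow671
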