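import Mathlib
import Crest.Prelude.Def_KineticLimit
import Crest.Agent.R122.Loc_45

/-!
# Stability and kinetic energy bounds (row 122, block F1c, helper45)

* `kin`, `pot`: kinetic and interaction energy, `energy = kin + pot` (definitionally).
* `pot_eq_pairEnergy`, `pot_equiv`, `pot_eq_zero`, `pot_sum_elim`.
* `stabB Φ`: a stability constant, valid for **all** regular configurations of any finite type
  (including coinciding positions when `Φ` is `C²`): `neg_le_pot`, `kin_le`.
-/

set_option autoImplicit false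
set_option linter.unusedSectionVars false

open MeasureTheory Set Filter Topology
open Crest.AnalysisR.Kinetic
open Crest.Agent.R122.Flow671

namespace Crest.Agent.R122.Loc45

noncomputable section

variable {Φ : Space3 → ℝ} {ι κ : Type*} [Fintype ι] [Fintype κ]

/-- Kinetic energy. -/
def kin (Z : ι → PhasePoint) : ℝ := (1 / 2) * ∑ i, ‖(Z i).2‖ ^ 2

/-- Interaction energy (each unordered pair counted once). -/
def pot (Φ : Space3 → ℝ) (ε : ℝ) (Z : ι → PhasePoint) : ℝ :=
  (1 / 2) * (∑ i, ∑ j, Φ ((1 / ε) • ((Z i).1 - (Z j).1)) - Fintype.card ι * Φ 0)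

theorem energy_eq_kin_add_pot (Φ : Space3 → ℝ) (ε : ℝ) (Z : ι → PhasePoint) :
    energy Φ ε Z = kin Z + pot Φ ε Z := rfl

theorem kin_nonneg (Z : ι → PhasePoint) : 0 ≤ kin Z := by
  unfold kin
  positivity

theorem norm_sq_le_two_kin (Z : ι → PhasePoint) (i : ι) : ‖(Z i).2‖ ^ 2 ≤ 2 * kin Z := by
  unfold kin
  have := Finset.single_le_sum (f := fun i => ‖(Z i).2‖ ^ 2) (fun _ _ => by positivity)
    (Finset.mem_univ i)
  linarith

theorem kin_equiv (σ : ι ≃ κ) (Z : κ → PhasePoint) : kin (fun i => Z (σ i)) = kin Z := by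
  unfold kin
  congr 1
  exact Fintype.sum_equiv σ _ _ fun _ => rfl

theorem kin_sum_elim (Z : ι → PhasePoint) (W : κ → PhasePoint) :
    kin (Sum.elim Z W) = kin Z + kin W := by
  unfold kin
  rw [Fintype.sum_sum_type]
  simp only [Sum.elim_inl, Sum.elim_inr]
  ring

theorem kin_append {m k : ℕ} (Z : Config m) (W : Config k) :
    kin (Fin.append Z W) = kin Z + kin W := by
  rw [append_eq_elim, kin_equiv (finSumFinEquiv (m := m) (n := k)).symm, kin_sum_elim]

theorem kin_comp_le (e : ι ↪ κ) (Z : κ → PhasePoint) : kin (fun i => Z (e i)) ≤ kin Z := by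
  classical
  unfold kin
  have h1 : ∑ i, ‖(Z (e i)).2‖ ^ 2 = ∑ j ∈ Finset.univ.map e, ‖(Z j).2‖ ^ 2 := by
    rw [Finset.sum_map]
  rw [h1]
  have h2 : ∑ j ∈ Finset.univ.map e, ‖(Z j).2‖ ^ 2 ≤ ∑ j, ‖(Z j).2‖ ^ 2 :=
    Finset.sum_le_sum_of_subset_of_nonneg (Finset.subset_univ _) fun _ _ _ => by positivity
  linarith

theorem pot_equiv (Φ : Space3 → ℝ) (ε : ℝ) (σ : ι ≃ κ) (Z : κ → PhasePoint) :
    pot Φ ε (fun i => Z (σ i)) = pot Φ ε Z := by
  unfold pot
  rw [Fintype.card_congr σ]
  congr 2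
  refine Fintype.sum_equiv σ _ _ fun i => ?_
  exact Fintype.sum_equiv σ _ _ fun _ => rfl

theorem energy_equiv (Φ : Space3 → ℝ) (ε : ℝ) (σ : ι ≃ κ) (Z : κ → PhasePoint) :
    energy Φ ε (fun i => Z (σ i)) = energy Φ ε Z := by
  rw [energy_eq_kin_add_pot, energy_eq_kin_add_pot, kin_equiv σ Z, pot_equiv Φ ε σ Z]

theorem potential_zero_far (hΦ : AdmissiblePotential Φ) {ε : ℝ} (hε : 0 < ε) {x y : Space3}
    (h : ε ≤ dist x y) : Φ ((1 / ε) • (x - y)) = 0 :=
  hΦ.eq_zero_of_one_le_norm _ (one_le_norm_smul hε h)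

/-- Interaction energy as a sum over ordered pairs. -/
theorem pot_eq_offDiag (Φ : Space3 → ℝ) (ε : ℝ) (Z : ι → PhasePoint) :
    pot Φ ε Z = (1 / 2) * (by
      classical exact ∑ p ∈ (Finset.univ : Finset ι).offDiag, Φ (rel ε Z p.1 p.2)) := by
  have h := energy_eq Φ ε Z
  rw [energy_eq_kin_add_pot] at h
  unfold kin at h
  linarith

/-- The interaction energy vanishes if all mutual distances are at least `ε`. -/
theorem pot_eq_zero (hΦ : AdmissiblePotential Φ) {ε : ℝ} (hε : 0 < ε) {Z : ι → PhasePoint}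
    (h : ∀ i j, i ≠ j → ε ≤ dist (Z i).1 (Z j).1) : pot Φ ε Z = 0 := by
  classical
  rw [pot_eq_offDiag]
  rw [Finset.sum_eq_zero, mul_zero]
  intro p hp
  rw [Finset.mem_offDiag] at hp
  exact potential_zero_far hΦ hε (h p.1 p.2 hp.2.2)

theorem pot_pairExcluded (hΦ : AdmissiblePotential Φ) {ε : ℝ} (hε : 0 < ε) {n : ℕ} {Z : Config n}
    (h : Z ∈ PairExcluded ε n) : pot Φ ε Z = 0 :=
  pot_eq_zero hΦ hε fun i j hij => (h i j hij).le

theorem energy_pairExcluded (hΦ : AdmissiblePotential Φ) {ε : ℝ} (hε : 0 < ε) {n : ℕ}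
    {Z : Config n} (h : Z ∈ PairExcluded ε n) : energy Φ ε Z = kin Z := by
  rw [energy_eq_kin_add_pot, pot_pairExcluded hΦ hε h, add_zero]

/-- Additivity of the interaction energy over two groups at cross distance at least `ε`. -/
theorem pot_sum_elim (hΦ : AdmissiblePotential Φ) {ε : ℝ} (hε : 0 < ε)
    (Z : ι → PhasePoint) (W : κ → PhasePoint) (h : ∀ i j, ε ≤ dist (Z i).1 (W j).1) :
    pot Φ ε (Sum.elim Z W) = pot Φ ε Z + pot Φ ε W := by
  unfold pot
  rw [Fintype.sum_sum_type, Fintype.card_sum]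
  simp only [Sum.elim_inl, Sum.elim_inr, Fintype.sum_sum_type]
  have h1 : ∀ i, ∑ j, Φ ((1 / ε) • ((Z i).1 - (W j).1)) = 0 := fun i =>
    Finset.sum_eq_zero fun j _ => potential_zero_far hΦ hε (h i j)
  have h2 : ∀ j, ∑ i, Φ ((1 / ε) • ((W j).1 - (Z i).1)) = 0 := fun j =>
    Finset.sum_eq_zero fun i _ => potential_zero_far hΦ hε (by rw [dist_comm]; exact h i j)
  simp only [h1, h2, Finset.sum_add_distrib, Finset.sum_const_zero]
  push_cast
  ring

theorem energy_sum_elim (hΦ : AdmissiblePotential Φ) {ε : ℝ} (hε : 0 < ε)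
    (Z : ι → PhasePoint) (W : κ → PhasePoint) (h : ∀ i j, ε ≤ dist (Z i).1 (W j).1) :
    energy Φ ε (Sum.elim Z W) = energy Φ ε Z + energy Φ ε W := by
  rw [energy_eq_kin_add_pot, energy_eq_kin_add_pot, energy_eq_kin_add_pot, kin_sum_elim,
    pot_sum_elim hΦ hε Z W h]
  ring

theorem energy_append (hΦ : AdmissiblePotential Φ) {ε : ℝ} (hε : 0 < ε) {m k : ℕ}
    (Z : Config m) (W : Config k) (h : ∀ i j, ε ≤ dist (Z i).1 (W j).1) :
    energy Φ ε (Fin.append Z W) = energy Φ ε Z + energy Φ ε W := by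
  rw [append_eq_elim, energy_equiv Φ ε (finSumFinEquiv (m := m) (n := k)).symm,
    energy_sum_elim hΦ hε Z W h]

/-- `pairEnergy` as half of the sum over ordered pairs. -/
theorem pairEnergy_eq (heven : ∀ q, Φ (-q) = Φ q) {n : ℕ} (x : Fin n → Space3) :
    pairEnergy Φ x = (1 / 2) * ∑ p ∈ (Finset.univ : Finset (Fin n)).offDiag, Φ (x p.1 - x p.2) := by
  have h1 : ∑ p ∈ (Finset.univ : Finset (Fin n)).offDiag, Φ (x p.1 - x p.2)
      = ∑ i, ∑ j, if i ≠ j then Φ (x i - x j) else 0 := by
    rw [← Finset.sum_product', ← Finset.sum_filter]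
    refine Finset.sum_congr ?_ fun _ _ => rfl
    ext p
    simp
  have h2 : ∑ i, ∑ j, (if i ≠ j then Φ (x i - x j) else 0)
      = ∑ i, ∑ j, (if i < j then Φ (x i - x j) else 0)
        + ∑ i, ∑ j, (if j < i then Φ (x i - x j) else 0) := by
    rw [← Finset.sum_add_distrib]
    refine Finset.sum_congr rfl fun i _ => ?_
    rw [← Finset.sum_add_distrib]
    refine Finset.sum_congr rfl fun j _ => ?_
    rcases lt_trichotomy i j with h | h | h
    · simp [h, h.ne, h.le]
    · simp [h]
    · simp [h, h.ne', h.le]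
  have h3 : ∑ i, ∑ j, (if j < i then Φ (x i - x j) else 0)
      = ∑ i, ∑ j, (if i < j then Φ (x i - x j) else 0) := by
    rw [Finset.sum_comm]
    refine Finset.sum_congr rfl fun i _ => Finset.sum_congr rfl fun j _ => ?_
    rw [← neg_sub, heven]
  rw [h1, h2, h3]
  unfold pairEnergy
  ring

theorem pot_eq_pairEnergy (heven : ∀ q, Φ (-q) = Φ q) (ε : ℝ) {n : ℕ} (Z : Config n) :
    pot Φ ε Z = pairEnergy Φ (fun i => (1 / ε) • (Z i).1) := by
  classical
  rw [pot_eq_offDiag, pairEnergy_eq heven]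
  congr 1
  refine Finset.sum_congr (by congr) fun p _ => ?_
  rw [rel, smul_sub]

/-! ### Stability for all configurations -/

/-- Families of distinct points are dense. -/
theorem dense_injective (n : ℕ) : Dense {x : Fin n → Space3 | Function.Injective x} := by
  have h : {x : Fin n → Space3 | Function.Injective x}
      = ⋂ p : {p : Fin n × Fin n // p.1 ≠ p.2}, {x : Fin n → Space3 | x p.1.1 ≠ x p.1.2} := by
    ext x
    simp only [mem_iInter, Subtype.forall, Prod.forall, mem_ofPred_eq]
    constructor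
    · intro hx a b hab h'
      exact hab (hx h')
    · intro hx a b hab
      by_contra hne
      exact hx a b hne hab
  rw [h]
  refine dense_iInter_of_isOpen (fun p => ?_) fun p => ?_
  · exact isOpen_ne_fun (continuous_apply _) (continuous_apply _)
  · obtain ⟨⟨a, b⟩, hab⟩ := p
    simp only at hab ⊢
    rw [dense_iff_inter_open]
    rintro U hU ⟨x, hx⟩
    by_cases hx' : x a ≠ x b
    · exact ⟨x, hx, hx'⟩
    · rw [not_not] at hx'
      -- perturb coordinate `a`
      have hcont : Continuous fun y : Space3 => Function.update x a y :=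
        continuous_const.update a continuous_id
      have hpre : IsOpen ((fun y : Space3 => Function.update x a y) ⁻¹' U) := hU.preimage hcont
      have hmem : x b ∈ (fun y : Space3 => Function.update x a y) ⁻¹' U := by
        simp only [mem_preimage]
        rw [← hx', Function.update_eq_self]
        exact hx
      obtain ⟨y, hy, hy'⟩ := (dense_compl_singleton (x b)).inter_open_nonempty _ hpre ⟨_, hmem⟩
      refine ⟨Function.update x a y, hy, ?_⟩
      simp only [mem_ofPred_eq, Function.update_self]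
      rw [Function.update_of_ne (Ne.symm hab)]
      exact hy'

theorem continuous_pairEnergy (h : Continuous Φ) (n : ℕ) :
    Continuous fun x : Fin n → Space3 => pairEnergy Φ x := by
  unfold pairEnergy
  refine continuous_finsetSum _ fun i _ => continuous_finsetSum _ fun j _ => ?_
  by_cases hij : i < j
  · simp only [hij, if_true]
    exact h.comp ((continuous_apply i).sub (continuous_apply j))
  · simp only [hij, if_false]
    exact continuous_const

theorem stable_all (hΦ : AdmissiblePotential Φ) : ∃ B : ℝ, 0 ≤ B ∧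
    ∀ (n : ℕ) (x : Fin n → Space3), (ContDiff ℝ 2 Φ ∨ Function.Injective x) →
      -(B * n) ≤ pairEnergy Φ x := by
  obtain ⟨B, hB, hst⟩ := hΦ.stable
  refine ⟨B, hB, fun n x hx => ?_⟩
  rcases hx with h | h
  · have hcl : IsClosed {x : Fin n → Space3 | -(B * n) ≤ pairEnergy Φ x} :=
      isClosed_le continuous_const (continuous_pairEnergy h.continuous n)
    have hsub : {x : Fin n → Space3 | Function.Injective x}
        ⊆ {x : Fin n → Space3 | -(B * n) ≤ pairEnergy Φ x} := fun x hx => hst n x hx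
    have := (dense_injective n).mono hsub
    have h2 := hcl.closure_eq ▸ this.closure_eq
    have h3 : x ∈ (univ : Set (Fin n → Space3)) := mem_univ x
    rw [← this.closure_eq, hcl.closure_eq] at h3
    exact h3
  · exact hst n x h

/-- A stability constant of the potential. -/
def stabB (Φ : Space3 → ℝ) : ℝ :=
  open scoped Classical in
  if h : ∃ B : ℝ, 0 ≤ B ∧ ∀ (n : ℕ) (x : Fin n → Space3),
    (ContDiff ℝ 2 Φ ∨ Function.Injective x) → -(B * n) ≤ pairEnergy Φ x then h.choose else 0

theorem stabB_nonneg (Φ : Space3 → ℝ) : 0 ≤ stabB Φ := by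
  classical
  unfold stabB
  split_ifs with h
  · exact h.choose_spec.1
  · exact le_rfl

theorem stabB_spec (hΦ : AdmissiblePotential Φ) (n : ℕ) (x : Fin n → Space3)
    (hx : ContDiff ℝ 2 Φ ∨ Function.Injective x) : -(stabB Φ * n) ≤ pairEnergy Φ x := by
  classical
  have h := stable_all hΦ
  unfold stabB
  rw [dif_pos h]
  exact h.choose_spec.2 n x hx

/-- Stability for every regular configuration of any finite type. -/
theorem neg_le_pot (hΦ : AdmissiblePotential Φ) {ε : ℝ} (hε : 0 < ε) {Z : ι → PhasePoint}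
    (hZ : Z ∈ Dom Φ ι) : -(stabB Φ * Fintype.card ι) ≤ pot Φ ε Z := by
  set σ : Fin (Fintype.card ι) ≃ ι := (Fintype.equivFin ι).symm with hσ
  rw [← pot_equiv Φ ε σ Z, pot_eq_pairEnergy (AdmissiblePotential.even hΦ)]
  refine stabB_spec hΦ _ _ ?_
  rcases hZ with h | h
  · exact Or.inl h
  · refine Or.inr fun a b hab => ?_
    by_contra hne
    refine h (σ a) (σ b) (fun h' => hne (σ.injective h')) ?_
    have hε' : (1 / ε : ℝ) ≠ 0 := by positivity
    exact (smul_right_injective Space3 hε') hab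

/-- **Kinetic energy bound** from the total energy. -/
theorem kin_le (hΦ : AdmissiblePotential Φ) {ε : ℝ} (hε : 0 < ε) {Z : ι → PhasePoint}
    (hZ : Z ∈ Dom Φ ι) : kin Z ≤ energy Φ ε Z + stabB Φ * Fintype.card ι := by
  have := neg_le_pot hΦ hε hZ
  rw [energy_eq_kin_add_pot]
  linarith

end

end Crest.Agent.R122.Loc45
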