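import Mathlib
import Crest.Prelude.Def_KineticLimit
import Crest.Agent.R122.NewtonFlow_671
import Crest.Agent.R122.LocStab_45

/-!
# Locality, symmetries and energy bounds for the Newton flow (row 122, block F1c, helper45)

All statements are for 671's `flow Φ ε t : (ι → PhasePoint) → ι → PhasePoint`.
-/

set_option autoImplicit false
set_option linter.unusedSectionVars false

open MeasureTheory Set Filter Topology
open Crest.AnalysisR.Kinetic
open Crest.Agent.R122.Flow671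

namespace Crest.Agent.R122.Loc45

noncomputable section

variable {Φ : Space3 → ℝ} {ε : ℝ} {ι κ : Type*} [Fintype ι] [Fintype κ]

/-! ### The regular set -/

theorem Dom_comp {ι κ : Type*} (e : ι ↪ κ) {Z : κ → PhasePoint} (hZ : Z ∈ Dom Φ κ) :
    (fun i => Z (e i)) ∈ Dom Φ ι := by
  rcases hZ with h | h
  · exact Or.inl h
  · exact Or.inr fun i j hij => h _ _ fun h' => hij (e.injective h')

theorem Dom_equiv {ι κ : Type*} (σ : ι ≃ κ) {Z : κ → PhasePoint} :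
    (fun i => Z (σ i)) ∈ Dom Φ ι ↔ Z ∈ Dom Φ κ := by
  refine ⟨fun h => ?_, fun h => Dom_comp σ.toEmbedding h⟩
  have := Dom_comp σ.symm.toEmbedding h
  simpa using this

theorem Dom_of_fst_eq {ι : Type*} {Z W : ι → PhasePoint} (h : ∀ i, (Z i).1 = (W i).1)
    (hZ : Z ∈ Dom Φ ι) : W ∈ Dom Φ ι := by
  rcases hZ with h' | h'
  · exact Or.inl h'
  · exact Or.inr fun i j hij => by rw [← h i, ← h j]; exact h' i j hij

theorem Dom_sum_elim {ι κ : Type*} {Z : ι → PhasePoint} {W : κ → PhasePoint} (hZ : Z ∈ Dom Φ ι)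
    (hW : W ∈ Dom Φ κ) (h : ∀ i j, (Z i).1 ≠ (W j).1) : Sum.elim Z W ∈ Dom Φ (ι ⊕ κ) := by
  rcases hZ with h1 | h1
  · exact Or.inl h1
  rcases hW with h2 | h2
  · exact Or.inl h2
  refine Or.inr ?_
  rintro (i | i) (j | j) hij
  · exact h1 i j fun h' => hij (by rw [h'])
  · exact h i j
  · exact (h j i).symm
  · exact h2 i j fun h' => hij (by rw [h'])

theorem Dom_append {m k : ℕ} {Z : Config m} {W : Config k} (hZ : Z ∈ Dom Φ (Fin m))
    (hW : W ∈ Dom Φ (Fin k)) (h : ∀ i j, (Z i).1 ≠ (W j).1) :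
    (Fin.append Z W : Config (m + k)) ∈ Dom Φ (Fin (m + k)) := by
  rw [append_eq_elim, Dom_equiv (finSumFinEquiv (m := m) (n := k)).symm]
  exact Dom_sum_elim hZ hW h

theorem ne_of_le_dist (hε : 0 < ε) {x y : Space3} (h : ε ≤ dist x y) : x ≠ y := by
  rintro rfl
  rw [dist_self] at h
  linarith

theorem Dom_of_far {ι : Type*} (hε : 0 < ε) {Z : ι → PhasePoint}
    (h : ∀ i j, i ≠ j → ε ≤ dist (Z i).1 (Z j).1) : Z ∈ Dom Φ ι :=
  Or.inr fun i j hij => ne_of_le_dist hε (h i j hij)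

theorem Dom_subsingleton {ι : Type*} [Subsingleton ι] (Z : ι → PhasePoint) : Z ∈ Dom Φ ι :=
  Or.inr fun i j hij => absurd (Subsingleton.elim i j) hij

/-! ### Energy and speed bounds -/

theorem kin_flow_le (hΦ : AdmissiblePotential Φ) (hε : 0 < ε) {Z : ι → PhasePoint}
    (hZ : Z ∈ Dom Φ ι) (t : ℝ) :
    kin (flow Φ ε t Z) ≤ energy Φ ε Z + stabB Φ * Fintype.card ι := by
  have := kin_le hΦ hε (flow_mem hΦ hε hZ t)
  rwa [energy_flow hΦ hε] at this

theorem kin_flow_pairExcluded_le (hΦ : AdmissiblePotential Φ) (hε : 0 < ε) {n : ℕ} {Z : Config n}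
    (hZ : Z ∈ PairExcluded ε n) (t : ℝ) : kin (flow Φ ε t Z) ≤ kin Z + stabB Φ * n := by
  have := kin_flow_le hΦ hε (pairExcluded_subset_Dom (Φ := Φ) hε n hZ) t
  rwa [energy_pairExcluded hΦ hε hZ, Fintype.card_fin] at this

/-- Bound of a single speed. -/
theorem norm_vel_flow_sq_le (hΦ : AdmissiblePotential Φ) (hε : 0 < ε) {Z : ι → PhasePoint}
    (hZ : Z ∈ Dom Φ ι) (t : ℝ) (i : ι) :
    ‖(flow Φ ε t Z i).2‖ ^ 2 ≤ 2 * (energy Φ ε Z + stabB Φ * Fintype.card ι) :=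
  (norm_sq_le_two_kin _ i).trans (by linarith [kin_flow_le hΦ hε hZ t])

theorem norm_vel_flow_le (hΦ : AdmissiblePotential Φ) (hε : 0 < ε) {Z : ι → PhasePoint}
    (hZ : Z ∈ Dom Φ ι) (t : ℝ) (i : ι) :
    ‖(flow Φ ε t Z i).2‖ ≤ Real.sqrt (2 * (energy Φ ε Z + stabB Φ * Fintype.card ι)) :=
  Real.le_sqrt_of_sq_le (norm_vel_flow_sq_le hΦ hε hZ t i)

theorem hasDerivAt_pos_flow (hΦ : AdmissiblePotential Φ) (hε : 0 < ε) {Z : ι → PhasePoint}
    (hZ : Z ∈ Dom Φ ι) (t : ℝ) (i : ι) :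
    HasDerivAt (fun s => (flow Φ ε s Z i).1) ((flow Φ ε t Z i).2) t :=
  hasDerivAt_pos (flow_hasDerivAt hΦ hε hZ t) i

/-- Displacement bound. -/
theorem dist_pos_flow_le (hΦ : AdmissiblePotential Φ) (hε : 0 < ε) {Z : ι → PhasePoint}
    (hZ : Z ∈ Dom Φ ι) (s t : ℝ) (i : ι) :
    dist (flow Φ ε t Z i).1 (flow Φ ε s Z i).1
      ≤ Real.sqrt (2 * (energy Φ ε Z + stabB Φ * Fintype.card ι)) * |t - s| := by
  have := Convex.norm_image_sub_le_of_norm_hasDerivWithin_le (s := univ)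
    (f := fun s => (flow Φ ε s Z i).1) (f' := fun s => (flow Φ ε s Z i).2) (x := s) (y := t)
    (C := Real.sqrt (2 * (energy Φ ε Z + stabB Φ * Fintype.card ι)))
    (fun u _ => (hasDerivAt_pos_flow hΦ hε hZ u i).hasDerivWithinAt)
    (fun u _ => norm_vel_flow_le hΦ hε hZ u i) convex_univ (mem_univ _) (mem_univ _)
  rwa [← dist_eq_norm, Real.norm_eq_abs] at this

/-! ### Locality -/

theorem solOn_flow (hΦ : AdmissiblePotential Φ) (hε : 0 < ε) {Z : ι → PhasePoint}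
    (hZ : Z ∈ Dom Φ ι) (s : Set ℝ) : SolOn Φ ε (fun t => flow Φ ε t Z) s :=
  SolOn.of_hasDerivAt fun t => flow_hasDerivAt hΦ hε hZ t

/-- **Uniqueness for solution curves**, based at an arbitrary time of the interval. -/
theorem SolOn.eq_flow (hΦ : AdmissiblePotential Φ) (hε : 0 < ε) {γ : ℝ → ι → PhasePoint}
    {a b t₀ : ℝ} (hγ : SolOn Φ ε γ (Icc a b)) (h0 : t₀ ∈ Icc a b) (hx : γ t₀ ∈ Dom Φ ι) {t : ℝ}
    (ht : t ∈ Icc a b) : γ t = flow Φ ε (t - t₀) (γ t₀) := by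
  have h1 := (hγ.shiftT t₀)
  have h2 : ((fun t => t + t₀) ⁻¹' Icc a b) = Icc (a - t₀) (b - t₀) := by
    ext s
    simp only [mem_preimage, mem_Icc]
    constructor
    · rintro ⟨h, h'⟩; constructor <;> linarith
    · rintro ⟨h, h'⟩; constructor <;> linarith
  rw [h2] at h1
  have h3 := Flow671.eq_flow hΦ hε (γ := fun t => γ (t + t₀)) (a := a - t₀) (b := b - t₀)
    ⟨by linarith [h0.1], by linarith [h0.2]⟩ h1 (by simpa using hx) (t := t - t₀)
    ⟨by linarith [ht.1], by linarith [ht.2]⟩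
  simpa using h3

/-- Two solution curves which agree at one time agree on the whole interval. -/
theorem SolOn.eqOn (hΦ : AdmissiblePotential Φ) (hε : 0 < ε) {γ η : ℝ → ι → PhasePoint}
    {a b t₀ : ℝ} (hγ : SolOn Φ ε γ (Icc a b)) (hη : SolOn Φ ε η (Icc a b)) (h0 : t₀ ∈ Icc a b)
    (hx : γ t₀ ∈ Dom Φ ι) (heq : γ t₀ = η t₀) : EqOn γ η (Icc a b) := by
  intro t ht
  rw [hγ.eq_flow hΦ hε h0 hx ht, hη.eq_flow hΦ hε h0 (heq ▸ hx) ht, heq]

/-- **Locality**: a sub-family isolated on a time interval evolves by its own flow. -/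
theorem flow_comp (hΦ : AdmissiblePotential Φ) (hε : 0 < ε) (e : ι ↪ κ) {Z : κ → PhasePoint}
    (hZ : Z ∈ Dom Φ κ) {a b t₀ : ℝ} (h0 : t₀ ∈ Icc a b)
    (hfar : ∀ t ∈ Icc a b, CrossFar ε e (flow Φ ε t Z)) {t : ℝ} (ht : t ∈ Icc a b) :
    (fun i => flow Φ ε t Z (e i)) = flow Φ ε (t - t₀) (fun i => flow Φ ε t₀ Z (e i)) :=
  ((solOn_flow hΦ hε hZ (Icc a b)).comp hΦ hε e hfar).eq_flow hΦ hε h0
    (Dom_comp e (flow_mem hΦ hε hZ t₀)) ht

/-- Locality from time `0`. -/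
theorem flow_comp_zero (hΦ : AdmissiblePotential Φ) (hε : 0 < ε) (e : ι ↪ κ) {Z : κ → PhasePoint}
    (hZ : Z ∈ Dom Φ κ) {a b : ℝ} (h0 : (0 : ℝ) ∈ Icc a b)
    (hfar : ∀ t ∈ Icc a b, CrossFar ε e (flow Φ ε t Z)) {t : ℝ} (ht : t ∈ Icc a b) :
    (fun i => flow Φ ε t Z (e i)) = flow Φ ε t (fun i => Z (e i)) := by
  have := flow_comp hΦ hε e hZ h0 hfar ht
  rwa [sub_zero, flow_zero hΦ hε] at this

/-- **Relabelling**. -/
theorem flow_equiv (hΦ : AdmissiblePotential Φ) (hε : 0 < ε) (σ : ι ≃ κ) (t : ℝ)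
    (Z : κ → PhasePoint) : flow Φ ε t (fun i => Z (σ i)) = fun i => flow Φ ε t Z (σ i) := by
  by_cases hZ : Z ∈ Dom Φ κ
  · have h := flow_comp_zero hΦ hε σ.toEmbedding hZ (a := -|t|) (b := |t|)
      ⟨by simp, abs_nonneg t⟩ (fun s _ i j hj => absurd (σ.surjective j) hj)
      (t := t) ⟨neg_abs_le t, le_abs_self t⟩
    exact h.symm
  · have hZ' : (fun i => Z (σ i)) ∉ Dom Φ ι := fun h => hZ ((Dom_equiv σ).1 h)
    rw [flow_of_not_mem hZ', flow_of_not_mem hZ]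

/-- **Gluing**: two groups whose own evolutions stay at cross distance at least `ε` on an interval
containing `0` evolve independently. -/
theorem flow_sum_elim (hΦ : AdmissiblePotential Φ) (hε : 0 < ε) {Z : ι → PhasePoint}
    {W : κ → PhasePoint} (hZ : Z ∈ Dom Φ ι) (hW : W ∈ Dom Φ κ) {a b : ℝ} (h0 : (0 : ℝ) ∈ Icc a b)
    (hfar : ∀ t ∈ Icc a b, ∀ i j, ε ≤ dist (flow Φ ε t Z i).1 (flow Φ ε t W j).1) {t : ℝ}
    (ht : t ∈ Icc a b) :
    flow Φ ε t (Sum.elim Z W) = Sum.elim (flow Φ ε t Z) (flow Φ ε t W) := by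
  have h1 := SolOn.sum_elim hΦ hε (solOn_flow hΦ hε hZ (Icc a b)) (solOn_flow hΦ hε hW (Icc a b))
    hfar
  have h2 : Sum.elim (flow Φ ε 0 Z) (flow Φ ε 0 W) = Sum.elim Z W := by
    rw [flow_zero hΦ hε, flow_zero hΦ hε]
  have h3 : Sum.elim Z W ∈ Dom Φ (ι ⊕ κ) := by
    refine Dom_sum_elim hZ hW fun i j => ne_of_le_dist hε ?_
    have := hfar 0 h0 i j
    rwa [flow_zero hΦ hε, flow_zero hΦ hε] at this
  have h4 := h1.eq_flow hΦ hε h0 (by rw [h2]; exact h3) ht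
  rw [sub_zero, h2] at h4
  exact h4.symm

theorem flow_append (hΦ : AdmissiblePotential Φ) (hε : 0 < ε) {m k : ℕ} {Z : Config m}
    {W : Config k} (hZ : Z ∈ Dom Φ (Fin m)) (hW : W ∈ Dom Φ (Fin k)) {a b : ℝ}
    (h0 : (0 : ℝ) ∈ Icc a b)
    (hfar : ∀ t ∈ Icc a b, ∀ i j, ε ≤ dist (flow Φ ε t Z i).1 (flow Φ ε t W j).1) {t : ℝ}
    (ht : t ∈ Icc a b) :
    flow Φ ε t (Fin.append Z W : Config (m + k)) = Fin.append (flow Φ ε t Z) (flow Φ ε t W) := by
  rw [append_eq_elim, append_eq_elim,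
    flow_equiv hΦ hε (finSumFinEquiv (m := m) (n := k)).symm t (Sum.elim Z W),
    flow_sum_elim hΦ hε hZ hW h0 hfar ht]

/-- **Gluing, real version**: if in the glued world the two groups stay at cross distance at least
`ε`, then each of them evolves by its own flow. -/
theorem flow_sum_inl (hΦ : AdmissiblePotential Φ) (hε : 0 < ε) {Z : ι → PhasePoint}
    {W : κ → PhasePoint} (hZW : Sum.elim Z W ∈ Dom Φ (ι ⊕ κ)) {a b : ℝ} (h0 : (0 : ℝ) ∈ Icc a b)
    (hfar : ∀ t ∈ Icc a b, ∀ i j, ε ≤ dist (flow Φ ε t (Sum.elim Z W) (Sum.inl i)).1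
      (flow Φ ε t (Sum.elim Z W) (Sum.inr j)).1) {t : ℝ} (ht : t ∈ Icc a b) :
    flow Φ ε t (Sum.elim Z W) = Sum.elim (flow Φ ε t Z) (flow Φ ε t W) := by
  have h1 := flow_comp_zero hΦ hε (Function.Embedding.inl : ι ↪ ι ⊕ κ) hZW h0 (by
    rintro s hs i (j | j) hj
    · exact absurd ⟨j, rfl⟩ hj
    · exact hfar s hs i j) ht
  have h2 := flow_comp_zero hΦ hε (Function.Embedding.inr : κ ↪ ι ⊕ κ) hZW h0 (by
    rintro s hs i (j | j) hj
    · rw [dist_comm]; exact hfar s hs j i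
    · exact absurd ⟨j, rfl⟩ hj) ht
  funext k
  rcases k with i | j
  · simpa using congrFun h1 i
  · simpa using congrFun h2 j

/-- An isolated particle flies freely. -/
theorem flow_free (hΦ : AdmissiblePotential Φ) (hε : 0 < ε) {Z : ι → PhasePoint}
    (hZ : Z ∈ Dom Φ ι) {a b : ℝ} (i : ι)
    (hfar : ∀ t ∈ Icc a b, ∀ j, j ≠ i → ε ≤ dist (flow Φ ε t Z i).1 (flow Φ ε t Z j).1)
    {t : ℝ} (ht : t ∈ Icc a b) :
    flow Φ ε t Z i = ((flow Φ ε a Z i).1 + (t - a) • (flow Φ ε a Z i).2, (flow Φ ε a Z i).2) :=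
  (solOn_flow hΦ hε hZ (Icc a b)).free_flight hΦ hε i hfar t ht

/-- Free flight of a whole configuration. -/
def freeFlight (t : ℝ) (Z : ι → PhasePoint) : ι → PhasePoint :=
  fun i => ((Z i).1 + t • (Z i).2, (Z i).2)

theorem solOn_freeFlight (hΦ : AdmissiblePotential Φ) (hε : 0 < ε) {Z : ι → PhasePoint}
    {s : Set ℝ} (hfar : ∀ t ∈ s, ∀ i j, i ≠ j →
      ε ≤ dist (freeFlight t Z i).1 (freeFlight t Z j).1) :
    SolOn Φ ε (fun t => freeFlight t Z) s := by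
  intro t ht
  refine hasDerivWithinAt_mk.2 ⟨fun i => ?_, fun i => ?_⟩
  · rw [nf_free hΦ hε (freeFlight t Z) i fun j hj => hfar t ht i j (Ne.symm hj)]
    have h4 : HasDerivWithinAt (fun r : ℝ => r • (Z i).2) ((1 : ℝ) • (Z i).2) s t :=
      (hasDerivWithinAt_id t _).smul_const _
    rw [one_smul] at h4
    exact h4.const_add _
  · rw [nf_free hΦ hε (freeFlight t Z) i fun j hj => hfar t ht i j (Ne.symm hj)]
    exact hasDerivWithinAt_const _ _ _

/-- If all free flights stay at mutual distance at least `ε` on an interval containing `0`, then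
the Newton flow is free flight there. -/
theorem flow_eq_freeFlight (hΦ : AdmissiblePotential Φ) (hε : 0 < ε) {Z : ι → PhasePoint}
    {a b : ℝ} (h0 : (0 : ℝ) ∈ Icc a b) (hfar : ∀ t ∈ Icc a b, ∀ i j, i ≠ j →
      ε ≤ dist (freeFlight t Z i).1 (freeFlight t Z j).1) {t : ℝ} (ht : t ∈ Icc a b) :
    flow Φ ε t Z = freeFlight t Z := by
  have h1 : freeFlight 0 Z = Z := by
    funext i
    simp [freeFlight]
  have h2 := (solOn_freeFlight hΦ hε hfar).eq_flow hΦ hε h0 (by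
    rw [h1]
    refine Dom_of_far hε fun i j hij => ?_
    have := hfar 0 h0 i j hij
    rwa [h1] at this) ht
  rw [sub_zero, h1] at h2
  exact h2.symm

/-- One particle (or none) always flies freely. -/
theorem flow_subsingleton (hΦ : AdmissiblePotential Φ) (hε : 0 < ε) [Subsingleton ι] (t : ℝ)
    (Z : ι → PhasePoint) : flow Φ ε t Z = freeFlight t Z :=
  flow_eq_freeFlight hΦ hε (a := -|t|) (b := |t|) ⟨by simp, abs_nonneg t⟩
    (fun _ _ i j hij => absurd (Subsingleton.elim i j) hij) ⟨neg_abs_le t, le_abs_self t⟩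

/-! ### Symmetries of the flow -/

theorem Dom_shiftX {ι : Type*} (a : Space3) {Z : ι → PhasePoint} :
    shiftX a Z ∈ Dom Φ ι ↔ Z ∈ Dom Φ ι := by
  simp only [Dom, shiftX, mem_ofPred_eq, ne_eq, add_left_inj]

theorem Dom_boost {ι : Type*} (u : Space3) {Z : ι → PhasePoint} :
    boost u Z ∈ Dom Φ ι ↔ Z ∈ Dom Φ ι := Iff.rfl

theorem Dom_rev {ι : Type*} {Z : ι → PhasePoint} :
    rev Z ∈ Dom Φ ι ↔ Z ∈ Dom Φ ι := Iff.rfl

theorem Dom_rot {ι : Type*} (L : Space3 ≃ₗᵢ[ℝ] Space3) {Z : ι → PhasePoint} :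
    rot L Z ∈ Dom Φ ι ↔ Z ∈ Dom Φ ι := by
  simp only [Dom, rot, mem_ofPred_eq, ne_eq, EmbeddingLike.apply_eq_iff_eq]

theorem Dom_dil {ι : Type*} {c : ℝ} (hc : c ≠ 0) {Z : ι → PhasePoint} :
    dil c Z ∈ Dom Φ ι ↔ Z ∈ Dom Φ ι := by
  simp only [Dom, dil, mem_ofPred_eq, ne_eq, smul_right_inj hc]

theorem solOn_all_eq_flow (hΦ : AdmissiblePotential Φ) (hε : 0 < ε) {γ : ℝ → ι → PhasePoint}
    (hγ : ∀ s, SolOn Φ ε γ s) (hx : γ 0 ∈ Dom Φ ι) (t : ℝ) : γ t = flow Φ ε t (γ 0) := by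
  have := (hγ (Icc (-|t|) |t|)).eq_flow hΦ hε (t₀ := 0) ⟨by simp, abs_nonneg t⟩ hx
    ⟨neg_abs_le t, le_abs_self t⟩
  rwa [sub_zero] at this

theorem flow_shiftX (hΦ : AdmissiblePotential Φ) (hε : 0 < ε) (a : Space3) (t : ℝ)
    (Z : ι → PhasePoint) : flow Φ ε t (shiftX a Z) = shiftX a (flow Φ ε t Z) := by
  by_cases hZ : Z ∈ Dom Φ ι
  · have := solOn_all_eq_flow hΦ hε (γ := fun t => shiftX a (flow Φ ε t Z))
      (fun s => (solOn_flow hΦ hε hZ s).shiftX a)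
      (by simpa [flow_zero hΦ hε] using (Dom_shiftX a).2 hZ) t
    simp only [flow_zero hΦ hε] at this
    exact this.symm
  · rw [flow_of_not_mem (fun h => hZ ((Dom_shiftX a).1 h)), flow_of_not_mem hZ]

/-- Galilean invariance of the flow. -/
theorem flow_boost (hΦ : AdmissiblePotential Φ) (hε : 0 < ε) (u : Space3) (t : ℝ)
    {Z : ι → PhasePoint} (hZ : Z ∈ Dom Φ ι) :
    flow Φ ε t (boost u Z) = shiftX (t • u) (boost u (flow Φ ε t Z)) := by
  have h1 : ∀ W : ι → PhasePoint, shiftX ((0 : ℝ) • u) W = W := fun W => by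
    funext i; simp [shiftX]
  have := solOn_all_eq_flow hΦ hε (γ := fun t => shiftX ((t - 0) • u) (boost u (flow Φ ε t Z)))
    (fun s => (solOn_flow hΦ hε hZ s).boost u 0)
    (by simp only [flow_zero hΦ hε, sub_zero, h1]; exact hZ) t
  simp only [flow_zero hΦ hε, sub_zero, h1] at this
  exact this.symm

theorem flow_rot (hΦ : AdmissiblePotential Φ) (hε : 0 < ε) (L : Space3 ≃ₗᵢ[ℝ] Space3) (t : ℝ)
    (Z : ι → PhasePoint) : flow Φ ε t (rot L Z) = rot L (flow Φ ε t Z) := by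
  by_cases hZ : Z ∈ Dom Φ ι
  · have := solOn_all_eq_flow hΦ hε (γ := fun t => rot L (flow Φ ε t Z))
      (fun s => (solOn_flow hΦ hε hZ s).rot hΦ L)
      (by simpa [flow_zero hΦ hε] using (Dom_rot L).2 hZ) t
    simp only [flow_zero hΦ hε] at this
    exact this.symm
  · rw [flow_of_not_mem (fun h => hZ ((Dom_rot L).1 h)), flow_of_not_mem hZ]

/-- Time reversal of the flow. -/
theorem flow_rev (hΦ : AdmissiblePotential Φ) (hε : 0 < ε) (t : ℝ)
    (Z : ι → PhasePoint) : flow Φ ε t (rev Z) = rev (flow Φ ε (-t) Z) := by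
  by_cases hZ : Z ∈ Dom Φ ι
  · have := solOn_all_eq_flow hΦ hε (γ := fun t => rev (flow Φ ε (0 - t) Z))
      (fun s => by
        have := (solOn_flow hΦ hε hZ univ).rev 0
        exact this.mono (fun _ _ => mem_univ _))
      (by simp only [flow_zero hΦ hε, sub_zero]; exact hZ) t
    simp only [flow_zero hΦ hε, sub_zero, zero_sub] at this
    exact this.symm
  · have hZ' : rev Z ∉ Dom Φ ι := fun h => hZ h
    rw [flow_of_not_mem hZ', flow_of_not_mem hZ]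

/-- Scaling: the flow at range `ε` is the flow at range `1` in rescaled variables. -/
theorem flow_scale (hΦ : AdmissiblePotential Φ) (hε : 0 < ε) (t : ℝ)
    (Z : ι → PhasePoint) :
    flow Φ ε t Z = dil ε (flow Φ 1 (t / ε) (dil (1 / ε) Z)) := by
  have hε' : ε ≠ 0 := hε.ne'
  have h2 : dil ε (dil (1 / ε) Z) = Z := by
    funext i
    simp [dil, smul_smul, hε']
  have hinv : (1 / ε : ℝ) ≠ 0 := by positivity
  by_cases hZ : Z ∈ Dom Φ ι
  · have h1 : dil (1 / ε) Z ∈ Dom Φ ι := (Dom_dil hinv).2 hZ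
    have := solOn_all_eq_flow hΦ hε (γ := fun t => dil ε (flow Φ 1 (t / ε) (dil (1 / ε) Z)))
      (fun s => by
        have := (solOn_flow hΦ one_pos h1 univ).unscale hε'
        exact this.mono (fun _ _ => mem_univ _))
      (by simp only [zero_div, flow_zero hΦ one_pos, h2]; exact hZ) t
    simp only [zero_div, flow_zero hΦ one_pos, h2] at this
    exact this.symm
  · have h1 : dil (1 / ε) Z ∉ Dom Φ ι := fun h => hZ ((Dom_dil hinv).1 h)
    rw [flow_of_not_mem hZ, flow_of_not_mem h1, h2]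

end

end Crest.Agent.R122.Loc45
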