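import Mathlib
import Crest.Prelude.Def_KineticLimit
import Crest.Agent.R122.LocFlow_45

/-!
# Two worlds (row 122, block D3, helper45), part 1: local determinism

A *world* is a global solution of Newton's equations inside the regular set. The master lemma
`World.agree` compares two worlds `X` (particles `ι`) and `Y` (particles `κ`) along a common family
`μ`: if on `[a, b]` the `X`-paths of the common particles in `S` are at distance at least `ε` from
all `X`-particles and all `Y`-particles outside `S ∪ A`, where the particles in `A` have the same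
states in both worlds on `[a, b]`, and the states of `S` agree at time `a`, then the states of `S`
agree on `[a, b]`. Note that no hypothesis is made on the `Y`-paths of `S`.
-/

set_option autoImplicit false
set_option linter.unusedSectionVars false

open MeasureTheory Set Filter Topology
open scoped NNReal
open Crest.AnalysisR.Kinetic
open Crest.Agent.R122.Flow671

namespace Crest.Agent.R122.Loc45

noncomputable section

variable {Φ : Space3 → ℝ} {ε : ℝ} {ι κ μ : Type*} [Fintype ι] [Fintype κ]

/-! ### Worlds -/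

/-- A world: a global solution of Newton's equations inside the regular set. -/
def World (Φ : Space3 → ℝ) (ε : ℝ) (X : ℝ → ι → PhasePoint) : Prop :=
  IsSol (nf Φ ε) (Dom Φ ι) X

theorem world_flow (hΦ : AdmissiblePotential Φ) (hε : 0 < ε) {Z : ι → PhasePoint}
    (hZ : Z ∈ Dom Φ ι) : World Φ ε (fun t => flow Φ ε t Z) :=
  fun t => ⟨flow_mem hΦ hε hZ t, flow_hasDerivAt hΦ hε hZ t⟩

namespace World

variable {X : ℝ → ι → PhasePoint} {Y : ℝ → κ → PhasePoint}

theorem mem (h : World Φ ε X) (t : ℝ) : X t ∈ Dom Φ ι := (h t).1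

theorem hasDerivAt (h : World Φ ε X) (t : ℝ) : HasDerivAt X (nf Φ ε (X t)) t := (h t).2

theorem continuous (h : World Φ ε X) : Continuous X := IsSol.continuous h

theorem continuous_apply (h : World Φ ε X) (i : ι) : Continuous fun t => X t i :=
  (_root_.continuous_apply i).comp h.continuous

theorem continuous_pos (h : World Φ ε X) (i : ι) : Continuous fun t => (X t i).1 :=
  (h.continuous_apply i).fst

theorem continuous_dist (h : World Φ ε X) (i j : ι) :
    Continuous fun t => dist (X t i).1 (X t j).1 :=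
  (h.continuous_pos i).dist (h.continuous_pos j)

theorem shift (h : World Φ ε X) (s : ℝ) : World Φ ε (fun t => X (s + t)) := IsSol.shift h s

theorem solOn (h : World Φ ε X) (s : Set ℝ) : SolOn Φ ε X s :=
  fun t _ => (h.hasDerivAt t).hasDerivWithinAt

theorem eq_flow (hΦ : AdmissiblePotential Φ) (hε : 0 < ε) (h : World Φ ε X) (s t : ℝ) :
    X (s + t) = flow Φ ε t (X s) := by
  have h1 : X (s + t) = flow Φ ε t (X (s + 0)) :=
    (complete (ι := ι) hΦ hε).eq_flow (h.shift s) t
  rwa [add_zero] at h1

theorem energy_eq (hΦ : AdmissiblePotential Φ) (hε : 0 < ε) (h : World Φ ε X) (s t : ℝ) :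
    energy Φ ε (X t) = energy Φ ε (X s) := by
  have := h.eq_flow hΦ hε s (t - s)
  rw [add_sub_cancel] at this
  rw [this, energy_flow hΦ hε]

/-- Relabelling / sub-family: pull back along a bijection. -/
theorem equiv {κ : Type*} [Fintype κ] {Y : ℝ → κ → PhasePoint} (h : World Φ ε Y) (σ : ι ≃ κ) :
    World Φ ε (fun t i => Y t (σ i)) := by
  intro t
  refine ⟨Dom_comp σ.toEmbedding (h.mem t), ?_⟩
  rw [nf_equiv Φ ε σ (Y t), hasDerivAt_pi]
  exact fun i => (hasDerivAt_pi.1 (h.hasDerivAt t)) (σ i)

/-- All times are good at some level. -/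
theorem exists_good (hΦ : AdmissiblePotential Φ) (hε : 0 < ε) (h : World Φ ε X) :
    ∃ L₀ : ℝ, 0 ≤ L₀ ∧ ∀ L, L₀ ≤ L → ∀ t, X t ∈ Good Φ ε L ι := by
  obtain ⟨M, hM, hlow⟩ := exists_lower hΦ
  obtain ⟨L₀, hL₀, hlow₀⟩ := exists_Low (Φ := Φ) (ε := ε) (M := M) (h.mem 0)
  refine ⟨L₀, hL₀, fun L hL t => ?_⟩
  have h1 : X t ∈ Low Φ ε M L₀ ι := by
    refine ⟨h.mem t, ?_⟩
    rw [h.energy_eq hΦ hε 0 t]
    exact hlow₀.2
  have h2 := Low_subset_Good hΦ hε hM hlow h1
  rcases h2 with h2 | h2
  · exact Or.inl h2
  · exact Or.inr fun i j hij => ⟨(h2 i j hij).1, (h2 i j hij).2.trans_le hL⟩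

end World

/-! ### Uniqueness with moving external sources -/

open scoped Classical in
/-- Positions of the `κ`-particles, where those in the range of `f` are taken from `u`. -/
def mixPos {S : Type*} (f : S → κ) (y : κ → PhasePoint) (u : S → PhasePoint) (k : κ) : Space3 :=
  if h : ∃ m, f m = k then (u h.choose).1 else (y k).1

theorem mixPos_self {S : Type*} (f : S → κ) (y : κ → PhasePoint) (k : κ) :
    mixPos f y (fun m => y (f m)) k = (y k).1 := by
  classical
  unfold mixPos
  split_ifs with h
  · simp only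
    rw [h.choose_spec]
  · rfl

theorem mixPos_mem {S : Type*} {f : S → κ} (hf : Function.Injective f) (y : κ → PhasePoint)
    (u : S → PhasePoint) (m : S) : mixPos f y u (f m) = (u m).1 := by
  classical
  unfold mixPos
  have h : ∃ m', f m' = f m := ⟨m, rfl⟩
  rw [dif_pos h, hf h.choose_spec]

theorem mixPos_not_mem {S : Type*} (f : S → κ) (y : κ → PhasePoint)
    (u : S → PhasePoint) {k : κ} (hk : ∀ m, f m ≠ k) : mixPos f y u k = (y k).1 := by
  classical
  unfold mixPos
  rw [dif_neg]
  rintro ⟨m, hm⟩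
  exact hk m hm

/-- The field felt by the particles `S`, when the others follow prescribed paths. -/
def mixField (g : Space3 → Space3) (ε : ℝ) {S : Type*} (f : S → κ) (y : κ → PhasePoint)
    (u : S → PhasePoint) : S → PhasePoint :=
  fun m => ((u m).2, -(1 / ε) • ∑ k, g ((1 / ε) • ((u m).1 - mixPos f y u k)))

theorem mixField_lipschitz {g : Space3 → Space3} {C : ℝ≥0} (hg : LipschitzWith C g) {ε : ℝ}
    (hε : 0 < ε) {S : Type*} [Fintype S] (f : S → κ) :
    ∃ K : ℝ≥0, ∀ y : κ → PhasePoint, LipschitzWith K (mixField g ε f y) := by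
  classical
  have hpos : 0 ≤ 1 / ε := by positivity
  set A : ℝ := (1 / ε) * (Fintype.card κ * (C * ((1 / ε) * 2))) with hA
  have hA0 : 0 ≤ A := by positivity
  refine ⟨⟨1 + A, by positivity⟩, fun y => LipschitzWith.of_dist_le_mul fun u w => ?_⟩
  change dist (mixField g ε f y u) (mixField g ε f y w) ≤ (1 + A) * dist u w
  have hd : 0 ≤ dist u w := dist_nonneg
  have hfst : ∀ m, dist (u m).1 (w m).1 ≤ dist u w := fun m =>
    (le_max_left _ _).trans (dist_le_pi_dist u w m)
  have hsnd : ∀ m, dist (u m).2 (w m).2 ≤ dist u w := fun m =>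
    (le_max_right _ _).trans (dist_le_pi_dist u w m)
  have hmix : ∀ k, dist (mixPos f y u k) (mixPos f y w k) ≤ dist u w := by
    intro k
    unfold mixPos
    split_ifs with h
    · exact hfst _
    · rw [dist_self]; exact hd
  rw [dist_pi_le_iff (by positivity)]
  intro m
  rw [Prod.dist_eq]
  refine max_le ?_ ?_
  · change dist (u m).2 (w m).2 ≤ _
    nlinarith [hsnd m]
  · change dist (-(1 / ε) • ∑ k, g ((1 / ε) • ((u m).1 - mixPos f y u k)))
      (-(1 / ε) • ∑ k, g ((1 / ε) • ((w m).1 - mixPos f y w k))) ≤ _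
    rw [dist_smul₀, norm_neg, Real.norm_of_nonneg hpos]
    have h1 : dist (∑ k, g ((1 / ε) • ((u m).1 - mixPos f y u k)))
        (∑ k, g ((1 / ε) • ((w m).1 - mixPos f y w k)))
        ≤ Fintype.card κ * (C * ((1 / ε) * 2)) * dist u w := by
      refine (dist_sum_sum_le _ _ _).trans ?_
      have : ∀ k ∈ Finset.univ, dist (g ((1 / ε) • ((u m).1 - mixPos f y u k)))
          (g ((1 / ε) • ((w m).1 - mixPos f y w k))) ≤ C * ((1 / ε) * 2) * dist u w := by
        intro k _
        refine (hg.dist_le_mul _ _).trans ?_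
        rw [dist_smul₀, Real.norm_of_nonneg hpos, mul_assoc, mul_assoc]
        refine mul_le_mul_of_nonneg_left (mul_le_mul_of_nonneg_left ?_ hpos) C.2
        calc dist ((u m).1 - mixPos f y u k) ((w m).1 - mixPos f y w k)
            ≤ dist (u m).1 (w m).1 + dist (mixPos f y u k) (mixPos f y w k) :=
              dist_sub_sub_le _ _ _ _
          _ ≤ dist u w + dist u w := add_le_add (hfst m) (hmix k)
          _ = 2 * dist u w := by ring
      refine (Finset.sum_le_sum this).trans (le_of_eq ?_)
      rw [Finset.sum_const, Finset.card_univ, nsmul_eq_mul]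
      ring
    have h2 := mul_le_mul_of_nonneg_left h1 hpos
    have h3 : (1 / ε) * (Fintype.card κ * (C * ((1 / ε) * 2)) * dist u w) = A * dist u w := by
      rw [hA]; ring
    refine (h2.trans (le_of_eq h3)).trans ?_
    nlinarith

/-- **Master lemma (local determinism).** -/
theorem World.agree (hΦ : AdmissiblePotential Φ) (hε : 0 < ε) {X : ℝ → ι → PhasePoint}
    {Y : ℝ → κ → PhasePoint} (hX : World Φ ε X) (hY : World Φ ε Y) {e : μ → ι} {f : μ → κ}
    (he : Function.Injective e) (hf : Function.Injective f) {S A : Set μ} {a b : ℝ}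
    (hA : ∀ m ∈ A, ∀ t ∈ Ico a b, X t (e m) = Y t (f m))
    (ha : ∀ m ∈ S, X a (e m) = Y a (f m))
    (hw : ∀ t ∈ Ico a b, ∀ m ∈ S, ∀ k, (∀ m' ∈ S ∪ A, e m' ≠ k) →
      ε ≤ dist (X t (e m)).1 (X t k).1)
    (hw' : ∀ t ∈ Ico a b, ∀ m ∈ S, ∀ k, (∀ m' ∈ S ∪ A, f m' ≠ k) →
      ε ≤ dist (X t (e m)).1 (Y t k).1) :
    ∀ m ∈ S, ∀ t ∈ Icc a b, X t (e m) = Y t (f m) := by
  classical
  obtain ⟨L₁, hL₁, hg₁⟩ := hX.exists_good hΦ hε
  obtain ⟨L₂, hL₂, hg₂⟩ := hY.exists_good hΦ hε
  set L := max L₁ L₂ with hL
  have hL0 : 0 ≤ L := hL₁.trans (le_max_left _ _)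
  have hgX : ∀ t, X t ∈ Good Φ ε L ι := hg₁ L (le_max_left _ _)
  have hgY : ∀ t, Y t ∈ Good Φ ε L κ := hg₂ L (le_max_right _ _)
  have hn := cut_nice hΦ hL0
  obtain ⟨C, hC⟩ := hn.grad_lipschitz
  have : Finite μ := Finite.of_injective e he
  have := Fintype.ofFinite μ
  have : Fintype S := Fintype.ofFinite S
  set fS : S → κ := fun m => f m with hfS
  have hfSi : Function.Injective fS := fun m m' h => Subtype.ext (hf h)
  obtain ⟨K, hK⟩ := mixField_lipschitz hC hε fS
  set u : ℝ → S → PhasePoint := fun t m => X t (e m) with hu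
  set v : ℝ → S → PhasePoint := fun t m => Y t (f m) with hv
  set V : ℝ → (S → PhasePoint) → (S → PhasePoint) :=
    fun t => mixField (gradient (cut Φ L)) ε fS (Y t) with hV
  have huc : Continuous u := continuous_pi fun m => hX.continuous_apply (e m)
  have hvc : Continuous v := continuous_pi fun m => hY.continuous_apply (f m)
  have hgrad : ∀ {x y : Space3}, ε ≤ dist x y → gradient (cut Φ L) ((1 / ε) • (x - y)) = 0 :=
    fun h => hn.grad_zero (one_le_norm_smul hε h)
  -- `Y` restricted to `S` solves the mixed equation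
  have hvd : ∀ t, HasDerivAt v (V t (v t)) t := by
    intro t
    have h1 := hY.hasDerivAt t
    rw [nf_eq_cut hΦ hL0 (hgY t), hasDerivAt_pi] at h1
    rw [hasDerivAt_pi]
    intro m
    have h2 : V t (v t) m = nf (cut Φ L) ε (Y t) (f m) := by
      simp only [hV, mixField, nf, hv, hfS]
      refine Prod.ext rfl ?_
      simp only
      congr 1
      refine Finset.sum_congr rfl fun k _ => ?_
      rw [show mixPos (fun m : S => f m) (Y t) (fun m => Y t (f m)) k = (Y t k).1 from
        mixPos_self (fun m : S => f m) (Y t) k]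
    rw [h2]
    exact h1 (f m)
  -- `X` restricted to `S` solves the mixed equation
  have hud : ∀ t ∈ Ico a b, HasDerivAt u (V t (u t)) t := by
    intro t ht
    have h1 := hX.hasDerivAt t
    rw [nf_eq_cut hΦ hL0 (hgX t), hasDerivAt_pi] at h1
    rw [hasDerivAt_pi]
    intro m
    have h2 : V t (u t) m = nf (cut Φ L) ε (X t) (e m) := by
      simp only [hV, mixField, nf, hu]
      refine Prod.ext rfl ?_
      simp only
      congr 1
      -- both sums reduce to sums over `S ∪ A`
      set T : Finset μ := Finset.univ.filter fun m' => m' ∈ S ∪ A with hT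
      set eE : μ ↪ ι := ⟨e, he⟩ with heE
      set fE : μ ↪ κ := ⟨f, hf⟩ with hfE
      have s1 : ∑ j, gradient (cut Φ L) ((1 / ε) • ((X t (e m)).1 - (X t j).1))
          = ∑ m' ∈ T, gradient (cut Φ L) ((1 / ε) • ((X t (e m)).1 - (X t (e m')).1)) := by
        rw [← Finset.sum_subset (Finset.subset_univ (T.map eE)), Finset.sum_map]
        · rfl
        · intro k _ hk
          refine hgrad (hw t ht m m.2 k fun m' hm' h => hk ?_)
          rw [Finset.mem_map]
          exact ⟨m', by simpa [hT] using hm', h⟩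
      have s2 : ∑ k, gradient (cut Φ L) ((1 / ε) • ((X t (e m)).1 -
            mixPos fS (Y t) (fun m => X t (e m)) k))
          = ∑ m' ∈ T, gradient (cut Φ L) ((1 / ε) • ((X t (e m)).1 -
            mixPos fS (Y t) (fun m => X t (e m)) (f m'))) := by
        rw [← Finset.sum_subset (Finset.subset_univ (T.map fE)), Finset.sum_map]
        · rfl
        · intro k _ hk
          have hk' : ∀ m' ∈ S ∪ A, f m' ≠ k := fun m' hm' h => hk (by
            rw [Finset.mem_map]
            exact ⟨m', by simpa [hT] using hm', h⟩)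
          rw [mixPos_not_mem fS (Y t) _ fun m' => hk' m' (Or.inl m'.2)]
          exact hgrad (hw' t ht m m.2 k hk')
      rw [s1, s2]
      refine Finset.sum_congr rfl fun m' hm' => ?_
      have hm'' : m' ∈ S ∪ A := by simpa [hT] using hm'
      by_cases hS : m' ∈ S
      · rw [show f m' = fS ⟨m', hS⟩ from rfl, mixPos_mem hfSi]
      · have hA' : m' ∈ A := hm''.resolve_left hS
        rw [mixPos_not_mem fS (Y t) _ fun m₁ h => hS (by
          have : (m₁ : μ) = m' := hf h
          rw [← this]; exact m₁.2), ← hA m' hA' t ht]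
    rw [h2]
    exact h1 (e m)
  have key : EqOn u v (Icc a b) := by
    refine ODE_solution_unique (v := V) (K := K) (fun t => hK (Y t)) huc.continuousOn ?_
      hvc.continuousOn ?_ ?_
    · exact fun t ht => (hud t ht).hasDerivWithinAt
    · exact fun t _ => (hvd t).hasDerivWithinAt
    · funext m
      exact ha m m.2
  intro m hm t ht
  exact congrFun (key ht) ⟨m, hm⟩

end

end Crest.Agent.R122.Loc45
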