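import Mathlib
import Crest.Prelude.Def_KineticLimit
import Crest.Agent.R122.TwoWorld_45

/-!
# Two worlds (row 122, block D3, helper45), part 2: the sharp chain of alterations

`X` and `Y` are two worlds with a common part `μ` (`e : μ → ι`, `f : μ → κ`), and `a` is a base
time at which all common particles have the same states.

* `Agree X Y e f a m s`: the paths of `m` coincide on `[a, s]`;
* `AltAt … s m`: `m` is altered exactly at `s` (coincidence up to `s` and not beyond);
* `Alt … s m`: `m` is altered exactly at `s`, and at this very time `s` it is in (closed) contact, in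
  one of the two worlds, with a particle which is not common or with a common particle which was
  itself altered (for a reason) at a time `s' ≤ s`.

`alt_of_altAt`: every alteration is of this kind. So every altered particle has a chain of contacts
`source → k₁ → … → k_n = m` in which each contact takes place exactly at the alteration time of the
particle on its right, the times being nondecreasing.
-/

set_option autoImplicit false
set_option linter.unusedSectionVars false

open MeasureTheory Set Filter Topology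
open scoped NNReal
open Crest.AnalysisR.Kinetic
open Crest.Agent.R122.Flow671

namespace Crest.Agent.R122.Loc45

variable {Φ : Space3 → ℝ} {ε : ℝ} {ι κ μ : Type*} [Fintype ι] [Fintype κ]

section defs

variable (X : ℝ → ι → PhasePoint) (Y : ℝ → κ → PhasePoint) (e : μ → ι) (f : μ → κ) (a : ℝ)

/-- The paths of the common particle `m` coincide on `[a, s]`. -/
def Agree (m : μ) (s : ℝ) : Prop := ∀ t ∈ Icc a s, X t (e m) = Y t (f m)

/-- The common particle `m` is altered exactly at time `s`. -/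
def AltAt (s : ℝ) (m : μ) : Prop := a ≤ s ∧ Agree X Y e f a m s ∧ ∀ s', s < s' →
  ¬ Agree X Y e f a m s'

/-- Alterations with a reason. -/
inductive Alt (ε : ℝ) : ℝ → μ → Prop
  | src₁ {s : ℝ} {m : μ} (h : AltAt X Y e f a s m) (j : ι) (hj : j ∉ range e)
      (hc : dist (X s (e m)).1 (X s j).1 ≤ ε) : Alt ε s m
  | src₂ {s : ℝ} {m : μ} (h : AltAt X Y e f a s m) (j : κ) (hj : j ∉ range f)
      (hc : dist (Y s (f m)).1 (Y s j).1 ≤ ε) : Alt ε s m
  | step₁ {s s' : ℝ} {m l : μ} (hl : Alt ε s' l) (hs : s' ≤ s) (h : AltAt X Y e f a s m)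
      (hc : dist (X s (e m)).1 (X s (e l)).1 ≤ ε) : Alt ε s m
  | step₂ {s s' : ℝ} {m l : μ} (hl : Alt ε s' l) (hs : s' ≤ s) (h : AltAt X Y e f a s m)
      (hc : dist (Y s (f m)).1 (Y s (f l)).1 ≤ ε) : Alt ε s m

end defs

variable {X : ℝ → ι → PhasePoint} {Y : ℝ → κ → PhasePoint} {e : μ → ι} {f : μ → κ} {a : ℝ}

theorem Agree.mono {m : μ} {s s' : ℝ} (h : Agree X Y e f a m s) (hs : s' ≤ s) :
    Agree X Y e f a m s' := fun t ht => h t ⟨ht.1, ht.2.trans hs⟩

theorem Agree.symm {m : μ} {s : ℝ} (h : Agree X Y e f a m s) : Agree Y X f e a m s :=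
  fun t ht => (h t ht).symm

theorem Agree.of_lt {m : μ} {s : ℝ} (h : s < a) : Agree X Y e f a m s :=
  fun _ ht => absurd (ht.1.trans ht.2) (not_le.2 h)

theorem Agree.trans {m : μ} {s s' : ℝ} (h : Agree X Y e f a m s)
    (h' : Agree X Y e f s m s') : Agree X Y e f a m s' := by
  intro t ht
  rcases le_total t s with h1 | h1
  · exact h t ⟨ht.1, h1⟩
  · exact h' t ⟨h1, ht.2⟩

theorem AltAt.le {m : μ} {s : ℝ} (h : AltAt X Y e f a s m) : a ≤ s := h.1

theorem AltAt.agree {m : μ} {s : ℝ} (h : AltAt X Y e f a s m) : Agree X Y e f a m s := h.2.1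

theorem AltAt.eq_at {m : μ} {s : ℝ} (h : AltAt X Y e f a s m) : X s (e m) = Y s (f m) :=
  h.2.1 s ⟨h.1, le_rfl⟩

theorem AltAt.not_agree {m : μ} {s s' : ℝ} (h : AltAt X Y e f a s m) (hs : s < s') :
    ¬ Agree X Y e f a m s' := h.2.2 s' hs

theorem AltAt.unique {m : μ} {s s' : ℝ} (h : AltAt X Y e f a s m) (h' : AltAt X Y e f a s' m) :
    s = s' := by
  rcases lt_trichotomy s s' with h1 | h1 | h1
  · exact absurd h'.agree (h.not_agree h1)
  · exact h1
  · exact absurd h.agree (h'.not_agree h1)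

theorem AltAt.symm {m : μ} {s : ℝ} (h : AltAt X Y e f a s m) : AltAt Y X f e a s m :=
  ⟨h.1, h.2.1.symm, fun s' hs h' => h.2.2 s' hs h'.symm⟩

theorem Alt.altAt {m : μ} {s : ℝ} (h : Alt X Y e f a ε s m) : AltAt X Y e f a s m := by
  cases h with
  | src₁ h j hj hc => exact h
  | src₂ h j hj hc => exact h
  | step₁ hl hs h hc => exact h
  | step₂ hl hs h hc => exact h

theorem Alt.symm {m : μ} {s : ℝ} (h : Alt X Y e f a ε s m) : Alt Y X f e a ε s m := by
  induction h with
  | src₁ h j hj hc => exact .src₂ h.symm j hj hc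
  | src₂ h j hj hc => exact .src₁ h.symm j hj hc
  | step₁ _ hs h hc ih => exact .step₂ ih hs h.symm hc
  | step₂ _ hs h hc ih => exact .step₁ ih hs h.symm hc

/-- Existence of the alteration time. -/
theorem exists_altAt (hX : Continuous X) (hY : Continuous Y) {m : μ} {t : ℝ}
    (h0 : X a (e m) = Y a (f m)) (hne : ¬ Agree X Y e f a m t) :
    ∃ s, s < t ∧ AltAt X Y e f a s m := by
  set E : Set ℝ := {s | a ≤ s ∧ Agree X Y e f a m s} with hE
  have haE : a ∈ E := ⟨le_rfl, fun u hu => by
    have : u = a := le_antisymm hu.2 hu.1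
    rw [this]; exact h0⟩
  have hbdd : ∀ s ∈ E, s ≤ t := by
    intro s hs
    by_contra h
    push Not at h
    exact hne (hs.2.mono h.le)
  have hB : BddAbove E := ⟨t, hbdd⟩
  set σ := sSup E with hσ
  have haσ : a ≤ σ := le_csSup hB haE
  have hσt : σ ≤ t := csSup_le ⟨a, haE⟩ hbdd
  have hc1 : Continuous fun s => X s (e m) := (continuous_apply (e m)).comp hX
  have hc2 : Continuous fun s => Y s (f m) := (continuous_apply (f m)).comp hY
  have hagree : Agree X Y e f a m σ := by
    intro u hu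
    rcases hu.2.lt_or_eq with h1 | h1
    · obtain ⟨s, hs, hus⟩ := exists_lt_of_lt_csSup ⟨a, haE⟩ h1
      exact hs.2 u ⟨hu.1, hus.le⟩
    · subst h1
      -- `u = σ` is a limit of points of agreement
      have hcl : IsClosed {s | X s (e m) = Y s (f m)} := isClosed_eq hc1 hc2
      have hsub : E ⊆ {s | X s (e m) = Y s (f m)} := fun s hs => hs.2 s ⟨hs.1, le_rfl⟩
      exact hcl.closure_subset_iff.2 hsub (csSup_mem_closure ⟨a, haE⟩ hB)
  have hne' : σ ≠ t := by
    intro h
    rw [h] at hagree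
    exact hne hagree
  refine ⟨σ, lt_of_le_of_ne hσt hne', haσ, hagree, fun s' hs' h => ?_⟩
  exact absurd (le_csSup hB (⟨haσ.trans hs'.le, h⟩ : s' ∈ E)) (not_le.2 hs')

theorem agree_base {m : μ} (h0 : X a (e m) = Y a (f m)) : Agree X Y e f a m a := by
  intro u hu
  have : u = a := le_antisymm hu.2 hu.1
  rw [this]; exact h0

/-- Strict separation at one time persists for a short time (finitely many continuous paths). -/
theorem exists_sep {ι κ : Type*} [Finite ι] [Finite κ] {x : ℝ → ι → Space3} {y : ℝ → κ → Space3}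
    (hx : ∀ i, Continuous fun t => x t i) (hy : ∀ j, Continuous fun t => y t j) {s : ℝ}
    (P : ι → κ → Prop) (h : ∀ i j, P i j → ε < dist (x s i) (y s j)) :
    ∃ δ > 0, ∀ t ∈ Ico s (s + δ), ∀ i j, P i j → ε < dist (x t i) (y t j) := by
  have h1 : ∀ᶠ t in 𝓝 s, ∀ i j, P i j → ε < dist (x t i) (y t j) := by
    rw [eventually_all]
    intro i
    rw [eventually_all]
    intro j
    by_cases hP : P i j
    · have h2 : Continuous fun t => dist (x t i) (y t j) := (hx i).dist (hy j)
      exact (h2.continuousAt.eventually (lt_mem_nhds (h i j hP))).mono fun t ht _ => ht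
    · exact Eventually.of_forall fun t h' => absurd h' hP
  obtain ⟨δ, hδ, h2⟩ := Metric.eventually_nhds_iff.1 h1
  refine ⟨δ, hδ, fun t ht => h2 ?_⟩
  rw [Real.dist_eq, abs_of_nonneg (by linarith [ht.1])]
  linarith [ht.2]

/-- **Every alteration has a reason.** -/
theorem alt_of_altAt (hΦ : AdmissiblePotential Φ) (hε : 0 < ε) (hX : World Φ ε X)
    (hY : World Φ ε Y) (he : Function.Injective e) (hf : Function.Injective f)
    (h0 : ∀ m, X a (e m) = Y a (f m)) {s : ℝ} {m : μ} (h : AltAt X Y e f a s m) :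
    Alt X Y e f a ε s m := by
  classical
  have : Finite μ := Finite.of_injective e he
  by_contra hcon
  -- choose a bad alteration with minimal time
  set N : Set μ := {m | ∃ s, AltAt X Y e f a s m ∧ ¬ Alt X Y e f a ε s m} with hN
  have hNne : N.Nonempty := ⟨m, s, h, hcon⟩
  choose! δ hδ using fun (m : μ) (hm : m ∈ N) => hm
  obtain ⟨m₀, hm₀, hmin⟩ := N.toFinite.exists_minimalFor δ N hNne
  have hmin' : ∀ m ∈ N, δ m₀ ≤ δ m := by
    intro m hm
    rcases le_total (δ m) (δ m₀) with h1 | h1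
    · exact hmin hm h1
    · exact h1
  set σ := δ m₀ with hσ
  set S : Set μ := {m | AltAt X Y e f a σ m ∧ ¬ Alt X Y e f a ε σ m} with hS
  set A : Set μ := {m | ∃ s', σ < s' ∧ Agree X Y e f a m s'} with hA
  have haσ : a ≤ σ := (hδ m₀ hm₀).1.le
  have hm₀S : m₀ ∈ S := hδ m₀ hm₀
  -- classification of common particles at time `σ`
  have hclass : ∀ l, l ∈ S ∪ A ∨ ∃ s', s' ≤ σ ∧ Alt X Y e f a ε s' l := by
    intro l
    by_cases hlA : l ∈ A
    · exact Or.inl (Or.inr hlA)
    have hlA' : ¬ Agree X Y e f a l (σ + 1) := fun h' => hlA ⟨σ + 1, by linarith, h'⟩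
    obtain ⟨s', -, hs'⟩ := exists_altAt hX.continuous hY.continuous (h0 l) hlA'
    have hs'σ : s' ≤ σ := by
      by_contra hlt
      push Not at hlt
      exact hlA ⟨s', hlt, hs'.agree⟩
    by_cases hAlt : Alt X Y e f a ε s' l
    · exact Or.inr ⟨s', hs'σ, hAlt⟩
    · have hlN : l ∈ N := ⟨s', hs', hAlt⟩
      have h1 : δ l = s' := (hδ l hlN).1.unique hs'
      have h2 : s' = σ := le_antisymm hs'σ (by rw [← h1]; exact hmin' l hlN)
      subst h2
      exact Or.inl (Or.inl ⟨hs', hAlt⟩)
  -- separation at time `σ`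
  have hsep₁ : ∀ (m : S) (j : ι), (∀ m' ∈ S ∪ A, e m' ≠ j) → ε < dist (X σ (e m)).1 (X σ j).1 := by
    intro m j hj
    by_contra hle
    push Not at hle
    refine m.2.2 ?_
    by_cases hjr : j ∈ range e
    · obtain ⟨l, rfl⟩ := hjr
      rcases hclass l with h1 | ⟨s', hs', hl⟩
      · exact absurd rfl (hj l h1)
      · exact .step₁ hl hs' m.2.1 hle
    · exact .src₁ m.2.1 j hjr hle
  have hsep₂ : ∀ (m : S) (j : κ), (∀ m' ∈ S ∪ A, f m' ≠ j) → ε < dist (X σ (e m)).1 (Y σ j).1 := by
    intro m j hj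
    by_contra hle
    push Not at hle
    rw [m.2.1.eq_at] at hle
    refine m.2.2 ?_
    by_cases hjr : j ∈ range f
    · obtain ⟨l, rfl⟩ := hjr
      rcases hclass l with h1 | ⟨s', hs', hl⟩
      · exact absurd rfl (hj l h1)
      · exact .step₂ hl hs' m.2.1 hle
    · exact .src₂ m.2.1 j hjr hle
  obtain ⟨d₁, hd₁, hs₁⟩ := exists_sep (ε := ε) (x := fun t (m : S) => (X t (e m)).1)
    (y := fun t (j : ι) => (X t j).1) (fun m => hX.continuous_pos _) (fun j => hX.continuous_pos j)
    (s := σ) (fun _ j => ∀ m' ∈ S ∪ A, e m' ≠ j) hsep₁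
  obtain ⟨d₂, hd₂, hs₂⟩ := exists_sep (ε := ε) (x := fun t (m : S) => (X t (e m)).1)
    (y := fun t (j : κ) => (Y t j).1) (fun m => hX.continuous_pos _) (fun j => hY.continuous_pos j)
    (s := σ) (fun _ j => ∀ m' ∈ S ∪ A, f m' ≠ j) hsep₂
  -- a common later time of agreement for `A`
  obtain ⟨d₃, hd₃, hs₃⟩ : ∃ d₃ > 0, ∀ l ∈ A, Agree X Y e f a l (σ + d₃) := by
    choose! τ hτ using fun (l : μ) (hl : l ∈ A) => hl
    have hfin := A.toFinite
    by_cases hne : A.Nonempty
    · obtain ⟨l₀, hl₀, hl₀min⟩ := hfin.exists_minimalFor τ A hne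
      refine ⟨τ l₀ - σ, by linarith [(hτ l₀ hl₀).1], fun l hl => ?_⟩
      refine (hτ l hl).2.mono ?_
      rcases le_total (τ l) (τ l₀) with h1 | h1
      · linarith [hl₀min hl h1]
      · linarith
    · exact ⟨1, one_pos, fun l hl => absurd ⟨l, hl⟩ hne⟩
  set d := min d₁ (min d₂ d₃) with hd
  have hd0 : 0 < d := lt_min hd₁ (lt_min hd₂ hd₃)
  have key := World.agree hΦ hε hX hY he hf (S := S) (A := A) (a := σ) (b := σ + d)
    (fun l hl t ht => hs₃ l hl t ⟨haσ.trans ht.1, ht.2.le.trans
      (by linarith [min_le_right d₁ (min d₂ d₃), min_le_right d₂ d₃])⟩)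
    (fun l hl => hl.1.eq_at)
    (fun t ht l hl k hk => (hs₁ t ⟨ht.1, ht.2.trans_le (by linarith [min_le_left d₁ (min d₂ d₃)])⟩
      ⟨l, hl⟩ k hk).le)
    (fun t ht l hl k hk => (hs₂ t ⟨ht.1, ht.2.trans_le
      (by linarith [min_le_right d₁ (min d₂ d₃), min_le_left d₂ d₃])⟩ ⟨l, hl⟩ k hk).le)
  refine hm₀S.1.not_agree (s' := σ + d) (by linarith) ?_
  exact hm₀S.1.agree.trans fun t ht => key m₀ hm₀S t ht

/-- A particle whose path differs before `t` has been altered, for a reason, before `t`. -/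
theorem exists_alt (hΦ : AdmissiblePotential Φ) (hε : 0 < ε) (hX : World Φ ε X)
    (hY : World Φ ε Y) (he : Function.Injective e) (hf : Function.Injective f)
    (h0 : ∀ m, X a (e m) = Y a (f m)) {t : ℝ} {m : μ}
    (h : ¬ Agree X Y e f a m t) : ∃ s, s < t ∧ Alt X Y e f a ε s m := by
  obtain ⟨s, hs, h1⟩ := exists_altAt hX.continuous hY.continuous (h0 m) h
  exact ⟨s, hs, alt_of_altAt hΦ hε hX hY he hf h0 h1⟩

/-- If a property `P s m` holds for every alteration caused by a non-common particle and is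
propagated along contacts at alteration times, then it holds for all alterations. -/
theorem Alt.rec' {P : ℝ → μ → Prop} {s : ℝ} {m : μ} (h : Alt X Y e f a ε s m)
    (h₁ : ∀ s m, AltAt X Y e f a s m → (∃ j, j ∉ range e ∧ dist (X s (e m)).1 (X s j).1 ≤ ε) →
      P s m)
    (h₂ : ∀ s m, AltAt X Y e f a s m → (∃ j, j ∉ range f ∧ dist (Y s (f m)).1 (Y s j).1 ≤ ε) →
      P s m)
    (h₃ : ∀ s s' m l, AltAt X Y e f a s' l → P s' l → s' ≤ s → AltAt X Y e f a s m →
      (dist (X s (e m)).1 (X s (e l)).1 ≤ ε ∨ dist (Y s (f m)).1 (Y s (f l)).1 ≤ ε) → P s m) :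
    P s m := by
  induction h with
  | src₁ h j hj hc => exact h₁ _ _ h ⟨j, hj, hc⟩
  | src₂ h j hj hc => exact h₂ _ _ h ⟨j, hj, hc⟩
  | step₁ hl hs h hc ih => exact h₃ _ _ _ _ hl.altAt ih hs h (Or.inl hc)
  | step₂ hl hs h hc ih => exact h₃ _ _ _ _ hl.altAt ih hs h (Or.inr hc)

/-- The **first alteration** (of any common particle) is a contact with a non-common particle in
one of the two worlds, possibly through simultaneous contacts: if nobody is altered before `s`
then an alteration at time `s` is linked by contacts at time `s` to a non-common particle. -/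
theorem Alt.first {s : ℝ} {m : μ} (h : Alt X Y e f a ε s m)
    (hfirst : ∀ s' m', AltAt X Y e f a s' m' → s ≤ s') :
    ∃ m', AltAt X Y e f a s m' ∧ ((∃ j, j ∉ range e ∧ dist (X s (e m')).1 (X s j).1 ≤ ε) ∨
      ∃ j, j ∉ range f ∧ dist (Y s (f m')).1 (Y s j).1 ≤ ε) := by
  induction h with
  | src₁ h j hj hc => exact ⟨_, h, Or.inl ⟨j, hj, hc⟩⟩
  | src₂ h j hj hc => exact ⟨_, h, Or.inr ⟨j, hj, hc⟩⟩
  | @step₁ s s' m l hl hs h hc ih =>
    have h1 : s = s' := le_antisymm (hfirst s' l hl.altAt) hs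
    subst h1
    exact ih hfirst
  | @step₂ s s' m l hl hs h hc ih =>
    have h1 : s = s' := le_antisymm (hfirst s' l hl.altAt) hs
    subst h1
    exact ih hfirst

end Crest.Agent.R122.Loc45
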