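import Mathlib
import Crest.Prelude.Def_KineticLimit
import Crest.Agent.R122.TwoWorldChain_45

/-!
# Worlds with births (row 122, block INS, helper45), part 1: local determinism

A world with births over a finite index type `ι`: every particle `i` has a birth time `b i`; before
its birth it flies freely and interacts with nobody, after its birth it interacts (Newton) with the
other particles already born. So a line `l = (τ, x, v)` inserted in the world `w` is a particle with
birth time `τ` and state `(x, v)` at time `τ` (state `(x - (τ - t₀) v, v)` at the initial time `t₀`).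

* `bf Φ ε b t`: Newton field with births.
* `BWorld Φ ε b t₀ X`: `X` is a world with births on `[t₀, ∞)` (continuous, right derivatives).
* `BWorld.agree`: master lemma of local determinism for two worlds with births.
* `BWorld.unique`, `World.bworld`, `BWorld.eq_flow`, `BWorld.free`.
-/

set_option autoImplicit false
set_option linter.unusedSectionVars false

open MeasureTheory Set Filter Topology
open scoped NNReal
open Crest.AnalysisR.Kinetic
open Crest.Agent.R122.Flow671 Crest.Agent.R122.Loc45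

namespace Crest.Agent.R122.Ins45

noncomputable section

variable {Φ : Space3 → ℝ} {ε : ℝ} {ι κ μ : Type*} [Fintype ι] [Fintype κ]

open scoped Classical in
/-- Newton's field with births: only the particles born before `t` interact. -/
def bf (Φ : Space3 → ℝ) (ε : ℝ) (b : ι → ℝ) (t : ℝ) (Z : ι → PhasePoint) : ι → PhasePoint :=
  fun i => ((Z i).2, if b i ≤ t then
    -(1 / ε) • ∑ j, (if b j ≤ t then gradient Φ ((1 / ε) • ((Z i).1 - (Z j).1)) else 0) else 0)

/-- A world with births `b` on `[t₀, ∞)`. -/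
structure BWorld (Φ : Space3 → ℝ) (ε : ℝ) (b : ι → ℝ) (t₀ : ℝ) (X : ℝ → ι → PhasePoint) :
    Prop where
  cont : ContinuousOn X (Ici t₀)
  der : ∀ t, t₀ ≤ t → HasDerivWithinAt X (bf Φ ε b t (X t)) (Ici t) t
  dom : ∀ t, t₀ ≤ t → ContDiff ℝ 2 Φ ∨
    ∀ i j, i ≠ j → b i ≤ t → b j ≤ t → (X t i).1 ≠ (X t j).1

theorem bf_of_unborn (Φ : Space3 → ℝ) (ε : ℝ) {b : ι → ℝ} {t : ℝ} (Z : ι → PhasePoint) {i : ι}
    (hi : t < b i) : bf Φ ε b t Z i = ((Z i).2, 0) := by
  classical
  unfold bf
  rw [if_neg (not_le.2 hi)]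

theorem bf_of_born (Φ : Space3 → ℝ) (ε : ℝ) {b : ι → ℝ} {t : ℝ} (Z : ι → PhasePoint)
    (hb : ∀ i, b i ≤ t) : bf Φ ε b t Z = nf Φ ε Z := by
  classical
  funext i
  unfold bf nf
  rw [if_pos (hb i)]
  congr 2
  exact Finset.sum_congr rfl fun j _ => if_pos (hb j)

/-- An ordinary world is a world with births (all births in the past). -/
theorem World.bworld {X : ℝ → ι → PhasePoint} (h : World Φ ε X) {b : ι → ℝ} {t₀ : ℝ}
    (hb : ∀ i, b i ≤ t₀) : BWorld Φ ε b t₀ X where
  cont := h.continuous.continuousOn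
  der t ht := by
    rw [bf_of_born Φ ε (X t) fun i => (hb i).trans ht]
    exact (h.hasDerivAt t).hasDerivWithinAt
  dom t _ := (h.mem t).imp id fun h' i j hij _ _ => h' i j hij

namespace BWorld

variable {b : ι → ℝ} {c : κ → ℝ} {t₀ : ℝ} {X : ℝ → ι → PhasePoint} {Y : ℝ → κ → PhasePoint}

theorem mono (h : BWorld Φ ε b t₀ X) {t₁ : ℝ} (h1 : t₀ ≤ t₁) : BWorld Φ ε b t₁ X where
  cont := h.cont.mono (Ici_subset_Ici.2 h1)
  der t ht := h.der t (h1.trans ht)
  dom t ht := h.dom t (h1.trans ht)

theorem cont_apply (h : BWorld Φ ε b t₀ X) (i : ι) : ContinuousOn (fun t => X t i) (Ici t₀) :=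
  continuousOn_pi.1 h.cont i

theorem cont_pos (h : BWorld Φ ε b t₀ X) (i : ι) : ContinuousOn (fun t => (X t i).1) (Ici t₀) :=
  (h.cont_apply i).fst

theorem congr (h : BWorld Φ ε b t₀ X) {X' : ℝ → ι → PhasePoint} (he : ∀ t, t₀ ≤ t → X' t = X t) :
    BWorld Φ ε b t₀ X' where
  cont := h.cont.congr fun t ht => he t ht
  der t ht := by
    rw [he t ht]
    exact (h.der t ht).congr (fun s hs => he s (ht.trans hs)) (he t ht)
  dom t ht := by rw [he t ht]; exact h.dom t ht

/-- Only the order of the birth times with respect to the times after `t₀` matters. -/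
theorem congr_births (h : BWorld Φ ε b t₀ X) {b' : ι → ℝ}
    (he : ∀ i t, t₀ ≤ t → (b i ≤ t ↔ b' i ≤ t)) : BWorld Φ ε b' t₀ X where
  cont := h.cont
  der t ht := by
    classical
    have : bf Φ ε b' t (X t) = bf Φ ε b t (X t) := by
      funext i
      unfold bf
      simp only [he _ t ht]
    rw [this]
    exact h.der t ht
  dom t ht := (h.dom t ht).imp id fun h' i j hij hi hj =>
    h' i j hij ((he i t ht).2 hi) ((he j t ht).2 hj)

/-- All alive pairs lie below some level of the potential on a compact time interval. -/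
theorem exists_level (hΦ : AdmissiblePotential Φ) (hε : 0 < ε) (h : BWorld Φ ε b t₀ X) (T : ℝ) :
    ∃ L₀ : ℝ, 0 ≤ L₀ ∧ ∀ L, L₀ ≤ L → ∀ t ∈ Icc t₀ T, ContDiff ℝ 2 Φ ∨
      ∀ i j, i ≠ j → b i ≤ t → b j ≤ t → rel ε (X t) i j ≠ 0 ∧ Φ (rel ε (X t) i j) < L := by
  classical
  by_cases hC : ContDiff ℝ 2 Φ
  · exact ⟨0, le_rfl, fun _ _ _ _ => Or.inl hC⟩
  have hdom : ∀ t, t₀ ≤ t → ∀ i j, i ≠ j → b i ≤ t → b j ≤ t → (X t i).1 ≠ (X t j).1 :=
    fun t ht => (h.dom t ht).resolve_left hC
  -- a bound for each pair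
  have hpair : ∀ i j, i ≠ j → ∃ M : ℝ, ∀ t ∈ Icc t₀ T, b i ≤ t → b j ≤ t →
      Φ (rel ε (X t) i j) ≤ M := by
    intro i j hij
    set s := max t₀ (max (b i) (b j)) with hs
    have hcont : ContinuousOn (fun t => Φ (rel ε (X t) i j)) (Icc s T) := by
      intro t ht
      have ht₀ : t₀ ≤ t := (le_max_left _ _).trans ht.1
      have hbi : b i ≤ t := ((le_max_left _ _).trans (le_max_right _ _)).trans ht.1
      have hbj : b j ≤ t := ((le_max_right _ _).trans (le_max_right _ _)).trans ht.1
      have h1 : rel ε (X t) i j ≠ 0 := rel_ne_zero hε (hdom t ht₀ i j hij hbi hbj)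
      have h2 : ContinuousAt Φ (rel ε (X t) i j) :=
        (hΦ.contDiff_away_from_origin.contDiffAt (isOpen_ne.mem_nhds h1)).continuousAt
      have h3 : ContinuousWithinAt (fun t => rel ε (X t) i j) (Icc s T) t := by
        unfold rel
        have h4 : ContinuousOn (fun t => (1 / ε) • ((X t i).1 - (X t j).1)) (Ici t₀) :=
          ((h.cont_pos i).sub (h.cont_pos j)).const_smul (1 / ε)
        exact (h4 t ht₀).mono fun u hu => (le_max_left _ _).trans hu.1
      exact ContinuousAt.comp_continuousWithinAt (f := fun t => rel ε (X t) i j) h2 h3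
    obtain ⟨M, hM⟩ := isCompact_Icc.bddAbove_image hcont
    refine ⟨M, fun t ht hbi hbj => hM ⟨t, ⟨?_, ht.2⟩, rfl⟩⟩
    exact max_le ht.1 (max_le hbi hbj)
  choose! M hM using hpair
  set L₀ : ℝ := (∑ i, ∑ j, |M i j|) + 1 with hL₀
  have hLij : ∀ i j, M i j < L₀ := by
    intro i j
    have h1 : |M i j| ≤ ∑ j, |M i j| :=
      Finset.single_le_sum (f := fun j => |M i j|) (fun _ _ => abs_nonneg _) (Finset.mem_univ j)
    have h2 : ∑ j, |M i j| ≤ ∑ i, ∑ j, |M i j| :=
      Finset.single_le_sum (f := fun i => ∑ j, |M i j|)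
        (fun _ _ => Finset.sum_nonneg fun _ _ => abs_nonneg _) (Finset.mem_univ i)
    have := le_abs_self (M i j)
    linarith
  refine ⟨L₀, by positivity, fun L hL t ht => Or.inr fun i j hij hbi hbj => ⟨?_, ?_⟩⟩
  · exact rel_ne_zero hε (hdom t ht.1 i j hij hbi hbj)
  · exact ((hM i j hij t ht hbi hbj).trans_lt (hLij i j)).trans_le hL

/-- With the truncated potential the field with births is the same along the world. -/
theorem bf_eq_cut (hΦ : AdmissiblePotential Φ) {L : ℝ} (hL : 0 ≤ L) {Z : ι → PhasePoint} {t : ℝ}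
    (hZ : ContDiff ℝ 2 Φ ∨
      ∀ i j, i ≠ j → b i ≤ t → b j ≤ t → rel ε Z i j ≠ 0 ∧ Φ (rel ε Z i j) < L) :
    bf Φ ε b t Z = bf (cut Φ L) ε b t Z := by
  classical
  by_cases h : ContDiff ℝ 2 Φ
  · rw [cut_of_contDiff h]
  · have hZ' := hZ.resolve_left h
    funext i
    unfold bf
    refine Prod.ext rfl ?_
    simp only
    by_cases hi : b i ≤ t
    · rw [if_pos hi, if_pos hi]
      congr 1
      refine Finset.sum_congr rfl fun j _ => ?_
      by_cases hj : b j ≤ t
      · rw [if_pos hj, if_pos hj]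
        by_cases hij : i = j
        · subst hij
          rw [sub_self, smul_zero, grad_origin hΦ, (cut_nice hΦ hL).grad_origin]
        · have h1 := hZ' i j hij hi hj
          exact (gradient_cut hΦ h h1.1 h1.2).symm
      · rw [if_neg hj, if_neg hj]
    · rw [if_neg hi, if_neg hi]

end BWorld

/-! ### The field felt by a group, with births -/

open scoped Classical in
/-- The field with births felt by the particles `S`, when the others follow prescribed paths. -/
def mixFieldB (g : Space3 → Space3) (ε : ℝ) {S : Type*} (f : S → κ) (c : κ → ℝ) (t : ℝ)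
    (y : κ → PhasePoint) (u : S → PhasePoint) : S → PhasePoint :=
  fun m => ((u m).2, if c (f m) ≤ t then
    -(1 / ε) • ∑ k, (if c k ≤ t then g ((1 / ε) • ((u m).1 - mixPos f y u k)) else 0) else 0)

theorem mixFieldB_lipschitz {g : Space3 → Space3} {C : ℝ≥0} (hg : LipschitzWith C g) {ε : ℝ}
    (hε : 0 < ε) {S : Type*} [Fintype S] (f : S → κ) (c : κ → ℝ) :
    ∃ K : ℝ≥0, ∀ (t : ℝ) (y : κ → PhasePoint), LipschitzWith K (mixFieldB g ε f c t y) := by
  classical
  have hpos : 0 ≤ 1 / ε := by positivity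
  set A : ℝ := (1 / ε) * (Fintype.card κ * (C * ((1 / ε) * 2))) with hA
  have hA0 : 0 ≤ A := by positivity
  refine ⟨⟨1 + A, by positivity⟩, fun t y => LipschitzWith.of_dist_le_mul fun u w => ?_⟩
  change dist (mixFieldB g ε f c t y u) (mixFieldB g ε f c t y w) ≤ (1 + A) * dist u w
  have hd : 0 ≤ dist u w := dist_nonneg
  have hfst : ∀ m, dist (u m).1 (w m).1 ≤ dist u w := fun m =>
    (le_max_left _ _).trans (dist_le_pi_dist u w m)
  have hsnd : ∀ m, dist (u m).2 (w m).2 ≤ dist u w := fun m =>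
    (le_max_right _ _).trans (dist_le_pi_dist u w m)
  have hmix : ∀ k, dist (mixPos f y u k) (mixPos f y w k) ≤ dist u w := by
    intro k
    unfold mixPos
    split_ifs with h
    · exact hfst _
    · rw [dist_self]; exact hd
  rw [dist_pi_le_iff (by positivity)]
  intro m
  rw [Prod.dist_eq]
  refine max_le ?_ ?_
  · change dist (u m).2 (w m).2 ≤ _
    nlinarith [hsnd m]
  · unfold mixFieldB
    simp only
    split_ifs with hm
    swap
    · rw [dist_self]; positivity
    rw [dist_smul₀, norm_neg, Real.norm_of_nonneg hpos]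
    have h1 : dist (∑ k, (if c k ≤ t then g ((1 / ε) • ((u m).1 - mixPos f y u k)) else 0))
        (∑ k, (if c k ≤ t then g ((1 / ε) • ((w m).1 - mixPos f y w k)) else 0))
        ≤ Fintype.card κ * (C * ((1 / ε) * 2)) * dist u w := by
      refine (dist_sum_sum_le _ _ _).trans ?_
      have : ∀ k ∈ Finset.univ, dist (if c k ≤ t then g ((1 / ε) • ((u m).1 - mixPos f y u k))
          else 0) (if c k ≤ t then g ((1 / ε) • ((w m).1 - mixPos f y w k)) else 0)
          ≤ C * ((1 / ε) * 2) * dist u w := by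
        intro k _
        split_ifs with hk
        swap
        · rw [dist_self]; positivity
        refine (hg.dist_le_mul _ _).trans ?_
        rw [dist_smul₀, Real.norm_of_nonneg hpos, mul_assoc, mul_assoc]
        refine mul_le_mul_of_nonneg_left (mul_le_mul_of_nonneg_left ?_ hpos) C.2
        calc dist ((u m).1 - mixPos f y u k) ((w m).1 - mixPos f y w k)
            ≤ dist (u m).1 (w m).1 + dist (mixPos f y u k) (mixPos f y w k) :=
              dist_sub_sub_le _ _ _ _
          _ ≤ dist u w + dist u w := add_le_add (hfst m) (hmix k)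
          _ = 2 * dist u w := by ring
      refine (Finset.sum_le_sum this).trans (le_of_eq ?_)
      rw [Finset.sum_const, Finset.card_univ, nsmul_eq_mul]
      ring
    have h2 := mul_le_mul_of_nonneg_left h1 hpos
    have h3 : (1 / ε) * (Fintype.card κ * (C * ((1 / ε) * 2)) * dist u w) = A * dist u w := by
      rw [hA]; ring
    refine (h2.trans (le_of_eq h3)).trans ?_
    nlinarith

/-- **Master lemma (local determinism) for worlds with births.** -/
theorem BWorld.agree (hΦ : AdmissiblePotential Φ) (hε : 0 < ε) {X : ℝ → ι → PhasePoint}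
    {Y : ℝ → κ → PhasePoint} {b : ι → ℝ} {c : κ → ℝ} {t₀ t₁ : ℝ} (hX : BWorld Φ ε b t₀ X)
    (hY : BWorld Φ ε c t₁ Y) {e : μ → ι} {f : μ → κ}
    (he : Function.Injective e) (hf : Function.Injective f) {S A : Set μ} {a T : ℝ}
    (ha₀ : t₀ ≤ a) (ha₁ : t₁ ≤ a)
    (hbirth : ∀ m ∈ S ∪ A, ∀ t ∈ Ico a T, (b (e m) ≤ t ↔ c (f m) ≤ t))
    (hA : ∀ m ∈ A, ∀ t ∈ Ico a T, X t (e m) = Y t (f m))
    (ha : ∀ m ∈ S, X a (e m) = Y a (f m))
    (hw : ∀ t ∈ Ico a T, ∀ m ∈ S, b (e m) ≤ t → ∀ k, b k ≤ t → (∀ m' ∈ S ∪ A, e m' ≠ k) →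
      ε ≤ dist (X t (e m)).1 (X t k).1)
    (hw' : ∀ t ∈ Ico a T, ∀ m ∈ S, b (e m) ≤ t → ∀ k, c k ≤ t → (∀ m' ∈ S ∪ A, f m' ≠ k) →
      ε ≤ dist (X t (e m)).1 (Y t k).1) :
    ∀ m ∈ S, ∀ t ∈ Icc a T, X t (e m) = Y t (f m) := by
  classical
  obtain ⟨L₁, hL₁, hg₁⟩ := hX.exists_level hΦ hε T
  obtain ⟨L₂, hL₂, hg₂⟩ := hY.exists_level hΦ hε T
  set L := max L₁ L₂ with hL
  have hL0 : 0 ≤ L := hL₁.trans (le_max_left _ _)
  have hgX := hg₁ L (le_max_left _ _)
  have hgY := hg₂ L (le_max_right _ _)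
  have hn := cut_nice hΦ hL0
  obtain ⟨C, hC⟩ := hn.grad_lipschitz
  have : Finite μ := Finite.of_injective e he
  have := Fintype.ofFinite μ
  have : Fintype S := Fintype.ofFinite S
  set fS : S → κ := fun m => f m with hfS
  have hfSi : Function.Injective fS := fun m m' h => Subtype.ext (hf h)
  obtain ⟨K, hK⟩ := mixFieldB_lipschitz hC hε fS c
  set u : ℝ → S → PhasePoint := fun t m => X t (e m) with hu
  set v : ℝ → S → PhasePoint := fun t m => Y t (f m) with hv
  set V : ℝ → (S → PhasePoint) → (S → PhasePoint) :=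
    fun t => mixFieldB (gradient (cut Φ L)) ε fS c t (Y t) with hV
  have huc : ContinuousOn u (Icc a T) := continuousOn_pi.2 fun m =>
    (hX.cont_apply (e m)).mono fun t ht => ha₀.trans ht.1
  have hvc : ContinuousOn v (Icc a T) := continuousOn_pi.2 fun m =>
    (hY.cont_apply (f m)).mono fun t ht => ha₁.trans ht.1
  have hgrad : ∀ {x y : Space3}, ε ≤ dist x y → gradient (cut Φ L) ((1 / ε) • (x - y)) = 0 :=
    fun h => hn.grad_zero (one_le_norm_smul hε h)
  -- `Y` restricted to `S` solves the mixed equation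
  have hvd : ∀ t ∈ Ico a T, HasDerivWithinAt v (V t (v t)) (Ici t) t := by
    intro t ht
    have h1 := hY.der t (ha₁.trans ht.1)
    rw [BWorld.bf_eq_cut hΦ hL0 (hgY t ⟨ha₁.trans ht.1, ht.2.le⟩), hasDerivWithinAt_pi] at h1
    rw [hasDerivWithinAt_pi]
    intro m
    have h2 : V t (v t) m = bf (cut Φ L) ε c t (Y t) (f m) := by
      simp only [hV, mixFieldB, bf, hv, hfS]
      refine Prod.ext rfl ?_
      simp only
      split_ifs with hm
      swap
      · rfl
      congr 1
      refine Finset.sum_congr rfl fun k _ => ?_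
      rw [show mixPos (fun m : S => f m) (Y t) (fun m => Y t (f m)) k = (Y t k).1 from
        mixPos_self (fun m : S => f m) (Y t) k]
    rw [h2]
    exact h1 (f m)
  -- `X` restricted to `S` solves the mixed equation
  have hud : ∀ t ∈ Ico a T, HasDerivWithinAt u (V t (u t)) (Ici t) t := by
    intro t ht
    have h1 := hX.der t (ha₀.trans ht.1)
    rw [BWorld.bf_eq_cut hΦ hL0 (hgX t ⟨ha₀.trans ht.1, ht.2.le⟩), hasDerivWithinAt_pi] at h1
    rw [hasDerivWithinAt_pi]
    intro m
    have h2 : V t (u t) m = bf (cut Φ L) ε b t (X t) (e m) := by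
      simp only [hV, mixFieldB, bf, hu]
      refine Prod.ext rfl ?_
      simp only
      have hmb : b (e m) ≤ t ↔ c (fS m) ≤ t := hbirth m (Or.inl m.2) t ht
      by_cases hm : b (e m) ≤ t
      swap
      · rw [if_neg hm, if_neg fun h => hm (hmb.2 h)]
      rw [if_pos hm, if_pos (hmb.1 hm)]
      congr 1
      -- both sums reduce to sums over `S ∪ A`
      set Q : Finset μ := Finset.univ.filter fun m' => m' ∈ S ∪ A with hQ
      set eE : μ ↪ ι := ⟨e, he⟩ with heE
      set fE : μ ↪ κ := ⟨f, hf⟩ with hfE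
      have s1 : ∑ j, (if b j ≤ t then gradient (cut Φ L) ((1 / ε) • ((X t (e m)).1 - (X t j).1))
            else 0)
          = ∑ m' ∈ Q, (if b (e m') ≤ t then
            gradient (cut Φ L) ((1 / ε) • ((X t (e m)).1 - (X t (e m')).1)) else 0) := by
        rw [← Finset.sum_subset (Finset.subset_univ (Q.map eE)), Finset.sum_map]
        · rfl
        · intro k _ hk
          split_ifs with hkb
          swap
          · rfl
          refine hgrad (hw t ht m m.2 hm k hkb fun m' hm' h => hk ?_)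
          rw [Finset.mem_map]
          exact ⟨m', by simpa [hQ] using hm', h⟩
      have s2 : ∑ k, (if c k ≤ t then gradient (cut Φ L) ((1 / ε) • ((X t (e m)).1 -
            mixPos fS (Y t) (fun m => X t (e m)) k)) else 0)
          = ∑ m' ∈ Q, (if c (f m') ≤ t then gradient (cut Φ L) ((1 / ε) • ((X t (e m)).1 -
            mixPos fS (Y t) (fun m => X t (e m)) (f m'))) else 0) := by
        rw [← Finset.sum_subset (Finset.subset_univ (Q.map fE)), Finset.sum_map]
        · rfl
        · intro k _ hk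
          split_ifs with hkb
          swap
          · rfl
          have hk' : ∀ m' ∈ S ∪ A, f m' ≠ k := fun m' hm' h => hk (by
            rw [Finset.mem_map]
            exact ⟨m', by simpa [hQ] using hm', h⟩)
          rw [mixPos_not_mem fS (Y t) _ fun m' => hk' m' (Or.inl m'.2)]
          exact hgrad (hw' t ht m m.2 hm k hkb hk')
      rw [s1, s2]
      refine Finset.sum_congr rfl fun m' hm' => ?_
      have hm'' : m' ∈ S ∪ A := by simpa [hQ] using hm'
      have hmb' : b (e m') ≤ t ↔ c (f m') ≤ t := hbirth m' hm'' t ht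
      by_cases hbm : b (e m') ≤ t
      swap
      · rw [if_neg hbm, if_neg fun h => hbm (hmb'.2 h)]
      rw [if_pos hbm, if_pos (hmb'.1 hbm)]
      by_cases hS : m' ∈ S
      · rw [show f m' = fS ⟨m', hS⟩ from rfl, mixPos_mem hfSi]
      · have hA' : m' ∈ A := hm''.resolve_left hS
        rw [mixPos_not_mem fS (Y t) _ fun m₁ h => hS (by
          have : (m₁ : μ) = m' := hf h
          rw [← this]; exact m₁.2), ← hA m' hA' t ht]
    rw [h2]
    exact h1 (e m)
  have key : EqOn u v (Icc a T) := by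
    refine ODE_solution_unique (v := V) (K := K) (fun t => hK t (Y t)) huc hud hvc hvd ?_
    funext m
    exact ha m m.2
  intro m hm t ht
  exact congrFun (key ht) ⟨m, hm⟩

namespace BWorld

variable {b : ι → ℝ} {c : κ → ℝ} {t₀ : ℝ} {X X' : ℝ → ι → PhasePoint} {Y : ℝ → κ → PhasePoint}

/-- Uniqueness of worlds with births. -/
theorem unique (hΦ : AdmissiblePotential Φ) (hε : 0 < ε) (hX : BWorld Φ ε b t₀ X)
    (hX' : BWorld Φ ε b t₀ X') (h0 : X t₀ = X' t₀) {t : ℝ} (ht : t₀ ≤ t) : X t = X' t := by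
  funext i
  exact BWorld.agree hΦ hε hX hX' (e := (id : ι → ι)) (f := (id : ι → ι))
    Function.injective_id Function.injective_id (S := univ) (A := ∅) (a := t₀) (T := t)
    le_rfl le_rfl (fun _ _ _ _ => Iff.rfl) (fun _ h => absurd h (notMem_empty _))
    (fun m _ => by rw [h0]) (fun _ _ _ _ _ k _ h => absurd rfl (h k (Or.inl (mem_univ k))))
    (fun _ _ _ _ _ k _ h => absurd rfl (h k (Or.inl (mem_univ k)))) i (mem_univ i) t ⟨ht, le_rfl⟩

/-- If everybody is born, the world with births is the Newton flow. -/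
theorem eq_flow (hΦ : AdmissiblePotential Φ) (hε : 0 < ε) (hX : BWorld Φ ε b t₀ X)
    (hb : ∀ i, b i ≤ t₀) {t : ℝ} (ht : t₀ ≤ t) : X t = flow Φ ε (t - t₀) (X t₀) := by
  have hdom : X t₀ ∈ Dom Φ ι := (hX.dom t₀ le_rfl).imp id fun h i j hij =>
    h i j hij (hb i) (hb j)
  have hW : World Φ ε (fun t => flow Φ ε (t - t₀) (X t₀)) := by
    have := (world_flow hΦ hε hdom).shift (-t₀)
    have h2 : (fun t => flow Φ ε (-t₀ + t) (X t₀)) = fun t => flow Φ ε (t - t₀) (X t₀) := by
      funext t
      rw [neg_add_eq_sub]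
    rwa [h2] at this
  refine hX.unique hΦ hε (World.bworld hW hb) ?_ ht
  rw [sub_self, flow_zero hΦ hε]

/-- Before its birth, or when isolated, a particle flies freely. -/
theorem free (hΦ : AdmissiblePotential Φ) (hε : 0 < ε) (hX : BWorld Φ ε b t₀ X) (i : ι) {a T : ℝ}
    (ha : t₀ ≤ a) (hfar : ∀ t ∈ Ico a T, b i ≤ t → ∀ j, j ≠ i → b j ≤ t →
      ε ≤ dist (X t i).1 (X t j).1) :
    ∀ t ∈ Icc a T, X t i = ((X a i).1 + (t - a) • (X a i).2, (X a i).2) := by
  -- compare with the one-particle world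
  set Z : Unit → PhasePoint := fun _ => X a i with hZ
  have hW : World Φ ε (fun t => freeFlight (t - a) Z) := by
    have h1 := (world_flow hΦ hε (Dom_subsingleton (Φ := Φ) Z)).shift (-a)
    have h2 : (fun t => flow Φ ε (-a + t) Z) = fun t => freeFlight (t - a) Z := by
      funext t
      rw [neg_add_eq_sub, flow_subsingleton hΦ hε]
    rwa [h2] at h1
  -- births of the one-particle world: the same as those of `i`
  have hB : BWorld Φ ε (fun _ : Unit => b i) a (fun t => freeFlight (t - a) Z) := by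
    refine ⟨hW.continuous.continuousOn, fun t _ => ?_, fun t _ => Or.inr fun x y hxy =>
      absurd (Subsingleton.elim x y) hxy⟩
    have h1 := (hW.hasDerivAt t).hasDerivWithinAt (s := Ici t)
    have h2 : bf Φ ε (fun _ : Unit => b i) t (freeFlight (t - a) Z)
        = nf Φ ε (freeFlight (t - a) Z) := by
      classical
      by_cases hb : b i ≤ t
      · exact bf_of_born Φ ε _ fun _ => hb
      · funext x
        rw [bf_of_unborn Φ ε (b := fun _ : Unit => b i) _ (not_le.1 hb),
          nf_free hΦ hε _ x fun j hj => absurd (Subsingleton.elim j x) hj]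
    rw [h2]
    exact h1
  intro t ht
  have key := BWorld.agree hΦ hε hX hB (μ := Unit) (e := fun _ => i) (f := fun _ => ())
    (fun _ _ _ => rfl) (fun _ _ _ => rfl) (S := univ) (A := ∅) (a := a) (T := T) ha le_rfl
    (fun _ _ _ _ => Iff.rfl) (fun _ h => absurd h (notMem_empty _))
    (fun m _ => by simp [freeFlight, hZ])
    (fun s hs m _ hb k hk hne => hfar s hs hb k (fun h => hne () (Or.inl (mem_univ _)) h.symm) hk)
    (fun _ _ _ _ _ k _ hne => absurd rfl (hne k (Or.inl (mem_univ _))))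
    () (mem_univ _) t ht
  rw [key]
  rfl

/-- Before its birth a particle flies freely. -/
theorem free_of_unborn (hΦ : AdmissiblePotential Φ) (hε : 0 < ε) (hX : BWorld Φ ε b t₀ X) (i : ι)
    {t : ℝ} (ht₀ : t₀ ≤ t) (ht : t ≤ b i) :
    X t i = ((X t₀ i).1 + (t - t₀) • (X t₀ i).2, (X t₀ i).2) :=
  hX.free hΦ hε i le_rfl (T := t)
    (fun _ hs hb => absurd (hb.trans_lt (hs.2.trans_le ht)) (lt_irrefl _)) t ⟨ht₀, le_rfl⟩

end BWorld

end

end Crest.Agent.R122.Ins45
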