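import Mathlib
import Crest.Prelude.Def_KineticLimit

/-!
# Grand-canonical calculus I: expectation, relabelling, splitting, Mecke formula

For row 122.  `gcE f₀ ε F` is the expectation of the nonnegative functional `F n Z` of the
(labelled, `n` random) grand-canonical configuration.  `mecke` is the GNZ/Mecke formula.
-/

set_option autoImplicit false
open MeasureTheory
open scoped Classical ENNReal
open Crest.AnalysisR.Kinetic
noncomputable section

namespace Crest.Agent.R122.GC311

/-! ## Instances -/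

instance instSigmaFinitePhasePoint : SigmaFinite (volume : Measure PhasePoint) := by
  change SigmaFinite ((volume : Measure Space3).prod (volume : Measure Space3))
  infer_instance

instance instSigmaFiniteConfig (m : ℕ) : SigmaFinite (volume : Measure (Config m)) := by
  change SigmaFinite (Measure.pi fun _ : Fin m => (volume : Measure PhasePoint))
  infer_instance

/-! ## Definitions -/

/-- Grand-canonical expectation of a nonnegative functional. -/
def gcE (f₀ : PhasePoint → ℝ) (ε : ℝ) (F : (n : ℕ) → Config n → ℝ≥0∞) : ℝ≥0∞ :=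
  (gcPartition f₀ ε)⁻¹ * ∑' n : ℕ, activity ε ^ n / (n.factorial : ℝ≥0∞) *
    ∫⁻ Z, gcWeight f₀ ε n Z * F n Z

/-- Mutual exclusion of two configurations at distance `ε`. -/
def Perp (ε : ℝ) {k m : ℕ} (V : Config k) (w : Config m) : Prop :=
  ∀ (i : Fin k) (j : Fin m), ε < dist (V i).1 (w j).1

/-- Indicator of mutual exclusion. -/
def perpInd (ε : ℝ) {k m : ℕ} (V : Config k) (w : Config m) : ℝ≥0∞ :=
  if Perp ε V w then 1 else 0

/-! ## Measurability -/

theorem isOpen_pairExcluded (ε : ℝ) (n : ℕ) : IsOpen (PairExcluded ε n) := by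
  have : PairExcluded ε n = ⋂ i : Fin n, ⋂ j : Fin n, {Z : Config n | i ≠ j →
      ε < dist (Z i).1 (Z j).1} := by
    ext Z; simp [PairExcluded]
  rw [this]
  refine isOpen_iInter_of_finite fun i => isOpen_iInter_of_finite fun j => ?_
  by_cases h : i = j
  · simp [h]
  · simp only [h, ne_eq, not_false_eq_true, forall_const]
    exact isOpen_lt continuous_const (by fun_prop)

theorem measurableSet_pairExcluded (ε : ℝ) (n : ℕ) : MeasurableSet (PairExcluded ε n) :=
  (isOpen_pairExcluded ε n).measurableSet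

theorem measurable_gcWeight {f₀ : PhasePoint → ℝ} (hf : Measurable f₀) (ε : ℝ) (n : ℕ) :
    Measurable (gcWeight f₀ ε n) := by
  unfold gcWeight
  refine Measurable.indicator ?_ (measurableSet_pairExcluded ε n)
  refine Finset.measurable_prod _ fun i _ => ?_
  exact (hf.comp (measurable_pi_apply i)).ennreal_ofReal

theorem measurableSet_perp (ε : ℝ) (k m : ℕ) :
    MeasurableSet {p : Config k × Config m | Perp ε p.1 p.2} := by
  have : {p : Config k × Config m | Perp ε p.1 p.2} = ⋂ i : Fin k, ⋂ j : Fin m,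
      {p : Config k × Config m | ε < dist (p.1 i).1 (p.2 j).1} := by
    ext p; simp [Perp]
  rw [this]
  refine MeasurableSet.iInter fun i => MeasurableSet.iInter fun j => ?_
  refine measurableSet_lt measurable_const (Measurable.dist ?_ ?_)
  · exact measurable_fst.comp ((measurable_pi_apply i).comp measurable_fst)
  · exact measurable_fst.comp ((measurable_pi_apply j).comp measurable_snd)

theorem measurable_perpInd (ε : ℝ) (k m : ℕ) :
    Measurable (fun p : Config k × Config m => perpInd ε p.1 p.2) :=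
  Measurable.ite (measurableSet_perp ε k m) measurable_const measurable_const

theorem measurable_perpInd_right (ε : ℝ) {k : ℕ} (m : ℕ) (V : Config k) :
    Measurable (fun w : Config m => perpInd ε V w) :=
  Measurable.of_uncurry_left (f := fun (V : Config k) (w : Config m) => perpInd ε V w)
    (measurable_perpInd ε k m)

/-! ## Relabelling -/

/-- Relabelling preserves Lebesgue measure on configurations. -/
theorem lintegral_comp_perm {n : ℕ} (σ : Equiv.Perm (Fin n)) (H : Config n → ℝ≥0∞) :
    ∫⁻ Z : Config n, H (fun i => Z (σ i)) = ∫⁻ Z : Config n, H Z := by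
  have h := volume_measurePreserving_piCongrLeft (fun _ : Fin n => PhasePoint) σ.symm
  have h2 := h.lintegral_comp_emb (MeasurableEquiv.measurableEmbedding _) H
  rw [← h2]
  refine lintegral_congr fun Z => ?_
  congr 1
  ext i : 1
  obtain ⟨j, rfl⟩ := σ.symm.surjective i
  rw [MeasurableEquiv.coe_piCongrLeft]
  refine Eq.trans ?_ (Equiv.piCongrLeft_apply_apply (fun _ : Fin n => PhasePoint) σ.symm Z j).symm
  simp

theorem pairExcluded_comp_iff {ε : ℝ} {n : ℕ} (σ : Equiv.Perm (Fin n)) (Z : Config n) :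
    (fun i => Z (σ i)) ∈ PairExcluded ε n ↔ Z ∈ PairExcluded ε n := by
  constructor
  · intro h i j hij
    have := h (σ.symm i) (σ.symm j) (fun hc => hij (σ.symm.injective hc))
    simpa using this
  · intro h i j hij
    exact h (σ i) (σ j) (fun hc => hij (σ.injective hc))

theorem gcWeight_comp_perm (f₀ : PhasePoint → ℝ) (ε : ℝ) {n : ℕ} (σ : Equiv.Perm (Fin n))
    (Z : Config n) : gcWeight f₀ ε n (fun i => Z (σ i)) = gcWeight f₀ ε n Z := by
  unfold gcWeight
  by_cases h : Z ∈ PairExcluded ε n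
  · rw [Set.indicator_of_mem h, Set.indicator_of_mem ((pairExcluded_comp_iff σ Z).2 h)]
    exact Equiv.prod_comp σ (fun i => ENNReal.ofReal (f₀ (Z i)))
  · rw [Set.indicator_of_notMem h,
      Set.indicator_of_notMem (fun hc => h ((pairExcluded_comp_iff σ Z).1 hc))]

/-! ## Splitting a configuration in two blocks -/

theorem measurable_append {k m : ℕ} :
    Measurable (fun p : Config k × Config m => (Fin.append p.1 p.2 : Config (k + m))) := by
  refine measurable_pi_iff.2 fun i => ?_
  refine Fin.addCases (fun j => ?_) (fun j => ?_) i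
  · simp only [Fin.append_left]
    exact (measurable_pi_apply j).comp measurable_fst
  · simp only [Fin.append_right]
    exact (measurable_pi_apply j).comp measurable_snd

theorem lintegral_append {k m : ℕ} (H : Config (k + m) → ℝ≥0∞) (hH : Measurable H) :
    ∫⁻ Z : Config (k + m), H Z = ∫⁻ V : Config k, ∫⁻ w : Config m, H (Fin.append V w) := by
  have h1 := volume_measurePreserving_piCongrLeft (fun _ : Fin (k + m) => PhasePoint)
    (finSumFinEquiv (m := k) (n := m))
  have h2 := volume_measurePreserving_sumPiEquivProdPi_symm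
    (fun _ : Fin k ⊕ Fin m => PhasePoint)
  have h3 := h1.comp h2
  have e : ∀ p : Config k × Config m,
      (MeasurableEquiv.piCongrLeft (fun _ : Fin (k + m) => PhasePoint) finSumFinEquiv)
        ((MeasurableEquiv.sumPiEquivProdPi (fun _ : Fin k ⊕ Fin m => PhasePoint)).symm p) =
      Fin.append p.1 p.2 := by
    intro p
    ext i : 1
    obtain ⟨j, rfl⟩ := (finSumFinEquiv (m := k) (n := m)).surjective i
    rw [MeasurableEquiv.coe_piCongrLeft]
    have := Equiv.piCongrLeft_apply_apply (fun _ : Fin (k + m) => PhasePoint) finSumFinEquiv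
      ((MeasurableEquiv.sumPiEquivProdPi (fun _ : Fin k ⊕ Fin m => PhasePoint)).symm p) j
    refine this.trans ?_
    cases j with
    | inl j => simp [MeasurableEquiv.sumPiEquivProdPi]
    | inr j => simp [MeasurableEquiv.sumPiEquivProdPi]
  rw [← h3.lintegral_comp hH]
  simp only [Function.comp_apply, e]
  exact lintegral_prod _ (hH.comp measurable_append).aemeasurable

theorem measurable_append_right {k m : ℕ} (V : Config k) :
    Measurable (fun w : Config m => (Fin.append V w : Config (k + m))) :=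
  Measurable.of_uncurry_left
    (f := fun (V : Config k) (w : Config m) => (Fin.append V w : Config (k + m)))
    measurable_append

theorem append_mem_pairExcluded_iff {ε : ℝ} {k m : ℕ} (V : Config k) (w : Config m) :
    (Fin.append V w : Config (k + m)) ∈ PairExcluded ε (k + m) ↔
      V ∈ PairExcluded ε k ∧ w ∈ PairExcluded ε m ∧ Perp ε V w := by
  constructor
  · intro h
    refine ⟨fun i j hij => ?_, fun i j hij => ?_, fun i j => ?_⟩
    · have := h (Fin.castAdd m i) (Fin.castAdd m j) (fun hc => hij (Fin.castAdd_injective k m hc))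
      simpa using this
    · have := h (Fin.natAdd k i) (Fin.natAdd k j) (fun hc => hij (by simpa using hc))
      simpa using this
    · have := h (Fin.castAdd m i) (Fin.natAdd k j) (by
        intro hc
        have := congrArg Fin.val hc
        simp at this
        omega)
      simpa using this
  · rintro ⟨hV, hw, hp⟩
    intro i j
    refine Fin.addCases (fun i' => ?_) (fun i' => ?_) i <;>
      refine Fin.addCases (fun j' => ?_) (fun j' => ?_) j
    · intro hij
      simpa using hV i' j' (fun hc => hij (by rw [hc]))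
    · intro _
      simpa using hp i' j'
    · intro _
      simpa [dist_comm] using hp j' i'
    · intro hij
      simpa using hw i' j' (fun hc => hij (by rw [hc]))

theorem gcWeight_append (f₀ : PhasePoint → ℝ) (ε : ℝ) {k m : ℕ} (V : Config k) (w : Config m) :
    gcWeight f₀ ε (k + m) (Fin.append V w) =
      gcWeight f₀ ε k V * gcWeight f₀ ε m w * perpInd ε V w := by
  unfold gcWeight perpInd
  by_cases hV : V ∈ PairExcluded ε k
  · by_cases hw : w ∈ PairExcluded ε m
    · by_cases hp : Perp ε V w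
      · rw [Set.indicator_of_mem ((append_mem_pairExcluded_iff V w).2 ⟨hV, hw, hp⟩),
          Set.indicator_of_mem hV, Set.indicator_of_mem hw, if_pos hp, mul_one, Fin.prod_univ_add]
        simp
      · rw [Set.indicator_of_notMem
          (fun hc => hp ((append_mem_pairExcluded_iff V w).1 hc).2.2), if_neg hp, mul_zero]
    · rw [Set.indicator_of_notMem
        (fun hc => hw ((append_mem_pairExcluded_iff V w).1 hc).2.1),
        Set.indicator_of_notMem hw, mul_zero, zero_mul]
  · rw [Set.indicator_of_notMem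
      (fun hc => hV ((append_mem_pairExcluded_iff V w).1 hc).1),
      Set.indicator_of_notMem hV, zero_mul, zero_mul]

/-! ## Elementary properties of `gcE` -/

theorem gcE_mono (f₀ : PhasePoint → ℝ) (ε : ℝ) {F G : (n : ℕ) → Config n → ℝ≥0∞}
    (h : ∀ n, ∀ Z ∈ PairExcluded ε n, F n Z ≤ G n Z) : gcE f₀ ε F ≤ gcE f₀ ε G := by
  unfold gcE
  refine mul_le_mul_right (ENNReal.tsum_le_tsum fun n => mul_le_mul_right
    (lintegral_mono fun Z => ?_) _) _
  by_cases hZ : Z ∈ PairExcluded ε n
  · exact mul_le_mul_right (h n Z hZ) _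
  · simp [gcWeight, Set.indicator_of_notMem hZ]

theorem gcE_congr (f₀ : PhasePoint → ℝ) (ε : ℝ) {F G : (n : ℕ) → Config n → ℝ≥0∞}
    (h : ∀ n, ∀ Z ∈ PairExcluded ε n, F n Z = G n Z) : gcE f₀ ε F = gcE f₀ ε G :=
  le_antisymm (gcE_mono f₀ ε fun n Z hZ => (h n Z hZ).le)
    (gcE_mono f₀ ε fun n Z hZ => (h n Z hZ).ge)

theorem gcE_zero (f₀ : PhasePoint → ℝ) (ε : ℝ) : gcE f₀ ε (fun _ _ => 0) = 0 := by
  simp [gcE]

theorem gcE_add {f₀ : PhasePoint → ℝ} (hf : Measurable f₀) (ε : ℝ)
    {F G : (n : ℕ) → Config n → ℝ≥0∞} (hF : ∀ n, Measurable (F n)) :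
    gcE f₀ ε (fun n Z => F n Z + G n Z) = gcE f₀ ε F + gcE f₀ ε G := by
  unfold gcE
  rw [← mul_add, ← ENNReal.tsum_add]
  congr 1
  refine tsum_congr fun n => ?_
  rw [← mul_add]
  congr 1
  rw [← lintegral_add_left]
  · simp_rw [mul_add]
  · exact (measurable_gcWeight hf ε n).mul (hF n)

theorem gcE_finset_sum {f₀ : PhasePoint → ℝ} (hf : Measurable f₀) (ε : ℝ) {α : Type*}
    (s : Finset α) {F : α → (n : ℕ) → Config n → ℝ≥0∞} (hF : ∀ a ∈ s, ∀ n, Measurable (F a n)) :
    gcE f₀ ε (fun n Z => ∑ a ∈ s, F a n Z) = ∑ a ∈ s, gcE f₀ ε (F a) := by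
  induction s using Finset.induction_on with
  | empty => simp [gcE_zero]
  | insert a s ha ih =>
    simp only [Finset.sum_insert ha]
    rw [gcE_add hf ε (hF a (Finset.mem_insert_self a s)),
      ih (fun b hb => hF b (Finset.mem_insert_of_mem hb))]

theorem gcE_tsum {f₀ : PhasePoint → ℝ} (hf : Measurable f₀) (ε : ℝ) {α : Type*} [Countable α]
    {F : α → (n : ℕ) → Config n → ℝ≥0∞} (hF : ∀ a, ∀ n, Measurable (F a n)) :
    gcE f₀ ε (fun n Z => ∑' a, F a n Z) = ∑' a, gcE f₀ ε (F a) := by
  unfold gcE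
  rw [ENNReal.tsum_mul_left, ENNReal.tsum_comm]
  congr 1
  refine tsum_congr fun n => ?_
  rw [ENNReal.tsum_mul_left]
  congr 1
  rw [← lintegral_tsum]
  · simp_rw [ENNReal.tsum_mul_left]
  · exact fun a => ((measurable_gcWeight hf ε n).mul (hF a n)).aemeasurable

theorem gcE_const_mul (f₀ : PhasePoint → ℝ) (ε : ℝ) {c : ℝ≥0∞} (hc : c ≠ ∞)
    (F : (n : ℕ) → Config n → ℝ≥0∞) :
    gcE f₀ ε (fun n Z => c * F n Z) = c * gcE f₀ ε F := by
  unfold gcE
  have h1 : ∀ n : ℕ, activity ε ^ n / (n.factorial : ℝ≥0∞) *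
      ∫⁻ Z : Config n, gcWeight f₀ ε n Z * (c * F n Z) =
      c * (activity ε ^ n / (n.factorial : ℝ≥0∞) * ∫⁻ Z : Config n, gcWeight f₀ ε n Z * F n Z) := by
    intro n
    have : ∀ Z : Config n, gcWeight f₀ ε n Z * (c * F n Z) = c * (gcWeight f₀ ε n Z * F n Z) :=
      fun Z => by ring
    simp_rw [this]
    rw [lintegral_const_mul' c _ hc]
    ring
  simp_rw [h1]
  rw [ENNReal.tsum_mul_left]
  ring

/-! ## The partition function -/

theorem one_le_gcPartition (f₀ : PhasePoint → ℝ) (ε : ℝ) : 1 ≤ gcPartition f₀ ε := by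
  unfold gcPartition
  refine le_trans ?_ (ENNReal.le_tsum 0)
  have h : ∀ Z : Config 0, gcWeight f₀ ε 0 Z = 1 := by
    intro Z
    unfold gcWeight
    rw [Set.indicator_of_mem (by intro i; exact i.elim0)]
    simp
  simp only [h, pow_zero, Nat.factorial_zero, Nat.cast_one, lintegral_one]
  simp [volume_pi]

theorem lintegral_prod_config {n : ℕ} (g : PhasePoint → ℝ≥0∞) (hg : Measurable g) :
    ∫⁻ Z : Config n, ∏ i, g (Z i) = (∫⁻ z, g z) ^ n := by
  induction n with
  | zero => simp [volume_pi]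
  | succ n ih =>
    have h := (volume_preserving_piFinSuccAbove (fun _ : Fin (n + 1) => PhasePoint) 0).symm
    rw [← h.lintegral_comp (by fun_prop)]
    have e : ∀ p : PhasePoint × (Config n),
        ∏ i, g ((MeasurableEquiv.piFinSuccAbove (fun _ : Fin (n + 1) => PhasePoint) 0).symm p i)
          = g p.1 * ∏ i, g (p.2 i) := by
      intro p
      rw [Fin.prod_univ_succ]
      simp [MeasurableEquiv.piFinSuccAbove, Fin.insertNthEquiv]
    have hm : Measurable (fun Z : Config n => ∏ i, g (Z i)) :=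
      Finset.measurable_prod _ fun i _ => hg.comp (measurable_pi_apply i)
    have h2 : ∫⁻ p : PhasePoint × Config n, g p.1 * ∏ i, g (p.2 i)
        ∂((volume : Measure PhasePoint).prod (volume : Measure (Config n))) =
        (∫⁻ z, g z) * ∫⁻ Z : Config n, ∏ i, g (Z i) :=
      lintegral_prod_mul (μ := (volume : Measure PhasePoint))
        (ν := (volume : Measure (Config n))) (f := g) (g := fun Z : Config n => ∏ i, g (Z i))
        hg.aemeasurable hm.aemeasurable
    rw [pow_succ', ← ih, ← h2]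
    exact lintegral_congr e

theorem lintegral_gcWeight_le (f₀ : PhasePoint → ℝ) (ε : ℝ) (n : ℕ) (hf : Measurable f₀) :
    ∫⁻ Z, gcWeight f₀ ε n Z ≤ (∫⁻ z, ENNReal.ofReal (f₀ z)) ^ n := by
  calc ∫⁻ Z, gcWeight f₀ ε n Z ≤ ∫⁻ Z : Config n, ∏ i, ENNReal.ofReal (f₀ (Z i)) := by
        refine lintegral_mono fun Z => ?_
        unfold gcWeight
        exact Set.indicator_le_self _ _ _
    _ = (∫⁻ z, ENNReal.ofReal (f₀ z)) ^ n :=
        lintegral_prod_config (fun z => ENNReal.ofReal (f₀ z)) hf.ennreal_ofReal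

theorem gcPartition_le (f₀ : PhasePoint → ℝ) (ε : ℝ) (hf : Measurable f₀)
    (h1 : ∫⁻ z, ENNReal.ofReal (f₀ z) ≤ 1) :
    gcPartition f₀ ε ≤ ENNReal.ofReal (Real.exp ((ε ^ 2)⁻¹)) := by
  unfold gcPartition
  have ha : (0 : ℝ) ≤ (ε ^ 2)⁻¹ := by positivity
  calc ∑' n : ℕ, activity ε ^ n / (n.factorial : ℝ≥0∞) * ∫⁻ Z, gcWeight f₀ ε n Z
      ≤ ∑' n : ℕ, ENNReal.ofReal (((ε ^ 2)⁻¹) ^ n / n.factorial) := by
        refine ENNReal.tsum_le_tsum fun n => ?_
        have hw : ∫⁻ Z, gcWeight f₀ ε n Z ≤ 1 :=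
          (lintegral_gcWeight_le f₀ ε n hf).trans (pow_le_one' h1 n)
        refine (mul_le_mul_right hw _).trans ?_
        rw [mul_one, ENNReal.ofReal_div_of_pos (by positivity), activity,
          ENNReal.ofReal_pow ha, ENNReal.ofReal_natCast]
    _ = ENNReal.ofReal (∑' n : ℕ, ((ε ^ 2)⁻¹) ^ n / n.factorial) := by
        rw [ENNReal.ofReal_tsum_of_nonneg]
        · intro n; positivity
        · exact Real.summable_pow_div_factorial _
    _ = ENNReal.ofReal (Real.exp ((ε ^ 2)⁻¹)) := by
        rw [Real.exp_eq_exp_ℝ, NormedSpace.exp_eq_tsum_div]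

theorem gcPartition_ne_top (f₀ : PhasePoint → ℝ) (ε : ℝ) (hf : Measurable f₀)
    (h1 : ∫⁻ z, ENNReal.ofReal (f₀ z) ≤ 1) : gcPartition f₀ ε ≠ ∞ :=
  ne_top_of_le_ne_top ENNReal.ofReal_ne_top (gcPartition_le f₀ ε hf h1)

theorem gcPartition_ne_zero (f₀ : PhasePoint → ℝ) (ε : ℝ) : gcPartition f₀ ε ≠ 0 :=
  (lt_of_lt_of_le one_pos (one_le_gcPartition f₀ ε)).ne'

theorem gcE_one (f₀ : PhasePoint → ℝ) (ε : ℝ) (hf : Measurable f₀)
    (h1 : ∫⁻ z, ENNReal.ofReal (f₀ z) ≤ 1) : gcE f₀ ε (fun _ _ => 1) = 1 := by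
  unfold gcE
  simp only [mul_one]
  exact ENNReal.inv_mul_cancel (gcPartition_ne_zero f₀ ε) (gcPartition_ne_top f₀ ε hf h1)

theorem gcE_const (f₀ : PhasePoint → ℝ) (ε : ℝ) (hf : Measurable f₀)
    (h1 : ∫⁻ z, ENNReal.ofReal (f₀ z) ≤ 1) {c : ℝ≥0∞} (hc : c ≠ ∞) :
    gcE f₀ ε (fun _ _ => c) = c := by
  have := gcE_const_mul f₀ ε hc (fun _ _ => 1)
  simp only [mul_one] at this
  rw [this, gcE_one f₀ ε hf h1, mul_one]

theorem activity_ne_top (ε : ℝ) : activity ε ≠ ∞ := ENNReal.ofReal_ne_top

theorem activity_ne_zero {ε : ℝ} (hε : 0 < ε) : activity ε ≠ 0 := by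
  unfold activity
  rw [Ne, ENNReal.ofReal_eq_zero, not_le]
  positivity

end Crest.Agent.R122.GC311
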