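import Mathlib
import Crest.Prelude.Def_KineticLimit
import Crest.Agent.R122.Births_45
import Crest.Agent.R122.GCBasic_311

/-!
# Worlds with births (row 122, block INS, helper45), part 2: construction, measurability, Liouville

* `flowA Φ ε A t Z`: only the particles in `A` interact.
* `evo Φ ε b s t Z`: evolution from time `s` to time `t` of the world with births `b`.
* `bworld_evo`: it is a world with births if no particle is born on top of another one.
* `measurable_evo`: joint measurability in births, times and configuration.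
* `measurePreserving_evo`: Liouville for fixed births.
-/

set_option autoImplicit false
set_option linter.unusedSectionVars false

open MeasureTheory Set Filter Topology
open scoped NNReal
open Crest.AnalysisR.Kinetic
open Crest.Agent.R122.Flow671 Crest.Agent.R122.Loc45

namespace Crest.Agent.R122.Ins45

noncomputable section

variable {Φ : Space3 → ℝ} {ε : ℝ} {ι κ μ : Type*} [Fintype ι] [Fintype κ]

/-! ### Partial interaction -/

open scoped Classical in
/-- Evolution where only the particles in `A` interact; the others fly freely. -/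
def flowA (Φ : Space3 → ℝ) (ε : ℝ) (A : Finset ι) (t : ℝ) (Z : ι → PhasePoint) : ι → PhasePoint :=
  fun i => if h : i ∈ A then flow Φ ε t (fun a : A => Z a) ⟨i, h⟩
    else ((Z i).1 + t • (Z i).2, (Z i).2)

theorem flowA_mem (A : Finset ι) (t : ℝ) (Z : ι → PhasePoint) {i : ι} (h : i ∈ A) :
    flowA Φ ε A t Z i = flow Φ ε t (fun a : A => Z a) ⟨i, h⟩ := by
  classical
  unfold flowA
  rw [dif_pos h]

theorem flowA_not_mem (A : Finset ι) (t : ℝ) (Z : ι → PhasePoint) {i : ι} (h : i ∉ A) :
    flowA Φ ε A t Z i = ((Z i).1 + t • (Z i).2, (Z i).2) := by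
  classical
  unfold flowA
  rw [dif_neg h]

theorem flowA_restrict (A : Finset ι) (t : ℝ) (Z : ι → PhasePoint) :
    (fun a : A => flowA Φ ε A t Z a) = flow Φ ε t (fun a : A => Z a) := by
  funext a
  rw [flowA_mem A t Z a.2]

theorem flowA_zero (hΦ : AdmissiblePotential Φ) (hε : 0 < ε) (A : Finset ι) (Z : ι → PhasePoint) :
    flowA Φ ε A 0 Z = Z := by
  funext i
  by_cases h : i ∈ A
  · rw [flowA_mem A 0 Z h, flow_zero hΦ hε]
  · rw [flowA_not_mem A 0 Z h]
    simp

theorem flowA_add (hΦ : AdmissiblePotential Φ) (hε : 0 < ε) (A : Finset ι) (s t : ℝ)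
    (Z : ι → PhasePoint) : flowA Φ ε A (s + t) Z = flowA Φ ε A t (flowA Φ ε A s Z) := by
  funext i
  by_cases h : i ∈ A
  · rw [flowA_mem A _ Z h, flowA_mem A _ _ h, flow_add hΦ hε, flowA_restrict]
  · rw [flowA_not_mem A _ Z h, flowA_not_mem A _ _ h, flowA_not_mem A _ Z h]
    simp only [add_smul, add_assoc]

theorem flowA_neg_flowA (hΦ : AdmissiblePotential Φ) (hε : 0 < ε) (A : Finset ι) (t : ℝ)
    (Z : ι → PhasePoint) : flowA Φ ε A (-t) (flowA Φ ε A t Z) = Z := by
  rw [← flowA_add hΦ hε, add_neg_cancel, flowA_zero hΦ hε]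

theorem flowA_univ (hΦ : AdmissiblePotential Φ) (hε : 0 < ε) (t : ℝ) (Z : ι → PhasePoint) :
    flowA Φ ε Finset.univ t Z = flow Φ ε t Z := by
  funext i
  rw [flowA_mem _ t Z (Finset.mem_univ i)]
  have := flow_equiv hΦ hε (Equiv.subtypeUnivEquiv (p := fun i : ι => i ∈ Finset.univ)
    Finset.mem_univ) t Z
  exact congrFun this ⟨i, Finset.mem_univ i⟩

theorem continuous_flowA (hΦ : AdmissiblePotential Φ) (hε : 0 < ε) (A : Finset ι)
    (Z : ι → PhasePoint) : Continuous fun t => flowA Φ ε A t Z := by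
  refine continuous_pi fun i => ?_
  by_cases h : i ∈ A
  · simp only [flowA_mem A _ Z h]
    exact (continuous_apply (⟨i, h⟩ : A)).comp (flow_continuous_time hΦ hε _)
  · simp only [flowA_not_mem A _ Z h]
    fun_prop

theorem measurable_flowA_joint (hΦ : AdmissiblePotential Φ) (hε : 0 < ε) (A : Finset ι) :
    Measurable fun p : ℝ × (ι → PhasePoint) => flowA Φ ε A p.1 p.2 := by
  refine measurable_pi_iff.2 fun i => ?_
  by_cases h : i ∈ A
  · simp only [flowA_mem A _ _ h]
    have h1 : Measurable fun p : ℝ × (ι → PhasePoint) => (p.1, fun a : A => p.2 a) := by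
      refine measurable_fst.prodMk (measurable_pi_iff.2 fun a => ?_)
      exact (measurable_pi_apply (a : ι)).comp measurable_snd
    exact (measurable_pi_apply (⟨i, h⟩ : A)).comp
      ((measurable_flow_joint (ι := A) hΦ hε).comp h1)
  · simp only [flowA_not_mem A _ _ h]
    have h2 : Measurable fun p : ℝ × (ι → PhasePoint) => p.2 i :=
      (measurable_pi_apply i).comp measurable_snd
    exact (h2.fst.add (measurable_fst.smul h2.snd)).prodMk h2.snd

theorem measurable_flowA (hΦ : AdmissiblePotential Φ) (hε : 0 < ε) (A : Finset ι) (t : ℝ) :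
    Measurable (flowA (ι := ι) Φ ε A t) :=
  (measurable_flowA_joint hΦ hε A).comp measurable_prodMk_left

/-- Free flight preserves the volume. -/
theorem measurePreserving_free (ι : Type*) [Fintype ι] (t : ℝ) :
    MeasurePreserving (fun Z : ι → PhasePoint => fun i => ((Z i).1 + t • (Z i).2, (Z i).2))
      volume volume := by
  have h1 : MeasurePreserving (fun z : PhasePoint => (z.1 + t • z.2, z.2)) volume volume := by
    have h2 : MeasurePreserving (fun p : Space3 × Space3 => (p.1, t • p.1 + p.2))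
        (volume.prod volume) (volume.prod volume) := by
      refine MeasurePreserving.skew_product (MeasurePreserving.id _) (g := fun v x => t • v + x)
        (by fun_prop) (Eventually.of_forall fun v => ?_)
      exact map_add_left_eq_self _ (t • v)
    have h3 := (Measure.measurePreserving_swap (μ := (volume : Measure Space3))
      (ν := (volume : Measure Space3)))
    have h4 := (h3.comp h2).comp h3
    have h5 : (Prod.swap ∘ (fun p : Space3 × Space3 => (p.1, t • p.1 + p.2))) ∘ Prod.swap
        = fun z : Space3 × Space3 => (z.1 + t • z.2, z.2) := by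
      funext z
      simp [add_comm]
    rw [h5] at h4
    exact h4
  exact volume_preserving_pi fun _ => h1

/-- Liouville for the partial interaction. -/
theorem measurePreserving_flowA (hΦ : AdmissiblePotential Φ) (hε : 0 < ε) (A : Finset ι) (t : ℝ) :
    MeasurePreserving (flowA (ι := ι) Φ ε A t) volume volume := by
  classical
  set E := MeasurableEquiv.piEquivPiSubtypeProd (fun _ : ι => PhasePoint) (fun i => i ∈ A) with hE
  have he : MeasurePreserving E volume
      ((volume : Measure ({i // i ∈ A} → PhasePoint)).prod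
        (volume : Measure ({i // i ∉ A} → PhasePoint))) := by
    have h0 := volume_preserving_piEquivPiSubtypeProd (fun _ : ι => PhasePoint) (fun i => i ∈ A)
    rw [Measure.volume_eq_prod] at h0
    convert h0
    rfl
  have h1 : MeasurePreserving (flow (ι := {i // i ∈ A}) Φ ε t) volume volume :=
    measurePreserving_flow hΦ hε t
  have h2 := measurePreserving_free {i // i ∉ A} t
  have h3 : MeasurePreserving (Prod.map (flow (ι := {i // i ∈ A}) Φ ε t)
      (fun Z : {i // i ∉ A} → PhasePoint => fun i => ((Z i).1 + t • (Z i).2, (Z i).2)))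
      (volume.prod volume) (volume.prod volume) := h1.prod h2
  have h4 := (he.symm E).comp (h3.comp he)
  have h5 : flowA (ι := ι) Φ ε A t = E.symm ∘ (Prod.map (flow (ι := {i // i ∈ A}) Φ ε t)
      (fun Z : {i // i ∉ A} → PhasePoint => fun i => ((Z i).1 + t • (Z i).2, (Z i).2))) ∘ E := by
    funext Z i
    by_cases h : i ∈ A
    · rw [flowA_mem A t Z h]
      simp [hE, MeasurableEquiv.piEquivPiSubtypeProd, Equiv.piEquivPiSubtypeProd, h]
    · rw [flowA_not_mem A t Z h]
      simp [hE, MeasurableEquiv.piEquivPiSubtypeProd, Equiv.piEquivPiSubtypeProd, h]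
  rw [h5]
  exact h4

/-- Field of the partial interaction. -/
theorem hasDerivAt_flowA (hΦ : AdmissiblePotential Φ) (hε : 0 < ε) (A : Finset ι)
    {Z : ι → PhasePoint} (hZ : (fun a : A => Z a) ∈ Dom Φ A) {b : ι → ℝ} {r : ℝ}
    (hA : ∀ i, i ∈ A ↔ b i ≤ r) (t : ℝ) :
    HasDerivAt (fun s => flowA Φ ε A s Z) (bf Φ ε b r (flowA Φ ε A t Z)) t := by
  classical
  rw [hasDerivAt_pi]
  intro i
  by_cases h : i ∈ A
  · simp only [flowA_mem A _ Z h]
    have h1 := (hasDerivAt_pi.1 (flow_hasDerivAt hΦ hε hZ t)) ⟨i, h⟩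
    have h2 : bf Φ ε b r (flowA Φ ε A t Z) i = nf Φ ε (flow Φ ε t (fun a : A => Z a)) ⟨i, h⟩ := by
      unfold bf nf
      rw [if_pos ((hA i).1 h), flowA_mem A t Z h]
      congr 2
      rw [← Finset.sum_subset (Finset.subset_univ A)]
      · rw [← Finset.sum_coe_sort A]
        refine Finset.sum_congr rfl fun j _ => ?_
        rw [if_pos ((hA j).1 j.2), flowA_mem A t Z j.2]
      · intro j _ hj
        rw [if_neg fun h' => hj ((hA j).2 h')]
    rw [h2]
    exact h1
  · simp only [flowA_not_mem A _ Z h]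
    rw [bf_of_unborn Φ ε _ (not_le.1 fun h' => h ((hA i).2 h')), flowA_not_mem A t Z h]
    have h3 : HasDerivAt (fun s : ℝ => (Z i).1 + s • (Z i).2) ((Z i).2) t := by
      have h4 : HasDerivAt (fun s : ℝ => s • (Z i).2) ((1 : ℝ) • (Z i).2) t :=
        (hasDerivAt_id t).smul_const _
      rw [one_smul] at h4
      exact h4.const_add _
    exact h3.prodMk (hasDerivAt_const _ _)

/-! ### The evolution -/

/-- The particles already born at time `t`. -/
def alive (b : ι → ℝ) (t : ℝ) : Finset ι := Finset.univ.filter fun i => b i ≤ t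

@[simp] theorem mem_alive {b : ι → ℝ} {t : ℝ} {i : ι} : i ∈ alive b t ↔ b i ≤ t := by
  simp [alive]

/-- The minimum of `t` and of the birth times after `s`. -/
def nxt (b : ι → ℝ) (s t : ℝ) : ℝ := Finset.univ.fold min t fun i => if s < b i then b i else t

theorem nxt_le (b : ι → ℝ) (s t : ℝ) : nxt b s t ≤ t := by
  unfold nxt
  rw [Finset.fold_min_le]
  exact Or.inl le_rfl

theorem nxt_le_birth {b : ι → ℝ} {s t : ℝ} {i : ι} (h : s < b i) : nxt b s t ≤ b i := by
  unfold nxt
  rw [Finset.fold_min_le]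
  exact Or.inr ⟨i, Finset.mem_univ i, by rw [if_pos h]⟩

theorem le_nxt {b : ι → ℝ} {s t c : ℝ} (h : c ≤ t) (h' : ∀ i, s < b i → c ≤ b i) :
    c ≤ nxt b s t := by
  unfold nxt
  rw [Finset.le_fold_min]
  refine ⟨h, fun i _ => ?_⟩
  split_ifs with hi
  · exact h' i hi
  · exact h

/-- Evolution with at most `n` births on the way. -/
def evoN (Φ : Space3 → ℝ) (ε : ℝ) (b : ι → ℝ) : ℕ → ℝ → ℝ → (ι → PhasePoint) → (ι → PhasePoint)
  | 0, s, t, Z => flowA Φ ε (alive b s) (t - s) Z
  | n + 1, s, t, Z => if nxt b s t < t then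
      evoN Φ ε b n (nxt b s t) t (flowA Φ ε (alive b s) (nxt b s t - s) Z)
      else flowA Φ ε (alive b s) (t - s) Z

/-- **Evolution with births** from time `s` to time `t`. -/
def evo (Φ : Space3 → ℝ) (ε : ℝ) (b : ι → ℝ) (s t : ℝ) (Z : ι → PhasePoint) : ι → PhasePoint :=
  evoN Φ ε b (Fintype.card ι) s t Z

theorem evoN_self (hΦ : AdmissiblePotential Φ) (hε : 0 < ε) (b : ι → ℝ) (n : ℕ) (s : ℝ)
    (Z : ι → PhasePoint) : evoN Φ ε b n s s Z = Z := by
  have h : flowA Φ ε (alive b s) (s - s) Z = Z := by rw [sub_self, flowA_zero hΦ hε]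
  cases n with
  | zero => exact h
  | succ n =>
    have h1 : ¬ nxt b s s < s := by
      rw [not_lt]
      exact le_nxt le_rfl fun i hi => hi.le
    simp only [evoN, if_neg h1]
    exact h

theorem evo_self (hΦ : AdmissiblePotential Φ) (hε : 0 < ε) (b : ι → ℝ) (s : ℝ)
    (Z : ι → PhasePoint) : evo Φ ε b s s Z = Z := evoN_self hΦ hε b _ s Z

/-- No birth in `(s, t)`: the evolution is the partial flow. -/
theorem evoN_of_no_birth (b : ι → ℝ) (n : ℕ) {s t : ℝ} (Z : ι → PhasePoint)
    (h : ∀ i, s < b i → t ≤ b i) : evoN Φ ε b n s t Z = flowA Φ ε (alive b s) (t - s) Z := by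
  cases n with
  | zero => rfl
  | succ n =>
    have h1 : ¬ nxt b s t < t := by
      rw [not_lt]
      exact le_nxt le_rfl h
    simp only [evoN, if_neg h1]

/-- The evolution through the first birth time `s'` after `s`. -/
theorem evoN_of_birth (hΦ : AdmissiblePotential Φ) (hε : 0 < ε) (b : ι → ℝ) (n : ℕ) {s s' t : ℝ}
    (Z : ι → PhasePoint) (hs' : s' ≤ t) (h : ∀ i, s < b i → s' ≤ b i) (i₀ : ι) (hi₀ : s < b i₀)
    (hi₀' : b i₀ = s') : evoN Φ ε b (n + 1) s t Z
      = evoN Φ ε b n s' t (flowA Φ ε (alive b s) (s' - s) Z) := by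
  have h1 : nxt b s t = s' := le_antisymm (hi₀' ▸ nxt_le_birth hi₀) (le_nxt hs' h)
  rcases hs'.lt_or_eq with h2 | h2
  · simp only [evoN, h1, if_pos h2]
  · subst h2
    simp only [evoN, h1, if_neg (lt_irrefl _)]
    rw [evoN_self hΦ hε]

/-- Number of births after `s`. -/
def nb (b : ι → ℝ) (s : ℝ) : ℕ := (Finset.univ.filter fun i => s < b i).card

theorem nb_le_card (b : ι → ℝ) (s : ℝ) : nb b s ≤ Fintype.card ι := Finset.card_le_univ _

theorem nb_lt {b : ι → ℝ} {s s' : ℝ} (i₀ : ι) (hi₀ : s < b i₀) (hi₀' : b i₀ = s') :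
    nb b s' < nb b s := by
  unfold nb
  refine Finset.card_lt_card ?_
  rw [Finset.ssubset_iff_of_subset]
  · refine ⟨i₀, by simp [hi₀], by simp [hi₀']⟩
  · intro i hi
    simp only [Finset.mem_filter, Finset.mem_univ, true_and] at hi ⊢
    exact (hi₀.trans_le hi₀'.le).trans hi

/-- The number of steps is irrelevant as soon as it is at least the number of births. -/
theorem evoN_eq_of_le (hΦ : AdmissiblePotential Φ) (hε : 0 < ε) (b : ι → ℝ) :
    ∀ (n m : ℕ) (s t : ℝ) (Z : ι → PhasePoint), nb b s ≤ n → nb b s ≤ m → s ≤ t →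
      evoN Φ ε b n s t Z = evoN Φ ε b m s t Z := by
  intro n
  induction n with
  | zero =>
    intro m s t Z hn hm hst
    have h0 : ∀ i, s < b i → t ≤ b i := by
      intro i hi
      have : (Finset.univ.filter fun i => s < b i) = ∅ := Finset.card_eq_zero.1 (Nat.le_zero.1 hn)
      have h2 : i ∈ (Finset.univ.filter fun i => s < b i) := by simp [hi]
      rw [this] at h2
      exact absurd h2 (Finset.notMem_empty i)
    rw [evoN_of_no_birth b 0 Z h0, evoN_of_no_birth b m Z h0]
  | succ n ih =>
    intro m s t Z hn hm hst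
    by_cases h0 : ∀ i, s < b i → t ≤ b i
    · rw [evoN_of_no_birth b _ Z h0, evoN_of_no_birth b m Z h0]
    · push Not at h0
      obtain ⟨i₁, hi₁, hi₁t⟩ := h0
      -- first birth after `s`
      obtain ⟨i₀, hi₀, hmin⟩ := (Set.toFinite {i | s < b i}).exists_minimalFor b {i | s < b i}
        ⟨i₁, hi₁⟩
      have hmin' : ∀ i, s < b i → b i₀ ≤ b i := by
        intro i hi
        rcases le_total (b i) (b i₀) with h1 | h1
        · exact hmin hi h1
        · exact h1
      have hle : b i₀ ≤ t := (hmin' i₁ hi₁).trans hi₁t.le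
      have hlt := nb_lt (b := b) (s := s) i₀ hi₀ rfl
      have hm0 : m ≠ 0 := by
        intro h
        rw [h] at hm
        omega
      obtain ⟨m', rfl⟩ := Nat.exists_eq_succ_of_ne_zero hm0
      rw [evoN_of_birth hΦ hε b n Z hle hmin' i₀ hi₀ rfl,
        evoN_of_birth hΦ hε b m' Z hle hmin' i₀ hi₀ rfl]
      exact ih m' _ _ _ (by omega) (by omega) hle

/-- Restriction of a regular configuration, with births. -/
def BDom (Φ : Space3 → ℝ) (b : ι → ℝ) (t : ℝ) (Z : ι → PhasePoint) : Prop :=
  ContDiff ℝ 2 Φ ∨ ∀ i j, i ≠ j → b i ≤ t → b j ≤ t → (Z i).1 ≠ (Z j).1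

theorem BDom.dom {b : ι → ℝ} {t : ℝ} {Z : ι → PhasePoint} (h : BDom Φ b t Z) :
    (fun a : alive b t => Z a) ∈ Dom Φ (alive b t) := by
  refine h.imp id fun h' i j hij => ?_
  exact h' i j (fun h => hij (Subtype.ext h)) (mem_alive.1 i.2) (mem_alive.1 j.2)

theorem BDom.of_dom {b : ι → ℝ} {t : ℝ} {Z : ι → PhasePoint}
    (h : (fun a : alive b t => Z a) ∈ Dom Φ (alive b t)) : BDom Φ b t Z := by
  refine h.imp id fun h' i j hij hi hj => ?_
  exact h' ⟨i, mem_alive.2 hi⟩ ⟨j, mem_alive.2 hj⟩ fun h => hij (congrArg Subtype.val h)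

/-- Gluing of worlds with births at a birth time. -/
theorem BWorld.glue {b : ι → ℝ} {s s' : ℝ} {X X₁ X₂ : ℝ → ι → PhasePoint} (hss' : s ≤ s')
    (h₁c : Continuous X₁) (h₁d : ∀ t ∈ Ico s s', HasDerivAt X₁ (bf Φ ε b t (X₁ t)) t)
    (h₁m : ∀ t ∈ Ico s s', BDom Φ b t (X₁ t)) (h₂ : BWorld Φ ε b s' X₂)
    (hX₁ : ∀ t ∈ Icc s s', X t = X₁ t) (hX₂ : ∀ t, s' ≤ t → X t = X₂ t) :
    BWorld Φ ε b s X where
  cont := by
    have h3 : Ici s = Icc s s' ∪ Ici s' := by
      ext t
      simp only [mem_Ici, mem_union, mem_Icc]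
      constructor
      · intro h
        rcases le_total t s' with h' | h'
        · exact Or.inl ⟨h, h'⟩
        · exact Or.inr h'
      · rintro (h | h)
        · exact h.1
        · exact hss'.trans h
    rw [h3]
    refine ContinuousOn.union_of_isClosed ?_ ?_ isClosed_Icc isClosed_Ici
    · exact h₁c.continuousOn.congr hX₁
    · exact h₂.cont.congr fun t ht => hX₂ t ht
  der t ht := by
    rcases lt_or_ge t s' with h | h
    · rw [hX₁ t ⟨ht, h.le⟩]
      have h1 := (h₁d t ⟨ht, h⟩).hasDerivWithinAt (s := Ici t)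
      refine h1.congr_of_eventuallyEq ?_ (hX₁ t ⟨ht, h.le⟩)
      have h4 : Icc t s' ∈ 𝓝[≥] t := Icc_mem_nhdsGE h
      filter_upwards [h4] with u hu
      exact hX₁ u ⟨ht.trans hu.1, hu.2⟩
    · rw [hX₂ t h]
      exact (h₂.der t h).congr (fun u hu => hX₂ u (h.trans hu)) (hX₂ t h)
  dom t ht := by
    rcases lt_or_ge t s' with h | h
    · rw [hX₁ t ⟨ht, h.le⟩]
      exact h₁m t ⟨ht, h⟩
    · rw [hX₂ t h]
      exact h₂.dom t h

/-- **Existence.** If nobody is born on top of an alive particle, then the evolution with births is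
a world with births. -/
theorem bworld_evoN (hΦ : AdmissiblePotential Φ) (hε : 0 < ε) (b : ι → ℝ) :
    ∀ (n : ℕ) (s : ℝ) (Z : ι → PhasePoint), nb b s ≤ n → BDom Φ b s Z →
      (∀ i, s < b i → BDom Φ b (b i) (evoN Φ ε b n s (b i) Z)) →
      BWorld Φ ε b s (fun t => evoN Φ ε b n s t Z) := by
  intro n
  induction n with
  | zero =>
    intro s Z hn hZ _
    have h0 : ∀ i, b i ≤ s := by
      intro i
      by_contra hi
      have : (Finset.univ.filter fun i => s < b i) = ∅ := Finset.card_eq_zero.1 (Nat.le_zero.1 hn)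
      have h2 : i ∈ (Finset.univ.filter fun i => s < b i) := by simp [not_le.1 hi]
      rw [this] at h2
      exact absurd h2 (Finset.notMem_empty i)
    have hmem : ∀ t, s ≤ t → ∀ i, i ∈ alive b s ↔ b i ≤ t := fun t ht i =>
      ⟨fun h => (mem_alive.1 h).trans ht, fun _ => mem_alive.2 (h0 i)⟩
    refine ⟨?_, fun t ht => ?_, fun t ht => ?_⟩
    · exact ((continuous_flowA hΦ hε (alive b s) Z).comp (continuous_id.sub
        continuous_const)).continuousOn
    · have h1 := hasDerivAt_flowA hΦ hε (alive b s) hZ.dom (hmem t ht) (t - s)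
      have h2 := h1.scomp t ((hasDerivAt_id t).sub_const s)
      rw [one_smul] at h2
      exact h2.hasDerivWithinAt
    · refine (flow_mem hΦ hε hZ.dom (t - s)).imp id fun h' i j hij _ _ => ?_
      have h3 := h' ⟨i, mem_alive.2 (h0 i)⟩ ⟨j, mem_alive.2 (h0 j)⟩
        fun h => hij (congrArg Subtype.val h)
      change (flowA Φ ε (alive b s) (t - s) Z i).1 ≠ (flowA Φ ε (alive b s) (t - s) Z j).1
      rwa [flowA_mem _ _ Z (mem_alive.2 (h0 i)), flowA_mem _ _ Z (mem_alive.2 (h0 j))]
  | succ n ih =>
    intro s Z hn hZ hadm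
    by_cases h0 : ∀ i, b i ≤ s
    · -- no birth: same as above
      have h1 : nb b s ≤ 0 := by
        unfold nb
        rw [Nat.le_zero, Finset.card_eq_zero, Finset.filter_eq_empty_iff]
        exact fun i _ => not_lt.2 (h0 i)
      have hmem : ∀ t, s ≤ t → ∀ i, i ∈ alive b s ↔ b i ≤ t := fun t ht i =>
        ⟨fun h => (mem_alive.1 h).trans ht, fun _ => mem_alive.2 (h0 i)⟩
      have hev : ∀ t, s ≤ t → evoN Φ ε b (n + 1) s t Z = flowA Φ ε (alive b s) (t - s) Z :=
        fun t _ => evoN_of_no_birth b _ Z fun i hi => absurd (h0 i) (not_le.2 hi)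
      have hB : BWorld Φ ε b s (fun t => flowA Φ ε (alive b s) (t - s) Z) := by
        refine ⟨?_, fun t ht => ?_, fun t ht => ?_⟩
        · exact ((continuous_flowA hΦ hε (alive b s) Z).comp (continuous_id.sub
            continuous_const)).continuousOn
        · have h1 := hasDerivAt_flowA hΦ hε (alive b s) hZ.dom (hmem t ht) (t - s)
          have h2 := h1.scomp t ((hasDerivAt_id t).sub_const s)
          rw [one_smul] at h2
          exact h2.hasDerivWithinAt
        · refine (flow_mem hΦ hε hZ.dom (t - s)).imp id fun h' i j hij _ _ => ?_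
          have h3 := h' ⟨i, mem_alive.2 (h0 i)⟩ ⟨j, mem_alive.2 (h0 j)⟩
            fun h => hij (congrArg Subtype.val h)
          rwa [flowA_mem _ _ Z (mem_alive.2 (h0 i)), flowA_mem _ _ Z (mem_alive.2 (h0 j))]
      exact hB.congr hev
    · push Not at h0
      obtain ⟨i₁, hi₁⟩ := h0
      obtain ⟨i₀, hi₀, hmin⟩ := (Set.toFinite {i | s < b i}).exists_minimalFor b {i | s < b i}
        ⟨i₁, hi₁⟩
      have hmin' : ∀ i, s < b i → b i₀ ≤ b i := by
        intro i hi
        rcases le_total (b i) (b i₀) with h1 | h1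
        · exact hmin hi h1
        · exact h1
      set s' := b i₀ with hs'
      have hss' : s ≤ s' := le_of_lt hi₀
      set Z' := flowA Φ ε (alive b s) (s' - s) Z with hZ'
      have hev : ∀ t, s' ≤ t → evoN Φ ε b (n + 1) s t Z = evoN Φ ε b n s' t Z' := fun t ht =>
        evoN_of_birth hΦ hε b n Z ht hmin' i₀ hi₀ rfl
      have hnb : nb b s' ≤ n := by
        have : nb b s' < nb b s := nb_lt i₀ hi₀ rfl
        omega
      have hZ'dom : BDom Φ b s' Z' := by
        have := hadm i₀ hi₀
        rwa [hev s' le_rfl, evoN_self hΦ hε] at this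
      have h2 : BWorld Φ ε b s' (fun t => evoN Φ ε b n s' t Z') := by
        refine ih s' Z' hnb hZ'dom fun i hi => ?_
        have := hadm i (hss'.trans_lt hi)
        rwa [hev (b i) hi.le] at this
      have hmem : ∀ t ∈ Ico s s', ∀ i, i ∈ alive b s ↔ b i ≤ t := by
        intro t ht i
        refine ⟨fun h => (mem_alive.1 h).trans ht.1, fun h => mem_alive.2 ?_⟩
        by_contra hlt
        exact absurd ((hmin' i (not_le.1 hlt)).trans h) (not_le.2 ht.2)
      refine BWorld.glue (X₁ := fun t => flowA Φ ε (alive b s) (t - s) Z) hss' ?_ ?_ ?_ h2 ?_ ?_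
      · exact (continuous_flowA hΦ hε (alive b s) Z).comp (continuous_id.sub continuous_const)
      · intro t ht
        have h1 := hasDerivAt_flowA hΦ hε (alive b s) hZ.dom (hmem t ht) (t - s)
        have h2 := h1.scomp t ((hasDerivAt_id t).sub_const s)
        rw [one_smul] at h2
        exact h2
      · intro t ht
        refine (flow_mem hΦ hε hZ.dom (t - s)).imp id fun h' i j hij hi hj => ?_
        have hi' := (hmem t ht i).2 hi
        have hj' := (hmem t ht j).2 hj
        have h3 := h' ⟨i, hi'⟩ ⟨j, hj'⟩ fun h => hij (congrArg Subtype.val h)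
        rwa [flowA_mem _ _ Z hi', flowA_mem _ _ Z hj']
      · intro t ht
        exact evoN_of_no_birth b _ Z fun i hi => ht.2.trans (hmin' i hi)
      · exact fun t ht => hev t ht

/-- **Existence** of worlds with births. -/
theorem bworld_evo (hΦ : AdmissiblePotential Φ) (hε : 0 < ε) {b : ι → ℝ} {s : ℝ}
    {Z : ι → PhasePoint} (hZ : BDom Φ b s Z)
    (hadm : ∀ i, s < b i → BDom Φ b (b i) (evo Φ ε b s (b i) Z)) :
    BWorld Φ ε b s (fun t => evo Φ ε b s t Z) :=
  bworld_evoN hΦ hε b (Fintype.card ι) s Z (nb_le_card b s) hZ hadm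

/-- As long as nobody is born, a world with births is the partial flow. -/
theorem BWorld.eq_flowA (hΦ : AdmissiblePotential Φ) (hε : 0 < ε) {b : ι → ℝ} {s t : ℝ}
    {X : ℝ → ι → PhasePoint} (hX : BWorld Φ ε b s X) (hst : s ≤ t)
    (h0 : ∀ i, s < b i → t ≤ b i) : X t = flowA Φ ε (alive b s) (t - s) (X s) := by
  have hZ : BDom Φ b s (X s) := hX.dom s le_rfl
  have hmem : ∀ u ∈ Ico s t, ∀ i, i ∈ alive b s ↔ b i ≤ u := by
    intro u hu i
    refine ⟨fun h => (mem_alive.1 h).trans hu.1, fun h => mem_alive.2 ?_⟩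
    by_contra hlt
    exact absurd ((h0 i (not_le.1 hlt)).trans h) (not_le.2 hu.2)
  have hWY : World Φ ε (fun u => flow Φ ε (u - s) (fun a : alive b s => X s a)) := by
    have := (world_flow hΦ hε hZ.dom).shift (-s)
    have h2 : (fun u => flow Φ ε (-s + u) (fun a : alive b s => X s a))
        = fun u => flow Φ ε (u - s) (fun a : alive b s => X s a) := by
      funext u
      rw [neg_add_eq_sub]
    rwa [h2] at this
  have hBY := World.bworld hWY (b := fun _ => s) (t₀ := s) fun _ => le_rfl
  funext i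
  by_cases hi : i ∈ alive b s
  · have hkey := BWorld.agree hΦ hε hX hBY (μ := alive b s) (e := fun a => (a : ι))
      (f := fun a => a) Subtype.val_injective Function.injective_id (S := univ) (A := ∅)
      (a := s) (T := t) le_rfl le_rfl
      (fun m _ u hu => ⟨fun _ => hu.1, fun _ => (mem_alive.1 m.2).trans hu.1⟩)
      (fun _ h => absurd h (notMem_empty _))
      (fun m _ => by simp only [sub_self, flow_zero hΦ hε])
      (fun u hu m _ _ k hk hne => absurd rfl
        (hne ⟨k, (hmem u hu k).2 hk⟩ (Or.inl (mem_univ _))))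
      (fun _ _ _ _ _ k _ hne => absurd rfl (hne k (Or.inl (mem_univ _))))
      ⟨i, hi⟩ (mem_univ _) t ⟨hst, le_rfl⟩
    rw [hkey, flowA_mem _ _ (X s) hi]
  · rw [flowA_not_mem _ _ _ hi]
    refine hX.free_of_unborn hΦ hε i hst (h0 i ?_)
    exact not_le.1 fun h => hi (mem_alive.2 h)

/-- Every world with births is the evolution of its initial state. -/
theorem BWorld.eq_evo (hΦ : AdmissiblePotential Φ) (hε : 0 < ε) {b : ι → ℝ} {s : ℝ}
    {X : ℝ → ι → PhasePoint} (hX : BWorld Φ ε b s X) {t : ℝ} (ht : s ≤ t) :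
    X t = evo Φ ε b s t (X s) := by
  -- by induction on the number of births
  have key : ∀ (n : ℕ) (s : ℝ), BWorld Φ ε b s X → nb b s ≤ n → ∀ t, s ≤ t →
      X t = evoN Φ ε b n s t (X s) := by
    intro n
    induction n with
    | zero =>
      intro s hX hn t ht
      have h0 : ∀ i, s < b i → t ≤ b i := by
        intro i hi
        have : (Finset.univ.filter fun i => s < b i) = ∅ :=
          Finset.card_eq_zero.1 (Nat.le_zero.1 hn)
        have h2 : i ∈ (Finset.univ.filter fun i => s < b i) := by simp [hi]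
        rw [this] at h2
        exact absurd h2 (Finset.notMem_empty i)
      rw [evoN_of_no_birth b 0 _ h0]
      exact hX.eq_flowA hΦ hε ht h0
    | succ n ih =>
      intro s hX hn t ht
      by_cases h0 : ∀ i, s < b i → t ≤ b i
      · rw [evoN_of_no_birth b _ _ h0]
        exact hX.eq_flowA hΦ hε ht h0
      · push Not at h0
        obtain ⟨i₁, hi₁, hi₁t⟩ := h0
        obtain ⟨i₀, hi₀, hmin⟩ := (Set.toFinite {i | s < b i}).exists_minimalFor b {i | s < b i}
          ⟨i₁, hi₁⟩
        have hmin' : ∀ i, s < b i → b i₀ ≤ b i := by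
          intro i hi
          rcases le_total (b i) (b i₀) with h1 | h1
          · exact hmin hi h1
          · exact h1
        have hle : b i₀ ≤ t := (hmin' i₁ hi₁).trans hi₁t.le
        have hlt := nb_lt (b := b) (s := s) i₀ hi₀ rfl
        have hss' : s ≤ b i₀ := le_of_lt hi₀
        rw [evoN_of_birth hΦ hε b n _ hle hmin' i₀ hi₀ rfl,
          ← hX.eq_flowA hΦ hε hss' hmin']
        exact ih (b i₀) (hX.mono hss') (by omega) t hle
  exact key (Fintype.card ι) s hX (nb_le_card b s) t ht

/-- Semigroup property of the evolution with births, along a world with births. -/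
theorem BWorld.evo_evo (hΦ : AdmissiblePotential Φ) (hε : 0 < ε) {b : ι → ℝ} {s : ℝ}
    {X : ℝ → ι → PhasePoint} (hX : BWorld Φ ε b s X) {r t : ℝ} (hr : s ≤ r) (ht : r ≤ t) :
    evo Φ ε b r t (evo Φ ε b s r (X s)) = evo Φ ε b s t (X s) := by
  rw [← hX.eq_evo hΦ hε hr, ← (hX.mono hr).eq_evo hΦ hε ht, ← hX.eq_evo hΦ hε (hr.trans ht)]

/-! ### Measurability and Liouville -/

theorem measurable_fold_min {δ : Type*} [MeasurableSpace δ] (s : Finset ι) {f : ι → δ → ℝ}
    (hf : ∀ i, Measurable (f i)) {g : δ → ℝ} (hg : Measurable g) :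
    Measurable fun x => s.fold min (g x) fun i => f i x := by
  classical
  induction s using Finset.induction_on with
  | empty => simpa using hg
  | insert a s ha ih =>
    simp only [Finset.fold_insert ha]
    exact (hf a).min ih

theorem measurable_nxt {δ : Type*} [MeasurableSpace δ] {b : δ → ι → ℝ} {s t : δ → ℝ}
    (hb : ∀ i, Measurable fun x => b x i) (hs : Measurable s) (ht : Measurable t) :
    Measurable fun x => nxt (b x) (s x) (t x) := by
  unfold nxt
  refine measurable_fold_min Finset.univ (fun i => ?_) ht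
  exact Measurable.ite (measurableSet_lt hs (hb i)) (hb i) ht

theorem measurable_flowA_alive (hΦ : AdmissiblePotential Φ) (hε : 0 < ε) {δ : Type*}
    [MeasurableSpace δ] {b : δ → ι → ℝ} {s t : δ → ℝ} {Z : δ → ι → PhasePoint}
    (hb : ∀ i, Measurable fun x => b x i) (hs : Measurable s) (ht : Measurable t)
    (hZ : Measurable Z) :
    Measurable fun x => flowA Φ ε (alive (b x) (s x)) (t x) (Z x) := by
  classical
  let _ : MeasurableSpace (Finset ι) := ⊤
  have h1 : Measurable fun p : (ℝ × (ι → PhasePoint)) × Finset ι =>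
      flowA Φ ε p.2 p.1.1 p.1.2 := by
    refine measurable_from_prod_countable_left fun A => ?_
    exact measurable_flowA_joint hΦ hε A
  have h2 : Measurable fun x => alive (b x) (s x) := by
    refine measurable_to_countable' fun A => ?_
    have h3 : (fun x => alive (b x) (s x)) ⁻¹' {A} = ⋂ i, {x | b x i ≤ s x ↔ i ∈ A} := by
      ext x
      simp only [mem_preimage, mem_singleton_iff, mem_iInter, mem_ofPred_eq]
      constructor
      · intro h i
        rw [← h, mem_alive]
      · intro h
        ext i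
        rw [mem_alive]
        exact h i
    rw [h3]
    refine MeasurableSet.iInter fun i => ?_
    by_cases hi : i ∈ A
    · simp only [hi, iff_true]
      exact measurableSet_le (hb i) hs
    · simp only [hi, iff_false, not_le]
      exact measurableSet_lt hs (hb i)
  exact h1.comp ((ht.prodMk hZ).prodMk h2)

/-- **Joint measurability** of the evolution with births. -/
theorem measurable_evoN (hΦ : AdmissiblePotential Φ) (hε : 0 < ε) (n : ℕ) :
    ∀ {δ : Type*} [MeasurableSpace δ] {b : δ → ι → ℝ} {s t : δ → ℝ} {Z : δ → ι → PhasePoint},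
      (∀ i, Measurable fun x => b x i) → Measurable s → Measurable t → Measurable Z →
      Measurable fun x => evoN Φ ε (b x) n (s x) (t x) (Z x) := by
  induction n with
  | zero =>
    intro δ _ b s t Z hb hs ht hZ
    exact measurable_flowA_alive hΦ hε hb hs (ht.sub hs) hZ
  | succ n ih =>
    intro δ _ b s t Z hb hs ht hZ
    have h1 := measurable_nxt hb hs ht
    simp only [evoN]
    refine Measurable.ite (measurableSet_lt h1 ht) ?_ ?_
    · exact ih hb h1 ht (measurable_flowA_alive hΦ hε hb hs (h1.sub hs) hZ)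
    · exact measurable_flowA_alive hΦ hε hb hs (ht.sub hs) hZ

theorem measurable_evo (hΦ : AdmissiblePotential Φ) (hε : 0 < ε) {δ : Type*} [MeasurableSpace δ]
    {b : δ → ι → ℝ} {s t : δ → ℝ} {Z : δ → ι → PhasePoint} (hb : ∀ i, Measurable fun x => b x i)
    (hs : Measurable s) (ht : Measurable t) (hZ : Measurable Z) :
    Measurable fun x => evo Φ ε (b x) (s x) (t x) (Z x) :=
  measurable_evoN hΦ hε _ hb hs ht hZ

/-- **Liouville** for fixed births and times. -/
theorem measurePreserving_evoN (hΦ : AdmissiblePotential Φ) (hε : 0 < ε) (b : ι → ℝ) (n : ℕ) :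
    ∀ (s t : ℝ), MeasurePreserving (evoN (ι := ι) Φ ε b n s t) volume volume := by
  induction n with
  | zero => exact fun s t => measurePreserving_flowA hΦ hε _ _
  | succ n ih =>
    intro s t
    by_cases h : nxt b s t < t
    · have h1 : evoN (ι := ι) Φ ε b (n + 1) s t
          = (evoN Φ ε b n (nxt b s t) t) ∘ (flowA Φ ε (alive b s) (nxt b s t - s)) := by
        funext Z
        simp only [evoN, if_pos h, Function.comp_apply]
      rw [h1]
      exact (ih _ _).comp (measurePreserving_flowA hΦ hε _ _)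
    · have h1 : evoN (ι := ι) Φ ε b (n + 1) s t = flowA Φ ε (alive b s) (t - s) := by
        funext Z
        simp only [evoN, if_neg h]
      rw [h1]
      exact measurePreserving_flowA hΦ hε _ _

theorem measurePreserving_evo (hΦ : AdmissiblePotential Φ) (hε : 0 < ε) (b : ι → ℝ) (s t : ℝ) :
    MeasurePreserving (evo (ι := ι) Φ ε b s t) volume volume :=
  measurePreserving_evoN hΦ hε b _ s t

end

end Crest.Agent.R122.Ins45
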