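import Crest.Agent.R122.CausalTheta_291
import Crest.Agent.R122.Hit1_167
import Crest.Agent.R122.CtB_879

/-!
# The infection rule with marks (row 122, section E, captain's decision "MARKS")

Everything is stated for an arbitrary contact relation `C : ℝ → ι → ι → Prop` with closed contact
sets `{s | C s j k}` over a finite index type, and marks `m : ι → ℕ`.

* `CtB b z ε` (file `CtB_879`): the contact relation of a world with births `b`.
* `msize C m t i`: the sum of the marks of the members of the backward cluster of `(i, t)`.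
* `Infd C m K t i`: `K < msize C m t i` (infected).
* `pre C j σ s`: the backward exploration of `(j, σ⁻)`; `msizePre`.
* `isClosed_infd`, `Infd.of_past`, `isRule_infd`: hereditary, attained, for every `K`.
* `Act_eq_pre`: the exploration of `(i, t)` is the union of the explorations of `(j, t⁻)` over the
  contact cluster of `i` at time `t`.
* `infd_alternative`: what happens at an infection time.
-/

set_option autoImplicit false
set_option linter.unusedSectionVars false

open Set Filter Topology MeasureTheory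
open Crest.AnalysisR.Kinetic
open Crest.Agent.R122.Causal291

namespace Crest.Agent.R122.Inf879

/-! ### Dependence of the exploration on the root time -/

section root

variable {ι : Type*} {C : ℝ → ι → ι → Prop}

theorem past_root_mono {s' r s : ℝ} {i k : ι} (hr : s' ≤ r) (h : Past C s' i s k) :
    Past C r i s k := by
  induction h with
  | root h => exact .root (h.trans hr)
  | step _ hc hs ih => exact .step ih hc hs

theorem BC_root_mono {s t : ℝ} (h : s ≤ t) (i : ι) : BC C s i ⊆ BC C t i :=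
  fun _ hk => past_root_mono h hk

/-- If for a sequence of root times decreasing to `t` the particle `j` is active at time `t`, then it
is active at time `t` in the exploration from `(i, t)`. -/
theorem past_of_frequently [Finite ι] (hC : ∀ j k, IsClosed {s | C s j k}) {t : ℝ} {i : ι}
    {u : ℕ → ℝ} (hu : Tendsto u atTop (𝓝 t)) (m : ℕ) :
    ∀ j, (∃ᶠ n in atTop, PastN C (u n) i m t j) → Past C t i t j := by
  induction m with
  | zero =>
    intro j hj
    obtain ⟨n, hn⟩ := hj.exists
    rw [hn.1]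
    exact .root le_rfl
  | succ m ih =>
    intro j hj
    have h1 : (∃ᶠ n in atTop, PastN C (u n) i m t j) ∨
        ∃ᶠ n in atTop, ∃ s' l, t ≤ s' ∧ PastN C (u n) i m s' l ∧ C s' l j := by
      rw [← frequently_or_distrib]
      exact hj
    rcases h1 with h1 | h1
    · exact ih j h1
    · -- the partner is constant along a subsequence
      have h2 : ∃ l, ∃ᶠ n in atTop, ∃ s', t ≤ s' ∧ PastN C (u n) i m s' l ∧ C s' l j := by
        by_contra hno
        have h3 : ∀ᶠ n in atTop, ∀ l, ¬ ∃ s', t ≤ s' ∧ PastN C (u n) i m s' l ∧ C s' l j := by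
          rw [eventually_all]
          exact fun l => not_frequently.1 fun hl => hno ⟨l, hl⟩
        obtain ⟨n, ⟨s', l, h4, h5, h6⟩, hn⟩ := (h1.and_eventually h3).exists
        exact hn l ⟨s', h4, h5, h6⟩
      obtain ⟨l, hl⟩ := h2
      have h3 : Past C t i t l := by
        refine ih l (hl.mono ?_)
        rintro n ⟨s', h4, h5, -⟩
        exact h5.mono h4
      refine Past.contact h3 ?_
      -- closedness of the contact set
      obtain ⟨φ, hφ, hφ'⟩ := extraction_of_frequently_atTop hl
      choose s' h4 h5 h6 using hφ'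
      have h7 : Tendsto s' atTop (𝓝 t) :=
        tendsto_of_tendsto_of_tendsto_of_le_of_le tendsto_const_nhds (hu.comp hφ.tendsto_atTop)
          h4 fun n => (h5 n).past.le
      exact (hC l j).mem_of_tendsto h7 (Eventually.of_forall h6)

/-- The set of root times for which a given pair `(k, s)` is explored is closed. -/
theorem isClosed_past_root [Finite ι] (hC : ∀ j k, IsClosed {s | C s j k}) (i : ι) (s : ℝ) (k : ι) :
    IsClosed {t | Past C t i s k} := by
  rw [← isSeqClosed_iff_isClosed]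
  intro u t hu hlim
  by_cases hfr : ∃ n, u n ≤ t
  · obtain ⟨n, hn⟩ := hfr
    exact past_root_mono hn (hu n)
  push Not at hfr
  have hst : s ≤ t := ge_of_tendsto' hlim fun n => (hu n).le
  have h1 : ∀ n, ∃ j, Past C (u n) i t j ∧ Past C t j s k :=
    fun n => (hu n).split hst (hfr n).le
  choose j hj hj' using h1
  obtain ⟨l, hl⟩ := Finite.exists_infinite_fiber j
  have hinf : Set.Infinite (j ⁻¹' {l}) := Set.infinite_coe_iff.1 hl
  have hfreq : ∃ᶠ n in atTop, j n = l := Nat.frequently_atTop_iff_infinite.2 hinf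
  obtain ⟨n, hn⟩ := hfreq.exists
  have h2 : Past C t i t l := by
    refine past_of_frequently hC hlim (Nat.card ι - 1) l (hfreq.mono fun n hn => ?_)
    rw [← hn]
    exact pastN_of_past (hj n)
  have h3 := hj' n
  rw [hn] at h3
  exact h2.trans h3

end root

/-! ### Size with marks -/

section size

variable {ι : Type*} [Fintype ι] {C : ℝ → ι → ι → Prop} {m : ι → ℕ} {K : ℕ}

open scoped Classical in
/-- The sum of the marks of the members of the backward cluster of `(i, t)`. -/
noncomputable def msize (C : ℝ → ι → ι → Prop) (m : ι → ℕ) (t : ℝ) (i : ι) : ℕ :=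
  ∑ k, if k ∈ BC C t i then m k else 0

/-- Infected: the backward cluster has size (with marks) larger than `K`. -/
def Infd (C : ℝ → ι → ι → Prop) (m : ι → ℕ) (K : ℕ) (t : ℝ) (i : ι) : Prop := K < msize C m t i

theorem msize_eq_filter (t : ℝ) (i : ι) [DecidablePred fun k => k ∈ BC C t i] :
    msize C m t i = ∑ k ∈ Finset.univ.filter (fun k => k ∈ BC C t i), m k := by
  classical
  unfold msize
  rw [Finset.sum_filter]
  exact Finset.sum_congr rfl fun k _ => by congr

/-- With all marks equal to `1` the size is the number of particles of the backward cluster. -/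
theorem msize_one (t : ℝ) (i : ι) : msize C (fun _ => 1) t i = (BC C t i).ncard := by
  classical
  rw [msize_eq_filter, Finset.sum_const, smul_eq_mul, mul_one, ← Set.ncard_coe_finset]
  congr 1
  ext k
  simp

theorem msize_mono_of_subset {C' : ℝ → ι → ι → Prop} {s t : ℝ} {i j : ι}
    (h : BC C s j ⊆ BC C' t i) : msize C m s j ≤ msize C' m t i := by
  classical
  unfold msize
  refine Finset.sum_le_sum fun k _ => ?_
  by_cases hk : k ∈ BC C s j
  · rw [if_pos hk, if_pos (h hk)]
  · rw [if_neg hk]; exact Nat.zero_le _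

theorem msize_of_past {s t : ℝ} {i j : ι} (h : Past C t i s j) :
    msize C m s j ≤ msize C m t i := msize_mono_of_subset (BC_subset_of_mem h)

theorem msize_mono {s t : ℝ} (h : s ≤ t) (i : ι) : msize C m s i ≤ msize C m t i :=
  msize_mono_of_subset (BC_root_mono h i)

theorem msize_mono_marks {m' : ι → ℕ} (hm : ∀ i, m i ≤ m' i) (t : ℝ) (i : ι) :
    msize C m t i ≤ msize C m' t i := by
  classical
  unfold msize
  refine Finset.sum_le_sum fun k _ => ?_
  split_ifs
  · exact hm k
  · exact le_rfl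

theorem mark_le_msize {t : ℝ} {i k : ι} (h : k ∈ BC C t i) : m k ≤ msize C m t i := by
  classical
  unfold msize
  refine (le_of_eq (if_pos h).symm).trans
    (Finset.single_le_sum (f := fun k => if k ∈ BC C t i then m k else 0)
      (fun _ _ => Nat.zero_le _) (Finset.mem_univ k))

theorem msize_congr {C' : ℝ → ι → ι → Prop} {t : ℝ} {i : ι} (h : BC C t i = BC C' t i) :
    msize C m t i = msize C' m t i :=
  le_antisymm (msize_mono_of_subset h.le) (msize_mono_of_subset h.ge)

theorem msize_of_neg {t : ℝ} (ht : t < 0) (i : ι) : msize C m t i = 0 := by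
  classical
  unfold msize
  refine Finset.sum_eq_zero fun k _ => if_neg fun hk => ?_
  exact absurd (Past.le hk) (not_le.2 ht)

/-- Transport of the size between two worlds whose backward clusters correspond to each other. -/
theorem msize_transport {ι₂ κ : Type*} [Fintype ι₂] [Finite κ] {C₂ : ℝ → ι₂ → ι₂ → Prop}
    {m₂ : ι₂ → ℕ} {e₁ : κ → ι} {e₂ : κ → ι₂} (he₁ : Function.Injective e₁)
    (he₂ : Function.Injective e₂) {t : ℝ} {i : ι} {i₂ : ι₂}
    (h₁ : BC C t i ⊆ range e₁) (h₂ : BC C₂ t i₂ ⊆ range e₂)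
    (hiff : ∀ k, e₁ k ∈ BC C t i ↔ e₂ k ∈ BC C₂ t i₂)
    (hm : ∀ k, e₁ k ∈ BC C t i → m (e₁ k) = m₂ (e₂ k)) :
    msize C m t i = msize C₂ m₂ t i₂ := by
  classical
  have := Fintype.ofFinite κ
  have h1 : msize C m t i = ∑ k : κ, if e₁ k ∈ BC C t i then m (e₁ k) else 0 := by
    unfold msize
    rw [← Finset.sum_subset (Finset.subset_univ (Finset.univ.map ⟨e₁, he₁⟩)), Finset.sum_map]
    · rfl
    · intro x _ hx
      refine if_neg fun hxB => hx ?_
      obtain ⟨k, rfl⟩ := h₁ hxB
      exact Finset.mem_map.2 ⟨k, Finset.mem_univ k, rfl⟩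
  have h2 : msize C₂ m₂ t i₂ = ∑ k : κ, if e₂ k ∈ BC C₂ t i₂ then m₂ (e₂ k) else 0 := by
    unfold msize
    rw [← Finset.sum_subset (Finset.subset_univ (Finset.univ.map ⟨e₂, he₂⟩)), Finset.sum_map]
    · rfl
    · intro x _ hx
      refine if_neg fun hxB => hx ?_
      obtain ⟨k, rfl⟩ := h₂ hxB
      exact Finset.mem_map.2 ⟨k, Finset.mem_univ k, rfl⟩
  rw [h1, h2]
  refine Finset.sum_congr rfl fun k _ => ?_
  by_cases hk : e₁ k ∈ BC C t i
  · rw [if_pos hk, if_pos ((hiff k).1 hk), hm k hk]
  · rw [if_neg hk, if_neg fun h => hk ((hiff k).2 h)]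

/-! ### The rule -/

theorem Infd.of_past {s t : ℝ} {i j : ι} (h : Past C t i s j) (hj : Infd C m K s j) :
    Infd C m K t i := lt_of_lt_of_le hj (msize_of_past h)

theorem Infd.mono {s t : ℝ} {i : ι} (h : Infd C m K s i) (hst : s ≤ t) : Infd C m K t i :=
  lt_of_lt_of_le h (msize_mono hst i)

theorem Infd.anti {K' : ℕ} {t : ℝ} {i : ι} (h : Infd C m K' t i) (hK : K ≤ K') : Infd C m K t i :=
  lt_of_le_of_lt hK h

theorem Infd.nonneg {t : ℝ} {i : ι} (h : Infd C m K t i) : 0 ≤ t := by
  by_contra hlt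
  push Not at hlt
  rw [Infd, msize_of_neg hlt] at h
  exact absurd h (Nat.not_lt_zero _)

theorem Infd.contact (hs : ∀ s j k, C s j k → C s k j) {s : ℝ} {i j : ι} (hc : C s i j)
    (h : Infd C m K s i) : Infd C m K s j :=
  h.of_past (Past.contact (.root le_rfl) (hs _ _ _ hc))

/-- Infection times are attained. -/
theorem isClosed_infd (hC : ∀ j k, IsClosed {s | C s j k}) (i : ι) :
    IsClosed {t | Infd C m K t i} := by
  classical
  have h1 : {t | Infd C m K t i} =
      ⋃ S ∈ {S : Finset ι | K < ∑ k ∈ S, m k}, ⋂ k ∈ S, {t | k ∈ BC C t i} := by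
    ext t
    simp only [mem_ofPred_eq, mem_iUnion, mem_iInter, exists_prop]
    constructor
    · intro h
      refine ⟨Finset.univ.filter fun k => k ∈ BC C t i, ?_, fun k hk => ?_⟩
      · rw [← msize_eq_filter]; exact h
      · simpa using hk
    · rintro ⟨S, hS, hS'⟩
      refine lt_of_lt_of_le hS ?_
      rw [msize_eq_filter]
      refine Finset.sum_le_sum_of_subset fun k hk => ?_
      simpa using hS' k hk
  rw [h1]
  refine Set.Finite.isClosed_biUnion (Set.toFinite _) fun S _ => ?_
  exact isClosed_biInter fun k _ => isClosed_past_root hC i 0 k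

/-- The infection rule is a rule in the sense of helper291, on every window. -/
theorem isRule_infd {ι : Type} [Fintype ι] {z : ℝ → ι → PhasePoint} {ε a T : ℝ} {m : ι → ℕ} {K : ℕ}
    (hC : ∀ j k, IsClosed {s | Ct z ε s j k}) : IsRule z ε a T (Infd (Ct z ε) m K) where
  hered _ _ _ _ _ _ h hj := hj.of_past h
  closed i := isClosed_Icc.inter (isClosed_infd hC i)

/-- Equal histories give equal sizes. -/
theorem msize_eq_of_histEq {ι₁ ι₂ κ : Type} [Fintype ι₁] [Fintype ι₂] [Finite κ]
    {z₁ : ℝ → ι₁ → PhasePoint} {z₂ : ℝ → ι₂ → PhasePoint} {e₁ : κ → ι₁} {e₂ : κ → ι₂}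
    (he₁ : Function.Injective e₁) (he₂ : Function.Injective e₂) {m₁ : ι₁ → ℕ} {m₂ : ι₂ → ℕ}
    (hm : ∀ k, m₁ (e₁ k) = m₂ (e₂ k)) {ε t : ℝ} {i : κ} (h : HistEq z₁ z₂ e₁ e₂ ε t i) :
    msize (Ct z₁ ε) m₁ t (e₁ i) = msize (Ct z₂ ε) m₂ t (e₂ i) :=
  msize_transport he₁ he₂ (fun j hj => h.sub₁ 0 j le_rfl hj) (fun j hj => h.sub₂ 0 j le_rfl hj)
    (fun k => h.iff 0 k le_rfl) fun k _ => hm k

theorem infd_iff_of_histEq {ι₁ ι₂ κ : Type} [Fintype ι₁] [Fintype ι₂] [Finite κ]
    {z₁ : ℝ → ι₁ → PhasePoint} {z₂ : ℝ → ι₂ → PhasePoint} {e₁ : κ → ι₁} {e₂ : κ → ι₂}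
    (he₁ : Function.Injective e₁) (he₂ : Function.Injective e₂) {m₁ : ι₁ → ℕ} {m₂ : ι₂ → ℕ}
    (hm : ∀ k, m₁ (e₁ k) = m₂ (e₂ k)) {ε t : ℝ} {i : κ} (h : HistEq z₁ z₂ e₁ e₂ ε t i) (K : ℕ) :
    Infd (Ct z₁ ε) m₁ K t (e₁ i) ↔ Infd (Ct z₂ ε) m₂ K t (e₂ i) := by
  unfold Infd
  rw [msize_eq_of_histEq he₁ he₂ hm h]

end size

/-! ### Explorations just before a time -/

section pre

variable {ι : Type*} {C : ℝ → ι → ι → Prop} {m : ι → ℕ} {K : ℕ}

/-- The backward exploration of `(j, σ⁻)`. -/
def pre (C : ℝ → ι → ι → Prop) (j : ι) (σ s : ℝ) : Set ι := {k | ∃ s' ∈ Ico s σ, Past C s' j s k}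

theorem pre_eq_preAct {z : ℝ → ι → PhasePoint} {ε : ℝ} (j : ι) (σ s : ℝ) :
    pre (Ct z ε) j σ s = Hit167.preAct z ε j σ s := rfl

theorem mem_pre_self {σ s : ℝ} {j : ι} (hs : s < σ) : j ∈ pre C j σ s :=
  ⟨s, ⟨le_rfl, hs⟩, .root le_rfl⟩

theorem pre_anti {σ s s' : ℝ} {j : ι} (h : s ≤ s') : pre C j σ s' ⊆ pre C j σ s := by
  rintro k ⟨r, hr, hp⟩
  exact ⟨r, ⟨h.trans hr.1, hr.2⟩, hp.mono h⟩

theorem pre_subset_Act {σ s : ℝ} {j : ι} : pre C j σ s ⊆ Act C σ j s := by
  rintro k ⟨r, hr, hp⟩
  exact past_root_mono hr.2.le hp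

theorem Act_subset_pre {r σ s : ℝ} {j : ι} (hr : r < σ) : Act C r j s ⊆ pre C j σ s := by
  intro k hk
  exact ⟨r, ⟨Past.le hk, hr⟩, hk⟩

/-- Just before `σ` the exploration of `(j, r)` is the exploration of `(j, σ⁻)`. -/
theorem exists_Act_eq_pre [Finite ι] {σ s : ℝ} {j : ι} (hs : s < σ) :
    ∃ r ∈ Ico s σ, ∀ r' ∈ Ico r σ, Act C r' j s = pre C j σ s := by
  classical
  have := Fintype.ofFinite ι
  have h1 : ∀ k, ∃ r ∈ Ico s σ, k ∈ pre C j σ s → Past C r j s k := by
    intro k
    by_cases hk : k ∈ pre C j σ s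
    · obtain ⟨r, hr, hp⟩ := hk
      exact ⟨r, hr, fun _ => hp⟩
    · exact ⟨s, ⟨le_rfl, hs⟩, fun h => absurd h hk⟩
  choose r hr hr' using h1
  have hne : (Finset.univ : Finset ι).Nonempty := ⟨j, Finset.mem_univ j⟩
  refine ⟨Finset.univ.sup' hne r, ⟨(hr j).1.trans (Finset.le_sup' r (Finset.mem_univ j)), ?_⟩, ?_⟩
  · rw [Finset.sup'_lt_iff]
    exact fun k _ => (hr k).2
  · intro r' hr''
    refine Subset.antisymm (Act_subset_pre hr''.2) fun k hk => ?_
    exact past_root_mono ((Finset.le_sup' r (Finset.mem_univ k)).trans hr''.1) (hr' k hk)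

/-- The exploration from `(i, t)` is the union of the explorations from `(j, t⁻)` over the contact
cluster of `i` at time `t`. -/
theorem Act_eq_biUnion_pre [Finite ι] (hC : ∀ j k, IsClosed {s | C s j k}) {t s : ℝ} {i : ι}
    (hs : s < t) : Act C t i s = ⋃ j ∈ Act C t i t, pre C j t s := by
  ext k
  simp only [mem_iUnion, exists_prop]
  constructor
  · intro hk
    obtain ⟨δ, hδ, hδ'⟩ := eventually_Act_eq_left (C := C) (t := t) (i := i) hC t
    set r := max s (t - δ / 2) with hr
    have hrt : r < t := max_lt hs (by linarith)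
    have hrδ : t - δ < r := lt_of_lt_of_le (by linarith) (le_max_right _ _)
    obtain ⟨j, hj, hjk⟩ := Past.split (show Past C t i s k from hk) (le_max_left s (t - δ / 2))
      hrt.le
    have h1 : j ∈ Act C t i r := hj
    rw [hδ' r hrδ hrt.le] at h1
    exact ⟨j, h1, r, ⟨le_max_left _ _, hrt⟩, hjk⟩
  · rintro ⟨j, hj, r, hr, hp⟩
    exact Past.trans (show Past C t i t j from hj) (past_root_mono hr.2.le hp)

variable [Fintype ι]

open scoped Classical in
/-- The size of the backward cluster of `(j, σ⁻)`. -/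
noncomputable def msizePre (C : ℝ → ι → ι → Prop) (m : ι → ℕ) (σ : ℝ) (j : ι) : ℕ :=
  ∑ k, if k ∈ pre C j σ 0 then m k else 0

theorem msizePre_le (σ : ℝ) (j : ι) : msizePre C m σ j ≤ msize C m σ j := by
  classical
  unfold msizePre msize
  refine Finset.sum_le_sum fun k _ => ?_
  by_cases hk : k ∈ pre C j σ 0
  · rw [if_pos hk, if_pos (show k ∈ BC C σ j from pre_subset_Act hk)]
  · rw [if_neg hk]; exact Nat.zero_le _

/-- `(j, σ⁻)` is clean if and only if `j` is not infected before `σ`. -/
theorem msizePre_le_iff {σ : ℝ} (hσ : 0 < σ) (j : ι) :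
    msizePre C m σ j ≤ K ↔ ∀ u < σ, ¬ Infd C m K u j := by
  classical
  obtain ⟨r, hr, hr'⟩ := exists_Act_eq_pre (C := C) (j := j) hσ
  have h1 : msizePre C m σ j = msize C m r j := by
    unfold msizePre msize
    refine Finset.sum_congr rfl fun k _ => ?_
    have h2 : k ∈ pre C j σ 0 ↔ k ∈ BC C r j := by
      rw [← hr' r ⟨le_rfl, hr.2⟩]
      exact Iff.rfl
    by_cases hk : k ∈ pre C j σ 0
    · rw [if_pos hk, if_pos (h2.1 hk)]
    · rw [if_neg hk, if_neg fun h => hk (h2.2 h)]
  constructor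
  · intro h u hu hI
    have h3 : msize C m u j ≤ msizePre C m σ j := by
      unfold msizePre msize
      refine Finset.sum_le_sum fun k _ => ?_
      by_cases hk : k ∈ BC C u j
      · rw [if_pos hk, if_pos (Act_subset_pre hu hk)]
      · rw [if_neg hk]; exact Nat.zero_le _
    exact absurd (lt_of_lt_of_le hI h3) (not_lt.2 h)
  · intro h
    rw [h1]
    exact not_lt.1 (h r hr.2)

/-- **Alternative at an infection time.** If `q` is infected at time `θ > 0`, then some particle of
the contact cluster of `q` at time `θ` was infected before `θ`, or all particles of this contact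
cluster are clean before `θ` and the union of their backward clusters has size larger than `K`. -/
theorem infd_alternative (hC : ∀ j k, IsClosed {s | C s j k}) {θ : ℝ} (hθ : 0 < θ) {q : ι}
    (h : Infd C m K θ q) :
    (∃ j, Past C θ q θ j ∧ ∃ u < θ, Infd C m K u j) ∨
      ((∀ j, Past C θ q θ j → msizePre C m θ j ≤ K) ∧
        ∀ [DecidablePred fun k => ∃ j, Past C θ q θ j ∧ k ∈ pre C j θ 0],
        K < ∑ k ∈ Finset.univ.filter (fun k => ∃ j, Past C θ q θ j ∧ k ∈ pre C j θ 0), m k) := by
  classical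
  by_cases hex : ∃ j, Past C θ q θ j ∧ ∃ u < θ, Infd C m K u j
  · exact Or.inl hex
  · right
    push Not at hex
    refine ⟨fun j hj => (msizePre_le_iff hθ j).2 (hex j hj), ?_⟩
    intro _
    refine lt_of_lt_of_le h (le_of_eq ?_)
    rw [msize_eq_filter]
    refine Finset.sum_congr ?_ fun _ _ => rfl
    ext k
    simp only [Finset.mem_filter, Finset.mem_univ, true_and]
    have h1 := Act_eq_biUnion_pre hC (i := q) hθ
    have h2 : k ∈ BC C θ q ↔ k ∈ ⋃ j ∈ Act C θ q θ, pre C j θ 0 := by
      rw [← h1]; exact Iff.rfl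
    rw [h2]
    simp only [mem_iUnion, exists_prop, mem_Act]

/-- Subadditivity at a contact. -/
theorem msize_le_sum_pre (hC : ∀ j k, IsClosed {s | C s j k}) {θ : ℝ} (hθ : 0 < θ) (q : ι)
    [DecidablePred fun j => Past C θ q θ j] :
    msize C m θ q ≤ ∑ j ∈ Finset.univ.filter (fun j => Past C θ q θ j), msizePre C m θ j := by
  classical
  unfold msize msizePre
  rw [Finset.sum_comm]
  refine Finset.sum_le_sum fun k _ => ?_
  by_cases hk : k ∈ BC C θ q
  · rw [if_pos hk]
    have h1 : k ∈ ⋃ j ∈ Act C θ q θ, pre C j θ 0 := by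
      rw [← Act_eq_biUnion_pre hC (i := q) hθ]; exact hk
    simp only [mem_iUnion, exists_prop, mem_Act] at h1
    obtain ⟨j, hj, hk'⟩ := h1
    refine (le_of_eq (if_pos hk').symm).trans
      (Finset.single_le_sum (f := fun j => if k ∈ pre C j θ 0 then m k else 0)
        (fun _ _ => Nat.zero_le _) ?_)
    simpa using hj
  · rw [if_neg hk]; exact Nat.zero_le _

end pre

end Crest.Agent.R122.Inf879
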