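import Crest.Agent.R122.EDefs_602
import Crest.Agent.R122.MeasEvo_416

/-!
# Measurability of the gas-level objects of section E (row 122, helper416)

`MeasW Z` : random marked world (births, states, marks measurable). For random worlds `Z`, inserted
worlds `A`, lines `l` and times:

* `MeasW.path`, `MeasW.C` (random sigma-closed), `MeasW.inf`, `MeasW.fut`, `MeasW.touched`;
* `MeasW.theta`, `MeasW.thetaL`, `MeasW.X`, `MeasW.Xm`, `MeasW.W`, `MeasW.Wm`, `MeasW.touchW`,
  `MeasW.touchP`;
* `measurable_iTime`, `measurableSet_mem_preC`, `measurable_eW`;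
* the integrands of `JE`, `aE`, `xE`, `PE`, `tnMass`.
-/

set_option autoImplicit false

open Set Filter Topology MeasureTheory
open Crest.AnalysisR.Kinetic
open Crest.Agent.R122.Flow671 Crest.Agent.R122.Causal291 Crest.Agent.R122.Ins45
open Crest.Agent.R122.Inf879 Crest.Agent.R122.GC311 Crest.Agent.R122.EDefs602
open scoped ENNReal

namespace Crest.Agent.R122.MeasE416

noncomputable section

variable {Ω : Type*} [MeasurableSpace Ω] {ι κ : Type}

/-- A random marked world. -/
structure MeasW (Z : Ω → MW ι) : Prop where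
  b : ∀ i, Measurable fun ω => (Z ω).b i
  z : ∀ i, Measurable fun ω => (Z ω).z i
  m : ∀ i, Measurable fun ω => (Z ω).m i

namespace MeasW

theorem const (Z : MW ι) : MeasW fun _ : Ω => Z :=
  ⟨fun _ => measurable_const, fun _ => measurable_const, fun _ => measurable_const⟩

theorem cfg {n : ℕ} {w : Ω → Config n} (hw : Measurable w) : MeasW fun ω => MW.cfg (w ω) :=
  ⟨fun _ => measurable_const, fun i => (measurable_pi_apply i).comp hw, fun _ => measurable_const⟩

theorem measurable_back : Measurable back := by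
  unfold back
  exact (measurable_snd.fst.sub (measurable_fst.smul measurable_snd.snd)).prodMk measurable_snd.snd

theorem lines {ls : Ω → κ → ML} (h : ∀ k, Measurable fun ω => ls ω k) :
    MeasW fun ω => MW.lines (ls ω) :=
  ⟨fun k => (h k).fst.fst, fun k => measurable_back.comp (h k).fst, fun k => (h k).snd⟩

theorem line {l : Ω → ML} (hl : Measurable l) : MeasW fun ω => MW.line (l ω) :=
  lines (ls := fun ω (_ : Unit) => l ω) fun _ => hl

variable {Z : Ω → MW ι} {A : Ω → MW κ}

theorem add (hZ : MeasW Z) (hA : MeasW A) : MeasW fun ω => (Z ω).add (A ω) := by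
  refine ⟨fun i => ?_, fun i => ?_, fun i => ?_⟩
  · rcases i with i | i
    · exact hZ.b i
    · exact hA.b i
  · rcases i with i | i
    · exact hZ.z i
    · exact hA.z i
  · rcases i with i | i
    · exact hZ.m i
    · exact hA.m i

theorem ins (hZ : MeasW Z) {l : Ω → ML} (hl : Measurable l) : MeasW fun ω => (Z ω).ins (l ω) :=
  hZ.add (line hl)

theorem relabel (hZ : MeasW Z) (e : κ → ι) : MeasW fun ω => (Z ω).comap e :=
  ⟨fun i => hZ.b (e i), fun i => hZ.z (e i), fun i => hZ.m (e i)⟩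

theorem comp (hZ : MeasW Z) {Ω' : Type*} [MeasurableSpace Ω'] {T : Ω' → Ω} (hT : Measurable T) :
    MeasW fun ω => Z (T ω) :=
  ⟨fun i => (hZ.b i).comp hT, fun i => (hZ.z i).comp hT, fun i => (hZ.m i).comp hT⟩

section dyn

variable {Φ : Space3 → ℝ} {ε : ℝ} [Fintype ι] [Fintype κ]

theorem path (hΦ : AdmissiblePotential Φ) (hε : 0 < ε) (hZ : MeasW Z) {t : Ω → ℝ}
    (ht : Measurable t) : Measurable fun ω => (Z ω).path Φ ε (t ω) := by
  unfold MW.path
  exact measurable_evo hΦ hε hZ.b measurable_const ht (measurable_pi_iff.2 hZ.z)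

theorem path_apply (hΦ : AdmissiblePotential Φ) (hε : 0 < ε) (hZ : MeasW Z) {t : Ω → ℝ}
    (ht : Measurable t) (i : ι) : Measurable fun ω => (Z ω).path Φ ε (t ω) i :=
  (measurable_pi_apply i).comp (hZ.path hΦ hε ht)

theorem C (hΦ : AdmissiblePotential Φ) (hε : 0 < ε) (hZ : MeasW Z) (j k : ι) :
    RSE fun ω s => (Z ω).C Φ ε s j k :=
  RSE.ctB_evo hΦ hε hZ.b measurable_const (measurable_pi_iff.2 hZ.z) ε j k

theorem inf (hΦ : AdmissiblePotential Φ) (hε : 0 < ε) (hZ : MeasW Z) (K : ℕ) (i : ι) :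
    RSE fun ω s => (Z ω).Inf Φ ε K s i :=
  RSE.infd (fun j k => hZ.C hΦ hε j k) hZ.m K i

theorem past (hΦ : AdmissiblePotential Φ) (hε : 0 < ε) (hZ : MeasW Z) {τ σ : Ω → ℝ}
    (hτ : Measurable τ) (hσ : Measurable σ) (i k : ι) :
    MeasurableSet {ω | Past ((Z ω).C Φ ε) (τ ω) i (σ ω) k} :=
  RSE.measurableSet_past (fun j k => hZ.C hΦ hε j k) hτ hσ i k

theorem msize (hΦ : AdmissiblePotential Φ) (hε : 0 < ε) (hZ : MeasW Z) {τ : Ω → ℝ}
    (hτ : Measurable τ) (i : ι) : Measurable fun ω => Inf879.msize ((Z ω).C Φ ε) (Z ω).m (τ ω) i :=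
  measurable_msize (fun j k => hZ.C hΦ hε j k) hZ.m hτ i

theorem init (hΦ : AdmissiblePotential Φ) (hε : 0 < ε) (hZ : MeasW Z) (hA : MeasW A) (k : ι) :
    MeasurableSet {ω | (Z ω).path Φ ε 0 (id k) = ((Z ω).add (A ω)).path Φ ε 0 (Sum.inl k)} :=
  measurableSet_eq_fun (hZ.path_apply hΦ hε measurable_const k)
    ((hZ.add hA).path_apply hΦ hε measurable_const (Sum.inl k))

theorem fut (hΦ : AdmissiblePotential Φ) (hε : 0 < ε) (hZ : MeasW Z) (hA : MeasW A) (k : ι) :
    RSE fun ω s => (Z ω).Fut Φ ε (A ω) s k :=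
  RSE.fut (fun j k => hZ.C hΦ hε j k) (fun j k => (hZ.add hA).C hΦ hε j k)
    (fun k => init hΦ hε hZ hA k) k

theorem touched (hΦ : AdmissiblePotential Φ) (hε : 0 < ε) (hZ : MeasW Z) (hA : MeasW A) (K : ℕ) :
    RSE fun ω s => (Z ω).Touched Φ ε K (A ω) s :=
  RSE.touched (fun j k => hZ.C hΦ hε j k) (fun j k => (hZ.add hA).C hΦ hε j k)
    (fun k => init hΦ hε hZ hA k) (fun j => hZ.inf hΦ hε K j) (fun j => (hZ.add hA).inf hΦ hε K j)

/-- Touch times are measurable (also with a random horizon). -/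
theorem theta (hΦ : AdmissiblePotential Φ) (hε : 0 < ε) (hZ : MeasW Z) (hA : MeasW A) (K : ℕ)
    {T : Ω → ℝ} (hT : Measurable T) : Measurable fun ω => (Z ω).theta Φ ε K (T ω) (A ω) :=
  measurable_theta (fun j k => hZ.C hΦ hε j k) (fun j k => (hZ.add hA).C hΦ hε j k)
    (fun k => init hΦ hε hZ hA k) (fun j => hZ.inf hΦ hε K j)
    (fun j => (hZ.add hA).inf hΦ hε K j) measurable_const hT

theorem thetaL (hΦ : AdmissiblePotential Φ) (hε : 0 < ε) (hZ : MeasW Z) {l : Ω → ML}
    (hl : Measurable l) (K : ℕ) {T : Ω → ℝ} (hT : Measurable T) :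
    Measurable fun ω => (Z ω).thetaL Φ ε K (T ω) (l ω) :=
  hZ.theta hΦ hε (line hl) K hT

end dyn

end MeasW

/-! ### The measure on lines -/

instance sFinite_lineV (T : ℝ) : SFinite (lineV T) := by
  unfold lineV
  infer_instance

instance sFinite_lineM (γ : ℝ → ℝ) (ρ : ℝ≥0∞) (K : ℕ) (T : ℝ) : SFinite (lineM γ ρ K T) := by
  unfold lineM
  infer_instance

theorem measurable_markW (ρ : ℝ≥0∞) (K : ℕ) : Measurable (markW ρ K) := measurable_of_countable _

theorem measurable_wG_joint {γ : ℝ → ℝ} (hγ : Measurable γ) :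
    Measurable fun p : ℝ × Space3 => Kin796.wG (γ p.1) p.2 := by
  unfold Kin796.wG
  exact (((hγ.comp measurable_fst).mul (measurable_snd.norm.pow_const 2)).neg.exp).ennreal_ofReal

theorem measurable_lineD {γ : ℝ → ℝ} (hγ : Measurable γ) (ρ : ℝ≥0∞) (K : ℕ) :
    Measurable (lineD γ ρ K) := by
  unfold lineD
  refine Measurable.mul ?_ ((measurable_markW ρ K).comp measurable_snd)
  exact (measurable_wG_joint hγ).comp (measurable_fst.fst.prodMk measurable_fst.snd.snd)

/-! ### Quenched functionals -/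

namespace MeasW

variable {Φ : Space3 → ℝ} {ε : ℝ} [Fintype ι] [Fintype κ] {Z : Ω → MW ι} {A : Ω → MW κ}

theorem X (hΦ : AdmissiblePotential Φ) (hε : 0 < ε) (hZ : MeasW Z) (K : ℕ) (P : EPar)
    {s : Ω → ℝ} (hs : Measurable s) : Measurable fun ω => (Z ω).X Φ ε K P (s ω) := by
  have h1 : Measurable fun p : Ω × ML => (Z p.1).thetaL Φ ε K P.te p.2 :=
    (hZ.comp measurable_fst).thetaL hΦ hε measurable_snd K measurable_const
  have h2 := measurable_X (μ := lineM P.γ P.ρ K P.te)
    (θ := fun ω l => (Z ω).thetaL Φ ε K P.te l) h1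
  have h3 : Measurable fun ω => (s ω, ω) := hs.prodMk measurable_id
  have h4 := Measurable.comp h2 h3
  exact h4

theorem Xm (hΦ : AdmissiblePotential Φ) (hε : 0 < ε) (hZ : MeasW Z) (K : ℕ) (P : EPar)
    {s : Ω → ℝ} (hs : Measurable s) : Measurable fun ω => (Z ω).Xm Φ ε K P (s ω) := by
  have h1 : Measurable fun p : Ω × ML => (Z p.1).thetaL Φ ε K P.te p.2 :=
    (hZ.comp measurable_fst).thetaL hΦ hε measurable_snd K measurable_const
  have h2 := measurable_X_left (μ := lineM P.γ P.ρ K P.te)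
    (θ := fun ω l => (Z ω).thetaL Φ ε K P.te l) h1
  have h3 : Measurable fun ω => (s ω, ω) := hs.prodMk measurable_id
  have h4 := Measurable.comp h2 h3
  exact h4

theorem W (hΦ : AdmissiblePotential Φ) (hε : 0 < ε) (hZ : MeasW Z) (K : ℕ) (P : EPar)
    {s : Ω → ℝ} (hs : Measurable s) : Measurable fun ω => (Z ω).W Φ ε K P (s ω) :=
  (Weight984.measurable_W P.L).comp (hZ.X hΦ hε K P hs)

theorem Wm (hΦ : AdmissiblePotential Φ) (hε : 0 < ε) (hZ : MeasW Z) (K : ℕ) (P : EPar)
    {s : Ω → ℝ} (hs : Measurable s) : Measurable fun ω => (Z ω).Wm Φ ε K P (s ω) :=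
  (Weight984.measurable_W P.L).comp (hZ.Xm hΦ hε K P hs)

theorem touchW (hΦ : AdmissiblePotential Φ) (hε : 0 < ε) (hZ : MeasW Z) {l : Ω → ML}
    (hl : Measurable l) (K : ℕ) (P : EPar) : Measurable fun ω => (Z ω).touchW Φ ε K P (l ω) := by
  classical
  have h1 : Measurable fun ω => (Z ω).thetaL Φ ε K P.te (l ω) :=
    hZ.thetaL hΦ hε hl K measurable_const
  unfold MW.touchW
  refine Measurable.ite ?_ (hZ.Wm hΦ hε K P h1) measurable_const
  exact (measurableSet_lt measurable_const h1).inter (measurableSet_le h1 measurable_const)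

theorem touchP (hΦ : AdmissiblePotential Φ) (hε : 0 < ε) (hZ : MeasW Z) {d e : Ω → ML}
    (hd : Measurable d) (he : Measurable e) (K : ℕ) (P : EPar) :
    Measurable fun ω => (Z ω).touchP Φ ε K P (d ω) (e ω) := by
  classical
  have h1 : Measurable fun ω => (Z ω).thetaL Φ ε K P.te (d ω) :=
    hZ.thetaL hΦ hε hd K measurable_const
  have h2 : MeasW fun ω => (Z ω).ins (d ω) := hZ.ins hd
  have h3 : Measurable fun ω => ((Z ω).ins (d ω)).thetaL Φ ε K P.te (e ω) :=
    h2.thetaL hΦ hε he K measurable_const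
  have h4 : Measurable fun ω => (Z ω).W Φ ε K P ((Z ω).thetaL Φ ε K P.te (d ω)) :=
    hZ.W hΦ hε K P h1
  have h5 : Measurable fun ω => ((Z ω).ins (d ω)).Wm Φ ε K P
      (((Z ω).ins (d ω)).thetaL Φ ε K P.te (e ω)) := h2.Wm hΦ hε K P h3
  unfold MW.touchP
  refine Measurable.ite ?_ (h4.min h5) measurable_const
  exact (measurableSet_lt measurable_const h1).inter
    ((measurableSet_le h1 h3).inter (measurableSet_le h3 measurable_const))

/-- Quenched touched measure of a set of lines, at a random time. -/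
theorem measure_touched (hΦ : AdmissiblePotential Φ) (hε : 0 < ε) (hZ : MeasW Z) (K : ℕ)
    {T s : Ω → ℝ} (hT : Measurable T) (hs : Measurable s) (μ : Measure ML) [SFinite μ] :
    Measurable fun ω => μ {l | (Z ω).thetaL Φ ε K (T ω) l ≤ s ω} := by
  have h1 : Measurable fun p : Ω × ML => (Z p.1).thetaL Φ ε K (T p.1) p.2 :=
    (hZ.comp measurable_fst).thetaL hΦ hε measurable_snd K (hT.comp measurable_fst)
  have h2 := measurable_X (μ := μ) (θ := fun ω l => (Z ω).thetaL Φ ε K (T ω) l) h1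
  have h3 : Measurable fun ω => (s ω, ω) := hs.prodMk measurable_id
  have h4 := Measurable.comp h2 h3
  exact h4

end MeasW

/-! ### The integrands of the unknowns -/

section unknowns

variable {Φ : Space3 → ℝ} {ε : ℝ}

theorem measurable_iTime (hΦ : AdmissiblePotential Φ) (hε : 0 < ε) (K : ℕ) (T : ℝ) (n : ℕ)
    (q : Fin n) : Measurable fun w : Config n => iTime Φ ε K T w q :=
  measurable_sig (sizeFam_gasSize hΦ hε) n q

theorem measurable_eW {n : ℕ} {D : Ω → Finset (Fin n)}
    (hD : ∀ k, MeasurableSet {ω | k ∈ D ω}) {w : Ω → Config n} (hw : Measurable w) :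
    Measurable fun ω => eW (w ω) (D ω) := by
  classical
  have h1 : (fun ω => eW (w ω) (D ω)) = fun ω => ∑ k : Fin n, if k ∈ D ω then
      ENNReal.ofReal (1 + ‖(w ω k).2‖ ^ 2) else 0 := by
    funext ω
    unfold eW
    rw [← Finset.sum_filter]
    congr 1
    ext k
    simp
  rw [h1]
  refine Finset.measurable_sum _ fun k _ => Measurable.ite (hD k) ?_ measurable_const
  have h2 : Measurable fun ω => (w ω k).2 := ((measurable_pi_apply k).comp hw).snd
  exact ((h2.norm.pow_const 2).const_add 1).ennreal_ofReal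

/-- The cluster strictly before a random time: membership is measurable. -/
theorem measurableSet_mem_preC (hΦ : AdmissiblePotential Φ) (hε : 0 < ε) {n : ℕ}
    {w : Ω → Config n} (hw : Measurable w) {σ : Ω → ℝ} (hσ : Measurable σ) (q k : Fin n) :
    MeasurableSet {ω | k ∈ preC Φ ε (w ω) (σ ω) q} := by
  classical
  have hC : ∀ i j, RSE fun ω s => Ct (pth Φ ε (w ω)) ε s i j := by
    intro i j
    exact (RCE.of_le (CF0.dist_flow hΦ hε hw i j) ε).rse
  have h1 : {ω | k ∈ preC Φ ε (w ω) (σ ω) q} =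
      {_ω | k = q} ∪ {ω | ∃ s ∈ Ico 0 (σ ω), Past (Ct (pth Φ ε (w ω)) ε) s q 0 k} := by
    ext ω
    have h0 : k ∈ preC Φ ε (w ω) (σ ω) q ↔ k = q ∨ ∃ s, 0 ≤ s ∧ s < σ ω ∧ gasR Φ ε n (w ω) s q k := by
      unfold preC
      rw [Finset.mem_filter]
      simp only [Finset.mem_univ, true_and]
    rw [mem_ofPred_eq, h0]
    constructor
    · rintro (h | ⟨s, h1, h2, h3⟩)
      · exact Or.inl h
      · exact Or.inr ⟨s, ⟨h1, h2⟩, h3⟩
    · rintro (h | ⟨s, ⟨h1, h2⟩, h3⟩)
      · exact Or.inl h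
      · exact Or.inr ⟨s, h1, h2, h3⟩
  rw [h1]
  refine (MeasurableSet.const _).union ?_
  exact (RSE.past_root hC measurable_const q k).existsIco measurable_const hσ

/-- Integrand of `aE`. -/
theorem measurable_aE_integrand (hΦ : AdmissiblePotential Φ) (hε : 0 < ε) (K : ℕ) (P : EPar)
    (n : ℕ) : Measurable fun w : Config n => (activity ε)⁻¹ * ∑ q : Fin n,
      if P.tw < iTime Φ ε K P.te w q ∧ iTime Φ ε K P.te w q ≤ P.te then
        eW w (preC Φ ε w (iTime Φ ε K P.te w q) q) *
          (MW.cfg w).Wm Φ ε K P (iTime Φ ε K P.te w q)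
      else 0 := by
  classical
  refine Measurable.const_mul (Finset.measurable_sum _ fun q _ => ?_) _
  have h1 := measurable_iTime hΦ hε K P.te n q
  refine Measurable.ite ?_ (Measurable.mul ?_ ?_) measurable_const
  · exact (measurableSet_lt measurable_const h1).inter (measurableSet_le h1 measurable_const)
  · exact measurable_eW (fun k => measurableSet_mem_preC hΦ hε measurable_id h1 q k) measurable_id
  · exact (MeasW.cfg measurable_id).Wm hΦ hε K P h1

/-- The touch functional of the gas, jointly in the configuration and the line. -/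
theorem measurable_touchW_cfg (hΦ : AdmissiblePotential Φ) (hε : 0 < ε) (K : ℕ) (P : EPar)
    (n : ℕ) : Measurable fun p : Config n × ML => (MW.cfg p.1).touchW Φ ε K P p.2 :=
  (MeasW.cfg measurable_fst).touchW hΦ hε measurable_snd K P

theorem measurable_thetaL_cfg (hΦ : AdmissiblePotential Φ) (hε : 0 < ε) (K : ℕ) (T : ℝ)
    (n : ℕ) : Measurable fun p : Config n × ML => (MW.cfg p.1).thetaL Φ ε K T p.2 :=
  (MeasW.cfg measurable_fst).thetaL hΦ hε measurable_snd K measurable_const

/-- Integrand of `xE`, jointly in `(τ, v)` and the configuration. -/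
theorem measurable_xE_integrand (hΦ : AdmissiblePotential Φ) (hε : 0 < ε) (K : ℕ) (P : EPar)
    (n : ℕ) : Measurable fun p : (ℝ × Space3) × Config n => ∫⁻ y : Space3, ∑' k : ℕ, markW P.ρ K k *
      (MW.cfg p.2).touchW Φ ε K P ((p.1.1, (y, p.1.2)), k) := by
  refine Measurable.lintegral_prod_right' (f := fun q : ((ℝ × Space3) × Config n) × Space3 =>
    ∑' k : ℕ, markW P.ρ K k *
      (MW.cfg q.1.2).touchW Φ ε K P ((q.1.1.1, (q.2, q.1.1.2)), k)) ?_
  refine Measurable.tsum fun k => Measurable.const_mul ?_ _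
  have h1 : Measurable fun q : ((ℝ × Space3) × Config n) × Space3 =>
      (((q.1.1.1, (q.2, q.1.1.2)), k) : ML) :=
    (measurable_fst.fst.fst.prodMk (measurable_snd.prodMk measurable_fst.fst.snd)).prodMk
      measurable_const
  exact (MeasW.cfg measurable_fst.snd).touchW hΦ hε h1 K P

/-- Integrand of `tnMass`. -/
theorem measurable_tnMass_integrand (hΦ : AdmissiblePotential Φ) (hε : 0 < ε) (K : ℕ) (t : ℝ)
    (μ : Measure ML) [SFinite μ] (n : ℕ) :
    Measurable fun w : Config n => μ {l | (MW.cfg w).thetaL Φ ε K t l ≤ t} :=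
  (MeasW.cfg measurable_id).measure_touched hΦ hε K measurable_const measurable_const μ

/-- Integrand of `PE`, jointly in the configuration and the two lines. -/
theorem measurable_touchP_cfg (hΦ : AdmissiblePotential Φ) (hε : 0 < ε) (K : ℕ) (P : EPar)
    (n : ℕ) : Measurable fun p : Config n × (ML × ML) =>
      (MW.cfg p.1).touchP Φ ε K P p.2.1 p.2.2 :=
  (MeasW.cfg measurable_fst).touchP hΦ hε measurable_snd.fst measurable_snd.snd K P

/-- Expectations depending measurably on a parameter. -/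
theorem measurable_gcE_of {f₀ : PhasePoint → ℝ} (hf : Measurable f₀) (ε : ℝ)
    {F : (n : ℕ) → Ω → Config n → ℝ≥0∞} (hF : ∀ n, Measurable fun p : Ω × Config n => F n p.1 p.2) :
    Measurable fun x => gcE f₀ ε fun n Z => F n x Z := by
  unfold gcE
  refine Measurable.const_mul (Measurable.tsum fun n => Measurable.const_mul ?_ _) _
  refine Measurable.lintegral_prod_right' (f := fun p : Ω × Config n =>
    gcWeight f₀ ε n p.2 * F n p.1 p.2) ?_
  exact ((measurable_gcWeight hf ε n).comp measurable_snd).mul (hF n)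

/-- `xE` is measurable in `(τ, v)`. -/
theorem measurable_xE (hΦ : AdmissiblePotential Φ) (hε : 0 < ε) {f₀ : PhasePoint → ℝ}
    (hf : Measurable f₀) (K : ℕ) (P : EPar) :
    Measurable fun p : ℝ × Space3 => xE Φ f₀ ε K P p.1 p.2 := by
  unfold xE
  exact measurable_gcE_of hf ε (F := fun n (p : ℝ × Space3) w => ∫⁻ y : Space3, ∑' k : ℕ,
    markW P.ρ K k * (MW.cfg w).touchW Φ ε K P ((p.1, (y, p.2)), k))
    fun n => measurable_xE_integrand hΦ hε K P n

/-- `XE` is measurable in the birth time. -/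
theorem measurable_XE (hΦ : AdmissiblePotential Φ) (hε : 0 < ε) {f₀ : PhasePoint → ℝ}
    (hf : Measurable f₀) (K : ℕ) (P : EPar) (hγ : Measurable P.γ) :
    Measurable fun τ : ℝ => XE Φ f₀ ε K P τ := by
  unfold XE
  refine Measurable.lintegral_prod_right' (f := fun p : ℝ × Space3 =>
    Kin796.wG (P.γ p.1) p.2 * xE Φ f₀ ε K P p.1 p.2) ?_
  exact (measurable_wG_joint hγ).mul (measurable_xE hΦ hε hf K P)

end unknowns

end

end Crest.Agent.R122.MeasE416
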