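import Crest.Agent.R122.EDefs_602

/-!
# Row 122: closure lemmas of `Small`, `Null`, `Ev`

* `Ev p` : for all large `K`, for all small `ε` (depending on `K`), `p K ε`.
* `EvK p` : for every `K`, for all small `ε` (depending on `K`), `p K ε`.
-/

set_option autoImplicit false
set_option maxHeartbeats 400000

open MeasureTheory Set Filter Topology
open scoped ENNReal

namespace Crest.Agent.R122.EDefs602

/-- Eventually in the order of limits of section E: `K` large, then `ε` small. -/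
def Ev (p : ℕ → ℝ → Prop) : Prop :=
  ∃ K₀ : ℕ, ∀ K, K₀ ≤ K → ∃ ε₀ : ℝ, 0 < ε₀ ∧ ∀ ε : ℝ, 0 < ε → ε < ε₀ → p K ε

/-- For every `K`, for `ε` small. -/
def EvK (p : ℕ → ℝ → Prop) : Prop :=
  ∀ K : ℕ, ∃ ε₀ : ℝ, 0 < ε₀ ∧ ∀ ε : ℝ, 0 < ε → ε < ε₀ → p K ε

section ev

variable {p q : ℕ → ℝ → Prop}

theorem EvK.ev (h : EvK p) : Ev p := ⟨0, fun K _ => h K⟩

theorem Ev.of_forall (h : ∀ K ε, 0 < ε → p K ε) : Ev p :=
  ⟨0, fun K _ => ⟨1, one_pos, fun ε hε _ => h K ε hε⟩⟩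

theorem EvK.of_forall (h : ∀ K ε, 0 < ε → p K ε) : EvK p :=
  fun K => ⟨1, one_pos, fun ε hε _ => h K ε hε⟩

/-- A statement which holds for all `ε ∈ (0, ε₁)` and all `K`. -/
theorem EvK.of_eps {ε₁ : ℝ} (h1 : 0 < ε₁) (h : ∀ K ε, 0 < ε → ε < ε₁ → p K ε) : EvK p :=
  fun K => ⟨ε₁, h1, fun ε hε hlt => h K ε hε hlt⟩

/-- A statement which holds for `K ≥ K₀` and all `ε > 0`. -/
theorem Ev.of_le (K₀ : ℕ) (h : ∀ K, K₀ ≤ K → ∀ ε, 0 < ε → p K ε) : Ev p :=
  ⟨K₀, fun K hK => ⟨1, one_pos, fun ε hε _ => h K hK ε hε⟩⟩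

theorem Ev.mono (h : Ev p) (hpq : ∀ K ε, 0 < ε → p K ε → q K ε) : Ev q := by
  obtain ⟨K₀, h⟩ := h
  refine ⟨K₀, fun K hK => ?_⟩
  obtain ⟨ε₀, hε₀, h'⟩ := h K hK
  exact ⟨ε₀, hε₀, fun ε hε hlt => hpq K ε hε (h' ε hε hlt)⟩

theorem EvK.mono (h : EvK p) (hpq : ∀ K ε, 0 < ε → p K ε → q K ε) : EvK q := by
  intro K
  obtain ⟨ε₀, hε₀, h'⟩ := h K
  exact ⟨ε₀, hε₀, fun ε hε hlt => hpq K ε hε (h' ε hε hlt)⟩

theorem Ev.and (hp : Ev p) (hq : Ev q) : Ev fun K ε => p K ε ∧ q K ε := by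
  obtain ⟨K₁, hp⟩ := hp
  obtain ⟨K₂, hq⟩ := hq
  refine ⟨max K₁ K₂, fun K hK => ?_⟩
  obtain ⟨ε₁, h1, hp⟩ := hp K ((le_max_left _ _).trans hK)
  obtain ⟨ε₂, h2, hq⟩ := hq K ((le_max_right _ _).trans hK)
  exact ⟨min ε₁ ε₂, lt_min h1 h2, fun ε hε hlt =>
    ⟨hp ε hε (hlt.trans_le (min_le_left _ _)), hq ε hε (hlt.trans_le (min_le_right _ _))⟩⟩

theorem EvK.and (hp : EvK p) (hq : EvK q) : EvK fun K ε => p K ε ∧ q K ε := by
  intro K
  obtain ⟨ε₁, h1, hp⟩ := hp K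
  obtain ⟨ε₂, h2, hq⟩ := hq K
  exact ⟨min ε₁ ε₂, lt_min h1 h2, fun ε hε hlt =>
    ⟨hp ε hε (hlt.trans_le (min_le_left _ _)), hq ε hε (hlt.trans_le (min_le_right _ _))⟩⟩

theorem Ev.finset {α : Type*} {P : α → ℕ → ℝ → Prop} (s : Finset α) (h : ∀ a ∈ s, Ev (P a)) :
    Ev fun K ε => ∀ a ∈ s, P a K ε := by
  classical
  induction s using Finset.induction_on with
  | empty => exact Ev.of_forall fun K ε _ a ha => absurd ha (Finset.notMem_empty a)
  | insert a s _ ih =>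
    refine ((h a (Finset.mem_insert_self a s)).and
      (ih fun b hb => h b (Finset.mem_insert_of_mem hb))).mono fun K ε _ hh b hb => ?_
    rcases Finset.mem_insert.1 hb with rfl | hb
    · exact hh.1
    · exact hh.2 b hb

end ev

section small

variable {q q' : ℕ → ℝ → ℝ≥0∞}

theorem small_iff : Small q ↔ ∀ δ : ℝ, 0 < δ → Ev fun K ε => q K ε ≤ ENNReal.ofReal δ := Iff.rfl

theorem null_iff : Null q ↔ ∀ δ : ℝ, 0 < δ → EvK fun K ε => q K ε ≤ ENNReal.ofReal δ := by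
  constructor
  · exact fun h δ hδ K => h K δ hδ
  · exact fun h K δ hδ => h δ hδ K

theorem Null.small (h : Null q) : Small q := fun δ hδ => EvK.ev (null_iff.1 h δ hδ)

theorem Small.zero : Small fun _ _ => 0 := fun _ _ => ⟨0, fun _ _ => ⟨1, one_pos, fun _ _ _ => bot_le⟩⟩

theorem Null.zero : Null fun _ _ => 0 := fun _ _ _ => ⟨1, one_pos, fun _ _ _ => bot_le⟩

/-- Comparison along `Ev`. -/
theorem Small.of_ev_le (h : Small q') (hle : Ev fun K ε => q K ε ≤ q' K ε) : Small q := by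
  intro δ hδ
  exact ((small_iff.1 h δ hδ).and hle).mono fun K ε _ hh => hh.2.trans hh.1

theorem Small.mono (h : Small q') (hle : ∀ K ε, 0 < ε → q K ε ≤ q' K ε) : Small q :=
  h.of_ev_le (Ev.of_forall hle)

theorem Null.of_evK_le (h : Null q') (hle : EvK fun K ε => q K ε ≤ q' K ε) : Null q := by
  rw [null_iff] at h ⊢
  intro δ hδ
  exact ((h δ hδ).and hle).mono fun K ε _ hh => hh.2.trans hh.1

theorem Null.mono (h : Null q') (hle : ∀ K ε, 0 < ε → q K ε ≤ q' K ε) : Null q :=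
  h.of_evK_le (EvK.of_forall hle)

theorem Small.add (h : Small q) (h' : Small q') : Small fun K ε => q K ε + q' K ε := by
  intro δ hδ
  refine ((small_iff.1 h (δ / 2) (by positivity)).and
    (small_iff.1 h' (δ / 2) (by positivity))).mono fun K ε _ hh => ?_
  calc q K ε + q' K ε ≤ ENNReal.ofReal (δ / 2) + ENNReal.ofReal (δ / 2) := add_le_add hh.1 hh.2
    _ = ENNReal.ofReal δ := by
        rw [← ENNReal.ofReal_add (by positivity) (by positivity), add_halves]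

theorem Null.add (h : Null q) (h' : Null q') : Null fun K ε => q K ε + q' K ε := by
  rw [null_iff] at h h' ⊢
  intro δ hδ
  refine ((h (δ / 2) (by positivity)).and (h' (δ / 2) (by positivity))).mono fun K ε _ hh => ?_
  calc q K ε + q' K ε ≤ ENNReal.ofReal (δ / 2) + ENNReal.ofReal (δ / 2) := add_le_add hh.1 hh.2
    _ = ENNReal.ofReal δ := by
        rw [← ENNReal.ofReal_add (by positivity) (by positivity), add_halves]

/-- Auxiliary: `c * x ≤ δ` if `x` is small enough. -/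
theorem exists_mul_le {c : ℝ≥0∞} (hc : c ≠ ∞) {δ : ℝ} (hδ : 0 < δ) :
    ∃ δ' : ℝ, 0 < δ' ∧ ∀ x : ℝ≥0∞, x ≤ ENNReal.ofReal δ' → c * x ≤ ENNReal.ofReal δ := by
  refine ⟨δ / (c.toReal + 1), by positivity, fun x hx => ?_⟩
  have hc0 : 0 ≤ c.toReal := ENNReal.toReal_nonneg
  calc c * x ≤ ENNReal.ofReal c.toReal * ENNReal.ofReal (δ / (c.toReal + 1)) := by
        rw [ENNReal.ofReal_toReal hc]; gcongr
    _ = ENNReal.ofReal (c.toReal * (δ / (c.toReal + 1))) := by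
        rw [ENNReal.ofReal_mul hc0]
    _ ≤ ENNReal.ofReal δ := by
        apply ENNReal.ofReal_le_ofReal
        rw [mul_div_assoc', div_le_iff₀ (by positivity)]
        nlinarith

theorem Small.const_mul (h : Small q) {c : ℝ≥0∞} (hc : c ≠ ∞) : Small fun K ε => c * q K ε := by
  intro δ hδ
  obtain ⟨δ', hδ', hx⟩ := exists_mul_le hc hδ
  exact (small_iff.1 h δ' hδ').mono fun K ε _ hh => hx _ hh

theorem Small.mul_const (h : Small q) {c : ℝ≥0∞} (hc : c ≠ ∞) : Small fun K ε => q K ε * c := by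
  simpa only [mul_comm] using h.const_mul hc

theorem Null.const_mul (h : Null q) {c : ℝ≥0∞} (hc : c ≠ ∞) : Null fun K ε => c * q K ε := by
  rw [null_iff] at h ⊢
  intro δ hδ
  obtain ⟨δ', hδ', hx⟩ := exists_mul_le hc hδ
  exact (h δ' hδ').mono fun K ε _ hh => hx _ hh

theorem Null.mul_const (h : Null q) {c : ℝ≥0∞} (hc : c ≠ ∞) : Null fun K ε => q K ε * c := by
  simpa only [mul_comm] using h.const_mul hc

/-- The constant may depend on `K` in a null quantity. -/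
theorem Null.const_mul_K (h : Null q) {c : ℕ → ℝ≥0∞} (hc : ∀ K, c K ≠ ∞) :
    Null fun K ε => c K * q K ε := by
  intro K δ hδ
  obtain ⟨δ', hδ', hx⟩ := exists_mul_le (hc K) hδ
  obtain ⟨ε₀, hε₀, hh⟩ := h K δ' hδ'
  exact ⟨ε₀, hε₀, fun ε hε hlt => hx _ (hh ε hε hlt)⟩

theorem Small.finset_sum {α : Type*} {Q : α → ℕ → ℝ → ℝ≥0∞} (s : Finset α)
    (h : ∀ a ∈ s, Small (Q a)) : Small fun K ε => ∑ a ∈ s, Q a K ε := by
  classical
  induction s using Finset.induction_on with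
  | empty => simpa using Small.zero
  | insert a s ha ih =>
    simp only [Finset.sum_insert ha]
    exact (h a (Finset.mem_insert_self a s)).add (ih fun b hb => h b (Finset.mem_insert_of_mem hb))

theorem Null.finset_sum {α : Type*} {Q : α → ℕ → ℝ → ℝ≥0∞} (s : Finset α)
    (h : ∀ a ∈ s, Null (Q a)) : Null fun K ε => ∑ a ∈ s, Q a K ε := by
  classical
  induction s using Finset.induction_on with
  | empty => simpa using Null.zero
  | insert a s ha ih =>
    simp only [Finset.sum_insert ha]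
    exact (h a (Finset.mem_insert_self a s)).add (ih fun b hb => h b (Finset.mem_insert_of_mem hb))

/-- Finite sums whose index set depends on `K`, for null quantities. -/
theorem Null.finset_sum_K {α : Type*} {Q : α → ℕ → ℝ → ℝ≥0∞} (s : ℕ → Finset α)
    (h : ∀ a, Null (Q a)) : Null fun K ε => ∑ a ∈ s K, Q a K ε := by
  intro K δ hδ
  exact (Null.finset_sum (s K) (fun a _ => h a)) K δ hδ

/-- A quantity depending on `K` only which tends to `0`. -/
theorem Small.of_tendsto {u : ℕ → ℝ≥0∞} (hu : Tendsto u atTop (𝓝 0)) : Small fun K _ => u K := by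
  intro δ hδ
  have h1 : ∀ᶠ K in atTop, u K < ENNReal.ofReal δ :=
    hu.eventually (gt_mem_nhds (by simpa using hδ))
  obtain ⟨K₀, hK₀⟩ := eventually_atTop.1 h1
  exact ⟨K₀, fun K hK => ⟨1, one_pos, fun _ _ _ => (hK₀ K hK).le⟩⟩

/-- A quantity depending on `ε` only which tends to `0`. -/
theorem Null.of_tendsto {u : ℝ → ℝ≥0∞} (hu : Tendsto u (𝓝[>] 0) (𝓝 0)) : Null fun _ ε => u ε := by
  intro K δ hδ
  have h1 : ∀ᶠ ε in 𝓝[>] (0 : ℝ), u ε < ENNReal.ofReal δ :=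
    hu.eventually (gt_mem_nhds (by simpa using hδ))
  rw [eventually_nhdsWithin_iff, Metric.eventually_nhds_iff] at h1
  obtain ⟨ε₀, hε₀, h⟩ := h1
  refine ⟨ε₀, hε₀, fun ε hε hlt => (h ?_ hε).le⟩
  rw [Real.dist_eq, sub_zero, abs_of_pos hε]
  exact hlt

theorem null_iff_tendsto : Null q ↔ ∀ K, Tendsto (fun ε => q K ε) (𝓝[>] 0) (𝓝 0) := by
  constructor
  · intro h K
    rw [ENNReal.tendsto_nhds_zero]
    intro δ hδ
    rcases eq_or_ne δ ∞ with rfl | hδt
    · exact Eventually.of_forall fun _ => le_top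
    obtain ⟨ε₀, hε₀, hh⟩ := h K δ.toReal (ENNReal.toReal_pos hδ.ne' hδt)
    rw [ENNReal.ofReal_toReal hδt] at hh
    rw [eventually_nhdsWithin_iff, Metric.eventually_nhds_iff]
    refine ⟨ε₀, hε₀, fun ε hε hpos => hh ε hpos ?_⟩
    rw [Real.dist_eq, sub_zero, abs_of_pos (mem_Ioi.1 hpos)] at hε
    exact hε
  · intro h K
    exact Null.of_tendsto (h K) K

/-- A family of upper bounds: if for every `δ` the quantity is at most `δ` plus a small quantity,
it is small. -/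
theorem Small.of_forall_le {Q : ℝ → ℕ → ℝ → ℝ≥0∞} (hQ : ∀ δ : ℝ, 0 < δ → Small (Q δ))
    (h : ∀ δ : ℝ, 0 < δ → Ev fun K ε => q K ε ≤ ENNReal.ofReal δ + Q δ K ε) : Small q := by
  intro δ hδ
  refine ((h (δ / 2) (by positivity)).and
    (small_iff.1 (hQ (δ / 2) (by positivity)) (δ / 2) (by positivity))).mono fun K ε _ hh => ?_
  calc q K ε ≤ ENNReal.ofReal (δ / 2) + Q (δ / 2) K ε := hh.1
    _ ≤ ENNReal.ofReal (δ / 2) + ENNReal.ofReal (δ / 2) := add_le_add le_rfl hh.2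
    _ = ENNReal.ofReal δ := by
        rw [← ENNReal.ofReal_add (by positivity) (by positivity), add_halves]

theorem Null.of_forall_le {Q : ℝ → ℕ → ℝ → ℝ≥0∞} (hQ : ∀ δ : ℝ, 0 < δ → Null (Q δ))
    (h : ∀ δ : ℝ, 0 < δ → EvK fun K ε => q K ε ≤ ENNReal.ofReal δ + Q δ K ε) : Null q := by
  rw [null_iff]
  intro δ hδ
  refine ((h (δ / 2) (by positivity)).and
    (null_iff.1 (hQ (δ / 2) (by positivity)) (δ / 2) (by positivity))).mono fun K ε _ hh => ?_
  calc q K ε ≤ ENNReal.ofReal (δ / 2) + Q (δ / 2) K ε := hh.1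
    _ ≤ ENNReal.ofReal (δ / 2) + ENNReal.ofReal (δ / 2) := add_le_add le_rfl hh.2
    _ = ENNReal.ofReal δ := by
        rw [← ENNReal.ofReal_add (by positivity) (by positivity), add_halves]

/-- **Auxiliary cut-off**: a quantity is null if it is bounded, for every large auxiliary level
`K'`, by a constant (depending on `K`) times a small quantity evaluated at `K'` plus a quantity
which is null for fixed `K, K'`. -/
theorem Null.of_aux {s : ℕ → ℝ → ℝ≥0∞} (hs : Small s) {c : ℕ → ℝ≥0∞} (hc : ∀ K, c K ≠ ∞)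
    {N : ℕ → ℕ → ℝ → ℝ≥0∞} (hN : ∀ K', Null (N K'))
    (h : ∀ K, ∃ K'₀, ∀ K', K'₀ ≤ K' → ∃ ε₀ : ℝ, 0 < ε₀ ∧ ∀ ε : ℝ, 0 < ε → ε < ε₀ →
      q K ε ≤ c K * s K' ε + N K' K ε) : Null q := by
  intro K δ hδ
  obtain ⟨δ', hδ', hx⟩ := exists_mul_le (hc K) (half_pos hδ)
  obtain ⟨K₁, hs⟩ := hs δ' hδ'
  obtain ⟨K₂, h⟩ := h K
  set K' := max K₁ K₂ with hK'
  obtain ⟨ε₁, h1, hs⟩ := hs K' (le_max_left _ _)
  obtain ⟨ε₂, h2, h⟩ := h K' (le_max_right _ _)
  obtain ⟨ε₃, h3, hN⟩ := hN K' K (δ / 2) (half_pos hδ)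
  refine ⟨min ε₁ (min ε₂ ε₃), lt_min h1 (lt_min h2 h3), fun ε hε hlt => ?_⟩
  calc q K ε ≤ c K * s K' ε + N K' K ε :=
        h ε hε (hlt.trans_le ((min_le_right _ _).trans (min_le_left _ _)))
    _ ≤ ENNReal.ofReal (δ / 2) + ENNReal.ofReal (δ / 2) :=
        add_le_add (hx _ (hs ε hε (hlt.trans_le (min_le_left _ _))))
          (hN ε hε (hlt.trans_le ((min_le_right _ _).trans (min_le_right _ _))))
    _ = ENNReal.ofReal δ := by
        rw [← ENNReal.ofReal_add (by positivity) (by positivity), add_halves]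

end small

/-! ### The weighted closing lemma -/

/-- **Weighted column lemma** for three unknowns: if the columns of the coefficient matrix are small
with respect to weights `1, α, β`, the weighted sum of the unknowns is bounded by twice the weighted
sum of the seeds. -/
theorem column_bound {x a p S₁ S₂ S₃ c11 c12 c13 c21 c22 c23 c31 c32 c33 α β : ℝ≥0∞}
    (hx : x ≠ ∞) (ha : a ≠ ∞) (hp : p ≠ ∞) (hα : α ≠ ∞) (hβ : β ≠ ∞)
    (h1 : x ≤ S₁ + (c11 * x + c12 * a + c13 * p))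
    (h2 : a ≤ S₂ + (c21 * x + c22 * a + c23 * p))
    (h3 : p ≤ S₃ + (c31 * x + c32 * a + c33 * p))
    (k1 : c11 + α * c21 + β * c31 ≤ 1 / 2)
    (k2 : c12 + α * c22 + β * c32 ≤ α / 2)
    (k3 : c13 + α * c23 + β * c33 ≤ β / 2) :
    x + α * a + β * p ≤ 2 * (S₁ + α * S₂ + β * S₃) := by
  set u := x + α * a + β * p with hu
  have hut : u ≠ ∞ := by
    rw [hu]
    exact ENNReal.add_ne_top.2 ⟨ENNReal.add_ne_top.2 ⟨hx, ENNReal.mul_ne_top hα ha⟩,
      ENNReal.mul_ne_top hβ hp⟩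
  have key : u ≤ (S₁ + α * S₂ + β * S₃) + u / 2 := by
    calc u ≤ (S₁ + (c11 * x + c12 * a + c13 * p)) + α * (S₂ + (c21 * x + c22 * a + c23 * p))
          + β * (S₃ + (c31 * x + c32 * a + c33 * p)) := by rw [hu]; gcongr
      _ = (S₁ + α * S₂ + β * S₃) + ((c11 + α * c21 + β * c31) * x
          + (c12 + α * c22 + β * c32) * a + (c13 + α * c23 + β * c33) * p) := by ring
      _ ≤ (S₁ + α * S₂ + β * S₃) + ((1 / 2) * x + (α / 2) * a + (β / 2) * p) := by gcongr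
      _ = (S₁ + α * S₂ + β * S₃) + u / 2 := by
          rw [hu]
          simp only [div_eq_mul_inv]
          ring
  have h4 : u / 2 ≤ S₁ + α * S₂ + β * S₃ := by
    have h5 : u / 2 + u / 2 ≤ (S₁ + α * S₂ + β * S₃) + u / 2 := by rwa [ENNReal.add_halves]
    exact (ENNReal.add_le_add_iff_right (ENNReal.div_ne_top hut (by norm_num))).1 h5
  calc u = 2 * (u / 2) := by rw [ENNReal.mul_div_cancel (by norm_num) (by norm_num)]
    _ ≤ 2 * (S₁ + α * S₂ + β * S₃) := by gcongr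

end Crest.Agent.R122.EDefs602
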