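import Crest.Agent.R122.EBasic_602
import Crest.Agent.R122.MeasEDefs_416
import Crest.Agent.R122.SmallNull_566
import Crest.Agent.R122.Volt2_796

/-!
# Row 122, section E: from the pointwise-in-the-birth-time form of inequality 1 to inequality 1 and
to the bound of young lines

* `PtIneq` : for a.e. birth time `τ ∈ (0, t']`
  `X(τ) ≤ S(τ) + A + C ∫_{τ < s ≤ t'} ∫ (1 + |v|) g_τ(v) x(s, v) dv ds`.
* `XI_le_of_pt` : backward Gronwall, `X ≤ 2 e^{μ t'} (∫ S + t' A)`.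
* `XJ_le_of_pt` : lines born in `(a, b]`.
* `youngX_of_pt` : lines born in `(max 0 (t* - r), t']`.
* `ineq1_small`, `youngX_small` : the same along `Ev` with `Small` errors.
No measurability of `S` in `τ` is needed.
-/

set_option autoImplicit false

open MeasureTheory Set Filter Topology
open scoped ENNReal
open Crest.AnalysisR.Kinetic
open Crest.Agent.R122.GC311 Crest.Agent.R122.EDefs602 Crest.Agent.R122.Volt796

noncomputable section

namespace Crest.Agent.R122.Young763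

/-! ### Abstract part -/

/-- The backward Volterra integral is measurable in the birth time. -/
theorem measurable_volt {X : ℝ → ℝ≥0∞} (hX : Measurable X) (κ C t' : ℝ) :
    Measurable fun τ => ∫⁻ s in Ioc τ t', ENNReal.ofReal (C * sk κ (s - τ)) * X s := by
  have h1 : (fun τ => ∫⁻ s in Ioc τ t', ENNReal.ofReal (C * sk κ (s - τ)) * X s) =
      fun τ => ∫⁻ s, ({p : ℝ × ℝ | p.1 < p.2 ∧ p.2 ≤ t'}.indicator
        (fun p => ENNReal.ofReal (C * sk κ (p.2 - p.1)) * X p.2)) (τ, s) := by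
    funext τ
    rw [← lintegral_indicator measurableSet_Ioc]
    refine lintegral_congr fun s => ?_
    by_cases h : s ∈ Ioc τ t'
    · rw [indicator_of_mem h, indicator_of_mem
        (show (τ, s) ∈ {p : ℝ × ℝ | p.1 < p.2 ∧ p.2 ≤ t'} from ⟨h.1, h.2⟩)]
    · rw [indicator_of_notMem h, indicator_of_notMem
        (show (τ, s) ∉ {p : ℝ × ℝ | p.1 < p.2 ∧ p.2 ≤ t'} from fun h' => h ⟨h'.1, h'.2⟩)]
  rw [h1]
  refine Measurable.lintegral_prod_right' (f := ({p : ℝ × ℝ | p.1 < p.2 ∧ p.2 ≤ t'}.indicator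
        (fun p => ENNReal.ofReal (C * sk κ (p.2 - p.1)) * X p.2))) ?_
  refine Measurable.indicator ?_ ?_
  · exact (((measurable_sk κ).comp (measurable_snd.sub measurable_fst)).const_mul C).ennreal_ofReal.mul
      (hX.comp measurable_snd)
  · exact (measurableSet_lt measurable_fst measurable_snd).inter
      (measurableSet_le measurable_snd measurable_const)

/-- `L¹` backward Volterra inequality without measurability of the source. -/
theorem volterra_L1 {X S : ℝ → ℝ≥0∞} (hX : Measurable X) {κ C t' μ : ℝ} (hκ : 0 < κ)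
    (hC : 0 ≤ C) (hμ : 0 < μ) (hsmall : C * skI κ μ ≤ 1 / 2) {A : ℝ≥0∞}
    (hfin : ∫⁻ τ in Ioc 0 t', X τ ≠ ∞)
    (hrec : ∀ᵐ τ ∂(volume.restrict (Ioc (0:ℝ) t')), X τ ≤ S τ + A +
      ∫⁻ s in Ioc τ t', ENNReal.ofReal (C * sk κ (s - τ)) * X s) :
    ∫⁻ τ in Ioc 0 t', X τ ≤ 2 * (ENNReal.ofReal (Real.exp (μ * t')) *
      ((∫⁻ τ in Ioc 0 t', S τ) + ENNReal.ofReal t' * A)) := by
  have hr : (volume.restrict (Icc (0:ℝ) t')) = volume.restrict (Ioc (0:ℝ) t') :=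
    restrict_Ioc_eq_restrict_Icc.symm
  set V : ℝ → ℝ≥0∞ := fun τ => ∫⁻ s in Ioc τ t', ENNReal.ofReal (C * sk κ (s - τ)) * X s with hV
  have hVm : Measurable V := measurable_volt hX κ C t'
  set S' : ℝ → ℝ≥0∞ := fun τ => X τ - V τ with hS'
  have hS'm : Measurable S' := hX.sub hVm
  have hle : ∫⁻ τ in Ioc 0 t', S' τ ≤ (∫⁻ τ in Ioc 0 t', S τ) + ENNReal.ofReal t' * A := by
    calc ∫⁻ τ in Ioc 0 t', S' τ ≤ ∫⁻ τ in Ioc 0 t', (S τ + A) := by
          refine lintegral_mono_ae ?_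
          filter_upwards [hrec] with τ hτ
          exact tsub_le_iff_right.2 hτ
      _ = (∫⁻ τ in Ioc 0 t', S τ) + ∫⁻ τ in Ioc 0 t', A := lintegral_add_right _ measurable_const
      _ = _ := by
          rw [setLIntegral_const, Real.volume_Ioc, sub_zero, mul_comm]
  have h := backward_volterra_L1 hX hS'm hκ hC hμ hsmall (t' := t') (by rw [hr]; exact hfin)
    (by
      rw [hr]
      exact Eventually.of_forall fun τ => le_tsub_add)
  rw [hr] at h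
  exact h.trans (by gcongr)

/-- Lines born in a short interval, without measurability of the source. -/
theorem young_L1 {X S : ℝ → ℝ≥0∞} (hX : Measurable X) {κ C t' a b : ℝ} (hκ : 0 < κ)
    (hC : 0 ≤ C) (ha : 0 ≤ a) (hab : a ≤ b) (hb : b ≤ t') {A : ℝ≥0∞}
    (hrec : ∀ᵐ τ ∂(volume.restrict (Ioc (0:ℝ) t')), X τ ≤ S τ + A +
      ∫⁻ s in Ioc τ t', ENNReal.ofReal (C * sk κ (s - τ)) * X s) :
    ∫⁻ τ in Ioc a b, X τ ≤ (∫⁻ τ in Ioc a b, S τ) + ENNReal.ofReal (b - a) * A +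
      ENNReal.ofReal (C * ((b - a) + 3 * (Real.sqrt κ)⁻¹ * Real.sqrt (b - a))) *
        ∫⁻ s in Ioc 0 t', X s := by
  rcases hab.eq_or_lt with rfl | hab
  · simp
  have hr : (volume.restrict (Icc (0:ℝ) t')) = volume.restrict (Ioc (0:ℝ) t') :=
    restrict_Ioc_eq_restrict_Icc.symm
  have hr' : (volume.restrict (Icc a b)) = volume.restrict (Ioc a b) :=
    restrict_Ioc_eq_restrict_Icc.symm
  set V : ℝ → ℝ≥0∞ := fun τ => ∫⁻ s in Ioc τ t', ENNReal.ofReal (C * sk κ (s - τ)) * X s with hV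
  have hVm : Measurable V := measurable_volt hX κ C t'
  set S' : ℝ → ℝ≥0∞ := fun τ => X τ - V τ with hS'
  have hS'm : Measurable S' := hX.sub hVm
  have hsub : Ioc a b ⊆ Ioc 0 t' := Ioc_subset_Ioc ha hb
  have hrec' := ae_mono (Measure.restrict_mono hsub le_rfl) hrec
  have hle : ∫⁻ τ in Ioc a b, S' τ ≤ (∫⁻ τ in Ioc a b, S τ) + ENNReal.ofReal (b - a) * A := by
    calc ∫⁻ τ in Ioc a b, S' τ ≤ ∫⁻ τ in Ioc a b, (S τ + A) := by
          refine lintegral_mono_ae ?_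
          filter_upwards [hrec'] with τ hτ
          exact tsub_le_iff_right.2 hτ
      _ = (∫⁻ τ in Ioc a b, S τ) + ∫⁻ τ in Ioc a b, A := lintegral_add_right _ measurable_const
      _ = _ := by
          rw [setLIntegral_const, Real.volume_Ioc, mul_comm]
  have h := young hX hS'm (t' := t') hκ hC ha hab hb (Eventually.of_forall fun τ => le_tsub_add)
  rw [hr, hr'] at h
  exact h.trans (by gcongr)

/-! ### Inequality 1, pointwise in the birth time -/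

section concrete

variable {Φ : Space3 → ℝ} {f₀ : PhasePoint → ℝ} {ε : ℝ} {K : ℕ} {P : EPar}

/-- Inequality 1 pointwise in the birth time, with the unabsorbed factor `1 + |v|` :
`X(τ) ≤ S(τ) + A + C ∫_{(τ, t']} ds ∫ dv (1 + |v|) g_τ(v) x(s, v)`. -/
def PtIneq (Φ : Space3 → ℝ) (f₀ : PhasePoint → ℝ) (ε : ℝ) (K : ℕ) (P : EPar) (C : ℝ)
    (A : ℝ≥0∞) (S : ℝ → ℝ≥0∞) : Prop :=
  ∀ᵐ τ ∂(volume.restrict (Ioc (0:ℝ) P.te)), XE Φ f₀ ε K P τ ≤ S τ + A +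
    ∫⁻ s in Ioc τ P.te, ∫⁻ v : Space3, ENNReal.ofReal (C * (1 + ‖v‖)) *
      (Kin796.wG (P.γ τ) v * xE Φ f₀ ε K P s v)

/-- Absorption of the factor `1 + |v|` by the decreasing rate. -/
theorem PtIneq.scalar {C γ₀ κ : ℝ} {A : ℝ≥0∞} {S : ℝ → ℝ≥0∞}
    (h : PtIneq Φ f₀ ε K P C A S) (hγ : P.γ = fun τ => γ₀ - κ * τ) (hκ : 0 < κ) (hC : 0 ≤ C) :
    ∀ᵐ τ ∂(volume.restrict (Ioc (0:ℝ) P.te)), XE Φ f₀ ε K P τ ≤ S τ + A +
      ∫⁻ s in Ioc τ P.te, ENNReal.ofReal (C * sk κ (s - τ)) * XE Φ f₀ ε K P s := by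
  filter_upwards [h] with τ hτ
  have h1 : ∀ s, XE Φ f₀ ε K P s = ∫⁻ v, Kin796.wG (γ₀ - κ * s) v * xE Φ f₀ ε K P s v := by
    intro s
    unfold XE
    rw [hγ]
  simp only [h1]
  refine scalar_rec (volume : Measure Space3) (x := xE Φ f₀ ε K P) hκ hC ?_
  rw [← h1 τ]
  refine hτ.trans (le_of_eq ?_)
  simp only [hγ]

theorem gam_meas {γ₀ κ : ℝ} (hγ : P.γ = fun τ => γ₀ - κ * τ) : Measurable P.γ := by
  rw [hγ]; fun_prop

/-- **Inequality 1** from its pointwise form (backward Gronwall). -/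
theorem XI_le_of_pt (hΦ : AdmissiblePotential Φ) (hε : 0 < ε) (hf : Measurable f₀)
    {C γ₀ κ μ T : ℝ} {A : ℝ≥0∞} {S : ℝ → ℝ≥0∞} (h : PtIneq Φ f₀ ε K P C A S)
    (hγ : P.γ = fun τ => γ₀ - κ * τ) (hκ : 0 < κ) (hC : 0 ≤ C) (hμ : 0 < μ)
    (hsmall : C * skI κ μ ≤ 1 / 2) (hfin : XI Φ f₀ ε K P ≠ ∞) (hT : P.te ≤ T) :
    XI Φ f₀ ε K P ≤ ENNReal.ofReal (2 * Real.exp (μ * T)) * (∫⁻ τ in Ioc 0 P.te, S τ) +
      ENNReal.ofReal (2 * Real.exp (μ * T) * T) * A := by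
  have h1 := volterra_L1 (MeasE416.measurable_XE hΦ hε hf K P (gam_meas hγ)) hκ hC hμ hsmall
    (S := S) (A := A) (t' := P.te) hfin (h.scalar hγ hκ hC)
  refine h1.trans ?_
  rcases le_or_gt P.te 0 with h0 | h0
  · rw [Ioc_eq_empty (not_lt.2 h0)]
    simp only [Measure.restrict_empty, lintegral_zero_measure, zero_add, mul_zero,
      ENNReal.ofReal_of_nonpos h0, zero_mul]
    exact zero_le
  have hT0 : 0 ≤ T := h0.le.trans hT
  have hexp : Real.exp (μ * P.te) ≤ Real.exp (μ * T) :=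
    Real.exp_le_exp.2 (mul_le_mul_of_nonneg_left hT hμ.le)
  have h2 : (2 : ℝ≥0∞) = ENNReal.ofReal 2 := by simp
  rw [mul_add, mul_add, ← mul_assoc, ← mul_assoc, ← mul_assoc, h2,
    ← ENNReal.ofReal_mul (by norm_num), ← ENNReal.ofReal_mul (by positivity)]
  refine add_le_add (mul_le_mul' (ENNReal.ofReal_le_ofReal (by linarith)) le_rfl)
    (mul_le_mul' (ENNReal.ofReal_le_ofReal ?_) le_rfl)
  have := Real.exp_pos (μ * P.te)
  nlinarith [Real.exp_pos (μ * T)]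

/-- **Young lines** born in `(a, b] ⊆ (0, t']`. -/
theorem XJ_le_of_pt (hΦ : AdmissiblePotential Φ) (hε : 0 < ε) (hf : Measurable f₀)
    {C γ₀ κ a b : ℝ} {A : ℝ≥0∞} {S : ℝ → ℝ≥0∞} (h : PtIneq Φ f₀ ε K P C A S)
    (hγ : P.γ = fun τ => γ₀ - κ * τ) (hκ : 0 < κ) (hC : 0 ≤ C)
    (ha : 0 ≤ a) (hab : a ≤ b) (hb : b ≤ P.te) :
    XJ Φ f₀ ε K P (Ioc a b) ≤ (∫⁻ τ in Ioc a b, S τ) + ENNReal.ofReal (b - a) * A +
      ENNReal.ofReal (C * ((b - a) + 3 * (Real.sqrt κ)⁻¹ * Real.sqrt (b - a))) *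
        XI Φ f₀ ε K P :=
  young_L1 (MeasE416.measurable_XE hΦ hε hf K P (gam_meas hγ)) hκ hC ha hab hb
    (h.scalar hγ hκ hC)

/-- **Young lines** of the window: born in `(max 0 (t* - r), t']`. -/
theorem youngX_of_pt (hΦ : AdmissiblePotential Φ) (hε : 0 < ε) (hf : Measurable f₀)
    {C γ₀ κ r h' : ℝ} {A : ℝ≥0∞} {S : ℝ → ℝ≥0∞} (h : PtIneq Φ f₀ ε K P C A S)
    (hγ : P.γ = fun τ => γ₀ - κ * τ) (hκ : 0 < κ) (hC : 0 ≤ C)
    (htw : 0 ≤ P.tw) (hte : P.tw ≤ P.te) (hh : P.te ≤ P.tw + h') (hr : 0 ≤ r) (h1 : r + h' ≤ 1) :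
    XJ Φ f₀ ε K P (Ioc (max 0 (P.tw - r)) P.te) ≤ (∫⁻ τ in Ioc 0 P.te, S τ) +
      ENNReal.ofReal (C * (1 + 3 * (Real.sqrt κ)⁻¹) * Real.sqrt (r + h')) * XI Φ f₀ ε K P +
      ENNReal.ofReal (r + h') * A := by
  have ha : 0 ≤ max 0 (P.tw - r) := le_max_left _ _
  have hab : max 0 (P.tw - r) ≤ P.te := max_le (htw.trans hte) (by linarith)
  have hlen : P.te - max 0 (P.tw - r) ≤ r + h' := by
    have := le_max_right 0 (P.tw - r)
    linarith
  have hl0 : 0 ≤ P.te - max 0 (P.tw - r) := sub_nonneg.2 hab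
  have h2 := XJ_le_of_pt hΦ hε hf h hγ hκ hC ha hab le_rfl
  have hκ' : 0 ≤ (Real.sqrt κ)⁻¹ := by positivity
  have hs : P.te - max 0 (P.tw - r) ≤ Real.sqrt (r + h') := by
    refine hlen.trans ?_
    have h0 : 0 ≤ r + h' := hl0.trans hlen
    exact Real.le_sqrt_of_sq_le (by nlinarith)
  have hs' : Real.sqrt (P.te - max 0 (P.tw - r)) ≤ Real.sqrt (r + h') := Real.sqrt_le_sqrt hlen
  calc XJ Φ f₀ ε K P (Ioc (max 0 (P.tw - r)) P.te)
      ≤ (∫⁻ τ in Ioc (max 0 (P.tw - r)) P.te, S τ) +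
        ENNReal.ofReal (P.te - max 0 (P.tw - r)) * A +
        ENNReal.ofReal (C * ((P.te - max 0 (P.tw - r)) +
          3 * (Real.sqrt κ)⁻¹ * Real.sqrt (P.te - max 0 (P.tw - r)))) * XI Φ f₀ ε K P := h2
    _ ≤ (∫⁻ τ in Ioc 0 P.te, S τ) + ENNReal.ofReal (r + h') * A +
        ENNReal.ofReal (C * (1 + 3 * (Real.sqrt κ)⁻¹) * Real.sqrt (r + h')) *
          XI Φ f₀ ε K P := by
        refine add_le_add (add_le_add ?_ ?_) ?_
        · exact lintegral_mono' (Measure.restrict_mono (Ioc_subset_Ioc ha le_rfl) le_rfl) le_rfl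
        · exact mul_le_mul' (ENNReal.ofReal_le_ofReal hlen) le_rfl
        · refine mul_le_mul' (ENNReal.ofReal_le_ofReal ?_) le_rfl
          have h3 : (P.te - max 0 (P.tw - r)) +
              3 * (Real.sqrt κ)⁻¹ * Real.sqrt (P.te - max 0 (P.tw - r)) ≤
              Real.sqrt (r + h') + 3 * (Real.sqrt κ)⁻¹ * Real.sqrt (r + h') := by
            gcongr
          calc C * ((P.te - max 0 (P.tw - r)) +
                3 * (Real.sqrt κ)⁻¹ * Real.sqrt (P.te - max 0 (P.tw - r)))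
              ≤ C * (Real.sqrt (r + h') + 3 * (Real.sqrt κ)⁻¹ * Real.sqrt (r + h')) :=
                mul_le_mul_of_nonneg_left h3 hC
            _ = _ := by ring
    _ = _ := by ring

end concrete

/-! ### Versions with small errors -/

section small

variable {Φ : Space3 → ℝ} {f₀ : PhasePoint → ℝ} {P : EPar}

/-- **Inequality 1**: `X ≤ S + C₁ A`, `C₁` depending only on `C, κ, T` (through `μ`). -/
theorem ineq1_small (hΦ : AdmissiblePotential Φ) (hf : Measurable f₀)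
    {C γ₀ κ μ T : ℝ} (hγ : P.γ = fun τ => γ₀ - κ * τ) (hκ : 0 < κ) (hC : 0 ≤ C) (hμ : 0 < μ)
    (hsmall : C * skI κ μ ≤ 1 / 2) (hT : P.te ≤ T)
    {S : ℕ → ℝ → ℝ → ℝ≥0∞} {A : ℕ → ℝ → ℝ≥0∞}
    (hS : Small fun K ε => ∫⁻ τ in Ioc 0 P.te, S K ε τ)
    (hfin : Ev fun K ε => XI Φ f₀ ε K P ≠ ∞)
    (h : Ev fun K ε => PtIneq Φ f₀ ε K P C (A K ε) (S K ε)) :
    ∃ S' : ℕ → ℝ → ℝ≥0∞, Small S' ∧ Ev fun K ε => XI Φ f₀ ε K P ≤ S' K ε +
      ENNReal.ofReal (2 * Real.exp (μ * T) * T) * A K ε := by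
  refine ⟨fun K ε => ENNReal.ofReal (2 * Real.exp (μ * T)) * ∫⁻ τ in Ioc 0 P.te, S K ε τ,
    hS.const_mul ENNReal.ofReal_ne_top, ?_⟩
  exact (hfin.and h).mono fun K ε hε hh =>
    XI_le_of_pt hΦ hε hf hh.2 hγ hκ hC hμ hsmall hh.1 hT

/-- **Young lines**: `X(J) ≤ S + C₂ √(r + h) X + (r + h) A`, `J = (max 0 (t* - r), t']`,
`C₂ = C (1 + 3 / √κ)`. -/
theorem youngX_small (hΦ : AdmissiblePotential Φ) (hf : Measurable f₀)
    {C γ₀ κ r h' : ℝ} (hγ : P.γ = fun τ => γ₀ - κ * τ) (hκ : 0 < κ) (hC : 0 ≤ C)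
    (htw : 0 ≤ P.tw) (hte : P.tw ≤ P.te) (hh : P.te ≤ P.tw + h') (hr : 0 ≤ r) (h1 : r + h' ≤ 1)
    {S : ℕ → ℝ → ℝ → ℝ≥0∞} {A : ℕ → ℝ → ℝ≥0∞}
    (hS : Small fun K ε => ∫⁻ τ in Ioc 0 P.te, S K ε τ)
    (h : Ev fun K ε => PtIneq Φ f₀ ε K P C (A K ε) (S K ε)) :
    ∃ S' : ℕ → ℝ → ℝ≥0∞, Small S' ∧ Ev fun K ε =>
      XJ Φ f₀ ε K P (Ioc (max 0 (P.tw - r)) P.te) ≤ S' K ε +
      ENNReal.ofReal (C * (1 + 3 * (Real.sqrt κ)⁻¹) * Real.sqrt (r + h')) * XI Φ f₀ ε K P +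
      ENNReal.ofReal (r + h') * A K ε :=
  ⟨_, hS, h.mono fun K ε hε hh' => youngX_of_pt hΦ hε hf hh' hγ hκ hC htw hte hh hr h1⟩

/-- Existence of the rate `μ` (depends only on `C, κ`). -/
theorem exists_rate {κ C : ℝ} (hκ : 0 < κ) (hC : 0 ≤ C) :
    ∃ μ : ℝ, 0 < μ ∧ C * skI κ μ ≤ 1 / 2 := exists_mu hκ hC

end small

end Crest.Agent.R122.Young763
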