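import Crest.Agent.R122.GasE4b_285
import Crest.Agent.R122.YoungX_763

/-!
# INEQUALITY 1 (row 122, board H2), assembly, part 1: densities and kernels

* `XG_le` : comparison of densities.
* `thetaL_late` : lines born after the horizon do not touch.
* `GB` : indicator of a touch before `tw`; `lintegral_GB_le` : its mass is at most `tnMass tw`.
* `volG` : Volterra term of a functional; `lintegral_volG_le` : its integral over the birth times.
-/

set_option autoImplicit false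
set_option linter.unusedSectionVars false

open MeasureTheory Set Filter
open scoped ENNReal Classical Topology
open Crest.AnalysisR.Kinetic
open Crest.Agent.R122.GC311 Crest.Agent.R122.Flow671
open Crest.Agent.R122.EDefs602 Crest.Agent.R122.Unw410 Crest.Agent.R122.Line285
open Crest.Agent.R122.Volt796

noncomputable section

namespace Crest.Agent.R122.OneC285

variable {Φ : Space3 → ℝ} {f₀ : PhasePoint → ℝ} {ε : ℝ} {K : ℕ} {Q : EPar} {ρ : ℝ≥0∞}

theorem XG_le {G G' : LF} {s : ℝ} {v : Space3}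
    (h : ∀ (m : ℕ) (w : Config m), w ∈ PairExcluded ε m → ∀ l : ML, l.1.1 = s → l.1.2.2 = v →
      1 ≤ l.2 → l.2 ≤ K → (∀ i, (flow Φ ε s w i).1 ≠ l.1.2.1) → G m w l ≤ G' m w l) :
    XG f₀ ε K ρ G s v ≤ XG f₀ ε K ρ G' s v := by
  unfold XG
  refine gcE_mono f₀ ε fun m w hw => ?_
  have hae : ∀ᵐ y : Space3, ∀ i, (flow Φ ε s w i).1 ≠ y := by
    rw [ae_all_iff]
    intro i
    have : {y : Space3 | ¬ (flow Φ ε s w i).1 ≠ y} = {(flow Φ ε s w i).1} := by
      ext y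
      simp only [ne_eq, not_not, mem_ofPred_eq, mem_singleton_iff]
      exact eq_comm
    rw [ae_iff, this]
    exact measure_singleton _
  refine lintegral_mono_ae ?_
  filter_upwards [hae] with y hy
  refine ENNReal.tsum_le_tsum fun k => ?_
  by_cases hk : 1 ≤ k ∧ k ≤ K
  · exact mul_le_mul' le_rfl (h m w hw ((s, (y, v)), k) rfl rfl hk.1 hk.2 hy)
  · unfold markW
    rw [if_neg hk, zero_mul, zero_mul]

theorem XG_zero {s : ℝ} {v : Space3} : XG f₀ ε K ρ (fun _ _ _ => 0) s v = 0 := by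
  unfold XG
  simp [gcE_zero]

/-- A line born after the horizon does not touch. -/
theorem thetaL_late (hΦ : AdmissiblePotential Φ) (hε : 0 < ε) {T : ℝ} {n : ℕ} {w : Config n}
    {l : ML} (hT : T < l.1.1) (hm : l.2 ≤ K) : (MW.cfg w).thetaL Φ ε K T l = T + 1 := by
  refine MW.theta_eq_of_not_touched fun r hr => ?_
  refine MW.not_touched_of_no_contact hΦ hε (fun r' hr' x k hc => ?_) ?_
  · have h2 : ((MW.cfg w).add (MW.line l)).b (Sum.inr x) ≤ r' := MW.C_born hc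
    have h3 : l.1.1 ≤ r' := h2
    linarith [hr'.2, hr.2]
  · rw [Finset.univ_unique, Finset.sum_singleton]; exact hm

theorem touchW_late (hΦ : AdmissiblePotential Φ) (hε : 0 < ε) {n : ℕ} {w : Config n}
    {l : ML} (hT : Q.te < l.1.1) (hm : l.2 ≤ K) : (MW.cfg w).touchW Φ ε K Q l = 0 := by
  unfold MW.touchW
  rw [if_neg]
  rw [thetaL_late hΦ hε hT hm]
  intro h
  linarith [h.2]

/-- Indicator of a touch before `tw`. -/
def GB (Φ : Space3 → ℝ) (ε : ℝ) (K : ℕ) (Q : EPar) : LF := fun _ w l =>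
  tB Q.tw ((MW.cfg w).thetaL Φ ε K Q.te l)

/-- The touch functional as a functional of a line. -/
def GW (Φ : Space3 → ℝ) (ε : ℝ) (K : ℕ) (Q : EPar) : LF := fun _ w l =>
  (MW.cfg w).touchW Φ ε K Q l

theorem measLF_GW (hΦ : AdmissiblePotential Φ) (hε : 0 < ε) (K : ℕ) (Q : EPar) :
    MeasLF (GW Φ ε K Q) := fun m => MeasE416.measurable_touchW_cfg hΦ hε K Q m

theorem measurable_tB (tw : ℝ) : Measurable (tB tw) := by
  unfold tB
  exact Measurable.ite measurableSet_Iic measurable_const measurable_const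

theorem measLF_GB (hΦ : AdmissiblePotential Φ) (hε : 0 < ε) (K : ℕ) (Q : EPar) :
    MeasLF (GB Φ ε K Q) := fun m =>
  (measurable_tB Q.tw).comp (MeasE416.measurable_thetaL_cfg hΦ hε K Q.te m)

theorem GB_le_one (Φ : Space3 → ℝ) (ε : ℝ) (K : ℕ) (Q : EPar) (m : ℕ) (w : Config m) (l : ML) :
    GB Φ ε K Q m w l ≤ 1 := by
  unfold GB tB
  split_ifs
  · exact le_rfl
  · exact zero_le_one

theorem GW_le_one (hL : 0 ≤ Q.L) (m : ℕ) (w : Config m) (l : ML) : GW Φ ε K Q m w l ≤ 1 :=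
  touchW_le_one hL _ _

theorem XG_GW_late (hΦ : AdmissiblePotential Φ) (hε : 0 < ε) {s : ℝ} (hs : Q.te < s) (v : Space3) :
    XG f₀ ε K ρ (GW Φ ε K Q) s v = 0 := by
  refine le_antisymm ?_ zero_le
  rw [← XG_zero (f₀ := f₀) (ε := ε) (K := K) (ρ := ρ) (s := s) (v := v)]
  exact XG_le (Φ := Φ) fun m w _ l hl _ _ hm _ => (touchW_late hΦ hε (by rw [hl]; exact hs) hm).le

theorem GB_eq_zero (hΦ : AdmissiblePotential Φ) (hε : 0 < ε) (htw : Q.tw ≤ Q.te) {n : ℕ}
    {w : Config n} (hw : w ∈ PairExcluded ε n) {l : ML} (hl : 0 < l.1.1) (hs : Q.tw < l.1.1)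
    (hm : l.2 ≤ K) (hne : ∀ i, (flow Φ ε l.1.1 w i).1 ≠ l.1.2.1) : GB Φ ε K Q n w l = 0 := by
  unfold GB tB
  rw [if_neg]
  intro h
  rcases lt_or_ge Q.te l.1.1 with h1 | h1
  · rw [thetaL_late hΦ hε h1 hm] at h
    linarith
  · have h2 := MW.birth_le_theta (T := Q.te) (K := K) hΦ hε (cfg_ok hΦ hε hw)
      (ins_ok hΦ hε hw hl hne) (A := MW.line l) (τ := l.1.1) h1 (fun x => le_rfl)
      (by rw [Finset.univ_unique, Finset.sum_singleton]; exact hm)
    rcases h2 with h2 | h2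
    · have h3 : l.1.1 ≤ (MW.cfg w).thetaL Φ ε K Q.te l := h2
      linarith
    · linarith

theorem XG_GB_late (hΦ : AdmissiblePotential Φ) (hε : 0 < ε) (htw0 : 0 ≤ Q.tw)
    (htw : Q.tw ≤ Q.te) {s : ℝ} (hs : Q.tw < s) (v : Space3) :
    XG f₀ ε K ρ (GB Φ ε K Q) s v = 0 := by
  refine le_antisymm ?_ zero_le
  rw [← XG_zero (f₀ := f₀) (ε := ε) (K := K) (ρ := ρ) (s := s) (v := v)]
  refine XG_le (Φ := Φ) fun m w hw l hl _ _ hm hne => ?_
  exact (GB_eq_zero hΦ hε htw hw (by rw [hl]; linarith) (by rw [hl]; exact hs) hm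
    (by rw [hl]; exact hne)).le

theorem XG_eq_dens (G : LF) (s : ℝ) (v : Space3) :
    XG f₀ ε K ρ G s v = EBasic602.dens f₀ ε K ρ G s v := rfl

theorem XG_GW (s : ℝ) (v : Space3) :
    XG f₀ ε K Q.ρ (GW Φ ε K Q) s v = xE Φ f₀ ε K Q s v := rfl

/-- The mass of the lines touching before `tw` is at most `tnMass tw`. -/
theorem lintegral_GB_le (hΦ : AdmissiblePotential Φ) (hf : Measurable f₀) (hε : 0 < ε)
    (hγ : Measurable Q.γ) (htw0 : 0 ≤ Q.tw) (htw : Q.tw ≤ Q.te) :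
    gcE f₀ ε (fun m w => ∫⁻ l, GB Φ ε K Q m w l ∂(lineM Q.γ Q.ρ K Q.te)) ≤
      tnMass Φ f₀ Q.γ Q.ρ ε K Q.tw := by
  have hG := measLF_GB hΦ hε K Q
  rw [← EBasic602.lintegral_dens_lineM hf hγ hG]
  -- the target as an integral
  set G1 : LF := fun _ w l => if (MW.cfg w).thetaL Φ ε K Q.tw l ≤ Q.tw then 1 else 0 with hG1
  have hG1m : MeasLF G1 := fun m => Measurable.ite
    (measurableSet_le (MeasE416.measurable_thetaL_cfg hΦ hε K Q.tw m) measurable_const)
    measurable_const measurable_const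
  have ht : tnMass Φ f₀ Q.γ Q.ρ ε K Q.tw =
      ∫⁻ τ in Ioc (0 : ℝ) Q.tw, ∫⁻ v : Space3, Kin796.wG (Q.γ τ) v *
        EBasic602.dens f₀ ε K Q.ρ G1 τ v := by
    rw [EBasic602.lintegral_dens_lineM hf hγ hG1m]
    unfold tnMass
    refine gcE_congr f₀ ε fun m w _ => ?_
    have h1 : MeasurableSet {l : ML | (MW.cfg w).thetaL Φ ε K Q.tw l ≤ Q.tw} :=
      measurableSet_le ((MeasE416.measurable_thetaL_cfg hΦ hε K Q.tw m).comp
        (f := fun l : ML => (w, l)) (measurable_const.prodMk measurable_id)) measurable_const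
    rw [← lintegral_indicator_one h1]
    rfl
  rw [ht]
  have hsub : ∀ τ ∈ Ioc (0 : ℝ) Q.te, ∫⁻ v : Space3, Kin796.wG (Q.γ τ) v *
      EBasic602.dens f₀ ε K Q.ρ (GB Φ ε K Q) τ v ≤
      (Iic Q.tw).indicator (fun τ => ∫⁻ v : Space3, Kin796.wG (Q.γ τ) v *
        EBasic602.dens f₀ ε K Q.ρ G1 τ v) τ := by
    intro τ hτ
    by_cases h : τ ≤ Q.tw
    · rw [indicator_of_mem (show τ ∈ Iic Q.tw from h)]
      refine lintegral_mono fun v => mul_le_mul' le_rfl ?_
      refine XG_le (Φ := Φ) fun m w hw l hl _ _ hm hne => ?_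
      show tB Q.tw ((MW.cfg w).thetaL Φ ε K Q.te l) ≤
        if (MW.cfg w).thetaL Φ ε K Q.tw l ≤ Q.tw then 1 else 0
      unfold tB
      by_cases hθ : (MW.cfg w).thetaL Φ ε K Q.te l ≤ Q.tw
      · rw [if_pos hθ, if_pos]
        have hl0 : 0 < l.1.1 := by rw [hl]; exact hτ.1
        have h1 := MW.touched_theta (K := K) hΦ hε (cfg_ok hΦ hε hw)
          (ins_ok hΦ hε hw hl0 (by rw [hl]; exact hne)) (A := MW.line l) (T := Q.te)
          (htw0.trans htw) (hθ.trans htw)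
        have h2 : 0 ≤ (MW.cfg w).theta Φ ε K Q.te (MW.line l) :=
          EBasic602.theta_nonneg (htw0.trans htw)
        exact (EBasic602.theta_le_of_touched ⟨h2, hθ⟩ h1).trans hθ
      · rw [if_neg hθ]; exact zero_le
    · rw [indicator_of_notMem (show τ ∉ Iic Q.tw from h)]
      have hz : ∀ v, EBasic602.dens f₀ ε K Q.ρ (GB Φ ε K Q) τ v = 0 := fun v =>
        XG_GB_late hΦ hε htw0 htw (not_le.1 h) v
      simp only [hz, mul_zero, lintegral_zero, le_refl]
  refine (setLIntegral_mono' measurableSet_Ioc hsub).trans (le_of_eq ?_)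
  rw [setLIntegral_indicator measurableSet_Iic]
  congr 2
  ext τ
  simp only [mem_inter_iff, mem_Iic, mem_Ioc]
  constructor
  · rintro ⟨h1, h2, h3⟩; exact ⟨h2, h1⟩
  · rintro ⟨h1, h2⟩; exact ⟨h2, h1, h2.trans htw⟩

/-- Volterra term of a functional. -/
def volG (f₀ : PhasePoint → ℝ) (ε : ℝ) (K : ℕ) (Q : EPar) (C : ℝ) (G : LF) (τ : ℝ) : ℝ≥0∞ :=
  ∫⁻ s in Ioc τ Q.te, ∫⁻ v : Space3, ENNReal.ofReal (C * (1 + ‖v‖)) *
    (Kin796.wG (Q.γ τ) v * XG f₀ ε K Q.ρ G s v)

/-- The Volterra term of `StmtNS` in the form `volG`. -/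
theorem vol_le_volG {C : ℝ≥0∞} (hC : C ≠ ∞) {G : LF} {τ : ℝ}
    (hG : ∀ s v, Q.te < s → XG f₀ ε K Q.ρ G s v = 0) :
    C * ∫⁻ s in Ioi τ, ∫⁻ v : Space3, ENNReal.ofReal (1 + ‖v‖) *
      (Kin796.wG (Q.γ τ) v * XG f₀ ε K Q.ρ G s v) ≤ volG f₀ ε K Q C.toReal G τ := by
  have h1 : ∫⁻ s in Ioi τ, ∫⁻ v : Space3, ENNReal.ofReal (1 + ‖v‖) *
      (Kin796.wG (Q.γ τ) v * XG f₀ ε K Q.ρ G s v) =
      ∫⁻ s in Ioc τ Q.te, ∫⁻ v : Space3, ENNReal.ofReal (1 + ‖v‖) *
      (Kin796.wG (Q.γ τ) v * XG f₀ ε K Q.ρ G s v) := by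
    have h2 : ∀ s ∈ Ioi τ, ∫⁻ v : Space3, ENNReal.ofReal (1 + ‖v‖) *
        (Kin796.wG (Q.γ τ) v * XG f₀ ε K Q.ρ G s v) = (Iic Q.te).indicator (fun s =>
        ∫⁻ v : Space3, ENNReal.ofReal (1 + ‖v‖) *
          (Kin796.wG (Q.γ τ) v * XG f₀ ε K Q.ρ G s v)) s := by
      intro s _
      by_cases h : s ≤ Q.te
      · rw [indicator_of_mem (show s ∈ Iic Q.te from h)]
      · rw [indicator_of_notMem (show s ∉ Iic Q.te from h)]
        simp only [hG s _ (not_le.1 h), mul_zero, lintegral_zero]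
    rw [setLIntegral_congr_fun measurableSet_Ioi h2, setLIntegral_indicator measurableSet_Iic]
    congr 2
    ext s
    simp only [mem_inter_iff, mem_Iic, mem_Ioi, mem_Ioc]
    exact and_comm
  rw [h1, ← lintegral_const_mul' _ _ hC]
  unfold volG
  refine lintegral_mono fun s => ?_
  rw [← lintegral_const_mul' _ _ hC]
  refine lintegral_mono fun v => ?_
  rw [ENNReal.ofReal_mul ENNReal.toReal_nonneg, ENNReal.ofReal_toReal hC, mul_assoc]

/-- Integral of the Volterra term over the birth times. -/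
theorem lintegral_volG_le (hf : Measurable f₀) {γ₀ κ C : ℝ} (hγ : Q.γ = fun τ => γ₀ - κ * τ)
    (hκ : 0 < κ) (hC : 0 ≤ C) (hte : 0 ≤ Q.te) {G : LF} (hG : MeasLF G) :
    ∫⁻ τ in Ioc (0 : ℝ) Q.te, volG f₀ ε K Q C G τ ≤
      ENNReal.ofReal (C * (Q.te + 3 * (Real.sqrt κ)⁻¹ * Real.sqrt Q.te)) *
        gcE f₀ ε (fun m w => ∫⁻ l, G m w l ∂(lineM Q.γ Q.ρ K Q.te)) := by
  have hγm : Measurable Q.γ := Young763.gam_meas hγ
  rw [← EBasic602.lintegral_dens_lineM hf hγm hG]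
  rcases hte.eq_or_lt with h0 | h0
  · rw [← h0]; simp
  set X : ℝ → ℝ≥0∞ := fun s => ∫⁻ v : Space3, Kin796.wG (Q.γ s) v * XG f₀ ε K Q.ρ G s v with hX
  have hXm : Measurable X := by
    have h1 : Measurable fun p : ℝ × Space3 =>
        Kin796.wG (Q.γ p.1) p.2 * EBasic602.dens f₀ ε K Q.ρ G p.1 p.2 :=
      (EBasic602.measurable_wG2 hγm).mul (EBasic602.measurable_dens hf hG)
    exact h1.lintegral_prod_right'
  have h1 : ∀ τ : ℝ, volG f₀ ε K Q C G τ ≤
      ∫⁻ s in Ioc τ Q.te, ENNReal.ofReal (C * sk κ (s - τ)) * X s := by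
    intro τ
    unfold volG
    refine setLIntegral_mono' measurableSet_Ioc fun s hs => ?_
    have h2 := weight_absorb (volume : Measure Space3) (XG f₀ ε K Q.ρ G s) (γ₀ := γ₀) hκ hC hs.1
    simp only [hX, hγ]
    exact h2
  have h2 : ∫⁻ τ in Ioc (0 : ℝ) Q.te, volG f₀ ε K Q C G τ ≤
      ∫⁻ τ in Icc (0 : ℝ) Q.te, 1 * ∫⁻ s in Ioc τ Q.te, ENNReal.ofReal (C * sk κ (s - τ)) * X s := by
    refine (lintegral_mono fun τ => h1 τ).trans ?_
    simp only [one_mul]
    exact lintegral_mono' (Measure.restrict_mono Ioc_subset_Icc_self le_rfl) le_rfl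
  refine h2.trans ?_
  rw [volterra_swap hXm (w := fun _ => 1) measurable_const measurableSet_Icc]
  have h3 : ∀ s : ℝ, ∫⁻ τ in Icc (0 : ℝ) Q.te, (Iio s).indicator
      (fun τ => 1 * ENNReal.ofReal (C * sk κ (s - τ))) τ ≤
      ENNReal.ofReal (C * (Q.te + 3 * (Real.sqrt κ)⁻¹ * Real.sqrt Q.te)) := by
    intro s
    have h4 := sk_short (a := 0) (b := Q.te) (s := s) hκ h0
    rw [sub_zero] at h4
    calc ∫⁻ τ in Icc (0 : ℝ) Q.te, (Iio s).indicator
          (fun τ => 1 * ENNReal.ofReal (C * sk κ (s - τ))) τ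
        = ENNReal.ofReal C * ∫⁻ τ in Icc (0 : ℝ) Q.te, (Iio s).indicator
          (fun τ => ENNReal.ofReal (sk κ (s - τ))) τ := by
          rw [← lintegral_const_mul' _ _ ENNReal.ofReal_ne_top]
          refine lintegral_congr fun τ => ?_
          by_cases h : τ ∈ Iio s
          · rw [indicator_of_mem h, indicator_of_mem h, one_mul, ENNReal.ofReal_mul hC]
          · rw [indicator_of_notMem h, indicator_of_notMem h, mul_zero]
      _ ≤ ENNReal.ofReal C * ENNReal.ofReal (Q.te + 3 * (Real.sqrt κ)⁻¹ * Real.sqrt Q.te) :=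
          mul_le_mul' le_rfl h4
      _ = _ := (ENNReal.ofReal_mul hC).symm
  calc ∫⁻ s, (∫⁻ τ in Icc (0 : ℝ) Q.te, (Iio s).indicator
        (fun τ => 1 * ENNReal.ofReal (C * sk κ (s - τ))) τ) * (Iic Q.te).indicator X s
      = ∫⁻ s in Ioc (0 : ℝ) Q.te, (∫⁻ τ in Icc (0 : ℝ) Q.te, (Iio s).indicator
        (fun τ => 1 * ENNReal.ofReal (C * sk κ (s - τ))) τ) * X s := by
        rw [← lintegral_indicator measurableSet_Ioc]
        refine lintegral_congr fun s => ?_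
        by_cases h : s ∈ Ioc (0 : ℝ) Q.te
        · rw [indicator_of_mem h, indicator_of_mem (show s ∈ Iic Q.te from h.2)]
        · rw [indicator_of_notMem h]
          by_cases h5 : s ≤ Q.te
          · have h6 : s ≤ 0 := by
              by_contra h7
              exact h ⟨not_le.1 h7, h5⟩
            have h7 : ∫⁻ τ in Icc (0 : ℝ) Q.te, (Iio s).indicator
                (fun τ => 1 * ENNReal.ofReal (C * sk κ (s - τ))) τ = 0 := by
              rw [setLIntegral_congr_fun (g := fun _ => 0) measurableSet_Icc, lintegral_zero]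
              intro τ hτ
              exact indicator_of_notMem (fun h8 => by
                have h9 : τ < s := h8
                linarith [hτ.1]) _
            rw [h7, zero_mul]
          · rw [indicator_of_notMem (show s ∉ Iic Q.te from h5), mul_zero]
    _ ≤ ∫⁻ s in Ioc (0 : ℝ) Q.te,
          ENNReal.ofReal (C * (Q.te + 3 * (Real.sqrt κ)⁻¹ * Real.sqrt Q.te)) * X s :=
        lintegral_mono fun s => mul_le_mul' (h3 s) le_rfl
    _ = _ := by
        rw [lintegral_const_mul' _ _ ENNReal.ofReal_ne_top]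
        rfl

end Crest.Agent.R122.OneC285

end
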