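import Crest.Agent.R122.BHClass_167

/-!
# Row 122, BadHit (helper167), part 7: class form for structures which are not localised

* `BadHitPN` : as `BadHitP`, but the part which is hit need not meet the anchors.
* `class_hitN`.
-/

set_option autoImplicit false
set_option linter.unusedSectionVars false

open MeasureTheory Set Filter Topology
open Crest.AnalysisR.Kinetic
open Crest.Agent.R122.Ins45 Crest.Agent.R122.GIV566 Crest.Agent.R122.VL581
open Crest.Agent.R122.VLMeas973 Crest.Agent.R122.Loc45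
open Crest.Agent.R122.MeasE416
open scoped Classical ENNReal NNReal

noncomputable section

namespace Crest.Agent.R122.BH167

variable {J κ : Type} [Fintype J]

/-- **Bad hit of a structure**, the part which is hit need not meet the anchors. -/
def BadHitPN (BP : PosPred) (C R : ℝ) (s : ℕ) (A : Finset J) (M : VSys J κ) (Z : J → PhasePoint)
    {k : ℕ} (V : Config k) : Prop :=
  ∃ π : Finpartition (Finset.univ : Finset J), ∃ P₀ ∈ π.parts,
    (∀ P ∈ π.parts, M.Conn C P Z ∧ (P = P₀ ∨ ∃ x ∈ P, x ∈ A)) ∧ π.parts.card ≤ s ∧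
      HitEv BP R M P₀ Z V

theorem BadHitP.toN {BP : PosPred} {C R : ℝ} {s : ℕ} {A : Finset J} {M : VSys J κ}
    {Z : J → PhasePoint} {k : ℕ} {V : Config k} (h : BadHitP BP C R s A M Z V) :
    BadHitPN BP C R s A M Z V := by
  obtain ⟨π, h1, h2, P, hP, h3⟩ := h
  exact ⟨π, P, hP, fun Q hQ => ⟨(h1 Q hQ).1, Or.inr (h1 Q hQ).2⟩, h2, h3⟩

/-- The weight is bounded by the product of the weights of the parts; the Gaussian weight for the
part `P₀`. -/
theorem wA_leN {β : ℝ} {ρ : Space3 → ℝ≥0∞} (h1 : ∀ x, ρ x ≤ 1) {o : Option J} {A : Finset J}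
    (ho : ∀ j, o = some j → j ∈ A) (π : Finpartition (Finset.univ : Finset J)) {P₀ : Finset J}
    (hP₀ : P₀ ∈ π.parts) (hπ : ∀ P ∈ π.parts, P = P₀ ∨ ∃ x ∈ P, x ∈ A) (Z : J → PhasePoint) :
    wA β ρ A Z ≤ (∏ j : P₀, gv β (Z (sub P₀ j))) *
      ∏ P ∈ π.parts.erase P₀, wP β ρ o A P (fun j => Z (sub P j)) := by
  have h2 : wA β ρ A Z = ∏ j, ((if j ∈ A then ρ (Z j).1 else 1) * gv β (Z j)) := by
    unfold wA
    rw [Finset.prod_mul_distrib]
    congr 1
    rw [Finset.prod_ite_mem, Finset.univ_inter]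
  rw [h2, prod_parts π, ← Finset.mul_prod_erase _ _ hP₀]
  refine mul_le_mul' ?_ ?_
  · rw [← Finset.prod_coe_sort]
    refine Finset.prod_le_prod' fun j _ => ?_
    calc (if j.1 ∈ A then ρ (Z j.1).1 else 1) * gv β (Z j.1) ≤ 1 * gv β (Z j.1) := by
          gcongr
          split_ifs
          · exact h1 _
          · exact le_rfl
      _ = _ := one_mul _
  · refine Finset.prod_le_prod' fun P hP => ?_
    obtain ⟨x, hx, hxA⟩ := (hπ P (Finset.mem_of_mem_erase hP)).resolve_left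
      (Finset.ne_of_mem_erase hP)
    have hex : ∃ x : P, x.1 ∈ A := ⟨⟨x, hx⟩, hxA⟩
    unfold wP
    rw [dif_pos hex]
    unfold wgt
    rw [Finset.prod_mul_distrib]
    refine mul_le_mul' ?_ ?_
    · have h3 := (rt o A P hex).2
      rw [← Finset.mul_prod_erase P _ h3, if_pos (rt_mem ho hex)]
      refine (mul_le_mul_right (Finset.prod_le_one' fun j _ => ?_) _).trans (mul_one _).le
      split_ifs
      · exact h1 _
      · exact le_rfl
    · refine le_of_eq ?_
      rw [← Finset.prod_coe_sort]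
      rfl

/-- **Class form**, the part which is hit need not meet the anchors. -/
theorem class_hitN {Φ : Space3 → ℝ} (hΦ : AdmissiblePotential Φ) (hVC : VC Φ) {T : ℝ} (hT : 0 ≤ T)
    {BP : PosPred} (hHC : HitClass T BP) (J κ : Type) [Fintype J] [Fintype κ]
    {γ : ℝ} (hγ : 0 < γ) (C R : ℝ) (L : ℝ≥0) (K : ℕ) (s : ℕ)
    (A : Finset J) {ρ : Space3 → ℝ≥0∞} (hρ : Measurable ρ) (hρ1 : ∀ x, ρ x ≤ 1)
    (hρf : ∫⁻ x, ρ x < ∞) :
    ∃ η : ℝ → ℝ≥0∞, Tendsto η (𝓝[>] 0) (𝓝 0) ∧ ∀ M : VSys J κ, M.Φ = Φ → M.T = T → 0 < M.ε →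
      M.ε ≤ 1 → (∀ k, LipschitzOnWith L (M.S.c k) (Icc 0 T)) → (∀ j, M.o = some j → j ∈ A) →
      ∃ E : (k : ℕ) → Set ((J → ℝ) × (J → PhasePoint) × Config k), (∀ k, MeasurableSet (E k)) ∧
        (∀ k ≤ K, ∀ b Z, ∀ V ∈ PairExcluded M.ε k, BadHitPN BP C R s A (wb M b) Z V →
          (b, Z, V) ∈ E k) ∧
        ∀ k ≤ K, ∀ (b : J → ℝ) (i : Fin k),
          ∫⁻ Z, wA γ ρ A Z * ∫⁻ V : Config k, ρ (V i).1 *
            ((∏ l, gv γ (V l)) * (if (b, Z, V) ∈ E k then 1 else 0)) ≤
          η M.ε * ENNReal.ofReal (M.ε ^ 2) ^ (k + (Fintype.card J - s)) := by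
  -- the estimates for all parts
  have hpart : ∀ P : Finset J, ∃ η : ℝ → ℝ≥0∞, Tendsto η (𝓝[>] 0) (𝓝 0) ∧
      ∀ M : VSys P κ, M.Φ = Φ → M.T = T → 0 < M.ε →
      M.ε ≤ 1 → (∀ k, LipschitzOnWith L (M.S.c k) (Icc 0 T)) →
      ∃ H : (k : ℕ) → (P → ℝ) × (P → PhasePoint) × Config k → ℝ≥0∞, (∀ k, Measurable (H k)) ∧
        (P.Nonempty → (∀ k ≤ K, ∀ b Z, ∀ V ∈ PairExcluded M.ε k,
          HitEv BP R (wb M b) Finset.univ Z V → 1 ≤ H k (b, Z, V)) ∧
        ∀ k ≤ K, ∀ (b : P → ℝ) (i : Fin k) (env : Space3 → ℝ≥0∞), Measurable env →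
          ∫⁻ Z, gC M C γ b Z * ∫⁻ V : Config k, env (V i).1 *
            ((∏ l, gv γ (V l)) * H k (b, Z, V)) ≤
          η M.ε * ENNReal.ofReal (M.ε ^ 2) ^ (k + (P.card - 1)) * ∫⁻ x, env x) := by
    intro P
    by_cases hP : P.Nonempty
    · have : Nonempty P := hP.to_subtype
      obtain ⟨η, hη, h⟩ := part_hit hΦ hVC hT hHC P κ hγ C R L K
      refine ⟨η, hη, fun M h1 h2 h3 h4 h5 => ?_⟩
      obtain ⟨H, hH1, hH2, hH3⟩ := h M h1 h2 h3 h4 h5
      refine ⟨H, hH1, fun _ => ⟨hH2, fun k hk b i env henv => ?_⟩⟩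
      have := hH3 k hk b i env henv
      rwa [Fintype.card_coe] at this
    · exact ⟨fun _ => 0, tendsto_const_nhds, fun M _ _ _ _ _ => ⟨fun _ _ => 0,
        fun _ => measurable_const, fun h => absurd h hP⟩⟩
  choose η hη hp using hpart
  obtain ⟨K₁, hK₁⟩ := exists_aP_bound (J := J) (κ := κ) (C := C) (T := T) hVC hγ L
  set m := Fintype.card J with hm
  set I : ℝ≥0∞ := ∫⁻ x, ρ x with hI
  have hIt : I ≠ ∞ := hρf.ne
  set B : ℝ≥0∞ := K₁ * I with hB
  have hBt : B ≠ ∞ := ENNReal.mul_ne_top ENNReal.coe_ne_top hIt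
  set N : ℝ≥0∞ := (Fintype.card (Finpartition (Finset.univ : Finset J)) : ℝ≥0∞) with hN
  set Q : ℝ≥0∞ := N * (m * ((B + 1) ^ m * I)) with hQ
  have hQt : Q ≠ ∞ := by
    refine ENNReal.mul_ne_top (ENNReal.natCast_ne_top _) (ENNReal.mul_ne_top
      (ENNReal.natCast_ne_top _) (ENNReal.mul_ne_top (ENNReal.pow_ne_top
        (ENNReal.add_ne_top.2 ⟨hBt, ENNReal.one_ne_top⟩)) hIt))
  refine ⟨fun ε => Q * ∑ P, η P ε, ?_, ?_⟩
  · have h1 : Tendsto (fun ε => ∑ P, η P ε) (𝓝[>] (0 : ℝ)) (𝓝 (∑ _P : Finset J, (0 : ℝ≥0∞))) :=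
      tendsto_finsetSum _ fun P _ => hη P
    rw [Finset.sum_const_zero] at h1
    have h2 := ENNReal.Tendsto.const_mul (a := Q) h1 (Or.inr hQt)
    rwa [mul_zero] at h2
  intro M hMΦ hMT hε hε1 hL ho
  have hM : Good M := ⟨hMΦ ▸ hΦ, hε, hMT ▸ hT, fun k => hMT ▸ (hL k).continuousOn⟩
  have hΦM : AdmissiblePotential M.Φ := hMΦ ▸ hΦ
  choose H hHm hH using fun P : Finset J => hp P (pull M (sub P)) hMΦ hMT hε hε1 hL
  set x : ℝ≥0∞ := ENNReal.ofReal (M.ε ^ 2) with hx
  have hx1 : x ≤ 1 := by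
    rw [hx, ← ENNReal.ofReal_one]
    exact ENNReal.ofReal_le_ofReal (pow_le_one₀ hε.le hε1)
  -- restriction of the births and of the states
  let rb : (P : Finset J) → (J → ℝ) → P → ℝ := fun P b j => b (sub P j)
  let rz : (P : Finset J) → (J → PhasePoint) → P → PhasePoint := fun P Z j => Z (sub P j)
  have hrb : ∀ P, Measurable (rb P) := fun P =>
    measurable_pi_lambda _ fun j => measurable_pi_apply _
  have hrz : ∀ P, Measurable (rz P) := fun P =>
    measurable_pi_lambda _ fun j => measurable_pi_apply _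
  have hcs : ∀ (b : J → ℝ) (P : Finset J) (Z : J → PhasePoint),
      (wb (pull M (sub P)) (rb P b)).Conn C Finset.univ (rz P Z) ↔ (wb M b).Conn C P Z := by
    intro b P Z
    exact conn_sub (M := wb M b) ⟨hΦM, hε, hM.T0, hM.tubes⟩ C P Z
  -- the majorant
  obtain ⟨E, hE⟩ : ∃ E : (k : ℕ) → Set ((J → ℝ) × (J → PhasePoint) × Config k), ∀ k p, p ∈ E k ↔
      ∃ π : Finpartition (Finset.univ : Finset J), ∃ P₀ ∈ π.parts,
        (∀ P ∈ π.parts, (wb M p.1).Conn C P p.2.1 ∧ (P = P₀ ∨ ∃ x ∈ P, x ∈ A)) ∧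
          π.parts.card ≤ s ∧ 1 ≤ H P₀ k (rb P₀ p.1, rz P₀ p.2.1, p.2.2) :=
    ⟨fun k => {p | ∃ π : Finpartition (Finset.univ : Finset J), ∃ P₀ ∈ π.parts,
        (∀ P ∈ π.parts, (wb M p.1).Conn C P p.2.1 ∧ (P = P₀ ∨ ∃ x ∈ P, x ∈ A)) ∧
          π.parts.card ≤ s ∧ 1 ≤ H P₀ k (rb P₀ p.1, rz P₀ p.2.1, p.2.2)}, fun k p => Iff.rfl⟩
  have hmap : ∀ (k : ℕ) (P : Finset J), Measurable
      fun p : (J → ℝ) × (J → PhasePoint) × Config k => H P k (rb P p.1, rz P p.2.1, p.2.2) :=
    fun k P => (hHm P k).comp (((hrb P).comp measurable_fst).prodMk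
      (((hrz P).comp measurable_snd.fst).prodMk measurable_snd.snd))
  refine ⟨E, fun k => ?_, ?_, ?_⟩
  · have h : E k = ⋃ π : Finpartition (Finset.univ : Finset J), ⋃ P₀ ∈ π.parts,
        (⋂ P ∈ π.parts, ({p : (J → ℝ) × (J → PhasePoint) × Config k |
            (wb M p.1).Conn C P p.2.1} ∩ {_p | P = P₀ ∨ ∃ x ∈ P, x ∈ A})) ∩
        ({_p | π.parts.card ≤ s} ∩ {p | 1 ≤ H P₀ k (rb P₀ p.1, rz P₀ p.2.1, p.2.2)}) := by
      ext p
      rw [hE]
      simp only [mem_ofPred_eq, mem_iUnion, mem_inter_iff, mem_iInter, exists_prop]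
    rw [h]
    refine MeasurableSet.iUnion fun π => Finset.measurableSet_biUnion _ fun P₀ _ => ?_
    refine (Finset.measurableSet_biInter _ fun P _ =>
      (measurableSet_conn (Ω := (J → ℝ) × (J → PhasePoint) × Config k) hM measurable_fst
        measurable_snd.fst C P).inter (MeasurableSet.const _)).inter ?_
    exact (MeasurableSet.const _).inter (measurableSet_le measurable_const (hmap k P₀))
  · rintro k hk b Z V hV ⟨π, P, hP, h1, h2, h3⟩
    refine (hE k _).2 ⟨π, P, hP, h1, h2, ?_⟩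
    have hPn := π.nonempty_of_mem_parts hP
    exact (hH P hPn).1 k hk _ _ V hV (hitEv_pull (M := wb M b) hΦM hε h3)
  intro k hk b i
  have hgv : Measurable fun V : Config k => ∏ l, gv γ (V l) :=
    Finset.measurable_prod _ fun l _ => (measurable_gv γ).comp (measurable_pi_apply l)
  have hρ' : Measurable fun V : Config k => ρ (V i).1 := hρ.comp (measurable_pi_apply i).fst
  -- functions of the parts
  let F : (P : Finset J) → (P → PhasePoint) → ℝ≥0∞ := fun P =>
    {z | (pull (wb M b) (sub P)).Conn C Finset.univ z}.indicator (wP γ ρ M.o A P)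
  let D : (P : Finset J) → (P → PhasePoint) → ℝ≥0∞ := fun P z =>
    gC (pull M (sub P)) C γ (rb P b) z * ∫⁻ V : Config k, ρ (V i).1 *
      ((∏ l, gv γ (V l)) * H P k (rb P b, z, V))
  have hF : ∀ P, Measurable (F P) := fun P =>
    (measurable_wP hρ M.o A P).indicator
      (measurableSet_conn' (M := pull (wb M b) (sub P)) ⟨hΦM, hε, hM.T0, hM.tubes⟩ C Finset.univ)
  have hVm : ∀ P z, Measurable fun V : Config k => ρ (V i).1 *
      ((∏ l, gv γ (V l)) * H P k (rb P b, z, V)) := fun P z =>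
    hρ'.mul (hgv.mul ((hHm P k).comp (measurable_const.prodMk
      (measurable_const.prodMk measurable_id))))
  have hD : ∀ P, Measurable (D P) := by
    intro P
    refine Measurable.mul ?_ ?_
    · exact (measurable_gC (M := pull M (sub P)) (hM.pull (sub P)) C γ).comp
        (measurable_const.prodMk measurable_id)
    · have h1 : Measurable fun p : (P → PhasePoint) × Config k => ρ (p.2 i).1 *
          ((∏ l, gv γ (p.2 l)) * H P k (rb P b, p.1, p.2)) :=
        (hρ'.comp measurable_snd).mul ((hgv.comp measurable_snd).mul ((hHm P k).comp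
          (measurable_const.prodMk (measurable_fst.prodMk measurable_snd))))
      exact h1.lintegral_prod_right'
  have hDF : ∀ P P₀ : Finset J, Measurable (if P = P₀ then D P else F P) := by
    intro P P₀
    by_cases h : P = P₀
    · simp only [if_pos h]; exact hD P
    · simp only [if_neg h]; exact hF P
  -- the pointwise bound
  have hpt : ∀ Z, wA γ ρ A Z * ∫⁻ V : Config k, ρ (V i).1 *
      ((∏ l, gv γ (V l)) * (if (b, Z, V) ∈ E k then 1 else 0)) ≤
      ∑ π : Finpartition (Finset.univ : Finset J), (if π.parts.card ≤ s then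
        ∑ P₀ ∈ π.parts, ∏ P ∈ π.parts, (if P = P₀ then D P else F P) (rz P Z) else 0) := by
    intro Z
    -- the good partitions
    set G : Finpartition (Finset.univ : Finset J) → Finset J → Prop := fun π P₀ =>
      (∀ P ∈ π.parts, (wb M b).Conn C P Z ∧ (P = P₀ ∨ ∃ x ∈ P, x ∈ A)) ∧
        π.parts.card ≤ s with hG
    have h1 : ∫⁻ V : Config k, ρ (V i).1 *
        ((∏ l, gv γ (V l)) * (if (b, Z, V) ∈ E k then 1 else 0)) ≤
        ∑ π : Finpartition (Finset.univ : Finset J), ∑ P₀ ∈ π.parts, (if G π P₀ then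
          ∫⁻ V : Config k, ρ (V i).1 * ((∏ l, gv γ (V l)) * H P₀ k (rb P₀ b, rz P₀ Z, V))
          else 0) := by
      have h2 : ∀ V : Config k, ρ (V i).1 *
          ((∏ l, gv γ (V l)) * (if (b, Z, V) ∈ E k then 1 else 0)) ≤
          ∑ π : Finpartition (Finset.univ : Finset J), ∑ P₀ ∈ π.parts, (if G π P₀ then
            ρ (V i).1 * ((∏ l, gv γ (V l)) * H P₀ k (rb P₀ b, rz P₀ Z, V)) else 0) := by
        intro V
        by_cases hEb : (b, Z, V) ∈ E k
        · obtain ⟨π, P, hP, h3, h4, h5⟩ := (hE k _).1 hEb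
          refine le_trans ?_ (Finset.single_le_sum (f := fun π : Finpartition _ =>
            ∑ P₀ ∈ π.parts, (if G π P₀ then ρ (V i).1 *
              ((∏ l, gv γ (V l)) * H P₀ k (rb P₀ b, rz P₀ Z, V)) else 0))
            (fun _ _ => bot_le) (Finset.mem_univ π))
          refine le_trans ?_ (Finset.single_le_sum (f := fun P₀ => (if G π P₀ then ρ (V i).1 *
              ((∏ l, gv γ (V l)) * H P₀ k (rb P₀ b, rz P₀ Z, V)) else 0))
            (fun _ _ => bot_le) hP)
          simp only [if_pos hEb]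
          rw [if_pos (show G π P from ⟨h3, h4⟩)]
          gcongr
        · rw [if_neg hEb, mul_zero, mul_zero]
          exact bot_le
      refine (lintegral_mono h2).trans (le_of_eq ?_)
      have hm1 : ∀ (π : Finpartition (Finset.univ : Finset J)) (P₀ : Finset J),
          Measurable fun V : Config k => (if G π P₀ then
            ρ (V i).1 * ((∏ l, gv γ (V l)) * H P₀ k (rb P₀ b, rz P₀ Z, V)) else 0) := by
        intro π P₀
        by_cases h : G π P₀
        · simp only [if_pos h]; exact hVm P₀ _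
        · simp only [if_neg h]; exact measurable_const
      rw [lintegral_finsetSum _ fun π _ => Finset.measurable_sum _ fun P₀ _ => hm1 π P₀]
      refine Finset.sum_congr rfl fun π _ => ?_
      rw [lintegral_finsetSum _ fun P₀ _ => hm1 π P₀]
      refine Finset.sum_congr rfl fun P₀ _ => ?_
      by_cases h : G π P₀
      · simp only [if_pos h]
      · simp only [if_neg h, lintegral_zero]
    refine (mul_le_mul_right h1 _).trans ?_
    rw [Finset.mul_sum]
    refine Finset.sum_le_sum fun π _ => ?_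
    by_cases hcs' : π.parts.card ≤ s
    swap
    · have h0 : ∀ P₀ ∈ π.parts, (if G π P₀ then ∫⁻ V : Config k, ρ (V i).1 *
          ((∏ l, gv γ (V l)) * H P₀ k (rb P₀ b, rz P₀ Z, V)) else 0) = 0 := fun P₀ _ =>
        if_neg fun h => hcs' h.2
      rw [Finset.sum_eq_zero h0, mul_zero]
      exact bot_le
    rw [if_pos hcs', Finset.mul_sum]
    refine Finset.sum_le_sum fun P₀ hP₀ => ?_
    by_cases hg : G π P₀
    swap
    · rw [if_neg hg, mul_zero]
      exact bot_le
    rw [if_pos hg, ← Finset.mul_prod_erase _ _ hP₀]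
    have hw := wA_leN (β := γ) hρ1 ho π hP₀ (fun P hP => (hg.1 P hP).2) Z
    have hc₀ : (wb (pull M (sub P₀)) (rb P₀ b)).Conn C Finset.univ (rz P₀ Z) :=
      (hcs b P₀ Z).2 (hg.1 P₀ hP₀).1
    have e1 : (if P₀ = P₀ then D P₀ else F P₀) (rz P₀ Z) = D P₀ (rz P₀ Z) := by rw [if_pos rfl]
    rw [e1]
    have h3 : (∏ j : P₀, gv γ (Z (sub P₀ j))) *
        ∫⁻ V : Config k, ρ (V i).1 * ((∏ l, gv γ (V l)) * H P₀ k (rb P₀ b, rz P₀ Z, V)) ≤
        D P₀ (rz P₀ Z) := by
      show _ ≤ gC (pull M (sub P₀)) C γ (rb P₀ b) (rz P₀ Z) * _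
      refine mul_le_mul' ?_ le_rfl
      unfold gC
      rw [indicator_of_mem (show rz P₀ Z ∈ {Z | (wb (pull M (sub P₀)) (rb P₀ b)).Conn C
        Finset.univ Z} from hc₀)]
    have h4 : ∏ P ∈ π.parts.erase P₀, wP γ ρ M.o A P (fun j => Z (sub P j)) ≤
        ∏ P ∈ π.parts.erase P₀, (if P = P₀ then D P else F P) (rz P Z) := by
      refine Finset.prod_le_prod' fun P hP => ?_
      rw [if_neg (Finset.ne_of_mem_erase hP)]
      show _ ≤ indicator _ _ _
      rw [indicator_of_mem]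
      exact (hcs b P Z).2 (hg.1 P (Finset.mem_of_mem_erase hP)).1
    calc wA γ ρ A Z * ∫⁻ V : Config k, ρ (V i).1 *
          ((∏ l, gv γ (V l)) * H P₀ k (rb P₀ b, rz P₀ Z, V))
        ≤ ((∏ j : P₀, gv γ (Z (sub P₀ j))) *
            ∏ P ∈ π.parts.erase P₀, wP γ ρ M.o A P (fun j => Z (sub P j))) *
          ∫⁻ V : Config k, ρ (V i).1 *
            ((∏ l, gv γ (V l)) * H P₀ k (rb P₀ b, rz P₀ Z, V)) := mul_le_mul' hw le_rfl
      _ = ((∏ j : P₀, gv γ (Z (sub P₀ j))) *
          ∫⁻ V : Config k, ρ (V i).1 *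
            ((∏ l, gv γ (V l)) * H P₀ k (rb P₀ b, rz P₀ Z, V))) *
            ∏ P ∈ π.parts.erase P₀, wP γ ρ M.o A P (fun j => Z (sub P j)) := by ring
      _ ≤ _ := mul_le_mul' h3 h4
  refine (lintegral_mono hpt).trans ?_
  -- integration
  have hm2 : ∀ (π : Finpartition (Finset.univ : Finset J)) (P₀ : Finset J),
      Measurable fun Z : J → PhasePoint =>
        ∏ P ∈ π.parts, (if P = P₀ then D P else F P) (rz P Z) := fun π P₀ =>
    Finset.measurable_prod _ fun P _ => (hDF P P₀).comp (hrz P)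
  have hm3 : ∀ π : Finpartition (Finset.univ : Finset J), Measurable fun Z : J → PhasePoint =>
      (if π.parts.card ≤ s then
        ∑ P₀ ∈ π.parts, ∏ P ∈ π.parts, (if P = P₀ then D P else F P) (rz P Z) else 0) := by
    intro π
    by_cases h : π.parts.card ≤ s
    · simp only [if_pos h]
      exact Finset.measurable_sum _ fun P₀ _ => hm2 π P₀
    · simp only [if_neg h]
      exact measurable_const
  rw [lintegral_finsetSum _ fun π _ => hm3 π]
  -- bounds
  have haP : ∀ P : Finset J, ∫⁻ z, F P z ≤ B * x ^ (P.card - 1) := fun P =>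
    hK₁ (wb M b) hMΦ hMT hε hε1 hL A ρ hρ P
  have hdP : ∀ P : Finset J, P.Nonempty → ∫⁻ z, D P z ≤
      (∑ P, η P M.ε) * x ^ (k + (P.card - 1)) * I := by
    intro P hP
    refine ((hH P hP).2 k hk (rb P b) i ρ hρ).trans ?_
    have : η P (pull M (sub P)).ε ≤ ∑ P, η P M.ε :=
      Finset.single_le_sum (f := fun P => η P M.ε) (fun _ _ => bot_le) (Finset.mem_univ P)
    exact mul_le_mul' (mul_le_mul' this le_rfl) le_rfl
  have hB1 : (1 : ℝ≥0∞) ≤ B + 1 := le_add_self
  have key : ∀ π : Finpartition (Finset.univ : Finset J), ∫⁻ Z, (if π.parts.card ≤ s then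
        ∑ P₀ ∈ π.parts, ∏ P ∈ π.parts, (if P = P₀ then D P else F P) (rz P Z) else 0) ≤
      (m * ((B + 1) ^ m * I)) * (∑ P, η P M.ε) * x ^ (k + (m - s)) := by
    intro π
    by_cases h : π.parts.card ≤ s
    swap
    · simp only [if_neg h, lintegral_zero]
      exact bot_le
    simp only [if_pos h]
    rw [lintegral_finsetSum _ fun P₀ _ => hm2 π P₀]
    have hpm := card_parts_le π
    have hpow : ∏ P ∈ π.parts, x ^ (P.card - 1) = x ^ (m - π.parts.card) := by
      rw [Finset.prod_pow_eq_pow_sum, sum_card_sub]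
    have h2 : ∀ P₀ ∈ π.parts, ∫⁻ Z : J → PhasePoint,
        ∏ P ∈ π.parts, (if P = P₀ then D P else F P) (rz P Z) ≤
        ((B + 1) ^ m * I) * (∑ P, η P M.ε) * x ^ (k + (m - s)) := by
      intro P₀ hP₀
      rw [show (∫⁻ Z : J → PhasePoint, ∏ P ∈ π.parts,
          (if P = P₀ then D P else F P) (rz P Z)) =
        ∏ P ∈ π.parts, ∫⁻ z : P → PhasePoint, (if P = P₀ then D P else F P) z from
        PartProd973.lintegral_prod_parts π (fun P => if P = P₀ then D P else F P)
          fun P => hDF P P₀]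
      rw [← Finset.mul_prod_erase _ _ hP₀]
      have e1 : (∫⁻ z : P₀ → PhasePoint, (if P₀ = P₀ then D P₀ else F P₀) z) =
          ∫⁻ z, D P₀ z := by rw [if_pos rfl]
      have e2 : ∏ P ∈ π.parts.erase P₀, ∫⁻ z : P → PhasePoint,
          (if P = P₀ then D P else F P) z ≤ ∏ P ∈ π.parts.erase P₀, (B * x ^ (P.card - 1)) := by
        refine Finset.prod_le_prod' fun P hP => ?_
        rw [if_neg (Finset.ne_of_mem_erase hP)]
        exact haP P
      rw [e1]
      calc (∫⁻ z, D P₀ z) * ∏ P ∈ π.parts.erase P₀, ∫⁻ z : P → PhasePoint,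
            (if P = P₀ then D P else F P) z
          ≤ ((∑ P, η P M.ε) * x ^ (k + (P₀.card - 1)) * I) *
            ∏ P ∈ π.parts.erase P₀, (B * x ^ (P.card - 1)) :=
            mul_le_mul' (hdP P₀ (π.nonempty_of_mem_parts hP₀)) e2
        _ = B ^ (π.parts.erase P₀).card * I * (∑ P, η P M.ε) * (x ^ k * (x ^ (P₀.card - 1) *
              ∏ P ∈ π.parts.erase P₀, x ^ (P.card - 1))) := by
            rw [Finset.prod_mul_distrib, Finset.prod_const, pow_add]; ring
        _ = B ^ (π.parts.erase P₀).card * I * (∑ P, η P M.ε) *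
              x ^ (k + (m - π.parts.card)) := by
            rw [Finset.mul_prod_erase _ (fun P => x ^ (P.card - 1)) hP₀, hpow, pow_add]
        _ ≤ ((B + 1) ^ m * I) * (∑ P, η P M.ε) * x ^ (k + (m - s)) := by
            have h5 : B ^ (π.parts.erase P₀).card ≤ (B + 1) ^ m :=
              (pow_le_pow_left' le_self_add _).trans (pow_le_pow_right' hB1
                ((Finset.card_erase_le).trans hpm))
            have h6 : x ^ (k + (m - π.parts.card)) ≤ x ^ (k + (m - s)) :=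
              pow_le_pow_right_of_le_one' hx1 (by omega)
            gcongr
    calc ∑ P₀ ∈ π.parts, ∫⁻ Z : J → PhasePoint,
          ∏ P ∈ π.parts, (if P = P₀ then D P else F P) (rz P Z)
        ≤ ∑ _P₀ ∈ π.parts, ((B + 1) ^ m * I) * (∑ P, η P M.ε) * x ^ (k + (m - s)) :=
          Finset.sum_le_sum h2
      _ = (π.parts.card : ℝ≥0∞) * (((B + 1) ^ m * I) * (∑ P, η P M.ε) * x ^ (k + (m - s))) := by
          rw [Finset.sum_const, nsmul_eq_mul]
      _ ≤ (m : ℝ≥0∞) * (((B + 1) ^ m * I) * (∑ P, η P M.ε) * x ^ (k + (m - s))) := by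
          gcongr
      _ = _ := by ring
  refine (Finset.sum_le_sum fun π _ => key π).trans (le_of_eq ?_)
  rw [Finset.sum_const, nsmul_eq_mul, Finset.card_univ]
  ring

end Crest.Agent.R122.BH167

end
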