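import Crest.Agent.R122.CausalDyn_291
import Crest.Agent.R122.NewtonFlow_671
import Crest.Agent.R122.Loc_45

/-!
# Causal-past calculus (row 122, block F4): local uniqueness for Newtonian worlds

* `LocUniq2`: uniqueness for a group whose neighbours are either in the group or have equal paths in
  both worlds.
* `locUniq2_of_solOn`, `locUniq_of_solOn`, `locUniq_flow`, ...: Newtonian worlds satisfy it.
-/

set_option autoImplicit false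

open Set Filter Topology
open Crest.AnalysisR.Kinetic
open Crest.Agent.R122.Flow671 Crest.Agent.R122.Loc45

namespace Crest.Agent.R122.Causal291

/-- Local uniqueness with shared neighbours: on `[a, b]` every particle outside the group (embedded
by `e₁`, `e₂`) and outside the set of shared neighbours (embedded by `f₁`, `f₂`, with equal paths in
both worlds) keeps distance at least `ε` from the group, in both worlds; equal states of the group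
at time `a` imply equal states on `[a, b]`. -/
def LocUniq2 {ι₁ ι₂ : Type*} (ε T : ℝ) (z₁ : ℝ → ι₁ → PhasePoint) (z₂ : ℝ → ι₂ → PhasePoint) :
    Prop :=
  ∀ (κ υ : Type) [Finite κ] [Finite υ] (e₁ : κ → ι₁) (e₂ : κ → ι₂) (f₁ : υ → ι₁) (f₂ : υ → ι₂)
    (a b : ℝ), Function.Injective (Sum.elim e₁ f₁) → Function.Injective (Sum.elim e₂ f₂) →
    0 ≤ a → a ≤ b → b ≤ T →
    (∀ s ∈ Icc a b, ∀ k, ∀ j, j ∉ range e₁ → j ∉ range f₁ → ε ≤ dist (z₁ s (e₁ k)).1 (z₁ s j).1) →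
    (∀ s ∈ Icc a b, ∀ k, ∀ j, j ∉ range e₂ → j ∉ range f₂ → ε ≤ dist (z₂ s (e₂ k)).1 (z₂ s j).1) →
    (∀ s ∈ Icc a b, ∀ u, z₁ s (f₁ u) = z₂ s (f₂ u)) →
    (∀ k, z₁ a (e₁ k) = z₂ a (e₂ k)) → ∀ s ∈ Icc a b, ∀ k, z₁ s (e₁ k) = z₂ s (e₂ k)

theorem LocUniq2.locUniq {ι₁ ι₂ : Type*} {ε T : ℝ} {z₁ : ℝ → ι₁ → PhasePoint}
    {z₂ : ℝ → ι₂ → PhasePoint} (h : LocUniq2 ε T z₁ z₂) : LocUniq ε T z₁ z₂ := by
  intro κ _ e₁ e₂ a b he₁ he₂ ha hab hb h1 h2 h0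
  have hi₁ : Function.Injective (Sum.elim e₁ (fun x : PEmpty => x.elim)) := by
    rintro (x | x) (y | y) hxy
    · exact congrArg Sum.inl (he₁ hxy)
    all_goals first | exact x.elim | exact y.elim
  have hi₂ : Function.Injective (Sum.elim e₂ (fun x : PEmpty => x.elim)) := by
    rintro (x | x) (y | y) hxy
    · exact congrArg Sum.inl (he₂ hxy)
    all_goals first | exact x.elim | exact y.elim
  exact h κ PEmpty e₁ e₂ (fun x => x.elim) (fun x => x.elim) a b hi₁ hi₂ ha hab hb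
    (fun s hs k j hj _ => h1 s hs k j hj) (fun s hs k j hj _ => h2 s hs k j hj)
    (fun _ _ u => u.elim) h0

theorem LocUniq2.symm {ι₁ ι₂ : Type*} {ε T : ℝ} {z₁ : ℝ → ι₁ → PhasePoint}
    {z₂ : ℝ → ι₂ → PhasePoint} (h : LocUniq2 ε T z₁ z₂) : LocUniq2 ε T z₂ z₁ := by
  intro κ υ _ _ e₁ e₂ f₁ f₂ a b he₁ he₂ ha hab hb h1 h2 h3 h0 s hs k
  exact (h κ υ e₂ e₁ f₂ f₁ a b he₂ he₁ ha hab hb h2 h1 (fun s hs u => (h3 s hs u).symm)
    (fun k => (h0 k).symm) s hs k).symm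

section newton

variable {Φ : Space3 → ℝ} {ε : ℝ}

/-- Force on a group together with shared neighbours. -/
theorem nf_elim_apply {ι : Type*} [Fintype ι] (hΦ : AdmissiblePotential Φ) (hε : 0 < ε)
    {κ υ : Type*} [Fintype κ] [Fintype υ] (e : κ → ι) (f : υ → ι)
    (hi : Function.Injective (Sum.elim e f)) (Z : ι → PhasePoint) (k : κ)
    (hfar : ∀ j, j ∉ range e → j ∉ range f → ε ≤ dist (Z (e k)).1 (Z j).1) :
    nf Φ ε (Sum.elim (fun k => Z (e k)) (fun u => Z (f u))) (Sum.inl k) = nf Φ ε Z (e k) := by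
  have h := nf_comp_apply hΦ hε ⟨Sum.elim e f, hi⟩ Z (Sum.inl k) (by
    intro j hj
    refine hfar j ?_ ?_
    · rintro ⟨l, rfl⟩; exact hj ⟨Sum.inl l, rfl⟩
    · rintro ⟨l, rfl⟩; exact hj ⟨Sum.inr l, rfl⟩)
  have h2 : (fun x : κ ⊕ υ => Z ((⟨Sum.elim e f, hi⟩ : κ ⊕ υ ↪ ι) x)) =
      Sum.elim (fun k => Z (e k)) (fun u => Z (f u)) := by
    funext x
    rcases x with x | x <;> rfl
  rw [h2] at h
  exact h

theorem dom_comp {ι κ : Type*} {Z : ι → PhasePoint} (hZ : Z ∈ Dom Φ ι) {e : κ → ι}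
    (he : Function.Injective e) : (fun k => Z (e k)) ∈ Dom Φ κ := by
  rcases hZ with h | h
  · exact Or.inl h
  · exact Or.inr fun i j hij => h _ _ fun h' => hij (he h')

/-- Newtonian worlds satisfy local uniqueness with shared neighbours. -/
theorem locUniq2_of_solOn {ι₁ ι₂ : Type*} [Fintype ι₁] [Fintype ι₂] (hΦ : AdmissiblePotential Φ)
    (hε : 0 < ε) {T : ℝ} {z₁ : ℝ → ι₁ → PhasePoint} {z₂ : ℝ → ι₂ → PhasePoint}
    (h₁ : SolOn Φ ε z₁ (Icc 0 T)) (h₂ : SolOn Φ ε z₂ (Icc 0 T))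
    (hd₁ : ∀ s ∈ Icc 0 T, z₁ s ∈ Dom Φ ι₁) (hd₂ : ∀ s ∈ Icc 0 T, z₂ s ∈ Dom Φ ι₂) :
    LocUniq2 ε T z₁ z₂ := by
  intro κ υ _ _ e₁ e₂ f₁ f₂ a b he₁ he₂ ha hab hb hf₁ hf₂ hu h0 s hs k
  have := Fintype.ofFinite κ
  have := Fintype.ofFinite υ
  have hsub : Icc a b ⊆ Icc 0 T := Icc_subset_Icc ha hb
  -- the two curves of the group
  set γ₁ : ℝ → κ → PhasePoint := fun s k => z₁ s (e₁ k) with hγ₁
  set γ₂ : ℝ → κ → PhasePoint := fun s k => z₂ s (e₂ k) with hγ₂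
  set u : ℝ → υ → PhasePoint := fun s x => z₁ s (f₁ x) with hudef
  have c₁ : ContinuousOn z₁ (Icc a b) := h₁.continuousOn.mono hsub
  have c₂ : ContinuousOn z₂ (Icc a b) := h₂.continuousOn.mono hsub
  have cγ₁ : ContinuousOn γ₁ (Icc a b) := continuousOn_pi.2 fun k => continuousOn_pi.1 c₁ (e₁ k)
  have cγ₂ : ContinuousOn γ₂ (Icc a b) := continuousOn_pi.2 fun k => continuousOn_pi.1 c₂ (e₂ k)
  have cu : ContinuousOn u (Icc a b) := continuousOn_pi.2 fun k => continuousOn_pi.1 c₁ (f₁ k)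
  -- the time dependent field
  let v : ℝ → (κ → PhasePoint) → κ → PhasePoint :=
    fun s Z k => nf Φ ε (Sum.elim Z (u s)) (Sum.inl k)
  have hcomb₁ : ContinuousOn (fun s => (Sum.elim (γ₁ s) (u s) : κ ⊕ υ → PhasePoint)) (Icc a b) := by
    refine continuousOn_pi.2 fun x => ?_
    rcases x with x | x
    · exact continuousOn_pi.1 cγ₁ x
    · exact continuousOn_pi.1 cu x
  have hcomb₂ : ContinuousOn (fun s => (Sum.elim (γ₂ s) (u s) : κ ⊕ υ → PhasePoint)) (Icc a b) := by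
    refine continuousOn_pi.2 fun x => ?_
    rcases x with x | x
    · exact continuousOn_pi.1 cγ₂ x
    · exact continuousOn_pi.1 cu x
  set K : Set (κ ⊕ υ → PhasePoint) := (fun s => Sum.elim (γ₁ s) (u s)) '' Icc a b ∪
    (fun s => Sum.elim (γ₂ s) (u s)) '' Icc a b with hK
  have hKc : IsCompact K := (isCompact_Icc.image_of_continuousOn hcomb₁).union
    (isCompact_Icc.image_of_continuousOn hcomb₂)
  have hKU : K ⊆ Dom Φ (κ ⊕ υ) := by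
    rintro x (⟨s, hs, rfl⟩ | ⟨s, hs, rfl⟩)
    · have := dom_comp (hd₁ s (hsub hs)) he₁
      convert this using 1
      funext x
      rcases x with x | x <;> rfl
    · have := dom_comp (hd₂ s (hsub hs)) he₂
      convert this using 1
      funext x
      rcases x with x | x
      · rfl
      · exact hu s hs x
  obtain ⟨C, hC⟩ := ((complete (ι := κ ⊕ υ) hΦ hε).lip.mono hKU).exists_lipschitzOnWith_of_compact
    hKc
  have hlip : ∀ s ∈ Ico a b, LipschitzOnWith C (v s) {γ₁ s, γ₂ s} := by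
    intro s hs
    have hs' : s ∈ Icc a b := Ico_subset_Icc_self hs
    have hmem : ∀ Z ∈ ({γ₁ s, γ₂ s} : Set (κ → PhasePoint)), (Sum.elim Z (u s) : κ ⊕ υ → _) ∈ K := by
      rintro Z (rfl | rfl)
      · exact Or.inl ⟨s, hs', rfl⟩
      · exact Or.inr ⟨s, hs', rfl⟩
    refine LipschitzOnWith.of_dist_le_mul fun Z hZ W hW => ?_
    have h1 := hC.dist_le_mul _ (hmem Z hZ) _ (hmem W hW)
    have h2 : dist (v s Z) (v s W) ≤
        dist (nf Φ ε (Sum.elim Z (u s))) (nf Φ ε (Sum.elim W (u s))) := by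
      rw [dist_pi_le_iff dist_nonneg]
      intro k
      exact dist_le_pi_dist (nf Φ ε (Sum.elim Z (u s))) (nf Φ ε (Sum.elim W (u s))) (Sum.inl k)
    have h3 : dist (Sum.elim Z (u s) : κ ⊕ υ → PhasePoint) (Sum.elim W (u s)) ≤ dist Z W := by
      rw [dist_pi_le_iff dist_nonneg]
      rintro (x | x)
      · exact dist_le_pi_dist Z W x
      · simp only [Sum.elim_inr, dist_self]; exact dist_nonneg
    exact h2.trans (h1.trans (mul_le_mul_of_nonneg_left h3 C.2))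
  have hder₁ : ∀ s ∈ Ico a b, HasDerivWithinAt γ₁ (v s (γ₁ s)) (Ici s) s := by
    intro s hs
    have hs' : s ∈ Icc a b := Ico_subset_Icc_self hs
    have h3 : HasDerivWithinAt z₁ (nf Φ ε (z₁ s)) (Ici s) s := by
      refine ((h₁ s (hsub hs')).mono hsub).mono_of_mem_nhdsWithin ?_
      exact mem_of_superset (Icc_mem_nhdsGE hs.2) (Icc_subset_Icc_left hs.1)
    rw [hasDerivWithinAt_pi]
    intro k
    have h4 := (hasDerivWithinAt_pi.1 h3) (e₁ k)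
    rw [← nf_elim_apply hΦ hε e₁ f₁ he₁ (z₁ s) k (hf₁ s hs' k)] at h4
    exact h4
  have hder₂ : ∀ s ∈ Ico a b, HasDerivWithinAt γ₂ (v s (γ₂ s)) (Ici s) s := by
    intro s hs
    have hs' : s ∈ Icc a b := Ico_subset_Icc_self hs
    have h3 : HasDerivWithinAt z₂ (nf Φ ε (z₂ s)) (Ici s) s := by
      refine ((h₂ s (hsub hs')).mono hsub).mono_of_mem_nhdsWithin ?_
      exact mem_of_superset (Icc_mem_nhdsGE hs.2) (Icc_subset_Icc_left hs.1)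
    rw [hasDerivWithinAt_pi]
    intro k
    have h4 := (hasDerivWithinAt_pi.1 h3) (e₂ k)
    rw [← nf_elim_apply hΦ hε e₂ f₂ he₂ (z₂ s) k (hf₂ s hs' k)] at h4
    have h5 : (fun x => z₂ s (f₂ x)) = u s := funext fun x => (hu s hs' x).symm
    rw [h5] at h4
    exact h4
  have key := ODE_solution_unique_of_mem_Icc_right (v := v) (s := fun s => {γ₁ s, γ₂ s}) (K := C)
    hlip cγ₁ hder₁ (fun s _ => Or.inl rfl) cγ₂ hder₂ (fun s _ => Or.inr rfl)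
    (by funext k; exact h0 k) hs
  exact congrFun key k

theorem locUniq_of_solOn {ι₁ ι₂ : Type*} [Fintype ι₁] [Fintype ι₂] (hΦ : AdmissiblePotential Φ)
    (hε : 0 < ε) {T : ℝ} {z₁ : ℝ → ι₁ → PhasePoint} {z₂ : ℝ → ι₂ → PhasePoint}
    (h₁ : SolOn Φ ε z₁ (Icc 0 T)) (h₂ : SolOn Φ ε z₂ (Icc 0 T))
    (hd₁ : ∀ s ∈ Icc 0 T, z₁ s ∈ Dom Φ ι₁) (hd₂ : ∀ s ∈ Icc 0 T, z₂ s ∈ Dom Φ ι₂) :
    LocUniq ε T z₁ z₂ :=
  (locUniq2_of_solOn hΦ hε h₁ h₂ hd₁ hd₂).locUniq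

/-- The path family of the flow. -/
noncomputable def pth {ι : Type*} [Fintype ι] (Φ : Space3 → ℝ) (ε : ℝ) (Z : ι → PhasePoint) :
    ℝ → ι → PhasePoint := fun s => flow Φ ε s Z

theorem solOn_pth {ι : Type*} [Fintype ι] (hΦ : AdmissiblePotential Φ) (hε : 0 < ε)
    {Z : ι → PhasePoint} (hZ : Z ∈ Dom Φ ι) (S : Set ℝ) : SolOn Φ ε (pth Φ ε Z) S :=
  SolOn.of_hasDerivAt fun t => flow_hasDerivAt hΦ hε hZ t

theorem continuous_pth {ι : Type*} [Fintype ι] (hΦ : AdmissiblePotential Φ) (hε : 0 < ε)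
    (Z : ι → PhasePoint) (j : ι) : Continuous fun s => pth Φ ε Z s j :=
  (continuous_apply j).comp (flow_continuous_time hΦ hε Z)

theorem locUniq2_pth {ι₁ ι₂ : Type*} [Fintype ι₁] [Fintype ι₂] (hΦ : AdmissiblePotential Φ)
    (hε : 0 < ε) (T : ℝ) {Z₁ : ι₁ → PhasePoint} {Z₂ : ι₂ → PhasePoint} (h₁ : Z₁ ∈ Dom Φ ι₁)
    (h₂ : Z₂ ∈ Dom Φ ι₂) : LocUniq2 ε T (pth Φ ε Z₁) (pth Φ ε Z₂) :=
  locUniq2_of_solOn hΦ hε (solOn_pth hΦ hε h₁ _) (solOn_pth hΦ hε h₂ _)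
    (fun s _ => flow_mem hΦ hε h₁ s) (fun s _ => flow_mem hΦ hε h₂ s)

theorem locUniq_pth {ι₁ ι₂ : Type*} [Fintype ι₁] [Fintype ι₂] (hΦ : AdmissiblePotential Φ)
    (hε : 0 < ε) (T : ℝ) {Z₁ : ι₁ → PhasePoint} {Z₂ : ι₂ → PhasePoint} (h₁ : Z₁ ∈ Dom Φ ι₁)
    (h₂ : Z₂ ∈ Dom Φ ι₂) : LocUniq ε T (pth Φ ε Z₁) (pth Φ ε Z₂) :=
  (locUniq2_pth hΦ hε T h₁ h₂).locUniq

/-- Contact sets of continuous paths are closed. -/
theorem isClosed_ct {ι : Type*} {z : ℝ → ι → PhasePoint} (hz : ∀ j, Continuous fun s => z s j)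
    (j k : ι) : IsClosed {s | Ct z ε s j k} :=
  isClosed_le ((hz j).fst.dist (hz k).fst) continuous_const

theorem isClosed_ct_pth {ι : Type*} [Fintype ι] (hΦ : AdmissiblePotential Φ) (hε : 0 < ε)
    (Z : ι → PhasePoint) (j k : ι) : IsClosed {s | Ct (pth Φ ε Z) ε s j k} :=
  isClosed_ct (continuous_pth hΦ hε Z) j k

end newton

/-! ### Alteration times -/

section alter

variable {ι₁ ι₂ κ : Type} {z₁ : ℝ → ι₁ → PhasePoint} {z₂ : ℝ → ι₂ → PhasePoint} {e₁ : κ → ι₁}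
  {e₂ : κ → ι₂} {ε T : ℝ}

/-- The common particle `k` has different states in the two worlds at time `s`. -/
def Diff (z₁ : ℝ → ι₁ → PhasePoint) (z₂ : ℝ → ι₂ → PhasePoint) (e₁ : κ → ι₁) (e₂ : κ → ι₂)
    (s : ℝ) (k : κ) : Prop := z₁ s (e₁ k) ≠ z₂ s (e₂ k)

/-- `θ` is the alteration time of `k`: equal states on `[0, θ]`, different states at times
arbitrarily close after `θ`. -/
structure IsAltTime (z₁ : ℝ → ι₁ → PhasePoint) (z₂ : ℝ → ι₂ → PhasePoint) (e₁ : κ → ι₁)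
    (e₂ : κ → ι₂) (θ : ℝ) (k : κ) : Prop where
  nonneg : 0 ≤ θ
  agree : ∀ s ∈ Icc 0 θ, z₁ s (e₁ k) = z₂ s (e₂ k)
  differ : ∀ δ > 0, ∃ s, θ < s ∧ s < θ + δ ∧ z₁ s (e₁ k) ≠ z₂ s (e₂ k)

theorem IsAltTime.unique {θ θ' : ℝ} {k : κ} (h : IsAltTime z₁ z₂ e₁ e₂ θ k)
    (h' : IsAltTime z₁ z₂ e₁ e₂ θ' k) : θ = θ' := by
  rcases lt_trichotomy θ θ' with h1 | h1 | h1
  · obtain ⟨s, hs1, hs2, hs3⟩ := h.differ (θ' - θ) (by linarith)
    exact absurd (h'.agree s ⟨h.nonneg.trans hs1.le, by linarith⟩) hs3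
  · exact h1
  · obtain ⟨s, hs1, hs2, hs3⟩ := h'.differ (θ - θ') (by linarith)
    exact absurd (h.agree s ⟨h'.nonneg.trans hs1.le, by linarith⟩) hs3

theorem IsAltTime.lt_of_diff {θ s : ℝ} {k : κ} (h : IsAltTime z₁ z₂ e₁ e₂ θ k) (hs : 0 ≤ s)
    (hd : z₁ s (e₁ k) ≠ z₂ s (e₂ k)) : θ < s := by
  by_contra hle
  push Not at hle
  exact hd (h.agree s ⟨hs, hle⟩)

/-- A particle with equal initial states which differs at time `s ≤ T` has an alteration time less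
than `s`. -/
theorem exists_altTime (hz₁ : ∀ j, ContinuousOn (fun s => z₁ s j) (Icc 0 T))
    (hz₂ : ∀ j, ContinuousOn (fun s => z₂ s j) (Icc 0 T)) {k : κ}
    (h0 : z₁ 0 (e₁ k) = z₂ 0 (e₂ k)) {s : ℝ} (hs : s ∈ Icc 0 T)
    (hd : z₁ s (e₁ k) ≠ z₂ s (e₂ k)) : ∃ θ, IsAltTime z₁ z₂ e₁ e₂ θ k ∧ θ < s := by
  set S : Set ℝ := {r | r ∈ Icc 0 s ∧ ∀ r' ∈ Icc 0 r, z₁ r' (e₁ k) = z₂ r' (e₂ k)} with hS
  have hne : (0 : ℝ) ∈ S := ⟨⟨le_rfl, hs.1⟩, fun r' hr' => by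
    rw [le_antisymm hr'.2 hr'.1]; exact h0⟩
  have hbdd : BddAbove S := ⟨s, fun r hr => hr.1.2⟩
  set θ := sSup S with hθ
  have hθ0 : 0 ≤ θ := le_csSup hbdd hne
  have hθs : θ ≤ s := csSup_le ⟨0, hne⟩ fun r hr => hr.1.2
  have hθT : θ ∈ Icc 0 T := ⟨hθ0, hθs.trans hs.2⟩
  have hlt : ∀ r, 0 ≤ r → r < θ → z₁ r (e₁ k) = z₂ r (e₂ k) := by
    intro r hr hrθ
    obtain ⟨r', hr', hrr'⟩ := exists_lt_of_lt_csSup ⟨0, hne⟩ hrθ
    exact hr'.2 r ⟨hr, hrr'.le⟩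
  have hat : z₁ θ (e₁ k) = z₂ θ (e₂ k) := by
    rcases eq_or_lt_of_le hθ0 with h1 | h1
    · rw [← h1]; exact h0
    · -- limit from the left
      have hcl : (𝓝[Ioo 0 θ] θ).NeBot := by
        apply mem_closure_iff_nhdsWithin_neBot.1
        rw [closure_Ioo h1.ne]
        exact ⟨hθ0, le_rfl⟩
      have hsub : Ioo 0 θ ⊆ Icc 0 T := fun r hr => ⟨hr.1.le, hr.2.le.trans hθT.2⟩
      have t₁ := (hz₁ (e₁ k) θ hθT).mono hsub
      have t₂ := (hz₂ (e₂ k) θ hθT).mono hsub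
      refine tendsto_nhds_unique (l := 𝓝[Ioo 0 θ] θ) t₁ ?_
      refine t₂.congr' ?_
      filter_upwards [self_mem_nhdsWithin] with r hr
      exact (hlt r hr.1.le hr.2).symm
  have hagree : ∀ r ∈ Icc 0 θ, z₁ r (e₁ k) = z₂ r (e₂ k) := by
    intro r hr
    rcases lt_or_eq_of_le hr.2 with h1 | h1
    · exact hlt r hr.1 h1
    · rw [h1]; exact hat
  have hθs' : θ < s := lt_of_le_of_ne hθs (by rintro h1; rw [h1] at hat; exact hd hat)
  refine ⟨θ, ⟨hθ0, hagree, fun δ hδ => ?_⟩, hθs'⟩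
  by_contra hno
  push Not at hno
  set r := min (θ + δ / 2) s with hr
  have hr1 : θ < r := lt_min (by linarith) hθs'
  have hr2 : r < θ + δ := (min_le_left _ _).trans_lt (by linarith)
  have hrS : r ∈ S := by
    refine ⟨⟨hθ0.trans hr1.le, min_le_right _ _⟩, fun r' hr' => ?_⟩
    rcases le_or_gt r' θ with h1 | h1
    · exact hagree r' ⟨hr'.1, h1⟩
    · exact hno r' h1 (hr'.2.trans_lt hr2)
  exact absurd (le_csSup hbdd hrS) (not_le.2 hr1)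

/-- Alteration chains: every link is a contact, in one of the two worlds, AT the alteration time of
the later particle, with a particle which is not common or with a particle whose own alteration
time is not larger. -/
inductive AltCh (z₁ : ℝ → ι₁ → PhasePoint) (z₂ : ℝ → ι₂ → PhasePoint) (e₁ : κ → ι₁)
    (e₂ : κ → ι₂) (ε : ℝ) : ℝ → κ → Prop
  | new₁ {θ : ℝ} {k : κ} (h : IsAltTime z₁ z₂ e₁ e₂ θ k) (j : ι₁) (hj : j ∉ range e₁)
      (hc : Ct z₁ ε θ j (e₁ k)) : AltCh z₁ z₂ e₁ e₂ ε θ k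
  | new₂ {θ : ℝ} {k : κ} (h : IsAltTime z₁ z₂ e₁ e₂ θ k) (j : ι₂) (hj : j ∉ range e₂)
      (hc : Ct z₂ ε θ j (e₂ k)) : AltCh z₁ z₂ e₁ e₂ ε θ k
  | chain₁ {θ θ' : ℝ} {k l : κ} (h : IsAltTime z₁ z₂ e₁ e₂ θ k)
      (hl : AltCh z₁ z₂ e₁ e₂ ε θ' l) (hθ : θ' ≤ θ) (hc : Ct z₁ ε θ (e₁ l) (e₁ k)) :
      AltCh z₁ z₂ e₁ e₂ ε θ k
  | chain₂ {θ θ' : ℝ} {k l : κ} (h : IsAltTime z₁ z₂ e₁ e₂ θ k)
      (hl : AltCh z₁ z₂ e₁ e₂ ε θ' l) (hθ : θ' ≤ θ) (hc : Ct z₂ ε θ (e₂ l) (e₂ k)) :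
      AltCh z₁ z₂ e₁ e₂ ε θ k

theorem AltCh.isAltTime {θ : ℝ} {k : κ} (h : AltCh z₁ z₂ e₁ e₂ ε θ k) :
    IsAltTime z₁ z₂ e₁ e₂ θ k := by
  cases h with
  | new₁ h _ _ _ => exact h
  | new₂ h _ _ _ => exact h
  | chain₁ h _ _ _ => exact h
  | chain₂ h _ _ _ => exact h

theorem AltCh.fut {θ : ℝ} {k : κ} (h : AltCh z₁ z₂ e₁ e₂ ε θ k) :
    Fut z₁ z₂ e₁ e₂ ε θ k := by
  induction h with
  | new₁ h j hj hc => exact .new₁ j hj hc h.nonneg le_rfl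
  | new₂ h j hj hc => exact .new₂ j hj hc h.nonneg le_rfl
  | chain₁ h hl hθ hc ih => exact .chain₁ (ih.mono hθ) hc le_rfl
  | chain₂ h hl hθ hc ih => exact .chain₂ (ih.mono hθ) hc le_rfl

/-- **Alteration chains exist.** If all common particles have equal initial states, then every
particle with an alteration time less than `T` is at the end of an alteration chain. -/
theorem altCh_of_isAltTime [Finite ι₁] [Finite ι₂] [Finite κ]
    (hz₁ : ∀ j, ContinuousOn (fun s => z₁ s j) (Icc 0 T))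
    (hz₂ : ∀ j, ContinuousOn (fun s => z₂ s j) (Icc 0 T))
    (hloc : LocUniq2 ε T z₁ z₂) (he₁ : Function.Injective e₁) (he₂ : Function.Injective e₂)
    (h0 : ∀ k, z₁ 0 (e₁ k) = z₂ 0 (e₂ k)) {θ : ℝ} {k : κ} (h : IsAltTime z₁ z₂ e₁ e₂ θ k)
    (hθT : θ < T) : AltCh z₁ z₂ e₁ e₂ ε θ k := by
  classical
  by_contra hk
  -- bad particles
  let B : Set (κ × ℝ) := {p | IsAltTime z₁ z₂ e₁ e₂ p.2 p.1 ∧ p.2 < T ∧
    ¬ AltCh z₁ z₂ e₁ e₂ ε p.2 p.1}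
  have hBfin : B.Finite := by
    have hinj : Set.InjOn Prod.fst B := by
      rintro ⟨k, θ⟩ hp ⟨k', θ'⟩ hp' hkk'
      simp only at hkk'
      subst hkk'
      have h5 : θ = θ' := hp.1.unique hp'.1
      rw [h5]
    exact Set.Finite.of_finite_image (Set.toFinite _) hinj
  have hBne : B.Nonempty := ⟨(k, θ), h, hθT, hk⟩
  obtain ⟨⟨k₀, θ₀⟩, hp₀, hmin⟩ := hBfin.exists_minimalFor Prod.snd B hBne
  have hmin' : ∀ k' θ', IsAltTime z₁ z₂ e₁ e₂ θ' k' → θ' < θ₀ → AltCh z₁ z₂ e₁ e₂ ε θ' k' := by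
    intro k' θ' h' hlt
    by_contra hno
    have := hmin (j := (k', θ')) ⟨h', hlt.trans hp₀.2.1, hno⟩ hlt.le
    exact absurd hlt (not_lt.2 this)
  have hθ₀ : 0 ≤ θ₀ := hp₀.1.nonneg
  have hθ₀T : θ₀ < T := hp₀.2.1
  -- the three groups
  let G : Set κ := {l | IsAltTime z₁ z₂ e₁ e₂ θ₀ l ∧ ¬ AltCh z₁ z₂ e₁ e₂ ε θ₀ l}
  let D : Set κ := {l | ∃ θ', θ' ≤ θ₀ ∧ AltCh z₁ z₂ e₁ e₂ ε θ' l}
  let U : Set κ := (G ∪ D)ᶜ
  have hk₀ : k₀ ∈ G := ⟨hp₀.1, hp₀.2.2⟩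
  -- every particle of `U` agrees a bit beyond `θ₀`
  have hU : ∀ l ∈ U, ∃ δ > 0, ∀ s ∈ Icc 0 (θ₀ + δ), s ≤ T → z₁ s (e₁ l) = z₂ s (e₂ l) := by
    intro l hl
    by_cases hex : ∃ s ∈ Icc 0 T, z₁ s (e₁ l) ≠ z₂ s (e₂ l)
    · obtain ⟨s, hs, hd⟩ := hex
      obtain ⟨θ', hθ', hθ's⟩ := exists_altTime hz₁ hz₂ (h0 l) hs hd
      have hlt : θ₀ < θ' := by
        by_contra hle
        push Not at hle
        rcases lt_or_eq_of_le hle with h1 | h1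
        · exact hl (Or.inr ⟨θ', hle, hmin' l θ' hθ' h1⟩)
        · subst h1
          by_cases hA : AltCh z₁ z₂ e₁ e₂ ε θ' l
          · exact hl (Or.inr ⟨θ', le_rfl, hA⟩)
          · exact hl (Or.inl ⟨hθ', hA⟩)
      refine ⟨θ' - θ₀, by linarith, fun s hs _ => hθ'.agree s ⟨hs.1, by linarith [hs.2]⟩⟩
    · push Not at hex
      exact ⟨1, one_pos, fun s hs hsT => hex s ⟨hs.1, hsT⟩⟩
  choose! δU hδU hU using hU
  -- common `δ` for `U`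
  have hδ : ∃ δ > 0, ∀ l ∈ U, δ ≤ δU l := by
    by_cases hUe : U.Nonempty
    · obtain ⟨l₀, hl₀, hmin₀⟩ := (Set.toFinite U).exists_minimalFor δU U hUe
      refine ⟨δU l₀, hδU l₀ hl₀, fun l hl => ?_⟩
      rcases le_total (δU l₀) (δU l) with h1 | h1
      · exact h1
      · exact hmin₀ hl h1
    · exact ⟨1, one_pos, fun l hl => absurd ⟨l, hl⟩ hUe⟩
  obtain ⟨δ₀, hδ₀, hδ₀U⟩ := hδ
  -- strict isolation of `G` from everything outside `G ∪ U` at time `θ₀`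
  have hGD₁ : ∀ x ∈ e₁ '' G, ∀ j ∈ (e₁ '' (G ∪ U))ᶜ, ε < dist (z₁ θ₀ x).1 (z₁ θ₀ j).1 := by
    rintro _ ⟨l, hl, rfl⟩ j hj
    by_contra hle
    push Not at hle
    have hc : Ct z₁ ε θ₀ j (e₁ l) := Ct.symm hle
    by_cases hjr : j ∈ range e₁
    · obtain ⟨m, rfl⟩ := hjr
      have hm : m ∈ D := by
        by_contra hmD
        refine hj ⟨m, ?_, rfl⟩
        by_cases hmG : m ∈ G
        · exact Or.inl hmG
        · exact Or.inr fun hmGD => hmGD.elim hmG hmD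
      obtain ⟨θ', hθ', hm'⟩ := hm
      exact hl.2 (.chain₁ hl.1 hm' hθ' hc)
    · exact hl.2 (.new₁ hl.1 j hjr hc)
  have hGD₂ : ∀ x ∈ e₂ '' G, ∀ j ∈ (e₂ '' (G ∪ U))ᶜ, ε < dist (z₂ θ₀ x).1 (z₂ θ₀ j).1 := by
    rintro _ ⟨l, hl, rfl⟩ j hj
    by_contra hle
    push Not at hle
    have hc : Ct z₂ ε θ₀ j (e₂ l) := Ct.symm hle
    by_cases hjr : j ∈ range e₂
    · obtain ⟨m, rfl⟩ := hjr
      have hm : m ∈ D := by
        by_contra hmD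
        refine hj ⟨m, ?_, rfl⟩
        by_cases hmG : m ∈ G
        · exact Or.inl hmG
        · exact Or.inr fun hmGD => hmGD.elim hmG hmD
      obtain ⟨θ', hθ', hm'⟩ := hm
      exact hl.2 (.chain₂ hl.1 hm' hθ' hc)
    · exact hl.2 (.new₂ hl.1 j hjr hc)
  obtain ⟨δ₁, hδ₁, hδ₁T, hi₁⟩ := exists_isolated (ε := ε) hz₁ ⟨hθ₀, hθ₀T⟩ _ _ hGD₁
  obtain ⟨δ₂, hδ₂, hδ₂T, hi₂⟩ := exists_isolated (ε := ε) hz₂ ⟨hθ₀, hθ₀T⟩ _ _ hGD₂
  set δ := min δ₀ (min δ₁ δ₂) with hδdef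
  have hδpos : 0 < δ := lt_min hδ₀ (lt_min hδ₁ hδ₂)
  have hle₀ : δ ≤ δ₀ := min_le_left _ _
  have hle₁ : δ ≤ δ₁ := (min_le_right _ _).trans (min_le_left _ _)
  have hle₂ : δ ≤ δ₂ := (min_le_right _ _).trans (min_le_right _ _)
  have hGU : Disjoint G U := by
    rw [Set.disjoint_left]
    intro l hl hl'
    exact hl' (Or.inl hl)
  have hinj : ∀ {ι : Type} (e : κ → ι), Function.Injective e →
      Function.Injective (Sum.elim (fun l : G => e l) (fun l : U => e l)) := by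
    intro ι e he
    rintro (⟨x, hx⟩ | ⟨x, hx⟩) (⟨y, hy⟩ | ⟨y, hy⟩) hxy
    · have := he hxy; subst this; rfl
    · have : x = y := he hxy
      subst this
      exact absurd hy (Set.disjoint_left.1 hGU hx)
    · have : x = y := he hxy
      subst this
      exact absurd hx (Set.disjoint_left.1 hGU hy)
    · have := he hxy; subst this; rfl
  have key := hloc G U (fun l => e₁ l) (fun l => e₂ l) (fun l => e₁ l) (fun l => e₂ l)
    θ₀ (θ₀ + δ) (hinj e₁ he₁) (hinj e₂ he₂) hθ₀ (by linarith) (by linarith)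
    (fun s hs l j hj hj' => (hi₁ s ⟨hs.1, hs.2.trans (by linarith)⟩ _ ⟨l, l.2, rfl⟩ j (by
      rintro ⟨m, hm | hm, rfl⟩
      · exact hj ⟨⟨m, hm⟩, rfl⟩
      · exact hj' ⟨⟨m, hm⟩, rfl⟩)).le)
    (fun s hs l j hj hj' => (hi₂ s ⟨hs.1, hs.2.trans (by linarith)⟩ _ ⟨l, l.2, rfl⟩ j (by
      rintro ⟨m, hm | hm, rfl⟩
      · exact hj ⟨⟨m, hm⟩, rfl⟩
      · exact hj' ⟨⟨m, hm⟩, rfl⟩)).le)
    (fun s hs l => hU l l.2 s ⟨hθ₀.trans hs.1, hs.2.trans (by linarith [hδ₀U l l.2])⟩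
      (hs.2.trans (by linarith)))
    (fun l => l.2.1.agree θ₀ ⟨hθ₀, le_rfl⟩)
  obtain ⟨s, hs1, hs2, hs3⟩ := hp₀.1.differ δ hδpos
  exact hs3 (key s ⟨hs1.le, hs2.le⟩ ⟨k₀, hk₀⟩)

/-- Every particle which differs at some time `s ≤ T` is at the end of an alteration chain, with
alteration time less than `s`. -/
theorem exists_altCh [Finite ι₁] [Finite ι₂] [Finite κ]
    (hz₁ : ∀ j, ContinuousOn (fun s => z₁ s j) (Icc 0 T))
    (hz₂ : ∀ j, ContinuousOn (fun s => z₂ s j) (Icc 0 T))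
    (hloc : LocUniq2 ε T z₁ z₂) (he₁ : Function.Injective e₁) (he₂ : Function.Injective e₂)
    (h0 : ∀ k, z₁ 0 (e₁ k) = z₂ 0 (e₂ k)) {s : ℝ} (hs : s ∈ Icc 0 T) {k : κ}
    (hd : z₁ s (e₁ k) ≠ z₂ s (e₂ k)) : ∃ θ < s, AltCh z₁ z₂ e₁ e₂ ε θ k := by
  obtain ⟨θ, hθ, hθs⟩ := exists_altTime hz₁ hz₂ (h0 k) hs hd
  exact ⟨θ, hθs, altCh_of_isAltTime hz₁ hz₂ hloc he₁ he₂ h0 hθ (hθs.trans_le hs.2)⟩

end alter

end Crest.Agent.R122.Causal291
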