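import Crest.Agent.R122.VolNewton_365
import Crest.Agent.R122.CausalNewton_291

/-!
Row 122, helper365: Gaussian form of the crude cluster volume bound, and the density bound of the
root of undamped clusters.
-/

set_option autoImplicit false

open MeasureTheory Set
open Crest.AnalysisR.Kinetic
open Crest.Agent.R122.Flow671 Crest.Agent.R122.Loc45 Crest.Agent.R122.Causal291
open scoped ENNReal Classical

noncomputable section

namespace Crest.Agent.R122.Vol365

/-- A Gaussian in the velocity of a phase point. -/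
def gw (γ : ℝ) (y : PhasePoint) : ℝ≥0∞ := ENNReal.ofReal (Real.exp (-(γ * ‖y.2‖ ^ 2)))

theorem measurable_gw (γ : ℝ) : Measurable (gw γ) := by
  unfold gw
  fun_prop

namespace Bodies

variable {ε B : ℝ} (S : Bodies ε B) {ι : Type} [Fintype ι]

/-- The law of the root of a connected configuration of energy at most `E` is dominated. -/
theorem map_root_le {k : ℕ} {C : ℝ≥0∞} {q : ℕ} (hBd : Bd k C q) {E V T : ℝ} (hε : ε ≤ 1)
    (hV : 1 ≤ V) (hT : 1 ≤ T) (hEV : 2 * (E + B * k * (k + 1)) ≤ V ^ 2)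
    (hk : Fintype.card ι = k) (i : ι) {a b : ℝ} (ha : a ≤ 0) (hb : 0 ≤ b) (hab : b - a ≤ T) :
    Measure.map (fun z : ι → PhasePoint => z i) (volume.restrict (S.SSet ι a b E i univ)) ≤
      (C * ENNReal.ofReal (V * T) ^ q * ENNReal.ofReal ε ^ (2 * (k - 1))) • volume := by
  refine Measure.le_iff.2 fun A hA => ?_
  rw [Measure.map_apply (measurable_pi_apply i) hA,
    Measure.restrict_apply (measurable_pi_apply i hA)]
  have : (fun z : ι → PhasePoint => z i) ⁻¹' A ∩ S.SSet ι a b E i univ = S.SSet ι a b E i A := by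
    ext z; constructor
    · rintro ⟨h, h1, h2, h3, -⟩; exact ⟨h1, h2, h3, h⟩
    · rintro ⟨h1, h2, h3, h⟩; exact ⟨h, h1, h2, h3, trivial⟩
  rw [this, Measure.smul_apply, smul_eq_mul]
  have := (hBd ε B S k E V T hε hV hT hEV ι hk.le hk.le i A hA a b ha hb hab).1
  rwa [hk] at this

theorem lintegral_root_le {k : ℕ} {C : ℝ≥0∞} {q : ℕ} (hBd : Bd k C q) {E V T : ℝ} (hε : ε ≤ 1)
    (hV : 1 ≤ V) (hT : 1 ≤ T) (hEV : 2 * (E + B * k * (k + 1)) ≤ V ^ 2)
    (hk : Fintype.card ι = k) (i : ι) {a b : ℝ} (ha : a ≤ 0) (hb : 0 ≤ b) (hab : b - a ≤ T)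
    {F : PhasePoint → ℝ≥0∞} (hF : Measurable F) :
    ∫⁻ z in S.SSet ι a b E i univ, F (z i) ≤
      (C * ENNReal.ofReal (V * T) ^ q * ENNReal.ofReal ε ^ (2 * (k - 1))) * ∫⁻ y, F y := by
  rw [← lintegral_map hF (measurable_pi_apply i)]
  refine (lintegral_mono' (S.map_root_le hBd hε hV hT hEV hk i ha hb hab) (le_refl F)).trans ?_
  rw [lintegral_smul_measure, smul_eq_mul]

/-- The energy level of a configuration. -/
def lvl (z : ι → PhasePoint) : ℕ := ⌈S.energy ι z + B * Fintype.card ι⌉₊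

theorem measurable_lvl : Measurable (S.lvl (ι := ι)) :=
  Nat.measurable_ceil.comp ((S.energy_meas ι).add_const _)

theorem energy_nonneg' {z : ι → PhasePoint} (hz : z ∈ S.dom ι) (i : ι) :
    ‖(z i).2‖ ^ 2 ≤ 2 * (S.energy ι z + B * Fintype.card ι) := S.vel_le ι z hz i

theorem le_lvl (z : ι → PhasePoint) : S.energy ι z + B * Fintype.card ι ≤ S.lvl z := Nat.le_ceil _

theorem lvl_lt {z : ι → PhasePoint} (hz : z ∈ S.dom ι) (i : ι) :
    (S.lvl z : ℝ) < S.energy ι z + B * Fintype.card ι + 1 := by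
  have h := S.energy_nonneg' hz i
  exact Nat.ceil_lt_add_one (by nlinarith [sq_nonneg ‖(z i).2‖])

end Bodies

/-- The constant of the Gaussian bound. -/
def Cg (B γ T : ℝ) (k : ℕ) (C : ℝ≥0∞) (q : ℕ) : ℝ≥0∞ :=
  ∑' n : ℕ, ENNReal.ofReal (Real.exp (γ * (1 + B * k)) * Real.exp (-(γ / 2 * n))) *
    (C * ENNReal.ofReal ((1 + 2 * n + 2 * B * k * k) * T) ^ q)

theorem Cg_ne_top {B γ T : ℝ} (hB : 0 ≤ B) (hγ : 0 < γ) (hT : 0 ≤ T) (k : ℕ) {C : ℝ≥0∞}
    (hC : C ≠ ∞) (q : ℕ) : Cg B γ T k C q ≠ ∞ := by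
  have h1 : ∀ n : ℕ, ENNReal.ofReal (Real.exp (γ * (1 + B * k)) * Real.exp (-(γ / 2 * n))) *
      (C * ENNReal.ofReal ((1 + 2 * n + 2 * B * k * k) * T) ^ q) =
      C * ENNReal.ofReal (Real.exp (γ * (1 + B * k)) * (Real.exp (-(γ / 2 * n)) *
        ((1 + 2 * n + 2 * B * k * k) * T) ^ q)) := by
    intro n
    rw [← ENNReal.ofReal_pow (by positivity), mul_left_comm,
      ← ENNReal.ofReal_mul (by positivity), mul_assoc]
  unfold Cg
  simp_rw [h1]
  rw [ENNReal.tsum_mul_left]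
  refine ENNReal.mul_ne_top hC ?_
  rw [← ENNReal.ofReal_tsum_of_nonneg (fun n => by positivity)]
  · exact ENNReal.ofReal_ne_top
  · refine Summable.mul_left _ ?_
    -- compare with `n^q * exp(-γ/2 n)`
    have hs : Summable fun n : ℕ => (n : ℝ) ^ q * Real.exp (-(γ / 2)) ^ n :=
      summable_pow_mul_geometric_of_norm_lt_one q (by
        rw [Real.norm_eq_abs, abs_of_pos (Real.exp_pos _)]
        exact Real.exp_lt_one_iff.2 (by linarith))
    set D : ℝ := 3 + 2 * B * k * k with hD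
    have hD0 : 0 ≤ D := by positivity
    refine Summable.of_norm_bounded_eventually_nat (g := fun n : ℕ =>
      (D * T) ^ q * ((n : ℝ) ^ q * Real.exp (-(γ / 2)) ^ n)) (hs.mul_left _) ?_
    filter_upwards [Filter.eventually_ge_atTop 1] with n hn
    have hn' : (1 : ℝ) ≤ n := by exact_mod_cast hn
    rw [Real.norm_eq_abs, abs_of_nonneg (by positivity), ← Real.exp_nat_mul]
    have h2 : (1 + 2 * (n : ℝ) + 2 * B * k * k) * T ≤ D * T * n := by
      have h3 : (1 + 2 * (n : ℝ) + 2 * B * k * k) ≤ D * n := by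
        have : 2 * B * k * k ≤ 2 * B * k * k * n := le_mul_of_one_le_right (by positivity) hn'
        rw [hD]; linarith
      calc (1 + 2 * (n : ℝ) + 2 * B * k * k) * T ≤ D * n * T := mul_le_mul_of_nonneg_right h3 hT
        _ = D * T * n := by ring
    calc Real.exp (-(γ / 2 * n)) * ((1 + 2 * (n : ℝ) + 2 * B * k * k) * T) ^ q
        ≤ Real.exp (-(γ / 2 * n)) * (D * T * n) ^ q := by
          refine mul_le_mul_of_nonneg_left (pow_le_pow_left₀ (by positivity) h2 q) (Real.exp_pos _).le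
      _ = (D * T) ^ q * ((n : ℝ) ^ q * Real.exp (n * -(γ / 2))) := by
          rw [mul_pow, show -(γ / 2 * (n : ℝ)) = n * -(γ / 2) by ring]; ring

namespace Bodies

variable {ε B : ℝ} (S : Bodies ε B) {ι : Type} [Fintype ι]

/-- **Gaussian form**, root observed at time `0`. -/
theorem gauss_conn0 {k : ℕ} {C : ℝ≥0∞} {q : ℕ} (hBd : Bd k C q) {γ T : ℝ} (hγ : 0 < γ) (hε : ε ≤ 1)
    (hT : 1 ≤ T) (hk : Fintype.card ι = k) (i : ι) {a b : ℝ} (ha : a ≤ 0) (hb : 0 ≤ b)
    (hab : b - a ≤ T) {F : PhasePoint → ℝ≥0∞} (hF : Measurable F) :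
    ∫⁻ z in {z : ι → PhasePoint | z ∈ S.dom ι ∧ AllConn (S.Contact a b z)},
        ENNReal.ofReal (Real.exp (-(γ * S.energy ι z))) * F (z i) ≤
      Cg B γ T k C q * ENNReal.ofReal ε ^ (2 * (k - 1)) * ∫⁻ y, gw (γ / 4) y * F y := by
  have hB := S.B_nonneg
  set W : Set (ι → PhasePoint) := {z : ι → PhasePoint | z ∈ S.dom ι ∧ AllConn (S.Contact a b z)}
    with hW
  have hWm : MeasurableSet W := measurableSet_rel (S.dom_meas ι) (fun z => S.Contact a b z)
      (fun i j => S.measurableSet_contact a b i j) AllConn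
  have hUn : W = ⋃ n : ℕ, (W ∩ S.lvl ⁻¹' {n}) := by
    ext z; simp
  have hbound : ∀ n : ℕ, ∫⁻ z in W ∩ S.lvl ⁻¹' {n},
        ENNReal.ofReal (Real.exp (-(γ * S.energy ι z))) * F (z i) ≤
      ENNReal.ofReal (Real.exp (γ * (1 + B * k)) * Real.exp (-(γ / 2 * n))) *
        (C * ENNReal.ofReal ((1 + 2 * n + 2 * B * k * k) * T) ^ q) *
        (ENNReal.ofReal ε ^ (2 * (k - 1)) * ∫⁻ y, gw (γ / 4) y * F y) := by
    intro n
    have hsub : W ∩ S.lvl ⁻¹' {n} ⊆ S.SSet ι a b ((n : ℝ) - B * k) i univ := by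
      rintro z ⟨⟨h1, h2⟩, h3⟩
      refine ⟨h1, ?_, h2, trivial⟩
      have := S.le_lvl z
      rw [show S.lvl z = n from h3, hk] at this
      linarith
    have hpt : ∀ z ∈ W ∩ S.lvl ⁻¹' {n}, ENNReal.ofReal (Real.exp (-(γ * S.energy ι z))) * F (z i) ≤
        ENNReal.ofReal (Real.exp (γ * (1 + B * k)) * Real.exp (-(γ / 2 * n))) *
          (gw (γ / 4) (z i) * F (z i)) := by
      rintro z ⟨⟨h1, h2⟩, h3⟩
      rw [← mul_assoc]
      refine mul_le_mul_left ?_ _
      unfold gw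
      rw [← ENNReal.ofReal_mul (by positivity)]
      refine ENNReal.ofReal_le_ofReal ?_
      rw [← Real.exp_add, ← Real.exp_add]
      refine Real.exp_le_exp.2 ?_
      have h4 := S.lvl_lt h1 i
      have h5 := S.energy_nonneg' h1 i
      have h6 := S.le_lvl z
      rw [show S.lvl z = n from h3, hk] at h4 h6
      rw [hk] at h5
      have h7 : ‖(z i).2‖ ^ 2 ≤ 2 * n := by linarith
      nlinarith
    calc ∫⁻ z in W ∩ S.lvl ⁻¹' {n}, ENNReal.ofReal (Real.exp (-(γ * S.energy ι z))) * F (z i)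
        ≤ ∫⁻ z in W ∩ S.lvl ⁻¹' {n},
            ENNReal.ofReal (Real.exp (γ * (1 + B * k)) * Real.exp (-(γ / 2 * n))) *
          (gw (γ / 4) (z i) * F (z i)) :=
          setLIntegral_mono' (hWm.inter (S.measurable_lvl (measurableSet_singleton n))) hpt
      _ ≤ ∫⁻ z in S.SSet ι a b ((n : ℝ) - B * k) i univ,
            ENNReal.ofReal (Real.exp (γ * (1 + B * k)) * Real.exp (-(γ / 2 * n))) *
          (gw (γ / 4) (z i) * F (z i)) := lintegral_mono_set hsub
      _ = ENNReal.ofReal (Real.exp (γ * (1 + B * k)) * Real.exp (-(γ / 2 * n))) *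
            ∫⁻ z in S.SSet ι a b ((n : ℝ) - B * k) i univ, (gw (γ / 4) (z i) * F (z i)) :=
          lintegral_const_mul _ (((measurable_gw _).mul hF).comp (measurable_pi_apply i))
      _ ≤ ENNReal.ofReal (Real.exp (γ * (1 + B * k)) * Real.exp (-(γ / 2 * n))) *
            ((C * ENNReal.ofReal ((1 + 2 * n + 2 * B * k * k) * T) ^ q *
              ENNReal.ofReal ε ^ (2 * (k - 1))) * ∫⁻ y, gw (γ / 4) y * F y) := by
          refine mul_le_mul_right ?_ _
          refine S.lintegral_root_le hBd hε (V := 1 + 2 * n + 2 * B * k * k) ?_ hT ?_ hk i ha hb hab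
            (F := fun y => gw (γ / 4) y * F y) ((measurable_gw _).mul hF)
          · have : 0 ≤ 2 * B * k * k := by positivity
            have : (0 : ℝ) ≤ 2 * n := by positivity
            linarith
          · have h0 : 0 ≤ (n : ℝ) + B * k * k := by positivity
            nlinarith
      _ = _ := by ring
  rw [hUn]
  refine (lintegral_iUnion_le _ _).trans ?_
  refine (ENNReal.tsum_le_tsum hbound).trans ?_
  rw [ENNReal.tsum_mul_right]
  unfold Cg
  exact (mul_assoc _ _ _).symm.le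

/-- **Gaussian form**, root observed at an arbitrary time of the window. -/
theorem gauss_conn {k : ℕ} {C : ℝ≥0∞} {q : ℕ} (hBd : Bd k C q) {γ T : ℝ} (hγ : 0 < γ) (hε : ε ≤ 1)
    (hT : 1 ≤ T) (hk : Fintype.card ι = k) (i : ι) {a b τ : ℝ} (ha : a ≤ τ) (hb : τ ≤ b)
    (hab : b - a ≤ T) {F : PhasePoint → ℝ≥0∞} (hF : Measurable F) :
    ∫⁻ z in {z : ι → PhasePoint | z ∈ S.dom ι ∧ AllConn (S.Contact a b z)},
        ENNReal.ofReal (Real.exp (-(γ * S.energy ι z))) * F (S.flow ι τ z i) ≤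
      Cg B γ T k C q * ENNReal.ofReal ε ^ (2 * (k - 1)) * ∫⁻ y, gw (γ / 4) y * F y := by
  have hWm : ∀ a b, MeasurableSet {z : ι → PhasePoint | z ∈ S.dom ι ∧ AllConn (S.Contact a b z)} :=
    fun a b => measurableSet_rel (S.dom_meas ι) (fun z => S.Contact a b z)
      (fun i j => S.measurableSet_contact a b i j) AllConn
  set G : (ι → PhasePoint) → ℝ≥0∞ :=
    {z : ι → PhasePoint | z ∈ S.dom ι ∧ AllConn (S.Contact (a - τ) (b - τ) z)}.indicator
      (fun z => ENNReal.ofReal (Real.exp (-(γ * S.energy ι z))) * F (z i)) with hG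
  have hGm : Measurable G := by
    refine Measurable.indicator ?_ (hWm _ _)
    have := S.energy_meas ι
    have h2 : Measurable fun z : ι → PhasePoint => F (z i) := hF.comp (measurable_pi_apply i)
    exact (by fun_prop : Measurable fun z => ENNReal.ofReal (Real.exp (-(γ * S.energy ι z)))).mul h2
  have h1 : ∫⁻ z in {z : ι → PhasePoint | z ∈ S.dom ι ∧ AllConn (S.Contact a b z)},
        ENNReal.ofReal (Real.exp (-(γ * S.energy ι z))) * F (S.flow ι τ z i) ≤
      ∫⁻ z, G (S.flow ι τ z) := by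
    rw [← lintegral_indicator (hWm a b)]
    refine lintegral_mono fun z => ?_
    by_cases hz : z ∈ {z : ι → PhasePoint | z ∈ S.dom ι ∧ AllConn (S.Contact a b z)}
    · rw [indicator_of_mem hz, hG, indicator_of_mem]
      · rw [S.energy_flow ι τ z hz.1]
      · refine ⟨S.flow_dom ι τ z hz.1, ?_⟩
        have : S.Contact (a - τ) (b - τ) (S.flow ι τ z) = S.Contact a b z := by
          ext u v; exact S.contact_shift hz.1 a b τ u v
        rw [this]; exact hz.2
    · rw [indicator_of_notMem hz]; exact bot_le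
  refine h1.trans ?_
  rw [(S.flow_mp ι τ).lintegral_comp hGm, hG, lintegral_indicator (hWm _ _)]
  exact S.gauss_conn0 hBd hγ hε hT hk i (by linarith) (by linarith) (by linarith) hF

end Bodies

end Crest.Agent.R122.Vol365
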