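import Crest.Agent.R122.GCBounds_311
import Crest.Agent.R122.LocFlow_45
import Crest.Agent.R122.VolGauss_365

/-!
# Row 122, D5g (helper416), part 1: translation averaging and invariant measurable majorants

* `mtp` : mass transport identity `∫ V ∫ a F (V, V + a) = ∫ V ∫ a F (V + a, V)` on configurations.
* `lintegral_pin_avg`, `lintegral_pin`, `lintegral_unpin` : change of pinning.
* `BadVol γ K Bad` : the volume statement of D5 (measurable pinned majorant, ANY covariant pin).
* `exists_badSet : BadVol γ K Bad → (covariance) → BadSet γ K Bad` : ONE family of measurable sets,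
  invariant under translations and covariant under permutations, which contain the bad
  configurations and have pinned Gaussian mass `o(ε^(2(k-1)))`.
-/

set_option autoImplicit false
set_option linter.unusedSectionVars false

open MeasureTheory Set Filter Topology
open Crest.AnalysisR.Kinetic
open Crest.Agent.R122.Loc45 Crest.Agent.R122.Vol365 Crest.Agent.R122.GC311
open scoped ENNReal Classical

noncomputable section

namespace Crest.Agent.R122.NG416

variable {ι : Type*} [Fintype ι]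

/-! ## Translations -/

instance instAddInvPhasePoint : (volume : Measure PhasePoint).IsAddLeftInvariant := by
  change ((volume : Measure Space3).prod (volume : Measure Space3)).IsAddLeftInvariant
  infer_instance

theorem shiftX_eq_add (a : Space3) (V : ι → PhasePoint) :
    shiftX a V = V + fun _ : ι => ((a, 0) : PhasePoint) := by
  funext i
  exact Prod.ext rfl (add_zero _).symm

theorem lintegral_shiftX (a : Space3) (F : (ι → PhasePoint) → ℝ≥0∞) :
    ∫⁻ V, F (shiftX a V) = ∫⁻ V, F V := by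
  simp_rw [shiftX_eq_add]
  exact lintegral_add_right_eq_self F _

theorem shiftX_shiftX (a b : Space3) (V : ι → PhasePoint) :
    shiftX a (shiftX b V) = shiftX (b + a) V := by
  funext i
  exact Prod.ext (add_assoc _ _ _) rfl

theorem shiftX_neg (a : Space3) (V : ι → PhasePoint) : shiftX a (shiftX (-a) V) = V := by
  rw [shiftX_shiftX, neg_add_cancel]
  funext i
  exact Prod.ext (add_zero _) rfl

theorem shiftX_zero (V : ι → PhasePoint) : shiftX 0 V = V := by
  funext i
  exact Prod.ext (add_zero _) rfl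

theorem measurable_shiftX2 :
    Measurable fun p : Space3 × (ι → PhasePoint) => shiftX p.1 p.2 := by
  refine measurable_pi_iff.2 fun i => ?_
  have h : Measurable fun p : Space3 × (ι → PhasePoint) => p.2 i :=
    (measurable_pi_apply i).comp measurable_snd
  exact (h.fst.add measurable_fst).prodMk h.snd

theorem measurable_shiftX (a : Space3) : Measurable (shiftX a : (ι → PhasePoint) → ι → PhasePoint) :=
  measurable_shiftX2.comp (measurable_const.prodMk measurable_id)

instance instSFiniteFam : SFinite (volume : Measure (ι → PhasePoint)) := by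
  change SFinite (Measure.pi fun _ : ι => (volume : Measure PhasePoint))
  infer_instance

/-- **Mass transport identity.** -/
theorem mtp {F : (ι → PhasePoint) → (ι → PhasePoint) → ℝ≥0∞}
    (hF : Measurable fun p : (ι → PhasePoint) × (ι → PhasePoint) => F p.1 p.2) :
    ∫⁻ V, ∫⁻ a, F V (shiftX a V) = ∫⁻ V, ∫⁻ a, F (shiftX a V) V := by
  have m1 : Measurable fun p : (ι → PhasePoint) × Space3 => F p.1 (shiftX p.2 p.1) :=
    hF.comp (measurable_fst.prodMk (measurable_shiftX2.comp measurable_swap))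
  have m2 : Measurable fun p : (ι → PhasePoint) × Space3 => F (shiftX p.2 p.1) p.1 :=
    hF.comp ((measurable_shiftX2.comp measurable_swap).prodMk measurable_fst)
  have s1 := lintegral_lintegral_swap (μ := (volume : Measure (ι → PhasePoint)))
    (ν := (volume : Measure Space3)) (f := fun V a => F V (shiftX a V)) m1.aemeasurable
  have s2 := lintegral_lintegral_swap (μ := (volume : Measure (ι → PhasePoint)))
    (ν := (volume : Measure Space3)) (f := fun V a => F (shiftX a V) V) m2.aemeasurable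
  rw [s1, s2]
  have h1 : ∀ a : Space3, ∫⁻ V, F V (shiftX a V) = ∫⁻ V, F (shiftX (-a) V) V := by
    intro a
    rw [← lintegral_shiftX (-a) fun V => F V (shiftX a V)]
    refine lintegral_congr fun V => ?_
    rw [shiftX_neg]
  simp_rw [h1]
  exact (lintegral_neg_eq_self (μ := (volume : Measure Space3))
    (fun a : Space3 => ∫⁻ V : ι → PhasePoint, F (shiftX a V) V))

/-- Average over translations. -/
def avg (M : (ι → PhasePoint) → ℝ≥0∞) (V : ι → PhasePoint) : ℝ≥0∞ := ∫⁻ a, M (shiftX a V)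

theorem measurable_avg {M : (ι → PhasePoint) → ℝ≥0∞} (hM : Measurable M) : Measurable (avg M) :=
  (hM.comp (measurable_shiftX2.comp measurable_swap)).lintegral_prod_right'

theorem avg_shiftX (M : (ι → PhasePoint) → ℝ≥0∞) (b : Space3) (V : ι → PhasePoint) :
    avg M (shiftX b V) = avg M V := by
  unfold avg
  simp_rw [shiftX_shiftX]
  exact lintegral_add_left_eq_self (fun a => M (shiftX a V)) b

/-- Covariant points of a configuration. -/
def Pin (p : (ι → PhasePoint) → Space3) : Prop :=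
  Measurable p ∧ ∀ a V, p (shiftX a V) = p V + a

theorem pin_apply (i : ι) : Pin fun V : ι → PhasePoint => (V i).1 :=
  ⟨(measurable_pi_apply i).fst, fun _ _ => rfl⟩

/-- Translation invariant functions. -/
def TInv (G : (ι → PhasePoint) → ℝ≥0∞) : Prop := Measurable G ∧ ∀ a V, G (shiftX a V) = G V

theorem TInv.mul {G H : (ι → PhasePoint) → ℝ≥0∞} (hG : TInv G) (hH : TInv H) :
    TInv fun V => G V * H V :=
  ⟨hG.1.mul hH.1, fun a V => by
    change G (shiftX a V) * H (shiftX a V) = _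
    rw [hG.2, hH.2]⟩

theorem TInv.ind {S : Set (ι → PhasePoint)} (hS : MeasurableSet S)
    (h : ∀ a V, shiftX a V ∈ S ↔ V ∈ S) : TInv (S.indicator fun _ => (1 : ℝ≥0∞)) := by
  refine ⟨measurable_const.indicator hS, fun a V => ?_⟩
  by_cases hV : V ∈ S
  · rw [indicator_of_mem hV, indicator_of_mem ((h a V).2 hV)]
  · rw [indicator_of_notMem hV, indicator_of_notMem fun hc => hV ((h a V).1 hc)]

/-- **Unpinning**: the integral of `J * G` with `G` invariant is the pinned integral of the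
translational average of `J`. -/
theorem lintegral_unpin {q : (ι → PhasePoint) → Space3} (hq : Pin q)
    {G : (ι → PhasePoint) → ℝ≥0∞} (hG : TInv G) {J : (ι → PhasePoint) → ℝ≥0∞} (hJ : Measurable J)
    {h : Space3 → ℝ≥0∞} (hh : Measurable h) (h1 : ∫⁻ x, h x = 1) :
    ∫⁻ V, J V * G V = ∫⁻ V, h (q V) * (G V * avg J V) := by
  have key := mtp (F := fun V W => J V * G V * h (q W))
    (((hJ.mul hG.1).comp measurable_fst).mul ((hh.comp hq.1).comp measurable_snd))
  have e1 : ∀ V : ι → PhasePoint, ∫⁻ a, J V * G V * h (q (shiftX a V)) = J V * G V := by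
    intro V
    have hm : Measurable fun a : Space3 => h (q (shiftX a V)) :=
      (hh.comp hq.1).comp (measurable_shiftX2.comp (measurable_id.prodMk measurable_const))
    rw [lintegral_const_mul _ hm]
    have : ∫⁻ a, h (q (shiftX a V)) = 1 := by
      simp_rw [hq.2]
      rw [lintegral_add_left_eq_self (fun a => h a) (q V), h1]
    rw [this, mul_one]
  have e2 : ∀ V : ι → PhasePoint, ∫⁻ a, J (shiftX a V) * G (shiftX a V) * h (q V) =
      h (q V) * (G V * avg J V) := by
    intro V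
    have hm : Measurable fun a : Space3 => J (shiftX a V) :=
      hJ.comp (measurable_shiftX2.comp (measurable_id.prodMk measurable_const))
    simp_rw [hG.2]
    rw [lintegral_mul_const _ (hm.mul_const _), lintegral_mul_const _ hm]
    unfold avg
    ring
  simp_rw [e1, e2] at key
  exact key

/-- pinned integral of an average -/
theorem lintegral_pin_avg {p : (ι → PhasePoint) → Space3} (hp : Pin p)
    {G : (ι → PhasePoint) → ℝ≥0∞} (hG : TInv G) {M : (ι → PhasePoint) → ℝ≥0∞} (hM : Measurable M)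
    {h : Space3 → ℝ≥0∞} (hh : Measurable h) :
    ∫⁻ V, h (p V) * (G V * avg M V) = (∫⁻ x, h x) * ∫⁻ V, G V * M V := by
  have key := mtp (F := fun V W => M V * G V * h (p W))
    (((hM.mul hG.1).comp measurable_fst).mul ((hh.comp hp.1).comp measurable_snd))
  have e1 : ∀ V : ι → PhasePoint, ∫⁻ a, M V * G V * h (p (shiftX a V)) =
      (∫⁻ x, h x) * (G V * M V) := by
    intro V
    have hm : Measurable fun a : Space3 => h (p (shiftX a V)) :=
      (hh.comp hp.1).comp (measurable_shiftX2.comp (measurable_id.prodMk measurable_const))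
    rw [lintegral_const_mul _ hm]
    have : ∫⁻ a, h (p (shiftX a V)) = ∫⁻ x, h x := by
      simp_rw [hp.2]
      exact lintegral_add_left_eq_self (fun a => h a) (p V)
    rw [this]
    ring
  have e2 : ∀ V : ι → PhasePoint, ∫⁻ a, M (shiftX a V) * G (shiftX a V) * h (p V) =
      h (p V) * (G V * avg M V) := by
    intro V
    have hm : Measurable fun a : Space3 => M (shiftX a V) :=
      hM.comp (measurable_shiftX2.comp (measurable_id.prodMk measurable_const))
    simp_rw [hG.2]
    rw [lintegral_mul_const _ (hm.mul_const _), lintegral_mul_const _ hm]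
    unfold avg
    ring
  simp_rw [e1, e2] at key
  rw [← key]
  exact lintegral_const_mul _ (hG.1.mul hM)

/-- **Change of pin** for an invariant function. -/
theorem lintegral_pin {p q : (ι → PhasePoint) → Space3} (hp : Pin p) (hq : Pin q)
    {G : (ι → PhasePoint) → ℝ≥0∞} (hG : TInv G) {h h' : Space3 → ℝ≥0∞} (hh : Measurable h)
    (hh' : Measurable h') (h1 : ∫⁻ x, h' x = 1) :
    ∫⁻ V, h (p V) * G V = (∫⁻ x, h x) * ∫⁻ V, h' (q V) * G V := by
  have k1 := lintegral_pin_avg (G := fun _ : ι → PhasePoint => (1 : ℝ≥0∞)) hp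
    ⟨measurable_const, fun _ _ => rfl⟩ (M := fun V => h' (q V) * G V)
    ((hh'.comp hq.1).mul hG.1) hh
  simp only [one_mul] at k1
  rw [← k1]
  refine lintegral_congr fun V => ?_
  congr 1
  unfold avg
  simp_rw [hG.2, hq.2]
  have hm : Measurable fun a : Space3 => h' (q V + a) :=
    hh'.comp (measurable_const.add measurable_id)
  rw [lintegral_mul_const _ hm, lintegral_add_left_eq_self (fun a => h' a) (q V), h1, one_mul]

/-! ## The reference pin -/

/-- normalised indicator of the unit ball -/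
def hb (x : Space3) : ℝ≥0∞ :=
  (Metric.closedBall (0 : Space3) 1).indicator
    (fun _ => (volume (Metric.closedBall (0 : Space3) 1))⁻¹) x

theorem measurable_hb : Measurable hb :=
  measurable_const.indicator Metric.isClosed_closedBall.measurableSet

theorem volume_ball_pos : volume (Metric.closedBall (0 : Space3) 1) ≠ 0 :=
  (Metric.measure_closedBall_pos volume (0 : Space3) one_pos).ne'

theorem volume_ball_lt_top : volume (Metric.closedBall (0 : Space3) 1) ≠ ∞ :=
  measure_closedBall_lt_top.ne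

theorem lintegral_hb : ∫⁻ x, hb x = 1 := by
  unfold hb
  rw [lintegral_indicator Metric.isClosed_closedBall.measurableSet, lintegral_const,
    Measure.restrict_apply_univ]
  exact ENNReal.inv_mul_cancel volume_ball_pos volume_ball_lt_top

/-! ## Gaussian weights -/

/-- Gaussian weight of a configuration -/
def gwc (γ : ℝ) (V : ι → PhasePoint) : ℝ≥0∞ := ∏ i, gw γ (V i)

theorem measurable_gwc (γ : ℝ) : Measurable (gwc γ : (ι → PhasePoint) → ℝ≥0∞) := by
  unfold gwc
  exact Finset.measurable_prod _ fun i _ => (measurable_gw γ).comp (measurable_pi_apply i)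

theorem gwc_shiftX (γ : ℝ) (a : Space3) (V : ι → PhasePoint) : gwc γ (shiftX a V) = gwc γ V := rfl

theorem tinv_gwc (γ : ℝ) : TInv (gwc γ : (ι → PhasePoint) → ℝ≥0∞) :=
  ⟨measurable_gwc γ, gwc_shiftX γ⟩

theorem gwc_equiv {κ : Type*} [Fintype κ] (γ : ℝ) (e : κ ≃ ι) (V : ι → PhasePoint) :
    gwc γ (fun x => V (e x)) = gwc γ V := by
  unfold gwc
  exact Fintype.prod_equiv e _ _ fun x => rfl

theorem gwc_eq_exp (γ : ℝ) (V : ι → PhasePoint) :
    gwc γ V = ENNReal.ofReal (Real.exp (-(2 * γ * kin V))) := by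
  unfold gwc gw kin
  rw [← ENNReal.ofReal_prod_of_nonneg fun i _ => (Real.exp_pos _).le, ← Real.exp_sum]
  congr 2
  rw [Finset.sum_neg_distrib, ← Finset.mul_sum]
  ring

/-- pinned Gaussian mass of a set of configurations with a marked particle -/
def pm (γ : ℝ) (S : Set (ι → PhasePoint)) (j : ι) : ℝ≥0∞ :=
  ∫⁻ V, hb (V j).1 * (gwc γ V * S.indicator (fun _ => 1) V)

/-! ## Bad families -/

/-- A family of bad configurations with a marked root. -/
abbrev BadFam := ℝ → (k : ℕ) → Config k → Fin k → Prop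

/-- **Volume statement of D5** (input of the gas level): for every size `k ≤ K`, root `j` and
`δ > 0`, for all small `ε` the bad configurations have a measurable majorant `M`, pinned by a
function `h` of total mass at least one at SOME covariant point (`p`, which may depend on `V` in any
way), of Gaussian mass at most `δ ε^(2(k-1))`. -/
def BadVol (γ : ℝ) (K : ℕ) (Bad : BadFam) : Prop :=
  ∀ k ≤ K, ∀ j : Fin k, ∀ δ : ℝ, 0 < δ → ∃ ε₀ : ℝ, 0 < ε₀ ∧ ∀ ε : ℝ, 0 < ε → ε < ε₀ →
    ∃ (h : Space3 → ℝ≥0∞) (M : Config k → ℝ≥0∞), Measurable h ∧ Measurable M ∧ 1 ≤ ∫⁻ x, h x ∧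
      (∀ V ∈ PairExcluded ε k, Bad ε k V j → ∃ p : Space3, ∀ a, h (p + a) ≤ M (shiftX a V)) ∧
      ∫⁻ V, gwc γ V * M V ≤ ENNReal.ofReal (δ * ε ^ (2 * (k - 1)))

/-- Invariant measurable enlargement of a bad family, with small pinned masses. -/
structure BadSet (γ : ℝ) (K : ℕ) (Bad : BadFam) where
  /-- the enlarged bad sets -/
  B : ℝ → (k : ℕ) → Fin k → Set (Config k)
  meas : ∀ ε k j, MeasurableSet (B ε k j)
  shift : ∀ ε k j a V, shiftX a V ∈ B ε k j ↔ V ∈ B ε k j
  perm : ∀ ε k (σ : Equiv.Perm (Fin k)) (j : Fin k) (V : Config k),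
    (fun i => V (σ i)) ∈ B ε k j ↔ V ∈ B ε k (σ j)
  bad : ∀ ε, 0 < ε → ∀ k ≤ K, ∀ V ∈ PairExcluded ε k, ∀ j, Bad ε k V j → V ∈ B ε k j
  small : ∀ k ≤ K, ∀ j, Tendsto
    (fun ε : ℝ => (ENNReal.ofReal (ε ^ (2 * (k - 1))))⁻¹ * pm γ (B ε k j) j) (𝓝[>] 0) (𝓝 0)

/-- Permutation covariance of a bad family. -/
def PermCov (Bad : BadFam) : Prop :=
  ∀ ε k (σ : Equiv.Perm (Fin k)) (j : Fin k) (V : Config k),
    Bad ε k V (σ j) → Bad ε k (fun i => V (σ i)) j

/-- admissible enlargements at fixed `ε` -/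
def Adm (Bad : BadFam) (ε : ℝ) (k : ℕ) (B : Fin k → Set (Config k)) : Prop :=
  (∀ j, MeasurableSet (B j)) ∧ (∀ j a V, shiftX a V ∈ B j ↔ V ∈ B j) ∧
  (∀ (σ : Equiv.Perm (Fin k)) (j : Fin k) (V : Config k), (fun i => V (σ i)) ∈ B j ↔ V ∈ B (σ j)) ∧
  ∀ V ∈ PairExcluded ε k, ∀ j, Bad ε k V j → V ∈ B j

theorem adm_univ (Bad : BadFam) (ε : ℝ) (k : ℕ) : Adm Bad ε k fun _ => univ :=
  ⟨fun _ => MeasurableSet.univ, fun _ _ _ => Iff.rfl, fun _ _ _ => Iff.rfl,
    fun _ _ _ _ => mem_univ _⟩

theorem measurable_relabel {k : ℕ} (σ : Equiv.Perm (Fin k)) :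
    Measurable fun (V : Config k) (i : Fin k) => V (σ i) :=
  measurable_pi_iff.2 fun i => measurable_pi_apply (σ i)

/-- From a pinned majorant for each root to an admissible enlargement. -/
theorem exists_adm {Bad : BadFam} (hcov : PermCov Bad) {γ ε : ℝ} {k : ℕ}
    {h : Fin k → Space3 → ℝ≥0∞} {M : Fin k → Config k → ℝ≥0∞}
    (hM : ∀ j, Measurable (M j)) (h1 : ∀ j, 1 ≤ ∫⁻ x, h j x)
    (hbad : ∀ j, ∀ V ∈ PairExcluded ε k, Bad ε k V j →
      ∃ p : Space3, ∀ a, h j (p + a) ≤ M j (shiftX a V)) :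
    ∃ B : Fin k → Set (Config k), Adm Bad ε k B ∧ ∀ j, pm γ (B j) j ≤ ∫⁻ V, gwc γ V * M j V := by
  set B₀ : Fin k → Set (Config k) := fun j => {V | 1 ≤ avg (M j) V} with hB₀
  have hm0 : ∀ j, MeasurableSet (B₀ j) := fun j =>
    measurableSet_le measurable_const (measurable_avg (hM j))
  have hs0 : ∀ j a V, shiftX a V ∈ B₀ j ↔ V ∈ B₀ j := by
    intro j a V
    simp only [hB₀, mem_ofPred_eq, avg_shiftX]
  have hb0 : ∀ j, ∀ V ∈ PairExcluded ε k, Bad ε k V j → V ∈ B₀ j := by
    intro j V hV hb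
    obtain ⟨p, hp⟩ := hbad j V hV hb
    have : ∫⁻ x, h j x ≤ avg (M j) V := by
      rw [← lintegral_add_left_eq_self (fun a => h j a) p]
      exact lintegral_mono hp
    exact (h1 j).trans this
  refine ⟨fun j => {V | ∀ σ : Equiv.Perm (Fin k), (fun i => V (σ i)) ∈ B₀ (σ.symm j)},
    ⟨fun j => ?_, fun j a V => ?_, fun σ j V => ?_, fun V hV j hb => ?_⟩, fun j => ?_⟩
  · have : {V : Config k | ∀ σ : Equiv.Perm (Fin k), (fun i => V (σ i)) ∈ B₀ (σ.symm j)} =
        ⋂ σ : Equiv.Perm (Fin k), (fun (V : Config k) (i : Fin k) => V (σ i)) ⁻¹' B₀ (σ.symm j) := by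
      ext V; simp
    change MeasurableSet {V : Config k | ∀ σ : Equiv.Perm (Fin k),
      (fun i => V (σ i)) ∈ B₀ (σ.symm j)}
    rw [this]
    exact MeasurableSet.iInter fun σ => measurable_relabel σ (hm0 _)
  · exact forall_congr' fun σ => hs0 (σ.symm j) a fun i => V (σ i)
  · constructor
    · intro hV τ
      have h2 := hV (σ⁻¹ * τ)
      have e1 : (fun i => (fun i => V (σ i)) ((σ⁻¹ * τ) i)) = fun i => V (τ i) := by
        funext i; simp
      have e2 : (σ⁻¹ * τ).symm j = τ.symm (σ j) := by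
        rw [Equiv.symm_apply_eq]; simp
      rw [e1, e2] at h2
      exact h2
    · intro hV τ
      have h2 := hV (σ * τ)
      have e2 : (σ * τ).symm (σ j) = τ.symm j := by
        rw [Equiv.symm_apply_eq]; simp
      rw [e2] at h2
      exact h2
  · intro σ
    refine hb0 _ _ ((pairExcluded_comp_iff σ V).2 hV) ?_
    refine hcov ε k σ _ V ?_
    rwa [Equiv.apply_symm_apply]
  · have hsub : {V : Config k | ∀ σ : Equiv.Perm (Fin k), (fun i => V (σ i)) ∈ B₀ (σ.symm j)} ⊆
        B₀ j := fun V hV => hV 1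
    calc pm γ {V : Config k | ∀ σ : Equiv.Perm (Fin k), (fun i => V (σ i)) ∈ B₀ (σ.symm j)} j
        ≤ ∫⁻ V : Config k, hb (V j).1 * (gwc γ V * avg (M j) V) := by
          refine lintegral_mono fun V => ?_
          refine mul_le_mul_right (mul_le_mul_right ?_ _) _
          by_cases hV : V ∈ {V : Config k | ∀ σ : Equiv.Perm (Fin k),
              (fun i => V (σ i)) ∈ B₀ (σ.symm j)}
          · rw [indicator_of_mem hV]
            exact hsub hV
          · rw [indicator_of_notMem hV]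
            exact zero_le
      _ = ∫⁻ V, gwc γ V * M j V := by
          rw [lintegral_pin_avg (pin_apply j) (tinv_gwc γ) (hM j) measurable_hb, lintegral_hb,
            one_mul]

/-- **The enlarged bad sets.** -/
theorem exists_badSet {Bad : BadFam} (hcov : PermCov Bad) {γ : ℝ} {K : ℕ}
    (h : BadVol γ K Bad) : Nonempty (BadSet γ K Bad) := by
  -- the best constant
  set r : ℝ → ℕ → ℝ≥0∞ := fun ε k => sInf {c : ℝ≥0∞ | ∃ B : Fin k → Set (Config k),
    Adm Bad ε k B ∧ ∀ j, pm γ (B j) j ≤ c * ENNReal.ofReal (ε ^ (2 * (k - 1)))} with hr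
  have hchoose : ∀ (ε : ℝ) (k : ℕ), ∃ B : Fin k → Set (Config k), Adm Bad ε k B ∧
      (0 < ε → r ε k ≠ ∞ → ∀ j, pm γ (B j) j ≤
        (r ε k + ENNReal.ofReal ε) * ENNReal.ofReal (ε ^ (2 * (k - 1)))) := by
    intro ε k
    by_cases hε : 0 < ε ∧ r ε k ≠ ∞
    · have hlt : r ε k < r ε k + ENNReal.ofReal ε :=
        ENNReal.lt_add_right hε.2 (ENNReal.ofReal_pos.2 hε.1).ne'
      obtain ⟨c, ⟨B, hB, hc⟩, hcr⟩ := sInf_lt_iff.1 hlt
      exact ⟨B, hB, fun _ _ j => (hc j).trans (mul_le_mul_left hcr.le _)⟩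
    · exact ⟨fun _ => univ, adm_univ Bad ε k, fun h0 h1 => absurd ⟨h0, h1⟩ hε⟩
  choose B hB hBm using hchoose
  refine ⟨⟨fun ε k j => B ε k j, fun ε k j => (hB ε k).1 j, fun ε k j a V => (hB ε k).2.1 j a V,
    fun ε k σ j V => (hB ε k).2.2.1 σ j V, fun ε _ k _ V hV j hb => (hB ε k).2.2.2 V hV j hb,
    fun k hk j => ?_⟩⟩
  -- smallness of the best constant
  have hsm : Tendsto (fun ε : ℝ => r ε k) (𝓝[>] 0) (𝓝 0) := by
    rw [ENNReal.tendsto_nhds_zero]
    intro δ hδ
    obtain ⟨δ', hδ', hle⟩ : ∃ δ' : ℝ, 0 < δ' ∧ ENNReal.ofReal δ' ≤ δ := by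
      by_cases ht : δ = ∞
      · exact ⟨1, one_pos, ht ▸ le_top⟩
      · exact ⟨δ.toReal, ENNReal.toReal_pos hδ.ne' ht, ENNReal.ofReal_toReal_le⟩
    have h0 : ∀ j : Fin k, ∀ᶠ ε : ℝ in 𝓝[>] 0,
        ∃ (h : Space3 → ℝ≥0∞) (M : Config k → ℝ≥0∞), Measurable h ∧ Measurable M ∧
          1 ≤ ∫⁻ x, h x ∧
          (∀ V ∈ PairExcluded ε k, Bad ε k V j → ∃ p : Space3, ∀ a, h (p + a) ≤ M (shiftX a V)) ∧
          ∫⁻ V, gwc γ V * M V ≤ ENNReal.ofReal (δ' * ε ^ (2 * (k - 1))) := by
      intro j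
      obtain ⟨ε₀, hε₀, hh⟩ := h k hk j δ' hδ'
      filter_upwards [Ioo_mem_nhdsGT hε₀] with ε hε
      exact hh ε hε.1 hε.2
    filter_upwards [eventually_all.2 h0, self_mem_nhdsWithin] with ε hε hε0
    choose h' M' hh' hM' h1' hbad' hint' using hε
    obtain ⟨B', hB', hpm'⟩ := exists_adm hcov (γ := γ) hM' h1' hbad'
    refine le_trans ?_ hle
    refine sInf_le ⟨B', hB', fun j => (hpm' j).trans ((hint' j).trans (le_of_eq ?_))⟩
    rw [ENNReal.ofReal_mul hδ'.le]
  have hsum : Tendsto (fun ε : ℝ => r ε k + ENNReal.ofReal ε) (𝓝[>] 0) (𝓝 0) := by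
    have h2 : Tendsto (fun ε : ℝ => ENNReal.ofReal ε) (𝓝[>] 0) (𝓝 0) := by
      have := (ENNReal.continuous_ofReal.tendsto (0 : ℝ)).mono_left
        (nhdsWithin_le_nhds (s := Ioi (0 : ℝ)))
      simpa using this
    simpa using hsm.add h2
  refine tendsto_of_tendsto_of_tendsto_of_le_of_le' tendsto_const_nhds hsum
    (Eventually.of_forall fun _ => zero_le) ?_
  have hfin : ∀ᶠ ε : ℝ in 𝓝[>] 0, r ε k ≠ ∞ := by
    filter_upwards [(ENNReal.tendsto_nhds_zero.1 hsm) 1 one_pos] with ε hε
    exact (hε.trans_lt ENNReal.one_lt_top).ne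
  filter_upwards [hfin, self_mem_nhdsWithin] with ε hε hε0
  have hε0' : (0 : ℝ) < ε := hε0
  have hp : ENNReal.ofReal (ε ^ (2 * (k - 1))) ≠ 0 := (ENNReal.ofReal_pos.2 (by positivity)).ne'
  calc (ENNReal.ofReal (ε ^ (2 * (k - 1))))⁻¹ * pm γ (B ε k j) j
      ≤ (ENNReal.ofReal (ε ^ (2 * (k - 1))))⁻¹ *
        ((r ε k + ENNReal.ofReal ε) * ENNReal.ofReal (ε ^ (2 * (k - 1)))) :=
        mul_le_mul_right (hBm ε k hε0' hε j) _
    _ = r ε k + ENNReal.ofReal ε := by
        rw [mul_comm (r ε k + _), ← mul_assoc,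
          ENNReal.inv_mul_cancel hp ENNReal.ofReal_ne_top, one_mul]

/-- Simple form of the input: pinned at the root. -/
theorem badVol_of_root {Bad : BadFam} {γ : ℝ} {K : ℕ}
    (htr : ∀ ε k j a V, Bad ε k V j → Bad ε k (shiftX a V) j)
    (h : ∀ k ≤ K, ∀ j : Fin k, ∀ δ : ℝ, 0 < δ → ∃ ε₀ : ℝ, 0 < ε₀ ∧ ∀ ε : ℝ, 0 < ε → ε < ε₀ →
      ∃ M : Config k → ℝ≥0∞, Measurable M ∧
        (∀ V ∈ PairExcluded ε k, Bad ε k V j → ‖(V j).1‖ ≤ 1 → 1 ≤ M V) ∧
        ∫⁻ V, gwc γ V * M V ≤ ENNReal.ofReal (δ * ε ^ (2 * (k - 1)))) :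
    BadVol γ K Bad := by
  intro k hk j δ hδ
  set c : ℝ≥0∞ := (volume (Metric.closedBall (0 : Space3) 1))⁻¹ with hc
  have hct : c ≠ ∞ := ENNReal.inv_ne_top.2 volume_ball_pos
  have hc0 : c ≠ 0 := ENNReal.inv_ne_zero.2 volume_ball_lt_top
  have hcr : 0 < c.toReal := ENNReal.toReal_pos hc0 hct
  obtain ⟨ε₀, hε₀, hh⟩ := h k hk j (δ / c.toReal) (div_pos hδ hcr)
  refine ⟨ε₀, hε₀, fun ε he he' => ?_⟩
  obtain ⟨M, hM, hbad, hint⟩ := hh ε he he'
  refine ⟨hb, fun V => c * M V, measurable_hb, hM.const_mul c, lintegral_hb.ge,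
    fun V hV hb' => ⟨(V j).1, fun a => ?_⟩, ?_⟩
  · unfold hb
    by_cases hm : (V j).1 + a ∈ Metric.closedBall (0 : Space3) 1
    · rw [indicator_of_mem hm]
      have hx : shiftX a V ∈ PairExcluded ε k := by
        intro i i' hii
        have := hV i i' hii
        change ε < dist ((V i).1 + a) ((V i').1 + a)
        rwa [dist_add_right]
      have h1 : 1 ≤ M (shiftX a V) := by
        refine hbad _ hx (htr ε k j a V hb') ?_
        rw [Metric.mem_closedBall, dist_zero_right] at hm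
        exact hm
      calc c = c * 1 := (mul_one c).symm
        _ ≤ c * M (shiftX a V) := mul_le_mul_right h1 c
    · rw [indicator_of_notMem hm]
      exact zero_le
  · have e : ∀ V : Config k, gwc γ V * (c * M V) = c * (gwc γ V * M V) := fun V => by ring
    simp_rw [e]
    have hcm : ∫⁻ V : Config k, c * (gwc γ V * M V) = c * ∫⁻ V : Config k, gwc γ V * M V :=
      lintegral_const_mul _ ((measurable_gwc γ).mul hM)
    rw [hcm]
    refine (mul_le_mul_right hint c).trans (le_of_eq ?_)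
    rw [← ENNReal.ofReal_toReal hct, ← ENNReal.ofReal_mul hcr.le, ENNReal.toReal_ofReal hcr.le]
    congr 1
    field_simp

end Crest.Agent.R122.NG416

end
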