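import Crest.Agent.R122.BoltzFrame_814

/-!
Row 122, Boltzmann side (helper814): Gaussian integrals on `Space3`.
-/

set_option autoImplicit false

open MeasureTheory ProbabilityTheory
open Crest.AnalysisR.Kinetic
open scoped ENNReal Classical

noncomputable section

namespace Crest.Agent.R122.Boltz814

lemma integrable_gauss {γ : ℝ} (hγ : 0 < γ) :
    Integrable (fun w : Space3 => Real.exp (-γ * ‖w‖ ^ 2)) := by
  have h := GaussianFourier.integrable_cexp_neg_mul_sq_norm_add (V := Space3) (b := (γ : ℂ))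
    (by simpa using hγ) 0 0
  have h2 := h.norm
  refine h2.congr (Filter.Eventually.of_forall fun w => ?_)
  simp only [Complex.norm_exp]
  congr 1
  simp [← Complex.ofReal_pow]

/-- `(1+r)^k exp(-γ r²) ≤ C exp(-(γ/2) r²)`. -/
lemma one_add_pow_mul_exp_le {γ : ℝ} (hγ : 0 < γ) (k : ℕ) {r : ℝ} (hr : 0 ≤ r) :
    (1 + r) ^ k * Real.exp (-γ * r ^ 2) ≤
      Real.exp ((k : ℝ) ^ 2 / (2 * γ)) * Real.exp (-(γ / 2) * r ^ 2) := by
  have h1 : (1 + r) ^ k ≤ Real.exp (k * r) := by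
    have : 1 + r ≤ Real.exp r := by linarith [Real.add_one_le_exp r]
    calc (1 + r) ^ k ≤ (Real.exp r) ^ k := pow_le_pow_left₀ (by linarith) this k
      _ = Real.exp (k * r) := by rw [← Real.exp_nat_mul]
  have h2 : (k : ℝ) * r + -γ * r ^ 2 ≤ (k : ℝ) ^ 2 / (2 * γ) + -(γ / 2) * r ^ 2 := by
    have h3 : (k : ℝ) ^ 2 / (2 * γ) - k * r + (γ / 2) * r ^ 2 =
        (k - γ * r) ^ 2 / (2 * γ) := by field_simp; ring
    have h4 : 0 ≤ ((k : ℝ) - γ * r) ^ 2 / (2 * γ) := by positivity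
    linarith
  calc (1 + r) ^ k * Real.exp (-γ * r ^ 2)
      ≤ Real.exp (k * r) * Real.exp (-γ * r ^ 2) := by gcongr
    _ = Real.exp (k * r + -γ * r ^ 2) := by rw [Real.exp_add]
    _ ≤ Real.exp ((k : ℝ) ^ 2 / (2 * γ) + -(γ / 2) * r ^ 2) := Real.exp_le_exp.2 h2
    _ = _ := by rw [Real.exp_add]

lemma integrable_one_add_pow_mul_gauss {γ : ℝ} (hγ : 0 < γ) (k : ℕ) :
    Integrable (fun w : Space3 => (1 + ‖w‖) ^ k * Real.exp (-γ * ‖w‖ ^ 2)) := by
  have h := (integrable_gauss (half_pos hγ)).const_mul (Real.exp ((k : ℝ) ^ 2 / (2 * γ)))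
  refine h.mono' (by fun_prop) (Filter.Eventually.of_forall fun w => ?_)
  rw [Real.norm_eq_abs, abs_of_nonneg (by positivity)]
  exact one_add_pow_mul_exp_le hγ k (norm_nonneg w)

/-- Moments of the Gaussian. -/
def gaussMoment (γ : ℝ) (k : ℕ) : ℝ :=
  ∫ w : Space3, (1 + ‖w‖) ^ k * Real.exp (-γ * ‖w‖ ^ 2)

lemma gaussMoment_nonneg (γ : ℝ) (k : ℕ) : 0 ≤ gaussMoment γ k :=
  integral_nonneg fun w => by positivity

lemma norm_sub_le_mul (v w : Space3) : ‖v - w‖ ≤ (1 + ‖v‖) * (1 + ‖w‖) := by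
  have h1 := norm_sub_le v w
  nlinarith [norm_nonneg v, norm_nonneg w, mul_nonneg (norm_nonneg v) (norm_nonneg w)]

lemma integrable_norm_sub_mul_gauss {γ : ℝ} (hγ : 0 < γ) (v : Space3) :
    Integrable (fun w : Space3 => ‖v - w‖ * Real.exp (-γ * ‖w‖ ^ 2)) := by
  have h := (integrable_one_add_pow_mul_gauss hγ 1).const_mul (1 + ‖v‖)
  refine h.mono' (by fun_prop) (Filter.Eventually.of_forall fun w => ?_)
  rw [Real.norm_eq_abs, abs_of_nonneg (by positivity), pow_one, ← mul_assoc]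
  gcongr
  exact norm_sub_le_mul v w

lemma lintegral_norm_sub_mul_gauss_le {γ : ℝ} (hγ : 0 < γ) (v : Space3) :
    ∫⁻ w : Space3, ENNReal.ofReal ‖v - w‖ * ENNReal.ofReal (Real.exp (-γ * ‖w‖ ^ 2)) ≤
      ENNReal.ofReal ((1 + ‖v‖) * gaussMoment γ 1) := by
  have h := (integrable_one_add_pow_mul_gauss hγ 1).const_mul (1 + ‖v‖)
  have h2 : (1 + ‖v‖) * gaussMoment γ 1 =
      ∫ w : Space3, (1 + ‖v‖) * ((1 + ‖w‖) ^ 1 * Real.exp (-γ * ‖w‖ ^ 2)) := by
    rw [integral_const_mul]; rfl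
  rw [h2, ofReal_integral_eq_lintegral_ofReal h
    (Filter.Eventually.of_forall fun w => by positivity)]
  refine lintegral_mono fun w => ?_
  rw [← ENNReal.ofReal_mul (norm_nonneg _)]
  refine ENNReal.ofReal_le_ofReal ?_
  rw [pow_one, ← mul_assoc]
  gcongr
  exact norm_sub_le_mul v w

end Crest.Agent.R122.Boltz814

end
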