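import Mathlib
import Crest.Prelude.Def_KineticLimit

/-!
# Virtual contact structures of all sub-worlds (row 122, block VC, part A)

For a finite set `S` of particles every subset `A` evolves as an isolated sub-world.  A *virtual
contact* of `i` and `j` at time `s` is a contact (distance at most `ε`) between the path of `i` in
some sub-world and the path of `j` in some (possibly different) sub-world.

* `Sys.tr_of_conn`: if the virtual contact graph is connected, the set is obtained by successive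
  merges `P ∪ Q` at contact times between sub-worlds of `P` and sub-worlds of `Q`, with no virtual
  contact between `P` and `Q` before (Kruskal order).
-/

set_option autoImplicit false

open MeasureTheory Set
open scoped ENNReal
open Crest.AnalysisR.Kinetic

namespace Crest.Agent.R122.VConn581

/-- The paths of all sub-worlds of one configuration of particles labelled by `S`. -/
structure Sys (S : Type*) [DecidableEq S] (ε T : ℝ) where
  /-- position of a particle of the sub-world `A` at a time -/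
  X : Finset S → ℝ → S → Space3
  /-- the particle exists in the sub-world `A` at this time -/
  al : Finset S → ℝ → S → Prop
  closed : ∀ A B i j, i ∈ A → j ∈ B →
    IsClosed {s | s ∈ Icc 0 T ∧ al A s i ∧ al B s j ∧ dist (X A s i) (X B s j) ≤ ε}
  fact : ∀ A B, Disjoint A B → ∀ s ∈ Icc 0 T,
    (∀ u ∈ Ico 0 s, ∀ i ∈ A, ∀ j ∈ B, ¬ (al A u i ∧ al B u j ∧ dist (X A u i) (X B u j) ≤ ε)) →
    ∀ i ∈ A, X (A ∪ B) s i = X A s i ∧ (al (A ∪ B) s i ↔ al A s i)

variable {S : Type*} [DecidableEq S] {ε T : ℝ}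

namespace Sys

variable (W : Sys S ε T)

/-- Contact of `i` in the sub-world `A` with `j` in the sub-world `B` at time `s`. -/
def Ct (A B : Finset S) (i j : S) (s : ℝ) : Prop :=
  i ∈ A ∧ j ∈ B ∧ W.al A s i ∧ W.al B s j ∧ dist (W.X A s i) (W.X B s j) ≤ ε

/-- Virtual contact of `i` and `j` at time `s` through sub-worlds contained in `P`. -/
def VC (P : Finset S) (i j : S) (s : ℝ) : Prop := ∃ A ⊆ P, ∃ B ⊆ P, W.Ct A B i j s

theorem Ct.symm {W : Sys S ε T} {A B : Finset S} {i j : S} {s : ℝ} (h : W.Ct A B i j s) :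
    W.Ct B A j i s :=
  ⟨h.2.1, h.1, h.2.2.2.1, h.2.2.1, by rw [dist_comm]; exact h.2.2.2.2⟩

theorem VC.symm {W : Sys S ε T} {P : Finset S} {i j : S} {s : ℝ} (h : W.VC P i j s) :
    W.VC P j i s := by
  obtain ⟨A, hA, B, hB, h⟩ := h
  exact ⟨B, hB, A, hA, h.symm⟩

theorem VC.mono {W : Sys S ε T} {P Q : Finset S} (hPQ : P ⊆ Q) {i j : S} {s : ℝ}
    (h : W.VC P i j s) : W.VC Q i j s := by
  obtain ⟨A, hA, B, hB, h⟩ := h
  exact ⟨A, hA.trans hPQ, B, hB.trans hPQ, h⟩

/-- `P` is virtually connected before time `s`, by successive merges in the order of first virtual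
contact. -/
inductive Tr : Finset S → ℝ → Prop
  | single (i : S) (s : ℝ) : Tr {i} s
  | merge {P Q A B : Finset S} {i j : S} {s : ℝ} (hP : Tr P s) (hQ : Tr Q s)
      (hd : Disjoint P Q) (hA : A ⊆ P) (hB : B ⊆ Q) (hc : W.Ct A B i j s) (hs : s ∈ Icc 0 T)
      (hno : ∀ u ∈ Ico 0 s, ∀ a ∈ P, ∀ b ∈ Q, ¬ W.VC (P ∪ Q) a b u) : Tr (P ∪ Q) s
  | mono {P : Finset S} {s s' : ℝ} (h : Tr P s) (hss : s ≤ s') : Tr P s'

/-- Restriction to a block: if the particles of `P` outside the block `K` have no virtual contact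
with the block before `s`, then the path in `A ⊆ P` of a particle of `K` is its path in `A ∩ K`. -/
theorem restrict {P K : Finset S} {s : ℝ} (hs : s ∈ Icc 0 T)
    (hno : ∀ u ∈ Ico 0 s, ∀ a ∈ P, a ∈ K → ∀ b ∈ P, b ∉ K → ¬ W.VC P a b u)
    {A : Finset S} (hA : A ⊆ P) {i : S} (hi : i ∈ A) (hiK : i ∈ K) :
    W.X A s i = W.X (A.filter (· ∈ K)) s i ∧ (W.al A s i ↔ W.al (A.filter (· ∈ K)) s i) := by
  have hun : A.filter (· ∈ K) ∪ A.filter (fun k => ¬ k ∈ K) = A := by
    rw [Finset.filter_union_filter_not_eq]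
  have hdis : Disjoint (A.filter (· ∈ K)) (A.filter (fun k => ¬ k ∈ K)) :=
    Finset.disjoint_filter_filter_not _ _ _
  have h := W.fact _ _ hdis s hs ?_ i (Finset.mem_filter.2 ⟨hi, hiK⟩)
  · rw [hun] at h
    exact h
  · rintro u hu a ha b hb ⟨h1, h2, h3⟩
    have ha' := Finset.mem_filter.1 ha
    have hb' := Finset.mem_filter.1 hb
    exact hno u hu a (hA ha'.1) ha'.2 b (hA hb'.1) hb'.2
      ⟨_, (Finset.filter_subset _ _).trans hA, _, (Finset.filter_subset _ _).trans hA,
        ha, hb, h1, h2, h3⟩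

private theorem tr_aux {P : Finset S} (hP : P.Nonempty)
    (hc : ∀ Q ⊆ P, Q.Nonempty → Q ≠ P → ∃ i ∈ Q, ∃ j ∈ P \ Q, ∃ s ∈ Icc 0 T, W.VC P i j s) :
    ∀ (n : ℕ) (c : S → S) (t₀ : ℝ), t₀ ∈ Icc 0 T → (P.image c).card = n →
      (∀ k ∈ P.image c, W.Tr (P.filter (c · = k)) t₀) →
      (∀ u ∈ Ico 0 t₀, ∀ i ∈ P, ∀ j ∈ P, c i ≠ c j → ¬ W.VC P i j u) → W.Tr P T := by
  intro n
  induction n with
  | zero =>
    intro c t₀ _ hcard _ _
    exact absurd (Finset.card_eq_zero.1 hcard) (hP.image c).ne_empty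
  | succ n ih =>
    intro c t₀ ht₀ hcard hblk hno
    by_cases hone : ∀ i ∈ P, ∀ j ∈ P, c i = c j
    · obtain ⟨i₀, hi₀⟩ := hP
      have h1 := hblk (c i₀) (Finset.mem_image_of_mem c hi₀)
      have h2 : P.filter (c · = c i₀) = P := by
        apply Finset.filter_true_of_mem
        exact fun j hj => hone j hj i₀ hi₀
      rw [h2] at h1
      exact h1.mono ht₀.2
    push_neg at hone
    obtain ⟨i₀, hi₀, j₀, hj₀, hij⟩ := hone
    -- the set of cross contact times
    set C : Set ℝ := ⋃ (A ∈ P.powerset) (B ∈ P.powerset) (i ∈ A) (j ∈ B) (_ : c i ≠ c j),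
      {s | s ∈ Icc 0 T ∧ W.al A s i ∧ W.al B s j ∧ dist (W.X A s i) (W.X B s j) ≤ ε} with hC
    have hCmem : ∀ s, s ∈ C ↔ s ∈ Icc 0 T ∧ ∃ A ⊆ P, ∃ B ⊆ P, ∃ i j, c i ≠ c j ∧ W.Ct A B i j s := by
      intro s
      simp only [hC, mem_iUnion, Finset.mem_powerset, mem_setOf_eq, exists_prop, Ct]
      constructor
      · rintro ⟨A, hA, B, hB, i, hi, j, hj, hne, hs, h1, h2, h3⟩
        exact ⟨hs, A, hA, B, hB, i, j, hne, hi, hj, h1, h2, h3⟩
      · rintro ⟨hs, A, hA, B, hB, i, j, hne, hi, hj, h1, h2, h3⟩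
        exact ⟨A, hA, B, hB, i, hi, j, hj, hne, hs, h1, h2, h3⟩
    have hCcl : IsClosed C := by
      rw [hC]
      refine isClosed_biUnion_finset fun A hA => isClosed_biUnion_finset fun B hB =>
        isClosed_biUnion_finset fun i hi => isClosed_biUnion_finset fun j hj => ?_
      by_cases hne : c i ≠ c j
      · simpa only [iUnion_true, hne, ne_eq, not_false_eq_true, not_true_eq_false] using
          W.closed A B i j hi hj
      · have : (⋃ (_ : c i ≠ c j), {s | s ∈ Icc 0 T ∧ W.al A s i ∧ W.al B s j ∧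
            dist (W.X A s i) (W.X B s j) ≤ ε}) = ∅ := by
          simp only [hne, iUnion_false]
          
        rw [this]; exact isClosed_empty
    have hCne : C.Nonempty := by
      have hQne : (P.filter (c · = c i₀)).Nonempty := ⟨i₀, Finset.mem_filter.2 ⟨hi₀, rfl⟩⟩
      have hQne' : P.filter (c · = c i₀) ≠ P := by
        intro h
        have : j₀ ∈ P.filter (c · = c i₀) := by rw [h]; exact hj₀
        exact hij ((Finset.mem_filter.1 this).2).symm
      obtain ⟨i, hi, j, hj, s, hs, A, hA, B, hB, h⟩ :=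
        hc _ (Finset.filter_subset _ _) hQne hQne'
      refine ⟨s, (hCmem s).2 ⟨hs, A, hA, B, hB, i, j, ?_, h⟩⟩
      have h1 := (Finset.mem_filter.1 hi).2
      have h2 := Finset.mem_sdiff.1 hj
      intro hcij
      exact h2.2 (Finset.mem_filter.2 ⟨h2.1, by rw [← hcij]; exact h1⟩)
    have hCsub : C ⊆ Icc 0 T := fun s hs => ((hCmem s).1 hs).1
    have hCcomp : IsCompact C := isCompact_Icc.of_isClosed_subset hCcl hCsub
    obtain ⟨t₁, ht₁⟩ := hCcomp.exists_isLeast hCne
    obtain ⟨ht₁T, A, hA, B, hB, i, j, hne, hct⟩ := (hCmem t₁).1 ht₁.1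
    have hno₁ : ∀ u ∈ Ico 0 t₁, ∀ a ∈ P, ∀ b ∈ P, c a ≠ c b → ¬ W.VC P a b u := by
      rintro u hu a _ b _ hab ⟨A', hA', B', hB', h⟩
      have : u ∈ C := (hCmem u).2 ⟨⟨hu.1, (hu.2.trans_le ht₁T.2).le⟩, A', hA', B', hB', a, b, hab, h⟩
      exact absurd (ht₁.2 this) (not_le.2 hu.2)
    have ht₀₁ : t₀ ≤ t₁ := by
      by_contra hlt
      push_neg at hlt
      exact hno t₁ ⟨ht₁T.1, hlt⟩ i (hA hct.1) j (hB hct.2.1) hne ⟨A, hA, B, hB, hct⟩
    set Ki := P.filter (c · = c i) with hKi
    set Kj := P.filter (c · = c j) with hKj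
    have hiP : i ∈ P := hA hct.1
    have hjP : j ∈ P := hB hct.2.1
    have hiK : i ∈ Ki := Finset.mem_filter.2 ⟨hiP, rfl⟩
    have hjK : j ∈ Kj := Finset.mem_filter.2 ⟨hjP, rfl⟩
    have hri := W.restrict (P := P) (K := Ki) ht₁T
      (fun u hu a ha haK b hb hbK => hno₁ u hu a ha b hb fun h => hbK
        (Finset.mem_filter.2 ⟨hb, h ▸ (Finset.mem_filter.1 haK).2⟩)) hA hct.1 hiK
    have hrj := W.restrict (P := P) (K := Kj) ht₁T
      (fun u hu a ha haK b hb hbK => hno₁ u hu a ha b hb fun h => hbK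
        (Finset.mem_filter.2 ⟨hb, h ▸ (Finset.mem_filter.1 haK).2⟩)) hB hct.2.1 hjK
    have hct' : W.Ct (A.filter (· ∈ Ki)) (B.filter (· ∈ Kj)) i j t₁ := by
      refine ⟨Finset.mem_filter.2 ⟨hct.1, hiK⟩, Finset.mem_filter.2 ⟨hct.2.1, hjK⟩,
        hri.2.1 hct.2.2.1, hrj.2.1 hct.2.2.2.1, ?_⟩
      rw [← hri.1, ← hrj.1]; exact hct.2.2.2.2
    have hdisK : Disjoint Ki Kj := by
      rw [Finset.disjoint_left]
      intro k hk1 hk2
      exact hne (((Finset.mem_filter.1 hk1).2).symm.trans (Finset.mem_filter.1 hk2).2)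
    have hKK : Ki ∪ Kj ⊆ P := Finset.union_subset (Finset.filter_subset _ _) (Finset.filter_subset _ _)
    have hmerge : W.Tr (Ki ∪ Kj) t₁ := by
      refine Tr.merge ((hblk _ (Finset.mem_image_of_mem c hiP)).mono ht₀₁)
        ((hblk _ (Finset.mem_image_of_mem c hjP)).mono ht₀₁) hdisK ?_ ?_ hct' ht₁T ?_
      · intro k hk; exact (Finset.mem_filter.1 hk).2
      · intro k hk; exact (Finset.mem_filter.1 hk).2
      · intro u hu a ha b hb h
        have ha' := Finset.mem_filter.1 ha
        have hb' := Finset.mem_filter.1 hb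
        exact hno₁ u hu a ha'.1 b hb'.1 (by rw [ha'.2, hb'.2]; exact hne) (h.mono hKK)
    -- the new colouring
    set c' : S → S := fun k => if c k = c j then c i else c k with hc'
    have himg : P.image c' = (P.image c).erase (c j) := by
      ext k
      simp only [Finset.mem_image, Finset.mem_erase, hc']
      constructor
      · rintro ⟨a, ha, rfl⟩
        by_cases h : c a = c j
        · rw [if_pos h]; exact ⟨hne, i, hiP, rfl⟩
        · rw [if_neg h]; exact ⟨h, a, ha, rfl⟩
      · rintro ⟨hk, a, ha, rfl⟩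
        exact ⟨a, ha, by rw [if_neg hk]⟩
    refine ih c' t₁ ht₁T ?_ ?_ ?_
    · rw [himg, Finset.card_erase_of_mem (Finset.mem_image_of_mem c hjP), hcard]
      rfl
    · intro k hk
      rw [himg] at hk
      obtain ⟨hkj, hk⟩ := Finset.mem_erase.1 hk
      by_cases hki : k = c i
      · have : P.filter (c' · = k) = Ki ∪ Kj := by
          ext a
          simp only [Finset.mem_filter, Finset.mem_union, hKi, hKj, hc', hki]
          constructor
          · rintro ⟨ha, h⟩
            by_cases h2 : c a = c j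
            · exact Or.inr ⟨ha, h2⟩
            · rw [if_neg h2] at h; exact Or.inl ⟨ha, h⟩
          · rintro (⟨ha, h⟩ | ⟨ha, h⟩)
            · refine ⟨ha, ?_⟩
              rw [if_neg (by rw [h]; exact hne), h]
            · exact ⟨ha, by rw [if_pos h]⟩
        rw [this]; exact hmerge
      · have : P.filter (c' · = k) = P.filter (c · = k) := by
          apply Finset.filter_congr
          intro a _
          simp only [hc']
          by_cases h2 : c a = c j
          · rw [if_pos h2, h2]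
            exact ⟨fun h => absurd h.symm hki, fun h => absurd h.symm hkj⟩
          · rw [if_neg h2]
        rw [this]; exact (hblk k hk).mono ht₀₁
    · intro u hu a ha b hb hab
      refine hno₁ u hu a ha b hb fun h => hab ?_
      simp only [hc', h]

/-- **Kruskal lemma**: a virtually connected set is obtained by successive merges. -/
theorem tr_of_conn (hT : 0 ≤ T) {P : Finset S} (hP : P.Nonempty)
    (hc : ∀ Q ⊆ P, Q.Nonempty → Q ≠ P → ∃ i ∈ Q, ∃ j ∈ P \ Q, ∃ s ∈ Icc 0 T, W.VC P i j s) :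
    W.Tr P T := by
  refine W.tr_aux hP hc _ id 0 ⟨le_rfl, hT⟩ rfl ?_ ?_
  · intro k hk
    have hk' : k ∈ P := by simpa using hk
    have : P.filter (fun a => id a = k) = {k} := by
      ext a
      simp only [Finset.mem_filter, id, Finset.mem_singleton]
      exact ⟨fun h => h.2, fun h => ⟨h ▸ hk', h⟩⟩
    rw [this]; exact Tr.single k 0
  · intro u hu
    exact absurd hu.2 (not_lt.2 hu.1)

end Sys

end Crest.Agent.R122.VConn581
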