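import Mathlib
import Crest.Prelude.Def_KineticLimit
import Crest.Agent.R122.VConnA_581

/-!
# Volume of virtually connected configurations (row 122, block VC, part B)

Discretised merge structures and their volume.
-/

set_option autoImplicit false

open MeasureTheory Set Function
open scoped ENNReal
open Crest.AnalysisR.Kinetic

namespace Crest.Agent.R122.VConn581

variable {S : Type*} [DecidableEq S]

/-- Discretised merge structures: successive merges at grid times, for positions `p A n i` of the
particle `i` of the sub-world `A` at the `n`-th grid time. -/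
inductive GTr (r : ℝ) (N : ℕ) (p : Finset S → ℕ → S → Space3) : Finset S → Prop
  | single (i : S) : GTr r N p {i}
  | merge {P Q A B : Finset S} {i j : S} {n : ℕ} (hP : GTr r N p P) (hQ : GTr r N p Q)
      (hd : Disjoint P Q) (hA : A ⊆ P) (hB : B ⊆ Q) (hi : i ∈ A) (hj : j ∈ B) (hn : n ≤ N)
      (hc : dist (p A n i) (p B n j) ≤ r) : GTr r N p (P ∪ Q)

theorem GTr.nonempty {r : ℝ} {N : ℕ} {p : Finset S → ℕ → S → Space3} {P : Finset S}
    (h : GTr r N p P) : P.Nonempty := by
  induction h with
  | single i => exact ⟨i, Finset.mem_singleton_self i⟩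
  | merge _ _ _ _ _ _ _ _ _ ih _ => exact ih.mono Finset.subset_union_left

theorem gtr_iff {r : ℝ} {N : ℕ} {p : Finset S → ℕ → S → Space3} {P : Finset S} :
    GTr r N p P ↔ (∃ i, P = {i}) ∨ ∃ P₁ ∈ P.powerset, ∃ P₂ ∈ P.powerset, ∃ A ∈ P.powerset,
      ∃ B ∈ P.powerset, ∃ i ∈ P, ∃ j ∈ P, ∃ n ∈ Finset.range (N + 1),
      (P₁ ∪ P₂ = P ∧ Disjoint P₁ P₂ ∧ A ⊆ P₁ ∧ B ⊆ P₂ ∧ i ∈ A ∧ j ∈ B) ∧
        GTr r N p P₁ ∧ GTr r N p P₂ ∧ dist (p A n i) (p B n j) ≤ r := by
  constructor
  · intro h
    cases h with
    | single i => exact Or.inl ⟨i, rfl⟩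
    | @merge P Q A B i j n hP hQ hd hA hB hi hj hn hc =>
      refine Or.inr ⟨P, ?_, Q, ?_, A, ?_, B, ?_, i, ?_, j, ?_, n, ?_, ⟨rfl, hd, hA, hB, hi, hj⟩,
        hP, hQ, hc⟩
      · exact Finset.mem_powerset.2 Finset.subset_union_left
      · exact Finset.mem_powerset.2 Finset.subset_union_right
      · exact Finset.mem_powerset.2 (hA.trans Finset.subset_union_left)
      · exact Finset.mem_powerset.2 (hB.trans Finset.subset_union_right)
      · exact Finset.mem_union_left _ (hA hi)
      · exact Finset.mem_union_right _ (hB hj)
      · exact Finset.mem_range.2 (Nat.lt_succ_of_le hn)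
  · rintro (⟨i, rfl⟩ | ⟨P₁, _, P₂, _, A, _, B, _, i, _, j, _, n, hn, ⟨rfl, hd, hA, hB, hi, hj⟩,
      h1, h2, h3⟩)
    · exact GTr.single i
    · exact GTr.merge h1 h2 hd hA hB hi hj (Nat.le_of_lt_succ (Finset.mem_range.1 hn)) h3

/-- Merge structures depend only on the paths of sub-worlds of the set. -/
theorem GTr.congr {r : ℝ} {N : ℕ} {p p' : Finset S → ℕ → S → Space3} {P : Finset S}
    (h : GTr r N p P) (hp : ∀ A ⊆ P, ∀ n, ∀ i ∈ A, p A n i = p' A n i) : GTr r N p' P := by
  induction h with
  | single i => exact GTr.single i
  | @merge P Q A B i j n hP hQ hd hA hB hi hj hn hc ih1 ih2 =>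
    refine GTr.merge (ih1 fun A' hA' => hp A' (hA'.trans Finset.subset_union_left))
      (ih2 fun A' hA' => hp A' (hA'.trans Finset.subset_union_right)) hd hA hB hi hj hn ?_
    rw [← hp A (hA.trans Finset.subset_union_left) n i hi,
      ← hp B (hB.trans Finset.subset_union_right) n j hj]
    exact hc

/-- Merge structures are invariant under a common translation. -/
theorem GTr.translate {r : ℝ} {N : ℕ} {p p' : Finset S → ℕ → S → Space3} {P : Finset S}
    (h : GTr r N p P) (y : ℕ → Space3) (hp : ∀ A ⊆ P, ∀ n, ∀ i ∈ A, p' A n i = p A n i + y n) :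
    GTr r N p' P := by
  induction h with
  | single i => exact GTr.single i
  | @merge P Q A B i j n hP hQ hd hA hB hi hj hn hc ih1 ih2 =>
    refine GTr.merge (ih1 fun A' hA' => hp A' (hA'.trans Finset.subset_union_left))
      (ih2 fun A' hA' => hp A' (hA'.trans Finset.subset_union_right)) hd hA hB hi hj hn ?_
    rw [hp A (hA.trans Finset.subset_union_left) n i hi,
      hp B (hB.trans Finset.subset_union_right) n j hj, dist_add_right]
    exact hc

theorem measurableSet_gtr {Ω : Type*} [MeasurableSpace Ω] {r : ℝ} {N : ℕ}
    {p : Ω → Finset S → ℕ → S → Space3} :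
    ∀ (n : ℕ) (P : Finset S), P.card ≤ n →
      (∀ A ⊆ P, ∀ n, ∀ i ∈ A, Measurable fun ω => p ω A n i) →
      MeasurableSet {ω | GTr r N (p ω) P} := by
  intro n
  induction n with
  | zero =>
    intro P hP _
    have hP' : P = ∅ := Finset.card_eq_zero.1 (Nat.le_zero.1 hP)
    have : {ω | GTr r N (p ω) P} = ∅ := by
      ext ω
      simp only [mem_setOf_eq, mem_empty_iff_false, iff_false]
      intro h
      exact absurd hP' h.nonempty.ne_empty
    rw [this]; exact MeasurableSet.empty
  | succ n ih =>
    intro P hP hm
    have hset : {ω | GTr r N (p ω) P} = {_ω | ∃ i, P = {i}} ∪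
        ⋃ (P₁ ∈ P.powerset) (P₂ ∈ P.powerset) (A ∈ P.powerset) (B ∈ P.powerset) (i ∈ P) (j ∈ P)
          (n ∈ Finset.range (N + 1)),
          {ω | (P₁ ∪ P₂ = P ∧ Disjoint P₁ P₂ ∧ A ⊆ P₁ ∧ B ⊆ P₂ ∧ i ∈ A ∧ j ∈ B) ∧
            GTr r N (p ω) P₁ ∧ GTr r N (p ω) P₂ ∧ dist (p ω A n i) (p ω B n j) ≤ r} := by
      ext ω
      simp only [mem_setOf_eq, mem_union, mem_iUnion, exists_prop]
      exact gtr_iff
    rw [hset]
    refine (MeasurableSet.const _).union ?_
    refine Finset.measurableSet_biUnion _ fun P₁ hP₁ => Finset.measurableSet_biUnion _ fun P₂ hP₂ =>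
      Finset.measurableSet_biUnion _ fun A _ => Finset.measurableSet_biUnion _ fun B _ =>
      Finset.measurableSet_biUnion _ fun i _ => Finset.measurableSet_biUnion _ fun j _ =>
      Finset.measurableSet_biUnion _ fun k _ => ?_
    by_cases hcond : P₁ ∪ P₂ = P ∧ Disjoint P₁ P₂ ∧ A ⊆ P₁ ∧ B ⊆ P₂ ∧ i ∈ A ∧ j ∈ B
    · obtain ⟨hU, hd, hA, hB, hi, hj⟩ := hcond
      by_cases hne : P₁.Nonempty ∧ P₂.Nonempty
      · have hc := Finset.card_union_of_disjoint hd
        rw [hU] at hc
        have h1 : 0 < P₁.card := Finset.card_pos.2 hne.1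
        have h2 : 0 < P₂.card := Finset.card_pos.2 hne.2
        have hs1 : P₁ ⊆ P := Finset.mem_powerset.1 hP₁
        have hs2 : P₂ ⊆ P := Finset.mem_powerset.1 hP₂
        have m1 := ih P₁ (by omega) fun A' hA' => hm A' (hA'.trans hs1)
        have m2 := ih P₂ (by omega) fun A' hA' => hm A' (hA'.trans hs2)
        have m3 : MeasurableSet {ω | dist (p ω A k i) (p ω B k j) ≤ r} :=
          measurableSet_le ((hm A (hA.trans hs1) k i hi).dist (hm B (hB.trans hs2) k j hj))
            measurable_const
        have : {ω | (P₁ ∪ P₂ = P ∧ Disjoint P₁ P₂ ∧ A ⊆ P₁ ∧ B ⊆ P₂ ∧ i ∈ A ∧ j ∈ B) ∧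
            GTr r N (p ω) P₁ ∧ GTr r N (p ω) P₂ ∧ dist (p ω A k i) (p ω B k j) ≤ r} =
            {ω | GTr r N (p ω) P₁} ∩ ({ω | GTr r N (p ω) P₂} ∩
              {ω | dist (p ω A k i) (p ω B k j) ≤ r}) := by
          ext ω
          simp only [mem_setOf_eq, mem_inter_iff]
          exact ⟨fun h => h.2, fun h => ⟨⟨hU, hd, hA, hB, hi, hj⟩, h⟩⟩
        rw [this]
        exact m1.inter (m2.inter m3)
      · have : {ω | (P₁ ∪ P₂ = P ∧ Disjoint P₁ P₂ ∧ A ⊆ P₁ ∧ B ⊆ P₂ ∧ i ∈ A ∧ j ∈ B) ∧
            GTr r N (p ω) P₁ ∧ GTr r N (p ω) P₂ ∧ dist (p ω A k i) (p ω B k j) ≤ r} = ∅ := by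
          ext ω
          simp only [mem_setOf_eq, mem_empty_iff_false, iff_false]
          rintro ⟨_, h1, h2, _⟩
          exact hne ⟨h1.nonempty, h2.nonempty⟩
        rw [this]; exact MeasurableSet.empty
    · have : {ω | (P₁ ∪ P₂ = P ∧ Disjoint P₁ P₂ ∧ A ⊆ P₁ ∧ B ⊆ P₂ ∧ i ∈ A ∧ j ∈ B) ∧
            GTr r N (p ω) P₁ ∧ GTr r N (p ω) P₂ ∧ dist (p ω A k i) (p ω B k j) ≤ r} = ∅ := by
        ext ω
        simp only [mem_setOf_eq, mem_empty_iff_false, iff_false]
        rintro ⟨h, _⟩
        exact hcond h
      rw [this]; exact MeasurableSet.empty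

/-! ### Translations of a block of coordinates -/

/-- Translate the coordinates in `Q` by `y`. -/
def sh (Q : Finset S) (y : Space3) (x : S → Space3) : S → Space3 :=
  fun k => if k ∈ Q then x k + y else x k

theorem measurable_sh (Q : Finset S) (y : Space3) : Measurable (sh Q y) := by
  refine measurable_pi_lambda _ fun k => ?_
  by_cases h : k ∈ Q
  · simp only [sh, h, if_true]
    exact Measurable.add_const (measurable_pi_apply (X := fun _ : S => Space3) k) y
  · simp only [sh, h, if_false]
    exact measurable_pi_apply k

theorem measurable_sh_joint (Q : Finset S) :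
    Measurable fun z : Space3 × (S → Space3) => sh Q z.1 z.2 := by
  refine measurable_pi_lambda _ fun k => ?_
  by_cases h : k ∈ Q
  · simp only [sh, h, if_true]
    exact ((measurable_pi_apply k).comp measurable_snd).add measurable_fst
  · simp only [sh, h, if_false]
    exact (measurable_pi_apply k).comp measurable_snd

theorem sh_sh (Q : Finset S) (y z : Space3) (x : S → Space3) :
    sh Q y (sh Q z x) = sh Q (z + y) x := by
  funext k
  by_cases h : k ∈ Q <;> simp [sh, h, add_assoc]

theorem sh_zero (Q : Finset S) (x : S → Space3) : sh Q 0 x = x := by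
  funext k
  by_cases h : k ∈ Q <;> simp [sh, h]

/-- Lebesgue integral over the coordinates in `Q`. -/
noncomputable abbrev mg (Q : Finset S) (f : (S → Space3) → ℝ≥0∞) : (S → Space3) → ℝ≥0∞ :=
  lmarginal (fun _ => (volume : Measure Space3)) Q f

theorem mg_sh (Q : Finset S) (y : Space3) (f : (S → Space3) → ℝ≥0∞) (x : S → Space3) :
    mg Q (fun x => f (sh Q y x)) x = mg Q f x := by
  unfold mg lmarginal
  have h : ∀ z : (i : Q) → Space3, sh Q y (updateFinset x Q z) =
      updateFinset x Q (z + fun _ => y) := by
    intro z
    funext k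
    by_cases hk : k ∈ Q
    · simp [sh, updateFinset, hk]
    · simp [sh, updateFinset, hk]
  simp only [h]
  exact lintegral_add_right_eq_self (μ := Measure.pi fun _ : Q => (volume : Measure Space3))
    (fun z => f (updateFinset x Q z)) (fun _ => y)

/-- Fubini between a parameter and the coordinates of `Q`. -/
theorem mg_lintegral (Q : Finset S) (f : Space3 → (S → Space3) → ℝ≥0∞)
    (hf : Measurable fun z : Space3 × (S → Space3) => f z.1 z.2) (x : S → Space3) :
    mg Q (fun x => ∫⁻ y, f y x) x = ∫⁻ y, mg Q (f y) x := by
  unfold mg lmarginal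
  rw [lintegral_lintegral_swap]
  refine Measurable.aemeasurable ?_
  have h1 : Measurable fun z : ((i : Q) → Space3) × Space3 => (z.2, updateFinset x Q z.1) := by
    refine measurable_snd.prodMk ?_
    exact measurable_updateFinset.comp measurable_fst
  exact hf.comp h1

/-- **Translation lemma.** If `E` is invariant under translations of the block `Q` and the
integral of `h` over the translations of the block is at most `κ`, then the integral of `h` over
`E` is at most `κ` times the volume of `E` modulo translations. -/
theorem mg_translation_le {Q : Finset S} {E : Set (S → Space3)} (hE : MeasurableSet E)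
    (hinv : ∀ x y, x ∈ E → sh Q y x ∈ E) {j : S} (hj : j ∈ Q) {ρ : Space3 → ℝ≥0∞}
    (hρ : Measurable ρ) (hρ1 : ∫⁻ y, ρ y = 1) {h : (S → Space3) → ℝ≥0∞} (hh : Measurable h)
    {κ : ℝ≥0∞} (hκ : ∀ x, ∫⁻ y, h (sh Q y x) ≤ κ) (x : S → Space3) :
    mg Q (E.indicator h) x ≤ κ * mg Q (E.indicator fun x => ρ (x j)) x := by
  have hinv' : ∀ x y, sh Q y x ∈ E ↔ x ∈ E := by
    intro x y
    refine ⟨fun hx => ?_, fun hx => hinv x y hx⟩
    have := hinv _ (-y) hx
    rwa [sh_sh, add_neg_cancel, sh_zero] at this
  have hρj : Measurable fun x : S → Space3 => ρ (x j) := hρ.comp (measurable_pi_apply j)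
  have hρadd : ∀ a : Space3, Measurable fun y : Space3 => ρ (a + y) := fun a =>
    hρ.comp (measurable_const.add measurable_id)
  -- insert the constant one
  have h1 : ∀ x : S → Space3, E.indicator h x =
      ∫⁻ y, E.indicator (fun x => h x * ρ (x j + y)) x := by
    intro x
    by_cases hx : x ∈ E
    · simp only [indicator_of_mem hx]
      have e1 : ∫⁻ y, h x * ρ (x j + y) = h x * ∫⁻ y, ρ (x j + y) :=
        lintegral_const_mul _ (hρadd (x j))
      have e2 : ∫⁻ y, ρ (x j + y) = ∫⁻ y, ρ y := lintegral_add_left_eq_self (fun y => ρ y) (x j)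
      rw [e1, e2, hρ1, mul_one]
    · simp only [indicator_of_notMem hx, lintegral_const, zero_mul]
  have hm2 : Measurable fun z : Space3 × (S → Space3) =>
      E.indicator (fun x => h x * ρ (x j + z.1)) z.2 := by
    have hset : MeasurableSet {z : Space3 × (S → Space3) | z.2 ∈ E} := measurable_snd hE
    have hf : Measurable fun z : Space3 × (S → Space3) => h z.2 * ρ (z.2 j + z.1) :=
      (hh.comp measurable_snd).mul
        (hρ.comp (((measurable_pi_apply j).comp measurable_snd).add measurable_fst))
    have he : (fun z : Space3 × (S → Space3) => E.indicator (fun x => h x * ρ (x j + z.1)) z.2) =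
        {z : Space3 × (S → Space3) | z.2 ∈ E}.indicator (fun z => h z.2 * ρ (z.2 j + z.1)) := by
      funext z
      by_cases hz : z.2 ∈ E
      · rw [indicator_of_mem hz, indicator_of_mem (show z ∈ {z | z.2 ∈ E} from hz)]
      · rw [indicator_of_notMem hz, indicator_of_notMem (show z ∉ {z | z.2 ∈ E} from hz)]
    rw [he]
    exact hf.indicator hset
  have h2 : mg Q (E.indicator h) x =
      ∫⁻ y, mg Q (E.indicator fun x => h x * ρ (x j + y)) x := by
    rw [← mg_lintegral Q (fun y => E.indicator fun x => h x * ρ (x j + y)) hm2 x]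
    exact congrFun (congrArg (mg Q) (funext h1)) x
  have h3 : ∀ y, mg Q (E.indicator fun x => h x * ρ (x j + y)) x =
      mg Q (E.indicator fun x => h (sh Q (-y) x) * ρ (x j)) x := by
    intro y
    rw [← mg_sh Q (-y) (E.indicator fun x => h x * ρ (x j + y)) x]
    refine congrFun (congrArg (mg Q) (funext fun x => ?_)) x
    by_cases hx : x ∈ E
    · rw [indicator_of_mem hx, indicator_of_mem ((hinv' x (-y)).2 hx)]
      simp [sh, hj]
    · rw [indicator_of_notMem hx, indicator_of_notMem (mt (hinv' x (-y)).1 hx)]
  have hm4 : Measurable fun z : Space3 × (S → Space3) =>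
      E.indicator (fun x => h (sh Q (-z.1) x) * ρ (x j)) z.2 := by
    have hset : MeasurableSet {z : Space3 × (S → Space3) | z.2 ∈ E} := measurable_snd hE
    have hs : Measurable fun z : Space3 × (S → Space3) => sh Q (-z.1) z.2 :=
      (measurable_sh_joint Q).comp (measurable_fst.neg.prodMk measurable_snd)
    have hf : Measurable fun z : Space3 × (S → Space3) => h (sh Q (-z.1) z.2) * ρ (z.2 j) :=
      (hh.comp hs).mul (hρj.comp measurable_snd)
    have he : (fun z : Space3 × (S → Space3) =>
        E.indicator (fun x => h (sh Q (-z.1) x) * ρ (x j)) z.2) =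
        {z : Space3 × (S → Space3) | z.2 ∈ E}.indicator
          (fun z => h (sh Q (-z.1) z.2) * ρ (z.2 j)) := by
      funext z
      by_cases hz : z.2 ∈ E
      · rw [indicator_of_mem hz, indicator_of_mem (show z ∈ {z | z.2 ∈ E} from hz)]
      · rw [indicator_of_notMem hz, indicator_of_notMem (show z ∉ {z | z.2 ∈ E} from hz)]
    rw [he]
    exact hf.indicator hset
  have h4 : ∀ x : S → Space3, ∫⁻ y, E.indicator (fun x => h (sh Q (-y) x) * ρ (x j)) x ≤
      κ * E.indicator (fun x => ρ (x j)) x := by
    intro x
    by_cases hx : x ∈ E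
    · simp only [indicator_of_mem hx]
      have hm : Measurable fun y : Space3 => h (sh Q (-y) x) :=
        hh.comp ((measurable_sh_joint Q).comp (measurable_neg.prodMk measurable_const))
      have e1 : ∫⁻ y, h (sh Q (-y) x) * ρ (x j) = (∫⁻ y, h (sh Q (-y) x)) * ρ (x j) :=
        lintegral_mul_const _ hm
      have e2 : ∫⁻ y, h (sh Q (-y) x) = ∫⁻ y, h (sh Q y x) :=
        lintegral_neg_eq_self (fun y => h (sh Q y x))
      rw [e1, e2]
      gcongr
      exact hκ x
    · simp only [indicator_of_notMem hx, lintegral_const, zero_mul, mul_zero, le_refl]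
  calc mg Q (E.indicator h) x
      = ∫⁻ y, mg Q (E.indicator fun x => h (sh Q (-y) x) * ρ (x j)) x := by
        rw [h2]; exact lintegral_congr h3
    _ = mg Q (fun x => ∫⁻ y, E.indicator (fun x => h (sh Q (-y) x) * ρ (x j)) x) x :=
        (mg_lintegral Q (fun y => E.indicator fun x => h (sh Q (-y) x) * ρ (x j)) hm4 x).symm
    _ ≤ mg Q (fun x => κ * E.indicator (fun x => ρ (x j)) x) x :=
        lmarginal_mono (fun x => h4 x) x
    _ = κ * mg Q (E.indicator fun x => ρ (x j)) x := by
        unfold mg lmarginal
        refine lintegral_const_mul _ ?_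
        exact (hρj.indicator hE).comp measurable_updateFinset

/-! ### The volume bound -/

/-- Positions of all sub-worlds at grid times as a function of the initial positions: locality,
translation covariance and measurability. -/
structure Cov (p : (S → Space3) → Finset S → ℕ → S → Space3) : Prop where
  local' : ∀ (A : Finset S) (n : ℕ) (i : S) (x x' : S → Space3), i ∈ A → (∀ k ∈ A, x k = x' k) →
    p x A n i = p x' A n i
  shift : ∀ (A : Finset S) (n : ℕ) (i : S) (x : S → Space3) (y : Space3), i ∈ A →
    p (fun k => x k + y) A n i = p x A n i + y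
  meas : ∀ (A : Finset S) (n : ℕ) (i : S), i ∈ A → Measurable fun x => p x A n i

theorem Cov.sh_eq {p : (S → Space3) → Finset S → ℕ → S → Space3} (hp : Cov p) {A Q : Finset S}
    (hA : A ⊆ Q) (n : ℕ) {i : S} (hi : i ∈ A) (y : Space3) (x : S → Space3) :
    p (sh Q y x) A n i = p x A n i + y := by
  rw [← hp.shift A n i x y hi]
  refine hp.local' A n i _ _ hi fun k hk => ?_
  simp [sh, hA hk]

theorem Cov.sh_eq_of_disjoint {p : (S → Space3) → Finset S → ℕ → S → Space3} (hp : Cov p)
    {A Q : Finset S} (hA : Disjoint A Q) (n : ℕ) {i : S} (hi : i ∈ A) (y : Space3)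
    (x : S → Space3) : p (sh Q y x) A n i = p x A n i := by
  refine hp.local' A n i _ _ hi fun k hk => ?_
  simp [sh, Finset.disjoint_left.1 hA hk]

/-- Factor out a function which does not depend on the integrated coordinates. -/
theorem mg_mul_left (Q : Finset S) {f k : (S → Space3) → ℝ≥0∞} (hk : Measurable k)
    (x : S → Space3) (hf : ∀ z, f (updateFinset x Q z) = f x) :
    mg Q (fun x => f x * k x) x = f x * mg Q k x := by
  unfold mg lmarginal
  simp only [hf]
  exact lintegral_const_mul _ (hk.comp measurable_updateFinset)

/-- Close position sets. -/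
def nearSet (r : ℝ) (p : (S → Space3) → Finset S → ℕ → S → Space3) (A B : Finset S) (i j : S)
    (n : ℕ) : Set (S → Space3) := {x | dist (p x A n i) (p x B n j) ≤ r}

theorem lintegral_near_right (r : ℝ) {p : (S → Space3) → Finset S → ℕ → S → Space3} (hp : Cov p)
    {A B Q : Finset S} (hA : Disjoint A Q) (hB : B ⊆ Q) {i j : S} (hi : i ∈ A) (hj : j ∈ B)
    (n : ℕ) (x : S → Space3) :
    ∫⁻ y, (nearSet r p A B i j n).indicator (fun _ => (1 : ℝ≥0∞)) (sh Q y x) =
      volume (Metric.closedBall (0 : Space3) r) := by
  have h1 : (fun y => (nearSet r p A B i j n).indicator (fun _ => (1 : ℝ≥0∞)) (sh Q y x)) =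
      (Metric.closedBall (p x A n i - p x B n j) r).indicator (fun _ => (1 : ℝ≥0∞)) := by
    funext y
    have h2 : sh Q y x ∈ nearSet r p A B i j n ↔
        y ∈ Metric.closedBall (p x A n i - p x B n j) r := by
      simp only [nearSet, mem_setOf_eq, Metric.mem_closedBall]
      rw [hp.sh_eq_of_disjoint hA n hi y x, hp.sh_eq hB n hj y x, dist_comm, dist_eq_norm,
        dist_eq_norm]
      have : p x B n j + y - p x A n i = y - (p x A n i - p x B n j) := by abel
      rw [this]
    by_cases h : sh Q y x ∈ nearSet r p A B i j n
    · rw [indicator_of_mem h, indicator_of_mem (h2.1 h)]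
    · rw [indicator_of_notMem h, indicator_of_notMem (mt h2.2 h)]
  rw [h1, lintegral_indicator measurableSet_closedBall]
  simp only [lintegral_const, one_mul, Measure.restrict_apply, MeasurableSet.univ, univ_inter]
  exact Measure.addHaar_closedBall_center volume _ r

theorem lintegral_near_left (r : ℝ) {p : (S → Space3) → Finset S → ℕ → S → Space3} (hp : Cov p)
    {A B Q : Finset S} (hA : A ⊆ Q) (hB : Disjoint B Q) {i j : S} (hi : i ∈ A) (hj : j ∈ B)
    (n : ℕ) (x : S → Space3) :
    ∫⁻ y, (nearSet r p A B i j n).indicator (fun _ => (1 : ℝ≥0∞)) (sh Q y x) =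
      volume (Metric.closedBall (0 : Space3) r) := by
  have h := lintegral_near_right r hp hB hA hj hi n x
  rw [← h]
  have : nearSet r p A B i j n = nearSet r p B A j i n := by
    ext x; simp only [nearSet, mem_setOf_eq, dist_comm]
  rw [this]

/-- **Volume bound.** -/
theorem mg_gtr_le (M N : ℕ) (r : ℝ) {p : (S → Space3) → Finset S → ℕ → S → Space3} (hp : Cov p)
    {ρ : Space3 → ℝ≥0∞} (hρ : Measurable ρ) (hρ1 : ∫⁻ y, ρ y = 1) :
    ∀ (n : ℕ) (P : Finset S), P.card ≤ n → P.card ≤ M → ∀ i₀ ∈ P, ∀ x : S → Space3,
      mg P ({x | GTr r N (p x) P}.indicator fun x => ρ (x i₀)) x ≤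
        (((2 ^ M) ^ 4 * M ^ 2 * (N + 1) : ℕ) * volume (Metric.closedBall (0 : Space3) r)) ^
          (P.card - 1) := by
  intro n
  set b : ℝ≥0∞ := volume (Metric.closedBall (0 : Space3) r) with hb
  set a : ℕ := (2 ^ M) ^ 4 * M ^ 2 * (N + 1) with ha
  induction n with
  | zero =>
    intro P hP _ i₀ hi₀
    rw [Finset.card_eq_zero.1 (Nat.le_zero.1 hP)] at hi₀
    exact absurd hi₀ (Finset.notMem_empty _)
  | succ n ih =>
    intro P hP hPM i₀ hi₀ x
    have hmeas : ∀ P : Finset S, MeasurableSet {x | GTr r N (p x) P} := fun P =>
      measurableSet_gtr P.card P le_rfl fun A _ n i hi => hp.meas A n i hi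
    have hρi : ∀ i : S, Measurable fun x : S → Space3 => ρ (x i) := fun i =>
      hρ.comp (measurable_pi_apply i)
    have hcard : 0 < P.card := Finset.card_pos.2 ⟨i₀, hi₀⟩
    rcases Nat.eq_or_lt_of_le hcard with h1 | h2
    · -- a single particle
      obtain ⟨i, rfl⟩ := Finset.card_eq_one.1 h1.symm
      have hi : i₀ = i := Finset.mem_singleton.1 hi₀
      subst hi
      calc mg {i₀} ({x | GTr r N (p x) {i₀}}.indicator fun x => ρ (x i₀)) x
          ≤ mg {i₀} (fun x => ρ (x i₀)) x :=
            lmarginal_mono (fun x => indicator_le_self _ _ x) x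
        _ = ∫⁻ y, ρ y := by
            unfold mg
            rw [lmarginal_singleton]
            simp
        _ ≤ _ := by rw [hρ1]; simp
    · -- sum over the last merge
      set t : Finset (Finset S × Finset S × Finset S × Finset S × S × S × ℕ) :=
        P.powerset ×ˢ P.powerset ×ˢ P.powerset ×ˢ P.powerset ×ˢ P ×ˢ P ×ˢ Finset.range (N + 1)
        with ht
      let cond : Finset S × Finset S × Finset S × Finset S × S × S × ℕ → Prop := fun τ =>
        τ.1 ∪ τ.2.1 = P ∧ Disjoint τ.1 τ.2.1 ∧ τ.2.2.1 ⊆ τ.1 ∧ τ.2.2.2.1 ⊆ τ.2.1 ∧
          τ.2.2.2.2.1 ∈ τ.2.2.1 ∧ τ.2.2.2.2.2.1 ∈ τ.2.2.2.1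
      let g : Finset S × Finset S × Finset S × Finset S × S × S × ℕ → (S → Space3) → ℝ≥0∞ :=
        fun τ => ({x | cond τ} ∩ ({x | GTr r N (p x) τ.1} ∩ ({x | GTr r N (p x) τ.2.1} ∩
          nearSet r p τ.2.2.1 τ.2.2.2.1 τ.2.2.2.2.1 τ.2.2.2.2.2.1 τ.2.2.2.2.2.2))).indicator
            fun x => ρ (x i₀)
      have hgm : ∀ τ, Measurable (g τ) := by
        intro τ
        by_cases hc : cond τ
        · refine (hρi i₀).indicator ?_
          refine (MeasurableSet.const _).inter ((hmeas _).inter ((hmeas _).inter ?_))
          exact measurableSet_le ((hp.meas _ _ _ hc.2.2.2.2.1).dist (hp.meas _ _ _ hc.2.2.2.2.2))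
            measurable_const
        · have : g τ = 0 := by
            funext x
            simp only [g]
            rw [indicator_of_notMem]
            · rfl
            · rintro ⟨h, _⟩; exact hc h
          rw [this]; exact measurable_const
      have hle : ∀ x : S → Space3, ({x | GTr r N (p x) P}.indicator fun x => ρ (x i₀)) x ≤
          ∑ τ ∈ t, g τ x := by
        intro x
        by_cases hx : GTr r N (p x) P
        · rw [indicator_of_mem (show x ∈ {x | GTr r N (p x) P} from hx)]
          rcases gtr_iff.1 hx with ⟨i, hi⟩ | ⟨P₁, hP₁, P₂, hP₂, A, hA, B, hB, i, hi, j, hj, k, hk,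
            hcond, hG1, hG2, hnear⟩
          · rw [hi, Finset.card_singleton] at h2
            exact absurd h2 (lt_irrefl _)
          · have hmem : (P₁, P₂, A, B, i, j, k) ∈ t := by
              simp only [ht, Finset.mem_product]
              exact ⟨hP₁, hP₂, hA, hB, hi, hj, hk⟩
            have hval : g (P₁, P₂, A, B, i, j, k) x = ρ (x i₀) := by
              have hx' : x ∈ {x | cond (P₁, P₂, A, B, i, j, k)} ∩ ({x | GTr r N (p x) P₁} ∩
                  ({x | GTr r N (p x) P₂} ∩ nearSet r p A B i j k)) :=
                ⟨hcond, hG1, hG2, hnear⟩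
              exact indicator_of_mem hx' _
            rw [← hval]
            exact Finset.single_le_sum (f := fun τ => g τ x) (fun _ _ => bot_le) hmem
        · rw [indicator_of_notMem (show x ∉ {x | GTr r N (p x) P} from hx)]
          exact bot_le
      have hterm : ∀ τ ∈ t, mg P (g τ) x ≤ b * (a * b) ^ (P.card - 2) := by
        intro τ _
        obtain ⟨P₁, P₂, A, B, i, j, k⟩ := τ
        by_cases hc : cond (P₁, P₂, A, B, i, j, k)
        · obtain ⟨hU, hd, hA, hB, hi, hj⟩ := hc
          simp only at hU hd hA hB hi hj
          have hcu := Finset.card_union_of_disjoint hd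
          rw [hU] at hcu
          have hc1 : 0 < P₁.card := Finset.card_pos.2 ⟨i, hA hi⟩
          have hc2 : 0 < P₂.card := Finset.card_pos.2 ⟨j, hB hj⟩
          have hnm : MeasurableSet (nearSet r p A B i j k) :=
            measurableSet_le ((hp.meas _ _ _ hi).dist (hp.meas _ _ _ hj)) measurable_const
          have hinv : ∀ (Q : Finset S) (x : S → Space3) (y : Space3),
              x ∈ {x | GTr r N (p x) Q} → sh Q y x ∈ {x | GTr r N (p x) Q} := by
            intro Q x y hx
            exact GTr.translate hx (fun _ => y) fun A' hA' n i' hi' => hp.sh_eq hA' n hi' y x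
          have hindep : ∀ (Q R : Finset S) (_ : Disjoint Q R) (x : S → Space3)
              (z : (k : R) → Space3), (updateFinset x R z ∈ {x | GTr r N (p x) Q} ↔
                x ∈ {x | GTr r N (p x) Q}) := by
            intro Q R hQR x z
            have he : ∀ A' ⊆ Q, ∀ n, ∀ i' ∈ A', p (updateFinset x R z) A' n i' = p x A' n i' := by
              intro A' hA' n i' hi'
              refine hp.local' A' n i' _ _ hi' fun k hk => ?_
              have : k ∉ R := Finset.disjoint_left.1 hQR (hA' hk)
              simp [updateFinset, this]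
            exact ⟨fun h => GTr.congr h he, fun h => GTr.congr h fun A' hA' n i' hi' =>
              (he A' hA' n i' hi').symm⟩
          rcases Finset.mem_union.1 (hU.symm ▸ hi₀ : i₀ ∈ P₁ ∪ P₂) with hi₀1 | hi₀2
          · -- the root is in the first block
            have hgeq : g (P₁, P₂, A, B, i, j, k) = fun x =>
                ({x | GTr r N (p x) P₁}.indicator fun x => ρ (x i₀)) x *
                  ({x | GTr r N (p x) P₂}.indicator
                    ((nearSet r p A B i j k).indicator fun _ => 1)) x := by
              funext x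
              simp only [g]
              by_cases h1 : x ∈ {x | GTr r N (p x) P₁}
              · by_cases h2 : x ∈ {x | GTr r N (p x) P₂}
                · by_cases h3 : x ∈ nearSet r p A B i j k
                  · rw [indicator_of_mem, indicator_of_mem h1, indicator_of_mem h2,
                      indicator_of_mem h3, mul_one]
                    exact ⟨⟨hU, hd, hA, hB, hi, hj⟩, h1, h2, h3⟩
                  · rw [indicator_of_notMem, indicator_of_mem h2, indicator_of_notMem h3, mul_zero]
                    exact fun h => h3 h.2.2.2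
                · rw [indicator_of_notMem, indicator_of_notMem h2, mul_zero]
                  exact fun h => h2 h.2.2.1
              · rw [indicator_of_notMem, indicator_of_notMem h1, zero_mul]
                exact fun h => h1 h.2.1
            have hk : Measurable ({x | GTr r N (p x) P₂}.indicator
                ((nearSet r p A B i j k).indicator fun _ => (1 : ℝ≥0∞))) :=
              (measurable_const.indicator hnm).indicator (hmeas _)
            have hinner : ∀ x : S → Space3, mg P₂ (g (P₁, P₂, A, B, i, j, k)) x ≤
                (b * (a * b) ^ (P₂.card - 1)) *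
                  ({x | GTr r N (p x) P₁}.indicator fun x => ρ (x i₀)) x := by
              intro x
              rw [hgeq, mg_mul_left P₂ hk x, mul_comm]
              · gcongr
                calc mg P₂ ({x | GTr r N (p x) P₂}.indicator
                      ((nearSet r p A B i j k).indicator fun _ => 1)) x
                    ≤ b * mg P₂ ({x | GTr r N (p x) P₂}.indicator fun x => ρ (x j)) x :=
                      mg_translation_le (hmeas _) (hinv P₂) (hB hj) hρ hρ1
                        (measurable_const.indicator hnm)
                        (fun x => (lintegral_near_right r hp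
                          (Finset.disjoint_of_subset_left hA hd) hB hi hj k x).le) x
                  _ ≤ b * (a * b) ^ (P₂.card - 1) := by
                      gcongr
                      exact ih P₂ (by omega) (by omega) j (hB hj) x
              · intro z
                have h1 := hindep P₁ P₂ hd x z
                have h2 : updateFinset x P₂ z i₀ = x i₀ := by
                  have : i₀ ∉ P₂ := Finset.disjoint_left.1 hd hi₀1
                  simp [updateFinset, this]
                by_cases h : x ∈ {x | GTr r N (p x) P₁}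
                · rw [indicator_of_mem h, indicator_of_mem (h1.2 h), h2]
                · rw [indicator_of_notMem h, indicator_of_notMem (mt h1.1 h)]
            calc mg P (g (P₁, P₂, A, B, i, j, k)) x
                = mg P₁ (mg P₂ (g (P₁, P₂, A, B, i, j, k))) x := by
                  rw [← hU]
                  exact congrFun (lmarginal_union _ _ (hgm _) hd) x
              _ ≤ mg P₁ (fun x => (b * (a * b) ^ (P₂.card - 1)) *
                  ({x | GTr r N (p x) P₁}.indicator fun x => ρ (x i₀)) x) x :=
                  lmarginal_mono hinner x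
              _ = (b * (a * b) ^ (P₂.card - 1)) *
                  mg P₁ ({x | GTr r N (p x) P₁}.indicator fun x => ρ (x i₀)) x := by
                  unfold mg lmarginal
                  refine lintegral_const_mul _ ?_
                  exact ((hρi i₀).indicator (hmeas _)).comp measurable_updateFinset
              _ ≤ (b * (a * b) ^ (P₂.card - 1)) * (a * b) ^ (P₁.card - 1) := by
                  gcongr
                  exact ih P₁ (by omega) (by omega) i₀ hi₀1 x
              _ = b * (a * b) ^ (P.card - 2) := by
                  rw [mul_assoc, ← pow_add]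
                  congr 2
                  omega
          · -- the root is in the second block
            have hgeq : g (P₁, P₂, A, B, i, j, k) = fun x =>
                ({x | GTr r N (p x) P₂}.indicator fun x => ρ (x i₀)) x *
                  ({x | GTr r N (p x) P₁}.indicator
                    ((nearSet r p A B i j k).indicator fun _ => 1)) x := by
              funext x
              simp only [g]
              by_cases h1 : x ∈ {x | GTr r N (p x) P₁}
              · by_cases h2 : x ∈ {x | GTr r N (p x) P₂}
                · by_cases h3 : x ∈ nearSet r p A B i j k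
                  · rw [indicator_of_mem, indicator_of_mem h1, indicator_of_mem h2,
                      indicator_of_mem h3, mul_one]
                    exact ⟨⟨hU, hd, hA, hB, hi, hj⟩, h1, h2, h3⟩
                  · rw [indicator_of_notMem, indicator_of_mem h1, indicator_of_notMem h3, mul_zero]
                    exact fun h => h3 h.2.2.2
                · rw [indicator_of_notMem, indicator_of_notMem h2, zero_mul]
                  exact fun h => h2 h.2.2.1
              · rw [indicator_of_notMem, indicator_of_notMem h1, mul_zero]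
                exact fun h => h1 h.2.1
            have hk : Measurable ({x | GTr r N (p x) P₁}.indicator
                ((nearSet r p A B i j k).indicator fun _ => (1 : ℝ≥0∞))) :=
              (measurable_const.indicator hnm).indicator (hmeas _)
            have hinner : ∀ x : S → Space3, mg P₁ (g (P₁, P₂, A, B, i, j, k)) x ≤
                (b * (a * b) ^ (P₁.card - 1)) *
                  ({x | GTr r N (p x) P₂}.indicator fun x => ρ (x i₀)) x := by
              intro x
              rw [hgeq, mg_mul_left P₁ hk x, mul_comm]
              · gcongr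
                calc mg P₁ ({x | GTr r N (p x) P₁}.indicator
                      ((nearSet r p A B i j k).indicator fun _ => 1)) x
                    ≤ b * mg P₁ ({x | GTr r N (p x) P₁}.indicator fun x => ρ (x i)) x :=
                      mg_translation_le (hmeas _) (hinv P₁) (hA hi) hρ hρ1
                        (measurable_const.indicator hnm)
                        (fun x => (lintegral_near_left r hp hA
                          (Finset.disjoint_of_subset_left hB hd.symm) hi hj k x).le) x
                  _ ≤ b * (a * b) ^ (P₁.card - 1) := by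
                      gcongr
                      exact ih P₁ (by omega) (by omega) i (hA hi) x
              · intro z
                have h1 := hindep P₂ P₁ hd.symm x z
                have h2 : updateFinset x P₁ z i₀ = x i₀ := by
                  have : i₀ ∉ P₁ := Finset.disjoint_right.1 hd hi₀2
                  simp [updateFinset, this]
                by_cases h : x ∈ {x | GTr r N (p x) P₂}
                · rw [indicator_of_mem h, indicator_of_mem (h1.2 h), h2]
                · rw [indicator_of_notMem h, indicator_of_notMem (mt h1.1 h)]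
            calc mg P (g (P₁, P₂, A, B, i, j, k)) x
                = mg P₂ (mg P₁ (g (P₁, P₂, A, B, i, j, k))) x := by
                  rw [← hU, Finset.union_comm]
                  exact congrFun (lmarginal_union _ _ (hgm _) hd.symm) x
              _ ≤ mg P₂ (fun x => (b * (a * b) ^ (P₁.card - 1)) *
                  ({x | GTr r N (p x) P₂}.indicator fun x => ρ (x i₀)) x) x :=
                  lmarginal_mono hinner x
              _ = (b * (a * b) ^ (P₁.card - 1)) *
                  mg P₂ ({x | GTr r N (p x) P₂}.indicator fun x => ρ (x i₀)) x := by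
                  unfold mg lmarginal
                  refine lintegral_const_mul _ ?_
                  exact ((hρi i₀).indicator (hmeas _)).comp measurable_updateFinset
              _ ≤ (b * (a * b) ^ (P₁.card - 1)) * (a * b) ^ (P₂.card - 1) := by
                  gcongr
                  exact ih P₂ (by omega) (by omega) i₀ hi₀2 x
              _ = b * (a * b) ^ (P.card - 2) := by
                  rw [mul_assoc, ← pow_add]
                  congr 2
                  omega
        · have : g (P₁, P₂, A, B, i, j, k) = 0 := by
            funext x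
            simp only [g]
            rw [indicator_of_notMem]
            · rfl
            · rintro ⟨h, _⟩; exact hc h
          rw [this]
          unfold mg lmarginal
          simp
      have hcardt : t.card ≤ a := by
        simp only [ht, Finset.card_product, Finset.card_powerset, Finset.card_range]
        calc 2 ^ P.card * (2 ^ P.card * (2 ^ P.card * (2 ^ P.card * (P.card * (P.card * (N + 1))))))
            ≤ 2 ^ M * (2 ^ M * (2 ^ M * (2 ^ M * (M * (M * (N + 1)))))) := by
              gcongr <;> norm_num
          _ = a := by rw [ha]; ring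
      calc mg P ({x | GTr r N (p x) P}.indicator fun x => ρ (x i₀)) x
          ≤ mg P (fun x => ∑ τ ∈ t, g τ x) x := lmarginal_mono hle x
        _ = ∑ τ ∈ t, mg P (g τ) x := by
            unfold mg lmarginal
            exact lintegral_finset_sum _ fun τ _ => (hgm τ).comp measurable_updateFinset
        _ ≤ ∑ τ ∈ t, b * (a * b) ^ (P.card - 2) := Finset.sum_le_sum hterm
        _ = t.card * (b * (a * b) ^ (P.card - 2)) := by
            rw [Finset.sum_const, nsmul_eq_mul]
        _ ≤ a * (b * (a * b) ^ (P.card - 2)) := by
            gcongr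
        _ = (a * b) ^ (P.card - 1) := by
            have : P.card - 1 = (P.card - 2) + 1 := by omega
            rw [this, pow_succ]
            ring

end Crest.Agent.R122.VConn581
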