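import Crest.Agent.R122.Energy2_410
import Crest.Agent.R122.CtB_879

/-!
# The energy functional `Jeng` of the infected set (row 122, block EN, part 4)

Decision 2 (c) of the captain: `J_K(t) = ε² E Jeng(I_K(w, t))` with
`Jeng A = eng A + (B + 3/2) |A|`, `B = stabB Φ`.

* `JengB` (worlds with births), `Jeng` (flow); nonnegativity, control of the speeds,
* restart inequality, bound by the initial energy,
* `lintegral_flux_le`: the time integrated flux with an antitone weight, (3.4) of `E_FINAL`.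
-/

set_option autoImplicit false
set_option linter.unusedSectionVars false

open Set Filter Topology MeasureTheory
open scoped NNReal ENNReal
open Crest.AnalysisR.Kinetic
open Crest.Agent.R122.Flow671 Crest.Agent.R122.Loc45 Crest.Agent.R122.Causal291
open Crest.Agent.R122.Ins45 Crest.Agent.R122.Inf879

namespace Crest.Agent.R122.Energy410

section births

variable {ι : Type*} {Φ : Space3 → ℝ} {ε : ℝ} {b : ι → ℝ} {X : ℝ → ι → PhasePoint} {T : ℝ}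

/-- Energy of the family `A` plus `stabB Φ + 3 / 2` times its number (world with births). -/
noncomputable def JengB (Φ : Space3 → ℝ) (ε : ℝ) (b : ι → ℝ) (t : ℝ) (A : Finset ι)
    (Z : ι → PhasePoint) : ℝ :=
  engB Φ ε b t A Z + (stabB Φ + 3 / 2) * A.card

@[simp] theorem JengB_empty (t : ℝ) (Z : ι → PhasePoint) : JengB Φ ε b t ∅ Z = 0 := by
  simp [JengB]

variable [Fintype ι]

theorem kin_le_JengB (hΦ : AdmissiblePotential Φ) (hε : 0 < ε) (hX : BWorld Φ ε b 0 X) {t : ℝ}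
    (ht : 0 ≤ t) (A : Finset ι) :
    ∑ i ∈ A, ((1 / 2) * ‖(X t i).2‖ ^ 2 + 3 / 2) ≤ JengB Φ ε b t A (X t) := by
  have h1 := engB_lower hΦ hε hX ht A
  rw [Finset.sum_add_distrib, ← Finset.mul_sum, Finset.sum_const, nsmul_eq_mul]
  unfold JengB
  linarith

theorem JengB_nonneg (hΦ : AdmissiblePotential Φ) (hε : 0 < ε) (hX : BWorld Φ ε b 0 X) {t : ℝ}
    (ht : 0 ≤ t) (A : Finset ι) : 0 ≤ JengB Φ ε b t A (X t) :=
  (Finset.sum_nonneg fun i _ => by positivity).trans (kin_le_JengB hΦ hε hX ht A)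

/-- The functional controls the first moment of the speeds. -/
theorem speed_le_JengB (hΦ : AdmissiblePotential Φ) (hε : 0 < ε) (hX : BWorld Φ ε b 0 X) {t : ℝ}
    (ht : 0 ≤ t) (A : Finset ι) : ∑ i ∈ A, (1 + ‖(X t i).2‖) ≤ JengB Φ ε b t A (X t) :=
  (Finset.sum_le_sum fun i _ => by nlinarith [sq_nonneg (‖(X t i).2‖ - 1)]).trans
    (kin_le_JengB hΦ hε hX ht A)

/-- The functional controls the second moment of the speeds. -/
theorem sq_le_JengB (hΦ : AdmissiblePotential Φ) (hε : 0 < ε) (hX : BWorld Φ ε b 0 X) {t : ℝ}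
    (ht : 0 ≤ t) (A : Finset ι) : ∑ i ∈ A, (1 + ‖(X t i).2‖ ^ 2) ≤ 2 * JengB Φ ε b t A (X t) := by
  have h1 := kin_le_JengB hΦ hε hX ht A
  have h2 : ∑ i ∈ A, (1 + ‖(X t i).2‖ ^ 2) ≤ ∑ i ∈ A, 2 * ((1 / 2) * ‖(X t i).2‖ ^ 2 + 3 / 2) :=
    Finset.sum_le_sum fun i _ => by linarith
  rw [← Finset.mul_sum] at h2
  linarith

/-- Isolated groups carry a larger functional than their isolated subgroups. -/
theorem JengB_le_of_subset (hΦ : AdmissiblePotential Φ) (hε : 0 < ε) (hX : BWorld Φ ε b 0 X)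
    {t : ℝ} (ht : 0 ≤ t) {A A' : Finset ι} (hsub : A ⊆ A') (hA : IsoB ε b t A (X t)) :
    JengB Φ ε b t A (X t) ≤ JengB Φ ε b t A' (X t) := by
  classical
  set R := A' \ A with hR
  have hun : A ∪ R = A' := Finset.union_sdiff_of_subset hsub
  have hdis : Disjoint A R := Finset.disjoint_sdiff
  have hadd : engB Φ ε b t A' (X t) = engB Φ ε b t A (X t) + engB Φ ε b t R (X t) := by
    rw [← hun]
    exact engB_union hΦ hε hdis fun i hi j hj => hA i hi j (Finset.mem_sdiff.1 hj).2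
  have hcard : (A'.card : ℝ) = A.card + R.card := by
    rw [← hun, Finset.card_union_of_disjoint hdis, Nat.cast_add]
  have h1 := JengB_nonneg hΦ hε hX ht R
  unfold JengB at h1 ⊢
  rw [hadd, hcard]
  linarith

theorem JengB_univ (hΦ : AdmissiblePotential Φ) (hε : 0 < ε) (hX : BWorld Φ ε b 0 X)
    (hS : SepBirths ε b T X) {t : ℝ} (ht : 0 ≤ t) (htT : t ≤ T) :
    JengB Φ ε b t Finset.univ (X t) = ∑ i, ((1 / 2) * ‖(X 0 i).2‖ ^ 2 + (stabB Φ + 3 / 2)) := by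
  unfold JengB
  rw [engB_const hΦ hε hX hS le_rfl ht htT fun r _ i _ j hj => absurd (Finset.mem_univ j) hj,
    engB_eq_kin hΦ hε fun i _ j _ hij hbi hbj => hS.init i j hij hbi hbj, Finset.sum_add_distrib,
    Finset.mul_sum, Finset.sum_const, nsmul_eq_mul, mul_comm (stabB Φ + 3 / 2)]

/-- The functional of an isolated group is bounded by the initial energy. -/
theorem JengB_le_total (hΦ : AdmissiblePotential Φ) (hε : 0 < ε) (hX : BWorld Φ ε b 0 X)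
    (hS : SepBirths ε b T X) {t : ℝ} (ht : 0 ≤ t) (htT : t ≤ T) {A : Finset ι}
    (hA : IsoB ε b t A (X t)) :
    JengB Φ ε b t A (X t) ≤ ∑ i, ((1 / 2) * ‖(X 0 i).2‖ ^ 2 + (stabB Φ + 3 / 2)) :=
  (JengB_le_of_subset hΦ hε hX ht (Finset.subset_univ A) hA).trans
    (JengB_univ hΦ hε hX hS ht htT).le

/-- Total first moment of the speeds in a world with births. -/
theorem total_speed_leB (hΦ : AdmissiblePotential Φ) (hε : 0 < ε) (hX : BWorld Φ ε b 0 X)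
    (hS : SepBirths ε b T X) {t : ℝ} (ht : 0 ≤ t) (htT : t ≤ T) :
    ∑ i, (1 + ‖(X t i).2‖) ≤ ∑ i, ((1 / 2) * ‖(X 0 i).2‖ ^ 2 + (stabB Φ + 3 / 2)) :=
  (speed_le_JengB hΦ hε hX ht Finset.univ).trans (JengB_univ hΦ hε hX hS ht htT).le

theorem total_sq_leB (hΦ : AdmissiblePotential Φ) (hε : 0 < ε) (hX : BWorld Φ ε b 0 X)
    (hS : SepBirths ε b T X) {t : ℝ} (ht : 0 ≤ t) (htT : t ≤ T) :
    ∑ i, (1 + ‖(X t i).2‖ ^ 2) ≤ 2 * ∑ i, ((1 / 2) * ‖(X 0 i).2‖ ^ 2 + (stabB Φ + 3 / 2)) := by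
  have h1 := sq_le_JengB hΦ hε hX ht Finset.univ
  rw [JengB_univ hΦ hε hX hS ht htT] at h1
  exact h1

variable [DecidableEq ι]

/-- **Restart.** Growth of the functional of a monotone isolated family. -/
theorem JengB_restart (hΦ : AdmissiblePotential Φ) (hε : 0 < ε) (hX : BWorld Φ ε b 0 X)
    (hS : SepBirths ε b T X) {C : ℝ → ι → ι → Prop}
    (hC : ∀ s j k, b j < s → b k < s → dist (X s j).1 (X s k).1 ≤ ε → C s j k)
    {S : ℝ → Finset ι} (hmono : ∀ s s', 0 ≤ s → s ≤ s' → s' ≤ T → S s ⊆ S s')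
    (hiso : IsoFam ε b T X S) {a : ℝ} (ha : 0 ≤ a) {w : ι → ℝ}
    (hw : ∀ s, a ≤ s → s ≤ T → ∀ p ∉ S s, p ∈ S T → Wt (stabB Φ) (X 0) (BC C s p) ≤ w p)
    {t : ℝ} (hat : a ≤ t) (htT : t ≤ T) :
    JengB Φ ε b t (S t) (X t) ≤
      JengB Φ ε b a (S a) (X a) + ∑ p ∈ S t \ S a, (w p + (stabB Φ + 3 / 2)) := by
  have h1 := infected_restartB hΦ hε hX hS hC hmono hiso ha hw t hat htT
  have hsub : S a ⊆ S t := hmono a t ha hat htT
  have hcard : ((S t).card : ℝ) = (S a).card + (S t \ S a).card := by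
    rw [← Nat.cast_add, add_comm, Finset.card_sdiff_add_card_eq_card hsub]
  unfold JengB
  rw [hcard, Finset.sum_add_distrib, Finset.sum_const, nsmul_eq_mul]
  linarith

/-- **The flux of the infected set with an antitone weight** ((3.4) of `E_FINAL`): `W` antitone,
`θ p` at most every time at which `p` is infected. -/
theorem lintegral_flux_leB (hΦ : AdmissiblePotential Φ) (hε : 0 < ε) (hX : BWorld Φ ε b 0 X)
    (hS : SepBirths ε b T X) {C : ℝ → ι → ι → Prop}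
    (hC : ∀ s j k, b j < s → b k < s → dist (X s j).1 (X s k).1 ≤ ε → C s j k)
    {S : ℝ → Finset ι} (hmono : ∀ s s', 0 ≤ s → s ≤ s' → s' ≤ T → S s ⊆ S s')
    (hiso : IsoFam ε b T X S) {a : ℝ} (ha : 0 ≤ a) {w : ι → ℝ}
    (hw0 : ∀ p, 0 ≤ w p)
    (hw : ∀ s, a ≤ s → s ≤ T → ∀ p ∉ S s, p ∈ S T → Wt (stabB Φ) (X 0) (BC C s p) ≤ w p)
    {W : ℝ → ℝ≥0∞} (hW : ∀ s s', a ≤ s → s ≤ s' → s' ≤ T → W s' ≤ W s) {θ : ι → ℝ}
    (hθ : ∀ p ∈ S T \ S a, a ≤ θ p) (hθ' : ∀ s, a ≤ s → s ≤ T → ∀ p ∈ S s \ S a, θ p ≤ s) :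
    ∫⁻ s in Icc a T, W s * ∑ i ∈ S s, ENNReal.ofReal (1 + ‖(X s i).2‖) ≤
      ENNReal.ofReal (T - a) * (W a * ENNReal.ofReal (JengB Φ ε b a (S a) (X a)) +
        ∑ p ∈ S T \ S a, W (θ p) * ENNReal.ofReal (w p + (stabB Φ + 3 / 2))) := by
  have hB := stabB_nonneg Φ
  have h1 : ∀ s ∈ Icc a T, W s * ∑ i ∈ S s, ENNReal.ofReal (1 + ‖(X s i).2‖) ≤
      W a * ENNReal.ofReal (JengB Φ ε b a (S a) (X a)) +
        ∑ p ∈ S T \ S a, W (θ p) * ENNReal.ofReal (w p + (stabB Φ + 3 / 2)) := by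
    intro s hs
    have h0s : 0 ≤ s := ha.trans hs.1
    have h2 := speed_le_JengB hΦ hε hX h0s (S s)
    have h3 := JengB_restart hΦ hε hX hS hC hmono hiso ha hw hs.1 hs.2
    have h4 : ∑ i ∈ S s, ENNReal.ofReal (1 + ‖(X s i).2‖) ≤
        ENNReal.ofReal (JengB Φ ε b a (S a) (X a)) +
          ∑ p ∈ S s \ S a, ENNReal.ofReal (w p + (stabB Φ + 3 / 2)) := by
      rw [← ENNReal.ofReal_sum_of_nonneg fun i _ => by positivity,
        ← ENNReal.ofReal_sum_of_nonneg fun p _ => by have := hw0 p; positivity,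
        ← ENNReal.ofReal_add (JengB_nonneg hΦ hε hX ha _)
          (Finset.sum_nonneg fun p _ => by have := hw0 p; positivity)]
      exact ENNReal.ofReal_le_ofReal (h2.trans h3)
    refine (mul_le_mul_right h4 _).trans ?_
    rw [mul_add]
    refine add_le_add (mul_le_mul_left (hW a s le_rfl hs.1 hs.2) _) ?_
    rw [Finset.mul_sum]
    have hsub : S s \ S a ⊆ S T \ S a :=
      Finset.sdiff_subset_sdiff (hmono s T h0s hs.2 le_rfl) (Finset.Subset.refl _)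
    refine (Finset.sum_le_sum fun p hp => ?_).trans
      (Finset.sum_le_sum_of_subset hsub)
    exact mul_le_mul_left (hW (θ p) s (hθ p (hsub hp)) (hθ' s hs.1 hs.2 p hp) hs.2) _
  calc ∫⁻ s in Icc a T, W s * ∑ i ∈ S s, ENNReal.ofReal (1 + ‖(X s i).2‖)
      ≤ ∫⁻ _ in Icc a T, (W a * ENNReal.ofReal (JengB Φ ε b a (S a) (X a)) +
        ∑ p ∈ S T \ S a, W (θ p) * ENNReal.ofReal (w p + (stabB Φ + 3 / 2))) :=
        lintegral_mono_ae (by
          filter_upwards [ae_restrict_mem measurableSet_Icc] with t ht using h1 t ht)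
    _ = _ := by rw [setLIntegral_const, Real.volume_Icc, mul_comm]

end births

/-! ## The gas without births -/

section flow

variable {ι : Type*} [Fintype ι] {Φ : Space3 → ℝ} {ε T : ℝ}

/-- The flow is a world with births at time `0`. -/
theorem bworld_flow (hΦ : AdmissiblePotential Φ) (hε : 0 < ε) {Z : ι → PhasePoint}
    (hfar : ∀ i j, i ≠ j → ε ≤ dist (Z i).1 (Z j).1) :
    BWorld Φ ε (fun _ : ι => (0 : ℝ)) 0 (fun t => flow Φ ε t Z) :=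
  World.bworld (Loc45.world_flow hΦ hε (Dom_of_far hε hfar)) fun _ => le_rfl

theorem sepBirths_flow (hΦ : AdmissiblePotential Φ) (hε : 0 < ε) {Z : ι → PhasePoint}
    (hfar : ∀ i j, i ≠ j → ε ≤ dist (Z i).1 (Z j).1) (T : ℝ) :
    SepBirths ε (fun _ : ι => (0 : ℝ)) T (fun t => flow Φ ε t Z) where
  init i j hij _ _ := by
    simp only [flow_zero hΦ hε]
    exact hfar i j hij
  birth i j _ h0 _ _ := absurd h0 (lt_irrefl _)

/-- Energy of the family `A` plus `stabB Φ + 3 / 2` times its number. -/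
noncomputable def Jeng (Φ : Space3 → ℝ) (ε : ℝ) (A : Finset ι) (Z : ι → PhasePoint) : ℝ :=
  eng Φ ε A Z + (stabB Φ + 3 / 2) * A.card

omit [Fintype ι] in
@[simp] theorem Jeng_empty (Z : ι → PhasePoint) : Jeng Φ ε ∅ Z = 0 := by simp [Jeng]

omit [Fintype ι] in
theorem Jeng_eq_JengB {t : ℝ} (ht : 0 ≤ t) (A : Finset ι) (Z : ι → PhasePoint) :
    Jeng Φ ε A Z = JengB Φ ε (fun _ : ι => (0 : ℝ)) t A Z := by
  unfold Jeng JengB
  rw [engB_of_born Φ ε (fun _ _ => ht)]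

variable {Z : ι → PhasePoint}

theorem Jeng_nonneg (hΦ : AdmissiblePotential Φ) (hε : 0 < ε)
    (hfar : ∀ i j, i ≠ j → ε ≤ dist (Z i).1 (Z j).1) {t : ℝ} (ht : 0 ≤ t) (A : Finset ι) :
    0 ≤ Jeng Φ ε A (flow Φ ε t Z) := by
  rw [Jeng_eq_JengB ht]
  exact JengB_nonneg hΦ hε (bworld_flow hΦ hε hfar) ht A

theorem speed_le_Jeng (hΦ : AdmissiblePotential Φ) (hε : 0 < ε)
    (hfar : ∀ i j, i ≠ j → ε ≤ dist (Z i).1 (Z j).1) {t : ℝ} (ht : 0 ≤ t) (A : Finset ι) :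
    ∑ i ∈ A, (1 + ‖(flow Φ ε t Z i).2‖) ≤ Jeng Φ ε A (flow Φ ε t Z) := by
  rw [Jeng_eq_JengB ht]
  exact speed_le_JengB hΦ hε (bworld_flow hΦ hε hfar) ht A

theorem sq_le_Jeng (hΦ : AdmissiblePotential Φ) (hε : 0 < ε)
    (hfar : ∀ i j, i ≠ j → ε ≤ dist (Z i).1 (Z j).1) {t : ℝ} (ht : 0 ≤ t) (A : Finset ι) :
    ∑ i ∈ A, (1 + ‖(flow Φ ε t Z i).2‖ ^ 2) ≤ 2 * Jeng Φ ε A (flow Φ ε t Z) := by
  rw [Jeng_eq_JengB ht]
  exact sq_le_JengB hΦ hε (bworld_flow hΦ hε hfar) ht A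

/-- The initial energy with its number, an upper bound for all the functionals of the gas. -/
noncomputable def totE (Φ : Space3 → ℝ) (Z : ι → PhasePoint) : ℝ :=
  ∑ i, ((1 / 2) * ‖(Z i).2‖ ^ 2 + (stabB Φ + 3 / 2))

theorem Jeng_le_total (hΦ : AdmissiblePotential Φ) (hε : 0 < ε)
    (hfar : ∀ i j, i ≠ j → ε ≤ dist (Z i).1 (Z j).1) {t : ℝ} (ht : 0 ≤ t) {A : Finset ι}
    (hA : Iso ε A (flow Φ ε t Z)) : Jeng Φ ε A (flow Φ ε t Z) ≤ totE Φ Z := by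
  rw [Jeng_eq_JengB ht]
  have h1 := JengB_le_total hΦ hε (bworld_flow hΦ hε hfar) (sepBirths_flow hΦ hε hfar t) ht le_rfl
    (fun i hi j hj _ _ => hA i hi j hj)
  simp only [flow_zero hΦ hε] at h1
  exact h1

/-- Total speeds of the gas at time `t`. -/
theorem total_speed_le (hΦ : AdmissiblePotential Φ) (hε : 0 < ε)
    (hfar : ∀ i j, i ≠ j → ε ≤ dist (Z i).1 (Z j).1) {t : ℝ} (ht : 0 ≤ t) :
    ∑ i, (1 + ‖(flow Φ ε t Z i).2‖) ≤ totE Φ Z := by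
  have h1 := total_speed_leB hΦ hε (bworld_flow hΦ hε hfar) (sepBirths_flow hΦ hε hfar t) ht le_rfl
  simp only [flow_zero hΦ hε] at h1
  exact h1

variable [DecidableEq ι]

omit [Fintype ι] in
theorem isoFam_of_strict {X : ℝ → ι → PhasePoint} {S : ℝ → Finset ι} {b : ι → ℝ}
    (h : ∀ s, 0 ≤ s → s ≤ T → ∀ i ∈ S s, ∀ j ∉ S s, ε < dist (X s i).1 (X s j).1) :
    IsoFam ε b T X S := fun s h0 h1 i hi j hj _ _ => h s h0 h1 i hi j hj

/-- **Restart inequality for the gas.** -/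
theorem Jeng_restart (hΦ : AdmissiblePotential Φ) (hε : 0 < ε)
    (hfar : ∀ i j, i ≠ j → ε ≤ dist (Z i).1 (Z j).1)
    {S : ℝ → Finset ι} (hmono : ∀ s s', 0 ≤ s → s ≤ s' → s' ≤ T → S s ⊆ S s')
    (hiso : ∀ s, 0 ≤ s → s ≤ T → ∀ i ∈ S s, ∀ j ∉ S s,
      ε < dist (flow Φ ε s Z i).1 (flow Φ ε s Z j).1)
    {a : ℝ} (ha : 0 ≤ a) {w : ι → ℝ}
    (hw : ∀ s, a ≤ s → s ≤ T → ∀ p ∉ S s, p ∈ S T →
      Wt (stabB Φ) Z (BC (Ct (fun t => flow Φ ε t Z) ε) s p) ≤ w p)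
    {t : ℝ} (hat : a ≤ t) (htT : t ≤ T) :
    Jeng Φ ε (S t) (flow Φ ε t Z) ≤
      Jeng Φ ε (S a) (flow Φ ε a Z) + ∑ p ∈ S t \ S a, (w p + (stabB Φ + 3 / 2)) := by
  rw [Jeng_eq_JengB (ha.trans hat), Jeng_eq_JengB ha]
  refine JengB_restart hΦ hε (bworld_flow hΦ hε hfar) (sepBirths_flow hΦ hε hfar T)
    (C := Ct (fun t => flow Φ ε t Z) ε) (fun s j k _ _ h => h) hmono (isoFam_of_strict hiso) ha ?_
    hat htT
  simp only [flow_zero hΦ hε]
  exact hw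

/-- **Weighted flux of the infected set of the gas**, (3.4) of `E_FINAL`. -/
theorem lintegral_flux_le (hΦ : AdmissiblePotential Φ) (hε : 0 < ε)
    (hfar : ∀ i j, i ≠ j → ε ≤ dist (Z i).1 (Z j).1)
    {S : ℝ → Finset ι} (hmono : ∀ s s', 0 ≤ s → s ≤ s' → s' ≤ T → S s ⊆ S s')
    (hiso : ∀ s, 0 ≤ s → s ≤ T → ∀ i ∈ S s, ∀ j ∉ S s,
      ε < dist (flow Φ ε s Z i).1 (flow Φ ε s Z j).1)
    {a : ℝ} (ha : 0 ≤ a) {w : ι → ℝ} (hw0 : ∀ p, 0 ≤ w p)
    (hw : ∀ s, a ≤ s → s ≤ T → ∀ p ∉ S s, p ∈ S T →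
      Wt (stabB Φ) Z (BC (Ct (fun t => flow Φ ε t Z) ε) s p) ≤ w p)
    {W : ℝ → ℝ≥0∞} (hW : ∀ s s', a ≤ s → s ≤ s' → s' ≤ T → W s' ≤ W s) {θ : ι → ℝ}
    (hθ : ∀ p ∈ S T \ S a, a ≤ θ p) (hθ' : ∀ s, a ≤ s → s ≤ T → ∀ p ∈ S s \ S a, θ p ≤ s) :
    ∫⁻ s in Icc a T, W s * ∑ i ∈ S s, ENNReal.ofReal (1 + ‖(flow Φ ε s Z i).2‖) ≤
      ENNReal.ofReal (T - a) * (W a * ENNReal.ofReal (Jeng Φ ε (S a) (flow Φ ε a Z)) +
        ∑ p ∈ S T \ S a, W (θ p) * ENNReal.ofReal (w p + (stabB Φ + 3 / 2))) := by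
  rw [Jeng_eq_JengB ha]
  refine lintegral_flux_leB hΦ hε (bworld_flow hΦ hε hfar) (sepBirths_flow hΦ hε hfar T)
    (C := Ct (fun t => flow Φ ε t Z) ε) (fun s j k _ _ h => h) hmono (isoFam_of_strict hiso) ha
    hw0 ?_ hW hθ hθ'
  simp only [flow_zero hΦ hε]
  exact hw

end flow

/-! ## The contact relation of 879 -/

theorem ctB_of_born {ι : Type*} {b : ι → ℝ} {X : ℝ → ι → PhasePoint} {ε s : ℝ} {j k : ι}
    (hj : b j < s) (hk : b k < s) (h : dist (X s j).1 (X s k).1 ≤ ε) : CtB b X ε s j k :=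
  ⟨hj.le, hk.le, Or.inr (Or.inl hj), h⟩

/-- A family closed under the contacts of 879 is isolated. -/
theorem isoFam_of_ctB {ι : Type*} {b : ι → ℝ} {X : ℝ → ι → PhasePoint} {ε T : ℝ}
    {S : ℝ → Finset ι}
    (h : ∀ s, 0 ≤ s → s ≤ T → ∀ i ∈ S s, ∀ j, CtB b X ε s i j → j ∈ S s) :
    IsoFam ε b T X S := by
  intro s h0 h1 i hi j hj hbi hbj
  by_contra hle
  push Not at hle
  exact hj (h s h0 h1 i hi j (ctB_of_born hbi hbj hle))

end Crest.Agent.R122.Energy410
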