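import Mathlib
import Crest.Prelude.Def_KineticLimit
import Crest.Agent.R122.BirthsEvo_45

/-!
# Worlds with births (row 122, block INS, helper45), part 3: hiding and unhiding groups

* `lineAt`, `rebirthPath`, `BWorld.rebirth`: postpone the births of some particles to later times
  `b'`. If at every time the visible particles (`b' i ≤ t`) are at distance at least `ε` from the
  hidden ones (`b j ≤ t < b' j`), then the visible particles form a world with births `b'`.
  Applications: a clean unhit cluster `D` is the family of its exit lines born at their exit times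
  (plus the root line born at its last vertex); after an isolated encounter of a line `l` with a
  particle `c` the world `Z + l` is the world `Z₀ + l' + c'`; an isolated particle may be born later.
* `BWorld.unhide`: the converse (factorisation).
* `BWorld.restrict`: an isolated sub-family is a world with births.
* `insW`: insertion of a family of lines; `BWorld.insert_free`: untouched insertion.
-/

set_option autoImplicit false
set_option linter.unusedSectionVars false

open MeasureTheory Set Filter Topology
open scoped NNReal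
open Crest.AnalysisR.Kinetic
open Crest.Agent.R122.Flow671 Crest.Agent.R122.Loc45

namespace Crest.Agent.R122.Ins45

noncomputable section

variable {Φ : Space3 → ℝ} {ε : ℝ} {ι κ μ : Type*} [Fintype ι] [Fintype κ]

/-- The state at time `t` of the free path which is in the state `z` at time `τ`. -/
def lineAt (τ : ℝ) (z : PhasePoint) (t : ℝ) : PhasePoint := (z.1 + (t - τ) • z.2, z.2)

@[simp] theorem lineAt_self (τ : ℝ) (z : PhasePoint) : lineAt τ z τ = z := by
  simp [lineAt]

theorem lineAt_lineAt (τ s t : ℝ) (z : PhasePoint) : lineAt s (lineAt τ z s) t = lineAt τ z t := by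
  unfold lineAt
  refine Prod.ext ?_ rfl
  simp only
  rw [add_assoc, ← add_smul]
  congr 2
  ring

theorem continuous_lineAt (τ : ℝ) (z : PhasePoint) : Continuous (lineAt τ z) := by
  unfold lineAt
  fun_prop

theorem hasDerivAt_lineAt (τ : ℝ) (z : PhasePoint) (t : ℝ) :
    HasDerivAt (lineAt τ z) ((lineAt τ z t).2, 0) t := by
  have h1 : HasDerivAt (fun t : ℝ => z.1 + (t - τ) • z.2) z.2 t := by
    have h4 : HasDerivAt (fun t : ℝ => (t - τ) • z.2) ((1 : ℝ) • z.2) t :=
      ((hasDerivAt_id t).sub_const τ).smul_const _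
    rw [one_smul] at h4
    exact h4.const_add _
  exact h1.prodMk (hasDerivAt_const _ _)

theorem measurable_lineAt {δ : Type*} [MeasurableSpace δ] {τ t : δ → ℝ} {z : δ → PhasePoint}
    (hτ : Measurable τ) (ht : Measurable t) (hz : Measurable z) :
    Measurable fun x => lineAt (τ x) (z x) (t x) :=
  (hz.fst.add ((ht.sub hτ).smul hz.snd)).prodMk hz.snd

/-- A world with births: in coordinates, an unborn particle is on its free line. -/
theorem BWorld.lineAt_of_unborn (hΦ : AdmissiblePotential Φ) (hε : 0 < ε) {b : ι → ℝ} {t₀ : ℝ}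
    {X : ℝ → ι → PhasePoint} (hX : BWorld Φ ε b t₀ X) (i : ι) {t : ℝ} (ht₀ : t₀ ≤ t)
    (ht : t ≤ b i) : X t i = lineAt (b i) (X (b i) i) t := by
  rw [hX.free_of_unborn hΦ hε i ht₀ ht, hX.free_of_unborn hΦ hε i (ht₀.trans ht) le_rfl]
  unfold lineAt
  refine Prod.ext ?_ rfl
  simp only
  rw [add_assoc, ← add_smul]
  congr 2
  ring

/-! ### Hiding -/

/-- Path of the world in which the births are postponed to `b'`. -/
def rebirthPath (b' : ι → ℝ) (X : ℝ → ι → PhasePoint) (t : ℝ) (i : ι) : PhasePoint :=
  if t < b' i then lineAt (b' i) (X (b' i) i) t else X t i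

omit [Fintype ι] in
theorem rebirthPath_of_le {b' : ι → ℝ} {X : ℝ → ι → PhasePoint} {t : ℝ} {i : ι} (h : b' i ≤ t) :
    rebirthPath b' X t i = X t i := by
  unfold rebirthPath
  rw [if_neg (not_lt.2 h)]

omit [Fintype ι] in
theorem rebirthPath_of_ge {b' : ι → ℝ} {X : ℝ → ι → PhasePoint} {t : ℝ} {i : ι} (h : t ≤ b' i) :
    rebirthPath b' X t i = lineAt (b' i) (X (b' i) i) t := by
  rcases h.lt_or_eq with h | h
  · unfold rebirthPath
    rw [if_pos h]
  · subst h
    rw [rebirthPath_of_le le_rfl, lineAt_self]

/-- **Hiding lemma.** -/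
theorem BWorld.rebirth (hΦ : AdmissiblePotential Φ) (hε : 0 < ε) {b b' : ι → ℝ}
    {t₀ : ℝ} {X : ℝ → ι → PhasePoint} (hX : BWorld Φ ε b t₀ X) (hbb' : ∀ i, b i ≤ b' i)
    (hfar : ∀ t, t₀ ≤ t → ∀ i j, b' i ≤ t → b j ≤ t → t < b' j → ε ≤ dist (X t i).1 (X t j).1) :
    BWorld Φ ε b' t₀ (rebirthPath b' X) where
  cont := by
    refine continuousOn_pi.2 fun i => ?_
    by_cases hi : b' i ≤ t₀
    · refine (hX.cont_apply i).congr fun t ht => ?_
      exact rebirthPath_of_le (hi.trans ht)
    · push Not at hi
      have h3 : Ici t₀ = Icc t₀ (b' i) ∪ Ici (b' i) := by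
        ext t
        simp only [mem_Ici, mem_union, mem_Icc]
        constructor
        · intro h
          rcases le_total t (b' i) with h' | h'
          · exact Or.inl ⟨h, h'⟩
          · exact Or.inr h'
        · rintro (h | h)
          · exact h.1
          · exact hi.le.trans h
      rw [h3]
      refine ContinuousOn.union_of_isClosed ?_ ?_ isClosed_Icc isClosed_Ici
      · exact (continuous_lineAt _ _).continuousOn.congr fun t ht => rebirthPath_of_ge ht.2
      · exact ((hX.cont_apply i).mono (Ici_subset_Ici.2 hi.le)).congr fun t ht =>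
          rebirthPath_of_le ht
  der t ht := by
    classical
    rw [hasDerivWithinAt_pi]
    intro i
    rcases lt_or_ge t (b' i) with hi | hi
    · -- hidden or unborn: free line
      rw [bf_of_unborn Φ ε _ hi, rebirthPath_of_ge hi.le]
      have h1 := (hasDerivAt_lineAt (b' i) (X (b' i) i) t).hasDerivWithinAt (s := Ici t)
      refine h1.congr_of_eventuallyEq ?_ (rebirthPath_of_ge hi.le)
      filter_upwards [Icc_mem_nhdsGE hi] with u hu
      exact rebirthPath_of_ge hu.2
    · have h1 := (hasDerivWithinAt_pi.1 (hX.der t ht)) i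
      have h2 : bf Φ ε b' t (rebirthPath b' X t) i = bf Φ ε b t (X t) i := by
        unfold bf
        rw [if_pos hi, if_pos ((hbb' i).trans hi), rebirthPath_of_le hi]
        congr 2
        refine Finset.sum_congr rfl fun j _ => ?_
        by_cases hj : b' j ≤ t
        · rw [if_pos hj, if_pos ((hbb' j).trans hj), rebirthPath_of_le hj]
        · rw [if_neg hj]
          by_cases hj' : b j ≤ t
          · rw [if_pos hj']
            exact (grad_far hΦ hε (hfar t ht i j hi hj' (not_le.1 hj))).symm
          · rw [if_neg hj']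
      rw [h2]
      exact h1.congr (fun u hu => rebirthPath_of_le (hi.trans hu)) (rebirthPath_of_le hi)
  dom t ht := by
    refine (hX.dom t ht).imp id fun h i j hij hi hj => ?_
    rw [rebirthPath_of_le hi, rebirthPath_of_le hj]
    exact h i j hij ((hbb' i).trans hi) ((hbb' j).trans hj)

/-- Particles whose birth is not postponed keep their paths. -/
theorem BWorld.rebirth_eq (hΦ : AdmissiblePotential Φ) (hε : 0 < ε) {b b' : ι → ℝ}
    {t₀ : ℝ} {X : ℝ → ι → PhasePoint} (hX : BWorld Φ ε b t₀ X) {i : ι} (hi : b' i = b i) {t : ℝ}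
    (ht : t₀ ≤ t) : rebirthPath b' X t i = X t i := by
  rcases le_total (b' i) t with h | h
  · exact rebirthPath_of_le h
  · rw [rebirthPath_of_ge h, hi, hX.lineAt_of_unborn hΦ hε i ht (hi ▸ h)]

/-! ### Restriction to an isolated sub-family -/

/-- An isolated sub-family of a world with births is a world with births. -/
theorem BWorld.restrict (hΦ : AdmissiblePotential Φ) (hε : 0 < ε) {b : κ → ℝ} {t₀ : ℝ}
    {X : ℝ → κ → PhasePoint} (hX : BWorld Φ ε b t₀ X) (e : ι ↪ κ)
    (hfar : ∀ t, t₀ ≤ t → ∀ i, b (e i) ≤ t → ∀ j, j ∉ range e → b j ≤ t →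
      ε ≤ dist (X t (e i)).1 (X t j).1) :
    BWorld Φ ε (fun i => b (e i)) t₀ (fun t i => X t (e i)) where
  cont := continuousOn_pi.2 fun i => hX.cont_apply (e i)
  der t ht := by
    classical
    rw [hasDerivWithinAt_pi]
    intro i
    have h1 := (hasDerivWithinAt_pi.1 (hX.der t ht)) (e i)
    have h2 : bf Φ ε (fun i => b (e i)) t (fun i => X t (e i)) i = bf Φ ε b t (X t) (e i) := by
      unfold bf
      by_cases hi : b (e i) ≤ t
      · rw [if_pos hi, if_pos hi]
        congr 2
        symm
        rw [← Finset.sum_subset (Finset.subset_univ (Finset.univ.map e)), Finset.sum_map]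
        intro j _ hj
        by_cases hj' : b j ≤ t
        · rw [if_pos hj']
          refine grad_far hΦ hε (hfar t ht i hi j ?_ hj')
          rintro ⟨k, rfl⟩
          exact hj (by simp)
        · rw [if_neg hj']
      · rw [if_neg hi, if_neg hi]
    rw [h2]
    exact h1
  dom t ht := (hX.dom t ht).imp id fun h i j hij hi hj =>
    h (e i) (e j) (fun h' => hij (e.injective h')) hi hj

/-- Relabelling. -/
theorem BWorld.equiv {b : κ → ℝ} {t₀ : ℝ}
    {X : ℝ → κ → PhasePoint} (hX : BWorld Φ ε b t₀ X) (σ : ι ≃ κ) :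
    BWorld Φ ε (fun i => b (σ i)) t₀ (fun t i => X t (σ i)) where
  cont := continuousOn_pi.2 fun i => hX.cont_apply (σ i)
  der t ht := by
    classical
    rw [hasDerivWithinAt_pi]
    intro i
    have h1 := (hasDerivWithinAt_pi.1 (hX.der t ht)) (σ i)
    have h2 : bf Φ ε (fun i => b (σ i)) t (fun i => X t (σ i)) i = bf Φ ε b t (X t) (σ i) := by
      unfold bf
      by_cases hi : b (σ i) ≤ t
      · rw [if_pos hi, if_pos hi]
        congr 2
        exact Fintype.sum_equiv σ _ _ fun j => rfl
      · rw [if_neg hi, if_neg hi]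
    rw [h2]
    exact h1
  dom t ht := (hX.dom t ht).imp id fun h i j hij hi hj =>
    h (σ i) (σ j) (fun h' => hij (σ.injective h')) hi hj

/-- **Gluing** of two worlds with births at cross distance at least `ε`. -/
theorem BWorld.sum_elim (hΦ : AdmissiblePotential Φ) (hε : 0 < ε) {b : ι → ℝ} {c : κ → ℝ}
    {t₀ : ℝ} {X : ℝ → ι → PhasePoint} {Y : ℝ → κ → PhasePoint} (hX : BWorld Φ ε b t₀ X)
    (hY : BWorld Φ ε c t₀ Y)
    (hfar : ∀ t, t₀ ≤ t → ∀ i j, b i ≤ t → c j ≤ t → ε ≤ dist (X t i).1 (Y t j).1) :
    BWorld Φ ε (Sum.elim b c) t₀ (fun t => Sum.elim (X t) (Y t)) where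
  cont := by
    refine continuousOn_pi.2 ?_
    rintro (i | j)
    · exact hX.cont_apply i
    · exact hY.cont_apply j
  der t ht := by
    classical
    rw [hasDerivWithinAt_pi]
    rintro (i | j)
    · have h1 := (hasDerivWithinAt_pi.1 (hX.der t ht)) i
      have h2 : bf Φ ε (Sum.elim b c) t (Sum.elim (X t) (Y t)) (Sum.inl i) = bf Φ ε b t (X t) i := by
        unfold bf
        rw [Fintype.sum_sum_type]
        change ((X t i).2, if b i ≤ t then -(1 / ε) •
          ((∑ j, (if b j ≤ t then gradient Φ ((1 / ε) • ((X t i).1 - (X t j).1)) else 0)) +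
          ∑ j, (if c j ≤ t then gradient Φ ((1 / ε) • ((X t i).1 - (Y t j).1)) else 0)) else 0) = _
        by_cases hi : b i ≤ t
        · have hz : ∑ j, (if c j ≤ t then gradient Φ ((1 / ε) • ((X t i).1 - (Y t j).1)) else 0)
              = 0 := by
            refine Finset.sum_eq_zero fun j _ => ?_
            split_ifs with hj
            · exact grad_far hΦ hε (hfar t ht i j hi hj)
            · rfl
          rw [if_pos hi, if_pos hi, hz, add_zero]
        · rw [if_neg hi, if_neg hi]
      rw [h2]
      exact h1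
    · have h1 := (hasDerivWithinAt_pi.1 (hY.der t ht)) j
      have h2 : bf Φ ε (Sum.elim b c) t (Sum.elim (X t) (Y t)) (Sum.inr j) = bf Φ ε c t (Y t) j := by
        unfold bf
        rw [Fintype.sum_sum_type]
        change ((Y t j).2, if c j ≤ t then -(1 / ε) •
          ((∑ i, (if b i ≤ t then gradient Φ ((1 / ε) • ((Y t j).1 - (X t i).1)) else 0)) +
          ∑ i, (if c i ≤ t then gradient Φ ((1 / ε) • ((Y t j).1 - (Y t i).1)) else 0)) else 0) = _
        by_cases hj : c j ≤ t
        · have hz : ∑ i, (if b i ≤ t then gradient Φ ((1 / ε) • ((Y t j).1 - (X t i).1)) else 0)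
              = 0 := by
            refine Finset.sum_eq_zero fun i _ => ?_
            split_ifs with hi
            · exact grad_far hΦ hε (by rw [dist_comm]; exact hfar t ht i j hi hj)
            · rfl
          rw [if_pos hj, if_pos hj, hz, zero_add]
        · rw [if_neg hj, if_neg hj]
      rw [h2]
      exact h1
  dom t ht := by
    rcases hX.dom t ht with h | h
    · exact Or.inl h
    rcases hY.dom t ht with h' | h'
    · exact Or.inl h'
    refine Or.inr ?_
    rintro (i | i) (j | j) hij hi hj
    · exact h i j (fun h' => hij (by rw [h'])) hi hj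
    · exact ne_of_le_dist hε (hfar t ht i j hi hj)
    · exact (ne_of_le_dist hε (hfar t ht j i hj hi)).symm
    · exact h' i j (fun h' => hij (by rw [h'])) hi hj

/-- A single line is a world with births. -/
theorem bworld_line (hΦ : AdmissiblePotential Φ) (τ : ℝ) (z : PhasePoint) (t₀ : ℝ) :
    BWorld Φ ε (fun _ : Unit => τ) t₀ (fun t _ => lineAt τ z t) where
  cont := (continuous_pi fun _ => continuous_lineAt τ z).continuousOn
  der t _ := by
    classical
    rw [hasDerivWithinAt_pi]
    intro x
    have h2 : bf Φ ε (fun _ : Unit => τ) t (fun _ => lineAt τ z t) x = ((lineAt τ z t).2, 0) := by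
      unfold bf
      by_cases h : τ ≤ t
      · simp [h, grad_origin hΦ]
      · simp [h]
    rw [h2]
    exact (hasDerivAt_lineAt τ z t).hasDerivWithinAt
  dom t _ := Or.inr fun i j hij => absurd (Subsingleton.elim i j) hij

/-! ### Unhiding -/

open scoped Classical in
/-- Path of the world in which the particles of `H` follow `V` before their (late) births `b'`. -/
def unhidePath (H : Set ι) (b' : ι → ℝ) (V : ℝ → H → PhasePoint) (X' : ℝ → ι → PhasePoint)
    (t : ℝ) (i : ι) : PhasePoint :=
  if h : i ∈ H ∧ t < b' i then V t ⟨i, h.1⟩ else X' t i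

/-- **Unhiding lemma (factorisation).** Let `X'` be a world with births `b'` and `V` a world with
births `c` over the sub-family `H` (the isolated cluster), such that `V` and `X'` have the same
state of `k` at its late birth `b' k`. If the hidden particles (`k ∈ H`, `t < b' k`) stay in `V` at
distance at least `ε` from the already exited ones of `V` and from all visible particles of `X'`,
then the combined path is a world with the births `c` for `H`. -/
theorem BWorld.unhide (hΦ : AdmissiblePotential Φ) (hε : 0 < ε) {b b' : ι → ℝ} {H : Set ι}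
    {c : H → ℝ} {t₀ : ℝ} {X' : ℝ → ι → PhasePoint} {V : ℝ → H → PhasePoint} [Fintype H]
    (hX' : BWorld Φ ε b' t₀ X') (hV : BWorld Φ ε c t₀ V)
    (hb : ∀ i, i ∉ H → b i = b' i) (hbH : ∀ k : H, b k = c k) (hcb : ∀ k : H, c k ≤ b' k)
    (hmatch : ∀ k : H, t₀ ≤ b' k → V (b' k) k = X' (b' k) k)
    (hVV : ∀ t, t₀ ≤ t → ∀ j k : H, c j ≤ t → t < b' j → b' k ≤ t →
      ε ≤ dist (V t j).1 (V t k).1)
    (hVX : ∀ t, t₀ ≤ t → ∀ (j : H) (i : ι), c j ≤ t → t < b' j → b' i ≤ t →
      ε ≤ dist (V t j).1 (X' t i).1) :
    BWorld Φ ε b t₀ (unhidePath H b' V X') := by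
  classical
  have hpath1 : ∀ (t : ℝ) (k : H), t < b' k → unhidePath H b' V X' t k = V t k := by
    intro t k h
    unfold unhidePath
    rw [dif_pos ⟨k.2, h⟩]
  have hpath2 : ∀ (t : ℝ) (i : ι), (i ∉ H ∨ b' i ≤ t) → unhidePath H b' V X' t i = X' t i := by
    intro t i h
    unfold unhidePath
    rw [dif_neg]
    rintro ⟨h1, h2⟩
    rcases h with h | h
    · exact h h1
    · exact absurd h2 (not_lt.2 h)
  have hpath3 : ∀ (t : ℝ) (k : H), t₀ ≤ b' k → t ≤ b' k → unhidePath H b' V X' t k = V t k := by
    intro t k h0 h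
    rcases h.lt_or_eq with h | h
    · exact hpath1 t k h
    · subst h
      rw [hpath2 _ _ (Or.inr le_rfl), hmatch k h0]
  refine ⟨?_, fun t ht => ?_, fun t ht => ?_⟩
  · refine continuousOn_pi.2 fun i => ?_
    by_cases hi : i ∈ H
    swap
    · exact (hX'.cont_apply i).congr fun t _ => hpath2 t i (Or.inl hi)
    by_cases hi' : b' i ≤ t₀
    · exact (hX'.cont_apply i).congr fun t ht => hpath2 t i (Or.inr (hi'.trans ht))
    push Not at hi'
    have h3 : Ici t₀ = Icc t₀ (b' i) ∪ Ici (b' i) := by
      ext t
      simp only [mem_Ici, mem_union, mem_Icc]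
      constructor
      · intro h
        rcases le_total t (b' i) with h' | h'
        · exact Or.inl ⟨h, h'⟩
        · exact Or.inr h'
      · rintro (h | h)
        · exact h.1
        · exact hi'.le.trans h
    rw [h3]
    refine ContinuousOn.union_of_isClosed ?_ ?_ isClosed_Icc isClosed_Ici
    · exact ((hV.cont_apply ⟨i, hi⟩).mono Icc_subset_Ici_self).congr fun t ht =>
        hpath3 t ⟨i, hi⟩ hi'.le ht.2
    · exact ((hX'.cont_apply i).mono (Ici_subset_Ici.2 hi'.le)).congr fun t ht =>
        hpath2 t i (Or.inr ht)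
  · rw [hasDerivWithinAt_pi]
    intro i
    by_cases hi : i ∈ H ∧ t < b' i
    · -- hidden particle
      obtain ⟨hiH, hit⟩ := hi
      have h1 := (hasDerivWithinAt_pi.1 (hV.der t ht)) ⟨i, hiH⟩
      have h2 : bf Φ ε b t (unhidePath H b' V X' t) i = bf Φ ε c t (V t) ⟨i, hiH⟩ := by
        unfold bf
        rw [hpath1 t ⟨i, hiH⟩ hit, hbH ⟨i, hiH⟩]
        by_cases hci : c ⟨i, hiH⟩ ≤ t
        swap
        · rw [if_neg hci, if_neg hci]
        rw [if_pos hci, if_pos hci]
        congr 2
        rw [← Finset.sum_subset (Finset.subset_univ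
          (Finset.univ.map (Function.Embedding.subtype fun i => i ∈ H))), Finset.sum_map]
        · refine Finset.sum_congr rfl fun k _ => ?_
          change (if b k ≤ t then gradient Φ ((1 / ε) • ((V t ⟨i, hiH⟩).1 -
            (unhidePath H b' V X' t k).1)) else 0) = _
          have hbk : b k ≤ t ↔ c k ≤ t := by rw [hbH k]
          by_cases hck : c k ≤ t
          swap
          · rw [if_neg hck, if_neg fun h => hck (hbk.1 h)]
          rw [if_pos hck, if_pos (hbk.2 hck)]
          by_cases hkt : t < b' k
          · rw [hpath1 t k hkt]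
          · push Not at hkt
            rw [hpath2 t k (Or.inr hkt), grad_far hΦ hε (hVX t ht ⟨i, hiH⟩ k hci hit hkt),
              grad_far hΦ hε (hVV t ht ⟨i, hiH⟩ k hci hit hkt)]
        · intro j _ hj
          have hjH : j ∉ H := fun h => hj (by simp [h])
          rw [hb j hjH]
          by_cases hjt : b' j ≤ t
          · rw [if_pos hjt, hpath2 t j (Or.inl hjH)]
            exact grad_far hΦ hε (hVX t ht ⟨i, hiH⟩ j hci hit hjt)
          · rw [if_neg hjt]
      rw [h2]
      refine h1.congr_of_eventuallyEq ?_ (hpath1 t ⟨i, hiH⟩ hit)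
      filter_upwards [Ico_mem_nhdsGE hit] with u hu
      exact hpath1 u ⟨i, hiH⟩ hu.2
    · -- visible, or unborn outside `H`
      have hi' : i ∉ H ∨ b' i ≤ t := by
        by_contra hcon
        push Not at hcon
        exact hi hcon
      have h1 := (hasDerivWithinAt_pi.1 (hX'.der t ht)) i
      have h2 : bf Φ ε b t (unhidePath H b' V X' t) i = bf Φ ε b' t (X' t) i := by
        unfold bf
        rw [hpath2 t i hi']
        have hbi : b i ≤ t ↔ b' i ≤ t := by
          by_cases hiH : i ∈ H
          · have h3 : b' i ≤ t := hi'.resolve_left (not_not.2 hiH)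
            have h4 : b i = c ⟨i, hiH⟩ := hbH ⟨i, hiH⟩
            exact ⟨fun _ => h3, fun _ => h4 ▸ (hcb ⟨i, hiH⟩).trans h3⟩
          · rw [hb i hiH]
        by_cases hbt : b' i ≤ t
        swap
        · rw [if_neg hbt, if_neg fun h => hbt (hbi.1 h)]
        rw [if_pos hbt, if_pos (hbi.2 hbt)]
        congr 2
        refine Finset.sum_congr rfl fun j _ => ?_
        by_cases hjH : j ∈ H
        · have hbj : b j = c ⟨j, hjH⟩ := hbH ⟨j, hjH⟩
          by_cases hjt : b' j ≤ t
          · rw [if_pos hjt, hbj, if_pos ((hcb ⟨j, hjH⟩).trans hjt), hpath2 t j (Or.inr hjt)]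
          · rw [if_neg hjt, hbj]
            by_cases hcj : c ⟨j, hjH⟩ ≤ t
            · rw [if_pos hcj, hpath1 t ⟨j, hjH⟩ (not_le.1 hjt)]
              refine grad_far hΦ hε ?_
              rw [dist_comm]
              exact hVX t ht ⟨j, hjH⟩ i hcj (not_le.1 hjt) hbt
            · rw [if_neg hcj]
        · rw [hb j hjH, hpath2 t j (Or.inl hjH)]
      rw [h2]
      refine h1.congr_of_eventuallyEq ?_ (hpath2 t i hi')
      filter_upwards [self_mem_nhdsWithin] with u hu
      exact hpath2 u i (hi'.imp id fun h => h.trans hu)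
  · rcases hX'.dom t ht with h | h
    · exact Or.inl h
    rcases hV.dom t ht with h' | h'
    · exact Or.inl h'
    refine Or.inr fun i j hij hi hj => ?_
    by_cases hhi : i ∈ H ∧ t < b' i
    · have hci : c ⟨i, hhi.1⟩ ≤ t := hbH ⟨i, hhi.1⟩ ▸ hi
      rw [hpath1 t ⟨i, hhi.1⟩ hhi.2]
      by_cases hhj : j ∈ H ∧ t < b' j
      · have hcj : c ⟨j, hhj.1⟩ ≤ t := hbH ⟨j, hhj.1⟩ ▸ hj
        rw [hpath1 t ⟨j, hhj.1⟩ hhj.2]
        exact h' _ _ (fun h => hij (congrArg Subtype.val h)) hci hcj
      · have hj' : j ∉ H ∨ b' j ≤ t := by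
          by_contra hcon
          push Not at hcon
          exact hhj hcon
        have hbj : b' j ≤ t := by
          rcases hj' with h1 | h1
          · rw [← hb j h1]; exact hj
          · exact h1
        rw [hpath2 t j hj']
        exact ne_of_le_dist hε (hVX t ht ⟨i, hhi.1⟩ j hci hhi.2 hbj)
    · have hi' : i ∉ H ∨ b' i ≤ t := by
        by_contra hcon
        push Not at hcon
        exact hhi hcon
      have hbi : b' i ≤ t := by
        rcases hi' with h1 | h1
        · rw [← hb i h1]; exact hi
        · exact h1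
      rw [hpath2 t i hi']
      by_cases hhj : j ∈ H ∧ t < b' j
      · have hcj : c ⟨j, hhj.1⟩ ≤ t := hbH ⟨j, hhj.1⟩ ▸ hj
        rw [hpath1 t ⟨j, hhj.1⟩ hhj.2]
        exact (ne_of_le_dist hε (hVX t ht ⟨j, hhj.1⟩ i hcj hhj.2 hbi)).symm
      · have hj' : j ∉ H ∨ b' j ≤ t := by
          by_contra hcon
          push Not at hcon
          exact hhj hcon
        have hbj : b' j ≤ t := by
          rcases hj' with h1 | h1
          · rw [← hb j h1]; exact hj
          · exact h1
        rw [hpath2 t j hj']
        exact h i j hij hbi hbj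

end

end Crest.Agent.R122.Ins45
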