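import Crest.Agent.R122.BoltzChar_814

/-!
Row 122, Boltzmann side (helper814): `ℝ≥0∞` mild form of a regular kinetic solution, measurable
everywhere (the solution is cut off outside `[0,T]`).

* `fE T f t x v`      : the solution, `ℝ≥0∞`-valued, `0` outside `[0,T]`;
* `damp T f s t x v`  : the damping factor on `[s,t]` of the particle which at time `t` is at
                         `(x,v)`;
* `mild_damped`, `mild_undamped`.
-/

set_option autoImplicit false

open MeasureTheory ProbabilityTheory Set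
open Crest.AnalysisR.Kinetic
open scoped ENNReal Classical

noncomputable section

namespace Crest.Agent.R122.Boltz814

variable {Φ : Space3 → ℝ} {β T : ℝ} {f₀ : PhasePoint → ℝ} {f : ℝ → PhasePoint → ℝ}

/-- the solution as an everywhere measurable `ℝ≥0∞`-valued function -/
def fE (T : ℝ) (f : ℝ → PhasePoint → ℝ) (t : ℝ) (x v : Space3) : ℝ≥0∞ :=
  if t ∈ Icc 0 T then ENNReal.ofReal (f t (x, v)) else 0

lemma fE_of_mem {t : ℝ} (ht : t ∈ Icc 0 T) (x v : Space3) :
    fE T f t x v = ENNReal.ofReal (f t (x, v)) := if_pos ht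

lemma fE_slice {t : ℝ} (ht : t ∈ Icc 0 T) (x : Space3) :
    fE T f t x = toE (fun w => f t (x, w)) := by
  funext w; exact if_pos ht

/-- joint measurability of `fE` -/
lemma measurable_fE (hf : IsRegularKineticSolution Φ β T f₀ f) :
    Measurable (fun p : ℝ × Space3 × Space3 => fE T f p.1 p.2.1 p.2.2) := by
  have h1 : Measurable ((Icc 0 T ×ˢ univ : Set (ℝ × PhasePoint)).piecewise
      (fun p : ℝ × PhasePoint => f p.1 p.2) (fun _ => 0)) :=
    hf.continuous.measurable_piecewise continuousOn_const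
      (measurableSet_Icc.prod MeasurableSet.univ)
  have h2 : (fun p : ℝ × Space3 × Space3 => fE T f p.1 p.2.1 p.2.2) =
      fun p : ℝ × PhasePoint => ENNReal.ofReal ((Icc 0 T ×ˢ univ :
        Set (ℝ × PhasePoint)).piecewise (fun p : ℝ × PhasePoint => f p.1 p.2)
        (fun _ => 0) p) := by
    funext p
    unfold fE
    by_cases hp : p.1 ∈ Icc 0 T
    · rw [if_pos hp, piecewise_eq_of_mem _ _ _ (show p ∈ Icc 0 T ×ˢ univ from ⟨hp, mem_univ _⟩)]
    · rw [if_neg hp, piecewise_eq_of_notMem _ _ _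
        (show p ∉ Icc 0 T ×ˢ univ from fun h => hp h.1)]
      simp
  rw [h2]
  exact ENNReal.measurable_ofReal.comp h1

/-- Gaussian bound for `fE` -/
lemma fE_le {C : ℝ} (hC0 : 0 ≤ C) (hC : ∀ t ∈ Icc 0 T, ∀ x v : Space3,
      f t (x, v) ≤ C * Real.exp (-(2 * β) * ‖v‖ ^ 2)) (t : ℝ) (x v : Space3) :
    fE T f t x v ≤ ENNReal.ofReal C * ENNReal.ofReal (Real.exp (-(2 * β) * ‖v‖ ^ 2)) := by
  unfold fE
  split_ifs with ht
  · rw [← ENNReal.ofReal_mul hC0]
    exact ENNReal.ofReal_le_ofReal (hC t ht x v)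
  · exact bot_le

/-- loss frequency of the solution, everywhere measurable -/
def nuF (T : ℝ) (f : ℝ → PhasePoint → ℝ) (t : ℝ) (x v : Space3) : ℝ≥0∞ := nuE (fE T f t x) v

lemma measurable_nuF (hf : IsRegularKineticSolution Φ β T f₀ f) :
    Measurable (fun p : ℝ × Space3 × Space3 => nuF T f p.1 p.2.1 p.2.2) := by
  unfold nuF nuE
  refine Measurable.const_mul ?_ _
  have h1 : Measurable (fun q : (ℝ × Space3 × Space3) × Space3 =>
      ENNReal.ofReal ‖q.1.2.2 - q.2‖ * fE T f q.1.1 q.1.2.1 q.2) := by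
    refine Measurable.mul (by fun_prop) ?_
    have hm : Measurable (fun q : (ℝ × Space3 × Space3) × Space3 => (q.1.1, q.1.2.1, q.2)) := by
      fun_prop
    have h3 := Measurable.comp (measurable_fE hf) hm
    exact h3
  exact h1.lintegral_prod_right'

lemma nuF_of_mem (hβ : 0 < β) (hT : 0 < T) (hf : IsRegularKineticSolution Φ β T f₀ f) {t : ℝ}
    (ht : t ∈ Icc 0 T) (x v : Space3) :
    nuF T f t x v = ENNReal.ofReal (nu (fun w => f t (x, w)) v) := by
  obtain ⟨C, hC0, hC⟩ := exists_gauss_bound hT hf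
  unfold nuF
  rw [fE_slice ht, ofReal_nu (measurable_slice hf ht x) (fun w => hf.nonneg t ht _)
    (γ := 2 * β) (by positivity) (fun w => hC t ht x w)]

lemma nuF_of_notMem {t : ℝ} (ht : t ∉ Icc 0 T) (x v : Space3) : nuF T f t x v = 0 := by
  unfold nuF nuE fE
  simp [ht]

/-- bound on the loss frequency -/
lemma exists_nuF_le (hβ : 0 < β) (hT : 0 < T) (hf : IsRegularKineticSolution Φ β T f₀ f) :
    ∃ L : ℝ, 0 ≤ L ∧ ∀ t x v, nuF T f t x v ≤ ENNReal.ofReal (L * (1 + ‖v‖)) := by
  obtain ⟨C, hC0, hC⟩ := exists_gauss_bound hT hf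
  refine ⟨Real.pi * C * gaussMoment (2 * β) 1, by
    have := gaussMoment_nonneg (2 * β) 1
    positivity, fun t x v => ?_⟩
  by_cases ht : t ∈ Icc 0 T
  · rw [nuF_of_mem hβ hT hf ht]
    exact ENNReal.ofReal_le_ofReal (nu_le (measurable_slice hf ht x)
      (fun w => hf.nonneg t ht _) (by positivity) (fun w => hC t ht x w) v)
  · rw [nuF_of_notMem ht]; exact bot_le

/-- integrated loss frequency on `[s,t]` along the characteristic through `(x,v)` at time `t` -/
def lossInt (T : ℝ) (f : ℝ → PhasePoint → ℝ) (s t : ℝ) (x v : Space3) : ℝ≥0∞ :=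
  ∫⁻ r in Ioc s t, nuF T f r (x - (t - r) • v) v

/-- damping factor on `[s,t]` along the characteristic through `(x,v)` at time `t` -/
def damp (T : ℝ) (f : ℝ → PhasePoint → ℝ) (s t : ℝ) (x v : Space3) : ℝ≥0∞ :=
  ENNReal.ofReal (Real.exp (-(lossInt T f s t x v).toReal))

lemma damp_le_one (s t : ℝ) (x v : Space3) : damp T f s t x v ≤ 1 := by
  unfold damp
  rw [← ENNReal.ofReal_one]
  refine ENNReal.ofReal_le_ofReal (Real.exp_le_one_iff.2 ?_)
  simp

lemma measurable_lossInt (hf : IsRegularKineticSolution Φ β T f₀ f) :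
    Measurable (fun p : ℝ × ℝ × Space3 × Space3 => lossInt T f p.1 p.2.1 p.2.2.1 p.2.2.2) := by
  unfold lossInt
  have h1 : ∀ p : ℝ × ℝ × Space3 × Space3,
      ∫⁻ r in Ioc p.1 p.2.1, nuF T f r (p.2.2.1 - (p.2.1 - r) • p.2.2.2) p.2.2.2 =
      ∫⁻ r, (if p.1 < r ∧ r ≤ p.2.1 then
        nuF T f r (p.2.2.1 - (p.2.1 - r) • p.2.2.2) p.2.2.2 else 0) := by
    intro p
    rw [← lintegral_indicator measurableSet_Ioc]
    refine lintegral_congr fun r => ?_
    simp only [indicator, mem_Ioc]
  simp_rw [h1]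
  have h2 : Measurable (fun q : (ℝ × ℝ × Space3 × Space3) × ℝ =>
      (if q.1.1 < q.2 ∧ q.2 ≤ q.1.2.1 then
        nuF T f q.2 (q.1.2.2.1 - (q.1.2.1 - q.2) • q.1.2.2.2) q.1.2.2.2 else 0)) := by
    have hs1 : MeasurableSet {q : (ℝ × ℝ × Space3 × Space3) × ℝ | q.1.1 < q.2} :=
      measurableSet_lt (by fun_prop) (by fun_prop)
    have hs2 : MeasurableSet {q : (ℝ × ℝ × Space3 × Space3) × ℝ | q.2 ≤ q.1.2.1} :=
      measurableSet_le (by fun_prop) (by fun_prop)
    refine Measurable.ite (hs1.inter hs2) ?_ measurable_const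
    · have hm : Measurable (fun q : (ℝ × ℝ × Space3 × Space3) × ℝ =>
          (q.2, q.1.2.2.1 - (q.1.2.1 - q.2) • q.1.2.2.2, q.1.2.2.2)) := by
        fun_prop
      have h3 := Measurable.comp (measurable_nuF hf) hm
      exact h3
  exact h2.lintegral_prod_right'

lemma measurable_damp (hf : IsRegularKineticSolution Φ β T f₀ f) :
    Measurable (fun p : ℝ × ℝ × Space3 × Space3 => damp T f p.1 p.2.1 p.2.2.1 p.2.2.2) := by
  unfold damp
  exact ENNReal.measurable_ofReal.comp
    (Real.measurable_exp.comp ((measurable_lossInt hf).ennreal_toReal.neg))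

lemma lossInt_le (hβ : 0 < β) (hT : 0 < T) (hf : IsRegularKineticSolution Φ β T f₀ f) :
    ∃ L : ℝ, 0 ≤ L ∧ ∀ s t x v, lossInt T f s t x v ≤
      ENNReal.ofReal (L * (1 + ‖v‖)) * ENNReal.ofReal (t - s) := by
  obtain ⟨L, hL, h⟩ := exists_nuF_le hβ hT hf
  refine ⟨L, hL, fun s t x v => ?_⟩
  unfold lossInt
  calc ∫⁻ r in Ioc s t, nuF T f r (x - (t - r) • v) v
      ≤ ∫⁻ _r in Ioc s t, ENNReal.ofReal (L * (1 + ‖v‖)) := lintegral_mono fun r => h r _ v
    _ = _ := by simp

lemma lossInt_ne_top (hβ : 0 < β) (hT : 0 < T) (hf : IsRegularKineticSolution Φ β T f₀ f)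
    (s t : ℝ) (x v : Space3) : lossInt T f s t x v ≠ ⊤ := by
  obtain ⟨L, hL, h⟩ := lossInt_le hβ hT hf
  exact ne_top_of_le_ne_top (ENNReal.mul_ne_top ENNReal.ofReal_ne_top ENNReal.ofReal_ne_top)
    (h s t x v)

/-- cocycle property of the integrated loss frequency -/
lemma lossInt_add {r s t : ℝ} (hrs : r ≤ s) (hst : s ≤ t) (x v : Space3) :
    lossInt T f r t x v = lossInt T f r s (x - (t - s) • v) v + lossInt T f s t x v := by
  unfold lossInt
  rw [← Ioc_union_Ioc_eq_Ioc hrs hst, lintegral_union measurableSet_Ioc]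
  · congr 1
    refine setLIntegral_congr_fun measurableSet_Ioc fun u _ => ?_
    congr 1
    module
  · exact Set.disjoint_left.2 fun u hu1 hu2 => (not_lt.2 hu1.2) hu2.1

/-- cocycle property of the damping -/
lemma damp_mul (hβ : 0 < β) (hT : 0 < T) (hf : IsRegularKineticSolution Φ β T f₀ f)
    {r s t : ℝ} (hrs : r ≤ s) (hst : s ≤ t) (x v : Space3) :
    damp T f r t x v = damp T f r s (x - (t - s) • v) v * damp T f s t x v := by
  unfold damp
  rw [lossInt_add hrs hst, ENNReal.toReal_add (lossInt_ne_top hβ hT hf _ _ _ _)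
    (lossInt_ne_top hβ hT hf _ _ _ _), neg_add, Real.exp_add,
    ENNReal.ofReal_mul (Real.exp_nonneg _)]

lemma damp_self (t : ℝ) (x v : Space3) : damp T f t t x v = 1 := by
  unfold damp lossInt
  simp

/-- damping in terms of the real loss frequency along the characteristic -/
lemma damp_eq (hβ : 0 < β) (hT : 0 < T) (hf : IsRegularKineticSolution Φ β T f₀ f)
    {s t : ℝ} (hs : 0 ≤ s) (hst : s ≤ t) (htT : t ≤ T) (y v : Space3) :
    damp T f s t (y + t • v) v =
      ENNReal.ofReal (Real.exp (-∫ r in s..t, nuChar f y v r)) := by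
  unfold damp
  congr 3
  have hsub : Icc s t ⊆ Icc 0 T := Icc_subset_Icc hs htT
  have hnu : ContinuousOn (nuChar f y v) (Icc s t) :=
    (continuousOn_nu_char hβ hT hf y v).mono hsub
  rw [intervalIntegral.integral_of_le hst, integral_eq_lintegral_of_nonneg_ae]
  · unfold lossInt
    congr 1
    refine setLIntegral_congr_fun measurableSet_Ioc fun r hr => ?_
    have hrI : r ∈ Icc 0 T := hsub (Ioc_subset_Icc_self hr)
    show nuF T f r (y + t • v - (t - r) • v) v = ENNReal.ofReal (nuChar f y v r)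
    rw [nuF_of_mem hβ hT hf hrI]
    unfold nuChar
    have hpos : y + t • v - (t - r) • v = y + r • v := by module
    rw [hpos]
  · filter_upwards [ae_restrict_mem measurableSet_Ioc] with r hr
    exact nu_nonneg (fun w => hf.nonneg r (hsub (Ioc_subset_Icc_self hr)) _) v
  · exact (hnu.mono Ioc_subset_Icc_self).aestronglyMeasurable measurableSet_Ioc

/-- the gain term of the solution -/
def gainF (Φ : Space3 → ℝ) (T : ℝ) (f : ℝ → PhasePoint → ℝ) (t : ℝ) (x v : Space3) : ℝ≥0∞ :=
  Qp Φ (fE T f t x) (fE T f t x) v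

lemma measurable_gainF (hS : ScatFacts Φ) (hf : IsRegularKineticSolution Φ β T f₀ f) :
    Measurable (fun p : ℝ × Space3 × Space3 => gainF Φ T f p.1 p.2.1 p.2.2) := by
  have h1 : Measurable (fun q : (ℝ × Space3) × Space3 => fE T f q.1.1 q.1.2 q.2) := by
    have hm : Measurable (fun q : (ℝ × Space3) × Space3 => (q.1.1, q.1.2, q.2)) := by fun_prop
    have h3 := Measurable.comp (measurable_fE hf) hm
    exact h3
  have h2 : Measurable (fun p : (ℝ × Space3) × Space3 =>
      Qp Φ (fun u => fE T f p.1.1 p.1.2 u) (fun u => fE T f p.1.1 p.1.2 u) p.2) :=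
    measurable_Qp_param hS (h₁ := fun q : (ℝ × Space3) × Space3 => fE T f q.1.1 q.1.2 q.2)
      (h₂ := fun q : (ℝ × Space3) × Space3 => fE T f q.1.1 q.1.2 q.2) h1 h1
  have hm : Measurable (fun p : ℝ × Space3 × Space3 => ((p.1, p.2.1), p.2.2)) := by fun_prop
  have h3 := Measurable.comp h2 hm
  exact h3

lemma gainF_ne_top (hβ : 0 < β) (hT : 0 < T) (hS : ScatFacts Φ)
    (hf : IsRegularKineticSolution Φ β T f₀ f) (t : ℝ) (x v : Space3) :
    gainF Φ T f t x v ≠ ⊤ := by
  obtain ⟨C, hC0, hC⟩ := exists_gauss_bound hT hf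
  unfold gainF
  refine ne_top_of_le_ne_top ?_ (Qp_le_gauss hS (γ := 2 * β) (by positivity)
    (fE_le hC0 hC t x) (fE_le hC0 hC t x) v)
  exact ENNReal.mul_ne_top (ENNReal.mul_ne_top (ENNReal.mul_ne_top ENNReal.ofReal_ne_top
    ENNReal.ofReal_ne_top) ENNReal.ofReal_ne_top)
    (ENNReal.mul_ne_top ENNReal.ofReal_ne_top ENNReal.ofReal_ne_top)

lemma ofReal_gainChar (hβ : 0 < β) (hT : 0 < T) (hS : ScatFacts Φ)
    (hf : IsRegularKineticSolution Φ β T f₀ f) (y v : Space3) {r : ℝ} (hr : r ∈ Icc 0 T) :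
    ENNReal.ofReal (gainChar Φ f y v r) = gainF Φ T f r (y + r • v) v := by
  have h := gainF_ne_top hβ hT hS hf r (y + r • v) v
  unfold gainF at h ⊢
  unfold gainChar
  rw [fE_slice hr] at h ⊢
  exact ENNReal.ofReal_toReal h

/-- **Damped mild form**, along forward characteristics. -/
theorem mild_damped_char (hβ : 0 < β) (hT : 0 < T) (hS : ScatFacts Φ)
    (hf : IsRegularKineticSolution Φ β T f₀ f) {s t : ℝ} (hs : 0 ≤ s)
    (hst : s ≤ t) (htT : t ≤ T) (y v : Space3) :
    fE T f t (y + t • v) v = damp T f s t (y + t • v) v * fE T f s (y + s • v) v +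
      ∫⁻ r in Ioc s t, damp T f r t (y + t • v) v * gainF Φ T f r (y + r • v) v := by
  have hsI : s ∈ Icc 0 T := ⟨hs, hst.trans htT⟩
  have htI : t ∈ Icc 0 T := ⟨hs.trans hst, htT⟩
  have hsub : Icc s t ⊆ Icc 0 T := Icc_subset_Icc hs htT
  have hD := duhamel_char hβ hT hS hf y v hs hst htT
  rw [fE_of_mem htI, fE_of_mem hsI, hD, damp_eq hβ hT hf hs hst htT]
  have hcont : ContinuousOn (fun r => Real.exp (-∫ r' in r..t, nuChar f y v r') *
      gainChar Φ f y v r) (Icc s t) := by
    refine ContinuousOn.mul ?_ ((continuousOn_gainChar hβ hT hS hf y v).mono hsub)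
    refine Real.continuous_exp.comp_continuousOn (ContinuousOn.neg ?_)
    have hint : IntegrableOn (nuChar f y v) (uIcc s t) := by
      rw [uIcc_of_le hst]
      exact ((continuousOn_nu_char hβ hT hf y v).mono hsub).integrableOn_Icc
    have h1 := intervalIntegral.continuousOn_primitive_interval_left hint
    rwa [uIcc_of_le hst] at h1
  have hnn : ∀ r ∈ Ioc s t, 0 ≤ Real.exp (-∫ r' in r..t, nuChar f y v r') *
      gainChar Φ f y v r := fun r _ => mul_nonneg (Real.exp_nonneg _) ENNReal.toReal_nonneg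
  have hi0 : 0 ≤ ∫ r in s..t, Real.exp (-∫ r' in r..t, nuChar f y v r') *
      gainChar Φ f y v r := intervalIntegral.integral_nonneg hst fun r _ =>
      mul_nonneg (Real.exp_nonneg _) ENNReal.toReal_nonneg
  rw [ENNReal.ofReal_add (mul_nonneg (Real.exp_nonneg _) (hf.nonneg s hsI _)) hi0,
    ENNReal.ofReal_mul (Real.exp_nonneg _)]
  congr 1
  rw [intervalIntegral.integral_of_le hst, ofReal_integral_eq_lintegral_ofReal
    ((hcont.integrableOn_Icc).mono_set Ioc_subset_Icc_self)
    (by filter_upwards [ae_restrict_mem measurableSet_Ioc] with r hr using hnn r hr)]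
  refine setLIntegral_congr_fun measurableSet_Ioc fun r hr => ?_
  have hrI : r ∈ Icc 0 T := hsub (Ioc_subset_Icc_self hr)
  show ENNReal.ofReal (Real.exp (-∫ r' in r..t, nuChar f y v r') * gainChar Φ f y v r) =
    damp T f r t (y + t • v) v * gainF Φ T f r (y + r • v) v
  rw [ENNReal.ofReal_mul (Real.exp_nonneg _), ofReal_gainChar hβ hT hS hf y v hrI,
    damp_eq hβ hT hf (hs.trans hr.1.le) hr.2 htT]

/-- **Damped mild form** of a regular kinetic solution on every window `[s,t] ⊆ [0,T]`. -/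
theorem mild_damped (hβ : 0 < β) (hT : 0 < T) (hS : ScatFacts Φ)
    (hf : IsRegularKineticSolution Φ β T f₀ f) {s t : ℝ} (hs : 0 ≤ s)
    (hst : s ≤ t) (htT : t ≤ T) (x v : Space3) :
    fE T f t x v = damp T f s t x v * fE T f s (x - (t - s) • v) v +
      ∫⁻ r in Ioc s t, damp T f r t x v * gainF Φ T f r (x - (t - r) • v) v := by
  have h := mild_damped_char hβ hT hS hf hs hst htT (x - t • v) v
  have e1 : x - t • v + t • v = x := by module
  have e2 : x - t • v + s • v = x - (t - s) • v := by module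
  rw [e1, e2] at h
  rw [h]
  congr 1
  refine setLIntegral_congr_fun measurableSet_Ioc fun r _ => ?_
  have e3 : x - t • v + r • v = x - (t - r) • v := by module
  simp only [e3]

/-- **Undamped mild form** of a regular kinetic solution on every window `[s,t] ⊆ [0,T]`. -/
theorem mild_undamped (hβ : 0 < β) (hT : 0 < T) (hS : ScatFacts Φ)
    (hf : IsRegularKineticSolution Φ β T f₀ f) {s t : ℝ} (hs : 0 ≤ s)
    (hst : s ≤ t) (htT : t ≤ T) (x v : Space3) :
    fE T f t x v + ∫⁻ r in Ioc s t, fE T f r (x - (t - r) • v) v *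
        nuF T f r (x - (t - r) • v) v =
      fE T f s (x - (t - s) • v) v + ∫⁻ r in Ioc s t, gainF Φ T f r (x - (t - r) • v) v := by
  have hsI : s ∈ Icc 0 T := ⟨hs, hst.trans htT⟩
  have htI : t ∈ Icc 0 T := ⟨hs.trans hst, htT⟩
  have hsub : Icc s t ⊆ Icc 0 T := Icc_subset_Icc hs htT
  set y := x - t • v with hy
  have hD := duhamel_char_undamped hβ hT hS hf y v hs hst htT
  have e : ∀ r : ℝ, y + r • v = x - (t - r) • v := by intro r; rw [hy]; module
  have hnu := (continuousOn_nu_char hβ hT hf y v).mono hsub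
  have hφ := (continuousOn_char hf y v v).mono hsub
  have hφν : ContinuousOn (fun r => f r (y + r • v, v) * nuChar f y v r) (Icc s t) :=
    hφ.mul hnu
  have hG := (continuousOn_gainChar hβ hT hS hf y v).mono hsub
  have hD2 := congrArg ENNReal.ofReal hD
  have hL0 : ∀ r ∈ Icc s t, 0 ≤ f r (y + r • v, v) * nuChar f y v r := fun r hr =>
    mul_nonneg (hf.nonneg r (hsub hr) _) (nu_nonneg (fun w => hf.nonneg r (hsub hr) _) v)
  have hLi : 0 ≤ ∫ r in s..t, f r (y + r • v, v) * nuChar f y v r :=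
    intervalIntegral.integral_nonneg hst hL0
  have hGi : 0 ≤ ∫ r in s..t, gainChar Φ f y v r :=
    intervalIntegral.integral_nonneg hst fun r _ => ENNReal.toReal_nonneg
  have hLae : ∀ᵐ r ∂((volume : Measure ℝ).restrict (Ioc s t)),
      0 ≤ f r (y + r • v, v) * nuChar f y v r := by
    filter_upwards [ae_restrict_mem measurableSet_Ioc] with r hr
    exact hL0 r (Ioc_subset_Icc_self hr)
  have hGae : ∀ᵐ r ∂((volume : Measure ℝ).restrict (Ioc s t)), 0 ≤ gainChar Φ f y v r :=
    Filter.Eventually.of_forall fun r => ENNReal.toReal_nonneg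
  rw [ENNReal.ofReal_add (hf.nonneg t htI _) hLi,
    ENNReal.ofReal_add (hf.nonneg s hsI _) hGi,
    intervalIntegral.integral_of_le hst, intervalIntegral.integral_of_le hst,
    ofReal_integral_eq_lintegral_ofReal
      ((hφν.integrableOn_Icc).mono_set Ioc_subset_Icc_self) hLae,
    ofReal_integral_eq_lintegral_ofReal
      ((hG.integrableOn_Icc).mono_set Ioc_subset_Icc_self) hGae] at hD2
  have e1 : y + t • v = x := by rw [e]; simp
  rw [e1, e s] at hD2
  rw [fE_of_mem htI, fE_of_mem hsI]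
  convert hD2 using 2
  · refine setLIntegral_congr_fun measurableSet_Ioc fun r hr => ?_
    have hrI : r ∈ Icc 0 T := hsub (Ioc_subset_Icc_self hr)
    show fE T f r (x - (t - r) • v) v * nuF T f r (x - (t - r) • v) v =
      ENNReal.ofReal (f r (y + r • v, v) * nuChar f y v r)
    rw [ENNReal.ofReal_mul (hf.nonneg r hrI _), fE_of_mem hrI, nuF_of_mem hβ hT hf hrI, ← e r]
    rfl
  · refine setLIntegral_congr_fun measurableSet_Ioc fun r hr => ?_
    have hrI : r ∈ Icc 0 T := hsub (Ioc_subset_Icc_self hr)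
    show gainF Φ T f r (x - (t - r) • v) v = ENNReal.ofReal (gainChar Φ f y v r)
    rw [ofReal_gainChar hβ hT hS hf y v hrI, e r]

end Crest.Agent.R122.Boltz814

end
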