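import Crest.Agent.R122.GCFinset_311

/-!
# Grand-canonical calculus IV: moment bounds and exclusion corrections

* `gcE_sum_emb_le`: `E[∑_ι G(Z∘ι)] ≤ a^k ∫ G(V) ∏ f₀(V_i) dV`.
* `gcE_sum_le`: `E[∑_j g(w_j)] ≤ a ∫ f₀ g`.
* `one_sub_perp`: `E[1 - 1[V ⟂ w]] ≤ a ∑_i μ_{f₀}(B(x_i, ε))`.
* position density bound from the summable Gaussian bound.
-/

set_option autoImplicit false
open MeasureTheory
open scoped Classical ENNReal
open Crest.AnalysisR.Kinetic
noncomputable section

namespace Crest.Agent.R122.GC311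

/-- `E[∑_ι G(Z∘ι)] ≤ a^k ∫ G(V) ∏ f₀(V_i) dV`. -/
theorem gcE_sum_emb_le {f₀ : PhasePoint → ℝ} (hf : Measurable f₀)
    (h1 : ∫⁻ z, ENNReal.ofReal (f₀ z) ≤ 1) (ε : ℝ) {k : ℕ}
    (G : Config k → ℝ≥0∞) (hG : Measurable G) :
    gcE f₀ ε (fun n Z => ∑ ι : Fin k ↪ Fin n, G (fun i => Z (ι i))) ≤
      activity ε ^ k * ∫⁻ V : Config k, gcWeight f₀ ε k V * G V := by
  have hmG : ∀ (n : ℕ) (ι : Fin k ↪ Fin n), Measurable (fun Z : Config n => G (fun i => Z (ι i))) :=
    fun n ι => hG.comp (measurable_pi_iff.2 fun i => measurable_pi_apply (ι i))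
  refine (mecke_le hf (ε := ε) (G := fun n ι Z => G (fun i => Z (ι i)))
    (fun n σ ι Z _ => rfl) hmG).trans ?_
  refine mul_le_mul_right (lintegral_mono fun V => mul_le_mul_right ?_ _) _
  have : (fun (m : ℕ) (w : Config m) => G (fun i => (Fin.append V w : Config (k + m))
      ((Fin.castAddEmb m) i))) = fun m w => G V := by
    funext m w
    congr 1
    funext i
    simp
  rw [this]
  by_cases hV : G V = ∞
  · rw [hV]; exact le_top
  · rw [gcE_const f₀ ε hf h1 hV]

/-- `E[∑_j g(w_j)] ≤ a ∫ f₀ g`. -/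
theorem gcE_sum_le {f₀ : PhasePoint → ℝ} (hf : Measurable f₀)
    (h1 : ∫⁻ z, ENNReal.ofReal (f₀ z) ≤ 1) (ε : ℝ)
    (g : PhasePoint → ℝ≥0∞) (hg : Measurable g) :
    gcE f₀ ε (fun n Z => ∑ j : Fin n, g (Z j)) ≤
      activity ε * ∫⁻ z, ENNReal.ofReal (f₀ z) * g z := by
  have h := gcE_sum_emb_le hf h1 ε (k := 1) (fun V => g (V 0)) (hg.comp (measurable_pi_apply 0))
  have e : (fun (n : ℕ) (Z : Config n) => ∑ ι : Fin 1 ↪ Fin n, g (Z (ι 0))) =
      fun (n : ℕ) (Z : Config n) => ∑ j : Fin n, g (Z j) := by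
    funext n Z
    exact Fintype.sum_equiv (Equiv.uniqueEmbeddingEquivResult) _ _ (fun ι => rfl)
  rw [e] at h
  refine h.trans (le_of_eq ?_)
  rw [pow_one]
  congr 1
  have h2 := (volume_preserving_funUnique (Fin 1) PhasePoint).lintegral_comp
    (f := fun z => ENNReal.ofReal (f₀ z) * g z) ((hf.ennreal_ofReal).mul hg)
  rw [← h2]
  refine lintegral_congr fun V => ?_
  have hV : V ∈ PairExcluded ε 1 := by
    intro i j hij
    exact absurd (Subsingleton.elim i j) hij
  unfold gcWeight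
  rw [Set.indicator_of_mem hV]
  simp

/-- Mass of `f₀` in the ball of radius `ε` about `x` (in position). -/
def ballMass (f₀ : PhasePoint → ℝ) (ε : ℝ) (x : Space3) : ℝ≥0∞ :=
  ∫⁻ z, ENNReal.ofReal (f₀ z) * (if dist x z.1 ≤ ε then 1 else 0)

/-- Exclusion correction. -/
theorem one_sub_perp {f₀ : PhasePoint → ℝ} (hf : Measurable f₀)
    (h1 : ∫⁻ z, ENNReal.ofReal (f₀ z) ≤ 1) (ε : ℝ) {k : ℕ} (V : Config k) :
    gcE f₀ ε (fun m w => 1 - perpInd ε V w) ≤
      ∑ i : Fin k, activity ε * ballMass f₀ ε (V i).1 := by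
  have hle : ∀ (m : ℕ) (w : Config m), 1 - perpInd ε V w ≤
      ∑ i : Fin k, ∑ j : Fin m, (if dist (V i).1 (w j).1 ≤ ε then (1 : ℝ≥0∞) else 0) := by
    intro m w
    unfold perpInd
    by_cases hp : Perp ε V w
    · simp [hp]
    · rw [if_neg hp, tsub_zero]
      unfold Perp at hp
      push Not at hp
      obtain ⟨i, j, hij⟩ := hp
      calc (1 : ℝ≥0∞) = (if dist (V i).1 (w j).1 ≤ ε then (1 : ℝ≥0∞) else 0) := by
            rw [if_pos hij]
        _ ≤ ∑ j : Fin m, (if dist (V i).1 (w j).1 ≤ ε then (1 : ℝ≥0∞) else 0) :=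
            Finset.single_le_sum (f := fun j : Fin m =>
              (if dist (V i).1 (w j).1 ≤ ε then (1 : ℝ≥0∞) else 0))
              (fun _ _ => bot_le) (Finset.mem_univ j)
        _ ≤ _ := Finset.single_le_sum (f := fun i : Fin k => ∑ j : Fin m,
              (if dist (V i).1 (w j).1 ≤ ε then (1 : ℝ≥0∞) else 0))
              (fun _ _ => bot_le) (Finset.mem_univ i)
  have hmg : ∀ i : Fin k, Measurable (fun z : PhasePoint =>
      (if dist (V i).1 z.1 ≤ ε then (1 : ℝ≥0∞) else 0)) := by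
    intro i
    refine Measurable.ite ?_ measurable_const measurable_const
    exact measurableSet_le (measurable_const.dist measurable_fst) measurable_const
  calc gcE f₀ ε (fun m w => 1 - perpInd ε V w)
      ≤ gcE f₀ ε (fun m w => ∑ i : Fin k, ∑ j : Fin m,
          (if dist (V i).1 (w j).1 ≤ ε then (1 : ℝ≥0∞) else 0)) :=
        gcE_mono f₀ ε fun m w _ => hle m w
    _ = ∑ i : Fin k, gcE f₀ ε (fun m w => ∑ j : Fin m,
          (if dist (V i).1 (w j).1 ≤ ε then (1 : ℝ≥0∞) else 0)) := by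
        refine gcE_finset_sum hf ε Finset.univ (fun i _ n => ?_)
        exact Finset.measurable_sum _ fun j _ => (hmg i).comp (measurable_pi_apply j)
    _ ≤ ∑ i : Fin k, activity ε * ballMass f₀ ε (V i).1 :=
        Finset.sum_le_sum fun i _ => gcE_sum_le hf h1 ε _ (hmg i)

/-- Lower bound: dropping the exclusion indicator costs at most the exclusion correction. -/
theorem gcE_le_perp_add {f₀ : PhasePoint → ℝ} (hf : Measurable f₀)
    (h1 : ∫⁻ z, ENNReal.ofReal (f₀ z) ≤ 1) (ε : ℝ) {k : ℕ} (V : Config k)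
    {F : (n : ℕ) → Config n → ℝ≥0∞} (hF : ∀ n, Measurable (F n)) (C : ℝ≥0∞) (hC : C ≠ ∞)
    (hFC : ∀ n, ∀ Z ∈ PairExcluded ε n, F n Z ≤ C) :
    gcE f₀ ε F ≤ gcE f₀ ε (fun m w => perpInd ε V w * F m w) +
      C * ∑ i : Fin k, activity ε * ballMass f₀ ε (V i).1 := by
  have hm : ∀ m, Measurable (fun w : Config m => perpInd ε V w * F m w) := fun m =>
    (measurable_perpInd_right ε m V).mul (hF m)
  calc gcE f₀ ε F ≤ gcE f₀ ε (fun m w => perpInd ε V w * F m w + C * (1 - perpInd ε V w)) := by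
        refine gcE_mono f₀ ε fun m w hw => ?_
        unfold perpInd
        split_ifs with hp
        · simp
        · simpa using hFC m w hw
    _ = gcE f₀ ε (fun m w => perpInd ε V w * F m w) +
          gcE f₀ ε (fun m w => C * (1 - perpInd ε V w)) := gcE_add hf ε hm
    _ ≤ _ := by
        refine add_le_add le_rfl ?_
        rw [gcE_const_mul f₀ ε hC]
        exact mul_le_mul_right (one_sub_perp hf h1 ε V) _

/-! ## The position density -/

theorem exists_lattice_near (x : Space3) : ∃ k : Fin 3 → ℤ, dist x (latticePoint k) ≤ 1 := by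
  refine ⟨fun i => round (x i), ?_⟩
  rw [EuclideanSpace.dist_eq]
  refine Real.sqrt_le_one.2 ?_
  have h : ∀ i : Fin 3, dist (x i) ((latticePoint (fun i => round (x i))) i) ^ 2 ≤ 1 / 4 := by
    intro i
    have h1 : |x i - round (x i)| ≤ 1 / 2 := abs_sub_round (x i)
    have h2 : (latticePoint (fun i => round (x i))) i = (round (x i) : ℝ) := rfl
    rw [h2, Real.dist_eq, sq_abs]
    nlinarith [abs_le.1 h1, abs_nonneg (x i - round (x i))]
  rw [Fin.sum_univ_three]
  linarith [h 0, h 1, h 2]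

/-- A uniform Gaussian bound from the summable one. -/
theorem exists_gaussian_bound {γ : ℝ} {F : Type*} [NormedAddCommGroup F]
    {h : Space3 → Space3 → F} (hb : HasSummableGaussianBound γ h) :
    ∃ C : ℝ, 0 ≤ C ∧ ∀ x v, ‖h x v‖ ≤ C * Real.exp (-(γ * ‖v‖ ^ 2)) := by
  obtain ⟨M, hM, hb⟩ := hb
  have hnn : ∀ k, 0 ≤ M k := by
    intro k
    refine le_trans ?_ (hb k (latticePoint k) 0 (by simp))
    positivity
  refine ⟨∑' k, M k, tsum_nonneg hnn, fun x v => ?_⟩
  obtain ⟨k, hk⟩ := exists_lattice_near x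
  have h1 := hb k x v hk
  have h2 : M k ≤ ∑' k, M k := hM.le_tsum k (fun j _ => hnn j)
  have h3 : Real.exp (γ * ‖v‖ ^ 2) * ‖h x v‖ ≤ ∑' k, M k := h1.trans h2
  rw [Real.exp_neg]
  have hpos := Real.exp_pos (γ * ‖v‖ ^ 2)
  rw [← div_eq_mul_inv, le_div_iff₀ hpos]
  linarith [mul_comm (Real.exp (γ * ‖v‖ ^ 2)) ‖h x v‖]

theorem lintegral_gaussian_lt_top {γ : ℝ} (hγ : 0 < γ) :
    ∫⁻ v : Space3, ENNReal.ofReal (Real.exp (-(γ * ‖v‖ ^ 2))) < ∞ := by
  have h := GaussianFourier.integrable_cexp_neg_mul_sq_norm_add (V := Space3)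
    (b := (γ : ℂ)) (by simpa using hγ) 0 0
  have h2 := h.norm
  have h3 : ∀ v : Space3, ‖Complex.exp (-(γ : ℂ) * ‖v‖ ^ 2 + 0 * inner ℝ (0 : Space3) v)‖ =
      Real.exp (-(γ * ‖v‖ ^ 2)) := by
    intro v
    rw [Complex.norm_exp]
    congr 1
    simp [← Complex.ofReal_pow]
  simp_rw [h3] at h2
  have h4 := h2.lintegral_lt_top
  exact h4

/-- Uniform bound of the position density. -/
theorem exists_position_density_bound {β : ℝ} (hβ : 0 < β) {f₀ : PhasePoint → ℝ}
    (hb : HasSummableGaussianBound (2 * β) (fun x v => f₀ (x, v))) :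
    ∃ R : ℝ≥0∞, R ≠ ∞ ∧ ∀ x : Space3, ∫⁻ v : Space3, ENNReal.ofReal (f₀ (x, v)) ≤ R := by
  obtain ⟨C, hC, h⟩ := exists_gaussian_bound hb
  refine ⟨ENNReal.ofReal C * ∫⁻ v : Space3, ENNReal.ofReal (Real.exp (-(2 * β * ‖v‖ ^ 2))),
    ENNReal.mul_ne_top ENNReal.ofReal_ne_top (lintegral_gaussian_lt_top (by positivity)).ne,
    fun x => ?_⟩
  rw [← lintegral_const_mul' _ _ ENNReal.ofReal_ne_top]
  refine lintegral_mono fun v => ?_
  rw [← ENNReal.ofReal_mul hC]
  exact ENNReal.ofReal_le_ofReal ((le_abs_self _).trans (h x v))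

theorem ballMass_le {f₀ : PhasePoint → ℝ} (hf : Measurable f₀) {R : ℝ≥0∞}
    (hR : ∀ x : Space3, ∫⁻ v : Space3, ENNReal.ofReal (f₀ (x, v)) ≤ R) (ε : ℝ) (x : Space3) :
    ballMass f₀ ε x ≤ R * volume (Metric.closedBall x ε) := by
  unfold ballMass
  have hm : Measurable (fun z : PhasePoint => ENNReal.ofReal (f₀ z) *
      (if dist x z.1 ≤ ε then (1 : ℝ≥0∞) else 0)) := by
    refine hf.ennreal_ofReal.mul (Measurable.ite ?_ measurable_const measurable_const)
    exact measurableSet_le (measurable_const.dist measurable_fst) measurable_const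
  calc ∫⁻ z, ENNReal.ofReal (f₀ z) * (if dist x z.1 ≤ ε then 1 else 0)
      = ∫⁻ y : Space3, ∫⁻ v : Space3, ENNReal.ofReal (f₀ (y, v)) *
          (if dist x y ≤ ε then 1 else 0) := by
        change ∫⁻ z, _ ∂((volume : Measure Space3).prod (volume : Measure Space3)) = _
        exact lintegral_prod _ hm.aemeasurable
    _ ≤ ∫⁻ y : Space3, (Metric.closedBall x ε).indicator (fun _ => R) y := by
        refine lintegral_mono fun y => ?_
        by_cases hy : dist x y ≤ ε
        · have : y ∈ Metric.closedBall x ε := by rwa [Metric.mem_closedBall, dist_comm]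
          simp only [hy, if_true, mul_one, Set.indicator_of_mem this]
          exact hR y
        · simp [hy]
    _ = R * volume (Metric.closedBall x ε) := by
        rw [lintegral_indicator Metric.isClosed_closedBall.measurableSet, lintegral_const,
          Measure.restrict_apply_univ]

/-- `a · ballMass ≤ C ε`. -/
theorem activity_mul_ballMass_le {f₀ : PhasePoint → ℝ} (hf : Measurable f₀) {R : ℝ≥0∞}
    (hR : ∀ x : Space3, ∫⁻ v : Space3, ENNReal.ofReal (f₀ (x, v)) ≤ R) {ε : ℝ} (hε : 0 < ε)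
    (x : Space3) :
    activity ε * ballMass f₀ ε x ≤ R * ENNReal.ofReal (4 / 3 * Real.pi * ε) := by
  have hv : volume (Metric.closedBall x ε) = ENNReal.ofReal (4 / 3 * Real.pi * ε ^ 3) := by
    rw [EuclideanSpace.volume_closedBall_fin_three x ε]
    rw [← ENNReal.ofReal_pow hε.le, ← ENNReal.ofReal_mul (by positivity)]
    congr 1
    ring
  calc activity ε * ballMass f₀ ε x ≤ activity ε * (R * volume (Metric.closedBall x ε)) :=
        mul_le_mul_right (ballMass_le hf hR ε x) _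
    _ = R * (activity ε * ENNReal.ofReal (4 / 3 * Real.pi * ε ^ 3)) := by
        rw [hv]; ring
    _ = R * ENNReal.ofReal (4 / 3 * Real.pi * ε) := by
        congr 1
        unfold activity
        rw [← ENNReal.ofReal_mul (by positivity)]
        congr 1
        field_simp

end Crest.Agent.R122.GC311
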