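import Crest.Agent.R122.Master_566
import Crest.Agent.R122.GCBounds_311
import Crest.Agent.R122.CausalMeas_291
import Crest.Agent.R122.BoltzMild_814

/-!
# Row 122: ghost avoidance, definitions (G_333, G0-G2)

* `Tubes ι` : a finite family of curves `c i` with activity times `[0, b i]`.
* `unhit Φ ε S t w` : no particle of the world `w` alone comes within `ε` of an active curve
  before `t`.
* `uG Φ f₀ ε S t` : its grand-canonical probability.
* `lam`, `Lam`, `dampG` : the kinetic hitting rate, its time integral and `exp (-Lam)`.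
* `TubeConv`, `Generic`, `GIV`.
-/

set_option autoImplicit false
set_option maxHeartbeats 400000
open MeasureTheory Set Filter
open scoped Classical ENNReal Topology NNReal
open Crest.AnalysisR.Kinetic
open Crest.Agent.R122.GC311 Crest.Agent.R122.Causal291 Crest.Agent.R122.Master566
open Crest.Agent.R122.Boltz814
noncomputable section

namespace Crest.Agent.R122.GIV566

/-- A finite family of space-time tubes: curves `c i`, active on `[0, b i]`. -/
structure Tubes (ι : Type) where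
  c : ι → ℝ → Space3
  b : ι → ℝ

namespace Tubes

variable {ι κ : Type}

/-- Translation. -/
def shift (S : Tubes ι) (x : Space3) : Tubes ι := ⟨fun i s => S.c i s + x, S.b⟩

/-- Truncation of the activity times. -/
def cut (S : Tubes ι) (t : ℝ) : Tubes ι := ⟨S.c, fun i => min (S.b i) t⟩

/-- Union of two families. -/
def sum (S : Tubes ι) (S' : Tubes κ) : Tubes (ι ⊕ κ) := ⟨Sum.elim S.c S'.c, Sum.elim S.b S'.b⟩

/-- Relabelling. -/
def map (S : Tubes ι) (e : κ → ι) : Tubes κ := ⟨fun k => S.c (e k), fun k => S.b (e k)⟩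

@[simp] theorem shift_c (S : Tubes ι) (x : Space3) (i : ι) (s : ℝ) :
    (S.shift x).c i s = S.c i s + x := rfl
@[simp] theorem shift_b (S : Tubes ι) (x : Space3) : (S.shift x).b = S.b := rfl
@[simp] theorem cut_c (S : Tubes ι) (t : ℝ) : (S.cut t).c = S.c := rfl
@[simp] theorem cut_b (S : Tubes ι) (t : ℝ) (i : ι) : (S.cut t).b i = min (S.b i) t := rfl
@[simp] theorem sum_c_inl (S : Tubes ι) (S' : Tubes κ) (i : ι) : (S.sum S').c (Sum.inl i) = S.c i :=
  rfl
@[simp] theorem sum_c_inr (S : Tubes ι) (S' : Tubes κ) (k : κ) : (S.sum S').c (Sum.inr k) = S'.c k :=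
  rfl
@[simp] theorem sum_b_inl (S : Tubes ι) (S' : Tubes κ) (i : ι) : (S.sum S').b (Sum.inl i) = S.b i :=
  rfl
@[simp] theorem sum_b_inr (S : Tubes ι) (S' : Tubes κ) (k : κ) : (S.sum S').b (Sum.inr k) = S'.b k :=
  rfl
@[simp] theorem map_c (S : Tubes ι) (e : κ → ι) (k : κ) : (S.map e).c k = S.c (e k) := rfl
@[simp] theorem map_b (S : Tubes ι) (e : κ → ι) (k : κ) : (S.map e).b k = S.b (e k) := rfl

theorem shift_zero (S : Tubes ι) : S.shift 0 = S := by
  cases S; simp [shift]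

theorem shift_shift (S : Tubes ι) (x y : Space3) : (S.shift x).shift y = S.shift (x + y) := by
  cases S; simp [shift, add_assoc]

end Tubes

/-! ### The event -/

/-- No particle of the world `w` (alone) comes within `ε` of an active curve of `S` up to `t`. -/
def unhit (Φ : Space3 → ℝ) (ε : ℝ) {ι : Type} (S : Tubes ι) (t : ℝ) {κ : Type*} [Fintype κ]
    (w : κ → PhasePoint) : Prop :=
  ∀ i j, ∀ s ∈ Icc 0 (min (S.b i) t), ε < dist (S.c i s) (pth Φ ε w s j).1

/-- Indicator of `unhit`. -/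
def unhitInd (Φ : Space3 → ℝ) (ε : ℝ) {ι : Type} (S : Tubes ι) (t : ℝ) {κ : Type*} [Fintype κ]
    (w : κ → PhasePoint) : ℝ≥0∞ := if unhit Φ ε S t w then 1 else 0

/-- Ghost avoidance probability. -/
def uG (Φ : Space3 → ℝ) (f₀ : PhasePoint → ℝ) (ε : ℝ) {ι : Type} (S : Tubes ι) (t : ℝ) : ℝ≥0∞ :=
  gcE f₀ ε fun _ w => unhitInd Φ ε S t w

/-- Kinetic hitting rate of the family at time `s`. -/
def lam (T : ℝ) (f : ℝ → PhasePoint → ℝ) {ι : Type} [Fintype ι] (S : Tubes ι) (s : ℝ) : ℝ≥0∞ :=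
  ∑ i, if s < S.b i then nuF T f s (S.c i s) (deriv (S.c i) s) else 0

/-- Integrated hitting rate. -/
def Lam (T : ℝ) (f : ℝ → PhasePoint → ℝ) {ι : Type} [Fintype ι] (S : Tubes ι) (t : ℝ) : ℝ≥0∞ :=
  ∫⁻ s in Ioc 0 t, lam T f S s

/-- Kinetic avoidance probability. -/
def dampG (T : ℝ) (f : ℝ → PhasePoint → ℝ) {ι : Type} [Fintype ι] (S : Tubes ι) (t : ℝ) : ℝ≥0∞ :=
  ENNReal.ofReal (Real.exp (-(Lam T f S t).toReal))

/-- Distance of two extended nonnegative reals (used for numbers `≤ 1`). -/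
def adiff (a b : ℝ≥0∞) : ℝ≥0∞ := (a - b) + (b - a)

/-! ### Convergence of tube families, genericity, the statement -/

/-- Convergence of tube families (G1). -/
structure TubeConv (T : ℝ) {ι : Type} (Sk : ℕ → Tubes ι) (S : Tubes ι) : Prop where
  lip : ∃ M : ℝ≥0, (∀ᶠ k in atTop, ∀ i, LipschitzOnWith M ((Sk k).c i) (Icc 0 T)) ∧
    ∀ i, LipschitzOnWith M (S.c i) (Icc 0 T)
  curves : ∀ i, TendstoUniformlyOn (fun k s => (Sk k).c i s) (S.c i) atTop (Icc 0 T)
  active : ∀ i, Tendsto (fun k => (Sk k).b i) atTop (𝓝 (S.b i))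
  vel : ∃ B : Set ℝ, B.Finite ∧ ∀ s ∈ Ioo 0 T, s ∉ B → ∀ i, s < S.b i →
    ∃ v : Space3, ∃ U ∈ 𝓝 s, (∀ u ∈ U, HasDerivAt (S.c i) v u) ∧
      ∀ᶠ k in atTop, ∀ u ∈ U, HasDerivAt ((Sk k).c i) v u

/-- Generic families: two different active curves meet at finitely many times. -/
def Generic (T : ℝ) {ι : Type} (S : Tubes ι) : Prop :=
  ∀ i j, i ≠ j → {s | s ∈ Icc 0 (min T (min (S.b i) (S.b j))) ∧ S.c i s = S.c j s}.Finite

/-- **Ghost avoidance identification at time `t`** (G2). -/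
def GIV (Φ : Space3 → ℝ) (f₀ : PhasePoint → ℝ) (f : ℝ → PhasePoint → ℝ) (T t : ℝ) : Prop :=
  ∀ (ι : Type) [Fintype ι] (Sk : ℕ → Tubes ι) (S : Tubes ι) (εk : ℕ → ℝ),
    (∀ k, 0 < εk k) → Tendsto εk atTop (𝓝 0) → TubeConv T Sk S → Generic T S →
    ∀ R : ℝ, Tendsto (fun k => ∫⁻ x in Metric.closedBall (0 : Space3) R,
      adiff (uG Φ f₀ (εk k) ((Sk k).shift x) t) (dampG T f (S.shift x) t)) atTop (𝓝 0)

/-! ### Elementary facts -/

section basics

variable {Φ : Space3 → ℝ} {f₀ : PhasePoint → ℝ} {f : ℝ → PhasePoint → ℝ} {ε T t : ℝ}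
variable {ι ι' : Type} {κ : Type*} [Fintype κ]

theorem unhit_mono {S : Tubes ι} {w : κ → PhasePoint} {t t' : ℝ} (h : t ≤ t')
    (hu : unhit Φ ε S t' w) : unhit Φ ε S t w := fun i j s hs =>
  hu i j s ⟨hs.1, hs.2.trans (min_le_min_left _ h)⟩

theorem unhit_sum {S : Tubes ι} {S' : Tubes ι'} {w : κ → PhasePoint} :
    unhit Φ ε (S.sum S') t w ↔ unhit Φ ε S t w ∧ unhit Φ ε S' t w := by
  constructor
  · intro h
    exact ⟨fun i => h (Sum.inl i), fun i => h (Sum.inr i)⟩
  · rintro ⟨h, h'⟩ (i | i)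
    · exact h i
    · exact h' i

theorem unhit_cut {S : Tubes ι} {w : κ → PhasePoint} {t t' : ℝ} :
    unhit Φ ε (S.cut t) t' w ↔ unhit Φ ε S (min t t') w := by
  unfold unhit
  simp only [Tubes.cut_c, Tubes.cut_b, min_assoc]

theorem unhit_relabel {S : Tubes ι} {κ' : Type*} [Fintype κ'] {w : κ → PhasePoint} (e : κ' ≃ κ)
    (he : ∀ s j, pth Φ ε (fun k => w (e k)) s j = pth Φ ε w s (e j)) :
    unhit Φ ε S t (fun k => w (e k)) ↔ unhit Φ ε S t w := by
  constructor
  · intro h i j s hs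
    have := h i (e.symm j) s hs
    rwa [he, e.apply_symm_apply] at this
  · intro h i j s hs
    rw [he]
    exact h i (e j) s hs

theorem unhitInd_le_one {S : Tubes ι} {w : κ → PhasePoint} : unhitInd Φ ε S t w ≤ 1 := by
  unfold unhitInd; split_ifs <;> simp

theorem unhitInd_sum {S : Tubes ι} {S' : Tubes ι'} {w : κ → PhasePoint} :
    unhitInd Φ ε (S.sum S') t w = unhitInd Φ ε S t w * unhitInd Φ ε S' t w := by
  unfold unhitInd
  by_cases h : unhit Φ ε S t w <;> by_cases h' : unhit Φ ε S' t w <;> simp [unhit_sum, h, h']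

theorem unhitInd_anti {S : Tubes ι} {w : κ → PhasePoint} {t t' : ℝ} (h : t ≤ t') :
    unhitInd Φ ε S t' w ≤ unhitInd Φ ε S t w := by
  unfold unhitInd
  by_cases h1 : unhit Φ ε S t' w
  · rw [if_pos h1, if_pos (unhit_mono h h1)]
  · rw [if_neg h1]; exact bot_le

theorem uG_anti {S : Tubes ι} {t t' : ℝ} (h : t ≤ t') : uG Φ f₀ ε S t' ≤ uG Φ f₀ ε S t :=
  gcE_mono f₀ ε fun _ _ _ => unhitInd_anti h

theorem uG_le_one (hf : Measurable f₀) (h1 : ∫⁻ z, ENNReal.ofReal (f₀ z) ≤ 1) {S : Tubes ι} :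
    uG Φ f₀ ε S t ≤ 1 := by
  rw [← gcE_one f₀ ε hf h1]
  exact gcE_mono f₀ ε fun _ _ _ => unhitInd_le_one

theorem uG_cut {S : Tubes ι} {t t' : ℝ} : uG Φ f₀ ε (S.cut t) t' = uG Φ f₀ ε S (min t t') := by
  unfold uG unhitInd
  simp only [unhit_cut]

theorem lam_sum [Fintype ι] [Fintype ι'] (S : Tubes ι) (S' : Tubes ι') (s : ℝ) :
    lam T f (S.sum S') s = lam T f S s + lam T f S' s := by
  unfold lam
  rw [Fintype.sum_sum_type]
  rfl

theorem lam_cut_of_lt [Fintype ι] (S : Tubes ι) {s t : ℝ} (h : s < t) :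
    lam T f (S.cut t) s = lam T f S s := by
  unfold lam
  refine Finset.sum_congr rfl fun i _ => ?_
  have : s < min (S.b i) t ↔ s < S.b i := by simp [h]
  simp only [Tubes.cut_b, Tubes.cut_c, this]

theorem Lam_zero [Fintype ι] (S : Tubes ι) : Lam T f S 0 = 0 := by simp [Lam]

theorem Lam_mono [Fintype ι] (S : Tubes ι) {t t' : ℝ} (h : t ≤ t') : Lam T f S t ≤ Lam T f S t' :=
  lintegral_mono_set (Ioc_subset_Ioc_right h)

theorem dampG_zero [Fintype ι] (S : Tubes ι) : dampG T f S 0 = 1 := by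
  simp [dampG, Lam_zero]

theorem dampG_le_one [Fintype ι] (S : Tubes ι) : dampG T f S t ≤ 1 := by
  unfold dampG
  rw [← ENNReal.ofReal_one]
  exact ENNReal.ofReal_le_ofReal (Real.exp_le_one_iff.2 (by simp))

theorem adiff_self_one (a : ℝ≥0∞) (ha : a ≤ 1) : adiff a 1 = 1 - a := by
  simp [adiff, tsub_eq_zero_of_le ha]

theorem adiff_comm (a b : ℝ≥0∞) : adiff a b = adiff b a := add_comm _ _

theorem adiff_triangle (a b c : ℝ≥0∞) : adiff a c ≤ adiff a b + adiff b c := by
  unfold adiff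
  have h1 : a - c ≤ (a - b) + (b - c) := tsub_le_tsub_add_tsub
  have h2 : c - a ≤ (c - b) + (b - a) := tsub_le_tsub_add_tsub
  calc (a - c) + (c - a) ≤ ((a - b) + (b - c)) + ((c - b) + (b - a)) := add_le_add h1 h2
    _ = _ := by ring

theorem unhit_zero (hΦ : AdmissiblePotential Φ) (hε : 0 < ε) {S : Tubes ι} {w : κ → PhasePoint} :
    unhit Φ ε S 0 w ↔ ∀ i j, 0 ≤ S.b i → ε < dist (S.c i 0) (w j).1 := by
  have hp : ∀ j, pth Φ ε w 0 j = w j := fun j => congrFun (Flow671.flow_zero hΦ hε w) j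
  constructor
  · intro h i j hb
    have := h i j 0 ⟨le_rfl, le_min hb le_rfl⟩
    rwa [hp] at this
  · intro h i j s hs
    have h1 : s = 0 := le_antisymm (hs.2.trans (min_le_right _ _)) hs.1
    subst h1
    rw [hp]
    exact h i j (hs.2.trans (min_le_left _ _))

end basics

/-! ### Measurability -/

section meas

variable {Φ : Space3 → ℝ} {ε : ℝ} {ι : Type} {κ : Type*} [Fintype κ]
variable {Ω : Type*} [MeasurableSpace Ω]

/-- Joint measurability of the avoidance event, for a measurable family of tubes with curves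
continuous on `[0,T]`, a measurable world and measurable final time `≤ T`. -/
theorem measurableSet_unhit [Countable ι] (hΦ : AdmissiblePotential Φ) (hε : 0 < ε) {T : ℝ}
    (hT : 0 ≤ T) {S : Ω → Tubes ι} (hSc : ∀ ω i, ContinuousOn ((S ω).c i) (Icc 0 T))
    (hSm : ∀ i s, Measurable fun ω => (S ω).c i s) (hSb : ∀ i, Measurable fun ω => (S ω).b i)
    {t : Ω → ℝ} (ht : Measurable t) (htT : ∀ ω, t ω ≤ T) {w : Ω → κ → PhasePoint}
    (hw : Measurable w) : MeasurableSet {ω | unhit Φ ε (S ω) (t ω) (w ω)} := by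
  have key : {ω | unhit Φ ε (S ω) (t ω) (w ω)} =
      ⋂ i, ⋂ j, {ω | ∃ s ∈ Icc 0 (min ((S ω).b i) (t ω)),
        dist ((S ω).c i (projIcc 0 T hT s)) (pth Φ ε (w ω) s j).1 ≤ ε}ᶜ := by
    ext ω
    simp only [unhit, mem_iInter, mem_compl_iff, mem_ofPred_eq, not_exists, not_and, not_le]
    refine forall_congr' fun i => forall_congr' fun j => forall_congr' fun s => ?_
    refine forall_congr' fun hs => ?_
    have h1 : (projIcc 0 T hT s : ℝ) = s := by
      rw [projIcc_of_mem hT ⟨hs.1, hs.2.trans ((min_le_right _ _).trans (htT ω))⟩]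
    rw [h1]
  rw [key]
  refine MeasurableSet.iInter fun i => MeasurableSet.iInter fun j => MeasurableSet.compl ?_
  refine measurableSet_exists_Icc measurable_const ((hSb i).min ht) (g := fun ω s =>
    dist ((S ω).c i (projIcc 0 T hT s)) (pth Φ ε (w ω) s j).1) (fun ω => ?_) (fun s => ?_) ε
  · refine Continuous.dist ?_ (continuous_pth hΦ hε (w ω) j).fst
    exact (hSc ω i).comp_continuous (continuous_subtype_val.comp continuous_projIcc)
      fun s => (projIcc 0 T hT s).2
  · exact (hSm i _).dist ((measurable_pth hΦ hε s j).comp hw).fst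

theorem measurable_unhitInd [Countable ι] (hΦ : AdmissiblePotential Φ) (hε : 0 < ε) {T : ℝ}
    (hT : 0 ≤ T) {S : Ω → Tubes ι} (hSc : ∀ ω i, ContinuousOn ((S ω).c i) (Icc 0 T))
    (hSm : ∀ i s, Measurable fun ω => (S ω).c i s) (hSb : ∀ i, Measurable fun ω => (S ω).b i)
    {t : Ω → ℝ} (ht : Measurable t) (htT : ∀ ω, t ω ≤ T) {w : Ω → κ → PhasePoint}
    (hw : Measurable w) : Measurable fun ω => unhitInd Φ ε (S ω) (t ω) (w ω) :=
  Measurable.ite (measurableSet_unhit hΦ hε hT hSc hSm hSb ht htT hw) measurable_const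
    measurable_const

/-- The avoidance probability is measurable in the parameter of the family. -/
theorem measurable_uG [Countable ι] {f₀ : PhasePoint → ℝ} (hf : Measurable f₀)
    (hΦ : AdmissiblePotential Φ) (hε : 0 < ε) {T : ℝ} (hT : 0 ≤ T) {S : Ω → Tubes ι}
    (hSc : ∀ ω i, ContinuousOn ((S ω).c i) (Icc 0 T))
    (hSm : ∀ i s, Measurable fun ω => (S ω).c i s) (hSb : ∀ i, Measurable fun ω => (S ω).b i)
    {t : Ω → ℝ} (ht : Measurable t) (htT : ∀ ω, t ω ≤ T) :
    Measurable fun ω => uG Φ f₀ ε (S ω) (t ω) := by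
  unfold uG gcE
  refine Measurable.const_mul (Measurable.tsum fun n => Measurable.const_mul ?_ _) _
  have h1 : Measurable fun p : Ω × Config n =>
      gcWeight f₀ ε n p.2 * unhitInd Φ ε (S p.1) (t p.1) p.2 := by
    refine ((measurable_gcWeight hf ε n).comp measurable_snd).mul ?_
    exact measurable_unhitInd (Ω := Ω × Config n) hΦ hε hT (fun p i => hSc p.1 i)
      (fun i s => (hSm i s).comp measurable_fst) (fun i => (hSb i).comp measurable_fst)
      (ht.comp measurable_fst) (fun p => htT p.1) measurable_snd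
  exact h1.lintegral_prod_right'

/-- Measurability in the translation. -/
theorem measurable_uG_shift [Countable ι] {f₀ : PhasePoint → ℝ} (hf : Measurable f₀)
    (hΦ : AdmissiblePotential Φ) (hε : 0 < ε) {T : ℝ} (hT : 0 ≤ T) {S : Tubes ι}
    (hSc : ∀ i, ContinuousOn (S.c i) (Icc 0 T)) {t : ℝ} (htT : t ≤ T) :
    Measurable fun x => uG Φ f₀ ε (S.shift x) t :=
  measurable_uG (Ω := Space3) (S := fun x => S.shift x) (t := fun _ => t) hf hΦ hε hT
    (fun _ i => (hSc i).add continuousOn_const)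
    (fun _ _ => measurable_const.add measurable_id) (fun _ => measurable_const) measurable_const
    (fun _ => htT)

end meas

/-! ### The base case -/

section base

variable {Φ : Space3 → ℝ} {f₀ : PhasePoint → ℝ} {f : ℝ → PhasePoint → ℝ} {ε T : ℝ}

/-- At time `0` the probability of being hit is `O(ε)`. -/
theorem one_sub_uG_zero_le (hΦ : AdmissiblePotential Φ) (hf : Measurable f₀)
    (h1 : ∫⁻ z, ENNReal.ofReal (f₀ z) ≤ 1) {R : ℝ≥0∞}
    (hR : ∀ x : Space3, ∫⁻ v : Space3, ENNReal.ofReal (f₀ (x, v)) ≤ R) (hε : 0 < ε)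
    {ι : Type} [Fintype ι] (S : Tubes ι) :
    1 - uG Φ f₀ ε S 0 ≤ Fintype.card ι * (R * ENNReal.ofReal (4 / 3 * Real.pi * ε)) := by
  have hmeas : ∀ i, Measurable fun z : PhasePoint =>
      if dist (S.c i 0) z.1 ≤ ε then (1 : ℝ≥0∞) else 0 := fun i =>
    Measurable.ite (measurableSet_le (measurable_const.dist measurable_fst) measurable_const)
      measurable_const measurable_const
  have hstep : (1 : ℝ≥0∞) ≤ uG Φ f₀ ε S 0 +
      ∑ i, gcE f₀ ε (fun n w => ∑ j : Fin n,
        if dist (S.c i 0) (w j).1 ≤ ε then (1 : ℝ≥0∞) else 0) := by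
    have hmm : ∀ i, ∀ n, Measurable fun w : Config n => ∑ j : Fin n,
        if dist (S.c i 0) (w j).1 ≤ ε then (1 : ℝ≥0∞) else 0 := fun i n =>
      Finset.measurable_sum _ fun j _ => (hmeas i).comp (measurable_pi_apply j)
    rw [← gcE_finset_sum hf ε Finset.univ (fun i _ n => hmm i n), add_comm]
    unfold uG
    rw [← gcE_add hf ε (F := fun n w => ∑ i, ∑ j : Fin n,
        if dist (S.c i 0) (w j).1 ≤ ε then (1 : ℝ≥0∞) else 0)
      (fun n => Finset.measurable_sum _ fun i _ => hmm i n)]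
    refine (gcE_one f₀ ε hf h1).symm.le.trans (gcE_mono f₀ ε fun n w _ => ?_)
    by_cases hu : unhit Φ ε S 0 w
    · rw [unhitInd, if_pos hu]
      exact le_add_left le_rfl
    · rw [unhit_zero hΦ hε] at hu
      push Not at hu
      obtain ⟨i, j, _, hd⟩ := hu
      refine le_add_right ?_
      calc (1 : ℝ≥0∞) = if dist (S.c i 0) (w j).1 ≤ ε then (1 : ℝ≥0∞) else 0 := by rw [if_pos hd]
        _ ≤ ∑ j : Fin n, if dist (S.c i 0) (w j).1 ≤ ε then (1 : ℝ≥0∞) else 0 :=
            Finset.single_le_sum (f := fun j : Fin n =>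
              if dist (S.c i 0) (w j).1 ≤ ε then (1 : ℝ≥0∞) else 0)
              (fun _ _ => bot_le) (Finset.mem_univ j)
        _ ≤ _ := Finset.single_le_sum (f := fun i => ∑ j : Fin n,
              if dist (S.c i 0) (w j).1 ≤ ε then (1 : ℝ≥0∞) else 0)
              (fun _ _ => bot_le) (Finset.mem_univ i)
  rw [tsub_le_iff_left]
  refine hstep.trans (add_le_add le_rfl ?_)
  calc ∑ i, gcE f₀ ε (fun n w => ∑ j : Fin n,
        if dist (S.c i 0) (w j).1 ≤ ε then (1 : ℝ≥0∞) else 0)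
      ≤ ∑ _i : ι, R * ENNReal.ofReal (4 / 3 * Real.pi * ε) := by
        refine Finset.sum_le_sum fun i _ => ?_
        refine (gcE_sum_le hf h1 ε _ (hmeas i)).trans ?_
        exact activity_mul_ballMass_le hf hR hε (S.c i 0)
    _ = _ := by rw [Finset.sum_const, Finset.card_univ, nsmul_eq_mul]

/-- **Base case of the induction.** -/
theorem GIV_zero {β : ℝ} (hD : KData Φ β T f₀ f) : GIV Φ f₀ f T 0 := by
  intro ι _ Sk S εk hεk hlim _ _ R
  have hfm : Measurable f₀ := hD.contDiff.continuous.measurable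
  have h1 : ∫⁻ z, ENNReal.ofReal (f₀ z) ≤ 1 :=
    (FM167.lintegral_density_eq_one hD.nonneg hD.integrable hD.mass).le
  obtain ⟨Q, hQ, hQb⟩ := exists_position_density_bound hD.beta_pos hD.gaussian
  have hle : ∀ k, ∫⁻ x in Metric.closedBall (0 : Space3) R,
      adiff (uG Φ f₀ (εk k) ((Sk k).shift x) 0) (dampG T f (S.shift x) 0) ≤
      Fintype.card ι * (Q * ENNReal.ofReal (4 / 3 * Real.pi * εk k)) *
        volume (Metric.closedBall (0 : Space3) R) := by
    intro k
    calc ∫⁻ x in Metric.closedBall (0 : Space3) R,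
          adiff (uG Φ f₀ (εk k) ((Sk k).shift x) 0) (dampG T f (S.shift x) 0)
        ≤ ∫⁻ _x in Metric.closedBall (0 : Space3) R,
          Fintype.card ι * (Q * ENNReal.ofReal (4 / 3 * Real.pi * εk k)) := by
          refine lintegral_mono fun x => ?_
          rw [dampG_zero, adiff_self_one _ (uG_le_one hfm h1)]
          exact one_sub_uG_zero_le hD.adm hfm h1 hQb (hεk k) _
      _ = _ := by rw [setLIntegral_const]
  refine tendsto_of_tendsto_of_tendsto_of_le_of_le tendsto_const_nhds ?_ (fun _ => bot_le) hle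
  have hv : volume (Metric.closedBall (0 : Space3) R) ≠ ∞ := measure_closedBall_lt_top.ne
  have h2 : Tendsto (fun k => ENNReal.ofReal (4 / 3 * Real.pi * εk k)) atTop (𝓝 0) := by
    have := (ENNReal.continuous_ofReal.tendsto _).comp (hlim.const_mul (4 / 3 * Real.pi))
    rw [mul_zero, ENNReal.ofReal_zero] at this
    exact this
  have h3 : Tendsto (fun k => Fintype.card ι * (Q * ENNReal.ofReal (4 / 3 * Real.pi * εk k)) *
      volume (Metric.closedBall (0 : Space3) R)) atTop
      (𝓝 (Fintype.card ι * (Q * 0) * volume (Metric.closedBall (0 : Space3) R))) := by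
    refine ENNReal.Tendsto.mul_const ?_ (Or.inr hv)
    refine ENNReal.Tendsto.const_mul ?_ (Or.inr (ENNReal.natCast_ne_top _))
    exact ENNReal.Tendsto.const_mul h2 (Or.inr hQ)
  simpa using h3

end base

end Crest.Agent.R122.GIV566
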