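import Mathlib
import Crest.Prelude.Def_KineticLimit
import Crest.Agent.R122.BirthsEvo_45
import Crest.Agent.R122.GIVDefs_566

/-!
# Row 122, block D2/D3 (helper581): definitions of virtual contacts, `Conn`, `TreeLike`; literal
Props `VC` and `VL`

A finite family of particles `J` with births `b : J → ℝ` (a birth before time `0` means `0`); the
phase point `Z i` is the state of the free line of `i` extrapolated to time `0` (so a line
`(τ, x, v)` inserted at time `τ` is `Z i = (x - τ • v, v)`, `b i = τ`).  Every subset `A` of `J` is a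
sub-world: the members of `A` interact among themselves after their births and with nobody else.

* `VSys.st A t Z i` : state of `i` at time `t` in the sub-world `A`.
* `VSys.ok A t Z` : in the sub-world `A` nobody is born within distance `ε` of an alive particle at
  a time strictly before `t`.
* optional obstacle node `o` : a family of tubes (curves) with one common translation `(Z o).1`;
  it is ghost: it interacts with nobody; its velocity coordinate is a dummy variable.
* `VSys.VCt C P i j t Z` : virtual contact within `C ε` of `i` and `j` at time `t` through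
  sub-worlds contained in `P` (two different sub-worlds are allowed; contacts before a birth are
  contacts, too).
* `VSys.Conn`, `VSys.TreeLike`, `VC`, `VL`.
-/

set_option autoImplicit false

open MeasureTheory Set Filter Topology
open scoped ENNReal NNReal
open Crest.AnalysisR.Kinetic
open Crest.Agent.R122.Ins45 Crest.Agent.R122.GIV566

noncomputable section

namespace Crest.Agent.R122.VL581

/-- Data of a virtual system. -/
structure VSys (J : Type) (κ : Type) where
  Φ : Space3 → ℝ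
  T : ℝ
  ε : ℝ
  b : J → ℝ
  o : Option J
  S : Tubes κ

namespace VSys

open scoped Classical

variable {J κ : Type} [Fintype J] (M : VSys J κ)

/-- Birth times (nobody is born before time `0`). -/
def bb (i : J) : ℝ := max (M.b i) 0

/-- The members of `A` which interact and are born strictly before `t`. -/
def mem (A : Finset J) (t : ℝ) : Finset J := A.filter fun i => M.o ≠ some i ∧ M.bb i < t

/-- State of `i` at time `t` in the sub-world `A`. -/
def st (A : Finset J) (t : ℝ) (Z : J → PhasePoint) (i : J) : PhasePoint :=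
  if h : i ∈ M.mem A t then
    evo M.Φ M.ε (fun j : M.mem A t => M.bb j) (-1) t
      (fun j : M.mem A t => ((Z j).1 - (Z j).2, (Z j).2)) ⟨i, h⟩
  else ((Z i).1 + t • (Z i).2, (Z i).2)

/-- No bad birth in the sub-world `A` strictly before `t`. -/
def ok (A : Finset J) (t : ℝ) (Z : J → PhasePoint) : Prop :=
  ∀ i ∈ A, M.o ≠ some i → M.bb i < t → ∀ j ∈ A, M.o ≠ some j → j ≠ i → M.bb j ≤ M.bb i →
    M.ε < dist (M.st A (M.bb i) Z i).1 (M.st A (M.bb i) Z j).1

/-- Position of the label `(A, k, i)` at time `t`: particle `i` of the sub-world `A`, or the tube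
`k` if `i` is the obstacle. -/
def pos (A : Finset J) (k : κ) (t : ℝ) (Z : J → PhasePoint) (i : J) : Space3 :=
  if M.o = some i then (Z i).1 + M.S.c k (max 0 (min t M.T)) else (M.st A t Z i).1

/-- Contact within `C ε` at time `t` of the labels `(A, k, i)` and `(B, l, j)`. -/
def Ct (C : ℝ) (A : Finset J) (k : κ) (i : J) (B : Finset J) (l : κ) (j : J) (t : ℝ)
    (Z : J → PhasePoint) : Prop :=
  i ∈ A ∧ j ∈ B ∧ M.ok A t Z ∧ M.ok B t Z ∧ (M.o = some i → t ≤ M.S.b k) ∧
    (M.o = some j → t ≤ M.S.b l) ∧ dist (M.pos A k t Z i) (M.pos B l t Z j) ≤ C * M.ε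

/-- Virtual contact within `C ε` of `i` and `j` at time `t` through sub-worlds contained in `P`. -/
def VCt (C : ℝ) (P : Finset J) (i j : J) (t : ℝ) (Z : J → PhasePoint) : Prop :=
  ∃ A ⊆ P, ∃ B ⊆ P, ∃ k l, M.Ct C A k i B l j t Z

/-- `P` is connected through virtual contacts in `[0, T]`. -/
def Conn (C : ℝ) (P : Finset J) (Z : J → PhasePoint) : Prop :=
  P.Nonempty ∧ ∀ Q ⊆ P, Q.Nonempty → Q ≠ P →
    ∃ i ∈ Q, ∃ j ∈ P \ Q, ∃ t ∈ Icc 0 M.T, M.VCt C P i j t Z

/-- `P` is tree-like: no bad birth in any sub-world; all virtual contacts of different particles are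
along the `|P| - 1` edges of `E`, and those of the edge `e` at times within `ℓ` of `σ e`; the times
`σ e` are separated by more than `ς` from each other, from `0`, from `T` and from all birth
times. -/
def TreeLike (C ℓ ς : ℝ) (P : Finset J) (Z : J → PhasePoint) : Prop :=
  (∀ A ⊆ P, M.ok A M.T Z) ∧
  ∃ (E : Finset (J × J)) (σ : J × J → ℝ), E.card + 1 = P.card ∧
    (∀ e ∈ E, e.1 ∈ P ∧ e.2 ∈ P ∧ e.1 ≠ e.2) ∧
    (∀ e ∈ E, ς < σ e ∧ σ e < M.T - ς) ∧
    (∀ e ∈ E, ∀ i, ς < |σ e - M.b i|) ∧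
    (∀ e ∈ E, ∀ e' ∈ E, e ≠ e' → ς < |σ e - σ e'|) ∧
    (∀ i ∈ P, ∀ j ∈ P, i ≠ j → ∀ t ∈ Icc 0 M.T, M.VCt C P i j t Z →
      ∃ e ∈ E, (e = (i, j) ∨ e = (j, i)) ∧ |t - σ e| ≤ ℓ)

end VSys

/-- The weight: density `ρ` for the position of the root `i₀`, Gaussian velocities. -/
def wgt {J : Type} [Fintype J] (β : ℝ) (ρ : Space3 → ℝ≥0∞) (i₀ : J) (Z : J → PhasePoint) : ℝ≥0∞ :=
  ρ (Z i₀).1 * ∏ j, ENNReal.ofReal (Real.exp (-β * ‖(Z j).2‖ ^ 2))

/-- **VC** (crude volume bound for all sub-worlds with births; the root is the obstacle if there is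
one). -/
def VC (Φ : Space3 → ℝ) : Prop :=
  ∀ (J κ : Type) [Fintype J] [Fintype κ] (β T C : ℝ) (L : ℝ≥0), 0 < β →
    ∃ K : ℝ≥0, ∀ M : VSys J κ, M.Φ = Φ → M.T = T → 0 < M.ε → M.ε ≤ 1 →
      (∀ k, LipschitzOnWith L (M.S.c k) (Icc 0 T)) →
      ∀ i₀ : J, (∀ j, M.o = some j → i₀ = j) → ∀ ρ : Space3 → ℝ≥0∞, Measurable ρ →
        ∫⁻ Z, {Z | M.Conn C Finset.univ Z}.indicator (wgt β ρ i₀) Z ≤
          K * ENNReal.ofReal (M.ε ^ (2 * (Fintype.card J - 1))) * ∫⁻ x, ρ x

/-- **VL** (loops are null, all sub-worlds, births, obstacle), sequence form: along `ε_k → 0`, births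
`b_k → b`, tubes `S_k → S` generic, for all window factors `R_k → ∞` and separations `ς_k → 0`. -/
def VL (Φ : Space3 → ℝ) : Prop :=
  ∀ (J κ : Type) [Fintype J] [Fintype κ] (β T C : ℝ), 0 < β → 0 < T →
    ∀ (M : ℕ → VSys J κ) (o : Option J) (b : J → ℝ) (S : Tubes κ) (R ς : ℕ → ℝ) (i₀ : J),
      (∀ k, (M k).Φ = Φ ∧ (M k).T = T ∧ (M k).o = o ∧ 0 < (M k).ε) →
      Tendsto (fun k => (M k).ε) atTop (𝓝 0) → (∀ i, Tendsto (fun k => (M k).b i) atTop (𝓝 (b i))) →
      TubeConv T (fun k => (M k).S) S → Generic T S →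
      Tendsto R atTop atTop → Tendsto ς atTop (𝓝 0) → (∀ j, o = some j → i₀ = j) →
      ∀ ρ : Space3 → ℝ≥0∞, Measurable ρ → ∫⁻ x, ρ x < ⊤ →
        Tendsto (fun k => (ENNReal.ofReal ((M k).ε ^ (2 * (Fintype.card J - 1))))⁻¹ *
          ∫⁻ Z, {Z | (M k).Conn C Finset.univ Z ∧
            ¬ (M k).TreeLike C (R k * (M k).ε) (ς k) Finset.univ Z}.indicator (wgt β ρ i₀) Z)
          atTop (𝓝 0)

/-- **VLu** uniform form without obstacle (consequence of `VL`): for every `δ` there are `R, ς, ε₀`,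
such that for all `ε < ε₀` and ALL births the loops have mass at most `δ ε^(2(m-1))`. -/
def VLu (Φ : Space3 → ℝ) : Prop :=
  ∀ (J : Type) [Fintype J] (β T C : ℝ), 0 < β → 0 < T → ∀ (i₀ : J) (ρ : Space3 → ℝ≥0∞),
    Measurable ρ → ∫⁻ x, ρ x < ⊤ → ∀ δ : ℝ≥0∞, 0 < δ →
      ∃ R > 0, ∃ ς > 0, ∃ ε₀ > 0, ∀ (M : VSys J Unit), M.Φ = Φ → M.T = T → M.o = none →
        0 < M.ε → M.ε < ε₀ →
        ∫⁻ Z, {Z | M.Conn C Finset.univ Z ∧
            ¬ M.TreeLike C (R * M.ε) ς Finset.univ Z}.indicator (wgt β ρ i₀) Z ≤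
          δ * ENNReal.ofReal (M.ε ^ (2 * (Fintype.card J - 1)))

end Crest.Agent.R122.VL581
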