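import Mathlib
import Crest.Prelude.Def_KineticLimit
import Crest.Agent.R122.VLDefs_581
import Crest.Agent.R122.Rebirth_45

/-!
# Row 122, D3, instance layer of `VLDefs_581` (helper442), part A: evolutions of sub-families

* `flowA_emb`, `evo_emb`: the evolution with births up to time `t` of a family, restricted to a
  sub-family containing all particles born before `t`, is the evolution of the sub-family.
* `evo_unborn`: before its birth a particle is on its free line.
* `LWorld`: local worlds with births on `[a, T]`; `LWorld.eq_evo` (uniqueness), `LWorld.restrict`,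
  `LWorld.of_bworld`.
-/

set_option autoImplicit false
set_option linter.unusedSectionVars false

open MeasureTheory Set Filter Topology
open scoped NNReal ENNReal
open Crest.AnalysisR.Kinetic
open Crest.Agent.R122.Flow671 Crest.Agent.R122.Loc45 Crest.Agent.R122.Ins45

noncomputable section

namespace Crest.Agent.R122.VLInst442

variable {Φ : Space3 → ℝ} {ε : ℝ} {ι κ : Type*} [Fintype ι] [Fintype κ]

/-! ### Sub-families -/

/-- Partial flow of a sub-family containing the interacting particles. -/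
theorem flowA_emb (hΦ : AdmissiblePotential Φ) (hε : 0 < ε) (e : κ ↪ ι) {A : Finset ι}
    {B : Finset κ} (hAB : ∀ k, k ∈ B ↔ e k ∈ A) (hA : ∀ i ∈ A, ∃ k, e k = i) (t : ℝ)
    (Z : ι → PhasePoint) (k : κ) :
    flowA Φ ε A t Z (e k) = flowA Φ ε B t (fun k => Z (e k)) k := by
  classical
  by_cases hk : k ∈ B
  · have hk' : e k ∈ A := (hAB k).1 hk
    rw [flowA_mem A t Z hk', flowA_mem B t _ hk]
    let σ : B ≃ A := Equiv.ofBijective (fun b : B => ⟨e b, (hAB b).1 b.2⟩) (by
      constructor
      · intro b b' h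
        exact Subtype.ext (e.injective (congrArg Subtype.val h))
      · rintro ⟨i, hi⟩
        obtain ⟨k, rfl⟩ := hA i hi
        exact ⟨⟨k, (hAB k).2 hi⟩, rfl⟩)
    have h := flow_equiv hΦ hε σ t (fun a : A => Z a)
    exact (congrFun h ⟨k, hk⟩).symm
  · have hk' : e k ∉ A := fun h => hk ((hAB k).2 h)
    rw [flowA_not_mem A t Z hk', flowA_not_mem B t _ hk]

/-- Evolution with births of a sub-family containing all particles born before `t`. -/
theorem evoN_emb (hΦ : AdmissiblePotential Φ) (hε : 0 < ε) (e : κ ↪ ι) {b : ι → ℝ} {t : ℝ}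
    (hb : ∀ i, (∀ k, e k ≠ i) → t ≤ b i) :
    ∀ (n : ℕ) (s : ℝ), s ≤ t → ∀ (Z : ι → PhasePoint) (k : κ),
      evoN Φ ε b n s t Z (e k) = evoN Φ ε (fun k => b (e k)) n s t (fun k => Z (e k)) k := by
  have hst : ∀ s, s < t → ∀ (r : ℝ) (Z : ι → PhasePoint) (k : κ),
      flowA Φ ε (alive b s) r Z (e k) =
        flowA Φ ε (alive (fun k => b (e k)) s) r (fun k => Z (e k)) k := by
    intro s hs r Z k
    refine flowA_emb hΦ hε e (fun k => ?_) (fun i hi => ?_) r Z k
    · rw [mem_alive, mem_alive]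
    · by_contra hcon
      push Not at hcon
      exact absurd (hb i hcon) (not_le.2 ((mem_alive.1 hi).trans_lt hs))
  have hnxt : ∀ s, nxt b s t = nxt (fun k => b (e k)) s t := by
    intro s
    refine le_antisymm (le_nxt (nxt_le _ _ _) fun k hk => nxt_le_birth (b := b) hk)
      (le_nxt (nxt_le _ _ _) fun i hi => ?_)
    by_cases h : ∃ k, e k = i
    · obtain ⟨k, rfl⟩ := h
      exact nxt_le_birth (b := fun k => b (e k)) hi
    · push Not at h
      exact (nxt_le _ _ _).trans (hb i h)
  intro n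
  induction n with
  | zero =>
    intro s hs Z k
    rcases hs.lt_or_eq with h | h
    · exact hst s h _ Z k
    · subst h
      rw [evoN_self hΦ hε, evoN_self hΦ hε]
  | succ n ih =>
    intro s hs Z k
    rcases hs.lt_or_eq with h | h
    · unfold evoN
      rw [hnxt s]
      by_cases h1 : nxt (fun k => b (e k)) s t < t
      · rw [if_pos h1, if_pos h1, ih _ h1.le]
        congr 1
        funext k'
        exact hst s h _ Z k'
      · rw [if_neg h1, if_neg h1]
        exact hst s h _ Z k
    · subst h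
      rw [evoN_self hΦ hε, evoN_self hΦ hε]

theorem evo_emb (hΦ : AdmissiblePotential Φ) (hε : 0 < ε) (e : κ ↪ ι) {b : ι → ℝ} {s t : ℝ}
    (hst : s ≤ t) (hb : ∀ i, (∀ k, e k ≠ i) → t ≤ b i) (Z : ι → PhasePoint) (k : κ) :
    evo Φ ε b s t Z (e k) = evo Φ ε (fun k => b (e k)) s t (fun k => Z (e k)) k := by
  unfold evo
  rw [evoN_emb hΦ hε e hb _ s hst Z k]
  have hcard : Fintype.card κ ≤ Fintype.card ι := Fintype.card_le_of_embedding e
  have h1 : nb (fun k => b (e k)) s ≤ Fintype.card κ := nb_le_card _ s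
  rw [evoN_eq_of_le hΦ hε (fun k => b (e k)) (Fintype.card ι) (Fintype.card κ) s t _
    (h1.trans hcard) h1 hst]

/-- Before its birth a particle is on its free line. -/
theorem evoN_unborn (b : ι → ℝ) {t : ℝ} {i : ι} (hi : t ≤ b i) (hΦ : AdmissiblePotential Φ)
    (hε : 0 < ε) :
    ∀ (n : ℕ) (s : ℝ), s ≤ t → ∀ Z : ι → PhasePoint,
      evoN Φ ε b n s t Z i = ((Z i).1 + (t - s) • (Z i).2, (Z i).2) := by
  have hst : ∀ s, s < t → ∀ (r : ℝ) (Z : ι → PhasePoint),
      flowA Φ ε (alive b s) r Z i = ((Z i).1 + r • (Z i).2, (Z i).2) := by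
    intro s hs r Z
    exact flowA_not_mem _ _ _ fun h => absurd (mem_alive.1 h) (not_le.2 (hs.trans_le hi))
  intro n
  induction n with
  | zero =>
    intro s hs Z
    rcases hs.lt_or_eq with h | h
    · exact hst s h _ Z
    · subst h
      rw [evoN_self hΦ hε, sub_self, zero_smul, add_zero]
  | succ n ih =>
    intro s hs Z
    rcases hs.lt_or_eq with h | h
    · unfold evoN
      by_cases h1 : nxt b s t < t
      · rw [if_pos h1, ih _ h1.le, hst s h]
        refine Prod.ext ?_ rfl
        simp only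
        rw [add_assoc, ← add_smul]
        congr 2
        ring
      · rw [if_neg h1]
        exact hst s h _ Z
    · subst h
      rw [evoN_self hΦ hε, sub_self, zero_smul, add_zero]

theorem evo_unborn (hΦ : AdmissiblePotential Φ) (hε : 0 < ε) (b : ι → ℝ) {s t : ℝ} {i : ι}
    (hi : t ≤ b i) (hst : s ≤ t) (Z : ι → PhasePoint) :
    evo Φ ε b s t Z i = ((Z i).1 + (t - s) • (Z i).2, (Z i).2) :=
  evoN_unborn b hi hΦ hε _ s hst Z

/-! ### Local worlds -/

/-- A world with births on the time interval `[a, T]`. -/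
structure LWorld (Φ : Space3 → ℝ) (ε : ℝ) (b : ι → ℝ) (a T : ℝ) (X : ℝ → ι → PhasePoint) :
    Prop where
  cont : ContinuousOn X (Icc a T)
  der : ∀ t ∈ Ico a T, HasDerivWithinAt X (bf Φ ε b t (X t)) (Ici t) t
  dom : ∀ t ∈ Ico a T, BDom Φ b t (X t)

theorem LWorld.of_bworld {b : ι → ℝ} {a T : ℝ} {X : ℝ → ι → PhasePoint}
    (h : BWorld Φ ε b a X) : LWorld Φ ε b a T X where
  cont := h.cont.mono Icc_subset_Ici_self
  der t ht := h.der t ht.1
  dom t ht := h.dom t ht.1

namespace LWorld

variable {b : ι → ℝ} {a T : ℝ} {X : ℝ → ι → PhasePoint}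

theorem mono (h : LWorld Φ ε b a T X) {a' T' : ℝ} (ha : a ≤ a') (hT : T' ≤ T) :
    LWorld Φ ε b a' T' X where
  cont := h.cont.mono (Icc_subset_Icc ha hT)
  der t ht := h.der t ⟨ha.trans ht.1, ht.2.trans_le hT⟩
  dom t ht := h.dom t ⟨ha.trans ht.1, ht.2.trans_le hT⟩

theorem congr (h : LWorld Φ ε b a T X) {X' : ℝ → ι → PhasePoint}
    (he : ∀ t ∈ Icc a T, X' t = X t) : LWorld Φ ε b a T X' where
  cont := h.cont.congr fun t ht => he t ht
  der t ht := by
    rw [he t ⟨ht.1, ht.2.le⟩]
    refine (h.der t ht).congr_of_eventuallyEq ?_ (he t ⟨ht.1, ht.2.le⟩)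
    filter_upwards [Icc_mem_nhdsGE ht.2] with u hu
    exact he u ⟨ht.1.trans hu.1, hu.2⟩
  dom t ht := by rw [he t ⟨ht.1, ht.2.le⟩]; exact h.dom t ht

/-- Only the order of the births with respect to the times in `[a, T)` matters. -/
theorem congr_births (h : LWorld Φ ε b a T X) {b' : ι → ℝ}
    (he : ∀ i, ∀ t ∈ Ico a T, (b i ≤ t ↔ b' i ≤ t)) : LWorld Φ ε b' a T X where
  cont := h.cont
  der t ht := by
    classical
    have : bf Φ ε b' t (X t) = bf Φ ε b t (X t) := by
      funext i
      unfold bf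
      simp only [he _ t ht]
    rw [this]
    exact h.der t ht
  dom t ht := (h.dom t ht).imp id fun h' i j hij hi hj =>
    h' i j hij ((he i t ht).2 hi) ((he j t ht).2 hj)

theorem cont_apply (h : LWorld Φ ε b a T X) (i : ι) : ContinuousOn (fun t => X t i) (Icc a T) :=
  continuousOn_pi.1 h.cont i

/-- Restriction to a sub-family which stays far from the other particles. -/
theorem restrict (hΦ : AdmissiblePotential Φ) (hε : 0 < ε) (hX : LWorld Φ ε b a T X) (e : κ ↪ ι)
    (hfar : ∀ t ∈ Ico a T, ∀ k, b (e k) ≤ t → ∀ j, (∀ k', e k' ≠ j) → b j ≤ t →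
      ε ≤ dist (X t (e k)).1 (X t j).1) :
    LWorld Φ ε (fun k => b (e k)) a T (fun t k => X t (e k)) where
  cont := continuousOn_pi.2 fun k => hX.cont_apply (e k)
  der t ht := by
    classical
    rw [hasDerivWithinAt_pi]
    intro k
    have h1 := (hasDerivWithinAt_pi.1 (hX.der t ht)) (e k)
    have h2 : bf Φ ε (fun k => b (e k)) t (fun k => X t (e k)) k = bf Φ ε b t (X t) (e k) := by
      unfold bf
      by_cases hi : b (e k) ≤ t
      · rw [if_pos hi, if_pos hi]
        congr 2
        symm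
        rw [← Finset.sum_subset (Finset.subset_univ (Finset.univ.map e)), Finset.sum_map]
        intro j _ hj
        by_cases hj' : b j ≤ t
        · rw [if_pos hj']
          refine grad_far hΦ hε (hfar t ht k hi j ?_ hj')
          rintro k' rfl
          exact hj (by simp)
        · rw [if_neg hj']
      · rw [if_neg hi, if_neg hi]
    rw [h2]
    exact h1
  dom t ht := (hX.dom t ht).imp id fun h i j hij hi hj =>
    h (e i) (e j) (fun h' => hij (e.injective h')) hi hj

/-- An unborn particle flies freely. -/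
theorem free_of_unborn (hX : LWorld Φ ε b a T X) {s t : ℝ} (hs : a ≤ s) (hst : s ≤ t)
    (ht : t ≤ T) {i : ι} (hi : t ≤ b i) : X t i = ((X s i).1 + (t - s) • (X s i).2, (X s i).2) := by
  have hcI : ContinuousOn (fun u => X u i) (Icc s t) :=
    (hX.cont_apply i).mono (Icc_subset_Icc hs ht)
  have hd : ∀ u ∈ Ico s t, HasDerivWithinAt (fun u => X u i) ((X u i).2, 0) (Ici u) u := by
    intro u hu
    have h1 := (hasDerivWithinAt_pi.1 (hX.der u ⟨hs.trans hu.1, hu.2.trans_le ht⟩)) i
    rwa [bf_of_unborn Φ ε (X u) (hu.2.trans_le hi)] at h1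
  have hv : ∀ u ∈ Icc s t, (X u i).2 = (X s i).2 :=
    constant_of_has_deriv_right_zero hcI.snd fun u hu => (hd u hu).snd
  have hx : ∀ u ∈ Icc s t, (X u i).1 - (u - s) • (X s i).2 = (X s i).1 - (s - s) • (X s i).2 := by
    refine constant_of_has_deriv_right_zero (f := fun u => (X u i).1 - (u - s) • (X s i).2)
      (hcI.fst.sub (by fun_prop)) fun u hu => ?_
    have h1 : HasDerivWithinAt (fun u => (X u i).1) (X u i).2 (Ici u) u := (hd u hu).fst
    have h2 : HasDerivWithinAt (fun u : ℝ => (u - s) • (X s i).2) ((1 : ℝ) • (X s i).2) (Ici u) u :=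
      (((hasDerivAt_id u).sub_const s).smul_const _).hasDerivWithinAt
    have h3 := h1.sub h2
    rwa [one_smul, hv u ⟨hu.1, hu.2.le⟩, sub_self] at h3
  refine Prod.ext ?_ (hv t ⟨hst, le_rfl⟩)
  have := hx t ⟨hst, le_rfl⟩
  rw [sub_self, zero_smul, sub_zero] at this
  exact sub_eq_iff_eq_add.1 this

/-- As long as nobody is born, a local world is the partial flow. -/
theorem eq_flowA (hΦ : AdmissiblePotential Φ) (hε : 0 < ε) (hX : LWorld Φ ε b a T X) {s t : ℝ}
    (hs : a ≤ s) (hst : s ≤ t) (ht : t ≤ T) (h0 : ∀ i, s < b i → t ≤ b i) :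
    X t = flowA Φ ε (alive b s) (t - s) (X s) := by
  rcases hst.lt_or_eq with hlt | rfl
  swap
  · rw [sub_self, flowA_zero hΦ hε]
  have hsT : s < T := hlt.trans_le ht
  have hZ : BDom Φ b s (X s) := hX.dom s ⟨hs, hsT⟩
  have hmem : ∀ u ∈ Ico s t, ∀ i, i ∈ alive b s ↔ b i ≤ u := by
    intro u hu i
    refine ⟨fun h => (mem_alive.1 h).trans hu.1, fun h => mem_alive.2 ?_⟩
    by_contra hlt
    exact absurd ((h0 i (not_le.1 hlt)).trans h) (not_le.2 hu.2)
  funext i
  by_cases hi : i ∈ alive b s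
  swap
  · rw [flowA_not_mem _ _ _ hi]
    exact hX.free_of_unborn hs hst ht (h0 i (not_le.1 fun h => hi (mem_alive.2 h)))
  -- the alive particles
  set γ₁ : ℝ → alive b s → PhasePoint := fun u a => X u a with hγ₁
  set γ₂ : ℝ → alive b s → PhasePoint := fun u => flow Φ ε (u - s) (fun a : alive b s => X s a)
    with hγ₂
  have hc₁ : ContinuousOn γ₁ (Icc s t) := continuousOn_pi.2 fun a =>
    (hX.cont_apply (a : ι)).mono (Icc_subset_Icc hs ht)
  have hc₂ : Continuous γ₂ := (flow_continuous_time hΦ hε _).comp (continuous_id.sub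
    continuous_const)
  have hd₁ : ∀ u ∈ Ico s t, HasDerivWithinAt γ₁ (nf Φ ε (γ₁ u)) (Ici u) u := by
    intro u hu
    rw [hasDerivWithinAt_pi]
    intro k
    have h1 := (hasDerivWithinAt_pi.1 (hX.der u ⟨hs.trans hu.1, hu.2.trans_le ht⟩)) k
    have h2 : bf Φ ε b u (X u) k = nf Φ ε (γ₁ u) k := by
      classical
      have hk : b k ≤ u := (hmem u hu k).1 k.2
      unfold bf nf
      rw [if_pos hk]
      congr 2
      rw [Finset.sum_coe_sort (alive b s)
        fun j => gradient Φ ((1 / ε) • ((X u k).1 - (X u j).1)),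
        ← Finset.sum_subset (Finset.subset_univ (alive b s))]
      · exact Finset.sum_congr rfl fun j hj => if_pos ((hmem u hu j).1 hj)
      · intro j _ hj
        exact if_neg fun h => hj ((hmem u hu j).2 h)
    rw [← h2]
    exact h1
  have hd₂ : ∀ u, HasDerivAt γ₂ (nf Φ ε (γ₂ u)) u := by
    intro u
    have h1 := flow_hasDerivAt hΦ hε hZ.dom (u - s)
    have h2 := h1.scomp u ((hasDerivAt_id u).sub_const s)
    rw [one_smul] at h2
    exact h2
  have hD₁ : ∀ u ∈ Ico s t, γ₁ u ∈ Dom Φ (alive b s) := by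
    intro u hu
    refine (hX.dom u ⟨hs.trans hu.1, hu.2.trans_le ht⟩).imp id fun h' i j hij => ?_
    exact h' i j (fun h => hij (Subtype.ext h)) ((hmem u hu i).1 i.2) ((hmem u hu j).1 j.2)
  have hD₂ : ∀ u, γ₂ u ∈ Dom Φ (alive b s) := fun u => flow_mem hΦ hε hZ.dom (u - s)
  have heq : ∀ u ∈ Ico s t, γ₁ u = γ₂ u := by
    intro u hu
    have h := unique_Icc_right (complete (ι := alive b s) hΦ hε).lip (γ₁ := γ₁) (γ₂ := γ₂)
      (a := s) (b := u) (hc₁.mono (Icc_subset_Icc le_rfl hu.2.le)) hc₂.continuousOn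
      (fun v hv => hd₁ v ⟨hv.1, hv.2.trans hu.2⟩)
      (fun v _ => (hd₂ v).hasDerivWithinAt)
      (fun v hv => hD₁ v ⟨hv.1, hv.2.trans_lt hu.2⟩) (fun v _ => hD₂ v) (by
        simp only [hγ₁, hγ₂, sub_self, flow_zero hΦ hε])
    exact h ⟨hu.1, le_rfl⟩
  have hfin : γ₁ t = γ₂ t := by
    have h1 : Tendsto γ₁ (𝓝[Ico s t] t) (𝓝 (γ₁ t)) :=
      (hc₁ t ⟨hst, le_rfl⟩).mono Ico_subset_Icc_self
    have h2 : Tendsto γ₂ (𝓝[Ico s t] t) (𝓝 (γ₂ t)) := hc₂.continuousWithinAt
    have h3 : γ₁ =ᶠ[𝓝[Ico s t] t] γ₂ := by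
      filter_upwards [self_mem_nhdsWithin] with u hu
      exact heq u hu
    have : (𝓝[Ico s t] t).NeBot := by
      rw [← mem_closure_iff_nhdsWithin_neBot, closure_Ico hlt.ne]
      exact ⟨hst, le_rfl⟩
    exact tendsto_nhds_unique (h1.congr' h3) h2
  rw [flowA_mem _ _ (X s) hi]
  exact congrFun hfin ⟨i, hi⟩

/-- **Uniqueness**: a local world is the evolution of its initial state. -/
theorem eq_evo (hΦ : AdmissiblePotential Φ) (hε : 0 < ε) (hX : LWorld Φ ε b a T X) {t : ℝ}
    (hat : a ≤ t) (ht : t ≤ T) : X t = evo Φ ε b a t (X a) := by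
  have key : ∀ (n : ℕ) (s : ℝ), a ≤ s → s ≤ t → nb b s ≤ n → X t = evoN Φ ε b n s t (X s) := by
    intro n
    induction n with
    | zero =>
      intro s hs hst hn
      have h0 : ∀ i, s < b i → t ≤ b i := by
        intro i hi
        have : (Finset.univ.filter fun i => s < b i) = ∅ :=
          Finset.card_eq_zero.1 (Nat.le_zero.1 hn)
        have h2 : i ∈ (Finset.univ.filter fun i => s < b i) := by simp [hi]
        rw [this] at h2
        exact absurd h2 (Finset.notMem_empty i)
      rw [evoN_of_no_birth b 0 _ h0]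
      exact hX.eq_flowA hΦ hε hs hst ht h0
    | succ n ih =>
      intro s hs hst hn
      by_cases h0 : ∀ i, s < b i → t ≤ b i
      · rw [evoN_of_no_birth b _ _ h0]
        exact hX.eq_flowA hΦ hε hs hst ht h0
      · push Not at h0
        obtain ⟨i₁, hi₁, hi₁t⟩ := h0
        obtain ⟨i₀, hi₀, hmin⟩ := (Set.toFinite {i | s < b i}).exists_minimalFor b {i | s < b i}
          ⟨i₁, hi₁⟩
        have hmin' : ∀ i, s < b i → b i₀ ≤ b i := by
          intro i hi
          rcases le_total (b i) (b i₀) with h1 | h1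
          · exact hmin hi h1
          · exact h1
        have hle : b i₀ ≤ t := (hmin' i₁ hi₁).trans hi₁t.le
        have hlt := nb_lt (b := b) (s := s) i₀ hi₀ rfl
        have hss' : s ≤ b i₀ := le_of_lt hi₀
        rw [evoN_of_birth hΦ hε b n _ hle hmin' i₀ hi₀ rfl,
          ← hX.eq_flowA hΦ hε hs hss' (hle.trans ht) hmin']
        exact ih (b i₀) (hs.trans hss') hle (by omega)
  exact key (Fintype.card ι) a le_rfl hat (nb_le_card b a)

/-- Two local worlds with the same initial state coincide. -/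
theorem unique (hΦ : AdmissiblePotential Φ) (hε : 0 < ε) (hX : LWorld Φ ε b a T X)
    {X' : ℝ → ι → PhasePoint} (hX' : LWorld Φ ε b a T X') (h0 : X a = X' a) {t : ℝ}
    (ht : t ∈ Icc a T) : X t = X' t := by
  rw [hX.eq_evo hΦ hε ht.1 ht.2, hX'.eq_evo hΦ hε ht.1 ht.2, h0]

/-- **Gluing** of two local worlds at cross distance at least `ε`. -/
theorem sum_elim (hΦ : AdmissiblePotential Φ) (hε : 0 < ε) (hX : LWorld Φ ε b a T X)
    {c : κ → ℝ} {Y : ℝ → κ → PhasePoint} (hY : LWorld Φ ε c a T Y)
    (hfar : ∀ t ∈ Ico a T, ∀ i j, b i ≤ t → c j ≤ t → ε ≤ dist (X t i).1 (Y t j).1) :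
    LWorld Φ ε (Sum.elim b c) a T (fun t => Sum.elim (X t) (Y t)) where
  cont := by
    refine continuousOn_pi.2 ?_
    rintro (i | j)
    · exact hX.cont_apply i
    · exact hY.cont_apply j
  der t ht := by
    classical
    rw [hasDerivWithinAt_pi]
    rintro (i | j)
    · have h1 := (hasDerivWithinAt_pi.1 (hX.der t ht)) i
      have h2 : bf Φ ε (Sum.elim b c) t (Sum.elim (X t) (Y t)) (Sum.inl i) = bf Φ ε b t (X t) i := by
        unfold bf
        rw [Fintype.sum_sum_type]
        change ((X t i).2, if b i ≤ t then -(1 / ε) •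
          ((∑ j, (if b j ≤ t then gradient Φ ((1 / ε) • ((X t i).1 - (X t j).1)) else 0)) +
          ∑ j, (if c j ≤ t then gradient Φ ((1 / ε) • ((X t i).1 - (Y t j).1)) else 0)) else 0) = _
        by_cases hi : b i ≤ t
        · have hz : ∑ j, (if c j ≤ t then gradient Φ ((1 / ε) • ((X t i).1 - (Y t j).1)) else 0)
              = 0 := by
            refine Finset.sum_eq_zero fun j _ => ?_
            split_ifs with hj
            · exact grad_far hΦ hε (hfar t ht i j hi hj)
            · rfl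
          rw [if_pos hi, if_pos hi, hz, add_zero]
        · rw [if_neg hi, if_neg hi]
      rw [h2]
      exact h1
    · have h1 := (hasDerivWithinAt_pi.1 (hY.der t ht)) j
      have h2 : bf Φ ε (Sum.elim b c) t (Sum.elim (X t) (Y t)) (Sum.inr j) = bf Φ ε c t (Y t) j := by
        unfold bf
        rw [Fintype.sum_sum_type]
        change ((Y t j).2, if c j ≤ t then -(1 / ε) •
          ((∑ i, (if b i ≤ t then gradient Φ ((1 / ε) • ((Y t j).1 - (X t i).1)) else 0)) +
          ∑ i, (if c i ≤ t then gradient Φ ((1 / ε) • ((Y t j).1 - (Y t i).1)) else 0)) else 0) = _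
        by_cases hj : c j ≤ t
        · have hz : ∑ i, (if b i ≤ t then gradient Φ ((1 / ε) • ((Y t j).1 - (X t i).1)) else 0)
              = 0 := by
            refine Finset.sum_eq_zero fun i _ => ?_
            split_ifs with hi
            · exact grad_far hΦ hε (by rw [dist_comm]; exact hfar t ht i j hi hj)
            · rfl
          rw [if_pos hj, if_pos hj, hz, zero_add]
        · rw [if_neg hj, if_neg hj]
      rw [h2]
      exact h1
  dom t ht := by
    rcases hX.dom t ht with h | h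
    · exact Or.inl h
    rcases hY.dom t ht with h' | h'
    · exact Or.inl h'
    refine Or.inr ?_
    rintro (i | i) (j | j) hij hi hj
    · exact h i j (fun h' => hij (by rw [h'])) hi hj
    · exact ne_of_le_dist hε (hfar t ht i j hi hj)
    · exact (ne_of_le_dist hε (hfar t ht j i hj hi)).symm
    · exact h' i j (fun h' => hij (by rw [h'])) hi hj

/-- Relabelling. -/
theorem equiv (hX : LWorld Φ ε b a T X) (σ : κ ≃ ι) :
    LWorld Φ ε (fun k => b (σ k)) a T (fun t k => X t (σ k)) where
  cont := continuousOn_pi.2 fun k => hX.cont_apply (σ k)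
  der t ht := by
    classical
    rw [hasDerivWithinAt_pi]
    intro i
    have h1 := (hasDerivWithinAt_pi.1 (hX.der t ht)) (σ i)
    have h2 : bf Φ ε (fun i => b (σ i)) t (fun i => X t (σ i)) i = bf Φ ε b t (X t) (σ i) := by
      unfold bf
      by_cases hi : b (σ i) ≤ t
      · rw [if_pos hi, if_pos hi]
        congr 2
        exact Fintype.sum_equiv σ _ _ fun j => rfl
      · rw [if_neg hi, if_neg hi]
    rw [h2]
    exact h1
  dom t ht := (hX.dom t ht).imp id fun h i j hij hi hj =>
    h (σ i) (σ j) (fun h' => hij (σ.injective h')) hi hj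

end LWorld

end Crest.Agent.R122.VLInst442

end
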