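import Mathlib
import Crest.Prelude.Def_KineticLimit
import Crest.Agent.R122.VLInstA_442
import Crest.Agent.R122.Energy3_410

/-!
# Row 122, D3, instance layer of `VLDefs_581` (helper442), part B: the sub-worlds of a `VSys`

* `st_eq_ev`, `bworld_ev`, `bworld_of_ok`, `st_lworld`: the paths of the sub-world `A` are a local
  world with births on `[a, t]` (every `a ≤ t`) as long as `ok A t Z`.
* `st_congr`, `ok_congr`, `Ct_congr`: locality.
* `ok_iff`, `ok_anti`, `isClosed_ok`, `ok_of_forall_lt`, `st_continuousOn`.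
* `st_eq_of_lworld`, `ok_iff_of_lworld`: bridge.
* `st_vadd`, `ok_vadd`: covariance under translations and boosts.
* `fact`: factorisation.
-/

set_option autoImplicit false
set_option linter.unusedSectionVars false

open MeasureTheory Set Filter Topology
open scoped NNReal ENNReal
open Crest.AnalysisR.Kinetic
open Crest.Agent.R122.Flow671 Crest.Agent.R122.Loc45 Crest.Agent.R122.Ins45
open Crest.Agent.R122.VL581 Crest.Agent.R122.VL581.VSys

noncomputable section

namespace Crest.Agent.R122.VLInst442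

variable {J κ : Type} [Fintype J] (M : VSys J κ)

/-! ### Elementary facts -/

theorem bb_nonneg (i : J) : 0 ≤ M.bb i := le_max_right _ _

variable {M} in
theorem mem_mem {A : Finset J} {t : ℝ} {i : J} :
    i ∈ M.mem A t ↔ i ∈ A ∧ M.o ≠ some i ∧ M.bb i < t := by
  classical
  unfold VSys.mem
  rw [Finset.mem_filter]

theorem mem_mono (A : Finset J) {s t : ℝ} (h : s ≤ t) : M.mem A s ⊆ M.mem A t := fun i hi => by
  rw [mem_mem] at hi ⊢
  exact ⟨hi.1, hi.2.1, hi.2.2.trans_le h⟩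

theorem mem_sub (A : Finset J) (t : ℝ) : M.mem A t ⊆ A := fun _ hi => (mem_mem.1 hi).1

/-- The free line at time `s`. -/
def fl (s : ℝ) (z : PhasePoint) : PhasePoint := (z.1 + s • z.2, z.2)

theorem fl_zero (z : PhasePoint) : fl 0 z = z := by
  simp [fl]

/-- Evolution of the family `B` with the births of `M` from time `-1`. -/
def ev (B : Finset J) (s : ℝ) (Z : J → PhasePoint) : B → PhasePoint :=
  evo M.Φ M.ε (fun j : B => M.bb j) (-1) s (fun j : B => ((Z j).1 - (Z j).2, (Z j).2))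

theorem st_of_mem {A : Finset J} {t : ℝ} {i : J} (h : i ∈ M.mem A t) (Z : J → PhasePoint) :
    M.st A t Z i = ev M (M.mem A t) t Z ⟨i, h⟩ := by
  unfold VSys.st
  rw [dif_pos h]
  rfl

theorem st_of_not_mem {A : Finset J} {t : ℝ} {i : J} (h : i ∉ M.mem A t) (Z : J → PhasePoint) :
    M.st A t Z i = fl t (Z i) := by
  unfold VSys.st
  rw [dif_neg h]
  rfl

/-- Not yet born. -/
theorem st_unborn {A : Finset J} {t : ℝ} {i : J} (h : t ≤ M.bb i) (Z : J → PhasePoint) :
    M.st A t Z i = fl t (Z i) :=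
  st_of_not_mem M (fun h' => absurd (mem_mem.1 h').2.2 (not_lt.2 h)) Z

theorem st_nonpos {A : Finset J} {t : ℝ} {i : J} (h : t ≤ 0) (Z : J → PhasePoint) :
    M.st A t Z i = fl t (Z i) := st_unborn M (h.trans (bb_nonneg M i)) Z

theorem st_outside {A : Finset J} {t : ℝ} {i : J} (h : i ∉ A) (Z : J → PhasePoint) :
    M.st A t Z i = fl t (Z i) := st_of_not_mem M (fun h' => h (mem_mem.1 h').1) Z

theorem st_obstacle {A : Finset J} {t : ℝ} {i : J} (h : M.o = some i) (Z : J → PhasePoint) :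
    M.st A t Z i = fl t (Z i) := st_of_not_mem M (fun h' => (mem_mem.1 h').2.1 h) Z

section evs

variable (hΦ : AdmissiblePotential M.Φ) (hε : 0 < M.ε)
include hΦ hε

/-- Only the particles born before `s` matter. -/
theorem ev_sub {B B' : Finset J} (hBB : B' ⊆ B) {s : ℝ} (hs : -1 ≤ s)
    (hb : ∀ i ∈ B, i ∉ B' → s ≤ M.bb i) (Z : J → PhasePoint) {i : J} (hi : i ∈ B') :
    ev M B s Z ⟨i, hBB hi⟩ = ev M B' s Z ⟨i, hi⟩ := by
  let e : B' ↪ B := ⟨fun j => ⟨j, hBB j.2⟩, fun j k h =>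
    Subtype.ext (congrArg (fun x : B => (x : J)) h)⟩
  refine evo_emb hΦ hε e (b := fun j : B => M.bb j) hs ?_ _ ⟨i, hi⟩
  rintro ⟨j, hj⟩ h
  refine hb j hj fun hj' => ?_
  exact h ⟨j, hj'⟩ rfl

theorem ev_free {B : Finset J} {s : ℝ} (hs : -1 ≤ s) (Z : J → PhasePoint) {i : J} (hi : i ∈ B)
    (hb : s ≤ M.bb i) : ev M B s Z ⟨i, hi⟩ = fl s (Z i) := by
  unfold ev
  rw [evo_unborn hΦ hε (fun j : B => M.bb j) (i := ⟨i, hi⟩) hb hs]
  unfold fl
  refine Prod.ext ?_ rfl
  simp only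
  rw [show s - -1 = s + 1 by ring, add_smul, one_smul]
  abel

/-- The state in a sub-world is the evolution of any family containing the members born before. -/
theorem st_eq_ev {A B : Finset J} {s : ℝ} (hs : -1 ≤ s) (hB : ∀ i ∈ B, i ∈ A ∧ M.o ≠ some i)
    (hB' : M.mem A s ⊆ B) (Z : J → PhasePoint) {i : J} (hi : i ∈ B) :
    M.st A s Z i = ev M B s Z ⟨i, hi⟩ := by
  by_cases h : i ∈ M.mem A s
  · rw [st_of_mem M h, ← ev_sub M hΦ hε hB' hs (fun j hj hj' => ?_) Z h]
    by_contra hcon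
    exact hj' (mem_mem.2 ⟨(hB j hj).1, (hB j hj).2, not_le.1 hcon⟩)
  · rw [st_of_not_mem M h, ev_free M hΦ hε hs Z hi]
    by_contra hcon
    exact h (mem_mem.2 ⟨(hB i hi).1, (hB i hi).2, not_le.1 hcon⟩)

/-- **Existence**: if nobody is born on top of an alive particle, the evolution of a family is a
world with births. -/
theorem bworld_ev (Z : J → PhasePoint) : ∀ (n : ℕ) (B : Finset J), B.card ≤ n →
    (∀ (i : J) (hi : i ∈ B) (j : J) (hj : j ∈ B), j ≠ i → M.bb j ≤ M.bb i →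
      (ev M B (M.bb i) Z ⟨i, hi⟩).1 ≠ (ev M B (M.bb i) Z ⟨j, hj⟩).1) →
    BWorld M.Φ M.ε (fun j : B => M.bb j) (-1) (fun s => ev M B s Z) := by
  classical
  intro n
  induction n with
  | zero =>
    intro B hB _
    have hB' : B = ∅ := Finset.card_eq_zero.1 (Nat.le_zero.1 hB)
    subst hB'
    exact bworld_evo hΦ hε (Or.inr fun i => absurd i.2 (Finset.notMem_empty _))
      fun i => absurd i.2 (Finset.notMem_empty _)
  | succ n ih =>
    intro B hB hsep
    refine bworld_evo hΦ hε ?_ ?_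
    · refine Or.inr fun i j _ hi _ => ?_
      have := bb_nonneg M (i : J)
      exact absurd (this.trans hi) (by norm_num)
    · rintro ⟨i, hi⟩ _
      set r := M.bb i with hr
      have hr0 : -1 ≤ r := by linarith [bb_nonneg M i]
      set B' := B.filter fun j => M.bb j < r with hB'
      have hsub : B' ⊆ B := Finset.filter_subset _ _
      have hiB' : i ∉ B' := fun h => absurd (Finset.mem_filter.1 h).2 (lt_irrefl _)
      have hcard : B'.card ≤ n := by
        have : B'.card < B.card := Finset.card_lt_card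
          ⟨hsub, fun h => hiB' (h hi)⟩
        omega
      have hev : ∀ s, -1 ≤ s → s ≤ r → ∀ (j : J) (hj : j ∈ B'),
          ev M B s Z ⟨j, hsub hj⟩ = ev M B' s Z ⟨j, hj⟩ := by
        intro s hs hsr j hj
        refine ev_sub M hΦ hε hsub hs (fun k hk hk' => ?_) Z hj
        by_contra hcon
        exact hk' (Finset.mem_filter.2 ⟨hk, (not_le.1 hcon).trans_le hsr⟩)
      have hW := ih B' hcard fun k hk j hj hjk hbjk => by
        have hkr : M.bb k ≤ r := (Finset.mem_filter.1 hk).2.le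
        have hk1 : -1 ≤ M.bb k := by linarith [bb_nonneg M k]
        rw [← hev _ hk1 hkr k hk, ← hev _ hk1 hkr j hj]
        exact hsep k (hsub hk) j (hsub hj) hjk hbjk
      rcases hW.dom r hr0 with h | h
      · exact Or.inl h
      refine Or.inr ?_
      rintro ⟨j, hj⟩ ⟨k, hk⟩ hjk hbj hbk
      have hjk' : j ≠ k := fun h => hjk (Subtype.ext h)
      change M.bb j ≤ r at hbj
      change M.bb k ≤ r at hbk
      change (ev M B r Z ⟨j, hj⟩).1 ≠ (ev M B r Z ⟨k, hk⟩).1
      rcases hbj.lt_or_eq with hj' | hj'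
      · rcases hbk.lt_or_eq with hk' | hk'
        · have hjB : j ∈ B' := Finset.mem_filter.2 ⟨hj, hj'⟩
          have hkB : k ∈ B' := Finset.mem_filter.2 ⟨hk, hk'⟩
          rw [hev r hr0 le_rfl j hjB, hev r hr0 le_rfl k hkB]
          exact h ⟨j, hjB⟩ ⟨k, hkB⟩ (fun h => hjk' (congrArg Subtype.val h)) hj'.le hk'.le
        · have := hsep k hk j hj hjk' (hk' ▸ hbj)
          rw [hk'] at this
          exact this.symm
      · have := hsep j hj k hk hjk'.symm (hj' ▸ hbk)
        rwa [hj'] at this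

end evs

/-! ### The predicate `ok` -/

variable {M} in
theorem ok_anti {A : Finset J} {s t : ℝ} (h : s ≤ t) {Z : J → PhasePoint} (hok : M.ok A t Z) :
    M.ok A s Z := fun i hi ho hb j hj hj' hji hbj => hok i hi ho (hb.trans_le h) j hj hj' hji hbj

/-- `i` has a bad birth in the sub-world `A`. -/
def Bad (A : Finset J) (Z : J → PhasePoint) (i : J) : Prop :=
  i ∈ A ∧ M.o ≠ some i ∧ ∃ j ∈ A, M.o ≠ some j ∧ j ≠ i ∧ M.bb j ≤ M.bb i ∧
    dist (M.st A (M.bb i) Z i).1 (M.st A (M.bb i) Z j).1 ≤ M.ε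

variable {M} in
theorem ok_iff {A : Finset J} {t : ℝ} {Z : J → PhasePoint} :
    M.ok A t Z ↔ ∀ i, Bad M A Z i → t ≤ M.bb i := by
  constructor
  · rintro h i ⟨hi, ho, j, hj, hj', hji, hb, hd⟩
    by_contra hcon
    exact absurd hd (not_le.2 (h i hi ho (not_le.1 hcon) j hj hj' hji hb))
  · intro h i hi ho hb j hj hj' hji hbj
    by_contra hcon
    exact absurd (h i ⟨hi, ho, j, hj, hj', hji, hbj, not_lt.1 hcon⟩) (not_le.2 hb)

theorem isClosed_ok (A : Finset J) (Z : J → PhasePoint) : IsClosed {t | M.ok A t Z} := by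
  have : {t | M.ok A t Z} = ⋂ i, ⋂ (_ : Bad M A Z i), Iic (M.bb i) := by
    ext t
    simp only [mem_ofPred_eq, mem_iInter, mem_Iic]
    exact ok_iff
  rw [this]
  exact isClosed_iInter fun i => isClosed_iInter fun _ => isClosed_Iic

theorem ok_nonpos (A : Finset J) {t : ℝ} (ht : t ≤ 0) (Z : J → PhasePoint) : M.ok A t Z :=
  ok_iff.2 fun i _ => ht.trans (bb_nonneg M i)

/-- Left limits. -/
theorem ok_of_forall_lt {A : Finset J} {t : ℝ} {Z : J → PhasePoint}
    (h : ∀ s < t, M.ok A s Z) : M.ok A t Z := by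
  refine ok_iff.2 fun i hi => ?_
  exact le_of_forall_lt fun s hs => by
    obtain ⟨r, hr1, hr2⟩ := exists_between hs
    exact hr1.trans_le (ok_iff.1 (h r hr2) i hi)

/-- If the sub-world is not ok at time `t` there is a first bad birth. -/
theorem exists_first_bad {A : Finset J} {t : ℝ} {Z : J → PhasePoint} (h : ¬ M.ok A t Z) :
    ∃ i, Bad M A Z i ∧ M.bb i < t ∧ M.ok A (M.bb i) Z := by
  rw [ok_iff] at h
  push Not at h
  obtain ⟨i₁, hi₁, hb₁⟩ := h
  obtain ⟨i₀, hi₀, hmin⟩ := (Set.toFinite {i | Bad M A Z i}).exists_minimalFor M.bb _ ⟨i₁, hi₁⟩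
  have hmin' : ∀ i, Bad M A Z i → M.bb i₀ ≤ M.bb i := by
    intro i hi
    rcases le_total (M.bb i) (M.bb i₀) with h1 | h1
    · exact hmin hi h1
    · exact h1
  exact ⟨i₀, hi₀, (hmin' i₁ hi₁).trans_lt hb₁, ok_iff.2 hmin'⟩

/-! ### Locality -/

section loc

variable {M}

theorem st_congr {A : Finset J} {Z Z' : J → PhasePoint} (h : ∀ j ∈ A, Z j = Z' j) {i : J}
    (hi : i ∈ A) (t : ℝ) : M.st A t Z i = M.st A t Z' i := by
  by_cases hm : i ∈ M.mem A t
  · rw [st_of_mem M hm, st_of_mem M hm]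
    unfold ev
    have : (fun j : M.mem A t => ((Z j).1 - (Z j).2, (Z j).2)) =
        fun j : M.mem A t => ((Z' j).1 - (Z' j).2, (Z' j).2) := by
      funext j
      rw [h j (mem_mem.1 j.2).1]
    rw [this]
  · rw [st_of_not_mem M hm, st_of_not_mem M hm, h i hi]

theorem ok_congr {A : Finset J} {Z Z' : J → PhasePoint} (h : ∀ j ∈ A, Z j = Z' j) (t : ℝ) :
    M.ok A t Z ↔ M.ok A t Z' := by
  unfold VSys.ok
  refine forall_congr' fun i => forall_congr' fun hi => forall_congr' fun _ =>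
    forall_congr' fun _ => forall_congr' fun j => forall_congr' fun hj => ?_
  rw [st_congr h hi, st_congr h hj]

theorem pos_congr {A : Finset J} {Z Z' : J → PhasePoint} (h : ∀ j ∈ A, Z j = Z' j) {i : J}
    (hi : i ∈ A) (k : κ) (t : ℝ) : M.pos A k t Z i = M.pos A k t Z' i := by
  unfold VSys.pos
  rw [h i hi, st_congr h hi]

theorem Ct_congr {C : ℝ} {A B : Finset J} {k l : κ} {i j : J} {t : ℝ} {Z Z' : J → PhasePoint}
    (hA : ∀ j ∈ A, Z j = Z' j) (hB : ∀ j ∈ B, Z j = Z' j) :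
    M.Ct C A k i B l j t Z ↔ M.Ct C A k i B l j t Z' := by
  unfold VSys.Ct
  refine and_congr_right fun hi => and_congr_right fun hj => ?_
  rw [ok_congr hA, ok_congr hB, pos_congr hA hi, pos_congr hB hj]

theorem VCt_congr {C : ℝ} {P : Finset J} {i j : J} {t : ℝ} {Z Z' : J → PhasePoint}
    (h : ∀ j ∈ P, Z j = Z' j) : M.VCt C P i j t Z ↔ M.VCt C P i j t Z' := by
  unfold VSys.VCt
  refine exists_congr fun A => and_congr_right fun hA => exists_congr fun B =>
    and_congr_right fun hB => exists_congr fun k => exists_congr fun l => ?_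
  exact Ct_congr (fun j hj => h j (hA hj)) (fun j hj => h j (hB hj))

theorem Conn_congr {C : ℝ} {P : Finset J} {Z Z' : J → PhasePoint}
    (h : ∀ j ∈ P, Z j = Z' j) : M.Conn C P Z ↔ M.Conn C P Z' := by
  unfold VSys.Conn
  simp only [VCt_congr h]

theorem TreeLike_congr {C ℓ ς : ℝ} {P : Finset J} {Z Z' : J → PhasePoint}
    (h : ∀ j ∈ P, Z j = Z' j) : M.TreeLike C ℓ ς P Z ↔ M.TreeLike C ℓ ς P Z' := by
  unfold VSys.TreeLike
  simp only [VCt_congr h]
  refine and_congr_left fun _ => forall_congr' fun A => forall_congr' fun hA => ?_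
  exact ok_congr (fun j hj => h j (hA hj)) _

end loc

/-! ### Local worlds over the whole index set -/

open scoped Classical in
/-- Births of the sub-world `A` seen up to time `t`: the others are born at time `max t 0`. -/
def ba (A : Finset J) (t : ℝ) (j : J) : ℝ := if j ∈ A ∧ M.o ≠ some j then M.bb j else max t 0

theorem ba_of_mem {A : Finset J} {t : ℝ} {j : J} (h : j ∈ A) (h' : M.o ≠ some j) :
    ba M A t j = M.bb j := if_pos ⟨h, h'⟩

theorem ba_of_not_mem {A : Finset J} {t : ℝ} {j : J} (h : ¬ (j ∈ A ∧ M.o ≠ some j)) :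
    ba M A t j = max t 0 := if_neg h

theorem ba_nonneg (A : Finset J) (t : ℝ) (j : J) : 0 ≤ ba M A t j := by
  unfold ba
  split_ifs
  · exact bb_nonneg M j
  · exact le_max_right _ _

theorem le_ba_of_not_mem {A : Finset J} {t : ℝ} {j : J} (h : j ∉ M.mem A t) : t ≤ ba M A t j := by
  by_cases h' : j ∈ A ∧ M.o ≠ some j
  · rw [ba_of_mem M h'.1 h'.2]
    by_contra hcon
    exact h (mem_mem.2 ⟨h'.1, h'.2, not_le.1 hcon⟩)
  · rw [ba_of_not_mem M h']
    exact le_max_left _ _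

theorem ba_le_iff {A : Finset J} {t s : ℝ} (hs : s < t) {j : J} :
    ba M A t j ≤ s ↔ (j ∈ A ∧ M.o ≠ some j) ∧ M.bb j ≤ s := by
  by_cases h' : j ∈ A ∧ M.o ≠ some j
  · rw [ba_of_mem M h'.1 h'.2]
    exact ⟨fun h => ⟨h', h⟩, fun h => h.2⟩
  · rw [ba_of_not_mem M h']
    exact ⟨fun h => absurd (hs.trans_le ((le_max_left t 0).trans h)) (lt_irrefl _),
      fun h => absurd h.1 h'⟩

theorem hasDerivAt_fl (z : PhasePoint) (s : ℝ) : HasDerivAt (fun s => fl s z) (z.2, 0) s := by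
  unfold fl
  have h1 : HasDerivAt (fun s : ℝ => z.1 + s • z.2) z.2 s := by
    have h2 : HasDerivAt (fun s : ℝ => s • z.2) ((1 : ℝ) • z.2) s :=
      (hasDerivAt_id s).smul_const _
    rw [one_smul] at h2
    exact h2.const_add _
  exact h1.prodMk (hasDerivAt_const _ _)

theorem continuous_fl (z : PhasePoint) : Continuous fun s => fl s z :=
  continuous_iff_continuousAt.2 fun s => (hasDerivAt_fl z s).continuousAt

/-- Nobody is born: the free flight is a local world. -/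
theorem lworld_free {Φ : Space3 → ℝ} {ε : ℝ} {b : J → ℝ} {a T : ℝ} (hb : ∀ i, T ≤ b i)
    (Z : J → PhasePoint) : LWorld Φ ε b a T (fun s i => fl s (Z i)) where
  cont := (continuous_pi fun i => continuous_fl (Z i)).continuousOn
  der s hs := by
    rw [hasDerivWithinAt_pi]
    intro i
    rw [bf_of_unborn Φ ε _ (hs.2.trans_le (hb i))]
    exact (hasDerivAt_fl (Z i) s).hasDerivWithinAt
  dom s hs := Or.inr fun i _ _ hi _ => absurd (hs.2.trans_le (hb i)) (not_lt.2 hi)

/-- Two local worlds on consecutive intervals. -/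
theorem LWorld.glue {ι : Type*} [Fintype ι] {Φ : Space3 → ℝ} {ε : ℝ} {b : ι → ℝ} {a s T : ℝ}
    {X : ℝ → ι → PhasePoint} (has : a ≤ s) (hsT : s ≤ T) (h1 : LWorld Φ ε b a s X)
    (h2 : LWorld Φ ε b s T X) : LWorld Φ ε b a T X where
  cont := by
    rw [← Icc_union_Icc_eq_Icc has hsT]
    exact ContinuousOn.union_of_isClosed h1.cont h2.cont isClosed_Icc isClosed_Icc
  der t ht := by
    rcases lt_or_ge t s with h | h
    · exact h1.der t ⟨ht.1, h⟩
    · exact h2.der t ⟨h, ht.2⟩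
  dom t ht := by
    rcases lt_or_ge t s with h | h
    · exact h1.dom t ⟨ht.1, h⟩
    · exact h2.dom t ⟨h, ht.2⟩

/-- A local world over a sub-family extended by free particles. -/
theorem lworld_of_sub {Φ : Space3 → ℝ} {ε : ℝ} {B : Finset J} {c : B → ℝ} {a T : ℝ}
    {Y : ℝ → B → PhasePoint} (hY : LWorld Φ ε c a T Y) {b : J → ℝ}
    (hb : ∀ j : B, ∀ s ∈ Ico a T, (b j ≤ s ↔ c j ≤ s)) (hb' : ∀ j, j ∉ B → T ≤ b j)
    {X : ℝ → J → PhasePoint} (hXB : ∀ s ∈ Icc a T, ∀ j : B, X s j = Y s j) {Z : J → PhasePoint}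
    (hX : ∀ j, j ∉ B → ∀ s ∈ Icc a T, X s j = fl s (Z j)) : LWorld Φ ε b a T X where
  cont := by
    classical
    refine continuousOn_pi.2 fun j => ?_
    by_cases hj : j ∈ B
    · exact (hY.cont_apply ⟨j, hj⟩).congr fun s hs => hXB s hs ⟨j, hj⟩
    · exact (continuous_fl (Z j)).continuousOn.congr fun s hs => hX j hj s hs
  der s hs := by
    classical
    have hs' : s ∈ Icc a T := ⟨hs.1, hs.2.le⟩
    have hnb : Icc s T ∈ 𝓝[≥] s := Icc_mem_nhdsGE hs.2
    rw [hasDerivWithinAt_pi]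
    intro j
    by_cases hj : j ∈ B
    · have h1 := (hasDerivWithinAt_pi.1 (hY.der s hs)) ⟨j, hj⟩
      have h2 : bf Φ ε b s (X s) j = bf Φ ε c s (Y s) ⟨j, hj⟩ := by
        have hbc : b j ≤ s ↔ c ⟨j, hj⟩ ≤ s := hb ⟨j, hj⟩ s hs
        unfold bf
        rw [show X s j = Y s ⟨j, hj⟩ from hXB s hs' ⟨j, hj⟩]
        by_cases hcs : c ⟨j, hj⟩ ≤ s
        swap
        · rw [if_neg hcs, if_neg fun h => hcs (hbc.1 h)]
        rw [if_pos hcs, if_pos (hbc.2 hcs)]
        congr 2
        have h3 : ∀ k : B, (if c k ≤ s then gradient Φ ((1 / ε) • ((Y s ⟨j, hj⟩).1 - (Y s k).1))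
            else 0) = (fun k : J => if b k ≤ s then
              gradient Φ ((1 / ε) • ((Y s ⟨j, hj⟩).1 - (X s k).1)) else 0) k := by
          intro k
          simp only [hXB s hs' k]
          by_cases hk : c k ≤ s
          · rw [if_pos hk, if_pos ((hb k s hs).2 hk)]
          · rw [if_neg hk, if_neg fun h => hk ((hb k s hs).1 h)]
        rw [Finset.sum_congr rfl fun k _ => h3 k, Finset.sum_coe_sort B (fun k : J =>
          if b k ≤ s then gradient Φ ((1 / ε) • ((Y s ⟨j, hj⟩).1 - (X s k).1)) else 0)]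
        symm
        refine Finset.sum_subset (Finset.subset_univ B) fun k _ hk => ?_
        exact if_neg (not_le.2 (hs.2.trans_le (hb' k hk)))
      rw [h2]
      refine h1.congr_of_eventuallyEq ?_ (hXB s hs' ⟨j, hj⟩)
      filter_upwards [hnb] with u hu
      exact hXB u ⟨hs.1.trans hu.1, hu.2⟩ ⟨j, hj⟩
    · rw [bf_of_unborn Φ ε _ (hs.2.trans_le (hb' j hj)), hX j hj s hs']
      refine (hasDerivAt_fl (Z j) s).hasDerivWithinAt.congr_of_eventuallyEq ?_ (hX j hj s hs')
      filter_upwards [hnb] with u hu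
      exact hX j hj u ⟨hs.1.trans hu.1, hu.2⟩
  dom s hs := by
    have hs' : s ∈ Icc a T := ⟨hs.1, hs.2.le⟩
    refine (hY.dom s hs).imp id fun h i j hij hi hj => ?_
    have hiB : i ∈ B := by
      by_contra hcon
      exact absurd (hs.2.trans_le (hb' i hcon)) (not_lt.2 hi)
    have hjB : j ∈ B := by
      by_contra hcon
      exact absurd (hs.2.trans_le (hb' j hcon)) (not_lt.2 hj)
    rw [show X s i = Y s ⟨i, hiB⟩ from hXB s hs' ⟨i, hiB⟩,
      show X s j = Y s ⟨j, hjB⟩ from hXB s hs' ⟨j, hjB⟩]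
    exact h ⟨i, hiB⟩ ⟨j, hjB⟩ (fun h => hij (congrArg Subtype.val h))
      ((hb ⟨i, hiB⟩ s hs).1 hi) ((hb ⟨j, hjB⟩ s hs).1 hj)

section worlds

variable {M}
variable (hΦ : AdmissiblePotential M.Φ) (hε : 0 < M.ε)
include hΦ hε

/-- The members of an ok sub-world born before `t` form a world with births. -/
theorem bworld_of_ok {A : Finset J} {t : ℝ} {Z : J → PhasePoint} (hok : M.ok A t Z) :
    BWorld M.Φ M.ε (fun j : M.mem A t => M.bb j) (-1) (fun s => ev M (M.mem A t) s Z) := by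
  refine bworld_ev M hΦ hε Z _ _ le_rfl fun i hi j hj hji hbj => ?_
  have hi' := mem_mem.1 hi
  have hj' := mem_mem.1 hj
  have hs : -1 ≤ M.bb i := by linarith [bb_nonneg M i]
  have hB : ∀ k ∈ M.mem A t, k ∈ A ∧ M.o ≠ some k := fun k hk =>
    ⟨(mem_mem.1 hk).1, (mem_mem.1 hk).2.1⟩
  have hsub : M.mem A (M.bb i) ⊆ M.mem A t := mem_mono M A hi'.2.2.le
  have h := hok i hi'.1 hi'.2.1 hi'.2.2 j hj'.1 hj'.2.1 hji hbj
  rw [st_eq_ev M hΦ hε hs hB hsub Z hi, st_eq_ev M hΦ hε hs hB hsub Z hj] at h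
  exact ne_of_le_dist hε h.le

theorem st_eq_ev_mem {A : Finset J} {s t : ℝ} (hs : -1 ≤ s) (hst : s ≤ t) (Z : J → PhasePoint)
    {i : J} (hi : i ∈ M.mem A t) : M.st A s Z i = ev M (M.mem A t) s Z ⟨i, hi⟩ :=
  st_eq_ev M hΦ hε hs (fun _ hk => ⟨(mem_mem.1 hk).1, (mem_mem.1 hk).2.1⟩) (mem_mono M A hst) Z hi

/-- **The paths of an ok sub-world are a local world with births** (over the whole index set, the
particles outside `A` are free). -/
theorem st_lworld {A : Finset J} {t : ℝ} {Z : J → PhasePoint} (hok : M.ok A t Z) (a : ℝ) :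
    LWorld M.Φ M.ε (ba M A t) a t (fun s => M.st A s Z) := by
  have h1 : LWorld M.Φ M.ε (ba M A t) (-1) t (fun s => M.st A s Z) := by
    refine lworld_of_sub (LWorld.of_bworld (T := t) (bworld_of_ok hΦ hε hok))
      (fun j s hs => ?_) (fun j hj => le_ba_of_not_mem M hj) (fun s hs j => ?_) (Z := Z)
      (fun j hj s hs => ?_)
    · rw [ba_of_mem M (mem_mem.1 j.2).1 (mem_mem.1 j.2).2.1]
    · exact st_eq_ev_mem hΦ hε hs.1 hs.2 Z j.2
    · exact st_of_not_mem M (fun h => hj (mem_mono M A hs.2 h)) Z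
  rcases le_total t 0 with ht | ht
  · refine (lworld_free (b := ba M A t) (fun i => ht.trans (ba_nonneg M A t i)) Z).congr
      fun s hs => ?_
    funext i
    exact st_nonpos M (hs.2.trans ht) Z
  · rcases le_total 0 a with ha | ha
    · exact h1.mono (by linarith) le_rfl
    · refine LWorld.glue ha ht ?_ (h1.mono (by norm_num) le_rfl)
      refine (lworld_free (b := ba M A t) (fun i => ba_nonneg M A t i) Z).congr fun s hs => ?_
      funext i
      exact st_nonpos M hs.2 Z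

/-- **Bridge**: a local world on `[0, t]` over an arbitrary index set, with a family of particles
which is isolated from the others: their paths are the paths of the sub-world. -/
theorem st_eq_of_lworld {ι : Type*} [Fintype ι] {b' : ι → ℝ} {X : ℝ → ι → PhasePoint} {t : ℝ}
    (hX : LWorld M.Φ M.ε b' 0 t X) {A : Finset J} {Z : J → PhasePoint} {f : J → ι}
    (hf : ∀ i ∈ A, M.o ≠ some i → ∀ j ∈ A, M.o ≠ some j → f i = f j → i = j)
    (hb : ∀ i ∈ A, M.o ≠ some i → ∀ s ∈ Ico 0 t, (b' (f i) ≤ s ↔ M.bb i ≤ s))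
    (h0 : ∀ i ∈ A, M.o ≠ some i → X 0 (f i) = Z i)
    (hfar : ∀ s ∈ Ico 0 t, ∀ i ∈ A, M.o ≠ some i → b' (f i) ≤ s →
      ∀ k, (∀ j ∈ A, M.o ≠ some j → f j ≠ k) → b' k ≤ s → M.ε ≤ dist (X s (f i)).1 (X s k).1) :
    ∀ s ∈ Icc 0 t, ∀ i ∈ A, M.o ≠ some i → M.st A s Z i = X s (f i) := by
  classical
  intro s hs i hi ho
  rcases hs.1.eq_or_lt with hs0 | hs0
  · subst hs0
    rw [st_nonpos M le_rfl, fl_zero, h0 i hi ho]
  -- the world over the members of `A` born before `t`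
  set B := M.mem A t with hB
  let e : B ↪ ι := ⟨fun j => f j, fun j k h => Subtype.ext
    (hf j (mem_mem.1 j.2).1 (mem_mem.1 j.2).2.1 k (mem_mem.1 k.2).1 (mem_mem.1 k.2).2.1 h)⟩
  have hmemB : ∀ j, j ∈ A → M.o ≠ some j → ∀ r ∈ Ico 0 t, b' (f j) ≤ r → j ∈ B := by
    intro j hj ho' r hr hbr
    exact mem_mem.2 ⟨hj, ho', ((hb j hj ho' r hr).1 hbr).trans_lt hr.2⟩
  have h1 : LWorld M.Φ M.ε (fun j : B => b' (f j)) 0 t (fun s (j : B) => X s (f j)) := by
    refine hX.restrict hΦ hε e fun r hr k hk j hj hbj => ?_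
    refine hfar r hr k (mem_mem.1 k.2).1 (mem_mem.1 k.2).2.1 hk j (fun j' hj' ho' h => ?_) hbj
    refine hj ⟨j', hmemB j' hj' ho' r hr (h ▸ hbj)⟩ h
  -- extend it to the time `-1`
  have ht0 : 0 ≤ t := hs.1.trans hs.2
  set Y : ℝ → J → PhasePoint := fun s j => if j ∈ B ∧ 0 ≤ s then X s (f j) else fl s (Z j) with hY
  have h2 : LWorld M.Φ M.ε (ba M A t) 0 t Y := by
    refine lworld_of_sub h1 (fun j r hr => ?_) (fun j hj => le_ba_of_not_mem M hj)
      (fun r hr j => ?_) (Z := Z) (fun j hj r hr => ?_)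
    · rw [ba_of_mem M (mem_mem.1 j.2).1 (mem_mem.1 j.2).2.1,
        hb j (mem_mem.1 j.2).1 (mem_mem.1 j.2).2.1 r hr]
    · simp only [hY]
      rw [if_pos ⟨j.2, hr.1⟩]
    · simp only [hY]
      rw [if_neg fun h => hj h.1]
  have h3 : LWorld M.Φ M.ε (ba M A t) (-1) 0 Y := by
    refine (lworld_free (b := ba M A t) (fun j => ba_nonneg M A t j) Z).congr fun r hr => ?_
    funext j
    simp only [hY]
    by_cases hj : j ∈ B ∧ 0 ≤ r
    · have hr0 : r = 0 := le_antisymm hr.2 hj.2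
      rw [if_pos hj, hr0, fl_zero, h0 j (mem_mem.1 hj.1).1 (mem_mem.1 hj.1).2.1]
    · rw [if_neg hj]
  have h4 := LWorld.glue (by norm_num) ht0 h3 h2
  -- uniqueness
  have hYm : Y (-1) = fun j => fl (-1) (Z j) := by
    funext j
    simp only [hY]
    rw [if_neg]
    rintro ⟨_, h⟩
    exact absurd h (by norm_num)
  have h5 : Y s = evo M.Φ M.ε (ba M A t) (-1) s (fun j => fl (-1) (Z j)) := by
    rw [← hYm]
    exact h4.eq_evo hΦ hε (by linarith [hs.1]) hs.2
  have hs1 : -1 ≤ s := by linarith [hs.1]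
  have h6 : M.st A s Z i = evo M.Φ M.ε (ba M A t) (-1) s (fun j => fl (-1) (Z j)) i := by
    have hfl : (fun j : B => fl (-1) (Z j)) = fun j : B => ((Z j).1 - (Z j).2, (Z j).2) := by
      funext j
      simp [fl, sub_eq_add_neg]
    by_cases hiB : i ∈ B
    · rw [st_eq_ev_mem hΦ hε hs1 hs.2 Z hiB]
      have h7 := evo_emb hΦ hε (Function.Embedding.subtype (· ∈ B)) (b := ba M A t) hs1
        (fun j hj => hs.2.trans (le_ba_of_not_mem M fun h => hj ⟨j, h⟩ rfl))
        (fun j => fl (-1) (Z j)) ⟨i, hiB⟩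
      change evo M.Φ M.ε (ba M A t) (-1) s (fun j => fl (-1) (Z j)) i = _ at h7
      rw [h7]
      unfold ev
      change _ = evo M.Φ M.ε (fun k : B => ba M A t k) (-1) s (fun j : B => fl (-1) (Z j)) ⟨i, hiB⟩
      rw [hfl]
      have : (fun k : B => ba M A t k) = fun k : B => M.bb k := by
        funext k
        exact ba_of_mem M (mem_mem.1 k.2).1 (mem_mem.1 k.2).2.1
      rw [this]
    · rw [st_of_not_mem M (fun h => hiB (mem_mono M A hs.2 h)),
        evo_unborn hΦ hε (ba M A t) (hs.2.trans (le_ba_of_not_mem M hiB)) hs1]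
      unfold fl
      refine Prod.ext ?_ rfl
      simp only
      rw [show s - -1 = s + 1 by ring, add_smul, one_smul, neg_smul, one_smul]
      abel
  rw [h6, ← h5]
  simp only [hY]
  by_cases hiB : i ∈ B
  · rw [if_pos ⟨hiB, hs.1⟩]
  · rw [if_neg fun h => hiB h.1]
    have hbi : t ≤ M.bb i := by
      by_contra hcon
      exact hiB (mem_mem.2 ⟨hi, ho, not_le.1 hcon⟩)
    have hbi' : s ≤ b' (f i) := by
      by_contra hcon
      rw [not_le] at hcon
      have h8 : max (b' (f i)) 0 ∈ Ico 0 t :=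
        ⟨le_max_right _ _, max_lt (hcon.trans_le hs.2) (hs0.trans_le hs.2)⟩
      have h9 := (hb i hi ho _ h8).1 (le_max_left _ _)
      exact absurd (h9.trans_lt h8.2) (not_lt.2 hbi)
    rw [hX.free_of_unborn le_rfl hs.1 hs.2 hbi', sub_zero, h0 i hi ho]
    rfl

/-- **Bridge** for `ok`. -/
theorem ok_iff_of_lworld {ι : Type*} [Fintype ι] {b' : ι → ℝ} {X : ℝ → ι → PhasePoint} {t : ℝ}
    (hX : LWorld M.Φ M.ε b' 0 t X) {A : Finset J} {Z : J → PhasePoint} {f : J → ι}
    (hf : ∀ i ∈ A, M.o ≠ some i → ∀ j ∈ A, M.o ≠ some j → f i = f j → i = j)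
    (hb : ∀ i ∈ A, M.o ≠ some i → ∀ s ∈ Ico 0 t, (b' (f i) ≤ s ↔ M.bb i ≤ s))
    (h0 : ∀ i ∈ A, M.o ≠ some i → X 0 (f i) = Z i)
    (hfar : ∀ s ∈ Ico 0 t, ∀ i ∈ A, M.o ≠ some i → b' (f i) ≤ s →
      ∀ k, (∀ j ∈ A, M.o ≠ some j → f j ≠ k) → b' k ≤ s → M.ε ≤ dist (X s (f i)).1 (X s k).1) :
    M.ok A t Z ↔ ∀ i ∈ A, M.o ≠ some i → M.bb i < t → ∀ j ∈ A, M.o ≠ some j → j ≠ i →
      M.bb j ≤ M.bb i → M.ε < dist (X (M.bb i) (f i)).1 (X (M.bb i) (f j)).1 := by
  have h := st_eq_of_lworld hΦ hε hX hf hb h0 hfar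
  unfold VSys.ok
  refine forall_congr' fun i => forall_congr' fun hi => forall_congr' fun ho =>
    forall_congr' fun hbi => forall_congr' fun j => forall_congr' fun hj =>
    forall_congr' fun hoj => forall_congr' fun _ => forall_congr' fun _ => ?_
  have hm : M.bb i ∈ Icc 0 t := ⟨bb_nonneg M i, hbi.le⟩
  rw [h _ hm i hi ho, h _ hm j hj hoj]

/-- Continuity in time of the paths of an ok sub-world. -/
theorem st_continuousOn (A : Finset J) (Z : J → PhasePoint) (i : J) :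
    ContinuousOn (fun t => M.st A t Z i) {t | M.ok A t Z} := by
  intro t ht
  have ht' : M.ok A t Z := ht
  by_cases h : ∃ t' > t, M.ok A t' Z
  · obtain ⟨t', htt', hok⟩ := h
    have h1 := ((st_lworld hΦ hε hok (t - 1)).cont_apply i)
    exact (h1.continuousAt (Icc_mem_nhds (by linarith) htt')).continuousWithinAt
  · push Not at h
    have h1 := ((st_lworld hΦ hε ht' (t - 1)).cont_apply i)
    refine (h1 t ⟨by linarith, le_rfl⟩).mono_of_mem_nhdsWithin ?_
    have h2 : Ici (t - 1) ∈ 𝓝[{t | M.ok A t Z}] t :=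
      mem_nhdsWithin_of_mem_nhds (Ici_mem_nhds (by linarith))
    filter_upwards [h2, self_mem_nhdsWithin] with s hs hs'
    refine ⟨hs, ?_⟩
    by_contra hcon
    exact h s (not_le.1 hcon) hs'

end worlds

end Crest.Agent.R122.VLInst442

end
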