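import Mathlib
import Crest.Prelude.Def_KineticLimit
import Crest.Agent.R122.VLInstB_442

/-!
# Row 122, D3, instance layer of `VLDefs_581` (helper442), part C

* `st_eq_of_lworldJ` : bridge for the whole index set.
* `st_vadd`, `ok_vadd` : covariance under a translation and boost `w` (free lines extrapolated to
  time `0`, so the group acts by addition of `w : PhasePoint`); `Conn_vadd`, ... for systems
  without obstacle in `P`.
* `st_rot`, `ok_rot` : linear isometries.
* `st_union`, `ok_union`, `fact` : factorisation.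
* `st_speed`, `st_lipschitz` : energy bound.
-/

set_option autoImplicit false
set_option linter.unusedSectionVars false

open MeasureTheory Set Filter Topology
open scoped NNReal ENNReal
open Crest.AnalysisR.Kinetic
open Crest.Agent.R122.Flow671 Crest.Agent.R122.Loc45 Crest.Agent.R122.Ins45
open Crest.Agent.R122.VL581 Crest.Agent.R122.VL581.VSys Crest.Agent.R122.Energy410

noncomputable section

namespace Crest.Agent.R122.VLInst442

/-! ### Symmetries of the field with births -/

section sym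

variable {Φ : Space3 → ℝ} {ε : ℝ} {ι : Type*} [Fintype ι] {b : ι → ℝ} {a T : ℝ}
  {X : ℝ → ι → PhasePoint}

/-- Translation and boost by `w` at time `s`. -/
theorem bf_add (Z : ι → PhasePoint) (t : ℝ) (u : PhasePoint) :
    bf Φ ε b t (fun i => Z i + u) = fun i => bf Φ ε b t Z i + (u.2, 0) := by
  classical
  funext i
  unfold bf
  refine Prod.ext ?_ ?_
  · simp
  · simp only [Prod.fst_add, add_sub_add_right_eq_sub, Prod.snd_add, add_zero]

theorem LWorld.vadd (h : LWorld Φ ε b a T X) (w : PhasePoint) :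
    LWorld Φ ε b a T (fun s i => X s i + fl s w) where
  cont := continuousOn_pi.2 fun i =>
    (h.cont_apply i).add (continuous_fl w).continuousOn
  der t ht := by
    rw [hasDerivWithinAt_pi]
    intro i
    rw [bf_add (X t) t (fl t w)]
    have h1 := (hasDerivWithinAt_pi.1 (h.der t ht)) i
    exact h1.add (hasDerivAt_fl w t).hasDerivWithinAt
  dom t ht := (h.dom t ht).imp id fun h' i j hij hi hj => by
    simp only [Prod.fst_add, ne_eq, add_left_inj]
    exact h' i j hij hi hj

theorem bf_rot (hΦ : AdmissiblePotential Φ) (L : Space3 ≃ₗᵢ[ℝ] Space3) (Z : ι → PhasePoint)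
    (t : ℝ) : bf Φ ε b t (rot L Z) = rot L (bf Φ ε b t Z) := by
  classical
  funext i
  unfold bf rot
  refine Prod.ext rfl ?_
  simp only
  by_cases hi : b i ≤ t
  · rw [if_pos hi, if_pos hi, map_smul, map_sum]
    congr 1
    refine Finset.sum_congr rfl fun j _ => ?_
    by_cases hj : b j ≤ t
    · rw [if_pos hj, if_pos hj, ← map_sub, ← map_smul, gradient_isometry hΦ L]
    · rw [if_neg hj, if_neg hj, map_zero]
  · rw [if_neg hi, if_neg hi, map_zero]

theorem LWorld.rot (hΦ : AdmissiblePotential Φ) (h : LWorld Φ ε b a T X)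
    (L : Space3 ≃ₗᵢ[ℝ] Space3) : LWorld Φ ε b a T (fun s => Loc45.rot L (X s)) where
  cont := continuousOn_pi.2 fun i => by
    have h1 := h.cont_apply i
    exact (L.continuous.comp_continuousOn h1.fst).prodMk (L.continuous.comp_continuousOn h1.snd)
  der t ht := by
    rw [hasDerivWithinAt_pi]
    intro i
    rw [bf_rot hΦ L]
    have h1 := (hasDerivWithinAt_pi.1 (h.der t ht)) i
    have hL : ∀ {f : ℝ → Space3} {f' : Space3}, HasDerivWithinAt f f' (Ici t) t →
        HasDerivWithinAt (fun s => L (f s)) (L f') (Ici t) t := by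
      intro f f' hf
      exact (L.toContinuousLinearEquiv.toContinuousLinearMap.hasFDerivAt).comp_hasDerivWithinAt t hf
    exact (hL h1.fst).prodMk (hL h1.snd)
  dom t ht := (h.dom t ht).imp id fun h' i j hij hi hj => by
    simp only [Loc45.rot, ne_eq, EmbeddingLike.apply_eq_iff_eq]
    exact h' i j hij hi hj

end sym

variable {J κ : Type} [Fintype J] {M : VSys J κ}

section worlds

variable (hΦ : AdmissiblePotential M.Φ) (hε : 0 < M.ε)
include hΦ hε

/-- **Bridge**, whole index set. -/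
theorem st_eq_of_lworldJ {A : Finset J} {t : ℝ} {Z : J → PhasePoint} {X : ℝ → J → PhasePoint}
    (hX : LWorld M.Φ M.ε (ba M A t) 0 t X) (h0 : ∀ j, X 0 j = Z j) :
    ∀ s ∈ Icc 0 t, ∀ j, M.st A s Z j = X s j := by
  intro s hs j
  by_cases hj : j ∈ A ∧ M.o ≠ some j
  · refine st_eq_of_lworld hΦ hε hX (f := id) (fun _ _ _ _ _ _ h => h)
      (fun i hi ho r _ => by rw [id, ba_of_mem M hi ho]) (fun i _ _ => h0 i)
      (fun r hr i _ _ _ k hk hbk => ?_) s hs j hj.1 hj.2
    have := (ba_le_iff M hr.2).1 hbk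
    exact absurd rfl (hk k this.1.1 this.1.2)
  · have h1 : s ≤ ba M A t j := by
      rw [ba_of_not_mem M hj]
      exact hs.2.trans (le_max_left _ _)
    rw [hX.free_of_unborn le_rfl hs.1 hs.2 h1, sub_zero, h0,
      st_of_not_mem M fun h => hj ⟨(mem_mem.1 h).1, (mem_mem.1 h).2.1⟩]
    rfl

/-! ### Covariance -/

/-- **Covariance** under the translation and boost `w`. -/
theorem st_vadd {A : Finset J} {t : ℝ} {Z : J → PhasePoint} (hok : M.ok A t Z) (w : PhasePoint)
    (i : J) : M.st A t (fun j => Z j + w) i = M.st A t Z i + fl t w := by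
  rcases le_total t 0 with ht | ht
  · rw [st_nonpos M ht, st_nonpos M ht]
    unfold fl
    refine Prod.ext ?_ rfl
    simp only [Prod.fst_add, Prod.snd_add, smul_add]
    abel
  · have h1 := (st_lworld hΦ hε hok 0).vadd w
    refine st_eq_of_lworldJ hΦ hε h1 (fun j => ?_) t ⟨ht, le_rfl⟩ i
    rw [st_nonpos M le_rfl, fl_zero, fl_zero]

theorem ok_vadd_aux {A : Finset J} {t : ℝ} {Z : J → PhasePoint} (hok : M.ok A t Z)
    (w : PhasePoint) : M.ok A t (fun j => Z j + w) := by
  intro i hi ho hb j hj hj' hji hbj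
  have h := hok i hi ho hb j hj hj' hji hbj
  have hok' := ok_anti hb.le hok
  rw [st_vadd hΦ hε hok', st_vadd hΦ hε hok']
  simpa using h

theorem ok_vadd {A : Finset J} {t : ℝ} {Z : J → PhasePoint} (w : PhasePoint) :
    M.ok A t (fun j => Z j + w) ↔ M.ok A t Z := by
  refine ⟨fun h => ?_, fun h => ok_vadd_aux hΦ hε h w⟩
  have h1 := ok_vadd_aux hΦ hε h (-w)
  simpa using h1

/-- Covariance under linear isometries. -/
theorem st_rot {A : Finset J} {t : ℝ} {Z : J → PhasePoint} (hok : M.ok A t Z)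
    (L : Space3 ≃ₗᵢ[ℝ] Space3) (i : J) :
    M.st A t (rot L Z) i = (L (M.st A t Z i).1, L (M.st A t Z i).2) := by
  rcases le_total t 0 with ht | ht
  · rw [st_nonpos M ht, st_nonpos M ht]
    unfold fl Loc45.rot
    refine Prod.ext ?_ rfl
    simp
  · have h1 := (st_lworld hΦ hε hok 0).rot hΦ L
    refine st_eq_of_lworldJ hΦ hε h1 (fun j => ?_) t ⟨ht, le_rfl⟩ i
    unfold Loc45.rot
    rw [st_nonpos M le_rfl, fl_zero]

theorem ok_rot_aux {A : Finset J} {t : ℝ} {Z : J → PhasePoint} (hok : M.ok A t Z)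
    (L : Space3 ≃ₗᵢ[ℝ] Space3) : M.ok A t (rot L Z) := by
  intro i hi ho hb j hj hj' hji hbj
  have h := hok i hi ho hb j hj hj' hji hbj
  have hok' := ok_anti hb.le hok
  rw [st_rot hΦ hε hok', st_rot hΦ hε hok']
  simpa using h

theorem ok_rot {A : Finset J} {t : ℝ} {Z : J → PhasePoint} (L : Space3 ≃ₗᵢ[ℝ] Space3) :
    M.ok A t (rot L Z) ↔ M.ok A t Z := by
  refine ⟨fun h => ?_, fun h => ok_rot_aux hΦ hε h L⟩
  have h1 := ok_rot_aux hΦ hε h L.symm
  have h2 : rot L.symm (rot L Z) = Z := by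
    funext j
    simp [Loc45.rot]
  rwa [h2] at h1

/-- Invariance of contacts under a translation and boost, for labels which are not the obstacle. -/
theorem Ct_vadd {C : ℝ} {A B : Finset J} {k l : κ} {i j : J} {t : ℝ} {Z : J → PhasePoint}
    (hi : M.o ≠ some i) (hj : M.o ≠ some j) (w : PhasePoint) :
    M.Ct C A k i B l j t (fun j => Z j + w) ↔ M.Ct C A k i B l j t Z := by
  unfold VSys.Ct
  refine and_congr_right fun _ => and_congr_right fun _ => ?_
  rw [ok_vadd hΦ hε, ok_vadd hΦ hε]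
  refine and_congr_right fun hA => and_congr_right fun hB => and_congr_right fun _ =>
    and_congr_right fun _ => ?_
  unfold VSys.pos
  rw [if_neg hi, if_neg hj, if_neg hi, if_neg hj, st_vadd hΦ hε hA, st_vadd hΦ hε hB]
  simp

theorem VCt_vadd {C : ℝ} {P : Finset J} {i j : J} {t : ℝ} {Z : J → PhasePoint}
    (hi : M.o ≠ some i) (hj : M.o ≠ some j) (w : PhasePoint) :
    M.VCt C P i j t (fun j => Z j + w) ↔ M.VCt C P i j t Z := by
  unfold VSys.VCt
  simp only [Ct_vadd hΦ hε hi hj w]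

theorem Conn_vadd {C : ℝ} {P : Finset J} (hP : ∀ i ∈ P, M.o ≠ some i) {Z : J → PhasePoint}
    (w : PhasePoint) : M.Conn C P (fun j => Z j + w) ↔ M.Conn C P Z := by
  classical
  unfold VSys.Conn
  refine and_congr_right fun _ => forall_congr' fun Q => forall_congr' fun hQ =>
    forall_congr' fun _ => forall_congr' fun _ => exists_congr fun i => and_congr_right fun hi =>
    exists_congr fun j => and_congr_right fun hj => exists_congr fun t => and_congr_right fun _ => ?_
  exact VCt_vadd hΦ hε (hP i (hQ hi)) (hP j (Finset.mem_sdiff.1 hj).1) w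

theorem TreeLike_vadd {C ℓ ς : ℝ} {P : Finset J} (hP : ∀ i ∈ P, M.o ≠ some i)
    {Z : J → PhasePoint} (w : PhasePoint) :
    M.TreeLike C ℓ ς P (fun j => Z j + w) ↔ M.TreeLike C ℓ ς P Z := by
  unfold VSys.TreeLike
  have h1 : (∀ A ⊆ P, M.ok A M.T (fun j => Z j + w)) ↔ ∀ A ⊆ P, M.ok A M.T Z :=
    forall_congr' fun A => forall_congr' fun _ => ok_vadd hΦ hε w
  rw [h1]
  refine and_congr_right fun _ => exists_congr fun E => exists_congr fun σ =>
    and_congr_right fun _ => and_congr_right fun _ => and_congr_right fun _ =>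
    and_congr_right fun _ => and_congr_right fun _ => ?_
  refine forall_congr' fun i => forall_congr' fun hi => forall_congr' fun j =>
    forall_congr' fun hj => forall_congr' fun _ => forall_congr' fun t => forall_congr' fun _ => ?_
  rw [VCt_vadd hΦ hε (hP i hi) (hP j hj) w]

/-! ### Factorisation -/

/-- Two sub-worlds which stay at distance at least `ε` do not see each other. -/
theorem union_lworld [DecidableEq J] {A B : Finset J} (hAB : Disjoint A B) {t : ℝ}
    {Z : J → PhasePoint}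
    (hA : M.ok A t Z) (hB : M.ok B t Z)
    (hfar : ∀ s ∈ Ico 0 t, ∀ i ∈ A, ∀ j ∈ B, M.o ≠ some i → M.o ≠ some j → M.bb i ≤ s →
      M.bb j ≤ s → M.ε ≤ dist (M.st A s Z i).1 (M.st B s Z j).1) :
    LWorld M.Φ M.ε (ba M (A ∪ B) t) 0 t
      (fun s j => if j ∈ A then M.st A s Z j else M.st B s Z j) where
  cont := by
    refine continuousOn_pi.2 fun j => ?_
    by_cases hj : j ∈ A
    · simp only [hj, if_true]
      exact (st_lworld hΦ hε hA 0).cont_apply j
    · simp only [hj, if_false]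
      exact (st_lworld hΦ hε hB 0).cont_apply j
  der s hs := by
    classical
    rw [hasDerivWithinAt_pi]
    intro j
    set X : J → PhasePoint := fun j => if j ∈ A then M.st A s Z j else M.st B s Z j with hX
    have hXA : ∀ k ∈ A, X k = M.st A s Z k := fun k hk => if_pos hk
    have hXB : ∀ k, k ∉ A → X k = M.st B s Z k := fun k hk => if_neg hk
    by_cases hj : j ∈ A
    · simp only [hj, if_true]
      have h1 := (hasDerivWithinAt_pi.1 ((st_lworld hΦ hε hA 0).der s hs)) j
      have h2 : bf M.Φ M.ε (ba M (A ∪ B) t) s X j = bf M.Φ M.ε (ba M A t) s (M.st A s Z) j := by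
        unfold bf
        rw [hXA j hj]
        have hiff : ba M (A ∪ B) t j ≤ s ↔ ba M A t j ≤ s := by
          rw [ba_le_iff M hs.2, ba_le_iff M hs.2]
          simp [hj]
        by_cases hb : ba M A t j ≤ s
        swap
        · rw [if_neg hb, if_neg fun h => hb (hiff.1 h)]
        rw [if_pos hb, if_pos (hiff.2 hb)]
        have hb' := (ba_le_iff M hs.2).1 hb
        congr 2
        refine Finset.sum_congr rfl fun k _ => ?_
        by_cases hkA : k ∈ A
        · have hiffk : ba M (A ∪ B) t k ≤ s ↔ ba M A t k ≤ s := by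
            rw [ba_le_iff M hs.2, ba_le_iff M hs.2]
            simp [hkA]
          rw [hXA k hkA]
          by_cases hk : ba M A t k ≤ s
          · rw [if_pos hk, if_pos (hiffk.2 hk)]
          · rw [if_neg hk, if_neg fun h => hk (hiffk.1 h)]
        · rw [if_neg fun h => hkA ((ba_le_iff M hs.2).1 h).1.1]
          by_cases hk : ba M (A ∪ B) t k ≤ s
          swap
          · rw [if_neg hk]
          rw [if_pos hk, hXB k hkA]
          have hk' := (ba_le_iff M hs.2).1 hk
          have hkB : k ∈ B := (Finset.mem_union.1 hk'.1.1).resolve_left hkA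
          exact grad_far hΦ hε (hfar s hs j hj k hkB hb'.1.2 hk'.1.2 hb'.2 hk'.2)
      rw [h2]
      exact h1
    · simp only [hj, if_false]
      have h1 := (hasDerivWithinAt_pi.1 ((st_lworld hΦ hε hB 0).der s hs)) j
      have h2 : bf M.Φ M.ε (ba M (A ∪ B) t) s X j = bf M.Φ M.ε (ba M B t) s (M.st B s Z) j := by
        unfold bf
        rw [hXB j hj]
        have hiff : ba M (A ∪ B) t j ≤ s ↔ ba M B t j ≤ s := by
          rw [ba_le_iff M hs.2, ba_le_iff M hs.2]
          simp [hj]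
        by_cases hb : ba M B t j ≤ s
        swap
        · rw [if_neg hb, if_neg fun h => hb (hiff.1 h)]
        rw [if_pos hb, if_pos (hiff.2 hb)]
        have hb' := (ba_le_iff M hs.2).1 hb
        congr 2
        refine Finset.sum_congr rfl fun k _ => ?_
        by_cases hkA : k ∈ A
        · have hkB : k ∉ B := Finset.disjoint_left.1 hAB hkA
          rw [if_neg fun h => hkB ((ba_le_iff M hs.2).1 h).1.1]
          by_cases hk : ba M (A ∪ B) t k ≤ s
          swap
          · rw [if_neg hk]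
          rw [if_pos hk, hXA k hkA]
          have hk' := (ba_le_iff M hs.2).1 hk
          refine grad_far hΦ hε ?_
          rw [dist_comm]
          exact hfar s hs k hkA j hb'.1.1 hk'.1.2 hb'.1.2 hk'.2 hb'.2
        · have hiffk : ba M (A ∪ B) t k ≤ s ↔ ba M B t k ≤ s := by
            rw [ba_le_iff M hs.2, ba_le_iff M hs.2]
            simp [hkA]
          rw [hXB k hkA]
          by_cases hk : ba M B t k ≤ s
          · rw [if_pos hk, if_pos (hiffk.2 hk)]
          · rw [if_neg hk, if_neg fun h => hk (hiffk.1 h)]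
      rw [h2]
      exact h1
  dom s hs := by
    rcases (st_lworld hΦ hε hA 0).dom s hs with h | h
    · exact Or.inl h
    rcases (st_lworld hΦ hε hB 0).dom s hs with h' | h'
    · exact Or.inl h'
    refine Or.inr fun i j hij hi hj => ?_
    have hi' := (ba_le_iff M hs.2).1 hi
    have hj' := (ba_le_iff M hs.2).1 hj
    simp only
    by_cases hiA : i ∈ A
    · by_cases hjA : j ∈ A
      · rw [if_pos hiA, if_pos hjA]
        exact h i j hij ((ba_le_iff M hs.2).2 ⟨⟨hiA, hi'.1.2⟩, hi'.2⟩)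
          ((ba_le_iff M hs.2).2 ⟨⟨hjA, hj'.1.2⟩, hj'.2⟩)
      · rw [if_pos hiA, if_neg hjA]
        have hjB : j ∈ B := (Finset.mem_union.1 hj'.1.1).resolve_left hjA
        exact ne_of_le_dist hε (hfar s hs i hiA j hjB hi'.1.2 hj'.1.2 hi'.2 hj'.2)
    · have hiB : i ∈ B := (Finset.mem_union.1 hi'.1.1).resolve_left hiA
      by_cases hjA : j ∈ A
      · rw [if_neg hiA, if_pos hjA]
        exact (ne_of_le_dist hε (hfar s hs j hjA i hiB hj'.1.2 hi'.1.2 hj'.2 hi'.2)).symm
      · rw [if_neg hiA, if_neg hjA]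
        have hjB : j ∈ B := (Finset.mem_union.1 hj'.1.1).resolve_left hjA
        exact h' i j hij ((ba_le_iff M hs.2).2 ⟨⟨hiB, hi'.1.2⟩, hi'.2⟩)
          ((ba_le_iff M hs.2).2 ⟨⟨hjB, hj'.1.2⟩, hj'.2⟩)

/-- **Factorisation**, both sub-worlds ok: paths. -/
theorem st_union [DecidableEq J] {A B : Finset J} (hAB : Disjoint A B) {t : ℝ}
    {Z : J → PhasePoint} (hA : M.ok A t Z) (hB : M.ok B t Z)
    (hfar : ∀ s ∈ Ico 0 t, ∀ i ∈ A, ∀ j ∈ B, M.o ≠ some i → M.o ≠ some j → M.bb i ≤ s →
      M.bb j ≤ s → M.ε ≤ dist (M.st A s Z i).1 (M.st B s Z j).1) :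
    ∀ s ≤ t, (∀ i ∈ A, M.st (A ∪ B) s Z i = M.st A s Z i) ∧
      ∀ j ∈ B, M.st (A ∪ B) s Z j = M.st B s Z j := by
  intro s hs
  rcases le_total s 0 with h0 | h0
  · exact ⟨fun i _ => by rw [st_nonpos M h0, st_nonpos M h0],
      fun i _ => by rw [st_nonpos M h0, st_nonpos M h0]⟩
  have h := st_eq_of_lworldJ hΦ hε (union_lworld hΦ hε hAB hA hB hfar) (Z := Z) (fun j => by
    split_ifs <;> rw [st_nonpos M le_rfl, fl_zero]) s ⟨h0, hs⟩
  refine ⟨fun i hi => ?_, fun j hj => ?_⟩
  · rw [h i, if_pos hi]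
  · rw [h j, if_neg (Finset.disjoint_right.1 hAB hj)]

/-- Factorisation, both sub-worlds ok and strictly far: the union is ok. -/
theorem ok_union [DecidableEq J] {A B : Finset J} (hAB : Disjoint A B) {t : ℝ}
    {Z : J → PhasePoint} (hA : M.ok A t Z) (hB : M.ok B t Z)
    (hfar : ∀ s ∈ Ico 0 t, ∀ i ∈ A, ∀ j ∈ B, M.o ≠ some i → M.o ≠ some j → M.bb i ≤ s →
      M.bb j ≤ s → M.ε < dist (M.st A s Z i).1 (M.st B s Z j).1) :
    M.ok (A ∪ B) t Z := by
  have hst := st_union hΦ hε hAB hA hB fun s hs i hi j hj ho ho' hb hb' =>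
    (hfar s hs i hi j hj ho ho' hb hb').le
  intro i hi ho hb j hj ho' hji hbj
  have hm : M.bb i ∈ Ico 0 t := ⟨bb_nonneg M i, hb⟩
  obtain ⟨h1, h2⟩ := hst (M.bb i) hb.le
  rcases Finset.mem_union.1 hi with hiA | hiB
  · rw [h1 i hiA]
    rcases Finset.mem_union.1 hj with hjA | hjB
    · rw [h1 j hjA]
      exact hA i hiA ho hb j hjA ho' hji hbj
    · rw [h2 j hjB]
      exact hfar _ hm i hiA j hjB ho ho' le_rfl hbj
  · rw [h2 i hiB]
    rcases Finset.mem_union.1 hj with hjA | hjB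
    · rw [h1 j hjA, dist_comm]
      exact hfar _ hm j hjA i hiB ho' ho hbj le_rfl
    · rw [h2 j hjB]
      exact hB i hiB ho hb j hjB ho' hji hbj

/-- **Factorisation**: if the union is ok up to `t` and the two sub-worlds are far from each other
as long as both are ok, then both are ok up to `t` and have the paths of the union. -/
theorem fact [DecidableEq J] {A B : Finset J} (hAB : Disjoint A B) {t : ℝ} {Z : J → PhasePoint}
    (hok : M.ok (A ∪ B) t Z)
    (hfar : ∀ s ∈ Ico 0 t, M.ok A s Z → M.ok B s Z → ∀ i ∈ A, ∀ j ∈ B, M.o ≠ some i →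
      M.o ≠ some j → M.bb i ≤ s → M.bb j ≤ s → M.ε ≤ dist (M.st A s Z i).1 (M.st B s Z j).1) :
    M.ok A t Z ∧ M.ok B t Z ∧ ∀ s ≤ t, (∀ i ∈ A, M.st (A ∪ B) s Z i = M.st A s Z i) ∧
      ∀ j ∈ B, M.st (A ∪ B) s Z j = M.st B s Z j := by
  have key : M.ok A t Z ∧ M.ok B t Z := by
    by_contra hcon
    -- the first bad birth
    have hex : ∃ i, (Bad M A Z i ∨ Bad M B Z i) ∧ M.bb i < t := by
      rw [not_and_or] at hcon
      rcases hcon with h | h
      · obtain ⟨i, hi, hb, _⟩ := exists_first_bad M h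
        exact ⟨i, Or.inl hi, hb⟩
      · obtain ⟨i, hi, hb, _⟩ := exists_first_bad M h
        exact ⟨i, Or.inr hi, hb⟩
    obtain ⟨i₁, hi₁, hb₁⟩ := hex
    obtain ⟨i₀, hi₀, hmin⟩ := (Set.toFinite {i | Bad M A Z i ∨ Bad M B Z i}).exists_minimalFor
      M.bb _ ⟨i₁, hi₁⟩
    have hmin' : ∀ i, (Bad M A Z i ∨ Bad M B Z i) → M.bb i₀ ≤ M.bb i := by
      intro i hi
      rcases le_total (M.bb i) (M.bb i₀) with h1 | h1
      · exact hmin hi h1
      · exact h1
    have hr : M.bb i₀ < t := (hmin' i₁ hi₁).trans_lt hb₁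
    have hA : M.ok A (M.bb i₀) Z := ok_iff.2 fun i hi => hmin' i (Or.inl hi)
    have hB : M.ok B (M.bb i₀) Z := ok_iff.2 fun i hi => hmin' i (Or.inr hi)
    obtain ⟨h1, h2⟩ := st_union hΦ hε hAB hA hB (fun s hs i hi j hj ho ho' hb hb' =>
      hfar s ⟨hs.1, hs.2.trans hr⟩ (ok_anti hs.2.le hA) (ok_anti hs.2.le hB) i hi j hj ho ho'
        hb hb') (M.bb i₀) le_rfl
    rcases hi₀ with hi₀ | hi₀
    · obtain ⟨hi, ho, j, hj, ho', hji, hbj, hd⟩ := hi₀
      have := hok i₀ (Finset.mem_union_left _ hi) ho hr j (Finset.mem_union_left _ hj) ho' hji hbj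
      rw [h1 i₀ hi, h1 j hj] at this
      exact absurd hd (not_le.2 this)
    · obtain ⟨hi, ho, j, hj, ho', hji, hbj, hd⟩ := hi₀
      have := hok i₀ (Finset.mem_union_right _ hi) ho hr j (Finset.mem_union_right _ hj) ho' hji
        hbj
      rw [h2 i₀ hi, h2 j hj] at this
      exact absurd hd (not_le.2 this)
  exact ⟨key.1, key.2, st_union hΦ hε hAB key.1 key.2 fun s hs i hi j hj ho ho' hb hb' =>
    hfar s hs (ok_anti hs.2.le key.1) (ok_anti hs.2.le key.2) i hi j hj ho ho' hb hb'⟩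

/-! ### Energy bound -/

/-- Uniform speed bound. -/
def spd (Φ : Space3 → ℝ) (m : ℕ) (V : ℝ) : ℝ := Real.sqrt (m * (V ^ 2 + 2 * stabB Φ + 3))

omit hΦ hε in
theorem spd_nonneg (Φ : Space3 → ℝ) (m : ℕ) (V : ℝ) : 0 ≤ spd Φ m V := Real.sqrt_nonneg _

/-- **Speed bound**: independent of `ε`, of the births, of the sub-world and of the time. -/
theorem st_speed {A : Finset J} {t : ℝ} {Z : J → PhasePoint} (hok : M.ok A t Z) {V : ℝ}
    (hV : ∀ j, ‖(Z j).2‖ ≤ V) (i : J) : ‖(M.st A t Z i).2‖ ≤ spd M.Φ (Fintype.card J) V := by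
  have hV0 : 0 ≤ V := (norm_nonneg _).trans (hV i)
  have hB := stabB_nonneg M.Φ
  have hcard : (1 : ℝ) ≤ Fintype.card J := by
    have : 0 < Fintype.card J := Fintype.card_pos_iff.2 ⟨i⟩
    exact_mod_cast this
  have hfree : ‖(Z i).2‖ ≤ spd M.Φ (Fintype.card J) V := by
    refine Real.le_sqrt_of_sq_le ?_
    have h1 : ‖(Z i).2‖ ^ 2 ≤ V ^ 2 := pow_le_pow_left₀ (norm_nonneg _) (hV i) 2
    nlinarith [sq_nonneg V]
  by_cases hi : i ∈ M.mem A t
  swap
  · rw [st_of_not_mem M hi]
    exact hfree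
  have ht : 0 ≤ t := (bb_nonneg M i).trans (mem_mem.1 hi).2.2.le
  set B := M.mem A t with hBdef
  have hW := (bworld_of_ok hΦ hε hok).mono (t₁ := 0) (by norm_num)
  have hev : ∀ s ∈ Icc 0 t, ∀ j : B, ev M B s Z j = M.st A s Z j := fun s hs j =>
    (st_eq_ev_mem hΦ hε (by linarith [hs.1]) hs.2 Z j.2).symm
  have hS : SepBirths M.ε (fun j : B => M.bb j) t (fun s => ev M B s Z) := by
    refine ⟨fun j k hjk hj hk => ?_, fun j k hjk _ _ hbk => ?_⟩
    · have hj0 : M.bb j = 0 := le_antisymm hj (bb_nonneg M j)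
      rw [hev 0 ⟨le_rfl, ht⟩ j, hev 0 ⟨le_rfl, ht⟩ k]
      have := hok j (mem_mem.1 j.2).1 (mem_mem.1 j.2).2.1 (mem_mem.1 j.2).2.2 k (mem_mem.1 k.2).1
        (mem_mem.1 k.2).2.1 (fun h => hjk (Subtype.ext h.symm)) (by rw [hj0]; exact hk)
      rw [hj0] at this
      exact this.le
    · have hm : M.bb j ∈ Icc 0 t := ⟨bb_nonneg M j, (mem_mem.1 j.2).2.2.le⟩
      rw [hev _ hm j, hev _ hm k]
      exact (hok j (mem_mem.1 j.2).1 (mem_mem.1 j.2).2.1 (mem_mem.1 j.2).2.2 k (mem_mem.1 k.2).1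
        (mem_mem.1 k.2).2.1 (fun h => hjk (Subtype.ext h.symm)) hbk).le
  have h1 := total_sq_leB hΦ hε hW hS ht le_rfl
  have h2 : 1 + ‖(ev M B t Z ⟨i, hi⟩).2‖ ^ 2 ≤ ∑ j : B, (1 + ‖(ev M B t Z j).2‖ ^ 2) :=
    Finset.single_le_sum (f := fun j : B => 1 + ‖(ev M B t Z j).2‖ ^ 2)
      (fun j _ => by positivity) (Finset.mem_univ _)
  have h3 : ∑ j : B, ((1 / 2) * ‖(ev M B 0 Z j).2‖ ^ 2 + (stabB M.Φ + 3 / 2)) ≤
      ∑ _j : B, ((1 / 2) * V ^ 2 + (stabB M.Φ + 3 / 2)) := by
    refine Finset.sum_le_sum fun j _ => ?_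
    rw [hev 0 ⟨le_rfl, ht⟩ j, st_nonpos M le_rfl, fl_zero]
    have := pow_le_pow_left₀ (norm_nonneg _) (hV j) 2
    linarith
  rw [Finset.sum_const, nsmul_eq_mul] at h3
  have h4 : ((Finset.univ : Finset B).card : ℝ) ≤ Fintype.card J := by
    have : (Finset.univ : Finset B).card ≤ Fintype.card J := by
      rw [Finset.card_univ, Fintype.card_coe]
      exact Finset.card_le_univ B
    exact_mod_cast this
  have h5 : ((Finset.univ : Finset B).card : ℝ) * ((1 / 2) * V ^ 2 + (stabB M.Φ + 3 / 2)) ≤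
      Fintype.card J * ((1 / 2) * V ^ 2 + (stabB M.Φ + 3 / 2)) :=
    mul_le_mul_of_nonneg_right h4 (by positivity)
  rw [st_of_mem M hi]
  refine Real.le_sqrt_of_sq_le ?_
  linarith

/-- **Lipschitz bound** in time. -/
theorem st_lipschitz {A : Finset J} {t : ℝ} {Z : J → PhasePoint} (hok : M.ok A t Z) {V : ℝ}
    (hV : ∀ j, ‖(Z j).2‖ ≤ V) (i : J) {s : ℝ} (hs : s ≤ t) :
    dist (M.st A s Z i).1 (M.st A t Z i).1 ≤ spd M.Φ (Fintype.card J) V * (t - s) := by
  have hW := st_lworld hΦ hε hok s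
  have h := norm_image_sub_le_of_norm_deriv_right_le_segment (f := fun r => (M.st A r Z i).1)
    (f' := fun r => (M.st A r Z i).2) (a := s) (b := t) (C := spd M.Φ (Fintype.card J) V)
    (hW.cont_apply i).fst (fun r hr => ?_)
    (fun r hr => st_speed hΦ hε (ok_anti hr.2.le hok) hV i) t ⟨hs, le_rfl⟩
  · rw [dist_comm, dist_eq_norm]
    exact h
  · have h2 := (hasDerivWithinAt_pi.1 (hW.der r hr)) i
    exact h2.fst

end worlds

end Crest.Agent.R122.VLInst442

end
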