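import Mathlib
import Crest.Prelude.Def_KineticLimit
import Crest.Agent.R122.VLInstC_442

/-!
# Row 122, D3, instance layer of `VLDefs_581` (helper442), part D

* `Mem M A` : the members of `A` which are not the obstacle.
* `lworld_of_ok`, `st_eq_of_lworldM` : worlds over `Mem M A`.
* `ok_of_lworld` : two-world comparison (continuation of a sub-world by a candidate).
* `st_map`, `ok_map`, `pos_map`, `Ct_map`, `VCt_map` : relabelling (restriction of a system).
-/

set_option autoImplicit false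
set_option linter.unusedSectionVars false

open MeasureTheory Set Filter Topology
open scoped NNReal ENNReal
open Crest.AnalysisR.Kinetic
open Crest.Agent.R122.Flow671 Crest.Agent.R122.Loc45 Crest.Agent.R122.Ins45
open Crest.Agent.R122.VL581 Crest.Agent.R122.VL581.VSys

noncomputable section

namespace Crest.Agent.R122.VLInst442

/-- Extension of a local world over a sub-family by free particles (embedding version). -/
theorem lworld_ext {ι κ : Type*} [Fintype ι] [Fintype κ] {Φ : Space3 → ℝ} {ε : ℝ} (e : κ ↪ ι)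
    {c : κ → ℝ} {a T : ℝ} {Y : ℝ → κ → PhasePoint} (hY : LWorld Φ ε c a T Y) {b : ι → ℝ}
    (hb : ∀ k, ∀ s ∈ Ico a T, (b (e k) ≤ s ↔ c k ≤ s))
    (hb' : ∀ i, (∀ k, e k ≠ i) → T ≤ b i)
    {X : ℝ → ι → PhasePoint} (hXe : ∀ s ∈ Icc a T, ∀ k, X s (e k) = Y s k) {Z : ι → PhasePoint}
    (hX : ∀ i, (∀ k, e k ≠ i) → ∀ s ∈ Icc a T, X s i = fl s (Z i)) : LWorld Φ ε b a T X where
  cont := by
    classical
    refine continuousOn_pi.2 fun i => ?_
    by_cases hi : ∃ k, e k = i
    · obtain ⟨k, rfl⟩ := hi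
      exact (hY.cont_apply k).congr fun s hs => hXe s hs k
    · push Not at hi
      exact (continuous_fl (Z i)).continuousOn.congr fun s hs => hX i hi s hs
  der s hs := by
    classical
    have hs' : s ∈ Icc a T := ⟨hs.1, hs.2.le⟩
    have hnb : Icc s T ∈ 𝓝[≥] s := Icc_mem_nhdsGE hs.2
    rw [hasDerivWithinAt_pi]
    intro i
    by_cases hi : ∃ k, e k = i
    · obtain ⟨k, rfl⟩ := hi
      have h1 := (hasDerivWithinAt_pi.1 (hY.der s hs)) k
      have h2 : bf Φ ε b s (X s) (e k) = bf Φ ε c s (Y s) k := by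
        unfold bf
        rw [hXe s hs' k]
        by_cases hcs : c k ≤ s
        swap
        · rw [if_neg hcs, if_neg fun h => hcs ((hb k s hs).1 h)]
        rw [if_pos hcs, if_pos ((hb k s hs).2 hcs)]
        congr 2
        symm
        have h3 : ∀ k' : κ, (if c k' ≤ s then gradient Φ ((1 / ε) • ((Y s k).1 - (Y s k').1))
            else 0) = (fun i : ι => if b i ≤ s then
              gradient Φ ((1 / ε) • ((Y s k).1 - (X s i).1)) else 0) (e k') := by
          intro k'
          simp only [hXe s hs' k']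
          by_cases hk : c k' ≤ s
          · rw [if_pos hk, if_pos ((hb k' s hs).2 hk)]
          · rw [if_neg hk, if_neg fun h => hk ((hb k' s hs).1 h)]
        rw [Finset.sum_congr rfl fun k' _ => h3 k']
        rw [← Finset.sum_subset (Finset.subset_univ (Finset.univ.map e)), Finset.sum_map]
        intro i _ hi
        refine if_neg (not_le.2 (hs.2.trans_le (hb' i fun k' h => hi ?_)))
        rw [← h]
        simp
      rw [h2]
      refine h1.congr_of_eventuallyEq ?_ (hXe s hs' k)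
      filter_upwards [hnb] with u hu
      exact hXe u ⟨hs.1.trans hu.1, hu.2⟩ k
    · push Not at hi
      rw [bf_of_unborn Φ ε _ (hs.2.trans_le (hb' i hi)), hX i hi s hs']
      refine (hasDerivAt_fl (Z i) s).hasDerivWithinAt.congr_of_eventuallyEq ?_ (hX i hi s hs')
      filter_upwards [hnb] with u hu
      exact hX i hi u ⟨hs.1.trans hu.1, hu.2⟩
  dom s hs := by
    have hs' : s ∈ Icc a T := ⟨hs.1, hs.2.le⟩
    refine (hY.dom s hs).imp id fun h i j hij hi hj => ?_
    have hi' : ∃ k, e k = i := by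
      by_contra hcon
      push Not at hcon
      exact absurd (hs.2.trans_le (hb' i hcon)) (not_lt.2 hi)
    have hj' : ∃ k, e k = j := by
      by_contra hcon
      push Not at hcon
      exact absurd (hs.2.trans_le (hb' j hcon)) (not_lt.2 hj)
    obtain ⟨k, rfl⟩ := hi'
    obtain ⟨l, rfl⟩ := hj'
    rw [hXe s hs' k, hXe s hs' l]
    exact h k l (fun h => hij (by rw [h])) ((hb k s hs).1 hi) ((hb l s hs).1 hj)

variable {J κ : Type} [Fintype J]

/-- The members of `A` which are not the obstacle. -/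
abbrev Mem (M : VSys J κ) (A : Finset J) : Type := {i : J // i ∈ A ∧ M.o ≠ some i}

instance (M : VSys J κ) (A : Finset J) : Fintype (Mem M A) := by
  classical
  exact Subtype.fintype _

/-- Inclusion. -/
def memE (M : VSys J κ) (A : Finset J) : Mem M A ↪ J := Function.Embedding.subtype _

@[simp] theorem memE_apply (M : VSys J κ) (A : Finset J) (i : Mem M A) : memE M A i = i := rfl

variable {M : VSys J κ}

theorem not_mem_range {A : Finset J} {j : J} (h : ∀ k, memE M A k ≠ j) :
    ¬ (j ∈ A ∧ M.o ≠ some j) := fun h' => h ⟨j, h'⟩ rfl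

section worlds

variable (hΦ : AdmissiblePotential M.Φ) (hε : 0 < M.ε)
include hΦ hε

/-- **The paths of an ok sub-world** are a local world with births over its members. -/
theorem lworld_of_ok {A : Finset J} {t : ℝ} {Z : J → PhasePoint} (hok : M.ok A t Z) (a : ℝ) :
    LWorld M.Φ M.ε (fun i : Mem M A => M.bb i) a t (fun s i => M.st A s Z i) := by
  have h := (st_lworld hΦ hε hok a).restrict hΦ hε (memE M A) fun s hs k _ j hj hbj =>
    absurd ((ba_le_iff M hs.2).1 hbj).1 (not_mem_range hj)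
  refine h.congr_births fun i s hs => ?_
  rw [memE_apply, ba_of_mem M i.2.1 i.2.2]

/-- Uniqueness over the whole index set, from a nonpositive time. -/
theorem st_eq_of_lworldJ' {A : Finset J} {a t : ℝ} (ha : a ≤ 0) {Z : J → PhasePoint}
    {X : ℝ → J → PhasePoint} (hX : LWorld M.Φ M.ε (ba M A t) a t X)
    (h0 : ∀ j, X a j = fl a (Z j)) : ∀ s ∈ Icc a t, ∀ j, M.st A s Z j = X s j := by
  have hfree : ∀ s ∈ Icc a t, s ≤ 0 → ∀ j, X s j = fl s (Z j) := by
    intro s hs hs0 j
    rw [hX.free_of_unborn le_rfl hs.1 hs.2 (hs0.trans (ba_nonneg M A t j)), h0]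
    unfold fl
    refine Prod.ext ?_ rfl
    simp only
    rw [add_assoc, ← add_smul]
    congr 2
    ring
  intro s hs j
  rcases le_total s 0 with h | h
  · rw [st_nonpos M h, hfree s hs h]
  · refine st_eq_of_lworldJ hΦ hε (hX.mono ha le_rfl) (fun j => ?_) s ⟨h, hs.2⟩ j
    rw [hfree 0 ⟨ha, h.trans hs.2⟩ le_rfl, fl_zero]

/-- Uniqueness over the members, from a nonpositive time. -/
theorem st_eq_of_lworldM {A : Finset J} {a t : ℝ} (ha : a ≤ 0) {Z : J → PhasePoint}
    {X : ℝ → Mem M A → PhasePoint} (hX : LWorld M.Φ M.ε (fun i : Mem M A => M.bb i) a t X)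
    (h0 : ∀ j, X a j = fl a (Z j)) : ∀ s ∈ Icc a t, ∀ j : Mem M A, M.st A s Z j = X s j := by
  classical
  set X' : ℝ → J → PhasePoint := fun s j => if h : j ∈ A ∧ M.o ≠ some j then X s ⟨j, h⟩
    else fl s (Z j) with hX'
  have h1 : LWorld M.Φ M.ε (ba M A t) a t X' := by
    refine lworld_ext (memE M A) hX (fun k s _ => ?_) (fun j hj => ?_) (fun s _ k => ?_) (Z := Z)
      (fun j hj s _ => ?_)
    · rw [memE_apply, ba_of_mem M k.2.1 k.2.2]
    · rw [ba_of_not_mem M (not_mem_range hj)]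
      exact le_max_left _ _
    · simp only [hX', memE_apply]
      rw [dif_pos k.2]
    · simp only [hX']
      rw [dif_neg (not_mem_range hj)]
  intro s hs j
  have h3 : ∀ j, X' a j = fl a (Z j) := by
    intro j
    simp only [hX']
    by_cases h : j ∈ A ∧ M.o ≠ some j
    · rw [dif_pos h, h0]
    · rw [dif_neg h]
  rw [st_eq_of_lworldJ' hΦ hε ha h1 h3 s hs j]
  simp only [hX']
  rw [dif_pos j.2]

/-- **Two-world comparison.** If a candidate `Y` solves the equations with births of the sub-world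
`A` on `[a, t]`, starts at time `a` from the state of the sub-world, which is ok up to `a`, and its
births in `[a, t)` are at distance more than `ε`, then the sub-world is ok up to `t` and its paths
are the candidates. -/
theorem ok_of_lworld {A : Finset J} {a t : ℝ} (hat : a ≤ t) {Z : J → PhasePoint}
    {Y : ℝ → Mem M A → PhasePoint} (hY : LWorld M.Φ M.ε (fun i : Mem M A => M.bb i) a t Y)
    (hok : M.ok A a Z) (h0 : ∀ i : Mem M A, Y a i = M.st A a Z i)
    (hsep : ∀ i j : Mem M A, j ≠ i → a ≤ M.bb i → M.bb i < t → M.bb j ≤ M.bb i →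
      M.ε < dist (Y (M.bb i) i).1 (Y (M.bb i) j).1) :
    M.ok A t Z ∧ ∀ s ∈ Icc a t, ∀ i : Mem M A, M.st A s Z i = Y s i := by
  classical
  set a₀ : ℝ := min a 0 with ha₀
  have ha₀a : a₀ ≤ a := min_le_left _ _
  set X : ℝ → Mem M A → PhasePoint := fun s i => if s ≤ a then M.st A s Z i else Y s i with hX
  have hXY : ∀ s ∈ Icc a t, X s = Y s := by
    intro s hs
    funext i
    simp only [hX]
    rcases hs.1.eq_or_lt with h | h
    · subst h
      rw [if_pos le_rfl, h0]
    · rw [if_neg (not_le.2 h)]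
  have hXs : ∀ s ∈ Icc a₀ a, X s = fun i : Mem M A => M.st A s Z i := by
    intro s hs
    funext i
    simp only [hX]
    rw [if_pos hs.2]
  have h1 : LWorld M.Φ M.ε (fun i : Mem M A => M.bb i) a₀ t X :=
    LWorld.glue ha₀a hat ((lworld_of_ok hΦ hε hok a₀).congr hXs) (hY.congr hXY)
  have h2 := st_eq_of_lworldM hΦ hε (min_le_right a 0) h1 (Z := Z) (fun j => by
    rw [hXs a₀ ⟨le_rfl, ha₀a⟩]
    exact st_nonpos M (min_le_right _ _) Z)
  have h3 : ∀ s ∈ Icc a t, ∀ i : Mem M A, M.st A s Z i = Y s i := by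
    intro s hs i
    rw [h2 s ⟨ha₀a.trans hs.1, hs.2⟩ i, hXY s hs]
  refine ⟨fun i hi ho hb j hj ho' hji hbj => ?_, h3⟩
  rcases lt_or_ge (M.bb i) a with h | h
  · exact hok i hi ho h j hj ho' hji hbj
  · have h4 := h3 (M.bb i) ⟨h, hb.le⟩
    rw [h4 ⟨i, hi, ho⟩, h4 ⟨j, hj, ho'⟩]
    exact hsep ⟨i, hi, ho⟩ ⟨j, hj, ho'⟩ (fun h' => hji (congrArg Subtype.val h')) h hb hbj

end worlds

/-! ### Relabelling -/

section relabel

variable {J' : Type} [Fintype J'] {M' : VSys J' κ} {e : J' ↪ J}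

/-- `M'` is the restriction of the system `M` along the embedding `e`. -/
structure IsSub (M' : VSys J' κ) (M : VSys J κ) (e : J' ↪ J) : Prop where
  Φ : M'.Φ = M.Φ
  T : M'.T = M.T
  ε : M'.ε = M.ε
  b : ∀ k, M'.b k = M.b (e k)
  o : ∀ k, M'.o = some k ↔ M.o = some (e k)
  S : M'.S = M.S

theorem IsSub.bb (h : IsSub M' M e) (k : J') : M'.bb k = M.bb (e k) := by
  unfold VSys.bb
  rw [h.b]

theorem IsSub.mem (h : IsSub M' M e) {A' : Finset J'} {t : ℝ} {k : J'} :
    k ∈ M'.mem A' t ↔ e k ∈ M.mem (A'.map e) t := by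
  rw [mem_mem, mem_mem, h.bb, ne_eq, h.o]
  simp

theorem st_map (h : IsSub M' M e) (hΦ : AdmissiblePotential M.Φ) (hε : 0 < M.ε)
    {A' : Finset J'} {t : ℝ} {Z : J → PhasePoint} (k : J') :
    M'.st A' t (fun k => Z (e k)) k = M.st (A'.map e) t Z (e k) := by
  by_cases hk : k ∈ M'.mem A' t
  · have hk' : e k ∈ M.mem (A'.map e) t := h.mem.1 hk
    have ht : -1 ≤ t := by linarith [bb_nonneg M' k, (mem_mem.1 hk).2.2]
    rw [st_of_mem M' hk, st_of_mem M hk']
    let f : M'.mem A' t ↪ M.mem (A'.map e) t := ⟨fun j => ⟨e j, h.mem.1 j.2⟩, fun i j hij =>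
      Subtype.ext (e.injective (congrArg Subtype.val hij))⟩
    have h1 := evo_emb hΦ hε f (b := fun j : M.mem (A'.map e) t => M.bb j) ht
      (fun i hi => by
        exfalso
        obtain ⟨j, hj, hji⟩ := Finset.mem_map.1 (mem_mem.1 i.2).1
        have hj' : j ∈ M'.mem A' t := h.mem.2 (by rw [hji]; exact i.2)
        exact hi ⟨j, hj'⟩ (Subtype.ext hji))
      (fun j => ((Z j).1 - (Z j).2, (Z j).2)) ⟨k, hk⟩
    unfold ev
    rw [h.Φ, h.ε]
    have h2 : (fun j : M'.mem A' t => M'.bb j) = fun j : M'.mem A' t => M.bb (f j) := by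
      funext j
      exact h.bb j
    rw [h2]
    exact h1.symm
  · have hk' : e k ∉ M.mem (A'.map e) t := fun h' => hk (h.mem.2 h')
    rw [st_of_not_mem M' hk, st_of_not_mem M hk']

theorem ok_map (h : IsSub M' M e) (hΦ : AdmissiblePotential M.Φ) (hε : 0 < M.ε)
    {A' : Finset J'} {t : ℝ} {Z : J → PhasePoint} :
    M'.ok A' t (fun k => Z (e k)) ↔ M.ok (A'.map e) t Z := by
  constructor
  · intro hok i hi ho hb j hj ho' hji hbj
    obtain ⟨k, hk, rfl⟩ := Finset.mem_map.1 hi
    obtain ⟨l, hl, rfl⟩ := Finset.mem_map.1 hj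
    have := hok k hk (fun h' => ho ((h.o k).1 h')) (by rw [h.bb]; exact hb) l hl
      (fun h' => ho' ((h.o l).1 h')) (fun h' => hji (by rw [h'])) (by rw [h.bb, h.bb]; exact hbj)
    rwa [h.bb, st_map h hΦ hε, st_map h hΦ hε, h.ε] at this
  · intro hok k hk ho hb l hl ho' hlk hbl
    have := hok (e k) (Finset.mem_map_of_mem e hk) (fun h' => ho ((h.o k).2 h'))
      (by rw [← h.bb]; exact hb) (e l) (Finset.mem_map_of_mem e hl)
      (fun h' => ho' ((h.o l).2 h')) (fun h' => hlk (e.injective h'))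
      (by rw [← h.bb, ← h.bb]; exact hbl)
    rw [h.bb, st_map h hΦ hε, st_map h hΦ hε, h.ε]
    exact this

theorem pos_map (h : IsSub M' M e) (hΦ : AdmissiblePotential M.Φ) (hε : 0 < M.ε)
    {A' : Finset J'} {k : κ} {t : ℝ} {Z : J → PhasePoint} (i : J') :
    M'.pos A' k t (fun k => Z (e k)) i = M.pos (A'.map e) k t Z (e i) := by
  unfold VSys.pos
  by_cases hi : M'.o = some i
  · rw [if_pos hi, if_pos ((h.o i).1 hi), h.S, h.T]
  · rw [if_neg hi, if_neg fun h' => hi ((h.o i).2 h'), st_map h hΦ hε]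

theorem Ct_map (h : IsSub M' M e) (hΦ : AdmissiblePotential M.Φ) (hε : 0 < M.ε) {C : ℝ}
    {A' B' : Finset J'} {k l : κ} {i j : J'} {t : ℝ} {Z : J → PhasePoint} :
    M'.Ct C A' k i B' l j t (fun k => Z (e k)) ↔
      M.Ct C (A'.map e) k (e i) (B'.map e) l (e j) t Z := by
  unfold VSys.Ct
  rw [ok_map h hΦ hε, ok_map h hΦ hε, pos_map h hΦ hε, pos_map h hΦ hε, h.S, h.ε, h.o, h.o]
  simp

theorem VCt_map (h : IsSub M' M e) (hΦ : AdmissiblePotential M.Φ) (hε : 0 < M.ε) {C : ℝ}
    {P' : Finset J'} {i j : J'} {t : ℝ} {Z : J → PhasePoint} :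
    M'.VCt C P' i j t (fun k => Z (e k)) ↔ M.VCt C (P'.map e) (e i) (e j) t Z := by
  classical
  unfold VSys.VCt
  constructor
  · rintro ⟨A, hA, B, hB, k, l, hc⟩
    exact ⟨A.map e, Finset.map_subset_map.2 hA, B.map e, Finset.map_subset_map.2 hB, k, l,
      (Ct_map h hΦ hε).1 hc⟩
  · rintro ⟨A, hA, B, hB, k, l, hc⟩
    obtain ⟨A', hA', rfl⟩ := Finset.subset_map_iff.1 hA
    obtain ⟨B', hB', rfl⟩ := Finset.subset_map_iff.1 hB
    exact ⟨A', hA', B', hB', k, l, (Ct_map h hΦ hε).2 hc⟩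

end relabel

end Crest.Agent.R122.VLInst442

end
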