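import Mathlib
import Crest.Prelude.Def_KineticLimit
import Crest.Agent.R122.VLInstD_442

/-!
# Row 122, D3 (helper442): the Kruskal lemma for a `VSys`

* `VTr M C Z P s` : `P` is virtually connected up to time `s` by successive merges in the order of
  the first virtual contact.
* `vtr_of_conn` : `Conn C P Z → VTr M C Z P M.T`, for `1 ≤ C`.
* `Conn_mono` : monotonicity in `C`.
-/

set_option autoImplicit false
set_option linter.unusedSectionVars false

open MeasureTheory Set Filter Topology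
open scoped NNReal ENNReal
open Crest.AnalysisR.Kinetic
open Crest.Agent.R122.VL581 Crest.Agent.R122.VL581.VSys

noncomputable section

namespace Crest.Agent.R122.VLInst442

variable {J κ : Type} [Fintype J] {M : VSys J κ}

/-! ### Monotonicity -/

theorem Ct_monoC (hε : 0 < M.ε) {C C' : ℝ} (h : C ≤ C') {A B : Finset J} {k l : κ} {i j : J}
    {t : ℝ} {Z : J → PhasePoint} (hc : M.Ct C A k i B l j t Z) : M.Ct C' A k i B l j t Z :=
  ⟨hc.1, hc.2.1, hc.2.2.1, hc.2.2.2.1, hc.2.2.2.2.1, hc.2.2.2.2.2.1,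
    hc.2.2.2.2.2.2.trans (mul_le_mul_of_nonneg_right h hε.le)⟩

theorem VCt_monoC (hε : 0 < M.ε) {C C' : ℝ} (h : C ≤ C') {P : Finset J} {i j : J} {t : ℝ}
    {Z : J → PhasePoint} (hc : M.VCt C P i j t Z) : M.VCt C' P i j t Z := by
  obtain ⟨A, hA, B, hB, k, l, hc⟩ := hc
  exact ⟨A, hA, B, hB, k, l, Ct_monoC hε h hc⟩

theorem Conn_monoC (hε : 0 < M.ε) {C C' : ℝ} (h : C ≤ C') {P : Finset J} {Z : J → PhasePoint}
    (hc : M.Conn C P Z) : M.Conn C' P Z := by
  refine ⟨hc.1, fun Q hQ hQ' hQP => ?_⟩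
  obtain ⟨i, hi, j, hj, t, ht, hv⟩ := hc.2 Q hQ hQ' hQP
  exact ⟨i, hi, j, hj, t, ht, VCt_monoC hε h hv⟩

theorem VCt_mono {C : ℝ} {P Q : Finset J} (hPQ : P ⊆ Q) {i j : J} {t : ℝ}
    {Z : J → PhasePoint} (hc : M.VCt C P i j t Z) : M.VCt C Q i j t Z := by
  obtain ⟨A, hA, B, hB, k, l, hc⟩ := hc
  exact ⟨A, hA.trans hPQ, B, hB.trans hPQ, k, l, hc⟩

/-- Ordered merges. -/
inductive VTr [DecidableEq J] (M : VSys J κ) (C : ℝ) (Z : J → PhasePoint) : Finset J → ℝ → Prop
  | single (i : J) (s : ℝ) : VTr M C Z {i} s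
  | merge {P Q A B : Finset J} {k l : κ} {i j : J} {s : ℝ} (hP : VTr M C Z P s)
      (hQ : VTr M C Z Q s) (hd : Disjoint P Q) (hA : A ⊆ P) (hB : B ⊆ Q)
      (hc : M.Ct C A k i B l j s Z) (hs : s ∈ Icc 0 M.T)
      (hno : ∀ u ∈ Ico 0 s, ∀ a ∈ P, ∀ b ∈ Q, ¬ M.VCt C (P ∪ Q) a b u Z) : VTr M C Z (P ∪ Q) s
  | mono {P : Finset J} {s s' : ℝ} (h : VTr M C Z P s) (hss : s ≤ s') : VTr M C Z P s'

/-- The set of contact times of two labels is closed. -/
theorem isClosed_Ct (hΦ : AdmissiblePotential M.Φ) (hε : 0 < M.ε) (hT : 0 ≤ M.T)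
    (hc : ∀ k, ContinuousOn (M.S.c k) (Icc 0 M.T)) (C : ℝ) (A B : Finset J) (k l : κ) (i j : J)
    (Z : J → PhasePoint) : IsClosed {s | s ∈ Icc 0 M.T ∧ M.Ct C A k i B l j s Z} := by
  by_cases hi : i ∈ A
  swap
  · have : {s | s ∈ Icc 0 M.T ∧ M.Ct C A k i B l j s Z} = ∅ := by
      ext s
      simp only [mem_ofPred_eq, mem_empty_iff_false, iff_false]
      exact fun h => hi h.2.1
    rw [this]
    exact isClosed_empty
  by_cases hj : j ∈ B
  swap
  · have : {s | s ∈ Icc 0 M.T ∧ M.Ct C A k i B l j s Z} = ∅ := by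
      ext s
      simp only [mem_ofPred_eq, mem_empty_iff_false, iff_false]
      exact fun h => hj h.2.2.1
    rw [this]
    exact isClosed_empty
  set F : Set ℝ := Icc 0 M.T ∩ ({t | M.ok A t Z} ∩ {t | M.ok B t Z}) ∩
    ({t | M.o = some i → t ≤ M.S.b k} ∩ {t | M.o = some j → t ≤ M.S.b l}) with hF
  have hFc : IsClosed F := by
    refine (isClosed_Icc.inter ((isClosed_ok M A Z).inter (isClosed_ok M B Z))).inter
      (IsClosed.inter ?_ ?_)
    · by_cases h : M.o = some i
      · have : {t : ℝ | M.o = some i → t ≤ M.S.b k} = Iic (M.S.b k) := by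
          ext t; simp [h]
        rw [this]; exact isClosed_Iic
      · have : {t : ℝ | M.o = some i → t ≤ M.S.b k} = univ := by
          ext t; simp [h]
        rw [this]; exact isClosed_univ
    · by_cases h : M.o = some j
      · have : {t : ℝ | M.o = some j → t ≤ M.S.b l} = Iic (M.S.b l) := by
          ext t; simp [h]
        rw [this]; exact isClosed_Iic
      · have : {t : ℝ | M.o = some j → t ≤ M.S.b l} = univ := by
          ext t; simp [h]
        rw [this]; exact isClosed_univ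
  have hpos : ∀ (D : Finset J) (m : κ) (a : J), F ⊆ {t | M.ok D t Z} →
      ContinuousOn (fun t => M.pos D m t Z a) F := by
    intro D m a hD
    by_cases h : M.o = some a
    · have : (fun t => M.pos D m t Z a) = fun t => (Z a).1 + M.S.c m (max 0 (min t M.T)) := by
        funext t
        unfold VSys.pos
        rw [if_pos h]
      rw [this]
      refine continuousOn_const.add ?_
      refine (hc m).comp (by fun_prop) fun t _ => ⟨le_max_left _ _, max_le hT (min_le_right _ _)⟩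
    · have : (fun t => M.pos D m t Z a) = fun t => (M.st D t Z a).1 := by
        funext t
        unfold VSys.pos
        rw [if_neg h]
      rw [this]
      exact ((st_continuousOn hΦ hε D Z a).mono hD).fst
  have hd : ContinuousOn (fun t => dist (M.pos A k t Z i) (M.pos B l t Z j)) F :=
    continuous_dist.comp_continuousOn
      ((hpos A k i fun t ht => ht.1.2.1).prodMk (hpos B l j fun t ht => ht.1.2.2))
  have hset : {s | s ∈ Icc 0 M.T ∧ M.Ct C A k i B l j s Z} =
      F ∩ (fun t => dist (M.pos A k t Z i) (M.pos B l t Z j)) ⁻¹' Iic (C * M.ε) := by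
    ext s
    simp only [hF, VSys.Ct, mem_ofPred_eq, mem_inter_iff, mem_preimage, mem_Iic]
    constructor
    · rintro ⟨h1, _, _, h2, h3, h4, h5, h6⟩
      exact ⟨⟨⟨h1, h2, h3⟩, h4, h5⟩, h6⟩
    · rintro ⟨⟨⟨h1, h2, h3⟩, h4, h5⟩, h6⟩
      exact ⟨h1, hi, hj, h2, h3, h4, h5, h6⟩
  rw [hset]
  exact hd.preimage_isClosed_of_isClosed hFc isClosed_Iic

/-- Restriction to a block. -/
theorem restrict_block [DecidableEq J] (hΦ : AdmissiblePotential M.Φ) (hε : 0 < M.ε) {C : ℝ}
    (hC : 1 ≤ C) {P K : Finset J} {s : ℝ} {Z : J → PhasePoint} (k₀ : κ)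
    (hno : ∀ u ∈ Ico 0 s, ∀ a ∈ P, a ∈ K → ∀ b ∈ P, b ∉ K → ¬ M.VCt C P a b u Z)
    {A : Finset J} (hA : A ⊆ P) (hok : M.ok A s Z) :
    M.ok (A.filter (· ∈ K)) s Z ∧ ∀ i ∈ A, i ∈ K →
      M.st A s Z i = M.st (A.filter (· ∈ K)) s Z i := by
  have hun : A.filter (· ∈ K) ∪ A.filter (fun k => ¬ k ∈ K) = A :=
    Finset.filter_union_filter_not_eq _ _
  have hdis : Disjoint (A.filter (· ∈ K)) (A.filter (fun k => ¬ k ∈ K)) :=
    Finset.disjoint_filter_filter_not _ _ _
  have h := fact hΦ hε hdis (t := s) (Z := Z) (by rw [hun]; exact hok) ?_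
  · refine ⟨h.1, fun i hi hiK => ?_⟩
    have h2 := (h.2.2 s le_rfl).1 i (Finset.mem_filter.2 ⟨hi, hiK⟩)
    rwa [hun] at h2
  · intro u hu hokA hokB a ha b hb hoa hob hba hbb
    have ha' := Finset.mem_filter.1 ha
    have hb' := Finset.mem_filter.1 hb
    by_contra hcon
    rw [not_le] at hcon
    refine hno u hu a (hA ha'.1) ha'.2 b (hA hb'.1) hb'.2
      ⟨_, (Finset.filter_subset _ _).trans hA, _, (Finset.filter_subset _ _).trans hA, k₀, k₀,
        ha, hb, hokA, hokB, fun h => absurd h hoa, fun h => absurd h hob, ?_⟩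
    have h1 : M.pos (A.filter (· ∈ K)) k₀ u Z a = (M.st (A.filter (· ∈ K)) u Z a).1 := by
      unfold VSys.pos
      rw [if_neg hoa]
    have h2 : M.pos (A.filter fun k => ¬ k ∈ K) k₀ u Z b =
        (M.st (A.filter fun k => ¬ k ∈ K) u Z b).1 := by
      unfold VSys.pos
      rw [if_neg hob]
    rw [h1, h2]
    nlinarith

theorem pos_block {K : Finset J} [DecidableEq J] {s : ℝ} {Z : J → PhasePoint}
    {A : Finset J} (h : ∀ i ∈ A, i ∈ K → M.st A s Z i = M.st (A.filter (· ∈ K)) s Z i) {i : J}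
    (hi : i ∈ A) (hiK : i ∈ K) (k : κ) :
    M.pos A k s Z i = M.pos (A.filter (· ∈ K)) k s Z i := by
  unfold VSys.pos
  rw [h i hi hiK]

section kruskal

variable [DecidableEq J] [Finite κ] (hΦ : AdmissiblePotential M.Φ) (hε : 0 < M.ε)
  (hT : 0 ≤ M.T) (hcont : ∀ k, ContinuousOn (M.S.c k) (Icc 0 M.T)) {C : ℝ} (hC : 1 ≤ C)
  {Z : J → PhasePoint}
include hΦ hε hT hcont hC

private theorem vtr_aux {P : Finset J} (hP : P.Nonempty)
    (hc : ∀ Q ⊆ P, Q.Nonempty → Q ≠ P → ∃ i ∈ Q, ∃ j ∈ P \ Q, ∃ s ∈ Icc 0 M.T, M.VCt C P i j s Z) :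
    ∀ (n : ℕ) (c : J → J) (t₀ : ℝ), t₀ ∈ Icc 0 M.T → (P.image c).card = n →
      (∀ k ∈ P.image c, VTr M C Z (P.filter (c · = k)) t₀) →
      (∀ u ∈ Ico 0 t₀, ∀ i ∈ P, ∀ j ∈ P, c i ≠ c j → ¬ M.VCt C P i j u Z) →
      VTr M C Z P M.T := by
  intro n
  induction n with
  | zero =>
    intro c t₀ _ hcard _ _
    exact absurd (Finset.card_eq_zero.1 hcard) (hP.image c).ne_empty
  | succ n ih =>
    intro c t₀ ht₀ hcard hblk hno
    by_cases hone : ∀ i ∈ P, ∀ j ∈ P, c i = c j
    · obtain ⟨i₀, hi₀⟩ := hP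
      have h1 := hblk (c i₀) (Finset.mem_image_of_mem c hi₀)
      have h2 : P.filter (c · = c i₀) = P := by
        apply Finset.filter_true_of_mem
        exact fun j hj => hone j hj i₀ hi₀
      rw [h2] at h1
      exact h1.mono ht₀.2
    push Not at hone
    obtain ⟨i₀, hi₀, j₀, hj₀, hij⟩ := hone
    -- the set of cross contact times
    set D : Set ℝ := ⋃ (A ∈ P.powerset) (B ∈ P.powerset) (i ∈ A) (j ∈ B) (_ : c i ≠ c j) (k : κ)
      (l : κ), {s | s ∈ Icc 0 M.T ∧ M.Ct C A k i B l j s Z} with hD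
    have hDmem : ∀ s, s ∈ D ↔ s ∈ Icc 0 M.T ∧ ∃ A ⊆ P, ∃ B ⊆ P, ∃ i j, c i ≠ c j ∧
        ∃ k l, M.Ct C A k i B l j s Z := by
      intro s
      simp only [hD, mem_iUnion, Finset.mem_powerset, mem_ofPred_eq, exists_prop]
      constructor
      · rintro ⟨A, hA, B, hB, i, hi, j, hj, hne, k, l, hs, h⟩
        exact ⟨hs, A, hA, B, hB, i, j, hne, k, l, h⟩
      · rintro ⟨hs, A, hA, B, hB, i, j, hne, k, l, h⟩
        exact ⟨A, hA, B, hB, i, h.1, j, h.2.1, hne, k, l, hs, h⟩
    have hDcl : IsClosed D := by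
      rw [hD]
      refine isClosed_biUnion_finset fun A _ => isClosed_biUnion_finset fun B _ =>
        isClosed_biUnion_finset fun i _ => isClosed_biUnion_finset fun j _ => ?_
      by_cases hne : c i ≠ c j
      · simp only [ne_eq, hne, not_false_eq_true, iUnion_true]
        exact isClosed_iUnion_of_finite fun k => isClosed_iUnion_of_finite fun l =>
          isClosed_Ct hΦ hε hT hcont C A B k l i j Z
      · have : (⋃ (_ : c i ≠ c j) (k : κ) (l : κ),
            {s | s ∈ Icc 0 M.T ∧ M.Ct C A k i B l j s Z}) = ∅ := by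
          simp only [hne, iUnion_false]
        rw [this]; exact isClosed_empty
    have hDne : D.Nonempty := by
      have hQne : (P.filter (c · = c i₀)).Nonempty := ⟨i₀, Finset.mem_filter.2 ⟨hi₀, rfl⟩⟩
      have hQne' : P.filter (c · = c i₀) ≠ P := by
        intro h
        have : j₀ ∈ P.filter (c · = c i₀) := by rw [h]; exact hj₀
        exact hij ((Finset.mem_filter.1 this).2).symm
      obtain ⟨i, hi, j, hj, s, hs, A, hA, B, hB, k, l, h⟩ :=
        hc _ (Finset.filter_subset _ _) hQne hQne'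
      refine ⟨s, (hDmem s).2 ⟨hs, A, hA, B, hB, i, j, ?_, k, l, h⟩⟩
      have h1 := (Finset.mem_filter.1 hi).2
      have h2 := Finset.mem_sdiff.1 hj
      intro hcij
      exact h2.2 (Finset.mem_filter.2 ⟨h2.1, by rw [← hcij]; exact h1⟩)
    have hDsub : D ⊆ Icc 0 M.T := fun s hs => ((hDmem s).1 hs).1
    have hDcomp : IsCompact D := isCompact_Icc.of_isClosed_subset hDcl hDsub
    obtain ⟨t₁, ht₁⟩ := hDcomp.exists_isLeast hDne
    obtain ⟨ht₁T, A, hA, B, hB, i, j, hne, k, l, hct⟩ := (hDmem t₁).1 ht₁.1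
    have hno₁ : ∀ u ∈ Ico 0 t₁, ∀ a ∈ P, ∀ b ∈ P, c a ≠ c b → ¬ M.VCt C P a b u Z := by
      rintro u hu a _ b _ hab ⟨A', hA', B', hB', k', l', h⟩
      have : u ∈ D := (hDmem u).2 ⟨⟨hu.1, (hu.2.trans_le ht₁T.2).le⟩, A', hA', B', hB', a, b, hab,
        k', l', h⟩
      exact absurd (ht₁.2 this) (not_le.2 hu.2)
    have ht₀₁ : t₀ ≤ t₁ := by
      by_contra hlt
      rw [not_le] at hlt
      exact hno t₁ ⟨ht₁T.1, hlt⟩ i (hA hct.1) j (hB hct.2.1) hne ⟨A, hA, B, hB, k, l, hct⟩
    set Ki := P.filter (c · = c i) with hKi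
    set Kj := P.filter (c · = c j) with hKj
    have hiP : i ∈ P := hA hct.1
    have hjP : j ∈ P := hB hct.2.1
    have hiK : i ∈ Ki := Finset.mem_filter.2 ⟨hiP, rfl⟩
    have hjK : j ∈ Kj := Finset.mem_filter.2 ⟨hjP, rfl⟩
    have hri := restrict_block hΦ hε hC (P := P) (K := Ki) k
      (fun u hu a ha haK b hb hbK => hno₁ u hu a ha b hb fun h => hbK
        (Finset.mem_filter.2 ⟨hb, h ▸ (Finset.mem_filter.1 haK).2⟩)) hA hct.2.2.1
    have hrj := restrict_block hΦ hε hC (P := P) (K := Kj) k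
      (fun u hu a ha haK b hb hbK => hno₁ u hu a ha b hb fun h => hbK
        (Finset.mem_filter.2 ⟨hb, h ▸ (Finset.mem_filter.1 haK).2⟩)) hB hct.2.2.2.1
    have hct' : M.Ct C (A.filter (· ∈ Ki)) k i (B.filter (· ∈ Kj)) l j t₁ Z := by
      refine ⟨Finset.mem_filter.2 ⟨hct.1, hiK⟩, Finset.mem_filter.2 ⟨hct.2.1, hjK⟩,
        hri.1, hrj.1, hct.2.2.2.2.1, hct.2.2.2.2.2.1, ?_⟩
      rw [← pos_block hri.2 hct.1 hiK k, ← pos_block hrj.2 hct.2.1 hjK l]
      exact hct.2.2.2.2.2.2
    have hdisK : Disjoint Ki Kj := by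
      rw [Finset.disjoint_left]
      intro k hk1 hk2
      exact hne (((Finset.mem_filter.1 hk1).2).symm.trans (Finset.mem_filter.1 hk2).2)
    have hKK : Ki ∪ Kj ⊆ P := Finset.union_subset (Finset.filter_subset _ _)
      (Finset.filter_subset _ _)
    have hmerge : VTr M C Z (Ki ∪ Kj) t₁ := by
      refine VTr.merge ((hblk _ (Finset.mem_image_of_mem c hiP)).mono ht₀₁)
        ((hblk _ (Finset.mem_image_of_mem c hjP)).mono ht₀₁) hdisK ?_ ?_ hct' ht₁T ?_
      · intro k hk; exact (Finset.mem_filter.1 hk).2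
      · intro k hk; exact (Finset.mem_filter.1 hk).2
      · intro u hu a ha b hb h
        have ha' := Finset.mem_filter.1 ha
        have hb' := Finset.mem_filter.1 hb
        exact hno₁ u hu a ha'.1 b hb'.1 (by rw [ha'.2, hb'.2]; exact hne) (VCt_mono hKK h)
    -- the new colouring
    set c' : J → J := fun k => if c k = c j then c i else c k with hc'
    have himg : P.image c' = (P.image c).erase (c j) := by
      ext k
      simp only [Finset.mem_image, Finset.mem_erase, hc']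
      constructor
      · rintro ⟨a, ha, rfl⟩
        by_cases h : c a = c j
        · rw [if_pos h]; exact ⟨hne, i, hiP, rfl⟩
        · rw [if_neg h]; exact ⟨h, a, ha, rfl⟩
      · rintro ⟨hk, a, ha, rfl⟩
        exact ⟨a, ha, by rw [if_neg hk]⟩
    refine ih c' t₁ ht₁T ?_ ?_ ?_
    · rw [himg, Finset.card_erase_of_mem (Finset.mem_image_of_mem c hjP), hcard]
      rfl
    · intro k hk
      rw [himg] at hk
      obtain ⟨hkj, hk⟩ := Finset.mem_erase.1 hk
      by_cases hki : k = c i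
      · have : P.filter (c' · = k) = Ki ∪ Kj := by
          ext a
          simp only [Finset.mem_filter, Finset.mem_union, hKi, hKj, hc', hki]
          constructor
          · rintro ⟨ha, h⟩
            by_cases h2 : c a = c j
            · exact Or.inr ⟨ha, h2⟩
            · rw [if_neg h2] at h; exact Or.inl ⟨ha, h⟩
          · rintro (⟨ha, h⟩ | ⟨ha, h⟩)
            · refine ⟨ha, ?_⟩
              rw [if_neg (by rw [h]; exact hne), h]
            · exact ⟨ha, by rw [if_pos h]⟩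
        rw [this]; exact hmerge
      · have : P.filter (c' · = k) = P.filter (c · = k) := by
          apply Finset.filter_congr
          intro a _
          simp only [hc']
          by_cases h2 : c a = c j
          · rw [if_pos h2, h2]
            exact ⟨fun h => absurd h.symm hki, fun h => absurd h.symm hkj⟩
          · rw [if_neg h2]
        rw [this]; exact (hblk k hk).mono ht₀₁
    · intro u hu a ha b hb hab
      refine hno₁ u hu a ha b hb fun h => hab ?_
      simp only [hc', h]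

/-- **Kruskal lemma**: a virtually connected set is obtained by successive merges. -/
theorem vtr_of_conn {P : Finset J} (hconn : M.Conn C P Z) : VTr M C Z P M.T := by
  obtain ⟨hP, hc⟩ := hconn
  refine vtr_aux hΦ hε hT hcont hC hP ?_ _ id 0 ⟨le_rfl, hT⟩ rfl ?_ ?_
  · intro Q hQ hQ' hQP
    obtain ⟨i, hi, j, hj, h⟩ := hc Q hQ hQ' hQP
    refine ⟨i, hi, j, ?_, h⟩
    simpa only [Finset.mem_sdiff] using hj
  · intro k hk
    have hk' : k ∈ P := by simpa using hk
    have : P.filter (fun a => id a = k) = {k} := by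
      ext a
      simp only [Finset.mem_filter, id, Finset.mem_singleton]
      exact ⟨fun h => h.2, fun h => ⟨h ▸ hk', h⟩⟩
    rw [this]; exact VTr.single k 0
  · intro u hu
    exact absurd hu.2 (not_lt.2 hu.1)

end kruskal

end Crest.Agent.R122.VLInst442

end
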