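import Mathlib
import Crest.Prelude.Def_KineticLimit
import Crest.Agent.R122.VLKru_442
import Crest.Agent.R122.VLMeas_973
import Crest.Agent.R122.VConnB_581
import Crest.Agent.R122.BoltzGauss_814

/-!
# Row 122, D3 (helper442): the crude volume bound, discretisation

`gtr_of_vtr`: a virtually connected configuration (Kruskal form `VTr`) is grid-connected (`GTr` of
`VConnB_581`) for the positions `gpos` at the grid times.
-/

set_option autoImplicit false
set_option linter.unusedSectionVars false

open MeasureTheory Set Filter Topology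
open scoped NNReal ENNReal
open Crest.AnalysisR.Kinetic
open Crest.Agent.R122.Flow671 Crest.Agent.R122.Loc45 Crest.Agent.R122.Ins45
open Crest.Agent.R122.VL581 Crest.Agent.R122.VL581.VSys Crest.Agent.R122.VConn581

noncomputable section

namespace Crest.Agent.R122.VLInst442

/-! ### Translations (unconditional) -/

section shift

variable {Φ : Space3 → ℝ} {ε : ℝ} {ι : Type*} [Fintype ι]

theorem flowA_shiftX (hΦ : AdmissiblePotential Φ) (hε : 0 < ε) (A : Finset ι) (a : Space3)
    (t : ℝ) (Z : ι → PhasePoint) :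
    flowA Φ ε A t (shiftX a Z) = shiftX a (flowA Φ ε A t Z) := by
  funext i
  by_cases h : i ∈ A
  · have h1 := flow_shiftX hΦ hε a t (fun b : A => Z b)
    have h2 := congrFun h1 ⟨i, h⟩
    rw [flowA_mem A t _ h]
    unfold shiftX at h2 ⊢
    rw [flowA_mem A t _ h]
    exact h2
  · rw [flowA_not_mem A t _ h]
    unfold shiftX
    rw [flowA_not_mem A t _ h]
    refine Prod.ext ?_ rfl
    simp only
    abel

theorem evoN_shiftX (hΦ : AdmissiblePotential Φ) (hε : 0 < ε) (b : ι → ℝ) (a : Space3) :
    ∀ (n : ℕ) (s t : ℝ) (Z : ι → PhasePoint),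
      evoN Φ ε b n s t (shiftX a Z) = shiftX a (evoN Φ ε b n s t Z) := by
  intro n
  induction n with
  | zero => exact fun s t Z => flowA_shiftX hΦ hε _ a _ Z
  | succ n ih =>
    intro s t Z
    unfold evoN
    split_ifs
    · rw [flowA_shiftX hΦ hε, ih]
    · rw [flowA_shiftX hΦ hε]

end shift

variable {J κ : Type} [Fintype J] {M : VSys J κ}

theorem st_shiftX (hΦ : AdmissiblePotential M.Φ) (hε : 0 < M.ε) (A : Finset J) (t : ℝ)
    (Z : J → PhasePoint) (a : Space3) (i : J) :
    M.st A t (shiftX a Z) i = ((M.st A t Z i).1 + a, (M.st A t Z i).2) := by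
  by_cases h : i ∈ M.mem A t
  · rw [st_of_mem M h, st_of_mem M h]
    have h1 := evoN_shiftX hΦ hε (fun j : M.mem A t => M.bb j) a (Fintype.card (M.mem A t)) (-1) t
      (fun j : M.mem A t => ((Z j).1 - (Z j).2, (Z j).2))
    have h2 : (fun j : M.mem A t => ((shiftX a Z j).1 - (shiftX a Z j).2, (shiftX a Z j).2)) =
        shiftX a (fun j : M.mem A t => ((Z j).1 - (Z j).2, (Z j).2)) := by
      funext j
      unfold shiftX
      refine Prod.ext ?_ rfl
      simp only
      abel
    unfold ev evo
    rw [h2, h1]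
    rfl
  · rw [st_of_not_mem M h, st_of_not_mem M h]
    unfold fl shiftX
    refine Prod.ext ?_ rfl
    simp only
    abel

theorem pos_shiftX (hΦ : AdmissiblePotential M.Φ) (hε : 0 < M.ε) (A : Finset J) (k : κ) (t : ℝ)
    (Z : J → PhasePoint) (a : Space3) (i : J) :
    M.pos A k t (shiftX a Z) i = M.pos A k t Z i + a := by
  unfold VSys.pos
  split_ifs
  · unfold shiftX
    simp only
    abel
  · rw [st_shiftX hΦ hε]

/-! ### The grid -/

section grid

variable [Fintype κ]

/-- positions and velocities -/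
def zip (x v : J → Space3) : J → PhasePoint := fun j => (x j, v j)

/-- The positions of all sub-worlds (and tubes) at the grid times: the number `a` encodes the grid
time `(a / c) h` and the tube `a % c`. -/
def gpos (M : VSys J κ) (h : ℝ) (e : Fin (Fintype.card κ) ≃ κ) (hc : 0 < Fintype.card κ)
    (v : J → Space3) (x : J → Space3) (A : Finset J) (a : ℕ) (i : J) : Space3 :=
  M.pos A (e ⟨a % Fintype.card κ, Nat.mod_lt _ hc⟩) ((a / Fintype.card κ : ℕ) * h) (zip x v) i

theorem gpos_cov (hM : VLMeas973.Good M) (h : ℝ) (e : Fin (Fintype.card κ) ≃ κ)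
    (hc : 0 < Fintype.card κ) (v : J → Space3) : Cov (gpos M h e hc v) where
  local' A n i x x' hi hx := by
    unfold gpos
    exact pos_congr (fun j hj => by simp only [zip, hx j hj]) hi _ _
  shift A n i x y hi := by
    unfold gpos
    exact pos_shiftX hM.adm hM.eps A _ _ (zip x v) y i
  meas A n i hi := by
    unfold gpos VSys.pos
    by_cases ho : M.o = some i
    · simp only [ho, if_true, zip]
      exact (measurable_pi_apply i).add measurable_const
    · simp only [ho, if_false]
      have hz : Measurable fun x : J → Space3 => zip x v := by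
        refine measurable_pi_lambda _ fun j => ?_
        exact (measurable_pi_apply j).prodMk measurable_const
      have h1 := VLMeas973.measurable_st (M := M) hM (b := fun _ : J → Space3 => M.b)
        measurable_const hz A (τ := fun _ => ((n / Fintype.card κ : ℕ) : ℝ) * h) measurable_const i
      exact h1.fst

/-- Positions at an earlier time. -/
theorem dist_pos_le (hΦ : AdmissiblePotential M.Φ) (hε : 0 < M.ε) {L : ℝ≥0}
    (hL : ∀ k, LipschitzOnWith L (M.S.c k) (Icc 0 M.T)) {A : Finset J} {t s V : ℝ}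
    {Z : J → PhasePoint} (hok : M.ok A t Z) (hV : ∀ j, ‖(Z j).2‖ ≤ V) (hs0 : 0 ≤ s) (hst : s ≤ t)
    (htT : t ≤ M.T) (k : κ) (i : J) :
    dist (M.pos A k s Z i) (M.pos A k t Z i) ≤ (spd M.Φ (Fintype.card J) V + L) * (t - s) := by
  have h1 : 0 ≤ t - s := sub_nonneg.2 hst
  unfold VSys.pos
  split_ifs with ho
  · have hs : max 0 (min s M.T) = s := by
      rw [min_eq_left (hst.trans htT), max_eq_right hs0]
    have ht : max 0 (min t M.T) = t := by
      rw [min_eq_left htT, max_eq_right (hs0.trans hst)]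
    rw [hs, ht, dist_add_left]
    have h2 := (hL k).dist_le_mul s ⟨hs0, hst.trans htT⟩ t ⟨hs0.trans hst, htT⟩
    rw [Real.dist_eq, abs_sub_comm, abs_of_nonneg h1] at h2
    refine h2.trans (mul_le_mul_of_nonneg_right ?_ h1)
    have := spd_nonneg M.Φ (Fintype.card J) V
    linarith
  · refine (st_lipschitz hΦ hε hok hV i hst).trans (mul_le_mul_of_nonneg_right ?_ h1)
    have := L.2
    change spd M.Φ (Fintype.card J) V ≤ spd M.Φ (Fintype.card J) V + (L : ℝ)
    have h3 : (0 : ℝ) ≤ L := L.2
    linarith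

theorem pos_tube_irrel {A : Finset J} {t : ℝ} {Z : J → PhasePoint} {i : J} (h : M.o ≠ some i)
    (k l : κ) : M.pos A k t Z i = M.pos A l t Z i := by
  unfold VSys.pos
  rw [if_neg h, if_neg h]

/-- **Discretisation.** -/
theorem gtr_of_vtr [DecidableEq J] (hΦ : AdmissiblePotential M.Φ) (hε : 0 < M.ε) {L : ℝ≥0}
    (hL : ∀ k, LipschitzOnWith L (M.S.c k) (Icc 0 M.T)) {C : ℝ}
    {e : Fin (Fintype.card κ) ≃ κ} {hc : 0 < Fintype.card κ} {x v : J → Space3} {V h : ℝ}
    (hV : ∀ j, ‖v j‖ ≤ V) (hh : 0 < h)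
    (hSh : (spd M.Φ (Fintype.card J) V + L) * h ≤ M.ε) {P : Finset J} {s : ℝ}
    (hP : VTr M C (zip x v) P s) :
    GTr ((C + 2) * M.ε) ((⌊M.T / h⌋₊ + 1) * Fintype.card κ) (gpos M h e hc v x) P := by
  induction hP with
  | single i s => exact GTr.single i
  | mono _ _ ih => exact ih
  | @merge P Q A B k l i j s hP hQ hd hA hB hct hs hno ih1 ih2 =>
    obtain ⟨hi, hj, hokA, hokB, -, -, hdist⟩ := hct
    have hij : i ≠ j := fun hij => Finset.disjoint_left.1 hd (hA hi) (hij ▸ hB hj)
    -- the tube
    obtain ⟨m, hmi, hmj⟩ : ∃ m : κ, (M.o = some i → m = k) ∧ (M.o = some j → m = l) := by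
      by_cases ho : M.o = some i
      · refine ⟨k, fun _ => rfl, fun h => ?_⟩
        rw [ho] at h
        exact absurd (Option.some.inj h) hij
      · exact ⟨l, fun h => absurd h ho, fun _ => rfl⟩
    have hposi : ∀ t, M.pos A k t (zip x v) i = M.pos A m t (zip x v) i := by
      intro t
      by_cases ho : M.o = some i
      · rw [hmi ho]
      · exact pos_tube_irrel ho _ _
    have hposj : ∀ t, M.pos B l t (zip x v) j = M.pos B m t (zip x v) j := by
      intro t
      by_cases ho : M.o = some j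
      · rw [hmj ho]
      · exact pos_tube_irrel ho _ _
    -- the time
    set n := ⌊s / h⌋₊ with hn
    have hn1 : (n : ℝ) * h ≤ s := by
      have := Nat.floor_le (div_nonneg hs.1 hh.le)
      rwa [le_div_iff₀ hh] at this
    have hn2 : s < (n + 1 : ℝ) * h := by
      have := Nat.lt_floor_add_one (s / h)
      rwa [div_lt_iff₀ hh] at this
    have hnN : n ≤ ⌊M.T / h⌋₊ := Nat.floor_mono (div_le_div_of_nonneg_right hs.2 hh.le)
    obtain ⟨a, ha⟩ : ∃ a : ℕ, a = n * Fintype.card κ + (e.symm m : ℕ) := ⟨_, rfl⟩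
    have ha1 : a / Fintype.card κ = n := by
      rw [ha, Nat.add_comm, Nat.add_mul_div_right _ _ hc, Nat.div_eq_of_lt (e.symm m).2, zero_add]
    have ha2 : a % Fintype.card κ = (e.symm m : ℕ) := by
      rw [ha, Nat.add_comm, Nat.add_mul_mod_self_right, Nat.mod_eq_of_lt (e.symm m).2]
    have haN : a ≤ (⌊M.T / h⌋₊ + 1) * Fintype.card κ := by
      have h1 : n * Fintype.card κ ≤ ⌊M.T / h⌋₊ * Fintype.card κ := Nat.mul_le_mul_right _ hnN
      have h2 := (e.symm m).2
      rw [add_mul, one_mul]
      omega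
    have hg : ∀ (D : Finset J) (b : J), gpos M h e hc v x D a b =
        M.pos D m ((n : ℝ) * h) (zip x v) b := by
      intro D b
      unfold gpos
      have h3 : (⟨a % Fintype.card κ, Nat.mod_lt _ hc⟩ : Fin (Fintype.card κ)) = e.symm m :=
        Fin.ext ha2
      rw [h3, Equiv.apply_symm_apply, ha1]
    refine GTr.merge ih1 ih2 hd hA hB hi hj haN ?_
    rw [hg, hg]
    have hn0 : (0 : ℝ) ≤ (n : ℝ) * h := by positivity
    have hV' : ∀ j, ‖(zip x v j).2‖ ≤ V := hV
    have hS0 : 0 ≤ spd M.Φ (Fintype.card J) V + (L : ℝ) :=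
      add_nonneg (spd_nonneg _ _ _) L.2
    have hgap : (spd M.Φ (Fintype.card J) V + (L : ℝ)) * (s - n * h) ≤ M.ε := by
      refine (mul_le_mul_of_nonneg_left ?_ hS0).trans hSh
      nlinarith
    have d1 := (dist_pos_le hΦ hε hL hokA hV' hn0 hn1 hs.2 m i).trans hgap
    have d2 := (dist_pos_le hΦ hε hL hokB hV' hn0 hn1 hs.2 m j).trans hgap
    rw [hposi, hposj] at hdist
    calc dist (M.pos A m (n * h) (zip x v) i) (M.pos B m (n * h) (zip x v) j)
        ≤ dist (M.pos A m (n * h) (zip x v) i) (M.pos A m s (zip x v) i) +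
          dist (M.pos A m s (zip x v) i) (M.pos B m s (zip x v) j) +
          dist (M.pos B m s (zip x v) j) (M.pos B m (n * h) (zip x v) j) := dist_triangle4 _ _ _ _
      _ ≤ M.ε + C * M.ε + M.ε := by
        refine add_le_add (add_le_add d1 hdist) ?_
        rw [dist_comm]
        exact d2
      _ = (C + 2) * M.ε := by ring

end grid


end Crest.Agent.R122.VLInst442

end
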