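import Mathlib
import Crest.Prelude.Def_KineticLimit
import Crest.Agent.R122.VCA_442

/-!
# Row 122, D3 (helper442): the crude volume bound for fixed velocities

`vcB` : for fixed velocities `v`, the volume (modulo the root `i₀`) of the connected configurations is
at most `(K₁ (1 + S v) ε²) ^ (card J - 1)`, `S v` the speed bound.
-/

set_option autoImplicit false
set_option linter.unusedSectionVars false

open MeasureTheory Set Filter Topology
open scoped NNReal ENNReal
open Crest.AnalysisR.Kinetic
open Crest.Agent.R122.Flow671 Crest.Agent.R122.Loc45 Crest.Agent.R122.Ins45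
open Crest.Agent.R122.VL581 Crest.Agent.R122.VL581.VSys Crest.Agent.R122.VConn581

noncomputable section

namespace Crest.Agent.R122.VLInst442

variable {J κ : Type} [Fintype J] {M : VSys J κ}

/-- Removing the normalisation of the density of the root. -/
theorem lintegral_root_le {E : Set (J → Space3)} (hE : MeasurableSet E) {i₀ : J} {D : ℝ≥0∞}
    (hD : D ≠ 0)
    (h : ∀ ρ : Space3 → ℝ≥0∞, Measurable ρ → ∫⁻ y, ρ y = 1 →
      ∫⁻ x, E.indicator (fun x => ρ (x i₀)) x ≤ D) {ρ : Space3 → ℝ≥0∞} (hρ : Measurable ρ) :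
    ∫⁻ x, E.indicator (fun x => ρ (x i₀)) x ≤ D * ∫⁻ y, ρ y := by
  set c := ∫⁻ y, ρ y with hc
  have hm : Measurable fun x : J → Space3 => ρ (x i₀) := hρ.comp (measurable_pi_apply i₀)
  by_cases hc0 : c = 0
  · -- the density vanishes almost everywhere
    have h1 : ρ =ᵐ[volume] 0 := (lintegral_eq_zero_iff hρ).1 hc0
    have h2 : (fun x : J → Space3 => ρ (x i₀)) =ᵐ[volume] 0 := by
      have := (Measure.quasiMeasurePreserving_eval (fun _ : J => (volume : Measure Space3)) i₀).ae
        h1
      exact this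
    have h3 : ∫⁻ x, E.indicator (fun x => ρ (x i₀)) x = 0 := by
      rw [lintegral_eq_zero_iff (hm.indicator hE)]
      filter_upwards [h2] with x hx
      by_cases hxE : x ∈ E
      · rw [indicator_of_mem hxE]; exact hx
      · rw [indicator_of_notMem hxE]; rfl
    rw [h3]
    exact bot_le
  by_cases hct : c = ⊤
  · rw [hct, ENNReal.mul_top hD]
    exact le_top
  · have h1 : ∫⁻ y, c⁻¹ * ρ y = 1 := by
      rw [lintegral_const_mul _ hρ, ← hc, ENNReal.inv_mul_cancel hc0 hct]
    have h2 := h (fun y => c⁻¹ * ρ y) (hρ.const_mul _) h1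
    have h3 : ∫⁻ x, E.indicator (fun x => c⁻¹ * ρ (x i₀)) x =
        c⁻¹ * ∫⁻ x, E.indicator (fun x => ρ (x i₀)) x := by
      rw [← lintegral_const_mul _ (hm.indicator hE)]
      refine lintegral_congr fun x => ?_
      by_cases hxE : x ∈ E
      · rw [indicator_of_mem hxE, indicator_of_mem hxE]
      · rw [indicator_of_notMem hxE, indicator_of_notMem hxE, mul_zero]
    rw [h3] at h2
    rw [ENNReal.inv_mul_le_iff hc0 hct] at h2
    rwa [mul_comm] at h2

/-- The speed bound of the configurations with velocities `v`. -/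
def vS (Φ : Space3 → ℝ) (L : ℝ≥0) (v : J → Space3) : ℝ :=
  spd Φ (Fintype.card J) (∑ j, ‖v j‖) + L

theorem vS_nonneg (Φ : Space3 → ℝ) (L : ℝ≥0) (v : J → Space3) : 0 ≤ vS Φ L v :=
  add_nonneg (spd_nonneg _ _ _) L.2

/-- The constant. -/
def vK (m c : ℕ) (T C : ℝ) : ℝ :=
  ((2 ^ m) ^ 4 * m ^ 2 : ℕ) * ((|T| + 2) * c) * ((max C 1 + 2) ^ 3 *
    (volume (Metric.closedBall (0 : Space3) 1)).toReal) + 1

theorem vK_pos (m c : ℕ) (T C : ℝ) : 0 < vK m c T C := by
  unfold vK
  have h1 : (0 : ℝ) ≤ max C 1 + 2 := by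
    have := le_max_right C 1
    linarith
  positivity

theorem le_univ_card_two {C : ℝ} {Z : J → PhasePoint} (h2 : 2 ≤ Fintype.card J)
    (h : M.Conn C Finset.univ Z) : 0 ≤ M.T ∧ Nonempty κ := by
  obtain ⟨i, hi⟩ := h.1
  have hne : ({i} : Finset J) ≠ Finset.univ := by
    intro he
    have := congrArg Finset.card he
    rw [Finset.card_singleton, Finset.card_univ] at this
    omega
  obtain ⟨_, _, _, _, t, ht, A, _, B, _, k, l, _⟩ :=
    h.2 {i} (Finset.subset_univ _) (Finset.singleton_nonempty i) hne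
  exact ⟨ht.1.trans ht.2, ⟨k⟩⟩

/-- **Fixed velocities.** -/
theorem vcB [Fintype κ] (hΦ : AdmissiblePotential M.Φ) (hε : 0 < M.ε) (hε1 : M.ε ≤ 1) {L : ℝ≥0}
    (hL : ∀ k, LipschitzOnWith L (M.S.c k) (Icc 0 M.T)) (C : ℝ) (i₀ : J) {ρ : Space3 → ℝ≥0∞}
    (hρ : Measurable ρ) (v : J → Space3) :
    ∫⁻ x, {x | M.Conn C Finset.univ (zip x v)}.indicator (fun x => ρ (x i₀)) x ≤
      ENNReal.ofReal ((vK (Fintype.card J) (Fintype.card κ) M.T C * (1 + vS M.Φ L v) * M.ε ^ 2) ^
        (Fintype.card J - 1)) * ∫⁻ y, ρ y := by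
  classical
  set m := Fintype.card J with hm
  have hm1 : 0 < m := Fintype.card_pos_iff.2 ⟨i₀⟩
  set S := vS M.Φ L v with hS
  have hS0 : 0 ≤ S := vS_nonneg _ _ _
  have hK := vK_pos m (Fintype.card κ) M.T C
  rcases Nat.lt_or_ge m 2 with hm2 | hm2
  · -- a single particle
    have hm1' : m = 1 := by omega
    have hu : Unique J := by
      have := Fintype.card_eq_one_iff_nonempty_unique.1 (hm.symm.trans hm1')
      exact this.some
    have he : (fun x : J → Space3 => ρ (x i₀)) = fun x => ρ (MeasurableEquiv.funUnique J Space3 x) := by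
      funext x
      rw [Subsingleton.elim i₀ default]
      rfl
    calc ∫⁻ x, {x | M.Conn C Finset.univ (zip x v)}.indicator (fun x => ρ (x i₀)) x
        ≤ ∫⁻ x : J → Space3, ρ (x i₀) := lintegral_mono fun x => indicator_le_self _ _ x
      _ = ∫⁻ y, ρ y := by
          rw [he]
          convert (volume_preserving_funUnique J Space3).lintegral_comp hρ
      _ = _ := by rw [hm1']; simp
  by_cases hcase : 0 ≤ M.T ∧ Nonempty κ
  · obtain ⟨hT, hκ⟩ := hcase
    have hc : 0 < Fintype.card κ := Fintype.card_pos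
    have hgood : VLMeas973.Good M := ⟨hΦ, hε, hT, fun k => (hL k).continuousOn⟩
    set e := (Fintype.equivFin κ).symm with he
    set h := M.ε / (1 + S) with hh
    have hh0 : 0 < h := div_pos hε (by linarith)
    have hSh : S * h ≤ M.ε := by
      rw [hh, mul_div_assoc', div_le_iff₀ (by linarith)]
      nlinarith
    set C' := max C 1 with hC'
    set r := (C' + 2) * M.ε with hr
    have hr0 : 0 ≤ r := by
      have := le_max_right C 1
      have h3 : 0 ≤ C' + 2 := by linarith
      exact mul_nonneg h3 hε.le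
    set N' := (⌊M.T / h⌋₊ + 1) * Fintype.card κ with hN'
    have hcov := gpos_cov hgood h e hc v
    -- inclusion
    set E : Set (J → Space3) := {x | GTr r N' (gpos M h e hc v x) Finset.univ} with hE
    have hEm : MeasurableSet E := measurableSet_gtr _ Finset.univ le_rfl
      fun A _ n i hi => hcov.meas A n i hi
    have hsub : {x | M.Conn C Finset.univ (zip x v)} ⊆ E := by
      intro x hx
      have h1 : M.Conn C' Finset.univ (zip x v) := Conn_monoC hε (le_max_left _ _) hx
      have h2 := vtr_of_conn hΦ hε hT hgood.tubes (le_max_right _ _) h1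
      refine gtr_of_vtr hΦ hε hL (V := ∑ j, ‖v j‖) ?_ hh0 hSh h2
      exact fun j => Finset.single_le_sum (f := fun j => ‖v j‖) (fun _ _ => norm_nonneg _)
        (Finset.mem_univ j)
    -- the bound with a probability density
    have key : ∀ ρ : Space3 → ℝ≥0∞, Measurable ρ → ∫⁻ y, ρ y = 1 →
        ∫⁻ x, E.indicator (fun x => ρ (x i₀)) x ≤
          ENNReal.ofReal ((vK m (Fintype.card κ) M.T C * (1 + S) * M.ε ^ 2) ^ (m - 1)) := by
      intro ρ hρ hρ1
      have h1 := mg_gtr_le m N' r hcov hρ hρ1 m Finset.univ (by rw [Finset.card_univ])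
        (by rw [Finset.card_univ]) i₀ (Finset.mem_univ _) (fun _ => 0)
      rw [mg, lmarginal_univ, Finset.card_univ, ← hm] at h1
      refine le_trans h1 ?_
      rw [ENNReal.ofReal_pow (by positivity)]
      gcongr
      have hvol : volume (Metric.closedBall (0 : Space3) r) =
          ENNReal.ofReal (r ^ 3 * (volume (Metric.closedBall (0 : Space3) 1)).toReal) := by
        rw [Measure.addHaar_closedBall' volume (0 : Space3) hr0,
          ENNReal.ofReal_mul (by positivity), ENNReal.ofReal_toReal]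
        · simp
        · exact (measure_closedBall_lt_top).ne
      rw [hvol, ← ENNReal.ofReal_natCast, ← ENNReal.ofReal_mul (by positivity)]
      refine ENNReal.ofReal_le_ofReal ?_
      set B := (volume (Metric.closedBall (0 : Space3) 1)).toReal with hB
      have hB0 : 0 ≤ B := ENNReal.toReal_nonneg
      have hfl : (⌊M.T / h⌋₊ : ℝ) ≤ M.T * (1 + S) / M.ε := by
        refine (Nat.floor_le (by positivity)).trans (le_of_eq ?_)
        rw [hh]
        field_simp
      have hN : ((N' + 1 : ℕ) : ℝ) ≤ (|M.T| + 2) * Fintype.card κ * ((1 + S) / M.ε) := by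
        have hc1 : (1 : ℝ) ≤ Fintype.card κ := by exact_mod_cast hc
        have h1e : 1 ≤ (1 + S) / M.ε := by
          rw [le_div_iff₀ hε]
          linarith
        rw [abs_of_nonneg hT, hN']
        push_cast
        have h3 : M.T * (1 + S) / M.ε = M.T * ((1 + S) / M.ε) := by ring
        rw [h3] at hfl
        set q := (1 + S) / M.ε with hq
        set c : ℝ := (Fintype.card κ : ℝ) with hcdef
        have h4 : ((⌊M.T / h⌋₊ : ℝ) + 1) * c + 1 ≤ (M.T * q + 1) * c + 1 * c := by
          refine add_le_add (mul_le_mul_of_nonneg_right (by linarith) (by linarith)) ?_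
          linarith
        refine h4.trans ?_
        have h5 : (M.T * q + 1) * c + 1 * c = (M.T * q + 2) * c := by ring
        rw [h5]
        have h6 : M.T * q + 2 ≤ (M.T + 2) * q := by nlinarith
        calc (M.T * q + 2) * c ≤ (M.T + 2) * q * c := mul_le_mul_of_nonneg_right h6 (by linarith)
          _ = (M.T + 2) * c * q := by ring
      have hε0 : M.ε ≠ 0 := hε.ne'
      have hKle : (((2 ^ m) ^ 4 * m ^ 2 : ℕ) : ℝ) * ((|M.T| + 2) * Fintype.card κ) *
          ((C' + 2) ^ 3 * B) ≤ vK m (Fintype.card κ) M.T C := by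
        unfold vK
        linarith
      calc (((2 ^ m) ^ 4 * m ^ 2 * (N' + 1) : ℕ) : ℝ) * (r ^ 3 * B)
          = (((2 ^ m) ^ 4 * m ^ 2 : ℕ) : ℝ) * ((N' + 1 : ℕ) : ℝ) * (r ^ 3 * B) := by
            push_cast; ring
        _ ≤ (((2 ^ m) ^ 4 * m ^ 2 : ℕ) : ℝ) * ((|M.T| + 2) * Fintype.card κ * ((1 + S) / M.ε)) *
            (r ^ 3 * B) := by
            have hr3 : 0 ≤ r ^ 3 * B := by positivity
            exact mul_le_mul_of_nonneg_right (mul_le_mul_of_nonneg_left hN (by positivity)) hr3
        _ = (((2 ^ m) ^ 4 * m ^ 2 : ℕ) : ℝ) * ((|M.T| + 2) * Fintype.card κ) *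
            ((C' + 2) ^ 3 * B) * ((1 + S) * M.ε ^ 2) := by
            rw [hr]
            field_simp
        _ ≤ vK m (Fintype.card κ) M.T C * ((1 + S) * M.ε ^ 2) :=
            mul_le_mul_of_nonneg_right hKle (by positivity)
        _ = vK m (Fintype.card κ) M.T C * (1 + S) * M.ε ^ 2 := by ring
    have hD : ENNReal.ofReal ((vK m (Fintype.card κ) M.T C * (1 + S) * M.ε ^ 2) ^ (m - 1)) ≠ 0 := by
      rw [Ne, ENNReal.ofReal_eq_zero, not_le]
      have : 0 < 1 + S := by linarith
      positivity
    refine le_trans (lintegral_mono fun x => ?_) (lintegral_root_le hEm hD key hρ)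
    exact indicator_le_indicator_of_subset hsub (fun _ => bot_le) x
  · have hempty : {x | M.Conn C Finset.univ (zip x v)} = ∅ := by
      ext x
      simp only [mem_setOf_eq, mem_empty_iff_false, iff_false]
      intro hx
      exact hcase (le_univ_card_two hm2 hx)
    rw [hempty]
    simp

end Crest.Agent.R122.VLInst442

end
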