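import Crest.Agent.R122.VC_973
import Crest.Agent.R122.VCB_442

/-!
# Row 122, D3 (helper973): `VC`

`vc : AdmissiblePotential Φ → VC Φ` (fixed-velocity bound `vcB` of helper442, `vc_of_vcB`).
-/

set_option autoImplicit false

open MeasureTheory Set Filter Topology
open scoped NNReal ENNReal
open Crest.AnalysisR.Kinetic
open Crest.Agent.R122.VL581 Crest.Agent.R122.VL581.VSys Crest.Agent.R122.VLInst442

noncomputable section

namespace Crest.Agent.R122.VC973

theorem vcB_holds {Φ : Space3 → ℝ} (hΦ : AdmissiblePotential Φ) : VcB Φ := by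
  intro J κ _ _ T C L
  refine ⟨vK (Fintype.card J) (Fintype.card κ) T C, (vK_pos _ _ _ _).le, ?_⟩
  intro M hMΦ hMT hε hε1 hL i₀ _ ρ hρ v
  subst hMΦ
  subst hMT
  exact VLInst442.vcB hΦ hε hε1 hL C i₀ hρ v

/-- **VC.** -/
theorem vc {Φ : Space3 → ℝ} (hΦ : AdmissiblePotential Φ) : VC Φ := vc_of_vcB (vcB_holds hΦ)

end Crest.Agent.R122.VC973

end
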