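import Crest.Agent.R122.VLClass2_973
import Crest.Agent.R122.VCFin_973
import Crest.Agent.R122.NGmaj_416

/-!
# Row 122, BadHit (helper167), part 1: the curves of the sub-worlds

* `HitClass T BP` : the hit estimate (helper416) for a predicate `BP ε k V i t x` on gas particles
  (`x` is a possible real position of the root `i` at time `t` after a bad past `V`).
* `thr`, `crv` : every position of an ok sub-world at a time in `[0, T]` lies on one of finitely
  many covariant Lipschitz curves (`exists_crv`).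
* shift covariance (`ok_shiftX`, `conn_shiftX`, `crv_shiftX`), measurability (`measurable_crv`),
  Lipschitz bound (`lip_crv`).
* `lam_mul_gv_le` : absorption of the Lipschitz constant.
-/

set_option autoImplicit false
set_option linter.unusedSectionVars false

open MeasureTheory Set Filter Topology
open Crest.AnalysisR.Kinetic
open Crest.Agent.R122.Ins45 Crest.Agent.R122.GIV566 Crest.Agent.R122.VL581
open Crest.Agent.R122.VLMeas973 Crest.Agent.R122.Loc45
open Crest.Agent.R122.MeasE416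
open scoped Classical ENNReal NNReal

noncomputable section

namespace Crest.Agent.R122.BH167

/-- Predicates on the real positions of the root of a gas-only past. -/
abbrev PosPred : Type := ℝ → (k : ℕ) → Config k → Fin k → ℝ → Space3 → Prop

/-- **The hit estimate** (helper416). -/
def HitClass (T : ℝ) (BP : PosPred) : Prop :=
  ∀ (J : Type) [Fintype J] (j₀ : J) (γ R : ℝ) (K : ℕ), 0 < γ →
    ∃ η : ℝ → ℝ≥0∞, Tendsto η (𝓝[>] 0) (𝓝 0) ∧ ∀ ε : ℝ, 0 < ε → ε ≤ 1 →
      ∀ (Ω : Type) [MeasurableSpace Ω] (G : Ω → (J → PhasePoint) → ℝ≥0∞)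
        (c : Ω → (J → PhasePoint) → ℝ → Space3) (Lam : Ω → (J → PhasePoint) → ℝ≥0),
        Measurable (fun p : Ω × (J → PhasePoint) => G p.1 p.2) →
        (∀ ω a Z, G ω (shiftX a Z) = G ω Z) →
        (∀ t, Measurable fun p : Ω × (J → PhasePoint) => c p.1 p.2 t) →
        (∀ ω a Z t, c ω (shiftX a Z) t = c ω Z t + a) →
        (∀ ω Z, LipschitzOnWith (Lam ω Z) (c ω Z) (Icc 0 T)) →
        Measurable (fun p : Ω × (J → PhasePoint) => Lam p.1 p.2) →
        (∀ ω a Z, Lam ω (shiftX a Z) = Lam ω Z) →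
        ∃ H : (k : ℕ) → Ω × (J → PhasePoint) × Config k → ℝ≥0∞, (∀ k, Measurable (H k)) ∧
          (∀ k ≤ K, ∀ ω Z, ∀ V ∈ PairExcluded ε k, ∀ i t x, t ∈ Icc 0 T → BP ε k V i t x →
            dist x (c ω Z t) ≤ R * ε → 1 ≤ H k (ω, Z, V)) ∧
          ∀ k ≤ K, ∀ (ω : Ω) (i : Fin k) (env : Space3 → ℝ≥0∞), Measurable env →
            ∫⁻ Z, G ω Z * ∫⁻ V : Config k, env (V i).1 *
              ((∏ l, ENNReal.ofReal (Real.exp (-γ * ‖(V l).2‖ ^ 2))) * H k (ω, Z, V)) ≤
            η ε * ENNReal.ofReal (ε ^ 2) ^ k * (∫⁻ x, env x) *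
              ∫⁻ Z, NG416.hb (Z j₀).1 * (G ω Z * (1 + (Lam ω Z : ℝ≥0∞)))

variable {J κ : Type} [Fintype J]

/-! ### Translations -/

section shift

variable {M : VSys J κ} (hΦ : AdmissiblePotential M.Φ) (hε : 0 < M.ε)
include hΦ hε

theorem ok_shiftX (A : Finset J) (t : ℝ) (Z : J → PhasePoint) (a : Space3) :
    M.ok A t (shiftX a Z) ↔ M.ok A t Z := by
  unfold VSys.ok
  simp only [VLInst442.st_shiftX hΦ hε, dist_add_right]

theorem ct_shiftX (C : ℝ) (A : Finset J) (k : κ) (i : J) (B : Finset J) (l : κ) (j : J) (t : ℝ)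
    (Z : J → PhasePoint) (a : Space3) :
    M.Ct C A k i B l j t (shiftX a Z) ↔ M.Ct C A k i B l j t Z := by
  unfold VSys.Ct
  rw [ok_shiftX hΦ hε, ok_shiftX hΦ hε, VLInst442.pos_shiftX hΦ hε, VLInst442.pos_shiftX hΦ hε,
    dist_add_right]

theorem conn_shiftX (C : ℝ) (P : Finset J) (Z : J → PhasePoint) (a : Space3) :
    M.Conn C P (shiftX a Z) ↔ M.Conn C P Z := by
  unfold VSys.Conn VSys.VCt
  simp only [ct_shiftX hΦ hε]

end shift

/-! ### The thresholds -/

/-- Thresholds: the horizon and the birth times. -/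
def thr (M : VSys J κ) : Option J → ℝ
  | none => M.T
  | some i => min (M.bb i) M.T

theorem thr_nonneg {M : VSys J κ} (hT : 0 ≤ M.T) (r : Option J) : 0 ≤ thr M r := by
  cases r with
  | none => exact hT
  | some i => exact le_min (le_max_right _ _) hT

theorem thr_le (M : VSys J κ) (r : Option J) : thr M r ≤ M.T := by
  cases r with
  | none => exact le_rfl
  | some i => exact min_le_right _ _

/-- The last threshold until which the sub-world is ok. -/
theorem exists_thr {M : VSys J κ} {A : Finset J} {t : ℝ} {Z : J → PhasePoint} (ht : t ≤ M.T)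
    (hok : M.ok A t Z) : ∃ r, t ≤ thr M r ∧ M.ok A (thr M r) Z := by
  rw [VLInst442.ok_iff] at hok
  by_cases h : ∃ i, VLInst442.Bad M A Z i
  · obtain ⟨i₁, hi₁⟩ := h
    obtain ⟨i₀, hi₀, hmin⟩ :=
      (Set.toFinite {i | VLInst442.Bad M A Z i}).exists_minimalFor M.bb _ ⟨i₁, hi₁⟩
    refine ⟨some i₀, le_min (hok i₀ hi₀) ht, VLInst442.ok_iff.2 fun i hi => ?_⟩
    refine (min_le_left _ _).trans ?_
    rcases le_total (M.bb i) (M.bb i₀) with h1 | h1
    · exact hmin hi h1
    · exact h1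
  · push Not at h
    exact ⟨none, ht, VLInst442.ok_iff.2 fun i hi => absurd hi (h i)⟩

/-- The curve of the label `j` in the sub-world `A` (tube `q`) until the threshold `r`. -/
def crv (M : VSys J κ) (A : Finset J) (q : κ) (j : J) (r : Option J) (Z : J → PhasePoint) (t : ℝ) :
    Space3 :=
  if M.ok A (thr M r) Z then M.pos A q (min (max t 0) (thr M r)) Z j else (Z j).1

/-- Every position of an ok sub-world lies on one of the curves. -/
theorem exists_crv {M : VSys J κ} {A : Finset J} {t : ℝ} {Z : J → PhasePoint}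
    (ht : t ∈ Icc 0 M.T) (hok : M.ok A t Z) (q : κ) (j : J) :
    ∃ r, crv M A q j r Z t = M.pos A q t Z j := by
  obtain ⟨r, h1, h2⟩ := exists_thr ht.2 hok
  refine ⟨r, ?_⟩
  unfold crv
  rw [if_pos h2, max_eq_left ht.1, min_eq_left h1]

theorem crv_shiftX {M : VSys J κ} (hΦ : AdmissiblePotential M.Φ) (hε : 0 < M.ε) (A : Finset J)
    (q : κ) (j : J) (r : Option J) (a : Space3) (Z : J → PhasePoint) (t : ℝ) :
    crv M A q j r (shiftX a Z) t = crv M A q j r Z t + a := by
  unfold crv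
  by_cases h : M.ok A (thr M r) Z
  · rw [if_pos h, if_pos ((ok_shiftX hΦ hε A _ Z a).2 h), VLInst442.pos_shiftX hΦ hε]
  · rw [if_neg h, if_neg fun h' => h ((ok_shiftX hΦ hε A _ Z a).1 h')]
    rfl

/-- The Lipschitz constant of the curves. -/
def lam (M : VSys J κ) (L : ℝ≥0) (Z : J → PhasePoint) : ℝ≥0 :=
  Real.toNNReal (VLInst442.spd M.Φ (Fintype.card J) (∑ j, ‖(Z j).2‖)) + L

theorem lam_shiftX (M : VSys J κ) (L : ℝ≥0) (a : Space3) (Z : J → PhasePoint) :
    lam M L (shiftX a Z) = lam M L Z := rfl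

theorem measurable_lam (M : VSys J κ) (L : ℝ≥0) : Measurable (lam M L) := by
  unfold lam VLInst442.spd
  fun_prop

theorem abs_clamp_sub_le (r t t' : ℝ) :
    |min (max t 0) r - min (max t' 0) r| ≤ |t - t'| :=
  (abs_min_sub_min_le_max _ _ _ _).trans (by
    rw [sub_self, abs_zero, max_eq_left (abs_nonneg _)]
    refine (abs_max_sub_max_le_max _ _ _ _).trans ?_
    rw [sub_self, abs_zero, max_eq_left (abs_nonneg _)])

theorem lip_crv [Fintype κ] {M : VSys J κ} (hΦ : AdmissiblePotential M.Φ) (hε : 0 < M.ε) (hT : 0 ≤ M.T)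
    {L : ℝ≥0} (hL : ∀ k, LipschitzOnWith L (M.S.c k) (Icc 0 M.T)) (A : Finset J) (q : κ) (j : J)
    (r : Option J) (Z : J → PhasePoint) :
    LipschitzWith (lam M L Z) (crv M A q j r Z) := by
  set V : ℝ := ∑ j, ‖(Z j).2‖ with hV
  have hV' : ∀ j, ‖(Z j).2‖ ≤ V := fun j =>
    Finset.single_le_sum (f := fun j => ‖(Z j).2‖) (fun j _ => norm_nonneg _) (Finset.mem_univ j)
  have hlam : (lam M L Z : ℝ) = VLInst442.spd M.Φ (Fintype.card J) V + L := by
    unfold lam
    rw [NNReal.coe_add, Real.coe_toNNReal _ (VLInst442.spd_nonneg _ _ _)]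
  refine LipschitzWith.of_dist_le_mul fun t t' => ?_
  rw [hlam]
  unfold crv
  by_cases h : M.ok A (thr M r) Z
  · rw [if_pos h, if_pos h]
    have h0 : ∀ s : ℝ, 0 ≤ min (max s 0) (thr M r) := fun s =>
      le_min (le_max_right _ _) (thr_nonneg hT r)
    have h1 : ∀ s : ℝ, min (max s 0) (thr M r) ≤ M.T := fun s =>
      (min_le_right _ _).trans (thr_le M r)
    have h2 : ∀ s : ℝ, M.ok A (min (max s 0) (thr M r)) Z := fun s =>
      VLInst442.ok_anti (min_le_right _ _) h
    have hS : 0 ≤ VLInst442.spd M.Φ (Fintype.card J) V + (L : ℝ) :=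
      add_nonneg (VLInst442.spd_nonneg _ _ _) L.2
    have hcl := abs_clamp_sub_le (thr M r) t t'
    rcases le_total (min (max t 0) (thr M r)) (min (max t' 0) (thr M r)) with hle | hle
    · have h3 := VLInst442.dist_pos_le hΦ hε hL (h2 t') hV' (h0 t) hle (h1 t') q j
      refine h3.trans (mul_le_mul_of_nonneg_left ?_ hS)
      rw [Real.dist_eq]
      refine le_trans ?_ hcl
      rw [abs_sub_comm]
      exact le_abs_self _
    · have h3 := VLInst442.dist_pos_le hΦ hε hL (h2 t) hV' (h0 t') hle (h1 t) q j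
      rw [dist_comm]
      refine h3.trans (mul_le_mul_of_nonneg_left ?_ hS)
      rw [Real.dist_eq]
      exact (le_abs_self _).trans hcl
  · rw [if_neg h, if_neg h, dist_self]
    exact mul_nonneg (add_nonneg (VLInst442.spd_nonneg _ _ _) L.2) dist_nonneg

/-! ### Measurability -/

section meas

variable {Ω : Type} [MeasurableSpace Ω] {M : VSys J κ} {b : Ω → J → ℝ} {Z : Ω → J → PhasePoint}

theorem measurable_thr (M : VSys J κ) (hb : Measurable b) (r : Option J) :
    Measurable fun ω => thr (wb M (b ω)) r := by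
  cases r with
  | none => exact measurable_const
  | some i => exact (measurable_bb M hb i).min measurable_const

theorem measurable_pos (hM : Good M) (hb : Measurable b) (hZ : Measurable Z) (A : Finset J)
    (q : κ) {τ : Ω → ℝ} (hτ : Measurable τ) (j : J) :
    Measurable fun ω => (wb M (b ω)).pos A q (τ ω) (Z ω) j := by
  unfold VSys.pos
  by_cases h : M.o = some j
  · have h' : ∀ ω, (wb M (b ω)).o = some j := fun _ => h
    simp only [h', if_true]
    have hc : Continuous fun t : ℝ => M.S.c q (max 0 (min t M.T)) :=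
      (hM.tubes q).comp_continuous (continuous_const.max (continuous_id.min continuous_const))
        fun t => ⟨le_max_left _ _, max_le hM.T0 (min_le_right _ _)⟩
    exact (((measurable_pi_apply j).comp hZ).fst).add (hc.measurable.comp hτ)
  · have h' : ∀ ω, ¬ (wb M (b ω)).o = some j := fun _ => h
    simp only [h', if_false]
    exact (measurable_st hM hb hZ A hτ j).fst

theorem measurable_crv (hM : Good M) (hb : Measurable b) (hZ : Measurable Z) (A : Finset J)
    (q : κ) (j : J) (r : Option J) (t : ℝ) :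
    Measurable fun ω => crv (wb M (b ω)) A q j r (Z ω) t := by
  unfold crv
  have hthr := measurable_thr (κ := κ) M hb r
  refine Measurable.ite ((rse_ok hM hb hZ A).measurableSet_at hthr) ?_ ?_
  · exact measurable_pos hM hb hZ A q (measurable_const.min hthr) j
  · exact ((measurable_pi_apply j).comp hZ).fst

end meas

/-! ### Absorption of the Lipschitz constant -/

theorem lam_mul_gv_le (Φ : Space3 → ℝ) {γ : ℝ} (hγ : 0 < γ) (L : ℝ≥0) (m : ℕ) :
    ∃ D : ℝ≥0∞, D ≠ ∞ ∧ ∀ v : J → Space3,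
      (1 + ((Real.toNNReal (VLInst442.spd Φ m (∑ j, ‖v j‖)) + L : ℝ≥0) : ℝ≥0∞)) *
        ∏ j, ENNReal.ofReal (Real.exp (-γ * ‖v j‖ ^ 2)) ≤
      D * ∏ j, ENNReal.ofReal (Real.exp (-(γ / 2) * ‖v j‖ ^ 2)) := by
  have hB := stabB_nonneg Φ
  set c : ℝ := (m + 1) * (2 * stabB Φ + 3) with hc
  have hc0 : 0 ≤ c := by positivity
  set c' : ℝ := (Nat.factorial 1 : ℝ) * Real.exp (1 + 1 / (2 * γ)) with hc'
  have hc'0 : 0 ≤ c' := by positivity
  refine ⟨ENNReal.ofReal ((1 + c + L) * c' ^ Fintype.card J), ENNReal.ofReal_ne_top, fun v => ?_⟩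
  set V : ℝ := ∑ j, ‖v j‖ with hV
  have hV0 : 0 ≤ V := Finset.sum_nonneg fun j _ => norm_nonneg _
  have hL0 : (0 : ℝ) ≤ L := L.2
  have hS0 := VLInst442.spd_nonneg Φ m V
  have e1 : (1 + ((Real.toNNReal (VLInst442.spd Φ m V) + L : ℝ≥0) : ℝ≥0∞)) =
      ENNReal.ofReal (1 + (VLInst442.spd Φ m V + L)) := by
    rw [ENNReal.ofReal_add zero_le_one (by positivity), ENNReal.ofReal_one,
      ENNReal.ofReal_add hS0 hL0, ENNReal.coe_add, ENNReal.ofReal_coe_nnreal]
    rfl
  rw [e1, ← ENNReal.ofReal_prod_of_nonneg fun j _ => (Real.exp_pos _).le,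
    ← ENNReal.ofReal_prod_of_nonneg fun j _ => (Real.exp_pos _).le,
    ← ENNReal.ofReal_mul (by positivity), ← ENNReal.ofReal_mul (by positivity)]
  refine ENNReal.ofReal_le_ofReal ?_
  have h1 := VC973.spd_le Φ m hV0
  have h2 : 1 + (VLInst442.spd Φ m V + L) ≤ (1 + c + L) * (1 + V) := by nlinarith [h1, hV0, hL0]
  have h3 := VC973.one_add_sum_le_prod Finset.univ (fun j => ‖v j‖) fun j => norm_nonneg _
  have h4 : ∏ j, (1 + ‖v j‖) ≤ ∏ j, (c' * Real.exp (γ / 2 * ‖v j‖ ^ 2)) := by
    refine Finset.prod_le_prod (fun j _ => by positivity) fun j _ => ?_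
    have := VC973.pow_le_gauss hγ 1 (norm_nonneg (v j))
    rwa [pow_one] at this
  calc (1 + (VLInst442.spd Φ m V + L)) * ∏ j, Real.exp (-γ * ‖v j‖ ^ 2)
      ≤ ((1 + c + L) * ∏ j, (c' * Real.exp (γ / 2 * ‖v j‖ ^ 2))) *
        ∏ j, Real.exp (-γ * ‖v j‖ ^ 2) := by
        refine mul_le_mul_of_nonneg_right ?_ (Finset.prod_nonneg fun j _ => (Real.exp_pos _).le)
        exact h2.trans (mul_le_mul_of_nonneg_left (h3.trans h4) (by positivity))
    _ = (1 + c + L) * ∏ j, (c' * Real.exp (-(γ / 2) * ‖v j‖ ^ 2)) := by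
        rw [mul_assoc, ← Finset.prod_mul_distrib]
        congr 1
        refine Finset.prod_congr rfl fun j _ => ?_
        rw [mul_assoc, ← Real.exp_add]
        congr 2
        ring
    _ = (1 + c + L) * c' ^ Fintype.card J * ∏ j, Real.exp (-(γ / 2) * ‖v j‖ ^ 2) := by
        rw [Finset.prod_mul_distrib, Finset.prod_const, Finset.card_univ]
        ring

end Crest.Agent.R122.BH167

end
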