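import Crest.Agent.R122.BadPos_726
import Crest.Agent.R122.NGmaj_416

/-!
# Row 122 (helper416): statements about the real position of the root of a bad cluster

`Chain726.BadPos Φ ε T te V i t x` (726): the cluster `V` with root `i` is bad and `x` is a possible
real position of its root at time `t`.  `BadVolP`: volume statement with the position of
the root at an arbitrary time as pin, all chains at once.  `HitClass` (helper167): mass of the bad
hits of a structure.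
-/

set_option autoImplicit false
set_option linter.unusedSectionVars false

open MeasureTheory Set Filter Topology
open Crest.AnalysisR.Kinetic
open Crest.Agent.R122.Loc45 Crest.Agent.R122.Flow671 Crest.Agent.R122.Chain726
open Crest.Agent.R122.NG416
open scoped ENNReal NNReal Classical

noncomputable section

namespace Crest.Agent.R122.BadPos416

/-- **Volume of the bad clusters, pinned at the position of the root at time `t`**, uniform in `t`
and in the release chain. -/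
def BadVolP (Φ : Space3 → ℝ) (T te γ : ℝ) (K : ℕ) : Prop :=
  ∀ k ≤ K, ∀ j : Fin k, ∀ δ : ℝ, 0 < δ → ∃ ε₀ : ℝ, 0 < ε₀ ∧ ∀ ε : ℝ, 0 < ε → ε < ε₀ →
    ∀ (t : ℝ) (Ψ : Space3 → ℝ≥0∞), Measurable Ψ → ∃ M : Config k → ℝ≥0∞, Measurable M ∧
      (∀ V ∈ PairExcluded ε k, ∀ x, BadPos Φ ε T te V j t x → Ψ x ≤ M V) ∧
      ∫⁻ V, gwc γ V * M V ≤ ENNReal.ofReal (δ * ε ^ (2 * (k - 1))) * ∫⁻ x, Ψ x

/-- **Mass of the bad hits** (statement of helper167): a structure `G` with a Lipschitz covariant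
curve `c`, hit within `R ε` during `[0, T]` by the root of a bad cluster of at most `K` particles. -/
def HitClass (Φ : Space3 → ℝ) (T te T' : ℝ) : Prop :=
  ∀ (J : Type) [Fintype J] (j₀ : J) (γ R : ℝ) (K : ℕ), 0 < γ →
    ∃ η : ℝ → ℝ≥0∞, Tendsto η (𝓝[>] 0) (𝓝 0) ∧ ∀ ε : ℝ, 0 < ε → ε ≤ 1 →
    ∀ (Ω : Type) [MeasurableSpace Ω] (G : Ω → (J → PhasePoint) → ℝ≥0∞)
      (c : Ω → (J → PhasePoint) → ℝ → Space3) (Λ : Ω → (J → PhasePoint) → ℝ≥0),
      Measurable (Function.uncurry G) → (∀ ω a Z, G ω (shiftX a Z) = G ω Z) →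
      (∀ t, Measurable fun p : Ω × (J → PhasePoint) => c p.1 p.2 t) →
      (∀ ω a Z t, c ω (shiftX a Z) t = c ω Z t + a) →
      (∀ ω Z, LipschitzOnWith (Λ ω Z) (c ω Z) (Icc 0 T)) →
      Measurable (Function.uncurry Λ) → (∀ ω a Z, Λ ω (shiftX a Z) = Λ ω Z) →
      ∃ H : (k : ℕ) → Ω × (J → PhasePoint) × Config k → ℝ≥0∞, (∀ k, Measurable (H k)) ∧
        (∀ k ≤ K, ∀ ω Z, ∀ V ∈ PairExcluded ε k, ∀ i t x, t ∈ Icc 0 T →
          BadPos Φ ε T' te V i t x → dist x (c ω Z t) ≤ R * ε → 1 ≤ H k (ω, Z, V)) ∧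
        ∀ k ≤ K, ∀ (ω : Ω) (i : Fin k) (env : Space3 → ℝ≥0∞), Measurable env →
          (∫⁻ Z, G ω Z * ∫⁻ V : Config k, env (V i).1 *
            ((∏ l, ENNReal.ofReal (Real.exp (-γ * ‖(V l).2‖ ^ 2))) * H k (ω, Z, V))) ≤
          η ε * ENNReal.ofReal (ε ^ 2) ^ k * (∫⁻ x, env x) *
            ∫⁻ Z, hb (Z j₀).1 * (G ω Z * (1 + (Λ ω Z : ℝ≥0∞)))

end Crest.Agent.R122.BadPos416

end
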