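import Crest.Agent.R122.BadPin_350
import Crest.Agent.R122.BadPos_416

/-!
Row 122, helper350: the volume statement of D5 localised at the possible positions of the root at
time `t` (uniformly in `t`).
-/

set_option autoImplicit false
set_option linter.unusedSectionVars false

open MeasureTheory Set Filter Topology
open Crest.AnalysisR.Kinetic
open Crest.Agent.R122.Flow671 Crest.Agent.R122.Loc45 Crest.Agent.R122.Causal291
open Crest.Agent.R122.Omega969 Crest.Agent.R122.Disc416 Crest.Agent.R122.Chain726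
open Crest.Agent.R122.Cherry796
open Crest.Agent.R122.Vol365 (PinMaj eint)
open scoped Classical ENNReal

noncomputable section

namespace Crest.Agent.R122.Flux350

variable {Φ : Space3 → ℝ} {ε : ℝ}

/-! ### The localised bad events of the last group -/

/-- bad group, root position of the group itself -/
def BL1 (Φ : Space3 → ℝ) (ε T te : ℝ) {ι : Type} (i : ι) (t : ℝ) {A : Finset ι}
    (W : A → PhasePoint) (x : Space3) : Prop :=
  ∃ i' : A, (i' : ι) = i ∧ (BadStep Φ ε T i W ∨ TermBad Φ ε T te i W) ∧ x = (flow Φ ε t W i').1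

/-- at least two released particles, root position of any younger group -/
def BL2 (Φ : Space3 → ℝ) (ε T : ℝ) {ι : Type} (i : ι) (t : ℝ) {A : Finset ι}
    (W : A → PhasePoint) (x : Space3) : Prop :=
  ∃ s ∈ Icc 0 T, ∃ (A' : Finset ι) (W' : A' → PhasePoint), Step Φ ε s W W' ∧
    A'.card + 2 ≤ A.card ∧ ∃ (B : Finset ι) (Y : B → PhasePoint) (i' : B), (i' : ι) = i ∧
      x = (flow Φ ε t Y i').1 ∧ Chain Φ ε T A' W' B Y ∧
      ∃ W'' : ({i} : Finset ι) → PhasePoint, Chain Φ ε T B Y {i} W''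

/-- one released particle -/
def BL3 (Φ : Space3 → ℝ) (ε T : ℝ) {ι : Type} (i : ι) (t : ℝ) {A : Finset ι}
    (W : A → PhasePoint) (x : Space3) : Prop :=
  ∃ s ∈ Icc 0 T, ∃ (A' : Finset ι) (W' : A' → PhasePoint), Step Φ ε s W W' ∧
    A'.card + 1 = A.card ∧ ∃ (j : A) (m i' : A'), (i' : ι) = i ∧ (j : ι) ∉ A' ∧
        dist (flow Φ ε s W j).1 (flow Φ ε s W' m).1 = ε ∧
        (inner ℝ ((flow Φ ε s W j).1 - (flow Φ ε s W' m).1)
            ((flow Φ ε s W j).2 - (flow Φ ε s W' m).2) = 0 ∨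
          0 < inner ℝ ((flow Φ ε s W j).1 - (flow Φ ε s W' m).1)
            ((flow Φ ε s W j).2 - (flow Φ ε s W' m).2) ∧
          BadGraft Φ ε T i' s W' m (flow Φ ε s W j)) ∧ x = (flow Φ ε t W' i').1

/-- 726's localised bad event is one of the three -/
lemma badLast_cases {T te t : ℝ} {ι : Type} {i : ι} {A : Finset ι} {W : A → PhasePoint}
    {x : Space3} (h : BadLast Φ ε T te i t W x) :
    BL1 Φ ε T te i t W x ∨ BL2 Φ ε T i t W x ∨ BL3 Φ ε T i t W x := by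
  rcases h with ⟨s, hs, A', W', hst, hb, i', hi', hx⟩ | ⟨-, hb, i', hi', hx⟩ | ⟨hb, i', hi', hx⟩
  · rcases hb with ⟨hc, W'', hch⟩ | ⟨hc, j, m, i2, hi2, hj, hd, hb⟩
    · exact Or.inr (Or.inl ⟨s, hs, A', W', hst, hc, A', W', i', hi', hx, .refl _ _, W'', hch⟩)
    · have : i2 = i' := Subtype.ext (hi2.trans hi'.symm)
      subst this
      exact Or.inr (Or.inr ⟨s, hs, A', W', hst, hc, j, m, i2, hi2, hj, hd, hb, hx⟩)
  · exact Or.inl ⟨i', hi', Or.inl hb, hx⟩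
  · exact Or.inl ⟨i', hi', Or.inr hb, hx⟩

/-! ### The majorants -/

/-- `BL1` -/
theorem bl1_majorant (hΦ : AdmissiblePotential Φ) {μ : ℝ} (hμ : 0 < μ) {T te : ℝ} (hT : 0 ≤ T)
    {ι : Type} [Fintype ι] (i : ι) :
    ∃ q : ℝ → ℝ≥0∞, Tendsto q (𝓝[>] 0) (𝓝 0) ∧ ∀ ε : ℝ, 0 < ε → ε ≤ 1 → ∀ (A : Finset ι) (t : ℝ),
      PosMaj Φ ε μ (fun (W : A → PhasePoint) x => BL1 Φ ε T te i t W x)
        (q ε * ENNReal.ofReal ε ^ (2 * (A.card - 1))) := by
  obtain ⟨q, hq, h⟩ := pin_majorant (te := te) hΦ hμ hT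
    (fun ι _ γ hγ => BadTerm818.term_bad (ι := ι) hΦ hγ te T) i measurable_kw lintegral_kw
  refine ⟨q, hq, fun ε hε hε1 A t => ?_⟩
  by_cases hi : i ∈ A
  swap
  · refine (PosMaj.false (Bad := fun (W : A → PhasePoint) x => BL1 Φ ε T te i t W x) ?_).mono
      (fun W _ x h => h) bot_le
    rintro W - x ⟨i', hi', -⟩
    exact hi (hi' ▸ i'.2)
  obtain ⟨M, hM, hM1, hM2⟩ := h ε hε hε1 A
  refine (posMaj_of_one (Bad := fun W : A → PhasePoint => BadStep Φ ε T i W ∨ TermBad Φ ε T te i W)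
    hΦ hM ?_ hM2 (measurable_posT hΦ hε t (⟨i, hi⟩ : A)) (posT_shift hΦ hε t (⟨i, hi⟩ : A))).mono ?_ le_rfl
  · intro W hW hb
    obtain ⟨p, hp⟩ := exists_badPin hb
    exact ⟨p, fun a => hM1 _ ((Dom_shiftX a).2 hW) _ (hp.shift hΦ hε a)⟩
  · rintro W - x ⟨i', hi', hb, hx⟩
    have : i' = ⟨i, hi⟩ := Subtype.ext hi'
    subst this
    exact ⟨hb, hx⟩

/-- every configuration of one particle -/
lemma pinMaj_single (Φ : Space3 → ℝ) (ε : ℝ) (γ : ℝ) {κ : Type} [Fintype κ] [Unique κ] :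
    PinMaj Φ ε γ (fun _ : κ → PhasePoint => True) (Vol365.gv γ) := by
  intro f hf
  refine ⟨fun W => f (W default).1, hf.comp ((measurable_pi_apply _).fst), ?_, ?_⟩
  · intro W _ _
    exact ⟨(W default).1, fun a => le_of_eq rfl⟩
  · exact (Vol365.lintegral_single f hf).le

/-- `BL2` -/
theorem bl2_majorant (hΦ : AdmissiblePotential Φ) {μ : ℝ} (hμ : 0 < μ) {T : ℝ} (hT : 0 ≤ T)
    {ι : Type} [Fintype ι] (i : ι) :
    ∃ C : ℝ≥0∞, C ≠ ∞ ∧ ∀ ε : ℝ, 0 < ε → ε ≤ 1 → ∀ (A : Finset ι) (t : ℝ),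
      PosMaj Φ ε μ (fun (W : A → PhasePoint) x => BL2 Φ ε T i t W x)
        (C * ENNReal.ofReal ε * ENNReal.ofReal ε ^ (2 * (A.card - 1))) := by
  obtain ⟨C₁, hC₁, h1⟩ := Vol365.exists_pinMaj_chain hΦ hT (Fintype.card ι) (γ₁ := μ / 4)
    (γ₂ := μ / 3) (by linarith) (by linarith)
  obtain ⟨C₂, hC₂, h2⟩ := exists_posMaj_chain hΦ hT (Fintype.card ι) (γ₁ := μ / 3)
    (γ₂ := μ / 2) (by linarith) (by linarith)
  obtain ⟨C₃, hC₃, h3⟩ := exists_posMaj_step hΦ hT (Fintype.card ι) (γ₁ := μ / 2)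
    (γ₂ := μ) (by linarith) (by linarith)
  set N : ℝ≥0∞ := (Fintype.card (Finset ι) : ℝ≥0∞) with hN
  have hNt : N ≠ ∞ := ENNReal.natCast_ne_top _
  refine ⟨N * (N * (C₃ * (C₂ * (C₁ * Vol365.gv (μ / 4))))), ENNReal.mul_ne_top hNt
    (ENNReal.mul_ne_top hNt (ENNReal.mul_ne_top hC₃ (ENNReal.mul_ne_top hC₂
      (ENNReal.mul_ne_top hC₁ (Vol365.gv_ne_top (by linarith)))))), ?_⟩
  intro ε hε hε1 A t
  have hε1' : ENNReal.ofReal ε ≤ 1 := by
    rw [← ENNReal.ofReal_one]; exact ENNReal.ofReal_le_ofReal hε1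
  -- one pair `(A', B)`
  have key : ∀ A' B : Finset ι, PosMaj Φ ε μ (fun (W : A → PhasePoint) x =>
      ∃ s ∈ Icc 0 T, ∃ W' : A' → PhasePoint, Step Φ ε s W W' ∧
        (A'.card + 2 ≤ A.card ∧ ∃ (Y : B → PhasePoint) (i' : B), (i' : ι) = i ∧
          x = (flow Φ ε t Y i').1 ∧ Chain Φ ε T A' W' B Y ∧
          ∃ W'' : ({i} : Finset ι) → PhasePoint, Chain Φ ε T B Y {i} W''))
      (C₃ * (C₂ * (C₁ * Vol365.gv (μ / 4))) *
        (ENNReal.ofReal ε * ENNReal.ofReal ε ^ (2 * (A.card - 1)))) := by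
    intro A' B
    by_cases hc : A'.card + 2 ≤ A.card ∧ B ⊆ A' ∧ i ∈ B
    swap
    · refine (PosMaj.false (Bad := fun (W : A → PhasePoint) x =>
        ∃ s ∈ Icc 0 T, ∃ W' : A' → PhasePoint, Step Φ ε s W W' ∧
        (A'.card + 2 ≤ A.card ∧ ∃ (Y : B → PhasePoint) (i' : B), (i' : ι) = i ∧
          x = (flow Φ ε t Y i').1 ∧ Chain Φ ε T A' W' B Y ∧
          ∃ W'' : ({i} : Finset ι) → PhasePoint, Chain Φ ε T B Y {i} W'')) ?_).mono
        (fun W _ x h => h) bot_le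
      rintro W - x ⟨s, -, W', -, hcard, Y, i', hi', -, hch, -⟩
      exact hc ⟨hcard, hch.subset, hi' ▸ i'.2⟩
    obtain ⟨hcard, hBA, hi⟩ := hc
    have hBcard := Finset.card_le_card hBA
    have hB1 : 1 ≤ B.card := Finset.card_pos.2 ⟨i, hi⟩
    have s1 := h1 ε hε hε1 ι B {i} (Finset.card_le_univ B) (fun _ => True) _
      (pinMaj_single Φ ε (μ / 4))
    have s2 := posMaj_of_pin hΦ s1 (measurable_posT hΦ hε t (⟨i, hi⟩ : B))
      (posT_shift hΦ hε t (⟨i, hi⟩ : B))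
    have s3 := h2 ε hε hε1 ι A' B (Finset.card_le_univ A') _ _ s2
    have s4 := h3 ε hε ι A A' (Finset.card_le_univ A) _ _ s3
    refine s4.mono ?_ ?_
    · rintro W - x ⟨s, hs, W', hst, -, Y, i', hi', hx, hch, W'', hch'⟩
      have : i' = ⟨i, hi⟩ := Subtype.ext hi'
      subst this
      exact ⟨s, hs, W', hst, Y, hch, ⟨W'', hch', trivial⟩, hx⟩
    · rw [Finset.card_singleton]
      calc C₃ * ENNReal.ofReal ε ^ (2 + 3 * (A.card - A'.card - 1)) *
            (C₂ * ENNReal.ofReal ε ^ (2 * (A'.card - B.card)) *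
              (C₁ * ENNReal.ofReal ε ^ (2 * (B.card - 1)) * Vol365.gv (μ / 4)))
          = C₃ * (C₂ * (C₁ * Vol365.gv (μ / 4))) *
              (ENNReal.ofReal ε ^ (2 + 3 * (A.card - A'.card - 1)) *
                ENNReal.ofReal ε ^ (2 * (A'.card - B.card)) *
                ENNReal.ofReal ε ^ (2 * (B.card - 1))) := by ring
        _ ≤ _ := by
            refine mul_le_mul_right ?_ _
            rw [← pow_add, ← pow_add, ← pow_succ']
            refine pow_le_pow_right_of_le_one' hε1' ?_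
            omega
  have s5 := PosMaj.finset hΦ hε (Finset.univ : Finset (Finset ι)) fun A' _ =>
    PosMaj.finset hΦ hε (Finset.univ : Finset (Finset ι)) fun B _ => key A' B
  refine s5.mono ?_ (le_of_eq ?_)
  · rintro W - x ⟨s, hs, A', W', hst, hcard, B, Y, i', h⟩
    exact ⟨A', Finset.mem_univ _, B, Finset.mem_univ _, s, hs, W', hst, hcard, Y, i', h⟩
  · simp only [Finset.sum_const, nsmul_eq_mul, Finset.card_univ]
    rw [← hN]
    ring

/-- `BL3` -/
theorem bl3_majorant (hΦ : AdmissiblePotential Φ) {μ : ℝ} (hμ : 0 < μ) (T : ℝ)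
    {ι : Type} [Fintype ι] (i : ι) :
    ∃ q : ℝ → ℝ≥0∞, Tendsto q (𝓝[>] 0) (𝓝 0) ∧ ∀ ε : ℝ, 0 < ε → ε ≤ 1 → ∀ (A : Finset ι) (t : ℝ),
      PosMaj Φ ε μ (fun (W : A → PhasePoint) x => BL3 Φ ε T i t W x)
        (q ε * ENNReal.ofReal ε ^ (2 * (A.card - 1))) := by
  obtain ⟨q, hq, h⟩ := BadPin416.bad_one_pin (ι := ι) hΦ hμ T
  set N : ℝ≥0∞ := (Fintype.card (Finset ι) : ℝ≥0∞) with hN
  have hNt : N ≠ ∞ := ENNReal.natCast_ne_top _
  refine ⟨fun ε => N * q ε, ?_, ?_⟩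
  · have e2 := ENNReal.Tendsto.const_mul (a := N) hq (Or.inr hNt)
    simpa using e2
  intro ε hε hε1 A t
  have key : ∀ A' : Finset ι, PosMaj Φ ε μ (fun (W : A → PhasePoint) x =>
      ∃ s ∈ Icc 0 T, ∃ W' : A' → PhasePoint, Step Φ ε s W W' ∧
    A'.card + 1 = A.card ∧ ∃ (j : A) (m i' : A'), (i' : ι) = i ∧ (j : ι) ∉ A' ∧
        dist (flow Φ ε s W j).1 (flow Φ ε s W' m).1 = ε ∧
        (inner ℝ ((flow Φ ε s W j).1 - (flow Φ ε s W' m).1)
            ((flow Φ ε s W j).2 - (flow Φ ε s W' m).2) = 0 ∨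
          0 < inner ℝ ((flow Φ ε s W j).1 - (flow Φ ε s W' m).1)
            ((flow Φ ε s W j).2 - (flow Φ ε s W' m).2) ∧
          BadGraft Φ ε T i' s W' m (flow Φ ε s W j)) ∧ x = (flow Φ ε t W' i').1)
      (q ε * ENNReal.ofReal ε ^ (2 * (A.card - 1))) := by
    intro A'
    by_cases hc : A'.card + 1 = A.card ∧ i ∈ A'
    swap
    · refine (PosMaj.false ?_).mono (fun W _ x h => h) bot_le
      rintro W - x ⟨s, -, W', -, hcard, j, m, i', hi', -⟩
      exact hc ⟨hcard, hi' ▸ i'.2⟩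
    obtain ⟨hcard, hi⟩ := hc
    intro Ψ hΨ
    obtain ⟨M, hM, hM1, hM2⟩ := h ε hε A A' hcard (fun Y => (flow Φ ε t Y ⟨i, hi⟩).1)
      ⟨measurable_posT hΦ hε t (⟨i, hi⟩ : A'), posT_shift hΦ hε t (⟨i, hi⟩ : A')⟩ Ψ hΨ
    refine ⟨M, hM, ?_, ?_⟩
    · rintro W - x ⟨s, hs, W', hst, -, j, m, i', hi', hj, hd, hb, hx⟩
      have : i' = ⟨i, hi⟩ := Subtype.ext hi'
      rw [hx, this]
      exact hM1 W s W' hs hst j m i' hj hd hb
    · refine (show eint Φ ε μ M ≤ _ from hM2).trans (le_of_eq ?_)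
      rw [ENNReal.ofReal_pow hε.le]
  have s5 := PosMaj.finset hΦ hε (Finset.univ : Finset (Finset ι)) fun A' _ => key A'
  refine s5.mono ?_ (le_of_eq ?_)
  · rintro W - x ⟨s, hs, A', W', h⟩
    exact ⟨A', Finset.mem_univ _, s, hs, W', h⟩
  · rw [Finset.sum_const, nsmul_eq_mul, Finset.card_univ, ← hN]
    ring

/-- 726's localised bad event -/
theorem badLast_majorant (hΦ : AdmissiblePotential Φ) {μ : ℝ} (hμ : 0 < μ) {T te : ℝ} (hT : 0 ≤ T)
    {ι : Type} [Fintype ι] (i : ι) :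
    ∃ q : ℝ → ℝ≥0∞, Tendsto q (𝓝[>] 0) (𝓝 0) ∧ ∀ ε : ℝ, 0 < ε → ε ≤ 1 → ∀ (A : Finset ι) (t : ℝ),
      PosMaj Φ ε μ (fun (W : A → PhasePoint) x => BadLast Φ ε T te i t W x)
        (q ε * ENNReal.ofReal ε ^ (2 * (A.card - 1))) := by
  obtain ⟨q1, hq1, h1⟩ := bl1_majorant (te := te) hΦ hμ hT i
  obtain ⟨C, hC, h2⟩ := bl2_majorant hΦ hμ hT i
  obtain ⟨q3, hq3, h3⟩ := bl3_majorant hΦ hμ T i
  refine ⟨fun ε => q1 ε + (C * ENNReal.ofReal ε + q3 ε), ?_, ?_⟩
  · have e0 : Tendsto (fun ε : ℝ => ENNReal.ofReal ε) (𝓝[>] 0) (𝓝 0) := by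
      have h := (ENNReal.continuous_ofReal.tendsto (0 : ℝ)).mono_left
        (nhdsWithin_le_nhds : 𝓝[>] (0 : ℝ) ≤ 𝓝 0)
      rwa [ENNReal.ofReal_zero] at h
    have e1 := ENNReal.Tendsto.const_mul (a := C) e0 (Or.inr hC)
    simpa using hq1.add (e1.add hq3)
  intro ε hε hε1 A t
  refine ((h1 ε hε hε1 A t).or hΦ hε ((h2 ε hε hε1 A t).or hΦ hε (h3 ε hε hε1 A t))).mono ?_
    (le_of_eq (by ring))
  intro W _ x h
  exact badLast_cases h

/-- **The volume statement of D5, localised at the position of the root at time `t`.** -/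
theorem badVolP (hΦ : AdmissiblePotential Φ) {T : ℝ} (te : ℝ) (hT : 0 ≤ T) {γ : ℝ} (hγ : 0 < γ)
    (K : ℕ) : BadPos416.BadVolP Φ T te γ K := by
  intro k _ j δ hδ
  obtain ⟨q, hq, hlast⟩ := badLast_majorant (te := te) hΦ hγ hT j
  obtain ⟨C, hC, hchain⟩ := exists_posMaj_chain hΦ hT k (γ₁ := γ) (γ₂ := 2 * γ) hγ (by linarith)
  set N : ℝ≥0∞ := (Fintype.card (Finset (Fin k)) : ℝ≥0∞) with hN
  have hNt : N ≠ ∞ := ENNReal.natCast_ne_top _
  have hlim : Tendsto (fun ε => N * (C * q ε)) (𝓝[>] 0) (𝓝 0) := by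
    have h := ENNReal.Tendsto.const_mul (a := N)
      (ENNReal.Tendsto.const_mul (a := C) hq (Or.inr hC)) (Or.inr hNt)
    simpa using h
  have hev := (ENNReal.tendsto_nhds_zero.1 hlim) _ (ENNReal.ofReal_pos.2 hδ)
  obtain ⟨b, hb0, hbsub⟩ := (mem_nhdsGT_iff_exists_Ioo_subset).1 hev
  have hb0' : (0 : ℝ) < b := hb0
  refine ⟨min b 1, lt_min hb0' one_pos, fun ε hε hε₀ t Ψ hΨ => ?_⟩
  have hε1 : ε ≤ 1 := hε₀.le.trans (min_le_right _ _)
  have hε1' : ENNReal.ofReal ε ≤ 1 := by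
    rw [← ENNReal.ofReal_one]; exact ENNReal.ofReal_le_ofReal hε1
  have hsmall : N * (C * q ε) ≤ ENNReal.ofReal δ :=
    hbsub ⟨hε, hε₀.trans_le (min_le_left _ _)⟩
  -- all groups
  have hall : PosMaj Φ ε (2 * γ) (fun (W : ↥(Finset.univ : Finset (Fin k)) → PhasePoint) x =>
      ∃ (A : Finset (Fin k)), A ∈ Finset.univ ∧ ∃ W' : A → PhasePoint,
        Chain Φ ε T Finset.univ W A W' ∧ BadLast Φ ε T te j t W' x)
      (ENNReal.ofReal (δ * ε ^ (2 * (k - 1)))) := by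
    refine (PosMaj.finset hΦ hε (Finset.univ : Finset (Finset (Fin k))) fun A _ =>
      hchain ε hε hε1 (Fin k) Finset.univ A (by simp) _ _ (hlast ε hε hε1 A t)).mono
      (fun W _ x h => h) ?_
    have h3 : ∀ A : Finset (Fin k), C * ENNReal.ofReal ε ^
        (2 * ((Finset.univ : Finset (Fin k)).card - A.card)) *
          (q ε * ENNReal.ofReal ε ^ (2 * (A.card - 1))) ≤
        C * q ε * ENNReal.ofReal ε ^ (2 * (k - 1)) := by
      intro A
      have hpow : ENNReal.ofReal ε ^ (2 * ((Finset.univ : Finset (Fin k)).card - A.card)) *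
          ENNReal.ofReal ε ^ (2 * (A.card - 1)) ≤ ENNReal.ofReal ε ^ (2 * (k - 1)) := by
        rw [← pow_add]
        refine pow_le_pow_right_of_le_one' hε1' ?_
        have := Finset.card_le_univ A
        rw [Finset.card_univ]
        rw [Fintype.card_fin] at this ⊢
        omega
      calc C * ENNReal.ofReal ε ^ (2 * ((Finset.univ : Finset (Fin k)).card - A.card)) *
            (q ε * ENNReal.ofReal ε ^ (2 * (A.card - 1)))
          = C * q ε * (ENNReal.ofReal ε ^ (2 * ((Finset.univ : Finset (Fin k)).card - A.card)) *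
            ENNReal.ofReal ε ^ (2 * (A.card - 1))) := by ring
        _ ≤ _ := mul_le_mul_right hpow _
    refine (Finset.sum_le_card_nsmul _ _ _ fun A _ => h3 A).trans ?_
    rw [nsmul_eq_mul, Finset.card_univ, ENNReal.ofReal_mul hδ.le, ENNReal.ofReal_pow hε.le,
      ← mul_assoc]
    refine mul_le_mul_left ?_ _
    rw [← hN]
    exact hsmall
  obtain ⟨G, hG, hG1, hG2⟩ := hall Ψ hΨ
  set σ : (Finset.univ : Finset (Fin k)) ≃ Fin k :=
    Equiv.subtypeUnivEquiv fun x => Finset.mem_univ x with hσ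
  have hGσ : Measurable fun V : Config k => G (fun x => V (σ x)) :=
    Vol365.measurable_of_equiv σ hG
  refine ⟨(PairExcluded ε k).indicator fun V => G (fun x => V (σ x)),
    hGσ.indicator (GC311.measurableSet_pairExcluded ε k), ?_, ?_⟩
  · rintro V hV x ⟨A, W, hch, hbad⟩
    rw [indicator_of_mem hV]
    have hdom : grp Finset.univ V ∈ Dom Φ (Finset.univ : Finset (Fin k)) := by
      refine Or.inr fun y z hyz h => ?_
      have h1 := hV y z fun h' => hyz (Subtype.ext h')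
      have h2 : (V y).1 = (V z).1 := h
      rw [h2, dist_self] at h1
      linarith
    exact hG1 _ hdom x ⟨A, Finset.mem_univ A, W, hch, hbad⟩
  · have h1 : ∫⁻ V : Config k, NG416.gwc γ V * (PairExcluded ε k).indicator
        (fun V => G (fun x => V (σ x))) V ≤
        eint Φ ε (2 * γ) fun V : Config k => G (fun x => V (σ x)) := by
      unfold Vol365.eint
      refine lintegral_mono fun V => ?_
      by_cases hV : V ∈ PairExcluded ε k
      · rw [indicator_of_mem hV, NG416.gwc_eq_exp, energy_pairExcluded hΦ hε hV]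
      · rw [indicator_of_notMem hV, mul_zero]
        exact bot_le
    refine h1.trans ?_
    have h2 : eint Φ ε (2 * γ) (fun V : Config k => G (fun x => V (σ x))) =
        eint Φ ε (2 * γ) fun W => G W :=
      Vol365.eint_equiv σ hG (Vol365.measurable_energy' hΦ hε _)
    rw [h2]
    exact hG2

end Crest.Agent.R122.Flux350

end
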