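import Crest.Agent.R122.BadMove_416

/-!
# Row 122 (helper416): `HitClass` from the volume statement `BadVolP`
-/

set_option autoImplicit false
set_option linter.unusedSectionVars false
set_option maxHeartbeats 400000

open MeasureTheory Set Filter Topology
open Crest.AnalysisR.Kinetic
open Crest.Agent.R122.Loc45 Crest.Agent.R122.Vol365 Crest.Agent.R122.GC311
open Crest.Agent.R122.Flow671 Crest.Agent.R122.NG416 Crest.Agent.R122.HitAbs416
open Crest.Agent.R122.BadPos416 Crest.Agent.R122.Chain726 Crest.Agent.R122.BadMove416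
open scoped ENNReal NNReal Classical

noncomputable section

namespace Crest.Agent.R122.HitClass416

/-! ## Change of pin between two groups -/

section pin

variable {J κ : Type*} [Fintype J] [Fintype κ]

/-- joint translation invariance of the product measure -/
theorem lintegral_shift2 (a : Space3) {F : (J → PhasePoint) → (κ → PhasePoint) → ℝ≥0∞} :
    ∫⁻ Z, ∫⁻ V, F (shiftX a Z) (shiftX a V) = ∫⁻ Z, ∫⁻ V, F Z V := by
  have h1 : ∀ Z, ∫⁻ V, F (shiftX a Z) (shiftX a V) = ∫⁻ V, F (shiftX a Z) V := fun Z =>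
    lintegral_shiftX a fun V => F (shiftX a Z) V
  simp_rw [h1]
  exact lintegral_shiftX a fun Z => ∫⁻ V, F Z V

theorem pin_switch {F : (J → PhasePoint) → (κ → PhasePoint) → ℝ≥0∞}
    (hF : Measurable (Function.uncurry F))
    (hinv : ∀ a Z V, F (shiftX a Z) (shiftX a V) = F Z V) {q : (J → PhasePoint) → Space3}
    (hq : Pin q) {r : (κ → PhasePoint) → Space3} (hr : Pin r) {h h' : Space3 → ℝ≥0∞}
    (hh : Measurable h) (hh' : Measurable h') (h1 : ∫⁻ x, h' x = 1) :
    ∫⁻ Z, ∫⁻ V, h (r V) * F Z V = (∫⁻ x, h x) * ∫⁻ Z, ∫⁻ V, h' (q Z) * F Z V := by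
  have mF : ∀ Z, Measurable fun V => F Z V := fun Z =>
    hF.comp (measurable_const.prodMk measurable_id)
  -- insert the integral of `h'`
  have e1 : ∀ (Z : J → PhasePoint) (V : κ → PhasePoint),
      h (r V) * F Z V = ∫⁻ a, h' (q (shiftX a Z)) * (h (r V) * F Z V) := by
    intro Z V
    have hm : Measurable fun a : Space3 => h' (q (shiftX a Z)) :=
      (hh'.comp hq.1).comp (measurable_shiftX2.comp (measurable_id.prodMk measurable_const))
    rw [lintegral_mul_const _ hm]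
    have : ∫⁻ a, h' (q (shiftX a Z)) = 1 := by
      simp_rw [hq.2]
      rw [lintegral_add_left_eq_self (fun a => h' a) (q Z), h1]
    rw [this, one_mul]
  have mG : Measurable fun p : ((J → PhasePoint) × (κ → PhasePoint)) × Space3 =>
      h' (q (shiftX p.2 p.1.1)) * (h (r p.1.2) * F p.1.1 p.1.2) := by
    refine Measurable.mul ?_ (Measurable.mul ?_ ?_)
    · exact (hh'.comp hq.1).comp (measurable_shiftX2.comp (measurable_snd.prodMk measurable_fst.fst))
    · exact (hh.comp hr.1).comp measurable_fst.snd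
    · exact hF.comp measurable_fst
  have mG' : Measurable fun p : ((J → PhasePoint) × (κ → PhasePoint)) × Space3 =>
      h' (q p.1.1) * (h (r (shiftX (-p.2) p.1.2)) * F p.1.1 p.1.2) := by
    refine Measurable.mul ?_ (Measurable.mul ?_ ?_)
    · exact (hh'.comp hq.1).comp measurable_fst.fst
    · exact (hh.comp hr.1).comp (measurable_shiftX2.comp (measurable_snd.neg.prodMk measurable_fst.snd))
    · exact hF.comp measurable_fst
  -- Tonelli for three variables
  have swap : ∀ {G : (J → PhasePoint) → (κ → PhasePoint) → Space3 → ℝ≥0∞},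
      (Measurable fun p : ((J → PhasePoint) × (κ → PhasePoint)) × Space3 => G p.1.1 p.1.2 p.2) →
      ∫⁻ Z, ∫⁻ V, ∫⁻ a, G Z V a = ∫⁻ a, ∫⁻ Z, ∫⁻ V, G Z V a := by
    intro G hG
    have m1 : ∀ Z, Measurable fun p : (κ → PhasePoint) × Space3 => G Z p.1 p.2 := fun Z =>
      hG.comp ((measurable_const.prodMk measurable_fst).prodMk measurable_snd)
    have s1 : ∀ Z, ∫⁻ V, ∫⁻ a, G Z V a = ∫⁻ a, ∫⁻ V, G Z V a := fun Z =>
      lintegral_lintegral_swap (μ := (volume : Measure (κ → PhasePoint)))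
        (ν := (volume : Measure Space3)) (f := fun V a => G Z V a) (m1 Z).aemeasurable
    simp_rw [s1]
    have m2 : Measurable fun p : (J → PhasePoint) × Space3 => ∫⁻ V, G p.1 V p.2 := by
      have m3 : Measurable fun p : ((J → PhasePoint) × Space3) × (κ → PhasePoint) =>
          G p.1.1 p.2 p.1.2 :=
        hG.comp ((measurable_fst.fst.prodMk measurable_snd).prodMk measurable_fst.snd)
      exact m3.lintegral_prod_right'
    exact lintegral_lintegral_swap (μ := (volume : Measure (J → PhasePoint)))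
      (ν := (volume : Measure Space3)) (f := fun Z a => ∫⁻ V, G Z V a) m2.aemeasurable
  calc ∫⁻ Z, ∫⁻ V, h (r V) * F Z V
      = ∫⁻ Z, ∫⁻ V, ∫⁻ a, h' (q (shiftX a Z)) * (h (r V) * F Z V) :=
        lintegral_congr fun Z => lintegral_congr fun V => e1 Z V
    _ = ∫⁻ a, ∫⁻ Z, ∫⁻ V, h' (q (shiftX a Z)) * (h (r V) * F Z V) :=
        swap (G := fun Z V a => h' (q (shiftX a Z)) * (h (r V) * F Z V)) mG
    _ = ∫⁻ a, ∫⁻ Z, ∫⁻ V, h' (q Z) * (h (r (shiftX (-a) V)) * F Z V) := by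
        refine lintegral_congr fun a => ?_
        rw [← lintegral_shift2 (-a) (F := fun Z V => h' (q (shiftX a Z)) * (h (r V) * F Z V))]
        refine lintegral_congr fun Z => lintegral_congr fun V => ?_
        rw [shiftX_neg, hinv]
    _ = ∫⁻ Z, ∫⁻ V, ∫⁻ a, h' (q Z) * (h (r (shiftX (-a) V)) * F Z V) :=
        (swap (G := fun Z V a => h' (q Z) * (h (r (shiftX (-a) V)) * F Z V)) mG').symm
    _ = ∫⁻ Z, ∫⁻ V, (∫⁻ x, h x) * (h' (q Z) * F Z V) := by
        refine lintegral_congr fun Z => lintegral_congr fun V => ?_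
        have hm : Measurable fun a : Space3 => h (r (shiftX (-a) V)) :=
          (hh.comp hr.1).comp (measurable_shiftX2.comp (measurable_id.neg.prodMk measurable_const))
        rw [lintegral_const_mul _ (hm.mul_const _), lintegral_mul_const _ hm]
        have : ∫⁻ a, h (r (shiftX (-a) V)) = ∫⁻ x, h x := by
          simp_rw [hr.2]
          rw [lintegral_neg_eq_self (μ := (volume : Measure Space3)) (fun a => h (r V + a))]
          exact lintegral_add_left_eq_self (fun a => h a) (r V)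
        rw [this]
        ring
    _ = _ := by
        have m4 : Measurable fun p : (J → PhasePoint) × (κ → PhasePoint) =>
            h' (q p.1) * F p.1 p.2 := ((hh'.comp hq.1).comp measurable_fst).mul hF
        have m5 : ∀ Z, Measurable fun V => h' (q Z) * F Z V := fun Z => (mF Z).const_mul _
        have e2 : ∀ Z, ∫⁻ V, (∫⁻ x, h x) * (h' (q Z) * F Z V) =
            (∫⁻ x, h x) * ∫⁻ V, h' (q Z) * F Z V := fun Z => lintegral_const_mul _ (m5 Z)
        simp_rw [e2]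
        exact lintegral_const_mul _ m4.lintegral_prod_right'

end pin

/-- The bound at fixed `ε`. -/
def HitAt (Φ : Space3 → ℝ) (T te T' : ℝ) (J : Type) [Fintype J] (j₀ : J) (γ R : ℝ) (K : ℕ)
    (ε : ℝ) (δ : ℝ≥0∞) : Prop :=
  ∀ (Ω : Type) [MeasurableSpace Ω] (G : Ω → (J → PhasePoint) → ℝ≥0∞)
      (c : Ω → (J → PhasePoint) → ℝ → Space3) (Λ : Ω → (J → PhasePoint) → ℝ≥0),
      Measurable (Function.uncurry G) → (∀ ω a Z, G ω (shiftX a Z) = G ω Z) →
      (∀ t, Measurable fun p : Ω × (J → PhasePoint) => c p.1 p.2 t) →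
      (∀ ω a Z t, c ω (shiftX a Z) t = c ω Z t + a) →
      (∀ ω Z, LipschitzOnWith (Λ ω Z) (c ω Z) (Icc 0 T)) →
      Measurable (Function.uncurry Λ) → (∀ ω a Z, Λ ω (shiftX a Z) = Λ ω Z) →
      ∃ H : (k : ℕ) → Ω × (J → PhasePoint) × Config k → ℝ≥0∞, (∀ k, Measurable (H k)) ∧
        (∀ k ≤ K, ∀ ω Z, ∀ V ∈ PairExcluded ε k, ∀ i t x, t ∈ Icc 0 T →
          BadPos Φ ε T' te V i t x → dist x (c ω Z t) ≤ R * ε → 1 ≤ H k (ω, Z, V)) ∧
        ∀ k ≤ K, ∀ (ω : Ω) (i : Fin k) (env : Space3 → ℝ≥0∞), Measurable env →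
          (∫⁻ Z, G ω Z * ∫⁻ V : Config k, env (V i).1 *
            ((∏ l, ENNReal.ofReal (Real.exp (-γ * ‖(V l).2‖ ^ 2))) * H k (ω, Z, V))) ≤
          δ * ENNReal.ofReal (ε ^ 2) ^ k * (∫⁻ x, env x) *
            ∫⁻ Z, hb (Z j₀).1 * (G ω Z * (1 + (Λ ω Z : ℝ≥0∞)))

section

variable {Φ : Space3 → ℝ} {T te T' : ℝ} {J : Type} [Fintype J] {j₀ : J} {γ R : ℝ} {K : ℕ}

theorem HitAt.mono {ε : ℝ} {δ δ' : ℝ≥0∞} (h : HitAt Φ T te T' J j₀ γ R K ε δ) (hδ : δ ≤ δ') :
    HitAt Φ T te T' J j₀ γ R K ε δ' := by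
  intro Ω _ G c Λ h1 h2 h3 h4 h5 h6 h7
  obtain ⟨H, hH1, hH2, hH3⟩ := h Ω G c Λ h1 h2 h3 h4 h5 h6 h7
  refine ⟨H, hH1, hH2, fun k hk ω i env henv => (hH3 k hk ω i env henv).trans ?_⟩
  exact mul_le_mul_left (mul_le_mul_left (mul_le_mul_left hδ _) _) _

theorem gauss_eq_gwc (γ : ℝ) {k : ℕ} (V : Config k) :
    ∏ l, ENNReal.ofReal (Real.exp (-γ * ‖(V l).2‖ ^ 2)) = gwc γ V := by
  unfold gwc gw
  refine Finset.prod_congr rfl fun l _ => ?_
  rw [neg_mul]

/-- the trivial bound -/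
theorem hitAt_top {ε : ℝ} (hε : 0 < ε) : HitAt Φ T te T' J j₀ γ R K ε ∞ := by
  intro Ω _ G c Λ h1 h2 h3 h4 h5 h6 h7
  refine ⟨fun _ _ => 1, fun _ => measurable_const, fun _ _ _ _ _ _ _ _ _ _ _ _ => le_rfl, ?_⟩
  intro k hk ω i env henv
  have hε2 : ENNReal.ofReal (ε ^ 2) ^ k ≠ 0 := pow_ne_zero _ (ENNReal.ofReal_pos.2 (by positivity)).ne'
  have hGm : Measurable (G ω) := h1.comp (measurable_const.prodMk measurable_id)
  simp only [gauss_eq_gwc, mul_one]
  have e1 : ∫⁻ V : Config k, env (V i).1 * gwc γ V =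
      (∫⁻ x, env x) * ∫⁻ V : Config k, hb (V i).1 * gwc γ V :=
    lintegral_pin (pin_apply i) (pin_apply i) (tinv_gwc γ) henv measurable_hb lintegral_hb
  rw [e1]
  have e2 : ∫⁻ Z, G ω Z * ((∫⁻ x, env x) * ∫⁻ V : Config k, hb (V i).1 * gwc γ V) =
      (∫⁻ Z, G ω Z) * ((∫⁻ x, env x) * ∫⁻ V : Config k, hb (V i).1 * gwc γ V) :=
    lintegral_mul_const _ hGm
  rw [e2]
  by_cases he : ∫⁻ x, env x = 0
  · simp [he]
  by_cases hg : ∫⁻ Z, hb (Z j₀).1 * (G ω Z * (1 + (Λ ω Z : ℝ≥0∞))) = 0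
  · have h8 : ∫⁻ Z, hb (Z j₀).1 * (G ω Z * avg (fun _ => 1) Z) = 0 := by
      have hle : ∫⁻ Z, hb (Z j₀).1 * (G ω Z * avg (fun _ => 1) Z) ≤
          ∫⁻ Z, ∞ * (hb (Z j₀).1 * (G ω Z * (1 + (Λ ω Z : ℝ≥0∞)))) := by
        refine lintegral_mono fun Z => ?_
        have h9 : avg (fun _ : J → PhasePoint => (1 : ℝ≥0∞)) Z ≤ ∞ * (1 + (Λ ω Z : ℝ≥0∞)) := by
          rw [ENNReal.top_mul (by simp)]
          exact le_top
        calc hb (Z j₀).1 * (G ω Z * avg (fun _ => 1) Z)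
            ≤ hb (Z j₀).1 * (G ω Z * (∞ * (1 + (Λ ω Z : ℝ≥0∞)))) :=
              mul_le_mul_right (mul_le_mul_right h9 _) _
          _ = _ := by ring
      have hm : Measurable fun Z => hb (Z j₀).1 * (G ω Z * (1 + (Λ ω Z : ℝ≥0∞))) := by
        have h10 : Measurable (Λ ω) := h6.comp (measurable_const.prodMk measurable_id)
        exact (measurable_hb.comp (measurable_pi_apply j₀).fst).mul
          (hGm.mul (h10.coe_nnreal_ennreal.const_add 1))
      have h10 : ∫⁻ Z, ∞ * (hb (Z j₀).1 * (G ω Z * (1 + (Λ ω Z : ℝ≥0∞)))) =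
          ∞ * ∫⁻ Z, hb (Z j₀).1 * (G ω Z * (1 + (Λ ω Z : ℝ≥0∞))) := lintegral_const_mul _ hm
      rw [h10, hg, mul_zero] at hle
      exact le_antisymm hle bot_le
    have h11 := lintegral_unpin (pin_apply j₀) (G := G ω) ⟨hGm, fun a Z => h2 ω a Z⟩
      (J := fun _ => 1) measurable_const measurable_hb lintegral_hb
    simp only [one_mul] at h11
    rw [h11, h8]
    simp
  · have h12 : ∞ * ENNReal.ofReal (ε ^ 2) ^ k * (∫⁻ x, env x) *
        ∫⁻ Z, hb (Z j₀).1 * (G ω Z * (1 + (Λ ω Z : ℝ≥0∞))) = ∞ := by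
      rw [ENNReal.top_mul hε2, ENNReal.top_mul he, ENNReal.top_mul hg]
    rw [h12]
    exact le_top

/-- one root: change of pin and bound -/
theorem one_root {J : Type} [Fintype J] {j₀ : J} {γ : ℝ} {k : ℕ} (i : Fin k)
    {G : (J → PhasePoint) → ℝ≥0∞} (hG : Measurable G) (hG2 : ∀ a Z, G (shiftX a Z) = G Z)
    {X : (J → PhasePoint) → Config k → ℝ≥0∞} (hX : Measurable (Function.uncurry X))
    (hX2 : ∀ a Z V, X (shiftX a Z) (shiftX a V) = X Z V)
    {L : (J → PhasePoint) → ℝ≥0∞} (hL : Measurable L) {B : ℝ≥0∞}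
    (hB : ∀ Z, ∫⁻ V : Config k, gwc γ V * X Z V ≤ B * L Z)
    {env : Space3 → ℝ≥0∞} (henv : Measurable env) :
    ∫⁻ Z, ∫⁻ V : Config k, env (V i).1 * (G Z * (gwc γ V * X Z V)) ≤
      (∫⁻ x, env x) * (B * ∫⁻ Z, hb (Z j₀).1 * (G Z * L Z)) := by
  have hF : Measurable (Function.uncurry fun (Z : J → PhasePoint) (V : Config k) =>
      G Z * (gwc γ V * X Z V)) :=
    (hG.comp measurable_fst).mul (((measurable_gwc γ).comp measurable_snd).mul hX)
  have hinv : ∀ a (Z : J → PhasePoint) (V : Config k), G (shiftX a Z) *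
      (gwc γ (shiftX a V) * X (shiftX a Z) (shiftX a V)) = G Z * (gwc γ V * X Z V) := by
    intro a Z V
    rw [hG2, gwc_shiftX, hX2]
  have e0 := pin_switch (F := fun (Z : J → PhasePoint) (V : Config k) =>
      G Z * (gwc γ V * X Z V)) hF hinv (pin_apply j₀) (pin_apply i) henv measurable_hb lintegral_hb
  rw [e0]
  refine mul_le_mul_right ?_ _
  have e3 : ∀ Z, ∫⁻ V : Config k, hb (Z j₀).1 * (G Z * (gwc γ V * X Z V)) =
      hb (Z j₀).1 * (G Z * ∫⁻ V : Config k, gwc γ V * X Z V) := by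
    intro Z
    have hm : Measurable fun V : Config k => gwc γ V * X Z V :=
      (measurable_gwc γ).mul (hX.comp (measurable_const.prodMk measurable_id))
    rw [lintegral_const_mul _ (hm.const_mul _), lintegral_const_mul _ hm]
  simp_rw [e3]
  have hm5 : Measurable fun Z => hb (Z j₀).1 * (G Z * L Z) :=
    (measurable_hb.comp (measurable_pi_apply j₀).fst).mul (hG.mul hL)
  rw [← lintegral_const_mul B hm5]
  refine lintegral_mono fun Z => ?_
  calc hb (Z j₀).1 * (G Z * ∫⁻ V : Config k, gwc γ V * X Z V)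
      ≤ hb (Z j₀).1 * (G Z * (B * L Z)) := mul_le_mul_right (mul_le_mul_right (hB Z) _) _
    _ = _ := by ring

/-- sum over the roots -/
theorem sum_roots {J : Type} [Fintype J] {γ : ℝ} {k : ℕ} (i : Fin k)
    {G : (J → PhasePoint) → ℝ≥0∞} (hG : Measurable G)
    {X : Fin k → (J → PhasePoint) → Config k → ℝ≥0∞}
    (hX : ∀ j, Measurable (Function.uncurry (X j)))
    {env : Space3 → ℝ≥0∞} (henv : Measurable env) :
    ∫⁻ Z, G Z * ∫⁻ V : Config k, env (V i).1 * (gwc γ V * ∑ j, X j Z V) =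
      ∑ j, ∫⁻ Z, ∫⁻ V : Config k, env (V i).1 * (G Z * (gwc γ V * X j Z V)) := by
  have he : Measurable fun V : Config k => env (V i).1 := henv.comp (measurable_pi_apply i).fst
  have hmj : ∀ j : Fin k, Measurable fun p : (J → PhasePoint) × Config k =>
      env (p.2 i).1 * (G p.1 * (gwc γ p.2 * X j p.1 p.2)) := by
    intro j
    exact (he.comp measurable_snd).mul
      ((hG.comp measurable_fst).mul (((measurable_gwc γ).comp measurable_snd).mul (hX j)))
  have hin : ∀ j, Measurable fun Z : J → PhasePoint => ∫⁻ V : Config k,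
      env (V i).1 * (G Z * (gwc γ V * X j Z V)) := fun j => (hmj j).lintegral_prod_right'
  rw [← lintegral_finsetSum _ fun j _ => hin j]
  refine lintegral_congr fun Z => ?_
  have hXZ : ∀ j, Measurable fun V : Config k => X j Z V := fun j =>
    (hX j).comp (measurable_const.prodMk measurable_id)
  have hmZ : ∀ j, Measurable fun V : Config k => env (V i).1 * (G Z * (gwc γ V * X j Z V)) :=
    fun j => he.mul (((measurable_gwc γ).mul (hXZ j)).const_mul _)
  rw [← lintegral_finsetSum _ fun j _ => hmZ j]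
  have hmS : Measurable fun V : Config k => env (V i).1 * (gwc γ V * ∑ j, X j Z V) :=
    he.mul ((measurable_gwc γ).mul (Finset.measurable_sum _ fun j _ => hXZ j))
  rw [← lintegral_const_mul _ hmS]
  refine lintegral_congr fun V => ?_
  rw [Finset.mul_sum, Finset.mul_sum, Finset.mul_sum]
  refine Finset.sum_congr rfl fun j _ => ?_
  ring

theorem ceil_bound (l : ℝ≥0) : ENNReal.ofReal (1 + (⌈(l : ℝ)⌉₊ : ℝ)) ≤ 2 * (1 + (l : ℝ≥0∞)) := by
  have h10 : (⌈(l : ℝ)⌉₊ : ℝ) ≤ l + 1 := (Nat.ceil_lt_add_one (NNReal.coe_nonneg _)).le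
  have h11 : (1 : ℝ) + ⌈(l : ℝ)⌉₊ ≤ 2 * (1 + l) := by
    have := NNReal.coe_nonneg l
    linarith
  refine (ENNReal.ofReal_le_ofReal h11).trans (le_of_eq ?_)
  rw [ENNReal.ofReal_mul (by norm_num), ENNReal.ofReal_add (by norm_num)
    (NNReal.coe_nonneg _), ENNReal.ofReal_one, ENNReal.ofReal_coe_nnreal]
  norm_num

/-- arithmetic of the powers of `ε` -/
theorem eps_arith {ε : ℝ} (hε : 0 < ε) (hT : 0 ≤ T) {R' δ' : ℝ} (hR : 0 ≤ R') (hδ : 0 ≤ δ') {k : ℕ}
    (hk : 1 ≤ k) : ENNReal.ofReal ((T + 3) / ε) *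
      (ENNReal.ofReal (δ' * ε ^ (2 * (k - 1))) * volume (Metric.closedBall (0 : Space3) (3 * (R' * ε)))) =
    ENNReal.ofReal (27 * (T + 3) * R' ^ 3) * volume (Metric.closedBall (0 : Space3) 1) *
      ENNReal.ofReal δ' * ENNReal.ofReal (ε ^ 2) ^ k := by
  have hv : volume (Metric.closedBall (0 : Space3) (3 * (R' * ε))) =
      ENNReal.ofReal (27 * R' ^ 3 * ε ^ 3) * volume (Metric.closedBall (0 : Space3) 1) := by
    rw [EuclideanSpace.volume_closedBall_fin_three, EuclideanSpace.volume_closedBall_fin_three,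
      ENNReal.ofReal_one, one_pow, one_mul, ← ENNReal.ofReal_pow (by positivity)]
    congr 2
    ring
  obtain ⟨m, rfl⟩ := Nat.exists_eq_add_of_le' hk
  have h2 : m + 1 - 1 = m := by omega
  rw [hv, h2, ← ENNReal.ofReal_pow (by positivity)]
  have e : ENNReal.ofReal ((T + 3) / ε) * (ENNReal.ofReal (δ' * ε ^ (2 * m)) *
      (ENNReal.ofReal (27 * R' ^ 3 * ε ^ 3) * volume (Metric.closedBall (0 : Space3) 1))) =
      (ENNReal.ofReal ((T + 3) / ε) * ENNReal.ofReal (δ' * ε ^ (2 * m)) *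
        ENNReal.ofReal (27 * R' ^ 3 * ε ^ 3)) * volume (Metric.closedBall (0 : Space3) 1) := by ring
  have e' : ENNReal.ofReal (27 * (T + 3) * R' ^ 3) * volume (Metric.closedBall (0 : Space3) 1) *
      ENNReal.ofReal δ' * ENNReal.ofReal ((ε ^ 2) ^ (m + 1)) =
      (ENNReal.ofReal (27 * (T + 3) * R' ^ 3) * ENNReal.ofReal δ' *
        ENNReal.ofReal ((ε ^ 2) ^ (m + 1))) * volume (Metric.closedBall (0 : Space3) 1) := by ring
  rw [e, e', ← ENNReal.ofReal_mul (by positivity), ← ENNReal.ofReal_mul (by positivity),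
    ← ENNReal.ofReal_mul (by positivity), ← ENNReal.ofReal_mul (by positivity)]
  congr 2
  field_simp
  ring

theorem hitAt_of (hΦ : AdmissiblePotential Φ) {ε : ℝ} (hε : 0 < ε) (hε1 : ε ≤ 1) (hT : 0 ≤ T)
    (hγ : 0 < γ) {R' : ℝ} (hR1 : 1 ≤ R') (hRR : R ≤ R') {δ' : ℝ} (hδ' : 0 ≤ δ')
    (hM : ∀ k ≤ K, ∀ (j : Fin k) (t : ℝ), ∃ M : Config k → ℝ≥0∞, Measurable M ∧
      (∀ V ∈ PairExcluded ε k, ∀ x, BadPos Φ ε T' te V j t x →
        (Metric.closedBall (0 : Space3) (3 * (R' * ε))).indicator (fun _ => 1) x ≤ M V) ∧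
      ∫⁻ V, gwc (γ / 2) V * M V ≤ ENNReal.ofReal (δ' * ε ^ (2 * (k - 1))) *
        volume (Metric.closedBall (0 : Space3) (3 * (R' * ε)))) :
    HitAt Φ T te T' J j₀ γ R K ε ((K : ℝ≥0∞) * (SC γ (DK Φ K) * 2 *
      (ENNReal.ofReal (27 * (T + 3) * R' ^ 3) * volume (Metric.closedBall (0 : Space3) 1) *
        ENNReal.ofReal δ'))) := by
  choose M hM1 hM2 hM3 using hM
  intro Ω _ G c Λ h1 h2 h3 h4 h5 h6 h7
  have hceil : Measurable fun p : Ω × (J → PhasePoint) => ⌈(Λ p.1 p.2 : ℝ)⌉₊ :=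
    Nat.measurable_ceil.comp (measurable_coe_nnreal_real.comp h6)
  have hHm : ∀ (k : ℕ) (hk : k ≤ K) (j : Fin k), Measurable
      fun p : Ω × (J → PhasePoint) × Config k => HH T (R' * ε) (DK Φ K) (M k hk j)
        ⌈(Λ p.1 p.2.1 : ℝ)⌉₊ (c p.1 p.2.1) p.2.2 := by
    intro k hk j
    have hA : Measurable fun p : Ω × (J → PhasePoint) × Config k => (p.1, p.2.1) :=
      measurable_fst.prodMk measurable_snd.fst
    exact measurable_HH (hM1 k hk j) (hceil.comp hA) (fun t => (h3 t).comp hA) measurable_snd.snd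
  refine ⟨fun k p => if hk : k ≤ K then ∑ j, HH T (R' * ε) (DK Φ K) (M k hk j)
    ⌈(Λ p.1 p.2.1 : ℝ)⌉₊ (c p.1 p.2.1) p.2.2 else 0, ?_, ?_, ?_⟩
  · intro k
    by_cases hk : k ≤ K
    · simp only [dif_pos hk]
      exact Finset.measurable_sum _ fun j _ => hHm k hk j
    · simp only [dif_neg hk]
      exact measurable_const
  · intro k hk ω Z V hV i t x ht hx hd
    simp only [dif_pos hk]
    have hlip : ∀ s ∈ Icc 0 T, ∀ s' ∈ Icc 0 T,
        dist (c ω Z s) (c ω Z s') ≤ (⌈(Λ ω Z : ℝ)⌉₊ : ℝ) * |s - s'| := by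
      intro s hs s' hs'
      refine ((h5 ω Z).dist_le_mul s hs s' hs').trans ?_
      rw [Real.dist_eq]
      exact mul_le_mul_of_nonneg_right (Nat.le_ceil _) (abs_nonneg _)
    have h8 := one_le_HH (T := T) (R := R') (ε := ε) (D := DK Φ K) hT (by linarith) hε
      (P := fun V t x => BadPos Φ ε T' te V i t x)
      (fun V t x a h => h.shift hΦ hε a)
      (fun V hV t x h t' => by
        obtain ⟨x', h9, h10⟩ := badPos_move hΦ hε hV h t'
        exact ⟨x', h9, h10.trans (mul_le_mul_of_nonneg_right (vD_mono (DK_mono Φ hk) V)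
          (abs_nonneg _))⟩)
      (M := M k hk i) (fun t V hV x h => hM2 k hk i t V hV x h) hlip hV ht hx
      (hd.trans (mul_le_mul_of_nonneg_right hRR hε.le))
    exact h8.trans (Finset.single_le_sum (f := fun j => HH T (R' * ε) (DK Φ K) (M k hk j)
      ⌈(Λ ω Z : ℝ)⌉₊ (c ω Z) V) (fun _ _ => bot_le) (Finset.mem_univ i))
  · intro k hk ω i env henv
    simp only [dif_pos hk, gauss_eq_gwc]
    have hGm : Measurable (G ω) := h1.comp (measurable_const.prodMk measurable_id)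
    have hΛm : Measurable (Λ ω) := h6.comp (measurable_const.prodMk measurable_id)
    have hk1 : 1 ≤ k := by
      have := i.isLt
      omega
    set B : ℝ≥0∞ := (SC γ (DK Φ K) * 2 * (ENNReal.ofReal (27 * (T + 3) * R' ^ 3) *
          volume (Metric.closedBall (0 : Space3) 1) * ENNReal.ofReal δ')) *
          ENNReal.ofReal (ε ^ 2) ^ k with hB
    set X : Fin k → (J → PhasePoint) → Config k → ℝ≥0∞ := fun j Z V =>
      HH T (R' * ε) (DK Φ K) (M k hk j) ⌈(Λ ω Z : ℝ)⌉₊ (c ω Z) V with hXdef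
    have hXm : ∀ j, Measurable (Function.uncurry (X j)) := by
      intro j
      have hA : Measurable fun p : (J → PhasePoint) × Config k => (ω, (p.1, p.2)) :=
        measurable_const.prodMk (measurable_fst.prodMk measurable_snd)
      exact Measurable.comp (g := fun p : Ω × (J → PhasePoint) × Config k => HH T (R' * ε)
        (DK Φ K) (M k hk j) ⌈(Λ p.1 p.2.1 : ℝ)⌉₊ (c p.1 p.2.1) p.2.2)
        (f := fun p : (J → PhasePoint) × Config k => (ω, (p.1, p.2))) (hHm k hk j) hA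
    have hX2 : ∀ j a Z V, X j (shiftX a Z) (shiftX a V) = X j Z V := by
      intro j a Z V
      have e1 : c ω (shiftX a Z) = fun t => c ω Z t + a := funext fun t => h4 ω a Z t
      simp only [hXdef, h7, e1, HH_shift]
    have hXB : ∀ j Z, ∫⁻ V : Config k, gwc γ V * X j Z V ≤ B * (1 + (Λ ω Z : ℝ≥0∞)) := by
      intro j Z
      refine (lintegral_HH_le hT hR1 hε hε1 hγ (DK_nonneg Φ K) (hM1 k hk j)
        (fun t => hM3 k hk j t) _ _).trans ?_
      have h9 := ceil_bound (Λ ω Z)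
      calc SC γ (DK Φ K) * ENNReal.ofReal ((T + 3) / ε) *
            ENNReal.ofReal (1 + (⌈(Λ ω Z : ℝ)⌉₊ : ℝ)) *
            (ENNReal.ofReal (δ' * ε ^ (2 * (k - 1))) *
              volume (Metric.closedBall (0 : Space3) (3 * (R' * ε))))
          = SC γ (DK Φ K) * ENNReal.ofReal (1 + (⌈(Λ ω Z : ℝ)⌉₊ : ℝ)) *
            (ENNReal.ofReal ((T + 3) / ε) * (ENNReal.ofReal (δ' * ε ^ (2 * (k - 1))) *
              volume (Metric.closedBall (0 : Space3) (3 * (R' * ε))))) := by ring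
        _ = SC γ (DK Φ K) * ENNReal.ofReal (1 + (⌈(Λ ω Z : ℝ)⌉₊ : ℝ)) *
            (ENNReal.ofReal (27 * (T + 3) * R' ^ 3) *
              volume (Metric.closedBall (0 : Space3) 1) * ENNReal.ofReal δ' *
              ENNReal.ofReal (ε ^ 2) ^ k) := by
            rw [eps_arith hε hT (by linarith) hδ' hk1]
        _ ≤ SC γ (DK Φ K) * (2 * (1 + (Λ ω Z : ℝ≥0∞))) *
            (ENNReal.ofReal (27 * (T + 3) * R' ^ 3) *
              volume (Metric.closedBall (0 : Space3) 1) * ENNReal.ofReal δ' *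
              ENNReal.ofReal (ε ^ 2) ^ k) :=
            mul_le_mul_left (mul_le_mul_right h9 _) _
        _ = _ := by rw [hB]; ring
    have hLm : Measurable fun Z => (1 + (Λ ω Z : ℝ≥0∞)) := hΛm.coe_nnreal_ennreal.const_add 1
    have hone : ∀ j : Fin k, ∫⁻ Z, ∫⁻ V : Config k, env (V i).1 * (G ω Z * (gwc γ V * X j Z V)) ≤
        (∫⁻ x, env x) * (B * ∫⁻ Z, hb (Z j₀).1 * (G ω Z * (1 + (Λ ω Z : ℝ≥0∞)))) := fun j =>
      one_root i hGm (fun a Z => h2 ω a Z) (hXm j) (hX2 j) hLm (hXB j) henv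
    have hsum := sum_roots (γ := γ) i hGm hXm henv
    change ∫⁻ Z, G ω Z * ∫⁻ V : Config k, env (V i).1 * (gwc γ V * ∑ j, X j Z V) ≤ _
    rw [hsum]
    refine (Finset.sum_le_sum fun j _ => hone j).trans ?_
    rw [Finset.sum_const, nsmul_eq_mul, Finset.card_univ, Fintype.card_fin]
    have hkK : (k : ℝ≥0∞) ≤ K := by exact_mod_cast hk
    refine (mul_le_mul_left hkK _).trans (le_of_eq ?_)
    rw [hB]
    ring

end

/-- **Mass of the bad hits**, from the volume statement. -/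
theorem hitClass_of {Φ : Space3 → ℝ} (hΦ : AdmissiblePotential Φ) {T te T' : ℝ}
    (hvol : ∀ γ : ℝ, 0 < γ → ∀ K : ℕ, BadVolP Φ T' te γ K) : HitClass Φ T te T' := by
  intro J _ j₀ γ R K hγ
  rcases lt_or_ge T 0 with hT | hT
  · -- no times
    refine ⟨fun _ => 0, tendsto_const_nhds, fun ε hε hε1 Ω _ G c Λ h1 h2 h3 h4 h5 h6 h7 => ?_⟩
    refine ⟨fun _ _ => 0, fun _ => measurable_const, ?_, ?_⟩
    · intro k hk ω Z V hV i t x ht
      exact absurd (ht.1.trans ht.2) (not_le.2 hT)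
    · intro k hk ω i env henv
      simp
  set R' : ℝ := max R 1 with hR'
  have hR1 : 1 ≤ R' := le_max_right _ _
  have hRR : R ≤ R' := le_max_left _ _
  set C : ℝ≥0∞ := (K : ℝ≥0∞) * (SC γ (DK Φ K) * 2 *
      (ENNReal.ofReal (27 * (T + 3) * R' ^ 3) * volume (Metric.closedBall (0 : Space3) 1))) with hC
  have hCt : C ≠ ∞ := by
    refine ENNReal.mul_ne_top (ENNReal.natCast_ne_top _) (ENNReal.mul_ne_top (ENNReal.mul_ne_top
      (SC_ne_top hγ) (by norm_num)) (ENNReal.mul_ne_top ENNReal.ofReal_ne_top volume_ball_lt_top))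
  -- smallness
  have hsmall : ∀ d : ℝ, 0 < d → ∀ᶠ ε : ℝ in 𝓝[>] 0, ε ≤ 1 →
      HitAt Φ T te T' J j₀ γ R K ε (ENNReal.ofReal d) := by
    intro d hd
    set δ' : ℝ := d / (C.toReal + 1) with hδ'
    have hpos : 0 < C.toReal + 1 := by have := ENNReal.toReal_nonneg (a := C); linarith
    have hδpos : 0 < δ' := div_pos hd hpos
    have h1 : ∀ k ∈ Finset.range (K + 1), ∀ᶠ ε : ℝ in 𝓝[>] 0, ∀ j : Fin k,
        ∀ (t : ℝ) (Ψ : Space3 → ℝ≥0∞), Measurable Ψ → ∃ M : Config k → ℝ≥0∞, Measurable M ∧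
          (∀ V ∈ PairExcluded ε k, ∀ x, BadPos Φ ε T' te V j t x → Ψ x ≤ M V) ∧
          ∫⁻ V, gwc (γ / 2) V * M V ≤ ENNReal.ofReal (δ' * ε ^ (2 * (k - 1))) * ∫⁻ x, Ψ x := by
      intro k hk
      rw [eventually_all]
      intro j
      have hk' : k ≤ K := by
        have := Finset.mem_range.1 hk
        omega
      obtain ⟨ε₀, hε₀, h⟩ := hvol (γ / 2) (half_pos hγ) K k hk' j δ' hδpos
      filter_upwards [Ioo_mem_nhdsGT hε₀] with ε hε
      exact h ε hε.1 hε.2
    have h2 := (Filter.eventually_all_finset (Finset.range (K + 1))).2 h1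
    filter_upwards [h2, self_mem_nhdsWithin] with ε h3 hε hε1
    have hε0 : (0 : ℝ) < ε := hε
    refine (hitAt_of hΦ hε0 hε1 hT hγ hR1 hRR hδpos.le ?_).mono ?_
    · intro k hk j t
      have hmi : Measurable ((Metric.closedBall (0 : Space3) (3 * (R' * ε))).indicator
          fun _ => (1 : ℝ≥0∞)) :=
        measurable_const.indicator Metric.isClosed_closedBall.measurableSet
      obtain ⟨M, hM1, hM2, hM3⟩ := h3 k (Finset.mem_range.2 (Nat.lt_succ_of_le hk)) j t _ hmi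
      refine ⟨M, hM1, hM2, hM3.trans (le_of_eq ?_)⟩
      congr 1
      rw [lintegral_indicator Metric.isClosed_closedBall.measurableSet, lintegral_const, one_mul,
        Measure.restrict_apply_univ]
    · have e : (K : ℝ≥0∞) * (SC γ (DK Φ K) * 2 *
          (ENNReal.ofReal (27 * (T + 3) * R' ^ 3) * volume (Metric.closedBall (0 : Space3) 1) *
            ENNReal.ofReal δ')) = C * ENNReal.ofReal δ' := by rw [hC]; ring
      rw [e, ← ENNReal.ofReal_toReal hCt, ← ENNReal.ofReal_mul ENNReal.toReal_nonneg]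
      refine ENNReal.ofReal_le_ofReal ?_
      rw [hδ', mul_div_assoc', div_le_iff₀ hpos]
      have := ENNReal.toReal_nonneg (a := C)
      nlinarith
  -- the best constant
  set r : ℝ → ℝ≥0∞ := fun ε => sInf {δ : ℝ≥0∞ | HitAt Φ T te T' J j₀ γ R K ε δ} with hr
  refine ⟨fun ε => r ε + ENNReal.ofReal ε, ?_, ?_⟩
  · have hrt : Tendsto r (𝓝[>] 0) (𝓝 0) := by
      rw [ENNReal.tendsto_nhds_zero]
      intro δ hδ
      obtain ⟨d, hd, hle⟩ : ∃ d : ℝ, 0 < d ∧ ENNReal.ofReal d ≤ δ := by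
        by_cases ht : δ = ∞
        · exact ⟨1, one_pos, ht ▸ le_top⟩
        · exact ⟨δ.toReal, ENNReal.toReal_pos hδ.ne' ht, ENNReal.ofReal_toReal_le⟩
      filter_upwards [hsmall d hd, Ioo_mem_nhdsGT (one_pos : (0 : ℝ) < 1)] with ε h hε
      exact (sInf_le (h hε.2.le)).trans hle
    have h2 : Tendsto (fun ε : ℝ => ENNReal.ofReal ε) (𝓝[>] 0) (𝓝 0) := by
      have := (ENNReal.continuous_ofReal.tendsto (0 : ℝ)).mono_left
        (nhdsWithin_le_nhds (s := Ioi (0 : ℝ)))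
      simpa using this
    simpa using hrt.add h2
  · intro ε hε hε1
    have hat : HitAt Φ T te T' J j₀ γ R K ε (r ε + ENNReal.ofReal ε) := by
      by_cases ht : r ε = ∞
      · rw [ht, top_add]
        exact hitAt_top hε
      · have hlt : r ε < r ε + ENNReal.ofReal ε :=
          ENNReal.lt_add_right ht (ENNReal.ofReal_pos.2 hε).ne'
        obtain ⟨c, hc, hcr⟩ := sInf_lt_iff.1 hlt
        exact HitAt.mono hc hcr.le
    exact hat

end Crest.Agent.R122.HitClass416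

end
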