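import Crest.Agent.R122.NEK_370
import Crest.Agent.R122.Sweep_815

/-!
# The bad particles rarely meet a randomly translated tube family (row 122, helper370)

* `measurable_gcE_param`, `lintegral_gcE` : Tonelli for `gcE`.
* `sweep_back` : sweeping inequality with the end point of the interval.
* `gcE_badHit_le`, `lintegral_badMaj_le` : for a finite family of `M`-Lipschitz curves `γ a` the
  set of translations `x` for which a bad particle comes within `ε` of `x + γ a` before `t` has
  expected volume at most `8 c₃ |α| (M + 1) (ε escEnergy(t) + ∫₀ᵗ escEnergy(s) ds)`.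
* `badHit_small` : this tends to zero (`K → ∞` after `ε → 0`) if `NEK t`.
-/

set_option autoImplicit false
open MeasureTheory Set
open scoped Classical ENNReal
open Crest.AnalysisR.Kinetic
open Crest.Agent.R122.GC311 Crest.Agent.R122.Causal291 Crest.Agent.R122.Master566
open Crest.Agent.R122.EW370 Crest.Agent.R122.NEK370 Crest.Agent.R122.Sweep815
noncomputable section

namespace Crest.Agent.R122.BadHit370

/-! ### Tonelli for `gcE` -/

section tonelli

variable {X : Type*} [MeasurableSpace X] {f₀ : PhasePoint → ℝ}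

theorem measurable_gcE_param (hf : Measurable f₀) (ε : ℝ) {F : (n : ℕ) → X → Config n → ℝ≥0∞}
    (hF : ∀ n, Measurable (Function.uncurry (F n))) :
    Measurable fun x => gcE f₀ ε fun n Z => F n x Z := by
  unfold gcE
  refine Measurable.const_mul (Measurable.tsum fun n => Measurable.const_mul ?_ _) _
  refine Measurable.lintegral_prod_right' (f := fun p : X × Config n =>
    gcWeight f₀ ε n p.2 * F n p.1 p.2) ?_
  exact ((measurable_gcWeight hf ε n).comp measurable_snd).mul (hF n)

theorem lintegral_gcE (hf : Measurable f₀) (ε : ℝ) (μ : Measure X) [SFinite μ]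
    {F : (n : ℕ) → X → Config n → ℝ≥0∞} (hF : ∀ n, Measurable (Function.uncurry (F n))) :
    ∫⁻ x, gcE f₀ ε (fun n Z => F n x Z) ∂μ = gcE f₀ ε fun n Z => ∫⁻ x, F n x Z ∂μ := by
  unfold gcE
  have h1 : ∀ n, Measurable fun p : X × Config n => gcWeight f₀ ε n p.2 * F n p.1 p.2 := fun n =>
    ((measurable_gcWeight hf ε n).comp measurable_snd).mul (hF n)
  have h2 : ∀ n, Measurable fun x : X => ∫⁻ Z : Config n, gcWeight f₀ ε n Z * F n x Z := fun n =>
    (h1 n).lintegral_prod_right'
  rw [lintegral_const_mul _ (Measurable.tsum fun n => (h2 n).const_mul _),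
    lintegral_tsum fun n => ((h2 n).const_mul _).aemeasurable]
  congr 1
  refine tsum_congr fun n => ?_
  rw [lintegral_const_mul _ (h2 n)]
  congr 1
  rw [lintegral_lintegral_swap (f := fun (x : X) (Z : Config n) => gcWeight f₀ ε n Z * F n x Z)
    (h1 n).aemeasurable]
  refine lintegral_congr fun Z => ?_
  exact lintegral_const_mul _ ((hF n).comp (measurable_id.prodMk measurable_const))

end tonelli

/-! ### Sweeping with the end point -/

/-- **Sweeping inequality**, end-point version: if `d ≤ r` at `s0` then `d b ≤ 2 r` or the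
occupation integral of `{d ≤ 2 r}` on `[s0, b]` is at least `r`. -/
theorem sweep_back {a b r : ℝ} (hr : 0 < r) {d σ : ℝ → ℝ}
    (hσ0 : ∀ s ∈ Icc a b, 0 ≤ σ s) (hσ : IntegrableOn σ (Icc a b))
    (hd : ∀ s ∈ Icc a b, ∀ s' ∈ Icc a b, s ≤ s' → d s' ≤ d s + ∫ u in s..s', σ u)
    {s0 : ℝ} (hs0 : s0 ∈ Icc a b) (h : d s0 ≤ r) :
    d b ≤ 2 * r ∨
      ENNReal.ofReal r ≤
        ∫⁻ u in Icc s0 b, {u | d u ≤ 2 * r}.indicator (fun u => ENNReal.ofReal (σ u)) u := by
  have hsub : Icc s0 b ⊆ Icc a b := Icc_subset_Icc_left hs0.1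
  have hneg : ∀ u : ℝ, u ∈ Icc (-b) (-s0) → -u ∈ Icc s0 b := fun u hu =>
    ⟨by linarith [hu.2], by linarith [hu.1]⟩
  have himg : (fun u : ℝ => -u) ⁻¹' Icc s0 b = Icc (-b) (-s0) := by
    ext u
    simp only [mem_preimage, mem_Icc]
    constructor
    · rintro ⟨h1, h2⟩; exact ⟨by linarith, by linarith⟩
    · rintro ⟨h1, h2⟩; exact ⟨by linarith, by linarith⟩
  have hmp : MeasurePreserving (fun u : ℝ => -u) volume volume :=
    Measure.measurePreserving_neg volume
  have hemb : MeasurableEmbedding (fun u : ℝ => -u) := (MeasurableEquiv.neg ℝ).measurableEmbedding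
  have h1 := sweep_real (a := -b) (b := -s0) hr (d := fun u => d (-u)) (σ := fun u => σ (-u))
    (fun s hs => hσ0 _ (hsub (hneg s hs)))
    (by
      have h2 : IntegrableOn σ (Icc s0 b) := hσ.mono_set hsub
      have h3 := (hmp.integrableOn_comp_preimage hemb (f := σ) (s := Icc s0 b)).2 h2
      rw [himg] at h3
      exact h3)
    (by
      intro s hs s' hs' hss'
      have h2 := hd (-s') (hsub (hneg s' hs')) (-s) (hsub (hneg s hs)) (by linarith)
      rw [intervalIntegral.integral_comp_neg]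
      exact h2)
    ⟨-s0, ⟨by linarith [hs0.2], le_rfl⟩, by simpa using h⟩
  rcases h1 with h1 | h1
  · left
    simpa using h1
  · right
    refine h1.trans (le_of_eq ?_)
    have h2 := hmp.setLIntegral_comp_preimage_emb hemb
      ({u | d u ≤ 2 * r}.indicator (fun u => ENNReal.ofReal (σ u))) (Icc s0 b)
    rw [himg] at h2
    rw [← h2]
    rfl

/-! ### Pointwise majorant -/

section maj

variable {Φ : Space3 → ℝ} {f₀ : PhasePoint → ℝ} {ε : ℝ} {K : ℕ} {α : Type*} [Fintype α]

/-- the occupation density at time `u`: particle `i` is bad and within `2 ε` of the curve `a`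
translated by `x` -/
def occ (Φ : Space3 → ℝ) (ε : ℝ) (K : ℕ) (γ : α → ℝ → Space3) (x : Space3) {n : ℕ}
    (Z : Config n) (u : ℝ) (a : α) (i : Fin n) : ℝ≥0∞ :=
  if K < (bc Φ ε Z u i).ncard ∧ dist (x + γ a u) (pth Φ ε Z u i).1 ≤ 2 * ε then 1 else 0

/-- The majorant of the indicator of a hit of the translated family by a bad particle. -/
def majZ (Φ : Space3 → ℝ) (ε : ℝ) (K : ℕ) (γ : α → ℝ → Space3) (M t : ℝ) (x : Space3) {n : ℕ}
    (Z : Config n) : ℝ≥0∞ :=
  ∑ a, ∑ i, (occ Φ ε K γ x Z t a i + (ENNReal.ofReal ε)⁻¹ * ∫⁻ u in Icc 0 t,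
    occ Φ ε K γ x Z u a i * ENNReal.ofReal (M + ‖(pth Φ ε Z u i).2‖))

/-- A bad particle hits the translated family. -/
def BadHit (Φ : Space3 → ℝ) (ε : ℝ) (K : ℕ) (γ : α → ℝ → Space3) (t : ℝ) (x : Space3) {n : ℕ}
    (Z : Config n) : Prop :=
  ∃ s ∈ Icc 0 t, ∃ i : Fin n, K < (bc Φ ε Z s i).ncard ∧
    ∃ a, dist (x + γ a s) (pth Φ ε Z s i).1 ≤ ε

theorem badHit_le_majZ (hΦ : AdmissiblePotential Φ) (hε : 0 < ε) {γ : α → ℝ → Space3} {M t : ℝ}
    (hM : 0 ≤ M) (hγ : ∀ a, ∀ s ∈ Icc 0 t, ∀ s' ∈ Icc 0 t, dist (γ a s) (γ a s') ≤ M * |s - s'|)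
    (x : Space3) {n : ℕ} {Z : Config n} (hZ : Z ∈ PairExcluded ε n) :
    (if BadHit Φ ε K γ t x Z then (1 : ℝ≥0∞) else 0) ≤ majZ Φ ε K γ M t x Z := by
  split_ifs with h
  swap
  · exact bot_le
  obtain ⟨s0, hs0, i, hi, a, hd⟩ := h
  have hfar : ∀ i j : Fin n, i ≠ j → ε ≤ dist (Z i).1 (Z j).1 := fun i j h => (hZ i j h).le
  have hDom : Z ∈ Flow671.Dom Φ (Fin n) := Loc45.Dom_of_far hε hfar
  have hcont : Continuous fun s => Flow671.flow Φ ε s Z := Flow671.flow_continuous_time hΦ hε Z
  have hder : ∀ s, HasDerivAt (fun s => (Flow671.flow Φ ε s Z i).1)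
      (Flow671.flow Φ ε s Z i).2 s := by
    intro s
    have h1 := (hasDerivAt_pi.1 (Flow671.flow_hasDerivAt hΦ hε hDom s)) i
    exact h1.fst
  have hc2 : Continuous fun s => (Flow671.flow Φ ε s Z i).2 :=
    (((continuous_apply i).comp hcont)).snd
  have hσc : Continuous fun s => M + ‖(Flow671.flow Φ ε s Z i).2‖ := by fun_prop
  have hbad : ∀ u ∈ Icc s0 t, K < (bc Φ ε Z u i).ncard := fun u hu =>
    lt_of_lt_of_le hi (ncard_le_ncard (bc_mono Z i hu.1) (toFinite _))
  have hs := sweep_back (a := 0) (b := t) hε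
    (d := fun s => dist (x + γ a s) (Flow671.flow Φ ε s Z i).1)
    (σ := fun s => M + ‖(Flow671.flow Φ ε s Z i).2‖)
    (fun s _ => by positivity) (hσc.continuousOn.integrableOn_compact isCompact_Icc)
    (by
      intro s hs s' hs' hss'
      have h1 : (∫ u in s..s', (M + ‖(Flow671.flow Φ ε u Z i).2‖)) =
          M * (s' - s) + ∫ u in s..s', ‖(Flow671.flow Φ ε u Z i).2‖ := by
        rw [intervalIntegral.integral_add (by simp) (hc2.norm.intervalIntegrable _ _),
          intervalIntegral.integral_const, smul_eq_mul, mul_comm]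
      have h2 : ‖(Flow671.flow Φ ε s' Z i).1 - (Flow671.flow Φ ε s Z i).1‖ ≤
          ∫ u in s..s', ‖(Flow671.flow Φ ε u Z i).2‖ := by
        rw [← intervalIntegral.integral_eq_sub_of_hasDerivAt (fun u _ => hder u)
          (hc2.intervalIntegrable _ _)]
        exact intervalIntegral.norm_integral_le_integral_norm hss'
      have h3 := hγ a s' hs' s hs
      rw [abs_of_nonneg (by linarith : 0 ≤ s' - s)] at h3
      have h4 : dist (x + γ a s') (x + γ a s) = dist (γ a s') (γ a s) := by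
        rw [dist_add_left]
      have h5 : dist (x + γ a s') (Flow671.flow Φ ε s' Z i).1 ≤
          dist (x + γ a s') (x + γ a s) + dist (x + γ a s) (Flow671.flow Φ ε s Z i).1 +
            dist (Flow671.flow Φ ε s Z i).1 (Flow671.flow Φ ε s' Z i).1 := dist_triangle4 _ _ _ _
      rw [dist_comm (Flow671.flow Φ ε s Z i).1, dist_eq_norm (Flow671.flow Φ ε s' Z i).1] at h5
      rw [h1]
      linarith)
    hs0 hd
  unfold majZ
  refine le_trans ?_ (Finset.single_le_sum (f := fun a => ∑ i, (occ Φ ε K γ x Z t a i +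
    (ENNReal.ofReal ε)⁻¹ * ∫⁻ u in Icc 0 t,
      occ Φ ε K γ x Z u a i * ENNReal.ofReal (M + ‖(pth Φ ε Z u i).2‖)))
    (fun _ _ => bot_le) (Finset.mem_univ a))
  refine le_trans ?_ (Finset.single_le_sum (f := fun i => (occ Φ ε K γ x Z t a i +
    (ENNReal.ofReal ε)⁻¹ * ∫⁻ u in Icc 0 t,
      occ Φ ε K γ x Z u a i * ENNReal.ofReal (M + ‖(pth Φ ε Z u i).2‖)))
    (fun _ _ => bot_le) (Finset.mem_univ i))
  rcases hs with hs | hs
  · refine le_trans (le_of_eq ?_) le_self_add
    unfold occ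
    rw [if_pos ⟨hbad t ⟨hs0.2, le_rfl⟩, hs⟩]
  · refine le_trans ?_ le_add_self
    have h0 : ENNReal.ofReal ε ≠ 0 := by simpa using hε
    calc (1 : ℝ≥0∞) = (ENNReal.ofReal ε)⁻¹ * ENNReal.ofReal ε :=
          (ENNReal.inv_mul_cancel h0 ENNReal.ofReal_ne_top).symm
      _ ≤ (ENNReal.ofReal ε)⁻¹ * ∫⁻ u in Icc s0 t,
          {u | dist (x + γ a u) (Flow671.flow Φ ε u Z i).1 ≤ 2 * ε}.indicator
            (fun u => ENNReal.ofReal (M + ‖(Flow671.flow Φ ε u Z i).2‖)) u := by gcongr
      _ ≤ (ENNReal.ofReal ε)⁻¹ * ∫⁻ u in Icc s0 t,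
          occ Φ ε K γ x Z u a i * ENNReal.ofReal (M + ‖(pth Φ ε Z u i).2‖) := by
          refine mul_le_mul_right (setLIntegral_mono' measurableSet_Icc fun u hu => ?_) _
          refine indicator_apply_le' (fun h => ?_) fun _ => bot_le
          unfold occ
          rw [if_pos ⟨hbad u hu, h⟩, one_mul]
          exact le_rfl
      _ ≤ _ := mul_le_mul_right (lintegral_mono_set (Icc_subset_Icc_left hs0.1)) _

/-! ### Measurability and integration of the majorant -/

omit [Fintype α] in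
theorem measurable_proj {n : ℕ} :
    Measurable fun p : ℝ × Space3 × Config n => (p.1, p.2.2) :=
  measurable_fst.prodMk (measurable_snd.comp measurable_snd)

theorem measurable_bad_ind (hΦ : AdmissiblePotential Φ) (hε : 0 < ε) {n : ℕ} (i : Fin n) :
    MeasurableSet {p : ℝ × Config n | K < (bc Φ ε p.2 p.1 i).ncard} := by
  have h := measurable_ncard_BC_pth (ι := Fin n) hΦ hε i
  have h2 := measurableSet_lt (measurable_const (a := K)) h
  exact h2

omit [Fintype α] in
theorem measurable_occ (hΦ : AdmissiblePotential Φ) (hε : 0 < ε) {γ : α → ℝ → Space3}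
    (hγ : ∀ a, Measurable (γ a)) {n : ℕ} (a : α) (i : Fin n) :
    Measurable fun p : ℝ × Space3 × Config n => occ Φ ε K γ p.2.1 p.2.2 p.1 a i := by
  unfold occ
  refine Measurable.ite (MeasurableSet.inter ?_ ?_) measurable_const measurable_const
  · have h := measurable_proj (measurable_bad_ind (K := K) hΦ hε i)
    exact h
  · refine measurableSet_le (Measurable.dist ?_ ?_) measurable_const
    · exact (measurable_fst.comp measurable_snd).add ((hγ a).comp measurable_fst)
    · have h := (measurable_pth_joint (ι := Fin n) hΦ hε i).comp measurable_proj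
      exact h.fst

omit [Fintype α] in
theorem lintegral_occ {γ : α → ℝ → Space3} {n : ℕ} (Z : Config n) (u : ℝ) (a : α) (i : Fin n) :
    ∫⁻ x, occ Φ ε K γ x Z u a i =
      (if K < (bc Φ ε Z u i).ncard then 1 else 0) * (ENNReal.ofReal (2 * ε) ^ 3 * c3) := by
  by_cases h : K < (bc Φ ε Z u i).ncard
  · rw [if_pos h, one_mul]
    have h1 : ∀ x, occ Φ ε K γ x Z u a i =
        (Metric.closedBall ((pth Φ ε Z u i).1 - γ a u) (2 * ε)).indicator 1 x := by
      intro x
      unfold occ
      have h2 : (x ∈ Metric.closedBall ((pth Φ ε Z u i).1 - γ a u) (2 * ε)) ↔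
          dist (x + γ a u) (pth Φ ε Z u i).1 ≤ 2 * ε := by
        rw [Metric.mem_closedBall, dist_eq_norm, dist_eq_norm,
          show x - ((pth Φ ε Z u i).1 - γ a u) = x + γ a u - (pth Φ ε Z u i).1 by abel]
      by_cases h3 : dist (x + γ a u) (pth Φ ε Z u i).1 ≤ 2 * ε
      · rw [if_pos ⟨h, h3⟩, indicator_of_mem (h2.2 h3)]; rfl
      · rw [if_neg (fun h4 => h3 h4.2), indicator_of_notMem (fun h4 => h3 (h2.1 h4))]
    simp_rw [h1]
    rw [lintegral_indicator_one Metric.isClosed_closedBall.measurableSet, vol_closedBall]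
  · rw [if_neg h, zero_mul]
    have h1 : ∀ x, occ Φ ε K γ x Z u a i = 0 := by
      intro x
      unfold occ
      rw [if_neg fun h4 => h h4.1]
    simp [h1]

/-- speed weight of one particle -/
def spd (Φ : Space3 → ℝ) (ε M : ℝ) {n : ℕ} (Z : Config n) (u : ℝ) (i : Fin n) : ℝ≥0∞ :=
  ENNReal.ofReal (M + ‖(pth Φ ε Z u i).2‖)

omit [Fintype α] in
theorem measurable_spd (hΦ : AdmissiblePotential Φ) (hε : 0 < ε) (M : ℝ) {n : ℕ} (i : Fin n) :
    Measurable fun p : ℝ × Config n => spd Φ ε M p.2 p.1 i := by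
  have h := measurable_pth_joint (ι := Fin n) hΦ hε i
  exact (measurable_const.add h.snd.norm).ennreal_ofReal

theorem measurable_majZ (hΦ : AdmissiblePotential Φ) (hε : 0 < ε) {γ : α → ℝ → Space3}
    (hγ : ∀ a, Measurable (γ a)) (M t : ℝ) (n : ℕ) :
    Measurable (Function.uncurry fun (x : Space3) (Z : Config n) => majZ Φ ε K γ M t x Z) := by
  unfold majZ
  simp only [Function.uncurry_def]
  refine Finset.measurable_sum _ fun a _ => Finset.measurable_sum _ fun i _ => ?_
  refine Measurable.add ?_ (Measurable.const_mul ?_ _)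
  · have h := (measurable_occ (K := K) hΦ hε hγ a i).comp
      ((measurable_const (a := t)).prodMk (measurable_id (α := Space3 × Config n)))
    exact h
  · have h1 : Measurable fun q : (Space3 × Config n) × ℝ => (q.2, q.1) :=
      measurable_snd.prodMk measurable_fst
    have h2 := (measurable_occ (K := K) hΦ hε hγ a i).comp h1
    have h3 : Measurable fun q : (Space3 × Config n) × ℝ => (q.2, q.1.2) :=
      measurable_snd.prodMk (measurable_snd.comp measurable_fst)
    have h4 := (measurable_spd hΦ hε M i).comp h3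
    have h5 := (h2.mul h4).lintegral_prod_right' (ν := volume.restrict (Icc 0 t))
    exact h5

theorem lintegral_majZ (hΦ : AdmissiblePotential Φ) (hε : 0 < ε) {γ : α → ℝ → Space3}
    (hγ : ∀ a, Measurable (γ a)) (M t : ℝ) {n : ℕ} (Z : Config n) :
    ∫⁻ x, majZ Φ ε K γ M t x Z = ∑ _a : α, ∑ i : Fin n,
      ((if K < (bc Φ ε Z t i).ncard then 1 else 0) * (ENNReal.ofReal (2 * ε) ^ 3 * c3) +
        (ENNReal.ofReal ε)⁻¹ * ∫⁻ u in Icc 0 t, (if K < (bc Φ ε Z u i).ncard then 1 else 0) *
          (ENNReal.ofReal (2 * ε) ^ 3 * c3) * spd Φ ε M Z u i) := by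
  have hm1 : ∀ (a : α) (i : Fin n), Measurable fun p : ℝ × Space3 => occ Φ ε K γ p.2 Z p.1 a i := by
    intro a i
    have h := (measurable_occ (K := K) hΦ hε hγ a i).comp
      ((measurable_fst (α := ℝ) (β := Space3)).prodMk
        ((measurable_snd (α := ℝ) (β := Space3)).prodMk (measurable_const (a := Z))))
    exact h
  have hm2 : ∀ i : Fin n, Measurable fun p : ℝ × Space3 => spd Φ ε M Z p.1 i := by
    intro i
    have h1 : Measurable fun u : ℝ => (u, Z) := measurable_id.prodMk measurable_const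
    have h2 : Measurable fun q : ℝ × Space3 => q.1 := measurable_fst
    have h := ((measurable_spd hΦ hε M i).comp h1).comp h2
    exact h
  have hm3 : ∀ (a : α) (i : Fin n), Measurable fun x : Space3 =>
      (ENNReal.ofReal ε)⁻¹ * ∫⁻ u in Icc 0 t, occ Φ ε K γ x Z u a i * spd Φ ε M Z u i := by
    intro a i
    refine Measurable.const_mul ?_ _
    have h5 := (((hm1 a i).mul (hm2 i)).comp measurable_swap).lintegral_prod_right'
      (ν := volume.restrict (Icc 0 t))
    exact h5
  have hm4 : ∀ (a : α) (i : Fin n), Measurable fun x : Space3 => occ Φ ε K γ x Z t a i := by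
    intro a i
    have h := (hm1 a i).comp ((measurable_const (a := t)).prodMk (measurable_id (α := Space3)))
    exact h
  calc ∫⁻ x, majZ Φ ε K γ M t x Z = ∑ a : α, ∑ i : Fin n, ∫⁻ x, (occ Φ ε K γ x Z t a i +
        (ENNReal.ofReal ε)⁻¹ * ∫⁻ u in Icc 0 t, occ Φ ε K γ x Z u a i * spd Φ ε M Z u i) := by
        unfold majZ
        rw [lintegral_finsetSum]
        · refine Finset.sum_congr rfl fun a _ => ?_
          rw [lintegral_finsetSum]
          · rfl
          · exact fun i _ => (hm4 a i).add (hm3 a i)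
        · exact fun a _ => Finset.measurable_sum _ fun i _ => (hm4 a i).add (hm3 a i)
    _ = _ := by
        refine Finset.sum_congr rfl fun a _ => Finset.sum_congr rfl fun i _ => ?_
        rw [lintegral_add_left (hm4 a i), lintegral_occ]
        congr 1
        rw [lintegral_const_mul' _ _ (ENNReal.inv_ne_top.2 (by simpa using hε))]
        congr 1
        rw [lintegral_lintegral_swap (f := fun (x : Space3) (u : ℝ) =>
          occ Φ ε K γ x Z u a i * spd Φ ε M Z u i)
          (((hm1 a i).mul (hm2 i)).comp measurable_swap).aemeasurable]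
        refine lintegral_congr fun u => ?_
        have hm5 : Measurable fun x : Space3 => occ Φ ε K γ x Z u a i := by
          have h := (hm1 a i).comp
            ((measurable_const (a := u)).prodMk (measurable_id (α := Space3)))
          exact h
        rw [lintegral_mul_const _ hm5, lintegral_occ]

theorem inv_activity_eq {ε : ℝ} (hε : 0 < ε) : (activity ε)⁻¹ = ENNReal.ofReal ε ^ 2 := by
  unfold activity
  rw [← ENNReal.ofReal_inv_of_pos (by positivity), inv_inv, ENNReal.ofReal_pow hε.le]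

/-- The weight of the bad particles at time `u`, with speeds. -/
def badSpd (Φ : Space3 → ℝ) (ε : ℝ) (K : ℕ) (M : ℝ) {n : ℕ} (Z : Config n) (u : ℝ) : ℝ≥0∞ :=
  ∑ i : Fin n, (if K < (bc Φ ε Z u i).ncard then 1 else 0) * spd Φ ε M Z u i

omit [Fintype α] in
theorem measurable_badSpd (hΦ : AdmissiblePotential Φ) (hε : 0 < ε) (M : ℝ) (n : ℕ) :
    Measurable fun p : ℝ × Config n => badSpd Φ ε K M p.2 p.1 := by
  unfold badSpd
  refine Finset.measurable_sum _ fun i _ => Measurable.mul ?_ (measurable_spd hΦ hε M i)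
  exact Measurable.ite (measurable_bad_ind hΦ hε i) measurable_const measurable_const

omit [Fintype α] in
theorem badSpd_le {M : ℝ} (hM : 0 ≤ M) {n : ℕ} (Z : Config n) (u : ℝ) :
    badSpd Φ ε K M Z u ≤ ENNReal.ofReal (M + 1) *
      ∑ i ∈ bad Φ ε K Z u, ENNReal.ofReal (1 + ‖(pth Φ ε Z u i).2‖ ^ 2) := by
  unfold badSpd bad spd
  rw [Finset.mul_sum, Finset.sum_filter]
  refine Finset.sum_le_sum fun i _ => ?_
  by_cases h : K < (bc Φ ε Z u i).ncard
  · rw [if_pos h, if_pos h, one_mul, ← ENNReal.ofReal_mul (by positivity)]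
    refine ENNReal.ofReal_le_ofReal ?_
    set v := ‖(pth Φ ε Z u i).2‖
    have hv : 0 ≤ v := norm_nonneg _
    nlinarith [sq_nonneg (v - 1), mul_nonneg hM (sq_nonneg v)]
  · rw [if_neg h, if_neg h, zero_mul]

/-- **The bad particles rarely hit a translated tube family.** -/
theorem exists_badMaj (hΦ : AdmissiblePotential Φ) (hf : Measurable f₀) (hε : 0 < ε)
    {γ : α → ℝ → Space3} {M t : ℝ} (hM : 0 ≤ M) (ht : 0 ≤ t)
    (hγ : ∀ a, ∀ s ∈ Icc 0 t, ∀ s' ∈ Icc 0 t, dist (γ a s) (γ a s') ≤ M * |s - s'|) :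
    ∃ maj : Space3 → ℝ≥0∞, Measurable maj ∧
      (∀ x, gcE f₀ ε (fun _ Z => if BadHit Φ ε K γ t x Z then 1 else 0) ≤ maj x) ∧
      ∫⁻ x, maj x ≤ 8 * c3 * (Fintype.card α : ℝ≥0∞) * (ENNReal.ofReal ε * escMass Φ f₀ ε K t +
        ENNReal.ofReal (M + 1) * ∫⁻ u in Icc 0 t, escEnergy Φ f₀ ε K u) := by
  set γ' : α → ℝ → Space3 := fun a s => γ a (projIcc 0 t ht s) with hγ'
  have hγeq : ∀ a, ∀ s ∈ Icc 0 t, γ' a s = γ a s := by
    intro a s hs
    simp only [hγ', projIcc_of_mem ht hs]
  have hγL : ∀ a, ∀ s s' : ℝ, dist (γ' a s) (γ' a s') ≤ M * |s - s'| := by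
    intro a s s'
    refine (hγ a _ (projIcc 0 t ht s).2 _ (projIcc 0 t ht s').2).trans ?_
    exact mul_le_mul_of_nonneg_left (abs_projIcc_sub_projIcc ht) hM
  have hγc : ∀ a, Continuous (γ' a) := by
    intro a
    have h1 : LipschitzWith (Real.toNNReal M) (γ' a) := LipschitzWith.of_dist_le_mul fun s s' => by
      rw [Real.coe_toNNReal M hM, Real.dist_eq]
      exact hγL a s s'
    exact h1.continuous
  have hγm : ∀ a, Measurable (γ' a) := fun a => (hγc a).measurable
  have hHit : ∀ (n : ℕ) (x : Space3) (Z : Config n),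
      BadHit Φ ε K γ t x Z ↔ BadHit Φ ε K γ' t x Z := by
    intro n x Z
    unfold BadHit
    constructor
    · rintro ⟨s, hs, i, hi, a, ha⟩
      exact ⟨s, hs, i, hi, a, by rw [hγeq a s hs]; exact ha⟩
    · rintro ⟨s, hs, i, hi, a, ha⟩
      exact ⟨s, hs, i, hi, a, by rw [← hγeq a s hs]; exact ha⟩
  have hmm : ∀ n, Measurable (Function.uncurry fun (x : Space3) (Z : Config n) =>
      majZ Φ ε K γ' M t x Z) := measurable_majZ hΦ hε hγm M t
  refine ⟨fun x => gcE f₀ ε fun n Z => majZ Φ ε K γ' M t x Z,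
    measurable_gcE_param hf ε hmm, fun x => ?_, ?_⟩
  · refine gcE_mono f₀ ε fun n Z hZ => ?_
    refine le_trans (le_of_eq ?_) (badHit_le_majZ hΦ hε hM (fun a s _ s' _ => hγL a s s') x hZ)
    by_cases h : BadHit Φ ε K γ t x Z
    · rw [if_pos h, if_pos ((hHit n x Z).1 h)]
    · rw [if_neg h, if_neg fun h' => h ((hHit n x Z).2 h')]
  · rw [lintegral_gcE hf ε volume hmm]
    have he0 : ENNReal.ofReal ε ≠ 0 := by simpa using hε
    have het : ENNReal.ofReal ε ≠ ∞ := ENNReal.ofReal_ne_top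
    have hB : ENNReal.ofReal (2 * ε) ^ 3 * c3 = 8 * c3 * ENNReal.ofReal ε ^ 3 := by
      rw [ENNReal.ofReal_mul (by norm_num), mul_pow]
      norm_num
      ring
    have hA : (activity ε)⁻¹ = ENNReal.ofReal ε ^ 2 := inv_activity_eq hε
    have hmS : ∀ n, Measurable fun p : ℝ × Config n => badSpd Φ ε K M p.2 p.1 := fun n =>
      measurable_badSpd hΦ hε M n
    have hmc : ∀ n, Measurable fun Z : Config n => ENNReal.ofReal ε * ((activity ε)⁻¹ *
        (cnt Φ ε (Ioi K) t Z : ℝ≥0∞)) := fun n =>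
      ((measurable_cnt hΦ hε (Ioi K) t n).const_mul _).const_mul _
    calc gcE f₀ ε (fun n Z => ∫⁻ x, majZ Φ ε K γ' M t x Z)
        = gcE f₀ ε (fun n Z => (8 * c3 * (Fintype.card α : ℝ≥0∞)) *
            (ENNReal.ofReal ε * ((activity ε)⁻¹ * (cnt Φ ε (Ioi K) t Z : ℝ≥0∞)) +
              ∫⁻ u in Icc 0 t, (activity ε)⁻¹ * badSpd Φ ε K M Z u)) := by
          refine gcE_congr f₀ ε fun n Z _ => ?_
          have hmu : ∀ i : Fin n, Measurable fun u : ℝ =>
              (if K < (bc Φ ε Z u i).ncard then (1 : ℝ≥0∞) else 0) * spd Φ ε M Z u i := by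
            intro i
            have h1 : Measurable fun u : ℝ => (u, Z) := measurable_id.prodMk measurable_const
            have h2 : Measurable fun p : ℝ × Config n =>
                (if K < (bc Φ ε p.2 p.1 i).ncard then (1 : ℝ≥0∞) else 0) * spd Φ ε M p.2 p.1 i :=
              (Measurable.ite (measurable_bad_ind hΦ hε i) measurable_const
                measurable_const).mul (measurable_spd hΦ hε M i)
            have h3 := h2.comp h1
            exact h3
          rw [lintegral_majZ hΦ hε hγm, Finset.sum_const, nsmul_eq_mul, Finset.card_univ, hB,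
            cnt_eq, hA]
          have h1 : ∀ i : Fin n, ∫⁻ u in Icc 0 t, (if K < (bc Φ ε Z u i).ncard then 1 else 0) *
              (8 * c3 * ENNReal.ofReal ε ^ 3) * spd Φ ε M Z u i =
              (8 * c3 * ENNReal.ofReal ε ^ 3) * ∫⁻ u in Icc 0 t,
                (if K < (bc Φ ε Z u i).ncard then 1 else 0) * spd Φ ε M Z u i := by
            intro i
            rw [← lintegral_const_mul _ (hmu i)]
            refine lintegral_congr fun u => ?_
            ring
          simp_rw [h1]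
          have h2 : ∫⁻ u in Icc 0 t, ENNReal.ofReal ε ^ 2 * badSpd Φ ε K M Z u =
              ENNReal.ofReal ε ^ 2 * ∑ i : Fin n, ∫⁻ u in Icc 0 t,
                (if K < (bc Φ ε Z u i).ncard then 1 else 0) * spd Φ ε M Z u i := by
            rw [← lintegral_finsetSum _ fun i _ => hmu i, ← lintegral_const_mul _
              (Finset.measurable_sum _ fun i _ => hmu i)]
            rfl
          rw [h2, Finset.sum_add_distrib, ← Finset.sum_mul, ← Finset.mul_sum, ← Finset.mul_sum]
          have h3 : ∑ i : Fin n, (Ioi K).indicator (fun _ => (1 : ℝ≥0∞)) (bc Φ ε Z t i).ncard =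
              ∑ i : Fin n, if K < (bc Φ ε Z t i).ncard then (1 : ℝ≥0∞) else 0 := by
            refine Finset.sum_congr rfl fun i _ => ?_
            by_cases h : K < (bc Φ ε Z t i).ncard
            · rw [if_pos h, indicator_of_mem (show _ ∈ Ioi K from h)]
            · rw [if_neg h, indicator_of_notMem (show _ ∉ Ioi K from h)]
          rw [h3]
          have h4 : (ENNReal.ofReal ε)⁻¹ * (8 * c3 * ENNReal.ofReal ε ^ 3) =
              8 * c3 * ENNReal.ofReal ε ^ 2 := by
            rw [show ENNReal.ofReal ε ^ 3 = ENNReal.ofReal ε * ENNReal.ofReal ε ^ 2 by ring]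
            calc (ENNReal.ofReal ε)⁻¹ * (8 * c3 * (ENNReal.ofReal ε * ENNReal.ofReal ε ^ 2))
                = ((ENNReal.ofReal ε)⁻¹ * ENNReal.ofReal ε) * (8 * c3 * ENNReal.ofReal ε ^ 2) := by
                  ring
              _ = _ := by rw [ENNReal.inv_mul_cancel he0 het, one_mul]
          rw [← mul_assoc (ENNReal.ofReal ε)⁻¹, h4]
          ring
      _ = (8 * c3 * (Fintype.card α : ℝ≥0∞)) * (ENNReal.ofReal ε * escMass Φ f₀ ε K t +
            ∫⁻ u in Icc 0 t, gcE f₀ ε (fun _ Z => (activity ε)⁻¹ * badSpd Φ ε K M Z u)) := by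
          rw [gcE_const_mul f₀ ε (by
            exact ENNReal.mul_ne_top (ENNReal.mul_ne_top (by norm_num) ENNReal.ofReal_ne_top)
              (ENNReal.natCast_ne_top _)),
            gcE_add hf ε (F := fun _ Z => ENNReal.ofReal ε * ((activity ε)⁻¹ *
              (cnt Φ ε (Ioi K) t Z : ℝ≥0∞))) hmc, gcE_const_mul f₀ ε het,
            escMass_eq_sizeMass]
          congr 2
          rw [lintegral_gcE hf ε (volume.restrict (Icc 0 t))
            (F := fun n u Z => (activity ε)⁻¹ * badSpd Φ ε K M Z u)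
            fun n => (hmS n).const_mul _]
      _ ≤ _ := by
          gcongr
          rw [← lintegral_const_mul' _ _ ENNReal.ofReal_ne_top]
          refine lintegral_mono fun u => ?_
          unfold escEnergy
          rw [← gcE_const_mul f₀ ε ENNReal.ofReal_ne_top]
          refine gcE_mono f₀ ε fun n Z _ => ?_
          calc (activity ε)⁻¹ * badSpd Φ ε K M Z u ≤ (activity ε)⁻¹ * (ENNReal.ofReal (M + 1) *
                ∑ i ∈ bad Φ ε K Z u, ENNReal.ofReal (1 + ‖(pth Φ ε Z u i).2‖ ^ 2)) :=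
                mul_le_mul_right (badSpd_le hM Z u) _
            _ = _ := by ring

/-- **Error (a) of the first-hit inequality is small**: uniformly in the curves (at fixed number and
Lipschitz constant) the volume of translations with a hit by a bad particle tends to zero. -/
theorem badHit_small (hΦ : AdmissiblePotential Φ) (hf : Measurable f₀)
    (h1 : ∫⁻ z, ENNReal.ofReal (f₀ z) ≤ 1)
    (h2 : ∫⁻ z, ENNReal.ofReal (f₀ z) * ENNReal.ofReal (‖z.2‖ ^ 2) ≠ ∞)
    {t : ℝ} (ht : 0 ≤ t) (hN : NEK Φ f₀ t) {M : ℝ} (hM : 0 ≤ M) {δ : ℝ} (hδ : 0 < δ) :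
    ∃ K₀ : ℕ, ∀ K : ℕ, K₀ ≤ K → ∃ ε₀ : ℝ, 0 < ε₀ ∧ ∀ ε : ℝ, 0 < ε → ε < ε₀ →
      ∀ γ : α → ℝ → Space3,
        (∀ a, ∀ s ∈ Icc 0 t, ∀ s' ∈ Icc 0 t, dist (γ a s) (γ a s') ≤ M * |s - s'|) →
        ∃ maj : Space3 → ℝ≥0∞, Measurable maj ∧
          (∀ x, gcE f₀ ε (fun _ Z => if BadHit Φ ε K γ t x Z then 1 else 0) ≤ maj x) ∧
          ∫⁻ x, maj x ≤ ENNReal.ofReal δ := by
  set c : ℝ := 8 * (Real.pi * 4 / 3) * (Fintype.card α : ℝ) * (1 + (M + 1) * t) with hc
  have hπ := Real.pi_pos
  have hc0 : 0 ≤ c := by positivity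
  set η : ℝ := δ / (c + 1) with hη
  have hη0 : 0 < η := by positivity
  obtain ⟨K₀, hK₀⟩ := escEnergy_small_unif hΦ hf h1 h2 hN hη0
  refine ⟨K₀, fun K hK => ?_⟩
  obtain ⟨ε₀, hε₀, h3⟩ := hK₀ K hK
  refine ⟨min ε₀ 1, lt_min hε₀ one_pos, fun ε hε hlt γ hγ => ?_⟩
  have hlt' : ε < ε₀ := hlt.trans_le (min_le_left _ _)
  have hε1 : ε ≤ 1 := (hlt.trans_le (min_le_right _ _)).le
  obtain ⟨maj, hm, h4, h5⟩ := exists_badMaj (K := K) hΦ hf hε hM ht hγ
  refine ⟨maj, hm, h4, h5.trans ?_⟩
  have h6 : escMass Φ f₀ ε K t ≤ ENNReal.ofReal η := by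
    refine le_trans ?_ (h3 ε hε hlt' t ht le_rfl)
    rw [escMass_eq]
    unfold escEnergy
    refine gcE_mono f₀ ε fun n Z _ => mul_le_mul_right ?_ _
    calc ((bad Φ ε K (Z : Config n) t).card : ℝ≥0∞) = ∑ _i ∈ bad Φ ε K (Z : Config n) t, 1 := by
          rw [Finset.sum_const, nsmul_eq_mul, mul_one]
      _ ≤ _ := by
          refine Finset.sum_le_sum fun i _ => ?_
          rw [← ENNReal.ofReal_one]
          exact ENNReal.ofReal_le_ofReal (by linarith [sq_nonneg ‖(pth Φ ε Z t i).2‖])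
  have h7 : ∫⁻ u in Icc 0 t, escEnergy Φ f₀ ε K u ≤ ENNReal.ofReal (η * t) := by
    calc ∫⁻ u in Icc 0 t, escEnergy Φ f₀ ε K u ≤ ∫⁻ _ in Icc 0 t, ENNReal.ofReal η :=
          setLIntegral_mono' measurableSet_Icc fun u hu => h3 ε hε hlt' u hu.1 hu.2
      _ = ENNReal.ofReal (η * t) := by
          rw [setLIntegral_const, Real.volume_Icc, sub_zero, ENNReal.ofReal_mul hη0.le]
  calc 8 * c3 * (Fintype.card α : ℝ≥0∞) * (ENNReal.ofReal ε * escMass Φ f₀ ε K t +
        ENNReal.ofReal (M + 1) * ∫⁻ u in Icc 0 t, escEnergy Φ f₀ ε K u)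
      ≤ 8 * c3 * (Fintype.card α : ℝ≥0∞) * (ENNReal.ofReal 1 * ENNReal.ofReal η +
        ENNReal.ofReal (M + 1) * ENNReal.ofReal (η * t)) := by gcongr
    _ = ENNReal.ofReal (8 * (Real.pi * 4 / 3) * (Fintype.card α : ℝ) *
          (1 * η + (M + 1) * (η * t))) := by
        unfold c3
        rw [← ENNReal.ofReal_mul zero_le_one, ← ENNReal.ofReal_mul (by positivity),
          ← ENNReal.ofReal_add (by positivity) (by positivity),
          ← ENNReal.ofReal_natCast (Fintype.card α),
          show (8 : ℝ≥0∞) = ENNReal.ofReal 8 by norm_num,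
          ← ENNReal.ofReal_mul (by norm_num), ← ENNReal.ofReal_mul (by positivity),
          ← ENNReal.ofReal_mul (by positivity)]
    _ = ENNReal.ofReal (c * η) := by
        congr 1
        rw [hc]; ring
    _ ≤ ENNReal.ofReal δ := by
        refine ENNReal.ofReal_le_ofReal ?_
        rw [hη, ← mul_div_assoc, div_le_iff₀ (by positivity)]
        nlinarith

end maj

end Crest.Agent.R122.BadHit370
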