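import Crest.Agent.R122.LinkM7_547

/-!
# Row 122, H11 (helper973): measurable majorant of the indicator of a run

* `runM Φ ε T K L G Z q n w` : the sum over the grid runs (helper547), `1[Run ..] ≤ runM ..` on
  hard-core configurations (`run_le_runM`).
* `one_le_runM_of_le` : a run with horizon `t ≤ T` is counted by `runM` with horizon `T`.
* `measurable_runM` : jointly measurable in the world (births and states) and the configuration;
  `measurable_runM_line` : jointly measurable in `(l, w)`.
* `runM_tail`, `runM_tail_line` : the tails of helper547 hold for the majorant.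
-/

set_option autoImplicit false
set_option maxHeartbeats 400000

open MeasureTheory Set Filter
open Crest.AnalysisR.Kinetic
open Crest.Agent.R122.Flow671 Crest.Agent.R122.Loc45 Crest.Agent.R122.Causal291
open Crest.Agent.R122.Vol365 Crest.Agent.R122.GC311 Crest.Agent.R122.EDefs602
open Crest.Agent.R122.Ins45
open scoped ENNReal Classical Nat Topology

noncomputable section

namespace Crest.Agent.R122.LinkM547

variable {Φ : Space3 → ℝ} {ε : ℝ}

/-- Measurable majorant of the indicator of a run of length `L` from `(Z, q)` in the gas. -/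
def runM (Φ : Space3 → ℝ) (ε T : ℝ) (K L : ℕ) (G : Type) [Fintype G] (Z : MW G) (q : G) (n : ℕ)
    (w : Config n) : ℝ≥0∞ :=
  ∑' N : ℕ, ∑ σ : Sym (Fin (mN T ε (stabB Φ) (Fintype.card G) L K N)) L,
    ∑ st : List.Vector (StepK K) L,
      ∑ ι : Fin (tot (gl (ε / MN (stabB Φ) (Fintype.card G) L K N) σ st)) ↪ Fin n,
        GI Φ ε T G Z q N (gl (ε / MN (stabB Φ) (Fintype.card G) L K N) σ st)
          (fun i => w (ι i))

theorem run_le_runM (hΦ : AdmissiblePotential Φ) (hε : 0 < ε) (T : ℝ) (K L : ℕ) {G : Type}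
    [Fintype G] (Z : MW G) (q : G) {n : ℕ} {w : Config n} (hw : w ∈ PairExcluded ε n) :
    (if Run Φ ε T K L Z q w then (1 : ℝ≥0∞) else 0) ≤ runM Φ ε T K L G Z q n w :=
  run_le_sum hΦ hε T K L Z q hw

theorem one_le_runM (hΦ : AdmissiblePotential Φ) (hε : 0 < ε) {T : ℝ} {K L : ℕ} {G : Type}
    [Fintype G] {Z : MW G} {q : G} {n : ℕ} {w : Config n} (hw : w ∈ PairExcluded ε n)
    (h : Run Φ ε T K L Z q w) : 1 ≤ runM Φ ε T K L G Z q n w := by
  have := run_le_runM hΦ hε T K L Z q hw
  rwa [if_pos h] at this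

theorem allConn_nContact_mono {t T : ℝ} (h : t ≤ T) {k : ℕ} {V : Config k}
    (hc : AllConn (NContact Φ ε 0 t V)) : AllConn (NContact Φ ε 0 T V) := by
  have hm : ∀ i j, NContact Φ ε 0 t V i j → NContact Φ ε 0 T V i j := fun i j ⟨s, hs, hd⟩ =>
    ⟨s, ⟨hs.1, hs.2.trans h⟩, hd⟩
  exact fun i j => Relation.ReflTransGen.mono hm _ _ (hc i j)

/-- `Ch` is monotone in the horizon. -/
theorem ch_mono_horizon {t T ρ : ℝ} (h : t ≤ T) :
    ∀ (l : List (Step × ℝ)) (G : Type) [Fintype G] (Z : MW G) (q : G) (V : Config (tot l)),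
      Ch Φ ε t ρ l G Z q V → Ch Φ ε T ρ l G Z q V := by
  intro l
  induction l with
  | nil => intro G _ Z q V _; exact trivial
  | cons a l ih =>
    intro G _ Z q V hc
    obtain ⟨s, r⟩ := a
    obtain ⟨h1, h2, h3⟩ := hc
    refine ⟨allConn_nContact_mono h h1, h2, ?_⟩
    rcases hk : s.kd with _ | _ | _
    · simp only [hk] at h3 ⊢
      exact ih _ _ _ _ h3
    · simp only [hk] at h3 ⊢
      exact ih _ _ _ _ h3
    · simp only [hk] at h3 ⊢
      exact ih _ _ _ _ h3

/-- **The majorant is uniform in the horizon**: a run with horizon `t ∈ [0, T]` is counted by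
`runM` with horizon `T`. -/
theorem one_le_runM_of_le (hΦ : AdmissiblePotential Φ) (hε : 0 < ε) {t T : ℝ} (htT : t ≤ T)
    {K L : ℕ} {G : Type} [Fintype G] {Z : MW G} {q : G} {n : ℕ} {w : Config n}
    (hw : w ∈ PairExcluded ε n) (hR : Run Φ ε t K L Z q w) : 1 ≤ runM Φ ε T K L G Z q n w := by
  obtain ⟨l, hlen, hk, ht, hs, ι, hc, hL⟩ := hR
  set E : ℝ := kin Z.z + kin (fun i => w (ι i)) with hE
  have hE0 : 0 ≤ E := add_nonneg (kin_nonneg _) (kin_nonneg _)
  set N : ℕ := ⌈E⌉₊ with hN
  have hEN : E ≤ N := Nat.le_ceil E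
  have hNE : (N : ℝ) - 1 ≤ E := by
    have := Nat.ceil_lt_add_one hE0
    linarith
  set M : ℝ := MN (stabB Φ) (Fintype.card G) L K N with hM
  have hM1 : 1 ≤ M := one_le_MN _ _ _ _ _
  have hM0 : 0 < M := lt_of_lt_of_le one_pos hM1
  have hδ : 0 < ε / M := div_pos hε hM0
  have htot : ∀ l : List (Step × ℝ), (∀ p ∈ l, 1 ≤ p.1.k ∧ p.1.k ≤ K) → tot l ≤ l.length * K := by
    intro l
    induction l with
    | nil => intro _; simp [tot]
    | cons p l ih =>
      intro h
      have h1 := ih fun q hq => h q (List.mem_cons_of_mem _ hq)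
      have h2 := (h p (List.mem_cons_self ..)).2
      change p.1.k + tot l ≤ (l.length + 1) * K
      nlinarith
  have htl : (tot l : ℝ) ≤ (L : ℝ) * K := by
    have := htot l hk
    rw [hlen] at this
    exact_mod_cast this
  have hB := stabB_nonneg Φ
  have hrun : Real.sqrt (2 * (kin Z.z + kin (fun i => w (ι i)) +
      stabB Φ * (Fintype.card G + L * K))) ≤ M := by
    refine (Real.sqrt_le_sqrt ?_).trans (le_max_right _ _)
    rw [← hE]
    linarith
  have hV : (fun i => w (ι i)) ∈ PairExcluded ε (tot l) := fun i j hij =>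
    hw _ _ fun h => hij (ι.injective h)
  have hMV : Real.sqrt (2 * (kin (fun i => w (ι i)) + stabB Φ * tot l)) ≤ M := by
    refine (Real.sqrt_le_sqrt ?_).trans (le_max_right _ _)
    have h1 := kin_nonneg Z.z
    have h2 : stabB Φ * tot l ≤ stabB Φ * (Fintype.card G + L * K) := by
      refine mul_le_mul_of_nonneg_left ?_ hB
      have : (0 : ℝ) ≤ Fintype.card G := by positivity
      linarith
    have h3 : kin (fun i => w (ι i)) ≤ N := by
      have : kin (fun i => w (ι i)) ≤ E := by rw [hE]; linarith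
      linarith
    linarith
  have hmono : ∀ (l : List (Step × ℝ)) (M M' : ℝ), M ≤ M' → ∀ (G : Type) [Fintype G] (Z : MW G)
      (q : G) (V : Config (tot l)), ChLip Φ ε t M l G Z q V → ChLip Φ ε t M' l G Z q V := by
    intro l
    induction l with
    | nil => intro _ _ _ _ _ _ _ _ _; exact trivial
    | cons a l ih =>
      intro M M' h G _ Z q V hL
      obtain ⟨s, r⟩ := a
      obtain ⟨l1, l2⟩ := hL
      refine ⟨fun t ht t' ht' => (l1 t ht t' ht').trans
        (mul_le_mul_of_nonneg_right h (abs_nonneg _)), ?_⟩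
      rcases hk : s.kd with _ | _ | _
      · simp only [hk] at l2 ⊢
        exact ih M M' h _ _ _ _ l2
      · simp only [hk] at l2 ⊢
        exact ih M M' h _ _ _ _ l2
      · simp only [hk] at l2 ⊢
        exact ih M M' h _ _ _ _ l2
  have hL' := hmono l _ M hrun G Z q _ hL
  have hMδ : M * (ε / M) ≤ ε := le_of_eq (by field_simp)
  have hround := ch_mono_horizon htT _ _ _ _ _
    (ch_round hΦ hε hδ hMδ l ht G Z q _ hV hMV hc hL')
  have ht' : ∀ p ∈ l, p.2 ∈ Icc (0 : ℝ) T := fun p hp => ⟨(ht p hp).1, (ht p hp).2.trans htT⟩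
  obtain ⟨σ, st, hgl⟩ := exists_gl (K := K) (T := T) hδ l hlen hk ht' hs
  have hex : ∃ ι' : Fin (tot (gl (ε / M) σ st)) ↪ Fin n,
      GI Φ ε T G Z q N (gl (ε / M) σ st) (fun i => w (ι' i)) = 1 := by
    rw [hgl]
    refine ⟨(finCongr (tot_map_rd (ε / M) l)).toEmbedding.trans ι, ?_⟩
    have hkin : kin (fun i => w (((finCongr (tot_map_rd (ε / M) l)).toEmbedding.trans ι) i)) =
        kin (fun i => w (ι i)) :=
      kin_equiv (finCongr (tot_map_rd (ε / M) l)) (fun i => w (ι i))
    unfold GI
    rw [if_pos]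
    refine ⟨hround, ?_⟩
    rw [hkin]
    exact hNE
  obtain ⟨ι', hι'⟩ := hex
  unfold runM
  refine le_trans ?_ (ENNReal.le_tsum N)
  refine le_trans ?_ (Finset.single_le_sum (fun _ _ => bot_le) (Finset.mem_univ σ))
  refine le_trans ?_ (Finset.single_le_sum (fun _ _ => bot_le) (Finset.mem_univ st))
  refine le_trans ?_ (Finset.single_le_sum (fun _ _ => bot_le) (Finset.mem_univ ι'))
  exact hι'.ge

/-! ## Joint measurability -/

section meas

variable {δ : Type*} [MeasurableSpace δ]

theorem measurable_path_joint (hΦ : AdmissiblePotential Φ) (hε : 0 < ε) {G : Type} [Fintype G]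
    {Z : δ → MW G} (hb : Measurable fun x => (Z x).b) (hz : Measurable fun x => (Z x).z) (r : ℝ)
    (q : G) : Measurable fun x => ((Z x).path Φ ε r q).1 := by
  have h := measurable_evo (ι := G) hΦ hε (δ := δ) (b := fun x => (Z x).b)
    (s := fun _ => (0 : ℝ)) (t := fun _ => r) (Z := fun x => (Z x).z)
    (fun i => (measurable_pi_apply i).comp hb) measurable_const measurable_const hz
  exact (((measurable_pi_apply q).comp h)).fst

/-- **`Ch`** is measurable, jointly in births, states and the configuration. -/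
theorem measurableSet_ch_joint (hΦ : AdmissiblePotential Φ) (hε : 0 < ε) (T ρ : ℝ) :
    ∀ (l : List (Step × ℝ)) (G : Type) [Fintype G] (Z : δ → MW G) (q : G)
      (V : δ → Config (tot l)), (Measurable fun x => (Z x).b) → (Measurable fun x => (Z x).z) →
      Measurable V → MeasurableSet {x | Ch Φ ε T ρ l G (Z x) q (V x)} := by
  intro l
  induction l with
  | nil =>
    intro G _ Z q V _ _ _
    have : {x | Ch Φ ε T ρ [] G (Z x) q (V x)} = univ := by
      ext p; simp [Ch]
    rw [this]; exact MeasurableSet.univ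
  | cons a l ih =>
    intro G _ Z q V hb hz hV
    obtain ⟨s, r⟩ := a
    have h1 : Measurable fun x => hd (k := s.k) (m := tot l) (V x) := measurable_hd.comp hV
    have h2 : Measurable fun x => tl (k := s.k) (m := tot l) (V x) := measurable_tl.comp hV
    have hA : MeasurableSet {x | AllConn (NContact Φ ε 0 T (hd (k := s.k) (m := tot l) (V x)))} :=
      h1 (measurableSet_allConn hΦ hε T s.k)
    have hB : MeasurableSet {x | dist (flow Φ ε r (hd (k := s.k) (m := tot l) (V x)) s.e).1
          ((Z x).path Φ ε r q).1 ≤ ρ} := by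
      refine measurableSet_le (Measurable.dist ?_ ?_) measurable_const
      · exact (((measurable_pi_apply s.e).comp ((measurable_flow (ι := Fin s.k) hΦ hε r).comp h1))).fst
      · exact measurable_path_joint hΦ hε hb hz r q
    have hab : Measurable fun x => ((Z x).add (MW.cfg (hd (k := s.k) (m := tot l) (V x)))).b := by
      refine measurable_pi_iff.2 fun i => ?_
      rcases i with i | i
      · exact (measurable_pi_apply i).comp hb
      · exact measurable_const
    have haz : Measurable fun x => ((Z x).add (MW.cfg (hd (k := s.k) (m := tot l) (V x)))).z :=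
      measurable_elim hz h1
    have hC : MeasurableSet {x |
        (match s.kd with
          | .stay => Ch Φ ε T ρ l (G ⊕ Fin s.k)
              ((Z x).add (MW.cfg (hd (k := s.k) (m := tot l) (V x))))
              (Sum.inl q) (tl (k := s.k) (m := tot l) (V x))
          | .switch => Ch Φ ε T ρ l (G ⊕ Fin s.k)
              ((Z x).add (MW.cfg (hd (k := s.k) (m := tot l) (V x))))
              (Sum.inr s.e) (tl (k := s.k) (m := tot l) (V x))
          | .ghost => Ch Φ ε T ρ l (Fin s.k) (MW.cfg (hd (k := s.k) (m := tot l) (V x))) s.e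
              (tl (k := s.k) (m := tot l) (V x)))} := by
      rcases hk : s.kd with _ | _ | _
      · simp only
        exact ih (G ⊕ Fin s.k) _ (Sum.inl q) _ hab haz h2
      · simp only
        exact ih (G ⊕ Fin s.k) _ (Sum.inr s.e) _ hab haz h2
      · simp only
        exact ih (Fin s.k) _ s.e _ measurable_const h1 h2
    exact hA.inter (hB.inter hC)

theorem measurable_GI_joint (hΦ : AdmissiblePotential Φ) (hε : 0 < ε) (T : ℝ) {G : Type}
    [Fintype G] {Z : δ → MW G} (q : G) (N : ℕ) (l : List (Step × ℝ)) {V : δ → Config (tot l)}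
    (hb : Measurable fun x => (Z x).b) (hz : Measurable fun x => (Z x).z) (hV : Measurable V) :
    Measurable fun x => GI Φ ε T G (Z x) q N l (V x) := by
  unfold GI
  refine Measurable.ite ((measurableSet_ch_joint hΦ hε T (3 * ε) l G Z q V hb hz hV).inter ?_)
    measurable_const measurable_const
  refine measurableSet_le measurable_const (Measurable.add ?_ (measurable_kin.comp hV))
  unfold kin
  refine measurable_const.mul (Finset.measurable_sum _ fun i _ => ?_)
  exact (((measurable_pi_apply i).comp hz).snd.norm).pow_const 2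

/-- **The majorant is jointly measurable** in births, states and the configuration. -/
theorem measurable_runM (hΦ : AdmissiblePotential Φ) (hε : 0 < ε) (T : ℝ) (K L : ℕ) {G : Type}
    [Fintype G] {Z : δ → MW G} (q : G) {n : ℕ} {w : δ → Config n}
    (hb : Measurable fun x => (Z x).b) (hz : Measurable fun x => (Z x).z) (hw : Measurable w) :
    Measurable fun x => runM Φ ε T K L G (Z x) q n (w x) := by
  unfold runM
  refine Measurable.ennreal_tsum fun N => Finset.measurable_sum _ fun σ _ =>
    Finset.measurable_sum _ fun st _ => Finset.measurable_sum _ fun ι _ => ?_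
  exact measurable_GI_joint hΦ hε T q N _ hb hz
    (measurable_pi_iff.2 fun i => (measurable_pi_apply (ι i)).comp hw)

theorem measurable_line_b : Measurable fun l : ML => (MW.line l).b :=
  measurable_pi_iff.2 fun _ => measurable_fst.fst

theorem measurable_line_z : Measurable fun l : ML => (MW.line l).z := by
  refine measurable_pi_iff.2 fun _ => ?_
  change Measurable fun l : ML => back l.1
  unfold back
  exact (measurable_fst.snd.fst.sub (measurable_fst.fst.smul measurable_fst.snd.snd)).prodMk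
    measurable_fst.snd.snd

/-- **The majorant of the runs from a line is jointly measurable** in the line and the
configuration. -/
theorem measurable_runM_line (hΦ : AdmissiblePotential Φ) (hε : 0 < ε) (T : ℝ) (K L : ℕ) {n : ℕ}
    {l : δ → ML} {w : δ → Config n} (hl : Measurable l) (hw : Measurable w) :
    Measurable fun x => runM Φ ε T K L Unit (MW.line (l x)) () n (w x) :=
  measurable_runM hΦ hε T K L () (measurable_line_b.comp hl) (measurable_line_z.comp hl) hw

end meas

/-! ## Tails -/

/-- **Tail of the majorant of the runs.** -/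
theorem runM_tail (hΦ : AdmissiblePotential Φ) {β : ℝ} (hβ : 0 < β) (T C₀ : ℝ) (hT : 0 ≤ T)
    (hC₀ : 0 ≤ C₀) (K K0 : ℕ) : ∃ η : ℕ → ℝ≥0∞, Tendsto η atTop (𝓝 0) ∧ (∀ L, η L ≠ ∞) ∧
      ∀ L : ℕ, ∃ ε₀ : ℝ, 0 < ε₀ ∧ ∀ ε : ℝ, 0 < ε → ε < ε₀ → ∀ f₀ : PhasePoint → ℝ, Measurable f₀ →
        (∀ z : PhasePoint, f₀ z ≤ C₀ * Real.exp (-(2 * β * ‖z.2‖ ^ 2))) →
        (∫⁻ z, ENNReal.ofReal (f₀ z) ≤ 1) →
        ∀ (G : Type) [Fintype G], Fintype.card G ≤ K0 → ∀ (Z : MW G) (q : G),
          gcE f₀ ε (fun n w => runM Φ ε T K L G Z q n w) ≤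
            η L * ENNReal.ofReal (Real.exp (2 * β * kin Z.z)) := by
  obtain ⟨C, hCtop, hC⟩ := step_bound hΦ hβ T C₀ hC₀ K
  set cK : ℕ := Fintype.card (StepK K) with hcK
  set c : ℝ := C.toReal with hc
  have hCc : C = ENNReal.ofReal c := (ENNReal.ofReal_toReal hCtop).symm
  have hc0 : 0 ≤ c := ENNReal.toReal_nonneg
  have hB := stabB_nonneg Φ
  set D : ℝ := 2 + 2 * stabB Φ * (K0 + K) with hD
  set A : ℝ := cK * (27 * c) * (T + 1) * Real.sqrt (D / (2 * β)) * Real.exp β with hA
  have hA0 : 0 ≤ A := by positivity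
  set S : ℝ := ∑' N : ℕ, Real.exp (3 * β) * Real.exp (-β * N) with hS
  have hsum : Summable fun N : ℕ => Real.exp (3 * β) * Real.exp (-β * N) := by
    refine Summable.mul_left _ ?_
    have : Summable fun n : ℕ => Real.exp (n * (-β)) := Real.summable_exp_nat_mul_iff.2 (by linarith)
    refine this.congr fun n => ?_
    rw [mul_comm]
  refine ⟨fun L => ENNReal.ofReal (A ^ L / Real.sqrt (L ! : ℝ) * S), ?_,
    fun L => ENNReal.ofReal_ne_top, ?_⟩
  · -- the limit
    have h1 : Tendsto (fun L : ℕ => A ^ L / Real.sqrt (L ! : ℝ)) atTop (𝓝 0) := by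
      have h2 := (FloorSemiring.tendsto_pow_div_factorial_atTop (A ^ 2)).sqrt
      rw [Real.sqrt_zero] at h2
      refine h2.congr fun L => ?_
      have : (0 : ℝ) ≤ (L ! : ℝ) := by positivity
      rw [Real.sqrt_div' _ this, ← pow_mul, mul_comm 2 L, pow_mul, Real.sqrt_sq (pow_nonneg hA0 L)]
    have h3 := ENNReal.tendsto_ofReal (h1.mul_const S)
    rw [zero_mul, ENNReal.ofReal_zero] at h3
    exact h3
  · intro L
    refine ⟨1 / (L + 1), by positivity, ?_⟩
    intro ε hε hεL f₀ hf hfC h1 G _ hG Z q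
    have hεL' : ε * (L + 1) ≤ 1 := by
      have : (0 : ℝ) < (L : ℝ) + 1 := by positivity
      have := (lt_div_iff₀ this).1 hεL
      linarith
    have hε1 : ε ≤ 1 := by
      have : (1 : ℝ) / (L + 1) ≤ 1 := by
        rw [div_le_one (by positivity)]
        have : (0 : ℝ) ≤ (L : ℝ) := by positivity
        linarith
      linarith
    have hCf : ∀ k ≤ K, ∀ (e : Fin k) (r : ℝ), 0 ≤ r → r ≤ T → ∀ a : Space3,
        ∫⁻ V : Config k, gcWeight f₀ ε k V * ENNReal.ofReal (Real.exp (2 * β * kin V)) *
          (if AllConn (NContact Φ ε 0 T V) ∧ dist (flow Φ ε r V e).1 a ≤ 3 * ε then 1 else 0) ≤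
        C * ENNReal.ofReal ε ^ (2 * (k - 1)) * ENNReal.ofReal (3 * ε) ^ 3 := by
      intro k hk e r h0 hT' a
      exact hC f₀ hfC ε hε hε1 k hk e r h0 hT' a (3 * ε) (by positivity)
    set B := stabB Φ with hBdef
    have hmeas : ∀ (n N : ℕ) (σ : Sym (Fin (mN T ε B (Fintype.card G) L K N)) L)
        (st : List.Vector (StepK K) L), Measurable fun w : Config n =>
          ∑ ι : Fin (tot (gl (ε / MN B (Fintype.card G) L K N) σ st)) ↪ Fin n,
            GI Φ ε T G Z q N (gl (ε / MN B (Fintype.card G) L K N) σ st) (fun i => w (ι i)) := by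
      intro n N σ st
      refine Finset.measurable_sum _ fun ι _ => ?_
      exact (measurable_GI hΦ hε T G Z q N _).comp
        (measurable_pi_iff.2 fun i => measurable_pi_apply (ι i))
    calc gcE f₀ ε (fun n w => runM Φ ε T K L G Z q n w)
        = gcE f₀ ε (fun n w => ∑' N : ℕ, ∑ σ : Sym (Fin (mN T ε B (Fintype.card G) L K N)) L,
            ∑ st : List.Vector (StepK K) L,
              ∑ ι : Fin (tot (gl (ε / MN B (Fintype.card G) L K N) σ st)) ↪ Fin n,
                GI Φ ε T G Z q N (gl (ε / MN B (Fintype.card G) L K N) σ st)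
                  (fun i => w (ι i))) := rfl
      _ = ∑' N : ℕ, ∑ σ : Sym (Fin (mN T ε B (Fintype.card G) L K N)) L,
            ∑ st : List.Vector (StepK K) L, gcE f₀ ε (fun n w =>
              ∑ ι : Fin (tot (gl (ε / MN B (Fintype.card G) L K N) σ st)) ↪ Fin n,
                GI Φ ε T G Z q N (gl (ε / MN B (Fintype.card G) L K N) σ st)
                  (fun i => w (ι i))) := by
          rw [gcE_tsum hf ε (F := fun N n w =>
            ∑ σ : Sym (Fin (mN T ε B (Fintype.card G) L K N)) L,
            ∑ st : List.Vector (StepK K) L,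
              ∑ ι : Fin (tot (gl (ε / MN B (Fintype.card G) L K N) σ st)) ↪ Fin n,
                GI Φ ε T G Z q N (gl (ε / MN B (Fintype.card G) L K N) σ st)
                  (fun i => w (ι i)))
            (fun N n => Finset.measurable_sum _ fun σ _ => Finset.measurable_sum _ fun st _ =>
              hmeas n N σ st)]
          refine tsum_congr fun N => ?_
          rw [gcE_finset_sum hf ε Finset.univ (F := fun σ n w =>
            ∑ st : List.Vector (StepK K) L,
              ∑ ι : Fin (tot (gl (ε / MN B (Fintype.card G) L K N) σ st)) ↪ Fin n,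
                GI Φ ε T G Z q N (gl (ε / MN B (Fintype.card G) L K N) σ st)
                  (fun i => w (ι i)))
            (fun σ _ n => Finset.measurable_sum _ fun st _ => hmeas n N σ st)]
          refine Finset.sum_congr rfl fun σ _ => ?_
          rw [gcE_finset_sum hf ε Finset.univ (F := fun st n w =>
              ∑ ι : Fin (tot (gl (ε / MN B (Fintype.card G) L K N) σ st)) ↪ Fin n,
                GI Φ ε T G Z q N (gl (ε / MN B (Fintype.card G) L K N) σ st)
                  (fun i => w (ι i)))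
            (fun st _ n => hmeas n N σ st)]
      _ ≤ ∑' N : ℕ, ∑ σ : Sym (Fin (mN T ε B (Fintype.card G) L K N)) L,
            ∑ st : List.Vector (StepK K) L,
              ENNReal.ofReal (Real.exp (2 * β * (kin Z.z - (N - 1)))) *
                (27 * C * ENNReal.ofReal ε) ^ L := by
          refine ENNReal.tsum_le_tsum fun N => Finset.sum_le_sum fun σ _ =>
            Finset.sum_le_sum fun st _ => ?_
          have hM0 : 0 < MN B (Fintype.card G) L K N := lt_of_lt_of_le one_pos (one_le_MN _ _ _ _ _)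
          have hδ : 0 < ε / MN B (Fintype.card G) L K N := div_pos hε hM0
          have h2 := gcE_GI_le hΦ hf h1 hε (T := T) hβ.le hCf G Z q N
            (gl (ε / MN B (Fintype.card G) L K N) σ st)
            (fun p hp => ⟨(mem_gl hp).1, (mem_gl hp).2.1⟩)
            (fun p hp => by
              obtain ⟨-, -, a, ha⟩ := mem_gl hp
              rw [ha]
              refine ⟨by positivity, ?_⟩
              have h3 : (a.1 : ℕ) ≤ ⌊T / (ε / MN B (Fintype.card G) L K N)⌋₊ := by
                have := a.2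
                unfold mN at this
                omega
              calc ε / MN B (Fintype.card G) L K N * ((a.1 : ℕ) : ℝ)
                  ≤ ε / MN B (Fintype.card G) L K N *
                    (⌊T / (ε / MN B (Fintype.card G) L K N)⌋₊ : ℝ) := by
                    refine mul_le_mul_of_nonneg_left ?_ hδ.le
                    exact_mod_cast h3
                _ ≤ T := (rd_bounds hδ hT).2.1)
          rw [length_gl] at h2
          exact h2
      _ = ∑' N : ℕ, ENNReal.ofReal (Real.exp (2 * β * (kin Z.z - (N - 1))) *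
            ((cK * (27 * c)) ^ L * ((Fintype.card (Sym (Fin (mN T ε B (Fintype.card G) L K N)) L) : ℝ) *
              ε ^ L))) := by
          refine tsum_congr fun N => ?_
          rw [Finset.sum_const, Finset.sum_const, Finset.card_univ, Finset.card_univ, card_vector,
            nsmul_eq_mul, nsmul_eq_mul, hCc, ← hcK]
          have e27 : (27 : ℝ≥0∞) = ENNReal.ofReal 27 := (ENNReal.ofReal_ofNat 27).symm
          rw [e27, ← ENNReal.ofReal_mul (by norm_num), ← ENNReal.ofReal_mul (by positivity),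
            ← ENNReal.ofReal_pow (by positivity), ← ENNReal.ofReal_mul (Real.exp_pos _).le,
            ← ENNReal.ofReal_natCast, ← ENNReal.ofReal_natCast,
            ← ENNReal.ofReal_mul (by positivity), ← ENNReal.ofReal_mul (by positivity)]
          congr 1
          push_cast
          ring
      _ ≤ ∑' N : ℕ, ENNReal.ofReal ((A ^ L / Real.sqrt (L ! : ℝ) * Real.exp (2 * β * kin Z.z)) *
            (Real.exp (3 * β) * Real.exp (-β * N))) := by
          refine ENNReal.tsum_le_tsum fun N => ENNReal.ofReal_le_ofReal ?_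
          have s1 := card_sym_le (B := B) (cG := Fintype.card G) hT hε L K N hεL'
          have s2 := MN_pow_le (cG := Fintype.card G) hβ hB K0 K L N (by exact_mod_cast hG)
          rw [← hD] at s2
          have e0 : (0 : ℝ) < (L ! : ℝ) := by exact_mod_cast Nat.factorial_pos L
          have hsq : Real.sqrt (L ! : ℝ) * Real.sqrt (L ! : ℝ) = (L ! : ℝ) := Real.mul_self_sqrt e0.le
          have hsq0 : 0 < Real.sqrt (L ! : ℝ) := Real.sqrt_pos.2 e0
          have s3 : (Fintype.card (Sym (Fin (mN T ε B (Fintype.card G) L K N)) L) : ℝ) * ε ^ L ≤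
              (T + 1) ^ L * (Real.sqrt (D / (2 * β)) ^ L *
                Real.exp (β * (N + L + 1))) / Real.sqrt (L ! : ℝ) := by
            refine s1.trans ?_
            have ee : ((T + 1) * MN B (Fintype.card G) L K N) ^ L / (L ! : ℝ) =
                ((T + 1) ^ L * MN B (Fintype.card G) L K N ^ L) /
                  (Real.sqrt (L ! : ℝ) * Real.sqrt (L ! : ℝ)) := by rw [hsq, mul_pow]
            rw [ee, div_le_div_iff₀ (by positivity) hsq0]
            have : (T + 1) ^ L * MN B (Fintype.card G) L K N ^ L ≤ (T + 1) ^ L *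
              (Real.sqrt (D / (2 * β)) ^ L * Real.sqrt (L ! : ℝ) * Real.exp (β * (N + L + 1))) :=
              mul_le_mul_of_nonneg_left s2 (by positivity)
            calc (T + 1) ^ L * MN B (Fintype.card G) L K N ^ L * Real.sqrt (L ! : ℝ)
                ≤ (T + 1) ^ L * (Real.sqrt (D / (2 * β)) ^ L * Real.sqrt (L ! : ℝ) *
                  Real.exp (β * (N + L + 1))) * Real.sqrt (L ! : ℝ) :=
                  mul_le_mul_of_nonneg_right this hsq0.le
              _ = _ := by ring
          calc Real.exp (2 * β * (kin Z.z - (N - 1))) * ((cK * (27 * c)) ^ L *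
                ((Fintype.card (Sym (Fin (mN T ε B (Fintype.card G) L K N)) L) : ℝ) * ε ^ L))
              ≤ Real.exp (2 * β * (kin Z.z - (N - 1))) * ((cK * (27 * c)) ^ L *
                ((T + 1) ^ L * (Real.sqrt (D / (2 * β)) ^ L *
                Real.exp (β * (N + L + 1))) / Real.sqrt (L ! : ℝ))) := by
                refine mul_le_mul_of_nonneg_left (mul_le_mul_of_nonneg_left s3 (by positivity))
                  (Real.exp_pos _).le
            _ = _ := by
                have x1 : Real.exp (2 * β * (kin Z.z - (N - 1))) * Real.exp (β * (N + L + 1)) =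
                    Real.exp β ^ L * Real.exp (2 * β * kin Z.z) *
                      (Real.exp (3 * β) * Real.exp (-β * N)) := by
                  rw [← Real.exp_nat_mul, ← Real.exp_add, ← Real.exp_add, ← Real.exp_add,
                    ← Real.exp_add]
                  congr 1
                  ring
                calc Real.exp (2 * β * (kin Z.z - (N - 1))) * ((cK * (27 * c)) ^ L *
                    ((T + 1) ^ L * (Real.sqrt (D / (2 * β)) ^ L *
                    Real.exp (β * (N + L + 1))) / Real.sqrt (L ! : ℝ)))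
                    = (cK * (27 * c)) ^ L * (T + 1) ^ L * Real.sqrt (D / (2 * β)) ^ L /
                      Real.sqrt (L ! : ℝ) * (Real.exp (2 * β * (kin Z.z - (N - 1))) *
                        Real.exp (β * (N + L + 1))) := by ring
                  _ = _ := by rw [x1, hA]; simp only [mul_pow]; ring
      _ = ENNReal.ofReal (A ^ L / Real.sqrt (L ! : ℝ) * Real.exp (2 * β * kin Z.z) * S) := by
          rw [hS, ← ENNReal.ofReal_tsum_of_nonneg, tsum_mul_left]
          · intro N; positivity
          · exact hsum.mul_left _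
      _ = _ := by
          rw [← ENNReal.ofReal_mul (by positivity)]
          congr 1
          ring

/-- **Tail of the majorant of the runs from a line, integrated over the line.** -/
theorem runM_tail_line (hΦ : AdmissiblePotential Φ) {β γ₀ : ℝ} (hβ : 0 < β) (hβγ : β < γ₀)
    (T A : ℝ) (hT : 0 ≤ T) (hA : 0 ≤ A) (K : ℕ) {f₀ : PhasePoint → ℝ} (hf : Measurable f₀)
    (h1 : ∫⁻ z, ENNReal.ofReal (f₀ z) ≤ 1) {env : Space3 → ℝ≥0∞} (hE : EnvB β f₀ env A)
    {γ : ℝ → ℝ} (hγ : Measurable γ) (hγ₀ : ∀ τ ∈ Ioc (0 : ℝ) T, γ₀ ≤ γ τ) {ρm : ℝ≥0∞}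
    (hρm : ρm ≠ ∞) (Km : ℕ) :
    ∃ η : ℕ → ℝ≥0∞, Tendsto η atTop (𝓝 0) ∧ (∀ L, η L ≠ ∞) ∧
      ∀ L : ℕ, 1 ≤ L → ∃ ε₀ : ℝ, 0 < ε₀ ∧ ∀ ε : ℝ, 0 < ε → ε < ε₀ →
        ∫⁻ l, gcE f₀ ε (fun n w => runM Φ ε T K L Unit (MW.line l) () n w)
          ∂lineM γ ρm Km T ≤ η L := by
  have hfC : ∀ z : PhasePoint, f₀ z ≤ A * Real.exp (-(2 * β * ‖z.2‖ ^ 2)) := by
    intro z
    have h2 : ENNReal.ofReal (f₀ z) ≤ ENNReal.ofReal (A * Real.exp (-(2 * β * ‖z.2‖ ^ 2))) := by
      rw [ENNReal.ofReal_mul hA]
      exact (hE.bound z).trans (mul_le_mul_left (hE.le _) _)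
    exact (ENNReal.ofReal_le_ofReal_iff (mul_nonneg hA (Real.exp_pos _).le)).1 h2
  obtain ⟨C, hCtop, hC⟩ := step_bound hΦ hβ T A hA K
  obtain ⟨C', hC'top, hC'⟩ := conn_bound hΦ hβ T A hT K
  obtain ⟨C₁, hC₁top, hC₁⟩ := line_step (T := T) hβγ hγ hγ₀ hρm Km
  set C₂ : ℝ≥0∞ := C' * ∫⁻ x, env x with hC₂
  have hC₂top : C₂ ≠ ∞ := ENNReal.mul_ne_top hC'top hE.int_ne
  have hB := stabB_nonneg Φ
  obtain ⟨η, hη, hηtop, hsum⟩ := grid_sum hB hβ T hT K 1 (C := C + C₁ * C₂)
    (ENNReal.add_ne_top.2 ⟨hCtop, ENNReal.mul_ne_top hC₁top hC₂top⟩)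
  refine ⟨η, hη, hηtop, ?_⟩
  intro L hL
  refine ⟨1 / (L + 1), by positivity, ?_⟩
  intro ε hε hεL
  have hεL' : ε * (L + 1) ≤ 1 := by
    have : (0 : ℝ) < (L : ℝ) + 1 := by positivity
    have := (lt_div_iff₀ this).1 hεL
    linarith
  have hε1 : ε ≤ 1 := by
    have : (1 : ℝ) / (L + 1) ≤ 1 := by
      rw [div_le_one (by positivity)]
      have : (0 : ℝ) ≤ (L : ℝ) := by positivity
      linarith
    linarith
  have hCf : ∀ k ≤ K, ∀ (e : Fin k) (r : ℝ), 0 ≤ r → r ≤ T → ∀ a : Space3,
      ∫⁻ V : Config k, gcWeight f₀ ε k V * ENNReal.ofReal (Real.exp (2 * β * kin V)) *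
        (if AllConn (NContact Φ ε 0 T V) ∧ dist (flow Φ ε r V e).1 a ≤ 3 * ε then 1 else 0) ≤
      C * ENNReal.ofReal ε ^ (2 * (k - 1)) * ENNReal.ofReal (3 * ε) ^ 3 := by
    intro k hk e r h0 hT' a
    exact hC f₀ hfC ε hε hε1 k hk e r h0 hT' a (3 * ε) (by positivity)
  have hconn : ∀ k, 1 ≤ k → k ≤ K → ∫⁻ V : Config k, gcWeight f₀ ε k V *
      ENNReal.ofReal (Real.exp (2 * β * kin V)) *
        (if AllConn (NContact Φ ε 0 T V) then 1 else 0) ≤
      C₂ * ENNReal.ofReal ε ^ (2 * (k - 1)) := by
    intro k h1' hk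
    refine (hC' f₀ env hE ε hε hε1 k h1' hk).trans (le_of_eq ?_)
    rw [hC₂]
    ring
  set B := stabB Φ with hBdef
  set cG : ℝ := (Fintype.card Unit : ℝ) with hcG
  have hcG1 : cG ≤ ((1 : ℕ) : ℝ) := by rw [hcG]; simp
  have hgl : ∀ (N : ℕ) (σ : Sym (Fin (mN T ε B cG L K N)) L) (st : List.Vector (StepK K) L),
      (∀ p ∈ gl (ε / MN B cG L K N) σ st, 1 ≤ p.1.k ∧ p.1.k ≤ K) ∧
      (∀ p ∈ gl (ε / MN B cG L K N) σ st, p.2 ∈ Icc (0 : ℝ) T) ∧
      gl (ε / MN B cG L K N) σ st ≠ [] := by
    intro N σ st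
    refine ⟨fun p hp => ⟨(mem_gl hp).1, (mem_gl hp).2.1⟩, fun p hp => ?_, ?_⟩
    · have hM0 : 0 < MN B cG L K N := lt_of_lt_of_le one_pos (one_le_MN _ _ _ _ _)
      have hδ : 0 < ε / MN B cG L K N := div_pos hε hM0
      obtain ⟨-, -, a, ha⟩ := mem_gl hp
      rw [ha]
      refine ⟨by positivity, ?_⟩
      have h3 : (a.1 : ℕ) ≤ ⌊T / (ε / MN B cG L K N)⌋₊ := by
        have := a.2
        unfold mN at this
        omega
      calc ε / MN B cG L K N * ((a.1 : ℕ) : ℝ)
          ≤ ε / MN B cG L K N * (⌊T / (ε / MN B cG L K N)⌋₊ : ℝ) := by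
            refine mul_le_mul_of_nonneg_left ?_ hδ.le
            exact_mod_cast h3
        _ ≤ T := (rd_bounds hδ hT).2.1
    · intro h
      have := length_gl (ε / MN B cG L K N) σ st
      rw [h] at this
      simp at this
      omega
  have hmeas : ∀ (l : ML) (n N : ℕ) (σ : Sym (Fin (mN T ε B cG L K N)) L)
      (st : List.Vector (StepK K) L), Measurable fun w : Config n =>
        ∑ ι : Fin (tot (gl (ε / MN B cG L K N) σ st)) ↪ Fin n,
          GI Φ ε T Unit (MW.line l) () N (gl (ε / MN B cG L K N) σ st) (fun i => w (ι i)) := by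
    intro l n N σ st
    refine Finset.measurable_sum _ fun ι _ => ?_
    exact (measurable_GI hΦ hε T Unit (MW.line l) () N _).comp
      (measurable_pi_iff.2 fun i => measurable_pi_apply (ι i))
  have hpt : ∀ l : ML, gcE f₀ ε (fun n w => runM Φ ε T K L Unit (MW.line l) () n w) ≤
      ∑' N : ℕ, ∑ σ : Sym (Fin (mN T ε B cG L K N)) L, ∑ st : List.Vector (StepK K) L,
        Ub Φ f₀ ε β T C N l (gl (ε / MN B cG L K N) σ st) := by
    intro l
    calc gcE f₀ ε (fun n w => runM Φ ε T K L Unit (MW.line l) () n w)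
        = gcE f₀ ε (fun n w => ∑' N : ℕ, ∑ σ : Sym (Fin (mN T ε B cG L K N)) L,
            ∑ st : List.Vector (StepK K) L,
              ∑ ι : Fin (tot (gl (ε / MN B cG L K N) σ st)) ↪ Fin n,
                GI Φ ε T Unit (MW.line l) () N (gl (ε / MN B cG L K N) σ st)
                  (fun i => w (ι i))) := rfl
      _ = ∑' N : ℕ, ∑ σ : Sym (Fin (mN T ε B cG L K N)) L,
            ∑ st : List.Vector (StepK K) L, gcE f₀ ε (fun n w =>
              ∑ ι : Fin (tot (gl (ε / MN B cG L K N) σ st)) ↪ Fin n,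
                GI Φ ε T Unit (MW.line l) () N (gl (ε / MN B cG L K N) σ st)
                  (fun i => w (ι i))) := by
          rw [gcE_tsum hf ε (F := fun N n w =>
            ∑ σ : Sym (Fin (mN T ε B cG L K N)) L,
            ∑ st : List.Vector (StepK K) L,
              ∑ ι : Fin (tot (gl (ε / MN B cG L K N) σ st)) ↪ Fin n,
                GI Φ ε T Unit (MW.line l) () N (gl (ε / MN B cG L K N) σ st)
                  (fun i => w (ι i)))
            (fun N n => Finset.measurable_sum _ fun σ _ => Finset.measurable_sum _ fun st _ =>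
              hmeas l n N σ st)]
          refine tsum_congr fun N => ?_
          rw [gcE_finset_sum hf ε Finset.univ (F := fun σ n w =>
            ∑ st : List.Vector (StepK K) L,
              ∑ ι : Fin (tot (gl (ε / MN B cG L K N) σ st)) ↪ Fin n,
                GI Φ ε T Unit (MW.line l) () N (gl (ε / MN B cG L K N) σ st)
                  (fun i => w (ι i)))
            (fun σ _ n => Finset.measurable_sum _ fun st _ => hmeas l n N σ st)]
          refine Finset.sum_congr rfl fun σ _ => ?_
          rw [gcE_finset_sum hf ε Finset.univ (F := fun st n w =>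
              ∑ ι : Fin (tot (gl (ε / MN B cG L K N) σ st)) ↪ Fin n,
                GI Φ ε T Unit (MW.line l) () N (gl (ε / MN B cG L K N) σ st)
                  (fun i => w (ι i)))
            (fun st _ n => hmeas l n N σ st)]
      _ ≤ _ := by
          refine ENNReal.tsum_le_tsum fun N => Finset.sum_le_sum fun σ _ =>
            Finset.sum_le_sum fun st _ => ?_
          exact gcE_GI_line_le hΦ hf h1 hε hβ.le hCtop hCf l N _ (hgl N σ st).1 (hgl N σ st).2.1
  have hmU : ∀ (N : ℕ) (σ : Sym (Fin (mN T ε B cG L K N)) L) (st : List.Vector (StepK K) L),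
      Measurable fun l : ML => Ub Φ f₀ ε β T C N l (gl (ε / MN B cG L K N) σ st) :=
    fun N σ st => measurable_ub hΦ hε hf β T C N _
  calc ∫⁻ l, gcE f₀ ε (fun n w => runM Φ ε T K L Unit (MW.line l) () n w)
        ∂lineM γ ρm Km T
      ≤ ∫⁻ l, ∑' N : ℕ, ∑ σ : Sym (Fin (mN T ε B cG L K N)) L, ∑ st : List.Vector (StepK K) L,
          Ub Φ f₀ ε β T C N l (gl (ε / MN B cG L K N) σ st) ∂lineM γ ρm Km T :=
        lintegral_mono hpt
    _ = ∑' N : ℕ, ∑ σ : Sym (Fin (mN T ε B cG L K N)) L, ∑ st : List.Vector (StepK K) L,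
          ∫⁻ l, Ub Φ f₀ ε β T C N l (gl (ε / MN B cG L K N) σ st) ∂lineM γ ρm Km T := by
        rw [lintegral_tsum fun N => (Finset.measurable_sum _ fun σ _ =>
          Finset.measurable_sum _ fun st _ => hmU N σ st).aemeasurable]
        refine tsum_congr fun N => ?_
        rw [lintegral_finsetSum _ fun σ _ => Finset.measurable_sum _ fun st _ => hmU N σ st]
        refine Finset.sum_congr rfl fun σ _ => ?_
        rw [lintegral_finsetSum _ fun st _ => hmU N σ st]
    _ ≤ ∑' N : ℕ, ∑ σ : Sym (Fin (mN T ε B cG L K N)) L, ∑ st : List.Vector (StepK K) L,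
          ENNReal.ofReal (Real.exp (-(2 * β * (N - 1)))) *
            (27 * (C + C₁ * C₂) * ENNReal.ofReal ε) ^ L := by
        refine ENNReal.tsum_le_tsum fun N => Finset.sum_le_sum fun σ _ =>
          Finset.sum_le_sum fun st _ => ?_
        have h2 := lintegral_ub_le hΦ hε hf (γ := γ) (ρm := ρm) (Km := Km) hCtop hC₁top hC₁ hconn N
          (gl (ε / MN B cG L K N) σ st) (hgl N σ st).2.2 (hgl N σ st).1
        rw [length_gl] at h2
        exact h2
    _ ≤ η L := hsum L ε hε hεL' cG hcG1

end Crest.Agent.R122.LinkM547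

end
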