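import Crest.Agent.R122.LN2Main_473
import Crest.Agent.R122.RunMeas_973
import Crest.Agent.R122.MeasEDefs_416
import Crest.Agent.R122.BadHit_370

/-!
# Row 122, H11 (helper424): the gateway for LINK / return null facts

Structure data: a measure `m ε i` on `Θ` (index `i : I`, everything is uniform in `i`), an event
`E ε i n θ w` of the structure `θ` and the gas `w : Config n`.

* `GLe f₀ m E c` : for small `ε` the event has a jointly measurable majorant of mass `≤ c`.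
* `GNull f₀ m E` : `GLe` for all `c > 0`.
* `GLe.mono`, `GLe.or`, `GLe.exists_fin`, `GNull.mono`, `GNull.or`, ... : calculus.
* `gLe_run` : runs of length `L` from finitely many lines of a structure with exponential moments.
* `gNull_badGas` : the bad partitions (`LN2.BadGas`) of a dominated structure.
* `gNull_of_det` : **the gateway**.
-/

set_option autoImplicit false
set_option linter.unusedSectionVars false

open MeasureTheory Set Filter Topology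
open scoped Classical ENNReal
open Crest.AnalysisR.Kinetic
open Crest.Agent.R122.GC311 Crest.Agent.R122.EDefs602 Crest.Agent.R122.LinkM547
open Crest.Agent.R122.LN2

noncomputable section

namespace Crest.Agent.R122.Gate424

variable {f₀ : PhasePoint → ℝ} {I Θ : Type} [MeasurableSpace Θ]
  {m : ℝ → I → Measure Θ}

/-- For small `ε` the event has a jointly measurable majorant of mass at most `c`, uniformly in the
index. -/
def GLe (f₀ : PhasePoint → ℝ) (m : ℝ → I → Measure Θ)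
    (E : ℝ → I → (n : ℕ) → Θ → Config n → Prop) (c : ℝ≥0∞) : Prop :=
  ∃ ε₀ : ℝ, 0 < ε₀ ∧ ∀ ε : ℝ, 0 < ε → ε < ε₀ → ∀ i : I,
    ∃ G : (n : ℕ) → Θ × Config n → ℝ≥0∞, (∀ n, Measurable (G n)) ∧
      (∀ n θ (w : Config n), w ∈ PairExcluded ε n → E ε i n θ w → 1 ≤ G n (θ, w)) ∧
      ∫⁻ θ, gcE f₀ ε (fun n w => G n (θ, w)) ∂(m ε i) ≤ c

/-- The event is null. -/
def GNull (f₀ : PhasePoint → ℝ) (m : ℝ → I → Measure Θ)
    (E : ℝ → I → (n : ℕ) → Θ → Config n → Prop) : Prop :=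
  ∀ δ : ℝ≥0∞, 0 < δ → GLe f₀ m E δ

variable {E E' : ℝ → I → (n : ℕ) → Θ → Config n → Prop} {c c' : ℝ≥0∞}

theorem GLe.mono (h : GLe f₀ m E c) (hc : c ≤ c')
    (hE : ∃ ε₁ : ℝ, 0 < ε₁ ∧ ∀ ε : ℝ, 0 < ε → ε < ε₁ → ∀ i n θ (w : Config n),
      w ∈ PairExcluded ε n → E' ε i n θ w → E ε i n θ w) : GLe f₀ m E' c' := by
  obtain ⟨ε₀, h0, h⟩ := h
  obtain ⟨ε₁, h1, h2⟩ := hE
  refine ⟨min ε₀ ε₁, lt_min h0 h1, fun ε hε hlt i => ?_⟩
  obtain ⟨G, hGm, hG, hGi⟩ := h ε hε (hlt.trans_le (min_le_left _ _)) i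
  exact ⟨G, hGm, fun n θ w hw hE' => hG n θ w hw
    (h2 ε hε (hlt.trans_le (min_le_right _ _)) i n θ w hw hE'), hGi.trans hc⟩

theorem GLe.mono' (h : GLe f₀ m E c)
    (hE : ∀ ε i n θ (w : Config n), E' ε i n θ w → E ε i n θ w) : GLe f₀ m E' c :=
  h.mono le_rfl ⟨1, one_pos, fun ε _ _ i n θ w _ => hE ε i n θ w⟩

theorem GLe.or (hf : Measurable f₀) (h : GLe f₀ m E c) (h' : GLe f₀ m E' c') :
    GLe f₀ m (fun ε i n θ w => E ε i n θ w ∨ E' ε i n θ w) (c + c') := by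
  obtain ⟨ε₀, h0, h⟩ := h
  obtain ⟨ε₁, h1, h'⟩ := h'
  refine ⟨min ε₀ ε₁, lt_min h0 h1, fun ε hε hlt i => ?_⟩
  obtain ⟨G, hGm, hG, hGi⟩ := h ε hε (hlt.trans_le (min_le_left _ _)) i
  obtain ⟨G', hGm', hG', hGi'⟩ := h' ε hε (hlt.trans_le (min_le_right _ _)) i
  refine ⟨fun n p => G n p + G' n p, fun n => (hGm n).add (hGm' n), ?_, ?_⟩
  · rintro n θ w hw (hE | hE)
    · exact (hG n θ w hw hE).trans le_self_add
    · exact (hG' n θ w hw hE).trans le_add_self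
  · have e1 : ∀ θ, gcE f₀ ε (fun n w => G n (θ, w) + G' n (θ, w)) =
        gcE f₀ ε (fun n w => G n (θ, w)) + gcE f₀ ε (fun n w => G' n (θ, w)) := fun θ =>
      gcE_add hf ε (F := fun n w => G n (θ, w)) fun n => (hGm n).comp measurable_prodMk_left
    simp_rw [e1]
    rw [lintegral_add_left]
    · exact add_le_add hGi hGi'
    · exact MeasE416.measurable_gcE_of hf ε (F := fun n θ w => G n (θ, w)) fun n => hGm n

theorem GLe.zero (f₀ : PhasePoint → ℝ) (m : ℝ → I → Measure Θ) :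
    GLe f₀ m (fun _ _ _ _ _ => False) 0 := by
  refine ⟨1, one_pos, fun ε _ _ i => ⟨fun _ _ => 0, fun _ => measurable_const,
    fun _ _ _ _ h => h.elim, ?_⟩⟩
  simp [gcE_zero]

theorem GLe.exists_fin (hf : Measurable f₀) {α : Type*} (S : Finset α)
    {F : α → ℝ → I → (n : ℕ) → Θ → Config n → Prop} {d : α → ℝ≥0∞}
    (h : ∀ a ∈ S, GLe f₀ m (F a) (d a)) :
    GLe f₀ m (fun ε i n θ w => ∃ a ∈ S, F a ε i n θ w) (∑ a ∈ S, d a) := by
  induction S using Finset.induction_on with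
  | empty =>
    refine (GLe.zero f₀ m).mono le_rfl ⟨1, one_pos, fun ε _ _ i n θ w _ h => ?_⟩
    obtain ⟨a, ha, _⟩ := h
    simp at ha
  | insert a S ha ih =>
    rw [Finset.sum_insert ha]
    refine ((h a (Finset.mem_insert_self a S)).or hf
      (ih fun b hb => h b (Finset.mem_insert_of_mem hb))).mono' fun ε i n θ w hE => ?_
    obtain ⟨b, hb, hE⟩ := hE
    rcases Finset.mem_insert.1 hb with rfl | hb
    · exact Or.inl hE
    · exact Or.inr ⟨b, hb, hE⟩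

theorem GNull.mono (h : GNull f₀ m E)
    (hE : ∃ ε₁ : ℝ, 0 < ε₁ ∧ ∀ ε : ℝ, 0 < ε → ε < ε₁ → ∀ i n θ (w : Config n),
      w ∈ PairExcluded ε n → E' ε i n θ w → E ε i n θ w) : GNull f₀ m E' :=
  fun δ hδ => (h δ hδ).mono le_rfl hE

theorem GNull.mono' (h : GNull f₀ m E)
    (hE : ∀ ε i n θ (w : Config n), E' ε i n θ w → E ε i n θ w) : GNull f₀ m E' :=
  fun δ hδ => (h δ hδ).mono' hE

theorem GNull.or (hf : Measurable f₀) (h : GNull f₀ m E) (h' : GNull f₀ m E') :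
    GNull f₀ m (fun ε i n θ w => E ε i n θ w ∨ E' ε i n θ w) := by
  intro δ hδ
  rcases eq_or_ne δ ∞ with rfl | hδt
  · exact ((h 1 one_pos).or hf (h' 1 one_pos)).mono le_top
      ⟨1, one_pos, fun _ _ _ _ _ _ _ _ h => h⟩
  · have h2 : 0 < δ / 2 := ENNReal.half_pos hδ.ne'
    have h3 := (h _ h2).or hf (h' _ h2)
    rwa [ENNReal.add_halves] at h3

theorem GNull.exists_fin (hf : Measurable f₀) {α : Type*} (S : Finset α)
    {F : α → ℝ → I → (n : ℕ) → Θ → Config n → Prop} (h : ∀ a ∈ S, GNull f₀ m (F a)) :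
    GNull f₀ m (fun ε i n θ w => ∃ a ∈ S, F a ε i n θ w) := by
  induction S using Finset.induction_on with
  | empty =>
    intro δ hδ
    refine (GLe.zero f₀ m).mono bot_le ⟨1, one_pos, fun ε _ _ i n θ w _ h => ?_⟩
    obtain ⟨a, ha, _⟩ := h
    simp at ha
  | insert a S ha ih =>
    refine ((h a (Finset.mem_insert_self a S)).or hf
      (ih fun b hb => h b (Finset.mem_insert_of_mem hb))).mono' fun ε i n θ w hE => ?_
    obtain ⟨b, hb, hE⟩ := hE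
    rcases Finset.mem_insert.1 hb with rfl | hb
    · exact Or.inl hE
    · exact Or.inr ⟨b, hb, hE⟩

theorem GNull.exists_fintype (hf : Measurable f₀) {α : Type*} [Fintype α]
    {F : α → ℝ → I → (n : ℕ) → Θ → Config n → Prop} (h : ∀ a, GNull f₀ m (F a)) :
    GNull f₀ m (fun ε i n θ w => ∃ a, F a ε i n θ w) :=
  (GNull.exists_fin hf Finset.univ fun a _ => h a).mono' fun _ _ _ _ _ ⟨a, ha⟩ =>
    ⟨a, Finset.mem_univ a, ha⟩

/-! ### Runs -/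

/-- Run of length `L` from one line of a structure with an exponential moment. -/
theorem gLe_run1 {Φ : Space3 → ℝ} (hΦ : AdmissiblePotential Φ) {β : ℝ} (hβ : 0 < β) {T C₀ : ℝ}
    (hT : 0 ≤ T) (hC₀ : 0 ≤ C₀) (K : ℕ) (hf : Measurable f₀)
    (hb : ∀ z : PhasePoint, f₀ z ≤ C₀ * Real.exp (-(2 * β * ‖z.2‖ ^ 2)))
    (h1 : ∫⁻ z, ENNReal.ofReal (f₀ z) ≤ 1) {t : I → ℝ} (ht : ∀ i, t i ≤ T)
    {ls : ℝ → I → Θ → ML} (hls : ∀ ε i, 0 < ε → Measurable (ls ε i)) {M : ℝ≥0∞} (hM : M ≠ ∞)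
    (hmom : ∀ ε i, 0 < ε → ∫⁻ θ, ENNReal.ofReal (Real.exp (β * ‖(ls ε i θ).1.2.2‖ ^ 2)) ∂(m ε i) ≤ M)
    {δ : ℝ≥0∞} (hδ : 0 < δ) : ∃ L₀ : ℕ, ∀ L, L₀ ≤ L →
      GLe f₀ m (fun ε i _ θ w => Run Φ ε (t i) K L (MW.line (ls ε i θ)) () w) δ := by
  obtain ⟨η, hη, hηt, h⟩ := runM_tail hΦ hβ T C₀ hT hC₀ K 1
  have h2 : Tendsto (fun L => η L * M) atTop (𝓝 (0 * M)) :=
    ENNReal.Tendsto.mul_const hη (Or.inr hM)
  rw [zero_mul] at h2
  obtain ⟨L₀, hL₀⟩ := eventually_atTop.1 (h2.eventually_lt_const hδ)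
  refine ⟨L₀, fun L hL => ?_⟩
  obtain ⟨ε₀, h0, h⟩ := h L
  refine ⟨ε₀, h0, fun ε hε hlt i => ⟨fun n p => runM Φ ε T K L Unit (MW.line (ls ε i p.1)) () n p.2,
    fun n => measurable_runM_line hΦ hε T K L ((hls ε i hε).comp measurable_fst) measurable_snd,
    fun n θ w hw hR => one_le_runM_of_le hΦ hε (ht i) hw hR, ?_⟩⟩
  have h3 : ∀ θ, gcE f₀ ε (fun n w => runM Φ ε T K L Unit (MW.line (ls ε i θ)) () n w) ≤
      η L * ENNReal.ofReal (Real.exp (β * ‖(ls ε i θ).1.2.2‖ ^ 2)) := by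
    intro θ
    have h4 := h ε hε hlt f₀ hf hb h1 Unit (by simp) (MW.line (ls ε i θ)) ()
    rw [kin_line] at h4
    have e : 2 * β * (1 / 2 * ‖(ls ε i θ).1.2.2‖ ^ 2) = β * ‖(ls ε i θ).1.2.2‖ ^ 2 := by ring
    rwa [e] at h4
  calc ∫⁻ θ, gcE f₀ ε (fun n w => runM Φ ε T K L Unit (MW.line (ls ε i θ)) () n w) ∂(m ε i)
      ≤ ∫⁻ θ, η L * ENNReal.ofReal (Real.exp (β * ‖(ls ε i θ).1.2.2‖ ^ 2)) ∂(m ε i) :=
        lintegral_mono h3
    _ = η L * ∫⁻ θ, ENNReal.ofReal (Real.exp (β * ‖(ls ε i θ).1.2.2‖ ^ 2)) ∂(m ε i) :=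
        lintegral_const_mul' _ _ (hηt L)
    _ ≤ η L * M := mul_le_mul_right (hmom ε i hε) _
    _ ≤ δ := (hL₀ L hL).le

/-- **Runs from finitely many lines** of a structure with exponential moments. -/
theorem gLe_run {Φ : Space3 → ℝ} (hΦ : AdmissiblePotential Φ) {β : ℝ} (hβ : 0 < β) {T C₀ : ℝ}
    (hT : 0 ≤ T) (hC₀ : 0 ≤ C₀) (K : ℕ) (hf : Measurable f₀)
    (hb : ∀ z : PhasePoint, f₀ z ≤ C₀ * Real.exp (-(2 * β * ‖z.2‖ ^ 2)))
    (h1 : ∫⁻ z, ENNReal.ofReal (f₀ z) ≤ 1) {t : I → ℝ} (ht : ∀ i, t i ≤ T) {α : Type*} [Fintype α]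
    {ls : α → ℝ → I → Θ → ML} (hls : ∀ a ε i, 0 < ε → Measurable (ls a ε i))
    {M : α → ℝ≥0∞} (hM : ∀ a, M a ≠ ∞) (hmom : ∀ a ε i, 0 < ε →
      ∫⁻ θ, ENNReal.ofReal (Real.exp (β * ‖(ls a ε i θ).1.2.2‖ ^ 2)) ∂(m ε i) ≤ M a)
    {δ : ℝ≥0∞} (hδ : 0 < δ) : ∃ L₀ : ℕ, ∀ L, L₀ ≤ L →
      GLe f₀ m (fun ε i _ θ w => ∃ a, Run Φ ε (t i) K L (MW.line (ls a ε i θ)) () w) δ := by
  -- distribute `δ`
  set δ' : ℝ≥0∞ := δ / (Fintype.card α + 1) with hδ'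
  have hc : (Fintype.card α + 1 : ℝ≥0∞) ≠ ∞ :=
    ENNReal.add_ne_top.2 ⟨ENNReal.natCast_ne_top _, ENNReal.one_ne_top⟩
  have hδ'0 : 0 < δ' := ENNReal.div_pos hδ.ne' hc
  choose L₀ hL₀ using fun a => gLe_run1 (m := m) hΦ hβ hT hC₀ K hf hb h1 ht (hls a) (hM a)
    (hmom a) hδ'0
  refine ⟨Finset.univ.sup L₀, fun L hL => ?_⟩
  have h2 := GLe.exists_fin hf Finset.univ (m := m) (d := fun _ => δ')
    (F := fun a ε i _ θ w => Run Φ ε (t i) K L (MW.line (ls a ε i θ)) () w)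
    (fun a _ => hL₀ a L ((Finset.le_sup (Finset.mem_univ a)).trans hL))
  refine h2.mono ?_ ⟨1, one_pos, fun ε _ _ i n θ w _ ⟨a, ha⟩ => ⟨a, Finset.mem_univ a, ha⟩⟩
  rw [Finset.sum_const, Finset.card_univ, nsmul_eq_mul]
  calc (Fintype.card α : ℝ≥0∞) * δ' ≤ (Fintype.card α + 1) * δ' := by
        gcongr
        exact le_self_add
    _ = δ := by
        rw [hδ', ENNReal.mul_div_cancel (by simp) hc]

/-! ### Bad partitions -/

/-- **The bad partitions of a dominated structure.** For every `δ` there are `R`, `ς` such that the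
event `BadGas` has mass `≤ δ`. -/
theorem gLe_badGas {Φ : Space3 → ℝ} {T γ : ℝ} {ρ : Space3 → ℝ≥0∞} {C₀ : ℝ≥0∞} {κ : Type}
    [Fintype κ] (hCN : VLMeas973.ClassNull Φ T) (hf : Measurable f₀)
    (h1 : ∫⁻ z, ENNReal.ofReal (f₀ z) ≤ 1) (he : Env f₀ γ ρ C₀) (hγ : 0 < γ) (C : ℝ) (N : ℕ)
    {s : ℕ} (hs : s ≤ Fintype.card κ) (A₀ : Finset κ) {c : ℝ≥0∞} (hc : c ≠ ∞)
    (Λ : Measure (κ → ℝ)) [IsFiniteMeasure Λ] {b : ℝ → I → Θ → κ → ℝ}
    {z : ℝ → I → Θ → κ → PhasePoint} (hm : ∀ ε i, SFinite (m ε i))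
    (hdom : ∀ ε i, 0 < ε → Dom γ ρ ε s A₀ c Λ (m ε i) (b ε i) (z ε i)) {δ : ℝ≥0∞} (hδ : 0 < δ) :
    ∃ R > 0, ∃ ς > 0, GLe f₀ m
      (fun ε i _ θ w => BadGas Φ T C R ς ε N s A₀ (b ε i θ) (z ε i θ) w) δ := by
  obtain ⟨R, hR, ς, hς, ε₀, h0, h⟩ := ln2_gas hCN hf h1 he hγ C N hs A₀ hc Λ hδ
  refine ⟨R, hR, ς, hς, ε₀, h0, fun ε hε hlt i => ?_⟩
  obtain ⟨G, hGm, hG, hGi⟩ := h ε hε hlt
  have hd := hdom ε i hε
  have := hm ε i
  have hmap : ∀ n, Measurable fun p : Θ × Config n => (p.2, b ε i p.1, z ε i p.1) := fun n =>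
    measurable_snd.prodMk ((hd.mb.comp measurable_fst).prodMk (hd.mz.comp measurable_fst))
  have hGm' : ∀ n, Measurable fun p : Θ × Config n =>
      (if (p.2, b ε i p.1, z ε i p.1) ∈ G n then 1 else 0 : ℝ≥0∞) := fun n =>
    Measurable.ite (hmap n (hGm n)) measurable_const measurable_const
  refine ⟨fun n p => if (p.2, b ε i p.1, z ε i p.1) ∈ G n then 1 else 0, hGm', ?_, ?_⟩
  · intro n θ w _ hB
    simp only
    rw [if_pos (hG R ς le_rfl le_rfl n w _ _ hB)]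
  · have e1 := BadHit370.lintegral_gcE hf ε (m ε i)
      (F := fun n θ w => (if (w, b ε i θ, z ε i θ) ∈ G n then 1 else 0 : ℝ≥0∞)) hGm'
    refine (le_of_eq e1).trans ?_
    refine le_trans (le_of_eq (gcE_congr f₀ ε fun n w _ => ?_)) (hGi Θ (m ε i) (b ε i) (z ε i) hd)
    have hset : MeasurableSet {θ | (w, b ε i θ, z ε i θ) ∈ G n} := by
      have h5 : Measurable fun θ : Θ => (w, b ε i θ, z ε i θ) :=
        measurable_const.prodMk (hd.mb.prodMk hd.mz)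
      exact h5 (hGm n)
    rw [← lintegral_indicator_one hset]
    refine lintegral_congr fun θ => ?_
    simp only [indicator_apply, mem_ofPred_eq, Pi.one_apply]

/-! ### The gateway -/

/-- **The gateway.** If for every `L` the event implies a run of length `L`, a bad partition with at
most `N` gas particles, or an event which is null for every fixed `L`, then the event is null. -/
theorem gNull_of_det {Φ : Space3 → ℝ} {T γ : ℝ} {ρ : Space3 → ℝ≥0∞} {C₀ : ℝ≥0∞} {κ : Type}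
    [Fintype κ] (hCN : VLMeas973.ClassNull Φ T) (hf : Measurable f₀)
    (h1 : ∫⁻ z, ENNReal.ofReal (f₀ z) ≤ 1) (he : Env f₀ γ ρ C₀) (hγ : 0 < γ)
    {s : ℕ} (hs : s ≤ Fintype.card κ) (A₀ : Finset κ) {c : ℝ≥0∞} (hc : c ≠ ∞)
    (Λ : Measure (κ → ℝ)) [IsFiniteMeasure Λ] {b : ℝ → I → Θ → κ → ℝ}
    {z : ℝ → I → Θ → κ → PhasePoint} (hm : ∀ ε i, SFinite (m ε i))
    (hdom : ∀ ε i, 0 < ε → Dom γ ρ ε s A₀ c Λ (m ε i) (b ε i) (z ε i))
    {Rn Ht : ℕ → ℝ → I → (n : ℕ) → Θ → Config n → Prop}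
    (hdet : ∀ L : ℕ, ∃ (N : ℕ) (C : ℝ), ∀ R > 0, ∀ ς > 0, ∃ ε₁ : ℝ, 0 < ε₁ ∧ ∀ ε : ℝ, 0 < ε →
      ε < ε₁ → ∀ i n θ (w : Config n), w ∈ PairExcluded ε n → E ε i n θ w →
        Rn L ε i n θ w ∨ BadGas Φ T C R ς ε N s A₀ (b ε i θ) (z ε i θ) w ∨ Ht L ε i n θ w)
    (hrun : ∀ δ : ℝ≥0∞, 0 < δ → ∃ L, GLe f₀ m (Rn L) δ) (hhit : ∀ L, GNull f₀ m (Ht L)) :
    GNull f₀ m E := by
  intro δ hδ
  rcases eq_or_ne δ ∞ with rfl | hδt
  · -- trivial case: reduce to `δ = 1`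
    obtain ⟨L, hL⟩ := hrun 1 one_pos
    obtain ⟨N, C, hdet⟩ := hdet L
    obtain ⟨R, hR, ς, hς, hB⟩ := gLe_badGas hCN hf h1 he hγ C N hs A₀ hc Λ hm hdom
      (δ := 1) one_pos
    obtain ⟨ε₁, h0, h⟩ := hdet R hR ς hς
    exact (hL.or hf (hB.or hf (hhit L 1 one_pos))).mono le_top ⟨ε₁, h0, h⟩
  · have h3 : 0 < δ / 3 := ENNReal.div_pos hδ.ne' (by norm_num)
    obtain ⟨L, hL⟩ := hrun _ h3
    obtain ⟨N, C, hdet⟩ := hdet L
    obtain ⟨R, hR, ς, hς, hB⟩ := gLe_badGas hCN hf h1 he hγ C N hs A₀ hc Λ hm hdom h3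
    obtain ⟨ε₁, h0, h⟩ := hdet R hR ς hς
    refine (hL.or hf (hB.or hf (hhit L _ h3))).mono (le_of_eq ?_) ⟨ε₁, h0, h⟩
    have e : δ / 3 + (δ / 3 + δ / 3) = 3 * (δ / 3) := by ring
    rw [e, ENNReal.mul_div_cancel (by norm_num) (by norm_num)]

end Crest.Agent.R122.Gate424

end
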