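import Crest.Agent.R122.BHMain_167
import Crest.Agent.R122.LinkGate_424

/-!
# Row 122, BadHit (helper167), part 5: the gateway form

* `gNull_badHit` : the bad hits of a dominated structure are null in the sense of helper424's
  `GNull`.
-/

set_option autoImplicit false
set_option linter.unusedSectionVars false

open MeasureTheory Set Filter Topology
open Crest.AnalysisR.Kinetic
open Crest.Agent.R122.VL581 Crest.Agent.R122.VLMeas973
open Crest.Agent.R122.GC311 Crest.Agent.R122.LN2 Crest.Agent.R122.Gate424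
open scoped Classical ENNReal

noncomputable section

namespace Crest.Agent.R122.BH167

/-- Monotonicity in the radius. -/
theorem badHitGas_mono {BP : PosPred} {Φ : Space3 → ℝ} {T C R R' ε : ℝ} (hε : 0 ≤ ε) (hR : R ≤ R')
    {N N' K K' s : ℕ} (hN : N ≤ N') (hK : K ≤ K') {κ : Type} [Fintype κ] {A₀ : Finset κ}
    {b : κ → ℝ} {z : κ → PhasePoint} {n : ℕ} {w : Config n}
    (h : BadHitGas BP Φ T C R ε N K s A₀ b z w) : BadHitGas BP Φ T C R' ε N' K' s A₀ b z w := by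
  obtain ⟨g, hg, ι, k, hk, f, hd, π, h1, h2, P, hP, B, hB, j, hj, q, i, t, ht, x, h3, h4, h5⟩ := h
  exact ⟨g, hg.trans hN, ι, k, hk.trans hK, f, hd, π, h1, h2, P, hP, B, hB, j, hj, q, i, t, ht, x,
    h3, h4, h5.trans (mul_le_mul_of_nonneg_right hR hε)⟩

variable {f₀ : PhasePoint → ℝ} {I Θ : Type} [MeasurableSpace Θ] {m : ℝ → I → Measure Θ}

/-- **The bad hits of a dominated structure are null.** -/
theorem gNull_badHit {Φ : Space3 → ℝ} (hΦ : AdmissiblePotential Φ) (hVC : VC Φ) {T : ℝ}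
    (hT : 0 ≤ T) {BP : PosPred} (hHC : HitClass T BP) {γ : ℝ} {ρ : Space3 → ℝ≥0∞} {C₀ : ℝ≥0∞}
    {κ : Type} [Fintype κ] (hf : Measurable f₀)
    (h1 : ∫⁻ z, ENNReal.ofReal (f₀ z) ≤ 1) (he : Env f₀ γ ρ C₀) (hγ : 0 < γ) (C R : ℝ) (N K : ℕ)
    {s : ℕ} (hs : s ≤ Fintype.card κ) (A₀ : Finset κ) {c : ℝ≥0∞} (hc : c ≠ ∞)
    (Λ : Measure (κ → ℝ)) [IsFiniteMeasure Λ] {b : ℝ → I → Θ → κ → ℝ}
    {z : ℝ → I → Θ → κ → PhasePoint} (hm : ∀ ε i, SFinite (m ε i))
    (hdom : ∀ ε i, 0 < ε → Dom γ ρ ε s A₀ c Λ (m ε i) (b ε i) (z ε i)) :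
    GNull f₀ m
      (fun ε i _ θ w => BadHitGas BP Φ T C R ε N K s A₀ (b ε i θ) (z ε i θ) w) := by
  intro δ hδ
  obtain ⟨ε₀, h0, h⟩ := ln2_badHit hΦ hVC hT hHC hf h1 he hγ C R N K hs A₀ hc Λ hδ
  refine ⟨ε₀, h0, fun ε hε hlt i => ?_⟩
  obtain ⟨G, hGm, hG, hGi⟩ := h ε hε hlt
  have hd := hdom ε i hε
  have := hm ε i
  have hmap : ∀ n, Measurable fun p : Θ × Config n => (p.2, b ε i p.1, z ε i p.1) := fun n =>
    measurable_snd.prodMk ((hd.mb.comp measurable_fst).prodMk (hd.mz.comp measurable_fst))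
  have hGm' : ∀ n, Measurable fun p : Θ × Config n =>
      (if (p.2, b ε i p.1, z ε i p.1) ∈ G n then 1 else 0 : ℝ≥0∞) := fun n =>
    Measurable.ite (hmap n (hGm n)) measurable_const measurable_const
  refine ⟨fun n p => if (p.2, b ε i p.1, z ε i p.1) ∈ G n then 1 else 0, hGm', ?_, ?_⟩
  · intro n θ w hw hB
    simp only
    rw [if_pos (hG n w _ _ hw hB)]
  · have e1 := BadHit370.lintegral_gcE hf ε (m ε i)
      (F := fun n θ w => (if (w, b ε i θ, z ε i θ) ∈ G n then 1 else 0 : ℝ≥0∞)) hGm'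
    refine (le_of_eq e1).trans ?_
    refine le_trans (le_of_eq (gcE_congr f₀ ε fun n w _ => ?_)) (hGi Θ (m ε i) (b ε i) (z ε i) hd)
    have hset : MeasurableSet {θ | (w, b ε i θ, z ε i θ) ∈ G n} := by
      have h5 : Measurable fun θ : Θ => (w, b ε i θ, z ε i θ) :=
        measurable_const.prodMk (hd.mb.prodMk hd.mz)
      exact h5 (hGm n)
    rw [← lintegral_indicator_one hset]
    refine lintegral_congr fun θ => ?_
    simp only [indicator_apply, mem_ofPred_eq, Pi.one_apply]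

end Crest.Agent.R122.BH167

end
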