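import Crest.Agent.R122.BHClassN_167
import Crest.Agent.R122.BHFin_167

/-!
# Row 122, BadHit (helper167), part 8: gas level for structures which are not localised

* `BadHitGasN` : as `BadHitGas`, but the part which is hit need not meet the anchors (the bad past
  is the anchor).
* `ln2_badHitN`, `gNull_badHitN`, `gNull_badPosN` (unconditional).
-/

set_option autoImplicit false
set_option linter.unusedSectionVars false

open MeasureTheory Set Filter Topology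
open Crest.AnalysisR.Kinetic
open Crest.Agent.R122.GIV566 Crest.Agent.R122.VL581
open Crest.Agent.R122.VLMeas973 Crest.Agent.R122.Loc45
open Crest.Agent.R122.GC311 Crest.Agent.R122.Kin796
open scoped Classical ENNReal NNReal

noncomputable section

namespace Crest.Agent.R122.BH167

variable {κ : Type} [Fintype κ]

/-- **Bad hit at gas level**, the part which is hit need not meet the anchors. -/
def BadHitGasN (BP : PosPred) (Φ : Space3 → ℝ) (T C R ε : ℝ) (N K s : ℕ) (A₀ : Finset κ)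
    (b : κ → ℝ) (z : κ → PhasePoint) {n : ℕ} (w : Config n) : Prop :=
  ∃ g ≤ N, ∃ ι : Fin g ↪ Fin n, ∃ k ≤ K, ∃ f : Fin k ↪ Fin n, (∀ x y, ι x ≠ f y) ∧
    BadHitPN BP C R s (LN2.anch g A₀) (VLMeas973.vsys Φ T ε (LN2.bS g b))
      (Sum.elim (fun i => w (ι i)) z) (fun l => w (f l))

theorem BadHitGas.toN {BP : PosPred} {Φ : Space3 → ℝ} {T C R ε : ℝ} {N K s : ℕ} {A₀ : Finset κ}
    {b : κ → ℝ} {z : κ → PhasePoint} {n : ℕ} {w : Config n}
    (h : BadHitGas BP Φ T C R ε N K s A₀ b z w) : BadHitGasN BP Φ T C R ε N K s A₀ b z w := by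
  obtain ⟨g, hg, ι, k, hk, f, hd, h⟩ := h
  exact ⟨g, hg, ι, k, hk, f, hd, h.toN⟩

/-- Monotonicity. -/
theorem badHitGasN_mono {BP : PosPred} {Φ : Space3 → ℝ} {T C R R' ε : ℝ} (hε : 0 ≤ ε)
    (hR : R ≤ R') {N N' K K' s s' : ℕ} (hN : N ≤ N') (hK : K ≤ K') (hs : s ≤ s') {A₀ : Finset κ}
    {b : κ → ℝ} {z : κ → PhasePoint} {n : ℕ} {w : Config n}
    (h : BadHitGasN BP Φ T C R ε N K s A₀ b z w) :
    BadHitGasN BP Φ T C R' ε N' K' s' A₀ b z w := by
  obtain ⟨g, hg, ι, k, hk, f, hd, π, P, hP, h1, h2, B, hB, j, hj, q, i, t, ht, x, h3, h4, h5⟩ := h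
  exact ⟨g, hg.trans hN, ι, k, hk.trans hK, f, hd, π, P, hP, h1, h2.trans hs, B, hB, j, hj, q, i,
    t, ht, x, h3, h4, h5.trans (mul_le_mul_of_nonneg_right hR hε)⟩

/-! ### The gas level -/

variable {Φ : Space3 → ℝ} {f₀ : PhasePoint → ℝ} {T γ : ℝ} {ρ : Space3 → ℝ≥0∞} {C₀ : ℝ≥0∞}

/-- **Bad hits at gas level**, the part which is hit need not meet the anchors. -/
theorem ln2_badHitN (hΦ : AdmissiblePotential Φ) (hVC : VC Φ) (hT : 0 ≤ T) {BP : PosPred}
    (hHC : HitClass T BP) (hf : Measurable f₀) (h1 : ∫⁻ z, ENNReal.ofReal (f₀ z) ≤ 1)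
    (he : LN2.Env f₀ γ ρ C₀) (hγ : 0 < γ) (C R : ℝ) (N K : ℕ) {s : ℕ}
    (hs : s ≤ Fintype.card κ) (A₀ : Finset κ) {c : ℝ≥0∞} (hc : c ≠ ∞) (Λ : Measure (κ → ℝ))
    [IsFiniteMeasure Λ] {δ : ℝ≥0∞} (hδ : 0 < δ) :
    ∃ ε₀ > 0, ∀ ε : ℝ, 0 < ε → ε < ε₀ →
      ∃ G : (n : ℕ) → Set (Config n × (κ → ℝ) × (κ → PhasePoint)),
        (∀ n, MeasurableSet (G n)) ∧
        (∀ n (w : Config n) b z, w ∈ PairExcluded ε n →
          BadHitGasN BP Φ T C R ε N K s A₀ b z w → (w, b, z) ∈ G n) ∧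
        ∀ (Θ : Type) [MeasurableSpace Θ] (m : Measure Θ) [SFinite m] (b : Θ → κ → ℝ)
          (z : Θ → κ → PhasePoint), LN2.Dom γ ρ ε s A₀ c Λ m b z →
          gcE f₀ ε (fun n w => m {θ | (w, b θ, z θ) ∈ G n}) ≤ δ := by
  set Q : ℝ≥0∞ := c * Λ univ * ∑ k ∈ Finset.range (N + K + 1), C₀ ^ k with hQ
  have hQt : Q ≠ ∞ := by
    refine ENNReal.mul_ne_top (ENNReal.mul_ne_top hc (measure_ne_top Λ _)) ?_
    exact ENNReal.sum_ne_top.2 fun k _ => ENNReal.pow_ne_top he.fin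
  have hQ0 : Q + 1 ≠ 0 := by simp
  have hQt' : Q + 1 ≠ ∞ := ENNReal.add_ne_top.2 ⟨hQt, ENNReal.one_ne_top⟩
  set δ' : ℝ≥0∞ := δ / (Q + 1) with hδ'
  have hδ'0 : 0 < δ' := ENNReal.div_pos hδ.ne' hQt'
  choose η hη hcl using fun g : ℕ => class_hitN hΦ hVC hT hHC (Fin g ⊕ κ) Unit hγ C R 0 K s
    (LN2.anch g A₀) he.meas he.le_one he.int
  -- the total
  have htot : Tendsto (fun ε => ∑ g ∈ Finset.range (N + 1), ∑ _k ∈ Finset.range (K + 1), η g ε)
      (𝓝[>] 0) (𝓝 0) := by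
    have h2 : Tendsto (fun ε => ∑ g ∈ Finset.range (N + 1), ∑ _k ∈ Finset.range (K + 1), η g ε)
        (𝓝[>] 0) (𝓝 (∑ _g ∈ Finset.range (N + 1), ∑ _k ∈ Finset.range (K + 1), (0 : ℝ≥0∞))) :=
      tendsto_finsetSum _ fun g _ => tendsto_finsetSum _ fun k _ => hη g
    simpa using h2
  have hev := htot.eventually_lt_const hδ'0
  rw [eventually_nhdsWithin_iff, Metric.eventually_nhds_iff] at hev
  obtain ⟨ε₁, hε₁, hev⟩ := hev
  refine ⟨min ε₁ 1, by positivity, fun ε hε hlt => ?_⟩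
  have hlt1 : ε < ε₁ := hlt.trans_le (min_le_left _ _)
  have hε1 : ε ≤ 1 := (hlt.trans_le (min_le_right _ _)).le
  have hsum : ∑ g ∈ Finset.range (N + 1), ∑ _k ∈ Finset.range (K + 1), η g ε < δ' :=
    hev (by rw [Real.dist_eq, sub_zero, abs_of_pos hε]; exact hlt1) hε
  choose E hEm hE1 hE2 using fun g : ℕ => hcl g (VLMeas973.vsys Φ T ε fun _ => 0) rfl rfl hε hε1
    (fun _ => (LipschitzWith.const _).lipschitzOnWith) (fun j hj => by
      unfold VLMeas973.vsys at hj; simp at hj)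
  -- the bad sets
  obtain ⟨E', hE'⟩ : ∃ E' : (k' : ℕ) → Set ((Fin k' ⊕ κ → ℝ) × (Fin k' ⊕ κ → PhasePoint)),
      ∀ k' p, p ∈ E' k' ↔ ∃ g ∈ Finset.range (N + 1), ∃ k ∈ Finset.range (K + 1),
        0 < k ∧ ∃ h : g + k = k', dec h p ∈ E g k :=
    ⟨fun k' => {p | ∃ g ∈ Finset.range (N + 1), ∃ k ∈ Finset.range (K + 1),
        0 < k ∧ ∃ h : g + k = k', dec h p ∈ E g k}, fun _ _ => Iff.rfl⟩
  have hpm : ∀ (g k k' : ℕ), MeasurableSet {p : (Fin k' ⊕ κ → ℝ) × (Fin k' ⊕ κ → PhasePoint) |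
      0 < k ∧ ∃ h : g + k = k', dec h p ∈ E g k} := by
    intro g k k'
    by_cases h : 0 < k ∧ g + k = k'
    · have e1 : {p : (Fin k' ⊕ κ → ℝ) × (Fin k' ⊕ κ → PhasePoint) |
          0 < k ∧ ∃ h : g + k = k', dec h p ∈ E g k} = dec h.2 ⁻¹' E g k := by
        ext p
        simp only [mem_ofPred_eq, mem_preimage]
        exact ⟨fun ⟨_, _, h3⟩ => h3, fun h3 => ⟨h.1, h.2, h3⟩⟩
      rw [e1]
      exact measurable_dec h.2 (hEm g k)
    · have e1 : {p : (Fin k' ⊕ κ → ℝ) × (Fin k' ⊕ κ → PhasePoint) |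
          0 < k ∧ ∃ h : g + k = k', dec h p ∈ E g k} = ∅ := by
        ext p
        simp only [mem_ofPred_eq, mem_empty_iff_false, iff_false]
        rintro ⟨h2, h3, _⟩
        exact h ⟨h2, h3⟩
      rw [e1]
      exact MeasurableSet.empty
  have hE'm : ∀ k', MeasurableSet (E' k') := by
    intro k'
    have e1 : E' k' = ⋃ g ∈ Finset.range (N + 1), ⋃ k ∈ Finset.range (K + 1),
        {p : (Fin k' ⊕ κ → ℝ) × (Fin k' ⊕ κ → PhasePoint) |
          0 < k ∧ ∃ h : g + k = k', dec h p ∈ E g k} := by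
      ext p
      rw [hE']
      simp only [mem_iUnion, exists_prop, mem_ofPred_eq]
    rw [e1]
    exact Finset.measurableSet_biUnion _ fun g _ => Finset.measurableSet_biUnion _ fun k _ =>
      hpm g k k'
  -- the volumes
  have hD : ∀ k' ≤ N + K, ∀ b : Fin k' ⊕ κ → ℝ,
      ∫⁻ Z, {Z | (b, Z) ∈ E' k'}.indicator (LN2.wgtA γ ρ (LN2.anch k' A₀)) Z ≤
        δ' * ENNReal.ofReal (ε ^ 2) ^ (k' + (Fintype.card κ - s)) := by
    intro k' _ b
    have hm1 : ∀ g k : ℕ, Measurable fun Z : Fin k' ⊕ κ → PhasePoint =>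
        {Z | 0 < k ∧ ∃ h : g + k = k', dec h (b, Z) ∈ E g k}.indicator
          (LN2.wgtA γ ρ (LN2.anch k' A₀)) Z := fun g k =>
      (LN2.measurable_wgtA he.meas _).indicator
        ((measurable_const.prodMk measurable_id) (hpm g k k'))
    have h2 : ∀ Z, {Z | (b, Z) ∈ E' k'}.indicator (LN2.wgtA γ ρ (LN2.anch k' A₀)) Z ≤
        ∑ g ∈ Finset.range (N + 1), ∑ k ∈ Finset.range (K + 1),
          {Z | 0 < k ∧ ∃ h : g + k = k', dec h (b, Z) ∈ E g k}.indicator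
            (LN2.wgtA γ ρ (LN2.anch k' A₀)) Z := by
      intro Z
      by_cases hZ : (b, Z) ∈ E' k'
      · rw [indicator_of_mem (show Z ∈ {Z | (b, Z) ∈ E' k'} from hZ)]
        obtain ⟨g, hg, k, hk, h3⟩ := (hE' k' _).1 hZ
        refine le_trans ?_ (Finset.single_le_sum (f := fun g => ∑ k ∈ Finset.range (K + 1),
          {Z | 0 < k ∧ ∃ h : g + k = k', dec h (b, Z) ∈ E g k}.indicator
            (LN2.wgtA γ ρ (LN2.anch k' A₀)) Z) (fun _ _ => bot_le) hg)
        refine le_trans ?_ (Finset.single_le_sum (f := fun k =>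
          {Z | 0 < k ∧ ∃ h : g + k = k', dec h (b, Z) ∈ E g k}.indicator
            (LN2.wgtA γ ρ (LN2.anch k' A₀)) Z) (fun _ _ => bot_le) hk)
        rw [indicator_of_mem (show Z ∈ {Z | 0 < k ∧ ∃ h : g + k = k', dec h (b, Z) ∈ E g k}
          from h3)]
      · rw [indicator_of_notMem (show Z ∉ {Z | (b, Z) ∈ E' k'} from hZ)]
        exact bot_le
    refine (lintegral_mono h2).trans ?_
    rw [lintegral_finsetSum _ fun g _ => Finset.measurable_sum _ fun k _ => hm1 g k]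
    have h3 : ∀ g ∈ Finset.range (N + 1), ∫⁻ Z, ∑ k ∈ Finset.range (K + 1),
          {Z | 0 < k ∧ ∃ h : g + k = k', dec h (b, Z) ∈ E g k}.indicator
            (LN2.wgtA γ ρ (LN2.anch k' A₀)) Z ≤
        ∑ _k ∈ Finset.range (K + 1), η g ε *
          ENNReal.ofReal (ε ^ 2) ^ (k' + (Fintype.card κ - s)) := by
      intro g _
      rw [lintegral_finsetSum _ fun k _ => hm1 g k]
      refine Finset.sum_le_sum fun k hk => ?_
      by_cases h : 0 < k ∧ g + k = k'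
      swap
      · have e1 : {Z : Fin k' ⊕ κ → PhasePoint | 0 < k ∧ ∃ h : g + k = k',
            dec h (b, Z) ∈ E g k} = ∅ := by
          ext Z
          simp only [mem_ofPred_eq, mem_empty_iff_false, iff_false]
          rintro ⟨h2, h3, _⟩
          exact h ⟨h2, h3⟩
        rw [e1]
        simp
      obtain ⟨hk0, rfl⟩ := h
      have hkK : k ≤ K := Nat.lt_succ_iff.1 (Finset.mem_range.1 hk)
      have e1 : {Z : Fin (g + k) ⊕ κ → PhasePoint | 0 < k ∧ ∃ h : g + k = g + k,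
          dec h (b, Z) ∈ E g k} = {Z | dec (rfl : g + k = g + k) (b, Z) ∈ E g k} := by
        ext Z
        constructor
        · rintro ⟨_, _, h3⟩
          exact h3
        · intro h3
          exact ⟨hk0, rfl, h3⟩
      rw [e1]
      have h5 := piece_le (γ := γ) he.meas he.le_one A₀ g k (hEm g k) (⟨0, hk0⟩ : Fin k)
        (fun b' => hE2 g k hkK b' ⟨0, hk0⟩) b
      refine h5.trans (le_of_eq ?_)
      have h6 : k + (Fintype.card (Fin g ⊕ κ) - s) = g + k + (Fintype.card κ - s) := by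
        rw [Fintype.card_sum, Fintype.card_fin]
        omega
      rw [h6]
      rfl
    refine (Finset.sum_le_sum h3).trans ?_
    calc ∑ g ∈ Finset.range (N + 1), ∑ _k ∈ Finset.range (K + 1), η g ε *
          ENNReal.ofReal (ε ^ 2) ^ (k' + (Fintype.card κ - s))
        = (∑ g ∈ Finset.range (N + 1), ∑ _k ∈ Finset.range (K + 1), η g ε) *
          ENNReal.ofReal (ε ^ 2) ^ (k' + (Fintype.card κ - s)) := by
          rw [Finset.sum_mul]
          exact Finset.sum_congr rfl fun g _ => by rw [Finset.sum_mul]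
      _ ≤ _ := by gcongr
  refine ⟨LN2.gSet (N + K) E', LN2.measurableSet_gSet hE'm, ?_, ?_⟩
  · rintro n w b z hw ⟨g, hg, ι, k, hk, f, hdisj, hbad⟩
    -- the embedding of the union
    let F : Fin (g + k) ↪ Fin n := ⟨fun x => Sum.elim ι f (finSumFinEquiv.symm x), by
      intro x y hxy
      have h2 : Function.Injective (Sum.elim (ι : Fin g → Fin n) (f : Fin k → Fin n)) := by
        refine Function.Injective.sumElim ι.injective f.injective fun a c => hdisj a c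
      exact finSumFinEquiv.symm.injective (h2 hxy)⟩
    have hF1 : ∀ i : Fin g, F (Fin.castAdd k i) = ι i := fun i => by
      show Sum.elim ι f (finSumFinEquiv.symm (Fin.castAdd k i)) = ι i
      rw [finSumFinEquiv_symm_apply_castAdd]
      rfl
    have hF2 : ∀ l : Fin k, F (Fin.natAdd g l) = f l := fun l => by
      show Sum.elim ι f (finSumFinEquiv.symm (Fin.natAdd g l)) = f l
      rw [finSumFinEquiv_symm_apply_natAdd]
      rfl
    have hk0 : 0 < k := by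
      obtain ⟨π, P, -, -, -, B, -, j, -, q, i, -⟩ := hbad
      exact i.pos
    refine ⟨g + k, by omega, F, ?_⟩
    refine (hE' (g + k) (LN2.bS (g + k) b, Sum.elim (fun i => w (F i)) z)).2 ?_
    have hg' : g ∈ Finset.range (N + 1) := Finset.mem_range.2 (by omega)
    have hk' : k ∈ Finset.range (K + 1) := Finset.mem_range.2 (by omega)
    refine ⟨g, hg', k, hk', hk0, (rfl : g + k = g + k), ?_⟩
    rw [dec_rfl]
    have e1 : (fun j => LN2.bS (g + k) b (eqv g k κ (Sum.inl j))) = LN2.bS g b := by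
      funext j
      cases j with
      | inl i => rfl
      | inr a => rfl
    have e2 : (fun j => (Sum.elim (fun i => w (F i)) z : Fin (g + k) ⊕ κ → PhasePoint)
        (eqv g k κ (Sum.inl j))) = Sum.elim (fun i => w (ι i)) z := by
      funext j
      cases j with
      | inl i =>
        rw [eqv_gas, Sum.elim_inl, Sum.elim_inl, hF1]
      | inr a => rfl
    have e3 : (fun l => (Sum.elim (fun i => w (F i)) z : Fin (g + k) ⊕ κ → PhasePoint)
        (eqv g k κ (Sum.inr l))) = fun l => w (f l) := by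
      funext l
      rw [eqv_past, Sum.elim_inl, hF2]
    simp only [e1, e2, e3]
    refine hE1 g k hk _ _ _ ?_ hbad
    exact fun i j hij => hw (f i) (f j) (fun h => hij (f.injective h))
  · intro Θ _ m _ b z hdom
    calc gcE f₀ ε (fun n w => m {θ | (w, b θ, z θ) ∈ LN2.gSet (N + K) E' n})
        ≤ c * Λ univ * (δ' * ∑ k ∈ Finset.range (N + K + 1), C₀ ^ k) :=
          LN2.gas_mass_le hf h1 he hε (N + K) A₀ hE'm hD hc Λ hdom
      _ = Q * δ' := by rw [hQ]; ring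
      _ ≤ (Q + 1) * δ' := by gcongr; exact le_self_add
      _ = δ := by rw [hδ', ENNReal.mul_div_cancel hQ0 hQt']

section gate

open Crest.Agent.R122.LN2 Crest.Agent.R122.Gate424

variable {I Θ : Type} [MeasurableSpace Θ] {m : ℝ → I → Measure Θ}

/-- **The bad hits of a dominated structure are null**, non-localised form. -/
theorem gNull_badHitN {Φ : Space3 → ℝ} (hΦ : AdmissiblePotential Φ) (hVC : VC Φ) {T : ℝ}
    (hT : 0 ≤ T) {BP : PosPred} (hHC : HitClass T BP) {γ : ℝ} {ρ : Space3 → ℝ≥0∞} {C₀ : ℝ≥0∞}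
    {κ : Type} [Fintype κ] (hf : Measurable f₀)
    (h1 : ∫⁻ z, ENNReal.ofReal (f₀ z) ≤ 1) (he : Env f₀ γ ρ C₀) (hγ : 0 < γ) (C R : ℝ) (N K : ℕ)
    {s : ℕ} (hs : s ≤ Fintype.card κ) (A₀ : Finset κ) {c : ℝ≥0∞} (hc : c ≠ ∞)
    (Λ : Measure (κ → ℝ)) [IsFiniteMeasure Λ] {b : ℝ → I → Θ → κ → ℝ}
    {z : ℝ → I → Θ → κ → PhasePoint} (hm : ∀ ε i, SFinite (m ε i))
    (hdom : ∀ ε i, 0 < ε → Dom γ ρ ε s A₀ c Λ (m ε i) (b ε i) (z ε i)) :
    GNull f₀ m
      (fun ε i _ θ w => BadHitGasN BP Φ T C R ε N K s A₀ (b ε i θ) (z ε i θ) w) := by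
  intro δ hδ
  obtain ⟨ε₀, h0, h⟩ := ln2_badHitN hΦ hVC hT hHC hf h1 he hγ C R N K hs A₀ hc Λ hδ
  refine ⟨ε₀, h0, fun ε hε hlt i => ?_⟩
  obtain ⟨G, hGm, hG, hGi⟩ := h ε hε hlt
  have hd := hdom ε i hε
  have := hm ε i
  have hmap : ∀ n, Measurable fun p : Θ × Config n => (p.2, b ε i p.1, z ε i p.1) := fun n =>
    measurable_snd.prodMk ((hd.mb.comp measurable_fst).prodMk (hd.mz.comp measurable_fst))
  have hGm' : ∀ n, Measurable fun p : Θ × Config n =>
      (if (p.2, b ε i p.1, z ε i p.1) ∈ G n then 1 else 0 : ℝ≥0∞) := fun n =>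
    Measurable.ite (hmap n (hGm n)) measurable_const measurable_const
  refine ⟨fun n p => if (p.2, b ε i p.1, z ε i p.1) ∈ G n then 1 else 0, hGm', ?_, ?_⟩
  · intro n θ w hw hB
    simp only
    rw [if_pos (hG n w _ _ hw hB)]
  · have e1 := BadHit370.lintegral_gcE hf ε (m ε i)
      (F := fun n θ w => (if (w, b ε i θ, z ε i θ) ∈ G n then 1 else 0 : ℝ≥0∞)) hGm'
    refine (le_of_eq e1).trans ?_
    refine le_trans (le_of_eq (gcE_congr f₀ ε fun n w _ => ?_)) (hGi Θ (m ε i) (b ε i) (z ε i) hd)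
    have hset : MeasurableSet {θ | (w, b ε i θ, z ε i θ) ∈ G n} := by
      have h5 : Measurable fun θ : Θ => (w, b ε i θ, z ε i θ) :=
        measurable_const.prodMk (hd.mb.prodMk hd.mz)
      exact h5 (hGm n)
    rw [← lintegral_indicator_one hset]
    refine lintegral_congr fun θ => ?_
    simp only [indicator_apply, mem_ofPred_eq, Pi.one_apply]

/-- **The bad hits of a dominated structure are null**, non-localised form, unconditional. -/
theorem gNull_badPosN {Φ : Space3 → ℝ} (hΦ : AdmissiblePotential Φ) {T T₁ : ℝ}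
    (hT : 0 ≤ T) (te : ℝ) (hT₁ : 0 ≤ T₁) {γ : ℝ} {ρ : Space3 → ℝ≥0∞} {C₀ : ℝ≥0∞}
    {κ : Type} [Fintype κ] (hf : Measurable f₀)
    (h1 : ∫⁻ z, ENNReal.ofReal (f₀ z) ≤ 1) (he : Env f₀ γ ρ C₀) (hγ : 0 < γ) (C R : ℝ) (N K : ℕ)
    {s : ℕ} (hs : s ≤ Fintype.card κ) (A₀ : Finset κ) {c : ℝ≥0∞} (hc : c ≠ ∞)
    (Λ : Measure (κ → ℝ)) [IsFiniteMeasure Λ] {b : ℝ → I → Θ → κ → ℝ}
    {z : ℝ → I → Θ → κ → PhasePoint} (hm : ∀ ε i, SFinite (m ε i))
    (hdom : ∀ ε i, 0 < ε → Dom γ ρ ε s A₀ c Λ (m ε i) (b ε i) (z ε i)) :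
    GNull f₀ m (fun ε i _ θ w =>
      BadHitGasN (bpos Φ T₁ te) Φ T C R ε N K s A₀ (b ε i θ) (z ε i θ) w) :=
  gNull_badHitN hΦ (VC973.vc hΦ) hT (hitClass_bpos hΦ T te hT₁) hf h1 he hγ C R N K hs A₀ hc Λ hm
    hdom

end gate

end Crest.Agent.R122.BH167

end
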