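import Crest.Agent.R122.VLClass_973

/-!
# Row 122, H11 (helper973): `ClassNull` from `VC` and `VLu`

* `ClassNull Φ T` (interface to helper473's gas level).
* `class_null : AdmissiblePotential Φ → 0 < T → VC Φ → VLu Φ → ClassNull Φ T`.
* `class_null_seq` : sequence form with an obstacle, from `VC` and `VL`.
-/

set_option autoImplicit false
set_option linter.unusedSectionVars false

open MeasureTheory Set Filter Topology
open Crest.AnalysisR.Kinetic
open Crest.Agent.R122.Ins45 Crest.Agent.R122.GIV566 Crest.Agent.R122.VL581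
open scoped Classical ENNReal NNReal

noncomputable section

namespace Crest.Agent.R122.VLMeas973

variable {J κ : Type} [Fintype J]

/-- System without obstacle. -/
def vsys (Φ : Space3 → ℝ) (T ε : ℝ) (b : J → ℝ) : VSys J Unit :=
  ⟨Φ, T, ε, b, none, ⟨fun _ _ => 0, fun _ => 0⟩⟩

/-- **LN2 in class form**: jointly measurable majorant of the bad partitions, bound uniform in all
births. -/
def ClassNull (Φ : Space3 → ℝ) (T : ℝ) : Prop :=
  ∀ (J : Type) [Fintype J] (β C : ℝ) (s : ℕ) (A : Finset J) (ρ : Space3 → ℝ≥0∞), 0 < β →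
    s ≤ Fintype.card J → Measurable ρ → (∀ x, ρ x ≤ 1) → ∫⁻ x, ρ x < ∞ → ∀ δ : ℝ≥0∞, 0 < δ →
    ∃ R > 0, ∃ ς > 0, ∃ ε₀ > 0, ∀ ε : ℝ, 0 < ε → ε < ε₀ →
      ∃ E : Set ((J → ℝ) × (J → PhasePoint)), MeasurableSet E ∧
        (∀ b Z, (vsys Φ T ε b).BadPart C (R * ε) ς s A Z → (b, Z) ∈ E) ∧
        ∀ b, ∫⁻ Z, {Z | (b, Z) ∈ E}.indicator (fun Z => (∏ j ∈ A, ρ (Z j).1) *
          ∏ j, ENNReal.ofReal (Real.exp (-β * ‖(Z j).2‖ ^ 2))) Z ≤
          δ * ENNReal.ofReal (ε ^ 2) ^ (Fintype.card J - s)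

/-! ### Numbers -/

theorem sum_card_sub (π : Finpartition (Finset.univ : Finset J)) :
    ∑ P ∈ π.parts, (P.card - 1) = Fintype.card J - π.parts.card := by
  rw [Finset.sum_tsub_distrib _ fun P hP => Finset.card_pos.2 (π.nonempty_of_mem_parts hP),
    π.sum_card_parts, Finset.card_univ]
  simp

theorem card_parts_le (π : Finpartition (Finset.univ : Finset J)) :
    π.parts.card ≤ Fintype.card J := by
  have h := π.sum_card_parts
  rw [Finset.card_univ] at h
  calc π.parts.card = ∑ P ∈ π.parts, 1 := by simp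
    _ ≤ ∑ P ∈ π.parts, P.card := Finset.sum_le_sum fun P hP =>
        Finset.card_pos.2 (π.nonempty_of_mem_parts hP)
    _ = Fintype.card J := h

/-- The numerical form of the union bound. -/
theorem lintegral_badQ_le' [Finite κ] {M : VSys J κ} (hM : Good M) {C ℓ ς : ℝ} {s : ℕ}
    (hs : s ≤ Fintype.card J) {A : Finset J} {β : ℝ} {ρ : Space3 → ℝ≥0∞} (hρ : Measurable ρ)
    (h1 : ∀ x, ρ x ≤ 1) (ho : ∀ j, M.o = some j → j ∈ A) {x B η : ℝ≥0∞} (hx : x ≤ 1)
    (ha : ∀ P : Finset J, aP M C β ρ A P ≤ B * x ^ (P.card - 1))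
    (hd : ∀ P : Finset J, dP M C ℓ ς β ρ A P ≤ η * x ^ (P.card - 1)) :
    ∫⁻ Z, (badQ M C ℓ ς s A).indicator (wA β ρ A) Z ≤
      ((Fintype.card (Finpartition (Finset.univ : Finset J)) : ℝ≥0∞) *
        (B + 1) ^ Fintype.card J * (x + Fintype.card J * η)) * x ^ (Fintype.card J - s) := by
  refine (lintegral_badQ_le hM C ℓ ς s hρ h1 ho).trans ?_
  set m := Fintype.card J with hm
  have hB1 : (1 : ℝ≥0∞) ≤ B + 1 := le_add_self
  have key : ∀ π : Finpartition (Finset.univ : Finset J),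
      ((if π.parts.card < s then ∏ P ∈ π.parts, aP M C β ρ A P else 0) +
        if π.parts.card = s then ∑ P₀ ∈ π.parts,
          dP M C ℓ ς β ρ A P₀ * ∏ P ∈ π.parts.erase P₀, aP M C β ρ A P else 0) ≤
      (B + 1) ^ m * (x + m * η) * x ^ (m - s) := by
    intro π
    have hpm := card_parts_le π
    have hpow : ∏ P ∈ π.parts, x ^ (P.card - 1) = x ^ (m - π.parts.card) := by
      rw [Finset.prod_pow_eq_pow_sum, sum_card_sub]
    have hBp : ∀ n ≤ m, B ^ n ≤ (B + 1) ^ m := fun n hn =>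
      (pow_le_pow_left' le_self_add n).trans (pow_le_pow_right' hB1 hn)
    by_cases hlt : π.parts.card < s
    · rw [if_pos hlt, if_neg hlt.ne, add_zero]
      calc ∏ P ∈ π.parts, aP M C β ρ A P
          ≤ ∏ P ∈ π.parts, (B * x ^ (P.card - 1)) := Finset.prod_le_prod' fun P _ => ha P
        _ = B ^ π.parts.card * x ^ (m - π.parts.card) := by
            rw [Finset.prod_mul_distrib, Finset.prod_const, hpow]
        _ ≤ (B + 1) ^ m * (x * x ^ (m - s)) := by
            refine mul_le_mul' (hBp _ hpm) ?_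
            rw [← pow_succ']
            exact pow_le_pow_right_of_le_one' hx (by omega)
        _ ≤ (B + 1) ^ m * ((x + m * η) * x ^ (m - s)) := by gcongr; exact le_self_add
        _ = _ := by ring
    · rw [if_neg hlt, zero_add]
      by_cases heq : π.parts.card = s
      · rw [if_pos heq]
        have h2 : ∀ P₀ ∈ π.parts, dP M C ℓ ς β ρ A P₀ *
            ∏ P ∈ π.parts.erase P₀, aP M C β ρ A P ≤ (B + 1) ^ m * η * x ^ (m - s) := by
          intro P₀ hP₀
          calc dP M C ℓ ς β ρ A P₀ * ∏ P ∈ π.parts.erase P₀, aP M C β ρ A P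
              ≤ (η * x ^ (P₀.card - 1)) *
                ∏ P ∈ π.parts.erase P₀, (B * x ^ (P.card - 1)) :=
                mul_le_mul' (hd P₀) (Finset.prod_le_prod' fun P _ => ha P)
            _ = B ^ (π.parts.erase P₀).card * η * (x ^ (P₀.card - 1) *
                ∏ P ∈ π.parts.erase P₀, x ^ (P.card - 1)) := by
                rw [Finset.prod_mul_distrib, Finset.prod_const]; ring
            _ = B ^ (π.parts.erase P₀).card * η * x ^ (m - s) := by
                rw [Finset.mul_prod_erase _ (fun P => x ^ (P.card - 1)) hP₀, hpow, heq]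
            _ ≤ (B + 1) ^ m * η * x ^ (m - s) := by
                exact mul_le_mul' (mul_le_mul' (hBp _ ((Finset.card_erase_le).trans hpm)) le_rfl)
                  le_rfl
        calc ∑ P₀ ∈ π.parts, dP M C ℓ ς β ρ A P₀ * ∏ P ∈ π.parts.erase P₀, aP M C β ρ A P
            ≤ ∑ _P₀ ∈ π.parts, (B + 1) ^ m * η * x ^ (m - s) := Finset.sum_le_sum h2
          _ = (π.parts.card : ℝ≥0∞) * ((B + 1) ^ m * η * x ^ (m - s)) := by
              rw [Finset.sum_const, nsmul_eq_mul]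
          _ ≤ (m : ℝ≥0∞) * ((B + 1) ^ m * η * x ^ (m - s)) := by
              gcongr
          _ = (B + 1) ^ m * (m * η) * x ^ (m - s) := by ring
          _ ≤ _ := by gcongr; exact le_add_self
      · rw [if_neg heq]
        exact bot_le
  calc _ ≤ ∑ _π : Finpartition (Finset.univ : Finset J),
        (B + 1) ^ m * (x + m * η) * x ^ (m - s) := Finset.sum_le_sum fun π _ => key π
    _ = _ := by
      rw [Finset.sum_const, nsmul_eq_mul, Finset.card_univ]
      ring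

theorem exists_eta {B : ℝ≥0∞} (hB : B ≠ ∞) {δ : ℝ≥0∞} (hδ : 0 < δ) :
    ∃ η : ℝ≥0∞, 0 < η ∧ B * (η + B * η) ≤ δ := by
  have h0 : (B + 1) ^ 2 ≠ 0 := pow_ne_zero _ (by simp)
  have h1 : (B + 1) ^ 2 ≠ ∞ := ENNReal.pow_ne_top (ENNReal.add_ne_top.2 ⟨hB, ENNReal.one_ne_top⟩)
  refine ⟨δ / (B + 1) ^ 2, ENNReal.div_pos hδ.ne' h1, ?_⟩
  calc B * (δ / (B + 1) ^ 2 + B * (δ / (B + 1) ^ 2))
      ≤ (B + 1) ^ 2 * (δ / (B + 1) ^ 2) := by
        have : B * (δ / (B + 1) ^ 2 + B * (δ / (B + 1) ^ 2)) =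
          (B * (1 + B)) * (δ / (B + 1) ^ 2) := by ring
        rw [this]
        gcongr
        calc B * (1 + B) ≤ (B + 1) * (1 + B) := by gcongr; exact le_self_add
          _ = (B + 1) ^ 2 := by ring
    _ = δ := ENNReal.mul_div_cancel h0 h1

theorem treeLike_mono {M : VSys J κ} {C ℓ ℓ' ς ς' : ℝ} {P : Finset J} {Z : J → PhasePoint}
    (hℓ : ℓ ≤ ℓ') (hς : ς' ≤ ς) (h : M.TreeLike C ℓ ς P Z) : M.TreeLike C ℓ' ς' P Z := by
  obtain ⟨h1, E, σ, h2, h3, h4, h5, h6, h7⟩ := h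
  refine ⟨h1, E, σ, h2, h3, fun e he => ?_, fun e he i => ?_, fun e he e' he' hne => ?_,
    fun i hi j hj hij t ht hc => ?_⟩
  · have := h4 e he
    exact ⟨by linarith [this.1], by linarith [this.2]⟩
  · exact lt_of_le_of_lt hς (h5 e he i)
  · exact lt_of_le_of_lt hς (h6 e he e' he' hne)
  · obtain ⟨e, he, heq, hle⟩ := h7 i hi j hj hij t ht hc
    exact ⟨e, he, heq, hle.trans hℓ⟩

theorem ofReal_pow_two_mul (ε : ℝ) (n : ℕ) :
    ENNReal.ofReal (ε ^ (2 * n)) = ENNReal.ofReal (ε ^ 2) ^ n := by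
  rw [pow_mul, ENNReal.ofReal_pow (by positivity)]

/-- Masses of the connected parts from `VC`. -/
theorem exists_aP_bound {Φ : Space3 → ℝ} (hVC : VC Φ) [Fintype κ] {β T C : ℝ} (hβ : 0 < β)
    (L : ℝ≥0) : ∃ K : ℝ≥0, ∀ M : VSys J κ, M.Φ = Φ → M.T = T → 0 < M.ε → M.ε ≤ 1 →
      (∀ k, LipschitzOnWith L (M.S.c k) (Icc 0 T)) → ∀ (A : Finset J) (ρ : Space3 → ℝ≥0∞),
      Measurable ρ → ∀ P : Finset J,
      aP M C β ρ A P ≤ (K * ∫⁻ x, ρ x) * ENNReal.ofReal (M.ε ^ 2) ^ (P.card - 1) := by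
  choose K hK using fun P : Finset J => hVC P κ β T C L hβ
  refine ⟨∑ P, K P, fun M hΦ hT hε hε1 hL A ρ hρ P => ?_⟩
  unfold aP
  by_cases h : ∃ x : P, x.1 ∈ A
  · have h1 : wP β ρ M.o A P = wgt β ρ (rt M.o A P h) := by
      funext z
      unfold wP
      rw [dif_pos h]
    rw [h1]
    refine (hK P (pull M (sub P)) hΦ hT hε hε1 hL (rt M.o A P h) (fun j hj => ?_) ρ hρ).trans ?_
    · exact rt_obs h j ((pull_o M (sub P) j).1 hj)
    · rw [Fintype.card_coe, pull_ε, ofReal_pow_two_mul, mul_right_comm]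
      gcongr
      exact Finset.single_le_sum (f := fun P => K P) (fun _ _ => bot_le) (Finset.mem_univ P)
  · have h1 : wP β ρ M.o A P = fun _ => 0 := by
      funext z
      unfold wP
      rw [dif_neg h]
    rw [h1]
    simp

theorem exists_pos_le {ι : Type} [Finite ι] [Nonempty ι] (f : ι → ℝ) (hf : ∀ i, 0 < f i) :
    ∃ c > 0, ∀ i, c ≤ f i := by
  obtain ⟨i₀, hi₀⟩ := Finite.exists_min f
  exact ⟨f i₀, hf i₀, hi₀⟩

theorem good_vsys {Φ : Space3 → ℝ} (hΦ : AdmissiblePotential Φ) {T ε : ℝ} (hT : 0 ≤ T) (hε : 0 < ε)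
    (b : J → ℝ) : Good (vsys Φ T ε b) := ⟨hΦ, hε, hT, fun _ => continuousOn_const⟩

/-- Masses of the parts which are not tree-like from `VLu`. -/
theorem exists_dP_bound {Φ : Space3 → ℝ} (hVL : VLu Φ) {β T C : ℝ}
    (hβ : 0 < β) (hT : 0 < T) (A : Finset J) {ρ : Space3 → ℝ≥0∞} (hρ : Measurable ρ)
    (hρf : ∫⁻ x, ρ x < ∞) {η : ℝ≥0∞} (hη : 0 < η) :
    ∃ R > 0, ∃ ς > 0, ∃ ε₀ > 0, ∀ ε : ℝ, 0 < ε → ε < ε₀ → ∀ (b : J → ℝ) (P : Finset J),
      dP (vsys Φ T ε b) C (R * ε) ς β ρ A P ≤ η * ENNReal.ofReal (ε ^ 2) ^ (P.card - 1) := by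
  have h1 : ∀ P : Finset J, ∃ R > 0, ∃ ς > 0, ∃ ε₀ > 0, ∀ (h : ∃ x : P, x.1 ∈ A) (ε : ℝ), 0 < ε →
      ε < ε₀ → ∀ b : J → ℝ, ∫⁻ z, {z | (pull (vsys Φ T ε b) (sub P)).Conn C Finset.univ z ∧
        ¬ (pull (vsys Φ T ε b) (sub P)).TreeLike C (R * ε) ς Finset.univ z}.indicator
          (wgt β ρ (rt none A P h)) z ≤ η * ENNReal.ofReal (ε ^ (2 * (P.card - 1))) := by
    intro P
    by_cases h : ∃ x : P, x.1 ∈ A
    · obtain ⟨R, hR, ς, hς, ε₀, hε₀, hb⟩ := hVL P β T C hβ hT (rt none A P h) ρ hρ hρf η hη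
      refine ⟨R, hR, ς, hς, ε₀, hε₀, fun h' ε hε hlt b => ?_⟩
      have h2 := hb (pull (vsys Φ T ε b) (sub P)) rfl rfl (by
        unfold pull vsys
        simp) hε hlt
      rw [Fintype.card_coe] at h2
      exact h2
    · exact ⟨1, one_pos, 1, one_pos, 1, one_pos, fun h' => absurd h' h⟩
  choose R hR ς hς ε₀ hε₀ hb using h1
  obtain ⟨ς', hς', hς'le⟩ := exists_pos_le ς hς
  obtain ⟨ε', hε', hε'le⟩ := exists_pos_le ε₀ hε₀
  refine ⟨1 + ∑ P, R P, by
    have : 0 ≤ ∑ P, R P := Finset.sum_nonneg fun P _ => (hR P).le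
    linarith, ς', hς', ε', hε', fun ε hε hlt b P => ?_⟩
  have hRle : R P < 1 + ∑ P, R P := by
    have : R P ≤ ∑ P, R P := Finset.single_le_sum (fun P _ => (hR P).le) (Finset.mem_univ P)
    linarith
  unfold dP
  by_cases h : ∃ x : P, x.1 ∈ A
  · have h1 : wP β ρ (vsys Φ T ε b).o A P = wgt β ρ (rt none A P h) := by
      funext z
      unfold wP
      rw [dif_pos h]
      rfl
    rw [h1, ← ofReal_pow_two_mul]
    refine le_trans (lintegral_mono fun z => ?_) (hb P h ε hε (hlt.trans_le (hε'le P)) b)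
    refine indicator_le_indicator_of_subset (fun z hz => ?_) (fun _ => bot_le) z
    refine ⟨hz.1, fun h2 => hz.2 ?_⟩
    exact tlq_of_treeLike (mul_lt_mul_of_pos_right hRle hε) (treeLike_mono le_rfl (hς'le P) h2)
  · have h1 : wP β ρ (vsys Φ T ε b).o A P = fun _ => 0 := by
      funext z
      unfold wP
      rw [dif_neg h]
    rw [h1]
    simp

/-- **LN2 in class form from `VC` and `VLu`.** -/
theorem class_null {Φ : Space3 → ℝ} (hΦ : AdmissiblePotential Φ) {T : ℝ} (hT : 0 < T)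
    (hVC : VC Φ) (hVL : VLu Φ) : ClassNull Φ T := by
  intro J _ β C s A ρ hβ hs hρ hρ1 hρf δ hδ
  obtain ⟨K, hK⟩ := exists_aP_bound (J := J) (κ := Unit) (C := C) (T := T) hVC hβ 0
  set B : ℝ≥0∞ := K * ∫⁻ x, ρ x with hB
  have hBf : B ≠ ∞ := ENNReal.mul_ne_top ENNReal.coe_ne_top hρf.ne
  set N : ℝ≥0∞ := (Fintype.card (Finpartition (Finset.univ : Finset J)) : ℝ≥0∞) with hN
  set D : ℝ≥0∞ := N * (B + 1) ^ Fintype.card J + Fintype.card J with hD
  have hDf : D ≠ ∞ := by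
    refine ENNReal.add_ne_top.2 ⟨ENNReal.mul_ne_top (ENNReal.natCast_ne_top _)
      (ENNReal.pow_ne_top (ENNReal.add_ne_top.2 ⟨hBf, ENNReal.one_ne_top⟩)),
      ENNReal.natCast_ne_top _⟩
  obtain ⟨η, hη, hηle⟩ := exists_eta hDf hδ
  obtain ⟨R, hR, ς, hς, ε₀, hε₀, hd⟩ := exists_dP_bound (J := J) (C := C) hVL hβ hT A hρ hρf hη
  -- `ε ^ 2 ≤ η`
  have htend : Tendsto (fun ε : ℝ => ENNReal.ofReal (ε ^ 2)) (𝓝 0) (𝓝 0) := by
    have h : Continuous fun ε : ℝ => ENNReal.ofReal (ε ^ 2) :=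
      ENNReal.continuous_ofReal.comp (continuous_pow 2)
    have h2 := h.tendsto 0
    simpa using h2
  obtain ⟨ε₁, hε₁, hε₁η⟩ := Metric.eventually_nhds_iff.1 (htend.eventually_lt_const hη)
  refine ⟨R, hR, ς, hς, min ε₀ (min ε₁ 1), by positivity, fun ε hε hlt => ?_⟩
  have hlt0 : ε < ε₀ := hlt.trans_le (min_le_left _ _)
  have hlt1 : ε < ε₁ := hlt.trans_le ((min_le_right _ _).trans (min_le_left _ _))
  have hlt2 : ε < 1 := hlt.trans_le ((min_le_right _ _).trans (min_le_right _ _))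
  have hx : ENNReal.ofReal (ε ^ 2) < η := hε₁η (by
    rw [Real.dist_eq, sub_zero, abs_of_pos hε]
    exact hlt1)
  have hx1 : ENNReal.ofReal (ε ^ 2) ≤ 1 := by
    rw [← ENNReal.ofReal_one]
    exact ENNReal.ofReal_le_ofReal (pow_le_one₀ hε.le hlt2.le)
  refine ⟨{p | p.2 ∈ badQ (vsys Φ T ε p.1) C (R * ε) ς s A}, ?_, ?_, ?_⟩
  · exact measurableSet_badQ (M := vsys Φ T ε fun _ => 0) (b := fun p : (J → ℝ) × _ => p.1)
      (Z := fun p => p.2) (good_vsys hΦ hT.le hε _) measurable_fst measurable_snd C (R * ε) ς s A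
  · exact fun b Z h => badPart_subset (good_vsys hΦ hT.le hε b) h
  · intro b
    have h3 := lintegral_badQ_le' (M := vsys Φ T ε b) (good_vsys hΦ hT.le hε b)
      (C := C) (ℓ := R * ε) (ς := ς) hs (A := A) (β := β) hρ hρ1 (fun j hj => by
        unfold vsys at hj; simp at hj) (x := ENNReal.ofReal (ε ^ 2)) (B := B) (η := η) hx1
      (fun P => hK (vsys Φ T ε b) rfl rfl hε hlt2.le (fun _ => (LipschitzWith.const _).lipschitzOnWith) A ρ hρ P)
      (fun P => hd ε hε hlt0 b P)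
    refine le_trans (le_of_eq rfl) (h3.trans ?_)
    gcongr
    refine le_trans ?_ hηle
    calc N * (B + 1) ^ Fintype.card J * (ENNReal.ofReal (ε ^ 2) + Fintype.card J * η)
        ≤ D * (η + D * η) := by
          refine mul_le_mul' le_self_add (add_le_add hx.le ?_)
          gcongr
          exact le_add_self
      _ = _ := rfl

end Crest.Agent.R122.VLMeas973
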