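import Crest.Agent.R122.LN2Inst_473
import Crest.Agent.R122.VLClass2_973

/-!
# Row 122, LN2 at gas level

* `BadGas` : some `Y ⊆ w`, `|Y| ≤ N`, forms a bad partition (helper973's `BadPart`) together with a
  structure.
* `ln2_gas` : from `ClassNull Φ T`: for every `δ` there are `R, ς, ε₀` and for `ε < ε₀` jointly
  measurable majorants `G n` of `BadGas` whose mass is at most `δ` for every dominated structure.
-/

set_option autoImplicit false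
open MeasureTheory Set
open scoped Classical ENNReal
open Crest.AnalysisR.Kinetic
noncomputable section

namespace Crest.Agent.R122.LN2

open Crest.Agent.R122.GC311 Crest.Agent.R122.Kin796
open Crest.Agent.R122.VL581 Crest.Agent.R122.LinkGas473 Crest.Agent.R122.VLMeas973

variable {Φ : Space3 → ℝ} {f₀ : PhasePoint → ℝ} {T γ : ℝ} {ρ : Space3 → ℝ≥0∞} {C₀ : ℝ≥0∞}
variable {κ : Type} [Fintype κ]

theorem tlp_mono {J κ' : Type} [Fintype J] {M : VSys J κ'} {C ℓ ℓ' ς ς' : ℝ} (hℓ : ℓ ≤ ℓ')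
    (hς : ς' ≤ ς) {P : Finset J} {Z : J → PhasePoint} (h : TLP M C ℓ ς P Z) :
    TLP M C ℓ' ς' P Z := by
  obtain ⟨h1, E, σ, h2, h3, h4, h5, h6, h7⟩ := h
  refine ⟨h1, E, σ, h2, h3, fun e he => ?_, fun e he i hi => hς.trans_lt (h5 e he i hi),
    fun e he e' he' hne => hς.trans_lt (h6 e he e' he' hne), fun i hi j hj hij t ht hv => ?_⟩
  · have := h4 e he
    exact ⟨hς.trans_lt this.1, by linarith [this.2]⟩
  · obtain ⟨e, he, h8, h9⟩ := h7 i hi j hj hij t ht hv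
    exact ⟨e, he, h8, h9.trans hℓ⟩

theorem badPart_mono {J κ' : Type} [Fintype J] {M : VSys J κ'} {C ℓ ℓ' ς ς' : ℝ} (hℓ : ℓ ≤ ℓ')
    (hς : ς' ≤ ς) {s : ℕ} {A : Finset J} {Z : J → PhasePoint} (h : M.BadPart C ℓ' ς' s A Z) :
    M.BadPart C ℓ ς s A Z := by
  obtain ⟨π, h1, h2⟩ := h
  refine ⟨π, h1, h2.imp_right ?_⟩
  rintro ⟨h3, P, hP, h4⟩
  exact ⟨h3, P, hP, fun h5 => h4 (tlp_mono hℓ hς h5)⟩

/-- Some `Y ⊆ w` with `|Y| ≤ N` forms a bad partition together with the structure `(b, z)`. -/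
def BadGas (Φ : Space3 → ℝ) (T C R ς ε : ℝ) (N s : ℕ) (A₀ : Finset κ) (b : κ → ℝ)
    (z : κ → PhasePoint) {n : ℕ} (w : Config n) : Prop :=
  ∃ k ≤ N, ∃ ι : Fin k ↪ Fin n, (VLMeas973.vsys Φ T ε (bS k b)).BadPart C (R * ε) ς s (anch k A₀)
    (Sum.elim (fun i => w (ι i)) z)

theorem badGas_mono {C R R' ς ς' ε : ℝ} (hε : 0 ≤ ε) (hR : R ≤ R') (hς : ς' ≤ ς) {N s : ℕ}
    {A₀ : Finset κ} {b : κ → ℝ} {z : κ → PhasePoint} {n : ℕ} {w : Config n}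
    (h : BadGas Φ T C R' ς' ε N s A₀ b z w) : BadGas Φ T C R ς ε N s A₀ b z w := by
  obtain ⟨k, hk, ι, h⟩ := h
  exact ⟨k, hk, ι, badPart_mono (mul_le_mul_of_nonneg_right hR hε) hς h⟩

theorem exists_pos_le (N : ℕ) {f : ℕ → ℝ} (hf : ∀ k, 0 < f k) : ∃ m > 0, ∀ k ≤ N, m ≤ f k := by
  induction N with
  | zero => exact ⟨f 0, hf 0, fun k hk => by rw [Nat.le_zero.1 hk]⟩
  | succ N ih =>
    obtain ⟨m, hm, h⟩ := ih
    refine ⟨min m (f (N + 1)), lt_min hm (hf _), fun k hk => ?_⟩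
    rcases Nat.lt_or_ge N k with h1 | h1
    · have : k = N + 1 := by omega
      rw [this]; exact min_le_right _ _
    · exact (min_le_left _ _).trans (h k h1)

theorem exists_ge (N : ℕ) (f : ℕ → ℝ) : ∃ m > 0, ∀ k ≤ N, f k ≤ m := by
  induction N with
  | zero => exact ⟨max (f 0) 1, lt_of_lt_of_le one_pos (le_max_right _ _),
      fun k hk => by rw [Nat.le_zero.1 hk]; exact le_max_left _ _⟩
  | succ N ih =>
    obtain ⟨m, hm, h⟩ := ih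
    refine ⟨max m (f (N + 1)), lt_of_lt_of_le hm (le_max_left _ _), fun k hk => ?_⟩
    rcases Nat.lt_or_ge N k with h1 | h1
    · have : k = N + 1 := by omega
      rw [this]; exact le_max_right _ _
    · exact (h k h1).trans (le_max_left _ _)

/-- **LN2 at gas level.** -/
theorem ln2_gas (hCN : ClassNull Φ T) (hf : Measurable f₀) (h1 : ∫⁻ z, ENNReal.ofReal (f₀ z) ≤ 1)
    (he : Env f₀ γ ρ C₀) (hγ : 0 < γ) (C : ℝ) (N : ℕ) {s : ℕ} (hs : s ≤ Fintype.card κ)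
    (A₀ : Finset κ) {c : ℝ≥0∞} (hc : c ≠ ∞) (Λ : Measure (κ → ℝ)) [IsFiniteMeasure Λ]
    {δ : ℝ≥0∞} (hδ : 0 < δ) :
    ∃ R > 0, ∃ ς > 0, ∃ ε₀ > 0, ∀ ε : ℝ, 0 < ε → ε < ε₀ →
      ∃ G : (n : ℕ) → Set (Config n × (κ → ℝ) × (κ → PhasePoint)),
        (∀ n, MeasurableSet (G n)) ∧
        (∀ (R' ς' : ℝ), R ≤ R' → ς' ≤ ς → ∀ n (w : Config n) b z,
          BadGas Φ T C R' ς' ε N s A₀ b z w → (w, b, z) ∈ G n) ∧
        ∀ (Θ : Type) [MeasurableSpace Θ] (m : Measure Θ) [SFinite m] (b : Θ → κ → ℝ)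
          (z : Θ → κ → PhasePoint), Dom γ ρ ε s A₀ c Λ m b z →
          gcE f₀ ε (fun n w => m {θ | (w, b θ, z θ) ∈ G n}) ≤ δ := by
  set K : ℝ≥0∞ := c * Λ univ * ∑ k ∈ Finset.range (N + 1), C₀ ^ k with hK
  have hKt : K ≠ ∞ := by
    refine ENNReal.mul_ne_top (ENNReal.mul_ne_top hc (measure_ne_top Λ _)) ?_
    exact ENNReal.sum_ne_top.2 fun k _ => ENNReal.pow_ne_top he.fin
  have hK0 : K + 1 ≠ 0 := by simp
  have hKt' : K + 1 ≠ ∞ := ENNReal.add_ne_top.2 ⟨hKt, ENNReal.one_ne_top⟩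
  set δ' : ℝ≥0∞ := δ / (K + 1) with hδ'
  have hδ'0 : 0 < δ' := ENNReal.div_pos hδ.ne' hKt'
  have hcard : ∀ k, s ≤ Fintype.card (Fin k ⊕ κ) := fun k => by
    rw [Fintype.card_sum, Fintype.card_fin]; omega
  choose R hR ς hς ε₀ hε₀ hE using fun k => hCN (Fin k ⊕ κ) γ C s (anch k A₀) ρ hγ (hcard k)
    he.meas he.le_one he.int δ' hδ'0
  obtain ⟨Rm, hRm, hRm'⟩ := exists_ge N R
  obtain ⟨ςm, hςm, hςm'⟩ := exists_pos_le N hς
  obtain ⟨εm, hεm, hεm'⟩ := exists_pos_le N hε₀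
  refine ⟨Rm, hRm, ςm, hςm, εm, hεm, fun ε hε hεlt => ?_⟩
  -- the bad sets
  have hex : ∀ k : ℕ, ∃ E : Set ((Fin k ⊕ κ → ℝ) × (Fin k ⊕ κ → PhasePoint)), MeasurableSet E ∧
      (k ≤ N → (∀ b Z, (VLMeas973.vsys Φ T ε b).BadPart C (R k * ε) (ς k) s (anch k A₀) Z →
        (b, Z) ∈ E) ∧
        ∀ b, ∫⁻ Z, {Z | (b, Z) ∈ E}.indicator (fun Z => (∏ j ∈ anch k A₀, ρ (Z j).1) *
          ∏ j, ENNReal.ofReal (Real.exp (-γ * ‖(Z j).2‖ ^ 2))) Z ≤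
          δ' * ENNReal.ofReal (ε ^ 2) ^ (Fintype.card (Fin k ⊕ κ) - s)) := by
    intro k
    by_cases hk : k ≤ N
    · obtain ⟨E, hEm, hE1, hE2⟩ := hE k ε hε (hεlt.trans_le (hεm' k hk))
      exact ⟨E, hEm, fun _ => ⟨hE1, hE2⟩⟩
    · exact ⟨∅, MeasurableSet.empty, fun h => absurd h hk⟩
  choose E hEm hE' using hex
  refine ⟨gSet N E, measurableSet_gSet hEm, ?_, ?_⟩
  · rintro R' ς' hR' hς' n w b z ⟨k, hk, ι, h⟩
    refine ⟨k, hk, ι, (hE' k hk).1 _ _ (badPart_mono ?_ (hς'.trans (hςm' k hk)) h)⟩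
    exact mul_le_mul_of_nonneg_right ((hRm' k hk).trans hR') hε.le
  · intro Θ _ m _ b z hdom
    have hD : ∀ k ≤ N, ∀ b : Fin k ⊕ κ → ℝ,
        ∫⁻ Z, {Z | (b, Z) ∈ E k}.indicator (wgtA γ ρ (anch k A₀)) Z ≤
          δ' * ENNReal.ofReal (ε ^ 2) ^ (k + (Fintype.card κ - s)) := by
      intro k hk b
      have h2 := (hE' k hk).2 b
      have h3 : Fintype.card (Fin k ⊕ κ) - s = k + (Fintype.card κ - s) := by
        rw [Fintype.card_sum, Fintype.card_fin]; omega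
      rw [h3] at h2
      have h4 : wgtA γ ρ (anch k A₀) = fun Z : Fin k ⊕ κ → PhasePoint =>
          (∏ j ∈ anch k A₀, ρ (Z j).1) *
            ∏ j, ENNReal.ofReal (Real.exp (-γ * ‖(Z j).2‖ ^ 2)) := by
        funext Z
        unfold wgtA
        simp only [wG_eq]
      rw [h4]
      exact h2
    calc gcE f₀ ε (fun n w => m {θ | (w, b θ, z θ) ∈ gSet N E n})
        ≤ c * Λ univ * (δ' * ∑ k ∈ Finset.range (N + 1), C₀ ^ k) :=
          gas_mass_le hf h1 he hε N A₀ hEm hD hc Λ hdom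
      _ = K * δ' := by rw [hK]; ring
      _ ≤ (K + 1) * δ' := by gcongr; exact le_self_add
      _ = δ := by rw [hδ', ENNReal.mul_div_cancel hK0 hKt']

end Crest.Agent.R122.LN2
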