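import Crest.Agent.R122.BHClass_167
import Crest.Agent.R122.LN2Main_473

/-!
# Row 122, BadHit (helper167), part 4: gas level

* `BadHitGas` : some `g ≤ N` gas particles form with the structure `(b, z)` a partition into at most
  `s` connected parts, one of which is hit (at the same time, within `R ε`) by a root of a bad past
  consisting of `k ≤ K` other gas particles.
* `ln2_badHit` : for small `ε` jointly measurable majorants, mass `≤ δ` for every dominated
  structure (same form as `LN2.ln2_gas`).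
-/

set_option autoImplicit false
set_option linter.unusedSectionVars false

open MeasureTheory Set Filter Topology
open Crest.AnalysisR.Kinetic
open Crest.Agent.R122.GIV566 Crest.Agent.R122.VL581
open Crest.Agent.R122.VLMeas973 Crest.Agent.R122.Loc45
open Crest.Agent.R122.GC311 Crest.Agent.R122.Kin796
open scoped Classical ENNReal NNReal

noncomputable section

namespace Crest.Agent.R122.BH167

variable {κ : Type} [Fintype κ]

/-- **Bad hit at gas level.** -/
def BadHitGas (BP : PosPred) (Φ : Space3 → ℝ) (T C R ε : ℝ) (N K s : ℕ) (A₀ : Finset κ)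
    (b : κ → ℝ) (z : κ → PhasePoint) {n : ℕ} (w : Config n) : Prop :=
  ∃ g ≤ N, ∃ ι : Fin g ↪ Fin n, ∃ k ≤ K, ∃ f : Fin k ↪ Fin n, (∀ x y, ι x ≠ f y) ∧
    BadHitP BP C R s (LN2.anch g A₀) (VLMeas973.vsys Φ T ε (LN2.bS g b))
      (Sum.elim (fun i => w (ι i)) z) (fun l => w (f l))

/-! ### Splitting off the bad past -/

/-- Labels: `g` gas particles and the structure, then `k` gas particles. -/
def eqv (g k : ℕ) (κ : Type) : (Fin g ⊕ κ) ⊕ Fin k ≃ Fin (g + k) ⊕ κ :=
  ((Equiv.sumAssoc _ _ _).trans ((Equiv.sumCongr (Equiv.refl _) (Equiv.sumComm _ _)).trans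
    (Equiv.sumAssoc _ _ _).symm)).trans (Equiv.sumCongr finSumFinEquiv (Equiv.refl _))

omit [Fintype κ] in
theorem eqv_gas (g k : ℕ) (i : Fin g) :
    eqv g k κ (Sum.inl (Sum.inl i)) = Sum.inl (Fin.castAdd k i) := rfl

omit [Fintype κ] in
theorem eqv_str (g k : ℕ) (a : κ) : eqv g k κ (Sum.inl (Sum.inr a)) = Sum.inr a := rfl

omit [Fintype κ] in
theorem eqv_past (g k : ℕ) (l : Fin k) : eqv g k κ (Sum.inr l) = Sum.inl (Fin.natAdd g l) := rfl

/-- The decoding: births and states of gas and structure, states of the past. -/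
def dec {g k k' : ℕ} (h : g + k = k') (p : (Fin k' ⊕ κ → ℝ) × (Fin k' ⊕ κ → PhasePoint)) :
    (Fin g ⊕ κ → ℝ) × (Fin g ⊕ κ → PhasePoint) × Config k :=
  (fun j => p.1 (Sum.map (Fin.cast h) id (eqv g k κ (Sum.inl j))),
    fun j => p.2 (Sum.map (Fin.cast h) id (eqv g k κ (Sum.inl j))),
    fun l => p.2 (Sum.map (Fin.cast h) id (eqv g k κ (Sum.inr l))))

omit [Fintype κ] in
theorem measurable_dec {g k k' : ℕ} (h : g + k = k') : Measurable (dec (κ := κ) h) := by
  unfold dec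
  refine Measurable.prodMk ?_ (Measurable.prodMk ?_ ?_)
  · exact measurable_pi_lambda _ fun j => (measurable_pi_apply _).comp measurable_fst
  · exact measurable_pi_lambda _ fun j => (measurable_pi_apply _).comp measurable_snd
  · exact measurable_pi_lambda _ fun j => (measurable_pi_apply _).comp measurable_snd

omit [Fintype κ] in
theorem dec_rfl {g k : ℕ} (p : (Fin (g + k) ⊕ κ → ℝ) × (Fin (g + k) ⊕ κ → PhasePoint)) :
    dec (rfl : g + k = g + k) p = (fun j => p.1 (eqv g k κ (Sum.inl j)),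
      fun j => p.2 (eqv g k κ (Sum.inl j)), fun l => p.2 (eqv g k κ (Sum.inr l))) := by
  have h : ∀ x : Fin (g + k) ⊕ κ, Sum.map (Fin.cast (rfl : g + k = g + k)) id x = x := by
    rintro (x | x) <;> rfl
  unfold dec
  simp only [h]

theorem wgtA_split (γ : ℝ) (ρ : Space3 → ℝ≥0∞) (A₀ : Finset κ) (g k : ℕ)
    (Z : Fin (g + k) ⊕ κ → PhasePoint) :
    LN2.wgtA γ ρ (LN2.anch (g + k) A₀) Z =
      wA γ ρ (LN2.anch g A₀) (fun j => Z (eqv g k κ (Sum.inl j))) *
        ((∏ l, ρ (Z (eqv g k κ (Sum.inr l))).1) * ∏ l, gv γ (Z (eqv g k κ (Sum.inr l)))) := by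
  have hg : ∀ z : PhasePoint, wG γ z.2 = gv γ z := fun z => LN2.wG_eq γ z.2
  unfold LN2.wgtA wA LN2.anch
  simp only [hg]
  rw [Finset.prod_disjSum, Finset.prod_disjSum, Fintype.prod_sum_type, Fintype.prod_sum_type,
    Fin.prod_univ_add, Fin.prod_univ_add]
  simp only [eqv_gas, eqv_str, eqv_past]
  ring

/-- The volume of one piece. -/
theorem piece_le {γ : ℝ} {ρ : Space3 → ℝ≥0∞} (hρ : Measurable ρ) (hρ1 : ∀ x, ρ x ≤ 1)
    (A₀ : Finset κ) (g k : ℕ) {E : Set ((Fin g ⊕ κ → ℝ) × (Fin g ⊕ κ → PhasePoint) × Config k)}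
    (hE : MeasurableSet E) {D : ℝ≥0∞} (i : Fin k)
    (hD : ∀ b : Fin g ⊕ κ → ℝ, ∫⁻ Z, wA γ ρ (LN2.anch g A₀) Z * ∫⁻ V : Config k, ρ (V i).1 *
            ((∏ l, gv γ (V l)) * (if (b, Z, V) ∈ E then 1 else 0)) ≤ D)
    (b : Fin (g + k) ⊕ κ → ℝ) :
    ∫⁻ Z, {Z | dec (rfl : g + k = g + k) (b, Z) ∈ E}.indicator
      (LN2.wgtA γ ρ (LN2.anch (g + k) A₀)) Z ≤ D := by
  set b' : Fin g ⊕ κ → ℝ := fun j => b (eqv g k κ (Sum.inl j)) with hb'
  set H : ((Fin g ⊕ κ) ⊕ Fin k → PhasePoint) → ℝ≥0∞ := fun Y =>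
    wA γ ρ (LN2.anch g A₀) (fun j => Y (Sum.inl j)) * (ρ (Y (Sum.inr i)).1 *
      ((∏ l, gv γ (Y (Sum.inr l))) *
        (if (b', (fun j => Y (Sum.inl j)), (fun l => Y (Sum.inr l))) ∈ E then 1 else 0))) with hH
  have hpt : ∀ Z : Fin (g + k) ⊕ κ → PhasePoint,
      {Z | dec (rfl : g + k = g + k) (b, Z) ∈ E}.indicator
        (LN2.wgtA γ ρ (LN2.anch (g + k) A₀)) Z ≤ H (fun y => Z (eqv g k κ y)) := by
    intro Z
    by_cases hZ : dec (rfl : g + k = g + k) (b, Z) ∈ E
    · rw [indicator_of_mem (show Z ∈ {Z | dec (rfl : g + k = g + k) (b, Z) ∈ E} from hZ),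
        wgtA_split]
      rw [dec_rfl] at hZ
      simp only [hH]
      rw [if_pos hZ, mul_one]
      gcongr
      rw [← Finset.mul_prod_erase _ _ (Finset.mem_univ i)]
      calc ρ (Z (eqv g k κ (Sum.inr i))).1 *
            ∏ l ∈ Finset.univ.erase i, ρ (Z (eqv g k κ (Sum.inr l))).1
          ≤ ρ (Z (eqv g k κ (Sum.inr i))).1 * 1 := by
            gcongr
            exact Finset.prod_le_one' fun l _ => hρ1 _
        _ = _ := mul_one _
    · rw [indicator_of_notMem (show Z ∉ {Z | dec (rfl : g + k = g + k) (b, Z) ∈ E} from hZ)]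
      exact bot_le
  have hwA : Measurable fun Z : Fin g ⊕ κ → PhasePoint => wA γ ρ (LN2.anch g A₀) Z := by
    unfold wA
    refine Measurable.mul (Finset.measurable_prod _ fun j _ => ?_)
      (Finset.measurable_prod _ fun j _ => ?_)
    · exact hρ.comp (measurable_pi_apply j).fst
    · exact (measurable_gv γ).comp (measurable_pi_apply j)
  have hl : Measurable fun Y : (Fin g ⊕ κ) ⊕ Fin k → PhasePoint => fun j => Y (Sum.inl j) :=
    measurable_pi_lambda _ fun j => measurable_pi_apply _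
  have hr : Measurable fun Y : (Fin g ⊕ κ) ⊕ Fin k → PhasePoint => fun l => Y (Sum.inr l) :=
    measurable_pi_lambda _ fun j => measurable_pi_apply _
  have hgv : Measurable fun V : Config k => ∏ l, gv γ (V l) :=
    Finset.measurable_prod _ fun l _ => (measurable_gv γ).comp (measurable_pi_apply l)
  have hρ' : Measurable fun V : Config k => ρ (V i).1 := hρ.comp (measurable_pi_apply i).fst
  have hiteE : Measurable fun p : (Fin g ⊕ κ → PhasePoint) × Config k =>
      (if (b', p.1, p.2) ∈ E then (1 : ℝ≥0∞) else 0) := by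
    refine Measurable.ite ?_ measurable_const measurable_const
    exact (measurable_const.prodMk (measurable_fst.prodMk measurable_snd)) hE
  have hHm : Measurable H :=
    (hwA.comp hl).mul ((hρ'.comp hr).mul ((hgv.comp hr).mul (hiteE.comp (hl.prodMk hr))))
  calc ∫⁻ Z, {Z | dec (rfl : g + k = g + k) (b, Z) ∈ E}.indicator
        (LN2.wgtA γ ρ (LN2.anch (g + k) A₀)) Z
      ≤ ∫⁻ Z : Fin (g + k) ⊕ κ → PhasePoint, H (fun y => Z (eqv g k κ y)) := lintegral_mono hpt
    _ = ∫⁻ Y, H Y := PartProd973.lintegral_relabel (eqv g k κ) H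
    _ = ∫⁻ Z : Fin g ⊕ κ → PhasePoint, ∫⁻ V : Fin k → PhasePoint, H (Sum.elim Z V) :=
        LN2.lintegral_sum_type H hHm
    _ = ∫⁻ Z, wA γ ρ (LN2.anch g A₀) Z * ∫⁻ V : Config k, ρ (V i).1 *
          ((∏ l, gv γ (V l)) * (if (b', Z, V) ∈ E then 1 else 0)) := by
        refine lintegral_congr fun Z => ?_
        simp only [hH, Sum.elim_inl, Sum.elim_inr]
        refine lintegral_const_mul _ ?_
        exact hρ'.mul (hgv.mul (hiteE.comp (measurable_const.prodMk measurable_id)))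
    _ ≤ D := hD b'

/-! ### The gas level -/

variable {Φ : Space3 → ℝ} {f₀ : PhasePoint → ℝ} {T γ : ℝ} {ρ : Space3 → ℝ≥0∞} {C₀ : ℝ≥0∞}

/-- **Bad hits at gas level.** -/
theorem ln2_badHit (hΦ : AdmissiblePotential Φ) (hVC : VC Φ) (hT : 0 ≤ T) {BP : PosPred}
    (hHC : HitClass T BP) (hf : Measurable f₀) (h1 : ∫⁻ z, ENNReal.ofReal (f₀ z) ≤ 1)
    (he : LN2.Env f₀ γ ρ C₀) (hγ : 0 < γ) (C R : ℝ) (N K : ℕ) {s : ℕ}
    (hs : s ≤ Fintype.card κ) (A₀ : Finset κ) {c : ℝ≥0∞} (hc : c ≠ ∞) (Λ : Measure (κ → ℝ))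
    [IsFiniteMeasure Λ] {δ : ℝ≥0∞} (hδ : 0 < δ) :
    ∃ ε₀ > 0, ∀ ε : ℝ, 0 < ε → ε < ε₀ →
      ∃ G : (n : ℕ) → Set (Config n × (κ → ℝ) × (κ → PhasePoint)),
        (∀ n, MeasurableSet (G n)) ∧
        (∀ n (w : Config n) b z, w ∈ PairExcluded ε n →
          BadHitGas BP Φ T C R ε N K s A₀ b z w → (w, b, z) ∈ G n) ∧
        ∀ (Θ : Type) [MeasurableSpace Θ] (m : Measure Θ) [SFinite m] (b : Θ → κ → ℝ)
          (z : Θ → κ → PhasePoint), LN2.Dom γ ρ ε s A₀ c Λ m b z →
          gcE f₀ ε (fun n w => m {θ | (w, b θ, z θ) ∈ G n}) ≤ δ := by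
  set Q : ℝ≥0∞ := c * Λ univ * ∑ k ∈ Finset.range (N + K + 1), C₀ ^ k with hQ
  have hQt : Q ≠ ∞ := by
    refine ENNReal.mul_ne_top (ENNReal.mul_ne_top hc (measure_ne_top Λ _)) ?_
    exact ENNReal.sum_ne_top.2 fun k _ => ENNReal.pow_ne_top he.fin
  have hQ0 : Q + 1 ≠ 0 := by simp
  have hQt' : Q + 1 ≠ ∞ := ENNReal.add_ne_top.2 ⟨hQt, ENNReal.one_ne_top⟩
  set δ' : ℝ≥0∞ := δ / (Q + 1) with hδ'
  have hδ'0 : 0 < δ' := ENNReal.div_pos hδ.ne' hQt'
  choose η hη hcl using fun g : ℕ => class_hit hΦ hVC hT hHC (Fin g ⊕ κ) Unit hγ C R 0 K s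
    (LN2.anch g A₀) he.meas he.le_one he.int
  -- the total
  have htot : Tendsto (fun ε => ∑ g ∈ Finset.range (N + 1), ∑ _k ∈ Finset.range (K + 1), η g ε)
      (𝓝[>] 0) (𝓝 0) := by
    have h2 : Tendsto (fun ε => ∑ g ∈ Finset.range (N + 1), ∑ _k ∈ Finset.range (K + 1), η g ε)
        (𝓝[>] 0) (𝓝 (∑ _g ∈ Finset.range (N + 1), ∑ _k ∈ Finset.range (K + 1), (0 : ℝ≥0∞))) :=
      tendsto_finsetSum _ fun g _ => tendsto_finsetSum _ fun k _ => hη g
    simpa using h2
  have hev := htot.eventually_lt_const hδ'0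
  rw [eventually_nhdsWithin_iff, Metric.eventually_nhds_iff] at hev
  obtain ⟨ε₁, hε₁, hev⟩ := hev
  refine ⟨min ε₁ 1, by positivity, fun ε hε hlt => ?_⟩
  have hlt1 : ε < ε₁ := hlt.trans_le (min_le_left _ _)
  have hε1 : ε ≤ 1 := (hlt.trans_le (min_le_right _ _)).le
  have hsum : ∑ g ∈ Finset.range (N + 1), ∑ _k ∈ Finset.range (K + 1), η g ε < δ' :=
    hev (by rw [Real.dist_eq, sub_zero, abs_of_pos hε]; exact hlt1) hε
  choose E hEm hE1 hE2 using fun g : ℕ => hcl g (VLMeas973.vsys Φ T ε fun _ => 0) rfl rfl hε hε1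
    (fun _ => (LipschitzWith.const _).lipschitzOnWith) (fun j hj => by
      unfold VLMeas973.vsys at hj; simp at hj)
  -- the bad sets
  obtain ⟨E', hE'⟩ : ∃ E' : (k' : ℕ) → Set ((Fin k' ⊕ κ → ℝ) × (Fin k' ⊕ κ → PhasePoint)),
      ∀ k' p, p ∈ E' k' ↔ ∃ g ∈ Finset.range (N + 1), ∃ k ∈ Finset.range (K + 1),
        0 < k ∧ ∃ h : g + k = k', dec h p ∈ E g k :=
    ⟨fun k' => {p | ∃ g ∈ Finset.range (N + 1), ∃ k ∈ Finset.range (K + 1),
        0 < k ∧ ∃ h : g + k = k', dec h p ∈ E g k}, fun _ _ => Iff.rfl⟩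
  have hpm : ∀ (g k k' : ℕ), MeasurableSet {p : (Fin k' ⊕ κ → ℝ) × (Fin k' ⊕ κ → PhasePoint) |
      0 < k ∧ ∃ h : g + k = k', dec h p ∈ E g k} := by
    intro g k k'
    by_cases h : 0 < k ∧ g + k = k'
    · have e1 : {p : (Fin k' ⊕ κ → ℝ) × (Fin k' ⊕ κ → PhasePoint) |
          0 < k ∧ ∃ h : g + k = k', dec h p ∈ E g k} = dec h.2 ⁻¹' E g k := by
        ext p
        simp only [mem_ofPred_eq, mem_preimage]
        exact ⟨fun ⟨_, _, h3⟩ => h3, fun h3 => ⟨h.1, h.2, h3⟩⟩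
      rw [e1]
      exact measurable_dec h.2 (hEm g k)
    · have e1 : {p : (Fin k' ⊕ κ → ℝ) × (Fin k' ⊕ κ → PhasePoint) |
          0 < k ∧ ∃ h : g + k = k', dec h p ∈ E g k} = ∅ := by
        ext p
        simp only [mem_ofPred_eq, mem_empty_iff_false, iff_false]
        rintro ⟨h2, h3, _⟩
        exact h ⟨h2, h3⟩
      rw [e1]
      exact MeasurableSet.empty
  have hE'm : ∀ k', MeasurableSet (E' k') := by
    intro k'
    have e1 : E' k' = ⋃ g ∈ Finset.range (N + 1), ⋃ k ∈ Finset.range (K + 1),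
        {p : (Fin k' ⊕ κ → ℝ) × (Fin k' ⊕ κ → PhasePoint) |
          0 < k ∧ ∃ h : g + k = k', dec h p ∈ E g k} := by
      ext p
      rw [hE']
      simp only [mem_iUnion, exists_prop, mem_ofPred_eq]
    rw [e1]
    exact Finset.measurableSet_biUnion _ fun g _ => Finset.measurableSet_biUnion _ fun k _ =>
      hpm g k k'
  -- the volumes
  have hD : ∀ k' ≤ N + K, ∀ b : Fin k' ⊕ κ → ℝ,
      ∫⁻ Z, {Z | (b, Z) ∈ E' k'}.indicator (LN2.wgtA γ ρ (LN2.anch k' A₀)) Z ≤
        δ' * ENNReal.ofReal (ε ^ 2) ^ (k' + (Fintype.card κ - s)) := by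
    intro k' _ b
    have hm1 : ∀ g k : ℕ, Measurable fun Z : Fin k' ⊕ κ → PhasePoint =>
        {Z | 0 < k ∧ ∃ h : g + k = k', dec h (b, Z) ∈ E g k}.indicator
          (LN2.wgtA γ ρ (LN2.anch k' A₀)) Z := fun g k =>
      (LN2.measurable_wgtA he.meas _).indicator
        ((measurable_const.prodMk measurable_id) (hpm g k k'))
    have h2 : ∀ Z, {Z | (b, Z) ∈ E' k'}.indicator (LN2.wgtA γ ρ (LN2.anch k' A₀)) Z ≤
        ∑ g ∈ Finset.range (N + 1), ∑ k ∈ Finset.range (K + 1),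
          {Z | 0 < k ∧ ∃ h : g + k = k', dec h (b, Z) ∈ E g k}.indicator
            (LN2.wgtA γ ρ (LN2.anch k' A₀)) Z := by
      intro Z
      by_cases hZ : (b, Z) ∈ E' k'
      · rw [indicator_of_mem (show Z ∈ {Z | (b, Z) ∈ E' k'} from hZ)]
        obtain ⟨g, hg, k, hk, h3⟩ := (hE' k' _).1 hZ
        refine le_trans ?_ (Finset.single_le_sum (f := fun g => ∑ k ∈ Finset.range (K + 1),
          {Z | 0 < k ∧ ∃ h : g + k = k', dec h (b, Z) ∈ E g k}.indicator
            (LN2.wgtA γ ρ (LN2.anch k' A₀)) Z) (fun _ _ => bot_le) hg)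
        refine le_trans ?_ (Finset.single_le_sum (f := fun k =>
          {Z | 0 < k ∧ ∃ h : g + k = k', dec h (b, Z) ∈ E g k}.indicator
            (LN2.wgtA γ ρ (LN2.anch k' A₀)) Z) (fun _ _ => bot_le) hk)
        rw [indicator_of_mem (show Z ∈ {Z | 0 < k ∧ ∃ h : g + k = k', dec h (b, Z) ∈ E g k}
          from h3)]
      · rw [indicator_of_notMem (show Z ∉ {Z | (b, Z) ∈ E' k'} from hZ)]
        exact bot_le
    refine (lintegral_mono h2).trans ?_
    rw [lintegral_finsetSum _ fun g _ => Finset.measurable_sum _ fun k _ => hm1 g k]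
    have h3 : ∀ g ∈ Finset.range (N + 1), ∫⁻ Z, ∑ k ∈ Finset.range (K + 1),
          {Z | 0 < k ∧ ∃ h : g + k = k', dec h (b, Z) ∈ E g k}.indicator
            (LN2.wgtA γ ρ (LN2.anch k' A₀)) Z ≤
        ∑ _k ∈ Finset.range (K + 1), η g ε *
          ENNReal.ofReal (ε ^ 2) ^ (k' + (Fintype.card κ - s)) := by
      intro g _
      rw [lintegral_finsetSum _ fun k _ => hm1 g k]
      refine Finset.sum_le_sum fun k hk => ?_
      by_cases h : 0 < k ∧ g + k = k'
      swap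
      · have e1 : {Z : Fin k' ⊕ κ → PhasePoint | 0 < k ∧ ∃ h : g + k = k',
            dec h (b, Z) ∈ E g k} = ∅ := by
          ext Z
          simp only [mem_ofPred_eq, mem_empty_iff_false, iff_false]
          rintro ⟨h2, h3, _⟩
          exact h ⟨h2, h3⟩
        rw [e1]
        simp
      obtain ⟨hk0, rfl⟩ := h
      have hkK : k ≤ K := Nat.lt_succ_iff.1 (Finset.mem_range.1 hk)
      have e1 : {Z : Fin (g + k) ⊕ κ → PhasePoint | 0 < k ∧ ∃ h : g + k = g + k,
          dec h (b, Z) ∈ E g k} = {Z | dec (rfl : g + k = g + k) (b, Z) ∈ E g k} := by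
        ext Z
        constructor
        · rintro ⟨_, _, h3⟩
          exact h3
        · intro h3
          exact ⟨hk0, rfl, h3⟩
      rw [e1]
      have h5 := piece_le (γ := γ) he.meas he.le_one A₀ g k (hEm g k) (⟨0, hk0⟩ : Fin k)
        (fun b' => hE2 g k hkK b' ⟨0, hk0⟩) b
      refine h5.trans (le_of_eq ?_)
      have h6 : k + (Fintype.card (Fin g ⊕ κ) - s) = g + k + (Fintype.card κ - s) := by
        rw [Fintype.card_sum, Fintype.card_fin]
        omega
      rw [h6]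
      rfl
    refine (Finset.sum_le_sum h3).trans ?_
    calc ∑ g ∈ Finset.range (N + 1), ∑ _k ∈ Finset.range (K + 1), η g ε *
          ENNReal.ofReal (ε ^ 2) ^ (k' + (Fintype.card κ - s))
        = (∑ g ∈ Finset.range (N + 1), ∑ _k ∈ Finset.range (K + 1), η g ε) *
          ENNReal.ofReal (ε ^ 2) ^ (k' + (Fintype.card κ - s)) := by
          rw [Finset.sum_mul]
          exact Finset.sum_congr rfl fun g _ => by rw [Finset.sum_mul]
      _ ≤ _ := by gcongr
  refine ⟨LN2.gSet (N + K) E', LN2.measurableSet_gSet hE'm, ?_, ?_⟩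
  · rintro n w b z hw ⟨g, hg, ι, k, hk, f, hdisj, hbad⟩
    -- the embedding of the union
    let F : Fin (g + k) ↪ Fin n := ⟨fun x => Sum.elim ι f (finSumFinEquiv.symm x), by
      intro x y hxy
      have h2 : Function.Injective (Sum.elim (ι : Fin g → Fin n) (f : Fin k → Fin n)) := by
        refine Function.Injective.sumElim ι.injective f.injective fun a c => hdisj a c
      exact finSumFinEquiv.symm.injective (h2 hxy)⟩
    have hF1 : ∀ i : Fin g, F (Fin.castAdd k i) = ι i := fun i => by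
      show Sum.elim ι f (finSumFinEquiv.symm (Fin.castAdd k i)) = ι i
      rw [finSumFinEquiv_symm_apply_castAdd]
      rfl
    have hF2 : ∀ l : Fin k, F (Fin.natAdd g l) = f l := fun l => by
      show Sum.elim ι f (finSumFinEquiv.symm (Fin.natAdd g l)) = f l
      rw [finSumFinEquiv_symm_apply_natAdd]
      rfl
    have hk0 : 0 < k := by
      obtain ⟨π, -, -, P, -, B, -, j, -, q, i, -⟩ := hbad
      exact i.pos
    refine ⟨g + k, by omega, F, ?_⟩
    refine (hE' (g + k) (LN2.bS (g + k) b, Sum.elim (fun i => w (F i)) z)).2 ?_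
    have hg' : g ∈ Finset.range (N + 1) := Finset.mem_range.2 (by omega)
    have hk' : k ∈ Finset.range (K + 1) := Finset.mem_range.2 (by omega)
    refine ⟨g, hg', k, hk', hk0, (rfl : g + k = g + k), ?_⟩
    rw [dec_rfl]
    have e1 : (fun j => LN2.bS (g + k) b (eqv g k κ (Sum.inl j))) = LN2.bS g b := by
      funext j
      cases j with
      | inl i => rfl
      | inr a => rfl
    have e2 : (fun j => (Sum.elim (fun i => w (F i)) z : Fin (g + k) ⊕ κ → PhasePoint)
        (eqv g k κ (Sum.inl j))) = Sum.elim (fun i => w (ι i)) z := by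
      funext j
      cases j with
      | inl i =>
        rw [eqv_gas, Sum.elim_inl, Sum.elim_inl, hF1]
      | inr a => rfl
    have e3 : (fun l => (Sum.elim (fun i => w (F i)) z : Fin (g + k) ⊕ κ → PhasePoint)
        (eqv g k κ (Sum.inr l))) = fun l => w (f l) := by
      funext l
      rw [eqv_past, Sum.elim_inl, hF2]
    simp only [e1, e2, e3]
    refine hE1 g k hk _ _ _ ?_ hbad
    exact fun i j hij => hw (f i) (f j) (fun h => hij (f.injective h))
  · intro Θ _ m _ b z hdom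
    calc gcE f₀ ε (fun n w => m {θ | (w, b θ, z θ) ∈ LN2.gSet (N + K) E' n})
        ≤ c * Λ univ * (δ' * ∑ k ∈ Finset.range (N + K + 1), C₀ ^ k) :=
          LN2.gas_mass_le hf h1 he hε (N + K) A₀ hE'm hD hc Λ hdom
      _ = Q * δ' := by rw [hQ]; ring
      _ ≤ (Q + 1) * δ' := by gcongr; exact le_self_add
      _ = δ := by rw [hδ', ENNReal.mul_div_cancel hQ0 hQt']

end Crest.Agent.R122.BH167

end
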