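import Crest.Agent.R122.BHCurve_167

/-!
# Row 122, BadHit (helper167), part 2: the estimate for one part

* `HitEv BP R M P Z V` : some position of an ok sub-world of `P` is within `R ε` of a possible
  position of a root of the bad past `V`, at the same time in `[0, T]`.
* `part_hit` : for a connected part `J` the hits have mass `o(1) ε^(2 k + 2 (|J| - 1))`.
-/

set_option autoImplicit false
set_option linter.unusedSectionVars false

open MeasureTheory Set Filter Topology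
open Crest.AnalysisR.Kinetic
open Crest.Agent.R122.Ins45 Crest.Agent.R122.GIV566 Crest.Agent.R122.VL581
open Crest.Agent.R122.VLMeas973 Crest.Agent.R122.Loc45
open Crest.Agent.R122.MeasE416
open scoped Classical ENNReal NNReal

noncomputable section

namespace Crest.Agent.R122.BH167

/-- Hit between the positions of the ok sub-worlds of `P` and the possible positions of the roots of
the bad past `V`. -/
def HitEv {J κ : Type} [Fintype J] (BP : PosPred) (R : ℝ) (M : VSys J κ) (P : Finset J)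
    (Z : J → PhasePoint) {k : ℕ} (V : Config k) : Prop :=
  ∃ B ⊆ P, ∃ j ∈ B, ∃ q : κ, ∃ i : Fin k, ∃ t ∈ Icc 0 M.T, ∃ x, M.ok B t Z ∧ BP M.ε k V i t x ∧
    dist x (M.pos B q t Z j) ≤ R * M.ε

/-- The indicator of connectedness with the Gaussian weights. -/
def gC {J κ : Type} [Fintype J] (M : VSys J κ) (C γ : ℝ) (b : J → ℝ) (Z : J → PhasePoint) :
    ℝ≥0∞ :=
  {Z | (wb M b).Conn C Finset.univ Z}.indicator (fun Z => ∏ j, gv γ (Z j)) Z

section one

variable {J κ : Type} [Fintype J] {M : VSys J κ}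

theorem measurable_prod_gv (γ : ℝ) : Measurable fun Z : J → PhasePoint => ∏ j, gv γ (Z j) :=
  Finset.measurable_prod _ fun j _ => (measurable_gv γ).comp (measurable_pi_apply j)

theorem measurable_gC [Finite κ] (hM : Good M) (C γ : ℝ) :
    Measurable fun p : (J → ℝ) × (J → PhasePoint) => gC M C γ p.1 p.2 := by
  have hS : MeasurableSet {p : (J → ℝ) × (J → PhasePoint) |
      (wb M p.1).Conn C Finset.univ p.2} :=
    measurableSet_conn hM measurable_fst measurable_snd C Finset.univ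
  have e : (fun p : (J → ℝ) × (J → PhasePoint) => gC M C γ p.1 p.2) =
      {p : (J → ℝ) × (J → PhasePoint) | (wb M p.1).Conn C Finset.univ p.2}.indicator
        (fun p => ∏ j, gv γ (p.2 j)) := by
    funext p
    unfold gC
    by_cases h : (wb M p.1).Conn C Finset.univ p.2
    · rw [indicator_of_mem (show p.2 ∈ {Z | (wb M p.1).Conn C Finset.univ Z} from h),
        indicator_of_mem (show p ∈ {p : (J → ℝ) × (J → PhasePoint) |
          (wb M p.1).Conn C Finset.univ p.2} from h)]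
    · rw [indicator_of_notMem (show p.2 ∉ {Z | (wb M p.1).Conn C Finset.univ Z} from h),
        indicator_of_notMem (show p ∉ {p : (J → ℝ) × (J → PhasePoint) |
          (wb M p.1).Conn C Finset.univ p.2} from h)]
  rw [e]
  exact ((measurable_prod_gv γ).comp measurable_snd).indicator hS

theorem gC_shiftX (hΦ : AdmissiblePotential M.Φ) (hε : 0 < M.ε) (C γ : ℝ) (b : J → ℝ)
    (a : Space3) (Z : J → PhasePoint) : gC M C γ b (shiftX a Z) = gC M C γ b Z := by
  unfold gC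
  have h := conn_shiftX (M := wb M b) hΦ hε C Finset.univ Z a
  by_cases hc : (wb M b).Conn C Finset.univ Z
  · rw [indicator_of_mem (show Z ∈ {Z | (wb M b).Conn C Finset.univ Z} from hc),
      indicator_of_mem (show shiftX a Z ∈ {Z | (wb M b).Conn C Finset.univ Z} from h.2 hc)]
    rfl
  · rw [indicator_of_notMem (show Z ∉ {Z | (wb M b).Conn C Finset.univ Z} from hc),
      indicator_of_notMem (show shiftX a Z ∉ {Z | (wb M b).Conn C Finset.univ Z} from
        fun h' => hc (h.1 h'))]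

/-- The pinned mass with the Lipschitz constant. -/
theorem pinned_le {Φ : Space3 → ℝ} {T γ C : ℝ} {L : ℝ≥0} {K₁ : ℝ≥0} {D : ℝ≥0∞}
    (hD : D ≠ ∞)
    (hVC : ∀ M : VSys J κ, M.Φ = Φ → M.T = T → 0 < M.ε → M.ε ≤ 1 →
      (∀ k, LipschitzOnWith L (M.S.c k) (Icc 0 T)) →
      ∀ i₀ : J, (∀ j, M.o = some j → i₀ = j) → ∀ ρ : Space3 → ℝ≥0∞, Measurable ρ →
        ∫⁻ Z, {Z | M.Conn C Finset.univ Z}.indicator (wgt (γ / 2) ρ i₀) Z ≤
          K₁ * ENNReal.ofReal (M.ε ^ (2 * (Fintype.card J - 1))) * ∫⁻ x, ρ x)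
    (hDl : ∀ v : J → Space3,
      (1 + ((Real.toNNReal (VLInst442.spd Φ (Fintype.card J) (∑ j, ‖v j‖)) + L : ℝ≥0) : ℝ≥0∞)) *
        ∏ j, ENNReal.ofReal (Real.exp (-γ * ‖v j‖ ^ 2)) ≤
      D * ∏ j, ENNReal.ofReal (Real.exp (-(γ / 2) * ‖v j‖ ^ 2)))
    (hMΦ : M.Φ = Φ) (hMT : M.T = T) (hε : 0 < M.ε) (hε1 : M.ε ≤ 1)
    (hL : ∀ k, LipschitzOnWith L (M.S.c k) (Icc 0 T)) (b : J → ℝ) (j₀ : J)
    (hj₀ : ∀ j, M.o = some j → j₀ = j) :
    ∫⁻ Z, NG416.hb (Z j₀).1 * (gC M C γ b Z * (1 + (lam M L Z : ℝ≥0∞))) ≤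
      D * K₁ * ENNReal.ofReal (M.ε ^ 2) ^ (Fintype.card J - 1) := by
  have h1 := hVC (wb M b) hMΦ hMT hε hε1 hL j₀ hj₀ NG416.hb NG416.measurable_hb
  rw [NG416.lintegral_hb, mul_one, wb_ε, pow_mul, ENNReal.ofReal_pow (by positivity)] at h1
  have h2 : ∀ Z : J → PhasePoint, NG416.hb (Z j₀).1 * (gC M C γ b Z * (1 + (lam M L Z : ℝ≥0∞))) ≤
      D * {Z | (wb M b).Conn C Finset.univ Z}.indicator (wgt (γ / 2) NG416.hb j₀) Z := by
    intro Z
    unfold gC
    by_cases hc : (wb M b).Conn C Finset.univ Z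
    · rw [indicator_of_mem (show Z ∈ {Z | (wb M b).Conn C Finset.univ Z} from hc),
        indicator_of_mem (show Z ∈ {Z | (wb M b).Conn C Finset.univ Z} from hc)]
      have h3 := hDl fun j => (Z j).2
      unfold wgt lam gv
      rw [hMΦ]
      calc NG416.hb (Z j₀).1 * ((∏ j, ENNReal.ofReal (Real.exp (-γ * ‖(Z j).2‖ ^ 2))) *
            (1 + ((Real.toNNReal (VLInst442.spd Φ (Fintype.card J) (∑ j, ‖(Z j).2‖)) + L : ℝ≥0) :
              ℝ≥0∞)))
          = NG416.hb (Z j₀).1 * ((1 + ((Real.toNNReal (VLInst442.spd Φ (Fintype.card J)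
              (∑ j, ‖(Z j).2‖)) + L : ℝ≥0) : ℝ≥0∞)) *
              ∏ j, ENNReal.ofReal (Real.exp (-γ * ‖(Z j).2‖ ^ 2))) := by ring
        _ ≤ NG416.hb (Z j₀).1 * (D * ∏ j, ENNReal.ofReal (Real.exp (-(γ / 2) * ‖(Z j).2‖ ^ 2))) :=
            mul_le_mul_right h3 _
        _ = _ := by ring
    · rw [indicator_of_notMem (show Z ∉ {Z | (wb M b).Conn C Finset.univ Z} from hc), zero_mul,
        mul_zero]
      exact bot_le
  calc ∫⁻ Z, NG416.hb (Z j₀).1 * (gC M C γ b Z * (1 + (lam M L Z : ℝ≥0∞)))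
      ≤ ∫⁻ Z, D * {Z | (wb M b).Conn C Finset.univ Z}.indicator (wgt (γ / 2) NG416.hb j₀) Z :=
        lintegral_mono h2
    _ = D * ∫⁻ Z, {Z | (wb M b).Conn C Finset.univ Z}.indicator (wgt (γ / 2) NG416.hb j₀) Z :=
        lintegral_const_mul' _ _ hD
    _ ≤ D * (K₁ * ENNReal.ofReal (M.ε ^ 2) ^ (Fintype.card J - 1)) := mul_le_mul_right h1 _
    _ = _ := by ring

end one

/-- **The estimate for one part.** -/
theorem part_hit {Φ : Space3 → ℝ} (hΦ : AdmissiblePotential Φ) (hVC : VC Φ) {T : ℝ} (hT : 0 ≤ T)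
    {BP : PosPred} (hHC : HitClass T BP) (J κ : Type) [Fintype J] [Nonempty J] [Fintype κ]
    {γ : ℝ} (hγ : 0 < γ) (C R : ℝ) (L : ℝ≥0) (K : ℕ) :
    ∃ η : ℝ → ℝ≥0∞, Tendsto η (𝓝[>] 0) (𝓝 0) ∧ ∀ M : VSys J κ, M.Φ = Φ → M.T = T → 0 < M.ε →
      M.ε ≤ 1 → (∀ k, LipschitzOnWith L (M.S.c k) (Icc 0 T)) →
      ∃ H : (k : ℕ) → (J → ℝ) × (J → PhasePoint) × Config k → ℝ≥0∞, (∀ k, Measurable (H k)) ∧
        (∀ k ≤ K, ∀ b Z, ∀ V ∈ PairExcluded M.ε k, HitEv BP R (wb M b) Finset.univ Z V →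
          1 ≤ H k (b, Z, V)) ∧
        ∀ k ≤ K, ∀ (b : J → ℝ) (i : Fin k) (env : Space3 → ℝ≥0∞), Measurable env →
          ∫⁻ Z, gC M C γ b Z * ∫⁻ V : Config k, env (V i).1 *
            ((∏ l, gv γ (V l)) * H k (b, Z, V)) ≤
          η M.ε * ENNReal.ofReal (M.ε ^ 2) ^ (k + (Fintype.card J - 1)) * ∫⁻ x, env x := by
  choose η hη h using fun j₀ => hHC J j₀ γ R K hγ
  obtain ⟨K₁, hK₁⟩ := hVC J κ (γ / 2) T C L (by positivity)
  obtain ⟨D, hD, hDl⟩ := lam_mul_gv_le (J := J) Φ hγ L (Fintype.card J)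
  let ι : Type := Finset J × κ × J × Option J
  refine ⟨fun ε => (Fintype.card ι : ℝ≥0∞) * (D * K₁) * ∑ j₀, η j₀ ε, ?_, ?_⟩
  · have h1 : Tendsto (fun ε => ∑ j₀, η j₀ ε) (𝓝[>] (0 : ℝ)) (𝓝 (∑ _j₀ : J, (0 : ℝ≥0∞))) :=
      tendsto_finsetSum _ fun j₀ _ => hη j₀
    rw [Finset.sum_const_zero] at h1
    have h2 := ENNReal.Tendsto.const_mul (a := (Fintype.card ι : ℝ≥0∞) * (D * K₁)) h1
      (Or.inr (ENNReal.mul_ne_top (ENNReal.natCast_ne_top _)
        (ENNReal.mul_ne_top hD ENNReal.coe_ne_top)))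
    rwa [mul_zero] at h2
  intro M hMΦ hMT hε hε1 hL
  have hM : Good M := ⟨hMΦ ▸ hΦ, hε, hMT ▸ hT, fun k => hMT ▸ (hL k).continuousOn⟩
  -- the root
  obtain ⟨j₀, hj₀⟩ : ∃ j₀ : J, ∀ j, M.o = some j → j₀ = j := by
    by_cases ho : ∃ j, M.o = some j
    · obtain ⟨j, hj⟩ := ho
      refine ⟨j, fun j' hj' => ?_⟩
      rw [hj] at hj'
      exact Option.some.inj hj'
    · exact ⟨Classical.arbitrary J, fun j hj => absurd ⟨j, hj⟩ ho⟩
  have hL' : ∀ k, LipschitzOnWith L (M.S.c k) (Icc 0 M.T) := fun k => hMT ▸ hL k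
  choose H hHm hH1 hH2 using fun α : ι => h j₀ M.ε hε hε1 (J → ℝ) (gC M C γ)
    (fun b Z t => crv (wb M b) α.1 α.2.1 α.2.2.1 α.2.2.2 Z t) (fun _ Z => lam M L Z)
    (measurable_gC hM C γ) (fun b a Z => gC_shiftX (hMΦ ▸ hΦ) hε C γ b a Z)
    (fun t => measurable_crv (Ω := (J → ℝ) × (J → PhasePoint)) hM measurable_fst measurable_snd
      α.1 α.2.1 α.2.2.1 α.2.2.2 t)
    (fun b a Z t => crv_shiftX (M := wb M b) (hMΦ ▸ hΦ) hε α.1 α.2.1 α.2.2.1 α.2.2.2 a Z t)
    (fun b Z => (lip_crv (M := wb M b) (hMΦ ▸ hΦ) hε (hMT ▸ hT) hL' α.1 α.2.1 α.2.2.1 α.2.2.2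
      Z).lipschitzOnWith)
    ((measurable_lam M L).comp measurable_snd) (fun _ a Z => lam_shiftX M L a Z)
  refine ⟨fun k p => ∑ α : ι, H α k p, fun k => Finset.measurable_sum _ fun α _ => hHm α k,
    ?_, ?_⟩
  · rintro k hk b Z V hV ⟨B, -, j, hj, q, i, t, ht, x, hok, hBP, hd⟩
    obtain ⟨r, hr⟩ := exists_crv (M := wb M b) (A := B) ht hok q j
    have h1 := hH1 (B, q, j, r) k hk b Z V hV i t x (by rw [← hMT]; exact ht) hBP (by
      show dist x (crv (wb M b) B q j r Z t) ≤ R * M.ε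
      rw [hr]
      exact hd)
    exact h1.trans (Finset.single_le_sum (f := fun α : ι => H α k (b, Z, V))
      (fun _ _ => bot_le) (Finset.mem_univ ((B, q, j, r) : ι)))
  · intro k hk b i env henv
    have hgv : Measurable fun V : Config k => ∏ l, gv γ (V l) :=
      Finset.measurable_prod _ fun l _ => (measurable_gv γ).comp (measurable_pi_apply l)
    have henv' : Measurable fun V : Config k => env (V i).1 :=
      henv.comp (measurable_pi_apply i).fst
    have hHV : ∀ α Z, Measurable fun V : Config k => H α k (b, Z, V) := fun α Z =>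
      (hHm α k).comp (measurable_const.prodMk (measurable_const.prodMk measurable_id))
    have hjoint : ∀ α, Measurable fun p : (J → PhasePoint) × Config k =>
        env (p.2 i).1 * ((∏ l, gv γ (p.2 l)) * H α k (b, p.1, p.2)) := fun α =>
      (henv'.comp measurable_snd).mul ((hgv.comp measurable_snd).mul
        ((hHm α k).comp (measurable_const.prodMk (measurable_fst.prodMk measurable_snd))))
    have hint : ∀ α, Measurable fun Z : J → PhasePoint => ∫⁻ V : Config k, env (V i).1 *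
        ((∏ l, gv γ (V l)) * H α k (b, Z, V)) := fun α => (hjoint α).lintegral_prod_right'
    have hgC : Measurable fun Z => gC M C γ b Z :=
      (measurable_gC hM C γ).comp (measurable_const.prodMk measurable_id)
    have hA : ∀ α Z, Measurable fun V : Config k =>
        env (V i).1 * ((∏ l, gv γ (V l)) * H α k (b, Z, V)) := fun α Z =>
      henv'.mul (hgv.mul (hHV α Z))
    have e1 : ∀ Z : J → PhasePoint, gC M C γ b Z * ∫⁻ V : Config k, env (V i).1 *
        ((∏ l, gv γ (V l)) * ∑ α : ι, H α k (b, Z, V)) =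
        ∑ α : ι, gC M C γ b Z * ∫⁻ V : Config k, env (V i).1 *
          ((∏ l, gv γ (V l)) * H α k (b, Z, V)) := by
      intro Z
      rw [← Finset.mul_sum]
      congr 1
      rw [← lintegral_finsetSum _ fun α _ => hA α Z]
      refine lintegral_congr fun V => ?_
      simp only [Finset.mul_sum]
    have hB : ∀ α, Measurable fun Z : J → PhasePoint => gC M C γ b Z *
        ∫⁻ V : Config k, env (V i).1 * ((∏ l, gv γ (V l)) * H α k (b, Z, V)) := fun α =>
      hgC.mul (hint α)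
    simp only [e1]
    rw [lintegral_finsetSum _ fun α _ => hB α]
    have hI := pinned_le (M := M) hD hK₁ hDl hMΦ hMT hε hε1 hL b j₀ hj₀
    have hα : ∀ α : ι, ∫⁻ Z, gC M C γ b Z * ∫⁻ V : Config k, env (V i).1 *
          ((∏ l, gv γ (V l)) * H α k (b, Z, V)) ≤
        (D * K₁) * (∑ j₀, η j₀ M.ε) *
          ENNReal.ofReal (M.ε ^ 2) ^ (k + (Fintype.card J - 1)) * ∫⁻ x, env x := by
      intro α
      calc ∫⁻ Z, gC M C γ b Z * ∫⁻ V : Config k, env (V i).1 *
            ((∏ l, gv γ (V l)) * H α k (b, Z, V))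
          ≤ η j₀ M.ε * ENNReal.ofReal (M.ε ^ 2) ^ k * (∫⁻ x, env x) *
              ∫⁻ Z, NG416.hb (Z j₀).1 * (gC M C γ b Z * (1 + (lam M L Z : ℝ≥0∞))) :=
            hH2 α k hk b i env henv
        _ ≤ η j₀ M.ε * ENNReal.ofReal (M.ε ^ 2) ^ k * (∫⁻ x, env x) *
              (D * K₁ * ENNReal.ofReal (M.ε ^ 2) ^ (Fintype.card J - 1)) :=
            mul_le_mul_right hI _
        _ ≤ (∑ j₀, η j₀ M.ε) * ENNReal.ofReal (M.ε ^ 2) ^ k * (∫⁻ x, env x) *
              (D * K₁ * ENNReal.ofReal (M.ε ^ 2) ^ (Fintype.card J - 1)) := by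
            gcongr
            exact Finset.single_le_sum (f := fun j₀ => η j₀ M.ε) (fun _ _ => bot_le)
              (Finset.mem_univ j₀)
        _ = _ := by rw [pow_add]; ring
    refine (Finset.sum_le_sum fun α _ => hα α).trans (le_of_eq ?_)
    rw [Finset.sum_const, nsmul_eq_mul, Finset.card_univ]
    ring

end Crest.Agent.R122.BH167

end
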