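import Crest.Agent.R122.EDefs_602

/-!
# Relabelling invariance of the gas-level objects of section E (row 122, helper416)

`evo_equiv` : the total evolution with births commutes with relabellings. Consequences for marked
worlds: `path`, `C`, `Inf`, `Fut`, `Touched`, `theta`, `thetaL`, `X`, `W`, `touchW` of
`Z.comap e` for a bijection `e`.
-/

set_option autoImplicit false
set_option linter.unusedSectionVars false

open Set Filter Topology MeasureTheory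
open Crest.AnalysisR.Kinetic
open Crest.Agent.R122.Flow671 Crest.Agent.R122.Loc45 Crest.Agent.R122.Ins45
open Crest.Agent.R122.Causal291 Crest.Agent.R122.Inf879 Crest.Agent.R122.GC311
open Crest.Agent.R122.EDefs602
open scoped ENNReal

namespace Crest.Agent.R122.EquivE416

noncomputable section

section evo

variable {Φ : Space3 → ℝ} {ε : ℝ} {ι κ : Type*} [Fintype ι] [Fintype κ]

theorem alive_equiv (σ : κ ≃ ι) (b : ι → ℝ) (s : ℝ) (k : κ) :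
    k ∈ alive (fun k => b (σ k)) s ↔ σ k ∈ alive b s := by
  rw [mem_alive, mem_alive]

theorem flowA_equiv (hΦ : AdmissiblePotential Φ) (hε : 0 < ε) (σ : κ ≃ ι) {A : Finset ι}
    {B : Finset κ} (hAB : ∀ k, k ∈ B ↔ σ k ∈ A) (t : ℝ) (Z : ι → PhasePoint) :
    flowA Φ ε B t (fun k => Z (σ k)) = fun k => flowA Φ ε A t Z (σ k) := by
  funext k
  by_cases h : k ∈ B
  · have h' : σ k ∈ A := (hAB k).1 h
    rw [flowA_mem B t _ h, flowA_mem A t Z h']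
    set τ : B ≃ A := σ.subtypeEquiv hAB with hτ
    have h1 := flow_equiv hΦ hε τ t (fun a : A => Z a)
    have h2 : (fun i : B => (fun a : A => Z a) (τ i)) = fun a : B => Z (σ a) := rfl
    rw [h2] at h1
    have h3 := congrFun h1 ⟨k, h⟩
    exact h3
  · have h' : σ k ∉ A := fun h' => h ((hAB k).2 h')
    rw [flowA_not_mem B t _ h, flowA_not_mem A t Z h']

theorem nxt_equiv (σ : κ ≃ ι) (b : ι → ℝ) (s t : ℝ) : nxt (fun k => b (σ k)) s t = nxt b s t := by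
  apply le_antisymm
  · refine le_nxt (nxt_le _ _ _) fun i hi => ?_
    have h1 := nxt_le_birth (b := fun k => b (σ k)) (s := s) (t := t) (i := σ.symm i)
      (by simpa using hi)
    simpa using h1
  · refine le_nxt (nxt_le _ _ _) fun k hk => ?_
    exact nxt_le_birth (b := b) (i := σ k) hk

theorem evoN_equiv (hΦ : AdmissiblePotential Φ) (hε : 0 < ε) (σ : κ ≃ ι) (b : ι → ℝ) (n : ℕ) :
    ∀ (s t : ℝ) (Z : ι → PhasePoint), evoN Φ ε (fun k => b (σ k)) n s t (fun k => Z (σ k)) =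
      fun k => evoN Φ ε b n s t Z (σ k) := by
  induction n with
  | zero =>
    intro s t Z
    exact flowA_equiv hΦ hε σ (alive_equiv σ b s) (t - s) Z
  | succ n ih =>
    intro s t Z
    simp only [evoN, nxt_equiv σ b s t]
    by_cases h : nxt b s t < t
    · rw [if_pos h]
      simp only [if_pos h]
      rw [flowA_equiv hΦ hε σ (alive_equiv σ b s), ih]
    · rw [if_neg h]
      simp only [if_neg h]
      rw [flowA_equiv hΦ hε σ (alive_equiv σ b s)]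

/-- The total evolution with births commutes with relabellings. -/
theorem evo_equiv (hΦ : AdmissiblePotential Φ) (hε : 0 < ε) (σ : κ ≃ ι) (b : ι → ℝ) (s t : ℝ)
    (Z : ι → PhasePoint) : evo Φ ε (fun k => b (σ k)) s t (fun k => Z (σ k)) =
      fun k => evo Φ ε b s t Z (σ k) := by
  unfold evo
  rw [Fintype.card_congr σ]
  exact evoN_equiv hΦ hε σ b _ s t Z

end evo

/-! ### Abstract invariance of `Fut`, `Touched`, `theta` -/

section gen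

open Crest.Agent.R122.CausalGen291

variable {ι₁ ι₂ κ ι₁' ι₂' κ' : Type} {X : Type*}
variable {C₁ : ℝ → ι₁ → ι₁ → Prop} {z₁ : ℝ → ι₁ → X} {C₂ : ℝ → ι₂ → ι₂ → Prop}
  {z₂ : ℝ → ι₂ → X} {e₁ : κ → ι₁} {e₂ : κ → ι₂}
variable {C₁' : ℝ → ι₁' → ι₁' → Prop} {z₁' : ℝ → ι₁' → X} {C₂' : ℝ → ι₂' → ι₂' → Prop}
  {z₂' : ℝ → ι₂' → X} {e₁' : κ' → ι₁'} {e₂' : κ' → ι₂'}

/-- Transport of the forward closure along relabellings (one direction). -/
theorem fut_of_relabel (σ₁ : ι₁' ≃ ι₁) (σ₂ : ι₂' ≃ ι₂) (σ : κ' ≃ κ)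
    (hC₁ : ∀ s j k, C₁' s j k ↔ C₁ s (σ₁ j) (σ₁ k))
    (hC₂ : ∀ s j k, C₂' s j k ↔ C₂ s (σ₂ j) (σ₂ k))
    (hz₁ : ∀ j, z₁' 0 j = z₁ 0 (σ₁ j)) (hz₂ : ∀ j, z₂' 0 j = z₂ 0 (σ₂ j))
    (he₁ : ∀ k, σ₁ (e₁' k) = e₁ (σ k)) (he₂ : ∀ k, σ₂ (e₂' k) = e₂ (σ k)) {s : ℝ} {k : κ'}
    (h : Fut C₁' z₁' C₂' z₂' e₁' e₂' s k) : Fut C₁ z₁ C₂ z₂ e₁ e₂ s (σ k) := by
  have hr₁ : ∀ j, j ∉ range e₁' → σ₁ j ∉ range e₁ := by
    rintro j hj ⟨k, hk⟩
    apply hj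
    refine ⟨σ.symm k, σ₁.injective ?_⟩
    rw [he₁, σ.apply_symm_apply, hk]
  have hr₂ : ∀ j, j ∉ range e₂' → σ₂ j ∉ range e₂ := by
    rintro j hj ⟨k, hk⟩
    apply hj
    refine ⟨σ.symm k, σ₂.injective ?_⟩
    rw [he₂, σ.apply_symm_apply, hk]
  induction h with
  | @init s k h hs =>
    refine .init ?_ hs
    rw [← he₁, ← he₂, ← hz₁, ← hz₂]
    exact h
  | @new₁ s s' k j hj hc h0 hs =>
    refine .new₁ (σ₁ j) (hr₁ j hj) ?_ h0 hs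
    rw [← he₁]
    exact (hC₁ _ _ _).1 hc
  | @new₂ s s' k j hj hc h0 hs =>
    refine .new₂ (σ₂ j) (hr₂ j hj) ?_ h0 hs
    rw [← he₂]
    exact (hC₂ _ _ _).1 hc
  | @chain₁ s s' k l h hc hs ih =>
    refine .chain₁ ih ?_ hs
    rw [← he₁, ← he₁]
    exact (hC₁ _ _ _).1 hc
  | @chain₂ s s' k l h hc hs ih =>
    refine .chain₂ ih ?_ hs
    rw [← he₂, ← he₂]
    exact (hC₂ _ _ _).1 hc

/-- Transport of the forward closure along relabellings. -/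
theorem fut_relabel (σ₁ : ι₁' ≃ ι₁) (σ₂ : ι₂' ≃ ι₂) (σ : κ' ≃ κ)
    (hC₁ : ∀ s j k, C₁' s j k ↔ C₁ s (σ₁ j) (σ₁ k))
    (hC₂ : ∀ s j k, C₂' s j k ↔ C₂ s (σ₂ j) (σ₂ k))
    (hz₁ : ∀ j, z₁' 0 j = z₁ 0 (σ₁ j)) (hz₂ : ∀ j, z₂' 0 j = z₂ 0 (σ₂ j))
    (he₁ : ∀ k, σ₁ (e₁' k) = e₁ (σ k)) (he₂ : ∀ k, σ₂ (e₂' k) = e₂ (σ k)) {s : ℝ} {k : κ'} :
    Fut C₁' z₁' C₂' z₂' e₁' e₂' s k ↔ Fut C₁ z₁ C₂ z₂ e₁ e₂ s (σ k) := by
  refine ⟨fut_of_relabel σ₁ σ₂ σ hC₁ hC₂ hz₁ hz₂ he₁ he₂, fun h => ?_⟩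
  have h1 := fut_of_relabel (C₁' := C₁) (C₁ := C₁') (C₂' := C₂) (C₂ := C₂') (z₁' := z₁)
    (z₁ := z₁') (z₂' := z₂) (z₂ := z₂') (e₁' := e₁) (e₂' := e₂) (e₁ := e₁') (e₂ := e₂')
    σ₁.symm σ₂.symm σ.symm (fun s j k => by rw [hC₁]; simp) (fun s j k => by rw [hC₂]; simp)
    (fun j => by rw [hz₁]; simp) (fun j => by rw [hz₂]; simp)
    (fun k => by rw [Equiv.symm_apply_eq, he₁]; simp)
    (fun k => by rw [Equiv.symm_apply_eq, he₂]; simp) h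
  simpa using h1

theorem touched_relabel (σ₁ : ι₁' ≃ ι₁) (σ₂ : ι₂' ≃ ι₂) (σ : κ' ≃ κ)
    (hC₁ : ∀ s j k, C₁' s j k ↔ C₁ s (σ₁ j) (σ₁ k))
    (hC₂ : ∀ s j k, C₂' s j k ↔ C₂ s (σ₂ j) (σ₂ k))
    (hz₁ : ∀ j, z₁' 0 j = z₁ 0 (σ₁ j)) (hz₂ : ∀ j, z₂' 0 j = z₂ 0 (σ₂ j))
    (he₁ : ∀ k, σ₁ (e₁' k) = e₁ (σ k)) (he₂ : ∀ k, σ₂ (e₂' k) = e₂ (σ k))
    {P₁ : ℝ → ι₁ → Prop} {P₂ : ℝ → ι₂ → Prop} {P₁' : ℝ → ι₁' → Prop} {P₂' : ℝ → ι₂' → Prop}
    (hP₁ : ∀ s j, P₁' s j ↔ P₁ s (σ₁ j)) (hP₂ : ∀ s j, P₂' s j ↔ P₂ s (σ₂ j)) {s : ℝ} :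
    Touched C₁' z₁' C₂' z₂' e₁' e₂' P₁' P₂' s ↔ Touched C₁ z₁ C₂ z₂ e₁ e₂ P₁ P₂ s := by
  have hr₁ : ∀ j, j ∈ range e₁' ↔ σ₁ j ∈ range e₁ := by
    intro j
    constructor
    · rintro ⟨k, rfl⟩; exact ⟨σ k, (he₁ k).symm⟩
    · rintro ⟨k, hk⟩
      refine ⟨σ.symm k, σ₁.injective ?_⟩
      rw [he₁, σ.apply_symm_apply, hk]
  have hr₂ : ∀ j, j ∈ range e₂' ↔ σ₂ j ∈ range e₂ := by
    intro j
    constructor
    · rintro ⟨k, rfl⟩; exact ⟨σ k, (he₂ k).symm⟩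
    · rintro ⟨k, hk⟩
      refine ⟨σ.symm k, σ₂.injective ?_⟩
      rw [he₂, σ.apply_symm_apply, hk]
  unfold CausalGen291.Touched
  refine or_congr ?_ (or_congr ?_ ?_)
  · rw [← σ.exists_congr_right]
    refine exists_congr fun k => ?_
    rw [fut_relabel σ₁ σ₂ σ hC₁ hC₂ hz₁ hz₂ he₁ he₂, hP₁, hP₂, he₁, he₂]
  · rw [← σ₁.exists_congr_right]
    refine exists_congr fun j => ?_
    rw [hr₁, hP₁]
  · rw [← σ₂.exists_congr_right]
    refine exists_congr fun j => ?_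
    rw [hr₂, hP₂]

theorem theta_congr {a T : ℝ} {P₁ : ℝ → ι₁ → Prop} {P₂ : ℝ → ι₂ → Prop} {P₁' : ℝ → ι₁' → Prop}
    {P₂' : ℝ → ι₂' → Prop}
    (h : ∀ s, Touched C₁' z₁' C₂' z₂' e₁' e₂' P₁' P₂' s ↔ Touched C₁ z₁ C₂ z₂ e₁ e₂ P₁ P₂ s) :
    CausalGen291.theta C₁' z₁' C₂' z₂' e₁' e₂' a T P₁' P₂' =
      CausalGen291.theta C₁ z₁ C₂ z₂ e₁ e₂ a T P₁ P₂ := by
  have h1 : CausalGen291.Touched C₁' z₁' C₂' z₂' e₁' e₂' P₁' P₂' =
      CausalGen291.Touched C₁ z₁ C₂ z₂ e₁ e₂ P₁ P₂ := by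
    funext s
    exact propext (h s)
  unfold CausalGen291.theta
  rw [h1]

end gen

/-! ### Marked worlds -/

section mw

variable {Φ : Space3 → ℝ} {ε : ℝ} {ι κ ι' κ' : Type} [Fintype ι] [Fintype κ] [Fintype ι']
  [Fintype κ']

theorem path_comap (hΦ : AdmissiblePotential Φ) (hε : 0 < ε) (Z : MW ι) (e : ι' ≃ ι) (t : ℝ)
    (i : ι') : (Z.comap e).path Φ ε t i = Z.path Φ ε t (e i) :=
  congrFun (evo_equiv hΦ hε e Z.b 0 t Z.z) i

theorem C_comap (hΦ : AdmissiblePotential Φ) (hε : 0 < ε) (Z : MW ι) (e : ι' ≃ ι) (s : ℝ)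
    (j k : ι') : (Z.comap e).C Φ ε s j k ↔ Z.C Φ ε s (e j) (e k) := by
  unfold MW.C
  refine ctB_congr e.injective.eq_iff.symm rfl rfl ?_ ?_
  · rw [path_comap hΦ hε]
  · rw [path_comap hΦ hε]

theorem past_comap (hΦ : AdmissiblePotential Φ) (hε : 0 < ε) (Z : MW ι) (e : ι' ≃ ι) {t s : ℝ}
    {i k : ι'} : Past ((Z.comap e).C Φ ε) t i s k ↔ Past (Z.C Φ ε) t (e i) s (e k) := by
  have h1 : (Z.comap e).C Φ ε = fun s j k => Z.C Φ ε s (e j) (e k) := by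
    funext s j k
    exact propext (C_comap hΦ hε Z e s j k)
  rw [h1]
  exact past_equiv (Z.C Φ ε) e

theorem msize_comap (hΦ : AdmissiblePotential Φ) (hε : 0 < ε) (Z : MW ι) (e : ι' ≃ ι) (t : ℝ)
    (i : ι') : msize ((Z.comap e).C Φ ε) (Z.comap e).m t i = msize (Z.C Φ ε) Z.m t (e i) := by
  classical
  unfold msize
  rw [← Equiv.sum_comp e]
  refine Finset.sum_congr rfl fun k _ => ?_
  have h1 : (k ∈ BC ((Z.comap e).C Φ ε) t i) ↔ (e k ∈ BC (Z.C Φ ε) t (e i)) :=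
    past_comap hΦ hε Z e
  by_cases h : e k ∈ BC (Z.C Φ ε) t (e i)
  · rw [if_pos h, if_pos (h1.2 h)]
    rfl
  · rw [if_neg h, if_neg fun h' => h (h1.1 h')]

theorem inf_comap (hΦ : AdmissiblePotential Φ) (hε : 0 < ε) (K : ℕ) (Z : MW ι) (e : ι' ≃ ι)
    (s : ℝ) (i : ι') : (Z.comap e).Inf Φ ε K s i ↔ Z.Inf Φ ε K s (e i) := by
  unfold MW.Inf Infd
  rw [msize_comap hΦ hε]

theorem add_comap (Z : MW ι) (A : MW κ) (e : ι' ≃ ι) (f : κ' ≃ κ) :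
    (Z.comap e).add (A.comap f) = (Z.add A).comap (Equiv.sumCongr e f) := by
  unfold MW.add MW.comap
  simp only [MW.mk.injEq]
  refine ⟨?_, ?_, ?_⟩ <;>
  · funext i
    rcases i with i | i <;> rfl

theorem fut_comap (hΦ : AdmissiblePotential Φ) (hε : 0 < ε) (Z : MW ι) (A : MW κ) (e : ι' ≃ ι)
    (f : κ' ≃ κ) (s : ℝ) (k : ι') :
    (Z.comap e).Fut Φ ε (A.comap f) s k ↔ Z.Fut Φ ε A s (e k) := by
  unfold MW.Fut
  rw [add_comap]
  exact fut_relabel e (Equiv.sumCongr e f) e (C_comap hΦ hε Z e) (C_comap hΦ hε _ _)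
    (path_comap hΦ hε Z e 0) (path_comap hΦ hε _ _ 0) (fun _ => rfl) (fun _ => rfl)

theorem touched_comap (hΦ : AdmissiblePotential Φ) (hε : 0 < ε) (K : ℕ) (Z : MW ι) (A : MW κ)
    (e : ι' ≃ ι) (f : κ' ≃ κ) (s : ℝ) :
    (Z.comap e).Touched Φ ε K (A.comap f) s ↔ Z.Touched Φ ε K A s := by
  unfold MW.Touched
  rw [add_comap]
  exact touched_relabel e (Equiv.sumCongr e f) e (C_comap hΦ hε Z e) (C_comap hΦ hε _ _)
    (path_comap hΦ hε Z e 0) (path_comap hΦ hε _ _ 0) (fun _ => rfl) (fun _ => rfl)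
    (inf_comap hΦ hε K Z e) (inf_comap hΦ hε K _ _)

/-- Touch times do not depend on the labels. -/
theorem theta_comap (hΦ : AdmissiblePotential Φ) (hε : 0 < ε) (K : ℕ) (T : ℝ) (Z : MW ι)
    (A : MW κ) (e : ι' ≃ ι) (f : κ' ≃ κ) :
    (Z.comap e).theta Φ ε K T (A.comap f) = Z.theta Φ ε K T A :=
  theta_congr fun s => touched_comap hΦ hε K Z A e f s

theorem thetaL_comap (hΦ : AdmissiblePotential Φ) (hε : 0 < ε) (K : ℕ) (T : ℝ) (Z : MW ι)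
    (l : ML) (e : ι' ≃ ι) : (Z.comap e).thetaL Φ ε K T l = Z.thetaL Φ ε K T l :=
  theta_comap hΦ hε K T Z (MW.line l) e (Equiv.refl Unit)

theorem ins_comap (Z : MW ι) (l : ML) (e : ι' ≃ ι) :
    (Z.comap e).ins l = (Z.ins l).comap (Equiv.sumCongr e (Equiv.refl Unit)) :=
  add_comap Z (MW.line l) e (Equiv.refl Unit)

theorem X_comap (hΦ : AdmissiblePotential Φ) (hε : 0 < ε) (K : ℕ) (P : EPar) (Z : MW ι)
    (e : ι' ≃ ι) (s : ℝ) : (Z.comap e).X Φ ε K P s = Z.X Φ ε K P s := by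
  unfold MW.X
  have h : (Z.comap e).thetaL Φ ε K P.te = Z.thetaL Φ ε K P.te := by
    funext l
    exact thetaL_comap hΦ hε K P.te Z l e
  rw [h]

theorem Xm_comap (hΦ : AdmissiblePotential Φ) (hε : 0 < ε) (K : ℕ) (P : EPar) (Z : MW ι)
    (e : ι' ≃ ι) (s : ℝ) : (Z.comap e).Xm Φ ε K P s = Z.Xm Φ ε K P s := by
  unfold MW.Xm
  have h : (Z.comap e).thetaL Φ ε K P.te = Z.thetaL Φ ε K P.te := by
    funext l
    exact thetaL_comap hΦ hε K P.te Z l e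
  rw [h]

theorem W_comap (hΦ : AdmissiblePotential Φ) (hε : 0 < ε) (K : ℕ) (P : EPar) (Z : MW ι)
    (e : ι' ≃ ι) (s : ℝ) : (Z.comap e).W Φ ε K P s = Z.W Φ ε K P s := by
  unfold MW.W
  rw [X_comap hΦ hε]

theorem Wm_comap (hΦ : AdmissiblePotential Φ) (hε : 0 < ε) (K : ℕ) (P : EPar) (Z : MW ι)
    (e : ι' ≃ ι) (s : ℝ) : (Z.comap e).Wm Φ ε K P s = Z.Wm Φ ε K P s := by
  unfold MW.Wm
  rw [Xm_comap hΦ hε]

theorem touchW_comap (hΦ : AdmissiblePotential Φ) (hε : 0 < ε) (K : ℕ) (P : EPar) (Z : MW ι)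
    (e : ι' ≃ ι) (l : ML) : (Z.comap e).touchW Φ ε K P l = Z.touchW Φ ε K P l := by
  classical
  unfold MW.touchW
  rw [thetaL_comap hΦ hε, Wm_comap hΦ hε]

theorem touchP_comap (hΦ : AdmissiblePotential Φ) (hε : 0 < ε) (K : ℕ) (P : EPar) (Z : MW ι)
    (σ : ι' ≃ ι) (d e : ML) : (Z.comap σ).touchP Φ ε K P d e = Z.touchP Φ ε K P d e := by
  classical
  unfold MW.touchP
  rw [ins_comap, thetaL_comap hΦ hε, thetaL_comap hΦ hε, W_comap hΦ hε, Wm_comap hΦ hε]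

end mw

/-! ### The gas -/

section gas

variable {Φ : Space3 → ℝ} {ε : ℝ} {n : ℕ}

theorem cfg_comap (w : Config n) (σ : Equiv.Perm (Fin n)) :
    MW.cfg (fun i => w (σ i)) = (MW.cfg w).comap σ := rfl

theorem thetaL_perm (hΦ : AdmissiblePotential Φ) (hε : 0 < ε) (K : ℕ) (T : ℝ) (w : Config n)
    (σ : Equiv.Perm (Fin n)) (l : ML) :
    (MW.cfg fun i => w (σ i)).thetaL Φ ε K T l = (MW.cfg w).thetaL Φ ε K T l :=
  thetaL_comap hΦ hε K T (MW.cfg w) l σ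

theorem X_perm (hΦ : AdmissiblePotential Φ) (hε : 0 < ε) (K : ℕ) (P : EPar) (w : Config n)
    (σ : Equiv.Perm (Fin n)) (s : ℝ) :
    (MW.cfg fun i => w (σ i)).X Φ ε K P s = (MW.cfg w).X Φ ε K P s :=
  X_comap hΦ hε K P (MW.cfg w) σ s

theorem W_perm (hΦ : AdmissiblePotential Φ) (hε : 0 < ε) (K : ℕ) (P : EPar) (w : Config n)
    (σ : Equiv.Perm (Fin n)) (s : ℝ) :
    (MW.cfg fun i => w (σ i)).W Φ ε K P s = (MW.cfg w).W Φ ε K P s :=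
  W_comap hΦ hε K P (MW.cfg w) σ s

theorem touchW_perm (hΦ : AdmissiblePotential Φ) (hε : 0 < ε) (K : ℕ) (P : EPar) (w : Config n)
    (σ : Equiv.Perm (Fin n)) (l : ML) :
    (MW.cfg fun i => w (σ i)).touchW Φ ε K P l = (MW.cfg w).touchW Φ ε K P l :=
  touchW_comap hΦ hε K P (MW.cfg w) σ l

theorem Wm_perm (hΦ : AdmissiblePotential Φ) (hε : 0 < ε) (K : ℕ) (P : EPar) (w : Config n)
    (σ : Equiv.Perm (Fin n)) (s : ℝ) :
    (MW.cfg fun i => w (σ i)).Wm Φ ε K P s = (MW.cfg w).Wm Φ ε K P s :=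
  Wm_comap hΦ hε K P (MW.cfg w) σ s

theorem touchP_perm (hΦ : AdmissiblePotential Φ) (hε : 0 < ε) (K : ℕ) (P : EPar) (w : Config n)
    (σ : Equiv.Perm (Fin n)) (d e : ML) :
    (MW.cfg fun i => w (σ i)).touchP Φ ε K P d e = (MW.cfg w).touchP Φ ε K P d e :=
  touchP_comap hΦ hε K P (MW.cfg w) σ d e

theorem inf_perm (hΦ : AdmissiblePotential Φ) (hε : 0 < ε) (K : ℕ) (w : Config n)
    (σ : Equiv.Perm (Fin n)) (s : ℝ) (i : Fin n) :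
    (MW.cfg fun i => w (σ i)).Inf Φ ε K s i ↔ (MW.cfg w).Inf Φ ε K s (σ i) :=
  inf_comap hΦ hε K (MW.cfg w) σ s i

/-- Worlds with inserted objects. -/
theorem add_perm {κ : Type} [Fintype κ] (w : Config n) (σ : Equiv.Perm (Fin n)) (A : MW κ) :
    (MW.cfg fun i => w (σ i)).add A =
      ((MW.cfg w).add A).comap (Equiv.sumCongr σ (Equiv.refl κ)) := by
  rw [cfg_comap]
  exact add_comap (MW.cfg w) A σ (Equiv.refl κ)

theorem gasR_perm (hΦ : AdmissiblePotential Φ) (hε : 0 < ε) (w : Config n)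
    (σ : Equiv.Perm (Fin n)) (s : ℝ) (i k : Fin n) :
    gasR Φ ε n (fun i => w (σ i)) s i k ↔ gasR Φ ε n w s (σ i) (σ k) := by
  unfold gasR
  exact Crest.Agent.R122.GC311.past_pth_equiv hΦ hε σ w s 0 i k

theorem iTime_perm (hΦ : AdmissiblePotential Φ) (hε : 0 < ε) (K : ℕ) (T : ℝ) (w : Config n)
    (σ : Equiv.Perm (Fin n)) (q : Fin n) :
    iTime Φ ε K T (fun i => w (σ i)) q = iTime Φ ε K T w (σ q) := by
  unfold iTime sig
  have h : ∀ s, gasSize Φ ε n (fun i => w (σ i)) s q = gasSize Φ ε n w s (σ q) := fun s =>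
    (gasSize_equiv hΦ hε n σ w s q).symm
  simp only [h]

theorem mem_preC_perm (hΦ : AdmissiblePotential Φ) (hε : 0 < ε) (w : Config n)
    (σ : Equiv.Perm (Fin n)) (u : ℝ) (q k : Fin n) :
    k ∈ preC Φ ε (fun i => w (σ i)) u q ↔ σ k ∈ preC Φ ε w u (σ q) := by
  have h0 : ∀ (w : Config n) (q k : Fin n), k ∈ preC Φ ε w u q ↔
      k = q ∨ ∃ s, 0 ≤ s ∧ s < u ∧ gasR Φ ε n w s q k := by
    intro w q k
    classical
    unfold preC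
    rw [Finset.mem_filter]
    simp only [Finset.mem_univ, true_and]
  rw [h0, h0]
  simp only [gasR_perm hΦ hε, σ.injective.eq_iff]

theorem eW_preC_perm (hΦ : AdmissiblePotential Φ) (hε : 0 < ε) (w : Config n)
    (σ : Equiv.Perm (Fin n)) (u : ℝ) (q : Fin n) :
    eW (fun i => w (σ i)) (preC Φ ε (fun i => w (σ i)) u q) = eW w (preC Φ ε w u (σ q)) := by
  classical
  unfold eW
  refine Finset.sum_bij (fun k _ => σ k) (fun k hk => (mem_preC_perm hΦ hε w σ u q k).1 hk)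
    (fun _ _ _ _ h => σ.injective h) (fun k hk => ?_) fun _ _ => rfl
  refine ⟨σ.symm k, ?_, by simp⟩
  rw [mem_preC_perm hΦ hε]
  simpa using hk

end gas

end

end Crest.Agent.R122.EquivE416
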