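import Crest.Agent.R122.VLMeas_973
import Crest.Agent.R122.EquivE_416

/-!
# Row 122, D2/D3/H11 (helper973): pulling back a virtual system to a part

* `pull M e : VSys J' κ` for `e : J' ↪ J`.
* `st_pull`, `ok_pull`, `vct_pull`, `conn_pull`, `tlp_pull`, `tlq_pull`.
* `TLP` : tree-like with births of the part only.
-/

set_option autoImplicit false
set_option linter.unusedSectionVars false

open MeasureTheory Set Filter Topology
open Crest.AnalysisR.Kinetic
open Crest.Agent.R122.Ins45 Crest.Agent.R122.GIV566 Crest.Agent.R122.VL581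
open scoped Classical ENNReal NNReal

noncomputable section

namespace Crest.Agent.R122.VLMeas973

variable {J J' κ : Type} [Fintype J] [Fintype J']

/-- Pull back of a system along an embedding of labels. -/
def pull (M : VSys J κ) (e : J' ↪ J) : VSys J' κ where
  Φ := M.Φ
  T := M.T
  ε := M.ε
  b := fun j => M.b (e j)
  o := if h : ∃ j, M.o = some (e j) then some h.choose else none
  S := M.S

variable (M : VSys J κ) (e : J' ↪ J)

@[simp] theorem pull_Φ : (pull M e).Φ = M.Φ := rfl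
@[simp] theorem pull_T : (pull M e).T = M.T := rfl
@[simp] theorem pull_ε : (pull M e).ε = M.ε := rfl
@[simp] theorem pull_b (j : J') : (pull M e).b j = M.b (e j) := rfl
@[simp] theorem pull_S : (pull M e).S = M.S := rfl

theorem pull_o (j : J') : (pull M e).o = some j ↔ M.o = some (e j) := by
  unfold pull
  by_cases h : ∃ j, M.o = some (e j)
  · simp only [dif_pos h, Option.some.injEq]
    have h1 := h.choose_spec
    constructor
    · rintro rfl
      exact h1
    · intro h2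
      rw [h1, Option.some.injEq] at h2
      exact e.injective h2
  · simp only [dif_neg h]
    constructor
    · intro h2; exact absurd h2 (by simp)
    · intro h2; exact absurd ⟨j, h2⟩ h

@[simp] theorem pull_bb (j : J') : (pull M e).bb j = M.bb (e j) := rfl

theorem mem_mem_pull (A : Finset J') (t : ℝ) (j : J') :
    j ∈ (pull M e).mem A t ↔ e j ∈ M.mem (A.map e) t := by
  unfold VSys.mem
  simp only [Finset.mem_filter, Finset.mem_map', ne_eq, pull_o, pull_bb]

theorem exists_of_mem_mem {A : Finset J'} {t : ℝ} {x : J} (h : x ∈ M.mem (A.map e) t) :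
    ∃ j, j ∈ (pull M e).mem A t ∧ e j = x := by
  have h1 : x ∈ A.map e := (Finset.mem_filter.1 h).1
  obtain ⟨j, _, rfl⟩ := Finset.mem_map.1 h1
  exact ⟨j, (mem_mem_pull M e A t j).2 h, rfl⟩

/-- Relabelling of the interacting members. -/
def memEquiv (A : Finset J') (t : ℝ) : (pull M e).mem A t ≃ M.mem (A.map e) t :=
  Equiv.ofBijective (fun k => ⟨e k.1, (mem_mem_pull M e A t k.1).1 k.2⟩) (by
    constructor
    · intro a b h
      have h1 : e a.1 = e b.1 := congrArg Subtype.val h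
      exact Subtype.ext (e.injective h1)
    · rintro ⟨x, hx⟩
      obtain ⟨j, hj, rfl⟩ := exists_of_mem_mem M e hx
      exact ⟨⟨j, hj⟩, rfl⟩)

theorem st_pull (hΦ : AdmissiblePotential M.Φ) (hε : 0 < M.ε) (A : Finset J') (t : ℝ)
    (Z : J → PhasePoint) (i : J') :
    (pull M e).st A t (fun j => Z (e j)) i = M.st (A.map e) t Z (e i) := by
  unfold VSys.st
  by_cases h : i ∈ (pull M e).mem A t
  · have h' : e i ∈ M.mem (A.map e) t := (mem_mem_pull M e A t i).1 h
    rw [dif_pos h, dif_pos h']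
    have h1 := EquivE416.evo_equiv hΦ hε (memEquiv M e A t) (fun j : M.mem (A.map e) t => M.bb j)
      (-1) t (fun j : M.mem (A.map e) t => ((Z j).1 - (Z j).2, (Z j).2))
    exact congrFun h1 ⟨i, h⟩
  · have h' : e i ∉ M.mem (A.map e) t := fun h2 => h ((mem_mem_pull M e A t i).2 h2)
    rw [dif_neg h, dif_neg h']

theorem ok_pull (hΦ : AdmissiblePotential M.Φ) (hε : 0 < M.ε) (A : Finset J') (t : ℝ)
    (Z : J → PhasePoint) : (pull M e).ok A t (fun j => Z (e j)) ↔ M.ok (A.map e) t Z := by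
  unfold VSys.ok
  constructor
  · intro h i hi hio hit j hj hjo hji hbb
    obtain ⟨i, hi', rfl⟩ := Finset.mem_map.1 hi
    obtain ⟨j, hj', rfl⟩ := Finset.mem_map.1 hj
    have h1 := h i hi' (fun h2 => hio ((pull_o M e i).1 h2)) hit j hj'
      (fun h2 => hjo ((pull_o M e j).1 h2)) (fun h2 => hji (by rw [h2])) hbb
    rw [st_pull M e hΦ hε, st_pull M e hΦ hε] at h1
    exact h1
  · intro h i hi hio hit j hj hjo hji hbb
    rw [st_pull M e hΦ hε, st_pull M e hΦ hε]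
    exact h (e i) (Finset.mem_map' e |>.2 hi) (fun h2 => hio ((pull_o M e i).2 h2)) hit (e j)
      (Finset.mem_map' e |>.2 hj) (fun h2 => hjo ((pull_o M e j).2 h2))
      (fun h2 => hji (e.injective h2)) hbb

theorem pos_pull (hΦ : AdmissiblePotential M.Φ) (hε : 0 < M.ε) (A : Finset J') (k : κ) (t : ℝ)
    (Z : J → PhasePoint) (i : J') :
    (pull M e).pos A k t (fun j => Z (e j)) i = M.pos (A.map e) k t Z (e i) := by
  unfold VSys.pos
  by_cases h : M.o = some (e i)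
  · rw [if_pos ((pull_o M e i).2 h), if_pos h]
    rfl
  · rw [if_neg (fun h2 => h ((pull_o M e i).1 h2)), if_neg h, st_pull M e hΦ hε]

theorem ct_pull (hΦ : AdmissiblePotential M.Φ) (hε : 0 < M.ε) (C : ℝ) (A : Finset J') (k : κ)
    (i : J') (B : Finset J') (l : κ) (j : J') (t : ℝ) (Z : J → PhasePoint) :
    (pull M e).Ct C A k i B l j t (fun j => Z (e j)) ↔
      M.Ct C (A.map e) k (e i) (B.map e) l (e j) t Z := by
  unfold VSys.Ct
  rw [ok_pull M e hΦ hε, ok_pull M e hΦ hε, pos_pull M e hΦ hε, pos_pull M e hΦ hε, pull_o, pull_o,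
    Finset.mem_map', Finset.mem_map', pull_S, pull_ε]

theorem vct_pull (hΦ : AdmissiblePotential M.Φ) (hε : 0 < M.ε) (C : ℝ) (P : Finset J')
    (i j : J') (t : ℝ) (Z : J → PhasePoint) :
    (pull M e).VCt C P i j t (fun j => Z (e j)) ↔ M.VCt C (P.map e) (e i) (e j) t Z := by
  unfold VSys.VCt
  constructor
  · rintro ⟨A, hA, B, hB, k, l, h⟩
    exact ⟨A.map e, Finset.map_subset_map.2 hA, B.map e, Finset.map_subset_map.2 hB, k, l,
      (ct_pull M e hΦ hε C A k i B l j t Z).1 h⟩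
  · rintro ⟨A, hA, B, hB, k, l, h⟩
    obtain ⟨A', hA', rfl⟩ := Finset.subset_map_iff.1 hA
    obtain ⟨B', hB', rfl⟩ := Finset.subset_map_iff.1 hB
    exact ⟨A', hA', B', hB', k, l, (ct_pull M e hΦ hε C A' k i B' l j t Z).2 h⟩

theorem conn_pull (hΦ : AdmissiblePotential M.Φ) (hε : 0 < M.ε) (C : ℝ) (P : Finset J')
    (Z : J → PhasePoint) :
    (pull M e).Conn C P (fun j => Z (e j)) ↔ M.Conn C (P.map e) Z := by
  unfold VSys.Conn
  rw [Finset.map_nonempty]
  refine and_congr_right fun _ => ?_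
  constructor
  · intro h Q hQ hQn hQP
    obtain ⟨Q', hQ', rfl⟩ := Finset.subset_map_iff.1 hQ
    obtain ⟨i, hi, j, hj, t, ht, hc⟩ := h Q' hQ' (Finset.map_nonempty.1 hQn)
      (fun h2 => hQP (by rw [h2]))
    refine ⟨e i, (Finset.mem_map' e).2 hi, e j, ?_, t, ht, (vct_pull M e hΦ hε C P i j t Z).1 hc⟩
    rw [Finset.mem_sdiff] at hj ⊢
    exact ⟨(Finset.mem_map' e).2 hj.1, fun h2 => hj.2 ((Finset.mem_map' e).1 h2)⟩
  · intro h Q' hQ' hQn hQP
    obtain ⟨i, hi, j, hj, t, ht, hc⟩ := h (Q'.map e) (Finset.map_subset_map.2 hQ')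
      (Finset.map_nonempty.2 hQn) (fun h2 => hQP (Finset.map_injective e h2))
    obtain ⟨i, hi', rfl⟩ := Finset.mem_map.1 hi
    rw [Finset.mem_sdiff] at hj
    obtain ⟨j, hj', rfl⟩ := Finset.mem_map.1 hj.1
    refine ⟨i, hi', j, ?_, t, ht, (vct_pull M e hΦ hε C P i j t Z).2 hc⟩
    rw [Finset.mem_sdiff]
    exact ⟨hj', fun h2 => hj.2 ((Finset.mem_map' e).2 h2)⟩

/-- Tree-like, births of the part only. -/
def TLP (M : VSys J κ) (C ℓ ς : ℝ) (P : Finset J) (Z : J → PhasePoint) : Prop :=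
  (∀ A ⊆ P, M.ok A M.T Z) ∧
  ∃ (E : Finset (J × J)) (σ : J × J → ℝ), E.card + 1 = P.card ∧
    (∀ e ∈ E, e.1 ∈ P ∧ e.2 ∈ P ∧ e.1 ≠ e.2) ∧
    (∀ e ∈ E, ς < σ e ∧ σ e < M.T - ς) ∧
    (∀ e ∈ E, ∀ i ∈ P, ς < |σ e - M.b i|) ∧
    (∀ e ∈ E, ∀ e' ∈ E, e ≠ e' → ς < |σ e - σ e'|) ∧
    (∀ i ∈ P, ∀ j ∈ P, i ≠ j → ∀ t ∈ Icc 0 M.T, M.VCt C P i j t Z →
      ∃ e ∈ E, (e = (i, j) ∨ e = (j, i)) ∧ |t - σ e| ≤ ℓ)

theorem tlp_univ (M : VSys J κ) (C ℓ ς : ℝ) (Z : J → PhasePoint) :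
    TLP M C ℓ ς Finset.univ Z ↔ M.TreeLike C ℓ ς Finset.univ Z := by
  unfold TLP VSys.TreeLike
  simp only [Finset.mem_univ, forall_const]

theorem TLP.of_treeLike {M : VSys J κ} {C ℓ ς : ℝ} {P : Finset J} {Z : J → PhasePoint}
    (h : M.TreeLike C ℓ ς P Z) : TLP M C ℓ ς P Z := by
  obtain ⟨h1, E, σ, h2, h3, h4, h5, h6, h7⟩ := h
  exact ⟨h1, E, σ, h2, h3, h4, fun e he i _ => h5 e he i, h6, h7⟩

/-- If the pulled back system is tree-like, then the part is. -/
theorem tlp_of_pull (hΦ : AdmissiblePotential M.Φ) (hε : 0 < M.ε) {C ℓ ς : ℝ}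
    {Z : J → PhasePoint} (h : (pull M e).TreeLike C ℓ ς Finset.univ (fun j => Z (e j))) :
    TLP M C ℓ ς (Finset.univ.map e) Z := by
  obtain ⟨h1, E, σ, h2, h3, h4, h5, h6, h7⟩ := h
  let ee : J' × J' ↪ J × J := e.prodMap e
  -- times transported along `ee`
  let σ' : J × J → ℝ := fun x => if hx : ∃ y, ee y = x then σ hx.choose else 0
  have hσ' : ∀ y, σ' (ee y) = σ y := by
    intro y
    have hy : ∃ y', ee y' = ee y := ⟨y, rfl⟩
    show (if hx : ∃ y', ee y' = ee y then σ hx.choose else 0) = σ y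
    rw [dif_pos hy, ee.injective hy.choose_spec]
  refine ⟨?_, E.map ee, σ', ?_, ?_, ?_, ?_, ?_, ?_⟩
  · intro A hA
    obtain ⟨A', hA', rfl⟩ := Finset.subset_map_iff.1 hA
    exact (ok_pull M e hΦ hε A' _ Z).1 (h1 A' hA')
  · rw [Finset.card_map, Finset.card_map, h2]
  · intro x hx
    obtain ⟨y, hy, rfl⟩ := Finset.mem_map.1 hx
    obtain ⟨_, _, h8⟩ := h3 y hy
    exact ⟨(Finset.mem_map' e).2 (Finset.mem_univ _), (Finset.mem_map' e).2 (Finset.mem_univ _),
      fun h9 => h8 (e.injective h9)⟩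
  · intro x hx
    obtain ⟨y, hy, rfl⟩ := Finset.mem_map.1 hx
    rw [hσ']
    exact h4 y hy
  · intro x hx i hi
    obtain ⟨y, hy, rfl⟩ := Finset.mem_map.1 hx
    obtain ⟨i', _, rfl⟩ := Finset.mem_map.1 hi
    rw [hσ']
    exact h5 y hy i'
  · intro x hx x' hx' hne
    obtain ⟨y, hy, rfl⟩ := Finset.mem_map.1 hx
    obtain ⟨y', hy', rfl⟩ := Finset.mem_map.1 hx'
    rw [hσ', hσ']
    exact h6 y hy y' hy' fun h9 => hne (by rw [h9])
  · intro i hi j hj hij t ht hc
    obtain ⟨i', _, rfl⟩ := Finset.mem_map.1 hi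
    obtain ⟨j', _, rfl⟩ := Finset.mem_map.1 hj
    obtain ⟨y, hy, hyy, hle⟩ := h7 i' (Finset.mem_univ _) j' (Finset.mem_univ _)
      (fun h9 => hij (by rw [h9])) t ht ((vct_pull M e hΦ hε C _ i' j' t Z).2 hc)
    refine ⟨ee y, (Finset.mem_map' ee).2 hy, ?_, by rw [hσ']; exact hle⟩
    rcases hyy with rfl | rfl
    · exact Or.inl rfl
    · exact Or.inr rfl

end Crest.Agent.R122.VLMeas973
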