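import Crest.Agent.R122.Causal_291

/-!
# Causal calculus for abstract contact relations (row 122, block F4), two worlds

A world over the index type `ι` is a family of states `z : ℝ → ι → X` together with a contact
relation `C : ℝ → ι → ι → Prop`. For Newton worlds `C s j k` says that `j` and `k` are within `ε` at
time `s`; for worlds with births both particles must be born. A pair of worlds with a common part
`κ` (embeddings `e₁`, `e₂`) is described by `Pair`: symmetry and closedness of contacts, closedness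
of agreement, local uniqueness `loc` and coherence of contacts `coh`.

* `agree_of_antitone`, `compare`, `compare_or_touch`, `Fut`, `agree_of_not_fut`.
-/

set_option autoImplicit false

open Set Filter Topology

namespace Crest.Agent.R122.CausalGen291

open Crest.Agent.R122.Causal291

/-- A pair of worlds with a common part. -/
structure Pair {ι₁ ι₂ κ : Type} {X : Type*} (T : ℝ) (C₁ : ℝ → ι₁ → ι₁ → Prop) (z₁ : ℝ → ι₁ → X)
    (C₂ : ℝ → ι₂ → ι₂ → Prop) (z₂ : ℝ → ι₂ → X) (e₁ : κ → ι₁) (e₂ : κ → ι₂) : Prop where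
  inj₁ : Function.Injective e₁
  inj₂ : Function.Injective e₂
  symm₁ : ∀ s j k, C₁ s j k → C₁ s k j
  symm₂ : ∀ s j k, C₂ s j k → C₂ s k j
  closed₁ : ∀ j k, j ≠ k → IsClosed {s | s ∈ Icc 0 T ∧ C₁ s j k}
  closed₂ : ∀ j k, j ≠ k → IsClosed {s | s ∈ Icc 0 T ∧ C₂ s j k}
  eqc : ∀ k, IsClosed {s | s ∈ Icc 0 T ∧ z₁ s (e₁ k) = z₂ s (e₂ k)}
  loc : ∀ (G : Set κ) (a b : ℝ), 0 ≤ a → a ≤ b → b ≤ T →
    (∀ s ∈ Icc a b, ∀ k ∈ G, ∀ j, j ∉ e₁ '' G → ¬ C₁ s (e₁ k) j) →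
    (∀ s ∈ Icc a b, ∀ k ∈ G, ∀ j, j ∉ e₂ '' G → ¬ C₂ s (e₂ k) j) →
    (∀ k ∈ G, z₁ a (e₁ k) = z₂ a (e₂ k)) → ∀ s ∈ Icc a b, ∀ k ∈ G, z₁ s (e₁ k) = z₂ s (e₂ k)
  coh : ∀ s ∈ Icc 0 T, ∀ k l, z₁ s (e₁ k) = z₂ s (e₂ k) → z₁ s (e₁ l) = z₂ s (e₂ l) →
    (C₁ s (e₁ k) (e₁ l) ↔ C₂ s (e₂ k) (e₂ l))

section iso

variable {ι : Type} {C : ℝ → ι → ι → Prop} {T : ℝ}

/-- Absence of contacts at one time persists for a short time. -/
theorem exists_isolated [Finite ι] (hC : ∀ j k, j ≠ k → IsClosed {s | s ∈ Icc 0 T ∧ C s j k})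
    {s : ℝ} (hs : s ∈ Ico 0 T) (A B : Set ι) (hAB : ∀ k ∈ A, k ∉ B)
    (h : ∀ k ∈ A, ∀ j ∈ B, ¬ C s k j) :
    ∃ δ > 0, s + δ ≤ T ∧ ∀ s' ∈ Icc s (s + δ), ∀ k ∈ A, ∀ j ∈ B, ¬ C s' k j := by
  have h2 : ∀ᶠ s' in 𝓝 s, ∀ p : ι × ι, p.1 ∈ A → p.2 ∈ B →
      ¬ (s' ∈ Icc 0 T ∧ C s' p.1 p.2) := by
    rw [Filter.eventually_all]
    intro p
    by_cases hp : p.1 ∈ A ∧ p.2 ∈ B
    · have h3 : s ∉ {s | s ∈ Icc 0 T ∧ C s p.1 p.2} := fun h' => h p.1 hp.1 p.2 hp.2 h'.2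
      have hne : p.1 ≠ p.2 := fun he => hAB p.1 hp.1 (he ▸ hp.2)
      filter_upwards [(hC p.1 p.2 hne).isOpen_compl.mem_nhds h3] with s' h _ _ using h
    · exact Eventually.of_forall fun s' hA hB => absurd ⟨hA, hB⟩ hp
  rw [Metric.eventually_nhds_iff] at h2
  obtain ⟨δ, hδ, h2⟩ := h2
  refine ⟨min (δ / 2) (T - s), lt_min (by positivity) (by linarith [hs.2]), ?_, ?_⟩
  · linarith [min_le_right (δ / 2) (T - s)]
  · intro s' hs' k hk j hj hc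
    have h3 : s' ≤ s + δ / 2 := hs'.2.trans (by linarith [min_le_left (δ / 2) (T - s)])
    have h4 : s' ≤ T := hs'.2.trans (by linarith [min_le_right (δ / 2) (T - s)])
    refine h2 ?_ (k, j) hk hj ⟨⟨hs.1.trans hs'.1, h4⟩, hc⟩
    rw [Real.dist_eq, abs_lt]
    constructor <;> linarith [hs'.1]

end iso

section base

variable {ι₁ ι₂ κ : Type} {X : Type*}
variable {C₁ : ℝ → ι₁ → ι₁ → Prop} {C₂ : ℝ → ι₂ → ι₂ → Prop}
variable {z₁ : ℝ → ι₁ → X} {z₂ : ℝ → ι₂ → X} {e₁ : κ → ι₁} {e₂ : κ → ι₂} {T : ℝ}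

theorem Pair.symm (h : Pair T C₁ z₁ C₂ z₂ e₁ e₂) : Pair T C₂ z₂ C₁ z₁ e₂ e₁ where
  inj₁ := h.inj₂
  inj₂ := h.inj₁
  symm₁ := h.symm₂
  symm₂ := h.symm₁
  closed₁ := h.closed₂
  closed₂ := h.closed₁
  eqc k := by
    have := h.eqc k
    simpa only [eq_comm] using this
  loc G a b ha hab hb h1 h2 h0 s hs k hk :=
    (h.loc G a b ha hab hb h2 h1 (fun k hk => (h0 k hk).symm) s hs k hk).symm
  coh s hs k l h1 h2 := (h.coh s hs k l h1.symm h2.symm).symm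

theorem Pair.mono (h : Pair T C₁ z₁ C₂ z₂ e₁ e₂) {T' : ℝ} (hT : T' ≤ T) :
    Pair T' C₁ z₁ C₂ z₂ e₁ e₂ where
  inj₁ := h.inj₁
  inj₂ := h.inj₂
  symm₁ := h.symm₁
  symm₂ := h.symm₂
  closed₁ j k hjk := by
    have : {s | s ∈ Icc 0 T' ∧ C₁ s j k} = Icc 0 T' ∩ {s | s ∈ Icc 0 T ∧ C₁ s j k} := by
      ext s
      simp only [mem_ofPred_eq, mem_inter_iff, mem_Icc]
      exact ⟨fun h' => ⟨h'.1, ⟨h'.1.1, h'.1.2.trans hT⟩, h'.2⟩, fun h' => ⟨h'.1, h'.2.2⟩⟩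
    rw [this]
    exact isClosed_Icc.inter (h.closed₁ j k hjk)
  closed₂ j k hjk := by
    have : {s | s ∈ Icc 0 T' ∧ C₂ s j k} = Icc 0 T' ∩ {s | s ∈ Icc 0 T ∧ C₂ s j k} := by
      ext s
      simp only [mem_ofPred_eq, mem_inter_iff, mem_Icc]
      exact ⟨fun h' => ⟨h'.1, ⟨h'.1.1, h'.1.2.trans hT⟩, h'.2⟩, fun h' => ⟨h'.1, h'.2.2⟩⟩
    rw [this]
    exact isClosed_Icc.inter (h.closed₂ j k hjk)
  eqc k := by
    have : {s | s ∈ Icc 0 T' ∧ z₁ s (e₁ k) = z₂ s (e₂ k)} =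
        Icc 0 T' ∩ {s | s ∈ Icc 0 T ∧ z₁ s (e₁ k) = z₂ s (e₂ k)} := by
      ext s
      simp only [mem_ofPred_eq, mem_inter_iff, mem_Icc]
      exact ⟨fun h' => ⟨h'.1, ⟨h'.1.1, h'.1.2.trans hT⟩, h'.2⟩, fun h' => ⟨h'.1, h'.2.2⟩⟩
    rw [this]
    exact isClosed_Icc.inter (h.eqc k)
  loc G a b ha hab hb := h.loc G a b ha hab (hb.trans hT)
  coh s hs := h.coh s ⟨hs.1, hs.2.trans hT⟩

/-- Sub-pair: restriction of the common part along an injection. -/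
theorem Pair.comp {κ' : Type} {g : κ' → κ} (hg : Function.Injective g)
    (h : Pair T C₁ z₁ C₂ z₂ e₁ e₂) : Pair T C₁ z₁ C₂ z₂ (e₁ ∘ g) (e₂ ∘ g) where
  inj₁ := h.inj₁.comp hg
  inj₂ := h.inj₂.comp hg
  symm₁ := h.symm₁
  symm₂ := h.symm₂
  closed₁ := h.closed₁
  closed₂ := h.closed₂
  eqc k := h.eqc (g k)
  loc G a b ha hab hb h1 h2 h0 s hs k hk := by
    refine h.loc (g '' G) a b ha hab hb ?_ ?_ ?_ s hs (g k) ⟨k, hk, rfl⟩
    · rintro s hs _ ⟨k, hk, rfl⟩ j hj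
      rw [← image_comp] at hj
      exact h1 s hs k hk j hj
    · rintro s hs _ ⟨k, hk, rfl⟩ j hj
      rw [← image_comp] at hj
      exact h2 s hs k hk j hj
    · rintro _ ⟨k, hk, rfl⟩
      exact h0 k hk
  coh s hs k l := h.coh s hs (g k) (g l)

/-- Left step: the set of times up to which an antitone family agrees is closed. -/
theorem closed_agree (h : Pair T C₁ z₁ C₂ z₂ e₁ e₂) (G : ℝ → Set κ)
    (hG : ∀ s s', 0 ≤ s → s ≤ s' → s' ≤ T → G s' ⊆ G s) :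
    IsClosed ({s | ∀ s' ∈ Icc 0 s, ∀ k ∈ G s', z₁ s' (e₁ k) = z₂ s' (e₂ k)} ∩ Icc 0 T) := by
  rw [← isSeqClosed_iff_isClosed]
  intro u σ hu hlim
  have hσ : σ ∈ Icc 0 T := isClosed_Icc.mem_of_tendsto hlim
    (Eventually.of_forall fun n => (hu n).2)
  refine ⟨?_, hσ⟩
  intro s' hs' k hk
  rcases lt_or_eq_of_le hs'.2 with h1 | h1
  · obtain ⟨n, hn⟩ := (hlim.eventually (lt_mem_nhds h1)).exists
    exact (hu n).1 s' ⟨hs'.1, hn.le⟩ k hk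
  · subst h1
    by_cases h2 : ∃ n, s' ≤ u n
    · obtain ⟨n, hn⟩ := h2
      exact (hu n).1 s' ⟨hs'.1, hn⟩ k hk
    · push Not at h2
      have h3 : ∀ n, z₁ (u n) (e₁ k) = z₂ (u n) (e₂ k) := fun n =>
        (hu n).1 (u n) ⟨(hu n).2.1, le_rfl⟩ k
          (hG (u n) s' (hu n).2.1 (h2 n).le hσ.2 hk)
      exact ((h.eqc k).mem_of_tendsto hlim (Eventually.of_forall fun n => ⟨(hu n).2, h3 n⟩)).2

/-- Right step: agreement at one time of a group without contacts with outsiders persists for a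
short time. -/
theorem extend_agree [Finite ι₁] [Finite ι₂] (h : Pair T C₁ z₁ C₂ z₂ e₁ e₂) {s : ℝ}
    (hs : s ∈ Ico 0 T) (G : Set κ)
    (h1 : ∀ k ∈ G, ∀ j, j ∉ e₁ '' G → ¬ C₁ s (e₁ k) j)
    (h2 : ∀ k ∈ G, ∀ j, j ∉ e₂ '' G → ¬ C₂ s (e₂ k) j)
    (hsG : ∀ k ∈ G, z₁ s (e₁ k) = z₂ s (e₂ k)) :
    ∃ δ > 0, s + δ ≤ T ∧ ∀ s' ∈ Icc s (s + δ), ∀ k ∈ G, z₁ s' (e₁ k) = z₂ s' (e₂ k) := by
  obtain ⟨δ₁, hδ₁, hδ₁T, hi₁⟩ := exists_isolated h.closed₁ hs (e₁ '' G) (e₁ '' G)ᶜ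
    (fun _ hk hk' => hk' hk) (by rintro _ ⟨k, hk, rfl⟩ j hj; exact h1 k hk j hj)
  obtain ⟨δ₂, hδ₂, hδ₂T, hi₂⟩ := exists_isolated h.closed₂ hs (e₂ '' G) (e₂ '' G)ᶜ
    (fun _ hk hk' => hk' hk) (by rintro _ ⟨k, hk, rfl⟩ j hj; exact h2 k hk j hj)
  have hδ0 : 0 < min δ₁ δ₂ := lt_min hδ₁ hδ₂
  have l₁ : min δ₁ δ₂ ≤ δ₁ := min_le_left _ _
  have l₂ : min δ₁ δ₂ ≤ δ₂ := min_le_right _ _
  refine ⟨min δ₁ δ₂, hδ0, by linarith, ?_⟩
  exact h.loc G s (s + min δ₁ δ₂) hs.1 (by linarith) (by linarith)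
    (fun s' hs' k hk j hj => hi₁ s' ⟨hs'.1, hs'.2.trans (by linarith)⟩ _ ⟨k, hk, rfl⟩ j hj)
    (fun s' hs' k hk j hj => hi₂ s' ⟨hs'.1, hs'.2.trans (by linarith)⟩ _ ⟨k, hk, rfl⟩ j hj) hsG

/-- Base lemma: an antitone family of groups, equal at time `0`, and without contacts with outsiders
in both worlds at every time up to which equality is known, consists of particles with equal
states. -/
theorem agree_of_antitone [Finite ι₁] [Finite ι₂] (h : Pair T C₁ z₁ C₂ z₂ e₁ e₂)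
    (G : ℝ → Set κ) (hG : ∀ s s', 0 ≤ s → s ≤ s' → s' ≤ T → G s' ⊆ G s)
    (h0 : ∀ k ∈ G 0, z₁ 0 (e₁ k) = z₂ 0 (e₂ k))
    (hiso : ∀ s ∈ Ico 0 T, (∀ s' ∈ Icc 0 s, ∀ k ∈ G s', z₁ s' (e₁ k) = z₂ s' (e₂ k)) →
      (∀ k ∈ G s, ∀ j, j ∉ e₁ '' G s → ¬ C₁ s (e₁ k) j) ∧
      (∀ k ∈ G s, ∀ j, j ∉ e₂ '' G s → ¬ C₂ s (e₂ k) j)) :
    ∀ s ∈ Icc 0 T, ∀ k ∈ G s, z₁ s (e₁ k) = z₂ s (e₂ k) := by
  rcases lt_or_ge T 0 with hT | hT
  · intro s hs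
    exact absurd (hs.1.trans hs.2) (not_le.2 hT)
  set E : Set ℝ := {s | ∀ s' ∈ Icc 0 s, ∀ k ∈ G s', z₁ s' (e₁ k) = z₂ s' (e₂ k)} with hE
  have hmain : Icc 0 T ⊆ E := by
    refine IsClosed.Icc_subset_of_forall_exists_gt (closed_agree h G hG) ?_ ?_
    · intro s' hs' k hk
      have : s' = 0 := le_antisymm hs'.2 hs'.1
      subst this
      exact h0 k hk
    · intro s hs y hy
      obtain ⟨h1, h2⟩ := hiso s hs.2 hs.1
      obtain ⟨δ₁, hδ₁, hδ₁T, key⟩ := extend_agree h hs.2 (G s) h1 h2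
        (fun k hk => hs.1 s ⟨hs.2.1, le_rfl⟩ k hk)
      set δ := min δ₁ (y - s) with hδ
      have hδ0 : 0 < δ := lt_min hδ₁ (sub_pos.2 hy)
      have hδle₁ : δ ≤ δ₁ := min_le_left _ _
      have hδy : δ ≤ y - s := min_le_right _ _
      refine ⟨s + δ, ?_, ⟨by linarith, by linarith⟩⟩
      intro s' hs' k hk
      rcases le_total s' s with h3 | h3
      · exact hs.1 s' ⟨hs'.1, h3⟩ k hk
      · have hkG : k ∈ G s := hG s s' hs.2.1 h3 (hs'.2.trans (by linarith)) hk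
        exact key s' ⟨h3, hs'.2.trans (by linarith)⟩ k hkG
  intro s hs k hk
  exact hmain hs s ⟨hs.1, le_rfl⟩ k hk

end base

/-! ### Comparison of backward clusters -/

section compare

variable {ι₁ ι₂ κ : Type} {X : Type*}
variable {C₁ : ℝ → ι₁ → ι₁ → Prop} {C₂ : ℝ → ι₂ → ι₂ → Prop}
variable {z₁ : ℝ → ι₁ → X} {z₂ : ℝ → ι₂ → X} {e₁ : κ → ι₁} {e₂ : κ → ι₂} {T : ℝ}

/-- The active set (as a subset of the common part) of the exploration from `(e₁ i, t)` in the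
first world. -/
def ActC (C₁ : ℝ → ι₁ → ι₁ → Prop) (e₁ : κ → ι₁) (t : ℝ) (i : κ) (s : ℝ) : Set κ :=
  {k | Past C₁ t (e₁ i) s (e₁ k)}

/-- **Comparison of a backward cluster in two worlds.** Let the backward cluster of `(i, t)` in the
world `1` be contained in the common part, with equal initial states. Assume that at every time `s`
up to which the active particles have equal states in both worlds, no active particle is in contact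
in the world `2` with a particle which is not active. Then the active particles have the same states
in both worlds and the explorations coincide. -/
theorem compare [Finite ι₁] [Finite ι₂] (h : Pair T C₁ z₁ C₂ z₂ e₁ e₂)
    {t : ℝ} (ht : t ∈ Icc 0 T) (i : κ)
    (hcl : BC C₁ t (e₁ i) ⊆ range e₁)
    (h0 : ∀ k ∈ ActC C₁ e₁ t i 0, z₁ 0 (e₁ k) = z₂ 0 (e₂ k))
    (hav : ∀ s ∈ Icc 0 t, (∀ s' ∈ Icc 0 s, ∀ k ∈ ActC C₁ e₁ t i s', z₁ s' (e₁ k) = z₂ s' (e₂ k)) →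
      ∀ k ∈ ActC C₁ e₁ t i s, ∀ j, j ∉ e₂ '' ActC C₁ e₁ t i s → ¬ C₂ s (e₂ k) j) :
    (∀ s ∈ Icc 0 t, ∀ k ∈ ActC C₁ e₁ t i s, z₁ s (e₁ k) = z₂ s (e₂ k)) ∧
    (∀ s ∈ Icc 0 t, Act C₂ t (e₂ i) s = e₂ '' ActC C₁ e₁ t i s) := by
  have hrange : ∀ s, 0 ≤ s → ∀ j, Past C₁ t (e₁ i) s j → j ∈ range e₁ :=
    fun s hs j hj => hcl (hj.mono hs)
  have hagree : ∀ s ∈ Icc 0 t, ∀ k ∈ ActC C₁ e₁ t i s, z₁ s (e₁ k) = z₂ s (e₂ k) := by
    refine agree_of_antitone (h.mono ht.2)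
      (fun s => ActC C₁ e₁ t i s) (fun s s' _ hss' _ k hk => Past.mono hk hss') h0 ?_
    intro s hs hpast
    have hsI : s ∈ Icc 0 t := ⟨hs.1, hs.2.le⟩
    constructor
    · intro k hk j hj hc
      have h1 : Past C₁ t (e₁ i) s j := Past.contact hk hc
      obtain ⟨l, rfl⟩ := hrange s hs.1 j h1
      exact hj ⟨l, h1, rfl⟩
    · exact hav s hsI hpast
  refine ⟨hagree, fun s hs => ?_⟩
  apply Subset.antisymm
  · -- `⊆`: closedness of the family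
    have hcl2 : ∀ s', 0 ≤ s' → Act C₂ t (e₂ i) s' ⊆ e₂ '' ActC C₁ e₁ t i s' := by
      intro s' hs'
      refine Act_subset_of_closed (s₀ := 0) (G := fun s => e₂ '' ActC C₁ e₁ t i s) ?_ ?_ ?_ hs'
      · intro r _ hrt
        exact ⟨i, .root hrt, rfl⟩
      · rintro r r' _ hrr' _ _ ⟨k, hk, rfl⟩
        exact ⟨k, Past.mono hk hrr', rfl⟩
      · rintro r _ l hr hrt ⟨k, hk, rfl⟩ hc
        by_contra hl
        exact hav r ⟨hr, hrt⟩ (fun s' hs' k hk => hagree s' ⟨hs'.1, hs'.2.trans hrt⟩ k hk) k hk l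
          hl hc
    exact hcl2 s hs.1
  · rintro _ ⟨k, hk, rfl⟩
    -- `⊇`: induction on the exploration in the first world
    have gen : ∀ (s : ℝ) (j : ι₁), Past C₁ t (e₁ i) s j → 0 ≤ s →
        ∀ k, e₁ k = j → Past C₂ t (e₂ i) s (e₂ k) := by
      intro s j hj
      induction hj with
      | root hr =>
        intro _ k hk
        rw [h.inj₁ hk]
        exact .root hr
      | @step s s' j l hj hc hss' ih =>
        intro hs0 k hk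
        subst hk
        have hs'0 : 0 ≤ s' := hs0.trans hss'
        obtain ⟨m, rfl⟩ := hrange s' hs'0 j hj
        have hm := ih hs'0 m rfl
        have hs't : s' ≤ t := hj.le
        refine .step hm ?_ hss'
        have hm1 : m ∈ ActC C₁ e₁ t i s' := hj
        have hk1 : k ∈ ActC C₁ e₁ t i s' := Past.contact hj hc
        exact (h.coh s' ⟨hs'0, hs't.trans ht.2⟩ m k (hagree s' ⟨hs'0, hs't⟩ m hm1)
          (hagree s' ⟨hs'0, hs't⟩ k hk1)).1 hc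
    exact gen s (e₁ k) hk hs.1 k rfl

/-- **Touch dichotomy.** If the backward cluster of `(i, t)` in the world `1` is contained in the
common part, with equal initial states, then either the protected history is the same in the world
`2` (states and explorations), or at some time `s ≤ t`, up to which the active particles have equal
states, some particle of the world `2` which is not active, and which is new or has a different
state, is in contact in the world `2` with an active particle. -/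
theorem compare_or_touch [Finite ι₁] [Finite ι₂] (h : Pair T C₁ z₁ C₂ z₂ e₁ e₂)
    {t : ℝ} (ht : t ∈ Icc 0 T) (i : κ)
    (hcl : BC C₁ t (e₁ i) ⊆ range e₁)
    (h0 : ∀ k ∈ ActC C₁ e₁ t i 0, z₁ 0 (e₁ k) = z₂ 0 (e₂ k)) :
    ((∀ s ∈ Icc 0 t, ∀ k ∈ ActC C₁ e₁ t i s, z₁ s (e₁ k) = z₂ s (e₂ k)) ∧
      (∀ s ∈ Icc 0 t, Act C₂ t (e₂ i) s = e₂ '' ActC C₁ e₁ t i s)) ∨
    ∃ s ∈ Icc 0 t, (∀ s' ∈ Icc 0 s, ∀ k ∈ ActC C₁ e₁ t i s', z₁ s' (e₁ k) = z₂ s' (e₂ k)) ∧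
      ∃ k ∈ ActC C₁ e₁ t i s, ∃ j, j ∉ e₂ '' ActC C₁ e₁ t i s ∧ C₂ s (e₂ k) j ∧
      ∀ l, j = e₂ l → z₁ s (e₁ l) ≠ z₂ s (e₂ l) := by
  by_cases hav : ∀ s ∈ Icc 0 t,
      (∀ s' ∈ Icc 0 s, ∀ k ∈ ActC C₁ e₁ t i s', z₁ s' (e₁ k) = z₂ s' (e₂ k)) →
      ∀ k ∈ ActC C₁ e₁ t i s, ∀ j, j ∉ e₂ '' ActC C₁ e₁ t i s → ¬ C₂ s (e₂ k) j
  · exact Or.inl (compare h ht i hcl h0 hav)
  · right
    push Not at hav
    obtain ⟨s, hs, hp, k, hk, j, hj, hc⟩ := hav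
    refine ⟨s, hs, hp, k, hk, j, hj, hc, ?_⟩
    rintro l rfl heq
    refine hj ⟨l, ?_, rfl⟩
    exact Past.contact hk ((h.coh s ⟨hs.1, hs.2.trans ht.2⟩ k l
      (hp s ⟨hs.1, le_rfl⟩ k hk) heq).2 hc)

end compare

/-! ### Spreading of the difference of two worlds -/

section spread

variable {ι₁ ι₂ κ : Type} {X : Type*}

/-- Forward causal closure of the sources: a common particle `k` is in the closure at time `s` if it
has different initial states in the two worlds, or if before `s` it has been in contact, in one of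
the two worlds, with a particle which is not common, or with a particle already in the closure. -/
inductive Fut (C₁ : ℝ → ι₁ → ι₁ → Prop) (z₁ : ℝ → ι₁ → X) (C₂ : ℝ → ι₂ → ι₂ → Prop)
    (z₂ : ℝ → ι₂ → X) (e₁ : κ → ι₁) (e₂ : κ → ι₂) : ℝ → κ → Prop
  | init {s : ℝ} {k : κ} (h : z₁ 0 (e₁ k) ≠ z₂ 0 (e₂ k)) (hs : 0 ≤ s) : Fut C₁ z₁ C₂ z₂ e₁ e₂ s k
  | new₁ {s s' : ℝ} {k : κ} (j : ι₁) (hj : j ∉ range e₁) (hc : C₁ s' j (e₁ k)) (h0 : 0 ≤ s')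
      (hs : s' ≤ s) : Fut C₁ z₁ C₂ z₂ e₁ e₂ s k
  | new₂ {s s' : ℝ} {k : κ} (j : ι₂) (hj : j ∉ range e₂) (hc : C₂ s' j (e₂ k)) (h0 : 0 ≤ s')
      (hs : s' ≤ s) : Fut C₁ z₁ C₂ z₂ e₁ e₂ s k
  | chain₁ {s s' : ℝ} {k l : κ} (h : Fut C₁ z₁ C₂ z₂ e₁ e₂ s' l) (hc : C₁ s' (e₁ l) (e₁ k))
      (hs : s' ≤ s) : Fut C₁ z₁ C₂ z₂ e₁ e₂ s k
  | chain₂ {s s' : ℝ} {k l : κ} (h : Fut C₁ z₁ C₂ z₂ e₁ e₂ s' l) (hc : C₂ s' (e₂ l) (e₂ k))
      (hs : s' ≤ s) : Fut C₁ z₁ C₂ z₂ e₁ e₂ s k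

variable {C₁ : ℝ → ι₁ → ι₁ → Prop} {C₂ : ℝ → ι₂ → ι₂ → Prop}
variable {z₁ : ℝ → ι₁ → X} {z₂ : ℝ → ι₂ → X} {e₁ : κ → ι₁} {e₂ : κ → ι₂} {T : ℝ}

theorem Fut.mono {s s' : ℝ} {k : κ} (h : Fut C₁ z₁ C₂ z₂ e₁ e₂ s k) (hs : s ≤ s') :
    Fut C₁ z₁ C₂ z₂ e₁ e₂ s' k := by
  cases h with
  | init h h' => exact .init h (h'.trans hs)
  | new₁ j hj hc h0 h => exact .new₁ j hj hc h0 (h.trans hs)
  | new₂ j hj hc h0 h => exact .new₂ j hj hc h0 (h.trans hs)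
  | chain₁ h hc h' => exact .chain₁ h hc (h'.trans hs)
  | chain₂ h hc h' => exact .chain₂ h hc (h'.trans hs)

theorem Fut.nonneg {s : ℝ} {k : κ} (h : Fut C₁ z₁ C₂ z₂ e₁ e₂ s k) : 0 ≤ s := by
  induction h with
  | init h h' => exact h'
  | new₁ j hj hc h0 h => exact h0.trans h
  | new₂ j hj hc h0 h => exact h0.trans h
  | chain₁ h hc h' ih => exact ih.trans h'
  | chain₂ h hc h' ih => exact ih.trans h'

theorem Fut.symm {s : ℝ} {k : κ} (h : Fut C₁ z₁ C₂ z₂ e₁ e₂ s k) :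
    Fut C₂ z₂ C₁ z₁ e₂ e₁ s k := by
  induction h with
  | init h h' => exact .init h.symm h'
  | new₁ j hj hc h0 h => exact .new₂ j hj hc h0 h
  | new₂ j hj hc h0 h => exact .new₁ j hj hc h0 h
  | chain₁ h hc h' ih => exact .chain₂ ih hc h'
  | chain₂ h hc h' ih => exact .chain₁ ih hc h'

/-- **Spreading of differences.** A common particle outside the forward causal closure of the
sources has the same state in both worlds. -/
theorem agree_of_not_fut [Finite ι₁] [Finite ι₂] (h : Pair T C₁ z₁ C₂ z₂ e₁ e₂)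
    {s : ℝ} (hs : s ∈ Icc 0 T) {k : κ} (hk : ¬ Fut C₁ z₁ C₂ z₂ e₁ e₂ s k) :
    z₁ s (e₁ k) = z₂ s (e₂ k) := by
  refine agree_of_antitone h (fun s => {k | ¬ Fut C₁ z₁ C₂ z₂ e₁ e₂ s k})
    (fun s s' _ hss' _ k hk h => hk (h.mono hss')) ?_ ?_ s hs k hk
  · intro k hk
    by_contra h'
    exact hk (.init h' le_rfl)
  · intro s hs _
    constructor
    · intro k hk j hj hc
      have hc' : C₁ s j (e₁ k) := h.symm₁ _ _ _ hc
      by_cases hjr : j ∈ range e₁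
      · obtain ⟨l, rfl⟩ := hjr
        by_cases hl : Fut C₁ z₁ C₂ z₂ e₁ e₂ s l
        · exact hk (.chain₁ hl hc' le_rfl)
        · exact hj ⟨l, hl, rfl⟩
      · exact hk (.new₁ j hjr hc' hs.1 le_rfl)
    · intro k hk j hj hc
      have hc' : C₂ s j (e₂ k) := h.symm₂ _ _ _ hc
      by_cases hjr : j ∈ range e₂
      · obtain ⟨l, rfl⟩ := hjr
        by_cases hl : Fut C₁ z₁ C₂ z₂ e₁ e₂ s l
        · exact hk (.chain₂ hl hc' le_rfl)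
        · exact hj ⟨l, hl, rfl⟩
      · exact hk (.new₂ j hjr hc' hs.1 le_rfl)

/-- The history of a particle up to time `s` is the same in both worlds if the particle is outside
the forward causal closure at time `s`. -/
theorem agree_history_of_not_fut [Finite ι₁] [Finite ι₂] (h : Pair T C₁ z₁ C₂ z₂ e₁ e₂)
    {s : ℝ} (hs : s ≤ T) {k : κ} (hk : ¬ Fut C₁ z₁ C₂ z₂ e₁ e₂ s k) {s' : ℝ} (hs' : s' ∈ Icc 0 s) :
    z₁ s' (e₁ k) = z₂ s' (e₂ k) :=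
  agree_of_not_fut h ⟨hs'.1, hs'.2.trans hs⟩ fun h => hk (h.mono hs'.2)

/-- Contacts of a particle outside the forward closure: the partner is common, outside the forward
closure and in contact in both worlds. -/
theorem contact_of_not_fut₁ [Finite ι₁] [Finite ι₂] (h : Pair T C₁ z₁ C₂ z₂ e₁ e₂)
    {s : ℝ} (hs : s ∈ Icc 0 T) {k : κ} (hk : ¬ Fut C₁ z₁ C₂ z₂ e₁ e₂ s k) {j : ι₁}
    (hc : C₁ s (e₁ k) j) :
    ∃ l, e₁ l = j ∧ ¬ Fut C₁ z₁ C₂ z₂ e₁ e₂ s l ∧ C₂ s (e₂ k) (e₂ l) := by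
  have hc' : C₁ s j (e₁ k) := h.symm₁ _ _ _ hc
  by_cases hjr : j ∈ range e₁
  · obtain ⟨l, rfl⟩ := hjr
    have hl : ¬ Fut C₁ z₁ C₂ z₂ e₁ e₂ s l := fun hl => hk (.chain₁ hl hc' le_rfl)
    exact ⟨l, rfl, hl, (h.coh s hs k l (agree_of_not_fut h hs hk) (agree_of_not_fut h hs hl)).1 hc⟩
  · exact absurd (.new₁ j hjr hc' hs.1 le_rfl) hk

theorem contact_of_not_fut₂ [Finite ι₁] [Finite ι₂] (h : Pair T C₁ z₁ C₂ z₂ e₁ e₂)
    {s : ℝ} (hs : s ∈ Icc 0 T) {k : κ} (hk : ¬ Fut C₁ z₁ C₂ z₂ e₁ e₂ s k) {j : ι₂}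
    (hc : C₂ s (e₂ k) j) :
    ∃ l, e₂ l = j ∧ ¬ Fut C₁ z₁ C₂ z₂ e₁ e₂ s l ∧ C₁ s (e₁ k) (e₁ l) := by
  have hc' : C₂ s j (e₂ k) := h.symm₂ _ _ _ hc
  by_cases hjr : j ∈ range e₂
  · obtain ⟨l, rfl⟩ := hjr
    have hl : ¬ Fut C₁ z₁ C₂ z₂ e₁ e₂ s l := fun hl => hk (.chain₂ hl hc' le_rfl)
    exact ⟨l, rfl, hl, (h.coh s hs k l (agree_of_not_fut h hs hk) (agree_of_not_fut h hs hl)).2 hc⟩
  · exact absurd (.new₂ j hjr hc' hs.1 le_rfl) hk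

/-- **The backward cluster is unchanged unless it meets the forward closure.** -/
theorem past_eq_of_disjoint [Finite ι₁] [Finite ι₂] (h : Pair T C₁ z₁ C₂ z₂ e₁ e₂)
    {t : ℝ} (ht : t ∈ Icc 0 T) {i : κ}
    (hi : ∀ s ∈ Icc 0 t, ∀ k, Past C₁ t (e₁ i) s (e₁ k) → ¬ Fut C₁ z₁ C₂ z₂ e₁ e₂ s k)
    (hcl : BC C₁ t (e₁ i) ⊆ range e₁) :
    (∀ s ∈ Icc 0 t, ∀ k ∈ ActC C₁ e₁ t i s, z₁ s (e₁ k) = z₂ s (e₂ k)) ∧
      (∀ s ∈ Icc 0 t, Act C₂ t (e₂ i) s = e₂ '' ActC C₁ e₁ t i s) := by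
  have hag : ∀ s ∈ Icc 0 t, ∀ k ∈ ActC C₁ e₁ t i s, z₁ s (e₁ k) = z₂ s (e₂ k) :=
    fun s hs k hk => agree_of_not_fut h ⟨hs.1, hs.2.trans ht.2⟩ (hi s hs k hk)
  refine compare h ht i hcl (hag 0 ⟨le_rfl, ht.1⟩) ?_
  intro s hs _ k hk j hj hc
  obtain ⟨l, rfl, _, hl⟩ := contact_of_not_fut₂ h ⟨hs.1, hs.2.trans ht.2⟩ (hi s hs k hk) hc
  exact hj ⟨l, Past.contact hk hl, rfl⟩

/-- First entrance: if `k` is in the forward closure at `s > σ` and not at `σ`, then some particle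
enters at a time in `(σ, s]` through a contact with a source or with a member at that time. -/
theorem Fut.enter {σ s : ℝ} {k : κ} (h : Fut C₁ z₁ C₂ z₂ e₁ e₂ s k) (hσ : 0 ≤ σ)
    (hk : ¬ Fut C₁ z₁ C₂ z₂ e₁ e₂ σ k) :
    ∃ s' k', σ < s' ∧ s' ≤ s ∧ ¬ Fut C₁ z₁ C₂ z₂ e₁ e₂ σ k' ∧ Fut C₁ z₁ C₂ z₂ e₁ e₂ s' k' ∧
      ((∃ j, j ∉ range e₁ ∧ C₁ s' j (e₁ k')) ∨ (∃ j, j ∉ range e₂ ∧ C₂ s' j (e₂ k')) ∨
        (∃ l, Fut C₁ z₁ C₂ z₂ e₁ e₂ σ l ∧ (C₁ s' (e₁ l) (e₁ k') ∨ C₂ s' (e₂ l) (e₂ k')))) := by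
  induction h with
  | @init s k h hs => exact absurd (.init h hσ) hk
  | @new₁ s s' k j hj hc h0 hs =>
    have h1 : σ < s' := by
      by_contra hle
      push Not at hle
      exact hk (.new₁ j hj hc h0 hle)
    exact ⟨s', k, h1, hs, hk, .new₁ j hj hc h0 le_rfl, Or.inl ⟨j, hj, hc⟩⟩
  | @new₂ s s' k j hj hc h0 hs =>
    have h1 : σ < s' := by
      by_contra hle
      push Not at hle
      exact hk (.new₂ j hj hc h0 hle)
    exact ⟨s', k, h1, hs, hk, .new₂ j hj hc h0 le_rfl, Or.inr (Or.inl ⟨j, hj, hc⟩)⟩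
  | @chain₁ s s' k l h hc hs ih =>
    by_cases hl : Fut C₁ z₁ C₂ z₂ e₁ e₂ σ l
    · have h1 : σ < s' := by
        by_contra hle
        push Not at hle
        exact hk ((Fut.chain₁ h hc le_rfl).mono hle)
      exact ⟨s', k, h1, hs, hk, .chain₁ h hc le_rfl, Or.inr (Or.inr ⟨l, hl, Or.inl hc⟩)⟩
    · obtain ⟨s'', k', h1, h2, h3, h4, h5⟩ := ih hl
      exact ⟨s'', k', h1, h2.trans hs, h3, h4, h5⟩
  | @chain₂ s s' k l h hc hs ih =>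
    by_cases hl : Fut C₁ z₁ C₂ z₂ e₁ e₂ σ l
    · have h1 : σ < s' := by
        by_contra hle
        push Not at hle
        exact hk ((Fut.chain₂ h hc le_rfl).mono hle)
      exact ⟨s', k, h1, hs, hk, .chain₂ h hc le_rfl, Or.inr (Or.inr ⟨l, hl, Or.inr hc⟩)⟩
    · obtain ⟨s'', k', h1, h2, h3, h4, h5⟩ := ih hl
      exact ⟨s'', k', h1, h2.trans hs, h3, h4, h5⟩

/-- The times of `[0, T]` at which a given particle is influenced form a closed set. -/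
theorem isClosed_fut [Finite ι₁] [Finite ι₂] [Finite κ] (he₁ : Function.Injective e₁)
    (he₂ : Function.Injective e₂)
    (hC₁ : ∀ j k, j ≠ k → IsClosed {s | s ∈ Icc 0 T ∧ C₁ s j k})
    (hC₂ : ∀ j k, j ≠ k → IsClosed {s | s ∈ Icc 0 T ∧ C₂ s j k}) (k : κ) :
    IsClosed {s | s ∈ Icc 0 T ∧ Fut C₁ z₁ C₂ z₂ e₁ e₂ s k} := by
  rw [← isSeqClosed_iff_isClosed]
  intro u σ hu hlim
  have hσT : σ ∈ Icc 0 T := isClosed_Icc.mem_of_tendsto hlim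
    (Eventually.of_forall fun n => (hu n).1)
  have hσ : 0 ≤ σ := hσT.1
  refine ⟨hσT, ?_⟩
  by_contra hk
  have hlt : ∀ n, σ < u n := by
    intro n
    by_contra h
    push Not at h
    exact hk ((hu n).2.mono h)
  -- data: the entering particle and the partner
  have hex : ∀ n, ∃ (p : κ × (ι₁ ⊕ ι₂ ⊕ (κ ⊕ κ))) (s' : ℝ), σ < s' ∧ s' ≤ u n ∧
      ¬ Fut C₁ z₁ C₂ z₂ e₁ e₂ σ p.1 ∧
      (match p.2 with
        | .inl j => j ∉ range e₁ ∧ C₁ s' j (e₁ p.1)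
        | .inr (.inl j) => j ∉ range e₂ ∧ C₂ s' j (e₂ p.1)
        | .inr (.inr (.inl l)) => Fut C₁ z₁ C₂ z₂ e₁ e₂ σ l ∧ C₁ s' (e₁ l) (e₁ p.1)
        | .inr (.inr (.inr l)) => Fut C₁ z₁ C₂ z₂ e₁ e₂ σ l ∧ C₂ s' (e₂ l) (e₂ p.1)) := by
    intro n
    obtain ⟨s', k', h1, h2, h3, _, h5⟩ := Fut.enter (hu n).2 hσ hk
    rcases h5 with ⟨j, hj, hc⟩ | ⟨j, hj, hc⟩ | ⟨l, hl, hc | hc⟩
    · exact ⟨(k', .inl j), s', h1, h2, h3, hj, hc⟩
    · exact ⟨(k', .inr (.inl j)), s', h1, h2, h3, hj, hc⟩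
    · exact ⟨(k', .inr (.inr (.inl l))), s', h1, h2, h3, hl, hc⟩
    · exact ⟨(k', .inr (.inr (.inr l))), s', h1, h2, h3, hl, hc⟩
  choose p s' h1 h2 h3 h4 using hex
  have hs' : Tendsto s' atTop (𝓝 σ) :=
    tendsto_of_tendsto_of_tendsto_of_le_of_le tendsto_const_nhds hlim (fun n => (h1 n).le) h2
  have hs'T : ∀ n, s' n ∈ Icc 0 T := fun n => ⟨hσ.trans (h1 n).le, (h2 n).trans (hu n).1.2⟩
  obtain ⟨q, hq⟩ := Finite.exists_infinite_fiber p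
  have hinf : Set.Infinite (p ⁻¹' {q}) := Set.infinite_coe_iff.1 hq
  obtain ⟨φ, hφ, hφ'⟩ := Filter.extraction_of_frequently_atTop
    (Nat.frequently_atTop_iff_infinite.2 hinf)
  have hlim' : Tendsto (fun n => s' (φ n)) atTop (𝓝 σ) := hs'.comp hφ.tendsto_atTop
  have hpq : ∀ n, p (φ n) = q := fun n => hφ' n
  obtain ⟨k', j'⟩ := q
  have h3' : ¬ Fut C₁ z₁ C₂ z₂ e₁ e₂ σ k' := by
    have := h3 (φ 0)
    rwa [hpq 0] at this
  have h4' : ∀ n, (match j' with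
        | .inl j => j ∉ range e₁ ∧ C₁ (s' (φ n)) j (e₁ k')
        | .inr (.inl j) => j ∉ range e₂ ∧ C₂ (s' (φ n)) j (e₂ k')
        | .inr (.inr (.inl l)) => Fut C₁ z₁ C₂ z₂ e₁ e₂ σ l ∧ C₁ (s' (φ n)) (e₁ l) (e₁ k')
        | .inr (.inr (.inr l)) => Fut C₁ z₁ C₂ z₂ e₁ e₂ σ l ∧ C₂ (s' (φ n)) (e₂ l) (e₂ k')) := by
    intro n
    have := h4 (φ n)
    rw [hpq n] at this
    exact this
  apply h3'
  rcases j' with j | j | l | l
  · exact .new₁ j (h4' 0).1 ((hC₁ j (e₁ k') fun h => (h4' 0).1 ⟨k', h.symm⟩).mem_of_tendsto hlim'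
      (Eventually.of_forall fun n => ⟨hs'T _, (h4' n).2⟩)).2 hσ le_rfl
  · exact .new₂ j (h4' 0).1 ((hC₂ j (e₂ k') fun h => (h4' 0).1 ⟨k', h.symm⟩).mem_of_tendsto hlim'
      (Eventually.of_forall fun n => ⟨hs'T _, (h4' n).2⟩)).2 hσ le_rfl
  · exact .chain₁ (h4' 0).1 ((hC₁ (e₁ l) (e₁ k') fun h => h3' (by
        rw [← he₁ h]; exact (h4' 0).1)).mem_of_tendsto hlim'
      (Eventually.of_forall fun n => ⟨hs'T _, (h4' n).2⟩)).2 le_rfl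
  · exact .chain₂ (h4' 0).1 ((hC₂ (e₂ l) (e₂ k') fun h => h3' (by
        rw [← he₂ h]; exact (h4' 0).1)).mem_of_tendsto hlim'
      (Eventually.of_forall fun n => ⟨hs'T _, (h4' n).2⟩)).2 le_rfl

end spread

end Crest.Agent.R122.CausalGen291
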