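import Crest.Agent.R122.Births_45
import Crest.Agent.R122.CtB_879
import Crest.Agent.R122.CausalGen_291

/-!
# Worlds with births as pairs of the abstract causal calculus (row 122, block INS, helper45)

* `BWorld.agree_own`: local uniqueness, isolation of the group measured in each world separately.
* `BWorld.pair`: two worlds with births and equal births on the common part form a `Pair` of
  `CausalGen_291` for the contact relation `CtB` of `CtB_879`.
-/

set_option autoImplicit false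
set_option linter.unusedSectionVars false

open MeasureTheory Set Filter Topology
open scoped NNReal
open Crest.AnalysisR.Kinetic
open Crest.Agent.R122.Flow671 Crest.Agent.R122.Loc45
open Crest.Agent.R122.Causal291 Crest.Agent.R122.Inf879

namespace Crest.Agent.R122.Ins45

noncomputable section

/-- **Local uniqueness for worlds with births**, isolation measured in each world: the particles of
`S` interact only with `S` and with the shared neighbours `A` (which have equal paths in both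
worlds). -/
theorem BWorld.agree_own {Φ : Space3 → ℝ} {ε : ℝ} {ι κ μ : Type*} [Fintype ι] [Fintype κ]
    (hΦ : AdmissiblePotential Φ) (hε : 0 < ε) {X : ℝ → ι → PhasePoint}
    {Y : ℝ → κ → PhasePoint} {b : ι → ℝ} {c : κ → ℝ} {t₀ t₁ : ℝ} (hX : BWorld Φ ε b t₀ X)
    (hY : BWorld Φ ε c t₁ Y) {e : μ → ι} {f : μ → κ}
    (he : Function.Injective e) (hf : Function.Injective f) {S A : Set μ} {a T : ℝ}
    (ha₀ : t₀ ≤ a) (ha₁ : t₁ ≤ a)
    (hbirth : ∀ m ∈ S ∪ A, ∀ t ∈ Ico a T, (b (e m) ≤ t ↔ c (f m) ≤ t))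
    (hA : ∀ m ∈ A, ∀ t ∈ Ico a T, X t (e m) = Y t (f m))
    (ha : ∀ m ∈ S, X a (e m) = Y a (f m))
    (hw : ∀ t ∈ Ico a T, ∀ m ∈ S, b (e m) ≤ t → ∀ k, b k ≤ t → (∀ m' ∈ S ∪ A, e m' ≠ k) →
      ε ≤ dist (X t (e m)).1 (X t k).1)
    (hw' : ∀ t ∈ Ico a T, ∀ m ∈ S, c (f m) ≤ t → ∀ k, c k ≤ t → (∀ m' ∈ S ∪ A, f m' ≠ k) →
      ε ≤ dist (Y t (f m)).1 (Y t k).1) :
    ∀ m ∈ S, ∀ t ∈ Icc a T, X t (e m) = Y t (f m) := by
  classical
  obtain ⟨L₁, hL₁, hg₁⟩ := hX.exists_level hΦ hε T
  obtain ⟨L₂, hL₂, hg₂⟩ := hY.exists_level hΦ hε T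
  set L := max L₁ L₂ with hL
  have hL0 : 0 ≤ L := hL₁.trans (le_max_left _ _)
  have hgX := hg₁ L (le_max_left _ _)
  have hgY := hg₂ L (le_max_right _ _)
  have hn := cut_nice hΦ hL0
  obtain ⟨C, hC⟩ := hn.grad_lipschitz
  have : Finite μ := Finite.of_injective e he
  have := Fintype.ofFinite μ
  have : Fintype S := Fintype.ofFinite S
  have : Fintype (S ∪ A : Set μ) := Fintype.ofFinite _
  set g : S → (S ∪ A : Set μ) := fun m => ⟨m, Or.inl m.2⟩ with hg
  have hgi : Function.Injective g := fun m m' h => Subtype.ext (by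
    have h5 : ((g m : (S ∪ A : Set μ)) : μ) = g m' := congrArg Subtype.val h
    exact h5)
  set cQ : (S ∪ A : Set μ) → ℝ := fun q => c (f q) with hcQ
  obtain ⟨K, hK⟩ := mixFieldB_lipschitz hC hε g cQ
  set u : ℝ → S → PhasePoint := fun t m => X t (e m) with hu
  set v : ℝ → S → PhasePoint := fun t m => Y t (f m) with hv
  set V : ℝ → (S → PhasePoint) → (S → PhasePoint) :=
    fun t => mixFieldB (gradient (cut Φ L)) ε g cQ t (fun q => Y t (f q)) with hV
  have huc : ContinuousOn u (Icc a T) := continuousOn_pi.2 fun m =>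
    (hX.cont_apply (e m)).mono fun t ht => ha₀.trans ht.1
  have hvc : ContinuousOn v (Icc a T) := continuousOn_pi.2 fun m =>
    (hY.cont_apply (f m)).mono fun t ht => ha₁.trans ht.1
  have hgrad : ∀ {x y : Space3}, ε ≤ dist x y → gradient (cut Φ L) ((1 / ε) • (x - y)) = 0 :=
    fun h => hn.grad_zero (one_le_norm_smul hε h)
  set eE : (S ∪ A : Set μ) ↪ ι := ⟨fun q => e q, fun q q' h => Subtype.ext (he h)⟩ with heE
  set fE : (S ∪ A : Set μ) ↪ κ := ⟨fun q => f q, fun q q' h => Subtype.ext (hf h)⟩ with hfE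
  -- `Y` restricted to `S` solves the mixed equation
  have hvd : ∀ t ∈ Ico a T, HasDerivWithinAt v (V t (v t)) (Ici t) t := by
    intro t ht
    have h1 := hY.der t (ha₁.trans ht.1)
    rw [BWorld.bf_eq_cut hΦ hL0 (hgY t ⟨ha₁.trans ht.1, ht.2.le⟩), hasDerivWithinAt_pi] at h1
    rw [hasDerivWithinAt_pi]
    intro m
    have h2 : V t (v t) m = bf (cut Φ L) ε c t (Y t) (f m) := by
      simp only [hV, mixFieldB, bf, hv, hcQ]
      refine Prod.ext rfl ?_
      simp only
      by_cases hm : c (f m) ≤ t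
      swap
      · rw [if_neg hm, if_neg hm]
      rw [if_pos hm, if_pos hm]
      congr 1
      rw [← Finset.sum_subset (Finset.subset_univ (Finset.univ.map fE)), Finset.sum_map]
      · refine Finset.sum_congr rfl fun q _ => ?_
        have h3 : mixPos g (fun q : (S ∪ A : Set μ) => Y t (f q)) (fun m : S => Y t (f m)) q
            = (Y t (f q)).1 :=
          mixPos_self g (fun q : (S ∪ A : Set μ) => Y t (f q)) q
        rw [h3]
        rfl
      · intro k _ hk
        split_ifs with hkb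
        swap
        · rfl
        refine hgrad (hw' t ht m m.2 hm k hkb fun m' hm' h => hk ?_)
        rw [Finset.mem_map]
        exact ⟨⟨m', hm'⟩, Finset.mem_univ _, h⟩
    rw [h2]
    exact h1 (f m)
  -- `X` restricted to `S` solves the mixed equation
  have hud : ∀ t ∈ Ico a T, HasDerivWithinAt u (V t (u t)) (Ici t) t := by
    intro t ht
    have h1 := hX.der t (ha₀.trans ht.1)
    rw [BWorld.bf_eq_cut hΦ hL0 (hgX t ⟨ha₀.trans ht.1, ht.2.le⟩), hasDerivWithinAt_pi] at h1
    rw [hasDerivWithinAt_pi]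
    intro m
    have h2 : V t (u t) m = bf (cut Φ L) ε b t (X t) (e m) := by
      simp only [hV, mixFieldB, bf, hu, hcQ]
      refine Prod.ext rfl ?_
      simp only
      have hmb : b (e m) ≤ t ↔ c (f m) ≤ t := hbirth m (Or.inl m.2) t ht
      by_cases hm : b (e m) ≤ t
      swap
      · rw [if_neg hm, if_neg fun h => hm (hmb.2 h)]
      rw [if_pos hm, if_pos (hmb.1 hm)]
      congr 1
      rw [← Finset.sum_subset (Finset.subset_univ (Finset.univ.map eE)), Finset.sum_map]
      · refine Finset.sum_congr rfl fun q _ => ?_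
        have hqb : b (e q) ≤ t ↔ c (f q) ≤ t := hbirth q q.2 t ht
        have h3 : (if b (e q) ≤ t then gradient (cut Φ L)
            ((1 / ε) • ((X t (e m)).1 - (X t (e q)).1)) else 0) =
            (if b (eE q) ≤ t then gradient (cut Φ L)
            ((1 / ε) • ((X t (e m)).1 - (X t (eE q)).1)) else 0) := rfl
        rw [← h3]
        by_cases hbm : b (e q) ≤ t
        swap
        · rw [if_neg hbm, if_neg fun h => hbm (hqb.2 h)]
        rw [if_pos hbm, if_pos (hqb.1 hbm)]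
        congr 2
        congr 1
        by_cases hS : (q : μ) ∈ S
        · have h4 : q = g ⟨q, hS⟩ := rfl
          conv_lhs => rw [h4]
          rw [mixPos_mem hgi]
        · rw [mixPos_not_mem g _ _ fun m₁ h => hS (by
            rw [← congrArg Subtype.val h]; exact m₁.2)]
          rw [← hA q (q.2.resolve_left hS) t ht]
      · intro k _ hk
        split_ifs with hkb
        swap
        · rfl
        refine hgrad (hw t ht m m.2 hm k hkb fun m' hm' h => hk ?_)
        rw [Finset.mem_map]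
        exact ⟨⟨m', hm'⟩, Finset.mem_univ _, h⟩
    rw [h2]
    exact h1 (e m)
  have key : EqOn u v (Icc a T) := by
    refine ODE_solution_unique (v := V) (K := K) (fun t => hK t _) huc hud hvc hvd ?_
    funext m
    exact ha m m.2
  intro m hm t ht
  exact congrFun (key ht) ⟨m, hm⟩

/-- Two alive particles which are not in contact during `[a, T]` keep distance at least `ε` on
`[a, T)`. -/
theorem BWorld.le_dist_of_not_ctB {Φ : Space3 → ℝ} {ε : ℝ} {ι : Type*} [Fintype ι] {b : ι → ℝ}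
    {t₀ : ℝ} {X : ℝ → ι → PhasePoint} (hX : BWorld Φ ε b t₀ X) {j k : ι} {t T : ℝ} (ht₀ : t₀ ≤ t)
    (htT : t < T) (hj : b j ≤ t) (hk : b k ≤ t) (h : ∀ s ∈ Ioo t T, ¬ CtB b X ε s j k) :
    ε ≤ dist (X t j).1 (X t k).1 := by
  have h1 : ∀ s ∈ Ioo t T, ε ≤ dist (X s j).1 (X s k).1 := by
    intro s hs
    by_contra hlt
    push Not at hlt
    exact h s hs ⟨hj.trans hs.1.le, hk.trans hs.1.le, Or.inr (Or.inl (hj.trans_lt hs.1)), hlt.le⟩
  have h3 : ContinuousOn (fun s => dist (X s j).1 (X s k).1) (Ici t₀) :=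
    continuous_dist.comp_continuousOn ((hX.cont_pos j).prodMk (hX.cont_pos k))
  have h2 : ContinuousWithinAt (fun s => dist (X s j).1 (X s k).1) (Ioo t T) t :=
    (h3 t ht₀).mono fun s hs => ht₀.trans hs.1.le
  have : (𝓝[Ioo t T] t).NeBot := by
    rw [← mem_closure_iff_nhdsWithin_neBot, closure_Ioo htT.ne]
    exact ⟨le_rfl, htT.le⟩
  exact ge_of_tendsto h2 (eventually_nhdsWithin_of_forall h1)

/-- **Instance of the abstract calculus**: two worlds with births which are equal on the common part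
form a pair. -/
theorem BWorld.pair {Φ : Space3 → ℝ} {ε : ℝ} {ι₁ ι₂ κ : Type} [Fintype ι₁] [Fintype ι₂]
    (hΦ : AdmissiblePotential Φ) (hε : 0 < ε) {b₁ : ι₁ → ℝ} {b₂ : ι₂ → ℝ}
    {X₁ : ℝ → ι₁ → PhasePoint} {X₂ : ℝ → ι₂ → PhasePoint} (h₁ : BWorld Φ ε b₁ 0 X₁)
    (h₂ : BWorld Φ ε b₂ 0 X₂) {e₁ : κ → ι₁} {e₂ : κ → ι₂} (he₁ : Function.Injective e₁)
    (he₂ : Function.Injective e₂) (hb : ∀ k, b₁ (e₁ k) = b₂ (e₂ k))
    (hs₁ : BirthSep b₁ X₁ ε) (hs₂ : BirthSep b₂ X₂ ε) (T : ℝ) :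
    CausalGen291.Pair T (CtB b₁ X₁ ε) X₁ (CtB b₂ X₂ ε) X₂ e₁ e₂ where
  inj₁ := he₁
  inj₂ := he₂
  symm₁ _ _ _ h := h.symm
  symm₂ _ _ _ h := h.symm
  closed₁ j k _ := isClosed_ctB_Icc (fun i => (h₁.cont_pos i).mono Icc_subset_Ici_self) hs₁ j k
  closed₂ j k _ := isClosed_ctB_Icc (fun i => (h₂.cont_pos i).mono Icc_subset_Ici_self) hs₂ j k
  eqc k := by
    have h : {s | s ∈ Icc 0 T ∧ X₁ s (e₁ k) = X₂ s (e₂ k)} = Icc 0 T ∩
        (fun s => (X₁ s (e₁ k), X₂ s (e₂ k))) ⁻¹' {p : PhasePoint × PhasePoint | p.1 = p.2} := rfl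
    rw [h]
    refine ContinuousOn.preimage_isClosed_of_isClosed ?_ isClosed_Icc
      (isClosed_eq continuous_fst continuous_snd)
    exact ((h₁.cont_apply (e₁ k)).mono Icc_subset_Ici_self).prodMk
      ((h₂.cont_apply (e₂ k)).mono Icc_subset_Ici_self)
  loc G a b ha hab hbT hc₁ hc₂ h0 s hs k hk := by
    refine BWorld.agree_own hΦ hε h₁ h₂ he₁ he₂ (S := G) (A := ∅) (a := a) (T := b) ha ha
      (fun m _ t _ => by rw [hb m]) (fun _ h => absurd h (notMem_empty _)) h0 ?_ ?_ k hk s hs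
    · intro t ht m hm hbm j hbj hne
      refine h₁.le_dist_of_not_ctB (ha.trans ht.1) ht.2 hbm hbj fun r hr hc => ?_
      refine hc₁ r ⟨ht.1.trans hr.1.le, hr.2.le⟩ m hm j ?_ hc
      rintro ⟨m', hm', rfl⟩
      exact hne m' (Or.inl hm') rfl
    · intro t ht m hm hbm j hbj hne
      refine h₂.le_dist_of_not_ctB (ha.trans ht.1) ht.2 hbm hbj fun r hr hc => ?_
      refine hc₂ r ⟨ht.1.trans hr.1.le, hr.2.le⟩ m hm j ?_ hc
      rintro ⟨m', hm', rfl⟩
      exact hne m' (Or.inl hm') rfl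
  coh s _ k l hk hl := by
    refine ctB_congr ⟨fun h => ?_, fun h => ?_⟩ (hb k) (hb l) (by rw [hk]) (by rw [hl])
    · rw [he₁ h]
    · rw [he₂ h]

end

end Crest.Agent.R122.Ins45
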