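import Crest.Agent.R122.CausalGenInf_291

/-!
# Causal calculus for abstract contact relations (row 122, block F4): three and four worlds

* `fut_trans`, `touched_trans`: worlds `Z ⊆ Z+A ⊆ Z+A+B`:
  `F(Z, A ∪ B; s) ⊆ F(Z, A; s) ∪ F(Z+A, B; s)` and the same for touches.
* `fut_mid`, `touched_mid`: a world `Z₀` contained in two worlds `Z₁`, `Z₂`:
  the difference of `Z₁` and `Z₂` spreads inside `F(Z₀, Z₁) ∪ F(Z₀, Z₂)`.
* `Four`: four worlds `Z`, `Z+A`, `Z+L`, `Z+A+L` with unlinked influences: glueing, histories, world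
  consistency (`Four.agreeAt_iff`, `Four.fut_iff`, `Four.touched_iff`), closed-end form.
-/

set_option autoImplicit false

open Set Filter Topology

namespace Crest.Agent.R122.CausalGen291

open Crest.Agent.R122.Causal291

/-! ### Chains of worlds -/

section trans

variable {κ ι₂ ι₃ : Type} {X : Type*}
variable {C₁ : ℝ → κ → κ → Prop} {C₂ : ℝ → ι₂ → ι₂ → Prop} {C₃ : ℝ → ι₃ → ι₃ → Prop}
variable {z₁ : ℝ → κ → X} {z₂ : ℝ → ι₂ → X} {z₃ : ℝ → ι₃ → X} {e : κ → ι₂} {f : ι₂ → ι₃}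
variable {a T : ℝ} {P₁ : ℝ → κ → Prop} {P₂ : ℝ → ι₂ → Prop} {P₃ : ℝ → ι₃ → Prop}

/-- Composition of pairs `1 ⊆ 2 ⊆ 3` for influences. -/
theorem fut_trans [Finite κ] [Finite ι₂] [Finite ι₃]
    (h12 : Pair T C₁ z₁ C₂ z₂ id e) (h23 : Pair T C₂ z₂ C₃ z₃ id f) {s : ℝ} (hs : s ≤ T) {k : κ}
    (hk : Fut C₁ z₁ C₃ z₃ id (f ∘ e) s k) :
    Fut C₁ z₁ C₂ z₂ id e s k ∨ Fut C₂ z₂ C₃ z₃ id f s (e k) := by
  induction hk with
  | @init s k h h0 =>
    by_cases h1 : z₁ 0 (id k) = z₂ 0 (e k)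
    · refine Or.inr (.init ?_ h0)
      intro h2
      exact h (h1.trans h2)
    · exact Or.inl (.init h1 h0)
  | new₁ j hj _ _ _ => exact absurd ⟨j, rfl⟩ hj
  | @new₂ s s' k j hj hc h0 hss' =>
    have hs'T : s' ∈ Icc 0 T := ⟨h0, hss'.trans hs⟩
    by_cases hk2 : Fut C₂ z₂ C₃ z₃ id f s' (e k)
    · exact Or.inr (hk2.mono hss')
    · obtain ⟨x, rfl, hx, hcx⟩ := contact_of_not_fut₂ h23 hs'T hk2 (h23.symm₂ _ _ _ hc)
      refine Or.inl (Fut.new₂ (e₁ := id) (e₂ := e) (k := k) x ?_ (h12.symm₂ _ _ _ hcx) h0 hss')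
      rintro ⟨l, rfl⟩
      exact hj ⟨l, rfl⟩
  | @chain₁ s s' k l h hc hss' ih =>
    have hs'T : s' ∈ Icc 0 T := ⟨h.nonneg, hss'.trans hs⟩
    rcases ih hs'T.2 with h1 | h2
    · exact Or.inl (.chain₁ h1 hc hss')
    · by_cases hk1 : Fut C₁ z₁ C₂ z₂ id e s' k
      · exact Or.inl (hk1.mono hss')
      · obtain ⟨m, hm, _, hcm⟩ := contact_of_not_fut₁ h12 hs'T hk1 (h12.symm₁ _ _ _ hc)
        have hml : m = l := hm
        subst hml
        exact Or.inr ((Fut.chain₁ h2 (h12.symm₂ _ _ _ hcm) le_rfl).mono hss')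
  | @chain₂ s s' k l h hc hss' ih =>
    have hs'T : s' ∈ Icc 0 T := ⟨h.nonneg, hss'.trans hs⟩
    rcases ih hs'T.2 with h1 | h2
    · by_cases hk2 : Fut C₂ z₂ C₃ z₃ id f s' (e k)
      · exact Or.inr (hk2.mono hss')
      · obtain ⟨x, hx, _, hcx⟩ := contact_of_not_fut₂ h23 hs'T hk2 (h23.symm₂ _ _ _ hc)
        have hxl : x = e l := h23.inj₂ hx
        subst hxl
        exact Or.inl ((Fut.chain₂ h1 (h12.symm₂ _ _ _ hcx) le_rfl).mono hss')
    · exact Or.inr ((Fut.chain₂ h2 hc le_rfl).mono hss')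

/-- Composition of pairs for touches: `theta(Z, A ∪ B) ≥ min (theta(Z, A)) (theta(Z+A, B))`. -/
theorem touched_trans [Finite κ] [Finite ι₂] [Finite ι₃]
    (h12 : Pair T C₁ z₁ C₂ z₂ id e) (h23 : Pair T C₂ z₂ C₃ z₃ id f) (ha : 0 ≤ a)
    (coh12 : ∀ s ∈ Icc a T, ∀ k, HistEq C₁ z₁ C₂ z₂ id e s k → (P₁ s k ↔ P₂ s (e k)))
    (coh23 : ∀ s ∈ Icc a T, ∀ k, HistEq C₂ z₂ C₃ z₃ id f s k → (P₂ s k ↔ P₃ s (f k)))
    {s : ℝ} (hs : s ∈ Icc a T) (h : Touched C₁ z₁ C₃ z₃ id (f ∘ e) P₁ P₃ s) :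
    Touched C₁ z₁ C₂ z₂ id e P₁ P₂ s ∨ Touched C₂ z₂ C₃ z₃ id f P₂ P₃ s := by
  have hsT : s ∈ Icc 0 T := ⟨ha.trans hs.1, hs.2⟩
  rcases h with ⟨k, hk, hP⟩ | ⟨j, hj, _⟩ | ⟨j, hj, hP⟩
  · by_cases h1 : Fut C₁ z₁ C₂ z₂ id e s k
    · by_cases h2 : Fut C₂ z₂ C₃ z₃ id f s (e k)
      · rcases hP with hP | hP
        · exact Or.inl (Or.inl ⟨k, h1, Or.inl hP⟩)
        · exact Or.inr (Or.inl ⟨e k, h2, Or.inr hP⟩)
      · rcases hP with hP | hP
        · exact Or.inl (Or.inl ⟨k, h1, Or.inl hP⟩)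
        · refine Or.inl (Or.inl ⟨k, h1, Or.inr ?_⟩)
          exact (coh23 s hs (e k) (histEq_of_not_fut h23 hsT h2)).2 hP
    · have h2 : Fut C₂ z₂ C₃ z₃ id f s (e k) := (fut_trans h12 h23 hs.2 hk).resolve_left h1
      rcases hP with hP | hP
      · refine Or.inr (Or.inl ⟨e k, h2, Or.inl ?_⟩)
        exact (coh12 s hs k (histEq_of_not_fut h12 hsT h1)).1 hP
      · exact Or.inr (Or.inl ⟨e k, h2, Or.inr hP⟩)
  · exact absurd ⟨j, rfl⟩ hj
  · by_cases hjf : j ∈ range f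
    · obtain ⟨x, rfl⟩ := hjf
      have hx : x ∉ range e := by
        rintro ⟨k, rfl⟩
        exact hj ⟨k, rfl⟩
      by_cases h2 : Fut C₂ z₂ C₃ z₃ id f s x
      · exact Or.inr (Or.inl ⟨x, h2, Or.inr hP⟩)
      · refine Or.inl (Or.inr (Or.inr ⟨x, hx, ?_⟩))
        exact (coh23 s hs x (histEq_of_not_fut h23 hsT h2)).2 hP
    · exact Or.inr (Or.inr (Or.inr ⟨j, hjf, hP⟩))

end trans

/-! ### A world contained in two worlds -/

section mid

variable {κ ι₁ ι₂ : Type} {X : Type*}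
variable {C₀ : ℝ → κ → κ → Prop} {C₁ : ℝ → ι₁ → ι₁ → Prop} {C₂ : ℝ → ι₂ → ι₂ → Prop}
variable {z₀ : ℝ → κ → X} {z₁ : ℝ → ι₁ → X} {z₂ : ℝ → ι₂ → X} {e₁ : κ → ι₁} {e₂ : κ → ι₂}
variable {a T : ℝ} {P₀ : ℝ → κ → Prop} {P₁ : ℝ → ι₁ → Prop} {P₂ : ℝ → ι₂ → Prop}

/-- The difference of two worlds `Z₁`, `Z₂` containing `Z₀` spreads inside the union of the two
influences. -/
theorem fut_mid [Finite κ] [Finite ι₁] [Finite ι₂]
    (h01 : Pair T C₀ z₀ C₁ z₁ id e₁) (h02 : Pair T C₀ z₀ C₂ z₂ id e₂) {s : ℝ} (hs : s ≤ T) {k : κ}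
    (hk : Fut C₁ z₁ C₂ z₂ e₁ e₂ s k) :
    Fut C₀ z₀ C₁ z₁ id e₁ s k ∨ Fut C₀ z₀ C₂ z₂ id e₂ s k := by
  induction hk with
  | @init s k h h0 =>
    by_cases h1 : z₀ 0 (id k) = z₁ 0 (e₁ k)
    · refine Or.inr (.init ?_ h0)
      intro h2
      exact h (h1.symm.trans h2)
    · exact Or.inl (.init h1 h0)
  | new₁ j hj hc h0 hss' => exact Or.inl (.new₂ j hj hc h0 hss')
  | new₂ j hj hc h0 hss' => exact Or.inr (.new₂ j hj hc h0 hss')
  | @chain₁ s s' k l h hc hss' ih =>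
    have hs'T : s' ∈ Icc 0 T := ⟨h.nonneg, hss'.trans hs⟩
    rcases ih hs'T.2 with h1 | h2
    · exact Or.inl (.chain₂ h1 hc hss')
    · by_cases hk1 : Fut C₀ z₀ C₁ z₁ id e₁ s' k
      · exact Or.inl (hk1.mono hss')
      · obtain ⟨m, hm, _, hcm⟩ := contact_of_not_fut₂ h01 hs'T hk1 (h01.symm₂ _ _ _ hc)
        have hml : m = l := h01.inj₂ hm
        subst hml
        exact Or.inr ((Fut.chain₁ h2 (h01.symm₁ _ _ _ hcm) le_rfl).mono hss')
  | @chain₂ s s' k l h hc hss' ih =>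
    have hs'T : s' ∈ Icc 0 T := ⟨h.nonneg, hss'.trans hs⟩
    rcases ih hs'T.2 with h1 | h2
    · by_cases hk2 : Fut C₀ z₀ C₂ z₂ id e₂ s' k
      · exact Or.inr (hk2.mono hss')
      · obtain ⟨m, hm, _, hcm⟩ := contact_of_not_fut₂ h02 hs'T hk2 (h02.symm₂ _ _ _ hc)
        have hml : m = l := h02.inj₂ hm
        subst hml
        exact Or.inl ((Fut.chain₁ h1 (h02.symm₁ _ _ _ hcm) le_rfl).mono hss')
    · exact Or.inr ((Fut.chain₂ h2 hc le_rfl).mono hss')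

/-- The same for touches. -/
theorem touched_mid [Finite κ] [Finite ι₁] [Finite ι₂]
    (h01 : Pair T C₀ z₀ C₁ z₁ id e₁) (h02 : Pair T C₀ z₀ C₂ z₂ id e₂) (ha : 0 ≤ a)
    (coh01 : ∀ s ∈ Icc a T, ∀ k, HistEq C₀ z₀ C₁ z₁ id e₁ s k → (P₀ s k ↔ P₁ s (e₁ k)))
    (coh02 : ∀ s ∈ Icc a T, ∀ k, HistEq C₀ z₀ C₂ z₂ id e₂ s k → (P₀ s k ↔ P₂ s (e₂ k)))
    {s : ℝ} (hs : s ∈ Icc a T) (h : Touched C₁ z₁ C₂ z₂ e₁ e₂ P₁ P₂ s) :
    Touched C₀ z₀ C₁ z₁ id e₁ P₀ P₁ s ∨ Touched C₀ z₀ C₂ z₂ id e₂ P₀ P₂ s := by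
  have hsT : s ∈ Icc 0 T := ⟨ha.trans hs.1, hs.2⟩
  rcases h with ⟨k, hk, hP⟩ | ⟨j, hj, hP⟩ | ⟨j, hj, hP⟩
  · by_cases h1 : Fut C₀ z₀ C₁ z₁ id e₁ s k
    · by_cases h2 : Fut C₀ z₀ C₂ z₂ id e₂ s k
      · rcases hP with hP | hP
        · exact Or.inl (Or.inl ⟨k, h1, Or.inr hP⟩)
        · exact Or.inr (Or.inl ⟨k, h2, Or.inr hP⟩)
      · rcases hP with hP | hP
        · exact Or.inl (Or.inl ⟨k, h1, Or.inr hP⟩)
        · refine Or.inl (Or.inl ⟨k, h1, Or.inl ?_⟩)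
          exact (coh02 s hs k (histEq_of_not_fut h02 hsT h2)).2 hP
    · have h2 : Fut C₀ z₀ C₂ z₂ id e₂ s k := (fut_mid h01 h02 hs.2 hk).resolve_left h1
      rcases hP with hP | hP
      · refine Or.inr (Or.inl ⟨k, h2, Or.inl ?_⟩)
        exact (coh01 s hs k (histEq_of_not_fut h01 hsT h1)).2 hP
      · exact Or.inr (Or.inl ⟨k, h2, Or.inr hP⟩)
  · exact Or.inl (Or.inr (Or.inr ⟨j, hj, hP⟩))
  · exact Or.inr (Or.inr (Or.inr ⟨j, hj, hP⟩))

end mid

/-! ### Four worlds -/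

/-- Four worlds over `κ` (base `Z`), `ιA` (`Z+A`), `ιL` (`Z+L`), `ι` (`Z+A+L`). `CX` is a contact
relation between particles of `Z+A` and particles of `Z+L` (positions taken in the two worlds). -/
structure Four (κ ιA ιL ι : Type) (X : Type*) where
  C₀ : ℝ → κ → κ → Prop
  CA : ℝ → ιA → ιA → Prop
  CL : ℝ → ιL → ιL → Prop
  C : ℝ → ι → ι → Prop
  CX : ℝ → ιA → ιL → Prop
  z₀ : ℝ → κ → X
  zA : ℝ → ιA → X
  zL : ℝ → ιL → X
  z : ℝ → ι → X
  eA : κ → ιA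
  eL : κ → ιL
  fA : ιA → ι
  fL : ιL → ι
  eA_inj : Function.Injective eA
  eL_inj : Function.Injective eL
  fA_inj : Function.Injective fA
  fL_inj : Function.Injective fL
  comm : ∀ k, fA (eA k) = fL (eL k)
  cover : ∀ j, j ∈ range fA ∨ j ∈ range fL
  pull : ∀ x y, fA x = fL y → ∃ k, x = eA k ∧ y = eL k

namespace Four

variable {κ ιA ιL ι : Type} {X : Type*}

/-- The symmetric system (roles of `A` and `L` exchanged). -/
def swap (F : Four κ ιA ιL ι X) : Four κ ιL ιA ι X where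
  C₀ := F.C₀
  CA := F.CL
  CL := F.CA
  C := F.C
  CX := fun s y x => F.CX s x y
  z₀ := F.z₀
  zA := F.zL
  zL := F.zA
  z := F.z
  eA := F.eL
  eL := F.eA
  fA := F.fL
  fL := F.fA
  eA_inj := F.eL_inj
  eL_inj := F.eA_inj
  fA_inj := F.fL_inj
  fL_inj := F.fA_inj
  comm := fun k => (F.comm k).symm
  cover := fun j => (F.cover j).symm
  pull := fun x y h => by
    obtain ⟨k, hk, hk'⟩ := F.pull y x h.symm
    exact ⟨k, hk', hk⟩

/-- Forward closure of `A` with respect to `Z`. -/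
def FA (F : Four κ ιA ιL ι X) (s : ℝ) : Set κ := {k | Fut F.C₀ F.z₀ F.CA F.zA id F.eA s k}

/-- Forward closure of `L` with respect to `Z`. -/
def FL (F : Four κ ιA ιL ι X) (s : ℝ) : Set κ := {k | Fut F.C₀ F.z₀ F.CL F.zL id F.eL s k}

/-- `A` and the particles influenced by `A`, in `Z+A`. -/
def IA (F : Four κ ιA ιL ι X) (s : ℝ) : Set ιA := {x | ∀ k, x = F.eA k → k ∈ F.FA s}

/-- `L` and the particles influenced by `L`, in `Z+L`. -/
def IL (F : Four κ ιA ιL ι X) (s : ℝ) : Set ιL := {y | ∀ k, y = F.eL k → k ∈ F.FL s}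

theorem swap_FA (F : Four κ ιA ιL ι X) (s : ℝ) : F.swap.FA s = F.FL s := rfl
theorem swap_FL (F : Four κ ιA ιL ι X) (s : ℝ) : F.swap.FL s = F.FA s := rfl
theorem swap_IA (F : Four κ ιA ιL ι X) (s : ℝ) : F.swap.IA s = F.IL s := rfl
theorem swap_IL (F : Four κ ιA ιL ι X) (s : ℝ) : F.swap.IL s = F.IA s := rfl

/-- The influences of `A` and `L` are unlinked on `[0, T]` (closed end). -/
structure Unlinked (F : Four κ ιA ιL ι X) (T : ℝ) : Prop where
  disj : ∀ s ∈ Icc 0 T, ∀ k, k ∈ F.FA s → k ∉ F.FL s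
  far : ∀ s ∈ Icc 0 T, ∀ x ∈ F.IA s, ∀ y ∈ F.IL s, ¬ F.CX s x y

/-- Dynamical hypotheses: all pairs, equal initial data, coherence of cross contacts. -/
structure Dyn (F : Four κ ιA ιL ι X) (T : ℝ) : Prop where
  p₀A : Pair T F.C₀ F.z₀ F.CA F.zA id F.eA
  p₀L : Pair T F.C₀ F.z₀ F.CL F.zL id F.eL
  pA : Pair T F.CA F.zA F.C F.z id F.fA
  pL : Pair T F.CL F.zL F.C F.z id F.fL
  initA : ∀ x, F.zA 0 x = F.z 0 (F.fA x)
  initL : ∀ y, F.zL 0 y = F.z 0 (F.fL y)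
  cohX : ∀ s ∈ Icc 0 T, ∀ x y, F.zA s x = F.z s (F.fA x) → F.zL s y = F.z s (F.fL y) →
    F.C s (F.fA x) (F.fL y) → F.CX s x y

variable {F : Four κ ιA ιL ι X} {T : ℝ}

theorem Unlinked.swap (h : F.Unlinked T) : F.swap.Unlinked T where
  disj := fun s hs k hk hk' => h.disj s hs k hk' hk
  far := fun s hs x hx y hy => h.far s hs y hy x hx

theorem Dyn.swap (h : F.Dyn T) : F.swap.Dyn T where
  p₀A := h.p₀L
  p₀L := h.p₀A
  pA := h.pL
  pL := h.pA
  initA := h.initL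
  initL := h.initA
  cohX := fun s hs x y hx hy hc => h.cohX s hs y x hy hx (h.pA.symm₂ _ _ _ hc)

theorem Unlinked.mono (h : F.Unlinked T) {T' : ℝ} (hT : T' ≤ T) : F.Unlinked T' where
  disj := fun s hs => h.disj s ⟨hs.1, hs.2.trans hT⟩
  far := fun s hs => h.far s ⟨hs.1, hs.2.trans hT⟩

theorem Dyn.mono (h : F.Dyn T) {T' : ℝ} (hT : T' ≤ T) : F.Dyn T' where
  p₀A := h.p₀A.mono hT
  p₀L := h.p₀L.mono hT
  pA := h.pA.mono hT
  pL := h.pL.mono hT
  initA := h.initA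
  initL := h.initL
  cohX := fun s hs => h.cohX s ⟨hs.1, hs.2.trans hT⟩

theorem FA_mono {s s' : ℝ} (h : s ≤ s') : F.FA s ⊆ F.FA s' := fun _ hk => Fut.mono hk h

theorem FL_mono {s s' : ℝ} (h : s ≤ s') : F.FL s ⊆ F.FL s' := fun _ hk => Fut.mono hk h

variable [Finite κ] [Finite ιA] [Finite ιL] [Finite ι]

omit [Finite ιL] [Finite ι] in
/-- Outside `FA` the worlds `Z` and `Z+A` agree. -/
theorem agreeA (hd : F.Dyn T) {s : ℝ} (hs : s ∈ Icc 0 T) {k : κ} (hk : k ∉ F.FA s) :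
    F.z₀ s k = F.zA s (F.eA k) := agree_of_not_fut hd.p₀A hs hk

omit [Finite ιA] [Finite ι] in
theorem agreeL (hd : F.Dyn T) {s : ℝ} (hs : s ∈ Icc 0 T) {k : κ} (hk : k ∉ F.FL s) :
    F.z₀ s k = F.zL s (F.eL k) := agree_of_not_fut hd.p₀L hs hk

omit [Finite ιL] [Finite ι] in
/-- In `Z+A`, the particles influenced by `L` (in `Z+L`) are not in contact with all other
particles. -/
theorem isoA (hd : F.Dyn T) (hu : F.Unlinked T) {s : ℝ} (hs : s ∈ Icc 0 T) {x y : ιA}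
    (hx : ∀ k, x = F.eA k → k ∉ F.FL s) (hy : ¬ ∀ k, y = F.eA k → k ∉ F.FL s) :
    ¬ F.CA s x y := by
  push Not at hy
  obtain ⟨l, rfl, hl⟩ := hy
  intro hc
  have hlA : l ∉ F.FA s := fun h => hu.disj s hs l h hl
  obtain ⟨k, hk, hkA, hk'⟩ := contact_of_not_fut₂ hd.p₀A hs hlA (hd.p₀A.symm₂ _ _ _ hc)
  exact hx k hk.symm (.chain₁ (e₁ := id) hl hk' le_rfl)

omit [Finite κ] [Finite ιA] [Finite ιL] [Finite ι] in
/-- In the glued world, at a time at which it is known to be glued, the particles of `Z+A` not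
influenced by `L` are isolated from all others. -/
theorem isoZ (hd : F.Dyn T) (hu : F.Unlinked T) {s : ℝ} (hs : s ∈ Icc 0 T)
    (hA : ∀ x, (∀ k, x = F.eA k → k ∉ F.FL s) → F.zA s x = F.z s (F.fA x))
    (hL : ∀ y, (∀ k, y = F.eL k → k ∉ F.FA s) → F.zL s y = F.z s (F.fL y))
    {x : ιA} (hx : ∀ k, x = F.eA k → k ∉ F.FL s) {j : ι}
    (hj : ∀ x', (∀ k, x' = F.eA k → k ∉ F.FL s) → F.fA x' ≠ j) :
    ¬ F.C s (F.fA x) j := by
  -- `j` is influenced by `L` or belongs to `L`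
  have hjL : ∃ y ∈ F.IL s, j = F.fL y := by
    rcases F.cover j with ⟨x', rfl⟩ | ⟨y, rfl⟩
    · have : ¬ ∀ k, x' = F.eA k → k ∉ F.FL s := fun h => hj x' h rfl
      push Not at this
      obtain ⟨k, rfl, hk⟩ := this
      refine ⟨F.eL k, ?_, F.comm k⟩
      intro k' hk'
      rw [← F.eL_inj hk']
      exact hk
    · by_cases hy : y ∈ range F.eL
      · obtain ⟨k, rfl⟩ := hy
        refine ⟨F.eL k, ?_, rfl⟩
        intro k' hk'
        rw [← F.eL_inj hk']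
        by_contra hk
        exact hj (F.eA k) (fun k'' hk'' => by rw [← F.eA_inj hk'']; exact hk) (F.comm k)
      · exact ⟨y, fun k hk => absurd ⟨k, hk.symm⟩ hy, rfl⟩
  obtain ⟨y, hyL, rfl⟩ := hjL
  have hyA : ∀ k, y = F.eL k → k ∉ F.FA s := fun k hk hkA => hu.disj s hs k hkA (hyL k hk)
  intro hc
  by_cases hxA : x ∈ F.IA s
  · exact hu.far s hs x hxA y hyL (hd.cohX s hs x y (hA x hx) (hL y hyA) hc)
  · simp only [IA, mem_ofPred_eq, not_forall] at hxA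
    obtain ⟨k, rfl, hk⟩ := hxA
    have hkL := hx k rfl
    rw [F.comm k] at hc
    have hk' : F.zL s (F.eL k) = F.z s (F.fL (F.eL k)) :=
      hL (F.eL k) (fun k' hk' => by rw [← F.eL_inj hk']; exact hk)
    have hcL : F.CL s (F.eL k) y := (hd.pL.coh s hs (F.eL k) y hk' (hL y hyA)).2 hc
    apply hkL
    by_cases hyr : y ∈ range F.eL
    · obtain ⟨l, rfl⟩ := hyr
      exact .chain₂ (hyL l rfl) (hd.pL.symm₁ _ _ _ hcL) le_rfl
    · exact .new₂ y hyr (hd.pL.symm₁ _ _ _ hcL) hs.1 le_rfl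

/-- **Glueing.** Under unlinked influences the world `Z+A+L` agrees with `Z+A` outside the influence
of `L`, and with `Z+L` outside the influence of `A`. -/
theorem glue (hd : F.Dyn T) (hu : F.Unlinked T) :
    (∀ s ∈ Icc 0 T, ∀ x, (∀ k, x = F.eA k → k ∉ F.FL s) → F.zA s x = F.z s (F.fA x)) ∧
    (∀ s ∈ Icc 0 T, ∀ y, (∀ k, y = F.eL k → k ∉ F.FA s) → F.zL s y = F.z s (F.fL y)) := by
  rcases lt_or_ge T 0 with hT | hT
  · exact ⟨fun s hs => absurd (hs.1.trans hs.2) (not_le.2 hT),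
      fun s hs => absurd (hs.1.trans hs.2) (not_le.2 hT)⟩
  let SA : ℝ → Set ιA := fun s => {x | ∀ k, x = F.eA k → k ∉ F.FL s}
  let SL : ℝ → Set ιL := fun s => {y | ∀ k, y = F.eL k → k ∉ F.FA s}
  have hSA : ∀ s s', 0 ≤ s → s ≤ s' → s' ≤ T → SA s' ⊆ SA s :=
    fun s s' _ hss' _ x hx k hk hk' => hx k hk (FL_mono hss' hk')
  have hSL : ∀ s s', 0 ≤ s → s ≤ s' → s' ≤ T → SL s' ⊆ SL s :=
    fun s s' _ hss' _ x hx k hk hk' => hx k hk (FA_mono hss' hk')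
  set EA : Set ℝ := {s | ∀ s' ∈ Icc 0 s, ∀ k ∈ SA s', F.zA s' (id k) = F.z s' (F.fA k)} with hEA
  set EL : Set ℝ := {s | ∀ s' ∈ Icc 0 s, ∀ k ∈ SL s', F.zL s' (id k) = F.z s' (F.fL k)} with hEL
  have hcA : IsClosed (EA ∩ Icc 0 T) := closed_agree hd.pA SA hSA
  have hcL : IsClosed (EL ∩ Icc 0 T) := closed_agree hd.pL SL hSL
  have hmain : Icc 0 T ⊆ EA ∩ EL := by
    refine IsClosed.Icc_subset_of_forall_exists_gt ?_ ?_ ?_
    · have : EA ∩ EL ∩ Icc 0 T = (EA ∩ Icc 0 T) ∩ (EL ∩ Icc 0 T) := by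
        ext s
        simp only [mem_inter_iff]
        tauto
      rw [this]
      exact hcA.inter hcL
    · constructor
      · intro s' hs' x _
        have : s' = 0 := le_antisymm hs'.2 hs'.1
        subst this
        exact hd.initA x
      · intro s' hs' x _
        have : s' = 0 := le_antisymm hs'.2 hs'.1
        subst this
        exact hd.initL x
    · rintro s ⟨⟨hsA, hsL⟩, hs⟩ y hy
      have hsI : s ∈ Icc 0 T := ⟨hs.1, hs.2.le⟩
      have hA : ∀ x, (∀ k, x = F.eA k → k ∉ F.FL s) → F.zA s x = F.z s (F.fA x) :=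
        fun x hx => hsA s ⟨hs.1, le_rfl⟩ x hx
      have hL : ∀ y, (∀ k, y = F.eL k → k ∉ F.FA s) → F.zL s y = F.z s (F.fL y) :=
        fun y hy => hsL s ⟨hs.1, le_rfl⟩ y hy
      obtain ⟨δ₁, hδ₁, hδ₁T, h1⟩ := extend_agree hd.pA hs (SA s)
        (fun x hx j hj => isoA hd hu hsI hx (fun h => hj ⟨j, h, rfl⟩))
        (fun x hx j hj => isoZ hd hu hsI hA hL hx fun x' hx' h => hj ⟨x', hx', h⟩)
        (fun x hx => hA x hx)
      obtain ⟨δ₂, hδ₂, hδ₂T, h2⟩ := extend_agree hd.pL hs (SL s)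
        (fun x hx j hj => isoA (F := F.swap) hd.swap hu.swap hsI hx (fun h => hj ⟨j, h, rfl⟩))
        (fun x hx j hj => isoZ (F := F.swap) hd.swap hu.swap hsI hL hA hx
          fun x' hx' h => hj ⟨x', hx', h⟩)
        (fun x hx => hL x hx)
      set δ := min (min δ₁ δ₂) (y - s) with hδ
      have hδ0 : 0 < δ := lt_min (lt_min hδ₁ hδ₂) (sub_pos.2 hy)
      have l₁ : δ ≤ δ₁ := (min_le_left _ _).trans (min_le_left _ _)
      have l₂ : δ ≤ δ₂ := (min_le_left _ _).trans (min_le_right _ _)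
      have l₃ : δ ≤ y - s := min_le_right _ _
      refine ⟨s + δ, ⟨?_, ?_⟩, by linarith, by linarith⟩
      · intro s' hs' x hx
        rcases le_total s' s with h3 | h3
        · exact hsA s' ⟨hs'.1, h3⟩ x hx
        · exact h1 s' ⟨h3, hs'.2.trans (by linarith)⟩ x
            (hSA s s' hs.1 h3 (hs'.2.trans (by linarith)) hx)
      · intro s' hs' x hx
        rcases le_total s' s with h3 | h3
        · exact hsL s' ⟨hs'.1, h3⟩ x hx
        · exact h2 s' ⟨h3, hs'.2.trans (by linarith)⟩ x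
            (hSL s s' hs.1 h3 (hs'.2.trans (by linarith)) hx)
  exact ⟨fun s hs x hx => (hmain hs).1 s ⟨hs.1, le_rfl⟩ x hx,
    fun s hs x hx => (hmain hs).2 s ⟨hs.1, le_rfl⟩ x hx⟩

theorem glueA (hd : F.Dyn T) (hu : F.Unlinked T) {s : ℝ} (hs : s ∈ Icc 0 T) {x : ιA}
    (hx : ∀ k, x = F.eA k → k ∉ F.FL s) : F.zA s x = F.z s (F.fA x) := (glue hd hu).1 s hs x hx

theorem glueL (hd : F.Dyn T) (hu : F.Unlinked T) {s : ℝ} (hs : s ∈ Icc 0 T) {y : ιL}
    (hy : ∀ k, y = F.eL k → k ∉ F.FA s) : F.zL s y = F.z s (F.fL y) := (glue hd hu).2 s hs y hy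

/-- In the glued world, influence of `L` spreads only to particles influenced by `L`: a contact in
`Z+A+L` of a particle influenced by `L` (or in `L`). -/
theorem contact_IL (hd : F.Dyn T) (hu : F.Unlinked T) {s : ℝ} (hs : s ∈ Icc 0 T) {y : ιL}
    (hy : y ∈ F.IL s) {j : ι} (hc : F.C s (F.fL y) j) :
    ∃ y' ∈ F.IL s, j = F.fL y' := by
  by_contra hno
  push Not at hno
  -- `j` comes from `Z+A` and is not influenced by `L`
  have hj : ∃ x, (∀ k, x = F.eA k → k ∉ F.FL s) ∧ F.fA x = j := by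
    rcases F.cover j with ⟨x, rfl⟩ | ⟨y', rfl⟩
    · refine ⟨x, fun k hk hkL => ?_, rfl⟩
      subst hk
      exact hno (F.eL k) (fun k' hk' => by rw [← F.eL_inj hk']; exact hkL) (F.comm k)
    · by_cases hy' : y' ∈ range F.eL
      · obtain ⟨k, rfl⟩ := hy'
        refine ⟨F.eA k, fun k' hk' hkL => ?_, F.comm k⟩
        rw [← F.eA_inj hk'] at hkL
        exact hno (F.eL k) (fun k'' hk'' => by rw [← F.eL_inj hk'']; exact hkL) rfl
      · exact absurd rfl (hno y' fun k hk => absurd ⟨k, hk.symm⟩ hy')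
  obtain ⟨x, hx, rfl⟩ := hj
  exact isoZ hd hu hs (fun x hx => glueA hd hu hs hx) (fun y hy => glueL hd hu hs hy) hx
    (j := F.fL y) (by
      intro x' hx' h
      obtain ⟨k, rfl, rfl⟩ := F.pull x' y h
      exact hx' k rfl (hy k rfl)) (hd.pA.symm₂ _ _ _ hc)

/-- Under unlinked influences, the influence of `L` in `Z+A` is the influence of `L` in `Z`. -/
theorem fut_iff (hd : F.Dyn T) (hu : F.Unlinked T) {s : ℝ} (hs : s ≤ T) {x : ιA} :
    Fut F.CA F.zA F.C F.z id F.fA s x ↔ ∃ k, x = F.eA k ∧ k ∈ F.FL s := by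
  constructor
  · intro h
    induction h with
    | init h _ => exact absurd (hd.initA _) h
    | new₁ j hj _ _ _ => exact absurd ⟨j, rfl⟩ hj
    | @new₂ s s' x j hj hc h0 hss' =>
      have hs'T : s' ∈ Icc 0 T := ⟨h0, hss'.trans hs⟩
      rcases F.cover j with h | ⟨y, rfl⟩
      · exact absurd h hj
      · have hy' : y ∈ F.IL s' := by
          intro k hk
          exact absurd ⟨F.eA k, by rw [F.comm k, hk]⟩ hj
        obtain ⟨y', hy'', hxy⟩ := contact_IL hd hu hs'T hy' hc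
        obtain ⟨k, hk, hk'⟩ := F.pull x y' hxy
        exact ⟨k, hk, FL_mono hss' (hy'' k hk')⟩
    | @chain₁ s s' x l h hc hss' ih =>
      have h0 : 0 ≤ s' := h.nonneg
      have hs'T : s' ∈ Icc 0 T := ⟨h0, hss'.trans hs⟩
      obtain ⟨k, rfl, hk⟩ := ih hs'T.2
      by_contra hno
      push Not at hno
      exact isoA hd hu hs'T (x := x) (y := F.eA k)
        (fun k' hk' hk'' => hno k' hk' (FL_mono hss' hk''))
        (fun h' => h' k rfl hk) (hd.pA.symm₁ _ _ _ hc)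
    | @chain₂ s s' x l h hc hss' ih =>
      have h0 : 0 ≤ s' := h.nonneg
      have hs'T : s' ∈ Icc 0 T := ⟨h0, hss'.trans hs⟩
      obtain ⟨k, rfl, hk⟩ := ih hs'T.2
      have hc' : F.C s' (F.fL (F.eL k)) (F.fA x) := by
        rw [← F.comm k]; exact hc
      obtain ⟨y', hy', hxy⟩ := contact_IL hd hu hs'T (y := F.eL k)
        (fun k' hk' => by rw [← F.eL_inj hk']; exact hk) hc'
      obtain ⟨k', hk', hk''⟩ := F.pull x y' hxy
      exact ⟨k', hk', FL_mono hss' (hy' k' hk'')⟩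
  · rintro ⟨k, rfl, hk⟩
    change Fut F.C₀ F.z₀ F.CL F.zL id F.eL s k at hk
    induction hk with
    | @init s k h h0 =>
      exfalso
      have h1 : k ∈ F.FL 0 := .init h le_rfl
      have h2 : k ∈ F.FA 0 := by
        refine .init ?_ le_rfl
        intro h3
        apply h
        rw [h3, hd.initA, F.comm k, ← hd.initL]
      exact hu.disj 0 ⟨le_rfl, h0.trans hs⟩ k h2 h1
    | new₁ j hj _ _ _ => exact absurd ⟨j, rfl⟩ hj
    | @new₂ s s' k y hy hc h0 hss' =>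
      have hs'T : s' ∈ Icc 0 T := ⟨h0, hss'.trans hs⟩
      have hkL : k ∈ F.FL s' := .new₂ y hy hc h0 le_rfl
      have hkA : k ∉ F.FA s' := fun h' => hu.disj s' hs'T k h' hkL
      refine .new₂ (F.fL y) ?_ ?_ h0 hss'
      · rintro ⟨x, hx⟩
        obtain ⟨k', _, hk'⟩ := F.pull x y hx
        exact hy ⟨k', hk'.symm⟩
      · rw [F.comm k]
        exact (hd.pL.coh s' hs'T y (F.eL k)
          (glueL hd hu hs'T fun k' hk' => absurd ⟨k', hk'.symm⟩ hy)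
          (glueL hd hu hs'T fun k' hk' => by rw [← F.eL_inj hk']; exact hkA)).1 hc
    | @chain₁ s s' k l h hc hss' ih =>
      have h0 : 0 ≤ s' := h.nonneg
      have hs'T : s' ∈ Icc 0 T := ⟨h0, hss'.trans hs⟩
      have hlA : l ∉ F.FA s' := fun h' => hu.disj s' hs'T l h' h
      have hkL : k ∈ F.FL s' := .chain₁ h hc le_rfl
      have hkA : k ∉ F.FA s' := fun h' => hu.disj s' hs'T k h' hkL
      refine .chain₁ (ih hs'T.2) ?_ hss'
      exact (hd.p₀A.coh s' hs'T l k (agreeA hd hs'T hlA) (agreeA hd hs'T hkA)).1 hc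
    | @chain₂ s s' k l h hc hss' ih =>
      have h0 : 0 ≤ s' := h.nonneg
      have hs'T : s' ∈ Icc 0 T := ⟨h0, hss'.trans hs⟩
      have hlA : l ∉ F.FA s' := fun h' => hu.disj s' hs'T l h' h
      have hkL : k ∈ F.FL s' := .chain₂ h hc le_rfl
      have hkA : k ∉ F.FA s' := fun h' => hu.disj s' hs'T k h' hkL
      refine .chain₂ (ih hs'T.2) ?_ hss'
      rw [F.comm k, F.comm l]
      exact (hd.pL.coh s' hs'T (F.eL l) (F.eL k)
        (glueL hd hu hs'T fun k' hk' => by rw [← F.eL_inj hk']; exact hlA)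
        (glueL hd hu hs'T fun k' hk' => by rw [← F.eL_inj hk']; exact hkA)).1 hc

/-- The history in `Z+A+L` of a particle not influenced by `L` is its history in `Z+A`. -/
theorem histA (hd : F.Dyn T) (hu : F.Unlinked T) {t : ℝ} (ht : t ∈ Icc 0 T) {x : ιA}
    (hx : ∀ k, x = F.eA k → k ∉ F.FL t) :
    HistEq F.CA F.zA F.C F.z id F.fA t x := by
  refine histEq_of_not_fut hd.pA ht fun h => ?_
  obtain ⟨k, hk, hk'⟩ := (fut_iff hd hu ht.2).1 h
  exact hx k hk hk'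

/-- The history in `Z+A+L` of a particle not influenced by `A` is its history in `Z+L`. -/
theorem histL (hd : F.Dyn T) (hu : F.Unlinked T) {t : ℝ} (ht : t ∈ Icc 0 T) {y : ιL}
    (hy : ∀ k, y = F.eL k → k ∉ F.FA t) : HistEq F.CL F.zL F.C F.z id F.fL t y :=
  histA (F := F.swap) hd.swap hu.swap ht hy

omit [Finite ιL] [Finite ι] in
/-- The history in `Z+A` of a particle not influenced by `A` is its history in `Z`. -/
theorem hist₀A (hd : F.Dyn T) {t : ℝ} (ht : t ∈ Icc 0 T) {k : κ} (hk : k ∉ F.FA t) :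
    HistEq F.C₀ F.z₀ F.CA F.zA id F.eA t k := histEq_of_not_fut hd.p₀A ht hk

omit [Finite ιA] [Finite ι] in
theorem hist₀L (hd : F.Dyn T) {t : ℝ} (ht : t ∈ Icc 0 T) {k : κ} (hk : k ∉ F.FL t) :
    HistEq F.C₀ F.z₀ F.CL F.zL id F.eL t k := histEq_of_not_fut hd.p₀L ht hk

/-! ### World consistency of infection processes -/

/-- Infection status in the four worlds, coherent. -/
structure Status (F : Four κ ιA ιL ι X) (a T : ℝ) (P₀ : ℝ → κ → Prop) (PA : ℝ → ιA → Prop)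
    (PL : ℝ → ιL → Prop) (P : ℝ → ι → Prop) : Prop where
  coh₀A : ∀ s ∈ Icc a T, ∀ k, HistEq F.C₀ F.z₀ F.CA F.zA id F.eA s k → (P₀ s k ↔ PA s (F.eA k))
  coh₀L : ∀ s ∈ Icc a T, ∀ k, HistEq F.C₀ F.z₀ F.CL F.zL id F.eL s k → (P₀ s k ↔ PL s (F.eL k))
  cohA : ∀ s ∈ Icc a T, ∀ x, HistEq F.CA F.zA F.C F.z id F.fA s x → (PA s x ↔ P s (F.fA x))
  cohL : ∀ s ∈ Icc a T, ∀ y, HistEq F.CL F.zL F.C F.z id F.fL s y → (PL s y ↔ P s (F.fL y))

omit [Finite κ] [Finite ιA] [Finite ιL] [Finite ι] in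
theorem Status.mono {a T : ℝ} {P₀ : ℝ → κ → Prop} {PA : ℝ → ιA → Prop}
    {PL : ℝ → ιL → Prop} {P : ℝ → ι → Prop} (h : F.Status a T P₀ PA PL P) {T' : ℝ} (hT : T' ≤ T) :
    F.Status a T' P₀ PA PL P where
  coh₀A := fun s hs => h.coh₀A s ⟨hs.1, hs.2.trans hT⟩
  coh₀L := fun s hs => h.coh₀L s ⟨hs.1, hs.2.trans hT⟩
  cohA := fun s hs => h.cohA s ⟨hs.1, hs.2.trans hT⟩
  cohL := fun s hs => h.cohL s ⟨hs.1, hs.2.trans hT⟩

omit [Finite κ] [Finite ιA] [Finite ιL] [Finite ι] in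
theorem Status.swap {a T : ℝ} {P₀ : ℝ → κ → Prop} {PA : ℝ → ιA → Prop}
    {PL : ℝ → ιL → Prop} {P : ℝ → ι → Prop} (h : F.Status a T P₀ PA PL P) :
    F.swap.Status a T P₀ PL PA P where
  coh₀A := h.coh₀L
  coh₀L := h.coh₀A
  cohA := h.cohL
  cohL := h.cohA

/-- **World consistency (W1) for infection processes, pointwise in time.** -/
theorem agreeAt_iff (hd : F.Dyn T) (hu : F.Unlinked T) {a : ℝ} (ha : 0 ≤ a)
    {P₀ : ℝ → κ → Prop} {PA : ℝ → ιA → Prop} {PL : ℝ → ιL → Prop} {P : ℝ → ι → Prop}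
    (hS : F.Status a T P₀ PA PL P) {s : ℝ} (hs : s ∈ Icc a T)
    (h₀A : AgreeAt F.z₀ F.zA id F.eA P₀ PA s) :
    AgreeAt F.z₀ F.zL id F.eL P₀ PL s ↔ AgreeAt F.zA F.z id F.fA PA P s := by
  have hsT : s ∈ Icc 0 T := ⟨ha.trans hs.1, hs.2⟩
  -- the status of elements of `L` is the same in `Z+L` and in `Z+A+L`
  have hPL : ∀ y, (∀ k, y = F.eL k → k ∉ F.FA s) → (PL s y ↔ P s (F.fL y)) :=
    fun y hy => hS.cohL s hs y (histL hd hu hsT hy)
  have hPA : ∀ x, (∀ k, x = F.eA k → k ∉ F.FL s) → (PA s x ↔ P s (F.fA x)) :=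
    fun x hx => hS.cohA s hs x (histA hd hu hsT hx)
  constructor
  · intro h
    have key : ∀ x, (PA s x ↔ P s (F.fA x)) ∧ (PA s x → F.zA s x = F.z s (F.fA x)) := by
      intro x
      by_cases hx : ∀ k, x = F.eA k → k ∉ F.FL s
      · exact ⟨hPA x hx, fun _ => glueA hd hu hsT hx⟩
      · push Not at hx
        obtain ⟨k, rfl, hkL⟩ := hx
        have hkA : k ∉ F.FA s := fun h' => hu.disj s hsT k h' hkL
        have h1 : PL s (F.eL k) ↔ P s (F.fA (F.eA k)) := by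
          rw [F.comm k]
          exact hPL (F.eL k) fun k' hk' => by rw [← F.eL_inj hk']; exact hkA
        have h2 : P₀ s k ↔ PL s (F.eL k) := h.iff k
        have h3 : P₀ s k ↔ PA s (F.eA k) := h₀A.iff k
        refine ⟨h3.symm.trans (h2.trans h1), fun hk => ?_⟩
        have hk0 : P₀ s k := h3.2 hk
        have e1 : F.z₀ s k = F.zA s (F.eA k) := h₀A.eq k hk0
        have e2 : F.z₀ s k = F.zL s (F.eL k) := h.eq k hk0
        have e3 : F.zL s (F.eL k) = F.z s (F.fL (F.eL k)) :=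
          glueL hd hu hsT fun k' hk' => by rw [← F.eL_inj hk']; exact hkA
        rw [← e1, e2, e3, F.comm k]
    refine ⟨fun x _ => ⟨x, rfl⟩, fun j hj => ?_, fun x => (key x).1, fun x hx => (key x).2 hx⟩
    -- no element of `L` is infected
    by_contra hjr
    rcases F.cover j with h1 | ⟨y, rfl⟩
    · exact hjr h1
    · have hy : ∀ k, y = F.eL k → k ∉ F.FA s := by
        intro k hk _
        exact hjr ⟨F.eA k, by rw [F.comm k, hk]⟩
      have h2 := h.new₂ y ((hPL y hy).2 hj)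
      obtain ⟨k, rfl⟩ := h2
      exact hjr ⟨F.eA k, F.comm k⟩
  · intro h
    have key : ∀ k, (P₀ s k ↔ PL s (F.eL k)) ∧ (P₀ s k → F.z₀ s k = F.zL s (F.eL k)) := by
      intro k
      by_cases hkA : k ∈ F.FA s
      · have hkL : k ∉ F.FL s := hu.disj s hsT k hkA
        exact ⟨hS.coh₀L s hs k (hist₀L hd hsT hkL), fun _ => agreeL hd hsT hkL⟩
      · have h1 : PL s (F.eL k) ↔ P s (F.fL (F.eL k)) :=
          hPL (F.eL k) fun k' hk' => by rw [← F.eL_inj hk']; exact hkA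
        have h2 : PA s (F.eA k) ↔ P s (F.fA (F.eA k)) := h.iff (F.eA k)
        have h3 : P₀ s k ↔ PA s (F.eA k) := h₀A.iff k
        rw [F.comm k] at h2
        refine ⟨h3.trans (h2.trans h1.symm), fun hk => ?_⟩
        have e1 : F.z₀ s k = F.zA s (F.eA k) := h₀A.eq k hk
        have e2 : F.zA s (F.eA k) = F.z s (F.fA (F.eA k)) := h.eq (F.eA k) (h3.1 hk)
        have e3 : F.zL s (F.eL k) = F.z s (F.fL (F.eL k)) :=
          glueL hd hu hsT fun k' hk' => by rw [← F.eL_inj hk']; exact hkA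
        rw [e1, e2, e3, F.comm k]
    refine ⟨fun x _ => ⟨x, rfl⟩, fun y hy => ?_, fun k => (key k).1, fun k hk => (key k).2 hk⟩
    by_contra hyr
    have h1 := (hPL y fun k hk => absurd ⟨k, hk.symm⟩ hyr).1 hy
    obtain ⟨x, hx⟩ := h.new₂ _ h1
    obtain ⟨k, _, hk⟩ := F.pull x y hx
    exact hyr ⟨k, hk.symm⟩

/-- **World consistency (W1) for touches, closed end.** If the influences of `A` and `L` are
unlinked up to and including `s`, then `L` touches in `Z+A` before `s` iff it touches in `Z`. -/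
theorem touched_iff {a : ℝ} {s : ℝ} (hd : F.Dyn s) (hu : F.Unlinked s) (ha : 0 ≤ a) (hs : a ≤ s)
    {P₀ : ℝ → κ → Prop} {PA : ℝ → ιA → Prop} {PL : ℝ → ιL → Prop} {P : ℝ → ι → Prop}
    (hS : F.Status a s P₀ PA PL P) :
    Touched F.C₀ F.z₀ F.CL F.zL id F.eL P₀ PL s ↔ Touched F.CA F.zA F.C F.z id F.fA PA P s := by
  have hsT : s ∈ Icc 0 s := ⟨ha.trans hs, le_rfl⟩
  have hsa : s ∈ Icc a s := ⟨hs, le_rfl⟩
  have hPL : ∀ y, (∀ k, y = F.eL k → k ∉ F.FA s) → (PL s y ↔ P s (F.fL y)) :=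
    fun y hy => hS.cohL s hsa y (histL hd hu hsT hy)
  have hP0A : ∀ k, k ∉ F.FA s → (P₀ s k ↔ PA s (F.eA k)) :=
    fun k hk => hS.coh₀A s hsa k (hist₀A hd hsT hk)
  constructor
  · rintro (⟨k, hk, hP⟩ | ⟨j, hj, _⟩ | ⟨y, hy, hP⟩)
    · have hkA : k ∉ F.FA s := fun h => hu.disj s hsT k h hk
      refine Or.inl ⟨F.eA k, (fut_iff hd hu le_rfl).2 ⟨k, rfl, hk⟩, ?_⟩
      rcases hP with hP | hP
      · exact Or.inl ((hP0A k hkA).1 hP)
      · right
        rw [F.comm k]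
        exact (hPL _ fun k' hk' => by rw [← F.eL_inj hk']; exact hkA).1 hP
    · exact absurd ⟨j, rfl⟩ hj
    · refine Or.inr (Or.inr ⟨F.fL y, ?_, (hPL y fun k hk => absurd ⟨k, hk.symm⟩ hy).1 hP⟩)
      rintro ⟨x, hx⟩
      obtain ⟨k, _, hk⟩ := F.pull x y hx
      exact hy ⟨k, hk.symm⟩
  · rintro (⟨x, hx, hP⟩ | ⟨j, hj, _⟩ | ⟨j, hj, hP⟩)
    · obtain ⟨k, rfl, hk⟩ := (fut_iff hd hu le_rfl).1 hx
      have hkA : k ∉ F.FA s := fun h => hu.disj s hsT k h hk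
      refine Or.inl ⟨k, hk, ?_⟩
      rcases hP with hP | hP
      · exact Or.inl ((hP0A k hkA).2 hP)
      · right
        rw [F.comm k] at hP
        exact (hPL _ fun k' hk' => by rw [← F.eL_inj hk']; exact hkA).2 hP
    · exact absurd ⟨j, rfl⟩ hj
    · rcases F.cover j with h | ⟨y, rfl⟩
      · exact absurd h hj
      · have hy : y ∉ range F.eL := by
          rintro ⟨k, rfl⟩
          exact hj ⟨F.eA k, F.comm k⟩
        exact Or.inr (Or.inr ⟨y, hy, (hPL y fun k hk => absurd ⟨k, hk.symm⟩ hy).2 hP⟩)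

end Four

end Crest.Agent.R122.CausalGen291
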