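import Crest.Agent.R122.LNgraph_410
import Crest.Agent.R122.VLDefs_581

/-!
# Row 122, LN1, graph part on the virtual systems of `VLDefs_581` (helper410)

* `vc M C P Z` : timed contact relation `t ∈ [0, T] ∧ VCt C P i j t Z`.
* `conn_iff` : `M.Conn C P Z ↔ CutConn P (∃ t, vc ..)`.
* `tlg_of_treeLike` : `M.TreeLike C ℓ ς P Z → TLg P (vc ..) ℓ ς`.
* `VCt` : symmetry, monotonicity; `Conn` : unions.
-/

set_option autoImplicit false
set_option linter.unusedSectionVars false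

open MeasureTheory Set Filter Topology
open scoped ENNReal NNReal
open Crest.AnalysisR.Kinetic
open Crest.Agent.R122.GIV566 Crest.Agent.R122.VL581

namespace Crest.Agent.R122.LNg410

variable {J κ : Type} [Fintype J] {M : VSys J κ} {C ℓ ς : ℝ} {P Q : Finset J}
  {Z : J → PhasePoint}

/-- Timed virtual contacts in `[0, T]`. -/
def vc (M : VSys J κ) (C : ℝ) (P : Finset J) (Z : J → PhasePoint) (i j : J) (t : ℝ) : Prop :=
  t ∈ Icc 0 M.T ∧ M.VCt C P i j t Z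

theorem ct_symm {A B : Finset J} {k l : κ} {i j : J} {t : ℝ} (h : M.Ct C A k i B l j t Z) :
    M.Ct C B l j A k i t Z :=
  ⟨h.2.1, h.1, h.2.2.2.1, h.2.2.1, h.2.2.2.2.2.1, h.2.2.2.2.1, by
    rw [dist_comm]; exact h.2.2.2.2.2.2⟩

theorem vct_symm {i j : J} {t : ℝ} (h : M.VCt C P i j t Z) : M.VCt C P j i t Z := by
  obtain ⟨A, hA, B, hB, k, l, h⟩ := h
  exact ⟨B, hB, A, hA, l, k, ct_symm h⟩

theorem vct_mono {i j : J} {t : ℝ} (hPQ : P ⊆ Q) (h : M.VCt C P i j t Z) :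
    M.VCt C Q i j t Z := by
  obtain ⟨A, hA, B, hB, k, l, h⟩ := h
  exact ⟨A, hA.trans hPQ, B, hB.trans hPQ, k, l, h⟩

theorem vct_mono_C {i j : J} {t C' : ℝ} (hε : 0 ≤ M.ε) (hC : C ≤ C') (h : M.VCt C P i j t Z) :
    M.VCt C' P i j t Z := by
  obtain ⟨A, hA, B, hB, k, l, h⟩ := h
  exact ⟨A, hA, B, hB, k, l, h.1, h.2.1, h.2.2.1, h.2.2.2.1, h.2.2.2.2.1, h.2.2.2.2.2.1,
    h.2.2.2.2.2.2.trans (mul_le_mul_of_nonneg_right hC hε)⟩

theorem vc_symm {i j : J} {t : ℝ} (h : vc M C P Z i j t) : vc M C P Z j i t :=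
  ⟨h.1, vct_symm h.2⟩

theorem vc_mono {i j : J} {t : ℝ} (hPQ : P ⊆ Q) (h : vc M C P Z i j t) : vc M C Q Z i j t :=
  ⟨h.1, vct_mono hPQ h.2⟩

theorem conn_iff : M.Conn C P Z ↔ CutConn P fun i j => ∃ t, vc M C P Z i j t := by
  classical
  constructor
  · rintro ⟨h1, h2⟩
    refine ⟨h1, fun Q hQ hne hneP => ?_⟩
    obtain ⟨i, hi, j, hj, t, ht, h⟩ := h2 Q hQ hne hneP
    rw [Finset.mem_sdiff] at hj
    exact ⟨i, hi, j, hj.1, hj.2, Or.inl ⟨t, ht, h⟩⟩
  · rintro ⟨h1, h2⟩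
    refine ⟨h1, fun Q hQ hne hneP => ?_⟩
    obtain ⟨i, hi, j, hj, hjQ, h | h⟩ := h2 Q hQ hne hneP
    · obtain ⟨t, ht, h⟩ := h
      exact ⟨i, hi, j, Finset.mem_sdiff.2 ⟨hj, hjQ⟩, t, ht, h⟩
    · obtain ⟨t, ht, h⟩ := h
      exact ⟨i, hi, j, Finset.mem_sdiff.2 ⟨hj, hjQ⟩, t, ht, vct_symm h⟩

theorem tlg_of_treeLike (h : M.TreeLike C ℓ ς P Z) : TLg P (vc M C P Z) ℓ ς := by
  obtain ⟨_, E, σ, h1, h2, _, _, h5, h6⟩ := h
  exact ⟨E, σ, h1, h2, h5, fun i hi j hj hij t ht => h6 i hi j hj hij t ht.1 ht.2⟩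

theorem ok_of_treeLike (h : M.TreeLike C ℓ ς P Z) {A : Finset J} (hA : A ⊆ P) : M.ok A M.T Z :=
  h.1 A hA

/-- The contact times of a tree-like connected set are separated from the births, `0` and `T`. -/
theorem sep_births (h : M.TreeLike C ℓ ς P Z) {i j : J} (hi : i ∈ P) (hj : j ∈ P) (hij : i ≠ j)
    {t : ℝ} (ht : vc M C P Z i j t) (k : J) :
    ς - ℓ < |t - M.b k| ∧ ς - ℓ < t ∧ t < M.T - (ς - ℓ) := by
  obtain ⟨_, E, σ, h1, h2, h3, h4, h5, h6⟩ := h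
  obtain ⟨e, he, _, h7⟩ := h6 i hi j hj hij t ht.1 ht.2
  have h8 := h4 e he k
  have h9 := h3 e he
  have h10 : |σ e - M.b k| ≤ |σ e - t| + |t - M.b k| := abs_sub_le _ _ _
  rw [abs_sub_comm (σ e) t] at h10
  refine ⟨by linarith, ?_, ?_⟩
  · rw [abs_le] at h7
    linarith [h7.1, h7.2, h9.1]
  · rw [abs_le] at h7
    linarith [h7.1, h7.2, h9.2]

theorem conn_mono_C {C' : ℝ} (hε : 0 ≤ M.ε) (hC : C ≤ C') (h : M.Conn C P Z) :
    M.Conn C' P Z := by
  refine ⟨h.1, fun Q hQ hne hneP => ?_⟩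
  obtain ⟨i, hi, j, hj, t, ht, h⟩ := h.2 Q hQ hne hneP
  exact ⟨i, hi, j, hj, t, ht, vct_mono_C hε hC h⟩

/-- Connectedness of `P` by the contacts of a larger set. -/
theorem cutConn_mono (hPQ : P ⊆ Q) (h : M.Conn C P Z) :
    CutConn P fun i j => ∃ t, vc M C Q Z i j t :=
  (conn_iff.1 h).mono fun _ _ _ _ _ ⟨t, ht⟩ => Or.inl ⟨t, vc_mono hPQ ht⟩

theorem conn_singleton (i : J) : M.Conn C {i} Z := by
  classical
  exact conn_iff.2 (cutConn_singleton i _)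

/-- Two connected sets with a common member. -/
theorem conn_union [DecidableEq J] (hP : M.Conn C P Z) (hQ : M.Conn C Q Z)
    (h : (P ∩ Q).Nonempty) : M.Conn C (P ∪ Q) Z :=
  conn_iff.2 ((cutConn_mono Finset.subset_union_left hP).union
    (cutConn_mono Finset.subset_union_right hQ) h)

/-- Two connected sets with a contact across. -/
theorem conn_union_of_vct [DecidableEq J] (hP : M.Conn C P Z) (hQ : M.Conn C Q Z) {i j : J}
    (hi : i ∈ P) (hj : j ∈ Q) {t : ℝ} (ht : t ∈ Icc 0 M.T) (h : M.VCt C (P ∪ Q) i j t Z) :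
    M.Conn C (P ∪ Q) Z :=
  conn_iff.2 ((cutConn_mono Finset.subset_union_left hP).union_of_edge
    (cutConn_mono Finset.subset_union_right hQ) hi hj (Or.inl ⟨t, ht, h⟩))

/-- A finite union of connected sets, each meeting the first one. -/
theorem conn_biUnion [DecidableEq J] {α : Type*} [DecidableEq α] (s : Finset α)
    {F : α → Finset J} (hP : M.Conn C P Z)
    (hF : ∀ a ∈ s, M.Conn C (F a) Z) (h : ∀ a ∈ s, (P ∩ F a).Nonempty) :
    M.Conn C (P ∪ s.biUnion F) Z := by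
  induction s using Finset.induction_on with
  | empty => simpa using hP
  | insert a s ha ih =>
    have h1 := ih (fun b hb => hF b (Finset.mem_insert_of_mem hb))
      (fun b hb => h b (Finset.mem_insert_of_mem hb))
    have h2 := conn_union h1 (hF a (Finset.mem_insert_self a s)) (by
      obtain ⟨x, hx⟩ := h a (Finset.mem_insert_self a s)
      rw [Finset.mem_inter] at hx
      exact ⟨x, Finset.mem_inter.2 ⟨Finset.mem_union_left _ hx.1, hx.2⟩⟩)
    rw [Finset.biUnion_insert]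
    have h3 : P ∪ s.biUnion F ∪ F a = P ∪ (F a ∪ s.biUnion F) := by
      rw [Finset.union_assoc, Finset.union_comm (s.biUnion F)]
    rwa [h3] at h2

/-- Cut form for a tree-like connected group. -/
theorem cut_of_treeLike [DecidableEq J] (h : M.TreeLike C ℓ ς P Z) (hc : M.Conn C P Z) :
    CutAcyclic P fun i j => ∃ t, vc M C P Z i j t :=
  (tlg_of_treeLike h).cut (conn_iff.1 hc)

end Crest.Agent.R122.LNg410
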