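import Mathlib
import Crest.Prelude.Def_KineticLimit
import Crest.Agent.R122.VLInstC_442
import Crest.Agent.R122.EInf_879
import Crest.Agent.R122.LNvs_410

/-!
# Row 122, LN1: bridge between the virtual systems of `VLDefs_581` and marked worlds (helper968)

`Of M Φ ε W` : the virtual system `M : VSys J κ` (without obstacle) has the potential, the scale and
the births of the marked world `W : MW J`.  The initial data of `M` are `W.z`; the isolated
sub-world `A` of `W` is `W.comap (Subtype.val : A → J)`.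

* `Of.st_eq_of_lw`, `Of.st_eq_path`, `Of.st_eq_path_of_ok` : states of `M` in the sub-world `A` are
  the paths of the sub-world (whenever the sub-world is a world with births, or `ok`).
* `Of.lw_path_of_ok` : the sub-world is a local world with births on `[0, t]` if `ok A t`.
* `Of.ok_iff_path`, `ok_iff_of_births_nonpos` : `ok`.
* `Of.ct_iff`, `Of.vct_iff` : contacts in terms of paths.
* `exists_bad_conn` : if a sub-world is not `ok` there is a connected one with a bad birth.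
* `Pull M' M e` : `M'` is `M` pulled back along an injection `e`; `Pull.st`, `Pull.ok`, `Pull.vct`,
  `Pull.conn`, `Pull.treeLike`, `Pull.treeLike_of`.
-/

set_option autoImplicit false
set_option linter.unusedSectionVars false

open MeasureTheory Set Filter Topology
open scoped NNReal ENNReal
open Crest.AnalysisR.Kinetic
open Crest.Agent.R122.Flow671 Crest.Agent.R122.Loc45 Crest.Agent.R122.Ins45
open Crest.Agent.R122.GIV566 Crest.Agent.R122.VL581 Crest.Agent.R122.VL581.VSys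
open Crest.Agent.R122.VLInst442 Crest.Agent.R122.EDefs602 Crest.Agent.R122.LNg410

noncomputable section

namespace Crest.Agent.R122.LNBridge968

variable {J κ : Type} [Fintype J]

/-! ### Sub-worlds of a marked world -/

/-- `M` is a virtual system (without obstacle) over the marked world `W`. -/
structure Of (M : VSys J κ) (Φ : Space3 → ℝ) (ε : ℝ) (W : MW J) : Prop where
  Φ : M.Φ = Φ
  ε : M.ε = ε
  b : M.b = W.b
  o : M.o = none

/-- The virtual system of a marked world. -/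
def vs (Φ : Space3 → ℝ) (ε T : ℝ) (S : Tubes κ) (W : MW J) : VSys J κ := ⟨Φ, T, ε, W.b, none, S⟩

theorem of_vs (Φ : Space3 → ℝ) (ε T : ℝ) (S : Tubes κ) (W : MW J) :
    Of (vs Φ ε T S W) Φ ε W := ⟨rfl, rfl, rfl, rfl⟩

/-- The isolated sub-world `A` of a marked world. -/
abbrev sw (W : MW J) (A : Finset J) : MW A := W.comap (Subtype.val : A → J)

variable {M : VSys J κ} {Φ : Space3 → ℝ} {ε : ℝ} {W : MW J} {A B P : Finset J} {s t : ℝ}

namespace Of

theorem ne (h : Of M Φ ε W) (i : J) : M.o ≠ some i := by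
  rw [h.o]
  simp

theorem bb_eq (h : Of M Φ ε W) (i : J) : M.bb i = max (W.b i) 0 := by
  unfold VSys.bb
  rw [h.b]

theorem bb_le_iff (h : Of M Φ ε W) (hs : 0 ≤ s) (i : J) : M.bb i ≤ s ↔ W.b i ≤ s := by
  rw [h.bb_eq]
  exact ⟨fun h => (le_max_left _ _).trans h, fun h => max_le h hs⟩

/-- A local world over the members of `A` is the sub-world `A`. -/
theorem st_eq_of_lw (h : Of M Φ ε W) (hΦ : AdmissiblePotential Φ) (hε : 0 < ε)
    {X : ℝ → A → PhasePoint} (hX : LWorld Φ ε (fun a : A => W.b a) 0 t X)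
    (h0 : ∀ a : A, X 0 a = W.z a) (hs : s ∈ Icc 0 t) (a : A) : M.st A s W.z a = X s a := by
  classical
  obtain ⟨rfl, rfl, hb, ho⟩ := id h
  set f : J → A := fun j => if hj : j ∈ A then ⟨j, hj⟩ else a with hf
  have hfA : ∀ j (hj : j ∈ A), f j = ⟨j, hj⟩ := fun j hj => by simp only [hf]; rw [dif_pos hj]
  have h1 := st_eq_of_lworld (M := M) hΦ hε hX (A := A) (Z := W.z) (f := f)
    (fun i hi _ j hj _ hij => by
      rw [hfA i hi, hfA j hj] at hij
      exact congrArg Subtype.val hij)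
    (fun i hi _ r hr => by
      rw [hfA i hi, h.bb_le_iff hr.1])
    (fun i hi _ => by rw [hfA i hi, h0])
    (fun r _ i _ _ _ k hk _ => absurd (hfA k k.2) (hk k k.2 (h.ne _)))
    s hs a a.2 (h.ne _)
  rw [h1, hfA a a.2]

/-- The states of `M` are the paths of the sub-world if the latter is a world with births. -/
theorem st_eq_path (h : Of M Φ ε W) (hΦ : AdmissiblePotential Φ) (hε : 0 < ε)
    (hX : BWorld Φ ε (sw W A).b 0 ((sw W A).path Φ ε)) (hs : 0 ≤ s) (a : A) :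
    M.st A s W.z a = (sw W A).path Φ ε s a := by
  refine h.st_eq_of_lw hΦ hε (LWorld.of_bworld (T := s) hX) (fun a => ?_) ⟨hs, le_rfl⟩ a
  rw [MW.path_zero hΦ hε]
  rfl

/-- The states of an `ok` sub-world are a local world. -/
theorem lw_st_of_ok (h : Of M Φ ε W) (hΦ : AdmissiblePotential Φ) (hε : 0 < ε)
    (hok : M.ok A t W.z) : LWorld Φ ε (fun a : A => W.b a) 0 t (fun s a => M.st A s W.z a) := by
  obtain ⟨rfl, rfl, hb, ho⟩ := id h
  have h1 := (st_lworld hΦ hε hok 0).restrict hΦ hε (Function.Embedding.subtype (· ∈ A))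
    (fun r hr k _ j hj hbj => by
      have h2 := ((ba_le_iff M hr.2).1 hbj).1.1
      exact absurd rfl (hj ⟨j, h2⟩))
  refine h1.congr_births fun a r hr => ?_
  change ba M A t a ≤ r ↔ W.b a ≤ r
  rw [ba_le_iff M hr.2, h.bb_le_iff hr.1]
  exact ⟨fun h => h.2, fun h' => ⟨⟨a.2, h.ne _⟩, h'⟩⟩

/-- The paths of an `ok` sub-world are the states of `M`. -/
theorem st_eq_path_of_ok (h : Of M Φ ε W) (hΦ : AdmissiblePotential Φ) (hε : 0 < ε)
    (hok : M.ok A t W.z) (hs : s ∈ Icc 0 t) (a : A) :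
    M.st A s W.z a = (sw W A).path Φ ε s a := by
  have h1 := (h.lw_st_of_ok hΦ hε hok).eq_evo hΦ hε hs.1 hs.2
  have h2 : (fun a : A => M.st A 0 W.z a) = (sw W A).z := by
    funext a
    rw [st_nonpos M le_rfl, fl_zero]
    rfl
  have h3 := congrFun h1 a
  simp only [h2] at h3
  exact h3

/-- An `ok` sub-world is a local world with births. -/
theorem lw_path_of_ok (h : Of M Φ ε W) (hΦ : AdmissiblePotential Φ) (hε : 0 < ε)
    (hok : M.ok A t W.z) : LWorld Φ ε (sw W A).b 0 t ((sw W A).path Φ ε) :=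
  (h.lw_st_of_ok hΦ hε hok).congr fun s hs => by
    funext a
    exact (h.st_eq_path_of_ok hΦ hε hok hs a).symm

/-- `ok` in terms of paths. -/
theorem ok_iff_path (h : Of M Φ ε W) (hΦ : AdmissiblePotential Φ) (hε : 0 < ε)
    (hX : BWorld Φ ε (sw W A).b 0 ((sw W A).path Φ ε)) (t : ℝ) :
    M.ok A t W.z ↔ ∀ i j : A, j ≠ i → max (W.b i) 0 < t → W.b j ≤ max (W.b i) 0 →
      ε < dist ((sw W A).path Φ ε (max (W.b i) 0) i).1 ((sw W A).path Φ ε (max (W.b i) 0) j).1 := by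
  unfold VSys.ok
  constructor
  · intro hok i j hji hi hj
    have h1 := hok i i.2 (h.ne _) (by rwa [h.bb_eq]) j j.2 (h.ne _)
      (fun h => hji (Subtype.ext h)) (by
        rw [h.bb_eq, h.bb_eq]
        exact max_le hj (le_max_right _ _))
    rw [h.ε, h.bb_eq, h.st_eq_path hΦ hε hX (le_max_right _ _),
      h.st_eq_path hΦ hε hX (le_max_right _ _)] at h1
    exact h1
  · intro hok i hi _ hbi j hj _ hji hbj
    rw [h.bb_eq] at hbi
    rw [h.bb_eq, h.bb_eq] at hbj
    have h1 := hok ⟨i, hi⟩ ⟨j, hj⟩ (fun h => hji (congrArg Subtype.val h)) hbi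
      ((le_max_left _ _).trans hbj)
    rw [← h.st_eq_path hΦ hε hX (le_max_right _ _),
      ← h.st_eq_path hΦ hε hX (le_max_right _ _)] at h1
    rw [h.ε, h.bb_eq]
    exact h1

end Of

/-- All births at most `0` (gas, time-`0` structures): `ok` is separation at time `0`. -/
theorem ok_iff_of_births_nonpos {Z : J → PhasePoint} (hb : ∀ i ∈ A, M.b i ≤ 0)
    (ho : ∀ i ∈ A, M.o ≠ some i) (t : ℝ) :
    M.ok A t Z ↔ (0 < t → ∀ i ∈ A, ∀ j ∈ A, i ≠ j → M.ε < dist (Z i).1 (Z j).1) := by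
  have hbb : ∀ i ∈ A, M.bb i = 0 := fun i hi => max_eq_right (hb i hi)
  unfold VSys.ok
  constructor
  · intro hok ht i hi j hj hij
    have h1 := hok i hi (ho i hi) (by rwa [hbb i hi]) j hj (ho j hj) (Ne.symm hij)
      (by rw [hbb i hi, hbb j hj])
    rwa [hbb i hi, st_nonpos M le_rfl, st_nonpos M le_rfl, fl_zero, fl_zero] at h1
  · intro hok i hi _ hbi j hj _ hji _
    rw [hbb i hi] at hbi ⊢
    rw [st_nonpos M le_rfl, st_nonpos M le_rfl, fl_zero, fl_zero]
    exact hok hbi i hi j hj hji.symm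

/-! ### Contacts -/

theorem Of.ct_iff (h : Of M Φ ε W) {C : ℝ} {k l : κ} {i j : J} :
    M.Ct C A k i B l j s W.z ↔ i ∈ A ∧ j ∈ B ∧ M.ok A s W.z ∧ M.ok B s W.z ∧
      dist (M.st A s W.z i).1 (M.st B s W.z j).1 ≤ C * ε := by
  unfold VSys.Ct VSys.pos
  rw [if_neg (h.ne i), if_neg (h.ne j), h.ε]
  constructor
  · rintro ⟨h1, h2, h3, h4, _, _, h7⟩
    exact ⟨h1, h2, h3, h4, h7⟩
  · rintro ⟨h1, h2, h3, h4, h7⟩
    exact ⟨h1, h2, h3, h4, fun h' => absurd h' (h.ne i), fun h' => absurd h' (h.ne j), h7⟩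

/-- Contacts in terms of paths. -/
theorem Of.ct_iff_path (h : Of M Φ ε W) (hΦ : AdmissiblePotential Φ) (hε : 0 < ε) {C : ℝ}
    {k l : κ} {i j : J} (hi : i ∈ A) (hj : j ∈ B) (hs : 0 ≤ s) (hA : M.ok A s W.z)
    (hB : M.ok B s W.z) :
    M.Ct C A k i B l j s W.z ↔
      dist ((sw W A).path Φ ε s ⟨i, hi⟩).1 ((sw W B).path Φ ε s ⟨j, hj⟩).1 ≤ C * ε := by
  rw [h.ct_iff, ← h.st_eq_path_of_ok hΦ hε hA ⟨hs, le_rfl⟩,
    ← h.st_eq_path_of_ok hΦ hε hB ⟨hs, le_rfl⟩]
  exact ⟨fun h => h.2.2.2.2, fun h => ⟨hi, hj, hA, hB, h⟩⟩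

theorem Of.vct_iff [Nonempty κ] (h : Of M Φ ε W) {C : ℝ} {i j : J} :
    M.VCt C P i j s W.z ↔ ∃ A ⊆ P, ∃ B ⊆ P, i ∈ A ∧ j ∈ B ∧ M.ok A s W.z ∧ M.ok B s W.z ∧
      dist (M.st A s W.z i).1 (M.st B s W.z j).1 ≤ C * ε := by
  unfold VSys.VCt
  refine exists_congr fun A => and_congr_right fun _ => exists_congr fun B =>
    and_congr_right fun _ => ?_
  simp only [h.ct_iff, exists_const]

/-- Virtual contacts in terms of paths. -/
theorem Of.vct_iff_path [Nonempty κ] (h : Of M Φ ε W) (hΦ : AdmissiblePotential Φ) (hε : 0 < ε)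
    {C : ℝ} {i j : J} (hs : 0 ≤ s) :
    M.VCt C P i j s W.z ↔ ∃ A ⊆ P, ∃ B ⊆ P, ∃ (hi : i ∈ A) (hj : j ∈ B), M.ok A s W.z ∧
      M.ok B s W.z ∧
      dist ((sw W A).path Φ ε s ⟨i, hi⟩).1 ((sw W B).path Φ ε s ⟨j, hj⟩).1 ≤ C * ε := by
  rw [h.vct_iff]
  refine exists_congr fun A => and_congr_right fun _ => exists_congr fun B =>
    and_congr_right fun _ => ?_
  constructor
  · rintro ⟨hi, hj, hA, hB, hd⟩
    refine ⟨hi, hj, hA, hB, ?_⟩
    rwa [← h.st_eq_path_of_ok hΦ hε hA ⟨hs, le_rfl⟩, ← h.st_eq_path_of_ok hΦ hε hB ⟨hs, le_rfl⟩]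
  · rintro ⟨hi, hj, hA, hB, hd⟩
    refine ⟨hi, hj, hA, hB, ?_⟩
    rwa [← h.st_eq_path_of_ok hΦ hε hA ⟨hs, le_rfl⟩,
      ← h.st_eq_path_of_ok hΦ hε hB ⟨hs, le_rfl⟩] at hd

end Crest.Agent.R122.LNBridge968

end
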