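import Mathlib
import Crest.Prelude.Def_KineticLimit
import Crest.Agent.R122.LNBridge_968

/-!
# Row 122, LN1: bridge, part 2 (helper968)

* `exists_bad_conn` : if a sub-world is not `ok` there is a connected sub-world with a bad birth.
* `Pull M' M e` : `M'` is `M` pulled back along an injection `e`; `Pull.st`, `Pull.ok`, `Pull.vct`,
  `Pull.conn`, `Pull.treeLike`, `Pull.treeLike_of`.
-/

set_option autoImplicit false
set_option linter.unusedSectionVars false

open MeasureTheory Set Filter Topology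
open scoped NNReal ENNReal
open Crest.AnalysisR.Kinetic
open Crest.Agent.R122.Flow671 Crest.Agent.R122.Loc45 Crest.Agent.R122.Ins45
open Crest.Agent.R122.GIV566 Crest.Agent.R122.VL581 Crest.Agent.R122.VL581.VSys
open Crest.Agent.R122.VLInst442 Crest.Agent.R122.EDefs602 Crest.Agent.R122.LNg410

noncomputable section

namespace Crest.Agent.R122.LNBridge968

variable {J J' κ : Type} [Fintype J] [Fintype J'] {M : VSys J κ} {A B P : Finset J} {s t : ℝ}
  {Z : J → PhasePoint}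

/-! ### Bad births -/

/-- **Bad births are seen by a connected sub-world**: if some sub-world of `A` is not `ok` at time
`T`, there is a connected `P ⊆ A` with a bad birth (hence `P` is not tree-like). -/
theorem exists_bad_conn [Nonempty κ] (hΦ : AdmissiblePotential M.Φ) (hε : 0 < M.ε)
    (ho : ∀ i ∈ A, M.o ≠ some i) (h : ¬ M.ok A M.T Z) :
    ∃ P ⊆ A, M.Conn 1 P Z ∧ ¬ M.ok P M.T Z ∧ ∃ i ∈ P, ∃ j ∈ P, j ≠ i ∧ M.bb j ≤ M.bb i ∧
      M.bb i < M.T ∧ M.ok P (M.bb i) Z ∧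
      dist (M.st P (M.bb i) Z i).1 (M.st P (M.bb i) Z j).1 ≤ M.ε := by
  classical
  -- a minimal sub-world which is not `ok`
  have hex : ∃ n, ∃ P ⊆ A, P.card = n ∧ ¬ M.ok P M.T Z := ⟨A.card, A, le_rfl, rfl, h⟩
  obtain ⟨P, hPA, hPn, hP⟩ := Nat.find_spec hex
  have hmin : ∀ Q ⊆ A, Q.card < P.card → M.ok Q M.T Z := by
    intro Q hQ hc
    by_contra hcon
    exact Nat.find_min hex (hPn ▸ hc) ⟨Q, hQ, rfl, hcon⟩
  obtain ⟨i, hbad, hbi, hok⟩ := exists_first_bad M hP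
  obtain ⟨hi, _, j, hj, _, hji, hbj, hd⟩ := hbad
  refine ⟨P, hPA, ⟨⟨i, hi⟩, fun Q hQ hQne hQP => ?_⟩, hP, i, hi, j, hj, hji, hbj, hbi, hok, hd⟩
  by_contra hno
  push Not at hno
  set R := P \ Q with hR
  have hRP : R ⊆ P := Finset.sdiff_subset
  have hdis : Disjoint Q R := Finset.disjoint_sdiff
  have hun : Q ∪ R = P := Finset.union_sdiff_of_subset hQ
  have hcQ : Q.card < P.card := Finset.card_lt_card (hQ.ssubset_of_ne hQP)
  have hcR : R.card < P.card := by
    refine Finset.card_lt_card (hRP.ssubset_of_ne fun h' => ?_)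
    obtain ⟨x, hx⟩ := hQne
    have : x ∈ R := h' ▸ hQ hx
    exact (Finset.mem_sdiff.1 this).2 hx
  have hokQ : M.ok Q M.T Z := hmin Q (hQ.trans hPA) hcQ
  have hokR : M.ok R M.T Z := hmin R (hRP.trans hPA) hcR
  obtain ⟨k⟩ : Nonempty κ := inferInstance
  have hfar : ∀ s ∈ Icc 0 M.T, ∀ x ∈ Q, ∀ y ∈ R,
      M.ε < dist (M.st Q s Z x).1 (M.st R s Z y).1 := by
    intro s hs x hx y hy
    by_contra hcon
    refine hno x hx y hy s hs ⟨Q, hQ, R, hRP, k, k, hx, hy, ok_anti hs.2 hokQ, ok_anti hs.2 hokR,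
      fun h' => absurd h' (ho x (hPA (hQ hx))), fun h' => absurd h' (ho y (hPA (hRP hy))), ?_⟩
    unfold VSys.pos
    rw [if_neg (ho x (hPA (hQ hx))), if_neg (ho y (hPA (hRP hy))), one_mul]
    exact not_lt.1 hcon
  have hb0 : 0 ≤ M.bb i := bb_nonneg M i
  have hst := st_union (M := M) hΦ hε hdis (ok_anti hbi.le hokQ) (ok_anti hbi.le hokR)
    (fun s hs x hx y hy _ _ _ _ => (hfar s ⟨hs.1, hs.2.le.trans hbi.le⟩ x hx y hy).le)
    (M.bb i) le_rfl
  rw [hun] at hst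
  have hcase : ∀ x ∈ P, x ∈ Q ∨ x ∈ R := fun x hx => by
    rw [← hun] at hx
    exact Finset.mem_union.1 hx
  have hm : M.bb i ∈ Icc 0 M.T := ⟨hb0, hbi.le⟩
  rcases hcase i hi with hiQ | hiR
  · rcases hcase j hj with hjQ | hjR
    · rw [hst.1 i hiQ, hst.1 j hjQ] at hd
      exact absurd hd (not_le.2 (hokQ i hiQ (ho i (hPA hi)) hbi j hjQ (ho j (hPA hj)) hji hbj))
    · rw [hst.1 i hiQ, hst.2 j hjR] at hd
      exact absurd hd (not_le.2 (hfar _ hm i hiQ j hjR))
  · rcases hcase j hj with hjQ | hjR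
    · rw [hst.2 i hiR, hst.1 j hjQ, dist_comm] at hd
      exact absurd hd (not_le.2 (hfar _ hm j hjQ i hiR))
    · rw [hst.2 i hiR, hst.2 j hjR] at hd
      exact absurd hd (not_le.2 (hokR i hiR (ho i (hPA hi)) hbi j hjR (ho j (hPA hj)) hji hbj))

/-- A sub-world which is not `ok` contains a connected one which is not tree-like. -/
theorem exists_conn_not_treeLike [Nonempty κ] (hΦ : AdmissiblePotential M.Φ) (hε : 0 < M.ε)
    (ho : ∀ i ∈ A, M.o ≠ some i) (h : ¬ M.ok A M.T Z) (ℓ ς : ℝ) :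
    ∃ P ⊆ A, M.Conn 1 P Z ∧ ¬ M.TreeLike 1 ℓ ς P Z ∧ ∃ i ∈ P, ∃ j ∈ P, j ≠ i ∧
      M.bb j ≤ M.bb i ∧ M.bb i < M.T ∧ M.ok P (M.bb i) Z ∧
      dist (M.st P (M.bb i) Z i).1 (M.st P (M.bb i) Z j).1 ≤ M.ε := by
  obtain ⟨P, hPA, hC, hok, hrest⟩ := exists_bad_conn hΦ hε ho h
  exact ⟨P, hPA, hC, fun hT => hok (hT.1 P le_rfl), hrest⟩

/-! ### Pull back along an injection -/

/-- `M'` is the system `M` seen through the injection `e`. -/
structure Pull (M' : VSys J' κ) (M : VSys J κ) (e : J' ↪ J) : Prop where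
  Φ : M'.Φ = M.Φ
  T : M'.T = M.T
  ε : M'.ε = M.ε
  b : ∀ i, M'.b i = M.b (e i)
  o : ∀ i, M'.o = some i ↔ M.o = some (e i)
  S : M'.S = M.S

/-- Restriction of a system without obstacle. -/
theorem pull_of_none {e : J' ↪ J} (h : M.o = none) :
    Pull (⟨M.Φ, M.T, M.ε, fun i => M.b (e i), none, M.S⟩ : VSys J' κ) M e where
  Φ := rfl
  T := rfl
  ε := rfl
  b _ := rfl
  o i := by simp [h]
  S := rfl

open scoped Classical in
/-- Restriction of a system. -/
def res (M : VSys J κ) (e : J' ↪ J) : VSys J' κ :=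
  ⟨M.Φ, M.T, M.ε, fun i => M.b (e i),
    if h : ∃ i, M.o = some (e i) then some h.choose else none, M.S⟩

theorem pull_res (M : VSys J κ) (e : J' ↪ J) : Pull (res M e) M e where
  Φ := rfl
  T := rfl
  ε := rfl
  b _ := rfl
  o i := by
    classical
    unfold res
    simp only
    split_ifs with h
    · have h1 := h.choose_spec
      constructor
      · intro h2
        rw [Option.some_inj] at h2
        rw [← h2]
        exact h1
      · intro h2
        have h3 : e i = e h.choose := Option.some_inj.1 (h2.symm.trans h1)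
        exact congrArg some (e.injective h3).symm
    · push Not at h
      exact ⟨fun h2 => absurd h2 (by simp), fun h2 => absurd h2 (h i)⟩
  S := rfl

variable {M' : VSys J' κ} {e : J' ↪ J} {A' B' P' : Finset J'}

namespace Pull

theorem bb (h : Pull M' M e) (i : J') : M'.bb i = M.bb (e i) := by
  unfold VSys.bb
  rw [h.b]

theorem mem (h : Pull M' M e) {i : J'} : e i ∈ M.mem (A'.map e) t ↔ i ∈ M'.mem A' t := by
  rw [mem_mem, mem_mem, Finset.mem_map', h.bb, ne_eq, ne_eq, h.o i]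

/-- States. -/
theorem st (h : Pull M' M e) (hΦ : AdmissiblePotential M.Φ) (hε : 0 < M.ε) {i : J'} (t : ℝ) :
    M.st (A'.map e) t Z (e i) = M'.st A' t (fun k => Z (e k)) i := by
  classical
  by_cases hi : i ∈ M'.mem A' t
  swap
  · rw [st_of_not_mem M (fun h' => hi (h.mem.1 h')), st_of_not_mem M' hi]
  have hi' : e i ∈ M.mem (A'.map e) t := h.mem.2 hi
  rw [st_of_mem M hi', st_of_mem M' hi]
  unfold ev
  let σ : M'.mem A' t ↪ M.mem (A'.map e) t := ⟨fun j => ⟨e j, h.mem.2 j.2⟩, fun j k hjk =>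
    Subtype.ext (e.injective (congrArg Subtype.val hjk))⟩
  have hsurj : ∀ j : M.mem (A'.map e) t, ∃ k, σ k = j := by
    rintro ⟨j, hj⟩
    obtain ⟨k, _, rfl⟩ := Finset.mem_map.1 (mem_mem.1 hj).1
    exact ⟨⟨k, h.mem.1 hj⟩, rfl⟩
  have ht : -1 ≤ t := by
    have h1 := (mem_mem.1 hi).2.2
    have h2 := bb_nonneg M' i
    linarith
  have h1 := evo_emb hΦ hε σ (b := fun j : M.mem (A'.map e) t => M.bb j) ht
    (fun j hj => by
      obtain ⟨k, hk⟩ := hsurj j
      exact absurd hk (hj k))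
    (fun j : M.mem (A'.map e) t => ((Z j).1 - (Z j).2, (Z j).2)) ⟨i, hi⟩
  have h2 : (fun k : M'.mem A' t => M'.bb k) = fun k => M.bb (σ k) := by
    funext k
    exact h.bb k
  rw [h.Φ, h.ε, h2]
  exact h1

theorem ok (h : Pull M' M e) (hΦ : AdmissiblePotential M.Φ) (hε : 0 < M.ε) (t : ℝ) :
    M.ok (A'.map e) t Z ↔ M'.ok A' t (fun k => Z (e k)) := by
  unfold VSys.ok
  constructor
  · intro hok i hi ho hb j hj ho' hji hbj
    have h1 := hok (e i) (Finset.mem_map_of_mem e hi) (fun h' => ho ((h.o i).2 h'))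
      (by rwa [← h.bb]) (e j) (Finset.mem_map_of_mem e hj) (fun h' => ho' ((h.o j).2 h'))
      (fun h' => hji (e.injective h')) (by rwa [← h.bb, ← h.bb])
    rwa [h.st hΦ hε, h.st hΦ hε, ← h.bb, ← h.ε] at h1
  · intro hok i hi ho hb j hj ho' hji hbj
    obtain ⟨i, hi1, rfl⟩ := Finset.mem_map.1 hi
    obtain ⟨j, hj1, rfl⟩ := Finset.mem_map.1 hj
    rw [h.st hΦ hε, h.st hΦ hε, ← h.bb, ← h.ε]
    exact hok i hi1 (fun h' => ho ((h.o i).1 h')) (by rwa [h.bb]) j hj1
      (fun h' => ho' ((h.o j).1 h')) (fun h' => hji (congrArg e h')) (by rwa [h.bb, h.bb])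

theorem pos (h : Pull M' M e) (hΦ : AdmissiblePotential M.Φ) (hε : 0 < M.ε) (k : κ) (t : ℝ)
    {i : J'} : M.pos (A'.map e) k t Z (e i) = M'.pos A' k t (fun k => Z (e k)) i := by
  unfold VSys.pos
  by_cases hi : M'.o = some i
  · rw [if_pos hi, if_pos ((h.o i).1 hi), h.S, h.T]
  · rw [if_neg hi, if_neg fun h' => hi ((h.o i).2 h'), h.st hΦ hε]

theorem ct (h : Pull M' M e) (hΦ : AdmissiblePotential M.Φ) (hε : 0 < M.ε) {C : ℝ} {k l : κ}
    {i j : J'} : M.Ct C (A'.map e) k (e i) (B'.map e) l (e j) t Z ↔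
      M'.Ct C A' k i B' l j t (fun k => Z (e k)) := by
  unfold VSys.Ct
  rw [Finset.mem_map', Finset.mem_map', h.ok hΦ hε, h.ok hΦ hε, h.pos hΦ hε, h.pos hΦ hε,
    h.ε, h.S, h.o, h.o]

theorem vct (h : Pull M' M e) (hΦ : AdmissiblePotential M.Φ) (hε : 0 < M.ε) {C : ℝ} {i j : J'} :
    M.VCt C (P'.map e) (e i) (e j) t Z ↔ M'.VCt C P' i j t (fun k => Z (e k)) := by
  unfold VSys.VCt
  constructor
  · rintro ⟨A, hA, B, hB, k, l, hc⟩
    obtain ⟨A', hA', rfl⟩ := Finset.subset_map_iff.1 hA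
    obtain ⟨B', hB', rfl⟩ := Finset.subset_map_iff.1 hB
    exact ⟨A', hA', B', hB', k, l, (h.ct hΦ hε).1 hc⟩
  · rintro ⟨A', hA', B', hB', k, l, hc⟩
    exact ⟨A'.map e, Finset.map_subset_map.2 hA', B'.map e, Finset.map_subset_map.2 hB', k, l,
      (h.ct hΦ hε).2 hc⟩

theorem conn (h : Pull M' M e) (hΦ : AdmissiblePotential M.Φ) (hε : 0 < M.ε) {C : ℝ} :
    M.Conn C (P'.map e) Z ↔ M'.Conn C P' (fun k => Z (e k)) := by
  classical
  unfold VSys.Conn
  constructor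
  · rintro ⟨hne, hc⟩
    refine ⟨Finset.map_nonempty.1 hne, fun Q hQ hQne hQP => ?_⟩
    obtain ⟨i, hi, j, hj, t, ht, hv⟩ := hc (Q.map e) (Finset.map_subset_map.2 hQ)
      (Finset.map_nonempty.2 hQne) (fun h' => hQP (Finset.map_injective e h'))
    obtain ⟨i, hi', rfl⟩ := Finset.mem_map.1 hi
    rw [Finset.mem_sdiff] at hj
    obtain ⟨j, hj', rfl⟩ := Finset.mem_map.1 hj.1
    refine ⟨i, hi', j, Finset.mem_sdiff.2 ⟨hj', fun h' => hj.2 (Finset.mem_map_of_mem e h')⟩, t,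
      by rwa [h.T], (h.vct hΦ hε).1 hv⟩
  · rintro ⟨hne, hc⟩
    refine ⟨Finset.map_nonempty.2 hne, fun Q hQ hQne hQP => ?_⟩
    obtain ⟨Q, hQ', rfl⟩ := Finset.subset_map_iff.1 hQ
    obtain ⟨i, hi, j, hj, t, ht, hv⟩ := hc Q hQ' (Finset.map_nonempty.1 hQne)
      (fun h' => hQP (by rw [h']))
    rw [Finset.mem_sdiff] at hj
    refine ⟨e i, Finset.mem_map_of_mem e hi, e j, Finset.mem_sdiff.2
      ⟨Finset.mem_map_of_mem e hj.1, fun h' => hj.2 ((Finset.mem_map' e).1 h')⟩, t,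
      by rwa [h.T] at ht, (h.vct hΦ hε).2 hv⟩

/-- Tree-like systems restrict. -/
theorem treeLike (h : Pull M' M e) (hΦ : AdmissiblePotential M.Φ) (hε : 0 < M.ε) {C ℓ ς : ℝ}
    (ht : M.TreeLike C ℓ ς (P'.map e) Z) : M'.TreeLike C ℓ ς P' (fun k => Z (e k)) := by
  classical
  obtain ⟨hok, E, σ, h1, h2, h3, h4, h5, h6⟩ := ht
  set p : J' × J' → J × J := fun x => (e x.1, e x.2) with hp
  have hpi : Function.Injective p := fun x y hxy => by
    simp only [hp, Prod.mk.injEq] at hxy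
    exact Prod.ext (e.injective hxy.1) (e.injective hxy.2)
  have himg : ∀ x ∈ E, ∃ y, p y = x := by
    rintro ⟨x1, x2⟩ hx
    obtain ⟨hx1, hx2, _⟩ := h2 _ hx
    obtain ⟨y1, _, hy1⟩ := Finset.mem_map.1 hx1
    obtain ⟨y2, _, hy2⟩ := Finset.mem_map.1 hx2
    exact ⟨(y1, y2), by simp only [hp, hy1, hy2]⟩
  set E' : Finset (J' × J') := E.preimage p hpi.injOn with hE'
  have hmem : ∀ x, x ∈ E' ↔ p x ∈ E := fun x => Finset.mem_preimage
  have hcard : E'.card = E.card := by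
    have h7 : E'.image p = E := by
      ext x
      rw [Finset.mem_image]
      constructor
      · rintro ⟨y, hy, rfl⟩
        exact (hmem y).1 hy
      · intro hx
        obtain ⟨y, rfl⟩ := himg x hx
        exact ⟨y, (hmem y).2 hx, rfl⟩
    rw [← h7, Finset.card_image_of_injective _ hpi]
  refine ⟨fun A hA => ?_, E', fun x => σ (p x), ?_, ?_, ?_, ?_, ?_, ?_⟩
  · have h7 := hok (A.map e) (Finset.map_subset_map.2 hA)
    rw [h.T]
    exact (h.ok hΦ hε _).1 h7
  · rw [hcard, h1, Finset.card_map]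
  · intro x hx
    obtain ⟨h7, h8, h9⟩ := h2 _ ((hmem x).1 hx)
    exact ⟨(Finset.mem_map' e).1 h7, (Finset.mem_map' e).1 h8, fun h' => h9 (congrArg e h')⟩
  · intro x hx
    rw [h.T]
    exact h3 _ ((hmem x).1 hx)
  · intro x hx i
    rw [h.b]
    exact h4 _ ((hmem x).1 hx) (e i)
  · intro x hx y hy hxy
    exact h5 _ ((hmem x).1 hx) _ ((hmem y).1 hy) (fun h' => hxy (hpi h'))
  · intro i hi j hj hij t ht hv
    rw [h.T] at ht
    obtain ⟨x, hx, hx', hd⟩ := h6 (e i) (Finset.mem_map_of_mem e hi) (e j)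
      (Finset.mem_map_of_mem e hj) (fun h' => hij (e.injective h')) t ht ((h.vct hΦ hε).2 hv)
    obtain ⟨y, rfl⟩ := himg x hx
    refine ⟨y, (hmem y).2 hx, ?_, hd⟩
    rcases hx' with h7 | h7
    · exact Or.inl (hpi h7)
    · exact Or.inr (hpi h7)

/-- Converse of `Pull.treeLike`: the births outside are at most `0` or births of members. -/
theorem treeLike_of (h : Pull M' M e) (hΦ : AdmissiblePotential M.Φ) (hε : 0 < M.ε) {C ℓ ς : ℝ}
    (hbirth : ∀ j, (∃ i, M.b (e i) = M.b j) ∨ M.b j ≤ 0)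
    (ht : M'.TreeLike C ℓ ς P' (fun k => Z (e k))) : M.TreeLike C ℓ ς (P'.map e) Z := by
  classical
  obtain ⟨hok, E, σ, h1, h2, h3, h4, h5, h6⟩ := ht
  set p : J' × J' → J × J := fun x => (e x.1, e x.2) with hp
  have hpi : Function.Injective p := fun x y hxy => by
    simp only [hp, Prod.mk.injEq] at hxy
    exact Prod.ext (e.injective hxy.1) (e.injective hxy.2)
  set τ : J × J → ℝ := Function.extend p σ 0 with hτ
  have hτp : ∀ x, τ (p x) = σ x := fun x => hpi.extend_apply σ 0 x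
  have hmem : ∀ x, x ∈ E.image p ↔ ∃ y ∈ E, p y = x := fun x => Finset.mem_image
  refine ⟨fun A hA => ?_, E.image p, τ, ?_, ?_, ?_, ?_, ?_, ?_⟩
  · obtain ⟨A', hA', rfl⟩ := Finset.subset_map_iff.1 hA
    rw [← h.T]
    exact (h.ok hΦ hε _).2 (hok A' hA')
  · rw [Finset.card_image_of_injective _ hpi, h1, Finset.card_map]
  · intro x hx
    obtain ⟨y, hy, rfl⟩ := (hmem x).1 hx
    obtain ⟨h7, h8, h9⟩ := h2 y hy
    exact ⟨Finset.mem_map_of_mem e h7, Finset.mem_map_of_mem e h8, fun h' => h9 (e.injective h')⟩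
  · intro x hx
    obtain ⟨y, hy, rfl⟩ := (hmem x).1 hx
    rw [hτp, ← h.T]
    exact h3 y hy
  · intro x hx j
    obtain ⟨y, hy, rfl⟩ := (hmem x).1 hx
    rw [hτp]
    rcases hbirth j with ⟨i, hi⟩ | hj
    · rw [← hi, ← h.b]
      exact h4 y hy i
    · have h7 := (h3 y hy).1
      refine lt_of_lt_of_le ?_ (le_abs_self _)
      linarith
  · intro x hx x' hx' hxx
    obtain ⟨y, hy, rfl⟩ := (hmem x).1 hx
    obtain ⟨y', hy', rfl⟩ := (hmem x').1 hx'
    rw [hτp, hτp]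
    exact h5 y hy y' hy' (fun h' => hxx (by rw [h']))
  · intro i hi j hj hij t ht hv
    obtain ⟨i, hi', rfl⟩ := Finset.mem_map.1 hi
    obtain ⟨j, hj', rfl⟩ := Finset.mem_map.1 hj
    rw [← h.T] at ht
    obtain ⟨x, hx, hx', hd⟩ := h6 i hi' j hj' (fun h' => hij (congrArg e h')) t ht
      ((h.vct hΦ hε).1 hv)
    refine ⟨p x, (hmem _).2 ⟨x, hx, rfl⟩, ?_, by rwa [hτp]⟩
    rcases hx' with rfl | rfl
    · exact Or.inl rfl
    · exact Or.inr rfl

/-- The whole index set of the restriction. -/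
theorem conn_univ (h : Pull M' M e) (hΦ : AdmissiblePotential M.Φ) (hε : 0 < M.ε) {C : ℝ} :
    M.Conn C (Finset.univ.map e) Z ↔ M'.Conn C Finset.univ (fun k => Z (e k)) := h.conn hΦ hε

end Pull

/-- The restriction of a system over a world is a system over the restricted world. -/
theorem Of.pull {Φ : Space3 → ℝ} {ε : ℝ} {W : MW J} (h : Of M Φ ε W) (h' : Pull M' M e) :
    Of M' Φ ε (W.comap e) where
  Φ := h'.Φ.trans h.Φ
  ε := h'.ε.trans h.ε
  b := by
    funext i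
    rw [h'.b, h.b]
    rfl
  o := by
    rcases ho : M'.o with _ | i
    · rfl
    · have h1 := (h'.o i).1 ho
      rw [h.o] at h1
      exact absurd h1 (by simp)

end Crest.Agent.R122.LNBridge968

end
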