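import Crest.Agent.R122.LN2Hor_473
import Crest.Agent.R122.LN1Defs_304
import Crest.Agent.R122.LNBridge2_968

/-!
# Row 122, LN1 → gateway (helper424): the graph alternatives give bad partitions

* `exists_parts` : a connected set `G` containing a part `π₀` and the other parts give a partition
  of `G ∪ uni Λ` into connected sets, each containing a part of `Λ`; at most `Λ.card` parts, and
  equality only if `G` is one of them and meets no other part.
* `tl_of_pull` : tree-likeness is transported along an injection of labels.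
* `badGasW_of_not` : `¬ NoBad ∨ ¬ NoTwo → BadGasW` for the union of the gas and a structure.
-/

set_option autoImplicit false
set_option linter.unusedSectionVars false

open MeasureTheory Set
open scoped Classical ENNReal
open Crest.AnalysisR.Kinetic
open Crest.Agent.R122.VL581 Crest.Agent.R122.VLMeas973 Crest.Agent.R122.LNg410
open Crest.Agent.R122.LN304 Crest.Agent.R122.LNBridge968

noncomputable section

namespace Crest.Agent.R122.LNPart424

variable {J κ : Type} [Fintype J] {M : VSys J κ} {C ℓ ς : ℝ} {Z : J → PhasePoint}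

theorem mem_uni {Λ : Finset (Finset J)} {x : J} : x ∈ uni Λ ↔ ∃ π ∈ Λ, x ∈ π := by
  simp [uni]

/-- **The partition of a connected set and the parts.** -/
theorem exists_parts {Λ : Finset (Finset J)} (hc : ∀ π ∈ Λ, M.Conn C π Z)
    (hd : ∀ π ∈ Λ, ∀ π' ∈ Λ, π ≠ π' → Disjoint π π') {G : Finset J} (hG : M.Conn C G Z)
    {π₀ : Finset J} (h0 : π₀ ∈ Λ) (hs : π₀ ⊆ G) :
    ∃ Fs : Finset (Finset J), (∀ P ∈ Fs, ∀ P' ∈ Fs, P ≠ P' → Disjoint P P') ∧
      (∀ P ∈ Fs, M.Conn C P Z ∧ ∃ π ∈ Λ, π ⊆ P) ∧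
      (∀ x, (∃ P ∈ Fs, x ∈ P) ↔ x ∈ G ∨ x ∈ uni Λ) ∧ (∃ G' ∈ Fs, G ⊆ G') ∧
      Fs.card ≤ Λ.card ∧
      (Fs.card = Λ.card → G ∈ Fs ∧ ∀ π ∈ Λ, (∃ x ∈ π, x ∈ G) → π = π₀) := by
  set Λ₁ := Λ.filter fun π => (G ∩ π).Nonempty with hΛ₁
  set Λ₂ := Λ.filter fun π => ¬ (G ∩ π).Nonempty with hΛ₂
  set G' := G ∪ Λ₁.biUnion id with hG'
  have hG'c : M.Conn C G' Z := conn_biUnion Λ₁ hG (fun π hπ => hc π (Finset.mem_filter.1 hπ).1)
    fun π hπ => (Finset.mem_filter.1 hπ).2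
  have h0ne : π₀.Nonempty := (hc π₀ h0).1
  have h01 : π₀ ∈ Λ₁ := Finset.mem_filter.2 ⟨h0, by
    obtain ⟨x, hx⟩ := h0ne
    exact ⟨x, Finset.mem_inter.2 ⟨hs hx, hx⟩⟩⟩
  have hdis : ∀ π ∈ Λ₂, Disjoint π G' := by
    intro π hπ
    obtain ⟨h1, h2⟩ := Finset.mem_filter.1 hπ
    rw [hG', Finset.disjoint_union_right]
    constructor
    · rw [Finset.disjoint_left]
      intro x hx hxG
      exact h2 ⟨x, Finset.mem_inter.2 ⟨hxG, hx⟩⟩
    · rw [Finset.disjoint_biUnion_right]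
      intro π' hπ'
      obtain ⟨h3, h4⟩ := Finset.mem_filter.1 hπ'
      refine hd π h1 π' h3 fun h => h2 (h ▸ h4)
  have hG'2 : G' ∉ Λ₂ := by
    intro h
    have h1 := hdis G' h
    rw [disjoint_self, Finset.bot_eq_empty] at h1
    exact hG'c.1.ne_empty h1
  have hcard : Λ₁.card + Λ₂.card = Λ.card := Finset.card_filter_add_card_filter_not _
  have h1pos : 0 < Λ₁.card := Finset.card_pos.2 ⟨π₀, h01⟩
  refine ⟨insert G' Λ₂, ?_, ?_, ?_, ⟨G', Finset.mem_insert_self _ _, Finset.subset_union_left⟩,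
    ?_, ?_⟩
  · intro P hP P' hP' hne
    rcases Finset.mem_insert.1 hP with rfl | hP
    · rcases Finset.mem_insert.1 hP' with rfl | hP'
      · exact absurd rfl hne
      · exact (hdis P' hP').symm
    · rcases Finset.mem_insert.1 hP' with rfl | hP'
      · exact hdis P hP
      · exact hd P (Finset.mem_filter.1 hP).1 P' (Finset.mem_filter.1 hP').1 hne
  · intro P hP
    rcases Finset.mem_insert.1 hP with rfl | hP
    · exact ⟨hG'c, π₀, h0, hs.trans Finset.subset_union_left⟩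
    · exact ⟨hc P (Finset.mem_filter.1 hP).1, P, (Finset.mem_filter.1 hP).1, subset_rfl⟩
  · intro x
    rw [mem_uni]
    constructor
    · rintro ⟨P, hP, hx⟩
      rcases Finset.mem_insert.1 hP with rfl | hP
      · rw [hG', Finset.mem_union, Finset.mem_biUnion] at hx
        rcases hx with hx | ⟨π, hπ, hx⟩
        · exact Or.inl hx
        · exact Or.inr ⟨π, (Finset.mem_filter.1 hπ).1, hx⟩
      · exact Or.inr ⟨P, (Finset.mem_filter.1 hP).1, hx⟩
    · rintro (hx | ⟨π, hπ, hx⟩)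
      · exact ⟨G', Finset.mem_insert_self _ _, Finset.mem_union_left _ hx⟩
      · by_cases h : (G ∩ π).Nonempty
        · exact ⟨G', Finset.mem_insert_self _ _, Finset.mem_union_right _
            (Finset.mem_biUnion.2 ⟨π, Finset.mem_filter.2 ⟨hπ, h⟩, hx⟩)⟩
        · exact ⟨π, Finset.mem_insert_of_mem (Finset.mem_filter.2 ⟨hπ, h⟩), hx⟩
  · rw [Finset.card_insert_of_notMem hG'2]
    omega
  · rw [Finset.card_insert_of_notMem hG'2]
    intro h
    have h2 : Λ₁.card = 1 := by omega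
    obtain ⟨π₁, hπ₁⟩ := Finset.card_eq_one.1 h2
    have h3 : π₁ = π₀ := by
      have := h01
      rw [hπ₁, Finset.mem_singleton] at this
      exact this.symm
    rw [h3] at hπ₁
    have h4 : G' = G := by
      rw [hG', hπ₁, Finset.singleton_biUnion]
      exact Finset.union_eq_left.2 hs
    refine ⟨h4 ▸ Finset.mem_insert_self _ _, ?_⟩
    rintro π hπ ⟨x, hx, hxG⟩
    have h5 : π ∈ Λ₁ := Finset.mem_filter.2 ⟨hπ, ⟨x, Finset.mem_inter.2 ⟨hxG, hx⟩⟩⟩
    rw [hπ₁, Finset.mem_singleton] at h5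
    exact h5

/-- Tree-likeness is transported along an injection of labels. -/
theorem tl_of_pull {J' : Type} [Fintype J'] {M' : VSys J' κ} {e : J' ↪ J} (h : Pull M' M e)
    (hΦ : AdmissiblePotential M.Φ) (hε : 0 < M.ε) {P' : Finset J'}
    (ht : LN2.TLW M' C ℓ ς P' (fun k => Z (e k))) : TL M C ℓ ς (P'.map e) Z := by
  obtain ⟨hok, E, σ, h1, h2, _, _, h5, h6⟩ := ht
  set p : J' × J' → J × J := fun x => (e x.1, e x.2) with hp
  have hpi : Function.Injective p := fun x y hxy => by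
    simp only [hp, Prod.mk.injEq] at hxy
    exact Prod.ext (e.injective hxy.1) (e.injective hxy.2)
  set τ : J × J → ℝ := Function.extend p σ 0 with hτ
  have hτp : ∀ x, τ (p x) = σ x := fun x => hpi.extend_apply σ 0 x
  refine ⟨fun A hA => ?_, E.image p, τ, ?_, ?_, ?_, ?_⟩
  · obtain ⟨A', hA', rfl⟩ := Finset.subset_map_iff.1 hA
    rw [← h.T]
    exact (h.ok hΦ hε _).2 (hok A' hA')
  · rw [Finset.card_image_of_injective _ hpi, h1, Finset.card_map]
  · intro x hx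
    obtain ⟨y, hy, rfl⟩ := Finset.mem_image.1 hx
    obtain ⟨h7, h8, h9⟩ := h2 y hy
    exact ⟨Finset.mem_map_of_mem e h7, Finset.mem_map_of_mem e h8, fun h' => h9 (e.injective h')⟩
  · intro x hx x' hx' hxx
    obtain ⟨y, hy, rfl⟩ := Finset.mem_image.1 hx
    obtain ⟨y', hy', rfl⟩ := Finset.mem_image.1 hx'
    rw [hτp, hτp]
    exact h5 y hy y' hy' (fun h' => hxx (by rw [h']))
  · intro i hi j hj hij t ht
    obtain ⟨i, hi', rfl⟩ := Finset.mem_map.1 hi
    obtain ⟨j, hj', rfl⟩ := Finset.mem_map.1 hj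
    obtain ⟨ht, hv⟩ := ht
    rw [← h.T] at ht
    obtain ⟨x, hx, hx', hd⟩ := h6 i hi' j hj' (fun h' => hij (congrArg e h')) t ht
      ((h.vct hΦ hε).1 hv)
    refine ⟨p x, Finset.mem_image.2 ⟨x, hx, rfl⟩, ?_, by rwa [hτp]⟩
    rcases hx' with rfl | rfl
    · exact Or.inl rfl
    · exact Or.inr rfl

/-- **Bad partition from a connected set which is not tree-like or meets two parts** (generic
labels: `e` is the injection of the labels of `M'` onto `G ∪ uni Λ`). -/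
theorem badPartW_of_conn {J' : Type} [Fintype J'] {M' : VSys J' κ} {e : J' ↪ J} (hp : Pull M' M e)
    (hΦ : AdmissiblePotential M.Φ) (hε : 0 < M.ε) {s : ℕ} {A' : Finset J'}
    {Λ : Finset (Finset J)} (hc : ∀ π ∈ Λ, M.Conn C π Z)
    (hd : ∀ π ∈ Λ, ∀ π' ∈ Λ, π ≠ π' → Disjoint π π') (hcard : Λ.card ≤ s)
    (hA : ∀ π ∈ Λ, ∃ y ∈ A', e y ∈ π) {G : Finset J} (hG : M.Conn C G Z)
    {π₀ : Finset J} (h0 : π₀ ∈ Λ) (hs : π₀ ⊆ G)
    (hQ : ∀ x, (∃ y, e y = x) ↔ x ∈ G ∨ x ∈ uni Λ)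
    (hbad : ¬ TL M C ℓ ς G Z ∨ ∃ π ∈ Λ, (∃ x ∈ π, x ∈ G) ∧ π ≠ π₀) :
    LN2.BadPartW M' C ℓ ς s A' (fun k => Z (e k)) := by
  obtain ⟨Fs, h1, h2, h3, h4, h5, h6⟩ := exists_parts hc hd hG h0 hs
  have hpre : ∀ P ∈ Fs, (P.preimage e e.injective.injOn).map e = P := by
    intro P hP
    ext x
    rw [Finset.mem_map]
    constructor
    · rintro ⟨y, hy, rfl⟩
      exact Finset.mem_preimage.1 hy
    · intro hx
      obtain ⟨y, rfl⟩ := (hQ x).2 ((h3 x).1 ⟨P, hP, hx⟩)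
      exact ⟨y, Finset.mem_preimage.2 hx, rfl⟩
  set Qs : Finset (Finset J') := Fs.image fun P => P.preimage e e.injective.injOn with hQs
  have hmem : ∀ P', P' ∈ Qs ↔ P'.map e ∈ Fs := by
    intro P'
    rw [hQs, Finset.mem_image]
    constructor
    · rintro ⟨P, hP, rfl⟩
      rw [hpre P hP]
      exact hP
    · intro h
      refine ⟨_, h, ?_⟩
      apply Finset.map_injective e
      rw [hpre _ h]
  have hdis : ∀ P ∈ Qs, ∀ P' ∈ Qs, P ≠ P' → Disjoint P P' := by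
    intro P hP P' hP' hne
    have h4 := h1 _ ((hmem P).1 hP) _ ((hmem P').1 hP') fun h => hne (Finset.map_injective e h)
    rwa [Finset.disjoint_map] at h4
  have hconn : ∀ P ∈ Qs, M'.Conn C P (fun k => Z (e k)) := fun P hP =>
    (hp.conn hΦ hε).1 (h2 _ ((hmem P).1 hP)).1
  have hcards : Qs.card = Fs.card := by
    have h7 : Qs.map ⟨Finset.map e, Finset.map_injective e⟩ = Fs := by
      ext P
      simp only [Finset.mem_map, Function.Embedding.coeFn_mk]
      constructor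
      · rintro ⟨P', hP', rfl⟩
        exact (hmem _).1 hP'
      · intro hP
        exact ⟨_, (hmem _).2 (by rw [hpre P hP]; exact hP), hpre P hP⟩
    rw [← h7, Finset.card_map]
  refine ⟨⟨Qs, ?_, ?_, ?_⟩, ?_, ?_⟩
  · rw [Finset.supIndep_iff_pairwiseDisjoint]
    intro P hP P' hP' hne
    exact hdis P hP P' hP' hne
  · ext x
    simp only [Finset.mem_univ, iff_true]
    rw [Finset.mem_sup]
    obtain ⟨P, hP, hx⟩ := (h3 _).2 ((hQ (e x)).1 ⟨x, rfl⟩)
    exact ⟨P.preimage e e.injective.injOn, (hmem _).2 (by rw [hpre P hP]; exact hP),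
      Finset.mem_preimage.2 hx⟩
  · rw [Finset.bot_eq_empty]
    intro h
    exact (hconn _ h).1.ne_empty rfl
  · intro P hP
    refine ⟨hconn P hP, ?_⟩
    obtain ⟨π, hπ, hsubP⟩ := (h2 _ ((hmem P).1 hP)).2
    obtain ⟨y, hy, hyπ⟩ := hA π hπ
    refine ⟨y, ?_, hy⟩
    have h5 := hsubP hyπ
    rwa [Finset.mem_map'] at h5
  · show Qs.card < s ∨ (Qs.card = s ∧ ∃ P ∈ Qs, ¬ LN2.TLW M' C ℓ ς P fun k => Z (e k))
    rcases h5.lt_or_eq with h7 | h7
    · left
      rw [hcards]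
      exact h7.trans_le hcard
    · obtain ⟨h8, h9⟩ := h6 h7
      rcases hcard.lt_or_eq with h10 | h10
      · left
        omega
      · right
        refine ⟨by omega, ?_⟩
        rcases hbad with hbad | ⟨π, hπ, hx, hne⟩
        · refine ⟨G.preimage e e.injective.injOn, (hmem _).2 (by rw [hpre G h8]; exact h8),
            fun ht => hbad ?_⟩
          rw [← hpre G h8]
          exact tl_of_pull hp hΦ hε ht
        · exact absurd (h9 π hπ hx) hne

/-! ### The gas and a structure -/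

variable {Φ : Space3 → ℝ} {T ε R : ℝ} {S : Type} [Fintype S] {n : ℕ}

/-- The system of the gas and a structure with births `b`. -/
abbrev gsys (Φ : Space3 → ℝ) (T ε : ℝ) (n : ℕ) (b : S → ℝ) : VSys (Fin n ⊕ S) Unit :=
  VLMeas973.vsys Φ T ε (LN2.bS n b)

/-- The parts of a structure: disjoint, covering the structure, anchored. -/
structure SParts (s : ℕ) (A₀ : Finset S) (Λ : Finset (Finset (Fin n ⊕ S))) : Prop where
  disj : ∀ π ∈ Λ, ∀ π' ∈ Λ, π ≠ π' → Disjoint π π'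
  cov : ∀ y : S, ∃ π ∈ Λ, Sum.inr y ∈ π
  anch : ∀ π ∈ Λ, ∃ y ∈ A₀, Sum.inr y ∈ π
  card : Λ.card ≤ s

/-- The embedding of the gas particles in `Q` and the structure. -/
theorem exists_emb (Q : Finset (Fin n ⊕ S)) (hQ : ∀ y : S, Sum.inr y ∈ Q) :
    ∃ (k : ℕ) (ι : Fin k ↪ Fin n) (e : (Fin k ⊕ S) ↪ (Fin n ⊕ S)), k ≤ Q.card ∧
      (∀ x, e x = Sum.map ι id x) ∧ ∀ x, (∃ y, e y = x) ↔ x ∈ Q := by
  set A : Finset (Fin n) := Finset.univ.filter fun i => Sum.inl i ∈ Q with hA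
  refine ⟨A.card, (A.orderEmbOfFin rfl).toEmbedding,
    ⟨Sum.map (A.orderEmbOfFin rfl) id, Function.Injective.sumMap
      (A.orderEmbOfFin rfl).injective Function.injective_id⟩, ?_, fun x => rfl, ?_⟩
  · have h1 : A.map ⟨Sum.inl, Sum.inl_injective⟩ ⊆ Q := by
      intro x hx
      obtain ⟨i, hi, rfl⟩ := Finset.mem_map.1 hx
      exact (Finset.mem_filter.1 hi).2
    have h2 := Finset.card_le_card h1
    rwa [Finset.card_map] at h2
  · intro x
    simp only [Function.Embedding.coeFn_mk]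
    constructor
    · rintro ⟨y, rfl⟩
      rcases y with i | y
      · exact (Finset.mem_filter.1 (A.orderEmbOfFin_mem rfl i)).2
      · exact hQ y
    · intro hx
      rcases x with i | y
      · have h1 : i ∈ Set.range (A.orderEmbOfFin rfl) := by
          rw [Finset.range_orderEmbOfFin]
          exact Finset.mem_filter.2 ⟨Finset.mem_univ _, hx⟩
        obtain ⟨j, hj⟩ := h1
        exact ⟨Sum.inl j, by simp [hj]⟩
      · exact ⟨Sum.inr y, rfl⟩

/-- The pull back of the system along the embedding of a part of the gas. -/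
theorem pull_gsys (b : S → ℝ) {k : ℕ} {ι : Fin k ↪ Fin n} {e : (Fin k ⊕ S) ↪ (Fin n ⊕ S)}
    (he : ∀ x, e x = Sum.map ι id x) : Pull (gsys Φ T ε k b) (gsys Φ T ε n b) e where
  Φ := rfl
  T := rfl
  ε := rfl
  b i := by
    rw [he]
    rcases i with i | i <;> rfl
  o i := by
    show (none : Option _) = _ ↔ (none : Option _) = _
    simp
  S := rfl

theorem elim_comp (w : Config n) (z : S → PhasePoint) {k : ℕ} {ι : Fin k ↪ Fin n}
    {e : (Fin k ⊕ S) ↪ (Fin n ⊕ S)} (he : ∀ x, e x = Sum.map ι id x) :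
    (fun x => (Sum.elim w z : Fin n ⊕ S → PhasePoint) (e x)) =
      Sum.elim (fun i => w (ι i)) z := by
  funext x
  rw [he]
  rcases x with i | i <;> rfl

/-- A bad connected set gives a bad partition of a sub-gas and the structure. -/
theorem badGasW_of_conn (hΦ : AdmissiblePotential Φ) (hε : 0 < ε) {b : S → ℝ} {z : S → PhasePoint}
    {w : Config n} {s N : ℕ} {A₀ : Finset S} {Λ : Finset (Finset (Fin n ⊕ S))}
    (hΛ : SParts s A₀ Λ) (hc : ∀ π ∈ Λ, (gsys Φ T ε n b).Conn C π (Sum.elim w z))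
    {G π₀ Q : Finset (Fin n ⊕ S)} (hG : (gsys Φ T ε n b).Conn C G (Sum.elim w z))
    (h0 : π₀ ∈ Λ) (hs : π₀ ⊆ G) (hQm : ∀ x, x ∈ Q ↔ x ∈ G ∨ x ∈ uni Λ) (hN : Q.card ≤ N)
    (hbad : ¬ TL (gsys Φ T ε n b) C (R * ε) ς G (Sum.elim w z) ∨
      ∃ π ∈ Λ, (∃ x ∈ π, x ∈ G) ∧ π ≠ π₀) :
    LN2.BadGasW Φ T C R ς ε N s A₀ b z w := by
  obtain ⟨k, ι, e, hk, he, hQ⟩ := exists_emb Q fun y => by
    obtain ⟨π, hπ, hy⟩ := hΛ.cov y
    exact (hQm _).2 (Or.inr (mem_uni.2 ⟨π, hπ, hy⟩))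
  refine ⟨k, hk.trans hN, ι, ?_⟩
  have h1 := badPartW_of_conn (pull_gsys (Φ := Φ) (T := T) (ε := ε) b he) hΦ hε
    (A' := LN2.anch k A₀) (ℓ := R * ε) (ς := ς) hc hΛ.disj hΛ.card (fun π hπ => by
      obtain ⟨y, hy, hyπ⟩ := hΛ.anch π hπ
      refine ⟨Sum.inr y, Finset.inr_mem_disjSum.2 hy, ?_⟩
      rw [he]
      exact hyπ) hG h0 hs (fun x => (hQ x).trans (hQm x)) hbad
  rwa [elim_comp w z he] at h1

/-- **The graph alternatives give bad partitions.** -/
theorem badGasW_of_not (hΦ : AdmissiblePotential Φ) (hε : 0 < ε) {b : S → ℝ} {z : S → PhasePoint}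
    {w : Config n} {s N : ℕ} {A₀ : Finset S} {Λ : Finset (Finset (Fin n ⊕ S))}
    (hΛ : SParts s A₀ Λ) (hc : ∀ π ∈ Λ, (gsys Φ T ε n b).Conn C π (Sum.elim w z))
    (h : ¬ NoBad (gsys Φ T ε n b) C (R * ε) ς (Sum.elim w z) Λ N ∨
      ¬ NoTwo (gsys Φ T ε n b) C (Sum.elim w z) Λ N) :
    LN2.BadGasW Φ T C R ς ε N s A₀ b z w := by
  have hm : ∀ P x, x ∈ (@Union.union (Finset (Fin n ⊕ S))
      (@Finset.instUnion (Fin n ⊕ S) fun a b => Classical.propDecidable (a = b)) P (uni Λ)) ↔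
      x ∈ P ∨ x ∈ uni Λ := fun P x => @Finset.mem_union _ (fun a b => Classical.propDecidable _) _ _ _
  rcases h with h | h
  · unfold NoBad at h
    push Not at h
    obtain ⟨P, hP, ⟨π, hπ, hs⟩, hN, hT⟩ := h
    exact badGasW_of_conn hΦ hε hΛ hc hP hπ hs (hm P) hN (Or.inl hT)
  · unfold NoTwo at h
    push Not at h
    obtain ⟨P, hP, hN, π, hπ, π', hπ', hs, hx, hne⟩ := h
    exact badGasW_of_conn hΦ hε hΛ hc hP hπ hs (hm P) hN (Or.inr ⟨π', hπ', hx, hne.symm⟩)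

/-- The graph alternatives at a horizon `t ≤ T` give bad partitions at the horizon `T`. -/
theorem badGas_of_not (hΦ : AdmissiblePotential Φ) (hε : 0 < ε) {t : ℝ} (htT : t ≤ T)
    {b : S → ℝ} {z : S → PhasePoint}
    {w : Config n} {s N : ℕ} {A₀ : Finset S} {Λ : Finset (Finset (Fin n ⊕ S))}
    (hΛ : SParts s A₀ Λ) (hc : ∀ π ∈ Λ, (gsys Φ t ε n b).Conn C π (Sum.elim w z))
    (h : ¬ NoBad (gsys Φ t ε n b) C (R * ε) ς (Sum.elim w z) Λ N ∨
      ¬ NoTwo (gsys Φ t ε n b) C (Sum.elim w z) Λ N) :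
    LN2.BadGas Φ T C R ς ε N s A₀ b z w :=
  (LN2.badGasW_hor htT (badGasW_of_not hΦ hε hΛ hc h)).badGas

end Crest.Agent.R122.LNPart424

end
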