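import Crest.Agent.R122.DetHit_726
import Crest.Agent.R122.LNPart_424
import Crest.Agent.R122.BHFin_167

/-!
# Row 122, BadHit, pull-back to a sub-gas (helper726)

`badHitGas_of_badHit` : the alternative `BadHit` (helper304) of a glued world (helper491) over the
gas and a structure gives `BH167.BadHitGas` (helper167) for the predicate `BH167.bpos`.
-/

set_option autoImplicit false
set_option linter.unusedSectionVars false

open MeasureTheory Set Filter Topology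
open Crest.AnalysisR.Kinetic
open Crest.Agent.R122.VL581 Crest.Agent.R122.VL581.VSys Crest.Agent.R122.VLMeas973
open Crest.Agent.R122.LN304 Crest.Agent.R122.LNg410 Crest.Agent.R122.LNBridge968
open Crest.Agent.R122.LNPart424 Crest.Agent.R122.PWGlue491 Crest.Agent.R122.BH167
open scoped Classical ENNReal

noncomputable section

namespace Crest.Agent.R122.Chain726

/-- A finite family of disjoint nonempty sets in the range of `e` which covers the range gives a
partition of the labels. -/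
theorem exists_finpartition {J' J : Type} [Fintype J'] (e : J' ↪ J) (Fs : Finset (Finset J))
    (hd : ∀ P ∈ Fs, ∀ P' ∈ Fs, P ≠ P' → Disjoint P P') (hc : ∀ y, ∃ P ∈ Fs, e y ∈ P)
    (hr : ∀ P ∈ Fs, ∀ x ∈ P, ∃ y, e y = x) (hn : ∀ P ∈ Fs, P.Nonempty) :
    ∃ π : Finpartition (Finset.univ : Finset J'), (∀ P', P' ∈ π.parts ↔ P'.map e ∈ Fs) ∧
      π.parts.card = Fs.card ∧ ∀ P ∈ Fs, ∃ P' ∈ π.parts, P'.map e = P := by
  have hpre : ∀ P ∈ Fs, (P.preimage e e.injective.injOn).map e = P := by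
    intro P hP
    ext x
    rw [Finset.mem_map]
    constructor
    · rintro ⟨y, hy, rfl⟩
      exact Finset.mem_preimage.1 hy
    · intro hx
      obtain ⟨y, rfl⟩ := hr P hP x hx
      exact ⟨y, Finset.mem_preimage.2 hx, rfl⟩
  set Qs : Finset (Finset J') := Fs.image fun P => P.preimage e e.injective.injOn with hQs
  have hmem : ∀ P', P' ∈ Qs ↔ P'.map e ∈ Fs := by
    intro P'
    rw [hQs, Finset.mem_image]
    constructor
    · rintro ⟨P, hP, rfl⟩
      rw [hpre P hP]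
      exact hP
    · intro h
      refine ⟨_, h, ?_⟩
      apply Finset.map_injective e
      rw [hpre _ h]
  have hcards : Qs.card = Fs.card := by
    have h7 : Qs.map ⟨Finset.map e, Finset.map_injective e⟩ = Fs := by
      ext P
      simp only [Finset.mem_map, Function.Embedding.coeFn_mk]
      constructor
      · rintro ⟨P', hP', rfl⟩
        exact (hmem _).1 hP'
      · intro hP
        exact ⟨_, (hmem _).2 (by rw [hpre P hP]; exact hP), hpre P hP⟩
    rw [← h7, Finset.card_map]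
  refine ⟨⟨Qs, ?_, ?_, ?_⟩, hmem, hcards, fun P hP => ⟨_, (hmem _).2 (by rw [hpre P hP]; exact hP),
    hpre P hP⟩⟩
  · rw [Finset.supIndep_iff_pairwiseDisjoint]
    intro P hP P' hP' hne
    have h4 := hd _ ((hmem P).1 hP) _ ((hmem P').1 hP') fun h => hne (Finset.map_injective e h)
    show Disjoint P P'
    rwa [Finset.disjoint_map] at h4
  · ext x
    simp only [Finset.mem_univ, iff_true]
    rw [Finset.mem_sup]
    obtain ⟨P, hP, hx⟩ := hc x
    exact ⟨P.preimage e e.injective.injOn, (hmem _).2 (by rw [hpre P hP]; exact hP),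
      Finset.mem_preimage.2 hx⟩
  · rw [Finset.bot_eq_empty]
    intro h
    have h5 := hn _ ((hmem _).1 h)
    rw [Finset.map_empty] at h5
    exact absurd h5 Finset.not_nonempty_empty

section gas

variable {Φ : Space3 → ℝ} {t T te T₁ ε c : ℝ} {S : Type} [Fintype S] {n : ℕ} {b : S → ℝ}
  {z : S → PhasePoint} {w : Config n}

/-- The embedding of a set of gas labels. -/
theorem exists_embV (V : Finset (Fin n ⊕ S)) (hV : ∀ y : S, Sum.inr y ∉ V) :
    ∃ f : Fin V.card ↪ Fin n, ∀ x, x ∈ V ↔ x ∈ range (f.trans ⟨Sum.inl, Sum.inl_injective⟩) := by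
  set A : Finset (Fin n) := Finset.univ.filter fun i => Sum.inl i ∈ V with hA
  have hAV : A.map ⟨Sum.inl, Sum.inl_injective⟩ = V := by
    ext x
    rw [Finset.mem_map]
    constructor
    · rintro ⟨i, hi, rfl⟩
      exact (Finset.mem_filter.1 hi).2
    · intro hx
      rcases x with i | y
      · exact ⟨i, Finset.mem_filter.2 ⟨Finset.mem_univ _, hx⟩, rfl⟩
      · exact absurd hx (hV y)
  have hcard : A.card = V.card := by rw [← hAV, Finset.card_map]
  refine ⟨(A.orderEmbOfFin hcard).toEmbedding, fun x => ?_⟩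
  constructor
  · intro hx
    rw [← hAV, Finset.mem_map] at hx
    obtain ⟨i, hi, rfl⟩ := hx
    have h1 : i ∈ Set.range (A.orderEmbOfFin hcard) := by
      rw [Finset.range_orderEmbOfFin]
      exact hi
    obtain ⟨j, hj⟩ := h1
    exact ⟨j, by simp [hj]⟩
  · rintro ⟨j, rfl⟩
    exact (Finset.mem_filter.1 (A.orderEmbOfFin_mem hcard j)).2

/-- **The alternative `BadHit` of a glued world over the gas and a structure.** -/
theorem badHitGas_of_badHit (hΦ : AdmissiblePotential Φ) (hε : 0 < ε) (htT : t ≤ T) (hTe : T ≤ te)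
    (hT₁ : te < T₁) {s N : ℕ} {A₀ : Finset S} {Λ : Finset (Finset (Fin n ⊕ S))}
    (hΛ : SParts s A₀ Λ) (hP : Parts (gsys Φ t ε n b) c (Sum.elim w z) Λ)
    {Sp : Fin n ⊕ S → Finset (Fin n ⊕ S)} {bD : Fin n ⊕ S → ℝ} {A : Finset (Fin n ⊕ S)}
    {XD : ℝ → Fin n ⊕ S → PhasePoint} (H : GD (gsys Φ t ε n b) (Sum.elim w z) Sp bD A XD)
    (hSp : ∀ i : Fin n, Sp (Sum.inl i) = ∅)
    (h : BadHit (gsys Φ t ε n b) c (Sum.elim w z) (XG (gsys Φ t ε n b) (Sum.elim w z) Sp bD A XD)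
      (CG (gsys Φ t ε n b) (Sum.elim w z) Sp bD A XD) Λ N) :
    BadHitGas (bpos Φ T₁ te) Φ T c 1 ε N N s A₀ b z w := by
  have hinr : ∀ y : S, (Sum.inr y : Fin n ⊕ S) ∈ uni Λ := fun y => by
    obtain ⟨π, hπ, hy⟩ := hΛ.cov y
    exact mem_uni.2 ⟨π, hπ, hy⟩
  have hSp' : ∀ x, (Sp x).Nonempty → x ∈ uni Λ := by
    rintro (i | y) hx
    · rw [hSp i] at hx
      exact absurd hx Finset.not_nonempty_empty
    · exact hinr y
  obtain ⟨G, A', j, k, v, hG, ⟨π₀, hπ₀, hs⟩, hN, hA'G, hj, hok, hv, hVN, hVG, hVu, hd, hkV, hbad⟩ :=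
    badPos_of_badHit (M := gsys Φ t ε n b) hΦ hε H (htT.trans hTe) hT₁ hP hSp' h
  obtain ⟨Fs, h1, h2, h3, ⟨G', hG', hGG'⟩, h5, -⟩ :=
    exists_parts hP.conn hΛ.disj hG hπ₀ hs
  obtain ⟨Q₀, hQm, hN'⟩ : ∃ Q₀ : Finset (Fin n ⊕ S), (∀ x, x ∈ Q₀ ↔ x ∈ G ∨ x ∈ uni Λ) ∧
      Q₀.card ≤ N :=
    ⟨_, fun x => @Finset.mem_union _ (fun a b => Classical.propDecidable _) _ _ _, hN⟩
  obtain ⟨g, ι, e, hg, he, hQ⟩ := exists_emb Q₀ fun y => (hQm _).2 (Or.inr (hinr y))
  have hQ' : ∀ x, (∃ y, e y = x) ↔ x ∈ G ∨ x ∈ uni Λ := fun x => (hQ x).trans (hQm x)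
  obtain ⟨f, hf⟩ := exists_embV (preF (CG (gsys Φ t ε n b) (Sum.elim w z) Sp bD A XD) k v)
    fun y hy => Finset.disjoint_left.1 hVu hy (hinr y)
  obtain ⟨π, hπ1, hπ2, hπ3⟩ := exists_finpartition e Fs h1
    (fun y => (h3 _).2 ((hQ' _).1 ⟨y, rfl⟩)) (fun P hP x hx => (hQ' x).2 ((h3 x).1 ⟨P, hP, hx⟩))
    fun P hP => (h2 P hP).1.1
  have hpull := pull_gsys (Φ := Φ) (T := t) (ε := ε) b he
  have hpullT := pull_gsys (Φ := Φ) (T := T) (ε := ε) b he
  have hZe := elim_comp w z he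
  refine ⟨g, hg.trans hN', ι, _, hVN, f, fun x y hxy => ?_, π, fun P hP' => ⟨?_, ?_⟩,
    hπ2.trans_le (h5.trans hΛ.card), ?_⟩
  · have h6 : (Sum.inl (ι x) : Fin n ⊕ S) ∈ G ∨ (Sum.inl (ι x) : Fin n ⊕ S) ∈ uni Λ :=
      (hQ' _).1 ⟨Sum.inl x, by rw [he]; rfl⟩
    have h7 : (Sum.inl (ι x) : Fin n ⊕ S) ∈
        preF (CG (gsys Φ t ε n b) (Sum.elim w z) Sp bD A XD) k v :=
      (hf _).2 ⟨y, by rw [hxy]; rfl⟩
    rcases h6 with h6 | h6
    · exact Finset.disjoint_left.1 hVG h7 h6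
    · exact Finset.disjoint_left.1 hVu h7 h6
  · have h6 := (hpull.conn hΦ hε).1 (h2 _ ((hπ1 P).1 hP')).1
    rw [hZe] at h6
    exact LN2.conn_of_hor (M := gsys Φ T ε g b) (t := t) htT h6
  · obtain ⟨π', hπ', hsub⟩ := (h2 _ ((hπ1 P).1 hP')).2
    obtain ⟨y, hy, hyπ⟩ := hΛ.anch π' hπ'
    refine ⟨Sum.inr y, ?_, Finset.inr_mem_disjSum.2 hy⟩
    have h6 := hsub hyπ
    have h7 : e (Sum.inr y) = Sum.inr y := by rw [he]; rfl
    rw [← h7] at h6
    rwa [Finset.mem_map'] at h6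
  · obtain ⟨P, hP', hPe⟩ := hπ3 G' hG'
    refine ⟨P, hP', ?_⟩
    -- the sub-world of the hit member
    have hA'P : A' ⊆ P.map e := by
      rw [hPe]
      exact hA'G.trans hGG'
    obtain ⟨B, hB, hBe⟩ := Finset.subset_map_iff.1 hA'P
    rw [hBe] at hj hok hd
    obtain ⟨j', hj', rfl⟩ := Finset.mem_map.1 hj
    obtain ⟨i₀, hi₀⟩ := (hf k).1 hkV
    refine ⟨B, hB, j', hj', (), i₀, v, ⟨hv.1.le, hv.2.trans htT⟩,
      (XG (gsys Φ t ε n b) (Sum.elim w z) Sp bD A XD v k).1, ?_, ?_, ?_⟩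
    · have h6 := (hpull.ok hΦ hε v).1 hok
      rw [hZe] at h6
      exact h6
    · exact hbad (Fin _) (f.trans ⟨Sum.inl, Sum.inl_injective⟩) i₀ hf hi₀
    · rw [hpull.st hΦ hε, hZe] at hd
      rw [one_mul, dist_comm]
      exact hd

end gas

end Crest.Agent.R122.Chain726

end
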