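import Crest.Prelude.Def_KineticLimit

/-!
Row 122, Boltzmann side: common definitions (helper814).

* `Qp Φ h₁ h₂ v`  : bilinear gain operator, `ℝ≥0∞`-valued.
* `nuE h v`, `nu h v` : loss frequency, `ℝ≥0∞`- and real-valued.
* `ScatFacts Φ` : the two facts on the scattering map which the Boltzmann side uses.
-/

set_option autoImplicit false

open MeasureTheory
open Crest.AnalysisR.Kinetic
open scoped ENNReal Classical

noncomputable section

namespace Crest.Agent.R122.Boltz814

/-- Bilinear gain operator on `ℝ≥0∞`-valued velocity functions: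
`∫ dw ‖v-w‖ ∫_{impactDisc (v-w)} h₁ v' * h₂ w' dμHE[2]`. -/
def Qp (Φ : Space3 → ℝ) (h₁ h₂ : Space3 → ℝ≥0∞) (v : Space3) : ℝ≥0∞ :=
  ∫⁻ w, ENNReal.ofReal ‖v - w‖ * ∫⁻ b in impactDisc (v - w),
    h₁ (postVelocities Φ b v w).1 * h₂ (postVelocities Φ b v w).2 ∂μHE[2]

/-- Loss frequency of an `ℝ≥0∞`-valued velocity function. -/
def nuE (h : Space3 → ℝ≥0∞) (v : Space3) : ℝ≥0∞ :=
  ENNReal.ofReal Real.pi * ∫⁻ w, ENNReal.ofReal ‖v - w‖ * h w

/-- Loss frequency of a real-valued velocity function. -/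
def nu (h : Space3 → ℝ) (v : Space3) : ℝ := Real.pi * ∫ w, ‖v - w‖ * h w

/-- The facts on the scattering map used by the Boltzmann side (to be discharged by F2). -/
structure ScatFacts (Φ : Space3 → ℝ) : Prop where
  norm_exit : ∀ b g : Space3, b ∈ impactDisc g → g ≠ 0 → ‖exitVelocity Φ b g‖ = ‖g‖
  measurable_exit : Measurable (fun p : Space3 × Space3 =>
    if p.1 ∈ impactDisc p.2 then exitVelocity Φ p.1 p.2 else p.2)

end Crest.Agent.R122.Boltz814

end
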