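import Mathlib
import Crest.Prelude.Def_KineticLimit

/-!
Row 122, helper416.  Measurable orthonormal frames of `g^⊥` in `Space3`, and the formula writing the
integral over the impact disc (with `μHE[2]`) as an integral over the unit disc of the plane.
-/

noncomputable section

open MeasureTheory Crest.AnalysisR.Kinetic
open scoped Classical ENNReal

namespace Crest.Agent.R122.Disc416

/-- The Euclidean plane. -/
abbrev Plane : Type := EuclideanSpace ℝ (Fin 2)

/-- Vector with given coordinates. -/
def vec (a b c : ℝ) : Space3 := WithLp.toLp 2 ![a, b, c]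

@[simp] lemma vec_zero (a b c : ℝ) : vec a b c 0 = a := rfl
@[simp] lemma vec_one (a b c : ℝ) : vec a b c 1 = b := rfl
@[simp] lemma vec_two (a b c : ℝ) : vec a b c 2 = c := rfl

lemma inner3 (u v : Space3) : inner ℝ u v = u 0 * v 0 + u 1 * v 1 + u 2 * v 2 := by
  simp [PiLp.inner_apply, Fin.sum_univ_three, mul_comm]

lemma normSq3 (u : Space3) : ‖u‖ ^ 2 = u 0 ^ 2 + u 1 ^ 2 + u 2 ^ 2 := by
  rw [← real_inner_self_eq_norm_sq, inner3]; ring

lemma ext3 {u v : Space3} (h0 : u 0 = v 0) (h1 : u 1 = v 1) (h2 : u 2 = v 2) : u = v := by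
  ext i
  fin_cases i
  · exact h0
  · exact h1
  · exact h2

/-- Horizontal unit vector orthogonal to `g`. -/
def e1 (g : Space3) : Space3 :=
  if g 0 ^ 2 + g 1 ^ 2 = 0 then vec 1 0 0
  else vec (-(g 1) / Real.sqrt (g 0 ^ 2 + g 1 ^ 2)) (g 0 / Real.sqrt (g 0 ^ 2 + g 1 ^ 2)) 0

/-- The cross product in `Space3`. -/
def cross (u v : Space3) : Space3 :=
  vec (u 1 * v 2 - u 2 * v 1) (u 2 * v 0 - u 0 * v 2) (u 0 * v 1 - u 1 * v 0)

/-- The normalised vector `g / ‖g‖`. -/
def dir (g : Space3) : Space3 := ‖g‖⁻¹ • g

/-- Second unit vector orthogonal to `g`. -/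
def e2 (g : Space3) : Space3 := cross (dir g) (e1 g)

lemma norm_e1_sq (g : Space3) : ‖e1 g‖ ^ 2 = 1 := by
  unfold e1
  split_ifs with h
  · rw [normSq3]; simp
  · have hpos : 0 < g 0 ^ 2 + g 1 ^ 2 := lt_of_le_of_ne (by positivity) (Ne.symm h)
    have hs : Real.sqrt (g 0 ^ 2 + g 1 ^ 2) ^ 2 = g 0 ^ 2 + g 1 ^ 2 := Real.sq_sqrt hpos.le
    have hs0 : Real.sqrt (g 0 ^ 2 + g 1 ^ 2) ≠ 0 := (Real.sqrt_pos.mpr hpos).ne'
    rw [normSq3]
    simp only [vec_zero, vec_one, vec_two]
    field_simp
    rw [hs]; ring

lemma inner_e1_self (g : Space3) : inner ℝ (e1 g) g = 0 := by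
  unfold e1
  split_ifs with h
  · have h0 : g 0 = 0 := by nlinarith [sq_nonneg (g 0), sq_nonneg (g 1)]
    rw [inner3]; simp [h0]
  · rw [inner3]
    simp only [vec_zero, vec_one, vec_two]
    ring

lemma norm_dir {g : Space3} (hg : g ≠ 0) : ‖dir g‖ = 1 := by
  unfold dir
  rw [norm_smul, norm_inv, norm_norm, inv_mul_cancel₀ (norm_ne_zero_iff.mpr hg)]

lemma norm_smul_dir (g : Space3) : ‖g‖ • dir g = g := by
  unfold dir
  by_cases hg : g = 0
  · simp [hg]
  · rw [smul_smul, mul_inv_cancel₀ (norm_ne_zero_iff.mpr hg), one_smul]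

lemma inner_e1_dir (g : Space3) : inner ℝ (e1 g) (dir g) = 0 := by
  unfold dir
  rw [inner_smul_right, inner_e1_self, mul_zero]

lemma inner_cross_left (u v : Space3) : inner ℝ (cross u v) u = 0 := by
  rw [inner3]; simp only [cross, vec_zero, vec_one, vec_two]; ring

lemma inner_cross_right (u v : Space3) : inner ℝ (cross u v) v = 0 := by
  rw [inner3]; simp only [cross, vec_zero, vec_one, vec_two]; ring

lemma norm_cross_sq (u v : Space3) :
    ‖cross u v‖ ^ 2 = ‖u‖ ^ 2 * ‖v‖ ^ 2 - (inner ℝ u v) ^ 2 := by
  rw [normSq3, normSq3, normSq3, inner3]; simp only [cross, vec_zero, vec_one, vec_two]; ring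

lemma norm_e2_sq {g : Space3} (hg : g ≠ 0) : ‖e2 g‖ ^ 2 = 1 := by
  unfold e2
  rw [norm_cross_sq, norm_dir hg, norm_e1_sq, real_inner_comm, inner_e1_dir]; ring

lemma inner_e2_dir (g : Space3) : inner ℝ (e2 g) (dir g) = 0 := inner_cross_left _ _

lemma inner_e2_self (g : Space3) : inner ℝ (e2 g) g = 0 := by
  conv_lhs => rw [← norm_smul_dir g]
  rw [norm_smul_dir]
  rw [← norm_smul_dir g, inner_smul_right, norm_smul_dir, inner_e2_dir, mul_zero]

lemma inner_e2_e1 (g : Space3) : inner ℝ (e2 g) (e1 g) = 0 := inner_cross_right _ _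

/-- The orthonormal basis `(e1 g, e2 g, g / ‖g‖)`. -/
def frame (g : Space3) : Fin 3 → Space3 := ![e1 g, e2 g, dir g]

lemma orthonormal_frame {g : Space3} (hg : g ≠ 0) : Orthonormal ℝ (frame g) := by
  have h1 : ‖e1 g‖ = 1 := by
    have := norm_e1_sq g
    nlinarith [norm_nonneg (e1 g)]
  have h2 : ‖e2 g‖ = 1 := by
    have := norm_e2_sq hg
    nlinarith [norm_nonneg (e2 g)]
  have h3 : ‖dir g‖ = 1 := norm_dir hg
  refine ⟨?_, ?_⟩
  · intro i
    fin_cases i
    · exact h1
    · exact h2
    · exact h3
  · intro i j hij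
    fin_cases i <;> fin_cases j
    · exact absurd rfl hij
    · show inner ℝ (e1 g) (e2 g) = 0
      rw [real_inner_comm, inner_e2_e1]
    · exact inner_e1_dir g
    · exact inner_e2_e1 g
    · exact absurd rfl hij
    · exact inner_e2_dir g
    · show inner ℝ (dir g) (e1 g) = 0
      rw [real_inner_comm, inner_e1_dir]
    · show inner ℝ (dir g) (e2 g) = 0
      rw [real_inner_comm, inner_e2_dir]
    · exact absurd rfl hij

/-- The frame as an orthonormal basis. -/
def frameBasis (g : Space3) (hg : g ≠ 0) : OrthonormalBasis (Fin 3) ℝ Space3 :=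
  OrthonormalBasis.mk (orthonormal_frame hg) (by
    have hli : LinearIndependent ℝ (frame g) := (orthonormal_frame hg).linearIndependent
    have := hli.span_eq_top_of_card_eq_finrank' (by simp)
    rw [this])

@[simp] lemma frameBasis_zero (g : Space3) (hg : g ≠ 0) : frameBasis g hg 0 = e1 g := by
  simp [frameBasis, frame]
@[simp] lemma frameBasis_one (g : Space3) (hg : g ≠ 0) : frameBasis g hg 1 = e2 g := by
  simp [frameBasis, frame]
@[simp] lemma frameBasis_two (g : Space3) (hg : g ≠ 0) : frameBasis g hg 2 = dir g := by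
  simp [frameBasis, frame]

/-- The embedding of the plane onto `g^⊥`. -/
def frameMap (g : Space3) (y : Plane) : Space3 := y 0 • e1 g + y 1 • e2 g

lemma inner_frameMap_self (g : Space3) (y : Plane) : inner ℝ (frameMap g y) g = 0 := by
  unfold frameMap
  rw [inner_add_left, inner_smul_left, inner_smul_left, inner_e1_self, inner_e2_self]; simp

lemma norm_frameMap {g : Space3} (hg : g ≠ 0) (y : Plane) : ‖frameMap g y‖ = ‖y‖ := by
  have h : ‖frameMap g y‖ ^ 2 = ‖y‖ ^ 2 := by
    unfold frameMap
    rw [← real_inner_self_eq_norm_sq, ← real_inner_self_eq_norm_sq]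
    simp only [inner_add_left, inner_add_right, inner_smul_left, inner_smul_right]
    have h12 : inner ℝ (e1 g) (e2 g) = 0 := by rw [real_inner_comm, inner_e2_e1]
    rw [inner_e2_e1, h12, real_inner_self_eq_norm_sq, real_inner_self_eq_norm_sq, norm_e1_sq,
      norm_e2_sq hg]
    rw [real_inner_self_eq_norm_sq, EuclideanSpace.real_norm_sq_eq, Fin.sum_univ_two]
    simp; ring
  have h0 := norm_nonneg (frameMap g y)
  have h1 := norm_nonneg y
  exact (sq_eq_sq₀ h0 h1).mp h

lemma frameMap_sub (g : Space3) (y z : Plane) : frameMap g (y - z) = frameMap g y - frameMap g z := by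
  unfold frameMap
  simp only [PiLp.sub_apply, sub_smul]; abel

lemma frameMap_add (g : Space3) (y z : Plane) : frameMap g (y + z) = frameMap g y + frameMap g z := by
  unfold frameMap
  simp only [PiLp.add_apply, add_smul]; abel

lemma frameMap_smul (g : Space3) (c : ℝ) (y : Plane) : frameMap g (c • y) = c • frameMap g y := by
  unfold frameMap
  simp only [PiLp.smul_apply, smul_eq_mul, smul_add, smul_smul]

lemma isometry_frameMap {g : Space3} (hg : g ≠ 0) : Isometry (frameMap g) := by
  refine Isometry.of_dist_eq (fun y z => ?_)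
  rw [dist_eq_norm, dist_eq_norm, ← frameMap_sub, norm_frameMap hg]

lemma range_frameMap {g : Space3} (hg : g ≠ 0) :
    Set.range (frameMap g) = {b : Space3 | inner ℝ b g = 0} := by
  ext b
  constructor
  · rintro ⟨y, rfl⟩
    exact inner_frameMap_self g y
  · intro hb
    have hb' : inner ℝ b g = 0 := hb
    have hdir : inner ℝ (dir g) b = 0 := by
      unfold dir; rw [inner_smul_left, real_inner_comm, hb']; simp
    have hsum := (frameBasis g hg).sum_repr' b
    rw [Fin.sum_univ_three] at hsum
    simp only [frameBasis_zero, frameBasis_one, frameBasis_two, hdir, zero_smul, add_zero] at hsum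
    refine ⟨WithLp.toLp 2 ![inner ℝ (e1 g) b, inner ℝ (e2 g) b], ?_⟩
    unfold frameMap
    simpa using hsum

lemma preimage_impactDisc {g : Space3} (hg : g ≠ 0) :
    frameMap g ⁻¹' (impactDisc g) = Metric.ball (0 : Plane) 1 := by
  ext y
  rw [Set.mem_preimage, Metric.mem_ball, dist_zero_right]
  constructor
  · rintro ⟨-, h⟩
    rwa [norm_frameMap hg] at h
  · intro h
    exact ⟨inner_frameMap_self g y, by rwa [norm_frameMap hg]⟩

lemma measurable_coord (i : Fin 3) : Measurable (fun g : Space3 => g i) :=
  (EuclideanSpace.proj i : Space3 →L[ℝ] ℝ).continuous.measurable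

lemma measurable_coord2 (i : Fin 2) : Measurable (fun g : Plane => g i) :=
  (EuclideanSpace.proj i : Plane →L[ℝ] ℝ).continuous.measurable

lemma measurable_vec {α : Type*} [MeasurableSpace α] {a b c : α → ℝ} (ha : Measurable a)
    (hb : Measurable b) (hc : Measurable c) : Measurable (fun x => vec (a x) (b x) (c x)) := by
  have h : Measurable (fun x => (![a x, b x, c x] : Fin 3 → ℝ)) := by
    refine measurable_pi_iff.mpr (fun i => ?_)
    fin_cases i
    · exact ha
    · exact hb
    · exact hc
  exact (WithLp.measurable_toLp 2 (Fin 3 → ℝ)).comp h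

lemma measurable_e1 : Measurable e1 := by
  unfold e1
  have h0 := measurable_coord 0
  have h1 := measurable_coord 1
  refine Measurable.ite ?_ measurable_const ?_
  · exact measurableSet_eq_fun (by fun_prop) measurable_const
  · exact measurable_vec (by fun_prop) (by fun_prop) measurable_const

lemma measurable_dir : Measurable dir := by
  unfold dir
  exact (measurable_norm.inv).smul measurable_id

lemma measurable_cross {α : Type*} [MeasurableSpace α] {u v : α → Space3} (hu : Measurable u)
    (hv : Measurable v) : Measurable (fun x => cross (u x) (v x)) := by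
  unfold cross
  have hu0 := (measurable_coord 0).comp hu
  have hu1 := (measurable_coord 1).comp hu
  have hu2 := (measurable_coord 2).comp hu
  have hv0 := (measurable_coord 0).comp hv
  have hv1 := (measurable_coord 1).comp hv
  have hv2 := (measurable_coord 2).comp hv
  exact measurable_vec ((hu1.mul hv2).sub (hu2.mul hv1)) ((hu2.mul hv0).sub (hu0.mul hv2))
    ((hu0.mul hv1).sub (hu1.mul hv0))

lemma measurable_e2 : Measurable e2 := measurable_cross measurable_dir measurable_e1

lemma measurable_frameMap : Measurable (fun p : Space3 × Plane => frameMap p.1 p.2) := by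
  unfold frameMap
  exact (((measurable_coord2 0).comp measurable_snd).smul (measurable_e1.comp measurable_fst)).add
    (((measurable_coord2 1).comp measurable_snd).smul (measurable_e2.comp measurable_fst))

lemma measurableSet_impactDisc (g : Space3) : MeasurableSet (impactDisc g) := by
  unfold impactDisc
  have h1 : MeasurableSet {b : Space3 | inner ℝ b g = 0} :=
    (isClosed_eq (by fun_prop) continuous_const).measurableSet
  have h2 : MeasurableSet {b : Space3 | ‖b‖ < 1} :=
    (isOpen_lt (by fun_prop) continuous_const).measurableSet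
  exact h1.inter h2

/-- The image of planar Lebesgue measure on the unit disc is `μHE[2]` on the impact disc. -/
lemma map_frameMap {g : Space3} (hg : g ≠ 0) :
    (volume.restrict (Metric.ball (0 : Plane) 1)).map (frameMap g) =
      (μHE[2] : Measure Space3).restrict (impactDisc g) := by
  have hiso := isometry_frameMap hg
  have hm : Measurable (frameMap g) := hiso.continuous.measurable
  have hmap := hiso.map_euclideanHausdorffMeasure (d := 2)
  rw [EuclideanSpace.euclideanHausdorffMeasure_eq_volume 2] at hmap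
  have hsub : impactDisc g ⊆ Set.range (frameMap g) := by
    rw [range_frameMap hg]
    intro b hb
    exact hb.1
  rw [← preimage_impactDisc hg, ← Measure.restrict_map hm (measurableSet_impactDisc g), hmap,
    Measure.restrict_restrict (measurableSet_impactDisc g), Set.inter_eq_left.mpr hsub]

/-- (D2) The integral over the impact disc in planar coordinates. -/
theorem lintegral_impactDisc {g : Space3} (hg : g ≠ 0) (F : Space3 → ℝ≥0∞) :
    ∫⁻ b in impactDisc g, F b ∂μHE[2] = ∫⁻ y in Metric.ball (0 : Plane) 1, F (frameMap g y) := by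
  have hemb : MeasurableEmbedding (frameMap g) :=
    (isometry_frameMap hg).isClosedEmbedding.measurableEmbedding
  rw [← map_frameMap hg, hemb.lintegral_map]

/-- (D2) Bochner version. -/
theorem integral_impactDisc {E : Type*} [NormedAddCommGroup E] [NormedSpace ℝ E] {g : Space3}
    (hg : g ≠ 0) (F : Space3 → E) :
    ∫ b in impactDisc g, F b ∂μHE[2] = ∫ y in Metric.ball (0 : Plane) 1, F (frameMap g y) := by
  have hemb : MeasurableEmbedding (frameMap g) :=
    (isometry_frameMap hg).isClosedEmbedding.measurableEmbedding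
  rw [← map_frameMap hg, hemb.integral_map]

theorem integrableOn_impactDisc_iff {E : Type*} [NormedAddCommGroup E] {g : Space3}
    (hg : g ≠ 0) (F : Space3 → E) :
    IntegrableOn F (impactDisc g) μHE[2] ↔
      IntegrableOn (fun y => F (frameMap g y)) (Metric.ball (0 : Plane) 1) := by
  have hemb : MeasurableEmbedding (frameMap g) :=
    (isometry_frameMap hg).isClosedEmbedding.measurableEmbedding
  unfold IntegrableOn
  rw [← map_frameMap hg, hemb.integrable_map_iff]
  rfl

lemma volume_unitDisc : volume (Metric.ball (0 : Plane) 1) = ENNReal.ofReal Real.pi := by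
  rw [EuclideanSpace.volume_ball]
  simp [Real.sq_sqrt Real.pi_pos.le, one_add_one_eq_two]

/-- (D3) Area of the impact disc. -/
theorem measure_impactDisc {g : Space3} (hg : g ≠ 0) :
    (μHE[2] : Measure Space3) (impactDisc g) = ENNReal.ofReal Real.pi := by
  have h := lintegral_impactDisc hg (fun _ => 1)
  rw [setLIntegral_one, setLIntegral_one, volume_unitDisc] at h
  exact h

theorem measureReal_impactDisc {g : Space3} (hg : g ≠ 0) :
    (μHE[2] : Measure Space3).real (impactDisc g) = Real.pi := by
  rw [Measure.real, measure_impactDisc hg, ENNReal.toReal_ofReal Real.pi_pos.le]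

/-- Multiplication by `‖g‖` removes the exceptional value `g = 0`. -/
theorem norm_mul_lintegral_impactDisc (g : Space3) (F : Space3 → ℝ≥0∞) :
    ENNReal.ofReal ‖g‖ * ∫⁻ b in impactDisc g, F b ∂μHE[2] =
      ENNReal.ofReal ‖g‖ * ∫⁻ y in Metric.ball (0 : Plane) 1, F (frameMap g y) := by
  by_cases hg : g = 0
  · simp [hg]
  · rw [lintegral_impactDisc hg]

/-- (D4) Measurable dependence on parameters. -/
theorem measurable_lintegral_disc {α : Type*} [MeasurableSpace α] {G : α → Space3}
    (hG : Measurable G) {F : α → Space3 → ℝ≥0∞} (hF : Measurable (Function.uncurry F)) :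
    Measurable (fun a => ENNReal.ofReal ‖G a‖ * ∫⁻ b in impactDisc (G a), F a b ∂μHE[2]) := by
  have h : (fun a => ENNReal.ofReal ‖G a‖ * ∫⁻ b in impactDisc (G a), F a b ∂μHE[2]) =
      fun a => ENNReal.ofReal ‖G a‖ * ∫⁻ y in Metric.ball (0 : Plane) 1, F a (frameMap (G a) y) := by
    funext a
    exact norm_mul_lintegral_impactDisc _ _
  rw [h]
  refine (hG.norm.ennreal_ofReal).mul ?_
  refine Measurable.lintegral_prod_right' (f := fun p : α × Plane => F p.1 (frameMap (G p.1) p.2)) ?_
  exact hF.comp (measurable_fst.prodMk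
    (measurable_frameMap.comp ((hG.comp measurable_fst).prodMk measurable_snd)))

/-- Cylinder coordinates along `g` are measure preserving. -/
theorem measurePreserving_cylinder {g : Space3} (hg : g ≠ 0) :
    MeasurePreserving (fun p : Plane × ℝ => frameMap g p.1 + p.2 • dir g) volume volume := by
  have h1 : MeasurePreserving (fun p : Plane × ℝ => ((p.1 : Fin 2 → ℝ), p.2)) volume volume :=
    (PiLp.volume_preserving_ofLp (Fin 2)).prod (MeasurePreserving.id volume)
  have h2 : MeasurePreserving (Prod.swap : (Fin 2 → ℝ) × ℝ → ℝ × (Fin 2 → ℝ)) volume volume :=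
    Measure.measurePreserving_swap
  have h3 := (volume_preserving_piFinSuccAbove (fun _ : Fin 3 => ℝ) 2).symm
  have h4 := PiLp.volume_preserving_toLp (Fin 3)
  have h5 := (frameBasis g hg).measurePreserving_repr_symm
  have h := h5.comp (h4.comp (h3.comp (h2.comp h1)))
  convert h using 1
  funext p
  show _ = (frameBasis g hg).repr.symm (WithLp.toLp 2
    ((MeasurableEquiv.piFinSuccAbove (fun _ : Fin 3 => ℝ) 2).symm (p.2, (p.1 : Fin 2 → ℝ))))
  rw [← (frameBasis g hg).sum_repr_symm, Fin.sum_univ_three]
  simp only [frameBasis_zero, frameBasis_one, frameBasis_two]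
  rfl

/-- (D5) Cylinder coordinates along `g`. -/
theorem lintegral_cylinder {g : Space3} (hg : g ≠ 0) {F : Space3 → ℝ≥0∞} (hF : Measurable F) :
    ∫⁻ q, F q = ∫⁻ p : Plane × ℝ, F (frameMap g p.1 + p.2 • dir g) := by
  rw [← (measurePreserving_cylinder hg).lintegral_comp hF]

end Crest.Agent.R122.Disc416
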