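import Mathlib
import Crest.Prelude.Def_KineticLimit
import Crest.Agent.R122.Disc_416
import Crest.Agent.R122.BoltzDefs_814

/-!
Row 122, helper416.  The bilinear gain operator `Qp` as a kernel, its algebra, measurability in
parameters, and Gaussian bounds.
-/

noncomputable section

set_option autoImplicit false

open MeasureTheory ProbabilityTheory Crest.AnalysisR.Kinetic
open Crest.Agent.R122.Disc416 Crest.Agent.R122.Boltz814
open scoped Classical ENNReal

namespace Crest.Agent.R122.Kin416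

variable {Φ : Space3 → ℝ}

/-- Exit velocity, set to `g` off the incidence set. -/
def exitM (Φ : Space3 → ℝ) (p : Space3 × Space3) : Space3 :=
  if p.1 ∈ impactDisc p.2 then exitVelocity Φ p.1 p.2 else p.2

lemma measurable_exitM (S : ScatFacts Φ) : Measurable (exitM Φ) := S.measurable_exit

lemma norm_exitM (S : ScatFacts Φ) (b : Space3) {g : Space3} (hg : g ≠ 0) :
    ‖exitM Φ (b, g)‖ = ‖g‖ := by
  unfold exitM
  split_ifs with h
  · exact S.norm_exit b g h hg
  · rfl

/-- Velocities of the collision partners in planar coordinates for the impact parameter. -/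
def outV (Φ : Space3 → ℝ) (v : Space3) (p : Space3 × Plane) : Space3 × Space3 :=
  ((1 / 2 : ℝ) • (v + p.1) + (1 / 2 : ℝ) • exitM Φ (frameMap (v - p.1) p.2, v - p.1),
    (1 / 2 : ℝ) • (v + p.1) - (1 / 2 : ℝ) • exitM Φ (frameMap (v - p.1) p.2, v - p.1))

lemma frameMap_mem_impactDisc {g : Space3} (hg : g ≠ 0) {y : Plane}
    (hy : y ∈ Metric.ball (0 : Plane) 1) : frameMap g y ∈ impactDisc g := by
  have : y ∈ frameMap g ⁻¹' (impactDisc g) := by rwa [preimage_impactDisc hg]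
  exact this

lemma outV_eq {v w : Space3} (hvw : v ≠ w) {y : Plane} (hy : y ∈ Metric.ball (0 : Plane) 1) :
    outV Φ v (w, y) = postVelocities Φ (frameMap (v - w) y) v w := by
  have hg : v - w ≠ 0 := sub_ne_zero.mpr hvw
  unfold outV postVelocities exitM
  simp only [frameMap_mem_impactDisc hg hy, if_true]

lemma measurable_outV (S : ScatFacts Φ) :
    Measurable (fun q : Space3 × (Space3 × Plane) => outV Φ q.1 q.2) := by
  have h1 : Measurable (fun q : Space3 × (Space3 × Plane) => q.1 - q.2.1) := by fun_prop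
  have h2 : Measurable (fun q : Space3 × (Space3 × Plane) => q.1 + q.2.1) := by fun_prop
  have h3 : Measurable (fun q : Space3 × (Space3 × Plane) =>
      exitM Φ (frameMap (q.1 - q.2.1) q.2.2, q.1 - q.2.1)) := by
    refine (measurable_exitM S).comp (Measurable.prodMk ?_ h1)
    exact measurable_frameMap.comp (h1.prodMk (measurable_snd.comp measurable_snd))
  unfold outV
  exact ((h2.const_smul (1 / 2 : ℝ)).add (h3.const_smul (1 / 2 : ℝ))).prodMk
    ((h2.const_smul (1 / 2 : ℝ)).sub (h3.const_smul (1 / 2 : ℝ)))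

/-- Reference measure on (partner velocity, planar impact parameter). -/
def refM : Measure (Space3 × Plane) :=
  (volume : Measure Space3).prod (volume.restrict (Metric.ball (0 : Plane) 1))

instance : SFinite refM := by unfold refM; infer_instance

/-- Collision rate density. -/
def rate (v : Space3) (p : Space3 × Plane) : ℝ≥0∞ := ENNReal.ofReal ‖v - p.1‖

lemma measurable_rate : Measurable (Function.uncurry rate) := by
  unfold rate Function.uncurry
  fun_prop

/-- The kernel of partners, impact parameters, with collision rate. -/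
def kapP : Kernel Space3 (Space3 × Plane) :=
  Kernel.withDensity (Kernel.const Space3 refM) rate

instance : IsSFiniteKernel kapP := by
  unfold kapP
  refine Kernel.IsSFiniteKernel.withDensity _ (fun a b => ?_)
  exact ENNReal.ofReal_ne_top

lemma lintegral_kapP (v : Space3) {F : Space3 × Plane → ℝ≥0∞} (hF : Measurable F) :
    ∫⁻ p, F p ∂(kapP v) = ∫⁻ w, ENNReal.ofReal ‖v - w‖ *
      ∫⁻ y in Metric.ball (0 : Plane) 1, F (w, y) := by
  unfold kapP
  rw [Kernel.lintegral_withDensity _ measurable_rate v hF]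
  simp only [Kernel.const_apply]
  unfold refM
  have hm : Measurable (fun p : Space3 × Plane => rate v p * F p) :=
    (measurable_rate.comp (measurable_const.prodMk measurable_id)).mul hF
  rw [lintegral_prod _ hm.aemeasurable]
  refine lintegral_congr (fun w => ?_)
  simp only [rate]
  have hFw : Measurable (fun y : Plane => F (w, y)) :=
    hF.comp (measurable_const.prodMk measurable_id)
  rw [lintegral_const_mul _ hFw]

/-- The collision kernel: `v ↦` law (with rate) of the pair `(v', w')`. -/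
def kapQ (Φ : Space3 → ℝ) : Kernel Space3 (Space3 × Space3) :=
  (Kernel.id ×ₖ kapP).map (fun q : Space3 × (Space3 × Plane) => outV Φ q.1 q.2)

instance : IsSFiniteKernel (kapQ Φ) := by unfold kapQ; infer_instance

lemma lintegral_kapQ_aux (S : ScatFacts Φ) (v : Space3) {F : Space3 × Space3 → ℝ≥0∞}
    (hF : Measurable F) :
    ∫⁻ p, F p ∂(kapQ Φ v) = ∫⁻ p, F (outV Φ v p) ∂(kapP v) := by
  have hF1 : Measurable (fun q : Space3 × (Space3 × Plane) => F (outV Φ q.1 q.2)) :=
    hF.comp (measurable_outV S)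
  have e1 : ∫⁻ p, F p ∂(kapQ Φ v) =
      ∫⁻ q : Space3 × (Space3 × Plane), F (outV Φ q.1 q.2) ∂((Kernel.id ×ₖ kapP) v) :=
    Kernel.lintegral_map _ (measurable_outV S) v hF
  rw [e1]
  exact Kernel.lintegral_id_prod hF1 kapP v

lemma lintegral_kapQ_disc (v w : Space3) (F : Space3 × Space3 → ℝ≥0∞) :
    ENNReal.ofReal ‖v - w‖ * ∫⁻ (y : Plane) in Metric.ball 0 1, F (outV Φ v (w, y)) =
      ENNReal.ofReal ‖v - w‖ *
        ∫⁻ b in impactDisc (v - w), F (postVelocities Φ b v w) ∂μHE[2] := by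
  rw [norm_mul_lintegral_impactDisc (v - w) (fun b => F (postVelocities Φ b v w))]
  by_cases hvw : v = w
  · have h0 : ENNReal.ofReal ‖v - w‖ = 0 := by rw [hvw]; simp
    rw [h0, zero_mul, zero_mul]
  · have : ∫⁻ (y : Plane) in Metric.ball 0 1, F (outV Φ v (w, y)) =
        ∫⁻ (y : Plane) in Metric.ball 0 1, F (postVelocities Φ (frameMap (v - w) y) v w) := by
      refine setLIntegral_congr_fun measurableSet_ball (fun y hy => ?_)
      exact congrArg F (outV_eq hvw hy)
    rw [this]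

lemma measurable_outV_right (S : ScatFacts Φ) (v : Space3) :
    Measurable (fun p : Space3 × Plane => outV Φ v p) :=
  (measurable_outV S).of_uncurry_left

lemma lintegral_kapQ (S : ScatFacts Φ) (v : Space3) {F : Space3 × Space3 → ℝ≥0∞}
    (hF : Measurable F) :
    ∫⁻ p, F p ∂(kapQ Φ v) = ∫⁻ w, ENNReal.ofReal ‖v - w‖ *
      ∫⁻ b in impactDisc (v - w), F (postVelocities Φ b v w) ∂μHE[2] := by
  have hF2 : Measurable (fun p : Space3 × Plane => F (outV Φ v p)) :=
    hF.comp (measurable_outV_right S v)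
  rw [lintegral_kapQ_aux S v hF, lintegral_kapP v hF2]
  exact lintegral_congr (fun w => lintegral_kapQ_disc v w F)

/-- (Q1) The gain operator as an integral against the kernel `kapQ`. -/
theorem Qp_eq_kapQ (S : ScatFacts Φ) {h k : Space3 → ℝ≥0∞} (hh : Measurable h)
    (hk : Measurable k) (v : Space3) :
    Qp Φ h k v = ∫⁻ p, h p.1 * k p.2 ∂(kapQ Φ v) := by
  have hm : Measurable (fun p : Space3 × Space3 => h p.1 * k p.2) :=
    (hh.comp measurable_fst).mul (hk.comp measurable_snd)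
  rw [lintegral_kapQ S v hm]
  rfl

lemma measurable_prodfun {h k : Space3 → ℝ≥0∞} (hh : Measurable h)
    (hk : Measurable k) : Measurable (fun p : Space3 × Space3 => h p.1 * k p.2) :=
  (hh.comp measurable_fst).mul (hk.comp measurable_snd)

/-- (Q4) Joint measurability in parameters. -/
theorem measurable_Qp (S : ScatFacts Φ) {α : Type*} [MeasurableSpace α]
    {h k : α → Space3 → ℝ≥0∞} {v : α → Space3}
    (hh : Measurable (Function.uncurry h)) (hk : Measurable (Function.uncurry k))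
    (hv : Measurable v) : Measurable (fun a => Qp Φ (h a) (k a) (v a)) := by
  have h1 : (fun a => Qp Φ (h a) (k a) (v a)) = fun a =>
      ∫⁻ p, (fun q : α × (Space3 × Space3) => h q.1 q.2.1 * k q.1 q.2.2) (a, p)
        ∂((kapQ Φ).comap v hv a) := by
    funext a
    have hha : Measurable (h a) := hh.comp (measurable_const.prodMk measurable_id)
    have hka : Measurable (k a) := hk.comp (measurable_const.prodMk measurable_id)
    rw [Kernel.comap_apply, Qp_eq_kapQ S hha hka]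
  rw [h1]
  refine Measurable.lintegral_kernel_prod_right' (κ := (kapQ Φ).comap v hv)
    (f := fun q : α × (Space3 × Space3) => h q.1 q.2.1 * k q.1 q.2.2) ?_
  exact (hh.comp (measurable_fst.prodMk (measurable_fst.comp measurable_snd))).mul
    (hk.comp (measurable_fst.prodMk (measurable_snd.comp measurable_snd)))

/-- Measurability for a fixed pair of velocity functions. -/
theorem measurable_Qp_fix (S : ScatFacts Φ) {h k : Space3 → ℝ≥0∞} (hh : Measurable h)
    (hk : Measurable k) : Measurable (Qp Φ h k) :=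
  measurable_Qp S (α := Space3) (h := fun _ => h) (k := fun _ => k) (v := id)
    (hh.comp measurable_snd) (hk.comp measurable_snd) measurable_id

/-- (Q4) Monotonicity, no measurability needed. -/
theorem Qp_mono {h₁ h₂ k₁ k₂ : Space3 → ℝ≥0∞} (hh : ∀ w, h₁ w ≤ h₂ w) (hk : ∀ w, k₁ w ≤ k₂ w)
    (v : Space3) : Qp Φ h₁ k₁ v ≤ Qp Φ h₂ k₂ v := by
  unfold Qp
  refine lintegral_mono (fun w => ?_)
  refine mul_le_mul_right ?_ _
  exact lintegral_mono (fun b => mul_le_mul' (hh _) (hk _))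

theorem Qp_add_left (S : ScatFacts Φ) {h₁ h₂ k : Space3 → ℝ≥0∞} (hh₁ : Measurable h₁)
    (hh₂ : Measurable h₂) (hk : Measurable k) (v : Space3) :
    Qp Φ (fun w => h₁ w + h₂ w) k v = Qp Φ h₁ k v + Qp Φ h₂ k v := by
  have h12 : Measurable (fun w => h₁ w + h₂ w) := hh₁.add hh₂
  rw [Qp_eq_kapQ S h12 hk, Qp_eq_kapQ S hh₁ hk, Qp_eq_kapQ S hh₂ hk,
    ← lintegral_add_left (measurable_prodfun hh₁ hk)]
  simp only [add_mul]

theorem Qp_add_right (S : ScatFacts Φ) {h k₁ k₂ : Space3 → ℝ≥0∞} (hh : Measurable h)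
    (hk₁ : Measurable k₁) (hk₂ : Measurable k₂) (v : Space3) :
    Qp Φ h (fun w => k₁ w + k₂ w) v = Qp Φ h k₁ v + Qp Φ h k₂ v := by
  have h12 : Measurable (fun w => k₁ w + k₂ w) := hk₁.add hk₂
  rw [Qp_eq_kapQ S hh h12, Qp_eq_kapQ S hh hk₁, Qp_eq_kapQ S hh hk₂,
    ← lintegral_add_left (measurable_prodfun hh hk₁)]
  simp only [mul_add]

theorem Qp_tsum (S : ScatFacts Φ) {ι κ : Type*} [Countable ι] [Countable κ]
    {h : ι → Space3 → ℝ≥0∞} {k : κ → Space3 → ℝ≥0∞} (hh : ∀ i, Measurable (h i))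
    (hk : ∀ i, Measurable (k i)) (v : Space3) :
    Qp Φ (fun w => ∑' i, h i w) (fun w => ∑' j, k j w) v = ∑' i, ∑' j, Qp Φ (h i) (k j) v := by
  rw [Qp_eq_kapQ S (Measurable.tsum hh) (Measurable.tsum hk)]
  have h1 : ∀ p : Space3 × Space3, (∑' i, h i p.1) * (∑' j, k j p.2) =
      ∑' i, ∑' j, h i p.1 * k j p.2 := by
    intro p
    rw [← ENNReal.tsum_mul_right]
    refine tsum_congr (fun i => ?_)
    rw [← ENNReal.tsum_mul_left]
  simp only [h1]
  have hm1 : ∀ i, Measurable (fun p : Space3 × Space3 => ∑' j, h i p.1 * k j p.2) :=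
    fun i => Measurable.tsum (fun j => measurable_prodfun (hh i) (hk j))
  rw [lintegral_tsum (fun i => (hm1 i).aemeasurable)]
  refine tsum_congr (fun i => ?_)
  rw [lintegral_tsum (fun j => (measurable_prodfun (hh i) (hk j)).aemeasurable)]
  refine tsum_congr (fun j => ?_)
  rw [Qp_eq_kapQ S (hh i) (hk j)]

theorem Qp_const_mul_left (S : ScatFacts Φ) (c : ℝ≥0∞) {h k : Space3 → ℝ≥0∞}
    (hh : Measurable h) (hk : Measurable k) (v : Space3) :
    Qp Φ (fun w => c * h w) k v = c * Qp Φ h k v := by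
  have hch : Measurable (fun w => c * h w) := hh.const_mul c
  rw [Qp_eq_kapQ S hch hk, Qp_eq_kapQ S hh hk,
    ← lintegral_const_mul c (measurable_prodfun hh hk)]
  simp only [mul_assoc]

theorem Qp_const_mul_right (S : ScatFacts Φ) (c : ℝ≥0∞) {h k : Space3 → ℝ≥0∞}
    (hh : Measurable h) (hk : Measurable k) (v : Space3) :
    Qp Φ h (fun w => c * k w) v = c * Qp Φ h k v := by
  have hck : Measurable (fun w => c * k w) := hk.const_mul c
  rw [Qp_eq_kapQ S hh hck, Qp_eq_kapQ S hh hk,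
    ← lintegral_const_mul c (measurable_prodfun hh hk)]
  refine lintegral_congr (fun p => ?_)
  ring

@[simp] theorem Qp_zero_left (k : Space3 → ℝ≥0∞) (v : Space3) :
    Qp Φ (fun _ => 0) k v = 0 := by
  unfold Qp; simp

@[simp] theorem Qp_zero_right (h : Space3 → ℝ≥0∞) (v : Space3) :
    Qp Φ h (fun _ => 0) v = 0 := by
  unfold Qp; simp

/-- Energy conservation in a collision. -/
theorem energy_post (S : ScatFacts Φ) {v w b : Space3} (hvw : v ≠ w)
    (hb : b ∈ impactDisc (v - w)) :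
    ‖(postVelocities Φ b v w).1‖ ^ 2 + ‖(postVelocities Φ b v w).2‖ ^ 2 =
      ‖v‖ ^ 2 + ‖w‖ ^ 2 := by
  have hg : v - w ≠ 0 := sub_ne_zero.mpr hvw
  have hn := S.norm_exit b (v - w) hb hg
  unfold postVelocities
  simp only
  set e := exitVelocity Φ b (v - w)
  have h1 : ‖(1 / 2 : ℝ) • (v + w) + (1 / 2 : ℝ) • e‖ ^ 2 +
      ‖(1 / 2 : ℝ) • (v + w) - (1 / 2 : ℝ) • e‖ ^ 2 =
      2 * (‖(1 / 2 : ℝ) • (v + w)‖ ^ 2 + ‖(1 / 2 : ℝ) • e‖ ^ 2) := by
    have := parallelogram_law_with_norm ℝ ((1 / 2 : ℝ) • (v + w)) ((1 / 2 : ℝ) • e)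
    nlinarith [this]
  have h2 : ‖v‖ ^ 2 + ‖w‖ ^ 2 = (1 / 2 : ℝ) * (‖v + w‖ ^ 2 + ‖v - w‖ ^ 2) := by
    have := parallelogram_law_with_norm ℝ v w
    nlinarith [this]
  rw [h1, h2, norm_smul, norm_smul, hn]
  simp only [Real.norm_eq_abs]
  rw [abs_of_pos (by norm_num : (0:ℝ) < 1 / 2)]
  ring

/-- Momentum conservation in a collision. -/
theorem momentum_post (b v w : Space3) :
    (postVelocities Φ b v w).1 + (postVelocities Φ b v w).2 = v + w := by
  unfold postVelocities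
  simp only
  have : (1 / 2 : ℝ) • (v + w) + (1 / 2 : ℝ) • exitVelocity Φ b (v - w) +
      ((1 / 2 : ℝ) • (v + w) - (1 / 2 : ℝ) • exitVelocity Φ b (v - w)) =
      (1 / 2 : ℝ) • (v + w) + (1 / 2 : ℝ) • (v + w) := by abel
  rw [this, ← add_smul]; norm_num

/-- Relative velocity after a collision. -/
theorem relative_post (b v w : Space3) :
    (postVelocities Φ b v w).1 - (postVelocities Φ b v w).2 = exitVelocity Φ b (v - w) := by
  unfold postVelocities
  simp only
  have : (1 / 2 : ℝ) • (v + w) + (1 / 2 : ℝ) • exitVelocity Φ b (v - w) -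
      ((1 / 2 : ℝ) • (v + w) - (1 / 2 : ℝ) • exitVelocity Φ b (v - w)) =
      (1 / 2 : ℝ) • exitVelocity Φ b (v - w) + (1 / 2 : ℝ) • exitVelocity Φ b (v - w) := by abel
  rw [this, ← add_smul]; norm_num

/-- The Gaussian `exp (-γ‖v‖²)` as an extended nonnegative real. -/
def gau (γ : ℝ) (v : Space3) : ℝ≥0∞ := ENNReal.ofReal (Real.exp (-γ * ‖v‖ ^ 2))

lemma measurable_gau (γ : ℝ) : Measurable (gau γ) := by
  unfold gau; fun_prop

/-- If `F` depends only on the energy after the collision, the impact-disc integral is `π F`. -/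
lemma lintegral_disc_gau (S : ScatFacts Φ) (γ : ℝ) {v w : Space3} (hvw : v ≠ w) :
    ∫⁻ b in impactDisc (v - w),
      gau γ (postVelocities Φ b v w).1 * gau γ (postVelocities Φ b v w).2 ∂μHE[2] =
      ENNReal.ofReal Real.pi * (gau γ v * gau γ w) := by
  have hg : v - w ≠ 0 := sub_ne_zero.mpr hvw
  have h : ∀ b ∈ impactDisc (v - w),
      gau γ (postVelocities Φ b v w).1 * gau γ (postVelocities Φ b v w).2 =
        gau γ v * gau γ w := by
    intro b hb
    unfold gau
    rw [← ENNReal.ofReal_mul (Real.exp_pos _).le, ← ENNReal.ofReal_mul (Real.exp_pos _).le,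
      ← Real.exp_add, ← Real.exp_add]
    have he := energy_post S hvw hb
    have he' : -γ * ‖(postVelocities Φ b v w).1‖ ^ 2 + -γ * ‖(postVelocities Φ b v w).2‖ ^ 2 =
        -γ * ‖v‖ ^ 2 + -γ * ‖w‖ ^ 2 := by
      rw [← mul_add, he, mul_add]
    rw [he']
  rw [setLIntegral_congr_fun (measurableSet_impactDisc _) h, setLIntegral_const,
    measure_impactDisc hg, mul_comm]

/-- (Q3) Exact value of the gain operator on a Gaussian. -/
theorem Qp_gau (S : ScatFacts Φ) (γ : ℝ) (v : Space3) :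
    Qp Φ (gau γ) (gau γ) v = gau γ v * nuE (gau γ) v := by
  unfold Qp nuE
  have h : ∀ w : Space3, ENNReal.ofReal ‖v - w‖ * ∫⁻ b in impactDisc (v - w),
      gau γ (postVelocities Φ b v w).1 * gau γ (postVelocities Φ b v w).2 ∂μHE[2] =
      (gau γ v * ENNReal.ofReal Real.pi) * (ENNReal.ofReal ‖v - w‖ * gau γ w) := by
    intro w
    by_cases hvw : v = w
    · simp [hvw]
    · rw [lintegral_disc_gau S γ hvw]; ring
  simp only [h]
  rw [lintegral_const_mul _ (by
    have := measurable_gau γ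
    fun_prop), mul_assoc]

/-! ### Gaussian integrals and the bound (H1) -/

lemma integrable_exp_neg {γ : ℝ} (hγ : 0 < γ) :
    Integrable (fun w : Space3 => Real.exp (-γ * ‖w‖ ^ 2)) := by
  by_contra h
  have h0 := integral_undef h
  have h1 := GaussianFourier.integral_rexp_neg_mul_sq_norm (V := Space3) hγ
  rw [h0] at h1
  have : (0:ℝ) < (Real.pi / γ) ^ ((Module.finrank ℝ Space3 : ℝ) / 2) :=
    Real.rpow_pos_of_pos (div_pos Real.pi_pos hγ) _
  linarith

lemma lintegral_gau_lt_top {γ : ℝ} (hγ : 0 < γ) : ∫⁻ w, gau γ w < ∞ := by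
  have h := (integrable_exp_neg hγ).lintegral_lt_top
  exact h

/-- A polynomial weight is absorbed by a fraction of the Gaussian. -/
lemma one_add_norm_mul_exp_le {γ : ℝ} (hγ : 0 < γ) (r : ℝ) :
    (1 + r) * Real.exp (-γ * r ^ 2) ≤ (1 + γ⁻¹) * Real.exp (-(γ / 2) * r ^ 2) := by
  have h1 : Real.exp (-γ * r ^ 2) = Real.exp (-(γ / 2) * r ^ 2) * Real.exp (-(γ / 2) * r ^ 2) := by
    rw [← Real.exp_add]; congr 1; ring
  rw [h1, ← mul_assoc]
  refine mul_le_mul_of_nonneg_right ?_ (Real.exp_pos _).le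
  have h2 : 1 + (γ / 2) * r ^ 2 ≤ Real.exp ((γ / 2) * r ^ 2) := by
    have := Real.add_one_le_exp ((γ / 2) * r ^ 2)
    linarith
  have h3 : Real.exp (-(γ / 2) * r ^ 2) * Real.exp ((γ / 2) * r ^ 2) = 1 := by
    rw [← Real.exp_add]; simp
  have h4 : 1 + r ≤ (1 + γ⁻¹) * (1 + (γ / 2) * r ^ 2) := by
    have hγi : 0 < γ⁻¹ := inv_pos.mpr hγ
    have hmul : γ⁻¹ * γ = 1 := inv_mul_cancel₀ hγ.ne'
    have h5 : (1 + γ⁻¹) * (1 + (γ / 2) * r ^ 2) =
        1 + γ⁻¹ + (γ / 2) * r ^ 2 + (1 / 2) * r ^ 2 := by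
      have : γ⁻¹ * ((γ / 2) * r ^ 2) = (1 / 2) * r ^ 2 := by
        calc γ⁻¹ * ((γ / 2) * r ^ 2) = (γ⁻¹ * γ) * ((1 / 2) * r ^ 2) := by ring
          _ = _ := by rw [hmul, one_mul]
      linear_combination this
    rw [h5]
    nlinarith [sq_nonneg (r - 1), sq_nonneg (γ * r - 1), sq_nonneg r, mul_pos hγ hγi,
      mul_nonneg hγi.le (sq_nonneg (γ * r - 1)), hmul]
  calc (1 + r) * Real.exp (-(γ / 2) * r ^ 2)
      ≤ ((1 + γ⁻¹) * (1 + (γ / 2) * r ^ 2)) * Real.exp (-(γ / 2) * r ^ 2) :=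
        mul_le_mul_of_nonneg_right h4 (Real.exp_pos _).le
    _ ≤ ((1 + γ⁻¹) * Real.exp ((γ / 2) * r ^ 2)) * Real.exp (-(γ / 2) * r ^ 2) := by
        refine mul_le_mul_of_nonneg_right ?_ (Real.exp_pos _).le
        exact mul_le_mul_of_nonneg_left h2 (by positivity)
    _ = (1 + γ⁻¹) * (Real.exp (-(γ / 2) * r ^ 2) * Real.exp ((γ / 2) * r ^ 2)) := by ring
    _ = 1 + γ⁻¹ := by rw [h3, mul_one]

/-- Arbitrary polynomial weights are absorbed by half of the Gaussian. -/
lemma one_add_norm_pow_mul_exp_le {γ : ℝ} (hγ : 0 < γ) (k : ℕ) {r : ℝ} (hr : 0 ≤ r) :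
    (1 + r) ^ k * Real.exp (-γ * r ^ 2) ≤
      (1 + k * γ⁻¹) ^ k * Real.exp (-(γ / 2) * r ^ 2) := by
  rcases Nat.eq_zero_or_pos k with hk | hk
  · subst hk
    simp only [pow_zero, one_mul]
    refine Real.exp_le_exp.mpr ?_
    nlinarith [sq_nonneg r, mul_nonneg hγ.le (sq_nonneg r)]
  · have hk' : (0:ℝ) < k := Nat.cast_pos.mpr hk
    have hγk : 0 < γ / k := div_pos hγ hk'
    have h1 := one_add_norm_mul_exp_le hγk r
    have h0 : 0 ≤ (1 + r) * Real.exp (-(γ / k) * r ^ 2) :=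
      mul_nonneg (by linarith) (Real.exp_pos _).le
    have h2 := pow_le_pow_left₀ h0 h1 k
    have e1 : ((1 + r) * Real.exp (-(γ / k) * r ^ 2)) ^ k =
        (1 + r) ^ k * Real.exp (-γ * r ^ 2) := by
      rw [mul_pow, ← Real.exp_nat_mul]
      congr 2
      field_simp
    have e2 : ((1 + (γ / k)⁻¹) * Real.exp (-(γ / k / 2) * r ^ 2)) ^ k =
        (1 + k * γ⁻¹) ^ k * Real.exp (-(γ / 2) * r ^ 2) := by
      rw [mul_pow, ← Real.exp_nat_mul]
      congr 2
      · rw [inv_div]; ring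
      · field_simp
    rw [e1, e2] at h2
    exact h2

/-- `(1+‖v‖)^k gau γ ≤ C gau (γ/2)`. -/
lemma one_add_norm_pow_mul_gau_le {γ : ℝ} (hγ : 0 < γ) (k : ℕ) (v : Space3) :
    ENNReal.ofReal (1 + ‖v‖) ^ k * gau γ v ≤
      ENNReal.ofReal ((1 + k * γ⁻¹) ^ k) * gau (γ / 2) v := by
  unfold gau
  have h1 : (0:ℝ) ≤ 1 + ‖v‖ := by positivity
  have h2 : (0:ℝ) ≤ (1 + k * γ⁻¹) ^ k := by positivity
  rw [← ENNReal.ofReal_pow h1, ← ENNReal.ofReal_mul (pow_nonneg h1 k), ← ENNReal.ofReal_mul h2]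
  exact ENNReal.ofReal_le_ofReal (one_add_norm_pow_mul_exp_le hγ k (norm_nonneg v))

lemma gau_antitone {γ γ' : ℝ} (h : γ ≤ γ') (v : Space3) : gau γ' v ≤ gau γ v := by
  unfold gau
  refine ENNReal.ofReal_le_ofReal (Real.exp_le_exp.mpr ?_)
  nlinarith [sq_nonneg ‖v‖]

lemma gau_add (γ γ' : ℝ) (v : Space3) : gau (γ + γ') v = gau γ v * gau γ' v := by
  unfold gau
  rw [← ENNReal.ofReal_mul (Real.exp_pos _).le, ← Real.exp_add]
  congr 2; ring

lemma gau_ne_top (γ : ℝ) (v : Space3) : gau γ v ≠ ∞ := ENNReal.ofReal_ne_top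

lemma gau_pos (γ : ℝ) (v : Space3) : 0 < gau γ v := by
  unfold gau
  exact ENNReal.ofReal_pos.mpr (Real.exp_pos _)

/-- All Gaussian moments are finite. -/
lemma lintegral_moment_gau_lt_top {γ : ℝ} (hγ : 0 < γ) (k : ℕ) :
    ∫⁻ w : Space3, ENNReal.ofReal (1 + ‖w‖) ^ k * gau γ w < ∞ := by
  calc ∫⁻ w : Space3, ENNReal.ofReal (1 + ‖w‖) ^ k * gau γ w
      ≤ ∫⁻ w : Space3, ENNReal.ofReal ((1 + k * γ⁻¹) ^ k) * gau (γ / 2) w :=
        lintegral_mono (fun w => one_add_norm_pow_mul_gau_le hγ k w)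
    _ = ENNReal.ofReal ((1 + k * γ⁻¹) ^ k) * ∫⁻ w : Space3, gau (γ / 2) w :=
        lintegral_const_mul _ (measurable_gau _)
    _ < ∞ := ENNReal.mul_lt_top ENNReal.ofReal_lt_top (lintegral_gau_lt_top (by linarith))

lemma norm_sub_le_prod (v w : Space3) :
    ENNReal.ofReal ‖v - w‖ ≤ ENNReal.ofReal (1 + ‖v‖) * ENNReal.ofReal (1 + ‖w‖) := by
  rw [← ENNReal.ofReal_mul (by positivity)]
  refine ENNReal.ofReal_le_ofReal ?_
  have := norm_sub_le v w
  nlinarith [norm_nonneg v, norm_nonneg w, mul_nonneg (norm_nonneg v) (norm_nonneg w)]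

/-- General bound on the loss frequency by the first moment. -/
lemma nuE_le_moment {h : Space3 → ℝ≥0∞} (hh : Measurable h) (v : Space3) :
    nuE h v ≤ ENNReal.ofReal Real.pi *
      (ENNReal.ofReal (1 + ‖v‖) * ∫⁻ w, ENNReal.ofReal (1 + ‖w‖) * h w) := by
  unfold nuE
  refine mul_le_mul_right ?_ _
  rw [← lintegral_const_mul _ (by fun_prop)]
  refine lintegral_mono (fun w => ?_)
  calc ENNReal.ofReal ‖v - w‖ * h w
      ≤ (ENNReal.ofReal (1 + ‖v‖) * ENNReal.ofReal (1 + ‖w‖)) * h w :=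
        mul_le_mul_left (norm_sub_le_prod v w) _
    _ = _ := by ring

lemma nuE_mono {h k : Space3 → ℝ≥0∞} (hhk : ∀ w, h w ≤ k w) (v : Space3) :
    nuE h v ≤ nuE k v := by
  unfold nuE
  refine mul_le_mul_right ?_ _
  exact lintegral_mono (fun w => mul_le_mul_right (hhk w) _)

/-- The constant in (H1). -/
def CG (γ : ℝ) : ℝ≥0∞ :=
  ENNReal.ofReal Real.pi * ∫⁻ w : Space3, ENNReal.ofReal (1 + ‖w‖) * gau γ w

lemma CG_lt_top {γ : ℝ} (hγ : 0 < γ) : CG γ < ∞ := by
  unfold CG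
  refine ENNReal.mul_lt_top ENNReal.ofReal_lt_top ?_
  have := lintegral_moment_gau_lt_top hγ 1
  simpa using this

lemma CG_antitone {γ γ' : ℝ} (h : γ ≤ γ') : CG γ' ≤ CG γ := by
  unfold CG
  refine mul_le_mul_right ?_ _
  exact lintegral_mono (fun w => mul_le_mul_right (gau_antitone h w) _)

lemma nuE_gau_le (γ : ℝ) (v : Space3) : nuE (gau γ) v ≤ CG γ * ENNReal.ofReal (1 + ‖v‖) := by
  refine (nuE_le_moment (measurable_gau γ) v).trans (le_of_eq ?_)
  unfold CG; ring

/-- (H1): for all rates `γ ≥ γ₀` one constant `CG γ₀` works. -/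
theorem Qp_gau_le (S : ScatFacts Φ) {γ₀ γ : ℝ} (h : γ₀ ≤ γ) (v : Space3) :
    Qp Φ (gau γ) (gau γ) v ≤ CG γ₀ * (ENNReal.ofReal (1 + ‖v‖) * gau γ v) := by
  rw [Qp_gau S]
  calc gau γ v * nuE (gau γ) v ≤ gau γ v * (CG γ * ENNReal.ofReal (1 + ‖v‖)) :=
        mul_le_mul_right (nuE_gau_le γ v) _
    _ ≤ gau γ v * (CG γ₀ * ENNReal.ofReal (1 + ‖v‖)) := by
        refine mul_le_mul_right (mul_le_mul_left (CG_antitone h) _) _
    _ = _ := by ring

/-- Gain operator on Gaussian-bounded functions. -/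
theorem Qp_le_of_le_gau (S : ScatFacts Φ) {γ₀ γ : ℝ} (h : γ₀ ≤ γ) {g k : Space3 → ℝ≥0∞}
    {A B : ℝ≥0∞} (hg : ∀ w, g w ≤ A * gau γ w) (hk : ∀ w, k w ≤ B * gau γ w) (v : Space3) :
    Qp Φ g k v ≤ A * B * CG γ₀ * (ENNReal.ofReal (1 + ‖v‖) * gau γ v) := by
  calc Qp Φ g k v ≤ Qp Φ (fun w => A * gau γ w) (fun w => B * gau γ w) v := Qp_mono hg hk v
    _ = A * (B * Qp Φ (gau γ) (gau γ) v) := by
        rw [Qp_const_mul_left S A (measurable_gau γ) ((measurable_gau γ).const_mul B),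
          Qp_const_mul_right S B (measurable_gau γ) (measurable_gau γ)]
    _ ≤ A * (B * (CG γ₀ * (ENNReal.ofReal (1 + ‖v‖) * gau γ v))) :=
        mul_le_mul_right (mul_le_mul_right (Qp_gau_le S h v) _) _
    _ = _ := by ring

/-- Loss frequency of Gaussian-bounded functions. -/
theorem nuE_le_of_le_gau {γ : ℝ} {g : Space3 → ℝ≥0∞}
    {A : ℝ≥0∞} (hg : ∀ w, g w ≤ A * gau γ w) (v : Space3) :
    nuE g v ≤ A * CG γ * ENNReal.ofReal (1 + ‖v‖) := by
  calc nuE g v ≤ nuE (fun w => A * gau γ w) v := nuE_mono hg v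
    _ = A * nuE (gau γ) v := by
        unfold nuE
        have : ∀ w : Space3, ENNReal.ofReal ‖v - w‖ * (A * gau γ w) =
            A * (ENNReal.ofReal ‖v - w‖ * gau γ w) := fun w => by ring
        simp only [this]
        rw [lintegral_const_mul _ (by have := measurable_gau γ; fun_prop)]
        ring
    _ ≤ A * (CG γ * ENNReal.ofReal (1 + ‖v‖)) := mul_le_mul_right (nuE_gau_le γ v) _
    _ = _ := by ring

/-- Joint measurability of the loss frequency. -/
theorem measurable_nuE {α : Type*} [MeasurableSpace α] {h : α → Space3 → ℝ≥0∞} {v : α → Space3}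
    (hh : Measurable (Function.uncurry h)) (hv : Measurable v) :
    Measurable (fun a => nuE (h a) (v a)) := by
  unfold nuE
  refine Measurable.const_mul ?_ _
  have h1 : Measurable (fun q : α × Space3 => ENNReal.ofReal ‖v q.1 - q.2‖ * h q.1 q.2) :=
    (((hv.comp measurable_fst).sub measurable_snd).norm.ennreal_ofReal).mul hh
  exact h1.lintegral_prod_right'

/-- The mass identity of the kernel: `∫ (v', w')`-law has total rate `π ∫ ‖v - w‖ dw` weighted by
any function of the energy of the pair. -/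
theorem lintegral_kapQ_energy (S : ScatFacts Φ) (v : Space3) {F : ℝ → ℝ≥0∞} (hF : Measurable F) :
    ∫⁻ p, F (‖p.1‖ ^ 2 + ‖p.2‖ ^ 2) ∂(kapQ Φ v) =
      ENNReal.ofReal Real.pi * ∫⁻ w, ENNReal.ofReal ‖v - w‖ * F (‖v‖ ^ 2 + ‖w‖ ^ 2) := by
  have hm : Measurable (fun p : Space3 × Space3 => F (‖p.1‖ ^ 2 + ‖p.2‖ ^ 2)) := by
    refine hF.comp ?_
    fun_prop
  rw [lintegral_kapQ S v hm]
  have h : ∀ w : Space3, ENNReal.ofReal ‖v - w‖ * ∫⁻ b in impactDisc (v - w),
      F (‖(postVelocities Φ b v w).1‖ ^ 2 + ‖(postVelocities Φ b v w).2‖ ^ 2) ∂μHE[2] =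
      ENNReal.ofReal Real.pi * (ENNReal.ofReal ‖v - w‖ * F (‖v‖ ^ 2 + ‖w‖ ^ 2)) := by
    intro w
    by_cases hvw : v = w
    · simp [hvw]
    · have hg : v - w ≠ 0 := sub_ne_zero.mpr hvw
      have h' : ∀ b ∈ impactDisc (v - w),
          F (‖(postVelocities Φ b v w).1‖ ^ 2 + ‖(postVelocities Φ b v w).2‖ ^ 2) =
            F (‖v‖ ^ 2 + ‖w‖ ^ 2) := by
        intro b hb
        rw [energy_post S hvw hb]
      rw [setLIntegral_congr_fun (measurableSet_impactDisc _) h', setLIntegral_const,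
        measure_impactDisc hg]
      ring
  rw [lintegral_congr h, lintegral_const_mul _ ?_]
  refine Measurable.mul (by fun_prop) (hF.comp (by fun_prop))

end Crest.Agent.R122.Kin416
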