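import Crest.Agent.R122.Scat3_818
import Crest.Agent.R122.Disc_416
import Crest.Agent.R122.BoltzDefs_814

/-!
# Row 122, block F2: two-body scattering, part 4

Trapped data form a null set; measurability of the scattering map.
-/

set_option autoImplicit false

open MeasureTheory Filter Set
open scoped Topology NNReal ENNReal
open Crest.AnalysisR.Kinetic

noncomputable section

namespace Crest.Agent.R122.Scat818

open Flow671

variable {Φ : Space3 → ℝ}

/-! ### Trapped data are critical -/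

/-- If `f` converges and `f'` converges, then `f' → 0`. -/
lemma limit_deriv_eq_zero {f f' : ℝ → ℝ} {l c : ℝ} (hd : ∀ s, HasDerivAt f (f' s) s)
    (hf : Tendsto f atTop (𝓝 l)) (hf' : Tendsto f' atTop (𝓝 c)) : c = 0 := by
  have hmvt : ∀ s : ℝ, ∃ ξ ∈ Ioo s (s + 1), f' ξ = f (s + 1) - f s := by
    intro s
    obtain ⟨ξ, hξ, h⟩ := exists_hasDerivAt_eq_slope f f' (show s < s + 1 by linarith)
      (fun x _ => (hd x).continuousAt.continuousWithinAt) (fun x _ => hd x)
    refine ⟨ξ, hξ, ?_⟩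
    rw [h]; ring
  choose ξ hξ hfξ using hmvt
  have h1 : Tendsto ξ atTop atTop :=
    tendsto_atTop_mono (fun s => (hξ s).1.le) tendsto_id
  have h2 : Tendsto (fun s => f' (ξ s)) atTop (𝓝 c) := hf'.comp h1
  have h3 : Tendsto (fun s => f (s + 1) - f s) atTop (𝓝 (l - l)) := by
    refine Tendsto.sub ?_ hf
    exact hf.comp (tendsto_atTop_add_const_right _ 1 tendsto_id)
  rw [sub_self] at h3
  refine tendsto_nhds_unique h2 ?_
  simpa only [hfξ] using h3

lemma inner_sq_eq (x v : Space3) : (inner ℝ x v) ^ 2 = ‖x‖ ^ 2 * ‖v‖ ^ 2 - am x v := by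
  unfold am; ring

/-- **Trapped data with nonzero impact parameter sit at a critical value of the effective
potential.** -/
theorem critical_of_trapped (hΦ : AdmissiblePotential Φ) {b g : Space3} (hb : b ∈ impactDisc g)
    (hg : g ≠ 0) (hb0 : b ≠ 0) (h : ¬ ∃ τ, HasExit Φ (inc b g) τ) :
    ∃ r ∈ Ioo (0 : ℝ) 1, r ^ 2 * (‖g‖ ^ 2 - 4 * prof Φ r) = ‖g‖ ^ 2 * ‖b‖ ^ 2 ∧
      ‖g‖ ^ 2 - 4 * prof Φ r - 2 * (deriv (prof Φ) r * r) = 0 := by
  have hz : Reg Φ (inc b g).1 := reg_entrance Φ hb hg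
  have hrel := isRel_relFlow hΦ hz
  set q : ℝ → Space3 := fun t => (relFlow Φ t (inc b g)).1 with hq
  set p : ℝ → Space3 := fun t => (relFlow Φ t (inc b g)).2 with hp
  have hneg : ∀ s, 0 ≤ s → inner ℝ (q s) (p s) < 0 := fun s hs =>
    inner_neg_of_no_exit hΦ hb hg h hs
  have hud : ∀ s, HasDerivAt (fun s => ‖q s‖ ^ 2) (2 * inner ℝ (q s) (p s)) s := fun s =>
    hasDerivAt_normSq_relFlow hΦ hz s
  set E : ℝ := ‖g‖ ^ 2 with hE
  set L2 : ℝ := ‖g‖ ^ 2 * ‖b‖ ^ 2 with hL2
  have hEpos : 0 < E := by positivity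
  have hL2pos : 0 < L2 := by
    have := norm_pos_iff.2 hb0
    positivity
  have hen : ∀ s, ‖p s‖ ^ 2 + 4 * Φ (q s) = E := by
    intro s
    have := en_relFlow hΦ hz s
    rw [en_of_norm_eq_one hΦ (x := (inc b g).1) (norm_entrance hb hg)] at this
    exact this
  have ham : ∀ s, am (q s) (p s) = L2 := by
    intro s
    have := am_relFlow hΦ hz s
    rw [this]; exact am_entrance hb hg
  obtain ⟨C, hC, hlow⟩ := exists_lower_bound hΦ
  -- positions do not vanish
  have hqne : ∀ s, q s ≠ 0 := by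
    intro s h0
    have := ham s
    rw [h0, am] at this
    simp at this
    linarith
  -- lower bound on `u`
  have hupos : ∀ s, L2 / (E + 4 * C) ≤ ‖q s‖ ^ 2 := by
    intro s
    have h1 : L2 ≤ ‖q s‖ ^ 2 * ‖p s‖ ^ 2 := by
      have := ham s
      unfold am at this
      nlinarith [sq_nonneg (inner ℝ (q s) (p s))]
    have h2 : ‖p s‖ ^ 2 ≤ E + 4 * C := by
      have := hen s
      have := hlow (q s) (hqne s)
      linarith
    rw [div_le_iff₀ (by linarith)]
    calc L2 ≤ ‖q s‖ ^ 2 * ‖p s‖ ^ 2 := h1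
      _ ≤ ‖q s‖ ^ 2 * (E + 4 * C) := by gcongr
  -- convergence of `u`
  have hanti : ∀ s t, 0 ≤ s → s ≤ t → ‖q t‖ ^ 2 ≤ ‖q s‖ ^ 2 := by
    intro s t hs hst
    have hA := strictAntiOn_normSq hΦ hz (s0 := t) (fun u hu => hneg u hu.1)
    exact hA.antitoneOn ⟨hs, hst⟩ ⟨hs.trans hst, le_rfl⟩ hst
  obtain ⟨u, hu⟩ : ∃ u, Tendsto (fun s => ‖q s‖ ^ 2) atTop (𝓝 u) := by
    have hU : Antitone (fun s : ℝ => ‖q (max s 0)‖ ^ 2) := by
      intro s t hst
      exact hanti _ _ (le_max_right _ _) (max_le_max_right 0 hst)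
    have hbdd : BddBelow (range fun s : ℝ => ‖q (max s 0)‖ ^ 2) :=
      ⟨0, by rintro _ ⟨s, rfl⟩; positivity⟩
    refine ⟨_, (tendsto_atTop_ciInf hU hbdd).congr' ?_⟩
    filter_upwards [eventually_ge_atTop (0 : ℝ)] with s hs
    rw [max_eq_left hs]
  have hu_low : L2 / (E + 4 * C) ≤ u := ge_of_tendsto' hu hupos
  have hu_pos : 0 < u := lt_of_lt_of_le (by positivity) hu_low
  have hu_lt : u < 1 := by
    have h1 : ‖q 1‖ ^ 2 < 1 := by
      have hA := strictAntiOn_normSq hΦ hz (s0 := 1) (fun u hu => hneg u hu.1)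
      have := hA (a := 0) (b := 1) ⟨le_rfl, zero_le_one⟩ ⟨zero_le_one, le_rfl⟩ zero_lt_one
      simp only [relFlow_zero hΦ] at this
      have h2 : ‖(inc b g).1‖ ^ 2 = 1 := norm_sq_entrance hb hg
      rw [h2] at this
      exact this
    have h2 : u ≤ ‖q 1‖ ^ 2 := by
      refine le_of_tendsto hu ?_
      filter_upwards [eventually_ge_atTop (1 : ℝ)] with s hs
      exact hanti 1 s zero_le_one hs
    linarith
  set r : ℝ := Real.sqrt u with hr
  have hrpos : 0 < r := Real.sqrt_pos.2 hu_pos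
  have hr2 : r ^ 2 = u := Real.sq_sqrt hu_pos.le
  have hrlt : r < 1 := by
    rw [hr, Real.sqrt_lt' one_pos]; simpa using hu_lt
  have hnorm : Tendsto (fun s => ‖q s‖) atTop (𝓝 r) := by
    have := (Real.continuous_sqrt.tendsto u).comp hu
    refine this.congr (fun s => ?_)
    simp [Real.sqrt_sq (norm_nonneg _)]
  have hprof : Tendsto (fun s => prof Φ ‖q s‖) atTop (𝓝 (prof Φ r)) :=
    (prof_continuousAt hΦ hrpos.ne').tendsto.comp hnorm
  have hdprof : Tendsto (fun s => deriv (prof Φ) ‖q s‖) atTop (𝓝 (deriv (prof Φ) r)) :=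
    (deriv_prof_continuousAt hΦ hrpos).tendsto.comp hnorm
  have hpn : ∀ s, ‖p s‖ ^ 2 = E - 4 * prof Φ ‖q s‖ := by
    intro s
    have := hen s
    rw [eq_prof hΦ] at this
    linarith
  have hw2 : ∀ s, (inner ℝ (q s) (p s)) ^ 2 = ‖q s‖ ^ 2 * (E - 4 * prof Φ ‖q s‖) - L2 := by
    intro s
    rw [inner_sq_eq, ham, hpn]
  set W : ℝ := u * (E - 4 * prof Φ r) - L2 with hW
  have hw2lim : Tendsto (fun s => (inner ℝ (q s) (p s)) ^ 2) atTop (𝓝 W) := by
    simp only [hw2]
    exact (hu.mul (tendsto_const_nhds.sub (hprof.const_mul 4))).sub_const L2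
  have hW0 : 0 ≤ W := ge_of_tendsto' hw2lim (fun s => sq_nonneg _)
  have hwlim : Tendsto (fun s => inner ℝ (q s) (p s)) atTop (𝓝 (-Real.sqrt W)) := by
    have h1 := ((Real.continuous_sqrt.tendsto W).comp hw2lim).neg
    refine h1.congr' ?_
    filter_upwards [eventually_ge_atTop (0 : ℝ)] with s hs
    simp only [Function.comp_apply]
    rw [Real.sqrt_sq_eq_abs, abs_of_neg (hneg s hs), neg_neg]
  have hsqrt : Real.sqrt W = 0 := by
    have := limit_deriv_eq_zero hud hu (hwlim.const_mul 2)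
    linarith
  have hWz : W = 0 := le_antisymm (Real.sqrt_eq_zero'.1 hsqrt) hW0
  have hwd : ∀ s, HasDerivAt (fun s => inner ℝ (q s) (p s))
      (E - 4 * prof Φ ‖q s‖ - 2 * (deriv (prof Φ) ‖q s‖ * ‖q s‖)) s := by
    intro s
    have := hrel.hasDerivAt_inner hΦ s
    have h2 : ‖p s‖ ^ 2 - 2 * (deriv (prof Φ) ‖q s‖ * ‖q s‖)
        = E - 4 * prof Φ ‖q s‖ - 2 * (deriv (prof Φ) ‖q s‖ * ‖q s‖) := by rw [hpn]
    rw [← h2]
    exact this
  have hwd_lim : Tendsto
      (fun s => E - 4 * prof Φ ‖q s‖ - 2 * (deriv (prof Φ) ‖q s‖ * ‖q s‖)) atTop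
      (𝓝 (E - 4 * prof Φ r - 2 * (deriv (prof Φ) r * r))) :=
    (tendsto_const_nhds.sub (hprof.const_mul 4)).sub ((hdprof.mul hnorm).const_mul 2)
  have hcrit := limit_deriv_eq_zero hwd hwlim hwd_lim
  refine ⟨r, ⟨hrpos, hrlt⟩, ?_, hcrit⟩
  rw [hr2]
  linarith

/-! ### Sard and the null set -/

/-- effective function -/
def Geff (Φ : Space3 → ℝ) (E r : ℝ) : ℝ := r ^ 2 * (E - 4 * prof Φ r)

lemma hasDerivAt_Geff (hΦ : AdmissiblePotential Φ) (E : ℝ) {r : ℝ} (hr : 0 < r) :
    HasDerivAt (Geff Φ E) (2 * r * (E - 4 * prof Φ r - 2 * (deriv (prof Φ) r * r))) r := by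
  have h1 : HasDerivAt (fun r : ℝ => r ^ 2) (2 * r) r := by simpa using hasDerivAt_pow 2 r
  have h2 : HasDerivAt (fun r => E - 4 * prof Φ r) (-(4 * deriv (prof Φ) r)) r := by
    simpa using ((prof_hasDerivAt hΦ hr.ne').const_mul 4).const_sub E
  have h3 := h1.mul h2
  have h4 : 2 * r * (E - 4 * prof Φ r) + r ^ 2 * -(4 * deriv (prof Φ) r)
      = 2 * r * (E - 4 * prof Φ r - 2 * (deriv (prof Φ) r * r)) := by ring
  rw [h4] at h3
  exact h3

/-- critical values of the effective function -/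
def critVals (Φ : Space3 → ℝ) (E : ℝ) : Set ℝ :=
  Geff Φ E '' {r | r ∈ Ioo (0 : ℝ) 1 ∧ E - 4 * prof Φ r - 2 * (deriv (prof Φ) r * r) = 0}

/-- Sard in dimension one. -/
lemma volume_critVals (hΦ : AdmissiblePotential Φ) (E : ℝ) : volume (critVals Φ E) = 0 := by
  unfold critVals
  apply addHaar_image_eq_zero_of_det_fderivWithin_eq_zero volume
    (f' := fun r => ContinuousLinearMap.toSpanSingleton ℝ
      (2 * r * (E - 4 * prof Φ r - 2 * (deriv (prof Φ) r * r))))
  · intro r hr
    exact (hasDerivAt_Geff hΦ E hr.1.1).hasFDerivAt.hasFDerivWithinAt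
  · intro r hr
    rw [hr.2, mul_zero]
    simp [ContinuousLinearMap.det]

/-- Norm preimages of null sets are null. -/
lemma measure_norm_preimage_null {E : Type*} [NormedAddCommGroup E] [NormedSpace ℝ E]
    [Nontrivial E] [FiniteDimensional ℝ E] [MeasurableSpace E] [BorelSpace E] (μ : Measure E)
    [μ.IsAddHaarMeasure] {N : Set ℝ} (hN : volume N = 0) : μ {y : E | ‖y‖ ∈ N} = 0 := by
  set N' := toMeasurable volume N with hN'
  have hN'0 : volume N' = 0 := by rw [hN', measure_toMeasurable, hN]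
  have hsub : {y : E | ‖y‖ ∈ N} ⊆ {y : E | ‖y‖ ∈ N'} := fun y hy => subset_toMeasurable _ _ hy
  refine measure_mono_null hsub ?_
  have hm : MeasurableSet N' := measurableSet_toMeasurable _ _
  let f : ℝ → ℝ := N'.indicator 1
  have hf0 : f =ᵐ[volume] 0 := by
    have : ∀ᵐ x ∂(volume : Measure ℝ), x ∉ N' := measure_eq_zero_iff_ae_notMem.1 hN'0
    filter_upwards [this] with x hx
    simp [f, hx]
  have hz : ∀ᵐ y ∂(volume : Measure ℝ).restrict (Ioi 0),
      y ^ (Module.finrank ℝ E - 1) • f y = 0 := by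
    filter_upwards [ae_restrict_of_ae hf0] with y hy
    rw [hy]; simp
  have hint : Integrable (fun x : E => f ‖x‖) μ := by
    rw [integrable_fun_norm_addHaar μ]
    have : IntegrableOn (fun _ : ℝ => (0 : ℝ)) (Ioi 0) := integrableOn_zero
    exact this.congr (by filter_upwards [hz] with y hy; exact hy.symm)
  have hval : ∫ x, f ‖x‖ ∂μ = 0 := by
    rw [integral_fun_norm_addHaar μ f]
    have : ∫ y in Ioi (0 : ℝ), y ^ (Module.finrank ℝ E - 1) • f y = 0 :=
      integral_eq_zero_of_ae hz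
    rw [this]; simp
  have hnn : 0 ≤ fun x : E => f ‖x‖ := by
    intro x
    exact indicator_nonneg (fun _ _ => zero_le_one) _
  have h0 := (integral_eq_zero_iff_of_nonneg hnn hint).1 hval
  have h1 : ∀ᵐ x ∂μ, x ∉ {y : E | ‖y‖ ∈ N'} := by
    filter_upwards [h0] with x hx hxN
    have : f ‖x‖ = 1 := by simp [f, show ‖x‖ ∈ N' from hxN]
    rw [this] at hx
    simp at hx
  exact measure_eq_zero_iff_ae_notMem.2 h1

/-- Radii carrying trapped data. -/
lemma volume_trapped_radii (hΦ : AdmissiblePotential Φ) {g : Space3} (hg : g ≠ 0) :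
    volume {ρ : ℝ | 0 < ρ ∧ ‖g‖ ^ 2 * ρ ^ 2 ∈ critVals Φ (‖g‖ ^ 2)} = 0 := by
  have hgpos : 0 < ‖g‖ := norm_pos_iff.2 hg
  have hsub : {ρ : ℝ | 0 < ρ ∧ ‖g‖ ^ 2 * ρ ^ 2 ∈ critVals Φ (‖g‖ ^ 2)} ⊆
      (fun y : ℝ => Real.sqrt y / ‖g‖) '' (critVals Φ (‖g‖ ^ 2) ∩ Ioi 0) := by
    rintro ρ ⟨hρ, hmem⟩
    refine ⟨‖g‖ ^ 2 * ρ ^ 2, ⟨hmem, by show (0:ℝ) < _; positivity⟩, ?_⟩
    show Real.sqrt (‖g‖ ^ 2 * ρ ^ 2) / ‖g‖ = ρ
    rw [← mul_pow, Real.sqrt_sq (by positivity)]
    field_simp
  refine measure_mono_null hsub ?_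
  apply addHaar_image_eq_zero_of_differentiableOn_of_addHaar_eq_zero volume
  · intro y hy
    have hy0 : y ≠ 0 := ne_of_gt hy.2
    exact (((Real.hasDerivAt_sqrt hy0).div_const ‖g‖).differentiableAt).differentiableWithinAt
  · exact measure_mono_null inter_subset_left (volume_critVals hΦ _)

/-- The trapped set for relative velocity `g`. -/
def trapped (Φ : Space3 → ℝ) (g : Space3) : Set Space3 :=
  {b | b ∈ impactDisc g ∧ ¬ ∃ τ, HasExit Φ (inc b g) τ}

/-- **The trapped set is null**, planar form. -/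
theorem volume_trapped_plane (hΦ : AdmissiblePotential Φ) {g : Space3} (hg : g ≠ 0) :
    volume {y : Disc416.Plane | Disc416.frameMap g y ∈ trapped Φ g} = 0 := by
  have hsub : {y : Disc416.Plane | Disc416.frameMap g y ∈ trapped Φ g} ⊆
      {0} ∪ {y | ‖y‖ ∈ {ρ : ℝ | 0 < ρ ∧ ‖g‖ ^ 2 * ρ ^ 2 ∈ critVals Φ (‖g‖ ^ 2)}} := by
    rintro y ⟨hmem, hno⟩
    by_cases hy : y = 0
    · exact Or.inl hy
    · right
      have hypos : 0 < ‖y‖ := norm_pos_iff.2 hy
      have hb0 : Disc416.frameMap g y ≠ 0 := by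
        rw [← norm_pos_iff, Disc416.norm_frameMap hg]; exact hypos
      obtain ⟨r, hr, h1, h2⟩ := critical_of_trapped hΦ hmem hg hb0 hno
      refine ⟨hypos, r, ⟨hr, h2⟩, ?_⟩
      rw [Disc416.norm_frameMap hg] at h1
      exact h1
  refine measure_mono_null hsub (measure_union_null (by simp) ?_)
  have : Nontrivial Disc416.Plane := by
    unfold Disc416.Plane; infer_instance
  exact measure_norm_preimage_null volume (volume_trapped_radii hΦ hg)

/-- **The trapped set is null** for the two-dimensional Hausdorff measure. -/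
theorem measure_trapped (hΦ : AdmissiblePotential Φ) {g : Space3} (hg : g ≠ 0) :
    (μHE[2] : Measure Space3) (trapped Φ g) = 0 := by
  classical
  -- measurable version of the trapped set: transport along the frame
  have hemb : MeasurableEmbedding (Disc416.frameMap g) :=
    (Disc416.isometry_frameMap hg).isClosedEmbedding.measurableEmbedding
  have h1 : (μHE[2] : Measure Space3) (trapped Φ g)
      ≤ ((μHE[2] : Measure Space3).restrict (impactDisc g)) (trapped Φ g) := by
    rw [Measure.restrict_eq_self _ (fun b (hb : b ∈ trapped Φ g) => hb.1)]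
  refine le_antisymm (h1.trans ?_) zero_le
  rw [← Disc416.map_frameMap hg, hemb.map_apply]
  exact (Measure.restrict_apply_le _ _).trans (volume_trapped_plane hΦ hg).le

/-! ### Measurability -/

lemma measurable_relFlow (hΦ : AdmissiblePotential Φ) (t : ℝ) : Measurable (relFlow Φ t) := by
  classical
  have hU : MeasurableSet (RegSet Φ) := (isOpen_regSet Φ).measurableSet
  have h1 : ContinuousOn (relFlow Φ t) (RegSet Φ) := by
    have h2 : ContinuousOn (fun z : Space3 × Space3 => ((t, z) : ℝ × (Space3 × Space3)))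
        (RegSet Φ) := by fun_prop
    exact (continuousOn_relFlow hΦ).comp h2 (fun z hz => ⟨mem_univ _, hz⟩)
  have h3 : relFlow Φ t = fun z => (RegSet Φ).piecewise (relFlow Φ t) id z := by
    funext z
    by_cases hz : z ∈ RegSet Φ
    · rw [Set.piecewise_eq_of_mem _ _ _ hz]
    · rw [Set.piecewise_eq_of_notMem _ _ _ hz]
      exact Complete.flow_of_not_mem hz t
  rw [h3]
  exact h1.measurable_piecewise continuousOn_id hU

lemma measurable_entrancePoint :
    Measurable (fun p : Space3 × Space3 => entrancePoint p.1 p.2) := by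
  unfold entrancePoint
  fun_prop

lemma measurable_inc : Measurable (fun p : Space3 × Space3 => inc p.1 p.2) :=
  measurable_entrancePoint.prodMk measurable_snd

/-- Incidence data: `b ∈ impactDisc g`, not both zero. -/
def incid : Set (Space3 × Space3) := {p | p.1 ∈ impactDisc p.2 ∧ p ≠ 0}

lemma measurableSet_impact : MeasurableSet {p : Space3 × Space3 | p.1 ∈ impactDisc p.2} := by
  have h1 : MeasurableSet {p : Space3 × Space3 | inner ℝ p.1 p.2 = 0} :=
    (isClosed_eq (by fun_prop) continuous_const).measurableSet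
  have h2 : MeasurableSet {p : Space3 × Space3 | ‖p.1‖ < 1} :=
    (isOpen_lt (by fun_prop) continuous_const).measurableSet
  exact h1.inter h2

lemma measurableSet_incid : MeasurableSet incid :=
  measurableSet_impact.inter (measurableSet_singleton (0 : Space3 × Space3)).compl

lemma entrancePoint_zero_right (b : Space3) : entrancePoint b 0 = b := by
  simp [entrancePoint]

lemma reg_incid (Φ : Space3 → ℝ) {p : Space3 × Space3} (hp : p ∈ incid) :
    Reg Φ (inc p.1 p.2).1 := by
  by_cases hg : p.2 = 0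
  · have hb : p.1 ≠ 0 := fun h => hp.2 (Prod.ext h hg)
    show Reg Φ (entrancePoint p.1 p.2)
    rw [hg, entrancePoint_zero_right]
    exact Or.inl hb
  · exact reg_entrance Φ hp.1 hg

lemma enters_incid (hΦ : AdmissiblePotential Φ) {p : Space3 × Space3} (hp : p ∈ incid) :
    Enters Φ (inc p.1 p.2) := by
  by_cases hg : p.2 = 0
  · have hcont := (continuous_relFlow hΦ (reg_incid Φ hp)).fst.norm
    have h0 : ‖(relFlow Φ 0 (inc p.1 p.2)).1‖ < 1 := by
      rw [relFlow_zero hΦ]
      show ‖entrancePoint p.1 p.2‖ < 1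
      rw [hg, entrancePoint_zero_right]
      exact hp.1.2
    have := hcont.continuousAt.eventually_lt (x₀ := 0) continuousAt_const h0
    exact this.filter_mono nhdsWithin_le_nhds
  · exact enters_inc hΦ hp.1 hg

/-- The exit velocity as an eventually constant sequence. -/
def exitSeq (Φ : Space3 → ℝ) (n : ℕ) (p : Space3 × Space3) : Space3 :=
  open scoped Classical in
  if 1 < ‖(relFlow Φ (n + 1 : ℝ) (inc p.1 p.2)).1‖ then (relFlow Φ (n + 1 : ℝ) (inc p.1 p.2)).2
  else p.2

lemma measurable_exitSeq (hΦ : AdmissiblePotential Φ) (n : ℕ) : Measurable (exitSeq Φ n) := by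
  classical
  unfold exitSeq
  have h1 : Measurable fun p : Space3 × Space3 => relFlow Φ (n + 1 : ℝ) (inc p.1 p.2) :=
    (measurable_relFlow hΦ _).comp measurable_inc
  refine Measurable.ite ?_ h1.snd measurable_snd
  exact measurableSet_lt measurable_const h1.fst.norm

lemma exitSeq_eventually (hΦ : AdmissiblePotential Φ) {p : Space3 × Space3} (hp : p ∈ incid) :
    ∀ᶠ n : ℕ in atTop, exitSeq Φ n p = exitVelocity Φ p.1 p.2 := by
  classical
  have hz := reg_incid Φ hp
  have hent := enters_incid hΦ hp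
  by_cases h : ∃ τ, HasExit Φ (inc p.1 p.2) τ
  · obtain ⟨τ, hτ⟩ := h
    obtain ⟨N, hN⟩ := exists_nat_gt τ
    filter_upwards [eventually_ge_atTop N] with n hn
    have h1 : τ < (n + 1 : ℝ) := by
      have : (N : ℝ) ≤ n := by exact_mod_cast hn
      linarith
    rw [exitSeq, if_pos (hτ.one_lt_norm hΦ hz h1), hτ.after hΦ hz h1.le,
      exitVelocity_eq hΦ hz hτ]
  · refine Eventually.of_forall fun n => ?_
    have h1 : ¬ 1 < ‖(relFlow Φ (n + 1 : ℝ) (inc p.1 p.2)).1‖ := by
      rw [← exit_lt_iff hΦ hz hent (by positivity)]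
      rintro ⟨τ, _, hτ⟩
      exact h ⟨τ, hτ⟩
    rw [exitSeq, if_neg h1, exitVelocity_of_not hΦ hz h]

/-- **Joint measurability of the exit velocity.** -/
theorem measurable_exitVelocity (hΦ : AdmissiblePotential Φ) :
    Measurable (fun p : Space3 × Space3 =>
      open scoped Classical in
      if p.1 ∈ impactDisc p.2 then exitVelocity Φ p.1 p.2 else p.2) := by
  classical
  -- restrict to the incidence set
  have h1 : Measurable (fun p : Space3 × Space3 =>
      if p ∈ incid then exitVelocity Φ p.1 p.2 else p.2) := by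
    refine measurable_of_tendsto_metrizable (f := fun n : ℕ => fun p : Space3 × Space3 =>
      if p ∈ incid then exitSeq Φ n p else p.2) (fun n => ?_) ?_
    · exact Measurable.ite measurableSet_incid (measurable_exitSeq hΦ n) measurable_snd
    · rw [tendsto_pi_nhds]
      intro p
      by_cases hp : p ∈ incid
      · simp only [if_pos hp]
        exact tendsto_const_nhds.congr' (by
          filter_upwards [exitSeq_eventually hΦ hp] with n hn
          exact hn.symm)
      · simp only [if_neg hp]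
        exact tendsto_const_nhds
  have h2 : (fun p : Space3 × Space3 => if p.1 ∈ impactDisc p.2 then exitVelocity Φ p.1 p.2 else p.2)
      = fun p => if p = 0 then (if (0 : Space3) ∈ impactDisc (0 : Space3) then
          exitVelocity Φ 0 0 else 0) else
        (if p ∈ incid then exitVelocity Φ p.1 p.2 else p.2) := by
    funext p
    by_cases hp : p = 0
    · subst hp; simp
    · rw [if_neg hp]
      by_cases hmem : p.1 ∈ impactDisc p.2
      · rw [if_pos hmem, if_pos (show p ∈ incid from ⟨hmem, hp⟩)]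
      · rw [if_neg hmem, if_neg (fun h : p ∈ incid => hmem h.1)]
  rw [h2]
  exact Measurable.ite (measurableSet_singleton _) measurable_const h1

/-- **The facts used by the Boltzmann side.** -/
theorem scatFacts (hΦ : AdmissiblePotential Φ) : Boltz814.ScatFacts Φ where
  norm_exit := fun _ _ hb hg => norm_exitVelocity hΦ hb hg
  measurable_exit := by
    have := measurable_exitVelocity hΦ
    convert this

/-- The set of data with a passage, in the incidence set, is measurable. -/
lemma measurableSet_hasExit (hΦ : AdmissiblePotential Φ) :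
    MeasurableSet {p : Space3 × Space3 | p ∈ incid ∧ ∃ τ, HasExit Φ (inc p.1 p.2) τ} := by
  have h1 : {p : Space3 × Space3 | p ∈ incid ∧ ∃ τ, HasExit Φ (inc p.1 p.2) τ} =
      incid ∩ ⋃ n : ℕ, {p | 1 < ‖(relFlow Φ (n + 1 : ℝ) (inc p.1 p.2)).1‖} := by
    ext p
    simp only [mem_ofPred_eq, mem_inter_iff, mem_iUnion]
    refine and_congr_right fun hp => ?_
    have hz := reg_incid Φ hp
    have hent := enters_incid hΦ hp
    constructor
    · rintro ⟨τ, hτ⟩
      obtain ⟨N, hN⟩ := exists_nat_gt τ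
      exact ⟨N, hτ.one_lt_norm hΦ hz (by linarith)⟩
    · rintro ⟨n, hn⟩
      obtain ⟨τ, _, hτ⟩ := (exit_lt_iff hΦ hz hent (by positivity)).2 hn
      exact ⟨τ, hτ⟩
  rw [h1]
  refine measurableSet_incid.inter (MeasurableSet.iUnion fun n => ?_)
  have h2 : Measurable fun p : Space3 × Space3 => relFlow Φ (n + 1 : ℝ) (inc p.1 p.2) :=
    (measurable_relFlow hΦ _).comp measurable_inc
  exact measurableSet_lt measurable_const h2.fst.norm

end Crest.Agent.R122.Scat818
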