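import Crest.Agent.R122.BoltzSeg2_814
import Crest.Agent.R122.TreeF_399

/-!
Row 122 (helper814): parameter form of the undamped-straight-line tree densities (K2').

* `meas_FS` : measurability of `FS`.
* `densS` : product of the damping factors (none on the straight line of the root) and of the
  initial densities along a straight-line tree.
* `FS_eq` : `FS P t x v = ∫ over the tree parameters of wt * densS`.
-/

set_option autoImplicit false
set_option linter.unusedSectionVars false
open MeasureTheory ProbabilityTheory Set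
open Crest.AnalysisR.Kinetic
open Crest.Agent.R122.Boltz814 Crest.Agent.R122.Kin416 Crest.Agent.R122.Kin796
  Crest.Agent.R122.Disc416 Crest.Agent.R122.Tree674 Crest.Agent.R122.Scat818
  Crest.Agent.R122.TreeF399
open scoped Classical ENNReal

noncomputable section

namespace Crest.Agent.R122.Seg814

/-! ### Measurability of `FS` -/

section meas

variable {E : Type*} [NormedAddCommGroup E] [NormedSpace ℝ E] [MeasurableSpace E] [BorelSpace E]
  [SecondCountableTopology E]

/-- joint measurability with a pair of velocities -/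
def Meas3P (H : ℝ → E → E → E × E → ℝ≥0∞) : Prop :=
  Measurable fun q : (ℝ × E × E) × (E × E) => H q.1.1 q.1.2.1 q.1.2.2 q.2

theorem meas_K (κ : Kernel E (E × E)) [IsSFiniteKernel κ] {H : ℝ → E → E → E × E → ℝ≥0∞}
    (hH : Meas3P H) : Meas3 fun s y v => ∫⁻ p, H s y v p ∂(κ v) := by
  unfold Meas3
  have hm : Measurable fun p : ℝ × E × E => p.2.2 := measurable_snd.comp measurable_snd
  have h2 : Measurable (Function.uncurry fun (a : ℝ × E × E) (p : E × E) =>
      H a.1 a.2.1 a.2.2 p) := hH
  have := Measurable.lintegral_kernel_prod_right (κ := κ.comap _ hm)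
    (f := fun (a : ℝ × E × E) (p : E × E) => H a.1 a.2.1 a.2.2 p) h2
  simpa [Kernel.comap_apply] using this

/-- left factor of the integrand of `FS` -/
theorem meas_ite_fst {g h : ℝ → E → E → ℝ≥0∞} (hg : Meas3 g) (hh : Meas3 h) :
    Meas3P fun s y v p => if p.1 = v then g s y p.1 else h s y p.1 := by
  unfold Meas3P
  have hs : MeasurableSet {q : (ℝ × E × E) × (E × E) | q.2.1 = q.1.2.2} :=
    measurableSet_eq_fun (by fun_prop) (by fun_prop)
  have h1 : Measurable fun q : (ℝ × E × E) × (E × E) => ((q.1.1, q.1.2.1, q.2.1) : ℝ × E × E) := by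
    fun_prop
  have h2 := Measurable.comp hg h1
  have h3 := Measurable.comp hh h1
  exact Measurable.ite hs h2 h3

theorem meas_ite_snd {g h : ℝ → E → E → ℝ≥0∞} (hg : Meas3 g) (hh : Meas3 h) :
    Meas3P fun s y v p => if p.2 = v then g s y p.2 else h s y p.2 := by
  unfold Meas3P
  have hs : MeasurableSet {q : (ℝ × E × E) × (E × E) | q.2.2 = q.1.2.2} :=
    measurableSet_eq_fun (by fun_prop) (by fun_prop)
  have h1 : Measurable fun q : (ℝ × E × E) × (E × E) => ((q.1.1, q.1.2.1, q.2.2) : ℝ × E × E) := by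
    fun_prop
  have h2 := Measurable.comp hg h1
  have h3 := Measurable.comp hh h1
  exact Measurable.ite hs h2 h3

/-- the integrand of `FS` -/
def HK (gl hl gr hr : ℝ → E → E → ℝ≥0∞) (s : ℝ) (y v : E) (p : E × E) : ℝ≥0∞ :=
  (if p.1 = v then gl s y p.1 else hl s y p.1) * (if p.2 = v then gr s y p.2 else hr s y p.2)

theorem meas_HK {gl hl gr hr : ℝ → E → E → ℝ≥0∞}
    (h1 : Meas3 gl) (h2 : Meas3 hl) (h3 : Meas3 gr) (h4 : Meas3 hr) :
    Meas3P (HK gl hl gr hr) := by
  have a1 := meas_ite_fst h1 h2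
  have a2 := meas_ite_snd h3 h4
  exact Measurable.mul a1 a2

/-- the inner integral of `FS` -/
def KS (κ : Kernel E (E × E)) (gl hl gr hr : ℝ → E → E → ℝ≥0∞) (s : ℝ) (y v : E) : ℝ≥0∞ :=
  ∫⁻ p : E × E, HK gl hl gr hr s y v p ∂(κ v)

theorem meas_KS (κ : Kernel E (E × E)) [IsSFiniteKernel κ] {gl hl gr hr : ℝ → E → E → ℝ≥0∞}
    (h1 : Meas3 gl) (h2 : Meas3 hl) (h3 : Meas3 gr) (h4 : Meas3 hr) :
    Meas3 (KS κ gl hl gr hr) := meas_K κ (meas_HK h1 h2 h3 h4)

variable {κ : Kernel E (E × E)} [IsSFiniteKernel κ] {D : ℝ → ℝ → E → E → ℝ≥0∞}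
  {f0 : E → E → ℝ≥0∞}

theorem FS_node (κ : Kernel E (E × E)) (D : ℝ → ℝ → E → E → ℝ≥0∞) (f0 : E → E → ℝ≥0∞)
    (l r : CTree) (t : ℝ) (x v : E) : FS κ D f0 (.node l r) t x v =
      ∫⁻ s in Ioc 0 t, KS κ (FS κ D f0 l) (F κ D f0 l) (FS κ D f0 r) (F κ D f0 r) s
        (x - (t - s) • v) v := rfl

theorem meas_FS (hD : Meas4 D) (hf : Measurable fun p : E × E => f0 p.1 p.2) (τ : CTree) :
    Meas3 (FS κ D f0 τ) := by
  induction τ with
  | leaf => exact meas_free hf
  | node l r hl hr =>
    have h1 : Meas3 (KS κ (FS κ D f0 l) (F κ D f0 l) (FS κ D f0 r) (F κ D f0 r)) :=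
      meas_KS κ hl (meas_F κ hD hf l) hr (meas_F κ hD hf r)
    have hone : Meas4 (fun (_ _ : ℝ) (_ _ : E) => (1 : ℝ≥0∞)) := measurable_const
    have h2 := meas_int hone h1
    simp only [one_mul] at h2
    exact h2

end meas

/-! ### Parameter form -/

variable {Φ : Space3 → ℝ} {D : ℝ → ℝ → Space3 → Space3 → ℝ≥0∞} {f0 : Space3 → Space3 → ℝ≥0∞}

/-- Product of the damping factors (no damping on the straight line of the root) and of the initial
densities along a straight-line tree. -/
def densS (Φ : Space3 → ℝ) (D : ℝ → ℝ → Space3 → Space3 → ℝ≥0∞) (f0 : Space3 → Space3 → ℝ≥0∞) :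
    ∀ P : CTree, ℝ → PhasePoint → Par P → ℝ≥0∞
  | .leaf => fun _ ℓ _ => f0 ℓ.1 ℓ.2
  | .node l r => fun _ ℓ p =>
      (if (preV Φ ℓ.2 p.1).1 = ℓ.2 then densS Φ D f0 l p.1.1 (inMap Φ 0 ℓ p.1).1 p.2.1
        else dens Φ D f0 l p.1.1 (inMap Φ 0 ℓ p.1).1 p.2.1) *
      (if (preV Φ ℓ.2 p.1).2 = ℓ.2 then densS Φ D f0 r p.1.1 (inMap Φ 0 ℓ p.1).2 p.2.2
        else dens Φ D f0 r p.1.1 (inMap Φ 0 ℓ p.1).2 p.2.2)

/-- recursive weight without damping on the straight line -/
def WtS (Φ : Space3 → ℝ) (D : ℝ → ℝ → Space3 → Space3 → ℝ≥0∞) (f0 : Space3 → Space3 → ℝ≥0∞) :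
    (P : CTree) → ℝ → Space3 → Space3 → Par P → ℝ≥0∞
  | .leaf => fun t x v _ => f0 (x - t • v) v
  | .node l r => fun t x v p => nodeWt Φ (fun _ _ _ _ => 1) t x v p.1 *
      ((if (outV Φ v p.1.2).1 = v then
          WtS Φ D f0 l p.1.1 (x - (t - p.1.1) • v) (outV Φ v p.1.2).1 p.2.1
        else Wt Φ D f0 l p.1.1 (x - (t - p.1.1) • v) (outV Φ v p.1.2).1 p.2.1) *
       (if (outV Φ v p.1.2).2 = v then
          WtS Φ D f0 r p.1.1 (x - (t - p.1.1) • v) (outV Φ v p.1.2).2 p.2.2
        else Wt Φ D f0 r p.1.1 (x - (t - p.1.1) • v) (outV Φ v p.1.2).2 p.2.2))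

theorem meas4_one : Meas4 (fun (_ _ : ℝ) (_ _ : Space3) => (1 : ℝ≥0∞)) := measurable_const

theorem measurable_WtS (hΦ : AdmissiblePotential Φ) (hD : Meas4 D)
    (hf : Measurable fun p : Space3 × Space3 => f0 p.1 p.2) (P : CTree) :
    Measurable fun z : (ℝ × Space3 × Space3) × Par P =>
      WtS Φ D f0 P z.1.1 z.1.2.1 z.1.2.2 z.2 := by
  have S := scatFacts hΦ
  induction P with
  | leaf =>
    exact (meas_free hf).comp
      (f := fun z : (ℝ × Space3 × Space3) × Par .leaf => z.1) measurable_fst
  | node l r hl hr =>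
    have hq : Measurable fun z : (ℝ × Space3 × Space3) × (NodeP × Par l × Par r) =>
        outV Φ z.1.2.2 z.2.1.2 :=
      (measurable_outV S).comp (f := fun z : (ℝ × Space3 × Space3) × (NodeP × Par l × Par r) =>
        (z.1.2.2, z.2.1.2)) (by fun_prop)
    have hv : Measurable fun z : (ℝ × Space3 × Space3) × (NodeP × Par l × Par r) => z.1.2.2 := by
      fun_prop
    have hql : Measurable fun z : (ℝ × Space3 × Space3) × (NodeP × Par l × Par r) =>
        (outV Φ z.1.2.2 z.2.1.2).1 := hq.fst
    have hqr : Measurable fun z : (ℝ × Space3 × Space3) × (NodeP × Par l × Par r) =>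
        (outV Φ z.1.2.2 z.2.1.2).2 := hq.snd
    have hx : Measurable fun z : (ℝ × Space3 × Space3) × (NodeP × Par l × Par r) =>
        z.1.2.1 - (z.1.1 - z.2.1.1) • z.1.2.2 := by fun_prop
    have hs : Measurable fun z : (ℝ × Space3 × Space3) × (NodeP × Par l × Par r) => z.2.1.1 := by
      fun_prop
    have hp1 : Measurable fun z : (ℝ × Space3 × Space3) × (NodeP × Par l × Par r) => z.2.2.1 := by
      fun_prop
    have hp2 : Measurable fun z : (ℝ × Space3 × Space3) × (NodeP × Par l × Par r) => z.2.2.2 := by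
      fun_prop
    have hbl : Measurable fun z : (ℝ × Space3 × Space3) × (NodeP × Par l × Par r) =>
        (((z.2.1.1, z.1.2.1 - (z.1.1 - z.2.1.1) • z.1.2.2, (outV Φ z.1.2.2 z.2.1.2).1), z.2.2.1) :
          (ℝ × Space3 × Space3) × Par l) := (hs.prodMk (hx.prodMk hql)).prodMk hp1
    have hbr : Measurable fun z : (ℝ × Space3 × Space3) × (NodeP × Par l × Par r) =>
        (((z.2.1.1, z.1.2.1 - (z.1.1 - z.2.1.1) • z.1.2.2, (outV Φ z.1.2.2 z.2.1.2).2), z.2.2.2) :
          (ℝ × Space3 × Space3) × Par r) := (hs.prodMk (hx.prodMk hqr)).prodMk hp2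
    have hbn : Measurable fun z : (ℝ × Space3 × Space3) × (NodeP × Par l × Par r) =>
        ((z.1, z.2.1) : (ℝ × Space3 × Space3) × NodeP) := by fun_prop
    have hW1 := Measurable.comp (measurable_Wt hΦ hD hf l) hbl
    have hW2 := Measurable.comp (measurable_Wt hΦ hD hf r) hbr
    have hS1 := Measurable.comp hl hbl
    have hS2 := Measurable.comp hr hbr
    have hN := Measurable.comp (measurable_nodeWt hΦ meas4_one) hbn
    refine Measurable.mul hN (Measurable.mul ?_ ?_)
    · exact Measurable.ite (measurableSet_eq_fun hql hv) hS1 hW1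
    · exact Measurable.ite (measurableSet_eq_fun hqr hv) hS2 hW2

theorem measurable_WtS_slice (hΦ : AdmissiblePotential Φ) (hD : Meas4 D)
    (hf : Measurable fun p : Space3 × Space3 => f0 p.1 p.2) (P : CTree) (t : ℝ) (x v : Space3) :
    Measurable (WtS Φ D f0 P t x v) :=
  (measurable_WtS hΦ hD hf P).comp (f := fun p : Par P => (((t, x, v), p) :
    (ℝ × Space3 × Space3) × Par P)) (measurable_const.prodMk measurable_id)

/-- kernel integral as an integral over partner velocity and impact parameter -/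
theorem kapQ_eq (hΦ : AdmissiblePotential Φ) (v : Space3) {H : Space3 × Space3 → ℝ≥0∞}
    (hm : Measurable H) (s : ℝ) :
    ∫⁻ p, H p ∂(kapQ Φ v) = ∫⁻ u : Space3 × Disc416.Plane, {u : Space3 × Disc416.Plane | Adm1 Φ v (s, u)}.indicator
      (fun u => rate v u * H (outV Φ v u)) u := by
  have S := scatFacts hΦ
  have hm2 : Measurable (fun p : Space3 × Disc416.Plane => H (outV Φ v p)) :=
    hm.comp (measurable_outV_right S v)
  have hset : MeasurableSet {u : Space3 × Disc416.Plane | Adm1 Φ v (s, u)} :=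
    (measurableSet_adm1 hΦ).preimage (f := fun u : Space3 × Disc416.Plane => (v, ((s, u) : NodeP)))
      (by fun_prop)
  have hm3 : Measurable fun u : Space3 × Disc416.Plane =>
      {u : Space3 × Disc416.Plane | Adm1 Φ v (s, u)}.indicator
      (fun u => rate v u * H (outV Φ v u)) u :=
    ((measurable_rate_right v).mul hm2).indicator hset
  rw [lintegral_kapQ_aux S v hm, lintegral_kapP v hm2, Measure.volume_eq_prod,
    lintegral_prod _ hm3.aemeasurable]
  refine lintegral_congr fun w => ?_
  by_cases hvw : v = w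
  · have h0 : ∀ y : Disc416.Plane, {u : Space3 × Disc416.Plane | Adm1 Φ v (s, u)}.indicator
        (fun u => rate v u * H (outV Φ v u)) (w, y) = 0 := by
      intro y
      apply indicator_of_notMem
      intro hmem
      exact hmem.2.1 hvw
    simp only [h0, lintegral_zero]
    rw [hvw, sub_self, norm_zero, ENNReal.ofReal_zero, zero_mul]
  · have hmw : Measurable fun y : Disc416.Plane => H (outV Φ v (w, y)) :=
      hm2.comp (measurable_const.prodMk measurable_id)
    rw [← lintegral_indicator measurableSet_ball,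
      ← lintegral_const_mul _ (hmw.indicator measurableSet_ball)]
    refine lintegral_congr_ae ?_
    filter_upwards [ae_adm1 hΦ hvw s] with y hy
    by_cases hb : y ∈ Metric.ball (0 : Disc416.Plane) 1
    · rw [indicator_of_mem hb, indicator_of_mem (by exact hy hb)]
      rfl
    · rw [indicator_of_notMem hb, indicator_of_notMem, mul_zero]
      intro hmem
      apply hb
      simpa using hmem.1

theorem lintegral_WtS (hΦ : AdmissiblePotential Φ) (hD : Meas4 D)
    (hf : Measurable fun p : Space3 × Space3 => f0 p.1 p.2) (P : CTree) (t : ℝ) (x v : Space3) :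
    ∫⁻ p : Par P, WtS Φ D f0 P t x v p = FS (kapQ Φ) D f0 P t x v := by
  have S := scatFacts hΦ
  induction P generalizing t x v with
  | leaf =>
    change ∫⁻ _ : Unit, f0 (x - t • v) v ∂(Measure.dirac ()) = f0 (x - t • v) v
    rw [lintegral_const]
    simp
  | node l r hl hr =>
    have hWl := measurable_Wt_slice hΦ hD hf l
    have hWr := measurable_Wt_slice hΦ hD hf r
    have hSl := measurable_WtS_slice hΦ hD hf l
    have hSr := measurable_WtS_slice hΦ hD hf r
    have hmeas := measurable_WtS_slice hΦ hD hf (.node l r) t x v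
    have hFl := meas_F (kapQ Φ) hD hf l
    have hFr := meas_F (kapQ Φ) hD hf r
    have hFSl : Meas3 (FS (kapQ Φ) D f0 l) := meas_FS hD hf l
    have hFSr : Meas3 (FS (kapQ Φ) D f0 r) := meas_FS hD hf r
    -- the integrand as a function of the pair of velocities
    have hHK := meas_HK hFSl hFl hFSr hFr
    set HH : ℝ → Space3 → Space3 → Space3 × Space3 → ℝ≥0∞ :=
      HK (FS (kapQ Φ) D f0 l) (F (kapQ Φ) D f0 l) (FS (kapQ Φ) D f0 r) (F (kapQ Φ) D f0 r) with hHH
    have hHm : Measurable fun q : ℝ × (Space3 × Space3) => HH q.1 (x - (t - q.1) • v) v q.2 := by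
      have a3 : Measurable fun q : ℝ × (Space3 × Space3) =>
          (((q.1, x - (t - q.1) • v, v), q.2) : (ℝ × Space3 × Space3) × (Space3 × Space3)) := by
        fun_prop
      have a4 := Measurable.comp hHK a3
      exact a4
    have h1 : ∫⁻ p : Par (.node l r), WtS Φ D f0 (.node l r) t x v p =
        ∫⁻ q : NodeP, nodeWt Φ (fun _ _ _ _ => 1) t x v q *
          HH q.1 (x - (t - q.1) • v) v (outV Φ v q.2) := by
      change ∫⁻ p : NodeP × Par l × Par r, WtS Φ D f0 (.node l r) t x v p
        ∂((volume : Measure NodeP).prod ((volume : Measure (Par l)).prod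
          (volume : Measure (Par r)))) = _
      rw [lintegral_prod _ hmeas.aemeasurable]
      refine lintegral_congr fun q => ?_
      set A : Par l → ℝ≥0∞ := fun p => (if (outV Φ v q.2).1 = v then
          WtS Φ D f0 l q.1 (x - (t - q.1) • v) (outV Φ v q.2).1 p
        else Wt Φ D f0 l q.1 (x - (t - q.1) • v) (outV Φ v q.2).1 p) with hAdef
      set B : Par r → ℝ≥0∞ := fun p => (if (outV Φ v q.2).2 = v then
          WtS Φ D f0 r q.1 (x - (t - q.1) • v) (outV Φ v q.2).2 p
        else Wt Φ D f0 r q.1 (x - (t - q.1) • v) (outV Φ v q.2).2 p) with hBdef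
      change ∫⁻ p : Par l × Par r, nodeWt Φ (fun _ _ _ _ => 1) t x v q *
        (A p.1 * B p.2) ∂((volume : Measure (Par l)).prod (volume : Measure (Par r))) = _
      have hA : Measurable A := by
        rw [hAdef]
        by_cases hc : (outV Φ v q.2).1 = v
        · simp only [if_pos hc]; exact hSl _ _ _
        · simp only [if_neg hc]; exact hWl _ _ _
      have hB : Measurable B := by
        rw [hBdef]
        by_cases hc : (outV Φ v q.2).2 = v
        · simp only [if_pos hc]; exact hSr _ _ _
        · simp only [if_neg hc]; exact hWr _ _ _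
      have hAB : Measurable fun p : Par l × Par r => A p.1 * B p.2 :=
        (hA.comp measurable_fst).mul (hB.comp measurable_snd)
      rw [lintegral_const_mul _ hAB, lintegral_prod_mul hA.aemeasurable hB.aemeasurable]
      have eA : ∫⁻ p, A p = (if (outV Φ v q.2).1 = v then
          FS (kapQ Φ) D f0 l q.1 (x - (t - q.1) • v) (outV Φ v q.2).1
          else F (kapQ Φ) D f0 l q.1 (x - (t - q.1) • v) (outV Φ v q.2).1) := by
        rw [hAdef]
        by_cases hc : (outV Φ v q.2).1 = v
        · simp only [if_pos hc]; exact hl _ _ _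
        · simp only [if_neg hc]; exact lintegral_Wt hΦ hD hf l _ _ _
      have eB : ∫⁻ p, B p = (if (outV Φ v q.2).2 = v then
          FS (kapQ Φ) D f0 r q.1 (x - (t - q.1) • v) (outV Φ v q.2).2
          else F (kapQ Φ) D f0 r q.1 (x - (t - q.1) • v) (outV Φ v q.2).2) := by
        rw [hBdef]
        by_cases hc : (outV Φ v q.2).2 = v
        · simp only [if_pos hc]; exact hr _ _ _
        · simp only [if_neg hc]; exact lintegral_Wt hΦ hD hf r _ _ _
      rw [eA, eB, hHH]
      unfold HK
      split_ifs <;> rfl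
    rw [h1]
    have hnode : Measurable fun q : NodeP => nodeWt Φ (fun _ _ _ _ => 1) t x v q :=
      (measurable_nodeWt hΦ meas4_one).comp (f := fun q : NodeP => (((t, x, v), q) :
        (ℝ × Space3 × Space3) × NodeP)) (measurable_const.prodMk measurable_id)
    have hout : Measurable fun q : NodeP => outV Φ v q.2 :=
      (measurable_outV_right S v).comp measurable_snd
    have hHo : Measurable fun q : NodeP => HH q.1 (x - (t - q.1) • v) v (outV Φ v q.2) :=
      hHm.comp (f := fun q : NodeP => ((q.1, outV Φ v q.2) : ℝ × (Space3 × Space3)))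
        (measurable_fst.prodMk hout)
    have hall : Measurable fun q : NodeP => nodeWt Φ (fun _ _ _ _ => 1) t x v q *
        HH q.1 (x - (t - q.1) • v) v (outV Φ v q.2) := hnode.mul hHo
    rw [Measure.volume_eq_prod, lintegral_prod _ hall.aemeasurable]
    change _ = ∫⁻ s in Ioc 0 t, ∫⁻ p, HH s (x - (t - s) • v) v p ∂(kapQ Φ v)
    rw [restrict_Ioo_eq_restrict_Ioc.symm, ← lintegral_indicator measurableSet_Ioo]
    refine lintegral_congr fun s => ?_
    have hHs : Measurable (HH s (x - (t - s) • v) v) :=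
      hHm.comp (f := fun p : Space3 × Space3 => ((s, p) : ℝ × (Space3 × Space3)))
        (measurable_const.prodMk measurable_id)
    by_cases hs : s ∈ Ioo 0 t
    · rw [indicator_of_mem hs, kapQ_eq hΦ v hHs s]
      refine lintegral_congr fun u => ?_
      simp only [nodeWt]
      by_cases hu : Adm1 Φ v (s, u)
      · rw [indicator_of_mem (show (s, u) ∈ {q : NodeP | Adm1 Φ v q ∧ 0 < q.1 ∧ q.1 < t} from
          ⟨hu, hs.1, hs.2⟩), indicator_of_mem (show u ∈ {u : Space3 × Disc416.Plane | Adm1 Φ v (s, u)}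
          from hu), one_mul]
      · rw [indicator_of_notMem (show (s, u) ∉ {q : NodeP | Adm1 Φ v q ∧ 0 < q.1 ∧ q.1 < t} from
          fun h => hu h.1), indicator_of_notMem (show u ∉ {u : Space3 × Disc416.Plane | Adm1 Φ v (s, u)}
          from hu), zero_mul]
    · rw [indicator_of_notMem hs]
      have h0 : ∀ u : Space3 × Disc416.Plane, nodeWt Φ (fun _ _ _ _ => 1) t x v (s, u) = 0 := by
        intro u
        unfold nodeWt
        apply indicator_of_notMem
        intro h
        exact hs ⟨h.2.1, h.2.2⟩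
      simp only [h0, zero_mul, lintegral_zero]

/-! ### Comparison with the explicit weight -/

theorem weightS_eq (P : CTree) (t : ℝ) (x v : Space3) (p : Par P) :
    {p | Valid Φ 0 P t v p}.indicator
      (fun p => wt Φ P v p * densS Φ D f0 P t (x - t • v, v) p) p = WtS Φ D f0 P t x v p := by
  induction P generalizing t x v with
  | leaf =>
    rw [indicator_of_mem (show p ∈ {p | Valid Φ 0 .leaf t v p} from ⟨trivial, trivial⟩)]
    simp [wt, densS, WtS]
  | node l r hl hr =>
    by_cases hA : Adm1 Φ v p.1 ∧ 0 < p.1.1 ∧ p.1.1 < t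
    · have hpre := preV_eq hA.1
      have hL := hl p.1.1 (x - (t - p.1.1) • v) (preV Φ v p.1).1 p.2.1
      have hR := hr p.1.1 (x - (t - p.1.1) • v) (preV Φ v p.1).2 p.2.2
      have hL' := weight_eq (Φ := Φ) (D := D) (f0 := f0) l p.1.1 (x - (t - p.1.1) • v)
        (preV Φ v p.1).1 p.2.1
      have hR' := weight_eq (Φ := Φ) (D := D) (f0 := f0) r p.1.1 (x - (t - p.1.1) • v)
        (preV Φ v p.1).2 p.2.2
      have hW : WtS Φ D f0 (.node l r) t x v p = rate v p.1.2 *
          ((if (preV Φ v p.1).1 = v then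
              WtS Φ D f0 l p.1.1 (x - (t - p.1.1) • v) (preV Φ v p.1).1 p.2.1
            else Wt Φ D f0 l p.1.1 (x - (t - p.1.1) • v) (preV Φ v p.1).1 p.2.1) *
            (if (preV Φ v p.1).2 = v then
              WtS Φ D f0 r p.1.1 (x - (t - p.1.1) • v) (preV Φ v p.1).2 p.2.2
            else Wt Φ D f0 r p.1.1 (x - (t - p.1.1) • v) (preV Φ v p.1).2 p.2.2)) := by
        rw [hpre]
        change nodeWt Φ (fun _ _ _ _ => 1) t x v p.1 * _ = _
        unfold nodeWt
        rw [indicator_of_mem (by exact hA), one_mul]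
      rw [hW, ← hL, ← hR, ← hL', ← hR']
      by_cases hV : Valid Φ 0 l p.1.1 (preV Φ v p.1).1 p.2.1 ∧
          Valid Φ 0 r p.1.1 (preV Φ v p.1).2 p.2.2
      · rw [indicator_of_mem (show p ∈ {p | Valid Φ 0 (.node l r) t v p} from
          (valid_node l r t v p).mpr ⟨hA, hV⟩)]
        simp only [indicator_of_mem (show p.2.1 ∈ {q | Valid Φ 0 l p.1.1 (preV Φ v p.1).1 q} from
          hV.1), indicator_of_mem (show p.2.2 ∈ {q | Valid Φ 0 r p.1.1 (preV Φ v p.1).2 q} from
          hV.2)]
        simp only [wt, densS, inMap_zero, rate]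
        have hx : x - t • v + t • v = x := by abel
        have e1 : ∀ (c : Prop) [Decidable c] (a b w : ℝ≥0∞), (if c then w * a else w * b) =
            w * (if c then a else b) := by
          intro c _ a b w; split_ifs <;> rfl
        rw [e1, e1]
        ring
      · rw [indicator_of_notMem (show p ∉ {p | Valid Φ 0 (.node l r) t v p} from
          fun h => hV ((valid_node l r t v p).mp h).2)]
        rcases not_and_or.mp hV with h | h
        · simp only [indicator_of_notMem
            (show p.2.1 ∉ {q | Valid Φ 0 l p.1.1 (preV Φ v p.1).1 q} from h), ite_self, zero_mul,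
            mul_zero]
        · simp only [indicator_of_notMem
            (show p.2.2 ∉ {q | Valid Φ 0 r p.1.1 (preV Φ v p.1).2 q} from h), ite_self, mul_zero]
    · rw [indicator_of_notMem (show p ∉ {p | Valid Φ 0 (.node l r) t v p} from
        fun h => hA ((valid_node l r t v p).mp h).1)]
      change _ = nodeWt Φ (fun _ _ _ _ => 1) t x v p.1 * _
      unfold nodeWt
      rw [indicator_of_notMem (by exact hA), zero_mul]

/-- **(K2')** parameter form of `FS`. -/
theorem FS_eq (hΦ : AdmissiblePotential Φ) (hD : Meas4 D)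
    (hf : Measurable fun p : Space3 × Space3 => f0 p.1 p.2) (P : CTree) (t : ℝ) (x v : Space3) :
    FS (kapQ Φ) D f0 P t x v = ∫⁻ p : Par P, {p | Valid Φ 0 P t v p}.indicator
      (fun p => wt Φ P v p * densS Φ D f0 P t (x - t • v, v) p) p := by
  rw [← lintegral_WtS hΦ hD hf P t x v]
  exact lintegral_congr fun p => (weightS_eq P t x v p).symm

end Crest.Agent.R122.Seg814
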