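import Crest.Agent.R122.HidLam_424
import Crest.Agent.R122.BoltzSeg3_814

/-!
# Row 122 (helper424): exponential form of the tree densities of the kinetic solution

* `Dwin_814`, `densS_814` : the damping / hidden density of `Hid424` are those of `Seg814`;
* `finRate_nuF` : the loss frequency of a regular kinetic solution is a finite rate;
* `F_eq_exp`, `FS_eq_exp` : the tree densities `F`, `FS` (damping before `tw`) as integrals over
  the tree parameters of `wt * exp (-Λ) * ∏ f0 (lines)`, `Λ = LamP` (protected tubes) resp.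
  `Λ = LamS` (hidden tubes).
-/

set_option autoImplicit false

open MeasureTheory Set Filter
open scoped ENNReal Topology Classical
open Crest.AnalysisR.Kinetic Crest.Agent.R122.Kin796 Crest.Agent.R122.Disc416
  Crest.Agent.R122.Tree674 Crest.Agent.R122.TreeEps399 Crest.Agent.R122.Boltz814
  Crest.Agent.R122.Kin416

noncomputable section

namespace Crest.Agent.R122.Hid424

open CTree

variable {Φ : Space3 → ℝ} {β T : ℝ} {f₀ : PhasePoint → ℝ} {f : ℝ → PhasePoint → ℝ}

theorem densS_814 (D : ℝ → ℝ → Space3 → Space3 → ℝ≥0∞) (f0 : Space3 → Space3 → ℝ≥0∞) :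
    ∀ (P : CTree) (t : ℝ) (ℓ : PhasePoint) (p : Par P),
      Seg814.densS Φ D f0 P t ℓ p = densS Φ D f0 P ℓ p
  | leaf, _, _, _ => rfl
  | node l r, _, ℓ, p => by
      simp only [Seg814.densS, densS]
      rw [densS_814 D f0 l, densS_814 D f0 r]

theorem Dwin_814 (tw s t : ℝ) (x v : Space3) :
    Seg814.Dwin (damp T f) tw s t x v = Dwin (nuF T f) tw s t x v := by
  unfold Seg814.Dwin Dwin damp eexp lossInt
  have h : ∀ r : ℝ, x - (t - min t tw) • v - (min t tw - r) • v = x - (t - r) • v := by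
    intro r
    module
  simp only [h]

theorem Dwin_814' (tw : ℝ) :
    (Seg814.Dwin (damp T f) tw : ℝ → ℝ → Space3 → Space3 → ℝ≥0∞) = Dwin (nuF T f) tw := by
  funext s t x v
  exact Dwin_814 tw s t x v

/-- the loss frequency is a finite rate -/
theorem finRate_nuF (hβ : 0 < β) (hT : 0 < T) (hf : IsRegularKineticSolution Φ β T f₀ f) :
    FinRate (nuF T f) := by
  obtain ⟨L, hL, h⟩ := exists_nuF_le hβ hT hf
  intro ℓ s t
  refine ne_top_of_le_ne_top ?_ (lintegral_mono (μ := volume.restrict (Ioc s t))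
    (f := fun r => nuF T f r (ℓ.1 + r • ℓ.2) ℓ.2)
    (g := fun _ => ENNReal.ofReal (L * (1 + ‖ℓ.2‖))) fun r => h r _ _)
  rw [lintegral_const]
  refine ENNReal.mul_ne_top ENNReal.ofReal_ne_top ?_
  simp

/-- **protected tubes**: parameter form of the tree series, damping before `tw` only -/
theorem F_eq_exp (hΦ : AdmissiblePotential Φ) (hβ : 0 < β) (hT : 0 < T)
    (hf : IsRegularKineticSolution Φ β T f₀ f) {tw : ℝ} (htw : 0 ≤ tw)
    {f0 : Space3 → Space3 → ℝ≥0∞} (hf0 : Measurable fun p : Space3 × Space3 => f0 p.1 p.2)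
    (P : CTree) {t : ℝ} (ht : 0 ≤ t) (x v : Space3) :
    F (kapQ Φ) (Seg814.Dwin (damp T f) tw) f0 P t x v =
      ∫⁻ p : Par P, {p | Valid Φ 0 P t v p}.indicator (fun p => wt Φ P v p *
        (eexp (LamP Φ (nuF T f) tw P t (x - t • v, v) p) *
          ∏ i, f0 (lines Φ 0 P (x - t • v, v) p i).1 (lines Φ 0 P (x - t • v, v) p i).2)) p := by
  rw [← TreeF399.lintegral_Wt hΦ (Seg814.meas4_Dwin (meas4_damp hf) tw) hf0 P t x v]
  refine lintegral_congr fun p => ?_
  rw [← TreeF399.weight_eq]
  by_cases hV : Valid Φ 0 P t v p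
  · rw [indicator_of_mem (by exact hV), indicator_of_mem (by exact hV), Dwin_814',
      dens_eq (ℓ := (x - t • v, v)) (finRate_nuF hβ hT hf) htw f0 ht hV.2]
  · rw [indicator_of_notMem (by exact hV), indicator_of_notMem (by exact hV)]

/-- **hidden tubes**: parameter form of the undamped-straight-line tree densities -/
theorem FS_eq_exp (hΦ : AdmissiblePotential Φ) (hβ : 0 < β) (hT : 0 < T)
    (hf : IsRegularKineticSolution Φ β T f₀ f) {tw : ℝ} (htw : 0 ≤ tw)
    {f0 : Space3 → Space3 → ℝ≥0∞} (hf0 : Measurable fun p : Space3 × Space3 => f0 p.1 p.2)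
    (P : CTree) (t : ℝ) (x v : Space3) :
    Seg814.FS (kapQ Φ) (Seg814.Dwin (damp T f) tw) f0 P t x v =
      ∫⁻ p : Par P, {p | Valid Φ 0 P t v p}.indicator (fun p => wt Φ P v p *
        (eexp (LamS Φ (nuF T f) tw P (x - t • v, v) p) *
          ∏ i, f0 (lines Φ 0 P (x - t • v, v) p i).1 (lines Φ 0 P (x - t • v, v) p i).2)) p := by
  rw [Seg814.FS_eq hΦ (Seg814.meas4_Dwin (meas4_damp hf) tw) hf0 P t x v]
  refine lintegral_congr fun p => ?_
  by_cases hV : Valid Φ 0 P t v p
  · rw [indicator_of_mem (by exact hV), indicator_of_mem (by exact hV), Dwin_814', densS_814,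
      densS_eq (ℓ := (x - t • v, v)) (finRate_nuF hβ hT hf) htw f0 hV]
  · rw [indicator_of_notMem (by exact hV), indicator_of_notMem (by exact hV)]

end Crest.Agent.R122.Hid424
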