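import Crest.Agent.R122.Scat2_818

/-!
# Row 122, block F2: two-body scattering, part 3

Passages: existence by the turning point, uniqueness, exit velocity.
-/

set_option autoImplicit false

open MeasureTheory Filter Set
open scoped Topology NNReal
open Crest.AnalysisR.Kinetic

noncomputable section

namespace Crest.Agent.R122.Scat818

open Flow671

variable {Φ : Space3 → ℝ}

/-! ### Free flight -/

lemma norm_sq_line (x v : Space3) (s : ℝ) :
    ‖x + s • v‖ ^ 2 = ‖x‖ ^ 2 + 2 * s * inner ℝ x v + s ^ 2 * ‖v‖ ^ 2 := by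
  rw [norm_add_sq_real, inner_smul_right, norm_smul, mul_pow, Real.norm_eq_abs, sq_abs]; ring

lemma one_le_norm_iff {x : Space3} : 1 ≤ ‖x‖ ↔ 1 ≤ ‖x‖ ^ 2 := by
  constructor
  · intro h; nlinarith
  · intro h; nlinarith [norm_nonneg x, sq_nonneg (‖x‖ - 1)]

lemma hasDerivAt_line (x v : Space3) (s : ℝ) : HasDerivAt (fun s : ℝ => x + s • v) v s := by
  simpa using ((hasDerivAt_id s).smul_const v).const_add x

lemma relFlow_free (hΦ : AdmissiblePotential Φ) {x v : Space3} {a b : ℝ} (h0 : (0 : ℝ) ∈ Icc a b)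
    (h : ∀ s ∈ Icc a b, 1 ≤ ‖x + s • v‖) {t : ℝ} (ht : t ∈ Icc a b) :
    relFlow Φ t (x, v) = (x + t • v, v) := by
  have := (complete_rel hΦ).eq_flow_Icc (γ := fun s : ℝ => (x + s • v, v)) h0
    (fun s hs => by
      have h1 : fld (force Φ) (x + s • v, v) = (v, 0) := by
        show (v, force Φ (x + s • v)) = (v, 0)
        rw [force_eq_zero hΦ (h s hs)]
      rw [h1]
      exact ((hasDerivAt_line x v s).prodMk (hasDerivAt_const s v)).hasDerivWithinAt)
    (fun s hs => reg_of_norm_pos (by linarith [h s hs])) ht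
  simp only [zero_smul, add_zero] at this
  exact this.symm

lemma relFlow_free_pos (hΦ : AdmissiblePotential Φ) {x v : Space3} (hx : 1 ≤ ‖x‖)
    (hv : 0 ≤ inner ℝ x v) {t : ℝ} (ht : 0 ≤ t) : relFlow Φ t (x, v) = (x + t • v, v) := by
  refine relFlow_free hΦ (a := 0) (b := t) ⟨le_rfl, ht⟩ (fun s hs => ?_) ⟨ht, le_rfl⟩
  rw [one_le_norm_iff, norm_sq_line]
  have h1 : 0 ≤ s := hs.1
  have h2 := one_le_norm_iff.1 hx
  have h3 : 0 ≤ 2 * s * inner ℝ x v := by positivity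
  have h4 : 0 ≤ s ^ 2 * ‖v‖ ^ 2 := by positivity
  linarith

lemma relFlow_free_neg (hΦ : AdmissiblePotential Φ) {x v : Space3} (hx : 1 ≤ ‖x‖)
    (hv : inner ℝ x v ≤ 0) {t : ℝ} (ht : t ≤ 0) : relFlow Φ t (x, v) = (x + t • v, v) := by
  refine relFlow_free hΦ (a := t) (b := 0) ⟨ht, le_rfl⟩ (fun s hs => ?_) ⟨le_rfl, ht⟩
  rw [one_le_norm_iff, norm_sq_line]
  have h1 : s ≤ 0 := hs.2
  have h2 := one_le_norm_iff.1 hx
  have h3 : 0 ≤ 2 * s * inner ℝ x v := by nlinarith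
  have h4 : 0 ≤ s ^ 2 * ‖v‖ ^ 2 := by positivity
  linarith

/-! ### Exits -/

/-- The relative flow from `z` is in the open unit ball on `(0,τ)` and on the unit sphere at
time `τ > 0`. -/
def HasExit (Φ : Space3 → ℝ) (z : Space3 × Space3) (τ : ℝ) : Prop :=
  0 < τ ∧ (∀ s ∈ Ioo 0 τ, ‖(relFlow Φ s z).1‖ < 1) ∧ ‖(relFlow Φ τ z).1‖ = 1

lemma HasExit.unique {z : Space3 × Space3} {τ τ' : ℝ} (h : HasExit Φ z τ) (h' : HasExit Φ z τ') :
    τ = τ' := by
  rcases lt_trichotomy τ τ' with hlt | heq | hgt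
  · have := h'.2.1 τ ⟨h.1, hlt⟩
    linarith [h.2.2]
  · exact heq
  · have := h.2.1 τ' ⟨h'.1, hgt⟩
    linarith [h'.2.2]

/-- Incoming phase point for impact parameter `b` and velocity `g`. -/
def inc (b g : Space3) : Space3 × Space3 := (entrancePoint b g, g)

lemma passage_iff (hΦ : AdmissiblePotential Φ) {b g : Space3} (hreg : Reg Φ (entrancePoint b g))
    {q : ℝ → Space3} {τ : ℝ} :
    IsScatteringPassage Φ b g q τ ↔
      HasExit Φ (inc b g) τ ∧ ∀ s, q s = (relFlow Φ s (inc b g)).1 := by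
  constructor
  · rintro ⟨hτ, h0, hd0, hq, hp, hin, hout⟩
    have hrel : IsRel Φ q (deriv q) := ⟨hq, hp⟩
    have heq : ∀ s, q s = (relFlow Φ s (inc b g)).1 := by
      intro s
      have := hrel.q_eq hΦ (by rw [h0]; exact hreg) s
      rw [h0, hd0] at this
      exact this
    refine ⟨⟨hτ, fun s hs => ?_, ?_⟩, heq⟩
    · rw [← heq]; exact hin s hs
    · rw [← heq]; exact hout
  · rintro ⟨⟨hτ, hin, hout⟩, heq⟩
    have hrel := isRel_relFlow hΦ (z := inc b g) hreg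
    have hqf : q = fun s => (relFlow Φ s (inc b g)).1 := funext heq
    have hd : deriv q = fun s => (relFlow Φ s (inc b g)).2 := by
      rw [hqf]; funext s; exact (hrel.pos s).deriv
    refine ⟨hτ, ?_, ?_, fun s => ?_, fun s => ?_, fun s hs => ?_, ?_⟩
    · rw [heq, relFlow_zero hΦ]; rfl
    · rw [hd]; show (relFlow Φ 0 (inc b g)).2 = g
      rw [relFlow_zero hΦ]; rfl
    · rw [hd, hqf]; exact hrel.pos s
    · rw [hd, hqf]; exact hrel.vel s
    · rw [heq]; exact hin s hs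
    · rw [heq]; exact hout

lemma exists_passage_iff (hΦ : AdmissiblePotential Φ) {b g : Space3}
    (hreg : Reg Φ (entrancePoint b g)) :
    (∃ p : (ℝ → Space3) × ℝ, IsScatteringPassage Φ b g p.1 p.2) ↔
      ∃ τ, HasExit Φ (inc b g) τ := by
  constructor
  · rintro ⟨p, hp⟩
    exact ⟨p.2, ((passage_iff hΦ hreg).1 hp).1⟩
  · rintro ⟨τ, hτ⟩
    exact ⟨(fun s => (relFlow Φ s (inc b g)).1, τ), (passage_iff hΦ hreg).2 ⟨hτ, fun _ => rfl⟩⟩

/-- **The exit velocity is the velocity of the relative flow at the exit time.** -/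
theorem exitVelocity_eq (hΦ : AdmissiblePotential Φ) {b g : Space3}
    (hreg : Reg Φ (entrancePoint b g)) {τ : ℝ} (hτ : HasExit Φ (inc b g) τ) :
    exitVelocity Φ b g = (relFlow Φ τ (inc b g)).2 := by
  have hex : ∃ p : (ℝ → Space3) × ℝ, IsScatteringPassage Φ b g p.1 p.2 :=
    (exists_passage_iff hΦ hreg).2 ⟨τ, hτ⟩
  rw [exitVelocity, dif_pos hex]
  obtain ⟨h1, h2⟩ := (passage_iff hΦ hreg).1 hex.choose_spec
  have hτ' : hex.choose.2 = τ := h1.unique hτ
  have hd : deriv hex.choose.1 = fun s => (relFlow Φ s (inc b g)).2 := by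
    rw [funext h2]; funext s; exact ((isRel_relFlow hΦ (z := inc b g) hreg).pos s).deriv
  rw [hd, hτ']

theorem exitVelocity_of_not (hΦ : AdmissiblePotential Φ) {b g : Space3}
    (hreg : Reg Φ (entrancePoint b g)) (h : ¬ ∃ τ, HasExit Φ (inc b g) τ) :
    exitVelocity Φ b g = g := by
  rw [exitVelocity, dif_neg]
  rwa [exists_passage_iff hΦ hreg]

/-! ### One-sided derivative tests -/

lemma eventually_lt_right {u : ℝ → ℝ} {u' a : ℝ} (h : HasDerivAt u u' a) (hu : u' < 0) :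
    ∀ᶠ s in 𝓝[>] a, u s < u a := by
  have h1 := hasDerivAt_iff_tendsto_slope.1 h
  have h2 : ∀ᶠ s in 𝓝[>] a, slope u a s < 0 :=
    (h1.mono_left (nhdsWithin_mono a (fun x (hx : a < x) => ne_of_gt hx))).eventually_lt_const hu
  filter_upwards [h2, self_mem_nhdsWithin] with s hs hsa
  have hsa' : 0 < s - a := sub_pos.2 hsa
  rw [slope_def_field, div_lt_iff₀ hsa', zero_mul] at hs
  linarith

lemma eventually_lt_left {u : ℝ → ℝ} {u' a : ℝ} (h : HasDerivAt u u' a) (hu : u' < 0) :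
    ∀ᶠ s in 𝓝[<] a, u a < u s := by
  have h1 := hasDerivAt_iff_tendsto_slope.1 h
  have h2 : ∀ᶠ s in 𝓝[<] a, slope u a s < 0 :=
    (h1.mono_left (nhdsWithin_mono a (fun x (hx : x < a) => ne_of_lt hx))).eventually_lt_const hu
  filter_upwards [h2, self_mem_nhdsWithin] with s hs hsa
  have hsa' : s - a < 0 := sub_neg.2 hsa
  rw [slope_def_field, div_neg_iff] at hs
  rcases hs with ⟨h3, _⟩ | ⟨_, h4⟩
  · linarith
  · linarith

/-! ### Radial velocity at exit -/

lemma continuous_relFlow (hΦ : AdmissiblePotential Φ) {z : Space3 × Space3} (hz : Reg Φ z.1) :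
    Continuous (fun t => relFlow Φ t z) := by
  have h := isRel_relFlow hΦ hz
  exact h.continuous_q.prodMk h.continuous_p

lemma hasDerivAt_normSq_relFlow (hΦ : AdmissiblePotential Φ) {z : Space3 × Space3}
    (hz : Reg Φ z.1) (s : ℝ) :
    HasDerivAt (fun s => ‖(relFlow Φ s z).1‖ ^ 2)
      (2 * inner ℝ (relFlow Φ s z).1 (relFlow Φ s z).2) s :=
  hasDerivAt_norm_sq ((isRel_relFlow hΦ hz).pos s)

theorem HasExit.inner_pos (hΦ : AdmissiblePotential Φ) {z : Space3 × Space3} (hz : Reg Φ z.1)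
    {τ : ℝ} (h : HasExit Φ z τ) : 0 < inner ℝ (relFlow Φ τ z).1 (relFlow Φ τ z).2 := by
  obtain ⟨hτ, hin, hout⟩ := h
  have hnn : 0 ≤ inner ℝ (relFlow Φ τ z).1 (relFlow Φ τ z).2 := by
    by_contra hneg
    rw [not_le] at hneg
    have h1 := eventually_lt_left (hasDerivAt_normSq_relFlow hΦ hz τ) (by linarith)
    have h2 : ∀ᶠ s in 𝓝[<] τ, s ∈ Ioo 0 τ := Ioo_mem_nhdsLT hτ
    obtain ⟨s, hs1, hs2⟩ := (h1.and h2).exists
    have h3 := hin s hs2
    rw [hout] at hs1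
    nlinarith [norm_nonneg (relFlow Φ s z).1]
  rcases lt_or_eq_of_le hnn with h | h
  · exact h
  exfalso
  set x := (relFlow Φ τ z).1 with hx
  set v := (relFlow Φ τ z).2 with hv
  have hfree : relFlow Φ (-(τ / 2)) (x, v) = (x + (-(τ / 2)) • v, v) :=
    relFlow_free_neg hΦ hout.ge h.ge (by linarith)
  have h1 : relFlow Φ (-(τ / 2)) (x, v) = relFlow Φ (τ / 2) z := by
    have : (x, v) = relFlow Φ τ z := rfl
    rw [this, ← relFlow_add hΦ]
    congr 1; ring
  have h2 := hin (τ / 2) ⟨by linarith, by linarith⟩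
  rw [← h1, hfree] at h2
  have h3 : 1 ≤ ‖x + (-(τ / 2)) • v‖ := by
    rw [one_le_norm_iff, norm_sq_line, hout, ← h]
    nlinarith [sq_nonneg (τ / 2), sq_nonneg ‖v‖, mul_nonneg (sq_nonneg (-(τ/2))) (sq_nonneg ‖v‖)]
  exact absurd h2 (not_lt.2 h3)

/-- After the exit the motion is free. -/
theorem HasExit.after (hΦ : AdmissiblePotential Φ) {z : Space3 × Space3} (hz : Reg Φ z.1)
    {τ : ℝ} (h : HasExit Φ z τ) {s : ℝ} (hs : τ ≤ s) :
    relFlow Φ s z =
      ((relFlow Φ τ z).1 + (s - τ) • (relFlow Φ τ z).2, (relFlow Φ τ z).2) := by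
  have h1 : relFlow Φ s z = relFlow Φ (s - τ) (relFlow Φ τ z) := by
    rw [← relFlow_add hΦ]; congr 1; ring
  rw [h1]
  exact relFlow_free_pos hΦ (x := (relFlow Φ τ z).1) (v := (relFlow Φ τ z).2) h.2.2.ge
    (h.inner_pos hΦ hz).le (by linarith)

theorem HasExit.one_lt_norm (hΦ : AdmissiblePotential Φ) {z : Space3 × Space3} (hz : Reg Φ z.1)
    {τ : ℝ} (h : HasExit Φ z τ) {s : ℝ} (hs : τ < s) : 1 < ‖(relFlow Φ s z).1‖ := by
  rw [h.after hΦ hz hs.le]
  have h1 := norm_sq_line (relFlow Φ τ z).1 (relFlow Φ τ z).2 (s - τ)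
  rw [h.2.2] at h1
  have h2 : 0 < 2 * (s - τ) * inner ℝ (relFlow Φ τ z).1 (relFlow Φ τ z).2 :=
    mul_pos (by linarith) (h.inner_pos hΦ hz)
  have h3 : 0 ≤ (s - τ) ^ 2 * ‖(relFlow Φ τ z).2‖ ^ 2 := by positivity
  have h4 : 1 < ‖(relFlow Φ τ z).1 + (s - τ) • (relFlow Φ τ z).2‖ ^ 2 := by
    rw [h1]; linarith
  by_contra h5
  rw [not_lt] at h5
  nlinarith [norm_nonneg ((relFlow Φ τ z).1 + (s - τ) • (relFlow Φ τ z).2)]

/-- The trajectory enters the open unit ball immediately after time `0`. -/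
def Enters (Φ : Space3 → ℝ) (z : Space3 × Space3) : Prop :=
  ∀ᶠ s in 𝓝[>] (0 : ℝ), ‖(relFlow Φ s z).1‖ < 1

lemma exists_exit_le (hΦ : AdmissiblePotential Φ) {z : Space3 × Space3} (hz : Reg Φ z.1)
    (hent : Enters Φ z) {c : ℝ} (hc : 0 < c) (h : 1 ≤ ‖(relFlow Φ c z).1‖) :
    ∃ τ ≤ c, HasExit Φ z τ := by
  have hcont : Continuous fun t => (relFlow Φ t z).1 := (isRel_relFlow hΦ hz).continuous_q
  obtain ⟨ε, hε, hball⟩ := (mem_nhdsGT_iff_exists_Ioo_subset.1 hent)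
  have hε' : (0 : ℝ) < ε := hε
  have hcε : ε ≤ c := by
    by_contra hlt
    rw [not_le] at hlt
    have h' : ‖(relFlow Φ c z).1‖ < 1 := hball ⟨hc, hlt⟩
    linarith
  have hcomp : IsCompact {t ∈ Icc (ε / 2) c | 1 ≤ ‖(relFlow Φ t z).1‖} := by
    apply isCompact_Icc.of_isClosed_subset _ (sep_subset _ _)
    exact isClosed_Icc.inter (isClosed_le continuous_const hcont.norm)
  obtain ⟨τ, ⟨⟨h1, h2⟩, h3⟩, hleast⟩ :=
    hcomp.exists_isLeast ⟨c, ⟨⟨by linarith, le_rfl⟩, h⟩⟩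
  have hτ : 0 < τ := by linarith
  have hin : ∀ s ∈ Ioo 0 τ, ‖(relFlow Φ s z).1‖ < 1 := by
    intro s hs
    by_cases hse : s < ε / 2
    · exact hball ⟨hs.1, by linarith⟩
    · rw [not_lt] at hse
      by_contra hge
      rw [not_lt] at hge
      have := hleast ⟨⟨hse, hs.2.le.trans h2⟩, hge⟩
      linarith [hs.2]
  refine ⟨τ, h2, hτ, hin, le_antisymm ?_ h3⟩
  have hcl : τ ∈ closure (Ioo 0 τ) := by
    rw [closure_Ioo (ne_of_lt hτ)]; exact ⟨hτ.le, le_rfl⟩
  have : closure (Ioo 0 τ) ⊆ {t | ‖(relFlow Φ t z).1‖ ≤ 1} :=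
    closure_minimal (fun t ht => (hin t ht).le) (isClosed_le hcont.norm continuous_const)
  exact this hcl

theorem exit_lt_iff (hΦ : AdmissiblePotential Φ) {z : Space3 × Space3} (hz : Reg Φ z.1)
    (hent : Enters Φ z) {c : ℝ} (hc : 0 < c) :
    (∃ τ < c, HasExit Φ z τ) ↔ 1 < ‖(relFlow Φ c z).1‖ := by
  constructor
  · rintro ⟨τ, hτ, h⟩
    exact h.one_lt_norm hΦ hz hτ
  · intro h
    obtain ⟨τ, hτ, h'⟩ := exists_exit_le hΦ hz hent hc h.le
    refine ⟨τ, lt_of_le_of_ne hτ ?_, h'⟩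
    rintro rfl
    linarith [h'.2.2]

/-! ### Incoming data -/

lemma norm_sq_entrance {b g : Space3} (hb : b ∈ impactDisc g) (hg : g ≠ 0) :
    ‖entrancePoint b g‖ ^ 2 = 1 := by
  have hng : ‖g‖ ≠ 0 := norm_ne_zero_iff.2 hg
  have h1 : 0 ≤ 1 - ‖b‖ ^ 2 := by nlinarith [norm_nonneg b, hb.2]
  have h2 : entrancePoint b g = b + (-(Real.sqrt (1 - ‖b‖ ^ 2) / ‖g‖)) • g := by
    rw [entrancePoint, neg_smul, sub_eq_add_neg]
  rw [h2, norm_sq_line, hb.1]
  have h3 : (-(Real.sqrt (1 - ‖b‖ ^ 2) / ‖g‖)) ^ 2 * ‖g‖ ^ 2 = 1 - ‖b‖ ^ 2 := by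
    rw [neg_sq, div_pow, Real.sq_sqrt h1]
    field_simp
  rw [h3]; ring

lemma norm_entrance {b g : Space3} (hb : b ∈ impactDisc g) (hg : g ≠ 0) :
    ‖entrancePoint b g‖ = 1 := by
  have := norm_sq_entrance hb hg
  nlinarith [norm_nonneg (entrancePoint b g)]

lemma inner_entrance {b g : Space3} (hb : b ∈ impactDisc g) (hg : g ≠ 0) :
    inner ℝ (entrancePoint b g) g = -(‖g‖ * Real.sqrt (1 - ‖b‖ ^ 2)) := by
  have hng : ‖g‖ ≠ 0 := norm_ne_zero_iff.2 hg
  rw [entrancePoint, inner_sub_left, inner_smul_left, hb.1, real_inner_self_eq_norm_sq]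
  simp only [conj_trivial]
  field_simp
  ring

lemma sqrt_pos_of_mem {b g : Space3} (hb : b ∈ impactDisc g) : 0 < Real.sqrt (1 - ‖b‖ ^ 2) := by
  apply Real.sqrt_pos.2
  nlinarith [norm_nonneg b, hb.2]

lemma inner_entrance_neg {b g : Space3} (hb : b ∈ impactDisc g) (hg : g ≠ 0) :
    inner ℝ (entrancePoint b g) g < 0 := by
  rw [inner_entrance hb hg]
  have := mul_pos (norm_pos_iff.2 hg) (sqrt_pos_of_mem hb)
  linarith

lemma am_entrance {b g : Space3} (hb : b ∈ impactDisc g) (hg : g ≠ 0) :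
    am (entrancePoint b g) g = ‖g‖ ^ 2 * ‖b‖ ^ 2 := by
  have h1 : 0 ≤ 1 - ‖b‖ ^ 2 := by nlinarith [norm_nonneg b, hb.2]
  rw [am, norm_sq_entrance hb hg, inner_entrance hb hg, neg_sq, mul_pow, Real.sq_sqrt h1]; ring

lemma en_of_norm_eq_one (hΦ : AdmissiblePotential Φ) {x v : Space3} (hx : ‖x‖ = 1) :
    en Φ x v = ‖v‖ ^ 2 := by
  rw [en, hΦ.eq_zero_of_one_le_norm x hx.ge]; ring

lemma reg_entrance (Φ : Space3 → ℝ) {b g : Space3} (hb : b ∈ impactDisc g) (hg : g ≠ 0) :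
    Reg Φ (entrancePoint b g) :=
  reg_of_norm_pos (by rw [norm_entrance hb hg]; exact one_pos)

lemma enters_inc (hΦ : AdmissiblePotential Φ) {b g : Space3} (hb : b ∈ impactDisc g)
    (hg : g ≠ 0) : Enters Φ (inc b g) := by
  have h1 := eventually_lt_right (hasDerivAt_normSq_relFlow hΦ (z := inc b g)
    (reg_entrance Φ hb hg) 0) (by
      rw [relFlow_zero hΦ]
      have := inner_entrance_neg hb hg
      show 2 * inner ℝ (entrancePoint b g) g < 0
      linarith)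
  rw [relFlow_zero hΦ] at h1
  filter_upwards [h1] with s hs
  have h2 : ‖(inc b g).1‖ ^ 2 = 1 := norm_sq_entrance hb hg
  rw [h2] at hs
  nlinarith [norm_nonneg (relFlow Φ s (inc b g)).1]

/-- Conservation of the norm of the velocity. -/
theorem HasExit.norm_velocity (hΦ : AdmissiblePotential Φ) {b g : Space3} (hb : b ∈ impactDisc g)
    (hg : g ≠ 0) {τ : ℝ} (h : HasExit Φ (inc b g) τ) : ‖(relFlow Φ τ (inc b g)).2‖ = ‖g‖ := by
  have hen := en_relFlow hΦ (z := inc b g) (reg_entrance Φ hb hg) τ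
  rw [en_of_norm_eq_one hΦ h.2.2, en_of_norm_eq_one hΦ (x := (inc b g).1) (norm_entrance hb hg)]
    at hen
  have h2 : ‖(relFlow Φ τ (inc b g)).2‖ ^ 2 = ‖g‖ ^ 2 := hen
  exact (pow_left_inj₀ (norm_nonneg _) (norm_nonneg _) (by norm_num)).1 h2

/-- **The exit velocity always has the norm of the incoming velocity.** -/
theorem norm_exitVelocity (hΦ : AdmissiblePotential Φ) {b g : Space3} (hb : b ∈ impactDisc g)
    (hg : g ≠ 0) : ‖exitVelocity Φ b g‖ = ‖g‖ := by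
  by_cases h : ∃ τ, HasExit Φ (inc b g) τ
  · obtain ⟨τ, hτ⟩ := h
    rw [exitVelocity_eq hΦ (reg_entrance Φ hb hg) hτ]
    exact hτ.norm_velocity hΦ hb hg
  · rw [exitVelocity_of_not hΦ (reg_entrance Φ hb hg) h]

/-! ### Turning points -/

/-- Time-reflection symmetry about a turning point. -/
theorem relFlow_reflect (hΦ : AdmissiblePotential Φ) {z : Space3 × Space3} (hz : Reg Φ z.1)
    {s0 : ℝ} (h0 : inner ℝ (relFlow Φ s0 z).1 (relFlow Φ s0 z).2 = 0) (t : ℝ) :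
    relFlow Φ (s0 - t) z =
      ((Submodule.span ℝ {(relFlow Φ s0 z).1}).reflection (relFlow Φ (s0 + t) z).1,
        -(Submodule.span ℝ {(relFlow Φ s0 z).1}).reflection (relFlow Φ (s0 + t) z).2) := by
  set x := (relFlow Φ s0 z).1 with hx
  set v := (relFlow Φ s0 z).2 with hv
  set σ := (Submodule.span ℝ {x}).reflection with hσ
  have hσx : σ x = x :=
    Submodule.reflection_mem_subspace_eq_self (Submodule.mem_span_singleton_self x)
  have hσv : σ v = -v := by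
    apply Submodule.reflection_mem_subspace_orthogonalComplement_eq_neg
    rw [Submodule.mem_orthogonal_singleton_iff_inner_right]
    exact h0
  have hreg : Reg Φ x := reg_relFlow hΦ hz s0
  have h1 := relFlow_isometry hΦ σ (z := (x, v)) hreg t
  have h2 := relFlow_reverse hΦ (z := (x, v)) hreg t
  simp only [hσx, hσv] at h1
  rw [h1] at h2
  have h3 : relFlow Φ t (x, v) = relFlow Φ (s0 + t) z := by
    rw [show (x, v) = relFlow Φ s0 z from rfl, ← relFlow_add hΦ]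
  have h4 : relFlow Φ (-t) (x, v) = relFlow Φ (s0 - t) z := by
    rw [show (x, v) = relFlow Φ s0 z from rfl, ← relFlow_add hΦ]; rfl
  rw [h3, h4] at h2
  rw [Prod.mk.injEq] at h2
  ext1
  · exact h2.1.symm
  · show (relFlow Φ (s0 - t) z).2 = -σ (relFlow Φ (s0 + t) z).2
    rw [h2.2, neg_neg]

lemma strictAntiOn_normSq (hΦ : AdmissiblePotential Φ) {z : Space3 × Space3} (hz : Reg Φ z.1)
    {s0 : ℝ} (hneg : ∀ s ∈ Ico 0 s0, inner ℝ (relFlow Φ s z).1 (relFlow Φ s z).2 < 0) :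
    StrictAntiOn (fun s => ‖(relFlow Φ s z).1‖ ^ 2) (Icc 0 s0) := by
  apply strictAntiOn_of_deriv_neg (convex_Icc 0 s0)
  · exact fun s _ => (hasDerivAt_normSq_relFlow hΦ hz s).continuousAt.continuousWithinAt
  · intro s hs
    rw [interior_Icc] at hs
    rw [(hasDerivAt_normSq_relFlow hΦ hz s).deriv]
    linarith [hneg s ⟨hs.1.le, hs.2⟩]

/-- A first turning point at `s0` gives an exit at time `2 s0`. -/
theorem hasExit_of_turning (hΦ : AdmissiblePotential Φ) {b g : Space3} (hb : b ∈ impactDisc g)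
    (hg : g ≠ 0) {s0 : ℝ} (hs0 : 0 < s0)
    (h0 : inner ℝ (relFlow Φ s0 (inc b g)).1 (relFlow Φ s0 (inc b g)).2 = 0)
    (hneg : ∀ s ∈ Ico 0 s0, inner ℝ (relFlow Φ s (inc b g)).1 (relFlow Φ s (inc b g)).2 < 0) :
    HasExit Φ (inc b g) (2 * s0) := by
  have hz : Reg Φ (inc b g).1 := reg_entrance Φ hb hg
  have hanti := strictAntiOn_normSq hΦ hz hneg
  have hfirst : ∀ s ∈ Ioc 0 s0, ‖(relFlow Φ s (inc b g)).1‖ < 1 := by
    intro s hs
    have h1 := hanti (a := 0) (b := s) ⟨le_rfl, hs0.le⟩ ⟨hs.1.le, hs.2⟩ hs.1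
    simp only [relFlow_zero hΦ] at h1
    have h2 : ‖(inc b g).1‖ ^ 2 = 1 := norm_sq_entrance hb hg
    rw [h2] at h1
    nlinarith [norm_nonneg (relFlow Φ s (inc b g)).1]
  have hnorm : ∀ t, ‖(relFlow Φ (s0 - t) (inc b g)).1‖ = ‖(relFlow Φ (s0 + t) (inc b g)).1‖ := by
    intro t
    rw [relFlow_reflect hΦ hz h0 t]
    simp
  refine ⟨by linarith, fun s hs => ?_, ?_⟩
  · by_cases hss : s ≤ s0
    · exact hfirst s ⟨hs.1, hss⟩
    · rw [not_le] at hss
      have h1 := hnorm (s - s0)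
      have h2 : s0 + (s - s0) = s := by ring
      rw [h2] at h1
      rw [← h1]
      exact hfirst _ ⟨by linarith [hs.2], by linarith⟩
  · have h1 := hnorm s0
    rw [sub_self, relFlow_zero hΦ] at h1
    rw [two_mul, ← h1]
    exact norm_entrance hb hg

/-- If there is no exit, the radial velocity stays negative. -/
theorem inner_neg_of_no_exit (hΦ : AdmissiblePotential Φ) {b g : Space3} (hb : b ∈ impactDisc g)
    (hg : g ≠ 0) (h : ¬ ∃ τ, HasExit Φ (inc b g) τ) {s : ℝ} (hs : 0 ≤ s) :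
    inner ℝ (relFlow Φ s (inc b g)).1 (relFlow Φ s (inc b g)).2 < 0 := by
  by_contra hge
  rw [not_lt] at hge
  have hz : Reg Φ (inc b g).1 := reg_entrance Φ hb hg
  have hcont : Continuous fun t => inner ℝ (relFlow Φ t (inc b g)).1 (relFlow Φ t (inc b g)).2 :=
    (isRel_relFlow hΦ hz).continuous_q.inner (isRel_relFlow hΦ hz).continuous_p
  have hcomp : IsCompact {t ∈ Icc 0 s |
      0 ≤ inner ℝ (relFlow Φ t (inc b g)).1 (relFlow Φ t (inc b g)).2} := by
    apply isCompact_Icc.of_isClosed_subset _ (sep_subset _ _)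
    exact isClosed_Icc.inter (isClosed_le continuous_const hcont)
  obtain ⟨s0, ⟨⟨h1, h2⟩, h3⟩, hleast⟩ := hcomp.exists_isLeast ⟨s, ⟨⟨hs, le_rfl⟩, hge⟩⟩
  have hs0 : 0 < s0 := by
    rcases lt_or_eq_of_le h1 with h' | h'
    · exact h'
    · exfalso
      rw [← h', relFlow_zero hΦ] at h3
      have := inner_entrance_neg hb hg
      exact absurd h3 (not_le.2 this)
  have hneg : ∀ t ∈ Ico 0 s0, inner ℝ (relFlow Φ t (inc b g)).1 (relFlow Φ t (inc b g)).2 < 0 := by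
    intro t ht
    by_contra hge'
    rw [not_lt] at hge'
    have := hleast ⟨⟨ht.1, ht.2.le.trans h2⟩, hge'⟩
    linarith [ht.2]
  have h4 : inner ℝ (relFlow Φ s0 (inc b g)).1 (relFlow Φ s0 (inc b g)).2 ≤ 0 := by
    have hcl : s0 ∈ closure (Ico 0 s0) := by
      rw [closure_Ico (ne_of_lt hs0)]; exact ⟨hs0.le, le_rfl⟩
    have : closure (Ico 0 s0) ⊆
        {t | inner ℝ (relFlow Φ t (inc b g)).1 (relFlow Φ t (inc b g)).2 ≤ 0} :=
      closure_minimal (fun t ht => (hneg t ht).le) (isClosed_le hcont continuous_const)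
    exact this hcl
  exact h ⟨_, hasExit_of_turning hΦ hb hg hs0 (le_antisymm h4 h3) hneg⟩

/-- Structure of a passage: there is a turning point at half time. -/
theorem HasExit.turning (hΦ : AdmissiblePotential Φ) {b g : Space3} (hb : b ∈ impactDisc g)
    (hg : g ≠ 0) {τ : ℝ} (h : HasExit Φ (inc b g) τ) :
    inner ℝ (relFlow Φ (τ / 2) (inc b g)).1 (relFlow Φ (τ / 2) (inc b g)).2 = 0 ∧
      ∀ s ∈ Ico 0 (τ / 2), inner ℝ (relFlow Φ s (inc b g)).1 (relFlow Φ s (inc b g)).2 < 0 := by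
  have hz : Reg Φ (inc b g).1 := reg_entrance Φ hb hg
  have hcont : Continuous fun t => inner ℝ (relFlow Φ t (inc b g)).1 (relFlow Φ t (inc b g)).2 :=
    (isRel_relFlow hΦ hz).continuous_q.inner (isRel_relFlow hΦ hz).continuous_p
  have hcomp : IsCompact {t ∈ Icc 0 τ |
      0 ≤ inner ℝ (relFlow Φ t (inc b g)).1 (relFlow Φ t (inc b g)).2} := by
    apply isCompact_Icc.of_isClosed_subset _ (sep_subset _ _)
    exact isClosed_Icc.inter (isClosed_le continuous_const hcont)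
  obtain ⟨s0, ⟨⟨h1, h2⟩, h3⟩, hleast⟩ := hcomp.exists_isLeast
    ⟨τ, ⟨⟨h.1.le, le_rfl⟩, (h.inner_pos hΦ hz).le⟩⟩
  have hs0 : 0 < s0 := by
    rcases lt_or_eq_of_le h1 with h' | h'
    · exact h'
    · exfalso
      rw [← h', relFlow_zero hΦ] at h3
      have := inner_entrance_neg hb hg
      exact absurd h3 (not_le.2 this)
  have hneg : ∀ t ∈ Ico 0 s0, inner ℝ (relFlow Φ t (inc b g)).1 (relFlow Φ t (inc b g)).2 < 0 := by
    intro t ht
    by_contra hge'
    rw [not_lt] at hge'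
    have := hleast ⟨⟨ht.1, ht.2.le.trans h2⟩, hge'⟩
    linarith [ht.2]
  have h4 : inner ℝ (relFlow Φ s0 (inc b g)).1 (relFlow Φ s0 (inc b g)).2 ≤ 0 := by
    have hcl : s0 ∈ closure (Ico 0 s0) := by
      rw [closure_Ico (ne_of_lt hs0)]; exact ⟨hs0.le, le_rfl⟩
    have : closure (Ico 0 s0) ⊆
        {t | inner ℝ (relFlow Φ t (inc b g)).1 (relFlow Φ t (inc b g)).2 ≤ 0} :=
      closure_minimal (fun t ht => (hneg t ht).le) (isClosed_le hcont continuous_const)
    exact this hcl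
  have h5 := hasExit_of_turning hΦ hb hg hs0 (le_antisymm h4 h3) hneg
  have h6 : τ = 2 * s0 := h.unique h5
  have h7 : τ / 2 = s0 := by rw [h6]; ring
  rw [h7]
  exact ⟨le_antisymm h4 h3, hneg⟩

/-! ### Outgoing data -/

/-- Exit phase point (junk value: the entrance point moved freely; only used when an exit
exists). -/
def exitTime (Φ : Space3 → ℝ) (b g : Space3) : ℝ :=
  open scoped Classical in
  if h : ∃ τ, HasExit Φ (inc b g) τ then h.choose else 0

lemma exitTime_eq {b g : Space3} {τ : ℝ} (h : HasExit Φ (inc b g) τ) : exitTime Φ b g = τ := by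
  classical
  have hex : ∃ τ, HasExit Φ (inc b g) τ := ⟨τ, h⟩
  rw [exitTime, dif_pos hex]
  exact hex.choose_spec.unique h

/-- Outgoing impact parameter: for a passage with exit phase point `(x', g')`, the component of
`x'` orthogonal to `g'`; for trapped data, `b` itself. -/
def exitImpact (Φ : Space3 → ℝ) (b g : Space3) : Space3 :=
  open scoped Classical in
  if ∃ τ, HasExit Φ (inc b g) τ then
    (relFlow Φ (exitTime Φ b g) (inc b g)).1 -
      (Real.sqrt (1 - ‖b‖ ^ 2) / ‖g‖) • exitVelocity Φ b g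
  else b

lemma exitImpact_eq (hΦ : AdmissiblePotential Φ) {b g : Space3} (hb : b ∈ impactDisc g)
    (hg : g ≠ 0) {τ : ℝ} (h : HasExit Φ (inc b g) τ) :
    exitImpact Φ b g = (relFlow Φ τ (inc b g)).1 -
      (Real.sqrt (1 - ‖b‖ ^ 2) / ‖g‖) • (relFlow Φ τ (inc b g)).2 := by
  classical
  rw [exitImpact, if_pos ⟨τ, h⟩, exitTime_eq h, exitVelocity_eq hΦ (reg_entrance Φ hb hg) h]

lemma exitImpact_of_not {b g : Space3} (h : ¬ ∃ τ, HasExit Φ (inc b g) τ) :
    exitImpact Φ b g = b := by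
  classical
  rw [exitImpact, if_neg h]

/-- The radial velocity at exit. -/
theorem HasExit.inner_eq (hΦ : AdmissiblePotential Φ) {b g : Space3} (hb : b ∈ impactDisc g)
    (hg : g ≠ 0) {τ : ℝ} (h : HasExit Φ (inc b g) τ) :
    inner ℝ (relFlow Φ τ (inc b g)).1 (relFlow Φ τ (inc b g)).2
      = ‖g‖ * Real.sqrt (1 - ‖b‖ ^ 2) := by
  have hz : Reg Φ (inc b g).1 := reg_entrance Φ hb hg
  have h1 := am_relFlow hΦ hz τ
  have h2 : am (inc b g).1 (inc b g).2 = ‖g‖ ^ 2 * ‖b‖ ^ 2 := am_entrance hb hg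
  rw [h2, am, h.2.2, h.norm_velocity hΦ hb hg] at h1
  have h3 := h.inner_pos hΦ hz
  have h4 : 0 ≤ 1 - ‖b‖ ^ 2 := by nlinarith [norm_nonneg b, hb.2]
  have h5 : (inner ℝ (relFlow Φ τ (inc b g)).1 (relFlow Φ τ (inc b g)).2) ^ 2
      = (‖g‖ * Real.sqrt (1 - ‖b‖ ^ 2)) ^ 2 := by
    rw [mul_pow, Real.sq_sqrt h4]; linarith
  exact (pow_left_inj₀ h3.le (by positivity) (by norm_num)).1 h5

theorem inner_exitImpact (hΦ : AdmissiblePotential Φ) {b g : Space3} (hb : b ∈ impactDisc g)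
    (hg : g ≠ 0) : inner ℝ (exitImpact Φ b g) (exitVelocity Φ b g) = 0 := by
  by_cases h : ∃ τ, HasExit Φ (inc b g) τ
  · obtain ⟨τ, hτ⟩ := h
    have hng : ‖g‖ ≠ 0 := norm_ne_zero_iff.2 hg
    rw [exitImpact_eq hΦ hb hg hτ, exitVelocity_eq hΦ (reg_entrance Φ hb hg) hτ, inner_sub_left,
      inner_smul_left, hτ.inner_eq hΦ hb hg, real_inner_self_eq_norm_sq,
      hτ.norm_velocity hΦ hb hg]
    simp only [conj_trivial]
    field_simp
    ring
  · rw [exitImpact_of_not h, exitVelocity_of_not hΦ (reg_entrance Φ hb hg) h]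
    exact hb.1

theorem norm_exitImpact (hΦ : AdmissiblePotential Φ) {b g : Space3} (hb : b ∈ impactDisc g)
    (hg : g ≠ 0) : ‖exitImpact Φ b g‖ = ‖b‖ := by
  by_cases h : ∃ τ, HasExit Φ (inc b g) τ
  · obtain ⟨τ, hτ⟩ := h
    have hng : ‖g‖ ≠ 0 := norm_ne_zero_iff.2 hg
    have h4 : 0 ≤ 1 - ‖b‖ ^ 2 := by nlinarith [norm_nonneg b, hb.2]
    have h1 : ‖exitImpact Φ b g‖ ^ 2 = ‖b‖ ^ 2 := by
      rw [exitImpact_eq hΦ hb hg hτ, sub_eq_add_neg, ← neg_smul, norm_sq_line, hτ.2.2,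
        hτ.inner_eq hΦ hb hg, hτ.norm_velocity hΦ hb hg, neg_sq, div_pow, Real.sq_sqrt h4]
      have h5 : Real.sqrt (1 - ‖b‖ ^ 2) * Real.sqrt (1 - ‖b‖ ^ 2) = 1 - ‖b‖ ^ 2 :=
        Real.mul_self_sqrt h4
      field_simp
      nlinarith [h5]
    exact (pow_left_inj₀ (norm_nonneg _) (norm_nonneg _) (by norm_num)).1 h1
  · rw [exitImpact_of_not h]

theorem exitImpact_mem (hΦ : AdmissiblePotential Φ) {b g : Space3} (hb : b ∈ impactDisc g)
    (hg : g ≠ 0) : exitImpact Φ b g ∈ impactDisc (exitVelocity Φ b g) := by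
  refine ⟨inner_exitImpact hΦ hb hg, ?_⟩
  rw [norm_exitImpact hΦ hb hg]
  exact hb.2

theorem exitVelocity_ne_zero (hΦ : AdmissiblePotential Φ) {b g : Space3} (hb : b ∈ impactDisc g)
    (hg : g ≠ 0) : exitVelocity Φ b g ≠ 0 := by
  rw [← norm_pos_iff, norm_exitVelocity hΦ hb hg]
  exact norm_pos_iff.2 hg

/-- The exit point in terms of the outgoing impact parameter. -/
theorem exitPoint_eq (hΦ : AdmissiblePotential Φ) {b g : Space3} (hb : b ∈ impactDisc g)
    (hg : g ≠ 0) {τ : ℝ} (h : HasExit Φ (inc b g) τ) :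
    (relFlow Φ τ (inc b g)).1 =
      exitImpact Φ b g + (Real.sqrt (1 - ‖b‖ ^ 2) / ‖g‖) • exitVelocity Φ b g := by
  rw [exitImpact_eq hΦ hb hg h, exitVelocity_eq hΦ (reg_entrance Φ hb hg) h]
  abel

lemma mem_impactDisc_neg {b g : Space3} : b ∈ impactDisc (-g) ↔ b ∈ impactDisc g := by
  simp [impactDisc]

/-- The exit point with reversed velocity is the incoming phase point of `(b', -g')`. -/
theorem inc_exit (hΦ : AdmissiblePotential Φ) {b g : Space3} (hb : b ∈ impactDisc g)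
    (hg : g ≠ 0) {τ : ℝ} (h : HasExit Φ (inc b g) τ) :
    inc (exitImpact Φ b g) (-exitVelocity Φ b g) =
      ((relFlow Φ τ (inc b g)).1, -(relFlow Φ τ (inc b g)).2) := by
  rw [inc, entrancePoint, norm_exitImpact hΦ hb hg, norm_neg, norm_exitVelocity hΦ hb hg,
    exitPoint_eq hΦ hb hg h, exitVelocity_eq hΦ (reg_entrance Φ hb hg) h, smul_neg, sub_neg_eq_add]

/-- **Reversibility.** -/
theorem HasExit.reverse (hΦ : AdmissiblePotential Φ) {b g : Space3} (hb : b ∈ impactDisc g)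
    (hg : g ≠ 0) {τ : ℝ} (h : HasExit Φ (inc b g) τ) :
    HasExit Φ (inc (exitImpact Φ b g) (-exitVelocity Φ b g)) τ ∧
      relFlow Φ τ (inc (exitImpact Φ b g) (-exitVelocity Φ b g)) = (entrancePoint b g, -g) := by
  have hz : Reg Φ (inc b g).1 := reg_entrance Φ hb hg
  have key : ∀ s, relFlow Φ s (inc (exitImpact Φ b g) (-exitVelocity Φ b g)) =
      ((relFlow Φ (τ - s) (inc b g)).1, -(relFlow Φ (τ - s) (inc b g)).2) := by
    intro s
    rw [inc_exit hΦ hb hg h, relFlow_reverse hΦ (z := relFlow Φ τ (inc b g))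
      (reg_relFlow hΦ hz τ), ← relFlow_add hΦ]
    rfl
  refine ⟨⟨h.1, fun s hs => ?_, ?_⟩, ?_⟩
  · rw [key]
    exact h.2.1 _ ⟨by linarith [hs.2], by linarith [hs.1]⟩
  · rw [key, sub_self, relFlow_zero hΦ]
    exact norm_entrance hb hg
  · rw [key, sub_self, relFlow_zero hΦ]
    rfl

/-- **Involution property**: scattering of `(b', -g')` is `(b, -g)`. -/
theorem exit_exit (hΦ : AdmissiblePotential Φ) {b g : Space3} (hb : b ∈ impactDisc g)
    (hg : g ≠ 0) {τ : ℝ} (h : HasExit Φ (inc b g) τ) :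
    exitVelocity Φ (exitImpact Φ b g) (-exitVelocity Φ b g) = -g ∧
      exitImpact Φ (exitImpact Φ b g) (-exitVelocity Φ b g) = b := by
  obtain ⟨h1, h2⟩ := h.reverse hΦ hb hg
  have hb' : exitImpact Φ b g ∈ impactDisc (-exitVelocity Φ b g) :=
    mem_impactDisc_neg.2 (exitImpact_mem hΦ hb hg)
  have hg' : -exitVelocity Φ b g ≠ 0 := neg_ne_zero.2 (exitVelocity_ne_zero hΦ hb hg)
  have h3 : exitVelocity Φ (exitImpact Φ b g) (-exitVelocity Φ b g) = -g := by
    rw [exitVelocity_eq hΦ (reg_entrance Φ hb' hg') h1, h2]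
  refine ⟨h3, ?_⟩
  rw [exitImpact_eq hΦ hb' hg' h1, h2, norm_neg, norm_exitVelocity hΦ hb hg,
    norm_exitImpact hΦ hb hg, entrancePoint, smul_neg, sub_neg_eq_add, sub_add_cancel]

/-! ### Equivariance -/

lemma entrancePoint_isometry (R : Space3 ≃ₗᵢ[ℝ] Space3) (b g : Space3) :
    entrancePoint (R b) (R g) = R (entrancePoint b g) := by
  rw [entrancePoint, entrancePoint, map_sub, map_smul, R.norm_map, R.norm_map]

lemma mem_impactDisc_isometry (R : Space3 ≃ₗᵢ[ℝ] Space3) {b g : Space3} :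
    R b ∈ impactDisc (R g) ↔ b ∈ impactDisc g := by
  simp [impactDisc]

lemma hasExit_isometry (hΦ : AdmissiblePotential Φ) (R : Space3 ≃ₗᵢ[ℝ] Space3) {b g : Space3}
    (hb : b ∈ impactDisc g) (hg : g ≠ 0) {τ : ℝ} :
    HasExit Φ (inc (R b) (R g)) τ ↔ HasExit Φ (inc b g) τ := by
  have hz : Reg Φ (inc b g).1 := reg_entrance Φ hb hg
  have key : ∀ s, relFlow Φ s (inc (R b) (R g)) =
      (R (relFlow Φ s (inc b g)).1, R (relFlow Φ s (inc b g)).2) := by
    intro s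
    rw [← relFlow_isometry hΦ R hz s, inc, entrancePoint_isometry]
    rfl
  unfold HasExit
  simp only [key, R.norm_map]

/-- **Rotation equivariance** of the exit velocity. -/
theorem exitVelocity_isometry (hΦ : AdmissiblePotential Φ) (R : Space3 ≃ₗᵢ[ℝ] Space3)
    {b g : Space3} (hb : b ∈ impactDisc g) (hg : g ≠ 0) :
    exitVelocity Φ (R b) (R g) = R (exitVelocity Φ b g) := by
  have hz : Reg Φ (inc b g).1 := reg_entrance Φ hb hg
  have hRb : R b ∈ impactDisc (R g) := (mem_impactDisc_isometry R).2 hb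
  have hRg : R g ≠ 0 := by simpa using hg
  by_cases h : ∃ τ, HasExit Φ (inc b g) τ
  · obtain ⟨τ, hτ⟩ := h
    rw [exitVelocity_eq hΦ hz hτ,
      exitVelocity_eq hΦ (reg_entrance Φ hRb hRg) ((hasExit_isometry hΦ R hb hg).2 hτ)]
    have : relFlow Φ τ (inc (R b) (R g)) =
      (R (relFlow Φ τ (inc b g)).1, R (relFlow Φ τ (inc b g)).2) := by
      rw [← relFlow_isometry hΦ R hz τ, inc, entrancePoint_isometry]
      rfl
    rw [this]
  · have h' : ¬ ∃ τ, HasExit Φ (inc (R b) (R g)) τ := by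
      rintro ⟨τ, hτ⟩
      exact h ⟨τ, (hasExit_isometry hΦ R hb hg).1 hτ⟩
    rw [exitVelocity_of_not hΦ (reg_entrance Φ hb hg) h,
      exitVelocity_of_not hΦ (reg_entrance Φ hRb hRg) h']

theorem exitImpact_isometry (hΦ : AdmissiblePotential Φ) (R : Space3 ≃ₗᵢ[ℝ] Space3)
    {b g : Space3} (hb : b ∈ impactDisc g) (hg : g ≠ 0) :
    exitImpact Φ (R b) (R g) = R (exitImpact Φ b g) := by
  have hz : Reg Φ (inc b g).1 := reg_entrance Φ hb hg
  have hRb : R b ∈ impactDisc (R g) := (mem_impactDisc_isometry R).2 hb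
  have hRg : R g ≠ 0 := by simpa using hg
  by_cases h : ∃ τ, HasExit Φ (inc b g) τ
  · obtain ⟨τ, hτ⟩ := h
    rw [exitImpact_eq hΦ hb hg hτ, exitImpact_eq hΦ hRb hRg ((hasExit_isometry hΦ R hb hg).2 hτ)]
    have : relFlow Φ τ (inc (R b) (R g)) =
      (R (relFlow Φ τ (inc b g)).1, R (relFlow Φ τ (inc b g)).2) := by
      rw [← relFlow_isometry hΦ R hz τ, inc, entrancePoint_isometry]
      rfl
    rw [this, map_sub, map_smul, R.norm_map, R.norm_map]
  · have h' : ¬ ∃ τ, HasExit Φ (inc (R b) (R g)) τ := by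
      rintro ⟨τ, hτ⟩
      exact h ⟨τ, (hasExit_isometry hΦ R hb hg).1 hτ⟩
    rw [exitImpact_of_not h, exitImpact_of_not h']

end Crest.Agent.R122.Scat818
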