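import Crest.Agent.R122.TreeDefs_674

/-!
Row 122, block C (helper674): statements about collision trees (interfaces).
-/

set_option autoImplicit false

open MeasureTheory Crest.AnalysisR.Kinetic
open scoped Classical ENNReal

noncomputable section

namespace Crest.Agent.R122.Tree674

open Kin796 Kin796.CTree Disc416

/-- **Genericity** of a straight-line (`ε = 0`) tree: two different particles never are at the same
place at the same time `u ≥ 0` (free extension of all final velocities), except the two colliding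
particles of a node at the time of this node. -/
def Gen (Φ : Space3 → ℝ) (P : CTree) (ℓ : PhasePoint) (p : Par P) : Prop :=
  ∀ i j : Idx P, i ≠ j → ∀ u : ℝ, 0 ≤ u → ¬ InWindow Φ 0 P ℓ.2 p i j u →
    ¬ InWindow Φ 0 P ℓ.2 p j i u → (path Φ 0 P ℓ p u i).1 ≠ (path Φ 0 P ℓ p u j).1

/-- **Theorem C** (null sets): almost every valid straight-line tree is generic. -/
def Stmt_Gen : Prop := ∀ Φ : Space3 → ℝ, AdmissiblePotential Φ → ∀ (P : CTree) (T : ℝ),
  ∀ᵐ z : PhasePoint × Par P, Valid Φ 0 P T z.1.2 z.2 → Gen Φ P z.1 z.2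

/-- Product of the damping factors and of the initial densities along a straight-line tree (root
line `ℓ`, final time `t`). -/
def dens (Φ : Space3 → ℝ) (D : ℝ → ℝ → Space3 → Space3 → ℝ≥0∞) (f0 : Space3 → Space3 → ℝ≥0∞) :
    ∀ P : CTree, ℝ → PhasePoint → Par P → ℝ≥0∞
  | leaf => fun t ℓ _ => D 0 t (ℓ.1 + t • ℓ.2) ℓ.2 * f0 ℓ.1 ℓ.2
  | node l r => fun t ℓ p => D p.1.1 t (ℓ.1 + t • ℓ.2) ℓ.2 *
      (dens Φ D f0 l p.1.1 (inMap Φ 0 ℓ p.1).1 p.2.1 * dens Φ D f0 r p.1.1 (inMap Φ 0 ℓ p.1).2 p.2.2)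

/-- **Theorem D**: the tree series of block F6 is the integral over tree parameters.  `κ` is the
collision kernel (`Kin416.kapQ Φ`), given through its integration formula. -/
def Stmt_F : Prop := ∀ Φ : Space3 → ℝ, AdmissiblePotential Φ →
  ∀ (κ : ProbabilityTheory.Kernel Space3 (Space3 × Space3)) [ProbabilityTheory.IsSFiniteKernel κ],
  (∀ (v : Space3) (H : Space3 × Space3 → ℝ≥0∞), Measurable H → ∫⁻ p, H p ∂(κ v) =
    ∫⁻ w, ENNReal.ofReal ‖v - w‖ * ∫⁻ b in impactDisc (v - w), H (postVelocities Φ b v w) ∂μHE[2]) →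
  ∀ (D : ℝ → ℝ → Space3 → Space3 → ℝ≥0∞), Meas4 D →
  ∀ f0 : Space3 → Space3 → ℝ≥0∞, (Measurable fun q : Space3 × Space3 => f0 q.1 q.2) →
  ∀ (P : CTree) (t : ℝ) (x v : Space3), 0 ≤ t →
    F κ D f0 P t x v = ∫⁻ p : Par P, {p | Valid Φ 0 P t v p}.indicator
      (fun p => wt Φ P v p * dens Φ D f0 P t (x - t • v, v) p) p

end Crest.Agent.R122.Tree674

end
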