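import Mathlib
import Crest.Agent.R122.TreeSpec_674
import Crest.Agent.R122.Scat3_818
import Crest.Agent.R122.KinQ_416

/-!
Row 122, Theorem C (helper491), part 1: isometry-invariant measures on space charge no line away
from the origin; the laws of `α • g + β • g_out` are isometry invariant.
-/

set_option autoImplicit false

open MeasureTheory Crest.AnalysisR.Kinetic Set
open scoped Classical ENNReal

noncomputable section

namespace Crest.Agent.R122.Generic491

open Disc416 Kin416 Boltz814

/-! ### Invariant measures -/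

/-- an isometry sending `x` to `y` when the norms agree -/
lemma exists_isometry {x y : Space3} (h : ‖x‖ = ‖y‖) : ∃ R : Space3 ≃ₗᵢ[ℝ] Space3, R x = y :=
  ⟨(ℝ ∙ (x - y))ᗮ.reflection, Submodule.reflection_sub h⟩

/-- a vector linearly independent of `C` -/
lemma exists_indep {C : Space3} (hC : C ≠ 0) : ∃ F : Space3, ∀ a b : ℝ, a • C + b • F = 0 →
    a = 0 ∧ b = 0 := by
  obtain ⟨F, hF⟩ : ∃ F : Space3, F ∉ Submodule.span ℝ {C} := by
    by_contra hcon
    push Not at hcon
    have htop : Submodule.span ℝ {C} = ⊤ := by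
      ext x; simp [hcon x]
    have h1 := finrank_span_singleton (K := ℝ) hC
    rw [htop, finrank_top] at h1
    have h2 : Module.finrank ℝ Space3 = 3 := by simp [Space3]
    omega
  refine ⟨F, fun a b h => ?_⟩
  have hb : b = 0 := by
    by_contra hb
    apply hF
    rw [Submodule.mem_span_singleton]
    refine ⟨-(b⁻¹ * a), ?_⟩
    have : b • F = -(a • C) := by rw [eq_neg_iff_add_eq_zero, add_comm]; exact h
    have h3 : F = b⁻¹ • (b • F) := by rw [smul_smul, inv_mul_cancel₀ hb, one_smul]
    rw [h3, this, smul_neg, smul_smul, neg_smul]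
  subst hb
  rw [zero_smul, add_zero, smul_eq_zero] at h
  exact ⟨h.resolve_right hC, rfl⟩

/-- an uncountable family of isometries sending `C` into different directions -/
lemma exists_family {C : Space3} (hC : C ≠ 0) : ∃ (F : Space3) (R : ℝ → Space3 ≃ₗᵢ[ℝ] Space3)
    (ρ : ℝ → ℝ), (∀ a b : ℝ, a • C + b • F = 0 → a = 0 ∧ b = 0) ∧
    (∀ t, ρ t ≠ 0) ∧ (∀ t, R t C = ρ t • (C + t • F)) := by
  obtain ⟨F, hF⟩ := exists_indep hC
  have hne : ∀ t : ℝ, C + t • F ≠ 0 := by
    intro t h
    have := (hF 1 t (by rwa [one_smul])).1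
    exact one_ne_zero this
  have hex : ∀ t : ℝ, ∃ R : Space3 ≃ₗᵢ[ℝ] Space3,
      R C = (‖C‖ / ‖C + t • F‖) • (C + t • F) := by
    intro t
    apply exists_isometry
    rw [norm_smul, norm_div, norm_norm, norm_norm, div_mul_cancel₀ _ (norm_ne_zero_iff.2 (hne t))]
  choose R hR using hex
  refine ⟨F, R, fun t => ‖C‖ / ‖C + t • F‖, hF, fun t => ?_, hR⟩
  exact div_ne_zero (norm_ne_zero_iff.2 hC) (norm_ne_zero_iff.2 (hne t))

/-- the line `B + ℝ C` without the origin -/
def lineSet (B C : Space3) : Set Space3 := {z | z ≠ 0 ∧ ∃ l : ℝ, z = B + l • C}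

lemma isClosed_line (B C : Space3) : IsClosed {z : Space3 | ∃ l : ℝ, z = B + l • C} := by
  have h : {z : Space3 | ∃ l : ℝ, z = B + l • C} =
      (fun z => z - B) ⁻¹' (Submodule.span ℝ {C} : Set Space3) := by
    ext z
    simp only [mem_ofPred_eq, mem_preimage, SetLike.mem_coe, Submodule.mem_span_singleton]
    constructor
    · rintro ⟨l, rfl⟩; exact ⟨l, by abel⟩
    · rintro ⟨l, hl⟩; exact ⟨l, by rw [hl]; abel⟩
  rw [h]
  exact (Submodule.closed_of_finiteDimensional _).preimage (by fun_prop)

lemma measurableSet_lineSet (B C : Space3) : MeasurableSet (lineSet B C) := by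
  have : lineSet B C = {0}ᶜ ∩ {z : Space3 | ∃ l : ℝ, z = B + l • C} := by
    ext z; simp [lineSet]
  rw [this]
  exact (measurableSet_singleton _).compl.inter (isClosed_line B C).measurableSet

lemma not_countable_of_pos {As : ℝ → ℝ≥0∞} {c : ℝ≥0∞} (hc : c ≠ 0) (h : ∀ t, As t = c)
    (hco : Set.Countable {t | 0 < As t}) : False := by
  have : {t | 0 < As t} = univ := by
    ext t; simp [h t, pos_iff_ne_zero, hc]
  rw [this] at hco
  exact Set.not_countable_univ hco

/-- An isometry-invariant s-finite measure has no atoms except possibly `0`. -/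
lemma measure_singleton (μ : Measure Space3) [SFinite μ]
    (hinv : ∀ R : Space3 ≃ₗᵢ[ℝ] Space3, μ.map R = μ) {x : Space3} (hx : x ≠ 0) : μ {x} = 0 := by
  by_contra hne
  obtain ⟨F, R, ρ, hF, hρ, hR⟩ := exists_family hx
  have hinj : Function.Injective fun t => R t x := by
    intro t t' h
    simp only [hR] at h
    have h1 : (ρ t - ρ t') • x + (ρ t * t - ρ t' * t') • F = 0 := by
      have : ρ t • (x + t • F) - ρ t' • (x + t' • F) = 0 := sub_eq_zero.2 h
      rw [← this]; module
    obtain ⟨h2, h3⟩ := hF _ _ h1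
    have h4 : ρ t = ρ t' := sub_eq_zero.1 h2
    rw [← h4] at h3
    have h5 : ρ t * (t - t') = 0 := by linarith
    exact sub_eq_zero.1 ((mul_eq_zero.1 h5).resolve_left (hρ t))
  have hval : ∀ t, μ {R t x} = μ {x} := by
    intro t
    conv_lhs => rw [← hinv (R t)]
    rw [Measure.map_apply (R t).continuous.measurable (measurableSet_singleton _)]
    congr 1
    ext z
    simp
  have hdisj : Pairwise (Function.onFun Disjoint fun t => ({R t x} : Set Space3)) := by
    intro t t' h
    simp only [Function.onFun, disjoint_singleton]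
    exact fun h' => h (hinj h')
  exact not_countable_of_pos hne hval
    (Measure.countable_meas_pos_of_disjoint_iUnion (fun t => measurableSet_singleton _) hdisj)

/-- **An isometry-invariant s-finite measure on `ℝ³` charges no line away from the origin.** -/
theorem measure_lineSet (μ : Measure Space3) [SFinite μ]
    (hinv : ∀ R : Space3 ≃ₗᵢ[ℝ] Space3, μ.map R = μ) (B C : Space3) : μ (lineSet B C) = 0 := by
  by_cases hC : C = 0
  · subst hC
    by_cases hB : B = 0
    · have : lineSet B 0 = ∅ := by
        ext z; simp [lineSet, hB]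
      rw [this]; simp
    · refine measure_mono_null ?_ (measure_singleton μ hinv hB)
      rintro z ⟨-, l, rfl⟩
      simp
  by_contra hne
  obtain ⟨F, R, ρ, hF, hρ, hR⟩ := exists_family hC
  have himg : ∀ t, (R t) ⁻¹' (lineSet (R t B) (C + t • F)) = lineSet B C := by
    intro t
    ext z
    simp only [lineSet, mem_preimage, mem_ofPred_eq, ne_eq, EmbeddingLike.map_eq_zero_iff]
    refine and_congr_right fun _ => ?_
    constructor
    · rintro ⟨l, hl⟩
      refine ⟨l / ρ t, (R t).injective ?_⟩
      rw [hl, map_add, map_smul, hR, smul_smul, div_mul_cancel₀ _ (hρ t)]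
    · rintro ⟨l, rfl⟩
      refine ⟨l * ρ t, ?_⟩
      rw [map_add, map_smul, hR, smul_smul]
  have hval : ∀ t, μ (lineSet (R t B) (C + t • F)) = μ (lineSet B C) := by
    intro t
    conv_lhs => rw [← hinv (R t)]
    rw [Measure.map_apply (R t).continuous.measurable (measurableSet_lineSet _ _), himg]
  have hdisj : Pairwise (Function.onFun (AEDisjoint μ)
      fun t => lineSet (R t B) (C + t • F)) := by
    intro t t' htt
    simp only [Function.onFun, AEDisjoint]
    -- the intersection has at most one point
    have hsub : ∀ z z', z ∈ lineSet (R t B) (C + t • F) ∩ lineSet (R t' B) (C + t' • F) →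
        z' ∈ lineSet (R t B) (C + t • F) ∩ lineSet (R t' B) (C + t' • F) → z = z' := by
      rintro z z' ⟨⟨-, l, hl⟩, ⟨-, m, hm⟩⟩ ⟨⟨-, l', hl'⟩, ⟨-, m', hm'⟩⟩
      have e1 : z - z' = (l - l') • (C + t • F) := by rw [hl, hl']; module
      have e2 : z - z' = (m - m') • (C + t' • F) := by rw [hm, hm']; module
      have e3 : ((l - l') - (m - m')) • C + ((l - l') * t - (m - m') * t') • F = 0 := by
        have : (l - l') • (C + t • F) - (m - m') • (C + t' • F) = 0 := by
          rw [← e1, ← e2, sub_self]
        rw [← this]; module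
      obtain ⟨h1, h2⟩ := hF _ _ e3
      have h3 : l - l' = m - m' := sub_eq_zero.1 h1
      rw [← h3] at h2
      have h4 : (l - l') * (t - t') = 0 := by linarith
      have h5 : l - l' = 0 := (mul_eq_zero.1 h4).resolve_right (sub_ne_zero.2 htt)
      rw [h5, zero_smul] at e1
      exact sub_eq_zero.1 e1
    rcases (lineSet (R t B) (C + t • F) ∩ lineSet (R t' B) (C + t' • F)).eq_empty_or_nonempty with
      h | ⟨z, hz⟩
    · rw [h]; simp
    · refine measure_mono_null (t := {z}) (fun z' hz' => ?_) (measure_singleton μ hinv hz.1.1)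
      exact hsub _ _ hz' hz
  exact not_countable_of_pos hne hval
    (Measure.countable_meas_pos_of_disjoint_iUnion₀
      (fun t => (measurableSet_lineSet _ _).nullMeasurableSet) hdisj)

/-! ### The laws of relative velocities -/

variable {Φ : Space3 → ℝ}

/-- `α • g + β • g_out` in planar coordinates -/
def dl (Φ : Space3 → ℝ) (α β : ℝ) (p : Space3 × Plane) : Space3 :=
  α • p.1 + β • exitM Φ (frameMap p.1 p.2, p.1)

lemma measurable_dl (S : ScatFacts Φ) (α β : ℝ) : Measurable (dl Φ α β) := by
  unfold dl
  exact (measurable_fst.const_smul α).add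
    (((measurable_exitM S).comp (measurable_frameMap.prodMk measurable_fst)).const_smul β)

lemma exitM_isometry (hΦ : AdmissiblePotential Φ) (R : Space3 ≃ₗᵢ[ℝ] Space3) (b : Space3)
    {g : Space3} (hg : g ≠ 0) : exitM Φ (R b, R g) = R (exitM Φ (b, g)) := by
  unfold exitM
  simp only [Scat818.mem_impactDisc_isometry]
  split_ifs with h
  · exact Scat818.exitVelocity_isometry hΦ R h hg
  · rfl

/-- law of `α • g + β • g_out` -/
def law (Φ : Space3 → ℝ) (α β : ℝ) : Measure Space3 :=
  ((volume : Measure Space3).prod (volume.restrict (Metric.ball (0 : Plane) 1))).map (dl Φ α β)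

instance (α β : ℝ) : SFinite (law Φ α β) := by unfold law; infer_instance

lemma lintegral_disc_isometry (R : Space3 ≃ₗᵢ[ℝ] Space3) (g : Space3) (H : Space3 → ℝ≥0∞) :
    ∫⁻ b in impactDisc g, H (R b) ∂μHE[2] = ∫⁻ b in impactDisc (R g), H b ∂μHE[2] := by
  have hmp := IsometryEquiv.measurePreserving_euclideanHausdorffMeasure R.toIsometryEquiv 2
  have hpre : (R.toIsometryEquiv) ⁻¹' (impactDisc (R g)) = impactDisc g := by
    ext b
    exact Scat818.mem_impactDisc_isometry R
  have hemb : MeasurableEmbedding (R.toIsometryEquiv) :=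
    R.toIsometryEquiv.toHomeomorph.measurableEmbedding
  have := hmp.setLIntegral_comp_preimage_emb hemb H (impactDisc (R g))
  rw [hpre] at this
  exact this

lemma ae_ne_zero : ∀ᵐ g : Space3, g ≠ 0 :=
  compl_mem_ae_iff.2 (MeasureTheory.measure_singleton (0 : Space3))

lemma law_apply (S : ScatFacts Φ) (α β : ℝ) {A : Set Space3} (hA : MeasurableSet A) :
    law Φ α β A = ∫⁻ g : Space3, ∫⁻ b in impactDisc g,
      A.indicator 1 (α • g + β • exitM Φ (b, g)) ∂μHE[2] := by
  unfold law
  rw [Measure.map_apply (measurable_dl S α β) hA, ← lintegral_indicator_one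
    (measurable_dl S α β hA), lintegral_prod _
    (measurable_one.indicator (measurable_dl S α β hA)).aemeasurable]
  refine lintegral_congr_ae ?_
  filter_upwards [ae_ne_zero] with g hg
  rw [lintegral_impactDisc hg]
  rfl

lemma law_invariant (hΦ : AdmissiblePotential Φ) (S : ScatFacts Φ) (α β : ℝ)
    (R : Space3 ≃ₗᵢ[ℝ] Space3) : (law Φ α β).map R = law Φ α β := by
  ext A hA
  rw [Measure.map_apply R.continuous.measurable hA,
    law_apply S α β (R.continuous.measurable hA), law_apply S α β hA]
  have hmp : MeasurePreserving R (volume : Measure Space3) volume := R.measurePreserving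
  have hemb : MeasurableEmbedding R := R.toHomeomorph.measurableEmbedding
  conv_rhs => rw [← hmp.lintegral_comp_emb hemb]
  refine lintegral_congr_ae ?_
  filter_upwards [ae_ne_zero] with g hg
  rw [← lintegral_disc_isometry R g]
  refine lintegral_congr fun b => ?_
  rw [exitM_isometry hΦ R b hg]
  have : R (α • g + β • exitM Φ (b, g)) = α • R g + β • R (exitM Φ (b, g)) := by
    rw [map_add, map_smul, map_smul]
  rw [← this]
  rfl

/-- for almost all `(g, y)`, `α • g + β • g_out` is `0` or off a given line -/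
theorem ae_dl (hΦ : AdmissiblePotential Φ) (S : ScatFacts Φ) (α β : ℝ) (B C : Space3) :
    ∀ᵐ p : Space3 × Plane, ‖p.2‖ < 1 → dl Φ α β p ≠ 0 → ∀ l : ℝ, dl Φ α β p ≠ B + l • C := by
  have h := measure_lineSet (law Φ α β) (law_invariant hΦ S α β) B C
  unfold law at h
  rw [Measure.map_apply (measurable_dl S α β) (measurableSet_lineSet _ _)] at h
  have h2 : (volume : Measure Space3).prod (volume.restrict (Metric.ball (0 : Plane) 1)) =
      (volume : Measure (Space3 × Plane)).restrict (univ ×ˢ Metric.ball (0 : Plane) 1) := by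
    rw [Measure.volume_eq_prod, ← Measure.prod_restrict, Measure.restrict_univ]
  rw [h2] at h
  have h3 := (measure_eq_zero_iff_ae_notMem.1 h)
  rw [ae_restrict_iff' (MeasurableSet.univ.prod measurableSet_ball)] at h3
  filter_upwards [h3] with p hp hp1 hp2 l hl
  exact hp ⟨mem_univ _, by simpa using hp1⟩ ⟨hp2, l, hl⟩

end Crest.Agent.R122.Generic491

end
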