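import Mathlib
import Crest.Agent.R122.TreeSpec_674

/-!
Row 122, Theorem C (helper491), part 2: covariance of collision trees under translations and Galilean
boosts, for every `ε`.
-/

set_option autoImplicit false

open MeasureTheory Crest.AnalysisR.Kinetic Set
open scoped Classical ENNReal

noncomputable section

namespace Crest.Agent.R122.Generic491

open Kin796 Kin796.CTree Disc416 Tree674

variable {Φ : Space3 → ℝ} {ε : ℝ} {l r : CTree}

/-! ### Constructors and equation lemmas -/

/-- parameters of a node tree -/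
def mkP (a : NodeP) (pl : Par l) (pr : Par r) : Par (node l r) := (a, pl, pr)

/-- particle of the left branch -/
def inlI (l r : CTree) (i : Idx l) : Idx (node l r) := Sum.inl i

/-- particle of the right branch -/
def inrI (l r : CTree) (i : Idx r) : Idx (node l r) := Sum.inr i

lemma exists_mkP (p : Par (node l r)) : ∃ a pl pr, p = mkP a pl pr := ⟨p.1, p.2.1, p.2.2, rfl⟩

lemma idx_cases (i : Idx (node l r)) : (∃ i', i = inlI l r i') ∨ (∃ j', i = inrI l r j') := by
  rcases i with i | i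
  · exact Or.inl ⟨i, rfl⟩
  · exact Or.inr ⟨i, rfl⟩

lemma inlI_inj {i j : Idx l} : inlI l r i = inlI l r j ↔ i = j := Sum.inl_injective.eq_iff
lemma inrI_inj {i j : Idx r} : inrI l r i = inrI l r j ↔ i = j := Sum.inr_injective.eq_iff
lemma inlI_ne_inrI (i : Idx l) (j : Idx r) : inlI l r i ≠ inrI l r j := Sum.inl_ne_inr

lemma root_node (l r : CTree) : root (node l r) = inlI l r (root l) := rfl

lemma idx_leaf (i j : Idx leaf) : i = j := by
  cases i; cases j; rfl

lemma path_leaf (ℓ : PhasePoint) (p : Par leaf) (u : ℝ) (i : Idx leaf) :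
    path Φ ε leaf ℓ p u i = onLine ℓ u := rfl

lemma path_inl (ℓ : PhasePoint) (a : NodeP) (pl : Par l) (pr : Par r) (u : ℝ) (i : Idx l) :
    path Φ ε (node l r) ℓ (mkP a pl pr) u (inlI l r i) =
      if u ≤ sin Φ ε ℓ.2 a ∨ i ≠ root l then path Φ ε l (inMap Φ ε ℓ a).1 pl u i
      else (colPath Φ ε ℓ a u).1 := by
  show (if u ≤ sin Φ ε ℓ.2 a then
        Sum.elim (path Φ ε l (inMap Φ ε ℓ a).1 pl u) (path Φ ε r (inMap Φ ε ℓ a).2 pr u)
      else
        Sum.elim
          (Function.update (path Φ ε l (inMap Φ ε ℓ a).1 pl u) (root l)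
            (colPath Φ ε ℓ a u).1)
          (Function.update (path Φ ε r (inMap Φ ε ℓ a).2 pr u) (root r)
            (colPath Φ ε ℓ a u).2)) (Sum.inl i) = _
  by_cases h : u ≤ sin Φ ε ℓ.2 a
  · rw [if_pos h, if_pos (Or.inl h)]; rfl
  · rw [if_neg h]
    by_cases hi : i = root l
    · subst hi
      rw [if_neg (by simp [h])]
      simp
    · rw [if_pos (Or.inr hi)]
      simp [hi]

lemma path_inr (ℓ : PhasePoint) (a : NodeP) (pl : Par l) (pr : Par r) (u : ℝ) (i : Idx r) :
    path Φ ε (node l r) ℓ (mkP a pl pr) u (inrI l r i) =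
      if u ≤ sin Φ ε ℓ.2 a ∨ i ≠ root r then path Φ ε r (inMap Φ ε ℓ a).2 pr u i
      else (colPath Φ ε ℓ a u).2 := by
  show (if u ≤ sin Φ ε ℓ.2 a then
        Sum.elim (path Φ ε l (inMap Φ ε ℓ a).1 pl u) (path Φ ε r (inMap Φ ε ℓ a).2 pr u)
      else
        Sum.elim
          (Function.update (path Φ ε l (inMap Φ ε ℓ a).1 pl u) (root l)
            (colPath Φ ε ℓ a u).1)
          (Function.update (path Φ ε r (inMap Φ ε ℓ a).2 pr u) (root r)
            (colPath Φ ε ℓ a u).2)) (Sum.inr i) = _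
  by_cases h : u ≤ sin Φ ε ℓ.2 a
  · rw [if_pos h, if_pos (Or.inl h)]; rfl
  · rw [if_neg h]
    by_cases hi : i = root r
    · subst hi
      rw [if_neg (by simp [h])]
      simp
    · rw [if_pos (Or.inr hi)]
      simp [hi]

lemma lines_inl (ℓ : PhasePoint) (a : NodeP) (pl : Par l) (pr : Par r) (i : Idx l) :
    lines Φ ε (node l r) ℓ (mkP a pl pr) (inlI l r i) = lines Φ ε l (inMap Φ ε ℓ a).1 pl i := rfl

lemma lines_inr (ℓ : PhasePoint) (a : NodeP) (pl : Par l) (pr : Par r) (i : Idx r) :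
    lines Φ ε (node l r) ℓ (mkP a pl pr) (inrI l r i) = lines Φ ε r (inMap Φ ε ℓ a).2 pr i := rfl

lemma wt_node (v : Space3) (a : NodeP) (pl : Par l) (pr : Par r) :
    wt Φ (node l r) v (mkP a pl pr) = ENNReal.ofReal ‖v - a.2.1‖ *
      (wt Φ l (preV Φ v a).1 pl * wt Φ r (preV Φ v a).2 pr) := rfl

lemma adm_node (v : Space3) (a : NodeP) (pl : Par l) (pr : Par r) :
    Adm Φ (node l r) v (mkP a pl pr) ↔ Adm1 Φ v a ∧ Adm Φ l (preV Φ v a).1 pl ∧
      Adm Φ r (preV Φ v a).2 pr := Iff.rfl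

lemma ord_node (T : ℝ) (v : Space3) (a : NodeP) (pl : Par l) (pr : Par r) :
    Tree674.Ord Φ ε (node l r) T v (mkP a pl pr) ↔ a.1 < T ∧ 0 < sin Φ ε v a ∧
      Tree674.Ord Φ ε l (sin Φ ε v a) (preV Φ v a).1 pl ∧
      Tree674.Ord Φ ε r (sin Φ ε v a) (preV Φ v a).2 pr := Iff.rfl

lemma prot_inl (T : ℝ) (a : NodeP) (pl : Par l) (pr : Par r) (i : Idx l) :
    prot (node l r) T (mkP a pl pr) (inlI l r i) = prot l T pl i := rfl

lemma prot_inr (T : ℝ) (a : NodeP) (pl : Par l) (pr : Par r) (i : Idx r) :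
    prot (node l r) T (mkP a pl pr) (inrI l r i) = prot r a.1 pr i := rfl

lemma inWindow_node (v : Space3) (a : NodeP) (pl : Par l) (pr : Par r) (i j : Idx (node l r))
    (u : ℝ) : InWindow Φ ε (node l r) v (mkP a pl pr) i j u ↔
      (i = inlI l r (root l) ∧ j = inrI l r (root r) ∧ sin Φ ε v a ≤ u ∧ u ≤ a.1) ∨
      (∃ i' j', i = inlI l r i' ∧ j = inlI l r j' ∧ InWindow Φ ε l (preV Φ v a).1 pl i' j' u) ∨
      (∃ i' j', i = inrI l r i' ∧ j = inrI l r j' ∧ InWindow Φ ε r (preV Φ v a).2 pr i' j' u) :=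
  Iff.rfl

lemma inWindow_inl_inl (v : Space3) (a : NodeP) (pl : Par l) (pr : Par r) (i j : Idx l)
    (u : ℝ) : InWindow Φ ε (node l r) v (mkP a pl pr) (inlI l r i) (inlI l r j) u ↔
      InWindow Φ ε l (preV Φ v a).1 pl i j u := by
  rw [inWindow_node]
  constructor
  · rintro (⟨-, h, -⟩ | ⟨i', j', h1, h2, h⟩ | ⟨i', j', h1, h2, h⟩)
    · exact absurd h (inlI_ne_inrI _ _)
    · rw [inlI_inj] at h1 h2; subst h1 h2; exact h
    · exact absurd h1 (inlI_ne_inrI _ _)
  · intro h
    exact Or.inr (Or.inl ⟨i, j, rfl, rfl, h⟩)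

lemma inWindow_inr_inr (v : Space3) (a : NodeP) (pl : Par l) (pr : Par r) (i j : Idx r)
    (u : ℝ) : InWindow Φ ε (node l r) v (mkP a pl pr) (inrI l r i) (inrI l r j) u ↔
      InWindow Φ ε r (preV Φ v a).2 pr i j u := by
  rw [inWindow_node]
  constructor
  · rintro (⟨h, -⟩ | ⟨i', j', h1, h2, h⟩ | ⟨i', j', h1, h2, h⟩)
    · exact absurd h.symm (inlI_ne_inrI _ _)
    · exact absurd h1.symm (inlI_ne_inrI _ _)
    · rw [inrI_inj] at h1 h2; subst h1 h2; exact h
  · intro h
    exact Or.inr (Or.inr ⟨i, j, rfl, rfl, h⟩)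

lemma inWindow_inl_inr (v : Space3) (a : NodeP) (pl : Par l) (pr : Par r) (i : Idx l) (j : Idx r)
    (u : ℝ) : InWindow Φ ε (node l r) v (mkP a pl pr) (inlI l r i) (inrI l r j) u ↔
      i = root l ∧ j = root r ∧ sin Φ ε v a ≤ u ∧ u ≤ a.1 := by
  rw [inWindow_node, inlI_inj, inrI_inj]
  constructor
  · rintro (h | ⟨i', j', h1, h2, h⟩ | ⟨i', j', h1, h2, h⟩)
    · exact h
    · exact absurd h2.symm (inlI_ne_inrI _ _)
    · exact absurd h1 (inlI_ne_inrI _ _)
  · intro h
    exact Or.inl h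

lemma inWindow_inr_inl (v : Space3) (a : NodeP) (pl : Par l) (pr : Par r) (i : Idx r) (j : Idx l)
    (u : ℝ) : ¬ InWindow Φ ε (node l r) v (mkP a pl pr) (inrI l r i) (inlI l r j) u := by
  rw [inWindow_node]
  rintro (⟨h1, -⟩ | ⟨i', j', h1, h2, h⟩ | ⟨i', j', h1, h2, h⟩)
  · exact absurd h1.symm (inlI_ne_inrI _ _)
  · exact absurd h1.symm (inlI_ne_inrI _ _)
  · exact absurd h2 (inlI_ne_inrI _ _)

/-! ### Boosts -/

/-- translate and boost a line -/
def shL (A c : Space3) (ℓ : PhasePoint) : PhasePoint := (ℓ.1 + A, ℓ.2 + c)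

/-- boost a node -/
def boostN (c : Space3) (a : NodeP) : NodeP := (a.1, a.2.1 + c, a.2.2)

/-- boost all nodes of a tree -/
def boostP : ∀ P : CTree, Space3 → Par P → Par P
  | leaf => fun _ p => p
  | node l r => fun c p => (boostN c p.1, boostP l c p.2.1, boostP r c p.2.2)

@[simp] lemma shL_fst (A c : Space3) (ℓ : PhasePoint) : (shL A c ℓ).1 = ℓ.1 + A := rfl
@[simp] lemma shL_snd (A c : Space3) (ℓ : PhasePoint) : (shL A c ℓ).2 = ℓ.2 + c := rfl
@[simp] lemma boostN_fst (c : Space3) (a : NodeP) : (boostN c a).1 = a.1 := rfl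
@[simp] lemma boostN_snd (c : Space3) (a : NodeP) : (boostN c a).2.1 = a.2.1 + c := rfl
@[simp] lemma boostN_thd (c : Space3) (a : NodeP) : (boostN c a).2.2 = a.2.2 := rfl

lemma boostP_leaf (c : Space3) (p : Par leaf) : boostP leaf c p = p := rfl
lemma boostP_mk (c : Space3) (a : NodeP) (pl : Par l) (pr : Par r) :
    boostP (node l r) c (mkP a pl pr) = mkP (boostN c a) (boostP l c pl) (boostP r c pr) := rfl

@[simp] lemma shL_shL (A B c d : Space3) (ℓ : PhasePoint) :
    shL A c (shL B d ℓ) = shL (A + B) (c + d) ℓ := by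
  apply Prod.ext
  · simp only [shL_fst]; abel
  · simp only [shL_snd]; abel

@[simp] lemma shL_zero (ℓ : PhasePoint) : shL 0 0 ℓ = ℓ := by
  apply Prod.ext <;> simp

lemma shL_self (ℓ : PhasePoint) : shL ℓ.1 ℓ.2 0 = ℓ := by
  apply Prod.ext <;> simp [shL]

lemma boostN_boostN (c d : Space3) (a : NodeP) : boostN c (boostN d a) = boostN (c + d) a := by
  unfold boostN
  simp only [add_assoc, add_comm c d]

lemma boostN_zero (a : NodeP) : boostN 0 a = a := by
  unfold boostN
  simp

lemma boostP_boostP (P : CTree) (c d : Space3) (p : Par P) :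
    boostP P c (boostP P d p) = boostP P (c + d) p := by
  induction P with
  | leaf => rfl
  | node l r hl hr =>
    obtain ⟨a, pl, pr, rfl⟩ := exists_mkP p
    rw [boostP_mk, boostP_mk, boostP_mk, boostN_boostN, hl, hr]

lemma boostP_zero (P : CTree) (p : Par P) : boostP P 0 p = p := by
  induction P with
  | leaf => rfl
  | node l r hl hr =>
    obtain ⟨a, pl, pr, rfl⟩ := exists_mkP p
    rw [boostP_mk, boostN_zero, hl, hr]

lemma boostP_neg_cancel (P : CTree) (c : Space3) (p : Par P) :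
    boostP P c (boostP P (-c) p) = p := by
  rw [boostP_boostP, add_neg_cancel, boostP_zero]

lemma boostP_cancel_neg (P : CTree) (c : Space3) (p : Par P) :
    boostP P (-c) (boostP P c p) = p := by
  rw [boostP_boostP, neg_add_cancel, boostP_zero]

/-! ### Node covariance -/

@[simp] lemma ng_boost (v c : Space3) (a : NodeP) : ng (v + c) (boostN c a) = ng v a := by
  unfold ng; simp

@[simp] lemma nb_boost (v c : Space3) (a : NodeP) : nb (v + c) (boostN c a) = nb v a := by
  unfold nb; simp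

@[simp] lemma sin_boost (v c : Space3) (a : NodeP) :
    sin Φ ε (v + c) (boostN c a) = sin Φ ε v a := by
  unfold sin; simp

@[simp] lemma adm1_boost (v c : Space3) (a : NodeP) :
    Adm1 Φ (v + c) (boostN c a) ↔ Adm1 Φ v a := by
  unfold Adm1; simp

@[simp] lemma cmv_boost (v c : Space3) (a : NodeP) : cmv (v + c) (boostN c a) = cmv v a + c := by
  unfold cmv
  simp only [boostN_snd]
  module

lemma preV_boost (v c : Space3) (a : NodeP) :
    preV Φ (v + c) (boostN c a) = ((preV Φ v a).1 + c, (preV Φ v a).2 + c) := by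
  unfold preV postVelocities
  simp only [nb_boost, boostN_snd]
  have h : v + c - (a.2.1 + c) = v - a.2.1 := by abel
  rw [h]
  apply Prod.ext <;> dsimp only <;> module

@[simp] lemma preV_boost_fst (v c : Space3) (a : NodeP) :
    (preV Φ (v + c) (boostN c a)).1 = (preV Φ v a).1 + c := by rw [preV_boost]

@[simp] lemma preV_boost_snd (v c : Space3) (a : NodeP) :
    (preV Φ (v + c) (boostN c a)).2 = (preV Φ v a).2 + c := by rw [preV_boost]

lemma cms_boost (A c : Space3) (ℓ : PhasePoint) (a : NodeP) :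
    cms ε (shL A c ℓ) (boostN c a) = cms ε ℓ a + (A + a.1 • c) := by
  unfold cms
  simp only [shL_fst, shL_snd, boostN_fst, nb_boost, ng_boost]
  module

lemma xin_boost (A c : Space3) (ℓ : PhasePoint) (a : NodeP) :
    xin Φ ε (shL A c ℓ) (boostN c a) =
      ((xin Φ ε ℓ a).1 + (A + sin Φ ε ℓ.2 a • c), (xin Φ ε ℓ a).2 + (A + sin Φ ε ℓ.2 a • c)) := by
  unfold xin
  simp only [cms_boost, shL_snd, cmv_boost, nb_boost, ng_boost, sin]
  apply Prod.ext <;> dsimp only <;> module

lemma inMap_boost (A c : Space3) (ℓ : PhasePoint) (a : NodeP) :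
    inMap Φ ε (shL A c ℓ) (boostN c a) =
      (shL A c (inMap Φ ε ℓ a).1, shL A c (inMap Φ ε ℓ a).2) := by
  unfold inMap
  simp only [xin_boost, shL_snd, sin_boost, preV_boost]
  unfold shL
  apply Prod.ext <;> apply Prod.ext <;> dsimp only
  module
  module

@[simp] lemma inMap_boost_fst (A c : Space3) (ℓ : PhasePoint) (a : NodeP) :
    (inMap Φ ε (shL A c ℓ) (boostN c a)).1 = shL A c (inMap Φ ε ℓ a).1 := by rw [inMap_boost]

@[simp] lemma inMap_boost_snd (A c : Space3) (ℓ : PhasePoint) (a : NodeP) :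
    (inMap Φ ε (shL A c ℓ) (boostN c a)).2 = shL A c (inMap Φ ε ℓ a).2 := by rw [inMap_boost]

lemma inMap_fst_snd (ℓ : PhasePoint) (a : NodeP) :
    (inMap Φ ε ℓ a).1.2 = (preV Φ ℓ.2 a).1 := rfl

lemma inMap_snd_snd (ℓ : PhasePoint) (a : NodeP) :
    (inMap Φ ε ℓ a).2.2 = (preV Φ ℓ.2 a).2 := rfl

lemma outLine_boost (A c : Space3) (ℓ : PhasePoint) (a : NodeP) :
    outLine ε (shL A c ℓ) (boostN c a) = shL A c (outLine ε ℓ a) := by
  unfold outLine
  simp only [shL_fst, shL_snd, boostN_fst, boostN_snd, nb_boost, ng_boost]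
  apply Prod.ext
  · dsimp only [shL]; module
  · rfl

lemma onLine_boost (A c : Space3) (ℓ : PhasePoint) (u : ℝ) :
    onLine (shL A c ℓ) u = shL (A + u • c) c (onLine ℓ u) := by
  unfold onLine shL
  apply Prod.ext
  · dsimp only; module
  · rfl

lemma pairPath_boost (A c : Space3) (ℓ : PhasePoint) (a : NodeP) (u : ℝ) :
    pairPath Φ ε (shL A c ℓ) (boostN c a) u =
      (shL (A + u • c) c (pairPath Φ ε ℓ a u).1, shL (A + u • c) c (pairPath Φ ε ℓ a u).2) := by
  unfold pairPath
  simp only [cms_boost, shL_snd, cmv_boost, nb_boost, ng_boost, boostN_fst]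
  unfold shL
  apply Prod.ext <;> apply Prod.ext <;> dsimp only <;> module

lemma colPath_boost (A c : Space3) (ℓ : PhasePoint) (a : NodeP) (u : ℝ) :
    colPath Φ ε (shL A c ℓ) (boostN c a) u =
      (shL (A + u • c) c (colPath Φ ε ℓ a u).1, shL (A + u • c) c (colPath Φ ε ℓ a u).2) := by
  unfold colPath
  by_cases h : a.1 ≤ u
  · have h' : (boostN c a).1 ≤ u := h
    rw [if_pos h, if_pos h', outLine_boost, onLine_boost, onLine_boost]
  · have h' : ¬ (boostN c a).1 ≤ u := h
    rw [if_neg h, if_neg h', pairPath_boost]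

/-! ### Tree covariance -/

theorem path_boost (P : CTree) (A c : Space3) (ℓ : PhasePoint) (p : Par P) (u : ℝ) (i : Idx P) :
    path Φ ε P (shL A c ℓ) (boostP P c p) u i = shL (A + u • c) c (path Φ ε P ℓ p u i) := by
  induction P generalizing ℓ with
  | leaf => exact onLine_boost A c ℓ u
  | node l r hl hr =>
    obtain ⟨a, pl, pr, rfl⟩ := exists_mkP p
    rw [boostP_mk]
    rcases idx_cases i with ⟨i, rfl⟩ | ⟨i, rfl⟩
    · rw [path_inl, path_inl, shL_snd, sin_boost, inMap_boost_fst, hl, colPath_boost]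
      split_ifs <;> rfl
    · rw [path_inr, path_inr, shL_snd, sin_boost, inMap_boost_snd, hr, colPath_boost]
      split_ifs <;> rfl

theorem lines_boost (P : CTree) (A c : Space3) (ℓ : PhasePoint) (p : Par P) (i : Idx P) :
    lines Φ ε P (shL A c ℓ) (boostP P c p) i = shL A c (lines Φ ε P ℓ p i) := by
  induction P generalizing ℓ with
  | leaf => rfl
  | node l r hl hr =>
    obtain ⟨a, pl, pr, rfl⟩ := exists_mkP p
    rw [boostP_mk]
    rcases idx_cases i with ⟨i, rfl⟩ | ⟨i, rfl⟩
    · rw [lines_inl, lines_inl, inMap_boost_fst, hl]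
    · rw [lines_inr, lines_inr, inMap_boost_snd, hr]

theorem wt_boost (P : CTree) (c v : Space3) (p : Par P) :
    wt Φ P (v + c) (boostP P c p) = wt Φ P v p := by
  induction P generalizing v with
  | leaf => rfl
  | node l r hl hr =>
    obtain ⟨a, pl, pr, rfl⟩ := exists_mkP p
    rw [boostP_mk, wt_node, wt_node, preV_boost_fst, preV_boost_snd, hl, hr, boostN_snd,
      add_sub_add_right_eq_sub]

theorem adm_boost (P : CTree) (c v : Space3) (p : Par P) :
    Adm Φ P (v + c) (boostP P c p) ↔ Adm Φ P v p := by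
  induction P generalizing v with
  | leaf => rfl
  | node l r hl hr =>
    obtain ⟨a, pl, pr, rfl⟩ := exists_mkP p
    rw [boostP_mk, adm_node, adm_node, preV_boost_fst, preV_boost_snd, hl, hr, adm1_boost]

theorem ord_boost (P : CTree) (T : ℝ) (c v : Space3) (p : Par P) :
    Tree674.Ord Φ ε P T (v + c) (boostP P c p) ↔ Tree674.Ord Φ ε P T v p := by
  induction P generalizing v T with
  | leaf => rfl
  | node l r hl hr =>
    obtain ⟨a, pl, pr, rfl⟩ := exists_mkP p
    rw [boostP_mk, ord_node, ord_node, preV_boost_fst, preV_boost_snd, hl, hr, boostN_fst,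
      sin_boost]

theorem valid_boost (P : CTree) (T : ℝ) (c v : Space3) (p : Par P) :
    Valid Φ ε P T (v + c) (boostP P c p) ↔ Valid Φ ε P T v p := by
  unfold Valid
  rw [adm_boost, ord_boost]

theorem inWindow_boost (P : CTree) (c v : Space3) (p : Par P) (i j : Idx P) (u : ℝ) :
    InWindow Φ ε P (v + c) (boostP P c p) i j u ↔ InWindow Φ ε P v p i j u := by
  induction P generalizing v with
  | leaf => rfl
  | node l r hl hr =>
    obtain ⟨a, pl, pr, rfl⟩ := exists_mkP p
    rw [boostP_mk, inWindow_node, inWindow_node, preV_boost_fst, preV_boost_snd, boostN_fst,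
      sin_boost]
    simp only [hl, hr]

theorem gen_boost (P : CTree) (A c : Space3) (ℓ : PhasePoint) (p : Par P) :
    Gen Φ P (shL A c ℓ) (boostP P c p) ↔ Gen Φ P ℓ p := by
  unfold Gen
  simp only [path_boost, shL_fst, shL_snd, inWindow_boost, ne_eq, add_left_inj]

theorem sep_boost (P : CTree) (T : ℝ) (A c : Space3) (ℓ : PhasePoint) (p : Par P) :
    Tree674.Sep Φ ε P T (shL A c ℓ) (boostP P c p) ↔ Tree674.Sep Φ ε P T ℓ p := by
  unfold Tree674.Sep
  simp only [path_boost, shL_fst, shL_snd, inWindow_boost, dist_add_right]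

/-! ### Reduction to the rest frame of the root line -/

theorem gen_rest (P : CTree) (ℓ : PhasePoint) (p : Par P) :
    Gen Φ P ℓ p ↔ Gen Φ P 0 (boostP P (-ℓ.2) p) := by
  have h := gen_boost (Φ := Φ) P ℓ.1 ℓ.2 0 (boostP P (-ℓ.2) p)
  rwa [shL_self, boostP_neg_cancel] at h

theorem valid_rest (P : CTree) (T : ℝ) (v : Space3) (p : Par P) :
    Valid Φ ε P T v p ↔ Valid Φ ε P T 0 (boostP P (-v) p) := by
  have h := valid_boost (Φ := Φ) (ε := ε) P T v 0 (boostP P (-v) p)
  rwa [zero_add, boostP_neg_cancel] at h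

theorem inWindow_rest (P : CTree) (v : Space3) (p : Par P) (i j : Idx P) (u : ℝ) :
    InWindow Φ ε P v p i j u ↔ InWindow Φ ε P 0 (boostP P (-v) p) i j u := by
  have h := inWindow_boost (Φ := Φ) (ε := ε) P v 0 (boostP P (-v) p) i j u
  rwa [zero_add, boostP_neg_cancel] at h

theorem path_rest (P : CTree) (ℓ : PhasePoint) (p : Par P) (u : ℝ) (i : Idx P) :
    path Φ ε P ℓ p u i = shL (ℓ.1 + u • ℓ.2) ℓ.2 (path Φ ε P 0 (boostP P (-ℓ.2) p) u i) := by
  have h := path_boost (Φ := Φ) (ε := ε) P ℓ.1 ℓ.2 0 (boostP P (-ℓ.2) p) u i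
  rwa [shL_self, boostP_neg_cancel] at h

/-! ### Measurability and measure preservation -/

lemma measurable_boostN : Measurable fun q : Space3 × NodeP => boostN q.1 q.2 := by
  unfold boostN
  fun_prop

lemma measurable_boostP (P : CTree) : Measurable fun q : Space3 × Par P => boostP P q.1 q.2 := by
  induction P with
  | leaf => exact measurable_snd
  | node l r hl hr =>
    show Measurable fun q : Space3 × (NodeP × Par l × Par r) =>
      ((boostN q.1 q.2.1, boostP l q.1 q.2.2.1, boostP r q.1 q.2.2.2) : NodeP × Par l × Par r)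
    refine Measurable.prodMk ?_ (Measurable.prodMk ?_ ?_)
    · exact measurable_boostN.comp (f := fun q : Space3 × (NodeP × Par l × Par r) => (q.1, q.2.1))
        (by fun_prop)
    · exact hl.comp (f := fun q : Space3 × (NodeP × Par l × Par r) => (q.1, q.2.2.1))
        (by fun_prop)
    · exact hr.comp (f := fun q : Space3 × (NodeP × Par l × Par r) => (q.1, q.2.2.2))
        (by fun_prop)

lemma measurePreserving_boostN (c : Space3) :
    MeasurePreserving (boostN c) (volume : Measure NodeP) volume := by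
  have h := (MeasurePreserving.id (volume : Measure ℝ)).prod
    ((measurePreserving_add_right (volume : Measure Space3) c).prod
      (MeasurePreserving.id (volume : Measure Plane)))
  exact h

theorem measurePreserving_boostP (P : CTree) (c : Space3) :
    MeasurePreserving (boostP P c) (volume : Measure (Par P)) volume := by
  induction P with
  | leaf => exact MeasurePreserving.id _
  | node l r hl hr => exact (measurePreserving_boostN c).prod (hl.prod hr)

end Crest.Agent.R122.Generic491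

end
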