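import Mathlib
import Crest.Agent.R122.Generic1_491
import Crest.Agent.R122.Generic2_491

/-!
Row 122, Theorem C (helper491), part 3: straight-line trees in the rest frame of the root, candidate
lines, final lines.
-/

set_option autoImplicit false

open MeasureTheory Crest.AnalysisR.Kinetic Set
open scoped Classical ENNReal

noncomputable section

namespace Crest.Agent.R122.Generic491

open Kin796 Kin796.CTree Disc416 Tree674 Kin416 Boltz814

variable {Φ : Space3 → ℝ} {l r : CTree}

/-! ### Fubini for null sets -/

lemma ae_prod_of_left {α β : Type*} [MeasurableSpace α] [MeasurableSpace β] {μ : Measure α}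
    {ν : Measure β} [SFinite ν] {p : α × β → Prop} (hm : MeasurableSet {z | p z})
    (h : ∀ a, ∀ᵐ b ∂ν, p (a, b)) : ∀ᵐ z ∂(μ.prod ν), p z := by
  have := (Measure.ae_prod_mem_iff_ae_ae_mem (μ := μ) (ν := ν) hm).2 (Filter.Eventually.of_forall h)
  exact this

lemma ae_prod_of_right {α β : Type*} [MeasurableSpace α] [MeasurableSpace β] {μ : Measure α}
    {ν : Measure β} [SFinite μ] [SFinite ν] {p : α × β → Prop} (hm : MeasurableSet {z | p z})
    (h : ∀ b, ∀ᵐ a ∂μ, p (a, b)) : ∀ᵐ z ∂(μ.prod ν), p z := by
  have h1 : ∀ᵐ z ∂(ν.prod μ), p z.swap :=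
    ae_prod_of_left (p := fun z : β × α => p z.swap) (measurable_swap hm) h
  have h2 := (Measure.measurePreserving_swap (μ := μ) (ν := ν)).quasiMeasurePreserving.ae h1
  simpa using h2

/-! ### Straight-line nodes -/

@[simp] lemma sin_zero' (v : Space3) (a : NodeP) : sin Φ 0 v a = a.1 := by
  unfold sin; simp

/-- relative velocity and planar impact parameter (root at rest) -/
def gy (a : NodeP) : Space3 × Plane := (0 - a.2.1, a.2.2)

lemma measurable_gy : Measurable gy := by unfold gy; fun_prop

/-- measurable version of the velocity of the left incoming line (root at rest) -/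
def vM (Φ : Space3 → ℝ) (a : NodeP) : Space3 := -dl Φ (1 / 2) (-(1 / 2)) (gy a)

/-- measurable version of the velocity of the right incoming line (root at rest) -/
def wM (Φ : Space3 → ℝ) (a : NodeP) : Space3 := -dl Φ (1 / 2) (1 / 2) (gy a)

lemma measurable_vM (S : ScatFacts Φ) : Measurable (vM Φ) :=
  ((measurable_dl S _ _).comp measurable_gy).neg

lemma measurable_wM (S : ScatFacts Φ) : Measurable (wM Φ) :=
  ((measurable_dl S _ _).comp measurable_gy).neg

lemma exitM_gy {a : NodeP} (h : Adm1 Φ 0 a) :
    exitM Φ (frameMap (gy a).1 (gy a).2, (gy a).1) = exitVelocity Φ (nb 0 a) (0 - a.2.1) := by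
  have hg : (0 : Space3) - a.2.1 ≠ 0 := sub_ne_zero.2 h.2.1
  have hy : a.2.2 ∈ Metric.ball (0 : Plane) 1 := by simpa using h.1
  unfold exitM gy nb
  rw [if_pos (frameMap_mem_impactDisc hg hy)]

lemma preV_zero {a : NodeP} (h : Adm1 Φ 0 a) : preV Φ 0 a = (vM Φ a, wM Φ a) := by
  unfold vM wM dl preV postVelocities
  rw [exitM_gy h]
  unfold gy
  apply Prod.ext <;> dsimp only <;> module

lemma dl_exit {a : NodeP} (α β : ℝ) : dl Φ α β (gy a) =
    α • (0 - a.2.1) + β • exitM Φ (frameMap (gy a).1 (gy a).2, (gy a).1) := rfl

lemma dl_one : ∀ a : NodeP, dl Φ 0 1 (gy a) = vM Φ a - wM Φ a := by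
  intro a
  unfold vM wM dl
  module

lemma dl_neg_vM (a : NodeP) : dl Φ (1 / 2) (-(1 / 2)) (gy a) = -vM Φ a := by
  unfold vM; simp

lemma dl_neg_wM (a : NodeP) : dl Φ (1 / 2) (1 / 2) (gy a) = -wM Φ a := by
  unfold wM; simp

lemma dl_w_sub_wM (a : NodeP) : dl Φ (-(1 / 2)) (1 / 2) (gy a) = a.2.1 - wM Φ a := by
  unfold wM dl gy
  module

lemma dl_w_sub_vM (a : NodeP) : dl Φ (-(1 / 2)) (-(1 / 2)) (gy a) = a.2.1 - vM Φ a := by
  unfold vM dl gy
  module

lemma inMap_zero_fst (a : NodeP) :
    (inMap Φ 0 0 a).1 = (-(a.1 • (preV Φ 0 a).1), (preV Φ 0 a).1) := by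
  unfold inMap xin cms sin
  apply Prod.ext
  · simp
  · simp

lemma inMap_zero_snd (a : NodeP) :
    (inMap Φ 0 0 a).2 = (-(a.1 • (preV Φ 0 a).2), (preV Φ 0 a).2) := by
  unfold inMap xin cms sin
  apply Prod.ext
  · simp
  · simp

/-- relative position (root line `0`) -/
def rp (Φ : Space3 → ℝ) (P : CTree) (q : Par P) (u : ℝ) (i : Idx P) : Space3 :=
  (path Φ 0 P 0 q u i).1

lemma rp_leaf (q : Par leaf) (u : ℝ) (i : Idx leaf) : rp Φ leaf q u i = 0 := by
  unfold rp
  rw [path_leaf]
  simp [onLine]

lemma rp_inl {a : NodeP} (ha : Adm1 Φ 0 a) (pl : Par l) (pr : Par r) (u : ℝ) (i : Idx l) :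
    rp Φ (node l r) (mkP a pl pr) u (inlI l r i) =
      if u ≤ a.1 ∨ i ≠ root l then
        rp Φ l (boostP l (-vM Φ a) pl) u i + (u - a.1) • vM Φ a
      else 0 := by
  unfold rp
  rw [path_inl, sin_zero']
  by_cases h : u ≤ a.1 ∨ i ≠ root l
  · rw [if_pos h, if_pos h, path_rest, inMap_zero_fst, preV_zero ha]
    simp only [shL_fst]
    module
  · rw [if_neg h, if_neg h]
    push Not at h
    unfold colPath
    rw [if_pos h.1.le]
    simp [onLine]

lemma rp_inr {a : NodeP} (ha : Adm1 Φ 0 a) (pl : Par l) (pr : Par r) (u : ℝ) (i : Idx r) :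
    rp Φ (node l r) (mkP a pl pr) u (inrI l r i) =
      if u ≤ a.1 ∨ i ≠ root r then
        rp Φ r (boostP r (-wM Φ a) pr) u i + (u - a.1) • wM Φ a
      else (u - a.1) • a.2.1 := by
  unfold rp
  rw [path_inr, sin_zero']
  by_cases h : u ≤ a.1 ∨ i ≠ root r
  · rw [if_pos h, if_pos h, path_rest, inMap_zero_snd, preV_zero ha]
    simp only [shL_fst]
    module
  · rw [if_neg h, if_neg h]
    push Not at h
    unfold colPath
    rw [if_pos h.1.le]
    simp only [onLine, outLine]
    simp
    module

lemma valid_left {T : ℝ} {a : NodeP} {pl : Par l} {pr : Par r}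
    (h : Valid Φ 0 (node l r) T 0 (mkP a pl pr)) :
    Valid Φ 0 l a.1 0 (boostP l (-vM Φ a) pl) := by
  obtain ⟨h1, h2⟩ := h
  rw [adm_node] at h1
  rw [ord_node] at h2
  rw [preV_zero h1.1] at h1 h2
  rw [sin_zero'] at h2
  rw [← valid_rest]
  exact ⟨h1.2.1, h2.2.2.1⟩

lemma valid_right {T : ℝ} {a : NodeP} {pl : Par l} {pr : Par r}
    (h : Valid Φ 0 (node l r) T 0 (mkP a pl pr)) :
    Valid Φ 0 r a.1 0 (boostP r (-wM Φ a) pr) := by
  obtain ⟨h1, h2⟩ := h
  rw [adm_node] at h1
  rw [ord_node] at h2
  rw [preV_zero h1.1] at h1 h2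
  rw [sin_zero'] at h2
  rw [← valid_rest]
  exact ⟨h1.2.2, h2.2.2.2⟩

/-- relative coordinates of a node tree -/
def relM (Φ : Space3 → ℝ) (l r : CTree) (z : Par (node l r)) : NodeP × (Par l × Par r) :=
  (z.1, (boostP l (-vM Φ z.1) z.2.1, boostP r (-wM Φ z.1) z.2.2))

lemma relM_mkP (a : NodeP) (pl : Par l) (pr : Par r) :
    relM Φ l r (mkP a pl pr) = (a, (boostP l (-vM Φ a) pl, boostP r (-wM Φ a) pr)) := rfl

theorem measurePreserving_relM (S : ScatFacts Φ) (l r : CTree) :
    MeasurePreserving (relM Φ l r) (volume : Measure (Par (node l r)))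
      ((volume : Measure NodeP).prod
        ((volume : Measure (Par l)).prod (volume : Measure (Par r)))) := by
  have h := MeasurePreserving.skew_product (μa := (volume : Measure NodeP))
    (μb := (volume : Measure NodeP))
    (μc := (volume : Measure (Par l)).prod (volume : Measure (Par r)))
    (μd := (volume : Measure (Par l)).prod (volume : Measure (Par r)))
    (f := id) (MeasurePreserving.id _)
    (g := fun a q => (boostP l (-vM Φ a) q.1, boostP r (-wM Φ a) q.2)) ?_ ?_
  · exact h
  · refine Measurable.prodMk ?_ ?_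
    · exact (measurable_boostP l).comp (f := fun z : NodeP × (Par l × Par r) => (-vM Φ z.1, z.2.1))
        ((((measurable_vM S).comp measurable_fst).neg).prodMk
          (measurable_fst.comp measurable_snd))
    · exact (measurable_boostP r).comp (f := fun z : NodeP × (Par l × Par r) => (-wM Φ z.1, z.2.2))
        ((((measurable_wM S).comp measurable_fst).neg).prodMk
          (measurable_snd.comp measurable_snd))
  · refine Filter.Eventually.of_forall fun a => ?_
    exact ((measurePreserving_boostP l _).prod (measurePreserving_boostP r _)).map_eq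

/-! ### Candidate lines -/

/-- Every particle is at any time on one of countably many lines depending measurably on the
parameters. -/
theorem exists_cand (S : ScatFacts Φ) (P : CTree) :
    ∃ (ι : Type) (_ : Countable ι) (L : ι → Par P → PhasePoint), (∀ k, Measurable (L k)) ∧
      ∀ q : Par P, Adm Φ P 0 q → ∀ (i : Idx P) (u : ℝ), ∃ k,
        rp Φ P q u i = (L k q).1 + u • (L k q).2 := by
  induction P with
  | leaf =>
    refine ⟨Unit, inferInstance, fun _ _ => 0, fun _ => measurable_const, fun q _ i u => ⟨(), ?_⟩⟩
    rw [rp_leaf]; simp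
  | node l r hl hr =>
    obtain ⟨ιl, hιl, Ll, hLl, hcl⟩ := hl
    obtain ⟨ιr, hιr, Lr, hLr, hcr⟩ := hr
    have hm := (measurePreserving_relM S l r).measurable
    refine ⟨ιl ⊕ ιr ⊕ Bool, inferInstance, fun k z => match k with
      | Sum.inl k => shL (-((relM Φ l r z).1.1 • vM Φ (relM Φ l r z).1)) (vM Φ (relM Φ l r z).1)
          (Ll k (relM Φ l r z).2.1)
      | Sum.inr (Sum.inl k) => shL (-((relM Φ l r z).1.1 • wM Φ (relM Φ l r z).1))
          (wM Φ (relM Φ l r z).1) (Lr k (relM Φ l r z).2.2)
      | Sum.inr (Sum.inr true) => 0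
      | Sum.inr (Sum.inr false) => (-((relM Φ l r z).1.1 • (relM Φ l r z).1.2.1),
          (relM Φ l r z).1.2.1), ?_, ?_⟩
    · have hmeas : ∀ {f : NodeP × (Par l × Par r) → PhasePoint}, Measurable f →
          Measurable fun z => f (relM Φ l r z) := fun hf => hf.comp hm
      have hfst : Measurable fun z : NodeP × (Par l × Par r) => z.1.1 :=
        measurable_fst.comp measurable_fst
      have hw : Measurable fun z : NodeP × (Par l × Par r) => z.1.2.1 :=
        measurable_fst.comp (measurable_snd.comp measurable_fst)
      have hv1 : Measurable fun z : NodeP × (Par l × Par r) => vM Φ z.1 :=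
        (measurable_vM S).comp measurable_fst
      have hw1 : Measurable fun z : NodeP × (Par l × Par r) => wM Φ z.1 :=
        (measurable_wM S).comp measurable_fst
      rintro (k | k | b)
      · refine hmeas (f := fun z => shL (-(z.1.1 • vM Φ z.1)) (vM Φ z.1) (Ll k z.2.1)) ?_
        have h1 : Measurable fun z : NodeP × (Par l × Par r) => Ll k z.2.1 :=
          (hLl k).comp (measurable_fst.comp measurable_snd)
        exact ((measurable_fst.comp h1).add (hfst.smul hv1).neg).prodMk
          ((measurable_snd.comp h1).add hv1)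
      · refine hmeas (f := fun z => shL (-(z.1.1 • wM Φ z.1)) (wM Φ z.1) (Lr k z.2.2)) ?_
        have h1 : Measurable fun z : NodeP × (Par l × Par r) => Lr k z.2.2 :=
          (hLr k).comp (measurable_snd.comp measurable_snd)
        exact ((measurable_fst.comp h1).add (hfst.smul hw1).neg).prodMk
          ((measurable_snd.comp h1).add hw1)
      · cases b with
        | true => exact measurable_const
        | false =>
          exact hmeas (f := fun z => (-(z.1.1 • z.1.2.1), z.1.2.1)) ((hfst.smul hw).neg.prodMk hw)
    · intro q hq i u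
      obtain ⟨a, pl, pr, rfl⟩ := exists_mkP q
      rw [adm_node] at hq
      have ha := hq.1
      rw [preV_zero ha] at hq
      rcases idx_cases i with ⟨i, rfl⟩ | ⟨i, rfl⟩
      · rw [rp_inl ha]
        split_ifs with h
        · have hq1 : Adm Φ l 0 (boostP l (-vM Φ a) pl) := by
            have := (adm_boost (Φ := Φ) l (-vM Φ a) (vM Φ a) pl).2 hq.2.1
            rwa [add_neg_cancel] at this
          obtain ⟨k, hk⟩ := hcl _ hq1 i u
          refine ⟨Sum.inl k, ?_⟩
          simp only [relM_mkP, shL_fst, shL_snd]
          rw [hk]; module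
        · refine ⟨Sum.inr (Sum.inr true), ?_⟩
          simp
      · rw [rp_inr ha]
        split_ifs with h
        · have hq1 : Adm Φ r 0 (boostP r (-wM Φ a) pr) := by
            have := (adm_boost (Φ := Φ) r (-wM Φ a) (wM Φ a) pr).2 hq.2.2
            rwa [add_neg_cancel] at this
          obtain ⟨k, hk⟩ := hcr _ hq1 i u
          refine ⟨Sum.inr (Sum.inl k), ?_⟩
          simp only [relM_mkP, shL_fst, shL_snd]
          rw [hk]; module
        · refine ⟨Sum.inr (Sum.inr false), ?_⟩
          simp only [relM_mkP]
          module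

/-! ### Final lines -/

/-- After all nodes, a non-root particle is on a line with diffuse velocity. -/
theorem exists_final (S : ScatFacts Φ) (P : CTree) (i : Idx P) (hi : i ≠ root P) :
    ∃ L : Par P → PhasePoint, Measurable L ∧
      (∀ (q : Par P) (T : ℝ), Valid Φ 0 P T 0 q → ∀ u, T ≤ u →
        rp Φ P q u i = (L q).1 + u • (L q).2) ∧
      ∀ c : Space3, ∀ᵐ q : Par P, (L q).2 ≠ c := by
  induction P with
  | leaf => exact absurd (idx_leaf _ _) hi
  | node l r hl hr =>
    have hmp := measurePreserving_relM S l r
    have hm := hmp.measurable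
    have hfst : Measurable fun z : NodeP × (Par l × Par r) => z.1.1 :=
      measurable_fst.comp measurable_fst
    have hw : Measurable fun z : NodeP × (Par l × Par r) => z.1.2.1 :=
      measurable_fst.comp (measurable_snd.comp measurable_fst)
    have hv1 : Measurable fun z : NodeP × (Par l × Par r) => vM Φ z.1 :=
      (measurable_vM S).comp measurable_fst
    have hw1 : Measurable fun z : NodeP × (Par l × Par r) => wM Φ z.1 :=
      (measurable_wM S).comp measurable_fst
    rcases idx_cases i with ⟨i, rfl⟩ | ⟨i, rfl⟩
    · have hi' : i ≠ root l := fun h => hi (by rw [h]; rfl)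
      obtain ⟨L, hL, hLq, hLc⟩ := hl i hi'
      have h1 : Measurable fun z : NodeP × (Par l × Par r) => L z.2.1 :=
        hL.comp (measurable_fst.comp measurable_snd)
      have hF : Measurable fun z : NodeP × (Par l × Par r) =>
          shL (-(z.1.1 • vM Φ z.1)) (vM Φ z.1) (L z.2.1) :=
        ((measurable_fst.comp h1).add (hfst.smul hv1).neg).prodMk
          ((measurable_snd.comp h1).add hv1)
      refine ⟨fun z => shL (-((relM Φ l r z).1.1 • vM Φ (relM Φ l r z).1))
        (vM Φ (relM Φ l r z).1) (L (relM Φ l r z).2.1), hF.comp hm, ?_, ?_⟩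
      · intro q T hq u hu
        obtain ⟨a, pl, pr, rfl⟩ := exists_mkP q
        have ha : Adm1 Φ 0 a := hq.1.1
        have hT : a.1 < T := hq.2.1
        rw [rp_inl ha, if_pos (Or.inr hi')]
        simp only [relM_mkP, shL_fst, shL_snd]
        rw [hLq _ a.1 (valid_left hq) u (hT.le.trans hu)]
        module
      · intro c
        have h2 : ∀ᵐ z ∂((volume : Measure NodeP).prod
            ((volume : Measure (Par l)).prod (volume : Measure (Par r)))),
            (L z.2.1).2 + vM Φ z.1 ≠ c := by
          refine ae_prod_of_left ?_ ?_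
          · exact ((measurable_snd.comp h1).add hv1) (measurableSet_singleton c).compl
          · intro a
            have h3 := (Measure.quasiMeasurePreserving_fst (μ := (volume : Measure (Par l)))
              (ν := (volume : Measure (Par r)))).ae (hLc (c - vM Φ a))
            filter_upwards [h3] with b hb h
            exact hb (by rw [← h]; simp)
        exact hmp.quasiMeasurePreserving.ae h2
    · by_cases hi' : i = root r
      · have hF : Measurable fun z : NodeP × (Par l × Par r) =>
          ((-(z.1.1 • z.1.2.1), z.1.2.1) : PhasePoint) := (hfst.smul hw).neg.prodMk hw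
        refine ⟨fun z => (-((relM Φ l r z).1.1 • (relM Φ l r z).1.2.1),
          (relM Φ l r z).1.2.1), hF.comp hm, ?_, ?_⟩
        · intro q T hq u hu
          obtain ⟨a, pl, pr, rfl⟩ := exists_mkP q
          have ha : Adm1 Φ 0 a := hq.1.1
          have hT : a.1 < T := hq.2.1
          rw [rp_inr ha, if_neg (by
            push Not
            exact ⟨hT.trans_le hu, hi'⟩)]
          simp only [relM_mkP]
          module
        · intro c
          have h2 : ∀ᵐ z ∂((volume : Measure NodeP).prod
              ((volume : Measure (Par l)).prod (volume : Measure (Par r)))),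
              z.1.2.1 ≠ c := by
            refine ae_prod_of_right (hw (measurableSet_singleton c).compl) ?_
            intro b
            refine ae_prod_of_left (p := fun a : ℝ × (Space3 × Plane) => a.2.1 ≠ c)
              ((measurable_fst.comp measurable_snd) (measurableSet_singleton c).compl) ?_
            intro s
            exact (Measure.quasiMeasurePreserving_fst (μ := (volume : Measure Space3))
              (ν := (volume : Measure Plane))).ae
              (compl_mem_ae_iff.2 (MeasureTheory.measure_singleton c))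
          exact hmp.quasiMeasurePreserving.ae h2
      · obtain ⟨L, hL, hLq, hLc⟩ := hr i hi'
        have h1 : Measurable fun z : NodeP × (Par l × Par r) => L z.2.2 :=
          hL.comp (measurable_snd.comp measurable_snd)
        have hF : Measurable fun z : NodeP × (Par l × Par r) =>
            shL (-(z.1.1 • wM Φ z.1)) (wM Φ z.1) (L z.2.2) :=
          ((measurable_fst.comp h1).add (hfst.smul hw1).neg).prodMk
            ((measurable_snd.comp h1).add hw1)
        refine ⟨fun z => shL (-((relM Φ l r z).1.1 • wM Φ (relM Φ l r z).1))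
          (wM Φ (relM Φ l r z).1) (L (relM Φ l r z).2.2), hF.comp hm, ?_, ?_⟩
        · intro q T hq u hu
          obtain ⟨a, pl, pr, rfl⟩ := exists_mkP q
          have ha : Adm1 Φ 0 a := hq.1.1
          have hT : a.1 < T := hq.2.1
          rw [rp_inr ha, if_pos (Or.inr hi')]
          simp only [relM_mkP, shL_fst, shL_snd]
          rw [hLq _ a.1 (valid_right hq) u (hT.le.trans hu)]
          module
        · intro c
          have h2 : ∀ᵐ z ∂((volume : Measure NodeP).prod
              ((volume : Measure (Par l)).prod (volume : Measure (Par r)))),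
              (L z.2.2).2 + wM Φ z.1 ≠ c := by
            refine ae_prod_of_left ?_ ?_
            · exact ((measurable_snd.comp h1).add hw1) (measurableSet_singleton c).compl
            · intro a
              have h3 := (Measure.quasiMeasurePreserving_snd (μ := (volume : Measure (Par l)))
                (ν := (volume : Measure (Par r)))).ae (hLc (c - wM Φ a))
              filter_upwards [h3] with b hb h
              exact hb (by rw [← h]; simp)
          exact hmp.quasiMeasurePreserving.ae h2

end Crest.Agent.R122.Generic491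

end
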