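import Mathlib
import Crest.Agent.R122.Generic3_491

/-!
Row 122, Theorem C (helper491), part 4: almost every valid straight-line tree is generic.
-/

set_option autoImplicit false

open MeasureTheory Crest.AnalysisR.Kinetic Set
open scoped Classical ENNReal

noncomputable section

namespace Crest.Agent.R122.Generic491

open Kin796 Kin796.CTree Disc416 Tree674 Kin416 Boltz814

variable {Φ : Space3 → ℝ} {l r : CTree}

/-! ### Null sets in the parameters of a node -/

lemma measurableSet_coll : MeasurableSet {p : Space3 × Space3 | ∃ t : ℝ, p.1 = t • p.2} := by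
  have h : {p : Space3 × Space3 | ∃ t : ℝ, p.1 = t • p.2} =
      range fun q : ℝ × Space3 => (q.1 • q.2, q.2) := by
    ext p
    constructor
    · rintro ⟨t, ht⟩
      exact ⟨(t, p.2), Prod.ext ht.symm rfl⟩
    · rintro ⟨⟨t, c⟩, rfl⟩
      exact ⟨t, rfl⟩
  rw [h]
  obtain ⟨K, hK, hKu⟩ := isSigmaCompact_range (f := fun q : ℝ × Space3 => (q.1 • q.2, q.2))
    (by fun_prop)
  rw [← hKu]
  exact MeasurableSet.iUnion fun n => (hK n).isClosed.measurableSet

theorem ae_node (hΦ : AdmissiblePotential Φ) (S : ScatFacts Φ) (α β : ℝ) (l r : CTree)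
    {B C : ℝ × (Par l × Par r) → Space3} (hB : Measurable B) (hC : Measurable C) :
    ∀ᵐ z ∂((volume : Measure NodeP).prod
      ((volume : Measure (Par l)).prod (volume : Measure (Par r)))),
      ‖z.1.2.2‖ < 1 → dl Φ α β (gy z.1) ≠ 0 →
        ∀ t : ℝ, dl Φ α β (gy z.1) ≠ B (z.1.1, z.2) + t • C (z.1.1, z.2) := by
  have hd : Measurable fun z : NodeP × (Par l × Par r) => dl Φ α β (gy z.1) :=
    (measurable_dl S α β).comp (measurable_gy.comp measurable_fst)
  have hs : Measurable fun z : NodeP × (Par l × Par r) => (z.1.1, z.2) :=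
    (measurable_fst.comp measurable_fst).prodMk measurable_snd
  have hy : Measurable fun z : NodeP × (Par l × Par r) => ‖z.1.2.2‖ :=
    (measurable_snd.comp (measurable_snd.comp measurable_fst)).norm
  refine ae_prod_of_right ?_ ?_
  · have hset : {z : NodeP × (Par l × Par r) | ‖z.1.2.2‖ < 1 → dl Φ α β (gy z.1) ≠ 0 →
        ∀ t : ℝ, dl Φ α β (gy z.1) ≠ B (z.1.1, z.2) + t • C (z.1.1, z.2)} =
        {z | ‖z.1.2.2‖ < 1}ᶜ ∪ ({z | dl Φ α β (gy z.1) = 0} ∪
          ((fun z : NodeP × (Par l × Par r) => (dl Φ α β (gy z.1) - B (z.1.1, z.2),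
            C (z.1.1, z.2))) ⁻¹' {p : Space3 × Space3 | ∃ t : ℝ, p.1 = t • p.2})ᶜ) := by
      ext z
      simp only [mem_ofPred_eq, mem_union, mem_compl_iff, mem_preimage, not_exists,
        sub_eq_iff_eq_add']
      tauto
    rw [hset]
    refine (measurableSet_lt hy measurable_const).compl.union
      ((hd (measurableSet_singleton 0)).union ?_)
    exact (((hd.sub (hB.comp hs)).prodMk (hC.comp hs)) measurableSet_coll).compl
  · intro b
    have hd1 : Measurable fun a : NodeP => dl Φ α β (gy a) :=
      (measurable_dl S α β).comp measurable_gy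
    have hs1 : Measurable fun a : NodeP => (a.1, b) := measurable_fst.prodMk measurable_const
    refine ae_prod_of_left (α := ℝ) (β := Space3 × Plane) (p := fun a : NodeP =>
      ‖a.2.2‖ < 1 → dl Φ α β (gy a) ≠ 0 →
        ∀ t : ℝ, dl Φ α β (gy a) ≠ B (a.1, b) + t • C (a.1, b)) ?_ ?_
    · have hset : {a : NodeP | ‖a.2.2‖ < 1 → dl Φ α β (gy a) ≠ 0 →
          ∀ t : ℝ, dl Φ α β (gy a) ≠ B (a.1, b) + t • C (a.1, b)} =
          {a | ‖a.2.2‖ < 1}ᶜ ∪ ({a | dl Φ α β (gy a) = 0} ∪
            ((fun a : NodeP => (dl Φ α β (gy a) - B (a.1, b), C (a.1, b))) ⁻¹'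
              {p : Space3 × Space3 | ∃ t : ℝ, p.1 = t • p.2})ᶜ) := by
        ext z
        simp only [mem_ofPred_eq, mem_union, mem_compl_iff, mem_preimage, not_exists,
          sub_eq_iff_eq_add']
        tauto
      rw [hset]
      refine (measurableSet_lt (measurable_snd.comp measurable_snd).norm
        measurable_const).compl.union ((hd1 (measurableSet_singleton 0)).union ?_)
      exact (((hd1.sub (hB.comp hs1)).prodMk (hC.comp hs1)) measurableSet_coll).compl
    · intro s
      have hneg : MeasurePreserving (fun c : Space3 => 0 - c) (volume : Measure Space3) volume := by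
        have := Measure.measurePreserving_neg (volume : Measure Space3)
        simpa only [zero_sub] using this
      have hqmp : MeasurePreserving (fun c : Space3 × Plane => (0 - c.1, c.2))
          (volume : Measure (Space3 × Plane)) volume :=
        hneg.prod (MeasurePreserving.id _)
      exact hqmp.quasiMeasurePreserving.ae (ae_dl hΦ S α β (B (s, b)) (C (s, b)))

lemma no_meet {X A B D : Space3} {s u : ℝ} (hX : X = A + u • B) (hu : u ≠ s)
    (hD : ∀ t : ℝ, D ≠ B + t • (A + s • B)) : X ≠ (u - s) • D := by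
  intro h
  apply hD (u - s)⁻¹
  have hne : u - s ≠ 0 := sub_ne_zero.2 hu
  have h1 : A + s • B = (u - s) • (D - B) := by
    rw [smul_sub, ← h, hX]; module
  rw [h1, smul_smul, inv_mul_cancel₀ hne, one_smul]
  abel

/-! ### Deterministic facts -/

lemma inWindow_lt (P : CTree) (T : ℝ) (v : Space3) (p : Par P) (h : Tree674.Ord Φ 0 P T v p)
    (i j : Idx P) (u : ℝ) (hw : InWindow Φ 0 P v p i j u) : u < T := by
  induction P generalizing T v with
  | leaf => exact absurd hw id
  | node l r hl hr =>
    obtain ⟨a, pl, pr, rfl⟩ := exists_mkP p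
    rw [ord_node, sin_zero'] at h
    rw [inWindow_node] at hw
    rcases hw with ⟨-, -, -, h1⟩ | ⟨i', j', -, -, h1⟩ | ⟨i', j', -, -, h1⟩
    · exact h1.trans_lt h.1
    · exact (hl _ _ _ h.2.2.1 _ _ h1).trans h.1
    · exact (hr _ _ _ h.2.2.2 _ _ h1).trans h.1

lemma rp_root (P : CTree) (T : ℝ) (q : Par P) (h : Valid Φ 0 P T 0 q) (u : ℝ) (hu : T ≤ u) :
    rp Φ P q u (root P) = 0 := by
  cases P with
  | leaf => exact rp_leaf _ _ _
  | node l r =>
    obtain ⟨a, pl, pr, rfl⟩ := exists_mkP q
    have hT : a.1 < T := h.2.1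
    have ha : Adm1 Φ 0 a := h.1.1
    rw [root_node, rp_inl ha, if_neg]
    push Not
    exact ⟨hT.trans_le hu, rfl⟩

/-- The deterministic part of the induction step. -/
theorem gen_node {T : ℝ} {a : NodeP} {pl : Par l} {pr : Par r}
    (hV : Valid Φ 0 (node l r) T 0 (mkP a pl pr))
    (hGl : Gen Φ l 0 (boostP l (-vM Φ a) pl)) (hGr : Gen Φ r 0 (boostP r (-wM Φ a) pr))
    (h1 : ∀ i u, u ≠ a.1 → -vM Φ a ≠ 0 →
      rp Φ l (boostP l (-vM Φ a) pl) u i ≠ (u - a.1) • (-vM Φ a))
    (h2 : ∀ i u, u ≠ a.1 → a.2.1 - vM Φ a ≠ 0 →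
      rp Φ l (boostP l (-vM Φ a) pl) u i ≠ (u - a.1) • (a.2.1 - vM Φ a))
    (h3 : ∀ i u, u ≠ a.1 → -wM Φ a ≠ 0 →
      rp Φ r (boostP r (-wM Φ a) pr) u i ≠ (u - a.1) • (-wM Φ a))
    (h4 : ∀ i u, u ≠ a.1 → a.2.1 - wM Φ a ≠ 0 →
      rp Φ r (boostP r (-wM Φ a) pr) u i ≠ (u - a.1) • (a.2.1 - wM Φ a))
    (h5 : ∀ i j u, u ≠ a.1 →
      rp Φ r (boostP r (-wM Φ a) pr) u j - rp Φ l (boostP l (-vM Φ a) pl) u i ≠
        (u - a.1) • (vM Φ a - wM Φ a))
    (h6 : ∀ i j, i ≠ root l → j ≠ root r →
      rp Φ l (boostP l (-vM Φ a) pl) a.1 i ≠ rp Φ r (boostP r (-wM Φ a) pr) a.1 j) :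
    Gen Φ (node l r) 0 (mkP a pl pr) := by
  have ha : Adm1 Φ 0 a := hV.1.1
  have hVl := valid_left hV
  have hVr := valid_right hV
  set ql := boostP l (-vM Φ a) pl with hql
  set qr := boostP r (-wM Φ a) pr with hqr
  -- windows of the branches
  have hwl : ∀ i j u, InWindow Φ 0 l (preV Φ 0 a).1 pl i j u ↔ InWindow Φ 0 l 0 ql i j u := by
    intro i j u
    rw [preV_zero ha, hql]
    exact inWindow_rest l _ pl i j u
  have hwr : ∀ i j u, InWindow Φ 0 r (preV Φ 0 a).2 pr i j u ↔ InWindow Φ 0 r 0 qr i j u := by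
    intro i j u
    rw [preV_zero ha, hqr]
    exact inWindow_rest r _ pr i j u
  have hGl' : ∀ i j, i ≠ j → ∀ u, 0 ≤ u → ¬ InWindow Φ 0 l 0 ql i j u →
      ¬ InWindow Φ 0 l 0 ql j i u → rp Φ l ql u i ≠ rp Φ l ql u j := hGl
  have hGr' : ∀ i j, i ≠ j → ∀ u, 0 ≤ u → ¬ InWindow Φ 0 r 0 qr i j u →
      ¬ InWindow Φ 0 r 0 qr j i u → rp Φ r qr u i ≠ rp Φ r qr u j := hGr
  -- after the node time the branches have no coincidence
  have hafl : ∀ i j, i ≠ j → ∀ u, 0 ≤ u → a.1 ≤ u → rp Φ l ql u i ≠ rp Φ l ql u j := by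
    intro i j hij u hu hau
    refine hGl' i j hij u hu ?_ ?_
    · intro hw; exact absurd (inWindow_lt l a.1 0 ql hVl.2 i j u hw) (not_lt.2 hau)
    · intro hw; exact absurd (inWindow_lt l a.1 0 ql hVl.2 j i u hw) (not_lt.2 hau)
  have hafr : ∀ i j, i ≠ j → ∀ u, 0 ≤ u → a.1 ≤ u → rp Φ r qr u i ≠ rp Φ r qr u j := by
    intro i j hij u hu hau
    refine hGr' i j hij u hu ?_ ?_
    · intro hw; exact absurd (inWindow_lt r a.1 0 qr hVr.2 i j u hw) (not_lt.2 hau)
    · intro hw; exact absurd (inWindow_lt r a.1 0 qr hVr.2 j i u hw) (not_lt.2 hau)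
  -- outgoing root against a released particle of a branch
  have hL0 : ∀ j, j ≠ root l → ∀ u, 0 ≤ u → a.1 < u →
      rp Φ l ql u j + (u - a.1) • vM Φ a ≠ 0 := by
    intro j hj u hu hau h
    by_cases hv : -vM Φ a = 0
    · have hv' : vM Φ a = 0 := neg_eq_zero.1 hv
      rw [hv', smul_zero, add_zero] at h
      refine hafl j (root l) hj u hu hau.le ?_
      rw [h, rp_root l a.1 ql hVl u hau.le]
    · refine h1 j u hau.ne' hv ?_
      rw [smul_neg]
      exact eq_neg_of_add_eq_zero_left h
  have hLw : ∀ j, j ≠ root l → ∀ u, 0 ≤ u → a.1 < u →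
      rp Φ l ql u j + (u - a.1) • vM Φ a ≠ (u - a.1) • a.2.1 := by
    intro j hj u hu hau h
    have h' : rp Φ l ql u j = (u - a.1) • (a.2.1 - vM Φ a) := by
      rw [smul_sub, ← h, add_sub_cancel_right]
    by_cases hv : a.2.1 - vM Φ a = 0
    · rw [hv, smul_zero] at h'
      refine hafl j (root l) hj u hu hau.le ?_
      rw [h', rp_root l a.1 ql hVl u hau.le]
    · exact h2 j u hau.ne' hv h'
  have hR0 : ∀ j, j ≠ root r → ∀ u, 0 ≤ u → a.1 < u →
      rp Φ r qr u j + (u - a.1) • wM Φ a ≠ 0 := by
    intro j hj u hu hau h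
    by_cases hv : -wM Φ a = 0
    · have hv' : wM Φ a = 0 := neg_eq_zero.1 hv
      rw [hv', smul_zero, add_zero] at h
      refine hafr j (root r) hj u hu hau.le ?_
      rw [h, rp_root r a.1 qr hVr u hau.le]
    · refine h3 j u hau.ne' hv ?_
      rw [smul_neg]
      exact eq_neg_of_add_eq_zero_left h
  have hRw : ∀ j, j ≠ root r → ∀ u, 0 ≤ u → a.1 < u →
      rp Φ r qr u j + (u - a.1) • wM Φ a ≠ (u - a.1) • a.2.1 := by
    intro j hj u hu hau h
    have h' : rp Φ r qr u j = (u - a.1) • (a.2.1 - wM Φ a) := by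
      rw [smul_sub, ← h, add_sub_cancel_right]
    by_cases hv : a.2.1 - wM Φ a = 0
    · rw [hv, smul_zero] at h'
      refine hafr j (root r) hj u hu hau.le ?_
      rw [h', rp_root r a.1 qr hVr u hau.le]
    · exact h4 j u hau.ne' hv h'
  -- the two branches against each other
  have hcross : ∀ i j u, 0 ≤ u → ¬ (i = root l ∧ j = root r ∧ u = a.1) →
      rp Φ l ql u i + (u - a.1) • vM Φ a ≠ rp Φ r qr u j + (u - a.1) • wM Φ a := by
    intro i j u hu hn h
    by_cases hua : u = a.1
    · subst hua
      simp only [sub_self, zero_smul, add_zero] at h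
      by_cases hi : i = root l
      · by_cases hj : j = root r
        · exact hn ⟨hi, hj, rfl⟩
        · subst hi
          rw [rp_root l a.1 ql hVl a.1 le_rfl] at h
          refine hafr j (root r) hj a.1 hu le_rfl ?_
          rw [← h, rp_root r a.1 qr hVr a.1 le_rfl]
      · by_cases hj : j = root r
        · subst hj
          rw [rp_root r a.1 qr hVr a.1 le_rfl] at h
          refine hafl i (root l) hi a.1 hu le_rfl ?_
          rw [h, rp_root l a.1 ql hVl a.1 le_rfl]
        · exact h6 i j hi hj h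
    · refine h5 i j u hua ?_
      rw [smul_sub]
      rw [sub_eq_sub_iff_add_eq_add, ← h]
      abel
  -- main case distinction
  intro i j hij u hu hw1 hw2
  show rp Φ (node l r) (mkP a pl pr) u i ≠ rp Φ (node l r) (mkP a pl pr) u j
  have hw1' : ¬ InWindow Φ 0 (node l r) 0 (mkP a pl pr) i j u := hw1
  have hw2' : ¬ InWindow Φ 0 (node l r) 0 (mkP a pl pr) j i u := hw2
  have hlr : ∀ (i : Idx l) (j : Idx r), ¬ (i = root l ∧ j = root r ∧ u = a.1) →
      rp Φ (node l r) (mkP a pl pr) u (inlI l r i) ≠
        rp Φ (node l r) (mkP a pl pr) u (inrI l r j) := by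
    intro i j hn
    rw [rp_inl ha, rp_inr ha]
    by_cases hua : u ≤ a.1
    · rw [if_pos (Or.inl hua), if_pos (Or.inl hua)]
      exact hcross i j u hu hn
    · have hau : a.1 < u := not_le.1 hua
      by_cases hi : i = root l
      · rw [if_neg (by push Not; exact ⟨hau, hi⟩)]
        by_cases hj : j = root r
        · rw [if_neg (by push Not; exact ⟨hau, hj⟩)]
          intro h
          rcases smul_eq_zero.1 h.symm with h | h
          · exact absurd h (sub_ne_zero.2 hau.ne')
          · exact ha.2.1 h.symm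
        · rw [if_pos (Or.inr hj)]
          exact fun h => hR0 j hj u hu hau h.symm
      · rw [if_pos (Or.inr hi)]
        by_cases hj : j = root r
        · rw [if_neg (by push Not; exact ⟨hau, hj⟩)]
          exact hLw i hi u hu hau
        · rw [if_pos (Or.inr hj)]
          exact hcross i j u hu hn
  rcases idx_cases i with ⟨i, rfl⟩ | ⟨i, rfl⟩ <;> rcases idx_cases j with ⟨j, rfl⟩ | ⟨j, rfl⟩
  · have hij' : i ≠ j := fun h => hij (by rw [h])
    rw [inWindow_inl_inl, hwl] at hw1' hw2'
    rw [rp_inl ha, rp_inl ha]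
    by_cases hua : u ≤ a.1
    · rw [if_pos (Or.inl hua), if_pos (Or.inl hua)]
      exact fun h => hGl' i j hij' u hu hw1' hw2' (add_right_cancel h)
    · have hau : a.1 < u := not_le.1 hua
      by_cases hi : i = root l
      · rw [if_neg (by push Not; exact ⟨hau, hi⟩)]
        have hj : j ≠ root l := fun h => hij' (hi.trans h.symm)
        rw [if_pos (Or.inr hj)]
        exact fun h => hL0 j hj u hu hau h.symm
      · rw [if_pos (Or.inr hi)]
        by_cases hj : j = root l
        · rw [if_neg (by push Not; exact ⟨hau, hj⟩)]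
          exact hL0 i hi u hu hau
        · rw [if_pos (Or.inr hj)]
          exact fun h => hGl' i j hij' u hu hw1' hw2' (add_right_cancel h)
  · refine hlr i j ?_
    rintro ⟨h1, h2, h3⟩
    apply hw1'
    rw [inWindow_inl_inr, sin_zero']
    exact ⟨h1, h2, h3.ge, h3.le⟩
  · refine (hlr j i ?_).symm
    rintro ⟨h1, h2, h3⟩
    apply hw2'
    rw [inWindow_inl_inr, sin_zero']
    exact ⟨h1, h2, h3.ge, h3.le⟩
  · have hij' : i ≠ j := fun h => hij (by rw [h])
    rw [inWindow_inr_inr, hwr] at hw1' hw2'
    rw [rp_inr ha, rp_inr ha]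
    by_cases hua : u ≤ a.1
    · rw [if_pos (Or.inl hua), if_pos (Or.inl hua)]
      exact fun h => hGr' i j hij' u hu hw1' hw2' (add_right_cancel h)
    · have hau : a.1 < u := not_le.1 hua
      by_cases hi : i = root r
      · rw [if_neg (by push Not; exact ⟨hau, hi⟩)]
        have hj : j ≠ root r := fun h => hij' (hi.trans h.symm)
        rw [if_pos (Or.inr hj)]
        exact fun h => hRw j hj u hu hau h.symm
      · rw [if_pos (Or.inr hi)]
        by_cases hj : j = root r
        · rw [if_neg (by push Not; exact ⟨hau, hj⟩)]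
          exact hRw i hi u hu hau
        · rw [if_pos (Or.inr hj)]
          exact fun h => hGr' i j hij' u hu hw1' hw2' (add_right_cancel h)

lemma ord_mono (P : CTree) {T T' : ℝ} (hT : T ≤ T') {v : Space3} {p : Par P}
    (h : Tree674.Ord Φ 0 P T v p) : Tree674.Ord Φ 0 P T' v p := by
  cases P with
  | leaf => trivial
  | node l r => exact ⟨h.1.trans_le hT, h.2⟩

/-- **Genericity in the rest frame.** -/
theorem gen_ae_rest (hΦ : AdmissiblePotential Φ) (S : ScatFacts Φ) (P : CTree) (T : ℝ) :
    ∀ᵐ q : Par P, Valid Φ 0 P T 0 q → Gen Φ P 0 q := by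
  induction P with
  | leaf =>
    refine Filter.Eventually.of_forall fun q _ i j hij => absurd (idx_leaf i j) hij
  | node l r hl hr =>
    obtain ⟨ιl, hιl, Ll, hLl, hcl⟩ := exists_cand S l
    obtain ⟨ιr, hιr, Lr, hLr, hcr⟩ := exists_cand S r
    -- null sets in relative coordinates
    have hsl : ∀ k, Measurable fun z : ℝ × (Par l × Par r) => Ll k z.2.1 := fun k =>
      (hLl k).comp (measurable_fst.comp measurable_snd)
    have hsr : ∀ k, Measurable fun z : ℝ × (Par l × Par r) => Lr k z.2.2 := fun k =>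
      (hLr k).comp (measurable_snd.comp measurable_snd)
    have hBl : ∀ k, Measurable fun z : ℝ × (Par l × Par r) => (Ll k z.2.1).2 := fun k =>
      measurable_snd.comp (hsl k)
    have hCl : ∀ k, Measurable fun z : ℝ × (Par l × Par r) =>
        (Ll k z.2.1).1 + z.1 • (Ll k z.2.1).2 := fun k =>
      (measurable_fst.comp (hsl k)).add (measurable_fst.smul (hBl k))
    have hBr : ∀ k, Measurable fun z : ℝ × (Par l × Par r) => (Lr k z.2.2).2 := fun k =>
      measurable_snd.comp (hsr k)
    have hCr : ∀ k, Measurable fun z : ℝ × (Par l × Par r) =>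
        (Lr k z.2.2).1 + z.1 • (Lr k z.2.2).2 := fun k =>
      (measurable_fst.comp (hsr k)).add (measurable_fst.smul (hBr k))
    have e1 := ae_all_iff.2 fun k => ae_node hΦ S (1 / 2) (-(1 / 2)) l r (hBl k) (hCl k)
    have e2 := ae_all_iff.2 fun k => ae_node hΦ S (-(1 / 2)) (-(1 / 2)) l r (hBl k) (hCl k)
    have e3 := ae_all_iff.2 fun k => ae_node hΦ S (1 / 2) (1 / 2) l r (hBr k) (hCr k)
    have e4 := ae_all_iff.2 fun k => ae_node hΦ S (-(1 / 2)) (1 / 2) l r (hBr k) (hCr k)
    have e5 := ae_all_iff.2 fun k => ae_all_iff.2 fun k' => ae_node hΦ S 0 1 l r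
      ((hBr k').sub (hBl k)) ((hCr k').sub (hCl k))
    -- final lines
    have hfl := fun (i : Idx l) (hi : i ≠ root l) => exists_final S l i hi
    choose Fl hFlm hFlp hFld using hfl
    have hfr := fun (i : Idx r) (hi : i ≠ root r) => exists_final S r i hi
    choose Fr hFrm hFrp hFrd using hfr
    have e6 : ∀ᵐ z ∂((volume : Measure NodeP).prod
        ((volume : Measure (Par l)).prod (volume : Measure (Par r)))),
        ∀ (i : Idx l) (hi : i ≠ root l) (j : Idx r) (hj : j ≠ root r),
          (Fl i hi z.2.1).1 + z.1.1 • (Fl i hi z.2.1).2 ≠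
            (Fr j hj z.2.2).1 + z.1.1 • (Fr j hj z.2.2).2 := by
      have : Countable (Idx l) := Finite.to_countable
      have : Countable (Idx r) := Finite.to_countable
      refine ae_all_iff.2 fun i => ae_all_iff.2 fun hi => ae_all_iff.2 fun j =>
        ae_all_iff.2 fun hj => ?_
      have g1 : Measurable fun z : NodeP × (Par l × Par r) => Fl i hi z.2.1 :=
        (hFlm i hi).comp (measurable_fst.comp measurable_snd)
      have g2 : Measurable fun z : NodeP × (Par l × Par r) => Fr j hj z.2.2 :=
        (hFrm j hj).comp (measurable_snd.comp measurable_snd)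
      have g3 : Measurable fun z : NodeP × (Par l × Par r) => z.1.1 :=
        measurable_fst.comp measurable_fst
      -- velocities are different
      have hvel : ∀ᵐ b : Par l × Par r ∂((volume : Measure (Par l)).prod volume),
          (Fl i hi b.1).2 ≠ (Fr j hj b.2).2 := by
        refine ae_prod_of_right ?_ ?_
        · exact (measurableSet_eq_fun
            (measurable_snd.comp ((hFlm i hi).comp measurable_fst))
            (measurable_snd.comp ((hFrm j hj).comp measurable_snd))).compl
        · intro b; exact hFld i hi (Fr j hj b).2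
      have hvel' := (Measure.quasiMeasurePreserving_snd (μ := (volume : Measure NodeP))
        (ν := (volume : Measure (Par l)).prod (volume : Measure (Par r)))).ae hvel
      have hmain : ∀ᵐ z ∂((volume : Measure NodeP).prod
          ((volume : Measure (Par l)).prod (volume : Measure (Par r)))),
          (Fl i hi z.2.1).2 ≠ (Fr j hj z.2.2).2 →
          (Fl i hi z.2.1).1 + z.1.1 • (Fl i hi z.2.1).2 ≠
            (Fr j hj z.2.2).1 + z.1.1 • (Fr j hj z.2.2).2 := by
        refine ae_prod_of_right ?_ ?_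
        · have m1 : MeasurableSet {z : NodeP × (Par l × Par r) |
              (Fl i hi z.2.1).2 = (Fr j hj z.2.2).2} :=
            measurableSet_eq_fun (measurable_snd.comp g1) (measurable_snd.comp g2)
          have m2 : MeasurableSet {z : NodeP × (Par l × Par r) |
              (Fl i hi z.2.1).1 + z.1.1 • (Fl i hi z.2.1).2 =
                (Fr j hj z.2.2).1 + z.1.1 • (Fr j hj z.2.2).2} :=
            measurableSet_eq_fun
              ((measurable_fst.comp g1).add (g3.smul (measurable_snd.comp g1)))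
              ((measurable_fst.comp g2).add (g3.smul (measurable_snd.comp g2)))
          have hset : {z : NodeP × (Par l × Par r) | (Fl i hi z.2.1).2 ≠ (Fr j hj z.2.2).2 →
              (Fl i hi z.2.1).1 + z.1.1 • (Fl i hi z.2.1).2 ≠
                (Fr j hj z.2.2).1 + z.1.1 • (Fr j hj z.2.2).2} =
              {z | (Fl i hi z.2.1).2 = (Fr j hj z.2.2).2} ∪
              {z | (Fl i hi z.2.1).1 + z.1.1 • (Fl i hi z.2.1).2 =
                (Fr j hj z.2.2).1 + z.1.1 • (Fr j hj z.2.2).2}ᶜ := by
            ext z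
            simp only [mem_ofPred_eq, mem_union, mem_compl_iff]
            tauto
          rw [hset]
          exact m1.union m2.compl
        · intro b
          by_cases hb : (Fl i hi b.1).2 = (Fr j hj b.2).2
          · exact Filter.Eventually.of_forall fun a h => absurd hb h
          · -- at most one time
            have hnull : ∀ᵐ s : ℝ, (Fl i hi b.1).1 + s • (Fl i hi b.1).2 ≠
                (Fr j hj b.2).1 + s • (Fr j hj b.2).2 := by
              have hsub : Set.Subsingleton {s : ℝ | (Fl i hi b.1).1 + s • (Fl i hi b.1).2 =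
                  (Fr j hj b.2).1 + s • (Fr j hj b.2).2} := by
                intro s hs t ht
                simp only [mem_ofPred_eq] at hs ht
                have h7 : (s - t) • ((Fl i hi b.1).2 - (Fr j hj b.2).2) = 0 := by
                  have h8 : (s - t) • ((Fl i hi b.1).2 - (Fr j hj b.2).2) =
                      (((Fl i hi b.1).1 + s • (Fl i hi b.1).2) -
                        ((Fr j hj b.2).1 + s • (Fr j hj b.2).2)) -
                      (((Fl i hi b.1).1 + t • (Fl i hi b.1).2) -
                        ((Fr j hj b.2).1 + t • (Fr j hj b.2).2)) := by module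
                  rw [h8, hs, ht]; simp
                rcases smul_eq_zero.1 h7 with h | h
                · exact sub_eq_zero.1 h
                · exact absurd (sub_eq_zero.1 h) hb
              have := hsub.countable.measure_zero (volume : Measure ℝ)
              exact measure_eq_zero_iff_ae_notMem.1 this
            have h9 := (Measure.quasiMeasurePreserving_fst (μ := (volume : Measure ℝ))
              (ν := (volume : Measure (Space3 × Plane)))).ae hnull
            filter_upwards [h9] with a ha _ using ha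
      filter_upwards [hvel', hmain] with z hz1 hz2 using hz2 hz1
    -- genericity of the branches
    have e7 : ∀ᵐ z ∂((volume : Measure NodeP).prod
        ((volume : Measure (Par l)).prod (volume : Measure (Par r)))),
        Valid Φ 0 l T 0 z.2.1 → Gen Φ l 0 z.2.1 :=
      ((Measure.quasiMeasurePreserving_fst (μ := (volume : Measure (Par l)))
        (ν := (volume : Measure (Par r)))).comp
        (Measure.quasiMeasurePreserving_snd (μ := (volume : Measure NodeP))
        (ν := (volume : Measure (Par l)).prod (volume : Measure (Par r))))).ae hl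
    have e8 : ∀ᵐ z ∂((volume : Measure NodeP).prod
        ((volume : Measure (Par l)).prod (volume : Measure (Par r)))),
        Valid Φ 0 r T 0 z.2.2 → Gen Φ r 0 z.2.2 :=
      ((Measure.quasiMeasurePreserving_snd (μ := (volume : Measure (Par l)))
        (ν := (volume : Measure (Par r)))).comp
        (Measure.quasiMeasurePreserving_snd (μ := (volume : Measure NodeP))
        (ν := (volume : Measure (Par l)).prod (volume : Measure (Par r))))).ae hr
    have hq := (measurePreserving_relM S l r).quasiMeasurePreserving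
    have e1' := hq.ae e1
    have e2' := hq.ae e2
    have e3' := hq.ae e3
    have e4' := hq.ae e4
    have e5' := hq.ae e5
    have e6' := hq.ae e6
    have e7' := hq.ae e7
    have e8' := hq.ae e8
    filter_upwards [e1', e2', e3', e4', e5', e6', e7', e8'] with q f1 f2 f3 f4 f5 f6 f7 f8 hV
    obtain ⟨a, pl, pr, rfl⟩ := exists_mkP q
    rw [relM_mkP] at f1 f2 f3 f4 f5 f6 f7 f8
    have ha : Adm1 Φ 0 a := hV.1.1
    have hy : ‖a.2.2‖ < 1 := ha.1
    have hVl := valid_left hV
    have hVr := valid_right hV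
    have hT : a.1 < T := hV.2.1
    have hVlT : Valid Φ 0 l T 0 (boostP l (-vM Φ a) pl) := ⟨hVl.1, ord_mono l hT.le hVl.2⟩
    have hVrT : Valid Φ 0 r T 0 (boostP r (-wM Φ a) pr) := ⟨hVr.1, ord_mono r hT.le hVr.2⟩
    have hg : (0 : Space3) - a.2.1 ≠ 0 := sub_ne_zero.2 ha.2.1
    have hne : vM Φ a - wM Φ a ≠ 0 := by
      rw [← dl_one]
      unfold dl
      rw [zero_smul, zero_add, one_smul]
      intro h
      have h1 := norm_exitM S (frameMap (gy a).1 (gy a).2) (g := (gy a).1) hg
      rw [h, norm_zero] at h1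
      exact hg (norm_eq_zero.1 h1.symm)
    refine gen_node hV (f7 hVlT) (f8 hVrT) ?_ ?_ ?_ ?_ ?_ ?_
    · intro i u hu hv
      obtain ⟨k, hk⟩ := hcl _ hVl.1 i u
      exact no_meet hk hu (by simpa only [dl_neg_vM] using f1 k hy (by rw [dl_neg_vM]; exact hv))
    · intro i u hu hv
      obtain ⟨k, hk⟩ := hcl _ hVl.1 i u
      exact no_meet hk hu
        (by simpa only [dl_w_sub_vM] using f2 k hy (by rw [dl_w_sub_vM]; exact hv))
    · intro i u hu hv
      obtain ⟨k, hk⟩ := hcr _ hVr.1 i u
      exact no_meet hk hu (by simpa only [dl_neg_wM] using f3 k hy (by rw [dl_neg_wM]; exact hv))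
    · intro i u hu hv
      obtain ⟨k, hk⟩ := hcr _ hVr.1 i u
      exact no_meet hk hu
        (by simpa only [dl_w_sub_wM] using f4 k hy (by rw [dl_w_sub_wM]; exact hv))
    · intro i j u hu
      obtain ⟨k, hk⟩ := hcl _ hVl.1 i u
      obtain ⟨k', hk'⟩ := hcr _ hVr.1 j u
      have h7 := f5 k k' hy (by rw [dl_one]; exact hne)
      simp only [dl_one] at h7
      refine no_meet (A := (Lr k' (boostP r (-wM Φ a) pr)).1 - (Ll k (boostP l (-vM Φ a) pl)).1)
        (B := (Lr k' (boostP r (-wM Φ a) pr)).2 - (Ll k (boostP l (-vM Φ a) pl)).2)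
        ?_ hu ?_
      · rw [hk, hk']; module
      · intro t ht
        refine h7 t ?_
        rw [ht]; simp only [Pi.sub_apply]; module
    · intro i j hi hj
      rw [hFlp i hi _ a.1 hVl a.1 le_rfl, hFrp j hj _ a.1 hVr a.1 le_rfl]
      exact f6 i hi j hj

/-- **Theorem C** under the facts on the scattering map. -/
theorem gen_ae (hΦ : AdmissiblePotential Φ) (S : ScatFacts Φ) (P : CTree) (T : ℝ) :
    ∀ᵐ z : PhasePoint × Par P, Valid Φ 0 P T z.1.2 z.2 → Gen Φ P z.1 z.2 := by
  have hmp : MeasurePreserving (fun z : PhasePoint × Par P => (z.1, boostP P (-z.1.2) z.2))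
      ((volume : Measure PhasePoint).prod (volume : Measure (Par P)))
      ((volume : Measure PhasePoint).prod (volume : Measure (Par P))) := by
    refine MeasurePreserving.skew_product (f := id) (MeasurePreserving.id _)
      (g := fun (ℓ : PhasePoint) q => boostP P (-ℓ.2) q) ?_ ?_
    · exact (measurable_boostP P).comp (f := fun z : PhasePoint × Par P => (-z.1.2, z.2))
        ((measurable_snd.comp measurable_fst).neg.prodMk measurable_snd)
    · exact Filter.Eventually.of_forall fun ℓ => (measurePreserving_boostP P _).map_eq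
  have h1 := ((Measure.quasiMeasurePreserving_snd (μ := (volume : Measure PhasePoint))
    (ν := (volume : Measure (Par P)))).comp hmp.quasiMeasurePreserving).ae
    (gen_ae_rest hΦ S P T)
  have h2 : (volume : Measure (PhasePoint × Par P)) =
      (volume : Measure PhasePoint).prod (volume : Measure (Par P)) := rfl
  rw [h2]
  filter_upwards [h1] with z hz hV
  rw [gen_rest]
  exact hz ((valid_rest P T z.1.2 z.2).1 hV)

/-- **Theorem C**. -/
theorem stmt_Gen (h : ∀ Φ : Space3 → ℝ, AdmissiblePotential Φ → ScatFacts Φ) : Stmt_Gen :=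
  fun Φ hΦ P T => gen_ae hΦ (h Φ hΦ) P T

end Crest.Agent.R122.Generic491

end
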