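import Crest.Agent.R122.TreeSep_399
import Crest.Agent.R122.PathCausal_968
import Crest.Agent.R122.Generic4_491
import Crest.Agent.R122.LocFlow_45

/-!
# Row 122 (helper424): hidden tubes of a collision tree

`hS Φ P v p : Idx P → ℝ` are the end times of the *hidden* tubes of the tree `(P, v, p)`: the
damping is dropped on every leg lying on the straight line of the root (the last leg of the root and
the legs attached to it by undeflected / exchange nodes); `-1` means: no hidden tube.

* `hS_le_prot`, `hS_lt`, measurability, boost covariance;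
* `path_local`: near a time which is not a node time, all the particles of `path Φ ε` move on
  straight lines with the velocities of `path Φ 0`, for all small `ε`;
* `finite_meet`: two particles of a generic tree meet only finitely often.
-/

set_option autoImplicit false

open MeasureTheory Set Filter
open scoped ENNReal Topology Classical
open Crest.AnalysisR.Kinetic Crest.Agent.R122.Kin796 Crest.Agent.R122.Disc416
  Crest.Agent.R122.Kin416 Crest.Agent.R122.Boltz814 Crest.Agent.R122.Tree674
  Crest.Agent.R122.Scat818 Crest.Agent.R122.TreeF399 Crest.Agent.R122.TreeEps399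

noncomputable section

namespace Crest.Agent.R122.Hid424

open CTree

variable {Φ : Space3 → ℝ}

/-- End times of the hidden tubes (damping dropped on all legs on the line of the root). -/
def hS (Φ : Space3 → ℝ) : ∀ P : CTree, Space3 → Par P → (Idx P → ℝ)
  | leaf => fun _ _ _ => -1
  | node l r => fun v p => Sum.elim
      (if (preV Φ v p.1).1 = v then hS Φ l v p.2.1 else prot l p.1.1 p.2.1)
      (if (preV Φ v p.1).2 = v then hS Φ r v p.2.2 else prot r p.1.1 p.2.2)

/-- the hidden tubes end before the protected times -/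
theorem hS_le_prot : ∀ (P : CTree) {T : ℝ} (_ : -1 ≤ T) (v : Space3) (p : Par P) (_ : Valid Φ 0 P T v p)
    (i : Idx P), hS Φ P v p i ≤ prot P T p i
  | leaf, T, hT, v, p, _, i => hT
  | node l r, T, hT, v, p, hV, i => by
      have hl := hV.2.2.2.1
      have hr := hV.2.2.2.2
      have h0 : 0 < Tree674.sin Φ 0 v p.1 := hV.2.2.1
      have hs : Tree674.sin Φ 0 v p.1 = p.1.1 := sin_zero v p.1
      rw [hs] at hl hr h0
      have hT' : p.1.1 < T := hV.2.1
      rcases i with i | i
      · have hpm : prot l p.1.1 p.2.1 i ≤ prot l T p.2.1 i :=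
          PathFlow968.prot_mono l hT'.le p.2.1 i
        simp only [hS, prot, Sum.elim_inl]
        split_ifs with h
        · have hl' : Valid Φ 0 l p.1.1 v p.2.1 := by
            have := hV.1.2.1
            rw [h] at this hl
            exact ⟨this, hl⟩
          exact (hS_le_prot l (by linarith) v p.2.1 hl' i).trans hpm
        · exact hpm
      · simp only [hS, prot, Sum.elim_inr]
        split_ifs with h
        · have hr' : Valid Φ 0 r p.1.1 v p.2.2 := by
            have := hV.1.2.2
            rw [h] at this hr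
            exact ⟨this, hr⟩
          exact hS_le_prot r (by linarith) v p.2.2 hr' i
        · exact le_rfl

theorem hS_lt (P : CTree) {T : ℝ} (hT : 0 < T) (v : Space3) (p : Par P) (hV : Valid Φ 0 P T v p)
    (i : Idx P) : hS Φ P v p i < T := by
  cases P with
  | leaf => exact lt_of_lt_of_le (by norm_num : (-1 : ℝ) < 0) hT.le
  | node l r =>
    have h0 : 0 < Tree674.sin Φ 0 v p.1 := hV.2.2.1
    have hs : Tree674.sin Φ 0 v p.1 = p.1.1 := sin_zero v p.1
    have hl := hV.2.2.2.1
    have hr := hV.2.2.2.2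
    rw [hs] at h0 hl hr
    have hT' : p.1.1 < T := hV.2.1
    rcases i with i | i
    · simp only [hS, Sum.elim_inl]
      split_ifs with h
      · have hl' : Valid Φ 0 l p.1.1 v p.2.1 := by
          have := hV.1.2.1
          rw [h] at this hl
          exact ⟨this, hl⟩
        exact ((hS_le_prot l (by linarith) v p.2.1 hl' i).trans
          (PathFlow968.prot_le le_rfl l p.1.1 v p.2.1 hl'.2 i)).trans_lt hT'
      · exact (PathFlow968.prot_le le_rfl l p.1.1 _ p.2.1 hl i).trans_lt hT'
    · simp only [hS, Sum.elim_inr]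
      split_ifs with h
      · have hr' : Valid Φ 0 r p.1.1 v p.2.2 := by
          have := hV.1.2.2
          rw [h] at this hr
          exact ⟨this, hr⟩
        exact ((hS_le_prot r (by linarith) v p.2.2 hr' i).trans
          (PathFlow968.prot_le le_rfl r p.1.1 v p.2.2 hr'.2 i)).trans_lt hT'
      · exact (PathFlow968.prot_le le_rfl r p.1.1 _ p.2.2 hr i).trans_lt hT'

/-! ### Local form of the trajectories -/

/-- near `s`, all particles of `path Φ ε` move on straight lines with velocities `w` -/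
def LocLine (Φ : Space3 → ℝ) (ε : ℝ) (P : CTree) (v : Space3) (p : Par P) (s δ : ℝ)
    (w : Idx P → Space3) : Prop :=
  ∀ (X : Space3) (u : ℝ), |u - s| < δ → ∀ i : Idx P,
    path Φ ε P (X, v) p u i = ((path Φ ε P (X, v) p s i).1 + (u - s) • w i, w i)

theorem path_local (P : CTree) (v : Space3) (p : Par P) (s : ℝ) (hs : NotTime P p s) :
    ∃ (w : Idx P → Space3) (δ : ℝ), 0 < δ ∧ LocLine Φ 0 P v p s δ w ∧
      ∀ᶠ ε in L, LocLine Φ ε P v p s δ w := by
  induction P generalizing v with
  | leaf =>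
    have key : ∀ ε, LocLine Φ ε .leaf v p s 1 (fun _ => v) := by
      intro ε X u _ i
      simp only [path, onLine, Prod.mk.injEq, and_true]
      module
    exact ⟨fun _ => v, 1, one_pos, key 0, Eventually.of_forall key⟩
  | node l r hl hr =>
    obtain ⟨h1, h2, h3⟩ := hs
    obtain ⟨wl, δl, hδl, hl0, hle⟩ := hl (preV Φ v p.1).1 p.2.1 h2
    obtain ⟨wr, δr, hδr, hr0, hre⟩ := hr (preV Φ v p.1).2 p.2.2 h3
    rcases lt_or_gt_of_ne h1 with hlt | hgt
    · -- before the collision
      set δ := min (min δl δr) ((p.1.1 - s) / 2) with hδ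
      have hδ0 : 0 < δ := lt_min (lt_min hδl hδr) (by linarith)
      have hd1 : δ ≤ δl := (min_le_left _ _).trans (min_le_left _ _)
      have hd2 : δ ≤ δr := (min_le_left _ _).trans (min_le_right _ _)
      have hd3 : δ ≤ (p.1.1 - s) / 2 := min_le_right _ _
      have key : ∀ ε, s + (p.1.1 - s) / 2 < Tree674.sin Φ ε v p.1 →
          LocLine Φ ε l (preV Φ v p.1).1 p.2.1 s δl wl →
          LocLine Φ ε r (preV Φ v p.1).2 p.2.2 s δr wr →
          LocLine Φ ε (.node l r) v p s δ (Sum.elim wl wr) := by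
        intro ε hsin a1 a2 X u hu i
        have hu1 : u ≤ Tree674.sin Φ ε v p.1 := by
          have := (abs_lt.mp hu).2
          linarith
        have hs1 : s ≤ Tree674.sin Φ ε v p.1 := by linarith
        rw [path_node_le (ℓ := (X, v)) hu1, path_node_le (ℓ := (X, v)) hs1]
        rcases i with i | i
        · exact a1 (inMap Φ ε (X, v) p.1).1.1 u (lt_of_lt_of_le hu hd1) i
        · exact a2 (inMap Φ ε (X, v) p.1).2.1 u (lt_of_lt_of_le hu hd2) i
      refine ⟨Sum.elim wl wr, δ, hδ0, key 0 (by rw [sin_zero]; linarith) hl0 hr0, ?_⟩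
      have e1 : ∀ᶠ ε in L, s + (p.1.1 - s) / 2 < Tree674.sin Φ ε v p.1 :=
        (tendsto_sin v p.1).eventually (lt_mem_nhds (by linarith))
      filter_upwards [e1, hle, hre] with ε a0 a1 a2
      exact key ε a0 a1 a2
    · -- after the collision
      set δ := min (min δl δr) (s - p.1.1) with hδ
      have hδ0 : 0 < δ := lt_min (lt_min hδl hδr) (by linarith)
      have hd1 : δ ≤ δl := (min_le_left _ _).trans (min_le_left _ _)
      have hd2 : δ ≤ δr := (min_le_left _ _).trans (min_le_right _ _)
      have hd3 : δ ≤ s - p.1.1 := min_le_right _ _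
      have key : ∀ ε, 0 ≤ ε →
          LocLine Φ ε l (preV Φ v p.1).1 p.2.1 s δl wl →
          LocLine Φ ε r (preV Φ v p.1).2 p.2.2 s δr wr →
          LocLine Φ ε (.node l r) v p s δ
            (Sum.elim (Function.update wl (root l) v) (Function.update wr (root r) p.1.2.1)) := by
        intro ε hε a1 a2 X u hu i
        have hu0 : p.1.1 < u := by
          have := (abs_lt.mp hu).1
          linarith
        have hu1 : Tree674.sin Φ ε v p.1 < u := (sin_le hε v p.1).trans_lt hu0
        have hs1 : Tree674.sin Φ ε v p.1 < s := (sin_le hε v p.1).trans_lt hgt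
        rw [path_node_gt (ℓ := (X, v)) hu1, path_node_gt (ℓ := (X, v)) hs1,
          colPath_out hu0.le, colPath_out hgt.le]
        rcases i with i | i
        · simp only [Sum.elim_inl]
          by_cases hi : i = root l
          · subst hi
            rw [Function.update_self, Function.update_self, Function.update_self]
            simp only [onLine, Prod.mk.injEq, and_true]
            module
          · rw [Function.update_of_ne hi, Function.update_of_ne hi, Function.update_of_ne hi]
            exact a1 (inMap Φ ε (X, v) p.1).1.1 u (lt_of_lt_of_le hu hd1) i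
        · simp only [Sum.elim_inr]
          by_cases hi : i = root r
          · subst hi
            rw [Function.update_self, Function.update_self, Function.update_self]
            simp only [onLine, outLine, Prod.mk.injEq, and_true]
            module
          · rw [Function.update_of_ne hi, Function.update_of_ne hi, Function.update_of_ne hi]
            exact a2 (inMap Φ ε (X, v) p.1).2.1 u (lt_of_lt_of_le hu hd2) i
      refine ⟨_, δ, hδ0, key 0 le_rfl hl0 hr0, ?_⟩
      filter_upwards [eventually_pos, hle, hre] with ε a0 a1 a2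
      exact key ε a0.le a1 a2

/-- the set of node times is finite -/
theorem finite_times (P : CTree) (p : Par P) : {u | ¬ NotTime P p u}.Finite := by
  induction P with
  | leaf =>
    have : {u : ℝ | ¬ NotTime .leaf p u} = ∅ := by
      ext u
      simp [NotTime]
    rw [this]
    exact finite_empty
  | node l r hl hr =>
    have h : {u : ℝ | ¬ NotTime (.node l r) p u} ⊆
        {p.1.1} ∪ ({u | ¬ NotTime l p.2.1 u} ∪ {u | ¬ NotTime r p.2.2 u}) := by
      intro u hu
      by_contra hn
      rw [mem_union, mem_union, not_or, not_or] at hn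
      exact hu ⟨fun h => hn.1 h, not_not.mp hn.2.1, not_not.mp hn.2.2⟩
    exact ((finite_singleton _).union ((hl p.2.1).union (hr p.2.2))).subset h

/-- windows of straight-line trees are node times -/
theorem inWindow_time (P : CTree) (v : Space3) (p : Par P) (i j : Idx P) (u : ℝ)
    (h : InWindow Φ 0 P v p i j u) : ¬ NotTime P p u := by
  induction P generalizing v with
  | leaf => exact h.elim
  | node l r hl hr =>
    rintro ⟨h1, h2, h3⟩
    rcases h with ⟨_, _, ha, hb⟩ | ⟨i', j', _, _, h⟩ | ⟨i', j', _, _, h⟩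
    · rw [sin_zero] at ha
      exact h1 (le_antisymm hb ha)
    · exact hl _ _ _ _ h h2
    · exact hr _ _ _ _ h h3

/-- two particles of a generic tree meet finitely often -/
theorem finite_meet {P : CTree} {ℓ : PhasePoint} {p : Par P} (hG : Gen Φ P ℓ p) {i j : Idx P}
    (hij : i ≠ j) :
    {u : ℝ | 0 ≤ u ∧ (path Φ 0 P ℓ p u i).1 = (path Φ 0 P ℓ p u j).1}.Finite := by
  refine (finite_times P p).subset ?_
  rintro u ⟨hu, he⟩ hn
  refine hG i j hij u hu (fun h => inWindow_time _ _ _ _ _ _ h hn)
    (fun h => inWindow_time _ _ _ _ _ _ h hn) he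

/-! ### Curves given by the isolated Newton flow -/

/-- the trajectory (position) of particle `i` in the isolated world of the initial configuration of
the tree -/
def curve (Φ : Space3 → ℝ) (ε : ℝ) (P : CTree) (ℓ : PhasePoint) (p : Par P) (i : Idx P) (s : ℝ) :
    Space3 := (Flow671.flow Φ ε s (lines Φ ε P ℓ p) i).1

theorem pair_eq_shL (X v : Space3) : ((X, v) : PhasePoint) = Generic491.shL X 0 (0, v) := by
  simp [Generic491.shL]

theorem path_shift (ε : ℝ) (P : CTree) (X v : Space3) (p : Par P) (u : ℝ) (i : Idx P) :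
    path Φ ε P (X, v) p u i =
      ((path Φ ε P (0, v) p u i).1 + X, (path Φ ε P (0, v) p u i).2) := by
  have h := Generic491.path_boost (Φ := Φ) (ε := ε) P X 0 (0, v) p u i
  rw [Generic491.boostP_zero, ← pair_eq_shL] at h
  rw [h]
  simp [Generic491.shL]

theorem lines_shift (ε : ℝ) (P : CTree) (X v : Space3) (p : Par P) (i : Idx P) :
    lines Φ ε P (X, v) p i =
      ((lines Φ ε P (0, v) p i).1 + X, (lines Φ ε P (0, v) p i).2) := by
  have h := Generic491.lines_boost (Φ := Φ) (ε := ε) P X 0 (0, v) p i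
  rw [Generic491.boostP_zero, ← pair_eq_shL] at h
  rw [h]
  simp [Generic491.shL]

theorem sep_shift {ε T : ℝ} {P : CTree} {v : Space3} {p : Par P} (X : Space3) :
    Sep Φ ε P T (X, v) p ↔ Sep Φ ε P T (0, v) p := by
  have h := Generic491.sep_boost (Φ := Φ) (ε := ε) P T X 0 (0, v) p
  rwa [Generic491.boostP_zero, ← pair_eq_shL] at h

theorem gen_shift {P : CTree} {v : Space3} {p : Par P} (X : Space3) :
    Gen Φ P (X, v) p ↔ Gen Φ P (0, v) p := by
  have h := Generic491.gen_boost (Φ := Φ) P X 0 (0, v) p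
  rwa [Generic491.boostP_zero, ← pair_eq_shL] at h

theorem lines_vel (ε : ℝ) : ∀ (P : CTree) (ℓ : PhasePoint) (p : Par P) (i : Idx P),
    (lines Φ ε P ℓ p i).2 = vels Φ P ℓ.2 p i
  | leaf, _, _, _ => rfl
  | node l r, ℓ, p, i => by
      rcases i with i | i
      · exact lines_vel ε l (inMap Φ ε ℓ p.1).1 p.2.1 i
      · exact lines_vel ε r (inMap Φ ε ℓ p.1).2 p.2.2 i

theorem curve_shift (hΦ : AdmissiblePotential Φ) {ε : ℝ} (hε : 0 < ε) (P : CTree) (X v : Space3)
    (p : Par P) (i : Idx P) (s : ℝ) :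
    curve Φ ε P (X, v) p i s = curve Φ ε P (0, v) p i s + X := by
  have h : lines Φ ε P (X, v) p = fun i => ((lines Φ ε P (0, v) p i).1 + X,
      (lines Φ ε P (0, v) p i).2) := by
    funext i
    exact lines_shift ε P X v p i
  have h2 := Loc45.flow_shiftX hΦ hε X s (lines Φ ε P (0, v) p)
  have h3 : lines Φ ε P (X, v) p = Loc45.shiftX X (lines Φ ε P (0, v) p) := h
  unfold curve
  rw [h3, h2]
  rfl

theorem continuous_curve (hΦ : AdmissiblePotential Φ) {ε : ℝ} (hε : 0 < ε) (P : CTree)
    (ℓ : PhasePoint) (p : Par P) (i : Idx P) : Continuous (curve Φ ε P ℓ p i) :=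
  continuous_fst.comp ((continuous_apply i).comp
    (Flow671.flow_continuous_time hΦ hε (lines Φ ε P ℓ p)))

/-- For small `ε` the tree is valid and separated. -/
theorem eventually_good (hΦ : AdmissiblePotential Φ) {P : CTree} {v : Space3} {p : Par P} {T : ℝ}
    (hV : Valid Φ 0 P T v p) (hG : Gen Φ P (0, v) p) :
    ∀ᶠ ε in L, 0 < ε ∧ Valid Φ ε P T v p ∧ ∀ X, Sep Φ ε P T (X, v) p := by
  filter_upwards [eventually_pos, valid_eventually P v p T hV,
    sep_eventually hΦ P (0, v) p T hV hG] with ε h1 h2 h3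
  exact ⟨h1, h2, fun X => (sep_shift X).mpr h3⟩

theorem curve_eq_path (hΦ : AdmissiblePotential Φ) {ε : ℝ} (hε : 0 < ε) {P : CTree} {v X : Space3}
    {p : Par P} {T : ℝ} (hV : Valid Φ ε P T v p) (hS : Sep Φ ε P T (X, v) p) {u : ℝ}
    (hu : u ∈ Icc 0 T) (i : Idx P) : curve Φ ε P (X, v) p i u = (path Φ ε P (X, v) p u i).1 := by
  unfold curve
  rw [PathFlow968.path_eq_flow hΦ hε (ℓ := (X, v)) hV hS hu]

/-- uniform convergence of the curves -/
theorem curve_close (hΦ : AdmissiblePotential Φ) {P : CTree} {v : Space3} {p : Par P} {T : ℝ}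
    (hV : Valid Φ 0 P T v p) (hG : Gen Φ P (0, v) p) {η : ℝ} (hη : 0 < η) :
    ∀ᶠ ε in L, ∀ X : Space3, ∀ u ∈ Icc 0 T, ∀ i : Idx P,
      dist (curve Φ ε P (X, v) p i u) (path Φ 0 P (X, v) p u i).1 < η := by
  filter_upwards [eventually_good hΦ hV hG, path_close P v p T hV.1 hV.2 (fun _ => 0) 0
    tendsto_const_nhds η hη] with ε h1 h2 X u hu i
  rw [curve_eq_path hΦ h1.1 h1.2.1 (h1.2.2 X) hu, path_shift ε P X, path_shift 0 P X]
  simpa using h2 u i

/-- uniform Lipschitz bound of the curves -/
theorem curve_lip (hΦ : AdmissiblePotential Φ) {P : CTree} {v : Space3} {p : Par P} {T : ℝ}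
    (hT : 0 ≤ T) (hV : Valid Φ 0 P T v p) (hG : Gen Φ P (0, v) p) :
    ∃ M : ℝ, 0 ≤ M ∧ ∀ᶠ ε in L, ∀ (X : Space3) (s t : ℝ) (i : Idx P),
      dist (curve Φ ε P (X, v) p i t) (curve Φ ε P (X, v) p i s) ≤ M * |t - s| := by
  refine ⟨Real.sqrt (2 * ((1 / 2) * ∑ i, ‖vels Φ P v p i‖ ^ 2 +
    Loc45.stabB Φ * Fintype.card (Idx P))), Real.sqrt_nonneg _, ?_⟩
  filter_upwards [eventually_good hΦ hV hG] with ε h1 X s t i
  obtain ⟨hε, hVε, hS⟩ := h1
  have hD := PathFlow968.lines_mem_Dom (ℓ := (X, v)) hε hT hVε.2 (hS X)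
  have hE : Flow671.energy Φ ε (lines Φ ε P (X, v) p) = (1 / 2) * ∑ i, ‖vels Φ P v p i‖ ^ 2 := by
    rw [Loc45.energy_eq_kin_add_pot, Loc45.pot_eq_zero hΦ hε, add_zero]
    · unfold Loc45.kin
      simp only [lines_vel]
    · intro i j hij
      exact (PathFlow968.Sep.zero (ℓ := (X, v)) hε.le hT hVε.2 (hS X) hij).le
  have := Loc45.dist_pos_flow_le hΦ hε hD s t i
  rwa [hE] at this

/-- the curves are locally straight with the velocities of the limit, away from the node times -/
theorem curve_local (hΦ : AdmissiblePotential Φ) {P : CTree} {v : Space3} {p : Par P} {T : ℝ}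
    (hV : Valid Φ 0 P T v p) (hG : Gen Φ P (0, v) p) {s : ℝ} (hs : s ∈ Ioo 0 T)
    (hN : NotTime P p s) :
    ∃ (w : Idx P → Space3) (δ : ℝ), 0 < δ ∧ Ioo (s - δ) (s + δ) ⊆ Ioo 0 T ∧
      (∀ (X : Space3), ∀ u ∈ Ioo (s - δ) (s + δ), ∀ i : Idx P,
        (path Φ 0 P (X, v) p u i).1 = (path Φ 0 P (X, v) p s i).1 + (u - s) • w i) ∧
      ∀ᶠ ε in L, ∀ (X : Space3), ∀ u ∈ Ioo (s - δ) (s + δ), ∀ i : Idx P,
        curve Φ ε P (X, v) p i u = curve Φ ε P (X, v) p i s + (u - s) • w i := by
  obtain ⟨w, δ₀, hδ₀, h0, hev⟩ := path_local (Φ := Φ) P v p s hN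
  set δ := min δ₀ (min s (T - s)) with hδ
  have hδ0 : 0 < δ := lt_min hδ₀ (lt_min hs.1 (sub_pos.mpr hs.2))
  have hd1 : δ ≤ δ₀ := min_le_left _ _
  have hd2 : δ ≤ s := (min_le_right _ _).trans (min_le_left _ _)
  have hd3 : δ ≤ T - s := (min_le_right _ _).trans (min_le_right _ _)
  have habs : ∀ u ∈ Ioo (s - δ) (s + δ), |u - s| < δ₀ := fun u hu =>
    lt_of_lt_of_le (abs_lt.mpr ⟨by linarith [hu.1], by linarith [hu.2]⟩) hd1
  have hsub : Ioo (s - δ) (s + δ) ⊆ Ioo 0 T := fun u hu =>
    ⟨by linarith [hu.1], by linarith [hu.2]⟩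
  refine ⟨w, δ, hδ0, hsub, fun X u hu i => ?_, ?_⟩
  · rw [h0 X u (habs u hu) i]
  · filter_upwards [hev, eventually_good hΦ hV hG] with ε h1 h2 X u hu i
    rw [curve_eq_path hΦ h2.1 h2.2.1 (h2.2.2 X) (Ioo_subset_Icc_self (hsub hu)),
      curve_eq_path hΦ h2.1 h2.2.1 (h2.2.2 X) (Ioo_subset_Icc_self hs), h1 X u (habs u hu) i]

/-- the straight-line curves are continuous -/
theorem continuous_path0 {P : CTree} {v : Space3} {p : Par P} {T : ℝ} (hV : Valid Φ 0 P T v p)
    (X : Space3) (i : Idx P) : Continuous fun u => (path Φ 0 P (X, v) p u i).1 :=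
  TreeEps399.continuous_path0 P (X, v) p T hV.2 i

/-- the straight-line curves are Lipschitz on `[0, T]` -/
theorem path0_lip (hΦ : AdmissiblePotential Φ) {P : CTree} {v : Space3} {p : Par P} {T : ℝ}
    (hT : 0 ≤ T) (hV : Valid Φ 0 P T v p) (hG : Gen Φ P (0, v) p) :
    ∃ M : ℝ, 0 ≤ M ∧ ∀ (X : Space3), ∀ s ∈ Icc 0 T, ∀ t ∈ Icc 0 T, ∀ i : Idx P,
      dist (path Φ 0 P (X, v) p t i).1 (path Φ 0 P (X, v) p s i).1 ≤ M * |t - s| := by
  obtain ⟨M, hM, hev⟩ := curve_lip hΦ hT hV hG
  refine ⟨M, hM, fun X s hs t ht i => ?_⟩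
  refine le_of_forall_pos_le_add fun η hη => ?_
  obtain ⟨ε, h1, h2⟩ := (hev.and (curve_close hΦ hV hG (half_pos hη))).exists
  have a1 := h2 X s hs i
  have a2 := h2 X t ht i
  have a3 := h1 X s t i
  have a4 := dist_triangle4 (path Φ 0 P (X, v) p t i).1 (curve Φ ε P (X, v) p i t)
    (curve Φ ε P (X, v) p i s) (path Φ 0 P (X, v) p s i).1
  rw [dist_comm] at a2
  linarith

end Crest.Agent.R122.Hid424
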