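import Crest.Agent.R122.GIVDefs_566
import Crest.Agent.R122.HidLam2_424
import Crest.Agent.R122.Hid_424

/-!
# Row 122, block F (helper383): children of a tube family, interface of the window step of GIV

* `rootL ε x V s v y` : the root line which is at time `s` at the entrance point (impact parameter
  `y`) of the ball of radius `ε` around `x`, with velocity `v`; `V` is the velocity of the tube;
* `treeT Φ ε P s ℓ p` : the protected tubes (up to time `s`) of the tree `(P, ℓ, p)`;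
* `childT`, `childT0` : the family with the protected tubes of a hitting tree added, at `ε` and in
  the limit;
* `wgt` : the limiting weight of the hitting trees;
* `ChildConv`, `FluxStep`, `DampStep` : the interface Props.
-/

set_option autoImplicit false
open MeasureTheory Set Filter
open scoped Classical ENNReal Topology NNReal
open Crest.AnalysisR.Kinetic
open Crest.Agent.R122.GC311 Crest.Agent.R122.Causal291 Crest.Agent.R122.Master566
open Crest.Agent.R122.GIV566 Crest.Agent.R122.Kin796 Crest.Agent.R122.Disc416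
open Crest.Agent.R122.Tree674
noncomputable section

namespace Crest.Agent.R122.GIVStep383

open CTree

/-- root line of a tree which enters at time `s` the ball of radius `ε` around `x` with impact
parameter `y`; `V` is the velocity of the tube -/
def rootL (ε : ℝ) (x V : Space3) (s : ℝ) (v : Space3) (y : Plane) : PhasePoint :=
  (x + ε • entrancePoint (frameMap (v - V) y) (v - V) - s • v, v)

theorem rootL_zero (x V : Space3) (s : ℝ) (v : Space3) (y : Plane) :
    rootL 0 x V s v y = (x - s • v, v) := by simp [rootL]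

/-- protected tubes of a tree up to time `s` (positive radius: the isolated Newton trajectories) -/
def treeT (Φ : Space3 → ℝ) (ε : ℝ) (P : CTree) (s : ℝ) (ℓ : PhasePoint) (p : Par P) :
    Tubes (Idx P) := ⟨fun j u => Hid424.curve Φ ε P ℓ p j u, prot P s p⟩

/-- protected tubes of a straight-line tree up to time `s` -/
def treeT0 (Φ : Space3 → ℝ) (P : CTree) (s : ℝ) (ℓ : PhasePoint) (p : Par P) :
    Tubes (Idx P) := ⟨fun j u => (path Φ 0 P ℓ p u j).1, prot P s p⟩

/-- parameters of a hitting tree: time, velocity and impact parameter of the hit, node parameters -/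
abbrev HPar (P : CTree) : Type := ℝ × Space3 × Plane × Par P

variable {ι : Type}

/-- child of the family `Sk` at radius `ε`; `S` is the limit family, which only gives the
velocity of the tube `i` at the time of the hit -/
def childT (Φ : Space3 → ℝ) (ε : ℝ) (Sk S : Tubes ι) (i : ι) {P : CTree} (θ : HPar P) :
    Tubes (ι ⊕ Idx P) :=
  Sk.sum (treeT Φ ε P θ.1 (rootL ε (Sk.c i θ.1) (deriv (S.c i) θ.1) θ.1 θ.2.1 θ.2.2.1) θ.2.2.2)

/-- child of the limit family -/
def childT0 (Φ : Space3 → ℝ) (S : Tubes ι) (i : ι) {P : CTree} (θ : HPar P) :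
    Tubes (ι ⊕ Idx P) :=
  S.sum (treeT0 Φ P θ.1 (S.c i θ.1 - θ.1 • θ.2.1, θ.2.1) θ.2.2.2)

/-- the parameters are admissible: hit of the active tube `i` in `(tw, t]` by a valid tree -/
def HGood (Φ : Space3 → ℝ) (tw t : ℝ) (S : Tubes ι) (i : ι) {P : CTree} (θ : HPar P) : Prop :=
  θ.1 ∈ Ioc tw t ∧ θ.1 < S.b i ∧ ‖θ.2.2.1‖ < 1 ∧ Valid Φ 0 P θ.1 θ.2.1 θ.2.2.2

/-- limiting weight of the hitting trees, the family being translated by `x` -/
def wgt (Φ : Space3 → ℝ) (f₀ : PhasePoint → ℝ) (tw t : ℝ) (S : Tubes ι) (i : ι) {P : CTree}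
    (θ : HPar P) (x : Space3) : ℝ≥0∞ :=
  if HGood Φ tw t S i θ then
    ENNReal.ofReal ‖θ.2.1 - deriv (S.c i) θ.1‖ * (wt Φ P θ.2.1 θ.2.2.2 *
      ∏ j, ENNReal.ofReal (f₀ (lines Φ 0 P (S.c i θ.1 + x - θ.1 • θ.2.1, θ.2.1) θ.2.2.2 j)))
  else 0

/-- trees with at most `K` particles -/
def trees (K : ℕ) : Finset CTree := (CTree.lt K).filter fun P => P.leaves ≤ K

theorem mem_trees {K : ℕ} {P : CTree} : P ∈ trees K ↔ P.leaves ≤ K := by
  unfold trees
  rw [Finset.mem_filter, CTree.mem_lt]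
  constructor
  · exact fun h => h.2
  · intro h
    have h1 := CTree.leaves_eq P
    have h2 := CTree.height_le_size P
    exact ⟨by omega, h⟩

/-- integrated gain of the trees of shape `P` at radius `ε` -/
def gain (Φ : Space3 → ℝ) (f₀ : PhasePoint → ℝ) (ε tw t : ℝ) [Fintype ι] (Sk S : Tubes ι)
    (P : CTree) (x : Space3) : ℝ≥0∞ :=
  ∑ i, ∫⁻ θ : HPar P, wgt Φ f₀ tw t S i θ x *
    uG Φ f₀ ε ((childT Φ ε Sk S i θ).shift x) θ.1

/-- integrated gain of the trees of shape `P` in the limit -/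
def gain0 (Φ : Space3 → ℝ) (f₀ : PhasePoint → ℝ) (f : ℝ → PhasePoint → ℝ) (T tw t : ℝ)
    [Fintype ι] (S : Tubes ι) (P : CTree) (x : Space3) : ℝ≥0∞ :=
  ∑ i, ∫⁻ θ : HPar P, wgt Φ f₀ tw t S i θ x * dampG T f ((childT0 Φ S i θ).shift x) θ.1

/-- **(I6)** children of a convergent generic family are convergent and generic
(a.e. parameter; owner 491). -/
def ChildConv (Φ : Space3 → ℝ) (T : ℝ) : Prop :=
  ∀ (ι : Type) [Fintype ι] (Sk : ℕ → Tubes ι) (S : Tubes ι) (εk : ℕ → ℝ),
    (∀ k, 0 < εk k) → Tendsto εk atTop (𝓝 0) → TubeConv T Sk S → Generic T S →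
    ∀ (i : ι) (P : CTree), ∀ᵐ θ : HPar P, θ.1 ∈ Ioo 0 T → θ.1 < S.b i → ‖θ.2.2.1‖ < 1 →
      Valid Φ 0 P θ.1 θ.2.1 θ.2.2.2 → ∃ Ck : ℕ → Tubes (ι ⊕ Idx P),
        (∀ᶠ k in atTop, Ck k = childT Φ (εk k) (Sk k) S i θ) ∧
        TubeConv T Ck (childT0 Φ S i θ) ∧ Generic T (childT0 Φ S i θ)

/-- **(I1)+(I2)** the first-hit identity at radius `ε`, integrated in the translation
(owners 317 and 818). -/
def FluxStep (Φ : Space3 → ℝ) (f₀ : PhasePoint → ℝ) (T tw t' : ℝ) : Prop :=
  ∀ (ι : Type) [Fintype ι] (Sk : ℕ → Tubes ι) (S : Tubes ι) (εk : ℕ → ℝ),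
    (∀ k, 0 < εk k) → Tendsto εk atTop (𝓝 0) → TubeConv T Sk S → Generic T S →
    ∀ t ∈ Icc tw t', ∀ R δ : ℝ, 0 < δ → ∃ K₀ : ℕ, ∀ K ≥ K₀,
      limsup (fun k => ∫⁻ x in Metric.closedBall (0 : Space3) R,
        adiff (uG Φ f₀ (εk k) ((Sk k).shift x) t +
          ∑ P ∈ trees K, gain Φ f₀ (εk k) tw t (Sk k) S P x)
          (uG Φ f₀ (εk k) ((Sk k).shift x) tw)) atTop ≤ ENNReal.ofReal δ

/-- **(I3)** the same identity in the limit (exact; owner 383). -/
def DampStep (Φ : Space3 → ℝ) (f₀ : PhasePoint → ℝ) (f : ℝ → PhasePoint → ℝ) (T : ℝ) : Prop :=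
  ∀ (ι : Type) [Fintype ι] (S : Tubes ι) (M : ℝ≥0), (∀ i, LipschitzOnWith M (S.c i) (Icc 0 T)) →
    ∀ tw t : ℝ, 0 ≤ tw → tw ≤ t → t ≤ T → ∀ x : Space3,
      dampG T f (S.shift x) t + ∑' P : CTree, gain0 Φ f₀ f T tw t S P x =
        dampG T f (S.shift x) tw

end Crest.Agent.R122.GIVStep383
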