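import Crest.Agent.R122.Scat4_818
import Crest.Agent.R122.NewtonLiou_671

/-!
# Row 122, block F2: two-body scattering, part 5

Joint measurability of the exit time, exit point and outgoing impact parameter; Liouville's theorem
for the relative flow; free flight before the entrance.
-/

set_option autoImplicit false

open MeasureTheory Filter Set
open scoped Topology NNReal ENNReal
open Crest.AnalysisR.Kinetic

noncomputable section

namespace Crest.Agent.R122.Scat818

open Flow671

variable {Φ : Space3 → ℝ}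

/-! ### Free flight before entrance and after exit -/

/-- Before the entrance time `0` the motion is free. -/
theorem relFlow_before (hΦ : AdmissiblePotential Φ) {b g : Space3} (hb : b ∈ impactDisc g)
    (hg : g ≠ 0) {t : ℝ} (ht : t ≤ 0) :
    relFlow Φ t (inc b g) = (entrancePoint b g + t • g, g) :=
  relFlow_free_neg hΦ (norm_entrance hb hg).ge (inner_entrance_neg hb hg).le ht

/-- Exit point. -/
def exitPoint (Φ : Space3 → ℝ) (b g : Space3) : Space3 :=
  (relFlow Φ (exitTime Φ b g) (inc b g)).1

/-- Data with a passage. -/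
def HasPass (Φ : Space3 → ℝ) (b g : Space3) : Prop := ∃ τ, HasExit Φ (inc b g) τ

lemma HasPass.hasExit {b g : Space3} (h : HasPass Φ b g) :
    HasExit Φ (inc b g) (exitTime Φ b g) := by
  obtain ⟨τ, hτ⟩ := h
  rwa [exitTime_eq hτ]

lemma HasPass.exitTime_pos {b g : Space3} (h : HasPass Φ b g) : 0 < exitTime Φ b g :=
  h.hasExit.1

lemma exitTime_nonneg (b g : Space3) : 0 ≤ exitTime Φ b g := by
  classical
  by_cases h : ∃ τ, HasExit Φ (inc b g) τ
  · exact (HasPass.exitTime_pos h).le
  · rw [exitTime, dif_neg h]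

lemma HasPass.relFlow_exit (hΦ : AdmissiblePotential Φ) {b g : Space3} (hb : b ∈ impactDisc g)
    (hg : g ≠ 0) (h : HasPass Φ b g) :
    relFlow Φ (exitTime Φ b g) (inc b g) = (exitPoint Φ b g, exitVelocity Φ b g) := by
  ext1
  · rfl
  · exact (exitVelocity_eq hΦ (reg_entrance Φ hb hg) h.hasExit).symm

lemma HasPass.norm_exitPoint {b g : Space3} (h : HasPass Φ b g) : ‖exitPoint Φ b g‖ = 1 :=
  h.hasExit.2.2

lemma HasPass.norm_lt {b g : Space3} (h : HasPass Φ b g) {s : ℝ}
    (hs : s ∈ Ioo 0 (exitTime Φ b g)) : ‖(relFlow Φ s (inc b g)).1‖ < 1 := h.hasExit.2.1 s hs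

/-- After the exit the motion is free. -/
theorem HasPass.after (hΦ : AdmissiblePotential Φ) {b g : Space3} (hb : b ∈ impactDisc g)
    (hg : g ≠ 0) (h : HasPass Φ b g) {t : ℝ} (ht : exitTime Φ b g ≤ t) :
    relFlow Φ t (inc b g) =
      (exitPoint Φ b g + (t - exitTime Φ b g) • exitVelocity Φ b g, exitVelocity Φ b g) := by
  have := h.hasExit.after hΦ (reg_entrance Φ hb hg) ht
  rw [this, h.relFlow_exit hΦ hb hg]

lemma HasPass.one_le_norm (hΦ : AdmissiblePotential Φ) {b g : Space3} (hb : b ∈ impactDisc g)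
    (hg : g ≠ 0) (h : HasPass Φ b g) {t : ℝ} (ht : t ≤ 0 ∨ exitTime Φ b g ≤ t) :
    1 ≤ ‖(relFlow Φ t (inc b g)).1‖ := by
  rcases ht with ht | ht
  · rw [relFlow_before hΦ hb hg ht, one_le_norm_iff, norm_sq_line, norm_sq_entrance hb hg]
    have h1 := inner_entrance_neg hb hg
    have h2 : 0 ≤ 2 * t * inner ℝ (entrancePoint b g) g := by nlinarith
    have h3 : 0 ≤ t ^ 2 * ‖g‖ ^ 2 := by positivity
    linarith
  · rcases eq_or_lt_of_le ht with h' | h'
    · rw [← h', h.hasExit.2.2]
    · exact (h.hasExit.one_lt_norm hΦ (reg_entrance Φ hb hg) h').le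

lemma HasPass.exitPoint_eq (hΦ : AdmissiblePotential Φ) {b g : Space3} (hb : b ∈ impactDisc g)
    (hg : g ≠ 0) (h : HasPass Φ b g) : exitPoint Φ b g =
      exitImpact Φ b g + (Real.sqrt (1 - ‖b‖ ^ 2) / ‖g‖) • exitVelocity Φ b g :=
  Scat818.exitPoint_eq hΦ hb hg h.hasExit

/-- The position at all times of a passage is bounded by `1` inside and grows linearly outside. -/
lemma HasPass.norm_le (hΦ : AdmissiblePotential Φ) {b g : Space3} (hb : b ∈ impactDisc g)
    (hg : g ≠ 0) (h : HasPass Φ b g) (t : ℝ) :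
    ‖(relFlow Φ t (inc b g)).1‖ ≤ 1 + |t| * ‖g‖ := by
  rcases le_or_gt t 0 with ht | ht
  · rw [relFlow_before hΦ hb hg ht]
    refine (norm_add_le _ _).trans ?_
    rw [norm_entrance hb hg, norm_smul, Real.norm_eq_abs]
  · rcases le_or_gt (exitTime Φ b g) t with h' | h'
    · rw [h.after hΦ hb hg h']
      refine (norm_add_le _ _).trans ?_
      rw [h.norm_exitPoint, norm_smul, Real.norm_eq_abs, norm_exitVelocity hΦ hb hg,
        abs_of_nonneg (by linarith : 0 ≤ t - exitTime Φ b g), abs_of_pos ht]
      have := exitTime_nonneg (Φ := Φ) b g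
      have h2 : (t - exitTime Φ b g) * ‖g‖ ≤ t * ‖g‖ := by
        apply mul_le_mul_of_nonneg_right _ (norm_nonneg g)
        linarith
      linarith
    · have := h.norm_lt ⟨ht, h'⟩
      have h2 : 0 ≤ |t| * ‖g‖ := by positivity
      linarith

/-! ### Joint measurability -/

/-- Nondegenerate incidence data. -/
def gincid : Set (Space3 × Space3) := {p | p.1 ∈ impactDisc p.2 ∧ p.2 ≠ 0}

lemma measurableSet_gincid : MeasurableSet gincid :=
  measurableSet_impact.inter
    ((measurableSet_singleton (0 : Space3)).compl.preimage measurable_snd)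

lemma gincid_subset_incid : gincid ⊆ incid := by
  rintro p ⟨h1, h2⟩
  exact ⟨h1, fun h => h2 (by rw [h]; rfl)⟩

/-- Data with a passage, as a set. -/
def passSet (Φ : Space3 → ℝ) : Set (Space3 × Space3) := {p | p ∈ gincid ∧ HasPass Φ p.1 p.2}

lemma measurableSet_passSet (hΦ : AdmissiblePotential Φ) : MeasurableSet (passSet Φ) := by
  have h1 : passSet Φ =
      gincid ∩ {p : Space3 × Space3 | p ∈ incid ∧ ∃ τ, HasExit Φ (inc p.1 p.2) τ} := by
    ext p
    constructor
    · rintro ⟨h1, h2⟩
      exact ⟨h1, gincid_subset_incid h1, h2⟩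
    · rintro ⟨h1, _, h2⟩
      exact ⟨h1, h2⟩
  rw [h1]
  exact measurableSet_gincid.inter (measurableSet_hasExit hΦ)

/-- Total version of the exit time: zero unless there is a passage. -/
def tauM (Φ : Space3 → ℝ) (p : Space3 × Space3) : ℝ :=
  open scoped Classical in
  if p ∈ passSet Φ then exitTime Φ p.1 p.2 else 0

lemma tauM_of_mem {p : Space3 × Space3} (hp : p ∈ passSet Φ) : tauM Φ p = exitTime Φ p.1 p.2 := by
  classical
  rw [tauM, if_pos hp]

lemma tauM_of_not {p : Space3 × Space3} (hp : p ∉ passSet Φ) : tauM Φ p = 0 := by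
  classical
  rw [tauM, if_neg hp]

lemma tauM_nonneg (p : Space3 × Space3) : 0 ≤ tauM Φ p := by
  by_cases hp : p ∈ passSet Φ
  · rw [tauM_of_mem hp]; exact exitTime_nonneg _ _
  · rw [tauM_of_not hp]

theorem measurable_tauM (hΦ : AdmissiblePotential Φ) : Measurable (tauM Φ) := by
  refine measurable_of_Iio fun c => ?_
  have hP := measurableSet_passSet hΦ
  rcases le_or_gt c 0 with hc | hc
  · have : tauM Φ ⁻¹' Iio c = ∅ := by
      ext p
      simp only [mem_preimage, mem_Iio, mem_empty_iff_false, iff_false, not_lt]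
      exact hc.trans (tauM_nonneg p)
    rw [this]; exact MeasurableSet.empty
  · have h1 : tauM Φ ⁻¹' Iio c =
        (passSet Φ)ᶜ ∪ (passSet Φ ∩ {p | 1 < ‖(relFlow Φ c (inc p.1 p.2)).1‖}) := by
      ext p
      simp only [mem_preimage, mem_Iio, mem_union, mem_compl_iff, mem_inter_iff]
      by_cases hp : p ∈ passSet Φ
      · have hz : Reg Φ (inc p.1 p.2).1 := reg_entrance Φ hp.1.1 hp.1.2
        have hent := enters_inc hΦ hp.1.1 hp.1.2
        rw [tauM_of_mem hp]
        constructor
        · intro h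
          exact Or.inr ⟨hp, (exit_lt_iff hΦ hz hent hc).1 ⟨_, h, hp.2.hasExit⟩⟩
        · rintro (h | ⟨_, h⟩)
          · exact absurd hp h
          · obtain ⟨τ, h2, h3⟩ := (exit_lt_iff hΦ hz hent hc).2 h
            rwa [exitTime_eq h3]
      · rw [tauM_of_not hp]
        exact ⟨fun _ => Or.inl hp, fun _ => hc⟩
    rw [h1]
    refine hP.compl.union (hP.inter ?_)
    have h2 : Measurable fun p : Space3 × Space3 => relFlow Φ c (inc p.1 p.2) :=
      (measurable_relFlow hΦ _).comp measurable_inc
    exact measurableSet_lt measurable_const h2.fst.norm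

/-- The relative flow is jointly measurable in time and phase point. -/
theorem measurable_relFlow_joint (hΦ : AdmissiblePotential Φ) :
    Measurable (fun p : ℝ × (Space3 × Space3) => relFlow Φ p.1 p.2) := by
  classical
  have hU : MeasurableSet ((univ : Set ℝ) ×ˢ RegSet Φ) :=
    MeasurableSet.univ.prod (isOpen_regSet Φ).measurableSet
  have h1 := continuousOn_relFlow hΦ
  have h3 : (fun p : ℝ × (Space3 × Space3) => relFlow Φ p.1 p.2) =
      ((univ : Set ℝ) ×ˢ RegSet Φ).piecewise (fun p => relFlow Φ p.1 p.2) (fun p => p.2) := by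
    funext p
    by_cases hp : p ∈ (univ : Set ℝ) ×ˢ RegSet Φ
    · rw [Set.piecewise_eq_of_mem _ _ _ hp]
    · rw [Set.piecewise_eq_of_notMem _ _ _ hp]
      exact Complete.flow_of_not_mem (fun h => hp ⟨mem_univ _, h⟩) p.1
  rw [h3]
  exact h1.measurable_piecewise continuousOn_snd hU

/-- Total version of the exit phase point `(x', g')`: `(entrancePoint b g, g)` unless there is a
passage. -/
def exitM (Φ : Space3 → ℝ) (p : Space3 × Space3) : Space3 × Space3 :=
  relFlow Φ (tauM Φ p) (inc p.1 p.2)

theorem measurable_exitM (hΦ : AdmissiblePotential Φ) : Measurable (exitM Φ) :=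
  (measurable_relFlow_joint hΦ).comp ((measurable_tauM hΦ).prodMk measurable_inc)

lemma exitM_of_mem (hΦ : AdmissiblePotential Φ) {p : Space3 × Space3} (hp : p ∈ passSet Φ) :
    exitM Φ p = (exitPoint Φ p.1 p.2, exitVelocity Φ p.1 p.2) := by
  rw [exitM, tauM_of_mem hp]
  exact hp.2.relFlow_exit hΦ hp.1.1 hp.1.2

lemma exitM_of_not (hΦ : AdmissiblePotential Φ) {p : Space3 × Space3} (hp : p ∉ passSet Φ) :
    exitM Φ p = inc p.1 p.2 := by
  rw [exitM, tauM_of_not hp, relFlow_zero hΦ]

/-- **The scattering map** `(b, g) ↦ (b', g')` in total, jointly measurable form. -/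
def scat (Φ : Space3 → ℝ) (p : Space3 × Space3) : Space3 × Space3 :=
  open scoped Classical in
  if p ∈ passSet Φ then (exitImpact Φ p.1 p.2, exitVelocity Φ p.1 p.2) else p

lemma scat_of_mem {p : Space3 × Space3} (hp : p ∈ passSet Φ) :
    scat Φ p = (exitImpact Φ p.1 p.2, exitVelocity Φ p.1 p.2) := by
  classical
  rw [scat, if_pos hp]

lemma scat_of_not {p : Space3 × Space3} (hp : p ∉ passSet Φ) : scat Φ p = p := by
  classical
  rw [scat, if_neg hp]

/-- On all nondegenerate incidence data the second component is the frozen exit velocity. -/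
lemma scat_of_gincid (hΦ : AdmissiblePotential Φ) {p : Space3 × Space3} (hp : p ∈ gincid) :
    scat Φ p = (exitImpact Φ p.1 p.2, exitVelocity Φ p.1 p.2) := by
  by_cases h : p ∈ passSet Φ
  · exact scat_of_mem h
  · have h2 : ¬ ∃ τ, HasExit Φ (inc p.1 p.2) τ := fun h' => h ⟨hp, h'⟩
    rw [scat_of_not h, exitImpact_of_not h2, exitVelocity_of_not hΦ (reg_entrance Φ hp.1 hp.2) h2]

lemma scat_eq (hΦ : AdmissiblePotential Φ) (p : Space3 × Space3) :
    scat Φ p = open scoped Classical in if p ∈ passSet Φ then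
      ((exitM Φ p).1 - (Real.sqrt (1 - ‖p.1‖ ^ 2) / ‖p.2‖) • (exitM Φ p).2, (exitM Φ p).2)
      else p := by
  classical
  by_cases hp : p ∈ passSet Φ
  · rw [scat_of_mem hp, if_pos hp, exitM_of_mem hΦ hp, hp.2.exitPoint_eq hΦ hp.1.1 hp.1.2]
    simp
  · rw [scat_of_not hp, if_neg hp]

theorem measurable_scat (hΦ : AdmissiblePotential Φ) : Measurable (scat Φ) := by
  classical
  have h : scat Φ = fun p => if p ∈ passSet Φ then
      ((exitM Φ p).1 - (Real.sqrt (1 - ‖p.1‖ ^ 2) / ‖p.2‖) • (exitM Φ p).2, (exitM Φ p).2)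
      else p := by
    funext p
    rw [scat_eq hΦ]
  rw [h]
  refine Measurable.ite (measurableSet_passSet hΦ) ?_ measurable_id
  have h1 := measurable_exitM hΦ
  have h2 : Measurable fun p : Space3 × Space3 => Real.sqrt (1 - ‖p.1‖ ^ 2) / ‖p.2‖ := by
    fun_prop
  exact (h1.fst.sub (h2.smul h1.snd)).prodMk h1.snd

lemma scat_mem_gincid (hΦ : AdmissiblePotential Φ) {p : Space3 × Space3} (hp : p ∈ gincid) :
    scat Φ p ∈ gincid := by
  rw [scat_of_gincid hΦ hp]
  exact ⟨exitImpact_mem hΦ hp.1 hp.2, exitVelocity_ne_zero hΦ hp.1 hp.2⟩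

/-- Velocity reversal on incidence data. -/
def rev (p : Space3 × Space3) : Space3 × Space3 := (p.1, -p.2)

lemma rev_rev (p : Space3 × Space3) : rev (rev p) = p := by
  simp [rev]

lemma measurable_rev : Measurable rev := measurable_fst.prodMk measurable_snd.neg

lemma rev_mem_gincid {p : Space3 × Space3} (hp : p ∈ gincid) : rev p ∈ gincid :=
  ⟨mem_impactDisc_neg.2 hp.1, neg_ne_zero.2 hp.2⟩

lemma rev_scat_mem_passSet (hΦ : AdmissiblePotential Φ) {p : Space3 × Space3}
    (hp : p ∈ passSet Φ) : rev (scat Φ p) ∈ passSet Φ := by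
  refine ⟨rev_mem_gincid (scat_mem_gincid hΦ hp.1), ?_⟩
  rw [scat_of_mem hp]
  exact ⟨_, (hp.2.hasExit.reverse hΦ hp.1.1 hp.1.2).1⟩

/-- **Time reversal**: `rev ∘ scat` is an involution on data with a passage. -/
theorem scat_rev_scat (hΦ : AdmissiblePotential Φ) {p : Space3 × Space3} (hp : p ∈ passSet Φ) :
    scat Φ (rev (scat Φ p)) = rev p := by
  rw [scat_of_mem (rev_scat_mem_passSet hΦ hp), scat_of_mem hp]
  obtain ⟨h1, h2⟩ := exit_exit hΦ hp.1.1 hp.1.2 hp.2.hasExit
  show (exitImpact Φ (exitImpact Φ p.1 p.2) (-exitVelocity Φ p.1 p.2),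
    exitVelocity Φ (exitImpact Φ p.1 p.2) (-exitVelocity Φ p.1 p.2)) = (p.1, -p.2)
  rw [h1, h2]

lemma scat_injOn (hΦ : AdmissiblePotential Φ) : InjOn (scat Φ) (passSet Φ) := by
  intro p hp p' hp' h
  have h1 := scat_rev_scat hΦ hp
  have h2 := scat_rev_scat hΦ hp'
  rw [h] at h1
  have h3 : rev p = rev p' := by rw [← h1, h2]
  rw [← rev_rev p, h3, rev_rev]

lemma exitTime_rev_scat (hΦ : AdmissiblePotential Φ) {p : Space3 × Space3} (hp : p ∈ passSet Φ) :
    exitTime Φ (rev (scat Φ p)).1 (rev (scat Φ p)).2 = exitTime Φ p.1 p.2 := by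
  rw [scat_of_mem hp]
  exact exitTime_eq (hp.2.hasExit.reverse hΦ hp.1.1 hp.1.2).1

/-- The scattering map commutes with isometries. -/
lemma scat_isometry (hΦ : AdmissiblePotential Φ) (R : Space3 ≃ₗᵢ[ℝ] Space3)
    {p : Space3 × Space3} (hp : p ∈ gincid) :
    scat Φ (R p.1, R p.2) = (R (scat Φ p).1, R (scat Φ p).2) := by
  have hp' : ((R p.1, R p.2) : Space3 × Space3) ∈ gincid :=
    ⟨(mem_impactDisc_isometry R).2 hp.1, by simpa using hp.2⟩
  rw [scat_of_gincid hΦ hp, scat_of_gincid hΦ hp', exitImpact_isometry hΦ R hp.1 hp.2,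
    exitVelocity_isometry hΦ R hp.1 hp.2]

/-! ### Liouville's theorem for the relative flow -/

lemma measurePreserving_drift1 (h : ℝ) :
    MeasurePreserving (fun z : Space3 × Space3 => (z.1 + h • z.2, z.2)) volume volume := by
  have h2 : MeasurePreserving (fun p : Space3 × Space3 => (p.1, p.2 + h • p.1))
      ((volume : Measure Space3).prod volume) ((volume : Measure Space3).prod volume) := by
    refine MeasurePreserving.skew_product (f := id) (MeasurePreserving.id _)
      (g := fun a c => c + h • a) ?_ ?_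
    · fun_prop
    · refine Eventually.of_forall fun a => ?_
      exact (measurePreserving_add_right volume (h • a)).map_eq
  exact (Measure.measurePreserving_swap (μ := (volume : Measure Space3))
    (ν := (volume : Measure Space3))).comp
    (h2.comp (Measure.measurePreserving_swap (μ := (volume : Measure Space3))
      (ν := (volume : Measure Space3))))

lemma measurePreserving_kick1 {a : Space3 → Space3} (ha : Continuous a) (h : ℝ) :
    MeasurePreserving (fun z : Space3 × Space3 => (z.1, z.2 + h • a z.1)) volume volume := by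
  refine MeasurePreserving.skew_product (μa := (volume : Measure Space3))
    (μc := (volume : Measure Space3)) (f := id) (MeasurePreserving.id _)
    (g := fun x c => c + h • a x) ?_ ?_
  · have : Continuous (fun p : Space3 × Space3 => p.2 + h • a p.1) := by fun_prop
    exact this.measurable
  · refine Eventually.of_forall fun x => ?_
    exact (measurePreserving_add_right volume (h • a x)).map_eq

/-- Liouville's theorem for `x'' = a(x)` with a Lipschitz acceleration. -/
theorem measurePreserving_cut {a : Space3 → Space3} {K : ℝ≥0} (ha : LipschitzWith K a) (t : ℝ) :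
    MeasurePreserving (gflow (fld a) univ t) volume volume := by
  have hK := lipschitzWith_fld ha
  have hdrift : ∀ (h : ℝ) (z w : Space3 × Space3),
      dist ((z.1 + h • z.2, z.2) : Space3 × Space3) (w.1 + h • w.2, w.2)
        ≤ (1 + |h|) * dist z w := by
    intro h z w
    have h1 : dist z.1 w.1 ≤ dist z w := le_max_left _ _
    have h2 : dist z.2 w.2 ≤ dist z w := le_max_right _ _
    rw [Prod.dist_eq]
    refine max_le ?_ ?_
    · calc dist (z.1 + h • z.2) (w.1 + h • w.2)
          ≤ dist z.1 w.1 + dist (h • z.2) (h • w.2) := dist_add_add_le _ _ _ _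
        _ = dist z.1 w.1 + |h| * dist z.2 w.2 := by rw [dist_smul₀, Real.norm_eq_abs]
        _ ≤ dist z w + |h| * dist z w := by gcongr
        _ = _ := by ring
    · change dist z.2 w.2 ≤ _
      nlinarith [abs_nonneg h, dist_nonneg (x := z) (y := w)]
  have hkick : ∀ (h : ℝ) (z w : Space3 × Space3),
      dist ((z.1, z.2 + h • a z.1) : Space3 × Space3) (w.1, w.2 + h • a w.1)
        ≤ (1 + K * |h|) * dist z w := by
    intro h z w
    have h1 : dist z.1 w.1 ≤ dist z w := le_max_left _ _
    have h2 : dist z.2 w.2 ≤ dist z w := le_max_right _ _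
    have h0 := dist_nonneg (x := z) (y := w)
    rw [Prod.dist_eq]
    refine max_le ?_ ?_
    · change dist z.1 w.1 ≤ _
      have : 0 ≤ (K : ℝ) * |h| := by positivity
      nlinarith
    · calc dist (z.2 + h • a z.1) (w.2 + h • a w.1)
          ≤ dist z.2 w.2 + dist (h • a z.1) (h • a w.1) := dist_add_add_le _ _ _ _
        _ = dist z.2 w.2 + |h| * dist (a z.1) (a w.1) := by rw [dist_smul₀, Real.norm_eq_abs]
        _ ≤ dist z w + |h| * (K * dist z w) := by
            gcongr
            exact (ha.dist_le_mul _ _).trans (by gcongr)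
        _ = _ := by ring
  have hreg : (volume : Measure (Space3 × Space3)).OuterRegular := by infer_instance
  refine measurePreserving_of_scheme (C := 1 + 2 * K) hK
    (S := fun h z => ((z.1 + h • z.2, z.2 + h • a (z.1 + h • z.2)) : Space3 × Space3))
    (by positivity) (fun h => (measurePreserving_kick1 ha.continuous h).comp
      (measurePreserving_drift1 h)) ?_ ?_ t
  · intro h z hh
    have e1 : (((z.1 + h • z.2, z.2 + h • a (z.1 + h • z.2)) : Space3 × Space3) - z
        - h • fld a z) = (0, h • (a (z.1 + h • z.2) - a z.1)) := by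
      ext1
      · simp [fld]
      · simp only [fld, Prod.snd_sub, Prod.smul_snd, smul_sub]
        abel
    rw [e1, Prod.norm_mk, norm_zero, max_eq_right (norm_nonneg _), norm_smul, Real.norm_eq_abs,
      ← dist_eq_norm]
    have h1 := ha.dist_le_mul (z.1 + h • z.2) z.1
    have h2 : dist (z.1 + h • z.2) z.1 ≤ |h| * ‖z‖ := by
      rw [dist_eq_norm, add_sub_cancel_left, norm_smul, Real.norm_eq_abs]
      gcongr
      exact le_max_right _ _
    have h4 : |h| * |h| = h ^ 2 := by rw [← sq, sq_abs]
    have hKn : (0 : ℝ) ≤ K := K.2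
    calc |h| * dist (a (z.1 + h • z.2)) (a z.1)
        ≤ |h| * (K * (|h| * ‖z‖)) := by
          gcongr
          exact h1.trans (by gcongr)
      _ = K * h ^ 2 * ‖z‖ := by rw [← h4]; ring
      _ ≤ (1 + 2 * K) * h ^ 2 * (1 + ‖z‖) := by
          have h5 := sq_nonneg h
          have h6 := norm_nonneg z
          have h7 : (K : ℝ) * h ^ 2 ≤ (1 + 2 * K) * h ^ 2 := by nlinarith
          have h8 : 0 ≤ (1 + 2 * (K : ℝ)) * h ^ 2 := by positivity
          nlinarith
  · intro h z w hh
    rw [← dist_eq_norm, ← dist_eq_norm]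
    have h1 := hkick h ((z.1 + h • z.2, z.2) : Space3 × Space3) (w.1 + h • w.2, w.2)
    have h2 := hdrift h z w
    have hKn : (0 : ℝ) ≤ K := K.2
    have h3 : 0 ≤ 1 + K * |h| := by positivity
    refine (h1.trans (mul_le_mul_of_nonneg_left h2 h3)).trans ?_
    rw [← mul_assoc]
    refine mul_le_mul_of_nonneg_right ?_ dist_nonneg
    have h4 : |h| * |h| ≤ |h| := by nlinarith [abs_nonneg h]
    nlinarith [abs_nonneg h, mul_le_mul_of_nonneg_left h4 hKn]

lemma measurable_en (hΦ : AdmissiblePotential Φ) :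
    Measurable (fun z : Space3 × Space3 => en Φ z.1 z.2) := by
  classical
  have h1 : Measurable Φ := by
    have hc : ContinuousOn Φ {x : Space3 | x ≠ 0} := hΦ.contDiff_away_from_origin.continuousOn
    have h3 : Φ = {x : Space3 | x ≠ 0}.piecewise Φ (fun _ => Φ 0) := by
      funext x
      by_cases hx : x ∈ {x : Space3 | x ≠ 0}
      · rw [Set.piecewise_eq_of_mem _ _ _ hx]
      · rw [Set.piecewise_eq_of_notMem _ _ _ hx]
        have : x = 0 := by
          by_contra h; exact hx h
        rw [this]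
    rw [h3]
    exact hc.measurable_piecewise continuousOn_const isOpen_ne.measurableSet
  unfold en
  exact (measurable_snd.norm.pow_const 2).add ((h1.comp measurable_fst).const_mul 4)

/-- **Liouville's theorem for the relative flow.** -/
theorem measurePreserving_relFlow (hΦ : AdmissiblePotential Φ) (t : ℝ) :
    MeasurePreserving (relFlow Φ t) volume volume := by
  refine ⟨measurable_relFlow hΦ t, ?_⟩
  ext A hA
  rw [Measure.map_apply (measurable_relFlow hΦ t) hA]
  -- exhaustion by invariant sets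
  let U : ℕ → Set (Space3 × Space3) := fun k => {z | Reg Φ z.1 ∧ en Φ z.1 z.2 ≤ k}
  have hUm : ∀ k, MeasurableSet (U k) := fun k =>
    (isOpen_regSet Φ).measurableSet.inter (measurableSet_le (measurable_en hΦ) measurable_const)
  have hUinv : ∀ k s z, z ∈ U k → relFlow Φ s z ∈ U k := by
    intro k s z hz
    exact ⟨reg_relFlow hΦ hz.1 s, by rw [en_relFlow hΦ hz.1]; exact hz.2⟩
  have hUmono : Monotone U := by
    intro k l hkl z hz
    exact ⟨hz.1, hz.2.trans (by exact_mod_cast hkl)⟩
  have hUnion : ⋃ k, U k = RegSet Φ := by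
    ext z
    simp only [mem_iUnion]
    constructor
    · rintro ⟨k, hk⟩; exact hk.1
    · intro hz
      obtain ⟨k, hk⟩ := exists_nat_ge (en Φ z.1 z.2)
      exact ⟨k, hz, hk⟩
  have hnull : (volume : Measure (Space3 × Space3)) (RegSet Φ)ᶜ = 0 := by
    have hsub : (RegSet Φ)ᶜ ⊆ ({0} : Set Space3) ×ˢ (univ : Set Space3) := by
      intro z hz
      refine ⟨?_, mem_univ _⟩
      by_contra h
      exact hz (Or.inl h)
    refine measure_mono_null hsub ?_
    rw [Measure.volume_eq_prod, Measure.prod_prod]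
    simp
  have hkey : ∀ k, volume (relFlow Φ t ⁻¹' A ∩ U k) = volume (A ∩ U k) := by
    intro k
    obtain ⟨a, ⟨K, hK⟩, hcut⟩ := exists_relFlow_eq_cut hΦ (k : ℝ)
    have hc := complete_of_lipschitz (lipschitzWith_fld hK)
    have hmp := measurePreserving_cut hK t
    have heq : relFlow Φ t ⁻¹' A ∩ U k = gflow (fld a) univ t ⁻¹' (A ∩ U k) := by
      ext z
      constructor
      · rintro ⟨h1, h2⟩
        show gflow (fld a) univ t z ∈ A ∩ U k
        rw [← hcut z h2.1 h2.2 t]
        exact ⟨h1, hUinv k t z h2⟩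
      · intro h
        have h1 : gflow (fld a) univ t z ∈ A ∩ U k := h
        have h2 : z ∈ U k := by
          have h3 := hUinv k (-t) _ h1.2
          rw [hcut _ h1.2.1 h1.2.2, hc.flow_neg_flow] at h3
          exact h3
        refine ⟨?_, h2⟩
        show relFlow Φ t z ∈ A
        rw [hcut z h2.1 h2.2 t]
        exact h1.1
    rw [heq, hmp.measure_preimage (hA.inter (hUm k)).nullMeasurableSet]
  have h1 : volume (relFlow Φ t ⁻¹' A) = volume (relFlow Φ t ⁻¹' A ∩ RegSet Φ) :=
    (measure_inter_conull hnull).symm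
  have h2 : volume A = volume (A ∩ RegSet Φ) := (measure_inter_conull hnull).symm
  rw [h1, h2, ← hUnion, inter_iUnion, inter_iUnion,
    (show Monotone fun k => relFlow Φ t ⁻¹' A ∩ U k from fun k l hkl =>
      inter_subset_inter_right _ (hUmono hkl)).measure_iUnion,
    (show Monotone fun k => A ∩ U k from fun k l hkl =>
      inter_subset_inter_right _ (hUmono hkl)).measure_iUnion]
  simp only [hkey]

end Crest.Agent.R122.Scat818
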