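import Crest.Agent.R122.LN2Dom_473
import Crest.Agent.R122.TreeMeas2_674

/-!
# Row 122, LN2: the law of a tree and the law of a line are dominated

* `treeM Φ f₀ ε P T` : the measure `{Valid Φ ε P T} wt ∏ f₀ (lines) dz`;
  `dom_tree` : one group, births `0`, every particle is an anchor, structure map `linesM`.
* `dom_line` : `lineM` : one group, no anchor.
-/

set_option autoImplicit false
open MeasureTheory Set
open scoped Classical ENNReal
open Crest.AnalysisR.Kinetic
noncomputable section

namespace Crest.Agent.R122.LN2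

open Crest.Agent.R122.GC311 Crest.Agent.R122.Kin796 Crest.Agent.R122.Kin796.CTree
open Crest.Agent.R122.VL581 Crest.Agent.R122.LinkGas473 Crest.Agent.R122.Tree674
open Crest.Agent.R122.ToTree335 Crest.Agent.R122.EDefs602

variable {Φ : Space3 → ℝ} {f₀ : PhasePoint → ℝ} {ε γ : ℝ} {ρ : Space3 → ℝ≥0∞} {C : ℝ≥0∞}

/-! ## Trees -/

/-- Density of the law of a tree. -/
def treeD (Φ : Space3 → ℝ) (f₀ : PhasePoint → ℝ) (ε : ℝ) (P : CTree) (T : ℝ) :
    PhasePoint × Par P → ℝ≥0∞ :=
  {z : PhasePoint × Par P | Valid Φ ε P T z.1.2 z.2}.indicator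
    fun z => wt Φ P z.1.2 z.2 * pf Φ f₀ ε P z

/-- Law of a tree (not normalised). -/
def treeM (Φ : Space3 → ℝ) (f₀ : PhasePoint → ℝ) (ε : ℝ) (P : CTree) (T : ℝ) :
    Measure (PhasePoint × Par P) := (volume : Measure (PhasePoint × Par P)).withDensity
      (treeD Φ f₀ ε P T)

theorem measurable_treeD (hΦ : AdmissiblePotential Φ) (hf : Measurable f₀) (ε : ℝ) (P : CTree)
    (T : ℝ) : Measurable (treeD Φ f₀ ε P T) := by
  have h : treeD Φ f₀ ε P T = fun z =>
      ({z : PhasePoint × Par P | Valid Φ ε P T z.1.2 z.2}.indicator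
        (fun z => wt Φ P z.1.2 z.2) z) * pfM Φ f₀ ε P z := by
    funext z
    unfold treeD
    by_cases hz : Valid Φ ε P T z.1.2 z.2
    · have hz' : z ∈ {z : PhasePoint × Par P | Valid Φ ε P T z.1.2 z.2} := hz
      rw [indicator_of_mem hz', indicator_of_mem hz', pfM_of_adm hz.1]
    · have hz' : z ∉ {z : PhasePoint × Par P | Valid Φ ε P T z.1.2 z.2} := hz
      rw [indicator_of_notMem hz', indicator_of_notMem hz', zero_mul]
  rw [h]
  exact (measurable_wt hΦ ε P T).mul (measurable_pfM hΦ hf P)

theorem lintegral_treeM (hΦ : AdmissiblePotential Φ) (hf : Measurable f₀) (ε : ℝ) (P : CTree)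
    (T : ℝ) {G : PhasePoint × Par P → ℝ≥0∞} (hG : Measurable G) :
    ∫⁻ z, G z ∂(treeM Φ f₀ ε P T) = ∫⁻ z : PhasePoint × Par P,
      {z : PhasePoint × Par P | Valid Φ ε P T z.1.2 z.2}.indicator
        (fun z => wt Φ P z.1.2 z.2 * (pf Φ f₀ ε P z * G z)) z := by
  unfold treeM
  rw [lintegral_withDensity_eq_lintegral_mul _ (measurable_treeD hΦ hf ε P T) hG]
  refine lintegral_congr fun z => ?_
  simp only [Pi.mul_apply, treeD]
  by_cases hz : Valid Φ ε P T z.1.2 z.2
  · have hz' : z ∈ {z : PhasePoint × Par P | Valid Φ ε P T z.1.2 z.2} := hz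
    rw [indicator_of_mem hz', indicator_of_mem hz']
    ring
  · have hz' : z ∉ {z : PhasePoint × Par P | Valid Φ ε P T z.1.2 z.2} := hz
    rw [indicator_of_notMem hz', indicator_of_notMem hz', zero_mul]

instance (P : CTree) : SFinite (treeM Φ f₀ ε P 0) := by
  unfold treeM; infer_instance

instance instSFiniteTreeM (P : CTree) (T : ℝ) : SFinite (treeM Φ f₀ ε P T) := by
  unfold treeM; infer_instance

theorem size_eq (P : CTree) : P.size = Fintype.card (Idx P) - 1 := by
  rw [card_idx]
  induction P with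
  | leaf => rfl
  | node l r hl hr =>
    have h1 : ∀ Q : CTree, 1 ≤ Q.leaves := by
      intro Q
      induction Q with
      | leaf => exact le_rfl
      | node a b ha hb => exact ha.trans (Nat.le_add_right _ _)
    have h2 := h1 l
    have h3 := h1 r
    show l.size + r.size + 1 = l.leaves + r.leaves - 1
    omega

/-- **The law of a tree is dominated**: one group, births `0`, all particles are anchors. -/
theorem dom_tree (hΦ : AdmissiblePotential Φ) (hf : Measurable f₀) (he : Env f₀ γ ρ C)
    (hε : 0 < ε) (P : CTree) (T : ℝ) :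
    Dom γ ρ ε 1 Finset.univ (C ^ Fintype.card (Idx P)) (Measure.dirac fun _ : Idx P => (0 : ℝ))
      (treeM Φ f₀ ε P T) (fun _ _ => 0) (fun z => linesM Φ ε P z.1 z.2) where
  mb := measurable_const
  mz := measurable_linesM hΦ ε P
  le F hF := by
    set b0 : Idx P → ℝ := fun _ => 0 with hb0
    have hF0 : Measurable fun z : Idx P → PhasePoint => F (b0, z) :=
      hF.comp (measurable_const.prodMk measurable_id)
    have hH : Measurable fun q : (PhasePoint × Par P) × (Idx P → PhasePoint) =>
        (∏ i, ENNReal.ofReal (f₀ (q.2 i))) * F (b0, q.2) := by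
      refine Measurable.mul ?_ (hF0.comp measurable_snd)
      exact Finset.measurable_prod _ fun i _ =>
        (hf.comp ((measurable_pi_apply i).comp measurable_snd)).ennreal_ofReal
    have hout : Measurable fun b : Idx P → ℝ => ∫⁻ z, wgtA γ ρ Finset.univ z * F (b, z) := by
      have h1 : Measurable fun p : (Idx P → ℝ) × (Idx P → PhasePoint) =>
          wgtA γ ρ Finset.univ p.2 * F p := ((measurable_wgtA he.meas _).comp measurable_snd).mul hF
      exact h1.lintegral_prod_right'
    rw [lintegral_dirac' _ hout, ← size_eq, lintegral_treeM hΦ hf ε P T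
      (G := fun z => F (b0, linesM Φ ε P z.1 z.2)) (hF0.comp (measurable_linesM hΦ ε P))]
    have e1 : ∀ z : PhasePoint × Par P,
        {z : PhasePoint × Par P | Valid Φ ε P T z.1.2 z.2}.indicator
          (fun z => wt Φ P z.1.2 z.2 * (pf Φ f₀ ε P z * F (b0, linesM Φ ε P z.1 z.2))) z =
        {z : PhasePoint × Par P | Valid Φ ε P T z.1.2 z.2}.indicator
          (fun z => wt Φ P z.1.2 z.2 * (fun q : (PhasePoint × Par P) × (Idx P → PhasePoint) =>
            (∏ i, ENNReal.ofReal (f₀ (q.2 i))) * F (b0, q.2)) (z, lines Φ ε P z.1 z.2)) z := by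
      intro z
      by_cases hz : Valid Φ ε P T z.1.2 z.2
      · have hz' : z ∈ {z : PhasePoint × Par P | Valid Φ ε P T z.1.2 z.2} := hz
        rw [indicator_of_mem hz', indicator_of_mem hz', linesM_of_adm ε hz.1]
        rfl
      · have hz' : z ∉ {z : PhasePoint × Par P | Valid Φ ε P T z.1.2 z.2} := hz
        rw [indicator_of_notMem hz', indicator_of_notMem hz']
    rw [lintegral_congr e1, treeMeasure hΦ hε P T hH]
    calc ∫⁻ V : Idx P → PhasePoint, (Skel Φ ε P T).indicator
          (fun V => (∏ i, ENNReal.ofReal (f₀ (V i))) * F (b0, V)) V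
        ≤ ∫⁻ V : Idx P → PhasePoint, C ^ Fintype.card (Idx P) *
            (wgtA γ ρ Finset.univ V * F (b0, V)) := by
          refine lintegral_mono fun V => ?_
          refine (indicator_le_self _ _ _).trans ?_
          rw [← mul_assoc]
          refine mul_le_mul_left ?_ _
          calc ∏ i, ENNReal.ofReal (f₀ (V i)) ≤ ∏ i, C * (ρ (V i).1 * wG γ (V i).2) :=
                Finset.prod_le_prod' fun i _ => he.le (V i)
            _ = C ^ Fintype.card (Idx P) * wgtA γ ρ Finset.univ V := by
                unfold wgtA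
                rw [Finset.prod_mul_distrib, Finset.prod_const, Finset.card_univ,
                  Finset.prod_mul_distrib]
      _ = C ^ Fintype.card (Idx P) * ∫⁻ V, wgtA γ ρ Finset.univ V * F (b0, V) := by
          rw [lintegral_const_mul' _ _ (ENNReal.pow_ne_top he.fin)]

/-! ## Lines -/

/-- Law of the birth of one line. -/
def lineΛ (T : ℝ) : Measure (Unit → ℝ) :=
  (volume.restrict (Ioc (0 : ℝ) T)).map fun τ _ => τ

instance (T : ℝ) : IsFiniteMeasure (lineΛ T) := by
  unfold lineΛ; infer_instance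

theorem lintegral_unit (F : (Unit → PhasePoint) → ℝ≥0∞) (hF : Measurable F) :
    ∫⁻ z : Unit → PhasePoint, F z = ∫⁻ y : PhasePoint, F fun _ => y := by
  have h := (volume_preserving_funUnique Unit PhasePoint).symm
  rw [← h.lintegral_comp hF]
  rfl

theorem lintegral_shear (τ : ℝ) {G : PhasePoint → ℝ≥0∞} (hG : Measurable G) :
    ∫⁻ y : PhasePoint, G (y.1 - τ • y.2, y.2) = ∫⁻ y : PhasePoint, G y := by
  have hsh : Measurable fun y : PhasePoint => ((y.1 - τ • y.2, y.2) : PhasePoint) :=
    (measurable_fst.sub (measurable_snd.const_smul τ)).prodMk measurable_snd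
  have hG1 : Measurable fun y : PhasePoint => G (y.1 - τ • y.2, y.2) := hG.comp hsh
  change ∫⁻ y, G (y.1 - τ • y.2, y.2) ∂((volume : Measure Space3).prod
    (volume : Measure Space3)) = ∫⁻ y, G y ∂((volume : Measure Space3).prod
    (volume : Measure Space3))
  rw [lintegral_prod_symm _ hG1.aemeasurable, lintegral_prod_symm _ hG.aemeasurable]
  refine lintegral_congr fun v => ?_
  exact lintegral_sub_right_eq_self (fun x : Space3 => G (x, v)) (τ • v)

theorem sum_markW_ne_top {ρm : ℝ≥0∞} (hρ : ρm ≠ ∞) (K : ℕ) : ∑' n : ℕ, markW ρm K n ≠ ∞ := by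
  have h : ∀ n ∉ Finset.range (K + 1), markW ρm K n = 0 := by
    intro n hn
    unfold markW
    rw [if_neg]
    rintro ⟨-, h2⟩
    exact hn (Finset.mem_range.2 (Nat.lt_succ_of_le h2))
  rw [tsum_eq_sum h]
  refine ENNReal.sum_ne_top.2 fun n _ => ?_
  unfold markW
  split_ifs
  · exact ENNReal.pow_ne_top hρ
  · exact ENNReal.zero_ne_top

theorem wgtA_unit (y : PhasePoint) : wgtA γ ρ (∅ : Finset Unit) (fun _ => y) = wG γ y.2 := by
  unfold wgtA
  rw [Finset.prod_empty, one_mul]
  exact Fintype.prod_unique _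

theorem measurable_wgtA_empty : Measurable (wgtA γ ρ (∅ : Finset Unit)) := by
  unfold wgtA
  simp only [Finset.prod_empty, one_mul]
  exact Finset.measurable_prod _ fun j _ => measurable_wG'.comp (measurable_pi_apply j).snd

theorem line_fixed (τ : ℝ) {G : (Unit → PhasePoint) → ℝ≥0∞} (hG : Measurable G) :
    ∫⁻ y : PhasePoint, wG γ y.2 * G (fun _ => back (τ, y)) =
      ∫⁻ z : Unit → PhasePoint, wgtA γ ρ (∅ : Finset Unit) z * G z := by
  have hc : Measurable fun (y : PhasePoint) (_ : Unit) => y :=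
    measurable_pi_iff.2 fun _ => measurable_id
  have h1 : Measurable fun y : PhasePoint => wG γ y.2 * G (fun _ => y) :=
    (measurable_wG'.comp measurable_snd).mul (hG.comp hc)
  have h2 : Measurable fun z : Unit → PhasePoint => wgtA γ ρ (∅ : Finset Unit) z * G z :=
    measurable_wgtA_empty.mul hG
  calc ∫⁻ y : PhasePoint, wG γ y.2 * G (fun _ => back (τ, y))
      = ∫⁻ y : PhasePoint, wG γ y.2 * G (fun _ => y) := lintegral_shear τ h1
    _ = ∫⁻ y : PhasePoint, wgtA γ ρ (∅ : Finset Unit) (fun _ => y) * G (fun _ => y) :=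
        lintegral_congr fun y => by rw [wgtA_unit]
    _ = ∫⁻ z : Unit → PhasePoint, wgtA γ ρ (∅ : Finset Unit) z * G z :=
        (lintegral_unit _ h2).symm

theorem measurable_back : Measurable fun p : ℝ × PhasePoint => back p := by
  unfold back
  exact (measurable_snd.fst.sub (measurable_fst.smul measurable_snd.snd)).prodMk
    measurable_snd.snd

theorem measurable_lineD {g : ℝ → ℝ} (hgm : Measurable g) (ρm : ℝ≥0∞) (K : ℕ) :
    Measurable (lineD g ρm K) := by
  have hmm : Measurable fun n : ℕ => markW ρm K n := measurable_from_top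
  unfold lineD wG
  refine Measurable.mul ?_ (hmm.comp measurable_snd)
  have : Measurable fun l : ML => -(g l.1.1 * ‖l.1.2.2‖ ^ 2) :=
    ((hgm.comp measurable_fst.fst).mul (measurable_fst.snd.snd.norm.pow_const 2)).neg
  exact (Real.measurable_exp.comp this).ennreal_ofReal

/-- Integrals against `lineM` of functionals which do not depend on the mark. -/
theorem lintegral_lineM {g : ℝ → ℝ} (hgm : Measurable g) (ρm : ℝ≥0∞) (K : ℕ) (T : ℝ)
    {H : ℝ × PhasePoint → ℝ≥0∞} (hH : Measurable H) :
    ∫⁻ l : ML, H l.1 ∂(lineM g ρm K T) = (∑' n : ℕ, markW ρm K n) *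
      ∫⁻ τ in Ioc (0 : ℝ) T, ∫⁻ y : PhasePoint, wG (g τ) y.2 * H (τ, y) := by
  have hD := measurable_lineD hgm ρm K
  have hHl : Measurable fun l : ML => H l.1 := hH.comp measurable_fst
  have hwg : Measurable fun p : ℝ × PhasePoint => wG (g p.1) p.2.2 * H p := by
    refine Measurable.mul ?_ hH
    unfold wG
    have : Measurable fun p : ℝ × PhasePoint => -(g p.1 * ‖p.2.2‖ ^ 2) :=
      ((hgm.comp measurable_fst).mul (measurable_snd.snd.norm.pow_const 2)).neg
    exact (Real.measurable_exp.comp this).ennreal_ofReal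
  unfold lineM lineV
  rw [lintegral_withDensity_eq_lintegral_mul _ hD hHl]
  have hm1 : Measurable fun l : ML => lineD g ρm K l * H l.1 := hD.mul hHl
  have e2 := lintegral_prod (μ := (volume.restrict (Ioc (0 : ℝ) T)).prod
    (volume : Measure PhasePoint)) (ν := (Measure.count : Measure ℕ)) _ hm1.aemeasurable
  have e3 : ∀ p : ℝ × PhasePoint, ∫⁻ n : ℕ, lineD g ρm K (p, n) * H p
      ∂(Measure.count : Measure ℕ) = (∑' n : ℕ, markW ρm K n) * (wG (g p.1) p.2.2 * H p) := by
    intro p
    rw [lintegral_count, ← ENNReal.tsum_mul_right]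
    refine tsum_congr fun n => ?_
    unfold lineD
    ring
  calc ∫⁻ l, (lineD g ρm K * fun l : ML => H l.1) l ∂(((volume.restrict (Ioc (0 : ℝ) T)).prod
        (volume : Measure PhasePoint)).prod (Measure.count : Measure ℕ))
      = ∫⁻ p : ℝ × PhasePoint, (∫⁻ n : ℕ, lineD g ρm K (p, n) * H p
          ∂(Measure.count : Measure ℕ)) ∂((volume.restrict (Ioc (0 : ℝ) T)).prod
            (volume : Measure PhasePoint)) := e2
    _ = ∫⁻ p : ℝ × PhasePoint, ((∑' n : ℕ, markW ρm K n) * (wG (g p.1) p.2.2 * H p))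
          ∂((volume.restrict (Ioc (0 : ℝ) T)).prod (volume : Measure PhasePoint)) :=
        lintegral_congr e3
    _ = (∑' n : ℕ, markW ρm K n) * ∫⁻ p : ℝ × PhasePoint, (wG (g p.1) p.2.2 * H p)
          ∂((volume.restrict (Ioc (0 : ℝ) T)).prod (volume : Measure PhasePoint)) :=
        lintegral_const_mul _ hwg
    _ = _ := by
        congr 1
        exact lintegral_prod _ hwg.aemeasurable

/-- **The law of a line is dominated**: one group, no anchor. -/
theorem dom_line {g : ℝ → ℝ} {T : ℝ} (hg : ∀ τ ∈ Ioc (0 : ℝ) T, γ ≤ g τ) (hgm : Measurable g)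
    (ρm : ℝ≥0∞) (K : ℕ) (ε : ℝ) :
    Dom γ ρ ε 1 (∅ : Finset Unit) (∑' n : ℕ, markW ρm K n) (lineΛ T) (lineM g ρm K T)
      (fun l _ => l.1.1) (fun l _ => back l.1) where
  mb := measurable_pi_iff.2 fun _ => measurable_fst.fst
  mz := measurable_pi_iff.2 fun _ => measurable_back.comp measurable_fst
  le F hF := by
    have hFl : Measurable fun p : ℝ × PhasePoint =>
        F ((fun _ => p.1 : Unit → ℝ), (fun _ => back p : Unit → PhasePoint)) :=
      hF.comp ((measurable_pi_iff.2 fun _ => measurable_fst).prodMk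
        (measurable_pi_iff.2 fun _ => measurable_back))
    have e0 : Fintype.card Unit - 1 = 0 := rfl
    have hc : Measurable fun (τ : ℝ) (_ : Unit) => τ := measurable_pi_iff.2 fun _ => measurable_id
    have hwm : Measurable fun q : (Unit → ℝ) × (Unit → PhasePoint) =>
        wgtA γ ρ (∅ : Finset Unit) q.2 * F q := (measurable_wgtA_empty.comp measurable_snd).mul hF
    have hout : Measurable fun b : Unit → ℝ => ∫⁻ z, wgtA γ ρ (∅ : Finset Unit) z * F (b, z) :=
      hwm.lintegral_prod_right'
    rw [e0, pow_zero, one_mul]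
    refine (lintegral_lineM hgm ρm K T hFl).le.trans ?_
    unfold lineΛ
    rw [lintegral_map hout hc]
    refine mul_le_mul_right (setLIntegral_mono' measurableSet_Ioc fun τ hτ => ?_) _
    have hFτ : Measurable fun z : Unit → PhasePoint => F ((fun _ => τ), z) :=
      hF.comp (measurable_const.prodMk measurable_id)
    have e4 := line_fixed (γ := γ) (ρ := ρ) τ hFτ
    rw [← e4]
    exact lintegral_mono fun y => mul_le_mul_left (wG_anti (hg τ hτ) _) _

end Crest.Agent.R122.LN2
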