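import Crest.Agent.R122.DomForest_998

/-!
# Row 122 (helper998): velocity moments of the law of a forest

* `sum_fin_sq` : the squared final velocities of a tree; `lineML_sq_le`, `lineMM_sq_le` : the velocity
  of an exit line is bounded by the initial energy.
* `exists_mass_exp` : moments of a tree, uniformly in `ε` and in the horizon.
* `exists_forest_exp` : `∫ fD * expW a ≤ M`.
* `fexM` : measurable version of the exit lines of a forest; `fexM_exp_le`.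
* `exists_exit_exp` : `∫ exp (a ‖v_x‖²) d(forM) ≤ M` for all exit lines `x`.
* `dom_forest_exit` : the law of the forest with weight `exp (a ‖v_x‖²)` is dominated.
-/

set_option autoImplicit false
open MeasureTheory Set
open scoped Classical ENNReal
open Crest.AnalysisR.Kinetic
noncomputable section

namespace Crest.Agent.R122.DomForest998

open Crest.Agent.R122.GC311 Crest.Agent.R122.Kin796 Crest.Agent.R122.Kin796.CTree
open Crest.Agent.R122.LN2 Crest.Agent.R122.Ret424 Crest.Agent.R122.Tree674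
open Crest.Agent.R122.EDefs602 Crest.Agent.R122.TreeLines335 Crest.Agent.R122.LineMeas994
open Crest.Agent.R122.Disc416 Crest.Agent.R122.PathFlow968
open Crest.Agent.R122.Forest399 (FIdx FPar flines flinesM FValid FVS fsize FSkelS finv
  flinesM_of_valid measurable_flinesM forestMeasure_sep)
open Crest.Agent.R122.Final973 (wt0)

variable {Φ : Space3 → ℝ} {f₀ : PhasePoint → ℝ} {ε γ t T a b : ℝ} {ρ : Space3 → ℝ≥0∞} {C : ℝ≥0∞}
  {s : ℕ}

/-! ### Energy of the exit lines -/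

theorem sum_update_sq {ι : Type*} [Fintype ι] (F : ι → PhasePoint) (i : ι) (ℓ : PhasePoint) :
    ∑ j, ‖(Function.update F i ℓ j).2‖ ^ 2 + ‖(F i).2‖ ^ 2 = ∑ j, ‖(F j).2‖ ^ 2 + ‖ℓ.2‖ ^ 2 := by
  have h1 := Finset.add_sum_erase Finset.univ (fun j => ‖(Function.update F i ℓ j).2‖ ^ 2)
    (Finset.mem_univ i)
  have h2 := Finset.add_sum_erase Finset.univ (fun j => ‖(F j).2‖ ^ 2) (Finset.mem_univ i)
  have h3 : ∑ j ∈ Finset.univ.erase i, ‖(Function.update F i ℓ j).2‖ ^ 2 =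
      ∑ j ∈ Finset.univ.erase i, ‖(F j).2‖ ^ 2 := by
    refine Finset.sum_congr rfl fun j hj => ?_
    rw [Function.update_of_ne (Finset.ne_of_mem_erase hj)]
  simp only [Function.update_self] at h1
  rw [← h1, ← h2, h3]
  ring

/-- The squared final velocities of a tree. -/
theorem sum_fin_sq (ε : ℝ) : ∀ (P : CTree) (ℓ : PhasePoint) (p : Par P),
    ∑ i, ‖(fin Φ ε P ℓ p i).2‖ ^ 2 = ‖ℓ.2‖ ^ 2 + QDens815.nodeEn P p
  | leaf, ℓ, p => by
    show ∑ _i : Unit, ‖ℓ.2‖ ^ 2 = ‖ℓ.2‖ ^ 2 + 0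
    simp
  | node l r, ℓ, p => by
    have hl := sum_fin_sq ε l (inMap Φ ε ℓ p.1).1 p.2.1
    have hr := sum_fin_sq ε r (inMap Φ ε ℓ p.1).2 p.2.2
    have ul := sum_update_sq (fin Φ ε l (inMap Φ ε ℓ p.1).1 p.2.1) (root l) ℓ
    have ur := sum_update_sq (fin Φ ε r (inMap Φ ε ℓ p.1).2 p.2.2) (root r) (outLine ε ℓ p.1)
    rw [fin_root] at ul ur
    have hs : ∑ i, ‖(fin Φ ε (node l r) ℓ p i).2‖ ^ 2 =
        ∑ i : Idx l, ‖(Function.update (fin Φ ε l (inMap Φ ε ℓ p.1).1 p.2.1) (root l) ℓ i).2‖ ^ 2 +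
        ∑ i : Idx r, ‖(Function.update (fin Φ ε r (inMap Φ ε ℓ p.1).2 p.2.2) (root r)
          (outLine ε ℓ p.1) i).2‖ ^ 2 :=
      Fintype.sum_sum_type (fun i : Idx l ⊕ Idx r => ‖(fin Φ ε (node l r) ℓ p i).2‖ ^ 2)
    have ho : (outLine ε ℓ p.1).2 = p.1.2.1 := rfl
    rw [hs]
    rw [ho] at ur
    simp only [QDens815.nodeEn]
    linarith

/-- The velocity of an exit line is bounded by the initial energy. -/
theorem fin_sq_le (hΦ : AdmissiblePotential Φ) (ε : ℝ) {P : CTree} {ℓ : PhasePoint} {p : Par P}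
    (h : Adm Φ P ℓ.2 p) (i : Idx P) :
    ‖(fin Φ ε P ℓ p i).2‖ ^ 2 ≤ ∑ j, ‖(Tree674.lines Φ ε P ℓ p j).2‖ ^ 2 := by
  have h1 := QDens815.sum_vels hΦ P ℓ.2 p h
  have h2 : ∀ j, (Tree674.lines Φ ε P ℓ p j).2 = vels Φ P ℓ.2 p j :=
    Hid424.lines_vel ε P ℓ p
  simp only [h2]
  rw [h1, ← sum_fin_sq (Φ := Φ) ε P ℓ p]
  exact Finset.single_le_sum (f := fun i => ‖(fin Φ ε P ℓ p i).2‖ ^ 2) (fun _ _ => sq_nonneg _)
    (Finset.mem_univ i)

theorem lineML_sq_le (hΦ : AdmissiblePotential Φ) (ε : ℝ) {P : CTree} {z : PhasePoint × Par P}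
    (h : Adm Φ P z.1.2 z.2) (i : Idx P) :
    ‖(lineML Φ ε P z i).1.2.2‖ ^ 2 ≤ ∑ j, ‖(Tree674.lines Φ ε P z.1 z.2 j).2‖ ^ 2 :=
  fin_sq_le hΦ ε h i

/-! ### Moments of a tree -/

/-- The density with an exponential velocity weight. -/
def fexp (f₀ : PhasePoint → ℝ) (a : ℝ) (z : PhasePoint) : ℝ := f₀ z * Real.exp (a * ‖z.2‖ ^ 2)

theorem measurable_fexp (hf : Measurable f₀) (a : ℝ) : Measurable (fexp f₀ a) := by
  unfold fexp
  fun_prop

theorem ofReal_fexp (f₀ : PhasePoint → ℝ) (a : ℝ) (z : PhasePoint) :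
    ENNReal.ofReal (fexp f₀ a z) =
      ENNReal.ofReal (f₀ z) * ENNReal.ofReal (Real.exp (a * ‖z.2‖ ^ 2)) := by
  unfold fexp
  rw [ENNReal.ofReal_mul' (Real.exp_pos _).le]

theorem gaussian_fexp (H : HasSummableGaussianBound b (fun x v => f₀ (x, v))) (a : ℝ) :
    HasSummableGaussianBound (b - a) (fun x v => fexp f₀ a (x, v)) := by
  obtain ⟨M, hM, hb⟩ := H
  refine ⟨M, hM, fun k x v hx => ?_⟩
  refine le_trans (le_of_eq ?_) (hb k x v hx)
  unfold fexp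
  rw [norm_mul, Real.norm_of_nonneg (Real.exp_pos _).le, mul_comm ‖f₀ (x, v)‖, ← mul_assoc,
    ← Real.exp_add]
  congr 2
  ring

/-- Weight of a tree for the density with an exponential velocity weight. -/
theorem pf_fexp {P : CTree} (ε t a : ℝ) (z : PhasePoint × Par P) :
    pf Φ (fexp f₀ a) ε P t z =
      pf Φ f₀ ε P t z * expW a (Tree674.lines Φ ε P z.1 z.2) := by
  by_cases h : Valid Φ ε P t z.1.2 z.2
  · rw [pf_of_valid h, pf_of_valid h, mul_assoc]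
    unfold expW
    rw [← Finset.prod_mul_distrib]
    simp only [ofReal_fexp]
  · rw [pf_of_not_valid h, pf_of_not_valid h, zero_mul]

/-- **Moments of a tree**, uniform in `ε ≥ 0` and `t ≤ T`. -/
theorem exists_mass_exp (hΦ : AdmissiblePotential Φ) (hf : Measurable f₀)
    (H : HasSummableGaussianBound b (fun x v => f₀ (x, v))) (ha : a < b) (P : CTree) (T : ℝ) :
    ∃ M : ℝ≥0∞, M ≠ ∞ ∧ ∀ ε t : ℝ, 0 ≤ ε → t ≤ T →
      ∫⁻ z : PhasePoint × Par P, pf Φ f₀ ε P t z * expW a (Tree674.lines Φ ε P z.1 z.2) ≤ M := by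
  obtain ⟨M, hM, h⟩ := exists_mass hΦ (measurable_fexp hf a) (sub_pos.2 ha)
    (gaussian_fexp H a) P T
  refine ⟨M, hM, fun ε t hε ht => ?_⟩
  refine le_trans (le_of_eq (lintegral_congr fun z => ?_)) (h ε t hε ht)
  rw [pf_fexp]

/-! ### Exponential weights of one velocity -/

/-- Exponential weight of one velocity. -/
def eW (a : ℝ) (v : Space3) : ℝ≥0∞ := ENNReal.ofReal (Real.exp (a * ‖v‖ ^ 2))

theorem measurable_eW (a : ℝ) : Measurable (eW a) := by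
  unfold eW
  fun_prop

theorem expW_eq {κ : Type} [Fintype κ] (a : ℝ) (z : κ → PhasePoint) :
    expW a z = ENNReal.ofReal (Real.exp (a * ∑ j, ‖(z j).2‖ ^ 2)) := by
  unfold expW
  rw [← ENNReal.ofReal_prod_of_nonneg fun j _ => (Real.exp_pos _).le, ← Real.exp_sum,
    Finset.mul_sum]

theorem eW_le_expW {κ : Type} [Fintype κ] (ha : 0 ≤ a) {z : κ → PhasePoint} {v : Space3}
    (h : ‖v‖ ^ 2 ≤ ∑ j, ‖(z j).2‖ ^ 2) : eW a v ≤ expW a z := by
  rw [expW_eq]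
  unfold eW
  exact ENNReal.ofReal_le_ofReal (Real.exp_le_exp.2 (mul_le_mul_of_nonneg_left h ha))

/-! ### Forests -/

theorem sum_lines_le {Ps : Fin s → CTree} (q : FPar Ps) (i : Fin s) :
    ∑ j, ‖(Tree674.lines Φ ε (Ps i) (q i).1 (q i).2 j).2‖ ^ 2 ≤
      ∑ k, ‖(flines Φ ε Ps q k).2‖ ^ 2 := by
  have h : ∑ k, ‖(flines Φ ε Ps q k).2‖ ^ 2 =
      ∑ i, ∑ j, ‖(Tree674.lines Φ ε (Ps i) (q i).1 (q i).2 j).2‖ ^ 2 := by
    rw [Fintype.sum_sigma]
    rfl
  rw [h]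
  exact Finset.single_le_sum (f := fun i =>
    ∑ j, ‖(Tree674.lines Φ ε (Ps i) (q i).1 (q i).2 j).2‖ ^ 2)
    (fun _ _ => Finset.sum_nonneg fun _ _ => sq_nonneg _) (Finset.mem_univ i)

theorem expW_flines {Ps : Fin s → CTree} (a : ℝ) (q : FPar Ps) :
    expW a (flines Φ ε Ps q) =
      ∏ i, expW a (Tree674.lines Φ ε (Ps i) (q i).1 (q i).2) := by
  unfold expW
  rw [Fintype.prod_sigma]
  rfl

/-- Measurable version of the lines of a forest. -/
def flML (Φ : Space3 → ℝ) (ε : ℝ) (Ps : Fin s → CTree) (q : FPar Ps) (k : FIdx Ps) : ML :=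
  lineMM Φ ε (Ps k.1) (q k.1) k.2

/-- Measurable version of the exit lines of a forest. -/
def fexM (Φ : Space3 → ℝ) (ε : ℝ) (Ps : Fin s → CTree) (q : FPar Ps) (x : FEx Ps) : ML :=
  lineMM Φ ε (Ps x.1.1) (q x.1.1) x.1.2

theorem measurable_flML (hΦ : AdmissiblePotential Φ) (ε : ℝ) (Ps : Fin s → CTree)
    (k : FIdx Ps) : Measurable fun q : FPar Ps => flML Φ ε Ps q k :=
  (measurable_lineMM hΦ ε (Ps k.1) k.2).comp (measurable_pi_apply k.1)

theorem measurable_fexM (hΦ : AdmissiblePotential Φ) (ε : ℝ) (Ps : Fin s → CTree)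
    (x : FEx Ps) : Measurable fun q : FPar Ps => fexM Φ ε Ps q x :=
  (measurable_lineMM hΦ ε (Ps x.1.1) x.1.2).comp (measurable_pi_apply x.1.1)

theorem flML_of_valid {Ps : Fin s → CTree} {q : FPar Ps} (hq : FValid Φ ε Ps t q)
    (k : FIdx Ps) : flML Φ ε Ps q k = lineML Φ ε (Ps k.1) (q k.1) k.2 :=
  lineMM_of_adm ε (hq k.1).1 k.2

theorem fexM_of_valid {Ps : Fin s → CTree} {q : FPar Ps} (hq : FValid Φ ε Ps t q)
    (x : FEx Ps) : fexM Φ ε Ps q x = fexL Φ ε Ps q x :=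
  lineMM_of_adm ε (hq x.1.1).1 x.1.2

theorem lineML_sq_le_forest (hΦ : AdmissiblePotential Φ) {Ps : Fin s → CTree} {q : FPar Ps}
    (hq : FValid Φ ε Ps t q) (k : FIdx Ps) :
    ‖(lineML Φ ε (Ps k.1) (q k.1) k.2).1.2.2‖ ^ 2 ≤ ∑ k, ‖(flines Φ ε Ps q k).2‖ ^ 2 :=
  (lineML_sq_le hΦ ε (hq k.1).1 k.2).trans (sum_lines_le q k.1)

theorem flML_eW_le (hΦ : AdmissiblePotential Φ) (ha : 0 ≤ a) {Ps : Fin s → CTree} {q : FPar Ps}
    (hq : FValid Φ ε Ps t q) (k : FIdx Ps) :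
    eW a (flML Φ ε Ps q k).1.2.2 ≤ expW a (flinesM Φ ε Ps q) := by
  rw [flML_of_valid hq, flinesM_of_valid hq]
  exact eW_le_expW ha (lineML_sq_le_forest hΦ hq k)

theorem fexM_eW_le (hΦ : AdmissiblePotential Φ) (ha : 0 ≤ a) {Ps : Fin s → CTree} {q : FPar Ps}
    (hq : FValid Φ ε Ps t q) (x : FEx Ps) :
    eW a (fexM Φ ε Ps q x).1.2.2 ≤ expW a (flinesM Φ ε Ps q) :=
  flML_eW_le hΦ ha hq x.1

theorem lintegral_pi_prod {δ : Type*} [Fintype δ] {X : δ → Type*} [∀ i, MeasurableSpace (X i)]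
    (μ : ∀ i, Measure (X i)) [∀ i, SigmaFinite (μ i)] {g : ∀ i, X i → ℝ≥0∞}
    (hg : ∀ i, Measurable (g i)) :
    ∫⁻ q, ∏ k, g k (q k) ∂Measure.pi μ = ∏ k, ∫⁻ y, g k y ∂μ k := by
  rcases isEmpty_or_nonempty (∀ i, X i) with he | ⟨⟨x₀⟩⟩
  · obtain ⟨i, hi⟩ : ∃ i, IsEmpty (X i) := by
      by_contra hc
      push Not at hc
      exact he.false fun i => (hc i).some
    rw [lintegral_of_isEmpty]
    symm
    refine Finset.prod_eq_zero (Finset.mem_univ i) ?_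
    rw [lintegral_of_isEmpty]
  · rw [lintegral_eq_lmarginal_univ x₀]
    have h := lmarginal_prod_mul μ Finset.univ hg (fun _ => 1) measurable_const
      (fun _ _ _ _ => rfl) x₀
    simpa using h

/-- **Moments of a forest**, uniform in `ε > 0` and `t ≤ T`. -/
theorem exists_forest_exp (hΦ : AdmissiblePotential Φ) (hf : Measurable f₀)
    (H : HasSummableGaussianBound b (fun x v => f₀ (x, v))) (ha : a < b)
    (Ps : Fin s → CTree) (T : ℝ) :
    ∃ M : ℝ≥0∞, M ≠ ∞ ∧ ∀ ε t : ℝ, 0 < ε → t ≤ T →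
      ∫⁻ q : FPar Ps, fD Φ f₀ ε Ps t q * expW a (flinesM Φ ε Ps q) ≤ M := by
  have hM : ∀ i, ∃ M : ℝ≥0∞, M ≠ ∞ ∧ ∀ ε t : ℝ, 0 ≤ ε → t ≤ T →
      ∫⁻ z, pf Φ (fexp f₀ a) ε (Ps i) t z ≤ M := fun i =>
    exists_mass hΦ (measurable_fexp hf a) (sub_pos.2 ha) (gaussian_fexp H a) (Ps i) T
  choose M hMt hMb using hM
  refine ⟨∏ i, M i, ENNReal.prod_ne_top fun i _ => hMt i, fun ε t hε ht => ?_⟩
  calc ∫⁻ q : FPar Ps, fD Φ f₀ ε Ps t q * expW a (flinesM Φ ε Ps q)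
      ≤ ∫⁻ q : FPar Ps, ∏ i, pf Φ (fexp f₀ a) ε (Ps i) t (q i) := by
        refine lintegral_mono fun q => ?_
        by_cases hq : q ∈ FVS Φ ε Ps t
        · rw [flinesM_of_valid hq.1, expW_flines]
          simp only [pf_fexp]
          rw [Finset.prod_mul_distrib]
          exact mul_le_mul_left (fD_le q) _
        · unfold fD
          rw [indicator_of_notMem hq, zero_mul]
          exact bot_le
    _ = ∏ i, ∫⁻ z, pf Φ (fexp f₀ a) ε (Ps i) t z :=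
        lintegral_pi_prod (fun i : Fin s => (volume : Measure (PhasePoint × Par (Ps i))))
          fun i => measurable_pf hΦ (measurable_fexp hf a) ε (Ps i) t
    _ ≤ ∏ i, M i := Finset.prod_le_prod' fun i _ => hMb i ε t hε.le ht

/-- **Moments of the law of a forest**, uniform in `ε > 0` and `t ≤ T`: all lines. -/
theorem exists_line_exp (hΦ : AdmissiblePotential Φ) (hf : Measurable f₀)
    (H : HasSummableGaussianBound b (fun x v => f₀ (x, v))) (ha0 : 0 ≤ a) (ha : a < b)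
    (Ps : Fin s → CTree) (T : ℝ) :
    ∃ M : ℝ≥0∞, M ≠ ∞ ∧ ∀ ε t : ℝ, 0 < ε → t ≤ T → ∀ k : FIdx Ps,
      ∫⁻ q, eW a (flML Φ ε Ps q k).1.2.2 ∂(forM Φ f₀ ε Ps t) ≤ M := by
  obtain ⟨M, hM, h⟩ := exists_forest_exp hΦ hf H ha Ps T
  refine ⟨M, hM, fun ε t hε ht k => ?_⟩
  have hm : Measurable fun q : FPar Ps => eW a (flML Φ ε Ps q k).1.2.2 :=
    (measurable_eW a).comp (measurable_flML hΦ ε Ps k).fst.snd.snd
  rw [lintegral_forM hΦ hf hε Ps t hm]
  refine (lintegral_mono fun q => ?_).trans (h ε t hε ht)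
  by_cases hq : q ∈ FVS Φ ε Ps t
  · exact mul_le_mul_right (flML_eW_le hΦ ha0 hq.1 k) _
  · unfold fD
    rw [indicator_of_notMem hq, zero_mul]
    exact bot_le

/-- **Moments of the law of a forest**, uniform in `ε > 0` and `t ≤ T`: exit lines. -/
theorem exists_exit_exp (hΦ : AdmissiblePotential Φ) (hf : Measurable f₀)
    (H : HasSummableGaussianBound b (fun x v => f₀ (x, v))) (ha0 : 0 ≤ a) (ha : a < b)
    (Ps : Fin s → CTree) (T : ℝ) :
    ∃ M : ℝ≥0∞, M ≠ ∞ ∧ ∀ ε t : ℝ, 0 < ε → t ≤ T → ∀ x : FEx Ps,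
      ∫⁻ q, eW a (fexM Φ ε Ps q x).1.2.2 ∂(forM Φ f₀ ε Ps t) ≤ M := by
  obtain ⟨M, hM, h⟩ := exists_line_exp hΦ hf H ha0 ha Ps T
  exact ⟨M, hM, fun ε t hε ht x => h ε t hε ht x.1⟩

/-- Exponential weights bounded on the forests of the law can be added. -/
theorem dom_forest_weight (hΦ : AdmissiblePotential Φ) (hf : Measurable f₀) (he : Env f₀ γ ρ C)
    (hε : 0 < ε) (Ps : Fin s → CTree) (t a : ℝ) {W : FPar Ps → ℝ≥0∞} {c' : ℝ≥0∞}
    (hW : Measurable W)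
    (hle : ∀ q ∈ FVS Φ ε Ps t, W q ≤ c' * expW a (flinesM Φ ε Ps q)) (hc' : c' ≠ ∞) :
    Dom (γ - a) ρ ε s Finset.univ (c' * C ^ Fintype.card (FIdx Ps))
      (Measure.dirac fun _ : FIdx Ps => (0 : ℝ)) ((forM Φ f₀ ε Ps t).withDensity W)
      (fun _ _ => 0) (flinesM Φ ε Ps) := by
  have hm : Measurable fun q : FPar Ps => c' * expW a (flinesM Φ ε Ps q) :=
    ((measurable_expW a).comp (measurable_flinesM hΦ ε Ps)).const_mul _
  have h1 := (dom_forest hΦ hf he hε Ps t).weight a hm (fun q => le_rfl) hc'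
  have h2 := h1.mono_measure (m' := (forM Φ f₀ ε Ps t).withDensity W) (c' := 1) fun F hF => by
    rw [one_mul, lintegral_withDensity_eq_lintegral_mul _ hW hF,
      lintegral_withDensity_eq_lintegral_mul _ hm hF,
      lintegral_forM hΦ hf hε Ps t (hW.mul hF), lintegral_forM hΦ hf hε Ps t (hm.mul hF)]
    refine lintegral_mono fun q => ?_
    by_cases hq : q ∈ FVS Φ ε Ps t
    · exact mul_le_mul_right (mul_le_mul_left (hle q hq) _) _
    · unfold fD
      rw [indicator_of_notMem hq, zero_mul]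
      exact bot_le
  rw [one_mul] at h2
  exact h2

/-- The law of a forest with the weight `exp (a ‖v‖²)` of one of its final velocities. -/
theorem dom_forest_line (hΦ : AdmissiblePotential Φ) (hf : Measurable f₀) (he : Env f₀ γ ρ C)
    (hε : 0 < ε) (Ps : Fin s → CTree) (t : ℝ) (ha : 0 ≤ a) (k : FIdx Ps) :
    Dom (γ - a) ρ ε s Finset.univ (C ^ Fintype.card (FIdx Ps))
      (Measure.dirac fun _ : FIdx Ps => (0 : ℝ))
      ((forM Φ f₀ ε Ps t).withDensity fun q => eW a (flML Φ ε Ps q k).1.2.2)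
      (fun _ _ => 0) (flinesM Φ ε Ps) := by
  have h := dom_forest_weight hΦ hf he hε Ps t a (c' := 1)
    (W := fun q => eW a (flML Φ ε Ps q k).1.2.2)
    ((measurable_eW a).comp (measurable_flML hΦ ε Ps k).fst.snd.snd)
    (fun q hq => by rw [one_mul]; exact flML_eW_le hΦ ha hq.1 k) ENNReal.one_ne_top
  rwa [one_mul] at h

theorem dom_forest_exit (hΦ : AdmissiblePotential Φ) (hf : Measurable f₀) (he : Env f₀ γ ρ C)
    (hε : 0 < ε) (Ps : Fin s → CTree) (t : ℝ) (ha : 0 ≤ a) (x : FEx Ps) :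
    Dom (γ - a) ρ ε s Finset.univ (C ^ Fintype.card (FIdx Ps))
      (Measure.dirac fun _ : FIdx Ps => (0 : ℝ))
      ((forM Φ f₀ ε Ps t).withDensity fun q => eW a (fexM Φ ε Ps q x).1.2.2)
      (fun _ _ => 0) (flinesM Φ ε Ps) :=
  dom_forest_line hΦ hf he hε Ps t ha x.1

end Crest.Agent.R122.DomForest998

end
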