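import Crest.Agent.R122.Energy_410
import Crest.Agent.R122.LocFlow_45

/-!
# Energy of the infected set for the Newton flow (row 122, block EN, part 2)

Instances of `Energy_410` for `flow Φ ε t Z` with `Z` pairwise at distance at least `ε`, and the
extended nonnegative form of the speed bound, integrated in time.
-/

set_option autoImplicit false
set_option linter.unusedSectionVars false

open Set Filter Topology MeasureTheory
open scoped NNReal ENNReal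
open Crest.AnalysisR.Kinetic
open Crest.Agent.R122.Flow671 Crest.Agent.R122.Loc45 Crest.Agent.R122.Causal291

namespace Crest.Agent.R122.Energy410

variable {ι : Type*} [Fintype ι] {Φ : Space3 → ℝ} {ε T : ℝ}

/-- Stability for sub-families of a regular configuration. -/
theorem stab_eng (hΦ : AdmissiblePotential Φ) (hε : 0 < ε) {Z : ι → PhasePoint}
    (hZ : Z ∈ Dom Φ ι) (A : Finset ι) :
    (1 / 2) * ∑ i ∈ A, ‖(Z i).2‖ ^ 2 - stabB Φ * A.card ≤ eng Φ ε A Z := by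
  have h1 := kin_le hΦ hε (Dom_comp (Function.Embedding.subtype fun i => i ∈ A) hZ)
  have h2 : energy Φ ε (fun i : A => Z i) = eng Φ ε A Z := energy_subtype Φ ε A Z
  have h3 : kin (fun i : A => Z i) = (1 / 2) * ∑ i ∈ A, ‖(Z i).2‖ ^ 2 := by
    unfold kin
    rw [← Finset.sum_coe_sort A]
  change kin (fun i : A => Z i) ≤ energy Φ ε (fun i : A => Z i) + _ at h1
  rw [h2, h3, Fintype.card_coe] at h1
  linarith

/-- The flow from data at mutual distance at least `ε` is a world. -/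
theorem world_flow (hΦ : AdmissiblePotential Φ) (hε : 0 < ε) {Z : ι → PhasePoint}
    (hfar : ∀ i j, i ≠ j → ε ≤ dist (Z i).1 (Z j).1) (T : ℝ) :
    World Φ ε T (stabB Φ) (fun t => flow Φ ε t Z) := by
  have hZ : Z ∈ Dom Φ ι := Dom_of_far hε hfar
  refine ⟨fun t _ => flow_hasDerivAt hΦ hε hZ t, fun t _ => flow_mem hΦ hε hZ t, fun t _ A =>
    stab_eng hΦ hε (flow_mem hΦ hε hZ t) A, fun i j hij => ?_, stabB_nonneg Φ⟩
  simp only [flow_zero hΦ hε]
  exact hfar i j hij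

/-- **Flux bound for the infected set, flow version.** `S` monotone and isolated on `[0, T]`, `w p`
bounds the weight of the backward clusters of `p` before `p` enters `S`. -/
theorem infected_speed_flow (hΦ : AdmissiblePotential Φ) (hε : 0 < ε) {Z : ι → PhasePoint}
    (hfar : ∀ i j, i ≠ j → ε ≤ dist (Z i).1 (Z j).1)
    {S : ℝ → Finset ι} (hmono : ∀ s s', 0 ≤ s → s ≤ s' → s' ≤ T → S s ⊆ S s')
    (hiso : ∀ s, 0 ≤ s → s ≤ T → ∀ i ∈ S s, ∀ j ∉ S s,
      ε < dist (flow Φ ε s Z i).1 (flow Φ ε s Z j).1)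
    {w : ι → ℝ} (hw0 : ∀ p ∈ S 0, (1 / 2) * ‖(Z p).2‖ ^ 2 ≤ w p)
    (hw : ∀ s, 0 ≤ s → s ≤ T → ∀ p ∉ S s, p ∈ S T →
      Wt (stabB Φ) Z (BC (Ct (fun t => flow Φ ε t Z) ε) s p) ≤ w p)
    {t : ℝ} (ht : 0 ≤ t) (htT : t ≤ T) :
    ∑ i ∈ S t, (1 + ‖(flow Φ ε t Z i).2‖) ≤ ∑ p ∈ S t, (w p + (stabB Φ + 3 / 2)) := by
  refine infected_speed_le hΦ hε (world_flow hΦ hε hfar T) hmono hiso ?_ ?_ ht htT
  · intro p hp
    simp only [flow_zero hΦ hε]
    exact hw0 p hp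
  · intro s h1 h2 p h3 h4
    simp only [flow_zero hΦ hε]
    exact hw s h1 h2 p h3 h4

/-- Time integrated version in extended nonnegative reals. -/
theorem lintegral_infected_speed (hΦ : AdmissiblePotential Φ) (hε : 0 < ε) {Z : ι → PhasePoint}
    (hfar : ∀ i j, i ≠ j → ε ≤ dist (Z i).1 (Z j).1)
    {S : ℝ → Finset ι} (hmono : ∀ s s', 0 ≤ s → s ≤ s' → s' ≤ T → S s ⊆ S s')
    (hiso : ∀ s, 0 ≤ s → s ≤ T → ∀ i ∈ S s, ∀ j ∉ S s,
      ε < dist (flow Φ ε s Z i).1 (flow Φ ε s Z j).1)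
    {w : ι → ℝ} (hw0 : ∀ p ∈ S 0, (1 / 2) * ‖(Z p).2‖ ^ 2 ≤ w p) (hwn : ∀ p, 0 ≤ w p)
    (hw : ∀ s, 0 ≤ s → s ≤ T → ∀ p ∉ S s, p ∈ S T →
      Wt (stabB Φ) Z (BC (Ct (fun t => flow Φ ε t Z) ε) s p) ≤ w p)
    {a b : ℝ} (ha : 0 ≤ a) (hb : b ≤ T) :
    ∫⁻ t in Icc a b, ∑ i ∈ S t, ENNReal.ofReal (1 + ‖(flow Φ ε t Z i).2‖)
      ≤ ENNReal.ofReal (b - a) * ∑ p ∈ S b, ENNReal.ofReal (w p + (stabB Φ + 3 / 2)) := by
  have hB := stabB_nonneg Φ
  have h1 : ∀ t ∈ Icc a b, ∑ i ∈ S t, ENNReal.ofReal (1 + ‖(flow Φ ε t Z i).2‖)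
      ≤ ∑ p ∈ S b, ENNReal.ofReal (w p + (stabB Φ + 3 / 2)) := by
    intro t ht
    have h2 := infected_speed_flow hΦ hε hfar hmono hiso hw0 hw (ha.trans ht.1) (ht.2.trans hb)
    rw [← ENNReal.ofReal_sum_of_nonneg fun i _ => by positivity,
      ← ENNReal.ofReal_sum_of_nonneg fun p _ => by have := hwn p; positivity]
    refine ENNReal.ofReal_le_ofReal (h2.trans ?_)
    refine Finset.sum_le_sum_of_subset_of_nonneg (hmono t b (ha.trans ht.1) ht.2 hb) ?_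
    intro p _ _
    have := hwn p
    positivity
  calc ∫⁻ t in Icc a b, ∑ i ∈ S t, ENNReal.ofReal (1 + ‖(flow Φ ε t Z i).2‖)
      ≤ ∫⁻ _ in Icc a b, ∑ p ∈ S b, ENNReal.ofReal (w p + (stabB Φ + 3 / 2)) :=
        lintegral_mono_ae (by
          filter_upwards [ae_restrict_mem measurableSet_Icc] with t ht using h1 t ht)
    _ = _ := by
        rw [setLIntegral_const, Real.volume_Icc, mul_comm]

end Crest.Agent.R122.Energy410
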