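import Crest.Agent.R122.KinA_796

/-!
Weighted sup-norm estimates for the collision-tree series (row 122, block F6, helper796).
-/

set_option autoImplicit false
set_option linter.unusedSectionVars false
set_option linter.unusedVariables false
open MeasureTheory ProbabilityTheory Set
open scoped ENNReal

noncomputable section

namespace Crest.Agent.R122.Kin796

open CTree

/-- Gaussian weight of rate `γ`. -/
def wG {E : Type*} [NormedAddCommGroup E] (γ : ℝ) (v : E) : ℝ≥0∞ :=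
  ENNReal.ofReal (Real.exp (-(γ * ‖v‖ ^ 2)))

/-- Time dependent weight. -/
def wT {E : Type*} [NormedAddCommGroup E] (β T μ t : ℝ) (v : E) : ℝ≥0∞ :=
  ENNReal.ofReal (Real.exp (μ * t - (2 * β - β / T * t) * ‖v‖ ^ 2))

theorem wT_eq {E : Type*} [NormedAddCommGroup E] (β T μ t : ℝ) (v : E) :
    wT β T μ t v = ENNReal.ofReal (Real.exp (μ * t)) * wG (2 * β - β / T * t) v := by
  unfold wT wG
  rw [← ENNReal.ofReal_mul (Real.exp_pos _).le, ← Real.exp_add]
  congr 2

/-- the constant of the time integral -/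
def psi (β T μ : ℝ) : ℝ := 1 / μ + 1 / (2 * Real.sqrt (μ * (β / T)))

theorem psi_nonneg {β T μ : ℝ} (hμ : 0 < μ) : 0 ≤ psi β T μ := by
  unfold psi; positivity

theorem exists_psi_le {β T ε : ℝ} (hβ : 0 < β) (hT : 0 < T) (hε : 0 < ε) :
    ∃ μ, 0 < μ ∧ psi β T μ ≤ ε := by
  set b := β / T with hb
  have hbp : 0 < b := div_pos hβ hT
  refine ⟨max (2 / ε) (1 / (b * ε ^ 2)), lt_max_of_lt_left (by positivity), ?_⟩
  set μ := max (2 / ε) (1 / (b * ε ^ 2)) with hμ
  have hμ0 : 0 < μ := lt_max_of_lt_left (by positivity)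
  have h1 : 1 / μ ≤ ε / 2 := by
    rw [div_le_iff₀ hμ0]
    have : 2 / ε ≤ μ := le_max_left _ _
    rw [div_le_iff₀ hε] at this
    linarith
  have h2 : 1 / (2 * Real.sqrt (μ * b)) ≤ ε / 2 := by
    have h3 : 1 / (b * ε ^ 2) ≤ μ := le_max_right _ _
    have h4 : (1 / ε) ^ 2 ≤ μ * b := by
      rw [div_le_iff₀ (by positivity)] at h3
      rw [div_pow, one_pow, div_le_iff₀ (by positivity)]
      linarith
    have h5 : 1 / ε ≤ Real.sqrt (μ * b) := Real.le_sqrt_of_sq_le h4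
    have h6 : 0 < Real.sqrt (μ * b) := lt_of_lt_of_le (by positivity) h5
    rw [div_le_iff₀ (by positivity)]
    rw [div_le_iff₀ hε] at h5
    linarith
  unfold psi
  rw [← hb]
  linarith

variable {E : Type*} [NormedAddCommGroup E] [NormedSpace ℝ E] [MeasurableSpace E] [BorelSpace E]
  [SecondCountableTopology E]

theorem ratio_le_psi {β T μ : ℝ} (hβ : 0 < β) (hT : 0 < T) (hμ : 0 < μ) {r : ℝ} (hr : 0 ≤ r) :
    (1 + r) / (μ + β / T * r ^ 2) ≤ psi β T μ := by
  set b := β / T with hb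
  have hbp : 0 < b := div_pos hβ hT
  have ha : 0 < μ + b * r ^ 2 := by positivity
  have h1 : 1 / (μ + b * r ^ 2) ≤ 1 / μ :=
    one_div_le_one_div_of_le hμ (by nlinarith [sq_nonneg r])
  have hs : 0 < Real.sqrt (μ * b) := Real.sqrt_pos.2 (by positivity)
  have h2 : r / (μ + b * r ^ 2) ≤ 1 / (2 * Real.sqrt (μ * b)) := by
    rw [div_le_div_iff₀ ha (by positivity)]
    have h3 : Real.sqrt (μ * b) = Real.sqrt μ * Real.sqrt b := Real.sqrt_mul hμ.le _
    have h4 : Real.sqrt μ ^ 2 = μ := Real.sq_sqrt hμ.le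
    have h5 : Real.sqrt b ^ 2 = b := Real.sq_sqrt hbp.le
    nlinarith [sq_nonneg (Real.sqrt μ - Real.sqrt b * r)]
  unfold psi
  rw [add_div]
  linarith

theorem lintegral_time {β T μ : ℝ} (hβ : 0 < β) (hT : 0 < T) (hμ : 0 < μ) {t : ℝ} (ht : 0 ≤ t)
    {r : ℝ} (hr : 0 ≤ r) :
    ∫⁻ s in Ioc 0 t, ENNReal.ofReal ((1 + r) * Real.exp (μ * s - (2 * β - β / T * s) * r ^ 2)) ≤
      ENNReal.ofReal (psi β T μ * Real.exp (μ * t - (2 * β - β / T * t) * r ^ 2)) := by
  set b := β / T with hb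
  have hbp : 0 < b := div_pos hβ hT
  set a := μ + b * r ^ 2 with ha
  have hap : 0 < a := by positivity
  have hcont : Continuous fun s : ℝ => (1 + r) * Real.exp (μ * s - (2 * β - b * s) * r ^ 2) := by
    fun_prop
  have hint : IntegrableOn (fun s : ℝ => (1 + r) * Real.exp (μ * s - (2 * β - b * s) * r ^ 2))
      (Ioc 0 t) := (hcont.integrableOn_Icc).mono_set Ioc_subset_Icc_self
  rw [← ofReal_integral_eq_lintegral_ofReal hint
    (Filter.Eventually.of_forall fun s => by positivity)]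
  refine ENNReal.ofReal_le_ofReal ?_
  have hder : ∀ s ∈ uIcc 0 t, HasDerivAt
      (fun s => (1 + r) / a * Real.exp (μ * s - (2 * β - b * s) * r ^ 2))
      ((1 + r) * Real.exp (μ * s - (2 * β - b * s) * r ^ 2)) s := by
    intro s _
    have h1 : HasDerivAt (fun s : ℝ => μ * s - (2 * β - b * s) * r ^ 2) a s := by
      have h2 : HasDerivAt (fun s : ℝ => μ * s - (2 * β - b * s) * r ^ 2)
          (μ * 1 - (0 - b * 1) * r ^ 2) s := by
        refine ((hasDerivAt_id s).const_mul μ).sub (HasDerivAt.mul_const ?_ _)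
        exact (hasDerivAt_const s (2 * β)).sub ((hasDerivAt_id s).const_mul b)
      convert h2 using 1
      rw [ha]; ring
    have h3 := (h1.exp).const_mul ((1 + r) / a)
    refine h3.congr_deriv ?_
    field_simp
  have hI := intervalIntegral.integral_eq_sub_of_hasDerivAt hder
    (hcont.intervalIntegrable _ _)
  rw [intervalIntegral.integral_of_le ht] at hI
  rw [hI]
  have h4 : (1 + r) / a ≤ psi β T μ := ratio_le_psi hβ hT hμ hr
  have h5 : 0 ≤ (1 + r) / a * Real.exp (μ * 0 - (2 * β - b * 0) * r ^ 2) := by positivity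
  have h6 := mul_le_mul_of_nonneg_right h4
    (Real.exp_pos (μ * t - (2 * β - b * t) * r ^ 2)).le
  linarith

/-- Hypotheses on the collision kernel: Gaussian bound. -/
def KernelBound (κ : Kernel E (E × E)) (β C1 : ℝ) : Prop :=
  ∀ γ ∈ Icc β (2 * β), ∀ v, Q κ (wG γ) (wG γ) v ≤
    ENNReal.ofReal (C1 * ((1 + ‖v‖) * Real.exp (-(γ * ‖v‖ ^ 2))))

theorem rate_mem {β T t : ℝ} (hβ : 0 < β) (hT : 0 < T) (ht : t ∈ Icc 0 T) :
    2 * β - β / T * t ∈ Icc β (2 * β) := by
  have h1 : 0 ≤ β / T * t := mul_nonneg (div_pos hβ hT).le ht.1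
  have h2 : β / T * t ≤ β := by
    calc β / T * t ≤ β / T * T := mul_le_mul_of_nonneg_left ht.2 (div_pos hβ hT).le
      _ = β := by field_simp
  constructor <;> linarith

/-- Explicit majorant of the gain term. -/
def gB (β T μ s : ℝ) (v : E) : ℝ≥0∞ :=
  ENNReal.ofReal ((1 + ‖v‖) * Real.exp (μ * s - (2 * β - β / T * s) * ‖v‖ ^ 2))

theorem duh_bound {β T μ A : ℝ} (hβ : 0 < β) (hT : 0 < T) (hμ : 0 < μ) (hA : 0 ≤ A)
    {D : ℝ → ℝ → E → E → ℝ≥0∞} (hD1 : ∀ s t x v, D s t x v ≤ 1) {q : ℝ → E → E → ℝ≥0∞}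
    (hq : ∀ s ∈ Icc 0 T, ∀ x v, q s x v ≤ ENNReal.ofReal A * gB β T μ s v)
    {t : ℝ} (ht : t ∈ Icc 0 T) (x v : E) :
    ∫⁻ s in Ioc 0 t, D s t x v * q s (x - (t - s) • v) v ≤
      ENNReal.ofReal (A * psi β T μ) * wT β T μ t v := by
  calc ∫⁻ s in Ioc 0 t, D s t x v * q s (x - (t - s) • v) v
      ≤ ∫⁻ s in Ioc 0 t, ENNReal.ofReal A * gB β T μ s v :=
        setLIntegral_mono' measurableSet_Ioc fun s hs => by
          rw [← one_mul (ENNReal.ofReal A * _)]
          exact mul_le_mul' (hD1 _ _ _ _) (hq s ⟨hs.1.le, hs.2.trans ht.2⟩ _ _)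
    _ = ENNReal.ofReal A * ∫⁻ s in Ioc 0 t, gB β T μ s v :=
        lintegral_const_mul' _ _ ENNReal.ofReal_ne_top
    _ ≤ ENNReal.ofReal A * ENNReal.ofReal (psi β T μ *
        Real.exp (μ * t - (2 * β - β / T * t) * ‖v‖ ^ 2)) :=
        mul_le_mul' le_rfl (lintegral_time hβ hT hμ ht.1 (norm_nonneg v))
    _ = ENNReal.ofReal (A * psi β T μ) * wT β T μ t v := by
        unfold wT
        rw [← ENNReal.ofReal_mul hA, ← ENNReal.ofReal_mul (mul_nonneg hA
          (psi_nonneg hμ))]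
        congr 1
        ring

theorem Q_bound {κ : Kernel E (E × E)} {β T C1 : ℝ} (hβ : 0 < β) (hT : 0 < T)
    (hC1 : 0 ≤ C1) (hκ : KernelBound κ β C1) (μ : ℝ) {h k : E → ℝ≥0∞} {a c : ℝ} (ha : 0 ≤ a)
    (hc : 0 ≤ c) {s : ℝ} (hs : s ∈ Icc 0 T) (m : ℝ) (hm : m ≤ μ * s)
    (hh : ∀ v, h v ≤ ENNReal.ofReal a * wG (2 * β - β / T * s) v)
    (hk : ∀ v, k v ≤ ENNReal.ofReal (c * Real.exp m) * wG (2 * β - β / T * s) v) (v : E) :
    Q κ h k v ≤ ENNReal.ofReal (a * c * C1) * gB β T μ s v ∧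
    Q κ k h v ≤ ENNReal.ofReal (a * c * C1) * gB β T μ s v := by
  set γ := 2 * β - β / T * s with hγ
  have hfin : ENNReal.ofReal a * ENNReal.ofReal (c * Real.exp m) * Q κ (wG γ) (wG γ) v ≤
      ENNReal.ofReal (a * c * C1) * gB β T μ s v := by
    calc ENNReal.ofReal a * ENNReal.ofReal (c * Real.exp m) * Q κ (wG γ) (wG γ) v
        ≤ ENNReal.ofReal a * ENNReal.ofReal (c * Real.exp (μ * s)) *
            ENNReal.ofReal (C1 * ((1 + ‖v‖) * Real.exp (-(γ * ‖v‖ ^ 2)))) := by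
          refine mul_le_mul' (mul_le_mul' le_rfl (ENNReal.ofReal_le_ofReal ?_))
            (hκ γ (rate_mem hβ hT hs) v)
          exact mul_le_mul_of_nonneg_left (Real.exp_le_exp.2 hm) hc
      _ = ENNReal.ofReal (a * c * C1) * gB β T μ s v := by
          unfold gB
          rw [← ENNReal.ofReal_mul (by positivity), ← ENNReal.ofReal_mul (by positivity),
            ← ENNReal.ofReal_mul (by positivity)]
          congr 1
          rw [sub_eq_add_neg (μ * s), Real.exp_add, hγ]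
          ring
  constructor
  · refine le_trans ?_ hfin
    rw [← Q_const_mul κ ENNReal.ofReal_ne_top ENNReal.ofReal_ne_top]
    exact Q_mono κ hh hk v
  · refine le_trans ?_ hfin
    rw [mul_comm (ENNReal.ofReal a), ← Q_const_mul κ ENNReal.ofReal_ne_top ENNReal.ofReal_ne_top]
    exact Q_mono κ hk hh v

theorem Q_add_left (κ : Kernel E (E × E)) {h h' k : E → ℝ≥0∞} (hh : Measurable h)
    (hk : Measurable k) (v : E) :
    Q κ (fun u => h u + h' u) k v = Q κ h k v + Q κ h' k v := by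
  unfold Q
  have hm : Measurable fun p : E × E => h p.1 * k p.2 :=
    (hh.comp measurable_fst).mul (hk.comp measurable_snd)
  rw [← lintegral_add_left hm]
  refine lintegral_congr fun p => ?_
  simp only [add_mul]

theorem Q_add_right (κ : Kernel E (E × E)) {h k k' : E → ℝ≥0∞} (hh : Measurable h)
    (hk : Measurable k) (v : E) :
    Q κ h (fun u => k u + k' u) v = Q κ h k v + Q κ h k' v := by
  unfold Q
  have hm : Measurable fun p : E × E => h p.1 * k p.2 :=
    (hh.comp measurable_fst).mul (hk.comp measurable_snd)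
  rw [← lintegral_add_left hm]
  refine lintegral_congr fun p => ?_
  simp only [mul_add]

theorem meas_wG (γ : ℝ) : Measurable (wG γ : E → ℝ≥0∞) := by
  unfold wG; fun_prop

theorem meas_wT (β T μ : ℝ) : Meas3 fun t (_ : E) (v : E) => wT β T μ t v := by
  unfold Meas3 wT; fun_prop

/-- `f` solves the damped Duhamel equation on `[0, T]`. -/
def IsMild (κ : Kernel E (E × E)) (D : ℝ → ℝ → E → E → ℝ≥0∞) (T : ℝ) (f : ℝ → E → E → ℝ≥0∞) :
    Prop :=
  ∀ t ∈ Icc 0 T, ∀ x v, f t x v = D 0 t x v * f 0 (x - t • v) v +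
    ∫⁻ s in Ioc 0 t, D s t x v * Q κ (f s (x - (t - s) • v)) (f s (x - (t - s) • v)) v

theorem wG_anti {γ γ' : ℝ} (h : γ ≤ γ') (v : E) : wG γ' v ≤ wG γ v := by
  unfold wG
  refine ENNReal.ofReal_le_ofReal (Real.exp_le_exp.2 ?_)
  nlinarith [sq_nonneg ‖v‖]

theorem wG_le_wT {β T μ t : ℝ} (hβ : 0 < β) (hT : 0 < T) (hμ : 0 < μ) (ht : t ∈ Icc 0 T) (v : E) :
    wG (2 * β - β / T * t) v ≤ wT β T μ t v := by
  rw [wT_eq]
  calc wG (2 * β - β / T * t) v = 1 * wG (2 * β - β / T * t) v := (one_mul _).symm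
    _ ≤ _ := mul_le_mul' (by
      rw [← ENNReal.ofReal_one]
      exact ENNReal.ofReal_le_ofReal (Real.one_le_exp (mul_nonneg hμ.le ht.1))) le_rfl

theorem wT_le {β T μ t : ℝ} (hβ : 0 < β) (hT : 0 < T) (hμ : 0 < μ) (ht : t ∈ Icc 0 T) (v : E) :
    wT β T μ t v ≤ ENNReal.ofReal (Real.exp (μ * T)) * wG β v := by
  rw [wT_eq]
  refine mul_le_mul' (ENNReal.ofReal_le_ofReal (Real.exp_le_exp.2 ?_))
    (wG_anti (rate_mem hβ hT ht).1 v)
  exact mul_le_mul_of_nonneg_left ht.2 hμ.le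

section main

variable {κ : Kernel E (E × E)} [IsSFiniteKernel κ] {β T C0 C1 : ℝ} {D : ℝ → ℝ → E → E → ℝ≥0∞}
  {f : ℝ → E → E → ℝ≥0∞}

/-- Comparison of the gain terms of `f` and of an approximation `p ≤ f ≤ p + R`. -/
theorem Q_diff {κ : Kernel E (E × E)} {f p R : E → ℝ≥0∞} (hf : Measurable f) (hp : Measurable p)
    (h1 : ∀ u, p u ≤ f u) (h2 : ∀ u, f u ≤ p u + R u) (v : E) :
    Q κ f f v ≤ Q κ p p v + (Q κ f R v + Q κ R f v) := by
  calc Q κ f f v
      ≤ Q κ (fun u => p u + R u) f v := Q_mono κ h2 (fun u => le_rfl) v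
    _ = Q κ p f v + Q κ R f v := Q_add_left κ hp hf v
    _ ≤ Q κ p (fun u => p u + R u) v + Q κ R f v :=
        add_le_add (Q_mono κ (fun u => le_rfl) h2 v) le_rfl
    _ = Q κ p p v + Q κ p R v + Q κ R f v := by rw [Q_add_right κ hp hp v]
    _ ≤ Q κ p p v + Q κ f R v + Q κ R f v := by
        gcongr
        exact Q_mono κ h1 (fun u => le_rfl) v
    _ = _ := by rw [add_assoc]

theorem P_le (hmild : IsMild κ D T f) (n : ℕ) {t : ℝ} (ht : t ∈ Icc 0 T) (x v : E) :
    P κ D (f 0) 1 n t x v ≤ f t x v := by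
  refine P_le_super κ (T := T) (fun t ht x v => ?_) n ht x v
  rw [hmild t ht x v]
  simp only [one_mul]
  exact le_rfl

/-- Geometric convergence of the Picard iterates in the weighted sup norm. -/
theorem le_picard (hβ : 0 < β) (hT : 0 < T) (hC0 : 0 ≤ C0) (hC1 : 0 ≤ C1)
    (hκ : KernelBound κ β C1) (hD1 : ∀ s t x v, D s t x v ≤ 1) (hD : Meas4 D) (hf : Meas3 f)
    (hfb : ∀ t ∈ Icc 0 T, ∀ x v, f t x v ≤ ENNReal.ofReal C0 * wG (2 * β) v)
    (hmild : IsMild κ D T f) {μ : ℝ} (hμ : 0 < μ) (hpsi : 2 * C0 * C1 * psi β T μ ≤ 1 / 2)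
    (n : ℕ) : ∀ t ∈ Icc 0 T, ∀ x v, f t x v ≤ P κ D (f 0) 1 n t x v +
      ENNReal.ofReal (C0 * (1 / 2) ^ n) * wT β T μ t v := by
  have hf0 : Measurable fun p : E × E => f 0 p.1 p.2 :=
    hf.comp (f := fun p : E × E => ((0 : ℝ), p.1, p.2)) (by fun_prop)
  have hfb' : ∀ s ∈ Icc 0 T, ∀ x v, f s x v ≤
      ENNReal.ofReal C0 * wG (2 * β - β / T * s) v := by
    intro s hs x v
    exact (hfb s hs x v).trans (mul_le_mul' le_rfl (wG_anti (rate_mem hβ hT hs).2 v))
  induction n with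
  | zero =>
    intro t ht x v
    simp only [P, zero_add, pow_zero, mul_one]
    exact (hfb' t ht x v).trans (mul_le_mul' le_rfl (wG_le_wT hβ hT hμ ht v))
  | succ n ih =>
    intro t ht x v
    have hP : Meas3 (P κ D (f 0) 1 n) := meas_P κ hD hf0 1 n
    set r : ℝ := C0 * (1 / 2) ^ n with hr
    have hr0 : 0 ≤ r := by positivity
    set q1 : ℝ → E → E → ℝ≥0∞ := fun s y u => Q κ (P κ D (f 0) 1 n s y)
      (P κ D (f 0) 1 n s y) u with hq1
    set q2 : ℝ → E → E → ℝ≥0∞ := fun s y u =>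
      Q κ (f s y) (fun w => ENNReal.ofReal r * wT β T μ s w) u +
      Q κ (fun w => ENNReal.ofReal r * wT β T μ s w) (f s y) u with hq2
    have hRm : Meas3 fun s (y : E) (u : E) => ENNReal.ofReal r * wT β T μ s u :=
      meas_mul3 measurable_const (meas_wT β T μ)
    have hq1m : Meas3 q1 := meas_Q κ hP hP
    have hq2b : ∀ s ∈ Icc 0 T, ∀ y u, q2 s y u ≤
        ENNReal.ofReal (2 * (C0 * r * C1)) * gB β T μ s u := by
      intro s hs y u
      have hb := Q_bound hβ hT hC1 hκ μ hC0 hr0 hs (μ * s) le_rfl (hfb' s hs y)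
        (k := fun w => ENNReal.ofReal r * wT β T μ s w) (fun w => by
          rw [wT_eq, ENNReal.ofReal_mul hr0, mul_assoc]) u
      calc q2 s y u ≤ ENNReal.ofReal (C0 * r * C1) * gB β T μ s u +
            ENNReal.ofReal (C0 * r * C1) * gB β T μ s u := add_le_add hb.1 hb.2
        _ = _ := by
          rw [← add_mul, ← ENNReal.ofReal_add (by positivity) (by positivity)]
          congr 2; ring
    have hint : ∫⁻ s in Ioc 0 t, D s t x v * q2 s (x - (t - s) • v) v ≤
        ENNReal.ofReal (C0 * (1 / 2) ^ (n + 1)) * wT β T μ t v := by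
      refine (duh_bound hβ hT hμ (by positivity) hD1 hq2b ht x v).trans
        (mul_le_mul' (ENNReal.ofReal_le_ofReal ?_) le_rfl)
      have e1 : 2 * (C0 * r * C1) * psi β T μ = r * (2 * C0 * C1 * psi β T μ) := by ring
      have e2 : C0 * (1 / 2) ^ (n + 1) = r * (1 / 2) := by rw [hr]; ring
      rw [e1, e2]
      exact mul_le_mul_of_nonneg_left hpsi hr0
    rw [hmild t ht x v]
    have hstep : P κ D (f 0) 1 (n + 1) t x v = D 0 t x v * f 0 (x - t • v) v +
        ∫⁻ s in Ioc 0 t, D s t x v * q1 s (x - (t - s) • v) v := by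
      simp only [P, one_mul, hq1]
    rw [hstep, add_assoc]
    refine add_le_add le_rfl ?_
    refine le_trans ?_ (add_le_add le_rfl hint)
    rw [← lintegral_add_left (meas_integrand hD hf0 hq1m t x v)]
    refine setLIntegral_mono' measurableSet_Ioc fun s hs => ?_
    rw [← mul_add]
    have hs' : s ∈ Icc 0 T := ⟨hs.1.le, hs.2.trans ht.2⟩
    refine mul_le_mul' le_rfl ?_
    exact Q_diff (meas_slice hD hf0 hf s _) (meas_slice hD hf0 hP s _)
      (fun u => P_le hmild n hs' _ u) (fun u => ih s hs' _ u) v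

/-- **Theorem T1**: `f` is the sum of the collision tree series, at every point. -/
theorem eq_tsum (hβ : 0 < β) (hT : 0 < T) (hC0 : 0 ≤ C0) (hC1 : 0 ≤ C1)
    (hκ : KernelBound κ β C1) (hD1 : ∀ s t x v, D s t x v ≤ 1) (hD : Meas4 D) (hf : Meas3 f)
    (hfb : ∀ t ∈ Icc 0 T, ∀ x v, f t x v ≤ ENNReal.ofReal C0 * wG (2 * β) v)
    (hmild : IsMild κ D T f) {t : ℝ} (ht : t ∈ Icc 0 T) (x v : E) :
    f t x v = ∑' τ : CTree, F κ D (f 0) τ t x v := by
  have hf0 : Measurable fun p : E × E => f 0 p.1 p.2 :=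
    hf.comp (f := fun p : E × E => ((0 : ℝ), p.1, p.2)) (by fun_prop)
  have h1 : ∑' τ : CTree, F κ D (f 0) τ t x v = ⨆ n, P κ D (f 0) 1 n t x v := by
    rw [← tsum_eq_iSup κ hD hf0 1 t x v]
    simp
  rw [h1]
  refine le_antisymm ?_ (iSup_le fun n => P_le hmild n ht x v)
  obtain ⟨μ, hμ, hpsi⟩ := exists_psi_le (β := β) (T := T) (ε := 1 / (4 * C0 * C1 + 1)) hβ hT
    (by positivity)
  have hpsi' : 2 * C0 * C1 * psi β T μ ≤ 1 / 2 := by
    have h2 : 2 * C0 * C1 * psi β T μ ≤ 2 * C0 * C1 * (1 / (4 * C0 * C1 + 1)) :=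
      mul_le_mul_of_nonneg_left hpsi (by positivity)
    refine h2.trans ?_
    rw [mul_one_div, div_le_div_iff₀ (by positivity) (by norm_num)]
    nlinarith [mul_nonneg hC0 hC1]
  have h3 : ∀ n, f t x v ≤ (⨆ n, P κ D (f 0) 1 n t x v) +
      ENNReal.ofReal (C0 * (1 / 2) ^ n) * wT β T μ t v := fun n =>
    (le_picard hβ hT hC0 hC1 hκ hD1 hD hf hfb hmild hμ hpsi' n t ht x v).trans
      (add_le_add (le_iSup (fun n => P κ D (f 0) 1 n t x v) n) le_rfl)
  have h4 : Filter.Tendsto (fun n : ℕ => (⨆ n, P κ D (f 0) 1 n t x v) +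
      ENNReal.ofReal (C0 * (1 / 2) ^ n) * wT β T μ t v) Filter.atTop
      (nhds ((⨆ n, P κ D (f 0) 1 n t x v) + 0 * wT β T μ t v)) := by
    refine tendsto_const_nhds.add ?_
    refine ENNReal.Tendsto.mul_const ?_ (Or.inr ENNReal.ofReal_ne_top)
    have h5 : Filter.Tendsto (fun n : ℕ => C0 * (1 / 2 : ℝ) ^ n) Filter.atTop (nhds (C0 * 0)) :=
      (tendsto_pow_atTop_nhds_zero_of_lt_one (by norm_num) (by norm_num)).const_mul C0
    rw [mul_zero] at h5
    have h6 := (ENNReal.continuous_ofReal.tendsto 0).comp h5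
    rw [ENNReal.ofReal_zero] at h6
    exact h6
  simpa using ge_of_tendsto' h4 h3

/-- **Theorem T3** (exponential moment of the number of collisions). -/
theorem exp_moment (hβ : 0 < β) (hT : 0 < T) (hC0 : 0 ≤ C0) (hC1 : 0 ≤ C1)
    (hκ : KernelBound κ β C1) (hD1 : ∀ s t x v, D s t x v ≤ 1) (hD : Meas4 D) (hf : Meas3 f)
    (hfb : ∀ t ∈ Icc 0 T, ∀ x v, f t x v ≤ ENNReal.ofReal C0 * wG (2 * β) v)
    (hmild : IsMild κ D T f) :
    ∃ lam : ℝ, 1 < lam ∧ ∀ t ∈ Icc 0 T, ∀ x v,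
      ∑' τ : CTree, ENNReal.ofReal lam ^ τ.size * F κ D (f 0) τ t x v ≤
        ENNReal.ofReal (C0 + 1) * wG β v := by
  have hf0 : Measurable fun p : E × E => f 0 p.1 p.2 :=
    hf.comp (f := fun p : E × E => ((0 : ℝ), p.1, p.2)) (by fun_prop)
  have hfb' : ∀ s ∈ Icc 0 T, ∀ x v, f s x v ≤
      ENNReal.ofReal C0 * wG (2 * β - β / T * s) v := by
    intro s hs x v
    exact (hfb s hs x v).trans (mul_le_mul' le_rfl (wG_anti (rate_mem hβ hT hs).2 v))
  obtain ⟨μ, hμ, hpsi⟩ := exists_psi_le (β := β) (T := T)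
    (ε := 1 / (4 * (2 * C0 + 1) * C1 + 1)) hβ hT (by positivity)
  have hpsi0 : 0 ≤ psi β T μ := psi_nonneg hμ
  have hpsi' : 2 * (2 * C0 + 1) * C1 * psi β T μ ≤ 1 / 2 := by
    have h2 : 2 * (2 * C0 + 1) * C1 * psi β T μ ≤
        2 * (2 * C0 + 1) * C1 * (1 / (4 * (2 * C0 + 1) * C1 + 1)) :=
      mul_le_mul_of_nonneg_left hpsi (by positivity)
    refine h2.trans ?_
    rw [mul_one_div, div_le_div_iff₀ (by positivity) (by norm_num)]
    nlinarith [mul_nonneg hC0 hC1]
  set η : ℝ := Real.exp (-(μ * T)) with hη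
  have hη0 : 0 < η := Real.exp_pos _
  have hη1 : η ≤ 1 := Real.exp_le_one_iff.2 (by have := mul_nonneg hμ.le hT.le; linarith)
  set δ : ℝ := min 1 (η / (2 * C0 ^ 2 * C1 * psi β T μ + 1)) with hδ
  have hδ0 : 0 < δ := lt_min one_pos (by positivity)
  have hδ1 : δ ≤ 1 := min_le_left _ _
  have hδ2 : δ * (C0 ^ 2 * C1 * psi β T μ) ≤ η / 2 := by
    have h3 : δ ≤ η / (2 * C0 ^ 2 * C1 * psi β T μ + 1) := min_le_right _ _
    rw [le_div_iff₀ (by positivity)] at h3
    nlinarith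
  refine ⟨1 + δ, by linarith, fun t ht x v => ?_⟩
  rw [tsum_eq_iSup κ hD hf0]
  set H : ℝ → E → E → ℝ≥0∞ := fun t x v => f t x v + ENNReal.ofReal η * wT β T μ t v with hH
  have hHb : ∀ t ∈ Icc 0 T, ∀ x v, H t x v ≤ ENNReal.ofReal (C0 + 1) * wG β v := by
    intro t ht x v
    have h1 : ENNReal.ofReal η * wT β T μ t v ≤ ENNReal.ofReal 1 * wG β v := by
      calc ENNReal.ofReal η * wT β T μ t v
          ≤ ENNReal.ofReal η * (ENNReal.ofReal (Real.exp (μ * T)) * wG β v) :=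
            mul_le_mul' le_rfl (wT_le hβ hT hμ ht v)
        _ = ENNReal.ofReal 1 * wG β v := by
            rw [← mul_assoc, ← ENNReal.ofReal_mul hη0.le, hη, ← Real.exp_add]
            simp
    calc H t x v ≤ ENNReal.ofReal C0 * wG β v + ENNReal.ofReal 1 * wG β v :=
          add_le_add ((hfb t ht x v).trans (mul_le_mul' le_rfl (wG_anti (by linarith) v))) h1
      _ = _ := by rw [← add_mul, ← ENNReal.ofReal_add hC0 zero_le_one]
  refine (iSup_le fun n => ?_).trans (hHb t ht x v)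
  refine P_le_super κ (T := T) (fun t ht x v => ?_) n ht x v
  -- supersolution inequality
  set q1 : ℝ → E → E → ℝ≥0∞ := fun s y u => Q κ (f s y) (f s y) u with hq1
  have hq1m : Meas3 q1 := meas_Q κ hf hf
  set A : ℝ := δ * (C0 ^ 2 * C1) + 2 * ((2 * C0 + 1) * η * C1) with hA
  have hA0 : 0 ≤ A := by positivity
  -- pointwise bound of the source
  have hsrc : ∀ s ∈ Icc 0 T, ∀ y u, ENNReal.ofReal (1 + δ) * Q κ (H s y) (H s y) u ≤
      q1 s y u + ENNReal.ofReal A * gB β T μ s u := by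
    intro s hs y u
    have mf := meas_slice hD hf0 hf s y
    have hRm : Meas3 fun s (y : E) (u : E) => ENNReal.ofReal η * wT β T μ s u :=
      meas_mul3 measurable_const (meas_wT β T μ)
    have mR := meas_slice hD hf0 hRm s y
    set R : E → ℝ≥0∞ := fun w => ENNReal.ofReal η * wT β T μ s w with hRdef
    have hRb : ∀ w, R w ≤ ENNReal.ofReal (η * Real.exp (μ * s)) * wG (2 * β - β / T * s) w := by
      intro w
      rw [hRdef]
      simp only
      rw [wT_eq, ENNReal.ofReal_mul hη0.le, mul_assoc]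
    have hRb1 : ∀ w, R w ≤ ENNReal.ofReal 1 * wG (2 * β - β / T * s) w := by
      intro w
      refine (hRb w).trans (mul_le_mul' (ENNReal.ofReal_le_ofReal ?_) le_rfl)
      rw [hη, ← Real.exp_add]
      refine Real.exp_le_one_iff.2 ?_
      have := mul_le_mul_of_nonneg_left hs.2 hμ.le
      linarith
    have hexp : Q κ (H s y) (H s y) u = Q κ (f s y) (f s y) u +
        (Q κ (f s y) R u + (Q κ R (f s y) u + Q κ R R u)) := by
      have e1 : Q κ (H s y) (H s y) u = Q κ (f s y) (H s y) u + Q κ R (H s y) u :=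
        Q_add_left κ mf (mf.add mR) u
      have e2 : Q κ (f s y) (H s y) u = Q κ (f s y) (f s y) u + Q κ (f s y) R u :=
        Q_add_right κ mf mf u
      have e3 : Q κ R (H s y) u = Q κ R (f s y) u + Q κ R R u := Q_add_right κ mR mf u
      rw [e1, e2, e3, add_assoc]
    have b0 := (Q_bound hβ hT hC1 hκ μ hC0 hC0 hs 0 (mul_nonneg hμ.le hs.1) (hfb' s hs y)
      (k := f s y) (by simpa using hfb' s hs y) u).1
    have b1 := Q_bound hβ hT hC1 hκ μ hC0 hη0.le hs (μ * s) le_rfl (hfb' s hs y) hRb u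
    have b2 := (Q_bound hβ hT hC1 hκ μ zero_le_one hη0.le hs (μ * s) le_rfl hRb1 hRb u).1
    have hsum : Q κ (f s y) R u + (Q κ R (f s y) u + Q κ R R u) ≤
        ENNReal.ofReal ((2 * C0 + 1) * η * C1) * gB β T μ s u := by
      calc Q κ (f s y) R u + (Q κ R (f s y) u + Q κ R R u)
          ≤ ENNReal.ofReal (C0 * η * C1) * gB β T μ s u +
            (ENNReal.ofReal (C0 * η * C1) * gB β T μ s u +
              ENNReal.ofReal (1 * η * C1) * gB β T μ s u) :=
            add_le_add b1.1 (add_le_add b1.2 b2)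
        _ = _ := by
            rw [← add_mul, ← add_mul, ← ENNReal.ofReal_add (by positivity) (by positivity),
              ← ENNReal.ofReal_add (by positivity) (by positivity)]
            congr 2; ring
    calc ENNReal.ofReal (1 + δ) * Q κ (H s y) (H s y) u
        = q1 s y u + (ENNReal.ofReal δ * Q κ (f s y) (f s y) u + ENNReal.ofReal (1 + δ) *
          (Q κ (f s y) R u + (Q κ R (f s y) u + Q κ R R u))) := by
          rw [hexp, mul_add, ENNReal.ofReal_add zero_le_one hδ0.le, ENNReal.ofReal_one]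
          rw [add_mul 1, one_mul, hq1]
          ring
      _ ≤ q1 s y u + (ENNReal.ofReal δ * (ENNReal.ofReal (C0 * C0 * C1) * gB β T μ s u) +
          ENNReal.ofReal 2 * (ENNReal.ofReal ((2 * C0 + 1) * η * C1) * gB β T μ s u)) := by
          refine add_le_add le_rfl (add_le_add (mul_le_mul' le_rfl b0)
            (mul_le_mul' (ENNReal.ofReal_le_ofReal (by linarith)) hsum))
      _ = q1 s y u + ENNReal.ofReal A * gB β T μ s u := by
          rw [← mul_assoc, ← mul_assoc, ← ENNReal.ofReal_mul hδ0.le,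
            ← ENNReal.ofReal_mul (by norm_num : (0:ℝ) ≤ 2), ← add_mul,
            ← ENNReal.ofReal_add (by positivity) (by positivity)]
          congr 3
          rw [hA]; ring
  have hfin : A * psi β T μ ≤ η := by
    have e1 : A * psi β T μ = δ * (C0 ^ 2 * C1 * psi β T μ) +
        η * (2 * (2 * C0 + 1) * C1 * psi β T μ) := by rw [hA]; ring
    rw [e1]
    have e2 := mul_le_mul_of_nonneg_left hpsi' hη0.le
    linarith
  calc D 0 t x v * f 0 (x - t • v) v + ∫⁻ s in Ioc 0 t, D s t x v *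
        (ENNReal.ofReal (1 + δ) * Q κ (H s (x - (t - s) • v)) (H s (x - (t - s) • v)) v)
      ≤ D 0 t x v * f 0 (x - t • v) v + ∫⁻ s in Ioc 0 t, (D s t x v * q1 s (x - (t - s) • v) v +
          D s t x v * (ENNReal.ofReal A * gB β T μ s v)) := by
        refine add_le_add le_rfl (setLIntegral_mono' measurableSet_Ioc fun s hs => ?_)
        rw [← mul_add]
        exact mul_le_mul' le_rfl (hsrc s ⟨hs.1.le, hs.2.trans ht.2⟩ _ _)
    _ = D 0 t x v * f 0 (x - t • v) v +
          ((∫⁻ s in Ioc 0 t, D s t x v * q1 s (x - (t - s) • v) v) +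
          ∫⁻ s in Ioc 0 t, D s t x v * (ENNReal.ofReal A * gB β T μ s v)) := by
        rw [lintegral_add_left (meas_integrand hD hf0 hq1m t x v)]
    _ = f t x v + ∫⁻ s in Ioc 0 t, D s t x v * (ENNReal.ofReal A * gB β T μ s v) := by
        rw [hmild t ht x v, add_assoc]
    _ ≤ f t x v + ENNReal.ofReal (A * psi β T μ) * wT β T μ t v :=
        add_le_add le_rfl (duh_bound hβ hT hμ hA0 hD1 (q := fun s y u =>
          ENNReal.ofReal A * gB β T μ s u) (fun s hs y u => le_rfl) ht x v)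
    _ ≤ H t x v := add_le_add le_rfl (mul_le_mul' (ENNReal.ofReal_le_ofReal hfin) le_rfl)

end main

end Crest.Agent.R122.Kin796
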