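import Crest.Agent.R122.Weight_984

/-!
# Touched mass with real times: Stieltjes inequalities and comparison of worlds (row 122, H8)

`ν` = measure on the marked lines, `θ ω` = touch time of the line `ω` in a world `Z`.

* `XR ν θ s = ν {θ ≤ s}`, `XRm ν θ s = ν {θ < s}`.
* `stieltjes_lt`, `stieltjes_le` : inclusive weight at the touch time, **no hypothesis on atoms**.
* `Cons` : the touch times of two worlds `Z`, `Z + A` agree before `θ₀ = θ(Z, A)` for the lines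
  outside the link set `N`, with the one-sided closed end-point (3.1').
* `Cons.W_Xm_le`, `Cons.W_X_le` ... : additive comparison of the weights, error `L * ν N`.
* `stieltjes_second` : the form consumed by SP-A and SP-B.
-/

set_option autoImplicit false
set_option linter.unusedSectionVars false

open MeasureTheory Set Filter
open scoped ENNReal Topology

namespace Crest.Agent.R122.Weight984

/-! ## Additive comparison of weights -/

/-- If `x ≤ y + n` then `W L y ≤ W L x + L * n`. -/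
theorem W_le_add {L : ℝ} (hL : 0 < L) {x y n : ℝ≥0∞} (h : x ≤ y + n) :
    W L y ≤ W L x + ENNReal.ofReal L * n := by
  rcases eq_or_ne y ∞ with rfl | hy
  · simp [W_top]
  rcases eq_or_ne n ∞ with rfl | hn
  · rw [ENNReal.mul_top (by simpa using hL)]; simp
  have hyn : y + n ≠ ∞ := ENNReal.add_ne_top.2 ⟨hy, hn⟩
  have hx : x ≠ ∞ := ne_top_of_le_ne_top hyn h
  have hx0 : 0 ≤ x.toReal := ENNReal.toReal_nonneg
  have hy0 : 0 ≤ y.toReal := ENNReal.toReal_nonneg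
  have hn0 : 0 ≤ n.toReal := ENNReal.toReal_nonneg
  have h1 := ENNReal.toReal_mono hyn h
  rw [ENNReal.toReal_add hy hn] at h1
  have e1 : ENNReal.ofReal L * n = ENNReal.ofReal (L * n.toReal) := by
    rw [ENNReal.ofReal_mul hL.le, ENNReal.ofReal_toReal hn]
  rw [W_of_ne hx, W_of_ne hy, e1, ← ENNReal.ofReal_add (Real.exp_pos _).le (by positivity)]
  refine ENNReal.ofReal_le_ofReal ?_
  generalize x.toReal = X at *
  generalize y.toReal = Y at *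
  generalize n.toReal = N at *
  have hLN : 0 ≤ L * N := mul_nonneg hL.le hn0
  have h2 : Real.exp (-(L * Y)) * Real.exp (-(L * N)) ≤ Real.exp (-(L * X)) := by
    rw [← Real.exp_add]
    exact Real.exp_le_exp.2 (by nlinarith)
  have h3 : 1 - L * N ≤ Real.exp (-(L * N)) := by
    have := Real.add_one_le_exp (-(L * N)); linarith
  have h4 : Real.exp (-(L * Y)) ≤ 1 := by
    rw [← Real.exp_zero]; exact Real.exp_le_exp.2 (by nlinarith)
  have h5 := Real.exp_pos (-(L * Y))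
  have h6 : Real.exp (-(L * Y)) * (1 - L * N) ≤ Real.exp (-(L * Y)) * Real.exp (-(L * N)) :=
    mul_le_mul_of_nonneg_left h3 h5.le
  nlinarith [mul_nonneg hLN (sub_nonneg.2 h4)]

/-- The weight is continuous along increasing limits. -/
theorem tendsto_W_of_monotone {L : ℝ} (hL : 0 < L) {x : ℕ → ℝ≥0∞} {y : ℝ≥0∞} (_hx : Monotone x)
    (hlim : Tendsto x atTop (𝓝 y)) : Tendsto (fun n => W L (x n)) atTop (𝓝 (W L y)) := by
  rcases eq_or_ne y ∞ with rfl | hy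
  · rw [W_top]
    -- squeeze by `W L (x n) ≤ ofReal (exp (-L M))` eventually
    rw [ENNReal.tendsto_nhds_zero]
    intro δ hδ
    obtain ⟨M, hM⟩ : ∃ M : ℝ, 0 ≤ M ∧ ENNReal.ofReal (Real.exp (-(L * M))) ≤ δ := by
      rcases eq_or_ne δ ∞ with rfl | hδt
      · exact ⟨0, le_rfl, le_top⟩
      have hδ' : 0 < δ.toReal := ENNReal.toReal_pos hδ.ne' hδt
      have ht : Tendsto (fun M : ℝ => Real.exp (-(L * M))) atTop (𝓝 0) :=
        Real.tendsto_exp_atBot.comp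
          (tendsto_neg_atTop_atBot.comp (Tendsto.const_mul_atTop hL tendsto_id))
      obtain ⟨M, hM0, hM1⟩ := ((eventually_ge_atTop (0 : ℝ)).and
        (ht.eventually (Iio_mem_nhds hδ'))).exists
      refine ⟨M, hM0, ?_⟩
      rw [← ENNReal.ofReal_toReal hδt]
      exact ENNReal.ofReal_le_ofReal (le_of_lt hM1)
    have h1 : ∀ᶠ n in atTop, ENNReal.ofReal M ≤ x n :=
      (hlim.eventually (Ioi_mem_nhds (ENNReal.ofReal_lt_top (r := M)))).mono fun n hn => le_of_lt hn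
    filter_upwards [h1] with n hn
    refine (W_anti hL.le hn).trans ?_
    rw [W_ofReal hM.1]
    exact hM.2
  · have hev : ∀ᶠ n in atTop, x n ≠ ∞ :=
      (hlim.eventually (Iio_mem_nhds (lt_top_iff_ne_top.2 hy))).mono fun n hn => ne_of_lt hn
    have h1 : Tendsto (fun n => (x n).toReal) atTop (𝓝 y.toReal) :=
      (ENNReal.tendsto_toReal hy).comp hlim
    have h2 : Tendsto (fun n => ENNReal.ofReal (Real.exp (-(L * (x n).toReal)))) atTop
        (𝓝 (ENNReal.ofReal (Real.exp (-(L * y.toReal))))) :=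
      ENNReal.tendsto_ofReal ((Real.continuous_exp.tendsto _).comp ((h1.const_mul L).neg))
    rw [W_of_ne hy]
    refine h2.congr' ?_
    filter_upwards [hev] with n hn
    rw [W_of_ne hn]

/-! ## Touched mass with real times -/

section real

variable {Ω : Type*} [MeasurableSpace Ω]

/-- Touched mass at time `s`. -/
noncomputable def XR (ν : Measure Ω) (θ : Ω → ℝ) (s : ℝ) : ℝ≥0∞ := ν {ω | θ ω ≤ s}

/-- Touched mass before time `s`. -/
noncomputable def XRm (ν : Measure Ω) (θ : Ω → ℝ) (s : ℝ) : ℝ≥0∞ := ν {ω | θ ω < s}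

variable {ν : Measure Ω} {θ θ' : Ω → ℝ}

theorem XR_mono : Monotone (XR ν θ) := fun _ _ h => measure_mono fun _ hω => le_trans hω h

theorem XRm_mono : Monotone (XRm ν θ) :=
  fun _ _ h => measure_mono fun _ hω => lt_of_lt_of_le hω h

theorem XRm_le_XR (s : ℝ) : XRm ν θ s ≤ XR ν θ s := by
  unfold XRm XR
  exact measure_mono fun ω hω => le_of_lt (show θ ω < s from hω)

theorem XR_le_XRm {s s' : ℝ} (h : s < s') : XR ν θ s ≤ XRm ν θ s' :=
  measure_mono fun _ hω => lt_of_le_of_lt hω h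

theorem XR_eq_X (s : ℝ) : XR ν θ s = X ν (fun ω => (θ ω : EReal)) (s : EReal) := by
  unfold XR X
  simp only [EReal.coe_le_coe_iff]

/-- The left limit of the touched mass. -/
theorem tendsto_XR_XRm {s : ℝ} {u : ℕ → ℝ} (hu : Monotone u) (hlt : ∀ n, u n < s)
    (hlim : Tendsto u atTop (𝓝 s)) : Tendsto (fun n => XR ν θ (u n)) atTop (𝓝 (XRm ν θ s)) := by
  have h1 : {ω | θ ω < s} = ⋃ n, {ω | θ ω ≤ u n} := by
    ext ω
    simp only [mem_iUnion, mem_ofPred_eq]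
    constructor
    · intro h
      obtain ⟨n, hn⟩ := (hlim.eventually (Ioi_mem_nhds (show θ ω < s from h))).exists
      exact ⟨n, le_of_lt hn⟩
    · rintro ⟨n, hn⟩
      exact lt_of_le_of_lt hn (hlt n)
  unfold XR XRm
  rw [h1]
  exact tendsto_measure_iUnion_atTop fun m n hmn ω hω => le_trans hω (hu hmn)

theorem measurable_W_XR (L : ℝ) (hθ : Measurable θ) :
    Measurable fun ω => W L (XR ν θ (θ ω)) :=
  (measurable_W L).comp (XR_mono.measurable.comp hθ)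

theorem measurable_W_XRm (L : ℝ) (hθ : Measurable θ) :
    Measurable fun ω => W L (XRm ν θ (θ ω)) :=
  (measurable_W L).comp (XRm_mono.measurable.comp hθ)

/-- **Stieltjes inequality**, strict lower end, inclusive weight, no hypothesis on atoms. -/
theorem stieltjes_lt {L : ℝ} (hL : 0 < L) (ν : Measure Ω) [SFinite ν] {θ : Ω → ℝ}
    (hθ : Measurable θ) (s₁ : ℝ) :
    ∫⁻ ω in {ω | s₁ < θ ω}, W L (XR ν θ (θ ω)) ∂ν ≤ ENNReal.ofReal (1 / L) * W L (XR ν θ s₁) := by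
  have h := lintegral_W_X_le hL ν (θ := fun ω => (θ ω : EReal)) (measurable_coe_real_ereal.comp hθ)
    (s₁ : EReal)
  simpa only [XR_eq_X, EReal.coe_lt_coe_iff] using h

/-- **Stieltjes inequality**, closed lower end. -/
theorem stieltjes_le {L : ℝ} (hL : 0 < L) (ν : Measure Ω) [SFinite ν] {θ : Ω → ℝ}
    (hθ : Measurable θ) (s₁ : ℝ) :
    ∫⁻ ω in {ω | s₁ ≤ θ ω}, W L (XR ν θ (θ ω)) ∂ν ≤ ENNReal.ofReal (1 / L) * W L (XRm ν θ s₁) := by
  obtain ⟨u, hu, hlt, hlim⟩ := exists_seq_strictMono_tendsto s₁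
  have h1 : Tendsto (fun n => ENNReal.ofReal (1 / L) * W L (XR ν θ (u n))) atTop
      (𝓝 (ENNReal.ofReal (1 / L) * W L (XRm ν θ s₁))) :=
    ENNReal.Tendsto.const_mul (tendsto_W_of_monotone hL (XR_mono.comp hu.monotone)
      (tendsto_XR_XRm hu.monotone hlt hlim)) (Or.inr ENNReal.ofReal_ne_top)
  refine ge_of_tendsto' h1 fun n => ?_
  refine le_trans (lintegral_mono_set ?_) (stieltjes_lt hL ν hθ (u n))
  intro ω hω
  exact lt_of_lt_of_le (hlt n) hω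

/-- The same for a measure dominated by `c • ν` (density bound), up to time `t'`, with an additive
error in the weight: the second touched object of SP-A and SP-B. -/
theorem stieltjes_second {L : ℝ} (hL : 0 < L) (ν : Measure Ω) [SFinite ν] {θ : Ω → ℝ}
    (hθ : Measurable θ) (s₁ t' : ℝ) {c : ℝ≥0∞} {μ : Measure Ω} (hμ : μ ≤ c • ν)
    {V E : Ω → ℝ≥0∞}
    (hV : ∀ ω, s₁ < θ ω → θ ω ≤ t' → V ω ≤ W L (XR ν θ (θ ω)) + E ω) :
    ∫⁻ ω in {ω | s₁ < θ ω ∧ θ ω ≤ t'}, V ω ∂μ ≤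
      c * (ENNReal.ofReal (1 / L) * W L (XR ν θ s₁)) + ∫⁻ ω in {ω | s₁ < θ ω ∧ θ ω ≤ t'}, E ω ∂μ := by
  have hms : MeasurableSet {ω | s₁ < θ ω ∧ θ ω ≤ t'} :=
    (measurableSet_lt measurable_const hθ).inter (measurableSet_le hθ measurable_const)
  calc ∫⁻ ω in {ω | s₁ < θ ω ∧ θ ω ≤ t'}, V ω ∂μ
      ≤ ∫⁻ ω in {ω | s₁ < θ ω ∧ θ ω ≤ t'}, (W L (XR ν θ (θ ω)) + E ω) ∂μ :=
        setLIntegral_mono' hms fun ω hω => hV ω hω.1 hω.2
    _ = ∫⁻ ω in {ω | s₁ < θ ω ∧ θ ω ≤ t'}, W L (XR ν θ (θ ω)) ∂μ +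
          ∫⁻ ω in {ω | s₁ < θ ω ∧ θ ω ≤ t'}, E ω ∂μ :=
        lintegral_add_left (measurable_W_XR L hθ) _
    _ ≤ c * (ENNReal.ofReal (1 / L) * W L (XR ν θ s₁)) +
          ∫⁻ ω in {ω | s₁ < θ ω ∧ θ ω ≤ t'}, E ω ∂μ := by
        gcongr
        calc ∫⁻ ω in {ω | s₁ < θ ω ∧ θ ω ≤ t'}, W L (XR ν θ (θ ω)) ∂μ
            ≤ ∫⁻ ω in {ω | s₁ < θ ω}, W L (XR ν θ (θ ω)) ∂μ :=
              lintegral_mono_set fun ω hω => hω.1
          _ ≤ ∫⁻ ω in {ω | s₁ < θ ω}, W L (XR ν θ (θ ω)) ∂(c • ν) :=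
              lintegral_mono' (Measure.restrict_mono_measure hμ _) le_rfl
          _ = c * ∫⁻ ω in {ω | s₁ < θ ω}, W L (XR ν θ (θ ω)) ∂ν := by
              rw [Measure.restrict_smul, lintegral_smul_measure, smul_eq_mul]
          _ ≤ _ := by gcongr; exact stieltjes_lt hL ν hθ s₁

/-- Closed lower end version of `stieltjes_second`. -/
theorem stieltjes_second_le {L : ℝ} (hL : 0 < L) (ν : Measure Ω) [SFinite ν] {θ : Ω → ℝ}
    (hθ : Measurable θ) (s₁ t' : ℝ) {c : ℝ≥0∞} {μ : Measure Ω} (hμ : μ ≤ c • ν)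
    {V E : Ω → ℝ≥0∞}
    (hV : ∀ ω, s₁ ≤ θ ω → θ ω ≤ t' → V ω ≤ W L (XR ν θ (θ ω)) + E ω) :
    ∫⁻ ω in {ω | s₁ ≤ θ ω ∧ θ ω ≤ t'}, V ω ∂μ ≤
      c * (ENNReal.ofReal (1 / L) * W L (XRm ν θ s₁)) + ∫⁻ ω in {ω | s₁ ≤ θ ω ∧ θ ω ≤ t'}, E ω ∂μ := by
  have hms : MeasurableSet {ω | s₁ ≤ θ ω ∧ θ ω ≤ t'} :=
    (measurableSet_le measurable_const hθ).inter (measurableSet_le hθ measurable_const)
  calc ∫⁻ ω in {ω | s₁ ≤ θ ω ∧ θ ω ≤ t'}, V ω ∂μ
      ≤ ∫⁻ ω in {ω | s₁ ≤ θ ω ∧ θ ω ≤ t'}, (W L (XR ν θ (θ ω)) + E ω) ∂μ :=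
        setLIntegral_mono' hms fun ω hω => hV ω hω.1 hω.2
    _ = ∫⁻ ω in {ω | s₁ ≤ θ ω ∧ θ ω ≤ t'}, W L (XR ν θ (θ ω)) ∂μ +
          ∫⁻ ω in {ω | s₁ ≤ θ ω ∧ θ ω ≤ t'}, E ω ∂μ :=
        lintegral_add_left (measurable_W_XR L hθ) _
    _ ≤ c * (ENNReal.ofReal (1 / L) * W L (XRm ν θ s₁)) +
          ∫⁻ ω in {ω | s₁ ≤ θ ω ∧ θ ω ≤ t'}, E ω ∂μ := by
        gcongr
        calc ∫⁻ ω in {ω | s₁ ≤ θ ω ∧ θ ω ≤ t'}, W L (XR ν θ (θ ω)) ∂μ
            ≤ ∫⁻ ω in {ω | s₁ ≤ θ ω}, W L (XR ν θ (θ ω)) ∂μ :=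
              lintegral_mono_set fun ω hω => hω.1
          _ ≤ ∫⁻ ω in {ω | s₁ ≤ θ ω}, W L (XR ν θ (θ ω)) ∂(c • ν) :=
              lintegral_mono' (Measure.restrict_mono_measure hμ _) le_rfl
          _ = c * ∫⁻ ω in {ω | s₁ ≤ θ ω}, W L (XR ν θ (θ ω)) ∂ν := by
              rw [Measure.restrict_smul, lintegral_smul_measure, smul_eq_mul]
          _ ≤ _ := by gcongr; exact stieltjes_le hL ν hθ s₁

/-! ## Consistency between two worlds -/

/-- The touch times `θ` (world `Z`) and `θ'` (world `Z + A`) agree before `θ₀ = θ(Z, A)` for the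
lines outside the link set `N`; at the closed end-point `θ₀` a line which has touched in `Z` has
touched in `Z + A`. -/
structure Cons (θ θ' : Ω → ℝ) (θ₀ : ℝ) (N : Set Ω) : Prop where
  iff_lt : ∀ ω, ω ∉ N → ∀ s, s < θ₀ → (θ ω ≤ s ↔ θ' ω ≤ s)
  closed : ∀ ω, ω ∉ N → θ ω ≤ θ₀ → θ' ω ≤ θ₀

namespace Cons

variable {θ₀ : ℝ} {N : Set Ω}

theorem lt_iff (h : Cons θ θ' θ₀ N) {ω : Ω} (hω : ω ∉ N) {s : ℝ} (hs : s ≤ θ₀) :
    θ ω < s ↔ θ' ω < s := by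
  constructor
  · intro h1
    obtain ⟨r, hr1, hr2⟩ := exists_between h1
    exact lt_of_le_of_lt ((h.iff_lt ω hω r (lt_of_lt_of_le hr2 hs)).1 hr1.le) hr2
  · intro h1
    obtain ⟨r, hr1, hr2⟩ := exists_between h1
    exact lt_of_le_of_lt ((h.iff_lt ω hω r (lt_of_lt_of_le hr2 hs)).2 hr1.le) hr2

theorem mono_time (h : Cons θ θ' θ₀ N) {θ₁ : ℝ} (h1 : θ₁ ≤ θ₀) : Cons θ θ' θ₁ N where
  iff_lt ω hω s hs := h.iff_lt ω hω s (lt_of_lt_of_le hs h1)
  closed ω hω hle := by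
    rcases lt_or_eq_of_le h1 with h2 | h2
    · exact (h.iff_lt ω hω θ₁ h2).1 hle
    · subst h2; exact h.closed ω hω hle

theorem mono_set (h : Cons θ θ' θ₀ N) {N' : Set Ω} (hN : N ⊆ N') : Cons θ θ' θ₀ N' where
  iff_lt ω hω := h.iff_lt ω fun h' => hω (hN h')
  closed ω hω := h.closed ω fun h' => hω (hN h')

theorem refl (θ : Ω → ℝ) (θ₀ : ℝ) (N : Set Ω) : Cons θ θ θ₀ N :=
  ⟨fun _ _ _ _ => Iff.rfl, fun _ _ h => h⟩

theorem trans {θ'' : Ω → ℝ} {N' : Set Ω} (h : Cons θ θ' θ₀ N) (h' : Cons θ' θ'' θ₀ N') :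
    Cons θ θ'' θ₀ (N ∪ N') where
  iff_lt ω hω s hs := (h.iff_lt ω (fun h1 => hω (Or.inl h1)) s hs).trans
    (h'.iff_lt ω (fun h1 => hω (Or.inr h1)) s hs)
  closed ω hω hle := h'.closed ω (fun h1 => hω (Or.inr h1))
    (h.closed ω (fun h1 => hω (Or.inl h1)) hle)

private theorem measure_le {A B N : Set Ω} (h : ∀ ω, ω ∉ N → ω ∈ A → ω ∈ B) :
    ν A ≤ ν B + ν N := by
  refine le_trans (measure_mono fun ω hω => ?_) (measure_union_le B N)
  by_cases hN : ω ∈ N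
  · exact Or.inr hN
  · exact Or.inl (h ω hN hω)

theorem XRm_le (h : Cons θ θ' θ₀ N) {s : ℝ} (hs : s ≤ θ₀) :
    XRm ν θ s ≤ XRm ν θ' s + ν N := measure_le fun _ hω h1 => (h.lt_iff hω hs).1 h1

theorem XRm_ge (h : Cons θ θ' θ₀ N) {s : ℝ} (hs : s ≤ θ₀) :
    XRm ν θ' s ≤ XRm ν θ s + ν N := measure_le fun _ hω h1 => (h.lt_iff hω hs).2 h1

theorem XR_le (h : Cons θ θ' θ₀ N) {s : ℝ} (hs : s ≤ θ₀) :
    XR ν θ s ≤ XR ν θ' s + ν N := measure_le fun _ hω h1 => (h.mono_time hs).closed _ hω h1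

theorem XR_ge (h : Cons θ θ' θ₀ N) {s : ℝ} (hs : s < θ₀) :
    XR ν θ' s ≤ XR ν θ s + ν N := measure_le fun _ hω h1 => (h.iff_lt _ hω s hs).2 h1

/-- Left limits: the weight in `Z + A` is at most the weight in `Z`, up to the links. -/
theorem W_XRm_le (h : Cons θ θ' θ₀ N) {L : ℝ} (hL : 0 < L) {s : ℝ} (hs : s ≤ θ₀) :
    W L (XRm ν θ' s) ≤ W L (XRm ν θ s) + ENNReal.ofReal L * ν N :=
  W_le_add hL (h.XRm_le hs)

/-- Left limits: the weight in `Z` is at most the weight in `Z + A`, up to the links. -/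
theorem W_XRm_ge (h : Cons θ θ' θ₀ N) {L : ℝ} (hL : 0 < L) {s : ℝ} (hs : s ≤ θ₀) :
    W L (XRm ν θ s) ≤ W L (XRm ν θ' s) + ENNReal.ofReal L * ν N :=
  W_le_add hL (h.XRm_ge hs)

/-- Inclusive weights, **closed** end-point. -/
theorem W_XR_le (h : Cons θ θ' θ₀ N) {L : ℝ} (hL : 0 < L) {s : ℝ} (hs : s ≤ θ₀) :
    W L (XR ν θ' s) ≤ W L (XR ν θ s) + ENNReal.ofReal L * ν N :=
  W_le_add hL (h.XR_le hs)

/-- A weight after the touch of `A` is at most the inclusive weight of `Z` at the touch. -/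
theorem W_after_le (h : Cons θ θ' θ₀ N) {L : ℝ} (hL : 0 < L) {s : ℝ} (hs : θ₀ < s) :
    W L (XRm ν θ' s) ≤ W L (XR ν θ θ₀) + ENNReal.ofReal L * ν N :=
  (W_anti hL.le (XR_le_XRm hs)).trans (h.W_XR_le hL le_rfl)

/-- A left-limit weight at or after a time `s ≤ θ₀` is at most the left-limit weight of `Z`. -/
theorem W_later_le (h : Cons θ θ' θ₀ N) {L : ℝ} (hL : 0 < L) {s s' : ℝ} (hs : s ≤ θ₀)
    (hs' : s ≤ s') : W L (XRm ν θ' s') ≤ W L (XRm ν θ s) + ENNReal.ofReal L * ν N :=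
  (W_anti hL.le (XRm_mono hs')).trans (h.W_XRm_le hL hs)

end Cons

/-- The one-sided closed-end consistency (S2): a line outside the link set which touches `Z` not
later than `θ₀ = θ(Z, A)` touches `Z + A` not later than it touches `Z`. This is all that the
inequalities of section E use. -/
structure Cons1 (θ θ' : Ω → ℝ) (θ₀ : ℝ) (N : Set Ω) : Prop where
  le : ∀ ω, ω ∉ N → θ ω ≤ θ₀ → θ' ω ≤ θ ω

namespace Cons1

variable {θ₀ : ℝ} {N : Set Ω}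

theorem mono_time (h : Cons1 θ θ' θ₀ N) {θ₁ : ℝ} (h1 : θ₁ ≤ θ₀) : Cons1 θ θ' θ₁ N :=
  ⟨fun ω hω hle => h.le ω hω (hle.trans h1)⟩

theorem mono_set (h : Cons1 θ θ' θ₀ N) {N' : Set Ω} (hN : N ⊆ N') : Cons1 θ θ' θ₀ N' :=
  ⟨fun ω hω => h.le ω fun h' => hω (hN h')⟩

theorem refl (θ : Ω → ℝ) (θ₀ : ℝ) (N : Set Ω) : Cons1 θ θ θ₀ N := ⟨fun _ _ _ => le_rfl⟩

theorem trans {θ'' : Ω → ℝ} {N' : Set Ω} (h : Cons1 θ θ' θ₀ N) (h' : Cons1 θ' θ'' θ₀ N') :
    Cons1 θ θ'' θ₀ (N ∪ N') :=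
  ⟨fun ω hω hle => by
    have h1 := h.le ω (fun h1 => hω (Or.inl h1)) hle
    exact (h'.le ω (fun h1 => hω (Or.inr h1)) (h1.trans hle)).trans h1⟩

private theorem measure_le {A B N : Set Ω} (h : ∀ ω, ω ∉ N → ω ∈ A → ω ∈ B) :
    ν A ≤ ν B + ν N := by
  refine le_trans (measure_mono fun ω hω => ?_) (measure_union_le B N)
  by_cases hN : ω ∈ N
  · exact Or.inr hN
  · exact Or.inl (h ω hN hω)

theorem XR_le (h : Cons1 θ θ' θ₀ N) {s : ℝ} (hs : s ≤ θ₀) :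
    XR ν θ s ≤ XR ν θ' s + ν N :=
  measure_le fun ω hω h1 => (h.le ω hω (le_trans h1 hs)).trans h1

theorem XRm_le (h : Cons1 θ θ' θ₀ N) {s : ℝ} (hs : s ≤ θ₀) :
    XRm ν θ s ≤ XRm ν θ' s + ν N :=
  measure_le fun ω hω h1 => (h.le ω hω (le_trans (le_of_lt h1) hs)).trans_lt h1

/-- Inclusive weights: `W_{Z+A}(s) ≤ W_Z(s) + L * link`, `s ≤ θ(Z, A)` (equality allowed). -/
theorem W_XR_le (h : Cons1 θ θ' θ₀ N) {L : ℝ} (hL : 0 < L) {s : ℝ} (hs : s ≤ θ₀) :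
    W L (XR ν θ' s) ≤ W L (XR ν θ s) + ENNReal.ofReal L * ν N :=
  W_le_add hL (h.XR_le hs)

theorem W_XRm_le (h : Cons1 θ θ' θ₀ N) {L : ℝ} (hL : 0 < L) {s : ℝ} (hs : s ≤ θ₀) :
    W L (XRm ν θ' s) ≤ W L (XRm ν θ s) + ENNReal.ofReal L * ν N :=
  W_le_add hL (h.XRm_le hs)

/-- The inclusive weight of `Z + A` at any time after `s ≤ θ(Z, A)`. -/
theorem W_later_le (h : Cons1 θ θ' θ₀ N) {L : ℝ} (hL : 0 < L) {s s' : ℝ} (hs : s ≤ θ₀)
    (hs' : s ≤ s') : W L (XR ν θ' s') ≤ W L (XR ν θ s) + ENNReal.ofReal L * ν N :=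
  (W_anti hL.le (XR_mono hs')).trans (h.W_XR_le hL hs)

end Cons1

theorem Cons.cons1 {θ₀ : ℝ} {N : Set Ω} (h : Cons θ θ' θ₀ N) : Cons1 θ θ' θ₀ N where
  le ω hω hle := by
    rcases lt_or_eq_of_le hle with h1 | h1
    · exact (h.iff_lt ω hω (θ ω) h1).1 le_rfl
    · rw [h1]; exact h.closed ω hω hle

end real

end Crest.Agent.R122.Weight984
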