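import Mathlib
import Crest.Prelude.Def_KineticLimit
import Crest.Agent.R122.BirthsEvo_45
import Crest.Agent.R122.CausalGenInf_291
import Crest.Agent.R122.InfRule_879
import Crest.Agent.R122.CtB_879
import Crest.Agent.R122.KinB_796
import Crest.Agent.R122.Weight2_984
import Crest.Agent.R122.ClusterPre_311
import Crest.Agent.R122.EW_370

/-!
# Section E (row 122): gas-level definitions (text `E_FINAL` of `r122_doc`)

Marked worlds, infection, touch time, quenched touched measure, the weighted unknowns.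

* `MW ι`       : marked world over the index type `ι` : birth times `b`, states at time `0` (for an
  unborn particle: its free backward extension), marks `m`.
* `MW.cfg w`   : the gas configuration `w` (births `0`, marks `1`).
* `ML`         : marked lines `((τ, (y, v)), n)`; `MW.line l` the one-particle world; `Z.add A` the
  disjoint union (index `ι ⊕ κ`); `Z.ins l = Z.add (MW.line l)`; `MW.lines ls` a finite family.
* `Z.path Φ ε` : evolution with births (helper45's `evo`, from time `0`).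
* `Z.C Φ ε`    : contact relation (`CtB` of helper879).
* `Z.Inf Φ ε K s i` : infected = marked size of the backward closure `> K` (`Infd` of helper879).
* `Z.Fut Φ ε A s k` : influence of the inserted world `A` on the particles of `Z`
  (helper291's `Fut` for the pair `Z`, `Z.add A`).
* `Z.Touched Φ ε K A s`, `Z.theta Φ ε K T A : ℝ` : touch and touch time (horizon `T`; `T + 1` if not
  touched in `[0, T]`; helper291's `Touched`, `theta`).
* `lineM γ ρ K T` : the measure `1[0 < τ ≤ T] dτ dy exp (-γ τ |v|²) dv ρ^n 1[1 ≤ n ≤ K]` on `ML`.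
* `Z.X`, `Z.W` : quenched touched measure (inclusive) and the weight `exp (-L X)`; `Z.Xm`, `Z.Wm`
  their left limits.
* `Z.touchW l`, `Z.touchP d e` : weighted touch functionals (v4 of the text: the unknowns `a`, `X`
  carry left-limit weights, `P` carries `min (W_w(θ₁), W_{w+d}(θ₂-))`, ties `θ₁ = θ₂` allowed).
* `JE`, `aE`, `xE`, `XE`, `XI`, `PE`, `tnMass`, `TN`, `Small`, `Null` : the unknowns of section E.
-/

set_option autoImplicit false

open MeasureTheory Set Filter Topology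
open scoped ENNReal
open Crest.AnalysisR.Kinetic
open Crest.Agent.R122.Flow671 Crest.Agent.R122.Ins45 Crest.Agent.R122.Causal291
open Crest.Agent.R122.Inf879 Crest.Agent.R122.GC311 Crest.Agent.R122.Master566

namespace Crest.Agent.R122.EDefs602

noncomputable section

open scoped Classical

/-! ## Marked worlds -/

/-- A marked world: birth times, states at time `0` (free backward extension before birth),
marks. -/
structure MW (ι : Type) where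
  /-- birth times -/
  b : ι → ℝ
  /-- states at time `0` -/
  z : ι → PhasePoint
  /-- marks -/
  m : ι → ℕ

/-- Marked lines `((τ, (y, v)), n)`: created at time `τ` at `y` with velocity `v`, mark `n`. -/
abbrev ML : Type := (ℝ × PhasePoint) × ℕ

/-- Free backward extension to time `0` of a line `(τ, (y, v))`. -/
def back (l : ℝ × PhasePoint) : PhasePoint := (l.2.1 - l.1 • l.2.2, l.2.2)

namespace MW

variable {ι κ : Type}

/-- The gas configuration as a marked world (births `0`, marks `1`). -/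
def cfg {n : ℕ} (w : Config n) : MW (Fin n) := ⟨fun _ => 0, w, fun _ => 1⟩

/-- A finite family of marked lines as a world. -/
def lines (ls : κ → ML) : MW κ := ⟨fun k => (ls k).1.1, fun k => back (ls k).1, fun k => (ls k).2⟩

/-- The one-particle world of a marked line. -/
def line (l : ML) : MW Unit := lines fun _ => l

/-- Disjoint union of two worlds. -/
def add (Z : MW ι) (A : MW κ) : MW (ι ⊕ κ) :=
  ⟨Sum.elim Z.b A.b, Sum.elim Z.z A.z, Sum.elim Z.m A.m⟩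

/-- Insertion of a marked line. -/
def ins (Z : MW ι) (l : ML) : MW (ι ⊕ Unit) := Z.add (line l)

/-- Relabelling, sub-worlds. -/
def comap (Z : MW ι) (e : κ → ι) : MW κ :=
  ⟨fun k => Z.b (e k), fun k => Z.z (e k), fun k => Z.m (e k)⟩

variable [Fintype ι] [Fintype κ]

/-- Paths of a world (evolution with births from time `0`). -/
def path (Φ : Space3 → ℝ) (ε : ℝ) (Z : MW ι) (t : ℝ) : ι → PhasePoint := evo Φ ε Z.b 0 t Z.z

/-- Contact relation of a world. -/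
def C (Φ : Space3 → ℝ) (ε : ℝ) (Z : MW ι) : ℝ → ι → ι → Prop := CtB Z.b (Z.path Φ ε) ε

/-- Infection at time `t`: marked size of the backward closure `> K`. -/
def Inf (Φ : Space3 → ℝ) (ε : ℝ) (K : ℕ) (Z : MW ι) : ℝ → ι → Prop := Infd (Z.C Φ ε) Z.m K

/-- Influence of the inserted world `A` on the particles of `Z`. -/
def Fut (Φ : Space3 → ℝ) (ε : ℝ) (Z : MW ι) (A : MW κ) : ℝ → ι → Prop :=
  CausalGen291.Fut (Z.C Φ ε) (Z.path Φ ε) ((Z.add A).C Φ ε) ((Z.add A).path Φ ε) id Sum.inl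

/-- `A` has touched `Z` at time `s`: an influenced particle is infected in `Z` or in `Z.add A`, or a
particle of `A` is infected. -/
def Touched (Φ : Space3 → ℝ) (ε : ℝ) (K : ℕ) (Z : MW ι) (A : MW κ) : ℝ → Prop :=
  CausalGen291.Touched (Z.C Φ ε) (Z.path Φ ε) ((Z.add A).C Φ ε) ((Z.add A).path Φ ε) id Sum.inl
    (Z.Inf Φ ε K) ((Z.add A).Inf Φ ε K)

/-- Touch time with horizon `T` (`T + 1` if `A` does not touch `Z` in `[0, T]`). -/
def theta (Φ : Space3 → ℝ) (ε : ℝ) (K : ℕ) (T : ℝ) (Z : MW ι) (A : MW κ) : ℝ :=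
  CausalGen291.theta (Z.C Φ ε) (Z.path Φ ε) ((Z.add A).C Φ ε) ((Z.add A).path Φ ε) id Sum.inl 0 T
    (Z.Inf Φ ε K) ((Z.add A).Inf Φ ε K)

/-- Touch time of a marked line. -/
def thetaL (Φ : Space3 → ℝ) (ε : ℝ) (K : ℕ) (T : ℝ) (Z : MW ι) (l : ML) : ℝ :=
  theta Φ ε K T Z (line l)

end MW

/-! ## The measure on lines -/

/-- Weight of a mark (`ρ ^ n` for `1 ≤ n ≤ K`). -/
def markW (ρ : ℝ≥0∞) (K n : ℕ) : ℝ≥0∞ := if 1 ≤ n ∧ n ≤ K then ρ ^ n else 0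

/-- Density of the measure on lines: `exp (-γ τ |v|²) ρ^n 1[1 ≤ n ≤ K]`. -/
def lineD (γ : ℝ → ℝ) (ρ : ℝ≥0∞) (K : ℕ) (l : ML) : ℝ≥0∞ :=
  Kin796.wG (γ l.1.1) l.1.2.2 * markW ρ K l.2

/-- Lebesgue measure on lines born in `(0, T]`, all marks. -/
def lineV (T : ℝ) : Measure ML :=
  ((volume.restrict (Ioc (0 : ℝ) T)).prod (volume : Measure PhasePoint)).prod Measure.count

/-- The measure `1[0 < τ ≤ T] dτ dy exp (-γ τ |v|²) dv ρ^n 1[1 ≤ n ≤ K]` on marked lines. -/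
def lineM (γ : ℝ → ℝ) (ρ : ℝ≥0∞) (K : ℕ) (T : ℝ) : Measure ML :=
  (lineV T).withDensity (lineD γ ρ K)

/-- Parameters of the window step. -/
structure EPar where
  /-- Gaussian rate, decreasing in the birth time -/
  γ : ℝ → ℝ
  /-- geometric factor of the marks -/
  ρ : ℝ≥0∞
  /-- strength of the weight -/
  L : ℝ
  /-- start of the window (`t*`) -/
  tw : ℝ
  /-- end of the window (`t'`) -/
  te : ℝ

namespace MW

variable {ι κ : Type} [Fintype ι] [Fintype κ]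

/-- Quenched touched measure `X_Z(s)` (inclusive). -/
def X (Φ : Space3 → ℝ) (ε : ℝ) (K : ℕ) (P : EPar) (Z : MW ι) (s : ℝ) : ℝ≥0∞ :=
  Weight984.XR (lineM P.γ P.ρ K P.te) (Z.thetaL Φ ε K P.te) s

/-- Quenched touched measure before `s` (`X_Z(s-)`). -/
def Xm (Φ : Space3 → ℝ) (ε : ℝ) (K : ℕ) (P : EPar) (Z : MW ι) (s : ℝ) : ℝ≥0∞ :=
  Weight984.XRm (lineM P.γ P.ρ K P.te) (Z.thetaL Φ ε K P.te) s

/-- Weight `W_Z(s) = exp (-L X_Z(s))` (inclusive). -/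
def W (Φ : Space3 → ℝ) (ε : ℝ) (K : ℕ) (P : EPar) (Z : MW ι) (s : ℝ) : ℝ≥0∞ :=
  Weight984.W P.L (Z.X Φ ε K P s)

/-- Weight `W_Z(s-) = exp (-L X_Z(s-))`. -/
def Wm (Φ : Space3 → ℝ) (ε : ℝ) (K : ℕ) (P : EPar) (Z : MW ι) (s : ℝ) : ℝ≥0∞ :=
  Weight984.W P.L (Z.Xm Φ ε K P s)

/-- Weighted touch functional of a line in the window, LEFT-LIMIT weight:
`1[t* < θ(Z,l) ≤ t'] W_Z(θ(Z,l)-)`. -/
def touchW (Φ : Space3 → ℝ) (ε : ℝ) (K : ℕ) (P : EPar) (Z : MW ι) (l : ML) : ℝ≥0∞ :=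
  if P.tw < Z.thetaL Φ ε K P.te l ∧ Z.thetaL Φ ε K P.te l ≤ P.te then
    Z.Wm Φ ε K P (Z.thetaL Φ ε K P.te l) else 0

/-- Weighted touch functional of a pair of lines in the window (ties allowed):
`1[t* < θ₁ ≤ θ₂ ≤ t'] min (W_Z(θ₁), W_{Z+d}(θ₂-))`, `θ₁ = θ(Z,d)`, `θ₂ = θ(Z+d,e)`; the first weight
is inclusive, the second one a left limit. -/
def touchP (Φ : Space3 → ℝ) (ε : ℝ) (K : ℕ) (P : EPar) (Z : MW ι) (d e : ML) : ℝ≥0∞ :=
  if P.tw < Z.thetaL Φ ε K P.te d ∧ Z.thetaL Φ ε K P.te d ≤ (Z.ins d).thetaL Φ ε K P.te e ∧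
      (Z.ins d).thetaL Φ ε K P.te e ≤ P.te then
    min (Z.W Φ ε K P (Z.thetaL Φ ε K P.te d))
      ((Z.ins d).Wm Φ ε K P ((Z.ins d).thetaL Φ ε K P.te e)) else 0

end MW

/-! ## The unknowns of section E -/

/-- Infection time of a gas particle (`T + 1` if it is not infected in `[0, T]`). -/
def iTime (Φ : Space3 → ℝ) (ε : ℝ) (K : ℕ) (T : ℝ) {n : ℕ} (w : Config n) (q : Fin n) : ℝ :=
  sig (gasSize Φ ε) K (T + 1) n w q

/-- Backward cluster of the gas particle `q` strictly before time `σ`. -/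
def preC (Φ : Space3 → ℝ) (ε : ℝ) {n : ℕ} (w : Config n) (σ : ℝ) (q : Fin n) : Finset (Fin n) :=
  Finset.univ.filter fun k => k = q ∨ ∃ s, 0 ≤ s ∧ s < σ ∧ gasR Φ ε n w s q k

/-- Energy weight of a set of gas particles: `∑_{b ∈ D} (1 + |v_b(0)|²)`. -/
def eW {n : ℕ} (w : Config n) (D : Finset (Fin n)) : ℝ≥0∞ :=
  ∑ b ∈ D, ENNReal.ofReal (1 + ‖(w b).2‖ ^ 2)

/-- Energy of the infected family at time `t` (helper410):
`J_K(t) = ε² E (eng (I_K (w,t)) + (B + 3/2) |I_K (w,t)|)`. -/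
def JE (Φ : Space3 → ℝ) (f₀ : PhasePoint → ℝ) (ε : ℝ) (K : ℕ) (t : ℝ) : ℝ≥0∞ :=
  gcE f₀ ε fun n w => (activity ε)⁻¹ * ENNReal.ofReal
    (Energy410.eng Φ ε (EW370.bad Φ ε K (w : Config n) t) (flow Φ ε t w) +
      (Loc45.stabB Φ + 3 / 2) * (EW370.bad Φ ε K (w : Config n) t).card)

/-- Weighted number of the gas particles infected in the window:
`a = ε² E ∑_{q joins I in (t*, t']} Wt (BC (q, θ_q-)) W_w (θ_q-)`. -/
def aE (Φ : Space3 → ℝ) (f₀ : PhasePoint → ℝ) (ε : ℝ) (K : ℕ) (P : EPar) : ℝ≥0∞ :=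
  gcE f₀ ε fun n w => (activity ε)⁻¹ * ∑ q : Fin n,
    if P.tw < iTime Φ ε K P.te w q ∧ iTime Φ ε K P.te w q ≤ P.te then
      eW w (preC Φ ε w (iTime Φ ε K P.te w q) q) *
        (MW.cfg w).Wm Φ ε K P (iTime Φ ε K P.te w q)
    else 0

/-- Mass of touched lines born at time `τ` with velocity `v`, all marks:
`E ∫ dy ∑_n ρ^n 1[t* < θ ≤ t'] W_w(θ-)`. -/
def xE (Φ : Space3 → ℝ) (f₀ : PhasePoint → ℝ) (ε : ℝ) (K : ℕ) (P : EPar) (τ : ℝ) (v : Space3) :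
    ℝ≥0∞ :=
  gcE f₀ ε fun _ w => ∫⁻ y : Space3, ∑' n : ℕ, markW P.ρ K n *
    (MW.cfg w).touchW Φ ε K P ((τ, (y, v)), n)

/-- `X(τ) = E ∫ dy g_τ(v) dv ∑_n ρ^n 1[t* < θ ≤ t'] W_w(θ-)`. -/
def XE (Φ : Space3 → ℝ) (f₀ : PhasePoint → ℝ) (ε : ℝ) (K : ℕ) (P : EPar) (τ : ℝ) : ℝ≥0∞ :=
  ∫⁻ v : Space3, Kin796.wG (P.γ τ) v * xE Φ f₀ ε K P τ v

/-- `∫_J X(τ) dτ`. -/
def XJ (Φ : Space3 → ℝ) (f₀ : PhasePoint → ℝ) (ε : ℝ) (K : ℕ) (P : EPar) (J : Set ℝ) : ℝ≥0∞ :=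
  ∫⁻ τ in J, XE Φ f₀ ε K P τ

/-- `X = ∫_{(0, t']} X(τ) dτ`. -/
def XI (Φ : Space3 → ℝ) (f₀ : PhasePoint → ℝ) (ε : ℝ) (K : ℕ) (P : EPar) : ℝ≥0∞ :=
  XJ Φ f₀ ε K P (Ioc 0 P.te)

/-- Pairs: `P(ν) = E ∫ ν(dd de) 1[t* < θ₁ ≤ θ₂ ≤ t'] min (W_w(θ₁), W_{w+d}(θ₂-))`,
`θ₁ = θ(w,d)`, `θ₂ = θ(w+d,e)`. -/
def PE (Φ : Space3 → ℝ) (f₀ : PhasePoint → ℝ) (ε : ℝ) (K : ℕ) (P : EPar)
    (ν : Measure (ML × ML)) : ℝ≥0∞ :=
  gcE f₀ ε fun _ w => ∫⁻ p, (MW.cfg w).touchP Φ ε K P p.1 p.2 ∂ν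

/-- Mass of the lines born and touching before `t` (no weight). -/
def tnMass (Φ : Space3 → ℝ) (f₀ : PhasePoint → ℝ) (γ : ℝ → ℝ) (ρ : ℝ≥0∞) (ε : ℝ) (K : ℕ)
    (t : ℝ) : ℝ≥0∞ :=
  gcE f₀ ε fun _ w => lineM γ ρ K t {l | (MW.cfg w).thetaL Φ ε K t l ≤ t}

/-! ## Small and null quantities -/

/-- `Small q` : `q K ε` is small for `K` large and then `ε` small (`lim_K limsup_ε q = 0`). -/
def Small (q : ℕ → ℝ → ℝ≥0∞) : Prop :=
  ∀ δ : ℝ, 0 < δ → ∃ K₀ : ℕ, ∀ K, K₀ ≤ K → ∃ ε₀ : ℝ, 0 < ε₀ ∧ ∀ ε : ℝ, 0 < ε → ε < ε₀ →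
    q K ε ≤ ENNReal.ofReal δ

/-- `Null q` : for every fixed `K`, `q K ε → 0` as `ε → 0`. -/
def Null (q : ℕ → ℝ → ℝ≥0∞) : Prop :=
  ∀ K : ℕ, ∀ δ : ℝ, 0 < δ → ∃ ε₀ : ℝ, 0 < ε₀ ∧ ∀ ε : ℝ, 0 < ε → ε < ε₀ →
    q K ε ≤ ENNReal.ofReal δ

/-- Touch-negligibility at time `t`. -/
def TN (Φ : Space3 → ℝ) (f₀ : PhasePoint → ℝ) (γ : ℝ → ℝ) (ρ : ℝ≥0∞) (t : ℝ) : Prop :=
  Small fun K ε => tnMass Φ f₀ γ ρ ε K t

/-- Energy-weighted no escape at time `t` (the `(H1)` of the text). -/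
def JS (Φ : Space3 → ℝ) (f₀ : PhasePoint → ℝ) (t : ℝ) : Prop :=
  Small fun K ε => JE Φ f₀ ε K t

end

end Crest.Agent.R122.EDefs602
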