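import Crest.Agent.R122.InEq2U_263
import Crest.Agent.R122.UnwJ_410

/-!
# Row 122, INEQUALITY 2' (E5), the untouched half in the names of `EDefs_602` (helper263)

* `fam_bad` : the infected family `bad Φ ε K w` with the weight `Wm` is a `Fam` (energy bound of
  helper410) with `E0 = Jeng (I (t*))` and `e q = c_B · eW (preC (σ_q))`.
* `ineq2_untouched` : **E5, untouched half**: any quenched tree density with small excess over `C G`
  hits the infected set in the window with weighted mass `≤ C K_G (ε + h) (JE t* + c_B aE) + δ`.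
-/

set_option autoImplicit false

open MeasureTheory Set Crest.AnalysisR.Kinetic
open scoped Classical ENNReal

noncomputable section

namespace Crest.Agent.R122.InEq2U263

open Crest.Agent.R122.FluxI263 Crest.Agent.R122.GC311 Crest.Agent.R122.EDefs602
open Crest.Agent.R122.Energy410 Crest.Agent.R122.EW370 Crest.Agent.R122.Unw410
open Crest.Agent.R122.Loc45

variable {Φ : Space3 → ℝ} {f₀ : PhasePoint → ℝ} {ε : ℝ} {K : ℕ}

/-- weight `e q` of the energy bound -/
def eQ (Φ : Space3 → ℝ) (ε : ℝ) (K : ℕ) (P : EPar) {n : ℕ} (w : Config n) (q : Fin n) : ℝ≥0∞ :=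
  ENNReal.ofReal (cB Φ) * eW w (preC Φ ε w (iTime Φ ε K P.te w q) q)

/-- energy of the infected family at the start of the window -/
def E0Q (Φ : Space3 → ℝ) (ε : ℝ) (K : ℕ) (P : EPar) {n : ℕ} (w : Config n) : ℝ≥0∞ :=
  ENNReal.ofReal (Jeng Φ ε (bad Φ ε K w P.tw) (Flow671.flow Φ ε P.tw w))

theorem one_le_eW {n : ℕ} (w : Config n) {D : Finset (Fin n)} {q : Fin n} (hq : q ∈ D) :
    1 ≤ eW w D := by
  unfold eW
  refine le_trans ?_ (Finset.single_le_sum (f := fun b => ENNReal.ofReal (1 + ‖(w b).2‖ ^ 2))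
    (fun _ _ => zero_le) hq)
  rw [← ENNReal.ofReal_one]
  exact ENNReal.ofReal_le_ofReal (by nlinarith [sq_nonneg ‖(w q).2‖])

theorem one_le_eQ (P : EPar) {n : ℕ} (w : Config n) (q : Fin n) : 1 ≤ eQ Φ ε K P w q := by
  have h1 : (1 : ℝ≥0∞) ≤ ENNReal.ofReal (cB Φ) := by
    rw [← ENNReal.ofReal_one]
    refine ENNReal.ofReal_le_ofReal ?_
    have := stabB_nonneg Φ
    unfold cB
    linarith
  calc (1 : ℝ≥0∞) = 1 * 1 := (one_mul 1).symm
    _ ≤ _ := mul_le_mul' h1 (one_le_eW w (self_mem_preC w _ q))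

theorem speed_le {n : ℕ} (hΦ : AdmissiblePotential Φ) (hε : 0 < ε) {w : Config n}
    (hw : w ∈ PairExcluded ε n) {t : ℝ} (ht : 0 ≤ t) (A : Finset (Fin n)) :
    ∑ i ∈ A, (1 + ENNReal.ofReal ‖(Flow671.flow Φ ε t w i).2‖) ≤
      ENNReal.ofReal (Jeng Φ ε A (Flow671.flow Φ ε t w)) := by
  refine le_trans (le_of_eq ?_) (ENNReal.ofReal_le_ofReal
    (speed_le_Jeng hΦ hε (far_of_mem hw) ht A))
  rw [ENNReal.ofReal_sum_of_nonneg fun i _ => by positivity]
  refine Finset.sum_congr rfl fun i _ => ?_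
  rw [ENNReal.ofReal_add zero_le_one (norm_nonneg _), ENNReal.ofReal_one]

theorem antitone_Wm {ι : Type} [Fintype ι] {P : EPar} (hL : 0 ≤ P.L) (Z : MW ι) :
    Antitone (Z.Wm Φ ε K P) := fun _ _ h =>
  Weight984.W_anti hL (Weight984.XRm_mono h)

/-- **The infected family of a gas world is a `Fam`.** -/
theorem fam_bad (hΦ : AdmissiblePotential Φ) (hε : 0 < ε) {n : ℕ} {w : Config n}
    (hw : w ∈ PairExcluded ε n) {P : EPar} (hL : 0 ≤ P.L) (htw : 0 ≤ P.tw) :
    Fam (fun i s => (Flow671.flow Φ ε s w i).2) P.tw P.te (bad Φ ε K w)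
      ((MW.cfg w).Wm Φ ε K P) (E0Q Φ ε K P w) (eQ Φ ε K P w) where
  mono s _ s' _ h := bad_mono w s s' h
  anti := (antitone_Wm hL _).antitoneOn _
  meas := (antitone_Wm hL _).measurable
  le_one s := Weight984.W_le_one hL _
  energy u hu := by
    refine (speed_le hΦ hε hw (htw.trans hu.1) _).trans ?_
    refine (ofReal_Jeng_bad_le (K := K) hΦ hε hw htw hu.1 hu.2).trans (le_of_eq ?_)
    unfold E0Q eQ
    rw [Finset.mul_sum]
  one_le q := one_le_eQ P w q
  card_le := by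
    refine le_trans ?_ (speed_le hΦ hε hw htw (bad Φ ε K w P.tw))
    calc ((bad Φ ε K w P.tw).card : ℝ≥0∞) = ∑ _i ∈ bad Φ ε K w P.tw, (1 : ℝ≥0∞) := by simp
      _ ≤ _ := Finset.sum_le_sum fun i _ => le_self_add

/-- The entry time into the infected family is the infection time. -/
theorem entry_bad (hΦ : AdmissiblePotential Φ) (hε : 0 < ε) {n : ℕ} (w : Config n) {P : EPar}
    (htw : 0 ≤ P.tw) (hte : P.tw ≤ P.te) {q : Fin n}
    (hq : q ∈ bad Φ ε K w P.te \ bad Φ ε K w P.tw) :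
    entry P.tw P.te (bad Φ ε K w) q = iTime Φ ε K P.te w q := by
  have h := mem_window (K := K) hΦ hε w htw hte le_rfl hq
  have hset : {s | s ∈ Icc P.tw P.te ∧ q ∈ bad Φ ε K w s} =
      Icc (iTime Φ ε K P.te w q) P.te := by
    ext s
    constructor
    · rintro ⟨hs, hqs⟩
      exact ⟨(mem_bad_iff (T := P.te) hΦ hε w (htw.trans hs.1)
        (hs.2.trans_lt (by linarith)) q).1 hqs, hs.2⟩
    · rintro ⟨h1, h2⟩
      have hs : P.tw ≤ s := h.1.le.trans h1
      exact ⟨⟨hs, h2⟩, (mem_bad_iff (T := P.te) hΦ hε w (htw.trans hs)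
        (h2.trans_lt (by linarith)) q).2 h1⟩
  unfold entry
  rw [hset, csInf_Icc h.2]

/-- The infection sum of `Fam` is `c_B` times the integrand of `aE`. -/
theorem sum_entry_le (hΦ : AdmissiblePotential Φ) (hε : 0 < ε) {n : ℕ} (w : Config n) {P : EPar}
    (htw : 0 ≤ P.tw) (hte : P.tw ≤ P.te) :
    ∑ p ∈ bad Φ ε K w P.te \ bad Φ ε K w P.tw,
        (MW.cfg w).Wm Φ ε K P (entry P.tw P.te (bad Φ ε K w) p) * eQ Φ ε K P w p ≤
      ENNReal.ofReal (cB Φ) * ∑ q : Fin n,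
        if P.tw < iTime Φ ε K P.te w q ∧ iTime Φ ε K P.te w q ≤ P.te then
          eW w (preC Φ ε w (iTime Φ ε K P.te w q) q) *
            (MW.cfg w).Wm Φ ε K P (iTime Φ ε K P.te w q)
        else 0 := by
  rw [Finset.mul_sum]
  refine (Finset.sum_le_sum fun p hp => ?_).trans
    (Finset.sum_le_sum_of_subset (Finset.subset_univ _))
  have h := mem_window (K := K) hΦ hε w htw hte le_rfl hp
  rw [entry_bad hΦ hε w htw hte hp, if_pos h]
  unfold eQ
  exact le_of_eq (by ring)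

theorem measurable_E0Q (hΦ : AdmissiblePotential Φ) (hε : 0 < ε) (P : EPar) (n : ℕ) :
    Measurable fun w : Config n => E0Q Φ ε K P w :=
  (measurable_Jeng_bad hΦ hε n P.tw).ennreal_ofReal

/-- **E5, untouched half, in the names of `EDefs_602`.** -/
theorem ineq2_untouched (hΦ : AdmissiblePotential Φ) (hε : 0 < ε) (hf : Measurable f₀) {P : EPar}
    (hL : 0 ≤ P.L) (htw : 0 ≤ P.tw) (hte : P.tw ≤ P.te)
    {G : Space3 → ℝ≥0∞} (hG : Measurable G) (hG0 : ∀ v, G v ≠ 0) (hGt : ∀ v, G v ≠ ∞)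
    {α : Type*} [Countable α] {X : α → Type*} [∀ j, MeasureSpace (X j)]
    [∀ j, SFinite (volume : Measure (X j))]
    {A : (j : α) → (n : ℕ) → Config n → PhasePoint × X j → ℝ≥0∞}
    (hA : ∀ j n, Measurable fun q : Config n × (PhasePoint × X j) => A j n q.1 q.2)
    {C δ : ℝ≥0∞} (hC : C ≠ ∞) (hK : fluxK G ≠ ∞)
    (hQ : gcE f₀ ε (fun n w => ∫⁻ z, ((∑' j, ∫⁻ p : X j, A j n w (z, p)) - C * G z.2)) ≤ δ) :
    gcE f₀ ε (fun n w => ∑' j, ∫⁻ q : PhasePoint × X j, A j n w q *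
        hitC (fun i s => (Flow671.flow Φ ε s w i).1) ε (bad Φ ε K w)
          ((MW.cfg w).Wm Φ ε K P) P.tw P.te q.1) ≤
      C * fluxK G * ENNReal.ofReal (ε + (P.te - P.tw)) *
        (JE Φ f₀ ε K P.tw + ENNReal.ofReal (cB Φ) * aE Φ f₀ ε K P) + δ := by
  refine (unentangled_norm (S := fun n w => bad Φ ε K w)
    (ω := fun n w => (MW.cfg w).Wm Φ ε K P) (E0 := fun n w => E0Q Φ ε K P w)
    (e := fun n w => eQ Φ ε K P w) hΦ hε hf hte
    (fun n w hw => fam_bad hΦ hε hw hL htw) (fun n => measurable_E0Q hΦ hε P n)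
    hG hG0 hGt hA hC hK hQ).trans (add_le_add (mul_le_mul_right (add_le_add le_rfl ?_) _) le_rfl)
  unfold aE
  rw [← gcE_const_mul f₀ ε ENNReal.ofReal_ne_top]
  refine gcE_mono f₀ ε fun n w _ => ?_
  refine (mul_le_mul_right (sum_entry_le hΦ hε w htw hte) _).trans (le_of_eq ?_)
  ring

end Crest.Agent.R122.InEq2U263

end
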