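import Crest.Prelude.Def_KineticLimit

/-!
# Appending configurations is measure preserving (helper167)

`Fin.append : (Fin s → α) × (Fin m → α) → (Fin (s + m) → α)` is a measure-preserving measurable
equivalence for the product volumes; Tonelli in the form
`∫⁻ Z : Fin (s+m) → α, F Z = ∫⁻ V, ∫⁻ W, F (Fin.append V W)`.
-/

set_option autoImplicit false

open MeasureTheory

noncomputable section

namespace Crest.Agent.R122.FM167

variable {α : Type*}

/-- `Fin.append` as a measurable equivalence. -/
def appendEquiv (α : Type*) [MeasurableSpace α] (s m : ℕ) :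
    ((Fin s → α) × (Fin m → α)) ≃ᵐ (Fin (s + m) → α) :=
  (MeasurableEquiv.sumPiEquivProdPi (fun _ : Fin s ⊕ Fin m => α)).symm.trans
    (MeasurableEquiv.piCongrLeft (fun _ : Fin (s + m) => α) finSumFinEquiv)

theorem appendEquiv_apply [MeasurableSpace α] (s m : ℕ) (p : (Fin s → α) × (Fin m → α)) :
    appendEquiv α s m p = Fin.append p.1 p.2 := by
  funext i
  obtain ⟨j, rfl⟩ := finSumFinEquiv.surjective i
  have h : appendEquiv α s m p (finSumFinEquiv j) =
      (MeasurableEquiv.sumPiEquivProdPi (fun _ : Fin s ⊕ Fin m => α)).symm p j := by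
    simp only [appendEquiv, MeasurableEquiv.trans_apply, MeasurableEquiv.coe_piCongrLeft]
    exact Equiv.piCongrLeft_apply_apply (fun _ : Fin (s + m) => α) finSumFinEquiv _ j
  rw [h]
  cases j with
  | inl j => simp [MeasurableEquiv.coe_sumPiEquivProdPi_symm, Fin.append_left]
  | inr j => simp [MeasurableEquiv.coe_sumPiEquivProdPi_symm, Fin.append_right]

theorem measurable_append [MeasurableSpace α] (s m : ℕ) :
    Measurable (fun p : (Fin s → α) × (Fin m → α) => Fin.append p.1 p.2) := by
  have h : (fun p : (Fin s → α) × (Fin m → α) => Fin.append p.1 p.2) = appendEquiv α s m := by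
    funext p; exact (appendEquiv_apply s m p).symm
  rw [h]; exact (appendEquiv α s m).measurable

theorem measurePreserving_append [MeasureSpace α] [SigmaFinite (volume : Measure α)] (s m : ℕ) :
    MeasurePreserving (fun p : (Fin s → α) × (Fin m → α) => Fin.append p.1 p.2) volume volume := by
  have h : (fun p : (Fin s → α) × (Fin m → α) => Fin.append p.1 p.2) = appendEquiv α s m := by
    funext p; exact (appendEquiv_apply s m p).symm
  rw [h]
  exact (volume_measurePreserving_piCongrLeft (fun _ : Fin (s + m) => α) finSumFinEquiv).comp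
    (volume_measurePreserving_sumPiEquivProdPi_symm (fun _ : Fin s ⊕ Fin m => α))

/-- Change of variables for `Fin.append`; no measurability of the integrand is needed. -/
theorem lintegral_eq_append_prod [MeasureSpace α] [SigmaFinite (volume : Measure α)] (s m : ℕ)
    (F : (Fin (s + m) → α) → ENNReal) :
    ∫⁻ Z, F Z = ∫⁻ p : (Fin s → α) × (Fin m → α), F (Fin.append p.1 p.2) := by
  have hmp : MeasurePreserving (appendEquiv α s m) volume volume := by
    have := measurePreserving_append (α := α) s m
    have h : (fun p : (Fin s → α) × (Fin m → α) => Fin.append p.1 p.2) = appendEquiv α s m := by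
      funext p; exact (appendEquiv_apply s m p).symm
    rwa [h] at this
  rw [← hmp.lintegral_comp_emb (appendEquiv α s m).measurableEmbedding F]
  simp_rw [appendEquiv_apply]

/-- Tonelli for `Fin.append`. -/
theorem lintegral_append [MeasureSpace α] [SigmaFinite (volume : Measure α)] (s m : ℕ)
    (F : (Fin (s + m) → α) → ENNReal) (hF : Measurable F) :
    ∫⁻ Z, F Z = ∫⁻ V : Fin s → α, ∫⁻ W : Fin m → α, F (Fin.append V W) := by
  rw [lintegral_eq_append_prod]
  have : (volume : Measure ((Fin s → α) × (Fin m → α))) = volume.prod volume := rfl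
  rw [this, lintegral_prod]
  exact (hF.comp (measurable_append s m)).aemeasurable

/-- Tonelli for `Fin.append` with the opposite order of integration. -/
theorem lintegral_append_symm [MeasureSpace α] [SigmaFinite (volume : Measure α)] (s m : ℕ)
    (F : (Fin (s + m) → α) → ENNReal) (hF : Measurable F) :
    ∫⁻ Z, F Z = ∫⁻ W : Fin m → α, ∫⁻ V : Fin s → α, F (Fin.append V W) := by
  rw [lintegral_eq_append_prod]
  have : (volume : Measure ((Fin s → α) × (Fin m → α))) = volume.prod volume := rfl
  rw [this, lintegral_prod_symm]
  exact (hF.comp (measurable_append s m)).aemeasurable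

/-- Integral over `Fin 1 → α`. -/
theorem lintegral_fin_one [MeasureSpace α] [SigmaFinite (volume : Measure α)]
    (F : (Fin 1 → α) → ENNReal) :
    ∫⁻ Z, F Z = ∫⁻ z : α, F (fun _ => z) := by
  have hmp := volume_preserving_funUnique (Fin 1) α
  have := hmp.symm.lintegral_comp_emb (MeasurableEquiv.funUnique (Fin 1) α).symm.measurableEmbedding F
  have h2 : (∫⁻ Z, F Z) = ∫⁻ a : α, F ((MeasurableEquiv.funUnique (Fin 1) α).symm a) := by
    rw [this]
    congr!
  rw [h2]
  rfl

/-- Product integrands integrate to a power. -/
theorem lintegral_prod_pow [MeasureSpace α] [SigmaFinite (volume : Measure α)] (n : ℕ)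
    (g : α → ENNReal) (hg : Measurable g) :
    ∫⁻ Z : Fin n → α, ∏ i, g (Z i) = (∫⁻ z, g z) ^ n := by
  induction n with
  | zero =>
    simp only [Finset.univ_eq_empty, Finset.prod_empty, pow_zero, lintegral_const, one_mul]
    have : (volume : Measure (Fin 0 → α)) = Measure.dirac (fun i => i.elim0) := by
      rw [volume_pi]
      convert Measure.pi_of_empty (fun _ : Fin 0 => (volume : Measure α)) (fun i => i.elim0)
    rw [this]; simp
  | succ n ih =>
    have hm : Measurable (fun Z : Fin (n + 1) → α => ∏ i, g (Z i)) := by
      apply Finset.measurable_fun_prod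
      intro i _
      exact hg.comp (measurable_pi_apply i)
    rw [lintegral_append n 1 _ hm]
    have : ∀ V : Fin n → α, ∫⁻ W : Fin 1 → α, ∏ i, g (Fin.append V W i) =
        (∏ i, g (V i)) * ∫⁻ z, g z := by
      intro V
      rw [lintegral_fin_one]
      rw [← lintegral_const_mul _ hg]
      congr 1
      funext z
      rw [Fin.prod_univ_add]
      simp
    simp_rw [this]
    rw [lintegral_mul_const, ih, pow_succ]
    apply Finset.measurable_fun_prod
    intro i _
    exact hg.comp (measurable_pi_apply i)

end Crest.Agent.R122.FM167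

end
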