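import Crest.Prelude.Def_KineticLimit
import Crest.Agent.R122.FMAppend_167

/-!
# Total mass of the factorial marginal (helper167, G3 of F3)

* `gcInt f₀ ε n = ∫⁻ Z, gcWeight f₀ ε n Z`, `gcInt (n+1) ≤ gcInt n`,
  `gcInt n ≤ gcInt (n+1) + n κ gcInt n`;
* `1 ≤ gcPartition < ∞`;
* `factorialMarginal … s t univ` is independent of `Ψ`, `t`, is `≤ 1`, and is
  `≥ 1 - C (ε + ε^3)`.
-/

set_option autoImplicit false

open MeasureTheory
open Crest.AnalysisR.Kinetic

noncomputable section

namespace Crest.Agent.R122.FM167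

/-! ### Measurability -/

theorem measurableSet_pairExcluded (ε : ℝ) (n : ℕ) : MeasurableSet (PairExcluded ε n) := by
  have : PairExcluded ε n = ⋂ i : Fin n, ⋂ j : Fin n, ⋂ _ : i ≠ j,
      {Z : Config n | ε < dist (Z i).1 (Z j).1} := by
    ext Z; simp [PairExcluded]
  rw [this]
  refine MeasurableSet.iInter fun i => MeasurableSet.iInter fun j => MeasurableSet.iInter fun _ => ?_
  exact measurableSet_lt measurable_const
    ((measurable_fst.comp (measurable_pi_apply i)).dist (measurable_fst.comp (measurable_pi_apply j)))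

theorem measurable_prod_ofReal {f₀ : PhasePoint → ℝ} (hf : Measurable f₀) (n : ℕ) :
    Measurable (fun Z : Config n => ∏ i, ENNReal.ofReal (f₀ (Z i))) := by
  apply Finset.measurable_fun_prod
  intro i _
  exact (hf.comp (measurable_pi_apply i)).ennreal_ofReal

theorem measurable_gcWeight {f₀ : PhasePoint → ℝ} (hf : Measurable f₀) (ε : ℝ) (n : ℕ) :
    Measurable (gcWeight f₀ ε n) :=
  (measurable_prod_ofReal hf n).indicator (measurableSet_pairExcluded ε n)

theorem gcWeight_le_prod (f₀ : PhasePoint → ℝ) (ε : ℝ) (n : ℕ) (Z : Config n) :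
    gcWeight f₀ ε n Z ≤ ∏ i, ENNReal.ofReal (f₀ (Z i)) :=
  Set.indicator_le_self _ _ _

/-! ### The integrals `gcInt` -/

/-- `∫ gcWeight` over `n`-particle configurations. -/
def gcInt (f₀ : PhasePoint → ℝ) (ε : ℝ) (n : ℕ) : ENNReal := ∫⁻ Z, gcWeight f₀ ε n Z

theorem gcInt_zero (f₀ : PhasePoint → ℝ) (ε : ℝ) : gcInt f₀ ε 0 = 1 := by
  have h : ∀ Z : Config 0, gcWeight f₀ ε 0 Z = 1 := by
    intro Z
    have : Z ∈ PairExcluded ε 0 := fun i => i.elim0
    simp [gcWeight, Set.indicator_of_mem this]
  unfold gcInt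
  simp_rw [h]
  have := lintegral_prod_pow (α := PhasePoint) 0 (fun _ => 1) measurable_const
  simpa using this

theorem pairExcluded_append_right {ε : ℝ} {s m : ℕ} {V : Config s} {W : Config m}
    (h : Fin.append V W ∈ PairExcluded ε (s + m)) : W ∈ PairExcluded ε m := by
  intro i j hij
  have := h (Fin.natAdd s i) (Fin.natAdd s j) (by simpa using hij)
  simpa using this

theorem pairExcluded_append_left {ε : ℝ} {s m : ℕ} {V : Config s} {W : Config m}
    (h : Fin.append V W ∈ PairExcluded ε (s + m)) : V ∈ PairExcluded ε s := by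
  intro i j hij
  have := h (Fin.castAdd m i) (Fin.castAdd m j) (by simpa using hij)
  simpa using this

theorem pairExcluded_append_iff {ε : ℝ} {s m : ℕ} {V : Config s} {W : Config m} :
    Fin.append V W ∈ PairExcluded ε (s + m) ↔
      V ∈ PairExcluded ε s ∧ W ∈ PairExcluded ε m ∧
        ∀ i j, ε < dist (V i).1 (W j).1 := by
  constructor
  · intro h
    refine ⟨pairExcluded_append_left h, pairExcluded_append_right h, fun i j => ?_⟩
    have := h (Fin.castAdd m i) (Fin.natAdd s j) (by
      intro he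
      have := congrArg Fin.val he
      simp at this
      have := i.2
      omega)
    simpa using this
  · rintro ⟨hV, hW, hVW⟩ i j hij
    induction i using Fin.addCases with
    | left i =>
      induction j using Fin.addCases with
      | left j =>
        simp only [Fin.append_left]
        exact hV i j (fun h => hij (by rw [h]))
      | right j =>
        simp only [Fin.append_left, Fin.append_right]
        exact hVW i j
    | right i =>
      induction j using Fin.addCases with
      | left j =>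
        simp only [Fin.append_left, Fin.append_right]
        rw [dist_comm]
        exact hVW j i
      | right j =>
        simp only [Fin.append_right]
        exact hW i j (fun h => hij (by rw [h]))

theorem gcWeight_append_le (f₀ : PhasePoint → ℝ) (ε : ℝ) (s m : ℕ) (V : Config s) (W : Config m) :
    gcWeight f₀ ε (s + m) (Fin.append V W) ≤ gcWeight f₀ ε s V * gcWeight f₀ ε m W := by
  classical
  by_cases h : Fin.append V W ∈ PairExcluded ε (s + m)
  · have h1 := pairExcluded_append_left h
    have h2 := pairExcluded_append_right h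
    simp only [gcWeight, Set.indicator_of_mem h, Set.indicator_of_mem h1, Set.indicator_of_mem h2]
    rw [Fin.prod_univ_add]
    simp
  · simp [gcWeight, Set.indicator_of_notMem h]

theorem gcInt_one_le {f₀ : PhasePoint → ℝ} (hf : Measurable f₀)
    (h1 : ∫⁻ z, ENNReal.ofReal (f₀ z) = 1) (ε : ℝ) (n : ℕ) :
    gcInt f₀ ε n ≤ 1 := by
  calc gcInt f₀ ε n ≤ ∫⁻ Z : Config n, ∏ i, ENNReal.ofReal (f₀ (Z i)) :=
        lintegral_mono (gcWeight_le_prod f₀ ε n)
    _ = 1 := by rw [lintegral_prod_pow n _ hf.ennreal_ofReal, h1, one_pow]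

theorem gcInt_add_le {f₀ : PhasePoint → ℝ} (hf : Measurable f₀) (ε : ℝ) (s m : ℕ) :
    gcInt f₀ ε (s + m) ≤ gcInt f₀ ε s * gcInt f₀ ε m := by
  unfold gcInt
  rw [lintegral_append s m _ (measurable_gcWeight hf ε (s + m))]
  calc ∫⁻ V : Config s, ∫⁻ W : Config m, gcWeight f₀ ε (s + m) (Fin.append V W)
      ≤ ∫⁻ V : Config s, ∫⁻ W : Config m, gcWeight f₀ ε s V * gcWeight f₀ ε m W :=
        lintegral_mono fun V => lintegral_mono fun W => gcWeight_append_le f₀ ε s m V W
    _ = _ := by
        simp_rw [lintegral_const_mul _ (measurable_gcWeight hf ε m)]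
        rw [lintegral_mul_const _ (measurable_gcWeight hf ε s)]

theorem gcInt_succ_le {f₀ : PhasePoint → ℝ} (hf : Measurable f₀)
    (h1 : ∫⁻ z, ENNReal.ofReal (f₀ z) = 1) (ε : ℝ) (n : ℕ) :
    gcInt f₀ ε (1 + n) ≤ gcInt f₀ ε n := by
  calc gcInt f₀ ε (1 + n) ≤ gcInt f₀ ε 1 * gcInt f₀ ε n := gcInt_add_le hf ε 1 n
    _ ≤ 1 * gcInt f₀ ε n := by gcongr; exact gcInt_one_le hf h1 ε 1
    _ = gcInt f₀ ε n := one_mul _

theorem gcInt_add_le_right {f₀ : PhasePoint → ℝ} (hf : Measurable f₀)
    (h1 : ∫⁻ z, ENNReal.ofReal (f₀ z) = 1) (ε : ℝ) (s n : ℕ) :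
    gcInt f₀ ε (s + n) ≤ gcInt f₀ ε n := by
  calc gcInt f₀ ε (s + n) ≤ gcInt f₀ ε s * gcInt f₀ ε n := gcInt_add_le hf ε s n
    _ ≤ 1 * gcInt f₀ ε n := by gcongr; exact gcInt_one_le hf h1 ε s
    _ = gcInt f₀ ε n := one_mul _

/-- Adding one particle: pointwise lower bound. -/
theorem gcWeight_append_one_ge (f₀ : PhasePoint → ℝ) (ε : ℝ) (m : ℕ) (z : PhasePoint)
    (W : Config m) :
    ENNReal.ofReal (f₀ z) * gcWeight f₀ ε m W ≤
      gcWeight f₀ ε (1 + m) (Fin.append (fun _ : Fin 1 => z) W) +
        (∑ j, ({y : PhasePoint | dist y.1 (W j).1 ≤ ε}.indicator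
          (fun y => ENNReal.ofReal (f₀ y)) z)) * gcWeight f₀ ε m W := by
  classical
  by_cases hW : W ∈ PairExcluded ε m
  · by_cases h : ∀ j, ε < dist z.1 (W j).1
    · have hm : Fin.append (fun _ : Fin 1 => z) W ∈ PairExcluded ε (1 + m) := by
        rw [pairExcluded_append_iff]
        refine ⟨?_, hW, fun _ j => h j⟩
        intro i j hij
        exact absurd (Subsingleton.elim i j) hij
      have : ENNReal.ofReal (f₀ z) * gcWeight f₀ ε m W =
          gcWeight f₀ ε (1 + m) (Fin.append (fun _ : Fin 1 => z) W) := by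
        simp only [gcWeight, Set.indicator_of_mem hm, Set.indicator_of_mem hW]
        rw [Fin.prod_univ_add]
        simp
      rw [this]
      exact le_self_add
    · push Not at h
      obtain ⟨j, hj⟩ := h
      refine le_add_left ?_
      gcongr
      calc ENNReal.ofReal (f₀ z) = ({y : PhasePoint | dist y.1 (W j).1 ≤ ε}.indicator
            (fun y => ENNReal.ofReal (f₀ y)) z) := by
            rw [Set.indicator_of_mem]; exact hj
        _ ≤ _ := Finset.single_le_sum (f := fun j => ({y : PhasePoint | dist y.1 (W j).1 ≤ ε}.indicator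
            (fun y => ENNReal.ofReal (f₀ y)) z)) (fun _ _ => bot_le) (Finset.mem_univ j)
  · simp [gcWeight, Set.indicator_of_notMem hW]

theorem measurable_gcWeight_append_one {f₀ : PhasePoint → ℝ} (hf : Measurable f₀) (ε : ℝ) (n : ℕ)
    (W : Config n) :
    Measurable (fun z : PhasePoint => gcWeight f₀ ε (1 + n) (Fin.append (fun _ : Fin 1 => z) W)) := by
  have h : Measurable (fun z : PhasePoint => ((fun _ : Fin 1 => z), W)) :=
    (measurable_pi_lambda _ (fun _ => measurable_id)).prodMk measurable_const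
  exact (measurable_gcWeight hf ε (1 + n)).comp ((measurable_append (α := PhasePoint) 1 n).comp h)

theorem gcInt_le_succ_add {f₀ : PhasePoint → ℝ} (hf : Measurable f₀)
    (h1 : ∫⁻ z, ENNReal.ofReal (f₀ z) = 1) (ε : ℝ) (κ : ENNReal)
    (hκ : ∀ x : Space3, ∫⁻ z in {y : PhasePoint | dist y.1 x ≤ ε}, ENNReal.ofReal (f₀ z) ≤ κ)
    (n : ℕ) :
    gcInt f₀ ε n ≤ gcInt f₀ ε (1 + n) + n * κ * gcInt f₀ ε n := by
  have hms : ∀ x : Space3, MeasurableSet {y : PhasePoint | dist y.1 x ≤ ε} := fun x =>
    measurableSet_le (measurable_fst.dist measurable_const) measurable_const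
  have hfo : Measurable (fun z => ENNReal.ofReal (f₀ z)) := hf.ennreal_ofReal
  have hA : gcInt f₀ ε n =
      ∫⁻ W : Config n, ∫⁻ z, ENNReal.ofReal (f₀ z) * gcWeight f₀ ε n W := by
    unfold gcInt
    congr 1
    funext W
    rw [lintegral_mul_const _ hfo, h1, one_mul]
  calc gcInt f₀ ε n = ∫⁻ W : Config n, ∫⁻ z, ENNReal.ofReal (f₀ z) * gcWeight f₀ ε n W := hA
    _ ≤ ∫⁻ W : Config n, ∫⁻ z, (gcWeight f₀ ε (1 + n) (Fin.append (fun _ : Fin 1 => z) W) +
        (∑ j, ({y : PhasePoint | dist y.1 (W j).1 ≤ ε}.indicator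
          (fun y => ENNReal.ofReal (f₀ y)) z)) * gcWeight f₀ ε n W) :=
        lintegral_mono fun W => lintegral_mono fun z => gcWeight_append_one_ge f₀ ε n z W
    _ ≤ ∫⁻ W : Config n, ((∫⁻ z, gcWeight f₀ ε (1 + n) (Fin.append (fun _ : Fin 1 => z) W)) +
        (n * κ) * gcWeight f₀ ε n W) := by
        refine lintegral_mono fun W => ?_
        dsimp only
        rw [lintegral_add_left]
        · gcongr
          rw [lintegral_mul_const]
          · gcongr
            rw [lintegral_finsetSum]
            · calc ∑ j, ∫⁻ z, ({y : PhasePoint | dist y.1 (W j).1 ≤ ε}.indicator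
                    (fun y => ENNReal.ofReal (f₀ y)) z)
                  ≤ ∑ _j : Fin n, κ := by
                    refine Finset.sum_le_sum fun j _ => ?_
                    rw [lintegral_indicator (hms _)]
                    exact hκ _
                _ = n * κ := by simp
            · intro j _
              exact hfo.indicator (hms _)
          · refine Finset.measurable_fun_sum _ fun j _ => ?_
            exact hfo.indicator (hms _)
        · exact measurable_gcWeight_append_one hf ε n W
    _ = (∫⁻ W : Config n, ∫⁻ z, gcWeight f₀ ε (1 + n) (Fin.append (fun _ : Fin 1 => z) W)) +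
        (n * κ) * gcInt f₀ ε n := by
        rw [lintegral_add_right _ ((measurable_gcWeight hf ε n).const_mul _)]
        rw [lintegral_const_mul _ (measurable_gcWeight hf ε n)]; rfl
    _ = gcInt f₀ ε (1 + n) + n * κ * gcInt f₀ ε n := by
        congr 1
        unfold gcInt
        rw [lintegral_append_symm 1 n _ (measurable_gcWeight hf ε (1 + n))]
        congr 1
        funext W
        rw [lintegral_fin_one]

theorem gcInt_le_add {f₀ : PhasePoint → ℝ} (hf : Measurable f₀)
    (h1 : ∫⁻ z, ENNReal.ofReal (f₀ z) = 1) (ε : ℝ) (κ : ENNReal)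
    (hκ : ∀ x : Space3, ∫⁻ z in {y : PhasePoint | dist y.1 x ≤ ε}, ENNReal.ofReal (f₀ z) ≤ κ)
    (n s : ℕ) :
    gcInt f₀ ε n ≤ gcInt f₀ ε (s + n) + s * (n + s) * κ * gcInt f₀ ε n := by
  induction s with
  | zero => simp
  | succ s ih =>
    have h2 := gcInt_le_succ_add hf h1 ε κ hκ (s + n)
    have h3 := gcInt_add_le_right hf h1 ε s n
    calc gcInt f₀ ε n ≤ gcInt f₀ ε (s + n) + s * (n + s) * κ * gcInt f₀ ε n := ih
      _ ≤ (gcInt f₀ ε (1 + (s + n)) + ((s + n : ℕ) : ENNReal) * κ * gcInt f₀ ε n) +
          s * (n + s) * κ * gcInt f₀ ε n := by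
          gcongr
          exact h2.trans (by gcongr)
      _ ≤ gcInt f₀ ε (s + 1 + n) + ((s + 1 : ℕ) : ENNReal) * (n + ((s + 1 : ℕ) : ENNReal)) * κ *
            gcInt f₀ ε n := by
          have : 1 + (s + n) = s + 1 + n := by ring
          rw [this, add_assoc]
          refine add_le_add le_rfl ?_
          rw [← add_mul, ← add_mul]
          gcongr
          push_cast
          have e1 : ((s : ENNReal) + 1) * (n + (s + 1)) = ((s : ENNReal) + n) + s * (n + s) +
              (s + 1) := by
            ring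
          rw [e1]
          exact le_self_add

end Crest.Agent.R122.FM167

end
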