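import Crest.Prelude.Def_KineticLimit
import Crest.Agent.R122.FMMass_167

/-!
# Partition function and total mass of the factorial marginal (helper167, G3 of F3)
-/

set_option autoImplicit false

open MeasureTheory
open Crest.AnalysisR.Kinetic

noncomputable section

namespace Crest.Agent.R122.FM167

/-! ### Activity -/

theorem activity_ne_top (ε : ℝ) : activity ε ≠ ⊤ := ENNReal.ofReal_ne_top

theorem activity_ne_zero {ε : ℝ} (hε : 0 < ε) : activity ε ≠ 0 := by
  have : 0 < (ε ^ 2)⁻¹ := by positivity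
  simpa [activity] using this.ne'

theorem activity_pow_ne_zero {ε : ℝ} (hε : 0 < ε) (n : ℕ) : activity ε ^ n ≠ 0 :=
  pow_ne_zero _ (activity_ne_zero hε)

theorem activity_pow_ne_top (ε : ℝ) (n : ℕ) : activity ε ^ n ≠ ⊤ :=
  ENNReal.pow_ne_top (activity_ne_top ε)

/-- The grand-canonical coefficient `a^n / n!`. -/
def gcCoef (ε : ℝ) (n : ℕ) : ENNReal := activity ε ^ n / (n.factorial : ENNReal)

theorem gcCoef_zero (ε : ℝ) : gcCoef ε 0 = 1 := by simp [gcCoef]

theorem factorial_ne_zero' (n : ℕ) : (n.factorial : ENNReal) ≠ 0 := by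
  exact_mod_cast n.factorial_ne_zero

theorem factorial_ne_top' (n : ℕ) : (n.factorial : ENNReal) ≠ ⊤ := ENNReal.natCast_ne_top _

theorem gcCoef_ne_top (ε : ℝ) (n : ℕ) : gcCoef ε n ≠ ⊤ :=
  ENNReal.div_ne_top (activity_pow_ne_top ε n) (factorial_ne_zero' n)

/-- `a^(m+s)/(m+s)! * (m+s)_s = a^s * a^m/m!`. -/
theorem gcCoef_mul_descFactorial (ε : ℝ) (s m : ℕ) :
    gcCoef ε (s + m) * ((s + m).descFactorial s : ENNReal) = activity ε ^ s * gcCoef ε m := by
  unfold gcCoef
  have h := Nat.factorial_mul_descFactorial (n := s + m) (k := s) (Nat.le_add_right s m)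
  have h' : s + m - s = m := by omega
  rw [h'] at h
  have h2 : ((s + m).factorial : ENNReal) = (m.factorial : ENNReal) * ((s + m).descFactorial s : ENNReal) := by
    rw [← h]; push_cast; ring
  have hd : ((s + m).descFactorial s : ENNReal) ≠ 0 := by
    have : 0 < (s + m).descFactorial s := Nat.descFactorial_pos.2 (Nat.le_add_right s m)
    exact_mod_cast this.ne'
  have hdt : ((s + m).descFactorial s : ENNReal) ≠ ⊤ := ENNReal.natCast_ne_top _
  rw [h2, pow_add, div_eq_mul_inv, div_eq_mul_inv,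
    ENNReal.mul_inv (Or.inl (factorial_ne_zero' m)) (Or.inl (factorial_ne_top' m))]
  calc activity ε ^ s * activity ε ^ m *
        ((m.factorial : ENNReal)⁻¹ * ((s + m).descFactorial s : ENNReal)⁻¹) *
          ((s + m).descFactorial s : ENNReal)
      = activity ε ^ s * (activity ε ^ m * (m.factorial : ENNReal)⁻¹) *
        (((s + m).descFactorial s : ENNReal)⁻¹ * ((s + m).descFactorial s : ENNReal)) := by ring
    _ = activity ε ^ s * (activity ε ^ m * (m.factorial : ENNReal)⁻¹) := by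
        rw [ENNReal.inv_mul_cancel hd hdt, mul_one]

theorem gcCoef_succ_mul (ε : ℝ) (m : ℕ) :
    gcCoef ε (m + 1) * ((m + 1 : ℕ) : ENNReal) = activity ε * gcCoef ε m := by
  have := gcCoef_mul_descFactorial ε 1 m
  rw [pow_one] at this
  rw [add_comm 1 m] at this
  simpa using this

/-! ### Partition function -/

theorem gcPartition_eq (f₀ : PhasePoint → ℝ) (ε : ℝ) :
    gcPartition f₀ ε = ∑' n : ℕ, gcCoef ε n * gcInt f₀ ε n := rfl

theorem one_le_gcPartition (f₀ : PhasePoint → ℝ) (ε : ℝ) : 1 ≤ gcPartition f₀ ε := by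
  rw [gcPartition_eq]
  calc (1 : ENNReal) = gcCoef ε 0 * gcInt f₀ ε 0 := by rw [gcCoef_zero, gcInt_zero, one_mul]
    _ ≤ _ := ENNReal.le_tsum 0

theorem gcPartition_ne_zero (f₀ : PhasePoint → ℝ) (ε : ℝ) : gcPartition f₀ ε ≠ 0 :=
  (lt_of_lt_of_le one_pos (one_le_gcPartition f₀ ε)).ne'

theorem tsum_gcCoef_ne_top (ε : ℝ) : ∑' n : ℕ, gcCoef ε n ≠ ⊤ := by
  have h : ∀ n, gcCoef ε n = ENNReal.ofReal (((ε ^ 2)⁻¹) ^ n / (n.factorial : ℝ)) := by
    intro n
    unfold gcCoef activity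
    rw [ENNReal.ofReal_div_of_pos (by exact_mod_cast n.factorial_pos),
      ENNReal.ofReal_pow (by positivity), ENNReal.ofReal_natCast]
  simp_rw [h]
  rw [← ENNReal.ofReal_tsum_of_nonneg]
  · exact ENNReal.ofReal_ne_top
  · intro n; positivity
  · exact Real.summable_pow_div_factorial _

theorem gcPartition_ne_top {f₀ : PhasePoint → ℝ} (hf : Measurable f₀)
    (h1 : ∫⁻ z, ENNReal.ofReal (f₀ z) = 1) (ε : ℝ) : gcPartition f₀ ε ≠ ⊤ := by
  rw [gcPartition_eq]
  refine ne_top_of_le_ne_top (tsum_gcCoef_ne_top ε) ?_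
  refine ENNReal.tsum_le_tsum fun n => ?_
  calc gcCoef ε n * gcInt f₀ ε n ≤ gcCoef ε n * 1 := by
        gcongr; exact gcInt_one_le hf h1 ε n
    _ = gcCoef ε n := mul_one _

/-! ### Total mass of the factorial marginal -/

/-- The total mass of the factorial marginal. -/
def fmTotal (f₀ : PhasePoint → ℝ) (ε : ℝ) (s : ℕ) : ENNReal :=
  (gcPartition f₀ ε)⁻¹ * ∑' m : ℕ, gcCoef ε m * gcInt f₀ ε (s + m)

theorem tsum_shift {F : ℕ → ENNReal} (s : ℕ) (h : ∀ n < s, F n = 0) :
    ∑' n, F n = ∑' m, F (s + m) := by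
  have := ENNReal.summable (f := F)
  rw [← Summable.sum_add_tsum_nat_add' (k := s) (f := F) ENNReal.summable]
  rw [Finset.sum_eq_zero (fun i hi => h i (Finset.mem_range.1 hi)), zero_add]
  simp_rw [add_comm s]

/-- `factorialMarginal … univ` does not depend on the evolution or the time. -/
theorem factorialMarginal_univ (f₀ : PhasePoint → ℝ) {ε : ℝ} (hε : 0 < ε)
    (Ψ : (n : ℕ) → ℝ → Config n → Config n) (s : ℕ) (t : ℝ) :
    factorialMarginal f₀ ε Ψ s t Set.univ = fmTotal f₀ ε s := by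
  unfold factorialMarginal fmTotal
  have h1 : ∀ n : ℕ, (∫⁻ Z : Config n, gcWeight f₀ ε n Z *
      ∑ ι : Fin s ↪ Fin n, (Set.univ : Set (Config s)).indicator (fun _ => (1 : ENNReal))
        (fun k => Ψ n t Z (ι k))) = gcInt f₀ ε n * (n.descFactorial s : ENNReal) := by
    intro n
    have hc : ∀ Z : Config n, (∑ ι : Fin s ↪ Fin n,
        (Set.univ : Set (Config s)).indicator (fun _ => (1 : ENNReal))
        (fun k => Ψ n t Z (ι k))) = (n.descFactorial s : ENNReal) := by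
      intro Z
      simp [Fintype.card_embedding_eq]
    simp_rw [hc]
    rw [lintegral_mul_const' _ _ (ENNReal.natCast_ne_top _)]
    rfl
  simp_rw [h1]
  rw [mul_assoc]
  congr 1
  change (activity ε ^ s)⁻¹ * ∑' n, gcCoef ε n * (gcInt f₀ ε n * (n.descFactorial s : ENNReal)) = _
  rw [tsum_shift s]
  · have h2 : ∀ m, gcCoef ε (s + m) * (gcInt f₀ ε (s + m) * ((s + m).descFactorial s : ENNReal)) =
        activity ε ^ s * (gcCoef ε m * gcInt f₀ ε (s + m)) := by
      intro m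
      rw [mul_comm (gcInt f₀ ε (s + m)), ← mul_assoc, gcCoef_mul_descFactorial, mul_assoc]
    simp_rw [h2]
    rw [ENNReal.tsum_mul_left, ← mul_assoc,
      ENNReal.inv_mul_cancel (activity_pow_ne_zero hε s) (activity_pow_ne_top ε s), one_mul]
  · intro n hn
    rw [Nat.descFactorial_eq_zero_iff_lt.2 hn]
    simp

theorem fmTotal_le_one {f₀ : PhasePoint → ℝ} (hf : Measurable f₀)
    (h1 : ∫⁻ z, ENNReal.ofReal (f₀ z) = 1) (ε : ℝ) (s : ℕ) : fmTotal f₀ ε s ≤ 1 := by
  unfold fmTotal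
  calc (gcPartition f₀ ε)⁻¹ * ∑' m : ℕ, gcCoef ε m * gcInt f₀ ε (s + m)
      ≤ (gcPartition f₀ ε)⁻¹ * ∑' m : ℕ, gcCoef ε m * gcInt f₀ ε m := by
        gcongr with m
        exact gcInt_add_le_right hf h1 ε s m
    _ = 1 := by
        rw [← gcPartition_eq]
        exact ENNReal.inv_mul_cancel (gcPartition_ne_zero f₀ ε) (gcPartition_ne_top hf h1 ε)

theorem one_le_fmTotal_add {f₀ : PhasePoint → ℝ} (hf : Measurable f₀)
    (h1 : ∫⁻ z, ENNReal.ofReal (f₀ z) = 1) (ε : ℝ) (κ : ENNReal)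
    (hκ : ∀ x : Space3, ∫⁻ z in {y : PhasePoint | dist y.1 x ≤ ε}, ENNReal.ofReal (f₀ z) ≤ κ)
    (s : ℕ) : 1 ≤ fmTotal f₀ ε s + s * κ * (activity ε + s) := by
  have hZ0 := gcPartition_ne_zero f₀ ε
  have hZt := gcPartition_ne_top hf h1 ε
  have hm : ∑' m : ℕ, gcCoef ε m * ((m : ENNReal) * gcInt f₀ ε m) ≤
      activity ε * gcPartition f₀ ε := by
    rw [tsum_shift 1 (F := fun m : ℕ => gcCoef ε m * ((m : ENNReal) * gcInt f₀ ε m))]
    · rw [gcPartition_eq, ← ENNReal.tsum_mul_left]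
      refine ENNReal.tsum_le_tsum fun m => ?_
      calc gcCoef ε (1 + m) * (((1 + m : ℕ) : ENNReal) * gcInt f₀ ε (1 + m))
          = (gcCoef ε (m + 1) * ((m + 1 : ℕ) : ENNReal)) * gcInt f₀ ε (1 + m) := by
            rw [add_comm 1 m, mul_assoc]
        _ = activity ε * gcCoef ε m * gcInt f₀ ε (1 + m) := by rw [gcCoef_succ_mul]
        _ ≤ activity ε * gcCoef ε m * gcInt f₀ ε m := by
            gcongr; exact gcInt_succ_le hf h1 ε m
        _ = activity ε * (gcCoef ε m * gcInt f₀ ε m) := by rw [mul_assoc]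
    · intro n hn
      interval_cases n
      simp
  have key : gcPartition f₀ ε ≤ (∑' m : ℕ, gcCoef ε m * gcInt f₀ ε (s + m)) +
      s * κ * ((activity ε + s) * gcPartition f₀ ε) := by
    calc gcPartition f₀ ε = ∑' m : ℕ, gcCoef ε m * gcInt f₀ ε m := gcPartition_eq f₀ ε
      _ ≤ ∑' m : ℕ, (gcCoef ε m * gcInt f₀ ε (s + m) +
            (s * κ * (gcCoef ε m * ((m : ENNReal) * gcInt f₀ ε m)) +
              s * κ * (s * (gcCoef ε m * gcInt f₀ ε m)))) := by
          refine ENNReal.tsum_le_tsum fun m => ?_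
          calc gcCoef ε m * gcInt f₀ ε m
              ≤ gcCoef ε m * (gcInt f₀ ε (s + m) + s * (m + s) * κ * gcInt f₀ ε m) := by
                gcongr
                exact gcInt_le_add hf h1 ε κ hκ m s
            _ = _ := by ring
      _ = (∑' m : ℕ, gcCoef ε m * gcInt f₀ ε (s + m)) +
            (s * κ * (∑' m : ℕ, gcCoef ε m * ((m : ENNReal) * gcInt f₀ ε m)) +
              s * κ * (s * (∑' m : ℕ, gcCoef ε m * gcInt f₀ ε m))) := by
          rw [ENNReal.tsum_add, ENNReal.tsum_add, ENNReal.tsum_mul_left, ENNReal.tsum_mul_left,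
            ENNReal.tsum_mul_left]
      _ ≤ (∑' m : ℕ, gcCoef ε m * gcInt f₀ ε (s + m)) +
            (s * κ * (activity ε * gcPartition f₀ ε) +
              s * κ * (s * gcPartition f₀ ε)) := by
          rw [← gcPartition_eq]
          gcongr
      _ = _ := by ring
  calc (1 : ENNReal) = (gcPartition f₀ ε)⁻¹ * gcPartition f₀ ε :=
        (ENNReal.inv_mul_cancel hZ0 hZt).symm
    _ ≤ (gcPartition f₀ ε)⁻¹ * ((∑' m : ℕ, gcCoef ε m * gcInt f₀ ε (s + m)) +
      s * κ * ((activity ε + s) * gcPartition f₀ ε)) := by gcongr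
    _ = fmTotal f₀ ε s + s * κ * (activity ε + s) *
          ((gcPartition f₀ ε)⁻¹ * gcPartition f₀ ε) := by
        unfold fmTotal; ring
    _ = _ := by rw [ENNReal.inv_mul_cancel hZ0 hZt, mul_one]

/-! ### The constant `κ` -/

/-- A Gaussian velocity bound gives a bound on the mass of `f₀` in small position balls. -/
theorem exists_kappa {f₀ : PhasePoint → ℝ} (hf : Measurable f₀) {β : ℝ} (hβ : 0 < β)
    {C : ℝ} (hC : ∀ x v : Space3, Real.exp (2 * β * ‖v‖ ^ 2) * f₀ (x, v) ≤ C) :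
    ∃ K : ℝ, 0 ≤ K ∧ ∀ (ε : ℝ), 0 < ε → ∀ x : Space3,
      ∫⁻ z in {y : PhasePoint | dist y.1 x ≤ ε}, ENNReal.ofReal (f₀ z) ≤
        ENNReal.ofReal (K * ε ^ 3) := by
  set C' : ℝ := max C 0 with hC'
  have hb : ∀ x v : Space3, f₀ (x, v) ≤ C' * Real.exp (-(2 * β) * ‖v‖ ^ 2) := by
    intro x v
    have h := (hC x v).trans (le_max_left C 0)
    have he : Real.exp (2 * β * ‖v‖ ^ 2) * Real.exp (-(2 * β) * ‖v‖ ^ 2) = 1 := by
      rw [← Real.exp_add]; simp
    calc f₀ (x, v) = (Real.exp (2 * β * ‖v‖ ^ 2) * f₀ (x, v)) * Real.exp (-(2 * β) * ‖v‖ ^ 2) := by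
          calc f₀ (x, v) = f₀ (x, v) * 1 := by ring
            _ = f₀ (x, v) * (Real.exp (2 * β * ‖v‖ ^ 2) * Real.exp (-(2 * β) * ‖v‖ ^ 2)) := by
                rw [he]
            _ = _ := by ring
      _ ≤ C' * Real.exp (-(2 * β) * ‖v‖ ^ 2) := by gcongr
  have hint : Integrable (fun v : Space3 => C' * Real.exp (-(2 * β) * ‖v‖ ^ 2)) := by
    apply Integrable.const_mul
    have := GaussianFourier.integrable_cexp_neg_mul_sq_norm_add (V := Space3) (b := (2 * β : ℂ))
      (by simpa using hβ) 0 0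
    have h2 := this.norm
    refine h2.congr (Filter.Eventually.of_forall fun v => ?_)
    simp only [Complex.norm_exp]
    congr 1
    simp
    norm_cast
    simp
  set R : ENNReal := ∫⁻ v : Space3, ENNReal.ofReal (C' * Real.exp (-(2 * β) * ‖v‖ ^ 2)) with hR
  have hRt : R ≠ ⊤ := by
    have := hint.lintegral_lt_top
    exact this.ne
  set B : ENNReal := volume (Metric.ball (0 : Space3) 1) with hB
  have hBt : B ≠ ⊤ := measure_ball_lt_top.ne
  refine ⟨(R * B).toReal, ENNReal.toReal_nonneg, fun ε hε x => ?_⟩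
  have hset : {y : PhasePoint | dist y.1 x ≤ ε} = Metric.closedBall x ε ×ˢ Set.univ := by
    ext y; simp
  rw [hset]
  have hv : (volume : Measure PhasePoint) = (volume : Measure Space3).prod volume := rfl
  rw [hv, ← Measure.prod_restrict, lintegral_prod _ hf.ennreal_ofReal.aemeasurable,
    Measure.restrict_univ]
  calc ∫⁻ y in Metric.closedBall x ε, ∫⁻ v, ENNReal.ofReal (f₀ (y, v))
      ≤ ∫⁻ y in Metric.closedBall x ε, R := by
        refine lintegral_mono fun y => lintegral_mono fun v => ?_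
        exact ENNReal.ofReal_le_ofReal (hb y v)
    _ = R * volume (Metric.closedBall x ε) := by rw [setLIntegral_const]
    _ = R * (ENNReal.ofReal (ε ^ 3) * B) := by
        rw [Measure.addHaar_closedBall _ _ hε.le]
        simp [hB]
    _ = ENNReal.ofReal ((R * B).toReal * ε ^ 3) := by
        rw [ENNReal.ofReal_mul ENNReal.toReal_nonneg, ENNReal.ofReal_toReal (ENNReal.mul_ne_top hRt hBt)]
        ring

/-- Quantitative lower bound `fmTotal ≥ 1 - K s (ε + s ε³)`. -/
theorem one_le_fmTotal_add_ofReal {f₀ : PhasePoint → ℝ} (hf : Measurable f₀)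
    (h1 : ∫⁻ z, ENNReal.ofReal (f₀ z) = 1) {K : ℝ} (hK : 0 ≤ K)
    (hκ : ∀ (ε : ℝ), 0 < ε → ∀ x : Space3,
      ∫⁻ z in {y : PhasePoint | dist y.1 x ≤ ε}, ENNReal.ofReal (f₀ z) ≤ ENNReal.ofReal (K * ε ^ 3))
    {ε : ℝ} (hε : 0 < ε) (s : ℕ) :
    1 ≤ fmTotal f₀ ε s + ENNReal.ofReal (s * K * (ε + s * ε ^ 3)) := by
  refine (one_le_fmTotal_add hf h1 ε _ (hκ ε hε) s).trans (le_of_eq ?_)
  congr 1
  unfold activity
  rw [← ENNReal.ofReal_natCast s, ← ENNReal.ofReal_mul (by positivity),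
    ← ENNReal.ofReal_add (by positivity) (by positivity), ← ENNReal.ofReal_mul (by positivity)]
  congr 1
  field_simp

end Crest.Agent.R122.FM167

end
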