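import Crest.Prelude.Def_KineticLimit
import Crest.Agent.R122.FMUniv_167

/-!
# The factorial marginal as a measure and the one-sided reduction of S0162 (helper167, G4 of F3)
-/

set_option autoImplicit false

open MeasureTheory
open Crest.AnalysisR.Kinetic

noncomputable section

namespace Crest.Agent.R122.FM167

/-! ### The factorial marginal as a measure -/

/-- The rescaled factorial marginal as a measure on `Config s`. -/
def fmMeasure (f₀ : PhasePoint → ℝ) (ε : ℝ) (Ψ : (n : ℕ) → ℝ → Config n → Config n)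
    (s : ℕ) (t : ℝ) : Measure (Config s) :=
  ((gcPartition f₀ ε)⁻¹ * (activity ε ^ s)⁻¹) • Measure.sum (fun n : ℕ =>
    (gcCoef ε n) • ∑ ι : Fin s ↪ Fin n,
      ((volume : Measure (Config n)).withDensity (gcWeight f₀ ε n)).map
        (fun Z k => Ψ n t Z (ι k)))

theorem measurable_pick {Ψ : (n : ℕ) → ℝ → Config n → Config n}
    {s n : ℕ} {t : ℝ} (hΨ : Measurable (Ψ n t)) (ι : Fin s ↪ Fin n) :
    Measurable (fun (Z : Config n) (k : Fin s) => Ψ n t Z (ι k)) :=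
  measurable_pi_lambda _ fun k => (measurable_pi_apply (ι k)).comp hΨ

theorem lintegral_fmMeasure {f₀ : PhasePoint → ℝ} (hf : Measurable f₀) (ε : ℝ)
    {Ψ : (n : ℕ) → ℝ → Config n → Config n} (s : ℕ) (t : ℝ)
    (hΨ : ∀ n, Measurable (Ψ n t)) (G : Config s → ENNReal) (hG : Measurable G) :
    ∫⁻ V, G V ∂(fmMeasure f₀ ε Ψ s t) =
      (gcPartition f₀ ε)⁻¹ * (activity ε ^ s)⁻¹ * ∑' n : ℕ, gcCoef ε n *
        ∫⁻ Z : Config n, gcWeight f₀ ε n Z * ∑ ι : Fin s ↪ Fin n, G (fun k => Ψ n t Z (ι k)) := by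
  unfold fmMeasure
  rw [lintegral_smul_measure, lintegral_sum_measure, smul_eq_mul]
  congr 1
  refine tsum_congr fun n => ?_
  rw [lintegral_smul_measure, smul_eq_mul, lintegral_finsetSum_measure]
  congr 1
  have hmeas : ∀ ι : Fin s ↪ Fin n, Measurable (fun Z : Config n => G (fun k => Ψ n t Z (ι k))) :=
    fun ι => hG.comp (measurable_pick (hΨ n) ι)
  calc ∑ ι : Fin s ↪ Fin n, ∫⁻ V, G V ∂(((volume : Measure (Config n)).withDensity
          (gcWeight f₀ ε n)).map (fun Z k => Ψ n t Z (ι k)))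
      = ∑ ι : Fin s ↪ Fin n, ∫⁻ Z : Config n, gcWeight f₀ ε n Z * G (fun k => Ψ n t Z (ι k)) := by
        refine Finset.sum_congr rfl fun ι _ => ?_
        rw [lintegral_map hG (measurable_pick (hΨ n) ι),
          lintegral_withDensity_eq_lintegral_mul _ (measurable_gcWeight hf ε n) (hmeas ι)]
        rfl
    _ = _ := by
        rw [← lintegral_finsetSum]
        · simp_rw [Finset.mul_sum]
        · intro ι _
          exact (measurable_gcWeight hf ε n).mul (hmeas ι)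

theorem fmMeasure_apply {f₀ : PhasePoint → ℝ} (hf : Measurable f₀) (ε : ℝ)
    {Ψ : (n : ℕ) → ℝ → Config n → Config n} (s : ℕ) (t : ℝ)
    (hΨ : ∀ n, Measurable (Ψ n t)) {A : Set (Config s)} (hA : MeasurableSet A) :
    fmMeasure f₀ ε Ψ s t A = factorialMarginal f₀ ε Ψ s t A := by
  have h := lintegral_fmMeasure hf ε s t hΨ (A.indicator (fun _ => 1))
    (measurable_const.indicator hA)
  rw [lintegral_indicator_const hA, one_mul] at h
  rw [h]
  rfl

theorem fmMeasure_univ {f₀ : PhasePoint → ℝ} (hf : Measurable f₀) {ε : ℝ} (hε : 0 < ε)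
    {Ψ : (n : ℕ) → ℝ → Config n → Config n} (s : ℕ) (t : ℝ)
    (hΨ : ∀ n, Measurable (Ψ n t)) :
    fmMeasure f₀ ε Ψ s t Set.univ = fmTotal f₀ ε s := by
  rw [fmMeasure_apply hf ε s t hΨ MeasurableSet.univ, factorialMarginal_univ f₀ hε]

theorem fmMeasure_le_one {f₀ : PhasePoint → ℝ} (hf : Measurable f₀)
    (h1 : ∫⁻ z, ENNReal.ofReal (f₀ z) = 1) {ε : ℝ} (hε : 0 < ε)
    {Ψ : (n : ℕ) → ℝ → Config n → Config n} (s : ℕ) (t : ℝ)
    (hΨ : ∀ n, Measurable (Ψ n t)) (A : Set (Config s)) :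
    fmMeasure f₀ ε Ψ s t A ≤ 1 :=
  (measure_mono (Set.subset_univ A)).trans
    ((fmMeasure_univ hf hε s t hΨ).trans_le (fmTotal_le_one hf h1 ε s))

/-! ### Abstract one-sided reduction -/

/-- If `μ` has mass at most one and `ν` is a probability measure with `ν A ≤ μ A + δ` for all
measurable `A`, then also `μ A ≤ ν A + δ` for all measurable `A`. -/
theorem two_sided_of_lower {Ω : Type*} [MeasurableSpace Ω] {μ ν : Measure Ω}
    (hμ : μ Set.univ ≤ 1) (hν : ν Set.univ = 1) {δ : ENNReal}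
    (h : ∀ A, MeasurableSet A → ν A ≤ μ A + δ) {A : Set Ω} (hA : MeasurableSet A) :
    μ A ≤ ν A + δ := by
  have hμA : μ A ≠ ⊤ := ne_top_of_le_ne_top ENNReal.one_ne_top
    ((measure_mono (Set.subset_univ A)).trans hμ)
  have hμAc : μ Aᶜ ≠ ⊤ := ne_top_of_le_ne_top ENNReal.one_ne_top
    ((measure_mono (Set.subset_univ _)).trans hμ)
  have h1 : μ A + μ Aᶜ ≤ ν A + δ + μ Aᶜ := by
    rw [measure_add_measure_compl hA]
    calc μ Set.univ ≤ 1 := hμ
      _ = ν A + ν Aᶜ := by rw [measure_add_measure_compl hA, hν]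
      _ ≤ ν A + (μ Aᶜ + δ) := by gcongr; exact h _ hA.compl
      _ = ν A + δ + μ Aᶜ := by ring
  exact (ENNReal.add_le_add_iff_right hμAc).1 h1

/-- Upper bounds also suffice, up to the mass defect `η` of `μ`. -/
theorem two_sided_of_upper {Ω : Type*} [MeasurableSpace Ω] {μ ν : Measure Ω}
    {η : ENNReal} (hμ : 1 ≤ μ Set.univ + η) (hν : ν Set.univ = 1) {δ : ENNReal}
    (h : ∀ A, MeasurableSet A → μ A ≤ ν A + δ) {A : Set Ω} (hA : MeasurableSet A) :
    ν A ≤ μ A + δ + η := by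
  have hνAc : ν Aᶜ ≠ ⊤ := ne_top_of_le_ne_top ENNReal.one_ne_top
    ((measure_mono (Set.subset_univ _)).trans hν.le)
  have h1 : ν A + ν Aᶜ ≤ μ A + δ + η + ν Aᶜ := by
    rw [measure_add_measure_compl hA, hν]
    calc (1 : ENNReal) ≤ μ Set.univ + η := hμ
      _ = μ A + μ Aᶜ + η := by rw [measure_add_measure_compl hA]
      _ ≤ μ A + (ν Aᶜ + δ) + η := by gcongr; exact h _ hA.compl
      _ = μ A + δ + η + ν Aᶜ := by ring
  exact (ENNReal.add_le_add_iff_right hνAc).1 h1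

/-! ### The product measure -/

/-- The product density measure `∏ f(Z k) dZ`. -/
def prodMeasure (g : PhasePoint → ℝ) (s : ℕ) : Measure (Config s) :=
  volume.withDensity (fun Z => ∏ k, ENNReal.ofReal (g (Z k)))

theorem prodMeasure_apply (g : PhasePoint → ℝ) (s : ℕ) {A : Set (Config s)}
    (hA : MeasurableSet A) :
    prodMeasure g s A = ∫⁻ Z in A, ∏ k, ENNReal.ofReal (g (Z k)) :=
  withDensity_apply _ hA

theorem lintegral_density_eq_one {g : PhasePoint → ℝ} (h0 : ∀ z, 0 ≤ g z) (hi : Integrable g)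
    (h1 : ∫ z, g z = 1) : ∫⁻ z, ENNReal.ofReal (g z) = 1 := by
  rw [← ofReal_integral_eq_lintegral_ofReal hi (Filter.Eventually.of_forall h0), h1,
    ENNReal.ofReal_one]

/-- Product integrands for a.e.-measurable densities. -/
theorem prodMeasure_univ {g : PhasePoint → ℝ} (hg : Measurable g)
    (h1 : ∫⁻ z, ENNReal.ofReal (g z) = 1) (s : ℕ) : prodMeasure g s Set.univ = 1 := by
  rw [prodMeasure_apply g s MeasurableSet.univ, Measure.restrict_univ,
    lintegral_prod_pow s _ hg.ennreal_ofReal, h1, one_pow]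

theorem measurable_solution {Φ : Space3 → ℝ} {β T : ℝ} {f₀ : PhasePoint → ℝ}
    {f : ℝ → PhasePoint → ℝ} (hf : IsRegularKineticSolution Φ β T f₀ f) {t : ℝ}
    (ht : t ∈ Set.Icc 0 T) : Continuous (f t) := by
  have h := hf.continuous
  have h2 : Continuous (fun z : PhasePoint => (t, z)) := by fun_prop
  rw [← continuousOn_univ]
  exact h.comp h2.continuousOn (fun z _ => ⟨ht, Set.mem_univ _⟩)

/-- The Gaussian sup bound that follows from a summable Gaussian bound. -/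
theorem gaussian_of_summable {γ : ℝ} {h : Space3 → Space3 → ℝ}
    (H : HasSummableGaussianBound γ h) :
    ∃ C : ℝ, 0 ≤ C ∧ ∀ x v : Space3, Real.exp (γ * ‖v‖ ^ 2) * ‖h x v‖ ≤ C := by
  obtain ⟨M, hM, hb⟩ := H
  have hM0 : ∀ k, 0 ≤ M k := by
    intro k
    refine le_trans ?_ (hb k (latticePoint k) 0 (by simp))
    positivity
  refine ⟨∑' k, M k, tsum_nonneg hM0, fun x v => ?_⟩
  -- pick the nearest lattice point
  let k : Fin 3 → ℤ := fun i => round (x i)
  have hk : dist x (latticePoint k) ≤ 1 := by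
    rw [EuclideanSpace.dist_eq]
    have hi : ∀ i : Fin 3, dist (x i) (latticePoint k i) ^ 2 ≤ 1 / 4 := by
      intro i
      have : |x i - round (x i)| ≤ 1 / 2 := abs_sub_round (x i)
      have h2 : dist (x i) (latticePoint k i) = |x i - round (x i)| := by
        simp [latticePoint, k, Real.dist_eq]
      rw [h2]
      nlinarith [abs_nonneg (x i - round (x i))]
    calc Real.sqrt (∑ i, dist (x i) (latticePoint k i) ^ 2)
        ≤ Real.sqrt (∑ _i : Fin 3, (1 / 4 : ℝ)) := by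
          apply Real.sqrt_le_sqrt
          exact Finset.sum_le_sum fun i _ => hi i
      _ ≤ Real.sqrt 1 := by
          apply Real.sqrt_le_sqrt
          simp; norm_num
      _ = 1 := Real.sqrt_one
  exact (hb k x v hk).trans (hM.le_tsum k (fun j _ => hM0 j))

/-! ### Reduction of S0162 -/

/-- One-sided form of the conclusion of S0162: for all small `ε` and all `t ∈ [0,T]`,
the factorial marginal dominates the product measure up to `δ`, uniformly on measurable sets. -/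
def LowerTV (f₀ : PhasePoint → ℝ) (f : ℝ → PhasePoint → ℝ) (T : ℝ)
    (Ψ : ℝ → (n : ℕ) → ℝ → Config n → Config n) (s : ℕ) : Prop :=
  ∀ δ : ℝ, 0 < δ → ∃ ε₀ : ℝ, 0 < ε₀ ∧ ∀ ε : ℝ, 0 < ε → ε < ε₀ → ∀ t ∈ Set.Icc 0 T,
    ∀ A : Set (Config s), MeasurableSet A →
      (∫⁻ Z in A, ∏ k, ENNReal.ofReal (f t (Z k))) ≤
        factorialMarginal f₀ ε (Ψ ε) s t A + ENNReal.ofReal δ

/-- One-sided (upper) form of the conclusion. -/
def UpperTV (f₀ : PhasePoint → ℝ) (f : ℝ → PhasePoint → ℝ) (T : ℝ)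
    (Ψ : ℝ → (n : ℕ) → ℝ → Config n → Config n) (s : ℕ) : Prop :=
  ∀ δ : ℝ, 0 < δ → ∃ ε₀ : ℝ, 0 < ε₀ ∧ ∀ ε : ℝ, 0 < ε → ε < ε₀ → ∀ t ∈ Set.Icc 0 T,
    ∀ A : Set (Config s), MeasurableSet A →
      factorialMarginal f₀ ε (Ψ ε) s t A ≤
        (∫⁻ Z in A, ∏ k, ENNReal.ofReal (f t (Z k))) + ENNReal.ofReal δ

theorem conclusion_of_lowerTV
    (Φ : Space3 → ℝ) (β : ℝ) (T : ℝ)
    (f₀ : PhasePoint → ℝ) (hf₀ : ∀ z, 0 ≤ f₀ z) (hf₀d : ContDiff ℝ 1 f₀)
    (hf₀i : Integrable f₀) (hf₀m : ∫ z, f₀ z = 1)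
    (f : ℝ → PhasePoint → ℝ) (hf : IsRegularKineticSolution Φ β T f₀ f)
    (Ψ : ℝ → (n : ℕ) → ℝ → Config n → Config n)
    (hΨ : ∀ ε : ℝ, 0 < ε → IsNewtonianEvolution Φ ε (Ψ ε))
    (s : ℕ) (H : LowerTV f₀ f T Ψ s) (δ : ℝ) (hδ : 0 < δ) :
    ∃ ε₀ : ℝ, 0 < ε₀ ∧ ∀ ε : ℝ, 0 < ε → ε < ε₀ → ∀ t ∈ Set.Icc 0 T,
      ∀ A : Set (Config s), MeasurableSet A →
        factorialMarginal f₀ ε (Ψ ε) s t A ≤
            (∫⁻ Z in A, ∏ k, ENNReal.ofReal (f t (Z k))) + ENNReal.ofReal δ ∧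
          (∫⁻ Z in A, ∏ k, ENNReal.ofReal (f t (Z k))) ≤
            factorialMarginal f₀ ε (Ψ ε) s t A + ENNReal.ofReal δ := by
  obtain ⟨ε₀, hε₀, h⟩ := H δ hδ
  refine ⟨ε₀, hε₀, fun ε hε hlt t ht A hA => ⟨?_, h ε hε hlt t ht A hA⟩⟩
  have hfm : Measurable f₀ := hf₀d.continuous.measurable
  have h1 := lintegral_density_eq_one hf₀ hf₀i hf₀m
  have hΨm : ∀ n, Measurable (Ψ ε n t) := fun n => (hΨ ε hε).measurable n t
  have hft : Measurable (f t) := (measurable_solution hf ht).measurable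
  have h2 := two_sided_of_lower (μ := fmMeasure f₀ ε (Ψ ε) s t) (ν := prodMeasure (f t) s)
    (fmMeasure_le_one hfm h1 hε s t hΨm _)
    (prodMeasure_univ hft (lintegral_density_eq_one (hf.nonneg t ht) (hf.density t ht).1
      (hf.density t ht).2) s) (δ := ENNReal.ofReal δ)
    (fun B hB => by
      rw [prodMeasure_apply _ _ hB, fmMeasure_apply hfm ε s t hΨm hB]
      exact h ε hε hlt t ht B hB) hA
  rwa [prodMeasure_apply _ _ hA, fmMeasure_apply hfm ε s t hΨm hA] at h2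

theorem lowerTV_of_upperTV
    (Φ : Space3 → ℝ) (β : ℝ) (hβ : 0 < β) (T : ℝ)
    (f₀ : PhasePoint → ℝ) (hf₀ : ∀ z, 0 ≤ f₀ z) (hf₀d : ContDiff ℝ 1 f₀)
    (hf₀i : Integrable f₀) (hf₀m : ∫ z, f₀ z = 1)
    (hf₀b : HasSummableGaussianBound (2 * β) (fun x v => f₀ (x, v)))
    (f : ℝ → PhasePoint → ℝ) (hf : IsRegularKineticSolution Φ β T f₀ f)
    (Ψ : ℝ → (n : ℕ) → ℝ → Config n → Config n)
    (hΨ : ∀ ε : ℝ, 0 < ε → IsNewtonianEvolution Φ ε (Ψ ε))
    (s : ℕ) (H : UpperTV f₀ f T Ψ s) : LowerTV f₀ f T Ψ s := by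
  intro δ hδ
  have hfm : Measurable f₀ := hf₀d.continuous.measurable
  have h1 := lintegral_density_eq_one hf₀ hf₀i hf₀m
  obtain ⟨C, hC0, hC⟩ := gaussian_of_summable hf₀b
  obtain ⟨K, hK0, hK⟩ := exists_kappa hfm hβ (C := C) (fun x v => by
    refine le_trans ?_ (hC x v)
    gcongr
    exact le_abs_self _)
  obtain ⟨ε₀, hε₀, h⟩ := H (δ / 2) (by positivity)
  set D : ℝ := s * K * (1 + s) with hD
  have hD0 : 0 ≤ D := by positivity
  refine ⟨min ε₀ (min 1 (δ / (2 * (D + 1)))), by positivity, fun ε hε hlt t ht A hA => ?_⟩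
  have hlt1 : ε < ε₀ := hlt.trans_le (min_le_left _ _)
  have hlt2 : ε < 1 := hlt.trans_le ((min_le_right _ _).trans (min_le_left _ _))
  have hlt3 : ε < δ / (2 * (D + 1)) := hlt.trans_le ((min_le_right _ _).trans (min_le_right _ _))
  have hΨm : ∀ n, Measurable (Ψ ε n t) := fun n => (hΨ ε hε).measurable n t
  have hft : Measurable (f t) := (measurable_solution hf ht).measurable
  have hm := one_le_fmTotal_add_ofReal hfm h1 hK0 hK hε s
  rw [← fmMeasure_univ hfm hε s t hΨm] at hm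
  have h2 := two_sided_of_upper (μ := fmMeasure f₀ ε (Ψ ε) s t) (ν := prodMeasure (f t) s)
    hm
    (prodMeasure_univ hft (lintegral_density_eq_one (hf.nonneg t ht) (hf.density t ht).1
      (hf.density t ht).2) s) (δ := ENNReal.ofReal (δ / 2))
    (fun B hB => by
      rw [prodMeasure_apply _ _ hB, fmMeasure_apply hfm ε s t hΨm hB]
      exact h ε hε hlt1 t ht B hB) hA
  rw [prodMeasure_apply _ _ hA, fmMeasure_apply hfm ε s t hΨm hA] at h2
  refine h2.trans ?_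
  rw [add_assoc, ← ENNReal.ofReal_add (by positivity) (by positivity)]
  gcongr
  have h3 : s * K * (ε + s * ε ^ 3) ≤ D * ε := by
    have : ε ^ 3 ≤ ε := by
      calc ε ^ 3 = ε * ε ^ 2 := by ring
        _ ≤ ε * 1 := by gcongr; nlinarith
        _ = ε := mul_one _
    calc s * K * (ε + s * ε ^ 3) ≤ s * K * (ε + s * ε) := by gcongr
      _ = D * ε := by rw [hD]; ring
  have h4 : D * ε ≤ δ / 2 := by
    have h5 : (D + 1) * ε ≤ δ / 2 := by
      have := (lt_div_iff₀ (by positivity)).1 hlt3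
      nlinarith
    nlinarith
  linarith

/-! ### The form with a minorising family of measures -/

/-- `LowerTV` follows if, for every `η > 0`, there are minorants of the factorial marginals which
lose at most `η` of the product measure on every measurable set, for all small `ε`. -/
theorem lowerTV_of_minorants
    (f₀ : PhasePoint → ℝ) (f : ℝ → PhasePoint → ℝ) (T : ℝ)
    (Ψ : ℝ → (n : ℕ) → ℝ → Config n → Config n) (s : ℕ)
    (H : ∀ η : ℝ, 0 < η → ∃ ε₀ : ℝ, 0 < ε₀ ∧ ∀ ε : ℝ, 0 < ε → ε < ε₀ → ∀ t ∈ Set.Icc 0 T,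
      ∃ ν : Measure (Config s), (∀ A : Set (Config s), MeasurableSet A →
          ν A ≤ factorialMarginal f₀ ε (Ψ ε) s t A) ∧
        (∀ A : Set (Config s), MeasurableSet A →
          (∫⁻ Z in A, ∏ k, ENNReal.ofReal (f t (Z k))) ≤ ν A + ENNReal.ofReal η)) :
    LowerTV f₀ f T Ψ s := by
  intro δ hδ
  obtain ⟨ε₀, hε₀, h⟩ := H δ hδ
  refine ⟨ε₀, hε₀, fun ε hε hlt t ht A hA => ?_⟩
  obtain ⟨ν, h1, h2⟩ := h ε hε hlt t ht
  exact (h2 A hA).trans (by gcongr; exact h1 A hA)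

/-- From densities: if `g ≤ h + r` pointwise then `∫_A g ≤ ∫_A h + ∫ r`. -/
theorem setLIntegral_le_add {Ω : Type*} [MeasurableSpace Ω] {μ : Measure Ω}
    {g h r : Ω → ENNReal} (hh : Measurable h) (H : ∀ ω, g ω ≤ h ω + r ω)
    (A : Set Ω) : ∫⁻ ω in A, g ω ∂μ ≤ ∫⁻ ω in A, h ω ∂μ + ∫⁻ ω, r ω ∂μ := by
  calc ∫⁻ ω in A, g ω ∂μ ≤ ∫⁻ ω in A, (h ω + r ω) ∂μ := lintegral_mono H
    _ = ∫⁻ ω in A, h ω ∂μ + ∫⁻ ω in A, r ω ∂μ := lintegral_add_left hh _
    _ ≤ _ := by gcongr; exact Measure.restrict_le_self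

end Crest.Agent.R122.FM167

end
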