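import Mathlib
import Crest.Agent.R122.GCBasic_311
import Crest.Agent.R122.CausalNewton_291
import Crest.Agent.R122.NewtonFlow_671
import Crest.Agent.R122.FMReduce_167

/-!
# Row 122: the top-level assembly

* `KData` : the hypotheses of S0162 which do not involve the evolution `Ψ`.
* `bc Φ ε Z t i` : the backward cluster of the particle `i` of the configuration `Z` at time `t`
  (291's `BC` for the contact relation of 671's flow).
* `escMass Φ f₀ ε K t` : the expected mass (`activity⁻¹ ×` number) of particles whose backward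
  cluster at time `t` has more than `K` members.
* `NE Φ f₀ t` : no escape of mass at time `t` : `lim_K limsup_ε escMass = 0`.
* `NEStep` : the window step (section E): there is `h > 0` such that `NE t₁ → NE t₂`
  for `t₁ ≤ t₂ ≤ t₁ + h`, `t₂ ≤ T`.
* `Ident` : identification (sections D, F): `NE T` implies the lower bound `LowerTV` for the flow.
* `ne_of_step` : `NEStep` gives `NE` on `[0,T]` (finite induction over windows).
* `result_of` : `NEStep` and `Ident` for all kinetic data imply the statement of S0162.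
-/

set_option autoImplicit false
open MeasureTheory Set
open scoped Classical ENNReal
open Crest.AnalysisR.Kinetic
open Crest.Agent.R122.GC311 Crest.Agent.R122.Causal291
noncomputable section

namespace Crest.Agent.R122.Master566

/-- The data of S0162 without the evolution. -/
structure KData (Φ : Space3 → ℝ) (β T : ℝ) (f₀ : PhasePoint → ℝ)
    (f : ℝ → PhasePoint → ℝ) : Prop where
  adm : AdmissiblePotential Φ
  beta_pos : 0 < β
  T_pos : 0 < T
  nonneg : ∀ z, 0 ≤ f₀ z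
  contDiff : ContDiff ℝ 1 f₀
  integrable : Integrable f₀
  mass : ∫ z, f₀ z = 1
  gaussian : HasSummableGaussianBound (2 * β) (fun x v => f₀ (x, v))
  gaussian_grad : HasSummableGaussianBound (2 * β) (fun x v => fderiv ℝ (fun y => f₀ (y, v)) x)
  sol : IsRegularKineticSolution Φ β T f₀ f

/-- The backward cluster of particle `i` at time `t` in the world `Z` (evolved from time `0`). -/
def bc {ι : Type*} [Fintype ι] (Φ : Space3 → ℝ) (ε : ℝ) (Z : ι → PhasePoint) (t : ℝ) (i : ι) :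
    Set ι :=
  BC (Ct (pth Φ ε Z) ε) t i

/-- Expected mass of the particles with a backward cluster of more than `K` members. -/
def escMass (Φ : Space3 → ℝ) (f₀ : PhasePoint → ℝ) (ε : ℝ) (K : ℕ) (t : ℝ) : ℝ≥0∞ :=
  gcE f₀ ε fun n Z => (activity ε)⁻¹ *
    ((Finset.univ.filter fun i : Fin n => K < (bc Φ ε Z t i).ncard).card : ℝ≥0∞)

/-- No escape of mass at time `t`. -/
def NE (Φ : Space3 → ℝ) (f₀ : PhasePoint → ℝ) (t : ℝ) : Prop :=
  ∀ δ : ℝ, 0 < δ → ∃ K : ℕ, ∃ ε₀ : ℝ, 0 < ε₀ ∧ ∀ ε : ℝ, 0 < ε → ε < ε₀ →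
    escMass Φ f₀ ε K t ≤ ENNReal.ofReal δ

/-- The evolution of S0162 realised by the Newton flow of 671. -/
def flowEv (Φ : Space3 → ℝ) : ℝ → (n : ℕ) → ℝ → Config n → Config n :=
  fun ε _ t Z => Flow671.flow Φ ε t Z

/-! ### Elementary facts -/

section basics

variable {Φ : Space3 → ℝ} {f₀ : PhasePoint → ℝ} {ε : ℝ}

theorem bc_mono {ι : Type*} [Fintype ι] (Z : ι → PhasePoint) (i : ι) {t₁ t₂ : ℝ}
    (h : t₁ ≤ t₂) : bc Φ ε Z t₁ i ⊆ bc Φ ε Z t₂ i := by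
  intro k hk
  change Past _ t₁ i 0 k at hk
  change Past _ t₂ i 0 k
  generalize (0 : ℝ) = s at hk ⊢
  induction hk with
  | root hs => exact .root (hs.trans h)
  | step _ hc hs ih => exact .step ih hc hs

theorem bc_zero (hΦ : AdmissiblePotential Φ) (hε : 0 < ε) {n : ℕ} {Z : Config n}
    (hZ : Z ∈ PairExcluded ε n) (i : Fin n) : bc Φ ε Z 0 i = {i} := by
  ext k
  constructor
  · intro hk
    rw [mem_singleton_iff]
    change Past _ 0 i 0 k at hk
    refine Past.mem_of_closed (S := {i}) hk rfl fun s' j l h1 h2 hj hc => ?_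
    have hs : s' = 0 := le_antisymm h2 h1
    subst hs
    by_contra hl
    rw [mem_singleton_iff] at hl hj
    subst hj
    have h3 : dist (Flow671.flow Φ ε 0 Z j).1 (Flow671.flow Φ ε 0 Z l).1 ≤ ε := hc
    rw [Flow671.flow_zero hΦ hε] at h3
    exact absurd (hZ j l (Ne.symm hl)) (not_lt.2 h3)
  · rintro rfl
    exact root_mem_BC le_rfl

theorem escMass_mono_time {K : ℕ} {t₁ t₂ : ℝ} (h : t₁ ≤ t₂) :
    escMass Φ f₀ ε K t₁ ≤ escMass Φ f₀ ε K t₂ := by
  refine gcE_mono f₀ ε fun n Z _ => mul_le_mul_right (Nat.cast_le.2 (Finset.card_le_card ?_)) _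
  intro i hi
  rw [Finset.mem_filter] at hi ⊢
  exact ⟨hi.1, lt_of_lt_of_le hi.2 (ncard_le_ncard (bc_mono Z i h) (toFinite _))⟩

theorem escMass_anti_K {K₁ K₂ : ℕ} {t : ℝ} (h : K₁ ≤ K₂) :
    escMass Φ f₀ ε K₂ t ≤ escMass Φ f₀ ε K₁ t := by
  refine gcE_mono f₀ ε fun n Z _ => ?_
  gcongr

theorem escMass_zero (hΦ : AdmissiblePotential Φ) (hε : 0 < ε) :
    escMass Φ f₀ ε 1 0 = 0 := by
  unfold escMass
  rw [gcE_congr (G := fun _ _ => 0) f₀ ε, gcE_zero]
  intro n Z hZ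
  have : (Finset.univ.filter fun i : Fin n => 1 < (bc Φ ε Z 0 i).ncard) = ∅ := by
    rw [Finset.filter_eq_empty_iff]
    intro i _
    rw [bc_zero hΦ hε hZ i, ncard_singleton]
    exact lt_irrefl _
  rw [this]
  simp

theorem NE_zero (hΦ : AdmissiblePotential Φ) : NE Φ f₀ 0 := fun δ _ =>
  ⟨1, 1, one_pos, fun ε hε _ => by rw [escMass_zero hΦ hε]; exact bot_le⟩

theorem NE.mono {t₁ t₂ : ℝ} (h : NE Φ f₀ t₂) (ht : t₁ ≤ t₂) : NE Φ f₀ t₁ := by
  intro δ hδ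
  obtain ⟨K, ε₀, hε₀, h1⟩ := h δ hδ
  exact ⟨K, ε₀, hε₀, fun ε hε hlt => (escMass_mono_time ht).trans (h1 ε hε hlt)⟩

end basics

/-! ### The two open ingredients -/

/-- The window step of section E. -/
def NEStep (Φ : Space3 → ℝ) (f₀ : PhasePoint → ℝ) (T : ℝ) : Prop :=
  ∃ h : ℝ, 0 < h ∧ ∀ t₁ t₂ : ℝ, 0 ≤ t₁ → t₁ ≤ t₂ → t₂ ≤ T → t₂ ≤ t₁ + h →
    NE Φ f₀ t₁ → NE Φ f₀ t₂

/-- Identification on `[0,T]`. -/
def Ident (Φ : Space3 → ℝ) (f₀ : PhasePoint → ℝ) (f : ℝ → PhasePoint → ℝ) (T : ℝ) : Prop :=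
  NE Φ f₀ T → ∀ s : ℕ, 1 ≤ s → FM167.LowerTV f₀ f T (flowEv Φ) s

/-- Induction over windows. -/
theorem ne_of_step {Φ : Space3 → ℝ} {f₀ : PhasePoint → ℝ} {T : ℝ}
    (hΦ : AdmissiblePotential Φ) (hT : 0 < T) (H : NEStep Φ f₀ T) : NE Φ f₀ T := by
  obtain ⟨h, hh, H⟩ := H
  obtain ⟨N, hN⟩ := exists_nat_gt (T / h)
  have key : ∀ m : ℕ, NE Φ f₀ (min (m * h) T) := by
    intro m
    induction m with
    | zero =>
      have : min ((0 : ℕ) * h) T = 0 := by simp [hT.le]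
      rw [this]
      exact NE_zero hΦ
    | succ m ih =>
      refine H _ _ (le_min (by positivity) hT.le) ?_ (min_le_right _ _) ?_ ih
      · refine min_le_min_right _ ?_
        push_cast
        nlinarith
      · rcases le_total (m * h) T with h1 | h1
        · rw [min_eq_left h1]
          refine (min_le_left _ _).trans ?_
          push_cast
          linarith
        · rw [min_eq_right h1]
          exact (min_le_right _ _).trans (by linarith)
  have := key N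
  rwa [min_eq_right] at this
  rw [div_lt_iff₀ hh] at hN
  exact hN.le

/-- `factorialMarginal` only sees the evolution on pair-excluded data. -/
theorem factorialMarginal_congr {f₀ : PhasePoint → ℝ} {ε : ℝ}
    {Ψ₁ Ψ₂ : (n : ℕ) → ℝ → Config n → Config n} {s : ℕ} {t : ℝ} {A : Set (Config s)}
    (h : ∀ n, ∀ Z ∈ PairExcluded ε n, Ψ₁ n t Z = Ψ₂ n t Z) :
    factorialMarginal f₀ ε Ψ₁ s t A = factorialMarginal f₀ ε Ψ₂ s t A := by
  unfold factorialMarginal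
  congr 1
  refine tsum_congr fun n => ?_
  congr 1
  refine lintegral_congr fun Z => ?_
  by_cases hZ : Z ∈ PairExcluded ε n
  · rw [h n Z hZ]
  · simp [gcWeight, Set.indicator_of_notMem hZ]

theorem lowerTV_congr {Φ : Space3 → ℝ} (hΦ : AdmissiblePotential Φ) {f₀ : PhasePoint → ℝ}
    {f : ℝ → PhasePoint → ℝ} {T : ℝ} {Ψ : ℝ → (n : ℕ) → ℝ → Config n → Config n}
    (hΨ : ∀ ε : ℝ, 0 < ε → IsNewtonianEvolution Φ ε (Ψ ε)) {s : ℕ}
    (H : FM167.LowerTV f₀ f T (flowEv Φ) s) : FM167.LowerTV f₀ f T Ψ s := by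
  intro δ hδ
  obtain ⟨ε₀, hε₀, h⟩ := H δ hδ
  refine ⟨ε₀, hε₀, fun ε hε hlt t ht A hA => ?_⟩
  rw [factorialMarginal_congr (Ψ₂ := flowEv Φ ε) fun n Z hZ =>
    Flow671.newtonian_eq_flow hΦ hε (hΨ ε hε) hZ t]
  exact h ε hε hlt t ht A hA

/-- **The assembly.** -/
theorem result_of
    (Hstep : ∀ (Φ : Space3 → ℝ) (β T : ℝ) (f₀ : PhasePoint → ℝ) (f : ℝ → PhasePoint → ℝ),
      KData Φ β T f₀ f → NEStep Φ f₀ T)
    (Hident : ∀ (Φ : Space3 → ℝ) (β T : ℝ) (f₀ : PhasePoint → ℝ) (f : ℝ → PhasePoint → ℝ),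
      KData Φ β T f₀ f → Ident Φ f₀ f T)
    (Φ : Space3 → ℝ) (hΦ : AdmissiblePotential Φ) (β : ℝ) (hβ : 0 < β) (T : ℝ) (hT : 0 < T)
    (f₀ : PhasePoint → ℝ) (hf₀ : ∀ z, 0 ≤ f₀ z) (hf₀d : ContDiff ℝ 1 f₀)
    (hf₀i : Integrable f₀) (hf₀m : ∫ z, f₀ z = 1)
    (hf₀b : HasSummableGaussianBound (2 * β) (fun x v => f₀ (x, v)))
    (hf₀g : HasSummableGaussianBound (2 * β) (fun x v => fderiv ℝ (fun y => f₀ (y, v)) x))
    (f : ℝ → PhasePoint → ℝ) (hf : IsRegularKineticSolution Φ β T f₀ f)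
    (Ψ : ℝ → (n : ℕ) → ℝ → Config n → Config n)
    (hΨ : ∀ ε : ℝ, 0 < ε → IsNewtonianEvolution Φ ε (Ψ ε))
    (s : ℕ) (hs : 1 ≤ s) (δ : ℝ) (hδ : 0 < δ) :
    ∃ ε₀ : ℝ, 0 < ε₀ ∧ ∀ ε : ℝ, 0 < ε → ε < ε₀ → ∀ t ∈ Set.Icc 0 T,
      ∀ A : Set (Config s), MeasurableSet A →
        factorialMarginal f₀ ε (Ψ ε) s t A ≤
            (∫⁻ Z in A, ∏ k, ENNReal.ofReal (f t (Z k))) + ENNReal.ofReal δ ∧
          (∫⁻ Z in A, ∏ k, ENNReal.ofReal (f t (Z k))) ≤
            factorialMarginal f₀ ε (Ψ ε) s t A + ENNReal.ofReal δ := by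
  have hD : KData Φ β T f₀ f := ⟨hΦ, hβ, hT, hf₀, hf₀d, hf₀i, hf₀m, hf₀b, hf₀g, hf⟩
  have hNE : NE Φ f₀ T := ne_of_step hΦ hT (Hstep Φ β T f₀ f hD)
  have hL : FM167.LowerTV f₀ f T Ψ s := lowerTV_congr hΦ hΨ (Hident Φ β T f₀ f hD hNE s hs)
  exact FM167.conclusion_of_lowerTV Φ β T f₀ hf₀ hf₀d hf₀i hf₀m f hf Ψ hΨ s hL δ hδ

end Crest.Agent.R122.Master566
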