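import Crest.Agent.R122.Relabel_674
import Crest.Agent.R122.PathCausal_968
import Crest.Agent.R122.Master_566
import Crest.Agent.R122.CausalMeas_291

/-!
Row 122, block C (helper674): **real histories which are collision trees**.

`RealTree Φ ε t Z i P ℓ p e` : in the Newton world of `Z`, the backward history of `(i, t)` is the
collision tree `(P, ℓ, p)` with labelling `e`: the particle `e k` follows the explicit trajectory of
the leaf `k` up to its protected time, and the active set at time `u` is `{e k | u ≤ prot k}`.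
-/

set_option autoImplicit false
set_option synthInstance.maxSize 1024

open MeasureTheory Set Filter Topology
open Crest.AnalysisR.Kinetic
open scoped ENNReal Classical

noncomputable section

namespace Crest.Agent.R122.RealTree674

open Kin796 Kin796.CTree Disc416 Scat818 Flow671 Flux663 Tree674 Final973 Causal291 GC311
  Relabel674 Master566

variable {Φ : Space3 → ℝ} {ε t : ℝ}

/-- The real backward history of `(i, t)` in the world `Z` is the tree `(P, ℓ, p)`. -/
structure RealTree (Φ : Space3 → ℝ) (ε t : ℝ) {κ : Type} [Fintype κ] (Z : κ → PhasePoint) (i : κ)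
    (P : CTree) (ℓ : PhasePoint) (p : Par P) (e : Idx P → κ) : Prop where
  valid : Valid Φ ε P t ℓ.2 p
  sep : Sep Φ ε P t ℓ p
  root : e (root P) = i
  inj : Function.Injective e
  agree : ∀ k u, 0 ≤ u → u ≤ prot P t p k → pth Φ ε Z u (e k) = path Φ ε P ℓ p u k
  past : ∀ u ∈ Icc 0 t, ∀ j, Past (Ct (pth Φ ε Z) ε) t i u j ↔ ∃ m, e m = j ∧ u ≤ prot P t p m

/-- The real backward history of `(i, t)` is a collision tree. -/
def Good (Φ : Space3 → ℝ) (ε t : ℝ) {κ : Type} [Fintype κ] (Z : κ → PhasePoint) (i : κ) : Prop :=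
  ∃ (P : CTree) (ℓ : PhasePoint) (p : Par P) (e : Idx P → κ), RealTree Φ ε t Z i P ℓ p e

section basic

variable {κ : Type} [Fintype κ] {Z : κ → PhasePoint} {i : κ} {P : CTree} {ℓ : PhasePoint}
  {p : Par P} {e : Idx P → κ}

theorem prot_nn (hε : 0 < ε) (ht : 0 ≤ t) (hv : Valid Φ ε P t ℓ.2 p) (k : Idx P) :
    0 ≤ prot P t p k := PathFlow968.prot_nonneg hε.le P ht ℓ.2 p hv.2 k

/-- the initial states are the lines of the tree -/
theorem RealTree.lines_eq (h : RealTree Φ ε t Z i P ℓ p e) (hΦ : AdmissiblePotential Φ)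
    (hε : 0 < ε) (ht : 0 ≤ t) (k : Idx P) : Z (e k) = lines Φ ε P ℓ p k := by
  have h1 := h.agree k 0 le_rfl (prot_nn hε ht h.valid k)
  rw [PathFlow968.path_zero P t ℓ p h.valid.2] at h1
  rw [← h1]
  show Z (e k) = flow Φ ε 0 Z (e k)
  rw [Flow671.flow_zero hΦ hε]

/-- the cluster is the range of the labelling -/
theorem RealTree.bc_eq (h : RealTree Φ ε t Z i P ℓ p e) (hε : 0 < ε) (ht : 0 ≤ t) :
    bc Φ ε Z t i = range e := by
  ext j
  show Past (Ct (pth Φ ε Z) ε) t i 0 j ↔ _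
  rw [h.past 0 ⟨le_rfl, ht⟩]
  constructor
  · rintro ⟨m, hm, _⟩; exact ⟨m, hm⟩
  · rintro ⟨m, hm⟩; exact ⟨m, hm, prot_nn hε ht h.valid m⟩

/-- the state of the root at the final time -/
theorem RealTree.state (h : RealTree Φ ε t Z i P ℓ p e) (hε : 0 < ε) (ht : 0 ≤ t) :
    pth Φ ε Z t i = onLine ℓ t := by
  have h1 := h.agree (Tree674.root P) t ht (by rw [Final973.prot_root])
  rw [h.root, PathFlow968.path_root_after hε.le h.valid.2 le_rfl] at h1
  exact h1

/-- particles which are not active keep their distance from the active ones -/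
theorem RealTree.avoid (h : RealTree Φ ε t Z i P ℓ p e) {u : ℝ} (hu : u ∈ Icc 0 t)
    {k : Idx P} (hk : u ≤ prot P t p k) {j : κ} (hj : ∀ m, e m = j → prot P t p m < u) :
    ε < dist (path Φ ε P ℓ p u k).1 (pth Φ ε Z u j).1 := by
  by_contra hle
  rw [not_lt] at hle
  have h1 : Past (Ct (pth Φ ε Z) ε) t i u (e k) := (h.past u hu _).2 ⟨k, rfl, hk⟩
  have h2 : Ct (pth Φ ε Z) ε u (e k) j := by
    unfold Ct
    rw [h.agree k u hu.1 hk]
    exact hle
  obtain ⟨m, hm, hm2⟩ := (h.past u hu _).1 (h1.contact h2)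
  exact absurd (hj m hm) (not_lt.2 hm2)

/-- a real tree is an embedded tree in the sense of `Follow_973` -/
theorem RealTree.emb (h : RealTree Φ ε t Z i P ℓ p e) :
    Emb Φ ε (pth Φ ε Z) P t ℓ p e := by
  refine ⟨h.inj, h.agree, ?_⟩
  intro k u hu0 hut huk j hj
  rw [h.agree k u hu0 huk]
  exact h.avoid ⟨hu0, hut.le⟩ huk hj

theorem RealTree.follow (h : RealTree Φ ε t Z i P ℓ p e) (hε : 0 < ε) :
    Follow (pth Φ ε Z) ε P i t e := by
  have := follow_of_emb hε h.valid h.sep h.emb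
  rwa [h.root] at this

/-- **Uniqueness of the real tree.** -/
theorem RealTree.unique (h : RealTree Φ ε t Z i P ℓ p e) (hΦ : AdmissiblePotential Φ) (hε : 0 < ε)
    (ht : 0 ≤ t) {P' : CTree} {ℓ' : PhasePoint} {p' : Par P'} {e' : Idx P' → κ}
    (h' : RealTree Φ ε t Z i P' ℓ' p' e') :
    (⟨P, (ℓ, p, e)⟩ : Σ P : CTree, (PhasePoint × Par P × (Idx P → κ))) = ⟨P', (ℓ', p', e')⟩ := by
  have h1 := (h.follow hε).unique (h'.follow hε)
  rw [Sigma.mk.inj_iff] at h1
  obtain ⟨rfl, h2⟩ := h1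
  rw [heq_iff_eq] at h2
  subst h2
  have h3 : lines Φ ε P ℓ p = lines Φ ε P ℓ' p' := by
    funext k
    rw [← h.lines_eq hΦ hε ht k, h'.lines_eq hΦ hε ht k]
  have h4 := inv_lines hΦ hε h.valid le_rfl
  have h5 := inv_lines hΦ hε h'.valid le_rfl
  rw [h3, h5] at h4
  rw [Prod.mk.injEq] at h4
  rw [h4.1, h4.2]

/-- the protected times are the last activity times -/
theorem RealTree.tau_eq (h : RealTree Φ ε t Z i P ℓ p e) (hε : 0 < ε) (ht : 0 ≤ t) (m : Idx P) :
    Causal291.tau (Ct (pth Φ ε Z) ε) t i (e m) = prot P t p m := by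
  have h0 := prot_nn hε ht h.valid m
  have hpt : prot P t p m ≤ t := Final973.prot_le P p m hε.le h.valid.2
  refine le_antisymm (csSup_le ⟨_, (h.past _ ⟨h0, hpt⟩ _).2 ⟨m, rfl, le_rfl⟩⟩ fun s hs => ?_) ?_
  · rcases le_total s 0 with h1 | h1
    · exact h1.trans h0
    · obtain ⟨m', hm', h2⟩ := (h.past s ⟨h1, hs.le⟩ _).1 hs
      rwa [h.inj hm'] at h2
  · exact le_csSup (bddAbove_past _) ((h.past _ ⟨h0, hpt⟩ _).2 ⟨m, rfl, le_rfl⟩)

/-- the isolated world of a tree: states and separation of active and released particles -/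
theorem sep_active (hε : 0 < ε) (hv : Valid Φ ε P t ℓ.2 p)
    (hs : Sep Φ ε P t ℓ p) {u : ℝ} (hu : u ∈ Icc 0 t) {k j : Idx P} (hk : u ≤ prot P t p k)
    (hj : prot P t p j < u) :
    ε < dist (path Φ ε P ℓ p u k).1 (path Φ ε P ℓ p u j).1 := by
  refine hs k j ?_ u hu ?_ ?_
  · rintro rfl
    exact absurd hk (not_le.2 hj)
  · intro hw
    exact absurd (inWindow_prot P hε.le hv.2 hw).2 (not_le.2 hj)
  · intro hw
    exact absurd (inWindow_prot P hε.le hv.2 hw).1 (not_le.2 hj)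

theorem lines_dom (hε : 0 < ε) (ht : 0 ≤ t) (hv : Valid Φ ε P t ℓ.2 p)
    (hs : Sep Φ ε P t ℓ p) : lines Φ ε P ℓ p ∈ Dom Φ (Idx P) :=
  PathFlow968.lines_mem_Dom hε ht hv.2 hs

/-- **The agreement clause follows from the others.** -/
theorem RealTree.of_past (hΦ : AdmissiblePotential Φ) (hε : 0 < ε) (ht : 0 ≤ t)
    (hZ : Z ∈ Dom Φ κ) (hv : Valid Φ ε P t ℓ.2 p) (hs : Sep Φ ε P t ℓ p)
    (hroot : e (Tree674.root P) = i) (hinj : Function.Injective e)
    (hl : ∀ k, Z (e k) = lines Φ ε P ℓ p k)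
    (hp : ∀ u ∈ Icc 0 t, ∀ j, Past (Ct (pth Φ ε Z) ε) t i u j ↔
      ∃ m, e m = j ∧ u ≤ prot P t p m) : RealTree Φ ε t Z i P ℓ p e := by
  refine ⟨hv, hs, hroot, hinj, ?_, hp⟩
  have hpath : ∀ u ∈ Icc 0 t, pth Φ ε (lines Φ ε P ℓ p) u = path Φ ε P ℓ p u := fun u hu =>
    (PathFlow968.path_eq_flow hΦ hε hv hs hu).symm
  have key := agree_of_antitone (ι₁ := κ) (ι₂ := Idx P) (κ := Idx P) (ε := ε) (T := t)
    (z₁ := pth Φ ε Z) (z₂ := pth Φ ε (lines Φ ε P ℓ p)) (e₁ := e) (e₂ := id)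
    (fun j => (continuous_pth hΦ hε Z j).continuousOn)
    (fun j => (continuous_pth hΦ hε _ j).continuousOn)
    (locUniq_pth hΦ hε t hZ (lines_dom hε ht hv hs)) hinj Function.injective_id
    (fun u => {k | u ≤ prot P t p k}) (fun s s' _ hss' _ k hk => hss'.trans hk)
    (fun k _ => by
      show flow Φ ε 0 Z (e k) = flow Φ ε 0 (lines Φ ε P ℓ p) k
      rw [Flow671.flow_zero hΦ hε, Flow671.flow_zero hΦ hε]
      exact hl k)
    (fun s hs' hag => by
      have hsI : s ∈ Icc 0 t := ⟨hs'.1, hs'.2.le⟩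
      refine ⟨?_, ?_⟩
      · intro k hk j hj
        by_contra hle
        rw [not_lt] at hle
        have h1 : Past (Ct (pth Φ ε Z) ε) t i s (e k) := (hp s hsI _).2 ⟨k, rfl, hk⟩
        obtain ⟨m, hm, hm2⟩ := (hp s hsI _).1 (h1.contact hle)
        exact hj ⟨m, hm2, hm⟩
      · intro k hk j hj
        have hj' : prot P t p j < s := by
          by_contra hle
          exact hj ⟨j, not_lt.1 hle, rfl⟩
        rw [hpath s hsI]
        exact sep_active hε hv hs hsI hk hj')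
  intro k u hu0 hu
  have hut : u ≤ t := hu.trans (Final973.prot_le P p k hε.le hv.2)
  have := key u ⟨hu0, hut⟩ k hu
  rw [hpath u ⟨hu0, hut⟩] at this
  exact this

/-- **Real tree from the isolated tree**: if the isolated configuration is a tree and, in the real
world, the particles which are not active keep away from the tubes of the tree, then the real
history is the tree. -/
theorem RealTree.of_avoid (hΦ : AdmissiblePotential Φ) (hε : 0 < ε) (ht : 0 ≤ t)
    (hZ : Z ∈ Dom Φ κ) (hv : Valid Φ ε P t ℓ.2 p) (hs : Sep Φ ε P t ℓ p)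
    (hroot : e (Tree674.root P) = i) (hinj : Function.Injective e)
    (hl : ∀ k, Z (e k) = lines Φ ε P ℓ p k)
    (hav : ∀ u ∈ Icc 0 t, ∀ k, u ≤ prot P t p k → ∀ j, (∀ m, e m = j → prot P t p m < u) →
      ε < dist (path Φ ε P ℓ p u k).1 (pth Φ ε Z u j).1) : RealTree Φ ε t Z i P ℓ p e := by
  have hpath : ∀ u ∈ Icc 0 t, pth Φ ε (lines Φ ε P ℓ p) u = path Φ ε P ℓ p u := fun u hu =>
    (PathFlow968.path_eq_flow hΦ hε hv hs hu).symm
  have hact : ∀ u, 0 ≤ u → ∀ k, k ∈ ActC (pth Φ ε (lines Φ ε P ℓ p)) (id : Idx P → Idx P) ε t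
      (Tree674.root P) u ↔ u ≤ prot P t p k := fun u hu0 k =>
    PathFlow968.past_world_iff hΦ hε ht hv hs hu0
  have key := compare (ι₁ := Idx P) (ι₂ := κ) (κ := Idx P) (ε := ε) (T := t)
    (z₁ := pth Φ ε (lines Φ ε P ℓ p)) (z₂ := pth Φ ε Z) (e₁ := id) (e₂ := e)
    (fun j => (continuous_pth hΦ hε _ j).continuousOn)
    (fun j => (continuous_pth hΦ hε Z j).continuousOn)
    (locUniq_pth hΦ hε t (lines_dom hε ht hv hs) hZ) Function.injective_id hinj
    ⟨ht, le_rfl⟩ (Tree674.root P) (fun k _ => ⟨k, rfl⟩)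
    (fun k _ => by
      show flow Φ ε 0 (lines Φ ε P ℓ p) k = flow Φ ε 0 Z (e k)
      rw [Flow671.flow_zero hΦ hε, Flow671.flow_zero hΦ hε]
      exact (hl k).symm)
    (fun s hsI k hk j hj => by
      rw [hpath s hsI]
      refine hav s hsI k ((hact s hsI.1 k).1 hk) j fun m hm => ?_
      by_contra hle
      exact hj ⟨m, (hact s hsI.1 m).2 (not_lt.1 hle), hm⟩)
  refine ⟨hv, hs, hroot, hinj, ?_, ?_⟩
  · intro k u hu0 hu
    have hut : u ≤ t := hu.trans (Final973.prot_le P p k hε.le hv.2)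
    have := key.1 u ⟨hu0, hut⟩ k ((hact u hu0 k).2 hu)
    rw [hpath u ⟨hu0, hut⟩] at this
    exact this.symm
  · intro u hu j
    have h1 := key.2 u hu
    rw [← hroot]
    show j ∈ Act (Ct (pth Φ ε Z) ε) t (e (Tree674.root P)) u ↔ _
    rw [h1]
    constructor
    · rintro ⟨m, hm, rfl⟩
      exact ⟨m, rfl, (hact u hu.1 m).1 hm⟩
    · rintro ⟨m, rfl, hm⟩
      exact ⟨m, (hact u hu.1 m).2 hm, rfl⟩

end basic

end Crest.Agent.R122.RealTree674

end
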