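import Crest.Agent.R122.TreeBound_335
import Crest.Agent.R122.GCBounds_311

/-!
# From Mecke'd real clusters to tree coordinates (row 122, general reduction)

`to_tree`: a Mecke'd sum over clusters `V` (root `j`, rest of the gas `w`, parameter `a`) of an
arbitrary functional `F` which is, pointwise, at most a functional `H` of ONE valid tree writing `V`
plus a measurable error `B`, is at most the integral of `H` over tree parameters plus the Mecke'd sum
of `B`.
-/

set_option autoImplicit false

open MeasureTheory Set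
open scoped Classical ENNReal
open Crest.AnalysisR.Kinetic
open Crest.Agent.R122.Kin796 Crest.Agent.R122.Kin796.CTree Crest.Agent.R122.Tree674
open Crest.Agent.R122.Relabel674 Crest.Agent.R122.TreeBound335 Crest.Agent.R122.GC311

noncomputable section

namespace Crest.Agent.R122.ToTree335

variable {Φ : Space3 → ℝ} {f₀ : PhasePoint → ℝ} {ε : ℝ}

/-- Product of the initial densities over the particles of a tree. -/
def pf (Φ : Space3 → ℝ) (f₀ : PhasePoint → ℝ) (ε : ℝ) (P : CTree) (z : PhasePoint × Par P) : ℝ≥0∞ :=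
  ∏ i, ENNReal.ofReal (f₀ (lines Φ ε P z.1 z.2 i))

/-- Measurable version of `pf`. -/
def pfM (Φ : Space3 → ℝ) (f₀ : PhasePoint → ℝ) (ε : ℝ) (P : CTree) (z : PhasePoint × Par P) :
    ℝ≥0∞ := ∏ i, ENNReal.ofReal (f₀ (linesM Φ ε P z.1 z.2 i))

theorem measurable_pfM (hΦ : AdmissiblePotential Φ) (hf : Measurable f₀) (P : CTree) :
    Measurable (pfM Φ f₀ ε P) := by
  unfold pfM
  refine Finset.measurable_prod _ fun i _ => ?_
  exact (hf.comp ((measurable_pi_apply i).comp (measurable_linesM hΦ ε P))).ennreal_ofReal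

theorem pfM_of_adm {P : CTree} {z : PhasePoint × Par P} (h : Adm Φ P z.1.2 z.2) :
    pfM Φ f₀ ε P z = pf Φ f₀ ε P z := by
  unfold pfM pf
  rw [linesM_of_adm ε h]

theorem measurable_gcE_par {Ω : Type*} [MeasurableSpace Ω] (hf : Measurable f₀)
    {F : Ω → (n : ℕ) → Config n → ℝ≥0∞}
    (hF : ∀ n, Measurable fun p : Ω × Config n => F p.1 n p.2) :
    Measurable fun ω => gcE f₀ ε (F ω) := by
  unfold gcE
  refine Measurable.const_mul (Measurable.tsum fun n => Measurable.const_mul ?_ _) _
  have h1 : Measurable fun p : Ω × Config n => gcWeight f₀ ε n p.2 * F p.1 n p.2 :=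
    ((measurable_gcWeight hf ε n).comp measurable_snd).mul (hF n)
  exact h1.lintegral_prod_right'

/-- Monotonicity of `ways`. -/
theorem ways_mono {T : ℝ} {G G' : (P : CTree) → PhasePoint × Par P → ℝ≥0∞}
    {k : ℕ} {V : Config k} {j : Fin k}
    (h : ∀ (P : CTree) (e : Idx P ≃ Fin k), e (root P) = j →
      (fun x => V (e x)) ∈ Skel Φ ε P T → G P (Tree674.inv Φ ε P T fun x => V (e x)) ≤
        G' P (Tree674.inv Φ ε P T fun x => V (e x))) :
    ways Φ ε T G V j ≤ ways Φ ε T G' V j := by
  unfold ways
  refine ENNReal.tsum_le_tsum fun P => Finset.sum_le_sum fun e _ => ?_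
  by_cases he : e (root P) = j ∧ (fun x => V (e x)) ∈ Skel Φ ε P T
  · rw [if_pos he, if_pos he]
    exact h P e he.1 he.2
  · rw [if_neg he, if_neg he]

/-- Multiplication of `ways` by a constant. -/
theorem mul_ways {T : ℝ} (c : ℝ≥0∞) (G : (P : CTree) → PhasePoint × Par P → ℝ≥0∞)
    {k : ℕ} (V : Config k) (j : Fin k) :
    c * ways Φ ε T G V j = ways Φ ε T (fun P z => c * G P z) V j := by
  unfold ways
  rw [← ENNReal.tsum_mul_left]
  refine tsum_congr fun P => ?_
  rw [Finset.mul_sum]
  refine Finset.sum_congr rfl fun e _ => ?_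
  rw [mul_ite, mul_zero]

variable {α : Type*} [MeasurableSpace α]

/-- Integration of `ways` over a parameter. -/
theorem lintegral_ways (ν : Measure α) {T : ℝ}
    {G : α → (P : CTree) → PhasePoint × Par P → ℝ≥0∞}
    (hG : ∀ P z, Measurable fun a => G a P z) {k : ℕ} (V : Config k) (j : Fin k) :
    ∫⁻ a, ways Φ ε T (G a) V j ∂ν = ways Φ ε T (fun P z => ∫⁻ a, G a P z ∂ν) V j := by
  unfold ways
  have hm : ∀ (P : CTree) (e : Idx P ≃ Fin k), Measurable fun a =>
      (if e (root P) = j ∧ (fun x => V (e x)) ∈ Skel Φ ε P T then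
        G a P (Tree674.inv Φ ε P T fun x => V (e x)) else 0) := by
    intro P e
    by_cases he : e (root P) = j ∧ (fun x => V (e x)) ∈ Skel Φ ε P T
    · simp only [if_pos he]; exact hG P _
    · simp only [if_neg he]; exact measurable_const
  rw [lintegral_tsum fun P => (Finset.measurable_sum _ fun e _ => hm P e).aemeasurable]
  refine tsum_congr fun P => ?_
  rw [lintegral_finsetSum _ fun e _ => hm P e]
  refine Finset.sum_congr rfl fun e _ => ?_
  by_cases he : e (root P) = j ∧ (fun x => V (e x)) ∈ Skel Φ ε P T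
  · simp only [if_pos he]
  · simp only [if_neg he, lintegral_zero]

/-- Gas expectation of `ways`. -/
theorem gcE_ways (hf : Measurable f₀) {T : ℝ}
    {G : (m : ℕ) → Config m → (P : CTree) → PhasePoint × Par P → ℝ≥0∞}
    (hG : ∀ m P z, Measurable fun w => G m w P z) {k : ℕ} (V : Config k) (j : Fin k) :
    gcE f₀ ε (fun m w => ways Φ ε T (G m w) V j) =
      ways Φ ε T (fun P z => gcE f₀ ε fun m w => G m w P z) V j := by
  unfold ways
  have hm : ∀ (m : ℕ) (P : CTree) (e : Idx P ≃ Fin k), Measurable fun w : Config m =>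
      (if e (root P) = j ∧ (fun x => V (e x)) ∈ Skel Φ ε P T then
        G m w P (Tree674.inv Φ ε P T fun x => V (e x)) else 0) := by
    intro m P e
    by_cases he : e (root P) = j ∧ (fun x => V (e x)) ∈ Skel Φ ε P T
    · simp only [if_pos he]; exact hG m P _
    · simp only [if_neg he]; exact measurable_const
  rw [gcE_tsum hf ε fun P m => Finset.measurable_sum _ fun e _ => hm m P e]
  refine tsum_congr fun P => ?_
  rw [gcE_finset_sum hf ε _ fun e _ m => hm m P e]
  refine Finset.sum_congr rfl fun e _ => ?_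
  by_cases he : e (root P) = j ∧ (fun x => V (e x)) ∈ Skel Φ ε P T
  · simp only [if_pos he]
  · simp only [if_neg he, gcE_zero]

/-- **General reduction to tree coordinates.** -/
theorem to_tree (hΦ : AdmissiblePotential Φ) (hf : Measurable f₀) (hε : 0 < ε) (ν : Measure α)
    [SFinite ν] {T : ℝ}
    {H : (P : CTree) → PhasePoint × Par P → (m : ℕ) → Config m → α → ℝ≥0∞}
    (hH : ∀ P m, Measurable fun q : (PhasePoint × Par P) × (Config m × α) =>
      H P q.1 m q.2.1 q.2.2)
    {F B : (k m : ℕ) → Config k → Config m → Fin k → α → ℝ≥0∞}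
    (hB : ∀ k m j, Measurable fun q : Config k × (Config m × α) => B k m q.1 q.2.1 j q.2.2)
    (hpt : ∀ (k m : ℕ) (V : Config k) (w : Config m) (j : Fin k) (a : α),
      V ∈ PairExcluded ε k → w ∈ PairExcluded ε m → Perp ε V w →
      F k m V w j a ≤ ways Φ ε T (fun P z => H P z m w a) V j + B k m V w j a) :
    ∑' k : ℕ, activity ε ^ k / (k.factorial : ℝ≥0∞) * ∫⁻ V : Config k, gcWeight f₀ ε k V *
        gcE f₀ ε (fun m w => perpInd ε V w * ∑ j : Fin k, ∫⁻ a, F k m V w j a ∂ν) ≤
      activity ε * (∑' P : CTree, ∫⁻ z : PhasePoint × Par P,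
        {z : PhasePoint × Par P | Valid Φ ε P T z.1.2 z.2}.indicator
          (fun z => wt Φ P z.1.2 z.2 * (pf Φ f₀ ε P z *
            gcE f₀ ε (fun m w => ∫⁻ a, H P z m w a ∂ν))) z) +
      ∑' k : ℕ, activity ε ^ k / (k.factorial : ℝ≥0∞) * ∫⁻ V : Config k, gcWeight f₀ ε k V *
        gcE f₀ ε (fun m w => perpInd ε V w * ∑ j : Fin k, ∫⁻ a, B k m V w j a ∂ν) := by
  -- notation
  set HI : (P : CTree) → PhasePoint × Par P → ℝ≥0∞ := fun P z =>
    gcE f₀ ε fun m w => ∫⁻ a, H P z m w a ∂ν with hHI
  set G : (P : CTree) → PhasePoint × Par P → ℝ≥0∞ := fun P z => pfM Φ f₀ ε P z * HI P z with hGdef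
  have hHa : ∀ (P : CTree) (z : PhasePoint × Par P) (m : ℕ) (w : Config m),
      Measurable fun a => H P z m w a := fun P z m w =>
    (hH P m).comp (measurable_const.prodMk (measurable_const.prodMk measurable_id))
  have hHz : ∀ (P : CTree) (m : ℕ), Measurable fun q : (PhasePoint × Par P) × Config m =>
      ∫⁻ a, H P q.1 m q.2 a ∂ν := by
    intro P m
    have h1 : Measurable fun q : ((PhasePoint × Par P) × Config m) × α =>
        H P q.1.1 m q.1.2 q.2 :=
      (hH P m).comp ((measurable_fst.comp measurable_fst).prodMk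
        ((measurable_snd.comp measurable_fst).prodMk measurable_snd))
    exact h1.lintegral_prod_right'
  have hHI' : ∀ P, Measurable (HI P) := fun P =>
    measurable_gcE_par hf (F := fun z m w => ∫⁻ a, H P z m w a ∂ν) fun m => hHz P m
  have hG : ∀ P, Measurable (G P) := fun P => (measurable_pfM hΦ hf P).mul (hHI' P)
  -- the error term
  have hBI : ∀ (k m : ℕ), Measurable fun q : Config k × Config m =>
      perpInd ε q.1 q.2 * ∑ j : Fin k, ∫⁻ a, B k m q.1 q.2 j a ∂ν := by
    intro k m
    refine (measurable_perpInd ε k m).mul (Finset.measurable_sum _ fun j _ => ?_)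
    have h1 : Measurable fun q : (Config k × Config m) × α => B k m q.1.1 q.1.2 j q.2 :=
      (hB k m j).comp ((measurable_fst.comp measurable_fst).prodMk
        ((measurable_snd.comp measurable_fst).prodMk measurable_snd))
    exact h1.lintegral_prod_right'
  -- pointwise in `V`
  have key : ∀ (k : ℕ) (V : Config k), gcWeight f₀ ε k V *
        gcE f₀ ε (fun m w => perpInd ε V w * ∑ j : Fin k, ∫⁻ a, F k m V w j a ∂ν) ≤
      ∑ j : Fin k, ways Φ ε T G V j + gcWeight f₀ ε k V *
        gcE f₀ ε (fun m w => perpInd ε V w * ∑ j : Fin k, ∫⁻ a, B k m V w j a ∂ν) := by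
    intro k V
    by_cases hV : V ∈ PairExcluded ε k
    swap
    · have h0 : gcWeight f₀ ε k V = 0 := by simp [gcWeight, Set.indicator_of_notMem hV]
      rw [h0, zero_mul]
      exact zero_le
    have hgw : gcWeight f₀ ε k V = ∏ i, ENNReal.ofReal (f₀ (V i)) := by
      simp [gcWeight, Set.indicator_of_mem hV]
    have h1 : gcE f₀ ε (fun m w => perpInd ε V w * ∑ j : Fin k, ∫⁻ a, F k m V w j a ∂ν) ≤
        gcE f₀ ε (fun m w => (∑ j : Fin k, ways Φ ε T
            (fun P z => ∫⁻ a, H P z m w a ∂ν) V j) +
          perpInd ε V w * ∑ j : Fin k, ∫⁻ a, B k m V w j a ∂ν) := by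
      refine gcE_mono f₀ ε fun m w hw => ?_
      unfold perpInd
      by_cases hp : Perp ε V w
      swap
      · rw [if_neg hp, zero_mul]; exact zero_le
      rw [if_pos hp, one_mul, one_mul, ← Finset.sum_add_distrib]
      refine Finset.sum_le_sum fun j _ => ?_
      have h2 : ∫⁻ a, F k m V w j a ∂ν ≤ ∫⁻ a, (ways Φ ε T (fun P z => H P z m w a) V j +
          B k m V w j a) ∂ν := lintegral_mono fun a => hpt k m V w j a hV hw hp
      have hBa : Measurable fun a => B k m V w j a :=
        (hB k m j).comp (measurable_const.prodMk (measurable_const.prodMk measurable_id))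
      rw [lintegral_add_right _ hBa,
        lintegral_ways ν (G := fun a P z => H P z m w a) (fun P z => hHa P z m w)] at h2
      exact h2
    have hm1 : ∀ m, Measurable fun w : Config m => ∑ j : Fin k, ways Φ ε T
        (fun P z => ∫⁻ a, H P z m w a ∂ν) V j := by
      intro m
      refine Finset.measurable_sum _ fun j _ => ?_
      unfold ways
      refine Measurable.tsum fun P => Finset.measurable_sum _ fun e _ => ?_
      by_cases he : e (root P) = j ∧ (fun x => V (e x)) ∈ Skel Φ ε P T
      · simp only [if_pos he]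
        exact (hHz P m).comp (measurable_const.prodMk measurable_id)
      · simp only [if_neg he]; exact measurable_const
    rw [gcE_add hf ε hm1, gcE_finset_sum hf ε _ (fun j _ m => by
      have h3 : Measurable fun w : Config m => ways Φ ε T
          (fun P z => ∫⁻ a, H P z m w a ∂ν) V j := by
        unfold ways
        refine Measurable.tsum fun P => Finset.measurable_sum _ fun e _ => ?_
        by_cases he : e (root P) = j ∧ (fun x => V (e x)) ∈ Skel Φ ε P T
        · simp only [if_pos he]
          exact (hHz P m).comp (measurable_const.prodMk measurable_id)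
        · simp only [if_neg he]; exact measurable_const
      exact h3)] at h1
    refine (mul_le_mul_right h1 _).trans ?_
    rw [mul_add]
    refine add_le_add ?_ le_rfl
    rw [Finset.mul_sum]
    refine Finset.sum_le_sum fun j _ => ?_
    rw [gcE_ways hf (G := fun m w P z => ∫⁻ a, H P z m w a ∂ν)
      (fun m P z => (hHz P m).comp (measurable_const.prodMk measurable_id)), mul_ways]
    refine ways_mono fun P e _ hW => ?_
    obtain ⟨hval, hlin⟩ := lines_inv hΦ hε hW
    have h4 : pfM Φ f₀ ε P (Tree674.inv Φ ε P T fun x => V (e x)) = gcWeight f₀ ε k V := by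
      rw [pfM_of_adm hval.1, hgw]
      unfold pf
      rw [hlin]
      exact Fintype.prod_equiv e _ _ fun x => rfl
    simp only [hGdef, hHI, h4]
    exact le_rfl
  -- integration
  have hsum : ∀ k : ℕ, activity ε ^ k / (k.factorial : ℝ≥0∞) * ∫⁻ V : Config k, gcWeight f₀ ε k V *
        gcE f₀ ε (fun m w => perpInd ε V w * ∑ j : Fin k, ∫⁻ a, F k m V w j a ∂ν) ≤
      activity ε ^ k / (k.factorial : ℝ≥0∞) * (∫⁻ V : Config k, ∑ j : Fin k, ways Φ ε T G V j) +
      activity ε ^ k / (k.factorial : ℝ≥0∞) * ∫⁻ V : Config k, gcWeight f₀ ε k V *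
        gcE f₀ ε (fun m w => perpInd ε V w * ∑ j : Fin k, ∫⁻ a, B k m V w j a ∂ν) := by
    intro k
    rw [← mul_add, ← lintegral_add_right]
    · exact mul_le_mul_right (lintegral_mono fun V => key k V) _
    · exact (measurable_gcWeight hf ε k).mul (measurable_gcE_par hf
        (F := fun (V : Config k) m w => perpInd ε V w * ∑ j : Fin k, ∫⁻ a, B k m V w j a ∂ν)
        fun m => hBI k m)
  refine (ENNReal.tsum_le_tsum hsum).trans ?_
  rw [ENNReal.tsum_add]
  refine add_le_add ?_ le_rfl
  have h5 := tree_bound_tsum hΦ hε (T := T) hG (F := fun k V j => ways Φ ε T G V j)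
    (fun k V j => le_rfl)
  refine h5.trans (mul_le_mul_right (ENNReal.tsum_le_tsum fun P => lintegral_mono fun z => ?_) _)
  by_cases hz : Valid Φ ε P T z.1.2 z.2
  · rw [indicator_of_mem (show z ∈ {z : PhasePoint × Par P | Valid Φ ε P T z.1.2 z.2} from hz),
      indicator_of_mem (show z ∈ {z : PhasePoint × Par P | Valid Φ ε P T z.1.2 z.2} from hz)]
    simp only [hGdef, pfM_of_adm hz.1]
    exact le_rfl
  · rw [indicator_of_notMem
      (show z ∉ {z : PhasePoint × Par P | Valid Φ ε P T z.1.2 z.2} from hz)]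
    exact zero_le

end Crest.Agent.R122.ToTree335
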