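import Crest.Agent.R122.InEq2Split_311
import Crest.Agent.R122.InEq2V_263
import Crest.Agent.R122.ToTree_335
import Crest.Agent.R122.RealTree_674
import Crest.Agent.R122.MeasEDefs_416
import Crest.Agent.R122.EquivE_416
import Crest.Agent.R122.SmallNull_566

/-!
# Row 122, INEQUALITY 2' (helper311): definitions for the assembly

* `topIn`, `topOut` : entrance and exit time of the top node (leaf: `0`).
* `HTreeC Φ ε T' u Z i P ℓ p e` : the real history of `(i, u)` in the world `Z` (closed past,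
  no condition on the root) is the tree `(P, ℓ, p)`, valid and separated at the horizon `T'`, cut at
  `u`.  `HTreeP` : the same for the history strictly before `u`.
* `MS F` : Mecke'd sum over clusters `V`, roots `j`, rest of the gas `w`.
* `TS T H` : integral of `H` over tree parameters and the gas.
* `to_tree1` : helper335's `to_tree` without parameter, in these names.
* `wQ` : energy weight of the leaves.
-/

set_option autoImplicit false

open MeasureTheory Set Filter Topology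
open scoped ENNReal
open Crest.AnalysisR.Kinetic
open Crest.Agent.R122.Flow671 Crest.Agent.R122.Loc45 Crest.Agent.R122.Causal291
open Crest.Agent.R122.Inf879 Crest.Agent.R122.GC311 Crest.Agent.R122.EDefs602
open Crest.Agent.R122.Kin796 Crest.Agent.R122.Kin796.CTree Crest.Agent.R122.Tree674
open Crest.Agent.R122.Relabel674 Crest.Agent.R122.TreeBound335 Crest.Agent.R122.ToTree335

noncomputable section

open scoped Classical

namespace Crest.Agent.R122.InEq2

variable {Φ : Space3 → ℝ} {f₀ : PhasePoint → ℝ} {ε : ℝ}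

/-! ### Real histories on a fixed horizon -/

/-- Entrance time of the top node (`0` for a leaf). -/
def topIn (Φ : Space3 → ℝ) (ε : ℝ) : ∀ P : CTree, Space3 → Par P → ℝ
  | leaf => fun _ _ => 0
  | node _ _ => fun v p => Tree674.sin Φ ε v p.1

/-- Exit time of the top node (`0` for a leaf). -/
def topOut : ∀ P : CTree, Par P → ℝ
  | leaf => fun _ => 0
  | node _ _ => fun p => p.1.1

/-- The real history of `(i, u)` (closed past, any state of the root) in the Newton world of `Z` is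
the tree `(P, ℓ, p)` (valid and separated at the horizon `T'`) cut at `u`. -/
structure HTreeC (Φ : Space3 → ℝ) (ε T' u : ℝ) {κ : Type} [Fintype κ] (Z : κ → PhasePoint) (i : κ)
    (P : CTree) (ℓ : PhasePoint) (p : Par P) (e : Idx P → κ) : Prop where
  valid : Valid Φ ε P T' ℓ.2 p
  sep : Sep Φ ε P T' ℓ p
  root : e (root P) = i
  inj : Function.Injective e
  top : topIn Φ ε P ℓ.2 p ≤ u
  agree : ∀ k s, 0 ≤ s → s ≤ u → s ≤ prot P T' p k → pth Φ ε Z s (e k) = path Φ ε P ℓ p s k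
  past : ∀ s ∈ Icc 0 u, ∀ j, Past (Ct (pth Φ ε Z) ε) u i s j ↔ ∃ m, e m = j ∧ s ≤ prot P T' p m

/-- The real history of `(i, u-)` (past strictly before `u`). -/
structure HTreeP (Φ : Space3 → ℝ) (ε T' u : ℝ) {κ : Type} [Fintype κ] (Z : κ → PhasePoint) (i : κ)
    (P : CTree) (ℓ : PhasePoint) (p : Par P) (e : Idx P → κ) : Prop where
  valid : Valid Φ ε P T' ℓ.2 p
  sep : Sep Φ ε P T' ℓ p
  root : e (root P) = i
  inj : Function.Injective e
  top : topIn Φ ε P ℓ.2 p < u
  agree : ∀ k s, 0 ≤ s → s < u → s ≤ prot P T' p k → pth Φ ε Z s (e k) = path Φ ε P ℓ p s k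
  past : ∀ s, 0 ≤ s → s < u → ∀ j, j ∈ pre (Ct (pth Φ ε Z) ε) i u s ↔
    ∃ m, e m = j ∧ s ≤ prot P T' p m

section hist

variable {T' u : ℝ} {κ : Type} [Fintype κ] {Z : κ → PhasePoint} {i : κ} {P : CTree}
  {ℓ : PhasePoint} {p : Par P} {e : Idx P → κ}

theorem HTreeC.prot_nonneg (h : HTreeC Φ ε T' u Z i P ℓ p e) (hε : 0 < ε) (hT : 0 ≤ T')
    (k : Idx P) : 0 ≤ prot P T' p k := PathFlow968.prot_nonneg hε.le P hT ℓ.2 p h.valid.2 k

theorem HTreeC.range_eq (h : HTreeC Φ ε T' u Z i P ℓ p e) (hε : 0 < ε) (hT : 0 ≤ T')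
    (hu : 0 ≤ u) : range e = BC (Ct (pth Φ ε Z) ε) u i := by
  ext j
  rw [mem_range]
  constructor
  · rintro ⟨m, rfl⟩
    exact (h.past 0 ⟨le_rfl, hu⟩ (e m)).2 ⟨m, rfl, h.prot_nonneg hε hT m⟩
  · intro hj
    obtain ⟨m, hm, -⟩ := (h.past 0 ⟨le_rfl, hu⟩ j).1 hj
    exact ⟨m, hm⟩

theorem HTreeC.lines_eq (h : HTreeC Φ ε T' u Z i P ℓ p e) (hΦ : AdmissiblePotential Φ)
    (hε : 0 < ε) (hT : 0 ≤ T') (hu : 0 ≤ u) (k : Idx P) : Z (e k) = lines Φ ε P ℓ p k := by
  have h1 := h.agree k 0 le_rfl hu (h.prot_nonneg hε hT k)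
  rw [PathFlow968.path_zero P T' ℓ p h.valid.2] at h1
  rw [← h1]
  show Z (e k) = flow Φ ε 0 Z (e k)
  rw [Flow671.flow_zero hΦ hε]

theorem HTreeP.prot_nonneg (h : HTreeP Φ ε T' u Z i P ℓ p e) (hε : 0 < ε) (hT : 0 ≤ T')
    (k : Idx P) : 0 ≤ prot P T' p k := PathFlow968.prot_nonneg hε.le P hT ℓ.2 p h.valid.2 k

theorem HTreeP.range_eq (h : HTreeP Φ ε T' u Z i P ℓ p e) (hε : 0 < ε) (hT : 0 ≤ T')
    (hu : 0 < u) : range e = pre (Ct (pth Φ ε Z) ε) i u 0 := by
  ext j
  rw [mem_range]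
  constructor
  · rintro ⟨m, rfl⟩
    exact (h.past 0 le_rfl hu (e m)).2 ⟨m, rfl, h.prot_nonneg hε hT m⟩
  · intro hj
    obtain ⟨m, hm, -⟩ := (h.past 0 le_rfl hu j).1 hj
    exact ⟨m, hm⟩

theorem HTreeP.lines_eq (h : HTreeP Φ ε T' u Z i P ℓ p e) (hΦ : AdmissiblePotential Φ)
    (hε : 0 < ε) (hT : 0 ≤ T') (hu : 0 < u) (k : Idx P) : Z (e k) = lines Φ ε P ℓ p k := by
  have h1 := h.agree k 0 le_rfl hu (h.prot_nonneg hε hT k)
  rw [PathFlow968.path_zero P T' ℓ p h.valid.2] at h1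
  rw [← h1]
  show Z (e k) = flow Φ ε 0 Z (e k)
  rw [Flow671.flow_zero hΦ hε]

omit [Fintype κ] in
/-- The tree of a cluster on the horizon `T'` is unique. -/
theorem tree_unique (hΦ : AdmissiblePotential Φ) (hε : 0 < ε) {P P' : CTree}
    {ℓ ℓ' : PhasePoint} {p : Par P} {p' : Par P'} {e : Idx P → κ} {e' : Idx P' → κ}
    (hv : Valid Φ ε P T' ℓ.2 p) (hs : Sep Φ ε P T' ℓ p)
    (hv' : Valid Φ ε P' T' ℓ'.2 p') (hs' : Sep Φ ε P' T' ℓ' p')
    (hi : Function.Injective e) (hi' : Function.Injective e')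
    (hr : e (Tree674.root P) = i) (hr' : e' (Tree674.root P') = i)
    (hl : ∀ x, Z (e x) = lines Φ ε P ℓ p x) (hl' : ∀ x, Z (e' x) = lines Φ ε P' ℓ' p' x)
    (hrange : range e = range e') :
    (⟨P, (ℓ, p), e⟩ : Σ P : CTree, (PhasePoint × Par P) × (Idx P → κ)) =
      ⟨P', (ℓ', p'), e'⟩ := by
  set B : Set κ := range e with hB
  have E1 : Idx P ≃ B := Equiv.ofInjective e hi
  let F1 : Idx P ≃ B := Equiv.ofInjective e hi
  let F2 : Idx P' ≃ B := (Equiv.ofInjective e' hi').trans (Equiv.setCongr hrange.symm)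
  have f1 : ∀ x, ((F1 x : B) : κ) = e x := fun x => rfl
  have f2 : ∀ x, ((F2 x : B) : κ) = e' x := fun x => rfl
  have t1 : IsTree Φ ε T' (fun b : B => Z b) (F1 (Tree674.root P)) P F1 :=
    ⟨rfl, ℓ, p, hv, hs, fun x => hl x⟩
  have hroot : F2 (Tree674.root P') = F1 (Tree674.root P) := by
    apply Subtype.ext
    rw [f1, f2, hr, hr']
  have t2 : IsTree Φ ε T' (fun b : B => Z b) (F1 (Tree674.root P)) P' F2 :=
    ⟨hroot, ℓ', p', hv', hs', fun x => hl' x⟩
  have h := isTree_unique hΦ hε t1 t2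
  rw [Sigma.mk.inj_iff] at h
  obtain ⟨rfl, h2⟩ := h
  rw [heq_iff_eq] at h2
  have h3 : e = e' := by
    funext x
    rw [← f1 x, ← f2 x, h2]
  subst h3
  have h4 : lines Φ ε P ℓ p = lines Φ ε P ℓ' p' := by
    funext x
    rw [← hl, ← hl']
  have h5 : (ℓ, p) = (ℓ', p') := by
    rw [← inv_lines hΦ hε hv le_rfl, ← inv_lines hΦ hε hv' le_rfl, h4]
  rw [h5]

/-- The history strictly before `u` from the closed histories at times close to `u`. -/
theorem hTreeP_of_hTreeC (hΦ : AdmissiblePotential Φ) (hε : 0 < ε) (hT : 0 ≤ T') {s₀ : ℝ}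
    (hs₀ : 0 ≤ s₀) (hs₀u : s₀ < u)
    (hBC : ∀ s, s₀ ≤ s → s < u → BC (Ct (pth Φ ε Z) ε) s i = BC (Ct (pth Φ ε Z) ε) s₀ i)
    (h : ∀ s, s₀ ≤ s → s < u → ∃ P ℓ p e, HTreeC Φ ε T' s Z i P ℓ p e) :
    ∃ P ℓ p e, HTreeP Φ ε T' u Z i P ℓ p e := by
  obtain ⟨P, ℓ, p, e, h0⟩ := h s₀ le_rfl hs₀u
  have hall : ∀ s, s₀ ≤ s → s < u → HTreeC Φ ε T' s Z i P ℓ p e := by
    intro s hs hsu
    obtain ⟨P', ℓ', p', e', h'⟩ := h s hs hsu
    have hr : range e = range e' := by
      rw [h0.range_eq hε hT hs₀, h'.range_eq hε hT (hs₀.trans hs), hBC s hs hsu]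
    have hu := tree_unique hΦ hε h0.valid h0.sep h'.valid h'.sep h0.inj h'.inj h0.root h'.root
      (h0.lines_eq hΦ hε hT hs₀) (h'.lines_eq hΦ hε hT (hs₀.trans hs)) hr
    rw [Sigma.mk.inj_iff] at hu
    obtain ⟨rfl, hu2⟩ := hu
    rw [heq_iff_eq, Prod.mk.injEq, Prod.mk.injEq] at hu2
    obtain ⟨⟨rfl, rfl⟩, rfl⟩ := hu2
    exact h'
  refine ⟨P, ℓ, p, e, h0.valid, h0.sep, h0.root, h0.inj, h0.top.trans_lt hs₀u, ?_, ?_⟩
  · intro k s hs hsu hk
    exact (hall (max s s₀) (le_max_right _ _) (max_lt hsu hs₀u)).agree k s hs (le_max_left _ _) hk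
  · intro s hs hsu j
    constructor
    · rintro ⟨r, hr, hp⟩
      have hr' : max r s₀ < u := max_lt hr.2 hs₀u
      refine ((hall (max r s₀) (le_max_right _ _) hr').past s
        ⟨hs, hr.1.trans (le_max_left _ _)⟩ j).1 ?_
      exact past_root_mono (le_max_left _ _) hp
    · intro hm
      have h1 : max s s₀ < u := max_lt hsu hs₀u
      exact ⟨max s s₀, ⟨le_max_left _ _, h1⟩,
        ((hall (max s s₀) (le_max_right _ _) h1).past s ⟨hs, le_max_left _ _⟩ j).2 hm⟩

end hist

/-! ### Mecke'd sums and tree integrals -/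

/-- Mecke'd sum over clusters `V`, roots `j`, rest of the gas `w`. -/
def MS (f₀ : PhasePoint → ℝ) (ε : ℝ)
    (F : (k m : ℕ) → Config k → Config m → Fin k → ℝ≥0∞) : ℝ≥0∞ :=
  ∑' k : ℕ, activity ε ^ k / (k.factorial : ℝ≥0∞) * ∫⁻ V : Config k, gcWeight f₀ ε k V *
    gcE f₀ ε (fun m w => perpInd ε V w * ∑ j : Fin k, F k m V w j)

/-- Integral over tree parameters (valid at the horizon `T`) and the gas. -/
def TS (Φ : Space3 → ℝ) (f₀ : PhasePoint → ℝ) (ε T : ℝ)
    (H : (P : CTree) → PhasePoint × Par P → (m : ℕ) → Config m → ℝ≥0∞) : ℝ≥0∞ :=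
  ∑' P : CTree, ∫⁻ z : PhasePoint × Par P,
    {z : PhasePoint × Par P | Valid Φ ε P T z.1.2 z.2}.indicator
      (fun z => wt Φ P z.1.2 z.2 * (pf Φ f₀ ε P z * gcE f₀ ε fun m w => H P z m w)) z

/-- Joint measurability of a Mecke'd functional. -/
def MeasMS (F : (k m : ℕ) → Config k → Config m → Fin k → ℝ≥0∞) : Prop :=
  ∀ k m j, Measurable fun q : Config k × Config m => F k m q.1 q.2 j

/-- Joint measurability of a tree functional. -/
def MeasTS (H : (P : CTree) → PhasePoint × Par P → (m : ℕ) → Config m → ℝ≥0∞) : Prop :=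
  ∀ P m, Measurable fun q : (PhasePoint × Par P) × Config m => H P q.1 m q.2

theorem MS_mono {F G : (k m : ℕ) → Config k → Config m → Fin k → ℝ≥0∞}
    (h : ∀ k m V w j, V ∈ PairExcluded ε k → w ∈ PairExcluded ε m → Perp ε V w →
      F k m V w j ≤ G k m V w j) : MS f₀ ε F ≤ MS f₀ ε G := by
  refine ENNReal.tsum_le_tsum fun k => mul_le_mul_right (lintegral_mono fun V => ?_) _
  by_cases hV : V ∈ PairExcluded ε k
  swap
  · have h0 : gcWeight f₀ ε k V = 0 := by simp [gcWeight, Set.indicator_of_notMem hV]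
    rw [h0, zero_mul, zero_mul]
  refine mul_le_mul_right (gcE_mono f₀ ε fun m w hw => ?_) _
  unfold perpInd
  by_cases hp : Perp ε V w
  · rw [if_pos hp, one_mul, one_mul]
    exact Finset.sum_le_sum fun j _ => h k m V w j hV hw hp
  · rw [if_neg hp, zero_mul, zero_mul]

theorem measurable_MS_inner (hf : Measurable f₀)
    {F : (k m : ℕ) → Config k → Config m → Fin k → ℝ≥0∞} (hF : MeasMS F) (k : ℕ) :
    Measurable fun V : Config k =>
      gcE f₀ ε (fun m w => perpInd ε V w * ∑ j : Fin k, F k m V w j) :=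
  measurable_gcE_par hf (F := fun (V : Config k) m w => perpInd ε V w * ∑ j : Fin k, F k m V w j)
    fun m => (measurable_perpInd ε k m).mul (Finset.measurable_sum _ fun j _ => hF k m j)

theorem MS_add (hf : Measurable f₀) {F G : (k m : ℕ) → Config k → Config m → Fin k → ℝ≥0∞}
    (hG : MeasMS G) : MS f₀ ε (fun k m V w j => F k m V w j + G k m V w j) =
      MS f₀ ε F + MS f₀ ε G := by
  unfold MS
  rw [← ENNReal.tsum_add]
  refine tsum_congr fun k => ?_
  have hm0 : Measurable fun V : Config k => gcWeight f₀ ε k V *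
      gcE f₀ ε (fun m w => perpInd ε V w * ∑ j : Fin k, G k m V w j) :=
    (measurable_gcWeight hf ε k).mul (measurable_MS_inner hf hG k)
  rw [← mul_add, ← lintegral_add_right _ hm0]
  congr 1
  refine lintegral_congr fun V => ?_
  rw [← mul_add]
  congr 1
  have hm : ∀ m, Measurable fun w : Config m => perpInd ε V w * ∑ j : Fin k, G k m V w j := by
    intro m
    have h1 : Measurable fun w : Config m => perpInd ε V w := measurable_perpInd_right ε m V
    have h2 : Measurable fun w : Config m => ∑ j : Fin k, G k m V w j := by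
      refine Finset.measurable_sum _ fun j _ => ?_
      have h3 := hG k m j
      exact Measurable.comp (g := fun q : Config k × Config m => G k m q.1 q.2 j)
        (f := fun w : Config m => (V, w)) h3 (measurable_const.prodMk measurable_id)
    exact h1.mul h2
  have e1 : gcE f₀ ε (fun m w => perpInd ε V w * ∑ j : Fin k,
      (fun k m V w j => F k m V w j + G k m V w j) k m V w j) =
      gcE f₀ ε (fun m w => perpInd ε V w * ∑ j : Fin k, G k m V w j +
        perpInd ε V w * ∑ j : Fin k, F k m V w j) := by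
    refine gcE_congr f₀ ε fun m w _ => ?_
    rw [← mul_add, ← Finset.sum_add_distrib]
    congr 1
    exact Finset.sum_congr rfl fun j _ => add_comm _ _
  rw [e1, gcE_add hf ε hm, add_comm]

theorem MS_const_mul {c : ℝ≥0∞} (hc : c ≠ ∞)
    (F : (k m : ℕ) → Config k → Config m → Fin k → ℝ≥0∞) :
    MS f₀ ε (fun k m V w j => c * F k m V w j) = c * MS f₀ ε F := by
  unfold MS
  rw [← ENNReal.tsum_mul_left]
  refine tsum_congr fun k => ?_
  rw [mul_left_comm, ← lintegral_const_mul' _ _ hc]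
  congr 1
  refine lintegral_congr fun V => ?_
  rw [mul_left_comm, ← gcE_const_mul f₀ ε hc]
  congr 1
  refine gcE_congr f₀ ε fun m w _ => ?_
  show perpInd ε V w * ∑ j : Fin k, c * F k m V w j = _
  rw [← Finset.mul_sum, mul_left_comm]

theorem measurable_TS_inner (hΦ : AdmissiblePotential Φ) (hf : Measurable f₀) {T : ℝ}
    {H : (P : CTree) → PhasePoint × Par P → (m : ℕ) → Config m → ℝ≥0∞} (hH : MeasTS H)
    (P : CTree) :
    Measurable fun z : PhasePoint × Par P =>
      {z : PhasePoint × Par P | Valid Φ ε P T z.1.2 z.2}.indicator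
        (fun z => wt Φ P z.1.2 z.2 * (pf Φ f₀ ε P z * gcE f₀ ε fun m w => H P z m w)) z := by
  have h1 : Measurable fun z : PhasePoint × Par P => wtM Φ P z.1.2 z.2 :=
    (measurable_wtM hΦ P).comp (measurable_fst.snd.prodMk measurable_snd)
  have h2 : Measurable (pfM Φ f₀ ε P) := measurable_pfM hΦ hf P
  have h3 : Measurable fun z : PhasePoint × Par P => gcE f₀ ε fun m w => H P z m w :=
    measurable_gcE_par hf (F := fun z m w => H P z m w) fun m => hH P m
  have h4 := (h1.mul (h2.mul h3)).indicator (measurableSet_valid hΦ ε P T)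
  convert h4 using 1
  funext z
  by_cases hz : z ∈ {z : PhasePoint × Par P | Valid Φ ε P T z.1.2 z.2}
  · rw [indicator_of_mem hz, indicator_of_mem hz]
    simp only [Pi.mul_apply]
    rw [wtM_of_adm hz.1, pfM_of_adm hz.1]
  · rw [indicator_of_notMem hz, indicator_of_notMem hz]

theorem TS_mono {T : ℝ}
    {H H' : (P : CTree) → PhasePoint × Par P → (m : ℕ) → Config m → ℝ≥0∞}
    (h : ∀ P z m w, Valid Φ ε P T z.1.2 z.2 → w ∈ PairExcluded ε m → H P z m w ≤ H' P z m w) :
    TS Φ f₀ ε T H ≤ TS Φ f₀ ε T H' := by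
  refine ENNReal.tsum_le_tsum fun P => lintegral_mono fun z => ?_
  by_cases hz : z ∈ {z : PhasePoint × Par P | Valid Φ ε P T z.1.2 z.2}
  · rw [indicator_of_mem hz, indicator_of_mem hz]
    exact mul_le_mul_right (mul_le_mul_right (gcE_mono f₀ ε fun m w hw => h P z m w hz hw) _) _
  · rw [indicator_of_notMem hz, indicator_of_notMem hz]

theorem TS_add (hΦ : AdmissiblePotential Φ) (hf : Measurable f₀) {T : ℝ}
    {H H' : (P : CTree) → PhasePoint × Par P → (m : ℕ) → Config m → ℝ≥0∞} (hH : MeasTS H) :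
    TS Φ f₀ ε T (fun P z m w => H P z m w + H' P z m w) = TS Φ f₀ ε T H + TS Φ f₀ ε T H' := by
  unfold TS
  rw [← ENNReal.tsum_add]
  refine tsum_congr fun P => ?_
  rw [← lintegral_add_left (measurable_TS_inner hΦ hf hH P)]
  refine lintegral_congr fun z => ?_
  by_cases hz : z ∈ {z : PhasePoint × Par P | Valid Φ ε P T z.1.2 z.2}
  · have hm0 : ∀ m, Measurable fun w : Config m => H P z m w := fun m =>
      (hH P m).comp (measurable_const.prodMk measurable_id)
    rw [indicator_of_mem hz, indicator_of_mem hz, indicator_of_mem hz, ← mul_add, ← mul_add,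
      ← gcE_add hf ε hm0]
  · rw [indicator_of_notMem hz, indicator_of_notMem hz, indicator_of_notMem hz, add_zero]

theorem TS_const_mul {T : ℝ} {c : ℝ≥0∞} (hc : c ≠ ∞)
    (H : (P : CTree) → PhasePoint × Par P → (m : ℕ) → Config m → ℝ≥0∞) :
    TS Φ f₀ ε T (fun P z m w => c * H P z m w) = c * TS Φ f₀ ε T H := by
  unfold TS
  rw [← ENNReal.tsum_mul_left]
  refine tsum_congr fun P => ?_
  rw [← lintegral_const_mul' _ _ hc]
  refine lintegral_congr fun z => ?_
  by_cases hz : z ∈ {z : PhasePoint × Par P | Valid Φ ε P T z.1.2 z.2}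
  · rw [indicator_of_mem hz, indicator_of_mem hz, gcE_const_mul f₀ ε hc]
    ring
  · rw [indicator_of_notMem hz, indicator_of_notMem hz, mul_zero]

/-- helper335's reduction without parameter. -/
theorem to_tree1 (hΦ : AdmissiblePotential Φ) (hf : Measurable f₀) (hε : 0 < ε) {T : ℝ}
    {H : (P : CTree) → PhasePoint × Par P → (m : ℕ) → Config m → ℝ≥0∞} (hH : MeasTS H)
    {F B : (k m : ℕ) → Config k → Config m → Fin k → ℝ≥0∞} (hB : MeasMS B)
    (hpt : ∀ (k m : ℕ) (V : Config k) (w : Config m) (j : Fin k),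
      V ∈ PairExcluded ε k → w ∈ PairExcluded ε m → Perp ε V w →
      F k m V w j ≤ ways Φ ε T (fun P z => H P z m w) V j + B k m V w j) :
    MS f₀ ε F ≤ activity ε * TS Φ f₀ ε T H + MS f₀ ε B := by
  have h := to_tree (α := Unit) hΦ hf hε (Measure.dirac ()) (T := T)
    (H := fun P z m w _ => H P z m w)
    (fun P m => (hH P m).comp (measurable_fst.prodMk measurable_snd.fst))
    (F := fun k m V w j _ => F k m V w j) (B := fun k m V w j _ => B k m V w j)
    (fun k m j => (hB k m j).comp (measurable_fst.prodMk measurable_snd.fst))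
    (fun k m V w j _ => hpt k m V w j)
  simp only [lintegral_dirac] at h
  exact h

/-! ### The energy weight of the leaves -/

/-- `∑_leaves (1 + |v|²)` (velocities at time `0`). -/
def wQ (Φ : Space3 → ℝ) (ε : ℝ) (P : CTree) (z : PhasePoint × Par P) : ℝ≥0∞ :=
  ∑ i, ENNReal.ofReal (1 + ‖(linesM Φ ε P z.1 z.2 i).2‖ ^ 2)

theorem measurable_wQ (hΦ : AdmissiblePotential Φ) (P : CTree) : Measurable (wQ Φ ε P) := by
  unfold wQ
  refine Finset.measurable_sum _ fun i _ => ?_
  have h : Measurable fun z : PhasePoint × Par P => (linesM Φ ε P z.1 z.2 i).2 :=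
    ((measurable_pi_apply i).comp (measurable_linesM hΦ ε P)).snd
  exact ((h.norm.pow_const 2).const_add 1).ennreal_ofReal

theorem wQ_eq {P : CTree} {z : PhasePoint × Par P} (h : Adm Φ P z.1.2 z.2) :
    wQ Φ ε P z = ∑ i, ENNReal.ofReal (1 + ‖(lines Φ ε P z.1 z.2 i).2‖ ^ 2) := by
  unfold wQ
  rw [linesM_of_adm ε h]

/-- The weight of the block is the weight of the leaves. -/
theorem eW_block {k m : ℕ} {V : Config k} {w : Config m} {P : CTree} {z : PhasePoint × Par P}
    (e : Idx P ≃ Fin k) (h : Adm Φ P z.1.2 z.2)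
    (hV : ∀ x, V (e x) = lines Φ ε P z.1 z.2 x) :
    eW (Fin.append V w : Config (k + m)) (block k m) = wQ Φ ε P z := by
  rw [wQ_eq h]
  unfold eW block
  rw [Finset.sum_map]
  have h1 : ∀ j : Fin k, (Fin.append V w : Config (k + m)) (Fin.castAddEmb m j) = V j :=
    fun j => Fin.append_left V w j
  simp only [h1]
  exact (Fintype.sum_equiv e _ _ fun x => by rw [hV x]).symm

end Crest.Agent.R122.InEq2

end
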