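import Crest.Agent.R122.Mark5_307

/-!
Row 122, block H7b (helper307), part 6: literal forms of the crude marked exit bound (MT2) for the
consumers (302, 424, 410, 370): leaf datum `ofReal (f₀ ·)`, energy weights, iterated integrals.
-/

set_option autoImplicit false
set_option synthInstance.maxSize 1024

open MeasureTheory Set Filter Topology
open Crest.AnalysisR.Kinetic
open scoped ENNReal

noncomputable section

namespace Crest.Agent.R122.Mark307

open Kin796 Kin796.CTree Disc416 Scat818 Flow671 Flux663 Tree674 TreeDom974 PathFlow968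
open TreeLines335 EDefs602 EBasic602
open scoped Classical

variable {Φ : Space3 → ℝ}

/-- the right side as an iterated integral -/
theorem lintegral_bline {b' T' : ℝ} {φ : BLine → ℝ≥0∞} (hφ : Measurable φ) :
    ∫⁻ d : BLine, (Ioo 0 T').indicator 1 d.1 * gE b' d.2.2 * φ d =
      ∫⁻ τ in Ioo 0 T', ∫⁻ z : PhasePoint, ENNReal.ofReal (Real.exp (-b' * ‖z.2‖ ^ 2)) *
        φ (τ, z) := by
  have hm : Measurable fun d : BLine => (Ioo 0 T').indicator (1 : ℝ → ℝ≥0∞) d.1 * gE b' d.2.2 *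
      φ d := by
    refine Measurable.mul (Measurable.mul ?_ ((measurable_gE b').comp measurable_snd.snd)) hφ
    exact (measurable_one.indicator measurableSet_Ioo).comp measurable_fst
  rw [Tree674.lintegral_pair hm, ← lintegral_indicator measurableSet_Ioo]
  refine lintegral_congr fun τ => ?_
  by_cases hτ : τ ∈ Ioo 0 T'
  · simp only [indicator_of_mem hτ, Pi.one_apply, one_mul, gE]
  · simp only [indicator_of_notMem hτ, zero_mul, lintegral_zero]

/-- **(MT2) with weights** bounded by `M exp (a · energy)`. -/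
theorem exit_mass_w (hΦ : AdmissiblePotential Φ) {f₀ : PhasePoint → ℝ} (hf : Measurable f₀)
    {C b : ℝ} (hC : 0 ≤ C) (hb : ∀ z, f₀ z ≤ C * Real.exp (-b * ‖z.2‖ ^ 2)) {a b' : ℝ}
    (hb' : 0 < b') (hab : b' + a < b) (P : CTree) (T : ℝ) :
    ∃ C' : ℝ≥0∞, C' ≠ ∞ ∧ ∀ (ε T' : ℝ), 0 < ε → T' ≤ T → ∀ (M : ℝ≥0∞)
      (q : PhasePoint × Par P → ℝ≥0∞),
      (∀ z, Valid Φ ε P T' z.1.2 z.2 →
        q z ≤ M * ENNReal.ofReal (Real.exp (a * ∑ i, ‖vels Φ P z.1.2 z.2 i‖ ^ 2))) →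
      ∀ x : Idx P, x ≠ root P → ∀ F : ML → ℝ≥0∞, Measurable F →
      ∫⁻ z : PhasePoint × Par P, {z : PhasePoint × Par P | Valid Φ ε P T' z.1.2 z.2}.indicator
        (fun z => wt Φ P z.1.2 z.2 * (∏ i, ENNReal.ofReal (f₀ (lines Φ ε P z.1 z.2 i))) *
          q z * F (lineML Φ ε P z x)) z ≤
        C' * M * ∫⁻ τ in Ioo 0 T', ∫⁻ z : PhasePoint,
          ENNReal.ofReal (Real.exp (-b' * ‖z.2‖ ^ 2)) * F ((τ, z), TreeLines335.mk P x) := by
  set k : PhasePoint → ℝ≥0∞ := fun z =>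
    ENNReal.ofReal (f₀ z) * ENNReal.ofReal (Real.exp (a * ‖z.2‖ ^ 2)) with hk
  have hkm : Measurable k := by
    refine (ENNReal.measurable_ofReal.comp hf).mul ?_
    fun_prop
  have hkb : ∀ z, k z ≤ ENNReal.ofReal (C * Real.exp (-(b - a) * ‖z.2‖ ^ 2)) := by
    intro z
    rw [hk]
    simp only
    rw [← ENNReal.ofReal_mul' (Real.exp_pos _).le]
    refine ENNReal.ofReal_le_ofReal ?_
    calc f₀ z * Real.exp (a * ‖z.2‖ ^ 2)
        ≤ (C * Real.exp (-b * ‖z.2‖ ^ 2)) * Real.exp (a * ‖z.2‖ ^ 2) :=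
          mul_le_mul_of_nonneg_right (hb z) (Real.exp_pos _).le
      _ = C * Real.exp (-(b - a) * ‖z.2‖ ^ 2) := by
          rw [mul_assoc, ← Real.exp_add]; congr 2; ring
  obtain ⟨C', hC', H⟩ := crude_exit hΦ hC hb' (b := b - a) (by linarith) hkm hkb P T
  refine ⟨C', hC', fun ε T' hε hT M q hq x hx F hF => ?_⟩
  obtain ⟨m, hm⟩ := exIdx_surj P x hx
  have h1 := H ε T' hε hT m (fun d => F (d, TreeLines335.mk P x))
    (hF.comp (measurable_id.prodMk measurable_const))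
  have hbl : ∫⁻ d : BLine, (Ioo 0 T').indicator 1 d.1 * gE b' d.2.2 *
      F (d, TreeLines335.mk P x) = ∫⁻ τ in Ioo 0 T', ∫⁻ z : PhasePoint,
        ENNReal.ofReal (Real.exp (-b' * ‖z.2‖ ^ 2)) * F ((τ, z), TreeLines335.mk P x) :=
    lintegral_bline (φ := fun d => F (d, TreeLines335.mk P x))
      (hF.comp (measurable_id.prodMk measurable_const))
  rw [hbl] at h1
  have h2 : ∀ z : PhasePoint × Par P,
      {z : PhasePoint × Par P | Valid Φ ε P T' z.1.2 z.2}.indicator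
        (fun z => wt Φ P z.1.2 z.2 * (∏ i, ENNReal.ofReal (f₀ (lines Φ ε P z.1 z.2 i))) *
          q z * F (lineML Φ ε P z x)) z ≤
      M * (vw Φ ε P T' z * ((∏ i, k (lines Φ ε P z.1 z.2 i)) *
        F (exl Φ ε m z.1 z.2, TreeLines335.mk P x))) := by
    intro z
    by_cases hz : Valid Φ ε P T' z.1.2 z.2
    · rw [indicator_of_mem (show z ∈ {z : PhasePoint × Par P | Valid Φ ε P T' z.1.2 z.2} from hz),
        vw_of_valid hz]
      have h3 : ∏ i, k (lines Φ ε P z.1 z.2 i) =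
          (∏ i, ENNReal.ofReal (f₀ (lines Φ ε P z.1 z.2 i))) *
            ENNReal.ofReal (Real.exp (a * ∑ i, ‖vels Φ P z.1.2 z.2 i‖ ^ 2)) := by
        rw [hk]
        simp only
        rw [Finset.prod_mul_distrib, ← ENNReal.ofReal_prod_of_nonneg
          (fun i _ => (Real.exp_pos (a * ‖(lines Φ ε P z.1 z.2 i).2‖ ^ 2)).le),
          ← Real.exp_sum, ← Finset.mul_sum]
        simp only [Hid424.lines_vel]
      have h4 : lineML Φ ε P z x = (exl Φ ε m z.1 z.2, TreeLines335.mk P x) := by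
        rw [← hm, lineML_exIdx, mk_exIdx]
      rw [h3, h4]
      calc wt Φ P z.1.2 z.2 * (∏ i, ENNReal.ofReal (f₀ (lines Φ ε P z.1 z.2 i))) *
            q z * F (exl Φ ε m z.1 z.2, TreeLines335.mk P x)
          ≤ wt Φ P z.1.2 z.2 * (∏ i, ENNReal.ofReal (f₀ (lines Φ ε P z.1 z.2 i))) *
            (M * ENNReal.ofReal (Real.exp (a * ∑ i, ‖vels Φ P z.1.2 z.2 i‖ ^ 2))) *
              F (exl Φ ε m z.1 z.2, TreeLines335.mk P x) := by
            gcongr
            exact hq z hz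
        _ = _ := by ring
    · rw [indicator_of_notMem
        (show z ∉ {z : PhasePoint × Par P | Valid Φ ε P T' z.1.2 z.2} from hz)]
      exact bot_le
  have hmeas : Measurable fun z : PhasePoint × Par P => vw Φ ε P T' z *
      ((∏ i, k (linesM Φ ε P z.1 z.2 i)) * F (exM Φ ε m z, TreeLines335.mk P x)) := by
    refine (measurable_vw hΦ ε P T').mul (Measurable.mul ?_ ?_)
    · exact Finset.measurable_prod _ fun i _ => hkm.comp ((measurable_pi_apply i).comp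
        (measurable_linesM hΦ ε P))
    · exact hF.comp ((measurable_exM hΦ ε m).prodMk measurable_const)
  have e2 : ∀ z : PhasePoint × Par P, vw Φ ε P T' z * ((∏ i, k (lines Φ ε P z.1 z.2 i)) *
        F (exl Φ ε m z.1 z.2, TreeLines335.mk P x)) =
      vw Φ ε P T' z * ((∏ i, k (linesM Φ ε P z.1 z.2 i)) *
        F (exM Φ ε m z, TreeLines335.mk P x)) := by
    intro z
    by_cases hz : vw Φ ε P T' z = 0
    · rw [hz, zero_mul, zero_mul]
    · have hV := valid_of_vw hz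
      rw [linesM_of_adm ε hV.1, exM_eq m hV.1]
  calc _ ≤ ∫⁻ z : PhasePoint × Par P, M * (vw Φ ε P T' z * ((∏ i, k (lines Φ ε P z.1 z.2 i)) *
        F (exl Φ ε m z.1 z.2, TreeLines335.mk P x))) := lintegral_mono h2
    _ = M * ∫⁻ z : PhasePoint × Par P, vw Φ ε P T' z * ((∏ i, k (lines Φ ε P z.1 z.2 i)) *
        F (exl Φ ε m z.1 z.2, TreeLines335.mk P x)) := by
        simp only [e2]
        rw [lintegral_const_mul _ hmeas]
    _ ≤ M * (C' * ∫⁻ τ in Ioo 0 T', ∫⁻ z : PhasePoint,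
          ENNReal.ofReal (Real.exp (-b' * ‖z.2‖ ^ 2)) * F ((τ, z), TreeLines335.mk P x)) :=
        mul_le_mul_right h1 _
    _ = _ := by ring

/-- `∑ (1 + |v_i|²) ≤ M exp (a · energy)` -/
theorem sum_energy_le {a : ℝ} (ha : 0 < a) (P : CTree) (u : Idx P → Space3) :
    ∑ i, ENNReal.ofReal (1 + ‖u i‖ ^ 2) ≤
      ENNReal.ofReal (P.leaves * max 1 (1 / a)) * ENNReal.ofReal (Real.exp (a * ∑ i, ‖u i‖ ^ 2)) := by
  have hM : 0 ≤ max 1 (1 / a) := le_trans zero_le_one (le_max_left _ _)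
  rw [← ENNReal.ofReal_sum_of_nonneg fun i _ => by positivity,
    ← ENNReal.ofReal_mul (by positivity)]
  refine ENNReal.ofReal_le_ofReal ?_
  have h1 : ∀ i, 1 + ‖u i‖ ^ 2 ≤ max 1 (1 / a) * Real.exp (a * ∑ j, ‖u j‖ ^ 2) := by
    intro i
    have h2 : ‖u i‖ ^ 2 ≤ ∑ j, ‖u j‖ ^ 2 :=
      Finset.single_le_sum (f := fun j => ‖u j‖ ^ 2) (fun j _ => by positivity)
        (Finset.mem_univ i)
    set E := ∑ j, ‖u j‖ ^ 2 with hE
    have hE0 : 0 ≤ E := Finset.sum_nonneg fun j _ => by positivity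
    have h3 : 1 + a * E ≤ Real.exp (a * E) := by
      have := Real.add_one_le_exp (a * E)
      linarith
    have h4 : 1 + E ≤ max 1 (1 / a) * (1 + a * E) := by
      have e1 : (1 : ℝ) ≤ max 1 (1 / a) := le_max_left _ _
      have e2 : 1 / a ≤ max 1 (1 / a) := le_max_right _ _
      have e3 : 1 ≤ max 1 (1 / a) * a := by
        calc (1 : ℝ) = 1 / a * a := by field_simp
          _ ≤ _ := mul_le_mul_of_nonneg_right e2 ha.le
      nlinarith
    calc 1 + ‖u i‖ ^ 2 ≤ 1 + E := by linarith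
      _ ≤ max 1 (1 / a) * (1 + a * E) := h4
      _ ≤ _ := mul_le_mul_of_nonneg_left h3 hM
  calc ∑ i, (1 + ‖u i‖ ^ 2) ≤ ∑ _i : Idx P, max 1 (1 / a) * Real.exp (a * ∑ j, ‖u j‖ ^ 2) :=
        Finset.sum_le_sum fun i _ => h1 i
    _ = _ := by
        rw [Finset.sum_const, Finset.card_univ, card_idx, nsmul_eq_mul]
        ring

/-- **(MT2), literal form for 302**: weight `∑ (1 + |v_i|²)`. -/
theorem exit_mass_Wt (hΦ : AdmissiblePotential Φ) {f₀ : PhasePoint → ℝ} (hf : Measurable f₀)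
    {C b : ℝ} (hC : 0 ≤ C) (hb : ∀ z, f₀ z ≤ C * Real.exp (-b * ‖z.2‖ ^ 2)) {b' : ℝ}
    (hb' : 0 < b') (hbb : b' < b) (P : CTree) (T : ℝ) :
    ∃ C' : ℝ≥0∞, C' ≠ ∞ ∧ ∀ (ε T' : ℝ), 0 < ε → T' ≤ T →
      ∀ x : Idx P, x ≠ root P → ∀ F : ML → ℝ≥0∞, Measurable F →
      ∫⁻ z : PhasePoint × Par P, {z : PhasePoint × Par P | Valid Φ ε P T' z.1.2 z.2}.indicator
        (fun z => wt Φ P z.1.2 z.2 * (∏ i, ENNReal.ofReal (f₀ (lines Φ ε P z.1 z.2 i))) *
          (∑ i, ENNReal.ofReal (1 + ‖(lines Φ ε P z.1 z.2 i).2‖ ^ 2)) *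
            F (lineML Φ ε P z x)) z ≤
        C' * ∫⁻ τ in Ioo 0 T', ∫⁻ z : PhasePoint,
          ENNReal.ofReal (Real.exp (-b' * ‖z.2‖ ^ 2)) * F ((τ, z), TreeLines335.mk P x) := by
  set a : ℝ := (b - b') / 2 with ha
  have ha0 : 0 < a := by rw [ha]; linarith
  obtain ⟨C', hC', H⟩ := exit_mass_w hΦ hf hC hb (a := a) hb' (by rw [ha]; linarith) P T
  refine ⟨C' * ENNReal.ofReal (P.leaves * max 1 (1 / a)),
    ENNReal.mul_ne_top hC' ENNReal.ofReal_ne_top, fun ε T' hε hT x hx F hF => ?_⟩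
  refine H ε T' hε hT _ (fun z => ∑ i, ENNReal.ofReal (1 + ‖(lines Φ ε P z.1 z.2 i).2‖ ^ 2))
    (fun z _ => ?_) x hx F hF
  simp only [Hid424.lines_vel]
  exact sum_energy_le ha0 P _

/-- **(MT2), literal form for 424**: no weight. -/
theorem exit_mass (hΦ : AdmissiblePotential Φ) {f₀ : PhasePoint → ℝ} (hf : Measurable f₀)
    {C b : ℝ} (hC : 0 ≤ C) (hb : ∀ z, f₀ z ≤ C * Real.exp (-b * ‖z.2‖ ^ 2)) {b' : ℝ}
    (hb' : 0 < b') (hbb : b' < b) (P : CTree) (T : ℝ) :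
    ∃ C' : ℝ≥0∞, C' ≠ ∞ ∧ ∀ (ε T' : ℝ), 0 < ε → T' ≤ T →
      ∀ x : Idx P, x ≠ root P → ∀ F : ML → ℝ≥0∞, Measurable F →
      ∫⁻ z : PhasePoint × Par P, {z : PhasePoint × Par P | Valid Φ ε P T' z.1.2 z.2}.indicator
        (fun z => wt Φ P z.1.2 z.2 * (∏ i, ENNReal.ofReal (f₀ (lines Φ ε P z.1 z.2 i))) *
            F (lineML Φ ε P z x)) z ≤
        C' * ∫⁻ τ in Ioo 0 T', ∫⁻ z : PhasePoint,
          ENNReal.ofReal (Real.exp (-b' * ‖z.2‖ ^ 2)) * F ((τ, z), TreeLines335.mk P x) := by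
  obtain ⟨C', hC', H⟩ := exit_mass_w hΦ hf hC hb (a := 0) hb' (by linarith) P T
  refine ⟨C', hC', fun ε T' hε hT x hx F hF => ?_⟩
  have h := H ε T' hε hT 1 (fun _ => 1) (fun z _ => by simp) x hx F hF
  simpa only [mul_one] using h

end Crest.Agent.R122.Mark307

end
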