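import Crest.Agent.R122.Major_522
import Crest.Agent.R122.InEq2Defs_311
import Crest.Agent.R122.Mark6_307
import Crest.Agent.R122.LineMeas_994
import Crest.Agent.R122.EInf_879
import Crest.Agent.R122.MeasEDefs_416
import Crest.Agent.R122.GIVChild_383

/-!
# Row 122, gas level of H12 / F3 (helper522): the touched mass of the exit lines of a tree

* `pTouch Φ f₀ ε K u₀ l` : probability (in the gas) that the line `l` touches by the time `u₀`.
* `lintegral_pTouch_le` : `∫_{τ < T'} ∫_z exp(-b'|v|²) pTouch ((τ, z), n) ≤ ρ^{-n} tnMass K u₀`.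
* `TP`, `MeasTP` : integral over the parameters of ONE tree and the gas (`TS = ∑' P, TP P`).
* `exists_mass` : `∫_z {Valid} wt pf wQ · ∑_{x ≠ root} P(thetaL (lineML x) ≤ u₀) ≤ C tnMass K u₀`,
  `C` independent of `ε`, `K`, `u₀`.
-/

set_option autoImplicit false

open MeasureTheory Set Filter Topology
open scoped Classical ENNReal
open Crest.AnalysisR.Kinetic
open Crest.Agent.R122.Flow671 Crest.Agent.R122.Loc45 Crest.Agent.R122.Causal291
open Crest.Agent.R122.Inf879 Crest.Agent.R122.GC311 Crest.Agent.R122.EDefs602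
open Crest.Agent.R122.Kin796 Crest.Agent.R122.Kin796.CTree Crest.Agent.R122.Tree674
open Crest.Agent.R122.Relabel674 Crest.Agent.R122.TreeBound335 Crest.Agent.R122.ToTree335
open Crest.Agent.R122.InEq2 Crest.Agent.R122.Major522 Crest.Agent.R122.TreeLines335
open Crest.Agent.R122.LineMeas994 Crest.Agent.R122.EBasic602 Crest.Agent.R122.MeasE416

noncomputable section

namespace Crest.Agent.R122.Gas522

variable {Φ : Space3 → ℝ} {f₀ : PhasePoint → ℝ} {ε : ℝ}

/-! ### Lines -/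

section lines

variable {K : ℕ} {u₀ b' : ℝ} {γ : ℝ → ℝ} {ρ : ℝ≥0∞}

/-- Probability (in the gas) that the line `l` touches by the time `u₀`. -/
def pTouch (Φ : Space3 → ℝ) (f₀ : PhasePoint → ℝ) (ε : ℝ) (K : ℕ) (u₀ : ℝ) (l : ML) : ℝ≥0∞ :=
  gcE f₀ ε fun _ w => if (MW.cfg w).thetaL Φ ε K u₀ l ≤ u₀ then 1 else 0

theorem measurable_touchInd (hΦ : AdmissiblePotential Φ) (hε : 0 < ε) (n : ℕ) :
    Measurable fun p : ML × Config n =>
      (if (MW.cfg p.2).thetaL Φ ε K u₀ p.1 ≤ u₀ then 1 else 0 : ℝ≥0∞) := by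
  have h1 := (measurable_thetaL_cfg hΦ hε K u₀ n).comp
    (measurable_snd.prodMk measurable_fst : Measurable fun p : ML × Config n => (p.2, p.1))
  exact Measurable.ite (measurableSet_le h1 measurable_const) measurable_const measurable_const

theorem measurable_pTouch (hΦ : AdmissiblePotential Φ) (hf : Measurable f₀) (hε : 0 < ε) :
    Measurable (pTouch Φ f₀ ε K u₀) :=
  measurable_gcE_par hf
    (F := fun (l : ML) _ w => if (MW.cfg w).thetaL Φ ε K u₀ l ≤ u₀ then 1 else 0)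
    fun n => measurable_touchInd hΦ hε n

/-- The integral of the touch probability is the touched mass. -/
theorem lintegral_pTouch (hΦ : AdmissiblePotential Φ) (hf : Measurable f₀) (hε : 0 < ε) :
    ∫⁻ l, pTouch Φ f₀ ε K u₀ l ∂lineM γ ρ K u₀ = tnMass Φ f₀ γ ρ ε K u₀ := by
  unfold pTouch tnMass
  rw [BadHit370.lintegral_gcE hf ε (lineM γ ρ K u₀)
    (F := fun _ l w => if (MW.cfg w).thetaL Φ ε K u₀ l ≤ u₀ then 1 else 0)
    fun n => measurable_touchInd hΦ hε n]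
  refine gcE_congr f₀ ε fun n w _ => ?_
  have hm : MeasurableSet {l : ML | (MW.cfg w).thetaL Φ ε K u₀ l ≤ u₀} := by
    have h1 := (measurable_thetaL_cfg hΦ hε K u₀ n).comp
      (measurable_const.prodMk measurable_id : Measurable fun l : ML => (w, l))
    exact measurableSet_le h1 measurable_const
  rw [← lintegral_indicator_one hm]
  refine lintegral_congr fun l => ?_
  by_cases h : (MW.cfg w).thetaL Φ ε K u₀ l ≤ u₀
  · rw [if_pos h, indicator_of_mem (show l ∈ {l : ML | (MW.cfg w).thetaL Φ ε K u₀ l ≤ u₀} from h)]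
    rfl
  · rw [if_neg h, indicator_of_notMem
      (show l ∉ {l : ML | (MW.cfg w).thetaL Φ ε K u₀ l ≤ u₀} from h)]

/-- A line with a small mark which is not yet born has not touched. -/
theorem not_touched_of_late (hΦ : AdmissiblePotential Φ) (hε : 0 < ε) {ι : Type} [Fintype ι]
    {Z : MW ι} {l : ML} {s : ℝ} (h : s < l.1.1) (hm : l.2 ≤ K) :
    ¬ Z.Touched Φ ε K (MW.line l) s := by
  refine MW.not_touched_of_no_contact hΦ hε (fun r hr x k hc => ?_) ?_
  · have h1 : (Z.add (MW.line l)).b (Sum.inr x) ≤ r := MW.C_born hc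
    have h2 : l.1.1 ≤ r := h1
    exact absurd h (not_lt.2 (h2.trans hr.2))
  · change ∑ _x : Unit, l.2 ≤ K
    simpa using hm

theorem lt_thetaL_of_late (hΦ : AdmissiblePotential Φ) (hε : 0 < ε) {ι : Type} [Fintype ι]
    {Z : MW ι} {l : ML} (h : u₀ < l.1.1) (hm : l.2 ≤ K) : u₀ < Z.thetaL Φ ε K u₀ l := by
  by_contra hno
  rw [not_lt] at hno
  obtain ⟨s, hs, ht⟩ := EBasic602.theta_le_horizon_iff.1 hno
  exact not_touched_of_late hΦ hε (hs.2.trans_lt h) hm ht

theorem pTouch_late (hΦ : AdmissiblePotential Φ) (hε : 0 < ε) {l : ML} (h : u₀ < l.1.1)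
    (hm : l.2 ≤ K) : pTouch Φ f₀ ε K u₀ l = 0 := by
  unfold pTouch
  have h1 : gcE f₀ ε (fun n w => if (MW.cfg w).thetaL Φ ε K u₀ l ≤ u₀ then 1 else 0) =
      gcE f₀ ε (fun _ _ => 0) := by
    refine gcE_congr f₀ ε fun n w _ => ?_
    rw [if_neg (not_le.2 (lt_thetaL_of_late hΦ hε h hm))]
  rw [h1, gcE_zero]

/-- **The touched mass of the lines of mark `n`**, Gaussian rate `b'`. -/
theorem lintegral_pTouch_le (hΦ : AdmissiblePotential Φ) (hf : Measurable f₀) (hε : 0 < ε)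
    (hγ : Measurable γ) (hγb : ∀ τ, 0 < τ → τ ≤ u₀ → γ τ ≤ b') (hρ0 : ρ ≠ 0) (hρt : ρ ≠ ∞)
    {n : ℕ} (hn1 : 1 ≤ n) (hnK : n ≤ K) (T' : ℝ) :
    ∫⁻ τ in Ioo 0 T', ∫⁻ z : PhasePoint, ENNReal.ofReal (Real.exp (-b' * ‖z.2‖ ^ 2)) *
        pTouch Φ f₀ ε K u₀ ((τ, z), n) ≤ (ρ ^ n)⁻¹ * tnMass Φ f₀ γ ρ ε K u₀ := by
  have hF := measurable_pTouch (K := K) (u₀ := u₀) hΦ hf hε
  have hρn0 : ρ ^ n ≠ 0 := pow_ne_zero n hρ0
  have hρnt : ρ ^ n ≠ ∞ := ENNReal.pow_ne_top hρt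
  rw [← lintegral_pTouch hΦ hf hε, lintegral_lineM hγ hF]
  have hFn : Measurable fun x : ℝ × PhasePoint => pTouch Φ f₀ ε K u₀ (x, n) :=
    hF.comp (measurable_id.prodMk measurable_const)
  -- the inner integral at time `τ`
  have key : ∀ τ, 0 < τ → τ ≤ u₀ → ∫⁻ z : PhasePoint,
      ENNReal.ofReal (Real.exp (-b' * ‖z.2‖ ^ 2)) * pTouch Φ f₀ ε K u₀ ((τ, z), n) ≤
      (ρ ^ n)⁻¹ * ∫⁻ v : Space3, Kin796.wG (γ τ) v * ∫⁻ y : Space3, ∑' n : ℕ,
        markW ρ K n * pTouch Φ f₀ ε K u₀ ((τ, (y, v)), n) := by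
    intro τ h0 h1
    have hm1 : Measurable fun z : PhasePoint =>
        ENNReal.ofReal (Real.exp (-b' * ‖z.2‖ ^ 2)) * pTouch Φ f₀ ε K u₀ ((τ, z), n) := by
      refine Measurable.mul (by fun_prop) ?_
      exact hFn.comp (measurable_const.prodMk measurable_id)
    have hm2 : ∀ v : Space3, Measurable fun y : Space3 =>
        pTouch Φ f₀ ε K u₀ ((τ, (y, v)), n) := fun v =>
      hFn.comp (measurable_const.prodMk (measurable_id.prodMk measurable_const))
    rw [Measure.volume_eq_prod, lintegral_prod_symm _ hm1.aemeasurable,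
      ← lintegral_const_mul' _ _ (ENNReal.inv_ne_top.2 hρn0)]
    refine lintegral_mono fun v => ?_
    change ∫⁻ y : Space3, ENNReal.ofReal (Real.exp (-b' * ‖v‖ ^ 2)) *
      pTouch Φ f₀ ε K u₀ ((τ, (y, v)), n) ≤ _
    rw [lintegral_const_mul _ (hm2 v), mul_left_comm]
    refine mul_le_mul' ?_ ?_
    · unfold Kin796.wG
      refine ENNReal.ofReal_le_ofReal (Real.exp_le_exp.2 ?_)
      have := mul_le_mul_of_nonneg_right (hγb τ h0 h1) (sq_nonneg ‖v‖)
      linarith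
    · rw [← lintegral_const_mul' _ _ (ENNReal.inv_ne_top.2 hρn0)]
      refine lintegral_mono fun y => ?_
      change pTouch Φ f₀ ε K u₀ ((τ, (y, v)), n) ≤
        (ρ ^ n)⁻¹ * ∑' n : ℕ, markW ρ K n * pTouch Φ f₀ ε K u₀ ((τ, (y, v)), n)
      calc pTouch Φ f₀ ε K u₀ ((τ, (y, v)), n)
          = (ρ ^ n)⁻¹ * (markW ρ K n * pTouch Φ f₀ ε K u₀ ((τ, (y, v)), n)) := by
            unfold markW
            rw [if_pos ⟨hn1, hnK⟩, ← mul_assoc, ENNReal.inv_mul_cancel hρn0 hρnt, one_mul]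
        _ ≤ _ := mul_le_mul_right (ENNReal.le_tsum (f := fun n =>
            markW ρ K n * pTouch Φ f₀ ε K u₀ ((τ, (y, v)), n)) n) _
  rw [← lintegral_const_mul' _ _ (ENNReal.inv_ne_top.2 hρn0),
    ← lintegral_indicator measurableSet_Ioo, ← lintegral_indicator measurableSet_Ioc]
  refine lintegral_mono fun τ => ?_
  by_cases hτ : τ ∈ Ioo 0 T'
  swap
  · rw [indicator_of_notMem hτ]; exact zero_le
  rw [indicator_of_mem hτ]
  by_cases hu : τ ≤ u₀
  · rw [indicator_of_mem (show τ ∈ Ioc 0 u₀ from ⟨hτ.1, hu⟩)]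
    exact key τ hτ.1 hu
  · have h0 : ∀ z : PhasePoint, pTouch Φ f₀ ε K u₀ ((τ, z), n) = 0 := fun z =>
      pTouch_late hΦ hε (not_le.1 hu) hnK
    simp only [h0, mul_zero, lintegral_zero]
    exact zero_le

end lines

/-! ### One tree -/

section tree

/-- Integral over the parameters of the tree `P` (valid at the horizon `T`) and the gas. -/
def TP (Φ : Space3 → ℝ) (f₀ : PhasePoint → ℝ) (ε T : ℝ) (P : CTree)
    (H : PhasePoint × Par P → (m : ℕ) → Config m → ℝ≥0∞) : ℝ≥0∞ :=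
  ∫⁻ z : PhasePoint × Par P, {z : PhasePoint × Par P | Valid Φ ε P T z.1.2 z.2}.indicator
    (fun z => wt Φ P z.1.2 z.2 * (pf Φ f₀ ε P z * gcE f₀ ε fun m w => H z m w)) z

theorem TS_eq_tsum (T : ℝ) (H : (P : CTree) → PhasePoint × Par P → (m : ℕ) → Config m → ℝ≥0∞) :
    TS Φ f₀ ε T H = ∑' P, TP Φ f₀ ε T P (H P) := rfl

/-- Joint measurability of a functional of a tree and the gas. -/
def MeasTP (P : CTree) (H : PhasePoint × Par P → (m : ℕ) → Config m → ℝ≥0∞) : Prop :=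
  ∀ m, Measurable fun q : (PhasePoint × Par P) × Config m => H q.1 m q.2

variable {P : CTree} {T : ℝ} {H H' : PhasePoint × Par P → (m : ℕ) → Config m → ℝ≥0∞}

theorem measurable_TP_inner (hΦ : AdmissiblePotential Φ) (hf : Measurable f₀)
    (hH : MeasTP P H) (T : ℝ) :
    Measurable fun z : PhasePoint × Par P =>
      {z : PhasePoint × Par P | Valid Φ ε P T z.1.2 z.2}.indicator
        (fun z => wt Φ P z.1.2 z.2 * (pf Φ f₀ ε P z * gcE f₀ ε fun m w => H z m w)) z := by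
  have h1 : Measurable fun z : PhasePoint × Par P => wtM Φ P z.1.2 z.2 :=
    (measurable_wtM hΦ P).comp (measurable_fst.snd.prodMk measurable_snd)
  have h2 : Measurable (pfM Φ f₀ ε P) := measurable_pfM hΦ hf P
  have h3 : Measurable fun z : PhasePoint × Par P => gcE f₀ ε fun m w => H z m w :=
    measurable_gcE_par hf (F := fun z m w => H z m w) fun m => hH m
  have h4 := (h1.mul (h2.mul h3)).indicator (measurableSet_valid hΦ ε P T)
  convert h4 using 1
  funext z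
  by_cases hz : z ∈ {z : PhasePoint × Par P | Valid Φ ε P T z.1.2 z.2}
  · rw [indicator_of_mem hz, indicator_of_mem hz]
    simp only [Pi.mul_apply]
    rw [wtM_of_adm hz.1, pfM_of_adm hz.1]
  · rw [indicator_of_notMem hz, indicator_of_notMem hz]

theorem TP_mono (h : ∀ z m w, Valid Φ ε P T z.1.2 z.2 → w ∈ PairExcluded ε m →
    H z m w ≤ H' z m w) : TP Φ f₀ ε T P H ≤ TP Φ f₀ ε T P H' := by
  refine lintegral_mono fun z => ?_
  by_cases hz : z ∈ {z : PhasePoint × Par P | Valid Φ ε P T z.1.2 z.2}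
  · rw [indicator_of_mem hz, indicator_of_mem hz]
    exact mul_le_mul_right (mul_le_mul_right (gcE_mono f₀ ε fun m w hw => h z m w hz hw) _) _
  · rw [indicator_of_notMem hz, indicator_of_notMem hz]

theorem TP_finset_sum (hΦ : AdmissiblePotential Φ) (hf : Measurable f₀) {α : Type*} (s : Finset α)
    {G : α → PhasePoint × Par P → (m : ℕ) → Config m → ℝ≥0∞} (hG : ∀ a ∈ s, MeasTP P (G a)) :
    TP Φ f₀ ε T P (fun z m w => ∑ a ∈ s, G a z m w) = ∑ a ∈ s, TP Φ f₀ ε T P (G a) := by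
  unfold TP
  rw [← lintegral_finsetSum _ fun a ha => measurable_TP_inner hΦ hf (hG a ha) T]
  refine lintegral_congr fun z => ?_
  by_cases hz : z ∈ {z : PhasePoint × Par P | Valid Φ ε P T z.1.2 z.2}
  · simp only [indicator_of_mem hz]
    have hm : ∀ a ∈ s, ∀ m, Measurable fun w : Config m => G a z m w := fun a ha m =>
      (hG a ha m).comp (measurable_const.prodMk measurable_id)
    rw [gcE_finset_sum hf ε s hm, Finset.mul_sum, Finset.mul_sum]
  · simp only [indicator_of_notMem hz, Finset.sum_const_zero]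

/-- Indicator of a touch of the exit line `x`, weighted by the energy of the leaves (measurable
version). -/
def mX (Φ : Space3 → ℝ) (ε : ℝ) (K : ℕ) (u₀ : ℝ) (P : CTree) (x : Idx P)
    (z : PhasePoint × Par P) (m : ℕ) (w : Config m) : ℝ≥0∞ :=
  wQ Φ ε P z * if (MW.cfg w).thetaL Φ ε K u₀ (lineMM Φ ε P z x) ≤ u₀ then 1 else 0

theorem measTP_mX (hΦ : AdmissiblePotential Φ) (hε : 0 < ε) (K : ℕ) (u₀ : ℝ) (P : CTree)
    (x : Idx P) : MeasTP P (mX Φ ε K u₀ P x) := by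
  intro m
  have h1 : Measurable fun q : (PhasePoint × Par P) × Config m => wQ Φ ε P q.1 :=
    (measurable_wQ hΦ P).comp measurable_fst
  have h2 : Measurable fun q : (PhasePoint × Par P) × Config m =>
      (lineMM Φ ε P q.1 x, q.2) :=
    ((measurable_lineMM hΦ ε P x).comp measurable_fst).prodMk measurable_snd
  have h3 := (measurable_touchInd (K := K) (u₀ := u₀) hΦ hε m).comp h2
  exact h1.mul h3

theorem wQ_ne_top (z : PhasePoint × Par P) : wQ Φ ε P z ≠ ∞ := by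
  unfold wQ
  exact ENNReal.sum_ne_top.2 fun i _ => ENNReal.ofReal_ne_top

/-- **Touched mass of an exit line of a tree.** -/
theorem exists_mass (hΦ : AdmissiblePotential Φ) (hf : Measurable f₀) {C b : ℝ} (hC : 0 ≤ C)
    (hb : ∀ z, f₀ z ≤ C * Real.exp (-b * ‖z.2‖ ^ 2)) {b' : ℝ} (hb' : 0 < b') (hbb : b' < b)
    {γ : ℝ → ℝ} {ρ : ℝ≥0∞} (hγ : Measurable γ) (hρ0 : ρ ≠ 0) (hρt : ρ ≠ ∞) (P : CTree) (T : ℝ) :
    ∃ C' : ℝ≥0∞, C' ≠ ∞ ∧ ∀ (ε T' u₀ : ℝ) (K : ℕ), 0 < ε → T' ≤ T → P.leaves ≤ K →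
      (∀ τ, 0 < τ → τ ≤ u₀ → γ τ ≤ b') → ∀ x : Idx P, x ≠ root P →
      TP Φ f₀ ε T' P (mX Φ ε K u₀ P x) ≤ C' * tnMass Φ f₀ γ ρ ε K u₀ := by
  obtain ⟨C', hC', h⟩ := Mark307.exit_mass_Wt hΦ hf hC hb hb' hbb P T
  refine ⟨∑ x : Idx P, C' * (ρ ^ mk P x)⁻¹, ?_, fun ε T' u₀ K hε hT hK hγb x hx => ?_⟩
  · exact ENNReal.sum_ne_top.2 fun x _ =>
      ENNReal.mul_ne_top hC' (ENNReal.inv_ne_top.2 (pow_ne_zero _ hρ0))
  have hF := measurable_pTouch (K := K) (u₀ := u₀) hΦ hf hε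
  have h1 : TP Φ f₀ ε T' P (mX Φ ε K u₀ P x) =
      ∫⁻ z : PhasePoint × Par P, {z : PhasePoint × Par P | Valid Φ ε P T' z.1.2 z.2}.indicator
        (fun z => wt Φ P z.1.2 z.2 * (∏ i, ENNReal.ofReal (f₀ (lines Φ ε P z.1 z.2 i))) *
          (∑ i, ENNReal.ofReal (1 + ‖(lines Φ ε P z.1 z.2 i).2‖ ^ 2)) *
            pTouch Φ f₀ ε K u₀ (lineML Φ ε P z x)) z := by
    unfold TP
    refine lintegral_congr fun z => ?_
    by_cases hz : z ∈ {z : PhasePoint × Par P | Valid Φ ε P T' z.1.2 z.2}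
    · rw [indicator_of_mem hz, indicator_of_mem hz]
      have hA : Adm Φ P z.1.2 z.2 := hz.1
      unfold mX
      rw [gcE_const_mul f₀ ε (wQ_ne_top z), lineMM_of_adm ε hA, wQ_eq hA]
      unfold pf pTouch
      rw [mul_assoc, mul_assoc]
    · rw [indicator_of_notMem hz, indicator_of_notMem hz]
  rw [h1]
  refine (h ε T' hε hT x hx _ hF).trans ?_
  refine (mul_le_mul_right (lintegral_pTouch_le hΦ hf hε hγ hγb hρ0 hρt (one_le_mk P x)
    ((mk_le P x).trans hK) T') _).trans ?_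
  rw [← mul_assoc]
  refine mul_le_mul_left ?_ _
  exact Finset.single_le_sum (f := fun x : Idx P => C' * (ρ ^ mk P x)⁻¹) (fun _ _ => zero_le)
    (Finset.mem_univ x)

end tree

end Crest.Agent.R122.Gas522

end
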