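import Crest.Agent.R122.NGgas_416
import Crest.Agent.R122.EDefs_602

/-!
# Row 122, D5g (helper416), part 3: the input `NGin` of the assemblies

`ngin` : from `BadVol` and permutation covariance: ONE measurable, permutation covariant functional
`B ε n X i` of the gas with `gcE (act⁻¹ ∑ i, B) → 0` and `eW X D ≤ B ε n X i` for every bad
sub-cluster `D` of at most `K` particles with root `i`.  `ngin_mecke` : the same in Mecke'd form.
-/

set_option autoImplicit false
set_option linter.unusedSectionVars false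

open MeasureTheory Set Filter Topology
open Crest.AnalysisR.Kinetic
open Crest.Agent.R122.Loc45 Crest.Agent.R122.Vol365 Crest.Agent.R122.GC311
open Crest.Agent.R122.EDefs602
open scoped ENNReal NNReal Classical

noncomputable section

namespace Crest.Agent.R122.NG416

/-- Energy weight of a configuration. -/
def Wt {k : ℕ} (V : Config k) : ℝ≥0∞ := ∑ b, ENNReal.ofReal (1 + ‖(V b).2‖ ^ 2)

theorem measurable_Wt {k : ℕ} : Measurable (Wt : Config k → ℝ≥0∞) := by
  unfold Wt
  refine Finset.measurable_sum _ fun b _ => ?_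
  exact ((((measurable_pi_apply b).snd.norm).pow_const 2).const_add 1).ennreal_ofReal

theorem Wt_perm {k : ℕ} (σ : Equiv.Perm (Fin k)) (V : Config k) :
    Wt (fun x => V (σ x)) = Wt V := by
  unfold Wt
  exact Equiv.sum_comp σ fun b => ENNReal.ofReal (1 + ‖(V b).2‖ ^ 2)

/-- The energy weight of a sub-cluster of the gas. -/
theorem eW_map {n k : ℕ} (X : Config n) (e : Fin k ↪ Fin n) :
    eW X (Finset.univ.map e) = Wt fun x => X (e x) := by
  unfold eW Wt
  rw [Finset.sum_map]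

/-- constant comparing the energy weight with the exponential of the kinetic energy -/
def cW (K : ℕ) (a : ℝ) : ℝ≥0∞ := ENNReal.ofReal (K + 2 / a)

theorem cW_ne_top (K : ℕ) (a : ℝ) : cW K a ≠ ∞ := ENNReal.ofReal_ne_top

theorem Wt_le {a : ℝ} (ha : 0 < a) {K k : ℕ} (hk : k ≤ K) (V : Config k) :
    Wt V ≤ cW K a * ENNReal.ofReal (Real.exp (a * kin V)) := by
  unfold Wt cW
  rw [← ENNReal.ofReal_sum_of_nonneg fun i _ => by positivity,
    ← ENNReal.ofReal_mul (by positivity)]
  refine ENNReal.ofReal_le_ofReal ?_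
  have hkin := kin_nonneg V
  have h1 : ∑ i : Fin k, (1 + ‖(V i).2‖ ^ 2) = k + 2 * kin V := by
    unfold kin
    rw [Finset.sum_add_distrib]
    simp
  have h2 : a * kin V ≤ Real.exp (a * kin V) := by
    have := Real.add_one_le_exp (a * kin V)
    linarith
  have h3 : 2 * kin V ≤ 2 / a * Real.exp (a * kin V) := by
    rw [div_mul_eq_mul_div, le_div_iff₀ ha]
    linarith
  have h4 : (1 : ℝ) ≤ Real.exp (a * kin V) := by
    rw [Real.one_le_exp_iff]
    positivity
  have hk' : (k : ℝ) ≤ K := by exact_mod_cast hk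
  have h5 : (K : ℝ) * 1 ≤ K * Real.exp (a * kin V) :=
    mul_le_mul_of_nonneg_left h4 (Nat.cast_nonneg K)
  rw [h1]
  linarith

namespace BadSet

variable {γ : ℝ} {K : ℕ} {Bad : BadFam}

/-- the bad functional with the energy weight -/
def wBad (E : BadSet γ K Bad) (ε : ℝ) (n : ℕ) (X : Config n) (i : Fin n) : ℝ≥0∞ :=
  clF (fun k V j => Wt V * E.ind ε k V j) K n X i

theorem measurable_wBad (E : BadSet γ K Bad) (ε : ℝ) (n : ℕ) (i : Fin n) :
    Measurable fun X : Config n => E.wBad ε n X i :=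
  measurable_clF (fun k j => measurable_Wt.mul (E.measurable_ind ε k j)) i

theorem wBad_perm (E : BadSet γ K Bad) (ε : ℝ) (n : ℕ) (σ : Equiv.Perm (Fin n)) (X : Config n)
    (i : Fin n) : E.wBad ε n (fun x => X (σ x)) i = E.wBad ε n X (σ i) :=
  clF_perm σ X i

theorem le_wBad (E : BadSet γ K Bad) {ε : ℝ} (hε : 0 < ε) {n : ℕ} {X : Config n}
    (hX : X ∈ PairExcluded ε n) {k : ℕ} (hk : k ≤ K) (e : Fin k ↪ Fin n) (j : Fin k)
    (hb : Bad ε k (fun x => X (e x)) j) :
    eW X (Finset.univ.map e) ≤ E.wBad ε n X (e j) := by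
  have h := le_clF (G := fun k V j => Wt V * E.ind ε k V j)
    (K := K) (fun k σ V j => by
      change Wt (fun i => V (σ i)) * E.ind ε k (fun i => V (σ i)) j = Wt V * E.ind ε k V (σ j)
      rw [Wt_perm σ V, E.ind_perm]) X hk e j
  have hV : (fun x => X (e x)) ∈ PairExcluded ε k := fun i i' hii =>
    hX (e i) (e i') fun hc => hii (e.injective hc)
  rw [eW_map]
  exact le_trans (le_mul_of_one_le_right bot_le (E.one_le_ind hε hk hV hb)) h

/-- (m1), Mecke'd form, energy weight. -/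
theorem mass_Wt (E : BadSet γ K Bad) {γ₀ : ℝ} (hγ : γ < γ₀) {f₀ : PhasePoint → ℝ}
    {env : Space3 → ℝ≥0∞} {A : ℝ≥0∞} (hf : Measurable f₀) (h : EnvG γ₀ f₀ env A) :
    Tendsto (fun ε : ℝ => (activity ε)⁻¹ * ∑ k ∈ Finset.range (K + 1),
      activity ε ^ k / (k.factorial : ℝ≥0∞) * ∫⁻ V : Config k, gcWeight f₀ ε k V *
        ∑ j : Fin k, Wt V * E.ind ε k V j) (𝓝[>] 0) (𝓝 0) := by
  have ha : 0 < 2 * (γ₀ - γ) := by linarith
  have h0 := ENNReal.Tendsto.const_mul (a := cW K (2 * (γ₀ - γ))) (E.mass hf h)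
    (Or.inr (cW_ne_top K _))
  rw [mul_zero] at h0
  refine tendsto_of_tendsto_of_tendsto_of_le_of_le tendsto_const_nhds h0 (fun _ => bot_le)
    fun ε => ?_
  set c := cW K (2 * (γ₀ - γ)) with hc
  have hct : c ≠ ∞ := cW_ne_top K _
  calc (activity ε)⁻¹ * ∑ k ∈ Finset.range (K + 1),
        activity ε ^ k / (k.factorial : ℝ≥0∞) * ∫⁻ V : Config k, gcWeight f₀ ε k V *
          ∑ j : Fin k, Wt V * E.ind ε k V j
      ≤ (activity ε)⁻¹ * ∑ k ∈ Finset.range (K + 1),
        activity ε ^ k / (k.factorial : ℝ≥0∞) * (c * ∫⁻ V : Config k, gcWeight f₀ ε k V *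
          ∑ j : Fin k, ENNReal.ofReal (Real.exp (2 * (γ₀ - γ) * kin V)) * E.ind ε k V j) := by
        refine mul_le_mul_right (Finset.sum_le_sum fun k hk => mul_le_mul_right ?_ _) _
        have hk' : k ≤ K := by
          have := Finset.mem_range.1 hk
          omega
        rw [← lintegral_const_mul' c _ hct]
        refine lintegral_mono fun V => ?_
        have h1 : ∑ j : Fin k, Wt V * E.ind ε k V j ≤
            c * ∑ j : Fin k, ENNReal.ofReal (Real.exp (2 * (γ₀ - γ) * kin V)) *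
              E.ind ε k V j := by
          rw [Finset.mul_sum]
          refine Finset.sum_le_sum fun j _ => ?_
          rw [← mul_assoc]
          exact mul_le_mul_left (Wt_le ha hk' V) _
        calc gcWeight f₀ ε k V * ∑ j : Fin k, Wt V * E.ind ε k V j
            ≤ gcWeight f₀ ε k V * (c * ∑ j : Fin k,
              ENNReal.ofReal (Real.exp (2 * (γ₀ - γ) * kin V)) * E.ind ε k V j) :=
              mul_le_mul_right h1 _
          _ = _ := by ring
    _ = _ := by
        rw [Finset.mul_sum, Finset.mul_sum, Finset.mul_sum]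
        refine Finset.sum_congr rfl fun k _ => ?_
        ring

/-- (m1), gas form, energy weight. -/
theorem gas_Wt (E : BadSet γ K Bad) {γ₀ : ℝ} (hγ : γ < γ₀) {f₀ : PhasePoint → ℝ}
    {env : Space3 → ℝ≥0∞} {A : ℝ≥0∞} (hf : Measurable f₀)
    (h1 : ∫⁻ z, ENNReal.ofReal (f₀ z) ≤ 1) (h : EnvG γ₀ f₀ env A) :
    Tendsto (fun ε : ℝ => gcE f₀ ε (fun n X => (activity ε)⁻¹ * ∑ i, E.wBad ε n X i))
      (𝓝[>] 0) (𝓝 0) := by
  refine tendsto_of_tendsto_of_tendsto_of_le_of_le' tendsto_const_nhds (E.mass_Wt hγ hf h)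
    (Eventually.of_forall fun _ => bot_le) ?_
  filter_upwards [self_mem_nhdsWithin] with ε hε
  have hε0 : (0 : ℝ) < ε := hε
  rw [gcE_const_mul f₀ ε (ENNReal.inv_ne_top.2 (activity_ne_zero hε0))]
  exact mul_le_mul_right (gcE_clF_le hf h1 ε fun k j =>
    measurable_Wt.mul (E.measurable_ind ε k j)) _

end BadSet

/-- **The input `NGin`** of the assemblies (311, 335, 285, 302). -/
theorem ngin {Bad : BadFam} (hcov : PermCov Bad) {γ γ₀ : ℝ} (hγ : γ < γ₀) {K : ℕ}
    (hvol : BadVol γ K Bad) {f₀ : PhasePoint → ℝ} (hf : Measurable f₀)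
    (h1 : ∫⁻ z, ENNReal.ofReal (f₀ z) ≤ 1)
    (hg : HasSummableGaussianBound γ₀ (fun x v => f₀ (x, v))) :
    ∃ B : ℝ → (n : ℕ) → Config n → Fin n → ℝ≥0∞,
      (∀ ε n i, Measurable fun X : Config n => B ε n X i) ∧
      (∀ ε n (σ : Equiv.Perm (Fin n)) (X : Config n) i,
        B ε n (fun x => X (σ x)) i = B ε n X (σ i)) ∧
      Tendsto (fun ε : ℝ => gcE f₀ ε (fun n X => (activity ε)⁻¹ * ∑ i, B ε n X i))
        (𝓝[>] 0) (𝓝 0) ∧
      ∀ ε : ℝ, 0 < ε → ∀ (n : ℕ) (X : Config n), X ∈ PairExcluded ε n → ∀ k ≤ K,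
        ∀ (e : Fin k ↪ Fin n) (j : Fin k), Bad ε k (fun x => X (e x)) j →
          eW X (Finset.univ.map e) ≤ B ε n X (e j) := by
  obtain ⟨E⟩ := exists_badSet hcov hvol
  obtain ⟨env, A, henv⟩ := exists_envG hg
  exact ⟨fun ε n X i => E.wBad ε n X i, E.measurable_wBad, E.wBad_perm,
    E.gas_Wt hγ hf h1 henv, fun ε hε n X hX k hk e j hb => E.le_wBad hε hX hk e j hb⟩

/-- **`NGin`, Mecke'd form.** -/
theorem ngin_mecke {Bad : BadFam} (hcov : PermCov Bad) {γ γ₀ : ℝ} (hγ : γ < γ₀) {K : ℕ}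
    (hvol : BadVol γ K Bad) {f₀ : PhasePoint → ℝ} (hf : Measurable f₀)
    (h1 : ∫⁻ z, ENNReal.ofReal (f₀ z) ≤ 1)
    (hg : HasSummableGaussianBound γ₀ (fun x v => f₀ (x, v))) :
    ∃ N : ℝ → (k : ℕ) → Config k → Fin k → ℝ≥0∞,
      (∀ ε k j, Measurable fun V : Config k => N ε k V j) ∧
      (∀ ε k (σ : Equiv.Perm (Fin k)) (V : Config k) j,
        N ε k (fun x => V (σ x)) j = N ε k V (σ j)) ∧
      (∀ ε k V j, N ε k V j ≤ 1) ∧
      (∀ ε : ℝ, 0 < ε → ∀ k ≤ K, ∀ V ∈ PairExcluded ε k, ∀ j, Bad ε k V j → 1 ≤ N ε k V j) ∧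
      Tendsto (fun ε : ℝ => (activity ε)⁻¹ * ∑' k : ℕ, activity ε ^ k / (k.factorial : ℝ≥0∞) *
        ∫⁻ V : Config k, gcWeight f₀ ε k V * gcE f₀ ε (fun _ w => perpInd ε V w *
          ∑ j : Fin k, Wt V * N ε k V j)) (𝓝[>] 0) (𝓝 0) := by
  obtain ⟨E⟩ := exists_badSet hcov hvol
  obtain ⟨env, A, henv⟩ := exists_envG hg
  refine ⟨fun ε k V j => if k ≤ K then E.ind ε k V j else 0, fun ε k j => ?_,
    fun ε k σ V j => ?_, fun ε k V j => ?_, fun ε hε k hk V hV j hb => ?_, ?_⟩
  · by_cases hk : k ≤ K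
    · simp only [if_pos hk]; exact E.measurable_ind ε k j
    · simp only [if_neg hk]; exact measurable_const
  · by_cases hk : k ≤ K
    · simp only [if_pos hk]; exact E.ind_perm ε k σ V j
    · simp only [if_neg hk]
  · by_cases hk : k ≤ K
    · simp only [if_pos hk]; exact E.ind_le_one ε k V j
    · simp only [if_neg hk]; exact zero_le
  · simp only [if_pos hk]; exact E.one_le_ind hε hk hV hb
  · refine tendsto_of_tendsto_of_tendsto_of_le_of_le tendsto_const_nhds (E.mass_Wt hγ hf henv)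
      (fun _ => bot_le) fun ε => mul_le_mul_right ?_ _
    rw [tsum_eq_sum (s := Finset.range (K + 1))]
    · refine Finset.sum_le_sum fun k hk => mul_le_mul_right ?_ _
      have hk' : k ≤ K := by
        have := Finset.mem_range.1 hk
        omega
      refine lintegral_mono fun V => mul_le_mul_right ?_ _
      simp only [if_pos hk']
      set c : ℝ≥0∞ := ∑ j : Fin k, Wt V * E.ind ε k V j with hc
      have hct : c ≠ ∞ := by
        rw [hc]
        refine ENNReal.sum_ne_top.2 fun j _ => ENNReal.mul_ne_top ?_ ?_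
        · exact ENNReal.sum_ne_top.2 fun b _ => ENNReal.ofReal_ne_top
        · exact ((E.ind_le_one ε k V j).trans_lt ENNReal.one_lt_top).ne
      calc gcE f₀ ε (fun m w => perpInd ε V w * c) ≤ gcE f₀ ε (fun _ _ => c) := by
            refine gcE_mono f₀ ε fun m w _ => ?_
            unfold perpInd
            by_cases hp : Perp ε V w
            · rw [if_pos hp, one_mul]
            · rw [if_neg hp, zero_mul]; exact zero_le
        _ = c := gcE_const f₀ ε hf h1 hct
    · intro k hk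
      have hk' : ¬ k ≤ K := fun hc => hk (Finset.mem_range.2 (Nat.lt_succ_of_le hc))
      have hz : ∀ V : Config k, gcE f₀ ε (fun m w => perpInd ε V w *
          ∑ j : Fin k, Wt V * (if k ≤ K then E.ind ε k V j else 0)) = 0 := by
        intro V
        simp only [if_neg hk', mul_zero, Finset.sum_const_zero]
        exact gcE_zero f₀ ε
      simp only [hz, mul_zero, lintegral_zero]

end Crest.Agent.R122.NG416

end
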