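import Crest.Agent.R122.RtGDet_302
import Crest.Agent.R122.InEq2Defs_311
import Crest.Agent.R122.NGin_416

/-!
# H12 / F3 at gas level (row 122), helper302

* `BadZ`, `TreeBad` : the alternatives of the dichotomy for one tree, for a Mecke'd cluster.
* `TNull` : a tree event has a measurable majorant of small (energy weighted) mass, `K` fixed.
* `TNull2` : the same with an auxiliary size `K'` which is large.
* `measMS_ways`, `MS_ways_le` : the Mecke'd majorant of a tree functional.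
* `RtGMaj`, `rtgMaj` : the Mecke'd majorant of `TreeBad`, from `TouchNull`, `LinkNull`, `RetNull`,
  `OkNull`.
* `cut_of_hTreeC`, `cut_of_hTreeP`, `Cut.unhit_or_treeBad` : real histories which are trees: the protected tubes
  are unhit in the world of `w`, or `TreeBad`.
* `exists_N`, `rtgIn` : one functional `N ε` (request of helper311).
-/

set_option autoImplicit false
set_option linter.unusedSectionVars false

open MeasureTheory Set Filter Topology
open Crest.AnalysisR.Kinetic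
open Crest.Agent.R122.Flow671 Crest.Agent.R122.Loc45 Crest.Agent.R122.Ins45
open Crest.Agent.R122.Causal291 Crest.Agent.R122.Inf879 Crest.Agent.R122.EDefs602
open Crest.Agent.R122.Kin796 Crest.Agent.R122.Kin796.CTree Crest.Agent.R122.Tree674
open Crest.Agent.R122.PathFlow968 Crest.Agent.R122.TreeLines335 Crest.Agent.R122.GC311
open Crest.Agent.R122.Decomp811 Crest.Agent.R122.MWAlg255 Crest.Agent.R122.GIV566
open Crest.Agent.R122.TreeBound335 Crest.Agent.R122.ToTree335 Crest.Agent.R122.InEq2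

namespace Crest.Agent.R122.RtG302

noncomputable section

open scoped Classical ENNReal

/-! ### The events -/

section defs

variable {k m : ℕ}

/-- The alternatives of the dichotomy for the tree `z` (horizon `T'`). -/
def BadZ (Φ : Space3 → ℝ) (ε : ℝ) (K' : ℕ) (u₀ T' : ℝ) (P : CTree) (z : PhasePoint × Par P)
    (w : Config m) : Prop :=
  (∃ x, (MW.cfg w).thetaL Φ ε K' u₀ (exL Φ ε P z x) ≤ u₀) ∨ LinkEx Φ ε K' u₀ w (exL Φ ε P z) ∨
    (RetEx Φ ε K' u₀ w (exL Φ ε P z) (protT Φ ε P T' z) ∨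
      RetLn Φ ε K' u₀ w (exL Φ ε P z) (protT Φ ε P T' z)) ∨ ¬ AllOk Φ ε w (exL Φ ε P z)

/-- The cluster `V` with root `j` is a tree with one of the bad alternatives. -/
def TreeBad (Φ : Space3 → ℝ) (ε : ℝ) (K' : ℕ) (u₀ T' : ℝ) (V : Config k) (w : Config m)
    (j : Fin k) : Prop :=
  ∃ (P : CTree) (e : Idx P ≃ Fin k) (z : PhasePoint × Par P), Valid Φ ε P T' z.1.2 z.2 ∧
    Sep Φ ε P T' z.1 z.2 ∧ e (root P) = j ∧ (∀ x, V (e x) = lines Φ ε P z.1 z.2 x) ∧
      BadZ Φ ε K' u₀ T' P z w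

/-- Tree events. -/
abbrev TEv : Type := ℝ → ∀ P : CTree, PhasePoint × Par P → ∀ m : ℕ, Config m → Prop

/-- `G` is a measurable majorant of `E` on valid separated trees with at most `K` leaves. -/
structure TMaj (Φ : Space3 → ℝ) (ε T' : ℝ) (K : ℕ) (E : TEv)
    (G : (P : CTree) → PhasePoint × Par P → (m : ℕ) → Config m → ℝ≥0∞) : Prop where
  meas : MeasTS G
  maj : ∀ P z m w, P.leaves ≤ K → Valid Φ ε P T' z.1.2 z.2 → Sep Φ ε P T' z.1 z.2 →
    w ∈ PairExcluded ε m → E ε P z m w → 1 ≤ G P z m w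

/-- The event `E` is null for trees with at most `K` leaves. -/
def TNull (Φ : Space3 → ℝ) (f₀ : PhasePoint → ℝ) (T' : ℝ) (K : ℕ) (E : TEv) : Prop :=
  ∀ δ : ℝ, 0 < δ → ∃ ε₀ : ℝ, 0 < ε₀ ∧ ∀ ε : ℝ, 0 < ε → ε < ε₀ → ∃ G, TMaj Φ ε T' K E G ∧
    TS Φ f₀ ε T' (fun P z m w => wQ Φ ε P z * G P z m w) ≤ ENNReal.ofReal δ

/-- The event `E K'` is null, first `K'` large, then `ε` small. -/
def TNull2 (Φ : Space3 → ℝ) (f₀ : PhasePoint → ℝ) (T' : ℝ) (K : ℕ) (E : ℕ → TEv) : Prop :=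
  ∀ δ : ℝ, 0 < δ → ∃ K₀ : ℕ, ∀ K', K₀ ≤ K' → ∃ ε₀ : ℝ, 0 < ε₀ ∧ ∀ ε : ℝ, 0 < ε → ε < ε₀ →
    ∃ G, TMaj Φ ε T' K (E K') G ∧
      TS Φ f₀ ε T' (fun P z m w => wQ Φ ε P z * G P z m w) ≤ ENNReal.ofReal δ

/-- Touches by exit lines. -/
def TouchNull (Φ : Space3 → ℝ) (f₀ : PhasePoint → ℝ) (u₀ T' : ℝ) (K : ℕ) : Prop :=
  TNull2 Φ f₀ T' K fun K' ε P z _ w =>
    ∃ x, (MW.cfg w).thetaL Φ ε K' u₀ (exL Φ ε P z x) ≤ u₀

/-- Links between two exit lines. -/
def LinkNull (Φ : Space3 → ℝ) (f₀ : PhasePoint → ℝ) (u₀ T' : ℝ) (K K' : ℕ) : Prop :=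
  TNull Φ f₀ T' K fun ε P z _ w => LinkEx Φ ε K' u₀ w (exL Φ ε P z)

/-- Returns to the protected tubes. -/
def RetNullT (Φ : Space3 → ℝ) (f₀ : PhasePoint → ℝ) (u₀ T' : ℝ) (K K' : ℕ) : Prop :=
  TNull Φ f₀ T' K fun ε P z _ w => RetEx Φ ε K' u₀ w (exL Φ ε P z) (protT Φ ε P T' z) ∨
    RetLn Φ ε K' u₀ w (exL Φ ε P z) (protT Φ ε P T' z)

/-- Worlds which are not good. -/
def OkNull (Φ : Space3 → ℝ) (f₀ : PhasePoint → ℝ) (T' : ℝ) (K : ℕ) : Prop :=
  TNull Φ f₀ T' K fun ε P z _ w => ¬ AllOk Φ ε w (exL Φ ε P z)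

/-- **Output**: measurable majorants of `TreeBad`. -/
def RtGMaj (Φ : Space3 → ℝ) (f₀ : PhasePoint → ℝ) (u₀ T' : ℝ) (K : ℕ) : Prop :=
  ∀ δ : ℝ, 0 < δ → ∃ K₀ : ℕ, ∀ K', K₀ ≤ K' → ∃ ε₀ : ℝ, 0 < ε₀ ∧ ∀ ε : ℝ, 0 < ε → ε < ε₀ →
    ∃ N : (k m : ℕ) → Config k → Config m → Fin k → ℝ≥0∞, MeasMS N ∧
      (∀ k m (V : Config k) (w : Config m) (j : Fin k), k ≤ K → w ∈ PairExcluded ε m →
        TreeBad Φ ε K' u₀ T' V w j → 1 ≤ N k m V w j) ∧
      MS f₀ ε (fun k m V w j => (activity ε)⁻¹ * (NG416.Wt V * N k m V w j)) ≤ ENNReal.ofReal δ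

end defs

/-! ### Tree majorants -/

section tnull

variable {Φ : Space3 → ℝ} {f₀ : PhasePoint → ℝ} {ε T' : ℝ} {K : ℕ} {E E' : TEv}
  {G G' : (P : CTree) → PhasePoint × Par P → (m : ℕ) → Config m → ℝ≥0∞}

theorem TMaj.add (h : TMaj Φ ε T' K E G) (h' : TMaj Φ ε T' K E' G') :
    TMaj Φ ε T' K (fun ε P z m w => E ε P z m w ∨ E' ε P z m w)
      (fun P z m w => G P z m w + G' P z m w) where
  meas P m := (h.meas P m).add (h'.meas P m)
  maj P z m w h1 h2 h3 h4 h5 := by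
    rcases h5 with h5 | h5
    · exact (h.maj P z m w h1 h2 h3 h4 h5).trans le_self_add
    · exact (h'.maj P z m w h1 h2 h3 h4 h5).trans le_add_self

theorem measTS_wQ (hΦ : AdmissiblePotential Φ) (h : MeasTS G) :
    MeasTS fun P z m w => wQ Φ ε P z * G P z m w := fun P m =>
  ((measurable_wQ hΦ P).comp measurable_fst).mul (h P m)

theorem TNull.to2 (h : TNull Φ f₀ T' K E) : TNull2 Φ f₀ T' K fun _ => E :=
  fun δ hδ => ⟨0, fun _ _ => h δ hδ⟩

theorem TNull2.of_forall {E : ℕ → TEv} (h : ∀ K' : ℕ, TNull Φ f₀ T' K (E K')) :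
    TNull2 Φ f₀ T' K E := fun δ hδ => ⟨0, fun K' _ => h K' δ hδ⟩

theorem TNull2.or (hΦ : AdmissiblePotential Φ) (hf : Measurable f₀) {E E' : ℕ → TEv}
    (h : TNull2 Φ f₀ T' K E) (h' : TNull2 Φ f₀ T' K E') :
    TNull2 Φ f₀ T' K fun K' ε P z m w => E K' ε P z m w ∨ E' K' ε P z m w := by
  intro δ hδ
  obtain ⟨K₁, h1⟩ := h (δ / 2) (by positivity)
  obtain ⟨K₂, h2⟩ := h' (δ / 2) (by positivity)
  refine ⟨max K₁ K₂, fun K' hK' => ?_⟩
  obtain ⟨e1, he1, h1⟩ := h1 K' ((le_max_left _ _).trans hK')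
  obtain ⟨e2, he2, h2⟩ := h2 K' ((le_max_right _ _).trans hK')
  refine ⟨min e1 e2, lt_min he1 he2, fun ε hε hlt => ?_⟩
  obtain ⟨G, hG, hm⟩ := h1 ε hε (hlt.trans_le (min_le_left _ _))
  obtain ⟨G', hG', hm'⟩ := h2 ε hε (hlt.trans_le (min_le_right _ _))
  refine ⟨_, hG.add hG', ?_⟩
  have h3 : TS Φ f₀ ε T' (fun P z m w => wQ Φ ε P z * (G P z m w + G' P z m w)) =
      TS Φ f₀ ε T' (fun P z m w => wQ Φ ε P z * G P z m w) +
        TS Φ f₀ ε T' (fun P z m w => wQ Φ ε P z * G' P z m w) := by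
    rw [← TS_add hΦ hf (measTS_wQ hΦ hG.meas)]
    simp only [mul_add]
  rw [h3]
  refine (add_le_add hm hm').trans ?_
  rw [← ENNReal.ofReal_add (by positivity) (by positivity), add_halves]

theorem TNull2.mono {E E' : ℕ → TEv} (h : TNull2 Φ f₀ T' K E)
    (hE : ∀ K' ε P z m w, E' K' ε P z m w → E K' ε P z m w) : TNull2 Φ f₀ T' K E' := by
  intro δ hδ
  obtain ⟨K₀, h⟩ := h δ hδ
  refine ⟨K₀, fun K' hK' => ?_⟩
  obtain ⟨e, he, h⟩ := h K' hK'
  refine ⟨e, he, fun ε hε hlt => ?_⟩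
  obtain ⟨G, hG, hm⟩ := h ε hε hlt
  exact ⟨G, ⟨hG.meas, fun P z m w h1 h2 h3 h4 h5 => hG.maj P z m w h1 h2 h3 h4
    (hE K' ε P z m w h5)⟩, hm⟩

end tnull

/-! ### The Mecke'd majorant of a tree functional -/

section ways

variable {Φ : Space3 → ℝ} {f₀ : PhasePoint → ℝ} {ε T' : ℝ} {K : ℕ}
  {G : (P : CTree) → PhasePoint × Par P → (m : ℕ) → Config m → ℝ≥0∞}

/-- Joint measurability of `ways`. -/
theorem measMS_ways (hΦ : AdmissiblePotential Φ) (hε : 0 < ε) (T : ℝ) (hG : MeasTS G) :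
    MeasMS fun _ m V w j => ways Φ ε T (fun P z => G P z m w) V j := by
  intro k m j
  unfold ways
  refine Measurable.tsum fun P => Finset.measurable_sum _ fun e _ => ?_
  have hV : Measurable fun q : Config k × Config m => (fun x => q.1 (e x) : Idx P → PhasePoint) :=
    measurable_pi_iff.2 fun x => (measurable_pi_apply (e x)).comp measurable_fst
  by_cases he : e (root P) = j
  · have hs : MeasurableSet {q : Config k × Config m |
        e (root P) = j ∧ (fun x => q.1 (e x)) ∈ Skel Φ ε P T} := by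
      have h1 : {q : Config k × Config m |
          e (root P) = j ∧ (fun x => q.1 (e x)) ∈ Skel Φ ε P T} =
            (fun q : Config k × Config m => (fun x => q.1 (e x) : Idx P → PhasePoint)) ⁻¹'
              Skel Φ ε P T := by
        ext q
        simp [he]
      rw [h1]
      exact hV (measurableSet_skel hΦ hε P T)
    refine Measurable.ite hs ?_ measurable_const
    exact (hG P m).comp (((measurable_inv hΦ hε P T).comp hV).prodMk measurable_snd)
  · simp only [he, false_and, if_false]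
    exact measurable_const

/-- The energy weight of a cluster which is a tree. -/
theorem Wt_eq_wQ {k : ℕ} {V : Config k} {P : CTree} {z : PhasePoint × Par P} (e : Idx P ≃ Fin k)
    (h : Adm Φ P z.1.2 z.2) (hV : ∀ x, V (e x) = lines Φ ε P z.1 z.2 x) :
    NG416.Wt V = wQ Φ ε P z := by
  rw [wQ_eq h]
  unfold NG416.Wt
  exact (Fintype.sum_equiv e _ _ fun x => by rw [hV x]).symm

theorem Wt_mul_ways (hΦ : AdmissiblePotential Φ) (hε : 0 < ε) (T : ℝ) {k : ℕ} (V : Config k)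
    (j : Fin k) (H : (P : CTree) → PhasePoint × Par P → ℝ≥0∞) :
    NG416.Wt V * ways Φ ε T H V j = ways Φ ε T (fun P z => wQ Φ ε P z * H P z) V j := by
  unfold ways
  rw [← ENNReal.tsum_mul_left]
  refine tsum_congr fun P => ?_
  rw [Finset.mul_sum]
  refine Finset.sum_congr rfl fun e _ => ?_
  rw [mul_ite, mul_zero]
  by_cases h : e (root P) = j ∧ (fun x => V (e x)) ∈ Skel Φ ε P T
  · rw [if_pos h, if_pos h]
    obtain ⟨h1, h2⟩ := lines_inv hΦ hε h.2
    rw [Wt_eq_wQ e h1.1 (z := Tree674.inv Φ ε P T fun x => V (e x)) fun x => by rw [h2]]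
  · rw [if_neg h, if_neg h]

/-- Mass of the Mecke'd majorant. -/
theorem MS_ways_le (hΦ : AdmissiblePotential Φ) (hf : Measurable f₀) (hε : 0 < ε)
    (hG : MeasTS G) :
    MS f₀ ε (fun _ m V w j => (activity ε)⁻¹ *
      (NG416.Wt V * ways Φ ε T' (fun P z => G P z m w) V j)) ≤
      TS Φ f₀ ε T' (fun P z m w => wQ Φ ε P z * G P z m w) := by
  have ha0 : activity ε ≠ 0 := by
    unfold activity
    positivity
  have hat : activity ε ≠ ∞ := by
    unfold activity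
    exact ENNReal.ofReal_ne_top
  have hH : MeasTS fun P z m w => (activity ε)⁻¹ * (wQ Φ ε P z * G P z m w) := fun P m =>
    (measTS_wQ hΦ hG P m).const_mul _
  have h := to_tree1 (f₀ := f₀) hΦ hf hε (T := T') hH
    (F := fun _ m V w j => (activity ε)⁻¹ *
      (NG416.Wt V * ways Φ ε T' (fun P z => G P z m w) V j)) (B := fun _ _ _ _ _ => 0)
    (fun _ _ _ => measurable_const) (fun k m V w j _ _ _ => by
      rw [add_zero, Wt_mul_ways hΦ hε, mul_ways])
  refine h.trans ?_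
  have h0 : MS f₀ ε (fun _ _ _ _ _ => 0) = 0 := by
    unfold MS
    simp [gcE_zero]
  rw [h0, add_zero, TS_const_mul (ENNReal.inv_ne_top.2 ha0), ← mul_assoc,
    ENNReal.mul_inv_cancel ha0 hat, one_mul]

end ways

/-! ### The output -/

section out

variable {Φ : Space3 → ℝ} {f₀ : PhasePoint → ℝ} {u₀ T' : ℝ} {K : ℕ}

/-- The bad alternatives are null. -/
theorem badZ_null (hΦ : AdmissiblePotential Φ) (hf : Measurable f₀)
    (h1 : TouchNull Φ f₀ u₀ T' K) (h2 : ∀ K', LinkNull Φ f₀ u₀ T' K K')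
    (h3 : ∀ K', RetNullT Φ f₀ u₀ T' K K') (h4 : OkNull Φ f₀ T' K) :
    TNull2 Φ f₀ T' K fun K' ε P z _ w => BadZ Φ ε K' u₀ T' P z w :=
  (h1.or hΦ hf ((TNull2.of_forall h2).or hΦ hf ((TNull2.of_forall h3).or hΦ hf
    (TNull2.of_forall fun _ => h4)))).mono fun _ _ _ _ _ _ h => h

/-- **Mecke'd majorants of `TreeBad`** from the null statements in tree coordinates. -/
theorem rtgMaj (hΦ : AdmissiblePotential Φ) (hf : Measurable f₀)
    (h1 : TouchNull Φ f₀ u₀ T' K) (h2 : ∀ K', LinkNull Φ f₀ u₀ T' K K')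
    (h3 : ∀ K', RetNullT Φ f₀ u₀ T' K K') (h4 : OkNull Φ f₀ T' K) : RtGMaj Φ f₀ u₀ T' K := by
  intro δ hδ
  obtain ⟨K₀, h⟩ := badZ_null hΦ hf h1 h2 h3 h4 δ hδ
  refine ⟨K₀, fun K' hK' => ?_⟩
  obtain ⟨e, he, h⟩ := h K' hK'
  refine ⟨e, he, fun ε hε hlt => ?_⟩
  obtain ⟨G, hG, hm⟩ := h ε hε hlt
  refine ⟨fun _ m V w j => ways Φ ε T' (fun P z => G P z m w) V j,
    measMS_ways hΦ hε T' hG.meas, ?_, (MS_ways_le hΦ hf hε hG.meas).trans hm⟩
  rintro k m V w j hk hw ⟨P, e, z, hV, hS, hr, hl, hb⟩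
  have hleaf : P.leaves ≤ K := by
    rw [← Tree674.card_idx, Fintype.card_congr e, Fintype.card_fin]
    exact hk
  refine (hG.maj P z m w hleaf hV hS hw hb).trans ?_
  exact le_ways (G := fun P z => G P z m w) hΦ hε hr hV hl

end out

/-! ### Real histories -/

section hist

variable {Φ : Space3 → ℝ} {ε T' u v u₀ tw : ℝ} {K K' : ℕ}

theorem cut_of_hTreeC {κ : Type} [Fintype κ] {Z : κ → PhasePoint} {i : κ} {P : CTree}
    {ℓ : PhasePoint} {p : Par P} {e : Idx P → κ} (h : HTreeC Φ ε T' u Z i P ℓ p e) :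
    Cut Φ ε T' u Z P (ℓ, p) e where
  inj := h.inj
  agree := h.agree
  avoid s hs k hk j hj := by
    by_contra hle
    rw [not_lt] at hle
    have h1 : Past (Ct (pth Φ ε Z) ε) u i s (e k) := (h.past s hs _).2 ⟨k, rfl, hk⟩
    have h2 : Ct (pth Φ ε Z) ε s (e k) j := by
      unfold Ct
      rw [h.agree k s hs.1 hs.2 hk]
      exact hle
    obtain ⟨m, hm, hm2⟩ := (h.past s hs _).1 (h1.contact h2)
    exact absurd (hj m hm) (not_lt.2 hm2)

theorem cut_of_hTreeP {κ : Type} [Fintype κ] {Z : κ → PhasePoint} {i : κ} {P : CTree}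
    {ℓ : PhasePoint} {p : Par P} {e : Idx P → κ} (h : HTreeP Φ ε T' u Z i P ℓ p e) (hv : v < u) :
    Cut Φ ε T' v Z P (ℓ, p) e where
  inj := h.inj
  agree k s h0 hs hk := h.agree k s h0 (hs.trans_lt hv) hk
  avoid s hs k hk j hj := by
    by_contra hle
    rw [not_lt] at hle
    have hsu : s < u := hs.2.trans_lt hv
    obtain ⟨s', hs', h1⟩ := (h.past s hs.1 hsu _).2 ⟨k, rfl, hk⟩
    have h2 : Ct (pth Φ ε Z) ε s (e k) j := by
      unfold Ct
      rw [h.agree k s hs.1 hsu hk]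
      exact hle
    obtain ⟨m, hm, hm2⟩ := (h.past s hs.1 hsu _).1 ⟨s', hs', h1.contact h2⟩
    exact absurd (hj m hm) (not_lt.2 hm2)

variable {k m : ℕ} {V : Config k} {w : Config m} {j : Fin k} {P : CTree} {ℓ : PhasePoint}
  {p : Par P} {e : Idx P → Fin (k + m)}

/-- A labelling of the block is a labelling of the cluster. -/
theorem exists_equiv_block (hi : Function.Injective e) (hr : range e = (block k m : Set _)) :
    ∃ e₀ : Idx P ≃ Fin k, e = Fin.castAdd m ∘ e₀ := by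
  have hmem : ∀ x, ∃ y : Fin k, Fin.castAdd m y = e x := by
    intro x
    have h1 : e x ∈ (block k m : Set (Fin (k + m))) := by rw [← hr]; exact mem_range_self x
    unfold block at h1
    rw [Finset.mem_coe, Finset.mem_map] at h1
    obtain ⟨y, _, hy⟩ := h1
    exact ⟨y, hy⟩
  choose f hf using hmem
  have hfi : Function.Injective f := fun x y hxy => hi (by rw [← hf x, ← hf y, hxy])
  have hfs : Function.Surjective f := by
    intro y
    have h1 : Fin.castAdd m y ∈ range e := by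
      rw [hr]
      unfold block
      rw [Finset.mem_coe, Finset.mem_map]
      exact ⟨y, Finset.mem_univ _, rfl⟩
    obtain ⟨x, hx⟩ := h1
    exact ⟨x, Fin.castAdd_injective k m ((hf x).trans hx)⟩
  exact ⟨Equiv.ofBijective f ⟨hfi, hfs⟩, by funext x; exact (hf x).symm⟩

/-- **H12 for one real history**: the protected tubes are unhit in the world of `w` alone, or the
cluster is a tree with a bad alternative. -/
theorem Cut.unhit_or_treeBad (hΦ : AdmissiblePotential Φ) (hε : 0 < ε) (hT : 0 ≤ T')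
    (hVal : Valid Φ ε P T' ℓ.2 p) (hSep : Sep Φ ε P T' ℓ p) (hvT : v ≤ T') (hv : v ∈ Icc 0 u₀)
    (hV : V ∈ PairExcluded ε k) (hw : w ∈ PairExcluded ε m) (hp : Perp ε V w)
    (hroot : e (root P) = Fin.castAdd m j) (hr : range e = (block k m : Set _))
    (h : Cut Φ ε T' v (Fin.append V w) P (ℓ, p) e) :
    unhit Φ ε (protT Φ ε P T' (ℓ, p)) v w ∨ TreeBad Φ ε K' u₀ T' V w j := by
  obtain ⟨e₀, rfl⟩ := exists_equiv_block h.inj hr
  have hX : (Fin.append V w : Config (k + m)) ∈ Dom Φ (Fin (k + m)) :=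
    pairExcluded_subset_Dom hε _ ((append_mem_pairExcluded_iff V w).2 ⟨hV, hw, hp⟩)
  have hroot' : e₀ (root P) = j := Fin.castAdd_injective k m hroot
  have hlines : ∀ x, V (e₀ x) = lines Φ ε P ℓ p x := by
    intro x
    have h0 : 0 ≤ prot P T' p x := PathFlow968.prot_nonneg hε.le P hT ℓ.2 p hVal.2 x
    have h1 := h.agree x 0 le_rfl hv.1 h0
    rw [PathFlow968.path_zero P T' ℓ p hVal.2] at h1
    have h2 : pth Φ ε (Fin.append V w) 0 (Fin.castAdd m (e₀ x)) = V (e₀ x) := by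
      show flow Φ ε 0 (Fin.append V w) (Fin.castAdd m (e₀ x)) = _
      rw [Flow671.flow_zero hΦ hε, Fin.append_left]
    rw [← h1]
    exact h2.symm
  by_cases hu : unhit Φ ε (protT Φ ε P T' (ℓ, p)) v w
  · exact Or.inl hu
  right
  refine ⟨P, e₀, (ℓ, p), hVal, hSep, hroot', hlines, ?_⟩
  by_cases hOk : AllOk Φ ε w (exL Φ ε P (ℓ, p))
  · rcases h.h12 (K := K') hΦ hε hT hVal hvT hv hX e₀ hOk hu with ⟨x, hx⟩ | h1 | h1
    · exact Or.inl ⟨x, hx.trans hv.2⟩
    · exact Or.inr (Or.inl h1)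
    · exact Or.inr (Or.inr (Or.inl (Or.inl h1)))
  · exact Or.inr (Or.inr (Or.inr hOk))

/-- Closed histories. -/
theorem hTreeC_unhit_or_treeBad (hΦ : AdmissiblePotential Φ) (hε : 0 < ε) (hu : 0 ≤ u)
    (huT : u ≤ T') (htw0 : 0 ≤ tw) (htw : tw ≤ u₀)
    (hV : V ∈ PairExcluded ε k) (hw : w ∈ PairExcluded ε m) (hp : Perp ε V w)
    (h : HTreeC Φ ε T' u (Fin.append V w) (Fin.castAdd m j) P ℓ p e)
    (hr : range e = (block k m : Set _)) :
    unhit Φ ε (protT Φ ε P T' (ℓ, p)) (min u tw) w ∨ TreeBad Φ ε K' u₀ T' V w j :=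
  ((cut_of_hTreeC h).mono (min_le_left _ _)).unhit_or_treeBad hΦ hε (hu.trans huT) h.valid h.sep
    ((min_le_left _ _).trans huT) ⟨le_min hu htw0, (min_le_right _ _).trans htw⟩ hV hw hp h.root hr

/-- Histories strictly before `u > tw`. -/
theorem hTreeP_unhit_or_treeBad (hΦ : AdmissiblePotential Φ) (hε : 0 < ε)
    (huT : u ≤ T') (htw0 : 0 ≤ tw) (htwu : tw < u) (htw : tw ≤ u₀)
    (hV : V ∈ PairExcluded ε k) (hw : w ∈ PairExcluded ε m) (hp : Perp ε V w)
    (h : HTreeP Φ ε T' u (Fin.append V w) (Fin.castAdd m j) P ℓ p e)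
    (hr : range e = (block k m : Set _)) :
    unhit Φ ε (protT Φ ε P T' (ℓ, p)) tw w ∨ TreeBad Φ ε K' u₀ T' V w j :=
  (cut_of_hTreeP h htwu).unhit_or_treeBad hΦ hε ((htw0.trans_lt htwu).le.trans huT) h.valid h.sep
    (htwu.le.trans huT) ⟨htw0, htw⟩ hV hw hp h.root hr

end hist

/-! ### One functional -/

section one

variable {Φ : Space3 → ℝ} {f₀ : PhasePoint → ℝ} {u₀ T' : ℝ} {K : ℕ}

/-- Admissible majorants at `ε`. -/
def AdmN (Φ : Space3 → ℝ) (u₀ T' : ℝ) (K : ℕ) (ε : ℝ)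
    (N : (k m : ℕ) → Config k → Config m → Fin k → ℝ≥0∞) : Prop :=
  MeasMS N ∧ ∃ K' : ℕ, ∀ k m (V : Config k) (w : Config m) (j : Fin k), k ≤ K →
    w ∈ PairExcluded ε m → TreeBad Φ ε K' u₀ T' V w j → 1 ≤ N k m V w j

/-- The mass of a majorant. -/
def massN (f₀ : PhasePoint → ℝ) (ε : ℝ)
    (N : (k m : ℕ) → Config k → Config m → Fin k → ℝ≥0∞) : ℝ≥0∞ :=
  MS f₀ ε (fun k m V w j => (activity ε)⁻¹ * (NG416.Wt V * N k m V w j))

/-- **One functional** `N ε` with mass tending to `0`. -/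
theorem exists_N (h : RtGMaj Φ f₀ u₀ T' K) :
    ∃ N : ℝ → (k m : ℕ) → Config k → Config m → Fin k → ℝ≥0∞, (∀ ε, AdmN Φ u₀ T' K ε (N ε)) ∧
      Tendsto (fun ε => massN f₀ ε (N ε)) (𝓝[>] (0 : ℝ)) (𝓝 0) := by
  set b : ℝ → ℝ≥0∞ := fun ε => ⨅ N : {N // AdmN Φ u₀ T' K ε N}, massN f₀ ε N.1 with hb
  have htop : ∀ ε, AdmN Φ u₀ T' K ε fun _ _ _ _ _ => ∞ := fun ε =>
    ⟨fun _ _ _ => measurable_const, 0, fun _ _ _ _ _ _ _ _ => le_top⟩
  have hex : ∀ ε : ℝ, ∃ N, AdmN Φ u₀ T' K ε N ∧ (0 < ε → massN f₀ ε N ≤ b ε + ENNReal.ofReal ε) := by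
    intro ε
    by_cases hε : 0 < ε
    · by_cases hbt : b ε = ∞
      · exact ⟨_, htop ε, fun _ => by rw [hbt, top_add]; exact le_top⟩
      · have h1 : b ε < b ε + ENNReal.ofReal ε :=
          ENNReal.lt_add_right hbt (ENNReal.ofReal_pos.2 hε).ne'
        obtain ⟨N, hN⟩ := iInf_lt_iff.1 h1
        exact ⟨N.1, N.2, fun _ => hN.le⟩
    · exact ⟨_, htop ε, fun h => absurd h hε⟩
  choose N hN hm using hex
  refine ⟨N, hN, ?_⟩
  rw [ENNReal.tendsto_nhds_zero]
  intro η hη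
  obtain ⟨δ, hδ, hδη⟩ : ∃ δ : ℝ, 0 < δ ∧ ENNReal.ofReal δ + ENNReal.ofReal δ ≤ η := by
    by_cases ht : η = ∞
    · exact ⟨1, one_pos, by rw [ht]; exact le_top⟩
    · refine ⟨η.toReal / 2, by have := ENNReal.toReal_pos hη.ne' ht; positivity, ?_⟩
      rw [← ENNReal.ofReal_add (by positivity) (by positivity), add_halves,
        ENNReal.ofReal_toReal ht]
  obtain ⟨K₀, h⟩ := h δ hδ
  obtain ⟨e, he, h⟩ := h K₀ le_rfl
  filter_upwards [Ioo_mem_nhdsGT (lt_min he hδ)] with ε hε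
  obtain ⟨N', h1, h2, h3⟩ := h ε hε.1 (hε.2.trans_le (min_le_left _ _))
  have h4 : b ε ≤ ENNReal.ofReal δ :=
    (iInf_le (fun N : {N // AdmN Φ u₀ T' K ε N} => massN f₀ ε N.1) ⟨N', h1, K₀, h2⟩).trans h3
  refine (hm ε hε.1).trans ((add_le_add h4 ?_).trans hδη)
  exact ENNReal.ofReal_le_ofReal (hε.2.le.trans (min_le_right _ _))

/-- **RtG in the form consumed by the assemblies** (helper311): one measurable functional `N ε` of
the Mecke'd cluster, null, such that for every real history which is a tree with at most `K` leaves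
the protected tubes are unhit up to `min u tw` in the world of `w`, or `act⁻¹ eW ≤ N ε`. -/
theorem rtgIn (hΦ : AdmissiblePotential Φ) (h : RtGMaj Φ f₀ u₀ T' K) {tw : ℝ}
    (htw0 : 0 ≤ tw) (htw : tw ≤ u₀) :
    ∃ N : ℝ → (k m : ℕ) → Config k → Config m → Fin k → ℝ≥0∞, (∀ ε, MeasMS (N ε)) ∧
      Tendsto (fun ε => MS f₀ ε (N ε)) (𝓝[>] (0 : ℝ)) (𝓝 0) ∧
      ∀ ε, 0 < ε → ∀ (k m : ℕ) (V : Config k) (w : Config m) (j : Fin k), k ≤ K →
        V ∈ PairExcluded ε k → w ∈ PairExcluded ε m → Perp ε V w →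
        ∀ (P : CTree) (ℓ : PhasePoint) (p : Par P) (e : Idx P → Fin (k + m)) (u : ℝ), 0 ≤ u →
          u ≤ T' → range e = (block k m : Set _) →
          (HTreeC Φ ε T' u (Fin.append V w) (Fin.castAdd m j) P ℓ p e ∨
            tw < u ∧ HTreeP Φ ε T' u (Fin.append V w) (Fin.castAdd m j) P ℓ p e) →
          unhit Φ ε (protT Φ ε P T' (ℓ, p)) (min u tw) w ∨
            (activity ε)⁻¹ * eW (Fin.append V w : Config (k + m)) (block k m) ≤ N ε k m V w j := by
  obtain ⟨N, hN, hlim⟩ := exists_N h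
  refine ⟨fun ε k m V w j => (activity ε)⁻¹ * (NG416.Wt V * N ε k m V w j), fun ε k m j => ?_,
    hlim, ?_⟩
  · exact ((NG416.measurable_Wt.comp measurable_fst).mul ((hN ε).1 k m j)).const_mul _
  · intro ε hε k m V w j hk hV hw hp P ℓ p e u hu huT hr hh
    obtain ⟨-, K', hK'⟩ := hN ε
    have key : unhit Φ ε (protT Φ ε P T' (ℓ, p)) (min u tw) w ∨
        TreeBad Φ ε K' u₀ T' V w j := by
      rcases hh with hh | ⟨htu, hh⟩
      · exact hTreeC_unhit_or_treeBad hΦ hε hu huT htw0 htw hV hw hp hh hr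
      · rw [min_eq_right htu.le]
        exact hTreeP_unhit_or_treeBad hΦ hε huT htw0 htu htw hV hw hp hh hr
    refine key.imp id fun hb => ?_
    have h1 := hK' k m V w j hk hw hb
    have h2 : eW (Fin.append V w : Config (k + m)) (block k m) = NG416.Wt V := by
      have h3 := NG416.eW_map (Fin.append V w : Config (k + m)) (Fin.castAddEmb m)
      unfold block
      rw [h3]
      congr 1
      funext x
      exact Fin.append_left V w x
    rw [h2]
    refine mul_le_mul_right ?_ _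
    calc NG416.Wt V = NG416.Wt V * 1 := (mul_one _).symm
      _ ≤ _ := mul_le_mul_right h1 _

end one

end

end Crest.Agent.R122.RtG302
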