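import Crest.Agent.R122.LinkGate_424
import Crest.Agent.R122.MomForest_998
import Crest.Agent.R122.LN2Inst_473
import Crest.Agent.R122.RtG_302
import Crest.Agent.R122.RtGMass_522
import Crest.Agent.R122.GIVChild_383

/-!
# The tree side of the gateway (row 122, H11), helper522

* `treeQ Φ f₀ ε P T'` : law of a tree, weighted with the energy of the leaves (`wQ`);
  `lintegral_treeQ`, `TP_eq_treeQ`, `dom_treeQ`, `exists_moment_expW`, `exists_moment`.
* `tNull_of_gNull` : gateway null facts for every tree imply `RtG302.TNull`.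
-/

set_option autoImplicit false
set_option linter.unusedSectionVars false

open MeasureTheory Set Filter Topology
open scoped Classical ENNReal
open Crest.AnalysisR.Kinetic
open Crest.Agent.R122.GC311 Crest.Agent.R122.EDefs602 Crest.Agent.R122.LinkM547
open Crest.Agent.R122.Kin796 Crest.Agent.R122.Kin796.CTree Crest.Agent.R122.Tree674
open Crest.Agent.R122.TreeLines335 Crest.Agent.R122.LineMeas994
open Crest.Agent.R122.ToTree335 Crest.Agent.R122.InEq2 Crest.Agent.R122.LN2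
open Crest.Agent.R122.Gate424 Crest.Agent.R122.Gas522

noncomputable section

namespace Crest.Agent.R122.GateT522

variable {Φ : Space3 → ℝ} {f₀ : PhasePoint → ℝ} {ε T' : ℝ}

/-! ### The measure -/

/-- Law of a tree, weighted with the energy of the leaves. -/
def treeQ (Φ : Space3 → ℝ) (f₀ : PhasePoint → ℝ) (ε : ℝ) (P : CTree) (T' : ℝ) :
    Measure (PhasePoint × Par P) := (treeM Φ f₀ ε P T').withDensity (wQ Φ ε P)

instance (P : CTree) (T' : ℝ) : SFinite (treeQ Φ f₀ ε P T') := by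
  unfold treeQ; infer_instance

theorem lintegral_treeQ (hΦ : AdmissiblePotential Φ) (P : CTree) (T' : ℝ)
    {G : PhasePoint × Par P → ℝ≥0∞} (hG : Measurable G) :
    ∫⁻ z, G z ∂(treeQ Φ f₀ ε P T') = ∫⁻ z, wQ Φ ε P z * G z ∂(treeM Φ f₀ ε P T') := by
  unfold treeQ
  rw [lintegral_withDensity_eq_lintegral_mul _ (measurable_wQ hΦ P) hG]
  rfl

/-- The tree integral of a functional is the integral against `treeQ`. -/
theorem TP_eq_treeQ (hΦ : AdmissiblePotential Φ) (hf : Measurable f₀) (P : CTree) (T' : ℝ)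
    {H : PhasePoint × Par P → (m : ℕ) → Config m → ℝ≥0∞} (hH : MeasTP P H) :
    TP Φ f₀ ε T' P (fun z m w => wQ Φ ε P z * H z m w) =
      ∫⁻ z, gcE f₀ ε (fun m w => H z m w) ∂(treeQ Φ f₀ ε P T') := by
  have hg : Measurable fun z : PhasePoint × Par P => gcE f₀ ε fun m w => H z m w :=
    measurable_gcE_par hf (F := fun z m w => H z m w) fun m => hH m
  have hgw : Measurable fun z : PhasePoint × Par P =>
      wQ Φ ε P z * gcE f₀ ε fun m w => H z m w := (measurable_wQ hΦ P).mul hg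
  rw [lintegral_treeQ hΦ P T' hg, lintegral_treeM hΦ hf ε P T' hgw]
  unfold TP
  refine lintegral_congr fun z => ?_
  by_cases hz : z ∈ {z : PhasePoint × Par P | Valid Φ ε P T' z.1.2 z.2}
  · rw [indicator_of_mem hz, indicator_of_mem hz]
    have hwt : wQ Φ ε P z ≠ ∞ := wQ_ne_top z
    rw [gcE_const_mul f₀ ε hwt]
  · rw [indicator_of_notMem hz, indicator_of_notMem hz]

/-! ### Weights -/

theorem one_add_le_exp {a : ℝ} (ha : 0 < a) (x : ℝ) (hx : 0 ≤ x) :
    1 + x ≤ max 1 (1 / a) * Real.exp (a * x) := by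
  have h1 : 1 + a * x ≤ Real.exp (a * x) := by
    have := Real.add_one_le_exp (a * x)
    linarith
  have h0 : (0 : ℝ) ≤ max 1 (1 / a) := le_trans zero_le_one (le_max_left _ _)
  have h2 : 1 + x ≤ max 1 (1 / a) * (1 + a * x) := by
    have h3 : (1 : ℝ) ≤ max 1 (1 / a) := le_max_left _ _
    have h4 : 1 / a ≤ max 1 (1 / a) := le_max_right _ _
    have h5 : x = 1 / a * (a * x) := by field_simp
    have h6 : 1 / a * (a * x) ≤ max 1 (1 / a) * (a * x) :=
      mul_le_mul_of_nonneg_right h4 (by positivity)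
    nlinarith
  exact h2.trans (mul_le_mul_of_nonneg_left h1 h0)

/-- The energy weight of the leaves is below an exponential weight. -/
theorem wQ_le_expW {a : ℝ} (ha : 0 < a) (P : CTree) (z : PhasePoint × Par P) :
    wQ Φ ε P z ≤ (Fintype.card (Idx P) * ENNReal.ofReal (max 1 (1 / a))) *
      expW a (linesM Φ ε P z.1 z.2) := by
  have h1 : ∀ i : Idx P, ENNReal.ofReal (1 + ‖(linesM Φ ε P z.1 z.2 i).2‖ ^ 2) ≤
      ENNReal.ofReal (max 1 (1 / a)) * expW a (linesM Φ ε P z.1 z.2) := by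
    intro i
    have h2 : ENNReal.ofReal (Real.exp (a * ‖(linesM Φ ε P z.1 z.2 i).2‖ ^ 2)) ≤
        expW a (linesM Φ ε P z.1 z.2) := by
      unfold expW
      refine Finset.single_le_prod' (f := fun j =>
        ENNReal.ofReal (Real.exp (a * ‖(linesM Φ ε P z.1 z.2 j).2‖ ^ 2))) (fun j _ => ?_)
        (Finset.mem_univ i)
      rw [← ENNReal.ofReal_one]
      exact ENNReal.ofReal_le_ofReal (Real.one_le_exp (by positivity))
    refine le_trans (ENNReal.ofReal_le_ofReal (one_add_le_exp ha _ (by positivity))) ?_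
    rw [ENNReal.ofReal_mul (le_trans zero_le_one (le_max_left _ _))]
    exact mul_le_mul_right h2 _
  unfold wQ
  refine (Finset.sum_le_sum fun i _ => h1 i).trans ?_
  rw [Finset.sum_const, Finset.card_univ, nsmul_eq_mul, mul_assoc]

theorem card_mul_ne_top {a : ℝ} (P : CTree) :
    (Fintype.card (Idx P) * ENNReal.ofReal (max 1 (1 / a)) : ℝ≥0∞) ≠ ∞ :=
  ENNReal.mul_ne_top (ENNReal.natCast_ne_top _) ENNReal.ofReal_ne_top

/-- **The weighted law of a tree is dominated.** -/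
theorem dom_treeQ (hΦ : AdmissiblePotential Φ) (hf : Measurable f₀) {γ : ℝ}
    {ρ : Space3 → ℝ≥0∞} {C : ℝ≥0∞} (he : Env f₀ γ ρ C) (hε : 0 < ε) {a : ℝ} (ha : 0 < a)
    (P : CTree) (T' : ℝ) :
    Dom (γ - a) ρ ε 1 Finset.univ ((Fintype.card (Idx P) * ENNReal.ofReal (max 1 (1 / a))) *
      C ^ Fintype.card (Idx P)) (Measure.dirac fun _ : Idx P => (0 : ℝ))
      (treeQ Φ f₀ ε P T') (fun _ _ => 0) (fun z => linesM Φ ε P z.1 z.2) :=
  (dom_tree hΦ hf he hε P T').weight a (measurable_wQ hΦ P) (fun z => wQ_le_expW ha P z)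
    (card_mul_ne_top P)

/-- **Exponential moments of all velocities** for the weighted law, uniform in `ε` and in the
horizon. -/
theorem exists_moment_expW (hΦ : AdmissiblePotential Φ) (hf : Measurable f₀) {b : ℝ}
    (H : HasSummableGaussianBound b (fun x v => f₀ (x, v))) {β : ℝ} (hβ : β < b)
    (P : CTree) (T : ℝ) :
    ∃ M : ℝ≥0∞, M ≠ ∞ ∧ ∀ ε t : ℝ, 0 < ε → t ≤ T →
      ∫⁻ z, expW β (linesM Φ ε P z.1 z.2) ∂(treeQ Φ f₀ ε P t) ≤ M := by
  set a : ℝ := (b - β) / 2 with ha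
  have ha0 : 0 < a := by rw [ha]; linarith
  have hab : a + β < b := by rw [ha]; linarith
  obtain ⟨M, hM, h⟩ := DomForest998.exists_mass_exp hΦ hf H hab P T
  refine ⟨(Fintype.card (Idx P) * ENNReal.ofReal (max 1 (1 / a))) * M,
    ENNReal.mul_ne_top (card_mul_ne_top P) hM, fun ε t hε ht => ?_⟩
  have hm : Measurable fun z : PhasePoint × Par P => expW β (linesM Φ ε P z.1 z.2) :=
    (measurable_expW β).comp (measurable_linesM hΦ ε P)
  have hwm : Measurable fun z : PhasePoint × Par P => wQ Φ ε P z *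
      expW β (linesM Φ ε P z.1 z.2) := (measurable_wQ hΦ P).mul hm
  rw [lintegral_treeQ hΦ P t hm, lintegral_treeM hΦ hf ε P t hwm]
  refine le_trans (lintegral_mono (g := fun z =>
    (Fintype.card (Idx P) * ENNReal.ofReal (max 1 (1 / a))) *
      (Ret424.pf Φ f₀ ε P t z * expW (a + β) (lines Φ ε P z.1 z.2))) fun z => ?_) ?_
  · by_cases hz : Valid Φ ε P t z.1.2 z.2
    · have hz' : z ∈ {z : PhasePoint × Par P | Valid Φ ε P t z.1.2 z.2} := hz
      simp only
      rw [indicator_of_mem hz', Ret424.pf_of_valid hz]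
      have e1 : ToTree335.pf Φ f₀ ε P z =
          ∏ i, ENNReal.ofReal (f₀ (lines Φ ε P z.1 z.2 i)) := rfl
      rw [e1]
      have h2 : wQ Φ ε P z * expW β (linesM Φ ε P z.1 z.2) ≤
          (Fintype.card (Idx P) * ENNReal.ofReal (max 1 (1 / a))) *
            expW (a + β) (lines Φ ε P z.1 z.2) := by
        have h3 := wQ_le_expW (Φ := Φ) (ε := ε) ha0 P z
        rw [linesM_of_adm ε hz.1] at h3 ⊢
        have h5 : expW a (lines Φ ε P z.1 z.2) * expW β (lines Φ ε P z.1 z.2) =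
            expW (a + β) (lines Φ ε P z.1 z.2) := by
          unfold expW
          rw [← Finset.prod_mul_distrib]
          refine Finset.prod_congr rfl fun j _ => ?_
          rw [← ENNReal.ofReal_mul (Real.exp_pos _).le, ← Real.exp_add]
          congr 2
          ring
        calc _ ≤ ((Fintype.card (Idx P) * ENNReal.ofReal (max 1 (1 / a))) *
              expW a (lines Φ ε P z.1 z.2)) * expW β (lines Φ ε P z.1 z.2) :=
              mul_le_mul' h3 le_rfl
          _ = _ := by rw [mul_assoc, h5]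
      calc _ ≤ wt Φ P z.1.2 z.2 * ((∏ i, ENNReal.ofReal (f₀ (lines Φ ε P z.1 z.2 i))) *
            ((Fintype.card (Idx P) * ENNReal.ofReal (max 1 (1 / a))) *
              expW (a + β) (lines Φ ε P z.1 z.2))) :=
            mul_le_mul_right (mul_le_mul_right h2 _) _
        _ = _ := by ring
    · have hz' : z ∉ {z : PhasePoint × Par P | Valid Φ ε P t z.1.2 z.2} := hz
      rw [indicator_of_notMem hz']
      exact zero_le
  · rw [lintegral_const_mul' _ _ (card_mul_ne_top P)]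
    exact mul_le_mul_right (h ε t hε.le ht) _

/-- The energy of an exit line is below the energy of the leaves. -/
theorem exp_lineMM_le (hΦ : AdmissiblePotential Φ) {β : ℝ} (hβ0 : 0 ≤ β) {P : CTree}
    {z : PhasePoint × Par P} (hz : Adm Φ P z.1.2 z.2) (x : Idx P) :
    ENNReal.ofReal (Real.exp (β * ‖(lineMM Φ ε P z x).1.2.2‖ ^ 2)) ≤
      expW β (linesM Φ ε P z.1 z.2) := by
  rw [linesM_of_adm ε hz]
  unfold expW
  rw [← ENNReal.ofReal_prod_of_nonneg fun _ _ => (Real.exp_pos _).le, ← Real.exp_sum,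
    ← Finset.mul_sum]
  refine ENNReal.ofReal_le_ofReal (Real.exp_le_exp.2 (mul_le_mul_of_nonneg_left ?_ hβ0))
  rw [lineMM_of_adm ε hz]
  exact DomForest998.lineML_sq_le hΦ ε hz x

/-- **Exponential moments of the exit lines** for the weighted law, uniform in `ε` and in the
horizon. -/
theorem exists_moment (hΦ : AdmissiblePotential Φ) (hf : Measurable f₀) {b : ℝ}
    (H : HasSummableGaussianBound b (fun x v => f₀ (x, v))) {β : ℝ} (hβ0 : 0 ≤ β) (hβ : β < b)
    (P : CTree) (T : ℝ) :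
    ∃ M : ℝ≥0∞, M ≠ ∞ ∧ ∀ ε t : ℝ, 0 < ε → t ≤ T → ∀ x : Idx P,
      ∫⁻ z, ENNReal.ofReal (Real.exp (β * ‖(lineMM Φ ε P z x).1.2.2‖ ^ 2))
        ∂(treeQ Φ f₀ ε P t) ≤ M := by
  obtain ⟨M, hM, h⟩ := exists_moment_expW hΦ hf H hβ P T
  refine ⟨M, hM, fun ε t hε ht x => le_trans ?_ (h ε t hε ht)⟩
  have hm : Measurable fun z : PhasePoint × Par P =>
      ENNReal.ofReal (Real.exp (β * ‖(lineMM Φ ε P z x).1.2.2‖ ^ 2)) := by
    have h1 : Measurable fun z : PhasePoint × Par P => lineMM Φ ε P z x :=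
      measurable_lineMM hΦ ε P x
    exact (Real.measurable_exp.comp (measurable_const.mul
      ((h1.fst.snd.snd).norm.pow_const 2))).ennreal_ofReal
  have hm' : Measurable fun z : PhasePoint × Par P => expW β (linesM Φ ε P z.1 z.2) :=
    (measurable_expW β).comp (measurable_linesM hΦ ε P)
  have hw1 : Measurable fun z : PhasePoint × Par P => wQ Φ ε P z *
      ENNReal.ofReal (Real.exp (β * ‖(lineMM Φ ε P z x).1.2.2‖ ^ 2)) :=
    (measurable_wQ hΦ P).mul hm
  have hw2 : Measurable fun z : PhasePoint × Par P => wQ Φ ε P z *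
      expW β (linesM Φ ε P z.1 z.2) := (measurable_wQ hΦ P).mul hm'
  rw [lintegral_treeQ hΦ P t hm, lintegral_treeQ hΦ P t hm',
    lintegral_treeM hΦ hf ε P t hw1, lintegral_treeM hΦ hf ε P t hw2]
  refine lintegral_mono fun z => ?_
  by_cases hz : Valid Φ ε P t z.1.2 z.2
  · have hz' : z ∈ {z : PhasePoint × Par P | Valid Φ ε P t z.1.2 z.2} := hz
    rw [indicator_of_mem hz', indicator_of_mem hz']
    exact mul_le_mul_right (mul_le_mul_right (mul_le_mul_right
      (exp_lineMM_le hΦ hβ0 hz.1 x) _) _) _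
  · have hz' : z ∉ {z : PhasePoint × Par P | Valid Φ ε P t z.1.2 z.2} := hz
    rw [indicator_of_notMem hz', indicator_of_notMem hz']

/-! ### The tree side of the gateway -/

/-- **Null events of every tree are null for the sum over the trees.** -/
theorem tNull_of_gNull (hΦ : AdmissiblePotential Φ) (hf : Measurable f₀) {K : ℕ}
    {E : RtG302.TEv} (h : ∀ P : CTree, P.leaves ≤ K →
      GNull f₀ (fun ε (_ : Unit) => treeQ Φ f₀ ε P T')
        (fun ε _ n z w => Valid Φ ε P T' z.1.2 z.2 ∧ Sep Φ ε P T' z.1 z.2 ∧ E ε P z n w)) :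
    RtG302.TNull Φ f₀ T' K E := by
  intro δ hδ
  set S : Finset CTree := GIVStep383.trees K with hS
  set δ' : ℝ := δ / (S.card + 1) with hδ'
  have hc : (0 : ℝ) < S.card + 1 := by positivity
  have hδ'0 : 0 < δ' := div_pos hδ hc
  have h1 : ∀ P : CTree, ∃ ε₀ : ℝ, 0 < ε₀ ∧ ∀ ε : ℝ, 0 < ε → ε < ε₀ →
      ∃ G : (n : ℕ) → (PhasePoint × Par P) × Config n → ℝ≥0∞, (∀ n, Measurable (G n)) ∧
        (P.leaves ≤ K → ∀ n z (w : Config n), w ∈ PairExcluded ε n →
          Valid Φ ε P T' z.1.2 z.2 → Sep Φ ε P T' z.1 z.2 → E ε P z n w → 1 ≤ G n (z, w)) ∧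
        (P.leaves ≤ K → ∫⁻ z, gcE f₀ ε (fun n w => G n (z, w)) ∂(treeQ Φ f₀ ε P T') ≤
          ENNReal.ofReal δ') ∧ (¬ P.leaves ≤ K → ∀ n q, G n q = 0) := by
    intro P
    by_cases hP : P.leaves ≤ K
    · obtain ⟨ε₀, h0, h2⟩ := h P hP (ENNReal.ofReal δ') (ENNReal.ofReal_pos.2 hδ'0)
      refine ⟨ε₀, h0, fun ε hε hlt => ?_⟩
      obtain ⟨G, hGm, hG, hGi⟩ := h2 ε hε hlt ()
      exact ⟨G, hGm, fun _ n z w hw hV hS hE => hG n z w hw ⟨hV, hS, hE⟩, fun _ => hGi,
        fun h' => absurd hP h'⟩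
    · exact ⟨1, one_pos, fun ε _ _ => ⟨fun _ _ => 0, fun _ => measurable_const,
        fun h' => absurd h' hP, fun h' => absurd h' hP, fun _ _ _ => rfl⟩⟩
  choose ε₀ h0 hG using h1
  -- a common threshold
  obtain ⟨ε₁, h1, h2⟩ : ∃ ε₁ : ℝ, 0 < ε₁ ∧ ∀ P ∈ S, ε₁ ≤ ε₀ P := by
    rcases S.eq_empty_or_nonempty with he | hne
    · exact ⟨1, one_pos, fun P hP => by rw [he] at hP; exact absurd hP (Finset.notMem_empty P)⟩
    · refine ⟨S.inf' hne ε₀, (Finset.lt_inf'_iff hne).2 fun P _ => h0 P, fun P hP =>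
        Finset.inf'_le _ hP⟩
  refine ⟨ε₁, h1, fun ε hε hlt => ?_⟩
  have hG' : ∀ P : CTree, ∃ G : (n : ℕ) → (PhasePoint × Par P) × Config n → ℝ≥0∞,
      (∀ n, Measurable (G n)) ∧
        (P.leaves ≤ K → ∀ n z (w : Config n), w ∈ PairExcluded ε n →
          Valid Φ ε P T' z.1.2 z.2 → Sep Φ ε P T' z.1 z.2 → E ε P z n w → 1 ≤ G n (z, w)) ∧
        (P.leaves ≤ K → ∫⁻ z, gcE f₀ ε (fun n w => G n (z, w)) ∂(treeQ Φ f₀ ε P T') ≤
          ENNReal.ofReal δ') ∧ (¬ P.leaves ≤ K → ∀ n q, G n q = 0) := by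
    intro P
    by_cases hP : P.leaves ≤ K
    · exact hG P ε hε (hlt.trans_le (h2 P (GIVStep383.mem_trees.2 hP)))
    · exact ⟨fun _ _ => 0, fun _ => measurable_const, fun h' => absurd h' hP,
        fun h' => absurd h' hP, fun _ _ _ => rfl⟩
  choose G hGm hGe hGi hG0 using hG'
  refine ⟨fun P z n w => G P n (z, w), ⟨fun P n => hGm P n, fun P z n w hP hV hS hw hE =>
    hGe P hP n z w hw hV hS hE⟩, ?_⟩
  rw [TS_eq_tsum]
  have h3 : ∀ P : CTree, P ∉ S → TP Φ f₀ ε T' P (fun z m w => wQ Φ ε P z * G P m (z, w)) = 0 := by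
    intro P hP
    have hP' : ¬ P.leaves ≤ K := fun h' => hP (GIVStep383.mem_trees.2 h')
    rw [TP_eq_treeQ hΦ hf P T' (H := fun z m w => G P m (z, w)) fun m => hGm P m]
    simp only [hG0 P hP', gcE_zero, lintegral_zero]
  rw [tsum_eq_sum fun P hP => h3 P hP]
  calc ∑ P ∈ S, TP Φ f₀ ε T' P (fun z m w => wQ Φ ε P z * G P m (z, w))
      ≤ ∑ _P ∈ S, ENNReal.ofReal δ' := by
        refine Finset.sum_le_sum fun P hP => ?_
        rw [TP_eq_treeQ hΦ hf P T' (H := fun z m w => G P m (z, w)) fun m => hGm P m]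
        exact hGi P (GIVStep383.mem_trees.1 hP)
    _ = S.card * ENNReal.ofReal δ' := by rw [Finset.sum_const, nsmul_eq_mul]
    _ ≤ ENNReal.ofReal δ := by
        rw [← ENNReal.ofReal_natCast, ← ENNReal.ofReal_mul (by positivity)]
        refine ENNReal.ofReal_le_ofReal ?_
        rw [hδ', mul_div_assoc', div_le_iff₀ hc]
        nlinarith

end Crest.Agent.R122.GateT522

end
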