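import Crest.Agent.R122.FluxFin_663
import Crest.Agent.R122.Sweep_815

/-!
# Row 122, (OC3) (a), (a'), (c): entrance coordinates of a free line into a moving ball

`entT ε (q, g)`, `entB ε (q, g)`: entrance time and impact parameter (in units of `ε`) of the free
relative line `q + r • g`.

* `lintegral_ent`, `lintegral_ent_line`, `lintegral_ent_line'`: exact change of variables
  `x ↔ (s, b)`, `dx = ε² |v - u| ds db`;
* `FirstHit`, `FirstHit.ent`: the first hitting time of the moving ball is the entrance time;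
* `lintegral_firstHit_le`: domination form for a path which is affine at the hitting times;
* `volume_hit_lip`: crude bound for the other times.
-/

set_option autoImplicit false

open MeasureTheory Set Filter
open Crest.AnalysisR.Kinetic
open scoped ENNReal

noncomputable section

namespace Crest.Agent.R122.OC663

open Disc416 Scat818 Flux663

/-! ### Entrance time and impact parameter -/

/-- Entrance time into the closed `ε`-ball around `0` of the relative free line `z.1 + r • z.2`. -/
def entT (ε : ℝ) (z : Space3 × Space3) : ℝ :=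
  -tline z - Real.sqrt (ε ^ 2 - ‖bline z‖ ^ 2) / ‖z.2‖

/-- Impact parameter, in units of `ε`. -/
def entB (ε : ℝ) (z : Space3 × Space3) : Space3 := ε⁻¹ • bline z

lemma measurable_entT (ε : ℝ) : Measurable (entT ε) := by
  unfold entT
  have h1 : Measurable (fun z : Space3 × Space3 => ‖bline z‖) := measurable_bline.norm
  have h2 : Measurable (fun z : Space3 × Space3 => Real.sqrt (ε ^ 2 - ‖bline z‖ ^ 2)) :=
    Real.continuous_sqrt.measurable.comp ((h1.pow_const 2).const_sub (ε ^ 2))
  exact measurable_tline.neg.sub (h2.div measurable_snd.norm)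

lemma measurable_entB (ε : ℝ) : Measurable (entB ε) := measurable_bline.const_smul ε⁻¹

lemma norm_entB {ε : ℝ} (hε : 0 < ε) (z : Space3 × Space3) : ‖entB ε z‖ = ‖bline z‖ / ε := by
  unfold entB
  rw [norm_smul, norm_inv, Real.norm_eq_abs, abs_of_pos hε]
  field_simp

lemma entB_mem {ε : ℝ} (hε : 0 < ε) {z : Space3 × Space3} (hg : z.2 ≠ 0) (h : ‖bline z‖ < ε) :
    entB ε z ∈ impactDisc z.2 := by
  refine ⟨?_, ?_⟩
  · unfold entB
    rw [inner_smul_left, inner_bline hg, mul_zero]
  · rw [norm_entB hε, div_lt_one hε]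
    exact h

lemma smul_entB {ε : ℝ} (hε : 0 < ε) (z : Space3 × Space3) : ε • entB ε z = bline z := by
  unfold entB
  rw [smul_smul, mul_inv_cancel₀ hε.ne', one_smul]

lemma mul_sqrt_entB {ε : ℝ} (hε : 0 < ε) (z : Space3 × Space3) :
    ε * Real.sqrt (1 - ‖entB ε z‖ ^ 2) = Real.sqrt (ε ^ 2 - ‖bline z‖ ^ 2) := by
  have h1 : ε ^ 2 - ‖bline z‖ ^ 2 = ε ^ 2 * (1 - ‖entB ε z‖ ^ 2) := by
    rw [norm_entB hε]
    field_simp
  rw [h1, Real.sqrt_mul (by positivity), Real.sqrt_sq hε.le]

/-- Position at the entrance time. -/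
lemma ent_pos {ε : ℝ} (hε : 0 < ε) (z : Space3 × Space3) :
    z.1 + entT ε z • z.2 = ε • entrancePoint (entB ε z) z.2 := by
  unfold entrancePoint
  rw [smul_sub, smul_entB hε, smul_smul, mul_div_assoc', mul_sqrt_entB hε]
  unfold entT bline
  rw [sub_smul, neg_smul]
  abel

lemma tline_frame {ε : ℝ} {g : Space3} (hg : g ≠ 0) (y : Plane) (s : ℝ) :
    tline (ε • frameMap g y + s • g, g) = s := by
  have : ‖g‖ ^ 2 ≠ 0 := by positivity
  unfold tline
  simp only [inner_add_left, inner_smul_left, real_inner_self_eq_norm_sq, inner_frameMap_self,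
    conj_trivial, mul_zero, zero_add]
  exact mul_div_cancel_right₀ s this

lemma bline_frame {ε : ℝ} {g : Space3} (hg : g ≠ 0) (y : Plane) (s : ℝ) :
    bline (ε • frameMap g y + s • g, g) = ε • frameMap g y := by
  unfold bline
  rw [tline_frame hg]
  simp

lemma entB_frame {ε : ℝ} (hε : 0 < ε) {g : Space3} (hg : g ≠ 0) (y : Plane) (s : ℝ) :
    entB ε (ε • frameMap g y + s • g, g) = frameMap g y := by
  unfold entB
  rw [bline_frame hg, smul_smul, inv_mul_cancel₀ hε.ne', one_smul]

lemma entT_frame {ε : ℝ} {g : Space3} (hg : g ≠ 0) (y : Plane) (s : ℝ) :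
    entT ε (ε • frameMap g y + s • g, g) =
      -s - Real.sqrt (ε ^ 2 - ‖ε • frameMap g y‖ ^ 2) / ‖g‖ := by
  unfold entT
  rw [tline_frame hg, bline_frame hg]

/-- Entrance coordinates for one relative velocity. -/
theorem lintegral_ent {ε : ℝ} (hε : 0 < ε) {g : Space3} (hg : g ≠ 0) {F : ℝ → Space3 → ℝ≥0∞}
    (hF : Measurable (Function.uncurry F)) :
    ∫⁻ q : Space3, (if ‖bline (q, g)‖ < ε then F (entT ε (q, g)) (entB ε (q, g)) else 0) =
      ENNReal.ofReal (ε ^ 2) * (ENNReal.ofReal ‖g‖ *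
        ∫⁻ s : ℝ, ∫⁻ b in impactDisc g, F s b ∂μHE[2]) := by
  have hm : Measurable (fun q : Space3 => F (entT ε (q, g)) (entB ε (q, g))) := by
    have h1 : Measurable (fun q : Space3 => (entT ε (q, g), entB ε (q, g))) :=
      ((measurable_entT ε).comp (measurable_id.prodMk measurable_const)).prodMk
        ((measurable_entB ε).comp (measurable_id.prodMk measurable_const))
    exact hF.comp h1
  rw [lintegral_cyl_eps hε hg hm]
  congr 2
  have h2 : ∀ y : Plane, ∫⁻ s : ℝ, F (entT ε (ε • frameMap g y + s • g, g))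
      (entB ε (ε • frameMap g y + s • g, g)) = ∫⁻ s : ℝ, F s (frameMap g y) := by
    intro y
    simp only [entT_frame hg, entB_frame hε hg]
    rw [← lintegral_neg_eq_self (μ := (volume : Measure ℝ)) (fun s => F (s) (frameMap g y))]
    rw [← lintegral_add_right_eq_self (μ := (volume : Measure ℝ)) (fun s => F (-s) (frameMap g y))
      (Real.sqrt (ε ^ 2 - ‖ε • frameMap g y‖ ^ 2) / ‖g‖)]
    refine lintegral_congr fun s => ?_
    congr 1
    ring
  simp only [h2]
  have hfm : Measurable (fun y : Plane => frameMap g y) :=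
    measurable_frameMap.comp (measurable_const.prodMk measurable_id)
  rw [lintegral_lintegral_swap]
  · refine lintegral_congr fun s => ?_
    rw [lintegral_impactDisc hg]
  · exact (hF.comp (measurable_snd.prodMk (hfm.comp measurable_fst))).aemeasurable

/-- Entrance coordinates for a free line of velocity `v` and the ball around `c₀ + s • u`. -/
theorem lintegral_ent_line {ε : ℝ} (hε : 0 < ε) {v u : Space3} (c₀ : Space3) (hg : v - u ≠ 0)
    {F : ℝ → Space3 → ℝ≥0∞} (hF : Measurable (Function.uncurry F)) :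
    ∫⁻ x : Space3, (if ‖bline (x - c₀, v - u)‖ < ε then
        F (entT ε (x - c₀, v - u)) (entB ε (x - c₀, v - u)) else 0) =
      ENNReal.ofReal (ε ^ 2) * (ENNReal.ofReal ‖v - u‖ *
        ∫⁻ s : ℝ, ∫⁻ b in impactDisc (v - u), F s b ∂μHE[2]) := by
  rw [← lintegral_ent hε hg hF]
  exact lintegral_sub_right_eq_self (fun q : Space3 => if ‖bline (q, v - u)‖ < ε then
        F (entT ε (q, v - u)) (entB ε (q, v - u)) else 0) c₀

/-- Reconstruction of the line from the entrance data. -/
lemma eq_of_ent {ε : ℝ} (hε : 0 < ε) (x v u c₀ : Space3) :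
    c₀ + entT ε (x - c₀, v - u) • u + ε • entrancePoint (entB ε (x - c₀, v - u)) (v - u) -
      entT ε (x - c₀, v - u) • v = x := by
  have h := ent_pos hε (x - c₀, v - u)
  simp only at h
  rw [← h, smul_sub]
  abel

lemma measurable_ent_pos (ε : ℝ) : Measurable (fun p : Space3 × Space3 =>
    ε • entrancePoint p.1 p.2) := measurable_entrancePoint.const_smul ε

/-- Entrance coordinates, for a function of the line. -/
theorem lintegral_ent_line' {ε : ℝ} (hε : 0 < ε) {v u : Space3} (c₀ : Space3) (hg : v - u ≠ 0)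
    {J : Set ℝ} (hJ : MeasurableSet J) {H : Space3 → ℝ≥0∞} (hH : Measurable H) :
    ∫⁻ x : Space3, (if ‖bline (x - c₀, v - u)‖ < ε then
        J.indicator (fun _ => H x) (entT ε (x - c₀, v - u)) else 0) =
      ENNReal.ofReal (ε ^ 2) * (ENNReal.ofReal ‖v - u‖ *
        ∫⁻ s in J, ∫⁻ b in impactDisc (v - u),
          H (c₀ + s • u + ε • entrancePoint b (v - u) - s • v) ∂μHE[2]) := by
  have hpos : Measurable (fun p : ℝ × Space3 =>
      c₀ + p.1 • u + ε • entrancePoint p.2 (v - u) - p.1 • v) := by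
    have h1 : Measurable (fun p : ℝ × Space3 => ε • entrancePoint p.2 (v - u)) :=
      (measurable_ent_pos ε).comp (measurable_snd.prodMk measurable_const)
    have h2 : Measurable (fun p : ℝ × Space3 => c₀ + p.1 • u) :=
      (measurable_fst.smul measurable_const).const_add c₀
    exact (h2.add h1).sub (measurable_fst.smul measurable_const)
  have hF : Measurable (Function.uncurry (fun (s : ℝ) (b : Space3) => J.indicator
      (fun s => H (c₀ + s • u + ε • entrancePoint b (v - u) - s • v)) s)) := by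
    have h3 : (Function.uncurry (fun (s : ℝ) (b : Space3) => J.indicator
      (fun s => H (c₀ + s • u + ε • entrancePoint b (v - u) - s • v)) s)) =
      (Prod.fst ⁻¹' J).indicator (fun p : ℝ × Space3 =>
        H (c₀ + p.1 • u + ε • entrancePoint p.2 (v - u) - p.1 • v)) := by
      funext p
      by_cases hp : p.1 ∈ J
      · simp [Function.uncurry, indicator, hp]
      · simp [Function.uncurry, indicator, hp]
    rw [h3]
    exact (hH.comp hpos).indicator (measurable_fst hJ)
  have h := lintegral_ent_line hε c₀ hg hF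
  rw [← lintegral_indicator hJ]
  have h4 : ∀ s : ℝ, ∫⁻ b in impactDisc (v - u), J.indicator
      (fun s => H (c₀ + s • u + ε • entrancePoint b (v - u) - s • v)) s ∂μHE[2] =
      J.indicator (fun s => ∫⁻ b in impactDisc (v - u),
        H (c₀ + s • u + ε • entrancePoint b (v - u) - s • v) ∂μHE[2]) s := by
    intro s
    by_cases hs : s ∈ J
    · simp only [indicator_of_mem hs]
    · simp only [indicator_of_notMem hs, lintegral_zero]
  simp only [h4] at h
  rw [← h]
  refine lintegral_congr fun x => ?_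
  split_ifs with hx
  · by_cases hs : entT ε (x - c₀, v - u) ∈ J
    · simp only [indicator_of_mem hs]
      rw [eq_of_ent hε]
    · simp only [indicator_of_notMem hs]
  · rfl

/-- Grazing lines are negligible. -/
lemma volume_grazing {g : Space3} (hg : g ≠ 0) (c₀ : Space3) {ε : ℝ} (hε : 0 < ε) :
    volume {x : Space3 | ‖bline (x - c₀, g)‖ = ε} = 0 := by
  have hms : MeasurableSet {q : Space3 | ‖bline (q, g)‖ = ε} := by
    refine measurableSet_eq_fun ?_ measurable_const
    exact (measurable_bline.comp (measurable_id.prodMk measurable_const)).norm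
  have h1 : volume {x : Space3 | ‖bline (x - c₀, g)‖ = ε} =
      volume {q : Space3 | ‖bline (q, g)‖ = ε} := by
    exact (measurePreserving_sub_right (volume : Measure Space3) c₀).measure_preimage
      hms.nullMeasurableSet
  rw [h1]
  have h2 := (measurePreserving_cylinder hg).measure_preimage hms.nullMeasurableSet
  rw [← h2]
  have hb : ∀ (y : Plane) (r : ℝ), bline (frameMap g y + r • dir g, g) = frameMap g y := by
    intro y r
    have h0 : ‖g‖ ≠ 0 := norm_ne_zero_iff.2 hg
    unfold bline tline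
    simp only [inner_add_left, inner_frameMap_self, zero_add, dir, smul_smul, inner_smul_left,
      real_inner_self_eq_norm_sq, conj_trivial]
    have : r * ‖g‖⁻¹ * ‖g‖ ^ 2 / ‖g‖ ^ 2 = r * ‖g‖⁻¹ := by field_simp
    rw [this]
    simp
  have h3 : ((fun p : Plane × ℝ => frameMap g p.1 + p.2 • dir g) ⁻¹'
      {q : Space3 | ‖bline (q, g)‖ = ε}) = (Metric.sphere (0 : Plane) ε) ×ˢ (univ : Set ℝ) := by
    ext p
    simp only [mem_preimage, Set.mem_ofPred_eq, hb, norm_frameMap hg, mem_prod, mem_univ, and_true,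
      mem_sphere_iff_norm, sub_zero]
  rw [h3, Measure.volume_eq_prod, Measure.prod_prod, Measure.addHaar_sphere_of_ne_zero _ _ hε.ne',
    zero_mul]

/-! ### First hits -/

/-- `s` is the first time after `τ` at which the curve `X` is at distance `ε` of the curve `c`
(strictly farther before, after `τ`). -/
def FirstHit (ε : ℝ) (X c : ℝ → Space3) (τ s : ℝ) : Prop :=
  τ < s ∧ ‖X s - c s‖ = ε ∧ ∀ r ∈ Ioo τ s, ε < ‖X r - c r‖

lemma FirstHit.unique {ε : ℝ} {X c : ℝ → Space3} {τ s s' : ℝ} (h : FirstHit ε X c τ s)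
    (h' : FirstHit ε X c τ s') : s = s' := by
  rcases lt_trichotomy s s' with h1 | h1 | h1
  · exact absurd h.2.1 (h'.2.2 s ⟨h.1, h1⟩).ne'
  · exact h1
  · exact absurd h'.2.1 (h.2.2 s' ⟨h'.1, h1⟩).ne'

lemma norm_sq_line {q g : Space3} (hg : g ≠ 0) (r : ℝ) :
    ‖q + r • g‖ ^ 2 = ‖bline (q, g)‖ ^ 2 + (r + tline (q, g)) ^ 2 * ‖g‖ ^ 2 := by
  have h1 : q + r • g = bline (q, g) + (r + tline (q, g)) • g := by
    unfold bline
    simp only [add_smul]
    abel
  have h2 : inner ℝ (bline (q, g)) g = 0 := inner_bline (z := (q, g)) hg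
  rw [h1, ← real_inner_self_eq_norm_sq, inner_add_left, inner_add_right, inner_add_right,
    inner_smul_right, inner_smul_left, inner_smul_left, inner_smul_right,
    real_inner_comm, h2, real_inner_self_eq_norm_sq, real_inner_self_eq_norm_sq,
    real_inner_comm, h2]
  simp only [conj_trivial]
  ring

/-- A first hit at a time at which the path is affine (to the left) is an entrance. -/
theorem FirstHit.ent {ε : ℝ} (hε : 0 < ε) {x v u c₀ : Space3} {c : ℝ → Space3} {τ s α : ℝ}
    (hα : α < s) (hc : ∀ r ∈ Icc α s, c r = c₀ + r • u)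
    (h : FirstHit ε (fun r => x + r • v) c τ s) :
    v - u ≠ 0 ∧ ‖bline (x - c₀, v - u)‖ ≤ ε ∧ s = entT ε (x - c₀, v - u) := by
  obtain ⟨hτ, hs, hlt⟩ := h
  have hrel : ∀ r ∈ Icc α s, (x + r • v) - c r = (x - c₀) + r • (v - u) := by
    intro r hr
    rw [hc r hr, smul_sub]
    abel
  set a := max α τ with ha
  have has : a < s := max_lt hα hτ
  have hs' : ‖(x - c₀) + s • (v - u)‖ = ε := by
    rw [← hrel s ⟨hα.le, le_refl s⟩]; exact hs
  have hlt' : ∀ r ∈ Ioo a s, ε < ‖(x - c₀) + r • (v - u)‖ := by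
    intro r hr
    rw [← hrel r ⟨(le_max_left _ _).trans hr.1.le, hr.2.le⟩]
    exact hlt r ⟨(le_max_right _ _).trans_lt hr.1, hr.2⟩
  have hg : v - u ≠ 0 := by
    intro h0
    have hmid : (a + s) / 2 ∈ Ioo a s := ⟨by linarith, by linarith⟩
    have := hlt' _ hmid
    rw [h0, smul_zero] at this
    rw [h0, smul_zero] at hs'
    linarith
  set q := x - c₀
  set g := v - u
  set t := tline (q, g) with ht
  have hgp : 0 < ‖g‖ := norm_pos_iff.2 hg
  have e1 : ε ^ 2 = ‖bline (q, g)‖ ^ 2 + (s + t) ^ 2 * ‖g‖ ^ 2 := by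
    rw [← norm_sq_line hg, hs']
  have e2 : ∀ r ∈ Ioo a s, (s + t) ^ 2 < (r + t) ^ 2 := by
    intro r hr
    have h1 := hlt' r hr
    have h2 : ε ^ 2 < ‖q + r • g‖ ^ 2 := by
      have := norm_nonneg (q + r • g)
      nlinarith
    rw [norm_sq_line hg, e1] at h2
    have h3 : (s + t) ^ 2 * ‖g‖ ^ 2 < (r + t) ^ 2 * ‖g‖ ^ 2 := by linarith
    exact lt_of_mul_lt_mul_right h3 (by positivity)
  have hst : s + t ≤ 0 := by
    by_contra hpos
    push Not at hpos
    -- choose r < s close with 0 ≤ r + t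
    set r := max ((a + s) / 2) (-t) with hr
    have hr1 : r < s := max_lt (by linarith) (by linarith)
    have hr2 : a < r := lt_of_lt_of_le (by linarith) (le_max_left _ _)
    have hr3 : 0 ≤ r + t := by
      have := le_max_right ((a + s) / 2) (-t)
      linarith
    have := e2 r ⟨hr2, hr1⟩
    nlinarith
  refine ⟨hg, ?_, ?_⟩
  · have : ‖bline (q, g)‖ ^ 2 ≤ ε ^ 2 := by
      have : 0 ≤ (s + t) ^ 2 * ‖g‖ ^ 2 := by positivity
      linarith
    exact (sq_le_sq₀ (norm_nonneg _) hε.le).1 this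
  · unfold entT
    have h1 : ε ^ 2 - ‖bline (q, g)‖ ^ 2 = (-(s + t) * ‖g‖) ^ 2 := by
      rw [e1]; ring
    simp only
    rw [h1, Real.sqrt_sq (mul_nonneg (by linarith) hgp.le), mul_div_assoc, div_self hgp.ne']
    rw [← ht]
    ring

/-- The majorant of a function of first hits with impact data in `J`. -/
def maj (ε : ℝ) (c₀ g : Space3) (J : Set ℝ) (G : ℝ → Space3 → ℝ≥0∞) (x : Space3) : ℝ≥0∞ :=
  open scoped Classical in
  if ‖bline (x - c₀, g)‖ < ε then
    J.indicator (fun s => G s (entB ε (x - c₀, g))) (entT ε (x - c₀, g)) else 0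

lemma measurable_indicator_left {J : Set ℝ} (hJ : MeasurableSet J) {G : ℝ → Space3 → ℝ≥0∞}
    (hG : Measurable (Function.uncurry G)) :
    Measurable (Function.uncurry (fun (s : ℝ) (b : Space3) => J.indicator (fun s => G s b) s)) := by
  have h3 : (Function.uncurry (fun (s : ℝ) (b : Space3) => J.indicator
    (fun s => G s b) s)) = (Prod.fst ⁻¹' J).indicator (Function.uncurry G) := by
    funext p
    by_cases hp : p.1 ∈ J
    · simp [Function.uncurry, indicator, hp]
    · simp [Function.uncurry, indicator, hp]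
  rw [h3]
  exact hG.indicator (measurable_fst hJ)

lemma measurable_maj (ε : ℝ) (c₀ g : Space3) {J : Set ℝ} (hJ : MeasurableSet J)
    {G : ℝ → Space3 → ℝ≥0∞} (hG : Measurable (Function.uncurry G)) :
    Measurable (maj ε c₀ g J G) := by
  have h0 : Measurable (fun x : Space3 => (x - c₀, g)) :=
    (measurable_id.sub_const c₀).prodMk measurable_const
  unfold maj
  refine Measurable.ite (measurableSet_lt (measurable_bline.comp h0).norm measurable_const) ?_
    measurable_const
  exact (measurable_indicator_left hJ hG).comp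
    (((measurable_entT ε).comp h0).prodMk ((measurable_entB ε).comp h0))

lemma lintegral_maj {ε : ℝ} (hε : 0 < ε) (c₀ : Space3) {v u : Space3} (hg : v - u ≠ 0) {J : Set ℝ}
    (hJ : MeasurableSet J) {G : ℝ → Space3 → ℝ≥0∞} (hG : Measurable (Function.uncurry G)) :
    ∫⁻ x, maj ε c₀ (v - u) J G x = ENNReal.ofReal (ε ^ 2) * (ENNReal.ofReal ‖v - u‖ *
        ∫⁻ s in J, ∫⁻ b in impactDisc (v - u), G s b ∂μHE[2]) := by
  have h := lintegral_ent_line hε c₀ hg (measurable_indicator_left hJ hG)
  have h4 : ∀ s : ℝ, ∫⁻ b in impactDisc (v - u), J.indicator (fun s => G s b) s ∂μHE[2] =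
      J.indicator (fun s => ∫⁻ b in impactDisc (v - u), G s b ∂μHE[2]) s := by
    intro s
    by_cases hs : s ∈ J
    · simp only [indicator_of_mem hs]
    · simp only [indicator_of_notMem hs, lintegral_zero]
  simp only [h4] at h
  rw [← lintegral_indicator hJ, ← h]
  rfl

/-- Pointwise form of (OC3)(a). -/
theorem ae_le_maj {ε : ℝ} (hε : 0 < ε) {c : ℝ → Space3} {c₀ u v : Space3} {τ : ℝ}
    {J : Set ℝ} (hc : ∀ s ∈ J, ∃ α, α < s ∧ ∀ r ∈ Icc α s, c r = c₀ + r • u)
    {H : Space3 → ℝ≥0∞} {G : ℝ → Space3 → ℝ≥0∞}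
    (hHG : ∀ x, ∀ s ∈ J, ∀ b ∈ impactDisc (v - u), FirstHit ε (fun r => x + r • v) c τ s →
      x + s • v - c s = ε • entrancePoint b (v - u) → H x ≤ G s b) :
    ∀ᵐ x : Space3, (∃ s ∈ J, FirstHit ε (fun r => x + r • v) c τ s) →
      H x ≤ maj ε c₀ (v - u) J G x := by
  by_cases hg : v - u = 0
  · refine Eventually.of_forall fun x hx => ?_
    obtain ⟨s, hs, hf⟩ := hx
    obtain ⟨α, hα, hcα⟩ := hc s hs
    exact absurd hg (hf.ent hε hα hcα).1
  have hnull : ∀ᵐ x : Space3, ‖bline (x - c₀, v - u)‖ ≠ ε := by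
    rw [ae_iff]
    simpa using volume_grazing hg c₀ hε
  filter_upwards [hnull] with x hx hex
  obtain ⟨s, hs, hf⟩ := hex
  obtain ⟨α, hα, hcα⟩ := hc s hs
  obtain ⟨-, hb, hsT⟩ := hf.ent hε hα hcα
  have hb' : ‖bline (x - c₀, v - u)‖ < ε := lt_of_le_of_ne hb hx
  unfold maj
  rw [if_pos hb', ← hsT, indicator_of_mem hs]
  refine hHG x s hs _ (entB_mem hε hg hb') hf ?_
  rw [hcα s ⟨hα.le, le_refl s⟩, ← ent_pos hε (x - c₀, v - u)]
  simp only
  rw [← hsT, smul_sub]
  abel

/-- **(OC3)(a)**, countably many affine pieces, fixed velocity. `H` need not be measurable. -/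
theorem lintegral_firstHit_pieces_le {ε : ℝ} (hε : 0 < ε) {c : ℝ → Space3} {ι : Type*} [Countable ι]
    {c₀ u : ι → Space3} {v : Space3} {τ : ℝ}
    {J : ι → Set ℝ} (hJ : ∀ i, MeasurableSet (J i))
    (hc : ∀ i, ∀ s ∈ J i, ∃ α, α < s ∧ ∀ r ∈ Icc α s, c r = c₀ i + r • u i)
    {H : Space3 → ℝ≥0∞} {G : ι → ℝ → Space3 → ℝ≥0∞} (hG : ∀ i, Measurable (Function.uncurry (G i)))
    (hH : ∀ x, H x ≠ 0 → ∃ i, ∃ s ∈ J i, FirstHit ε (fun r => x + r • v) c τ s)
    (hHG : ∀ i, ∀ x, ∀ s ∈ J i, ∀ b ∈ impactDisc (v - u i),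
      FirstHit ε (fun r => x + r • v) c τ s →
      x + s • v - c s = ε • entrancePoint b (v - u i) → H x ≤ G i s b) :
    ∫⁻ x, H x ≤ ENNReal.ofReal (ε ^ 2) * ∑' i, (ENNReal.ofReal ‖v - u i‖ *
        ∫⁻ s in J i, ∫⁻ b in impactDisc (v - u i), G i s b ∂μHE[2]) := by
  have h1 : ∀ i, ∀ᵐ x : Space3, (∃ s ∈ J i, FirstHit ε (fun r => x + r • v) c τ s) →
      H x ≤ maj ε (c₀ i) (v - u i) (J i) (G i) x := fun i => ae_le_maj hε (hc i) (hHG i)
  have h2 : ∀ i, ∫⁻ x, (if v - u i = 0 then 0 else maj ε (c₀ i) (v - u i) (J i) (G i) x) ≤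
      ENNReal.ofReal (ε ^ 2) * (ENNReal.ofReal ‖v - u i‖ *
        ∫⁻ s in J i, ∫⁻ b in impactDisc (v - u i), G i s b ∂μHE[2]) := by
    intro i
    by_cases hg : v - u i = 0
    · simp [hg]
    · simp only [hg, if_false]
      exact (lintegral_maj hε (c₀ i) hg (hJ i) (hG i)).le
  rw [← ENNReal.tsum_mul_left]
  refine le_trans ?_ (ENNReal.tsum_le_tsum h2)
  rw [← lintegral_tsum]
  · refine lintegral_mono_ae ?_
    filter_upwards [ae_all_iff.2 h1] with x hx
    by_cases hx0 : H x = 0
    · rw [hx0]; exact bot_le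
    obtain ⟨i, hi⟩ := hH x hx0
    have hne : v - u i ≠ 0 := by
      obtain ⟨s, hs, hf⟩ := hi
      obtain ⟨α, hα, hcα⟩ := hc i s hs
      exact (hf.ent hε hα hcα).1
    refine le_trans (hx i hi) ?_
    have := ENNReal.le_tsum (f := fun i => if v - u i = 0 then 0 else
      maj ε (c₀ i) (v - u i) (J i) (G i) x) i
    simpa [hne] using this
  · intro i
    by_cases hg : v - u i = 0
    · simp only [hg, if_true]
      exact measurable_const.aemeasurable
    · simp only [hg, if_false]
      exact (measurable_maj ε (c₀ i) (v - u i) (hJ i) (hG i)).aemeasurable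

/-- **(OC3)(a)**, one affine piece, fixed velocity. `H` need not be measurable. -/
theorem lintegral_firstHit_le {ε : ℝ} (hε : 0 < ε) {c : ℝ → Space3} {c₀ u v : Space3} {τ : ℝ}
    {J : Set ℝ} (hJ : MeasurableSet J)
    (hc : ∀ s ∈ J, ∃ α, α < s ∧ ∀ r ∈ Icc α s, c r = c₀ + r • u)
    {H : Space3 → ℝ≥0∞} {G : ℝ → Space3 → ℝ≥0∞} (hG : Measurable (Function.uncurry G))
    (hH : ∀ x, H x ≠ 0 → ∃ s ∈ J, FirstHit ε (fun r => x + r • v) c τ s)
    (hHG : ∀ x, ∀ s ∈ J, ∀ b ∈ impactDisc (v - u), FirstHit ε (fun r => x + r • v) c τ s →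
      x + s • v - c s = ε • entrancePoint b (v - u) → H x ≤ G s b) :
    ∫⁻ x, H x ≤ ENNReal.ofReal (ε ^ 2) * (ENNReal.ofReal ‖v - u‖ *
        ∫⁻ s in J, ∫⁻ b in impactDisc (v - u), G s b ∂μHE[2]) := by
  have h := lintegral_firstHit_pieces_le (ι := Unit) hε (c := c) (c₀ := fun _ => c₀)
    (u := fun _ => u) (v := v) (τ := τ) (J := fun _ => J) (fun _ => hJ) (fun _ => hc)
    (H := H) (G := fun _ => G) (fun _ => hG) (fun x hx => ⟨(), hH x hx⟩) (fun _ => hHG)
  simpa using h

/-! ### Integration over the velocity -/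

/-- Joint measurability of flux integrals over the impact disc. -/
lemma measurable_flux_disc {α : Type*} [MeasurableSpace α] {γ : α → Space3} (hγ : Measurable γ)
    {f : α → Space3 → ℝ≥0∞} (hf : Measurable (Function.uncurry f)) :
    Measurable (fun a => ENNReal.ofReal ‖γ a‖ * ∫⁻ b in impactDisc (γ a), f a b ∂μHE[2]) := by
  have h1 : (fun a => ENNReal.ofReal ‖γ a‖ * ∫⁻ b in impactDisc (γ a), f a b ∂μHE[2]) =
      fun a => ENNReal.ofReal ‖γ a‖ * ∫⁻ y in Metric.ball (0 : Plane) 1, f a (frameMap (γ a) y) := by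
    funext a
    by_cases h : γ a = 0
    · simp [h]
    · rw [lintegral_impactDisc h]
  rw [h1]
  have h2 : Measurable (fun p : α × Plane => f p.1 (frameMap (γ p.1) p.2)) :=
    hf.comp (measurable_fst.prodMk (measurable_frameMap.comp
      ((hγ.comp measurable_fst).prodMk measurable_snd)))
  exact (hγ.norm.ennreal_ofReal).mul
    (h2.lintegral_prod_right' (ν := volume.restrict (Metric.ball (0 : Plane) 1)))

/-! ### (OC3)(c): the crude bound at the bad times -/

/-- Volume of the translations for which a `V`-Lipschitz curve meets the closed `r`-ball around the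
origin during `[a, b]`. -/
theorem volume_hit_lip {a b r V : ℝ} (hab : a ≤ b) (hr : 0 < r) (hV : 0 ≤ V) {γ : ℝ → Space3}
    (hγ : ∀ s ∈ Icc a b, ∀ s' ∈ Icc a b, ‖γ s - γ s'‖ ≤ V * |s - s'|) :
    volume {x : Space3 | ∃ s ∈ Icc a b, ‖x + γ s‖ ≤ r} ≤
      (2 + ENNReal.ofReal (V * (b - a) / r)) * (ENNReal.ofReal (2 * r) ^ 3 * Sweep815.c3) := by
  -- grid of `N + 1` points with mesh `δ`, `V δ ≤ r`
  set N : ℕ := ⌈V * (b - a) / r⌉₊ with hN
  set t : ℕ → ℝ := fun i => a + i * ((b - a) / (N + 1)) with ht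
  have hN1 : (0 : ℝ) < N + 1 := by positivity
  have hba : 0 ≤ b - a := by linarith
  have hmesh : V * ((b - a) / (N + 1)) ≤ r := by
    have h1 : V * (b - a) / r ≤ N := Nat.le_ceil _
    have h2 : V * (b - a) ≤ N * r := by
      rw [div_le_iff₀ hr] at h1; exact h1
    rw [← mul_div_assoc, div_le_iff₀ hN1]
    nlinarith
  have ht_mem : ∀ i : ℕ, i ≤ N → t i ∈ Icc a b := by
    intro i hi
    have h1 : (i : ℝ) ≤ N := by exact_mod_cast hi
    have h3 : 0 ≤ (b - a) / (N + 1) := by positivity
    refine ⟨by simp only [ht]; nlinarith [mul_nonneg (Nat.cast_nonneg (α := ℝ) i) h3], ?_⟩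
    simp only [ht]
    have h2 : (i : ℝ) * ((b - a) / (N + 1)) ≤ (N + 1) * ((b - a) / (N + 1)) := by
      have : (i : ℝ) ≤ N + 1 := by linarith
      exact mul_le_mul_of_nonneg_right this h3
    rw [mul_div_cancel₀ _ hN1.ne'] at h2
    linarith
  have hcov : {x : Space3 | ∃ s ∈ Icc a b, ‖x + γ s‖ ≤ r} ⊆
      ⋃ i ∈ Finset.range (N + 1), Metric.closedBall (-γ (t i)) (2 * r) := by
    rintro x ⟨s, hs, hx⟩
    -- index of `s`
    set d := (b - a) / (N + 1) with hd
    have hd0 : 0 ≤ d := by positivity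
    obtain ⟨i, hi, hsi⟩ : ∃ i : ℕ, i ≤ N ∧ |s - t i| ≤ d := by
      by_cases hd1 : d = 0
      · refine ⟨0, Nat.zero_le _, ?_⟩
        have h0 : b - a = 0 := by
          have : (b - a) / (N + 1) * (N + 1) = b - a := div_mul_cancel₀ _ hN1.ne'
          rw [← hd, hd1, zero_mul] at this
          exact this.symm
        have hs' : s = a := le_antisymm (by linarith [hs.2]) hs.1
        simp [ht, hs', hd1]
      · have hdp : 0 < d := lt_of_le_of_ne hd0 (Ne.symm hd1)
        have hx0 : 0 ≤ (s - a) / d := div_nonneg (by linarith [hs.1]) hdp.le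
        refine ⟨min N ⌊(s - a) / d⌋₊, min_le_left _ _, ?_⟩
        have hf1 := Nat.floor_le hx0
        have hf2 := Nat.lt_floor_add_one ((s - a) / d)
        have hsa : (s - a) / d * d = s - a := div_mul_cancel₀ _ hdp.ne'
        rcases le_total N ⌊(s - a) / d⌋₊ with hc | hc
        · rw [min_eq_left hc]
          have h1 : (N : ℝ) * d ≤ s - a := by
            have : (N : ℝ) ≤ (s - a) / d := le_trans (by exact_mod_cast hc) hf1
            have := mul_le_mul_of_nonneg_right this hd0
            linarith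
          have h2 : (N + 1 : ℝ) * d = b - a := by rw [hd]; field_simp
          rw [abs_of_nonneg (by simp only [ht]; linarith)]
          simp only [ht]
          linarith [hs.2]
        · rw [min_eq_right hc]
          have h1 : (⌊(s - a) / d⌋₊ : ℝ) * d ≤ s - a := by
            have := mul_le_mul_of_nonneg_right hf1 hd0
            linarith
          have h2 : s - a ≤ (⌊(s - a) / d⌋₊ + 1 : ℝ) * d := by
            have := mul_le_mul_of_nonneg_right hf2.le hd0
            linarith
          rw [abs_of_nonneg (by simp only [ht]; linarith)]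
          simp only [ht]
          linarith
    rw [mem_iUnion₂]
    refine ⟨i, Finset.mem_range.2 (Nat.lt_succ_of_le hi), ?_⟩
    rw [mem_closedBall_iff_norm]
    have e1 : x - -γ (t i) = (x + γ s) - (γ s - γ (t i)) := by abel
    rw [e1]
    calc ‖(x + γ s) - (γ s - γ (t i))‖ ≤ ‖x + γ s‖ + ‖γ s - γ (t i)‖ := norm_sub_le _ _
      _ ≤ r + V * |s - t i| := add_le_add hx (hγ s hs _ (ht_mem i hi))
      _ ≤ r + V * d := by gcongr
      _ ≤ 2 * r := by linarith
  calc volume {x : Space3 | ∃ s ∈ Icc a b, ‖x + γ s‖ ≤ r}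
      ≤ volume (⋃ i ∈ Finset.range (N + 1), Metric.closedBall (-γ (t i)) (2 * r)) :=
        measure_mono hcov
    _ ≤ ∑ i ∈ Finset.range (N + 1), volume (Metric.closedBall (-γ (t i)) (2 * r)) :=
        measure_biUnion_finset_le _ _
    _ = (N + 1 : ℕ) * (ENNReal.ofReal (2 * r) ^ 3 * Sweep815.c3) := by
        simp only [Sweep815.vol_closedBall, Finset.sum_const, Finset.card_range, nsmul_eq_mul]
    _ ≤ (2 + ENNReal.ofReal (V * (b - a) / r)) * (ENNReal.ofReal (2 * r) ^ 3 * Sweep815.c3) := by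
        gcongr
        have h1 : (N : ℝ) ≤ V * (b - a) / r + 1 := by
          have := Nat.ceil_lt_add_one (a := V * (b - a) / r) (by positivity)
          exact this.le
        have h2 : ((N + 1 : ℕ) : ℝ≥0∞) = ENNReal.ofReal ((N : ℝ) + 1) := by
          rw [show ((N : ℝ) + 1) = ((N + 1 : ℕ) : ℝ) by push_cast; ring, ENNReal.ofReal_natCast]
        rw [h2]
        calc ENNReal.ofReal ((N : ℝ) + 1) ≤ ENNReal.ofReal (2 + V * (b - a) / r) :=
              ENNReal.ofReal_le_ofReal (by linarith)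
          _ = 2 + ENNReal.ofReal (V * (b - a) / r) := by
              rw [ENNReal.ofReal_add (by norm_num) (by positivity)]
              norm_num

end Crest.Agent.R122.OC663
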