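import Crest.Agent.R122.PairC_292
import Crest.Agent.R122.OCflux_663
import Crest.Agent.R122.OCout_796

/-!
Row 122, block H4 (inequality 3 of section E), helper292: flux of the root line of a fresh cluster
through a free line `e` of a translation invariant family, and comparison of root densities.

* `flux_root` : exact change of variables root position ↔ (contact time, impact parameter);
* `flux_mass` : for a translation invariant law `ν` the contact integral of a root density `E` is
  bounded by `C ∫ ds ∫ dℓ E (s, ℓ) (1 + |v_ℓ|)`;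
* `flux_compare` : contact integrals of two root densities `D`, `D'` with a test function `G ≤ 1`.
-/

set_option autoImplicit false

open MeasureTheory ProbabilityTheory Set
open Crest.AnalysisR.Kinetic
open Crest.Agent.R122.Boost969 Crest.Agent.R122.Disc416 Crest.Agent.R122.Flux663
open Crest.Agent.R122.OC663 Crest.Agent.R122.Scat818
open scoped ENNReal

noncomputable section

namespace Crest.Agent.R122.Pair292

/-! ### Contact data -/

/-- planar contact data `(s, (u, p))`: contact time, velocity of the root line, planar impact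
parameter -/
abbrev CDat : Type := ℝ × (Space3 × Disc416.Plane)

/-- reference measure on contact data -/
def mC (t' : ℝ) : Measure CDat :=
  (volume.restrict (Ioc 0 t')).prod ((volume : Measure Space3).prod
    (volume.restrict (Metric.ball (0 : Disc416.Plane) 1)))

instance (t' : ℝ) : SFinite (mC t') := by unfold mC; infer_instance

/-- impact parameter -/
def bC (z : LSt) (c : CDat) : Space3 := Disc416.frameMap (z.2.2 - c.2.1) c.2.2

/-- position of the root at the contact time -/
def xC (ε : ℝ) (z : LSt) (c : CDat) : Space3 :=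
  posAt c.1 z - ε • entrancePoint (bC z c) (z.2.2 - c.2.1)

/-- root line (position at time `0`, velocity) -/
def rootL (ε : ℝ) (z : LSt) (c : CDat) : PhasePoint := (xC ε z c - c.1 • c.2.1, c.2.1)

/-- contact data in the form of `OCout_796` -/
def cdC (z : LSt) (c : CDat) : OCout796.CD := (z.2.2, c.2.1, bC z c)

/-- rate of contacts -/
def rate (z : LSt) (c : CDat) : ℝ≥0∞ := if z.1 < c.1 then ENNReal.ofReal ‖z.2.2 - c.2.1‖ else 0

lemma measurable_bC : Measurable fun p : LSt × CDat => bC p.1 p.2 := by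
  unfold bC
  exact Disc416.measurable_frameMap.comp ((by fun_prop : Measurable fun p : LSt × CDat =>
    p.1.2.2 - p.2.2.1).prodMk (by fun_prop))

lemma measurable_xC (ε : ℝ) : Measurable fun p : LSt × CDat => xC ε p.1 p.2 := by
  unfold xC
  have h1 : Measurable fun p : LSt × CDat => posAt p.2.1 p.1 :=
    measurable_posAt.comp ((measurable_fst.comp measurable_snd).prodMk measurable_fst)
  have h2 : Measurable fun p : LSt × CDat => entrancePoint (bC p.1 p.2) (p.1.2.2 - p.2.2.1) :=
    measurable_entrancePoint.comp (measurable_bC.prodMk (by fun_prop))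
  exact h1.sub (h2.const_smul ε)

lemma measurable_rootL (ε : ℝ) : Measurable fun p : LSt × CDat => rootL ε p.1 p.2 := by
  unfold rootL
  exact ((measurable_xC ε).sub (by fun_prop)).prodMk (by fun_prop)

lemma measurable_cdC : Measurable fun p : LSt × CDat => cdC p.1 p.2 := by
  unfold cdC
  exact Measurable.prodMk (by fun_prop) (Measurable.prodMk (by fun_prop) measurable_bC)

lemma measurable_rate : Measurable fun p : LSt × CDat => rate p.1 p.2 := by
  unfold rate
  refine Measurable.ite (measurableSet_lt (by fun_prop) (by fun_prop)) ?_ measurable_const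
  exact Measurable.ennreal_ofReal (by fun_prop)

lemma bC_shL (a : Space3) (z : LSt) (c : CDat) : bC (shL a z) c = bC z c := rfl

lemma rate_shL (a : Space3) (z : LSt) (c : CDat) : rate (shL a z) c = rate z c := rfl

lemma cdC_shL (a : Space3) (z : LSt) (c : CDat) : cdC (shL a z) c = cdC z c := rfl

lemma posAt_shL (a : Space3) (z : LSt) (s : ℝ) : posAt s (shL a z) = posAt s z + a := by
  unfold posAt shL
  simp only
  abel

lemma xC_shL (ε : ℝ) (a : Space3) (z : LSt) (c : CDat) : xC ε (shL a z) c = xC ε z c + a := by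
  unfold xC
  rw [posAt_shL, bC_shL]
  show posAt c.1 z + a - ε • entrancePoint (bC z c) (z.2.2 - c.2.1) = _
  abel

lemma rootL_shL (ε : ℝ) (a : Space3) (z : LSt) (c : CDat) :
    rootL ε (shL a z) c = ((rootL ε z c).1 + a, (rootL ε z c).2) := by
  unfold rootL
  rw [xC_shL]
  refine Prod.ext ?_ rfl
  simp only
  exact add_sub_right_comm _ _ _

lemma rootL_snd (ε : ℝ) (z : LSt) (c : CDat) : (rootL ε z c).2 = c.2.1 := rfl

attribute [irreducible] bC xC rootL cdC rate

lemma lintegral_phase {F : PhasePoint → ℝ≥0∞} (hF : Measurable F) :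
    ∫⁻ ℓ, F ℓ = ∫⁻ u : Space3, ∫⁻ x : Space3, F (x, u) := by
  rw [Measure.volume_eq_prod, lintegral_prod_symm _ hF.aemeasurable]

/-! ### Translation invariant families -/

variable {Θ : Type*} [MeasurableSpace Θ]

/-- A translation invariant family of free lines `e θ`, `θ ~ ν`; `pos` is an equivariant point. -/
structure InvFam (T : Space3 → Θ → Θ) (e : Θ → LSt) (pos : Θ → Space3) (ν : Measure Θ) :
    Prop where
  sf : SFinite ν
  mT : Measurable fun q : Space3 × Θ => T q.1 q.2
  me : Measurable e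
  mpos : Measurable pos
  eT : ∀ a θ, e (T a θ) = shL a (e θ)
  posT : ∀ a θ, pos (T a θ) = pos θ + a
  inv : ∀ a, ν.map (T a) = ν

variable {T : Space3 → Θ → Θ} {e : Θ → LSt} {pos : Θ → Space3} {ν : Measure Θ}

/-- disintegration of a translation invariant measure -/
theorem InvFam.disint (h : InvFam T e pos ν) {χ : Space3 → ℝ≥0∞} (hχ : Measurable χ)
    (hχ1 : ∫⁻ x, χ x = 1) {f : Θ → ℝ≥0∞} (hf : Measurable f) :
    ∫⁻ θ, f θ ∂ν = ∫⁻ θ, χ (pos θ) * (∫⁻ a : Space3, f (T a θ)) ∂ν := by
  have := h.sf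
  have hTa : ∀ a, Measurable (T a) := fun a =>
    h.mT.comp (measurable_const.prodMk measurable_id)
  have hfT : Measurable fun q : Space3 × Θ => f (T q.1 q.2) := hf.comp h.mT
  have h1 : ∀ θ, ∫⁻ a : Space3, χ (pos θ - a) * f θ = f θ := by
    intro θ
    have h2 : Measurable fun a : Space3 => χ (pos θ - a) := hχ.comp (by fun_prop)
    rw [lintegral_mul_const _ h2]
    rw [lintegral_sub_left_eq_self (fun x => χ x) (pos θ), hχ1, one_mul]
  calc ∫⁻ θ, f θ ∂ν = ∫⁻ θ, (∫⁻ a : Space3, χ (pos θ - a) * f θ) ∂ν := by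
        exact lintegral_congr fun θ => (h1 θ).symm
    _ = ∫⁻ a : Space3, ∫⁻ θ, χ (pos θ - a) * f θ ∂ν := by
        refine lintegral_lintegral_swap ?_
        exact ((hχ.comp ((h.mpos.comp measurable_fst).sub measurable_snd)).mul
          (hf.comp measurable_fst)).aemeasurable
    _ = ∫⁻ a : Space3, ∫⁻ θ, χ (pos θ) * f (T a θ) ∂ν := by
        refine lintegral_congr fun a => ?_
        have hm : Measurable fun θ => χ (pos θ - a) * f θ :=
          (hχ.comp (h.mpos.sub measurable_const)).mul hf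
        conv_lhs => rw [← h.inv a]
        rw [lintegral_map hm (hTa a)]
        refine lintegral_congr fun θ => ?_
        rw [h.posT, add_sub_cancel_right]
    _ = ∫⁻ θ, (∫⁻ a : Space3, χ (pos θ) * f (T a θ)) ∂ν := by
        refine lintegral_lintegral_swap ?_
        exact ((hχ.comp (h.mpos.comp measurable_snd)).mul hfT).aemeasurable
    _ = _ := by
        refine lintegral_congr fun θ => ?_
        have h3 : Measurable fun a : Space3 => f (T a θ) :=
          hfT.comp (measurable_id.prodMk measurable_const)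
        rw [lintegral_const_mul _ h3]

/-- the constant of `flux_mass` -/
def Cflux (e : Θ → LSt) (pos : Θ → Space3) (ν : Measure Θ) (χ : Space3 → ℝ≥0∞) (t' : ℝ) : ℝ≥0∞ :=
  volume (Metric.ball (0 : Disc416.Plane) 1) *
    ∫⁻ θ, χ (pos θ) * (if (e θ).1 ≤ t' then ENNReal.ofReal (1 + ‖(e θ).2.2‖) else 0) ∂ν

/-- contact integral of a root density -/
def cInt (ε t' : ℝ) (e : Θ → LSt) (D : ℝ × PhasePoint → ℝ≥0∞) (G : Θ × CDat → ℝ≥0∞) (θ : Θ) :
    ℝ≥0∞ :=
  ∫⁻ c, rate (e θ) c * (D (c.1, rootL ε (e θ) c) * G (θ, c)) ∂mC t'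

lemma measurable_cInt {ε t' : ℝ} {e : Θ → LSt} (he : Measurable e)
    {D : ℝ × PhasePoint → ℝ≥0∞} (hD : Measurable D) {G : Θ × CDat → ℝ≥0∞} (hG : Measurable G) :
    Measurable (cInt ε t' e D G) := by
  have he' : Measurable fun p : Θ × CDat => (e p.1, p.2) :=
    (he.comp measurable_fst).prodMk measurable_snd
  have h1 : Measurable fun p : Θ × CDat => rate (e p.1) p.2 := measurable_rate.comp he'
  have h2 : Measurable fun p : Θ × CDat => rootL ε (e p.1) p.2 := (measurable_rootL ε).comp he'
  have h3 : Measurable fun p : Θ × CDat => D (p.2.1, rootL ε (e p.1) p.2) :=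
    hD.comp ((measurable_fst.comp measurable_snd).prodMk h2)
  have h4 : Measurable fun p : Θ × CDat =>
      rate (e p.1) p.2 * (D (p.2.1, rootL ε (e p.1) p.2) * G p) := h1.mul (h3.mul hG)
  exact Measurable.lintegral_prod_right' (ν := mC t') h4

/-- contact data and phase points -/
lemma lintegral_mC_phase {E : ℝ × PhasePoint → ℝ≥0∞} (hE : Measurable E) (t' : ℝ) :
    ∫⁻ c : CDat, ENNReal.ofReal (1 + ‖c.2.1‖) * (∫⁻ x : Space3, E (c.1, (x, c.2.1))) ∂mC t' =
      volume (Metric.ball (0 : Disc416.Plane) 1) *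
        ∫⁻ s in Ioc 0 t', ∫⁻ ℓ : PhasePoint, E (s, ℓ) * ENNReal.ofReal (1 + ‖ℓ.2‖) := by
  set Eb : ℝ × Space3 → ℝ≥0∞ := fun q => ∫⁻ x : Space3, E (q.1, (x, q.2)) with hEb
  have hEbm : Measurable Eb := by
    have : Measurable fun q : (ℝ × Space3) × Space3 => E (q.1.1, (q.2, q.1.2)) :=
      hE.comp (by fun_prop)
    exact this.lintegral_prod_right'
  have hmc : Measurable fun c : CDat => ENNReal.ofReal (1 + ‖c.2.1‖) * Eb (c.1, c.2.1) :=
    (Measurable.ennreal_ofReal (by fun_prop)).mul (hEbm.comp (by fun_prop))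
  have hme : Measurable fun q : ℝ × PhasePoint => E q * ENNReal.ofReal (1 + ‖q.2.2‖) :=
    hE.mul (Measurable.ennreal_ofReal (by fun_prop))
  have hms : Measurable fun s : ℝ => ∫⁻ ℓ : PhasePoint,
      E (s, ℓ) * ENNReal.ofReal (1 + ‖ℓ.2‖) := hme.lintegral_prod_right'
  have h1 : ∀ s : ℝ, ∫⁻ q : Space3 × Disc416.Plane,
      ENNReal.ofReal (1 + ‖q.1‖) * Eb (s, q.1) ∂((volume : Measure Space3).prod
        (volume.restrict (Metric.ball (0 : Disc416.Plane) 1))) =
      volume (Metric.ball (0 : Disc416.Plane) 1) *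
        ∫⁻ ℓ : PhasePoint, E (s, ℓ) * ENNReal.ofReal (1 + ‖ℓ.2‖) := by
    intro s
    have hmsu : Measurable fun q : Space3 × Disc416.Plane =>
        ENNReal.ofReal (1 + ‖q.1‖) * Eb (s, q.1) :=
      (Measurable.ennreal_ofReal (by fun_prop)).mul (hEbm.comp (by fun_prop))
    have hmu : Measurable fun u : Space3 => ENNReal.ofReal (1 + ‖u‖) * Eb (s, u) :=
      (Measurable.ennreal_ofReal (by fun_prop)).mul (hEbm.comp (by fun_prop))
    rw [lintegral_prod _ hmsu.aemeasurable]
    simp only [lintegral_const, Measure.restrict_apply MeasurableSet.univ, univ_inter]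
    rw [lintegral_mul_const _ hmu, mul_comm]
    have hml : Measurable fun ℓ : PhasePoint => E (s, ℓ) * ENNReal.ofReal (1 + ‖ℓ.2‖) :=
      (hE.comp (by fun_prop)).mul (Measurable.ennreal_ofReal (by fun_prop))
    have h2 : ∫⁻ u : Space3, ENNReal.ofReal (1 + ‖u‖) * Eb (s, u) =
        ∫⁻ ℓ : PhasePoint, E (s, ℓ) * ENNReal.ofReal (1 + ‖ℓ.2‖) := by
      rw [lintegral_phase hml]
      refine lintegral_congr fun u => ?_
      have h3 : Measurable fun x : Space3 => E (s, (x, u)) := hE.comp (by fun_prop)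
      simp only
      rw [lintegral_mul_const _ h3, mul_comm]
    rw [h2]
  unfold mC
  rw [lintegral_prod _ hmc.aemeasurable, ← lintegral_const_mul _ hms]
  exact lintegral_congr fun s => h1 s

/-- **Contact mass.** -/
theorem flux_mass (h : InvFam T e pos ν) {χ : Space3 → ℝ≥0∞} (hχ : Measurable χ)
    (hχ1 : ∫⁻ x, χ x = 1) {E : ℝ × PhasePoint → ℝ≥0∞} (hE : Measurable E) (ε t' : ℝ) :
    ∫⁻ θ, cInt ε t' e E (fun _ => 1) θ ∂ν ≤ Cflux e pos ν χ t' *
      ∫⁻ s in Ioc 0 t', ∫⁻ ℓ : PhasePoint, E (s, ℓ) * ENNReal.ofReal (1 + ‖ℓ.2‖) := by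
  have := h.sf
  set Eb : ℝ × Space3 → ℝ≥0∞ := fun q => ∫⁻ x : Space3, E (q.1, (x, q.2)) with hEb
  have hEbm : Measurable Eb := by
    have : Measurable fun q : (ℝ × Space3) × Space3 => E (q.1.1, (q.2, q.1.2)) :=
      hE.comp (by fun_prop)
    exact this.lintegral_prod_right'
  have hm1 : Measurable fun θ => cInt ε t' e E (fun _ => 1) θ :=
    measurable_cInt h.me hE measurable_const
  -- the inner integral
  have key : ∀ θ, ∫⁻ a : Space3, cInt ε t' e E (fun _ => 1) (T a θ) ≤
      (if (e θ).1 ≤ t' then ENNReal.ofReal (1 + ‖(e θ).2.2‖) else 0) *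
        ∫⁻ c : CDat, ENNReal.ofReal (1 + ‖c.2.1‖) * Eb (c.1, c.2.1) ∂mC t' := by
    intro θ
    have e1 : ∀ a : Space3, cInt ε t' e E (fun _ => 1) (T a θ) =
        ∫⁻ c, rate (e θ) c * E (c.1, ((rootL ε (e θ) c).1 + a, c.2.1)) ∂mC t' := by
      intro a
      unfold cInt
      refine lintegral_congr fun c => ?_
      rw [h.eT, rate_shL, rootL_shL, mul_one, rootL_snd]
    have hme : Measurable fun q : Space3 × CDat =>
        rate (e θ) q.2 * E (q.2.1, ((rootL ε (e θ) q.2).1 + q.1, q.2.2.1)) := by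
      have h2 : Measurable fun q : Space3 × CDat => (e θ, q.2) :=
        measurable_const.prodMk measurable_snd
      refine (measurable_rate.comp h2).mul (hE.comp ?_)
      refine (measurable_fst.comp measurable_snd).prodMk (Measurable.prodMk ?_ (by fun_prop))
      exact (measurable_fst.comp ((measurable_rootL ε).comp h2)).add measurable_fst
    simp only [e1]
    rw [lintegral_lintegral_swap hme.aemeasurable]
    have e2 : ∀ c : CDat, ∫⁻ a : Space3, rate (e θ) c *
        E (c.1, ((rootL ε (e θ) c).1 + a, c.2.1)) = rate (e θ) c * Eb (c.1, c.2.1) := by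
      intro c
      have h3 : Measurable fun x : Space3 => E (c.1, (x, c.2.1)) := hE.comp (by fun_prop)
      have h4 : Measurable fun a : Space3 => E (c.1, ((rootL ε (e θ) c).1 + a, c.2.1)) :=
        h3.comp (measurable_const.add measurable_id)
      rw [lintegral_const_mul _ h4]
      congr 1
      exact lintegral_add_left_eq_self (fun x : Space3 => E (c.1, (x, c.2.1))) _
    simp only [e2]
    have hmc : Measurable fun c : CDat => ENNReal.ofReal (1 + ‖c.2.1‖) * Eb (c.1, c.2.1) :=
      (Measurable.ennreal_ofReal (by fun_prop)).mul (hEbm.comp (by fun_prop))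
    rw [← lintegral_const_mul _ hmc]
    have hae : ∀ᵐ c : CDat ∂mC t', c.1 ∈ Ioc 0 t' := by
      unfold mC
      exact Measure.quasiMeasurePreserving_fst.ae (ae_restrict_mem measurableSet_Ioc)
    refine lintegral_mono_ae ?_
    filter_upwards [hae] with c hc
    rw [← mul_assoc]
    refine mul_le_mul_left ?_ _
    unfold rate
    by_cases h4 : (e θ).1 < c.1
    · rw [if_pos h4, if_pos (h4.le.trans hc.2), ← ENNReal.ofReal_mul (by positivity)]
      refine ENNReal.ofReal_le_ofReal ?_
      have h5 := norm_sub_le (e θ).2.2 c.2.1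
      nlinarith [norm_nonneg (e θ).2.2, norm_nonneg c.2.1]
    · rw [if_neg h4]; exact bot_le
  calc ∫⁻ θ, cInt ε t' e E (fun _ => 1) θ ∂ν
      = ∫⁻ θ, χ (pos θ) * (∫⁻ a : Space3, cInt ε t' e E (fun _ => 1) (T a θ)) ∂ν :=
        h.disint hχ hχ1 hm1
    _ ≤ ∫⁻ θ, (χ (pos θ) * (if (e θ).1 ≤ t' then ENNReal.ofReal (1 + ‖(e θ).2.2‖) else 0)) *
        (∫⁻ c : CDat, ENNReal.ofReal (1 + ‖c.2.1‖) * Eb (c.1, c.2.1) ∂mC t') ∂ν := by
        refine lintegral_mono fun θ => ?_
        rw [mul_assoc]
        exact mul_le_mul_right (key θ) _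
    _ = (∫⁻ θ, χ (pos θ) * (if (e θ).1 ≤ t' then ENNReal.ofReal (1 + ‖(e θ).2.2‖) else 0) ∂ν) *
        (∫⁻ c : CDat, ENNReal.ofReal (1 + ‖c.2.1‖) * Eb (c.1, c.2.1) ∂mC t') := by
        rw [lintegral_mul_const]
        refine (hχ.comp h.mpos).mul (Measurable.ite ?_ ?_ measurable_const)
        · exact measurableSet_le (measurable_fst.comp h.me) measurable_const
        · exact Measurable.ennreal_ofReal (measurable_const.add
            (measurable_snd.comp (measurable_snd.comp h.me)).norm)
    _ = _ := by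
        have e3 := lintegral_mC_phase hE t'
        rw [e3]
        unfold Cflux
        ring

/-- **Comparison of two root densities** (helper815's `Q1` is consumed with `E = |D - D'|`). -/
theorem flux_compare (h : InvFam T e pos ν) {χ : Space3 → ℝ≥0∞} (hχ : Measurable χ)
    (hχ1 : ∫⁻ x, χ x = 1) {D D' E : ℝ × PhasePoint → ℝ≥0∞} (hD' : Measurable D')
    (hE : Measurable E) (hDE : ∀ q, D q ≤ D' q + E q) {G : Θ × CDat → ℝ≥0∞} (hG : Measurable G)
    (hG1 : ∀ q, G q ≤ 1) (ε t' : ℝ) :
    ∫⁻ θ, cInt ε t' e D G θ ∂ν ≤ ∫⁻ θ, cInt ε t' e D' G θ ∂ν + Cflux e pos ν χ t' *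
      ∫⁻ s in Ioc 0 t', ∫⁻ ℓ : PhasePoint, E (s, ℓ) * ENNReal.ofReal (1 + ‖ℓ.2‖) := by
  refine le_trans ?_ (add_le_add le_rfl (flux_mass h hχ hχ1 hE ε t'))
  rw [← lintegral_add_left (measurable_cInt h.me hD' hG)]
  refine lintegral_mono fun θ => ?_
  unfold cInt
  rw [← lintegral_add_left]
  · refine lintegral_mono fun c => ?_
    rw [← mul_add]
    refine mul_le_mul_right ?_ _
    calc D (c.1, rootL ε (e θ) c) * G (θ, c)
        ≤ (D' (c.1, rootL ε (e θ) c) + E (c.1, rootL ε (e θ) c)) * G (θ, c) :=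
          mul_le_mul_left (hDE _) _
      _ = D' (c.1, rootL ε (e θ) c) * G (θ, c) + E (c.1, rootL ε (e θ) c) * G (θ, c) := add_mul _ _ _
      _ ≤ _ := add_le_add le_rfl (mul_le_mul_right (hG1 _) _)
  · have h2 : Measurable fun c : CDat => (e θ, c) := measurable_const.prodMk measurable_id
    refine (measurable_rate.comp h2).mul (Measurable.mul (hD'.comp ?_)
      (hG.comp (measurable_const.prodMk measurable_id)))
    exact measurable_fst.prodMk ((measurable_rootL ε).comp h2)

end Crest.Agent.R122.Pair292
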