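import Crest.Agent.R122.EDefs_602
import Crest.Agent.R122.SmallNull_566
import Crest.Agent.R122.BadHit_370

/-!
# Basic facts on the definitions of section E (row 122)

* `lineM` : s-finite, integration formula, support, monotonicity in the horizon.
* the gas: `(MW.cfg w).path = pth`, `(MW.cfg w).C = Ct` at nonnegative times, marked size = number of
  members, `Inf` = `bad`.
* infection time `iTime`.
* `Inf`, `Touched`, `theta` : monotonicity in time, in `K`; bounds; independence of the horizon.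
* `tnMass`, `TN` : monotone in time, `TN 0`; `JE` at time `0`.
* `XI` as one expectation.
-/

set_option autoImplicit false

open MeasureTheory Set Filter Topology
open scoped ENNReal
open Crest.AnalysisR.Kinetic
open Crest.Agent.R122.Flow671 Crest.Agent.R122.Ins45 Crest.Agent.R122.Causal291
open Crest.Agent.R122.Inf879 Crest.Agent.R122.GC311 Crest.Agent.R122.Master566
open Crest.Agent.R122.EDefs602

namespace Crest.Agent.R122.EBasic602

noncomputable section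

open scoped Classical

/-! ## The measure on lines -/

section lines

variable {γ : ℝ → ℝ} {ρ : ℝ≥0∞} {K : ℕ} {T : ℝ}

instance instSFiniteLineV : SFinite (lineV T) := by unfold lineV; infer_instance

instance instSFiniteLineM : SFinite (lineM γ ρ K T) := by unfold lineM; infer_instance

theorem measurable_markW : Measurable (markW ρ K) := measurable_from_top

theorem measurable_wG2 (hγ : Measurable γ) :
    Measurable fun p : ℝ × Space3 => Kin796.wG (γ p.1) p.2 := by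
  unfold Kin796.wG
  exact ENNReal.measurable_ofReal.comp (Real.measurable_exp.comp
    ((hγ.comp measurable_fst).mul (measurable_snd.norm.pow_const 2)).neg)

theorem measurable_lineD (hγ : Measurable γ) : Measurable (lineD γ ρ K) := by
  unfold lineD
  refine Measurable.mul ?_ (measurable_markW.comp measurable_snd)
  exact (measurable_wG2 hγ).comp
    ((measurable_fst.comp measurable_fst).prodMk
      (measurable_snd.comp (measurable_snd.comp measurable_fst)))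

/-- Integration against `lineM`. -/
theorem lintegral_lineM (hγ : Measurable γ) {F : ML → ℝ≥0∞} (hF : Measurable F) :
    ∫⁻ l, F l ∂lineM γ ρ K T = ∫⁻ τ in Ioc (0 : ℝ) T, ∫⁻ v : Space3, Kin796.wG (γ τ) v *
      ∫⁻ y : Space3, ∑' n : ℕ, markW ρ K n * F ((τ, (y, v)), n) := by
  unfold lineM
  rw [lintegral_withDensity_eq_lintegral_mul _ (measurable_lineD hγ) hF]
  have hm : Measurable fun l : ML => lineD γ ρ K l * F l := (measurable_lineD hγ).mul hF
  unfold lineV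
  simp only [Pi.mul_apply]
  rw [lintegral_prod _ hm.aemeasurable]
  have h1 : ∀ x : ℝ × PhasePoint, ∫⁻ n : ℕ, lineD γ ρ K (x, n) * F (x, n) ∂Measure.count =
      Kin796.wG (γ x.1) x.2.2 * ∑' n : ℕ, markW ρ K n * F (x, n) := by
    intro x
    rw [lintegral_count, ← ENNReal.tsum_mul_left]
    refine tsum_congr fun n => ?_
    unfold lineD
    rw [mul_assoc]
  simp only [h1]
  have hm2 : Measurable fun x : ℝ × PhasePoint => Kin796.wG (γ x.1) x.2.2 *
      ∑' n : ℕ, markW ρ K n * F (x, n) := by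
    refine Measurable.mul ((measurable_wG2 hγ).comp
      (measurable_fst.prodMk (measurable_snd.comp measurable_snd))) ?_
    exact Measurable.tsum fun n => (hF.comp (measurable_id.prodMk measurable_const)).const_mul _
  rw [lintegral_prod _ hm2.aemeasurable]
  refine lintegral_congr fun τ => ?_
  have hm3 : Measurable fun z : PhasePoint => Kin796.wG (γ τ) z.2 *
      ∑' n : ℕ, markW ρ K n * F ((τ, z), n) := hm2.comp (measurable_const.prodMk measurable_id)
  rw [Measure.volume_eq_prod, lintegral_prod_symm _ hm3.aemeasurable]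
  refine lintegral_congr fun v => ?_
  have hm4 : Measurable fun y : Space3 => ∑' n : ℕ, markW ρ K n * F ((τ, (y, v)), n) :=
    Measurable.tsum fun n =>
      (hF.comp ((measurable_const.prodMk (measurable_id.prodMk measurable_const)).prodMk
        measurable_const)).const_mul _
  change ∫⁻ x : Space3, Kin796.wG (γ τ) v * ∑' n : ℕ, markW ρ K n * F ((τ, (x, v)), n) = _
  exact lintegral_const_mul _ hm4

theorem lineM_absolutelyContinuous : lineM γ ρ K T ≪ lineV T :=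
  withDensity_absolutelyContinuous _ _

/-- Lines charged by `lineM`: born in `(0, T]`, mark between `1` and `K`. -/
theorem lineM_ae (hγ : Measurable γ) : ∀ᵐ l ∂lineM γ ρ K T,
    0 < l.1.1 ∧ l.1.1 ≤ T ∧ 1 ≤ l.2 ∧ l.2 ≤ K := by
  have h1 : ∀ᵐ l ∂lineV T, 0 < l.1.1 ∧ l.1.1 ≤ T := by
    unfold lineV
    have h2 : ∀ᵐ x ∂((volume.restrict (Ioc (0 : ℝ) T)).prod (volume : Measure PhasePoint)),
        0 < x.1 ∧ x.1 ≤ T := by
      have h3 : ∀ᵐ τ ∂volume.restrict (Ioc (0 : ℝ) T), 0 < τ ∧ τ ≤ T :=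
        (ae_restrict_mem measurableSet_Ioc).mono fun τ h => h
      exact Measure.quasiMeasurePreserving_fst.ae h3
    exact Measure.quasiMeasurePreserving_fst.ae h2
  have h4 : ∀ᵐ l ∂lineM γ ρ K T, 1 ≤ l.2 ∧ l.2 ≤ K := by
    unfold lineM
    rw [ae_withDensity_iff (measurable_lineD hγ)]
    refine Eventually.of_forall fun l hl => ?_
    by_contra hno
    exact hl (by unfold lineD markW; rw [if_neg hno, mul_zero])
  filter_upwards [lineM_absolutelyContinuous.ae_le h1, h4] with l h5 h6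
  exact ⟨h5.1, h5.2, h6.1, h6.2⟩

theorem lineV_mono {T' : ℝ} (h : T ≤ T') : lineV T ≤ lineV T' := by
  unfold lineV
  refine Measure.prod_mono (Measure.prod_mono ?_ le_rfl) le_rfl
  exact Measure.restrict_mono_set _ (Ioc_subset_Ioc_right h)

theorem withDensity_mono_measure' {α : Type*} [MeasurableSpace α] {μ ν : Measure α} (h : μ ≤ ν)
    (f : α → ℝ≥0∞) : μ.withDensity f ≤ ν.withDensity f := by
  refine Measure.le_iff.2 fun s hs => ?_
  rw [withDensity_apply _ hs, withDensity_apply _ hs]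
  exact lintegral_mono' (Measure.restrict_mono_measure h _) le_rfl

theorem lineM_mono {T' : ℝ} (h : T ≤ T') : lineM γ ρ K T ≤ lineM γ ρ K T' :=
  withDensity_mono_measure' (lineV_mono h) _

theorem lineM_zero : lineM γ ρ K 0 = 0 := by
  unfold lineM lineV
  simp

theorem markW_le (K n : ℕ) : markW ρ K n ≤ ρ ^ n := by
  unfold markW
  split_ifs <;> simp

theorem markW_mono {K' : ℕ} (h : K ≤ K') (n : ℕ) : markW ρ K n ≤ markW ρ K' n := by
  unfold markW
  by_cases h1 : 1 ≤ n ∧ n ≤ K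
  · rw [if_pos h1, if_pos ⟨h1.1, h1.2.trans h⟩]
  · rw [if_neg h1]; exact zero_le

/-- The total weight of the marks. -/
theorem tsum_markW_le (K : ℕ) : ∑' n, markW ρ K n ≤ (1 - ρ)⁻¹ := by
  rw [← ENNReal.tsum_geometric]
  exact ENNReal.tsum_le_tsum fun n => markW_le K n

theorem lineM_mono_K {K' : ℕ} (h : K ≤ K') : lineM γ ρ K T ≤ lineM γ ρ K' T := by
  unfold lineM
  refine withDensity_mono (Eventually.of_forall fun l => ?_)
  unfold lineD
  exact mul_le_mul_right (markW_mono h _) _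

end lines

/-! ## The gas as a marked world -/

section gas

variable {Φ : Space3 → ℝ} {ε : ℝ} {n : ℕ} {w : Config n} {K : ℕ}

theorem cfg_path (hΦ : AdmissiblePotential Φ) (hε : 0 < ε) (w : Config n) :
    (MW.cfg w).path Φ ε = pth Φ ε w := by
  funext t
  have h1 : alive (MW.cfg w).b (0 : ℝ) = Finset.univ := by
    ext i
    simp [MW.cfg]
  have h2 := evoN_of_no_birth (Φ := Φ) (ε := ε) (MW.cfg w).b (Fintype.card (Fin n)) (s := 0)
    (t := t) (MW.cfg w).z fun i hi => absurd hi (lt_irrefl _)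
  unfold MW.path evo
  rw [h2, h1, flowA_univ hΦ hε, sub_zero]
  rfl

theorem cfg_C_iff (hΦ : AdmissiblePotential Φ) (hε : 0 < ε) (hw : w ∈ PairExcluded ε n) {s : ℝ}
    (hs : 0 ≤ s) (j k : Fin n) : (MW.cfg w).C Φ ε s j k ↔ Ct (pth Φ ε w) ε s j k := by
  unfold MW.C
  rw [cfg_path hΦ hε]
  refine ctB_iff_ct_of_excl (b := (MW.cfg w).b) hs hs fun hjk h1 _ => ?_
  have h2 : s = 0 := h1.symm
  subst h2
  have h3 : pth Φ ε w 0 = w := flow_zero hΦ hε w
  rw [h3]
  exact hw j k hjk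

/-- The contact relation of the gas implies the ordinary one. -/
theorem cfg_C_ct (hΦ : AdmissiblePotential Φ) (hε : 0 < ε) {s : ℝ} {j k : Fin n}
    (h : (MW.cfg w).C Φ ε s j k) : Ct (pth Φ ε w) ε s j k := by
  unfold MW.C at h
  rw [cfg_path hΦ hε] at h
  exact h.ct

theorem cfg_past_iff (hΦ : AdmissiblePotential Φ) (hε : 0 < ε) (hw : w ∈ PairExcluded ε n)
    {t s : ℝ} (hs : 0 ≤ s) {i k : Fin n} :
    Past ((MW.cfg w).C Φ ε) t i s k ↔ Past (Ct (pth Φ ε w) ε) t i s k :=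
  past_congr (s₀ := 0) (fun _ j l h _ => cfg_C_iff hΦ hε hw h j l) hs

theorem cfg_BC (hΦ : AdmissiblePotential Φ) (hε : 0 < ε) (hw : w ∈ PairExcluded ε n)
    (t : ℝ) (i : Fin n) : BC ((MW.cfg w).C Φ ε) t i = bc Φ ε w t i := by
  ext k
  exact cfg_past_iff hΦ hε hw le_rfl

theorem cfg_msize (hΦ : AdmissiblePotential Φ) (hε : 0 < ε) (hw : w ∈ PairExcluded ε n)
    (t : ℝ) (i : Fin n) :
    msize ((MW.cfg w).C Φ ε) (MW.cfg w).m t i = (bc Φ ε w t i).ncard := by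
  have h1 := msize_one (C := (MW.cfg w).C Φ ε) t i
  rw [cfg_BC hΦ hε hw] at h1
  exact h1

theorem cfg_inf_iff (hΦ : AdmissiblePotential Φ) (hε : 0 < ε) (hw : w ∈ PairExcluded ε n)
    (t : ℝ) (i : Fin n) :
    (MW.cfg w).Inf Φ ε K t i ↔ i ∈ EW370.bad Φ ε K (w : Config n) t := by
  unfold MW.Inf Infd EW370.bad
  rw [cfg_msize hΦ hε hw]
  simp

theorem cfg_inf_iff_size (hΦ : AdmissiblePotential Φ) (hε : 0 < ε) (hw : w ∈ PairExcluded ε n)
    (t : ℝ) (i : Fin n) : (MW.cfg w).Inf Φ ε K t i ↔ K < gasSize Φ ε n w t i := by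
  unfold MW.Inf Infd
  rw [cfg_msize hΦ hε hw]
  rfl

/-- Nobody is infected at time `0` (`1 ≤ K`). -/
theorem cfg_not_inf_zero (hΦ : AdmissiblePotential Φ) (hε : 0 < ε) (hw : w ∈ PairExcluded ε n)
    (hK : 1 ≤ K) (i : Fin n) : ¬ (MW.cfg w).Inf Φ ε K 0 i := by
  unfold MW.Inf Infd
  rw [cfg_msize hΦ hε hw, bc_zero hΦ hε hw i, ncard_singleton, not_lt]
  exact hK

end gas

/-! ## The infection time of the gas -/

section itime

variable {Φ : Space3 → ℝ} {ε : ℝ} {n : ℕ} {w : Config n} {K : ℕ} {T : ℝ}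

theorem isClosed_infd_gas (hΦ : AdmissiblePotential Φ) (hε : 0 < ε) (w : Config n) (i : Fin n) :
    IsClosed {s | K < gasSize Φ ε n w s i} := by
  have h1 := isClosed_infd (C := Ct (pth Φ ε w) ε) (m := fun _ => 1) (K := K)
    (fun j k => isClosed_ct (fun j => continuous_pth hΦ hε w j) j k) i
  have h2 : {s | K < gasSize Φ ε n w s i} = {s | Infd (Ct (pth Φ ε w) ε) (fun _ => 1) K s i} := by
    ext s
    simp only [mem_ofPred_eq, Infd, msize_one]
    rfl
  rw [h2]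
  exact h1

theorem iTime_nonneg (hT : 0 ≤ T) (q : Fin n) : 0 ≤ iTime Φ ε K T w q :=
  sig_nonneg (by linarith)

theorem iTime_le (q : Fin n) : iTime Φ ε K T w q ≤ T + 1 := sig_le

/-- `q` is infected at time `s` iff its infection time is at most `s`. -/
theorem iTime_le_iff (hΦ : AdmissiblePotential Φ) (hε : 0 < ε) {s : ℝ} (hs : s ∈ Icc 0 T)
    (q : Fin n) : iTime Φ ε K T w q ≤ s ↔ K < gasSize Φ ε n w s q := by
  have hup := (sizeFam_gasSize (Φ := Φ) hΦ hε).up (K := K) n w q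
  constructor
  · intro h
    -- closedness at the infimum
    have hcl := isClosed_infd_gas (K := K) hΦ hε w q
    by_contra hno
    -- an open neighbourhood of `s` without infection
    have h1 : s ∈ {s | K < gasSize Φ ε n w s q}ᶜ := hno
    obtain ⟨δ, hδ, hball⟩ := Metric.isOpen_iff.1 hcl.isOpen_compl s h1
    set s' := min (s + δ / 2) (T + 1) with hs'
    have h2 : s < s' := lt_min (by linarith) (by linarith [hs.2])
    have h3 : K < gasSize Φ ε n w s' q :=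
      lt_size_of_sig_lt (sizeFam_gasSize (Φ := Φ) hΦ hε) (min_le_right _ _) (h.trans_lt h2)
    have h4 : s' ∈ Metric.ball s δ := by
      rw [Metric.mem_ball, Real.dist_eq, abs_lt]
      constructor
      · linarith
      · linarith [min_le_left (s + δ / 2) (T + 1)]
    exact hball h4 h3
  · intro h
    by_contra hno
    exact absurd h (not_lt.2 (size_le_of_lt_sig hs.1 (not_le.1 hno)))

theorem iTime_le_iff_inf (hΦ : AdmissiblePotential Φ) (hε : 0 < ε) (hw : w ∈ PairExcluded ε n)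
    {s : ℝ} (hs : s ∈ Icc 0 T) (q : Fin n) :
    iTime Φ ε K T w q ≤ s ↔ (MW.cfg w).Inf Φ ε K s q := by
  rw [iTime_le_iff hΦ hε hs, cfg_inf_iff_size hΦ hε hw]

theorem iTime_le_iff_bad (hΦ : AdmissiblePotential Φ) (hε : 0 < ε) {s : ℝ} (hs : s ∈ Icc 0 T)
    (q : Fin n) : iTime Φ ε K T w q ≤ s ↔ q ∈ EW370.bad Φ ε K (w : Config n) s := by
  rw [iTime_le_iff hΦ hε hs]
  unfold EW370.bad gasSize bc
  simp

/-- The infection time is positive (`1 ≤ K`). -/
theorem iTime_pos (hΦ : AdmissiblePotential Φ) (hε : 0 < ε) (hw : w ∈ PairExcluded ε n)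
    (hK : 1 ≤ K) (hT : 0 ≤ T) (q : Fin n) : 0 < iTime Φ ε K T w q := by
  by_contra hno
  exact cfg_not_inf_zero hΦ hε hw hK q
    ((iTime_le_iff_inf hΦ hε hw ⟨le_rfl, hT⟩ q).1 (not_lt.1 hno))

/-- The infection time does not depend on the horizon. -/
theorem iTime_horizon (hΦ : AdmissiblePotential Φ) (hε : 0 < ε) {T' : ℝ} (hT : 0 ≤ T)
    (hTT : T ≤ T') (q : Fin n) (h : iTime Φ ε K T w q ≤ T) :
    iTime Φ ε K T' w q = iTime Φ ε K T w q := by
  have h0 := iTime_nonneg (Φ := Φ) (ε := ε) (K := K) (w := w) hT q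
  have h0' := iTime_nonneg (Φ := Φ) (ε := ε) (K := K) (w := w) (hT.trans hTT) q
  apply le_antisymm
  · rw [iTime_le_iff hΦ hε ⟨h0, h.trans hTT⟩, ← iTime_le_iff hΦ hε ⟨h0, h⟩]
  · have h1 : iTime Φ ε K T' w q ≤ T := by
      rw [iTime_le_iff hΦ hε ⟨hT, hTT⟩, ← iTime_le_iff hΦ hε ⟨hT, le_rfl⟩]
      exact h
    rw [iTime_le_iff hΦ hε ⟨h0', h1⟩, ← iTime_le_iff hΦ hε ⟨h0', h1.trans hTT⟩]

end itime

/-! ## Monotonicity of infections and touches -/

section mono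

variable {Φ : Space3 → ℝ} {ε : ℝ} {K K' : ℕ} {T T' : ℝ} {ι κ : Type} [Fintype ι] [Fintype κ]
  {Z : MW ι} {A : MW κ}

theorem inf_mono {s t : ℝ} (h : s ≤ t) {i : ι} (hi : Z.Inf Φ ε K s i) : Z.Inf Φ ε K t i :=
  lt_of_lt_of_le hi (msize_mono_of_subset (BC_root_mono h i))

theorem inf_anti_K (h : K ≤ K') {s : ℝ} {i : ι} (hi : Z.Inf Φ ε K' s i) : Z.Inf Φ ε K s i :=
  lt_of_le_of_lt h hi

theorem fut_mono {s t : ℝ} (h : s ≤ t) {k : ι} (hk : Z.Fut Φ ε A s k) : Z.Fut Φ ε A t k :=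
  CausalGen291.Fut.mono hk h

theorem touched_mono {s t : ℝ} (h : s ≤ t) (hs : Z.Touched Φ ε K A s) :
    Z.Touched Φ ε K A t := by
  rcases hs with ⟨k, hk, hP | hP⟩ | ⟨j, hj, hP⟩ | ⟨j, hj, hP⟩
  · exact Or.inl ⟨k, CausalGen291.Fut.mono hk h, Or.inl (inf_mono h hP)⟩
  · exact Or.inl ⟨k, CausalGen291.Fut.mono hk h, Or.inr (inf_mono h hP)⟩
  · exact Or.inr (Or.inl ⟨j, hj, inf_mono h hP⟩)
  · exact Or.inr (Or.inr ⟨j, hj, inf_mono h hP⟩)

theorem touched_anti_K (h : K ≤ K') {s : ℝ} (hs : Z.Touched Φ ε K' A s) :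
    Z.Touched Φ ε K A s := by
  rcases hs with ⟨k, hk, hP | hP⟩ | ⟨j, hj, hP⟩ | ⟨j, hj, hP⟩
  · exact Or.inl ⟨k, hk, Or.inl (inf_anti_K h hP)⟩
  · exact Or.inl ⟨k, hk, Or.inr (inf_anti_K h hP)⟩
  · exact Or.inr (Or.inl ⟨j, hj, inf_anti_K h hP⟩)
  · exact Or.inr (Or.inr ⟨j, hj, inf_anti_K h hP⟩)

theorem theta_def : Z.theta Φ ε K T A = if ∃ s ∈ Icc 0 T, Z.Touched Φ ε K A s then
    sInf {s | s ∈ Icc 0 T ∧ Z.Touched Φ ε K A s} else T + 1 := rfl

theorem bddBelow_touched : BddBelow {s | s ∈ Icc 0 T ∧ Z.Touched Φ ε K A s} :=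
  ⟨0, fun _ hs => hs.1.1⟩

theorem theta_of_not (h : ¬ ∃ s ∈ Icc 0 T, Z.Touched Φ ε K A s) : Z.theta Φ ε K T A = T + 1 := by
  rw [theta_def, if_neg h]

theorem theta_of_exists (h : ∃ s ∈ Icc 0 T, Z.Touched Φ ε K A s) :
    Z.theta Φ ε K T A = sInf {s | s ∈ Icc 0 T ∧ Z.Touched Φ ε K A s} := by
  rw [theta_def, if_pos h]

theorem theta_mem_of_exists (h : ∃ s ∈ Icc 0 T, Z.Touched Φ ε K A s) :
    Z.theta Φ ε K T A ∈ Icc 0 T := by
  rw [theta_of_exists h]
  obtain ⟨s, hs, hs'⟩ := h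
  exact ⟨le_csInf ⟨s, hs, hs'⟩ fun s hs => hs.1.1,
    (csInf_le bddBelow_touched ⟨hs, hs'⟩).trans hs.2⟩

theorem theta_le_horizon_iff : Z.theta Φ ε K T A ≤ T ↔ ∃ s ∈ Icc 0 T, Z.Touched Φ ε K A s := by
  constructor
  · intro h
    by_contra hno
    rw [theta_of_not hno] at h
    linarith
  · exact fun h => (theta_mem_of_exists h).2

theorem theta_nonneg (hT : 0 ≤ T) : 0 ≤ Z.theta Φ ε K T A := by
  by_cases h : ∃ s ∈ Icc 0 T, Z.Touched Φ ε K A s
  · exact (theta_mem_of_exists h).1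
  · rw [theta_of_not h]; linarith

theorem theta_le : Z.theta Φ ε K T A ≤ T + 1 := by
  by_cases h : ∃ s ∈ Icc 0 T, Z.Touched Φ ε K A s
  · exact (theta_mem_of_exists h).2.trans (by linarith)
  · rw [theta_of_not h]

theorem theta_le_of_touched {s : ℝ} (hs : s ∈ Icc 0 T) (h : Z.Touched Φ ε K A s) :
    Z.theta Φ ε K T A ≤ s := by
  rw [theta_of_exists ⟨s, hs, h⟩]
  exact csInf_le bddBelow_touched ⟨hs, h⟩

theorem touched_of_theta_lt {s : ℝ} (hs : s ≤ T) (h : Z.theta Φ ε K T A < s) :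
    Z.Touched Φ ε K A s := by
  by_cases hex : ∃ s ∈ Icc 0 T, Z.Touched Φ ε K A s
  · rw [theta_of_exists hex] at h
    have hne : {s | s ∈ Icc 0 T ∧ Z.Touched Φ ε K A s}.Nonempty := hex
    obtain ⟨r, hr, hrs⟩ := exists_lt_of_csInf_lt hne h
    exact touched_mono hrs.le hr.2
  · rw [theta_of_not hex] at h
    linarith

/-- The touch time increases with `K`. -/
theorem theta_mono_K (h : K ≤ K') : Z.theta Φ ε K T A ≤ Z.theta Φ ε K' T A := by
  by_cases hex : ∃ s ∈ Icc 0 T, Z.Touched Φ ε K' A s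
  · rw [theta_of_exists hex]
    obtain ⟨s₁, hs₁, hs₁'⟩ := hex
    exact le_csInf ⟨s₁, hs₁, hs₁'⟩ fun s hs => theta_le_of_touched hs.1 (touched_anti_K h hs.2)
  · rw [theta_of_not hex]
    exact theta_le

/-- The touch time does not depend on the horizon. -/
theorem theta_horizon (hT : T ≤ T') (h : Z.theta Φ ε K T A ≤ T) :
    Z.theta Φ ε K T' A = Z.theta Φ ε K T A := by
  rw [theta_le_horizon_iff] at h
  have hex' : ∃ s ∈ Icc 0 T', Z.Touched Φ ε K A s := by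
    obtain ⟨s, hs, hs'⟩ := h
    exact ⟨s, ⟨hs.1, hs.2.trans hT⟩, hs'⟩
  rw [theta_of_exists h, theta_of_exists hex']
  obtain ⟨s₀, hs₀, hs₀'⟩ := h
  apply le_antisymm
  · exact le_csInf ⟨s₀, hs₀, hs₀'⟩ fun s hs =>
      csInf_le bddBelow_touched ⟨⟨hs.1.1, hs.1.2.trans hT⟩, hs.2⟩
  · obtain ⟨s₁, hs₁, hs₁'⟩ := hex'
    refine le_csInf ⟨s₁, hs₁, hs₁'⟩ fun s hs => ?_
    rcases le_total s T with h1 | h1
    · exact csInf_le bddBelow_touched ⟨⟨hs.1.1, h1⟩, hs.2⟩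
    · exact (csInf_le bddBelow_touched ⟨hs₀, hs₀'⟩).trans (hs₀.2.trans h1)

theorem theta_horizon_lt (hT : T ≤ T') (h : Z.theta Φ ε K T' A < T) (hT0 : 0 ≤ T) :
    Z.theta Φ ε K T' A = Z.theta Φ ε K T A := by
  have h1 : Z.Touched Φ ε K A T := touched_of_theta_lt hT h
  have h2 : ∃ s ∈ Icc 0 T, Z.Touched Φ ε K A s := ⟨T, ⟨hT0, le_rfl⟩, h1⟩
  exact theta_horizon hT (theta_le_horizon_iff.2 h2)

theorem thetaL_eq (l : ML) : Z.thetaL Φ ε K T l = Z.theta Φ ε K T (MW.line l) := rfl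

theorem W_le_Wm {P : EPar} (hL : 0 ≤ P.L) (s : ℝ) : Z.W Φ ε K P s ≤ Z.Wm Φ ε K P s :=
  Weight984.W_anti hL (Weight984.XRm_le_XR s)

theorem W_anti {P : EPar} (hL : 0 ≤ P.L) {s t : ℝ} (h : s ≤ t) :
    Z.W Φ ε K P t ≤ Z.W Φ ε K P s := Weight984.W_anti hL (Weight984.XR_mono h)

theorem Wm_anti {P : EPar} (hL : 0 ≤ P.L) {s t : ℝ} (h : s ≤ t) :
    Z.Wm Φ ε K P t ≤ Z.Wm Φ ε K P s := Weight984.W_anti hL (Weight984.XRm_mono h)

theorem Wm_le_W {P : EPar} (hL : 0 ≤ P.L) {s t : ℝ} (h : s < t) :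
    Z.Wm Φ ε K P t ≤ Z.W Φ ε K P s := Weight984.W_anti hL (Weight984.XR_le_XRm h)

theorem W_le_one {P : EPar} (hL : 0 ≤ P.L) (s : ℝ) : Z.W Φ ε K P s ≤ 1 :=
  Weight984.W_le_one hL _

theorem Wm_le_one {P : EPar} (hL : 0 ≤ P.L) (s : ℝ) : Z.Wm Φ ε K P s ≤ 1 :=
  Weight984.W_le_one hL _

theorem touchW_le_one {P : EPar} (hL : 0 ≤ P.L) (l : ML) : Z.touchW Φ ε K P l ≤ 1 := by
  unfold MW.touchW
  split_ifs
  · exact Wm_le_one hL _
  · exact zero_le

theorem touchP_le_one {P : EPar} (hL : 0 ≤ P.L) (d e : ML) : Z.touchP Φ ε K P d e ≤ 1 := by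
  unfold MW.touchP
  split_ifs
  · exact (min_le_left _ _).trans (W_le_one hL _)
  · exact zero_le

/-- Dropping the second line of a pair. -/
theorem touchP_le_touchW {P : EPar} (hL : 0 ≤ P.L) (d e : ML) :
    Z.touchP Φ ε K P d e ≤ Z.touchW Φ ε K P d := by
  unfold MW.touchP MW.touchW
  by_cases h : P.tw < Z.thetaL Φ ε K P.te d ∧ Z.thetaL Φ ε K P.te d ≤
      (Z.ins d).thetaL Φ ε K P.te e ∧ (Z.ins d).thetaL Φ ε K P.te e ≤ P.te
  · rw [if_pos h, if_pos ⟨h.1, h.2.1.trans h.2.2⟩]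
    exact (min_le_left _ _).trans (W_le_Wm hL _)
  · rw [if_neg h]; exact zero_le

end mono

/-! ## Unweighted touched mass -/

section tn

variable {Φ : Space3 → ℝ} {f₀ : PhasePoint → ℝ} {ε : ℝ} {K : ℕ} {γ : ℝ → ℝ} {ρ : ℝ≥0∞} {t t' : ℝ}

/-- The touched mass is monotone in time. -/
theorem tnMass_mono (h : t ≤ t') : tnMass Φ f₀ γ ρ ε K t ≤ tnMass Φ f₀ γ ρ ε K t' := by
  refine gcE_mono f₀ ε fun n w _ => ?_
  refine (measure_mono fun l hl => ?_).trans (Measure.le_iff'.1 (lineM_mono h) _)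
  have h1 : (MW.cfg w).theta Φ ε K t (MW.line l) ≤ t := hl
  have h2 := theta_horizon h h1
  change (MW.cfg w).theta Φ ε K t' (MW.line l) ≤ t'
  rw [h2]
  exact h1.trans h

theorem TN_mono (h : t ≤ t') (ht : TN Φ f₀ γ ρ t') : TN Φ f₀ γ ρ t :=
  Small.mono ht fun _ _ _ => tnMass_mono h

theorem tnMass_zero : tnMass Φ f₀ γ ρ ε K 0 = 0 := by
  unfold tnMass
  rw [gcE_congr (G := fun _ _ => 0) f₀ ε, gcE_zero]
  intro n w _
  rw [lineM_zero]
  rfl

theorem TN_zero : TN Φ f₀ γ ρ 0 := Small.zero.mono fun _ _ _ => (tnMass_zero).le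

/-- Nobody is bad at time `0`. -/
theorem bad_zero {n : ℕ} {w : Config n} (hΦ : AdmissiblePotential Φ) (hε : 0 < ε)
    (hw : w ∈ PairExcluded ε n) (hK : 1 ≤ K) : EW370.bad Φ ε K (w : Config n) 0 = ∅ := by
  rw [Finset.eq_empty_iff_forall_notMem]
  exact fun i hi => cfg_not_inf_zero hΦ hε hw hK i ((cfg_inf_iff hΦ hε hw 0 i).2 hi)

theorem JE_zero (hΦ : AdmissiblePotential Φ) (hε : 0 < ε) (hK : 1 ≤ K) :
    JE Φ f₀ ε K 0 = 0 := by
  unfold JE
  rw [gcE_congr (G := fun _ _ => 0) f₀ ε, gcE_zero]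
  intro n w hw
  rw [bad_zero hΦ hε hw hK]
  simp [Energy410.eng]

theorem JS_zero (hΦ : AdmissiblePotential Φ) : JS Φ f₀ 0 := by
  intro δ _
  exact ⟨1, fun K hK => ⟨1, one_pos, fun ε h0 _ => (JE_zero hΦ h0 hK).le.trans zero_le⟩⟩

end tn

/-! ## The total touched mass as one expectation -/

section tonelli

variable {f₀ : PhasePoint → ℝ} {ε : ℝ} {K : ℕ} {γ : ℝ → ℝ} {ρ : ℝ≥0∞}
  {G : (n : ℕ) → Config n → ML → ℝ≥0∞}

/-- Density in `(τ, v)` of a functional of a line. -/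
def dens (f₀ : PhasePoint → ℝ) (ε : ℝ) (K : ℕ) (ρ : ℝ≥0∞) (G : (n : ℕ) → Config n → ML → ℝ≥0∞)
    (τ : ℝ) (v : Space3) : ℝ≥0∞ :=
  gcE f₀ ε fun n w => ∫⁻ y : Space3, ∑' k : ℕ, markW ρ K k * G n w ((τ, (y, v)), k)

theorem measurable_dens (hf : Measurable f₀)
    (hG : ∀ n, Measurable fun p : Config n × ML => G n p.1 p.2) :
    Measurable fun p : ℝ × Space3 => dens f₀ ε K ρ G p.1 p.2 := by
  unfold dens
  refine BadHit370.measurable_gcE_param hf ε (F := fun n (p : ℝ × Space3) (w : Config n) =>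
    ∫⁻ y : Space3, ∑' k : ℕ, markW ρ K k * G n w ((p.1, (y, p.2)), k)) fun n => ?_
  refine Measurable.lintegral_prod_right' (f := fun q : ((ℝ × Space3) × Config n) × Space3 =>
    ∑' k : ℕ, markW ρ K k * G n q.1.2 ((q.1.1.1, (q.2, q.1.1.2)), k)) ?_
  have h1 : ∀ k : ℕ, Measurable fun q : ((ℝ × Space3) × Config n) × Space3 =>
      (q.1.2, (((q.1.1.1, (q.2, q.1.1.2)), k) : ML)) := fun k => by fun_prop
  exact Measurable.tsum fun k => ((hG n).comp (h1 k)).const_mul _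

/-- `dens` against the Gaussian as one expectation. -/
theorem lintegral_dens (hf : Measurable f₀)
    (hG : ∀ n, Measurable fun p : Config n × ML => G n p.1 p.2) (c : ℝ) (τ : ℝ) :
    ∫⁻ v : Space3, Kin796.wG c v * dens f₀ ε K ρ G τ v =
      gcE f₀ ε fun n w => ∫⁻ v : Space3, Kin796.wG c v *
        ∫⁻ y : Space3, ∑' k : ℕ, markW ρ K k * G n w ((τ, (y, v)), k) := by
  have h0 : ∀ (n k : ℕ), Measurable fun q : (Space3 × Config n) × Space3 =>
      (q.1.2, (((τ, (q.2, q.1.1)), k) : ML)) := fun n k => by fun_prop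
  have hm1 : ∀ n, Measurable fun q : (Space3 × Config n) × Space3 =>
      ∑' k : ℕ, markW ρ K k * G n q.1.2 ((τ, (q.2, q.1.1)), k) := fun n =>
    Measurable.tsum fun k => ((hG n).comp (h0 n k)).const_mul _
  have hm2 : ∀ n, Measurable fun q : Space3 × Config n => ∫⁻ y : Space3,
      ∑' k : ℕ, markW ρ K k * G n q.2 ((τ, (y, q.1)), k) :=
    fun n => (hm1 n).lintegral_prod_right'
  have hw : Measurable fun v : Space3 => Kin796.wG c v := by
    unfold Kin796.wG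
    fun_prop
  unfold dens
  have h1 : ∀ v : Space3, Kin796.wG c v * gcE f₀ ε (fun n w => ∫⁻ y : Space3, ∑' k : ℕ,
      markW ρ K k * G n w ((τ, (y, v)), k)) =
      gcE f₀ ε (fun n w => Kin796.wG c v * ∫⁻ y : Space3, ∑' k : ℕ,
      markW ρ K k * G n w ((τ, (y, v)), k)) := fun v =>
    (gcE_const_mul f₀ ε (by unfold Kin796.wG; exact ENNReal.ofReal_ne_top) _).symm
  simp only [h1]
  exact BadHit370.lintegral_gcE hf ε volume (F := fun n (v : Space3) (w : Config n) =>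
    Kin796.wG c v * ∫⁻ y : Space3, ∑' k : ℕ, markW ρ K k * G n w ((τ, (y, v)), k))
    fun n => (hw.comp measurable_fst).mul (hm2 n)

/-- The time integral as one expectation. -/
theorem setLIntegral_dens (hf : Measurable f₀) (hγ : Measurable γ)
    (hG : ∀ n, Measurable fun p : Config n × ML => G n p.1 p.2) (J : Set ℝ) :
    ∫⁻ τ in J, ∫⁻ v : Space3, Kin796.wG (γ τ) v * dens f₀ ε K ρ G τ v =
      gcE f₀ ε fun n w => ∫⁻ τ in J, ∫⁻ v : Space3, Kin796.wG (γ τ) v *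
        ∫⁻ y : Space3, ∑' k : ℕ, markW ρ K k * G n w ((τ, (y, v)), k) := by
  simp only [lintegral_dens hf hG]
  refine BadHit370.lintegral_gcE hf ε _ (F := fun n (τ : ℝ) (w : Config n) =>
    ∫⁻ v : Space3, Kin796.wG (γ τ) v * ∫⁻ y : Space3, ∑' k : ℕ,
      markW ρ K k * G n w ((τ, (y, v)), k)) fun n => ?_
  have h0 : ∀ k : ℕ, Measurable fun q : ((ℝ × Config n) × Space3) × Space3 =>
      (q.1.1.2, (((q.1.1.1, (q.2, q.1.2)), k) : ML)) := fun k => by fun_prop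
  have hm1 : Measurable fun q : ((ℝ × Config n) × Space3) × Space3 =>
      ∑' k : ℕ, markW ρ K k * G n q.1.1.2 ((q.1.1.1, (q.2, q.1.2)), k) :=
    Measurable.tsum fun k => ((hG n).comp (h0 k)).const_mul _
  have hm2 : Measurable fun q : (ℝ × Config n) × Space3 => ∫⁻ y : Space3,
      ∑' k : ℕ, markW ρ K k * G n q.1.2 ((q.1.1, (y, q.2)), k) :=
    hm1.lintegral_prod_right'
  have hm3 : Measurable fun q : (ℝ × Config n) × Space3 => Kin796.wG (γ q.1.1) q.2 *
      ∫⁻ y : Space3, ∑' k : ℕ, markW ρ K k * G n q.1.2 ((q.1.1, (y, q.2)), k) :=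
    ((measurable_wG2 hγ).comp
      ((measurable_fst.comp measurable_fst).prodMk measurable_snd)).mul hm2
  exact hm3.lintegral_prod_right'

/-- The integral against `lineM` as one expectation. -/
theorem lintegral_dens_lineM (hf : Measurable f₀) (hγ : Measurable γ)
    (hG : ∀ n, Measurable fun p : Config n × ML => G n p.1 p.2) (T : ℝ) :
    ∫⁻ τ in Ioc (0 : ℝ) T, ∫⁻ v : Space3, Kin796.wG (γ τ) v * dens f₀ ε K ρ G τ v =
      gcE f₀ ε fun n w => ∫⁻ l, G n w l ∂lineM γ ρ K T := by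
  rw [setLIntegral_dens hf hγ hG]
  refine gcE_congr f₀ ε fun n w _ => ?_
  have h1 : Measurable fun l : ML => G n w l :=
    (hG n).comp (measurable_const.prodMk measurable_id)
  rw [lintegral_lineM hγ h1]

end tonelli

section XI

variable {Φ : Space3 → ℝ} {f₀ : PhasePoint → ℝ} {ε : ℝ} {K : ℕ} {P : EPar}

/-- Joint measurability of the weighted touch functional of the gas. -/
def TouchMeas (Φ : Space3 → ℝ) (ε : ℝ) (K : ℕ) (P : EPar) : Prop :=
  ∀ n : ℕ, Measurable fun p : Config n × ML => (MW.cfg p.1).touchW Φ ε K P p.2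

theorem xE_eq_dens (τ : ℝ) (v : Space3) : xE Φ f₀ ε K P τ v =
    dens f₀ ε K P.ρ (fun _ w l => (MW.cfg w).touchW Φ ε K P l) τ v := rfl

theorem measurable_xE (hf : Measurable f₀) (hm : TouchMeas Φ ε K P) :
    Measurable fun p : ℝ × Space3 => xE Φ f₀ ε K P p.1 p.2 :=
  measurable_dens hf hm

theorem measurable_XE (hf : Measurable f₀) (hγ : Measurable P.γ) (hm : TouchMeas Φ ε K P) :
    Measurable fun τ => XE Φ f₀ ε K P τ := by
  unfold XE
  exact Measurable.lintegral_prod_right' (f := fun p : ℝ × Space3 =>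
    Kin796.wG (P.γ p.1) p.2 * xE Φ f₀ ε K P p.1 p.2)
    ((measurable_wG2 hγ).mul (measurable_xE hf hm))

/-- `X(τ)` as one expectation. -/
theorem XE_eq (hf : Measurable f₀) (hm : TouchMeas Φ ε K P) (τ : ℝ) :
    XE Φ f₀ ε K P τ = gcE f₀ ε fun _ w => ∫⁻ v : Space3, Kin796.wG (P.γ τ) v *
      ∫⁻ y : Space3, ∑' k : ℕ, markW P.ρ K k * (MW.cfg w).touchW Φ ε K P ((τ, (y, v)), k) :=
  lintegral_dens (G := fun _ w l => (MW.cfg w).touchW Φ ε K P l) hf hm _ _

/-- `∫_J X(τ) dτ` as one expectation. -/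
theorem XJ_eq (hf : Measurable f₀) (hγ : Measurable P.γ) (hm : TouchMeas Φ ε K P) (J : Set ℝ) :
    XJ Φ f₀ ε K P J = gcE f₀ ε fun _ w => ∫⁻ τ in J, ∫⁻ v : Space3, Kin796.wG (P.γ τ) v *
      ∫⁻ y : Space3, ∑' k : ℕ, markW P.ρ K k * (MW.cfg w).touchW Φ ε K P ((τ, (y, v)), k) :=
  setLIntegral_dens (G := fun _ w l => (MW.cfg w).touchW Φ ε K P l) hf hγ hm _

/-- `X = E ∫ 1[t* < θ ≤ t'] W(θ-) dlineM`. -/
theorem XI_eq (hf : Measurable f₀) (hγ : Measurable P.γ) (hm : TouchMeas Φ ε K P) :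
    XI Φ f₀ ε K P = gcE f₀ ε fun _ w =>
      ∫⁻ l, (MW.cfg w).touchW Φ ε K P l ∂lineM P.γ P.ρ K P.te :=
  lintegral_dens_lineM (G := fun _ w l => (MW.cfg w).touchW Φ ε K P l) hf hγ hm _

theorem XJ_mono {J J' : Set ℝ} (h : J ⊆ J') : XJ Φ f₀ ε K P J ≤ XJ Φ f₀ ε K P J' :=
  lintegral_mono_set h

theorem XJ_le_XI {J : Set ℝ} (h : J ⊆ Ioc 0 P.te) : XJ Φ f₀ ε K P J ≤ XI Φ f₀ ε K P :=
  XJ_mono h

end XI

end

end Crest.Agent.R122.EBasic602
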