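import Crest.Agent.R122.LN2Gas_473
import Crest.Agent.R122.ToTree_335
import Crest.Agent.R122.EDefs_602

/-!
# Row 122, LN2: dominated structures, instances

* `Dom.prod` : products of structures (numbers of groups add up).
* `Dom.weight` : exponential velocity weights; `Dom.mono_measure`.
* `treeM Φ f₀ ε P T` : `{Valid} wt ∏ f₀ (lines)` as a measure; `dom_tree` (one group, births `0`, all
  particles are anchors).
* `dom_line` : `lineM` (one group, no anchors).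
* `lintegral_gcE_swap` : Tonelli.
-/

set_option autoImplicit false
open MeasureTheory Set
open scoped Classical ENNReal
open Crest.AnalysisR.Kinetic
noncomputable section

namespace Crest.Agent.R122.LN2

open Crest.Agent.R122.GC311 Crest.Agent.R122.Kin796 Crest.Agent.R122.Kin796.CTree
open Crest.Agent.R122.VL581 Crest.Agent.R122.LinkGas473 Crest.Agent.R122.Tree674
open Crest.Agent.R122.ToTree335 Crest.Agent.R122.EDefs602

variable {f₀ : PhasePoint → ℝ} {γ : ℝ} {ρ : Space3 → ℝ≥0∞} {C : ℝ≥0∞}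

/-! ## Tonelli -/

theorem lintegral_gcE_swap (hf : Measurable f₀) (ε : ℝ) {Θ : Type*} [MeasurableSpace Θ]
    (m : Measure Θ) [SFinite m] {F : (n : ℕ) → Θ → Config n → ℝ≥0∞}
    (hF : ∀ n, Measurable (Function.uncurry (F n))) :
    ∫⁻ x, gcE f₀ ε (fun n Z => F n x Z) ∂m = gcE f₀ ε fun n Z => ∫⁻ x, F n x Z ∂m := by
  unfold gcE
  have h1 : ∀ n, Measurable fun p : Θ × Config n => gcWeight f₀ ε n p.2 * F n p.1 p.2 := fun n =>
    ((measurable_gcWeight hf ε n).comp measurable_snd).mul (hF n)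
  have h2 : ∀ n, Measurable fun x : Θ => ∫⁻ Z : Config n, gcWeight f₀ ε n Z * F n x Z := fun n =>
    (h1 n).lintegral_prod_right'
  rw [lintegral_const_mul _ (Measurable.tsum fun n => (h2 n).const_mul _),
    lintegral_tsum fun n => ((h2 n).const_mul _).aemeasurable]
  congr 1
  refine tsum_congr fun n => ?_
  rw [lintegral_const_mul _ (h2 n)]
  congr 1
  rw [lintegral_lintegral_swap (f := fun (x : Θ) (Z : Config n) => gcWeight f₀ ε n Z * F n x Z)
    (h1 n).aemeasurable]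
  refine lintegral_congr fun Z => ?_
  exact lintegral_const_mul _ ((hF n).comp (measurable_id.prodMk measurable_const))

/-! ## Operations -/

section ops

variable {κ : Type} [Fintype κ] {ε : ℝ} {s : ℕ} {A₀ : Finset κ} {c : ℝ≥0∞} {Λ : Measure (κ → ℝ)}
  {Θ : Type} [MeasurableSpace Θ] {m : Measure Θ} {b : Θ → κ → ℝ} {z : Θ → κ → PhasePoint}

theorem Dom.mono_measure (h : Dom γ ρ ε s A₀ c Λ m b z) {m' : Measure Θ} {c' : ℝ≥0∞}
    (hm : ∀ F : Θ → ℝ≥0∞, Measurable F → ∫⁻ θ, F θ ∂m' ≤ c' * ∫⁻ θ, F θ ∂m) :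
    Dom γ ρ ε s A₀ (c' * c) Λ m' b z where
  mb := h.mb
  mz := h.mz
  le F hF := by
    calc ENNReal.ofReal (ε ^ 2) ^ (Fintype.card κ - s) * ∫⁻ θ, F (b θ, z θ) ∂m'
        ≤ ENNReal.ofReal (ε ^ 2) ^ (Fintype.card κ - s) * (c' * ∫⁻ θ, F (b θ, z θ) ∂m) :=
          mul_le_mul_right (hm _ (hF.comp (h.mb.prodMk h.mz))) _
      _ = c' * (ENNReal.ofReal (ε ^ 2) ^ (Fintype.card κ - s) * ∫⁻ θ, F (b θ, z θ) ∂m) := by ring
      _ ≤ c' * (c * ∫⁻ b, (∫⁻ z, wgtA γ ρ A₀ z * F (b, z)) ∂Λ) := mul_le_mul_right (h.le F hF) _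
      _ = _ := by ring

/-- Exponential weight in the velocities. -/
def expW (a : ℝ) {κ : Type} [Fintype κ] (z : κ → PhasePoint) : ℝ≥0∞ :=
  ∏ j, ENNReal.ofReal (Real.exp (a * ‖(z j).2‖ ^ 2))

theorem measurable_expW (a : ℝ) : Measurable (expW a (κ := κ)) := by
  unfold expW
  refine Finset.measurable_prod _ fun j _ => ?_
  have : Measurable fun z : κ → PhasePoint => a * ‖(z j).2‖ ^ 2 :=
    measurable_const.mul ((measurable_pi_apply j).snd.norm.pow_const 2)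
  exact (Real.measurable_exp.comp this).ennreal_ofReal

theorem wgtA_mul_expW (a : ℝ) (z : κ → PhasePoint) :
    wgtA γ ρ A₀ z * expW a z = wgtA (γ - a) ρ A₀ z := by
  unfold wgtA expW
  rw [mul_assoc, ← Finset.prod_mul_distrib]
  congr 1
  refine Finset.prod_congr rfl fun j _ => ?_
  unfold wG
  rw [← ENNReal.ofReal_mul (Real.exp_pos _).le, ← Real.exp_add]
  congr 2
  ring

/-- Exponential velocity weights can be added to the structure measure. -/
theorem Dom.weight (h : Dom γ ρ ε s A₀ c Λ m b z) (a : ℝ) {W : Θ → ℝ≥0∞}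
    {c' : ℝ≥0∞} (hW : Measurable W) (hle : ∀ θ, W θ ≤ c' * expW a (z θ)) (hc' : c' ≠ ∞) :
    Dom (γ - a) ρ ε s A₀ (c' * c) Λ (m.withDensity W) b z where
  mb := h.mb
  mz := h.mz
  le F hF := by
    have hFm : Measurable fun θ => F (b θ, z θ) := hF.comp (h.mb.prodMk h.mz)
    calc ENNReal.ofReal (ε ^ 2) ^ (Fintype.card κ - s) * ∫⁻ θ, F (b θ, z θ) ∂(m.withDensity W)
        = ENNReal.ofReal (ε ^ 2) ^ (Fintype.card κ - s) * ∫⁻ θ, W θ * F (b θ, z θ) ∂m := by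
          rw [lintegral_withDensity_eq_lintegral_mul _ hW hFm]
          rfl
      _ ≤ ENNReal.ofReal (ε ^ 2) ^ (Fintype.card κ - s) *
          (c' * ∫⁻ θ, expW a (z θ) * F (b θ, z θ) ∂m) := by
          rw [← lintegral_const_mul' _ _ hc']
          refine mul_le_mul_right (lintegral_mono fun θ => ?_) _
          rw [← mul_assoc]
          exact mul_le_mul_left (hle θ) _
      _ = c' * (ENNReal.ofReal (ε ^ 2) ^ (Fintype.card κ - s) *
          ∫⁻ θ, (fun q : (κ → ℝ) × (κ → PhasePoint) => expW a q.2 * F q) (b θ, z θ) ∂m) := by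
          ring
      _ ≤ c' * (c * ∫⁻ b, (∫⁻ z, wgtA γ ρ A₀ z *
          (fun q : (κ → ℝ) × (κ → PhasePoint) => expW a q.2 * F q) (b, z)) ∂Λ) :=
          mul_le_mul_right (h.le _ (((measurable_expW a).comp measurable_snd).mul hF)) _
      _ = (c' * c) * ∫⁻ b, (∫⁻ z, wgtA (γ - a) ρ A₀ z * F (b, z)) ∂Λ := by
          rw [mul_assoc]
          congr 2
          refine lintegral_congr fun b => lintegral_congr fun z => ?_
          simp only
          rw [← mul_assoc, wgtA_mul_expW]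

end ops

/-! ## Products -/

section prod

variable {κ₁ κ₂ : Type} [Fintype κ₁] [Fintype κ₂] {ε : ℝ} {s₁ s₂ : ℕ} {A₁ : Finset κ₁}
  {A₂ : Finset κ₂} {c₁ c₂ : ℝ≥0∞} {Λ₁ : Measure (κ₁ → ℝ)} {Λ₂ : Measure (κ₂ → ℝ)}
  {Θ₁ Θ₂ : Type} [MeasurableSpace Θ₁] [MeasurableSpace Θ₂] {m₁ : Measure Θ₁} {m₂ : Measure Θ₂}
  {b₁ : Θ₁ → κ₁ → ℝ} {b₂ : Θ₂ → κ₂ → ℝ} {z₁ : Θ₁ → κ₁ → PhasePoint} {z₂ : Θ₂ → κ₂ → PhasePoint}

theorem wgtA_disjSum (z : κ₁ → PhasePoint) (z' : κ₂ → PhasePoint) :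
    wgtA γ ρ (A₁.disjSum A₂) (Sum.elim z z') = wgtA γ ρ A₁ z * wgtA γ ρ A₂ z' := by
  unfold wgtA
  rw [Finset.prod_disjSum, Fintype.prod_sum_type]
  simp only [Sum.elim_inl, Sum.elim_inr]
  ring

/-- Law of the births of a product. -/
def prodΛ (Λ₁ : Measure (κ₁ → ℝ)) (Λ₂ : Measure (κ₂ → ℝ)) : Measure (κ₁ ⊕ κ₂ → ℝ) :=
  (Λ₁.prod Λ₂).map fun p => Sum.elim p.1 p.2

instance [IsFiniteMeasure Λ₁] [IsFiniteMeasure Λ₂] : IsFiniteMeasure (prodΛ Λ₁ Λ₂) := by
  unfold prodΛ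
  infer_instance

/-- **Products of dominated structures.** -/
theorem Dom.prod [SFinite m₁] [SFinite m₂] [SFinite Λ₁] [SFinite Λ₂] (hρ : Measurable ρ)
    (h₁ : Dom γ ρ ε s₁ A₁ c₁ Λ₁ m₁ b₁ z₁) (h₂ : Dom γ ρ ε s₂ A₂ c₂ Λ₂ m₂ b₂ z₂)
    (hs₁ : s₁ ≤ Fintype.card κ₁) (hs₂ : s₂ ≤ Fintype.card κ₂) :
    Dom γ ρ ε (s₁ + s₂) (A₁.disjSum A₂) (c₁ * c₂) (prodΛ Λ₁ Λ₂) (m₁.prod m₂)
      (fun θ => Sum.elim (b₁ θ.1) (b₂ θ.2)) (fun θ => Sum.elim (z₁ θ.1) (z₂ θ.2)) where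
  mb := measurable_sumElim.comp ((h₁.mb.comp measurable_fst).prodMk (h₂.mb.comp measurable_snd))
  mz := measurable_sumElim.comp ((h₁.mz.comp measurable_fst).prodMk (h₂.mz.comp measurable_snd))
  le F hF := by
    set a : ℝ≥0∞ := ENNReal.ofReal (ε ^ 2) with ha
    have hcard : Fintype.card (κ₁ ⊕ κ₂) - (s₁ + s₂) =
        (Fintype.card κ₁ - s₁) + (Fintype.card κ₂ - s₂) := by
      rw [Fintype.card_sum]; omega
    -- the functional with split arguments
    set G : ((κ₁ → ℝ) × (κ₁ → PhasePoint)) × ((κ₂ → ℝ) × (κ₂ → PhasePoint)) → ℝ≥0∞ :=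
      fun q => F (Sum.elim q.1.1 q.2.1, Sum.elim q.1.2 q.2.2) with hG
    have hGm : Measurable G := hF.comp
      ((measurable_sumElim.comp (measurable_fst.fst.prodMk measurable_snd.fst)).prodMk
        (measurable_sumElim.comp (measurable_fst.snd.prodMk measurable_snd.snd)))
    have hw₂ : Measurable fun q : ((κ₁ → ℝ) × (κ₁ → PhasePoint)) × ((κ₂ → ℝ) × (κ₂ → PhasePoint)) =>
        wgtA γ ρ A₂ q.2.2 * G q := ((measurable_wgtA hρ A₂).comp measurable_snd.snd).mul hGm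
    set F₁ : (κ₁ → ℝ) × (κ₁ → PhasePoint) → ℝ≥0∞ := fun q =>
      ∫⁻ b, (∫⁻ z, wgtA γ ρ A₂ z * G (q, (b, z))) ∂Λ₂ with hF₁
    have hin : Measurable fun p : ((κ₁ → ℝ) × (κ₁ → PhasePoint)) × (κ₂ → ℝ) =>
        ∫⁻ z, wgtA γ ρ A₂ z * G (p.1, (p.2, z)) := by
      have h3 : Measurable fun p : (((κ₁ → ℝ) × (κ₁ → PhasePoint)) × (κ₂ → ℝ)) ×
          (κ₂ → PhasePoint) => wgtA γ ρ A₂ p.2 * G (p.1.1, (p.1.2, p.2)) :=
        hw₂.comp (measurable_fst.fst.prodMk (measurable_fst.snd.prodMk measurable_snd))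
      exact h3.lintegral_prod_right'
    have hF₁m : Measurable F₁ := hin.lintegral_prod_right'
    have hmeas : Measurable fun θ : Θ₁ × Θ₂ =>
        F (Sum.elim (b₁ θ.1) (b₂ θ.2), Sum.elim (z₁ θ.1) (z₂ θ.2)) :=
      hGm.comp (((h₁.mb.comp measurable_fst).prodMk (h₁.mz.comp measurable_fst)).prodMk
        ((h₂.mb.comp measurable_snd).prodMk (h₂.mz.comp measurable_snd)))
    calc a ^ (Fintype.card (κ₁ ⊕ κ₂) - (s₁ + s₂)) * ∫⁻ θ : Θ₁ × Θ₂,
          F (Sum.elim (b₁ θ.1) (b₂ θ.2), Sum.elim (z₁ θ.1) (z₂ θ.2)) ∂(m₁.prod m₂)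
        = a ^ (Fintype.card κ₁ - s₁) * ∫⁻ θ₁, (a ^ (Fintype.card κ₂ - s₂) *
            ∫⁻ θ₂, G ((b₁ θ₁, z₁ θ₁), (b₂ θ₂, z₂ θ₂)) ∂m₂) ∂m₁ := by
          rw [hcard, pow_add, lintegral_prod _ hmeas.aemeasurable,
            lintegral_const_mul' _ _ (ENNReal.pow_ne_top ENNReal.ofReal_ne_top), mul_assoc]
      _ ≤ a ^ (Fintype.card κ₁ - s₁) * ∫⁻ θ₁, (c₂ * F₁ (b₁ θ₁, z₁ θ₁)) ∂m₁ := by
          refine mul_le_mul_right (lintegral_mono fun θ₁ => ?_) _
          exact h₂.le (fun p => G ((b₁ θ₁, z₁ θ₁), p))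
            (hGm.comp (measurable_const.prodMk measurable_id))
      _ ≤ c₁ * ∫⁻ b, (∫⁻ z, wgtA γ ρ A₁ z * (c₂ * F₁ (b, z))) ∂Λ₁ :=
          h₁.le (fun q => c₂ * F₁ q) (hF₁m.const_mul c₂)
      _ = (c₁ * c₂) * ∫⁻ b, (∫⁻ z, wgtA γ ρ A₁ z * F₁ (b, z)) ∂Λ₁ := by
          have hm1 : Measurable fun p : (κ₁ → ℝ) × (κ₁ → PhasePoint) =>
              wgtA γ ρ A₁ p.2 * F₁ p := ((measurable_wgtA hρ A₁).comp measurable_snd).mul hF₁m
          have e1 : ∀ b : κ₁ → ℝ, ∫⁻ z, wgtA γ ρ A₁ z * (c₂ * F₁ (b, z)) =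
              c₂ * ∫⁻ z, wgtA γ ρ A₁ z * F₁ (b, z) := by
            intro b
            have hmz : Measurable fun z : κ₁ → PhasePoint => wgtA γ ρ A₁ z * F₁ (b, z) :=
              hm1.comp (measurable_const.prodMk measurable_id)
            rw [← lintegral_const_mul _ hmz]
            refine lintegral_congr fun z => ?_
            ring
          simp only [e1]
          rw [lintegral_const_mul _ hm1.lintegral_prod_right', mul_assoc]
      _ = (c₁ * c₂) * ∫⁻ b, (∫⁻ z, wgtA γ ρ (A₁.disjSum A₂) z * F (b, z)) ∂(prodΛ Λ₁ Λ₂) := by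
          congr 1
          unfold prodΛ
          have hWm : Measurable fun p : (κ₁ ⊕ κ₂ → ℝ) × (κ₁ ⊕ κ₂ → PhasePoint) =>
              wgtA γ ρ (A₁.disjSum A₂) p.2 * F p :=
            ((measurable_wgtA hρ _).comp measurable_snd).mul hF
          have hOut : Measurable fun b : κ₁ ⊕ κ₂ → ℝ =>
              ∫⁻ z, wgtA γ ρ (A₁.disjSum A₂) z * F (b, z) := hWm.lintegral_prod_right'
          have hcm : Measurable fun p : (κ₁ → ℝ) × (κ₂ → ℝ) =>
              ∫⁻ z, wgtA γ ρ (A₁.disjSum A₂) z * F (Sum.elim p.1 p.2, z) :=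
            hOut.comp measurable_sumElim
          rw [lintegral_map hOut measurable_sumElim, lintegral_prod _ hcm.aemeasurable]
          refine lintegral_congr fun b₁' => ?_
          have e2 : ∀ b₂' : κ₂ → ℝ, ∫⁻ z : κ₁ ⊕ κ₂ → PhasePoint,
              wgtA γ ρ (A₁.disjSum A₂) z * F (Sum.elim b₁' b₂', z) =
              ∫⁻ z : κ₁ → PhasePoint, wgtA γ ρ A₁ z *
                ∫⁻ z' : κ₂ → PhasePoint, wgtA γ ρ A₂ z' * G ((b₁', z), (b₂', z')) := by
            intro b₂'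
            rw [lintegral_sum_type (fun z => wgtA γ ρ (A₁.disjSum A₂) z * F (Sum.elim b₁' b₂', z))
              (hWm.comp (measurable_const.prodMk measurable_id))]
            refine lintegral_congr fun z => ?_
            rw [← lintegral_const_mul]
            · refine lintegral_congr fun z' => ?_
              rw [wgtA_disjSum, mul_assoc]
            · exact hw₂.comp (measurable_const.prodMk (measurable_const.prodMk measurable_id))
          simp only [e2]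
          have hm4 : Measurable fun p : (κ₂ → ℝ) × (κ₁ → PhasePoint) => wgtA γ ρ A₁ p.2 *
              ∫⁻ z' : κ₂ → PhasePoint, wgtA γ ρ A₂ z' * G ((b₁', p.2), (p.1, z')) :=
            ((measurable_wgtA hρ A₁).comp measurable_snd).mul
              (hin.comp ((measurable_const.prodMk measurable_snd).prodMk measurable_fst))
          rw [lintegral_lintegral_swap hm4.aemeasurable]
          refine lintegral_congr fun z => ?_
          rw [lintegral_const_mul]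
          exact hin.comp ((measurable_const.prodMk measurable_const).prodMk measurable_id)

end prod

end Crest.Agent.R122.LN2
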