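import Crest.Agent.R122.Mom_974
import Crest.Agent.R122.Master_566

/-!
# Row 122 (helper974): tightness of the gas in position, uniformly in `ε` and in time

`far_le` : expected mass of the particles with `2 R < ‖x_i(t)‖`.
`exists_far_le` : it is at most `δ` for some `R`, for all `ε ≤ 1` (`ε > 0`) and `t ∈ [0, T]`.
-/

set_option autoImplicit false

open MeasureTheory Set
open scoped Classical ENNReal
open Crest.AnalysisR.Kinetic
open Crest.Agent.R122.GC311 Crest.Agent.R122.Flow671 Crest.Agent.R122.Loc45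
open Crest.Agent.R122.Mom974

noncomputable section

namespace Crest.Agent.R122.Tight974

variable {Φ : Space3 → ℝ} {ε : ℝ}

theorem disp_le (hΦ : AdmissiblePotential Φ) (hε : 0 < ε) {n : ℕ} {Z : Config n}
    (hZ : Z ∈ PairExcluded ε n) {t : ℝ} (ht : 0 ≤ t) (i : Fin n) :
    ENNReal.ofReal ‖(flow Φ ε t Z i).1 - (Z i).1‖ ≤
      ∫⁻ s in Ioc 0 t, ENNReal.ofReal ‖(flow Φ ε s Z i).2‖ := by
  have hD : Z ∈ Dom Φ (Fin n) := pairExcluded_subset_Dom hε n hZ
  have hc : Continuous fun s => (flow Φ ε s Z i).2 :=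
    continuous_snd.comp ((continuous_apply i).comp (flow_continuous_time hΦ hε Z))
  have h1 : ∫ s in (0 : ℝ)..t, (flow Φ ε s Z i).2 = (flow Φ ε t Z i).1 - (flow Φ ε 0 Z i).1 :=
    intervalIntegral.integral_eq_sub_of_hasDerivAt
      (fun s _ => hasDerivAt_pos_flow hΦ hε hD s i) (hc.intervalIntegrable _ _)
  have h0 : flow Φ ε 0 Z = Z := flow_zero hΦ hε Z
  rw [h0] at h1
  rw [← h1, intervalIntegral.integral_of_le ht, ofReal_norm]
  calc ‖∫ s in Ioc 0 t, (flow Φ ε s Z i).2‖ₑ ≤ ∫⁻ s in Ioc 0 t, ‖(flow Φ ε s Z i).2‖ₑ :=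
        enorm_integral_le_lintegral_enorm _
    _ = _ := by simp only [ofReal_norm]

theorem sum_disp_le (hΦ : AdmissiblePotential Φ) (hε : 0 < ε) {n : ℕ} {Z : Config n}
    (hZ : Z ∈ PairExcluded ε n) {t : ℝ} (ht : 0 ≤ t) :
    ∑ i, ENNReal.ofReal ‖(flow Φ ε t Z i).1 - (Z i).1‖ ≤
      ENNReal.ofReal t * (2 * ENNReal.ofReal (1 + 2 * stabB Φ) *
        ∑ i, ENNReal.ofReal (1 + ‖(Z i).2‖ ^ 2)) := by
  have hm : ∀ i : Fin n, Measurable fun s => ENNReal.ofReal ‖(flow Φ ε s Z i).2‖ := by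
    intro i
    have hc : Continuous fun s => (flow Φ ε s Z i).2 :=
      continuous_snd.comp ((continuous_apply i).comp (flow_continuous_time hΦ hε Z))
    exact hc.norm.measurable.ennreal_ofReal
  calc ∑ i, ENNReal.ofReal ‖(flow Φ ε t Z i).1 - (Z i).1‖
      ≤ ∑ i, ∫⁻ s in Ioc 0 t, ENNReal.ofReal ‖(flow Φ ε s Z i).2‖ :=
        Finset.sum_le_sum fun i _ => disp_le hΦ hε hZ ht i
    _ = ∫⁻ s in Ioc 0 t, ∑ i, ENNReal.ofReal ‖(flow Φ ε s Z i).2‖ :=
        (lintegral_finsetSum _ fun i _ => hm i).symm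
    _ ≤ ∫⁻ _s in Ioc 0 t, (2 * ENNReal.ofReal (1 + 2 * stabB Φ) *
        ∑ i, ENNReal.ofReal (1 + ‖(Z i).2‖ ^ 2)) := by
        refine lintegral_mono fun s => ?_
        refine le_trans (Finset.sum_le_sum fun i _ => ENNReal.ofReal_le_ofReal ?_)
          (speed_flow_le hΦ hε hZ s)
        linarith
    _ = _ := by
        rw [setLIntegral_const, Real.volume_Ioc, sub_zero, mul_comm]

theorem far_le (hΦ : AdmissiblePotential Φ) {f₀ : PhasePoint → ℝ} (hf : Measurable f₀)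
    (h1 : ∫⁻ z, ENNReal.ofReal (f₀ z) ≤ 1) (hε : 0 < ε) {t : ℝ} (ht : 0 ≤ t) {R : ℝ} (hR : 0 < R) :
    gcE f₀ ε (fun n Z => (activity ε)⁻¹ * ∑ i : Fin n,
        if 2 * R < ‖(flow Φ ε t Z i).1‖ then (1 : ℝ≥0∞) else 0) ≤
      (∫⁻ z : PhasePoint, ENNReal.ofReal (f₀ z) * (if R < ‖z.1‖ then 1 else 0)) +
        ENNReal.ofReal (t / R) * (2 * ENNReal.ofReal (1 + 2 * stabB Φ) *
          ∫⁻ z : PhasePoint, ENNReal.ofReal (f₀ z) * ENNReal.ofReal (1 + ‖z.2‖ ^ 2)) := by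
  have ha0 : activity ε ≠ 0 := by
    unfold activity
    exact (ENNReal.ofReal_pos.2 (by positivity)).ne'
  have hat : activity ε ≠ ∞ := by
    unfold activity
    exact ENNReal.ofReal_ne_top
  set c : ℝ≥0∞ := ENNReal.ofReal (t / R) * (2 * ENNReal.ofReal (1 + 2 * stabB Φ)) with hc
  have hcfin : c ≠ ∞ := ENNReal.mul_ne_top ENNReal.ofReal_ne_top
    (ENNReal.mul_ne_top (by simp) ENNReal.ofReal_ne_top)
  have hg1 : Measurable fun z : PhasePoint => if R < ‖z.1‖ then (1 : ℝ≥0∞) else 0 :=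
    Measurable.ite (measurableSet_lt measurable_const measurable_fst.norm) measurable_const
      measurable_const
  have hg2 : Measurable fun z : PhasePoint => ENNReal.ofReal (1 + ‖z.2‖ ^ 2) := by fun_prop
  have hpt : ∀ (n : ℕ), ∀ Z ∈ PairExcluded ε n, (activity ε)⁻¹ * ∑ i : Fin n,
      (if 2 * R < ‖(flow Φ ε t Z i).1‖ then (1 : ℝ≥0∞) else 0) ≤
      (activity ε)⁻¹ * (∑ i : Fin n, (if R < ‖(Z i).1‖ then (1 : ℝ≥0∞) else 0)) +
        (activity ε)⁻¹ * (c * ∑ i : Fin n, ENNReal.ofReal (1 + ‖(Z i).2‖ ^ 2)) := by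
    intro n Z hZ
    rw [← mul_add]
    gcongr
    have h2 : ∀ i : Fin n, (if 2 * R < ‖(flow Φ ε t Z i).1‖ then (1 : ℝ≥0∞) else 0) ≤
        (if R < ‖(Z i).1‖ then (1 : ℝ≥0∞) else 0) +
          ENNReal.ofReal (1 / R) * ENNReal.ofReal ‖(flow Φ ε t Z i).1 - (Z i).1‖ := by
      intro i
      by_cases ha : 2 * R < ‖(flow Φ ε t Z i).1‖
      · rw [if_pos ha]
        by_cases hb : R < ‖(Z i).1‖
        · rw [if_pos hb]; exact le_self_add
        · rw [if_neg hb, zero_add, ← ENNReal.ofReal_mul (by positivity), ← ENNReal.ofReal_one]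
          refine ENNReal.ofReal_le_ofReal ?_
          have h3 : ‖(flow Φ ε t Z i).1‖ ≤ ‖(flow Φ ε t Z i).1 - (Z i).1‖ + ‖(Z i).1‖ := by
            have := norm_add_le ((flow Φ ε t Z i).1 - (Z i).1) (Z i).1
            rwa [sub_add_cancel] at this
          rw [div_mul_eq_mul_div, le_div_iff₀ hR]
          linarith [not_lt.1 hb]
      · rw [if_neg ha]; exact bot_le
    refine (Finset.sum_le_sum fun i _ => h2 i).trans ?_
    rw [Finset.sum_add_distrib, ← Finset.mul_sum]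
    refine add_le_add le_rfl ?_
    calc ENNReal.ofReal (1 / R) * ∑ i, ENNReal.ofReal ‖(flow Φ ε t Z i).1 - (Z i).1‖
        ≤ ENNReal.ofReal (1 / R) * (ENNReal.ofReal t * (2 * ENNReal.ofReal (1 + 2 * stabB Φ) *
          ∑ i, ENNReal.ofReal (1 + ‖(Z i).2‖ ^ 2))) := by
          gcongr
          exact sum_disp_le hΦ hε hZ ht
      _ = c * ∑ i, ENNReal.ofReal (1 + ‖(Z i).2‖ ^ 2) := by
          rw [hc]
          have : ENNReal.ofReal (t / R) = ENNReal.ofReal (1 / R) * ENNReal.ofReal t := by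
            rw [← ENNReal.ofReal_mul (by positivity)]
            congr 1; ring
          rw [this]; ring
  refine (gcE_mono f₀ ε hpt).trans ?_
  rw [gcE_add hf ε (F := fun n Z => (activity ε)⁻¹ * ∑ i : Fin n,
      (if R < ‖(Z i).1‖ then (1 : ℝ≥0∞) else 0))
    (fun n => (Finset.measurable_fun_sum _ fun i _ => hg1.comp (measurable_pi_apply i)).const_mul _)]
  have hinv : (activity ε)⁻¹ ≠ ∞ := ENNReal.inv_ne_top.2 ha0
  refine add_le_add ?_ ?_
  · rw [gcE_const_mul f₀ ε hinv (fun n Z => ∑ i : Fin n, (if R < ‖(Z i).1‖ then (1 : ℝ≥0∞) else 0))]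
    calc _ ≤ (activity ε)⁻¹ * (activity ε *
          ∫⁻ z : PhasePoint, ENNReal.ofReal (f₀ z) * (if R < ‖z.1‖ then 1 else 0)) := by
          gcongr
          exact gcE_sum_le hf h1 ε _ hg1
      _ = _ := by rw [← mul_assoc, ENNReal.inv_mul_cancel ha0 hat, one_mul]
  · rw [gcE_const_mul f₀ ε hinv (fun n Z => c * ∑ i : Fin n, ENNReal.ofReal (1 + ‖(Z i).2‖ ^ 2)),
      gcE_const_mul f₀ ε hcfin (fun n Z => ∑ i : Fin n, ENNReal.ofReal (1 + ‖(Z i).2‖ ^ 2))]
    calc _ ≤ (activity ε)⁻¹ * (c * (activity ε *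
          ∫⁻ z : PhasePoint, ENNReal.ofReal (f₀ z) * ENNReal.ofReal (1 + ‖z.2‖ ^ 2))) := by
          gcongr
          exact gcE_sum_le hf h1 ε _ hg2
      _ = c * ∫⁻ z : PhasePoint, ENNReal.ofReal (f₀ z) * ENNReal.ofReal (1 + ‖z.2‖ ^ 2) := by
          rw [mul_left_comm c, ← mul_assoc, ENNReal.inv_mul_cancel ha0 hat, one_mul]
      _ = _ := by rw [hc]; ring

/-- **Tightness in position**, uniformly in `ε > 0` and `t ∈ [0, T]`. -/
theorem exists_far_le (hΦ : AdmissiblePotential Φ) {f₀ : PhasePoint → ℝ} (hf : Measurable f₀)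
    (h1 : ∫⁻ z, ENNReal.ofReal (f₀ z) ≤ 1) {γ : ℝ} (hγ : 0 < γ)
    (hb : HasSummableGaussianBound γ (fun x v => f₀ (x, v))) (T : ℝ) {δ : ℝ≥0∞} (hδ : 0 < δ) :
    ∃ R : ℝ, 0 < R ∧ ∀ ε : ℝ, 0 < ε → ∀ t ∈ Icc 0 T,
      gcE f₀ ε (fun n Z => (activity ε)⁻¹ * ∑ i : Fin n,
        if R < ‖(flow Φ ε t Z i).1‖ then (1 : ℝ≥0∞) else 0) ≤ δ := by
  obtain ⟨hM, -⟩ := lintegral_f0_weight_ne_top hγ hb
  set M := ∫⁻ z : PhasePoint, ENNReal.ofReal (f₀ z) * ENNReal.ofReal (1 + ‖z.2‖ ^ 2) with hMdef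
  set K : ℝ≥0∞ := 2 * ENNReal.ofReal (1 + 2 * stabB Φ) * M with hK
  have hKfin : K ≠ ∞ := ENNReal.mul_ne_top (ENNReal.mul_ne_top (by simp) ENNReal.ofReal_ne_top) hM
  have hfin : ∫⁻ z, ENNReal.ofReal (f₀ z) ≠ ∞ := ne_top_of_le_ne_top ENNReal.one_ne_top h1
  have hlim1 : Filter.Tendsto (fun N : ℕ => ∫⁻ z : PhasePoint, ENNReal.ofReal (f₀ z) *
      (if (N : ℝ) + 1 < ‖z.1‖ then 1 else 0)) Filter.atTop (nhds 0) := by
    suffices hs : Filter.Tendsto (fun N : ℕ => ∫⁻ z : PhasePoint, ENNReal.ofReal (f₀ z) *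
        (if (N : ℝ) + 1 < ‖z.1‖ then 1 else 0)) Filter.atTop
        (nhds (∫⁻ _z : PhasePoint, (0 : ℝ≥0∞))) by
      rw [lintegral_zero] at hs
      exact hs
    refine tendsto_lintegral_of_dominated_convergence (F := fun (N : ℕ) (z : PhasePoint) =>
      ENNReal.ofReal (f₀ z) * (if (N : ℝ) + 1 < ‖z.1‖ then 1 else 0)) (f := fun _ => 0)
      (fun z => ENNReal.ofReal (f₀ z)) ?_ ?_ hfin ?_
    · intro N
      exact hf.ennreal_ofReal.mul (Measurable.ite
        (measurableSet_lt measurable_const measurable_fst.norm) measurable_const measurable_const)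
    · intro N
      refine Filter.Eventually.of_forall fun z => ?_
      show ENNReal.ofReal (f₀ z) * (if (N : ℝ) + 1 < ‖z.1‖ then 1 else 0) ≤ ENNReal.ofReal (f₀ z)
      split_ifs
      · rw [mul_one]
      · rw [mul_zero]; exact bot_le
    · refine Filter.Eventually.of_forall fun z => ?_
      refine Filter.Tendsto.congr' ?_ tendsto_const_nhds
      obtain ⟨N0, hN0⟩ := exists_nat_gt ‖z.1‖
      filter_upwards [Filter.eventually_ge_atTop N0] with N hN
      rw [if_neg, mul_zero]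
      rw [not_lt]
      have : (N0 : ℝ) ≤ N := by exact_mod_cast hN
      linarith
  have hlim2 : Filter.Tendsto (fun N : ℕ => ENNReal.ofReal (T / ((N : ℝ) + 1)) * K) Filter.atTop
      (nhds 0) := by
    have h3 : Filter.Tendsto (fun N : ℕ => T / ((N : ℝ) + 1)) Filter.atTop (nhds 0) := by
      have := (tendsto_one_div_add_atTop_nhds_zero_nat (𝕜 := ℝ)).const_mul T
      rw [mul_zero] at this
      refine this.congr fun N => ?_
      ring
    have h4 := (ENNReal.continuous_ofReal.tendsto _).comp h3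
    rw [ENNReal.ofReal_zero] at h4
    have h5 := ENNReal.Tendsto.mul_const (b := K) h4 (Or.inr hKfin)
    rw [zero_mul] at h5
    exact h5
  have hlim := hlim1.add hlim2
  rw [add_zero] at hlim
  obtain ⟨N, hN⟩ := ((hlim.eventually (gt_mem_nhds hδ))).exists
  refine ⟨2 * ((N : ℝ) + 1), by positivity, fun ε hε t ht => ?_⟩
  refine (far_le hΦ hf h1 hε ht.1 (R := (N : ℝ) + 1) (by positivity)).trans ?_
  refine le_trans (add_le_add le_rfl ?_) hN.le
  rw [hK]
  gcongr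
  exact ht.2

end Crest.Agent.R122.Tight974
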