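import Crest.Agent.R122.Sweep_815
import Crest.Agent.R122.Tight_974
import Crest.Agent.R122.CausalMeas_291
import Crest.Agent.R122.Pair1_292
import Crest.Agent.R122.EBasic_602
import Crest.Agent.R122.LN2Dom_473

/-!
# Row 122, LN2 (helper494): a free line near the gas, averaged over translations

* `Near Φ ε R te w l` : the free line `l`, after its birth and before `te`, is within `R ε` of a particle
  of the gas `w` (moving with its own flow).
* `nearN` : measurable majorant (indicator of a measurable set).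
* `near_le` : `∫ da E_w nearN (w, l + a) ≤ C (1 + |v|)`, uniformly in `ε ≤ 1`.
-/

set_option autoImplicit false

open MeasureTheory Set
open scoped ENNReal
open Crest.AnalysisR.Kinetic

noncomputable section

namespace Crest.Agent.R122.TouchFlux494

open Crest.Agent.R122.GC311 Crest.Agent.R122.Flow671 Crest.Agent.R122.Loc45
open Crest.Agent.R122.Energy410 Crest.Agent.R122.Causal291 Crest.Agent.R122.EDefs602
open Crest.Agent.R122.Mom974 Crest.Agent.R122.Tight974 Crest.Agent.R122.Sweep815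
open Crest.Agent.R122.Boost969 (LSt posAt)
open Crest.Agent.R122.EBasic602
open Crest.Agent.R122.Pair292 (shL)

variable {Φ : Space3 → ℝ} {f₀ : PhasePoint → ℝ} {ε R te : ℝ}

/-- The free line `l` is, at some time of `[birth, te]`, within `R ε` of a particle of the gas. -/
def Near (Φ : Space3 → ℝ) (ε R te : ℝ) {n : ℕ} (w : Config n) (l : LSt) : Prop :=
  ∃ i : Fin n, ∃ s ∈ Icc l.1 te, dist (posAt s l) ((MW.cfg w).path Φ ε s i).1 ≤ R * ε

/-- The same with the flow of the gas. -/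
def nearS (Φ : Space3 → ℝ) (ε R te : ℝ) (n : ℕ) : Set (Config n × LSt) :=
  {q | ∃ i : Fin n, ∃ s ∈ Icc q.2.1 te, dist (posAt s q.2) (flow Φ ε s q.1 i).1 ≤ R * ε}

/-- Measurable majorant. -/
def nearN (Φ : Space3 → ℝ) (ε R te : ℝ) (n : ℕ) : Config n × LSt → ℝ≥0∞ :=
  (nearS Φ ε R te n).indicator 1

theorem near_iff (hΦ : AdmissiblePotential Φ) (hε : 0 < ε) {n : ℕ} (w : Config n) (l : LSt) :
    Near Φ ε R te w l ↔ (w, l) ∈ nearS Φ ε R te n := by
  unfold Near nearS
  rw [cfg_path hΦ hε]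
  rfl

theorem continuous_pos (hΦ : AdmissiblePotential Φ) (hε : 0 < ε) {n : ℕ} (w : Config n) (i : Fin n) :
    Continuous fun s => (flow Φ ε s w i).1 :=
  ((continuous_apply i).comp (flow_continuous_time hΦ hε w)).fst

theorem continuous_vel (hΦ : AdmissiblePotential Φ) (hε : 0 < ε) {n : ℕ} (w : Config n) (i : Fin n) :
    Continuous fun s => (flow Φ ε s w i).2 :=
  ((continuous_apply i).comp (flow_continuous_time hΦ hε w)).snd

theorem measurableSet_nearS (hΦ : AdmissiblePotential Φ) (hε : 0 < ε) (R te : ℝ) (n : ℕ) :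
    MeasurableSet (nearS Φ ε R te n) := by
  have h : nearS Φ ε R te n = ⋃ i : Fin n, {q : Config n × LSt | ∃ s ∈ Icc q.2.1 te,
      dist (posAt s q.2) (flow Φ ε s q.1 i).1 ≤ R * ε} := by
    ext q
    simp only [nearS, mem_ofPred_eq, mem_iUnion]
  rw [h]
  refine MeasurableSet.iUnion fun i => ?_
  refine measurableSet_exists_Icc (α := fun q : Config n × LSt => q.2.1)
    (β := fun _ => te) measurable_snd.fst measurable_const
    (g := fun q s => dist (posAt s q.2) (flow Φ ε s q.1 i).1) (fun q => ?_) (fun s => ?_) (R * ε)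
  · have h1 := continuous_pos hΦ hε q.1 i
    unfold posAt
    fun_prop
  · have h1 : Measurable fun q : Config n × LSt => (flow Φ ε s q.1 i).1 :=
      ((measurable_pi_apply i).comp ((measurable_flow hΦ hε s).comp measurable_fst)).fst
    have h2 : Measurable fun q : Config n × LSt => posAt s q.2 := by
      unfold posAt
      fun_prop
    exact h2.dist h1

theorem measurable_nearN (hΦ : AdmissiblePotential Φ) (hε : 0 < ε) (R te : ℝ) (n : ℕ) :
    Measurable (nearN Φ ε R te n) :=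
  measurable_const.indicator (measurableSet_nearS hΦ hε R te n)

/-- (S1) -/
theorem one_le_nearN (hΦ : AdmissiblePotential Φ) (hε : 0 < ε) {n : ℕ} {w : Config n} {l : LSt}
    (h : Near Φ ε R te w l) : 1 ≤ nearN Φ ε R te n (w, l) := by
  unfold nearN
  rw [indicator_of_mem ((near_iff hΦ hε w l).1 h)]
  rfl

theorem nearN_le_one {n : ℕ} (q : Config n × LSt) : nearN Φ ε R te n q ≤ 1 := by
  unfold nearN
  exact indicator_apply_le' (fun _ => le_rfl) (fun _ => zero_le_one)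

theorem nearS_mono {R' te' : ℝ} (hε : 0 ≤ ε) (hR : R ≤ R') (ht : te ≤ te') (n : ℕ) :
    nearS Φ ε R te n ⊆ nearS Φ ε R' te' n := by
  rintro q ⟨i, s, hs, h⟩
  exact ⟨i, s, ⟨hs.1, hs.2.trans ht⟩, h.trans (mul_le_mul_of_nonneg_right hR hε)⟩

theorem nearN_mono {R' te' : ℝ} (hε : 0 ≤ ε) (hR : R ≤ R') (ht : te ≤ te') (n : ℕ)
    (q : Config n × LSt) : nearN Φ ε R te n q ≤ nearN Φ ε R' te' n q := by
  unfold nearN
  exact indicator_le_indicator_of_subset (nearS_mono hε hR ht n) (fun _ => zero_le) q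

theorem Near.mono {R' te' : ℝ} (hε : 0 ≤ ε) (hR : R ≤ R') (ht : te ≤ te') {n : ℕ} {w : Config n}
    {l : LSt} (h : Near Φ ε R te w l) : Near Φ ε R' te' w l := by
  obtain ⟨i, s, hs, h⟩ := h
  exact ⟨i, s, ⟨hs.1, hs.2.trans ht⟩, h.trans (mul_le_mul_of_nonneg_right hR hε)⟩

/-- Total number and energy at time `0`. -/
def kin (n : ℕ) (w : Config n) : ℝ≥0∞ := ∑ i : Fin n, ENNReal.ofReal (1 + ‖(w i).2‖ ^ 2)

/-- Volume of the translations of a free line which come near the gas: sweep. -/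
theorem volume_near_le (hΦ : AdmissiblePotential Φ) (hε : 0 < ε) {r : ℝ} (hr : 0 < r) {n : ℕ}
    {w : Config n} (hw : w ∈ PairExcluded ε n) (l : LSt) (te : ℝ) :
    volume {a : Space3 | ∃ i : Fin n, ∃ s ∈ Icc l.1 te,
        dist (posAt s (shL a l)) (flow Φ ε s w i).1 ≤ r} ≤
      8 * ENNReal.ofReal r ^ 2 * c3 * (ENNReal.ofReal r + ENNReal.ofReal (te - l.1) *
        (ENNReal.ofReal (1 + ‖l.2.2‖) * (2 * ENNReal.ofReal (1 + 2 * stabB Φ)))) * kin n w := by
  have hw' : ∀ i j : Fin n, i ≠ j → ε ≤ dist (w i).1 (w j).1 := fun i j hij => (hw i j hij).le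
  have hZ : w ∈ Dom Φ (Fin n) := Dom_of_far hε hw'
  have hd : ∀ i s, HasDerivAt (fun s => (flow Φ ε s w i).1) (flow Φ ε s w i).2 s := by
    intro i s
    have h1 := (hasDerivAt_pi.1 (flow_hasDerivAt hΦ hε hZ s)) i
    exact h1.fst
  have hr0 : ENNReal.ofReal r ≠ 0 := (ENNReal.ofReal_pos.2 hr).ne'
  have hrt : ENNReal.ofReal r ≠ ∞ := ENNReal.ofReal_ne_top
  set A : ℝ≥0∞ := 8 * ENNReal.ofReal r ^ 2 * c3 with hA
  have h2r : ENNReal.ofReal (2 * r) ^ 3 = 8 * ENNReal.ofReal r ^ 3 := by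
    rw [ENNReal.ofReal_mul (by norm_num), mul_pow, ENNReal.ofReal_ofNat]
    norm_num
  have e1 : ENNReal.ofReal (2 * r) ^ 3 * c3 = A * ENNReal.ofReal r := by
    rw [h2r, hA]; ring
  have e2 : (ENNReal.ofReal r)⁻¹ * (ENNReal.ofReal (2 * r) ^ 3 * c3) = A := by
    rw [e1, mul_comm A, ← mul_assoc, ENNReal.inv_mul_cancel hr0 hrt, one_mul]
  have hone : ∀ i : Fin n, volume {a : Space3 | ∃ s ∈ Icc l.1 te,
      dist (posAt s (shL a l)) (flow Φ ε s w i).1 ≤ r} ≤
      A * ENNReal.ofReal r + A * ∫⁻ u in Icc l.1 te, ENNReal.ofReal ‖l.2.2 - (flow Φ ε u w i).2‖ := by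
    intro i
    have h := volume_translate_le (a := l.1) (b := te) hr
      (γ := fun s => l.2.1 + (s - l.1) • l.2.2) (y := fun s => (flow Φ ε s w i).1)
      (γ' := fun _ => l.2.2) (y' := fun s => (flow Φ ε s w i).2)
      (fun s _ => by
        have h1 : HasDerivAt (fun s : ℝ => (s - l.1) • l.2.2) ((1 : ℝ) • l.2.2) s :=
          ((hasDerivAt_id s).sub_const l.1).smul_const l.2.2
        rw [one_smul] at h1
        exact h1.const_add l.2.1)
      (fun s _ => hd i s) continuous_const (continuous_vel hΦ hε w i)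
      (by fun_prop) (continuous_pos hΦ hε w i)
    rw [e2, e1] at h
    refine le_trans (measure_mono ?_) h
    rintro a ⟨s, hs, hds⟩
    refine ⟨s, hs, ?_⟩
    have : a + (l.2.1 + (s - l.1) • l.2.2) = posAt s (shL a l) := by
      unfold posAt shL
      simp only
      abel
    rw [this]
    exact hds
  have hcov : {a : Space3 | ∃ i : Fin n, ∃ s ∈ Icc l.1 te,
        dist (posAt s (shL a l)) (flow Φ ε s w i).1 ≤ r} = ⋃ i : Fin n, {a : Space3 | ∃ s ∈ Icc l.1 te,
        dist (posAt s (shL a l)) (flow Φ ε s w i).1 ≤ r} := by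
    ext a
    simp only [mem_ofPred_eq, mem_iUnion]
  have hkin1 : ∑ _i : Fin n, (1 : ℝ≥0∞) ≤ kin n w := by
    unfold kin
    refine Finset.sum_le_sum fun i _ => ?_
    rw [← ENNReal.ofReal_one]
    exact ENNReal.ofReal_le_ofReal (by nlinarith [sq_nonneg ‖(w i).2‖])
  have hsp : ∀ u : ℝ, ∑ i : Fin n, ENNReal.ofReal ‖l.2.2 - (flow Φ ε u w i).2‖ ≤
      ENNReal.ofReal (1 + ‖l.2.2‖) * (2 * ENNReal.ofReal (1 + 2 * stabB Φ)) * kin n w := by
    intro u
    calc ∑ i : Fin n, ENNReal.ofReal ‖l.2.2 - (flow Φ ε u w i).2‖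
        ≤ ∑ i : Fin n, ENNReal.ofReal (1 + ‖l.2.2‖) * ENNReal.ofReal (1 + ‖(flow Φ ε u w i).2‖) := by
          refine Finset.sum_le_sum fun i _ => ?_
          rw [← ENNReal.ofReal_mul (by positivity)]
          refine ENNReal.ofReal_le_ofReal ?_
          have h1 := norm_sub_le l.2.2 (flow Φ ε u w i).2
          have h2 := norm_nonneg l.2.2
          have h3 := norm_nonneg (flow Φ ε u w i).2
          nlinarith [mul_nonneg h2 h3]
      _ = ENNReal.ofReal (1 + ‖l.2.2‖) * ∑ i : Fin n, ENNReal.ofReal (1 + ‖(flow Φ ε u w i).2‖) := by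
          rw [Finset.mul_sum]
      _ ≤ ENNReal.ofReal (1 + ‖l.2.2‖) * (2 * ENNReal.ofReal (1 + 2 * stabB Φ) *
            ∑ i, ENNReal.ofReal (1 + ‖(w i).2‖ ^ 2)) :=
          mul_le_mul_right (speed_flow_le hΦ hε hw u) _
      _ = _ := by unfold kin; ring
  rw [hcov]
  calc volume (⋃ i : Fin n, {a : Space3 | ∃ s ∈ Icc l.1 te,
        dist (posAt s (shL a l)) (flow Φ ε s w i).1 ≤ r})
      ≤ ∑ i : Fin n, volume {a : Space3 | ∃ s ∈ Icc l.1 te,
        dist (posAt s (shL a l)) (flow Φ ε s w i).1 ≤ r} := measure_iUnion_fintype_le _ _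
    _ ≤ ∑ i : Fin n, (A * ENNReal.ofReal r +
        A * ∫⁻ u in Icc l.1 te, ENNReal.ofReal ‖l.2.2 - (flow Φ ε u w i).2‖) :=
        Finset.sum_le_sum fun i _ => hone i
    _ = A * ENNReal.ofReal r * ∑ _i : Fin n, (1 : ℝ≥0∞) +
        A * ∫⁻ u in Icc l.1 te, ∑ i : Fin n, ENNReal.ofReal ‖l.2.2 - (flow Φ ε u w i).2‖ := by
        have e3 : ∫⁻ u in Icc l.1 te, ∑ i : Fin n, ENNReal.ofReal ‖l.2.2 - (flow Φ ε u w i).2‖ =
            ∑ i : Fin n, ∫⁻ u in Icc l.1 te, ENNReal.ofReal ‖l.2.2 - (flow Φ ε u w i).2‖ :=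
          lintegral_finsetSum _ fun i _ =>
            ((continuous_const.sub (continuous_vel hΦ hε w i)).norm.measurable).ennreal_ofReal
        rw [e3, Finset.sum_add_distrib, Finset.mul_sum, Finset.mul_sum]
        simp only [mul_one]
    _ ≤ A * ENNReal.ofReal r * kin n w +
        A * ∫⁻ _u in Icc l.1 te, ENNReal.ofReal (1 + ‖l.2.2‖) *
          (2 * ENNReal.ofReal (1 + 2 * stabB Φ)) * kin n w :=
        add_le_add (mul_le_mul_right hkin1 _) (mul_le_mul_right (lintegral_mono fun u => hsp u) _)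
    _ = _ := by
        rw [setLIntegral_const, Real.volume_Icc]
        ring

/-- (S2), pointwise in the gas. -/
theorem lintegral_nearN_le (hΦ : AdmissiblePotential Φ) (hε : 0 < ε) (hR : 0 < R) {n : ℕ}
    {w : Config n} (hw : w ∈ PairExcluded ε n) (l : LSt) (te : ℝ) :
    ∫⁻ a : Space3, nearN Φ ε R te n (w, shL a l) ≤
      8 * ENNReal.ofReal (R * ε) ^ 2 * c3 * (ENNReal.ofReal (R * ε) + ENNReal.ofReal (te - l.1) *
        (ENNReal.ofReal (1 + ‖l.2.2‖) * (2 * ENNReal.ofReal (1 + 2 * stabB Φ)))) * kin n w := by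
  refine le_trans (le_of_eq ?_) (volume_near_le hΦ hε (mul_pos hR hε) hw l te)
  have hm : MeasurableSet {a : Space3 | (w, shL a l) ∈ nearS Φ ε R te n} := by
    have h1 : Measurable fun a : Space3 => (w, shL a l) := by
      unfold shL
      fun_prop
    exact h1 (measurableSet_nearS hΦ hε R te n)
  have e : (fun a : Space3 => nearN Φ ε R te n (w, shL a l)) =
      {a : Space3 | (w, shL a l) ∈ nearS Φ ε R te n}.indicator 1 := by
    funext a
    simp only [nearN, indicator, mem_ofPred_eq, Pi.one_apply]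
  rw [e, lintegral_indicator_one hm]
  rfl

theorem ofReal_sq_mul_activity (hε : 0 < ε) : ENNReal.ofReal (ε ^ 2) * activity ε = 1 := by
  unfold activity
  rw [← ENNReal.ofReal_mul (by positivity), ← ENNReal.ofReal_one]
  congr 1
  first
    | (field_simp)
    | (rw [zpow_neg, mul_inv_cancel₀ (by positivity)])

/-- (S2) **A free line near the gas, averaged over translations**: `O(1 + |v|)`, uniformly in `ε`. -/
theorem near_le (hΦ : AdmissiblePotential Φ) (hf : Measurable f₀)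
    (h1 : ∫⁻ z, ENNReal.ofReal (f₀ z) ≤ 1)
    (h2 : ∫⁻ z, ENNReal.ofReal (f₀ z) * ENNReal.ofReal (1 + ‖z.2‖ ^ 2) ≠ ∞) (T R : ℝ) :
    ∃ C : ℝ≥0∞, C ≠ ∞ ∧ ∀ ε : ℝ, 0 < ε → ε ≤ 1 → ∀ te : ℝ, te ≤ T → ∀ l : LSt, 0 ≤ l.1 →
      ∫⁻ a : Space3, gcE f₀ ε (fun n w => nearN Φ ε R te n (w, shL a l)) ≤
        C * ENNReal.ofReal (1 + ‖l.2.2‖) := by
  set R' : ℝ := max R 1 with hR'
  have hR1 : 1 ≤ R' := le_max_right _ _
  have hR0 : 0 < R' := by linarith
  set M : ℝ≥0∞ := ∫⁻ z, ENNReal.ofReal (f₀ z) * ENNReal.ofReal (1 + ‖z.2‖ ^ 2) with hM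
  set D : ℝ≥0∞ := 8 * ENNReal.ofReal R' ^ 2 * c3 * (ENNReal.ofReal R' + ENNReal.ofReal T *
    (2 * ENNReal.ofReal (1 + 2 * stabB Φ))) with hD
  have hc3 : c3 ≠ ∞ := by
    unfold c3
    exact ENNReal.ofReal_ne_top
  have hDt : D ≠ ∞ := by
    refine ENNReal.mul_ne_top (ENNReal.mul_ne_top (ENNReal.mul_ne_top (by simp)
      (ENNReal.pow_ne_top ENNReal.ofReal_ne_top)) hc3) (ENNReal.add_ne_top.2
      ⟨ENNReal.ofReal_ne_top, ENNReal.mul_ne_top ENNReal.ofReal_ne_top
        (ENNReal.mul_ne_top (by simp) ENNReal.ofReal_ne_top)⟩)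
  refine ⟨D * M, ENNReal.mul_ne_top hDt h2, ?_⟩
  intro ε hε hε1 te hte l hl
  have hshift : ∀ n, Measurable (Function.uncurry fun (a : Space3) (w : Config n) =>
      nearN Φ ε R te n (w, shL a l)) := by
    intro n
    have h3 : Measurable fun p : Space3 × Config n => (p.2, shL p.1 l) := by
      unfold shL
      fun_prop
    exact (measurable_nearN hΦ hε R te n).comp h3
  rw [LN2.lintegral_gcE_swap hf ε volume
    (F := fun n (a : Space3) (w : Config n) => nearN Φ ε R te n (w, shL a l)) hshift]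
  set E : ℝ≥0∞ := ENNReal.ofReal (ε ^ 2) * (D * ENNReal.ofReal (1 + ‖l.2.2‖)) with hE
  have hEt : E ≠ ∞ := ENNReal.mul_ne_top ENNReal.ofReal_ne_top
    (ENNReal.mul_ne_top hDt ENNReal.ofReal_ne_top)
  have hpt : ∀ n, ∀ w ∈ PairExcluded ε n,
      ∫⁻ a : Space3, nearN Φ ε R te n (w, shL a l) ≤ E * kin n w := by
    intro n w hw
    refine (lintegral_mono fun a => nearN_mono hε.le (le_max_left R 1) le_rfl n _).trans ?_
    refine (lintegral_nearN_le hΦ hε hR0 hw l te).trans ?_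
    refine mul_le_mul_left ?_ _
    have hv1 : (1 : ℝ≥0∞) ≤ ENNReal.ofReal (1 + ‖l.2.2‖) := by
      rw [← ENNReal.ofReal_one]
      exact ENNReal.ofReal_le_ofReal (by linarith [norm_nonneg l.2.2])
    have hRe : ENNReal.ofReal (R' * ε) ≤ ENNReal.ofReal R' :=
      ENNReal.ofReal_le_ofReal (by nlinarith)
    have hRe2 : ENNReal.ofReal (R' * ε) ^ 2 = ENNReal.ofReal (ε ^ 2) * ENNReal.ofReal R' ^ 2 := by
      rw [ENNReal.ofReal_mul hR0.le, mul_pow, ENNReal.ofReal_pow hε.le, mul_comm]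
    have hTt : ENNReal.ofReal (te - l.1) ≤ ENNReal.ofReal T :=
      ENNReal.ofReal_le_ofReal (by linarith)
    calc 8 * ENNReal.ofReal (R' * ε) ^ 2 * c3 * (ENNReal.ofReal (R' * ε) +
          ENNReal.ofReal (te - l.1) * (ENNReal.ofReal (1 + ‖l.2.2‖) *
            (2 * ENNReal.ofReal (1 + 2 * stabB Φ))))
        ≤ 8 * (ENNReal.ofReal (ε ^ 2) * ENNReal.ofReal R' ^ 2) * c3 *
          (ENNReal.ofReal R' * ENNReal.ofReal (1 + ‖l.2.2‖) +
          ENNReal.ofReal T * (ENNReal.ofReal (1 + ‖l.2.2‖) *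
            (2 * ENNReal.ofReal (1 + 2 * stabB Φ)))) := by
          rw [hRe2]
          refine mul_le_mul_right (add_le_add ?_ (mul_le_mul_left hTt _)) _
          calc ENNReal.ofReal (R' * ε) ≤ ENNReal.ofReal R' * 1 := by rw [mul_one]; exact hRe
            _ ≤ _ := mul_le_mul_right hv1 _
      _ = E := by rw [hE, hD]; ring
  refine (gcE_mono f₀ ε hpt).trans ?_
  rw [gcE_const_mul f₀ ε hEt (fun n w => kin n w)]
  have hk : gcE f₀ ε (fun n w => kin n w) ≤ activity ε * M :=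
    gcE_sum_le hf h1 ε _ (by fun_prop)
  calc E * gcE f₀ ε (fun n w => kin n w) ≤ E * (activity ε * M) := mul_le_mul_right hk _
    _ = (ENNReal.ofReal (ε ^ 2) * activity ε) * (D * M * ENNReal.ofReal (1 + ‖l.2.2‖)) := by
        rw [hE]; ring
    _ = _ := by rw [ofReal_sq_mul_activity hε, one_mul]

end Crest.Agent.R122.TouchFlux494

end
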