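import Crest.Agent.R122.LinkGate_424
import Crest.Agent.R122.LN2Inst2_473
import Crest.Agent.R122.TouchFlux_494
import Crest.Agent.R122.PairFlux_292
import Crest.Agent.R122.VLInstC_442

/-!
# Row 122, LN2 for structures which are not localised (helper473)

The structure measure `m` is translation invariant (no anchors). If the structure is close to the
gas (`Near` : one of its free lines comes within `R ε` of a particle of the gas, helper494), the
bad partitions are null, including those without any gas particle.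

* `badPart_shift` : bad partitions are translation invariant.
* `TInvS` : translation invariant structures.
* `touch_core` : `∫ dm E_w Near(w, d θ) 1[θ ∈ E] ≤ C ∫ dm χ (1 + |v_d|) 1[θ ∈ E]`.
* `gLe_badGas_touch` : the event `Near ∧ Bad` (one group, every label is an anchor) is null.
* `gNull_of_det_touch` : the gateway for structures which are not localised.
-/

set_option autoImplicit false
set_option linter.unusedSectionVars false

open MeasureTheory Set Filter Topology
open scoped Classical ENNReal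
open Crest.AnalysisR.Kinetic

noncomputable section

namespace Crest.Agent.R122.LN2

open Crest.Agent.R122.GC311 Crest.Agent.R122.Kin796 Crest.Agent.R122.EDefs602
open Crest.Agent.R122.VL581 Crest.Agent.R122.LinkGas473 Crest.Agent.R122.VLMeas973
open Crest.Agent.R122.Boost969 (LSt posAt)
open Crest.Agent.R122.Pair292 (shL)
open Crest.Agent.R122.TouchFlux494 Crest.Agent.R122.Gate424

/-! ## Translation invariance of bad partitions -/

section shift

variable {J κ' : Type} [Fintype J] {M : VSys J κ'}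

/-- Translation of all particles. -/
def shX (a : Space3) (Z : J → PhasePoint) : J → PhasePoint := fun j => Z j + (a, 0)

theorem shX_apply (a : Space3) (Z : J → PhasePoint) (j : J) :
    shX a Z j = ((Z j).1 + a, (Z j).2) := by
  unfold shX
  ext1 <;> simp

theorem tlp_shift (hΦ : AdmissiblePotential M.Φ) (hε : 0 < M.ε) (ho : ∀ i, M.o ≠ some i)
    {C ℓ ς : ℝ} {P : Finset J} {Z : J → PhasePoint} (a : Space3) :
    TLP M C ℓ ς P (shX a Z) ↔ TLP M C ℓ ς P Z := by
  unfold TLP shX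
  have h1 : (∀ A ⊆ P, M.ok A M.T (fun j => Z j + ((a, 0) : PhasePoint))) ↔
      ∀ A ⊆ P, M.ok A M.T Z :=
    forall_congr' fun A => forall_congr' fun _ => VLInst442.ok_vadd hΦ hε (a, 0)
  rw [h1]
  refine and_congr_right fun _ => exists_congr fun E => exists_congr fun σ =>
    and_congr_right fun _ => and_congr_right fun _ => and_congr_right fun _ =>
    and_congr_right fun _ => and_congr_right fun _ => ?_
  refine forall_congr' fun i => forall_congr' fun hi => forall_congr' fun j =>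
    forall_congr' fun hj => forall_congr' fun _ => forall_congr' fun t => forall_congr' fun _ => ?_
  rw [VLInst442.VCt_vadd hΦ hε (ho i) (ho j) (a, 0)]

/-- Bad partitions are translation invariant. -/
theorem badPart_shift (hΦ : AdmissiblePotential M.Φ) (hε : 0 < M.ε) (ho : ∀ i, M.o ≠ some i)
    {C ℓ ς : ℝ} {s : ℕ} {A : Finset J} {Z : J → PhasePoint} (a : Space3) :
    M.BadPart C ℓ ς s A (shX a Z) ↔ M.BadPart C ℓ ς s A Z := by
  have h1 : ∀ P, M.Conn C P (shX a Z) ↔ M.Conn C P Z := fun P =>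
    VLInst442.Conn_vadd hΦ hε (fun i _ => ho i) (a, 0)
  unfold VSys.BadPart
  simp only [h1, tlp_shift hΦ hε ho a]

/-- One part: the anchors do not matter. -/
theorem badPart_one {C ℓ ς : ℝ} {A A' : Finset J} {Z : J → PhasePoint} {x : J} (hx : x ∈ A')
    (h : M.BadPart C ℓ ς 1 A Z) : M.BadPart C ℓ ς 1 A' Z := by
  obtain ⟨π, h1, h2⟩ := h
  have hne : (Finset.univ : Finset J).Nonempty := ⟨x, Finset.mem_univ x⟩
  have hpos : 0 < π.parts.card := by
    rw [Finset.card_pos]
    exact π.parts_nonempty (by simpa using hne.ne_empty)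
  have hcard : π.parts.card = 1 := by
    rcases h2 with h2 | h2
    · omega
    · exact h2.1
  obtain ⟨Q, hQ⟩ := Finset.card_eq_one.1 hcard
  have hQu : Q = Finset.univ := by
    have h3 := π.sup_parts
    rw [hQ, Finset.sup_singleton, id] at h3
    exact h3
  refine ⟨π, fun P hP => ⟨(h1 P hP).1, x, ?_, hx⟩, h2⟩
  have : P = Q := by rw [hQ, Finset.mem_singleton] at hP; exact hP
  rw [this, hQu]
  exact Finset.mem_univ x

end shift

/-! ## Translation invariant structures -/

variable {f₀ : PhasePoint → ℝ} {Θ : Type} [MeasurableSpace Θ] {κ : Type} [Fintype κ]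

/-- Translation invariant structure data: action `Tr` of the translations, births `b`, states `z`,
a free line `d`. -/
structure TInvS (m : Measure Θ) (Tr : Space3 → Θ → Θ) (b : Θ → κ → ℝ) (z : Θ → κ → PhasePoint)
    (d : Θ → LSt) : Prop where
  mT : Measurable fun q : Space3 × Θ => Tr q.1 q.2
  inv : ∀ a, m.map (Tr a) = m
  mb : Measurable b
  mz : Measurable z
  md : Measurable d
  b_tr : ∀ a θ, b (Tr a θ) = b θ
  z_tr : ∀ a θ, z (Tr a θ) = shX a (z θ)
  d_tr : ∀ a θ, d (Tr a θ) = shL a (d θ)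

/-- A density with total mass one, bounded by one. -/
def chi : Space3 → ℝ≥0∞ := fun x =>
  (volume (Metric.closedBall (0 : Space3) 1))⁻¹ * (Metric.closedBall (0 : Space3) 1).indicator 1 x

theorem one_le_ball : 1 ≤ volume (Metric.closedBall (0 : Space3) 1) := by
  rw [Sweep815.vol_closedBall]
  simp only [ENNReal.ofReal_one, one_pow, one_mul]
  unfold Sweep815.c3
  rw [← ENNReal.ofReal_one]
  refine ENNReal.ofReal_le_ofReal ?_
  have := Real.pi_gt_three
  linarith

theorem measurable_chi : Measurable chi :=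
  (measurable_one.indicator Metric.isClosed_closedBall.measurableSet).const_mul _

theorem chi_le_one (x : Space3) : chi x ≤ 1 := by
  unfold chi
  calc (volume (Metric.closedBall (0 : Space3) 1))⁻¹ *
        (Metric.closedBall (0 : Space3) 1).indicator 1 x ≤ 1⁻¹ * 1 := by
        refine mul_le_mul' (ENNReal.inv_le_inv.2 one_le_ball) ?_
        exact indicator_apply_le' (fun _ => le_rfl) (fun _ => zero_le_one)
    _ = 1 := by simp

theorem lintegral_chi : ∫⁻ x, chi x = 1 := by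
  unfold chi
  rw [lintegral_const_mul _ (measurable_one.indicator Metric.isClosed_closedBall.measurableSet),
    lintegral_indicator_one Metric.isClosed_closedBall.measurableSet]
  refine ENNReal.inv_mul_cancel (one_le_ball.trans_lt' zero_lt_one).ne' ?_
  exact measure_closedBall_lt_top.ne

section transport

variable {m : Measure Θ} {Tr : Space3 → Θ → Θ} {b : Θ → κ → ℝ} {z : Θ → κ → PhasePoint}
  {d : Θ → LSt}

theorem TInvS.invFam [SFinite m] (h : TInvS m Tr b z d) (j₀ : κ) :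
    Pair292.InvFam Tr d (fun θ => (z θ j₀).1) m where
  sf := inferInstance
  mT := h.mT
  me := h.md
  mpos := ((measurable_pi_apply j₀).comp h.mz).fst
  eT := h.d_tr
  posT a θ := by rw [h.z_tr, shX_apply]
  inv := h.inv

/-- The structure is in the set `E` for most translations of the reference point. -/
def avE (z : Θ → κ → PhasePoint) (b : Θ → κ → ℝ) (j₀ : κ)
    (E : Set ((κ → ℝ) × (κ → PhasePoint))) (θ : Θ) : ℝ≥0∞ :=
  ∫⁻ a : Space3, chi ((z θ j₀).1 + a) * E.indicator 1 (b θ, shX a (z θ))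

theorem measurable_shX : Measurable fun q : Space3 × (κ → PhasePoint) => shX q.1 q.2 := by
  refine measurable_pi_iff.2 fun j => ?_
  have h1 : (fun q : Space3 × (κ → PhasePoint) => shX q.1 q.2 j) =
      fun q => (((q.2 j).1 + q.1, (q.2 j).2) : PhasePoint) := by
    funext q
    exact shX_apply _ _ _
  rw [h1]
  exact ((((measurable_pi_apply j).comp measurable_snd).fst).add measurable_fst).prodMk
    (((measurable_pi_apply j).comp measurable_snd).snd)

theorem measurable_avE {E : Set ((κ → ℝ) × (κ → PhasePoint))} (hE : MeasurableSet E)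
    (hb : Measurable b) (hz : Measurable z) (j₀ : κ) : Measurable (avE z b j₀ E) := by
  have h1 : Measurable fun q : Θ × Space3 => chi ((z q.1 j₀).1 + q.2) *
      E.indicator (1 : (κ → ℝ) × (κ → PhasePoint) → ℝ≥0∞) (b q.1, shX q.2 (z q.1)) := by
    refine Measurable.mul ?_ ?_
    · exact measurable_chi.comp
        ((((measurable_pi_apply j₀).comp (hz.comp measurable_fst)).fst).add measurable_snd)
    · refine (measurable_one.indicator hE).comp ?_
      exact (hb.comp measurable_fst).prodMk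
        (measurable_shX.comp (measurable_snd.prodMk (hz.comp measurable_fst)))
  exact h1.lintegral_prod_right'

/-- `avE` is translation invariant. -/
theorem TInvS.avE_tr (h : TInvS m Tr b z d) (j₀ : κ) (E : Set ((κ → ℝ) × (κ → PhasePoint)))
    (a : Space3) (θ : Θ) : avE z b j₀ E (Tr a θ) = avE z b j₀ E θ := by
  unfold avE
  rw [h.b_tr, h.z_tr]
  have h1 : ∀ a' : Space3, chi ((shX a (z θ) j₀).1 + a') *
      E.indicator (1 : (κ → ℝ) × (κ → PhasePoint) → ℝ≥0∞) (b θ, shX a' (shX a (z θ))) =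
      (fun c : Space3 => chi ((z θ j₀).1 + c) *
        E.indicator (1 : (κ → ℝ) × (κ → PhasePoint) → ℝ≥0∞) (b θ, shX c (z θ))) (a + a') := by
    intro a'
    have h2 : shX a' (shX a (z θ)) = shX (a + a') (z θ) := by
      funext j
      simp only [shX_apply]
      rw [add_assoc]
    simp only [h2, shX_apply, add_assoc]
  simp only [h1]
  exact lintegral_add_left_eq_self (fun c : Space3 => chi ((z θ j₀).1 + c) *
        E.indicator (1 : (κ → ℝ) × (κ → PhasePoint) → ℝ≥0∞) (b θ, shX c (z θ))) a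

/-- On structures all of whose translates are in `E`, `avE = 1`. -/
theorem avE_eq_one {E : Set ((κ → ℝ) × (κ → PhasePoint))} (j₀ : κ) {θ : Θ}
    (hE : ∀ a : Space3, (b θ, shX a (z θ)) ∈ E) : avE z b j₀ E θ = 1 := by
  unfold avE
  simp only [indicator_of_mem (hE _), Pi.one_apply, mul_one]
  rw [lintegral_add_left_eq_self (fun x => chi x), lintegral_chi]

/-- **Transport.** -/
theorem transport [SFinite m] (h : TInvS m Tr b z d) (j₀ : κ)
    {E : Set ((κ → ℝ) × (κ → PhasePoint))} (hE : MeasurableSet E) {g : LSt → ℝ≥0∞}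
    (hg : Measurable g) {W : LSt → ℝ≥0∞} (hW : Measurable W) (hWs : ∀ a l, W (shL a l) = W l)
    (hgW : ∀ᵐ θ ∂m, ∫⁻ a : Space3, g (shL a (d θ)) ≤ W (d θ)) :
    ∫⁻ θ, g (d θ) * avE z b j₀ E θ ∂m ≤
      ∫⁻ θ, W (d θ) * (chi (z θ j₀).1 * E.indicator 1 (b θ, z θ)) ∂m := by
  have hI := h.invFam j₀
  have hav := measurable_avE (b := b) (z := z) hE h.mb h.mz j₀
  have hshL : ∀ l : LSt, Measurable fun a : Space3 => shL a l := fun l => by
    unfold shL
    fun_prop
  have hind : Measurable fun θ => E.indicator (1 : (κ → ℝ) × (κ → PhasePoint) → ℝ≥0∞)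
      (b θ, z θ) := (measurable_one.indicator hE).comp (h.mb.prodMk h.mz)
  have hchi : Measurable fun θ => chi (z θ j₀).1 := measurable_chi.comp hI.mpos
  have e1 := hI.disint measurable_chi lintegral_chi
    (f := fun θ => g (d θ) * avE z b j₀ E θ) ((hg.comp h.md).mul hav)
  have e2 := hI.disint measurable_chi lintegral_chi
    (f := fun θ => W (d θ) * (chi (z θ j₀).1 * E.indicator 1 (b θ, z θ)))
    ((hW.comp h.md).mul (hchi.mul hind))
  rw [e1, e2]
  refine lintegral_mono_ae ?_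
  filter_upwards [hgW] with θ hθ
  refine mul_le_mul_right ?_ _
  have h1 : ∀ a : Space3, g (d (Tr a θ)) * avE z b j₀ E (Tr a θ) =
      g (shL a (d θ)) * avE z b j₀ E θ := fun a => by rw [h.d_tr, h.avE_tr]
  have h2 : ∀ a : Space3, W (d (Tr a θ)) * (chi (z (Tr a θ) j₀).1 *
      E.indicator (1 : (κ → ℝ) × (κ → PhasePoint) → ℝ≥0∞) (b (Tr a θ), z (Tr a θ))) =
      W (d θ) * (chi ((z θ j₀).1 + a) *
        E.indicator (1 : (κ → ℝ) × (κ → PhasePoint) → ℝ≥0∞) (b θ, shX a (z θ))) := fun a => by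
    rw [h.d_tr, hWs, h.b_tr, h.z_tr, shX_apply]
  simp only [h1, h2]
  have hm3 : Measurable fun a : Space3 => chi ((z θ j₀).1 + a) *
      E.indicator (1 : (κ → ℝ) × (κ → PhasePoint) → ℝ≥0∞) (b θ, shX a (z θ)) := by
    refine Measurable.mul (measurable_chi.comp (by fun_prop)) ?_
    exact (measurable_one.indicator hE).comp (measurable_const.prodMk
      (measurable_shX.comp (measurable_id.prodMk measurable_const)))
  have hm4 : Measurable fun a : Space3 => g (shL a (d θ)) := hg.comp (hshL (d θ))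
  rw [lintegral_mul_const _ hm4, lintegral_const_mul _ hm3]
  exact mul_le_mul_left hθ _

end transport

/-! ## Structures without gas particles -/

theorem lintegral_fin0 (F : (Fin 0 → PhasePoint) → ℝ≥0∞) :
    ∫⁻ V : Fin 0 → PhasePoint, F V = F isEmptyElim := by
  rw [Measure.volume_pi_eq_dirac (isEmptyElim : ∀ _ : Fin 0, PhasePoint)]
  have h1 : ∀ V : Fin 0 → PhasePoint, F V = F isEmptyElim := fun V => by
    rw [Subsingleton.elim V isEmptyElim]
  simp only [h1, lintegral_const, measure_univ, mul_one]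

/-- The bad partitions of the structure alone. -/
theorem s_only {Φ : Space3 → ℝ} {T γ : ℝ} (hCN : ClassNull Φ T) (hγ : 0 < γ) (j₀ : κ) (C : ℝ)
    {δ : ℝ≥0∞} (hδ : 0 < δ) :
    ∃ R > 0, ∃ ς > 0, ∃ ε₀ > 0, ∀ ε : ℝ, 0 < ε → ε < ε₀ →
      ∃ E : Set ((κ → ℝ) × (κ → PhasePoint)), MeasurableSet E ∧
        (∀ (R' ς' : ℝ), R ≤ R' → ς' ≤ ς → ∀ (b : κ → ℝ) (z : κ → PhasePoint)
          (V : Fin 0 → PhasePoint) (A : Finset (Fin 0 ⊕ κ)),
          (VLMeas973.vsys Φ T ε (bS 0 b)).BadPart C (R' * ε) ς' 1 A (Sum.elim V z) →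
            (b, z) ∈ E) ∧
        ∀ b, ∫⁻ z, wgtA γ chi {j₀} z * E.indicator 1 (b, z) ≤
          δ * ENNReal.ofReal (ε ^ 2) ^ (Fintype.card κ - 1) := by
  have hcard : 1 ≤ Fintype.card (Fin 0 ⊕ κ) := by
    rw [Fintype.card_sum, Fintype.card_fin, zero_add]
    exact Fintype.card_pos_iff.2 ⟨j₀⟩
  obtain ⟨R, hR, ς, hς, ε₀, hε₀, h⟩ := hCN (Fin 0 ⊕ κ) γ C 1 {Sum.inr j₀} chi hγ hcard
    measurable_chi chi_le_one (by rw [lintegral_chi]; exact ENNReal.one_lt_top) δ hδ
  refine ⟨R, hR, ς, hς, ε₀, hε₀, fun ε hε hlt => ?_⟩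
  obtain ⟨E, hEm, hE, hEi⟩ := h ε hε hlt
  have hmap : Measurable fun p : (κ → ℝ) × (κ → PhasePoint) =>
      (bS 0 p.1, (Sum.elim (isEmptyElim : Fin 0 → PhasePoint) p.2 : Fin 0 ⊕ κ → PhasePoint)) :=
    ((measurable_bS 0).comp measurable_fst).prodMk
      (measurable_sumElim.comp (measurable_const.prodMk measurable_snd))
  refine ⟨_, hmap hEm, ?_, ?_⟩
  · intro R' ς' hR' hς' b z V A hB
    have hV : V = isEmptyElim := Subsingleton.elim _ _
    rw [hV] at hB
    refine hE _ _ (badPart_mono (mul_le_mul_of_nonneg_right hR' hε.le) hς' (badPart_one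
      (x := Sum.inr j₀) (Finset.mem_singleton_self _) hB))
  · intro b
    have h1 := hEi (bS 0 b)
    have hc0 : Fintype.card (Fin 0 ⊕ κ) = Fintype.card κ := by
      rw [Fintype.card_sum, Fintype.card_fin, zero_add]
    rw [hc0] at h1
    refine le_trans (le_of_eq ?_) h1
    have hFm : Measurable ({Z : Fin 0 ⊕ κ → PhasePoint | (bS 0 b, Z) ∈ E}.indicator
        (fun Z => (∏ j ∈ {Sum.inr j₀}, chi (Z j).1) *
          ∏ j, ENNReal.ofReal (Real.exp (-γ * ‖(Z j).2‖ ^ 2)))) := by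
      have h3 : (fun Z : Fin 0 ⊕ κ → PhasePoint => (∏ j ∈ {Sum.inr j₀}, chi (Z j).1) *
          ∏ j, ENNReal.ofReal (Real.exp (-γ * ‖(Z j).2‖ ^ 2))) =
          wgtA γ chi {Sum.inr j₀} := by
        funext Z
        unfold wgtA
        simp only [wG_eq]
      rw [h3]
      exact (measurable_wgtA measurable_chi _).indicator
        ((measurable_const.prodMk measurable_id) hEm)
    rw [lintegral_sum_type _ hFm, lintegral_fin0]
    refine lintegral_congr fun z => ?_
    by_cases hz : (bS 0 b, (Sum.elim (isEmptyElim : Fin 0 → PhasePoint) z :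
        Fin 0 ⊕ κ → PhasePoint)) ∈ E
    · rw [indicator_of_mem (show (b, z) ∈ _ from hz), indicator_of_mem
        (show (Sum.elim (isEmptyElim : Fin 0 → PhasePoint) z : Fin 0 ⊕ κ → PhasePoint) ∈
          {Z | (bS 0 b, Z) ∈ E} from hz)]
      unfold wgtA
      simp [wG_eq, Fintype.prod_sum_type]
    · rw [indicator_of_notMem (show (b, z) ∉ _ from hz), indicator_of_notMem
        (show (Sum.elim (isEmptyElim : Fin 0 → PhasePoint) z : Fin 0 ⊕ κ → PhasePoint) ∉
          {Z | (bS 0 b, Z) ∈ E} from hz), mul_zero]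

/-! ## Null events -/

section null

variable {Φ : Space3 → ℝ} {T γ a : ℝ} {ρ : Space3 → ℝ≥0∞} {C₀ c cv : ℝ≥0∞} {I : Type}
  {m : ℝ → I → Measure Θ} {b : ℝ → I → Θ → κ → ℝ} {z : ℝ → I → Θ → κ → PhasePoint}
  {Tr : ℝ → I → Space3 → Θ → Θ} {d : ℝ → I → Θ → LSt} {te : I → ℝ}
  {Λ : Measure (κ → ℝ)} [IsFiniteMeasure Λ]

/-- Hypotheses on a structure which is not localised, one group. -/
structure TouchHyp (T γ a : ℝ) (ρ : Space3 → ℝ≥0∞) (c cv : ℝ≥0∞) (Λ : Measure (κ → ℝ))
    (m : ℝ → I → Measure Θ) (b : ℝ → I → Θ → κ → ℝ) (z : ℝ → I → Θ → κ → PhasePoint)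
    (Tr : ℝ → I → Space3 → Θ → Θ) (d : ℝ → I → Θ → LSt) (te : I → ℝ) : Prop where
  sf : ∀ ε i, SFinite (m ε i)
  dom : ∀ ε i, 0 < ε → Dom γ ρ ε 1 ∅ c Λ (m ε i) (b ε i) (z ε i)
  tr : ∀ ε i, 0 < ε → TInvS (m ε i) (Tr ε i) (b ε i) (z ε i) (d ε i)
  birth : ∀ ε i, 0 < ε → ∀ᵐ θ ∂(m ε i), 0 ≤ (d ε i θ).1
  vel : ∀ ε i, 0 < ε → ∀ᵐ θ ∂(m ε i), ENNReal.ofReal (1 + ‖(d ε i θ).2.2‖) ≤
    cv * expW a (z ε i θ)
  hor : ∀ i, te i ≤ T
  cf : c ≠ ∞
  cvf : cv ≠ ∞
  aγ : a < γ

/-- The bad structures near the gas. -/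
theorem gLe_sOnly (hΦ : AdmissiblePotential Φ) (hCN : ClassNull Φ T) (hf : Measurable f₀)
    (h1 : ∫⁻ z, ENNReal.ofReal (f₀ z) ≤ 1)
    (h2 : ∫⁻ z, ENNReal.ofReal (f₀ z) * ENNReal.ofReal (1 + ‖z.2‖ ^ 2) ≠ ∞)
    (H : TouchHyp T γ a ρ c cv Λ m b z Tr d te) (j₀ : κ) (C R₁ : ℝ) {δ : ℝ≥0∞} (hδ : 0 < δ) :
    ∃ R > 0, ∃ ς > 0, ∀ (R' ς' : ℝ), R ≤ R' → ς' ≤ ς → GLe f₀ m
      (fun ε i n θ w => Near Φ ε R₁ (te i) w (d ε i θ) ∧
        ∃ (V : Fin 0 → PhasePoint) (A : Finset (Fin 0 ⊕ κ)),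
          (VLMeas973.vsys Φ T ε (bS 0 (b ε i θ))).BadPart C (R' * ε) ς' 1 A
            (Sum.elim V (z ε i θ))) δ := by
  obtain ⟨C₁, hC₁, hnear⟩ := near_le (Φ := Φ) hΦ hf h1 h2 T R₁
  set K : ℝ≥0∞ := C₁ * cv * (c * Λ univ) with hK
  have hKt : K ≠ ∞ := ENNReal.mul_ne_top (ENNReal.mul_ne_top hC₁ H.cvf)
    (ENNReal.mul_ne_top H.cf (measure_ne_top Λ _))
  have hKt' : K + 1 ≠ ∞ := ENNReal.add_ne_top.2 ⟨hKt, ENNReal.one_ne_top⟩
  set δ' : ℝ≥0∞ := δ / (K + 1) with hδ'
  have hδ'0 : 0 < δ' := ENNReal.div_pos hδ.ne' hKt'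
  obtain ⟨R, hR, ς, hς, ε₀, hε₀, h⟩ := s_only hCN (sub_pos.2 H.aγ) j₀ C hδ'0
  refine ⟨R, hR, ς, hς, fun R' ς' hR' hς' => ⟨min ε₀ 1, lt_min hε₀ one_pos,
    fun ε hε hlt i => ?_⟩⟩
  obtain ⟨E, hEm, hE, hEi⟩ := h ε hε (hlt.trans_le (min_le_left _ _))
  have hε1 : ε ≤ 1 := (hlt.trans_le (min_le_right _ _)).le
  have := H.sf ε i
  have hT := H.tr ε i hε
  have hD := H.dom ε i hε
  have hav := measurable_avE (b := b ε i) (z := z ε i) hEm hT.mb hT.mz j₀
  -- the mean number of close encounters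
  set g : LSt → ℝ≥0∞ := fun l => gcE f₀ ε fun n w => nearN Φ ε R₁ (te i) n (w, l) with hg
  have hgm : Measurable g := MeasE416.measurable_gcE_of hf ε
    (F := fun n l w => nearN Φ ε R₁ (te i) n (w, l)) fun n =>
    (measurable_nearN hΦ hε R₁ (te i) n).comp measurable_swap
  set W : LSt → ℝ≥0∞ := fun l => C₁ * ENNReal.ofReal (1 + ‖l.2.2‖) with hW
  have hWm : Measurable W := ((measurable_snd.snd.norm.const_add 1).ennreal_ofReal).const_mul _
  refine ⟨fun n p => nearN Φ ε R₁ (te i) n (p.2, d ε i p.1) * avE (z ε i) (b ε i) j₀ E p.1,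
    fun n => ?_, ?_, ?_⟩
  · refine Measurable.mul ?_ (hav.comp measurable_fst)
    exact (measurable_nearN hΦ hε R₁ (te i) n).comp
      (measurable_snd.prodMk (hT.md.comp measurable_fst))
  · rintro n θ w - ⟨hN, V, A, hB⟩
    have h3 : avE (z ε i) (b ε i) j₀ E θ = 1 := by
      refine avE_eq_one j₀ fun a' => hE R' ς' hR' hς' _ _ V A ?_
      have h4 := (badPart_shift (M := VLMeas973.vsys Φ T ε (bS 0 (b ε i θ))) hΦ hε
        (fun _ h => by cases h) a').2 hB
      have h5 : shX a' (Sum.elim V (z ε i θ)) = Sum.elim V (shX a' (z ε i θ)) := by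
        funext j
        rcases j with j | j
        · exact j.elim0
        · rfl
      rwa [h5] at h4
    simp only
    rw [h3, mul_one]
    exact one_le_nearN hΦ hε hN
  · calc ∫⁻ θ, gcE f₀ ε (fun n w => nearN Φ ε R₁ (te i) n (w, d ε i θ) *
          avE (z ε i) (b ε i) j₀ E θ) ∂(m ε i)
        = ∫⁻ θ, g (d ε i θ) * avE (z ε i) (b ε i) j₀ E θ ∂(m ε i) := by
          refine lintegral_congr fun θ => ?_
          have hle : avE (z ε i) (b ε i) j₀ E θ ≤ 1 := by
            unfold avE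
            calc ∫⁻ a : Space3, chi ((z ε i θ j₀).1 + a) *
                  E.indicator 1 (b ε i θ, shX a (z ε i θ)) ≤
                ∫⁻ a : Space3, chi ((z ε i θ j₀).1 + a) := by
                  refine lintegral_mono fun a => ?_
                  refine (mul_le_mul_right (?_ : _ ≤ (1 : ℝ≥0∞)) _).trans_eq (mul_one _)
                  exact indicator_apply_le' (fun _ => le_rfl) (fun _ => zero_le_one)
              _ = 1 := by
                  rw [lintegral_add_left_eq_self (fun x => chi x), lintegral_chi]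
          have hne : avE (z ε i) (b ε i) j₀ E θ ≠ ∞ := (hle.trans_lt ENNReal.one_lt_top).ne
          rw [hg]
          simp only
          rw [mul_comm, ← gcE_const_mul f₀ ε hne]
          exact gcE_congr f₀ ε fun n w _ => mul_comm _ _
      _ ≤ ∫⁻ θ, W (d ε i θ) * (chi (z ε i θ j₀).1 * E.indicator 1 (b ε i θ, z ε i θ)) ∂(m ε i) :=
          transport hT j₀ hEm hgm hWm (fun _ _ => rfl) (by
            filter_upwards [H.birth ε i hε] with θ hθ
            exact hnear ε hε hε1 (te i) (H.hor i) (d ε i θ) hθ)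
      _ ≤ ∫⁻ θ, (C₁ * cv) * (expW a (z ε i θ) * (chi (z ε i θ j₀).1 *
            E.indicator 1 (b ε i θ, z ε i θ))) ∂(m ε i) := by
          refine lintegral_mono_ae ?_
          filter_upwards [H.vel ε i hε] with θ hθ
          rw [hW, ← mul_assoc (C₁ * cv)]
          refine mul_le_mul_left ?_ _
          rw [mul_assoc C₁]
          exact mul_le_mul_right hθ _
      _ = (C₁ * cv) * ∫⁻ θ, (fun q : (κ → ℝ) × (κ → PhasePoint) => expW a q.2 *
            (chi (q.2 j₀).1 * E.indicator 1 q)) (b ε i θ, z ε i θ) ∂(m ε i) :=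
          lintegral_const_mul' _ _ (ENNReal.mul_ne_top hC₁ H.cvf)
      _ ≤ (C₁ * cv) * (c * (Λ univ * δ')) := by
          refine mul_le_mul_right ?_ _
          have hFm : Measurable fun q : (κ → ℝ) × (κ → PhasePoint) => expW a q.2 *
              (chi (q.2 j₀).1 * E.indicator (1 : (κ → ℝ) × (κ → PhasePoint) → ℝ≥0∞) q) :=
            ((measurable_expW a).comp measurable_snd).mul ((measurable_chi.comp
              ((measurable_pi_apply j₀).comp measurable_snd).fst).mul
              (measurable_one.indicator hEm))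
          have h6 := hD.le _ hFm
          set q : ℝ≥0∞ := ENNReal.ofReal (ε ^ 2) ^ (Fintype.card κ - 1) with hq
          have hq1 : activity ε ^ (Fintype.card κ - 1) * q = 1 := activity_pow_mul_pow hε _
          have h7 : ∀ b' : κ → ℝ, ∫⁻ z', wgtA γ ρ ∅ z' *
              ((fun q : (κ → ℝ) × (κ → PhasePoint) => expW a q.2 *
                (chi (q.2 j₀).1 * E.indicator (1 : (κ → ℝ) × (κ → PhasePoint) → ℝ≥0∞) q))
                (b', z')) ≤ δ' * q := by
            intro b'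
            refine le_trans (le_of_eq (lintegral_congr fun z' => ?_)) (hEi b')
            have h8 : wgtA (γ - a) chi {j₀} z' =
                wgtA γ ρ ∅ z' * expW a z' * chi (z' j₀).1 := by
              rw [wgtA_mul_expW]
              unfold wgtA
              simp only [Finset.prod_empty, one_mul, Finset.prod_singleton]
              exact mul_comm _ _
            rw [h8]
            simp only
            ring
          calc ∫⁻ θ, (fun q : (κ → ℝ) × (κ → PhasePoint) => expW a q.2 *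
                (chi (q.2 j₀).1 * E.indicator 1 q)) (b ε i θ, z ε i θ) ∂(m ε i)
              = activity ε ^ (Fintype.card κ - 1) * (q *
                ∫⁻ θ, (fun q : (κ → ℝ) × (κ → PhasePoint) => expW a q.2 *
                  (chi (q.2 j₀).1 * E.indicator 1 q)) (b ε i θ, z ε i θ) ∂(m ε i)) := by
                rw [← mul_assoc, hq1, one_mul]
            _ ≤ activity ε ^ (Fintype.card κ - 1) * (c * ∫⁻ _b', δ' * q ∂Λ) := by
                refine mul_le_mul_right (h6.trans (mul_le_mul_right ?_ _)) _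
                exact lintegral_mono fun b' => h7 b'
            _ = (activity ε ^ (Fintype.card κ - 1) * q) * (c * (Λ univ * δ')) := by
                rw [lintegral_const]
                ring
            _ = c * (Λ univ * δ') := by rw [hq1, one_mul]
      _ = K * δ' := by rw [hK]; ring
      _ ≤ (K + 1) * δ' := by gcongr; exact le_self_add
      _ = δ := by rw [hδ', ENNReal.mul_div_cancel (by simp) hKt']

/-- **Bad partitions of structures which are not localised, near the gas.** Every label may serve as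
an anchor. -/
theorem gLe_badGas_touch (hΦ : AdmissiblePotential Φ) (hCN : ClassNull Φ T) (hf : Measurable f₀)
    (h1 : ∫⁻ z, ENNReal.ofReal (f₀ z) ≤ 1)
    (h2 : ∫⁻ z, ENNReal.ofReal (f₀ z) * ENNReal.ofReal (1 + ‖z.2‖ ^ 2) ≠ ∞)
    (he : Env f₀ γ ρ C₀) (hγ : 0 < γ) (H : TouchHyp T γ a ρ c cv Λ m b z Tr d te) (j₀ : κ)
    (C R₁ : ℝ) (N : ℕ) {δ : ℝ≥0∞} (hδ : 0 < δ) :
    ∃ R > 0, ∃ ς > 0, GLe f₀ m
      (fun ε i n θ w => Near Φ ε R₁ (te i) w (d ε i θ) ∧
        BadGas Φ T C R ς ε N 1 Finset.univ (b ε i θ) (z ε i θ) w) δ := by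
  set δ₁ : ℝ≥0∞ := min δ 1 / 2 with hδ₁
  have hδ₁0 : 0 < δ₁ := ENNReal.div_pos (lt_min hδ one_pos).ne' (by norm_num)
  have hsum : δ₁ + δ₁ ≤ δ := by
    rw [hδ₁, ENNReal.add_halves]
    exact min_le_left _ _
  obtain ⟨R, hR, ς, hς, h⟩ := gLe_sOnly hΦ hCN hf h1 h2 H j₀ C R₁ hδ₁0
  obtain ⟨R₂, hR₂, ς₂, hς₂, h'⟩ := gLe_badGas hCN hf h1 he hγ C N
    (Fintype.card_pos_iff.2 ⟨j₀⟩ : 1 ≤ Fintype.card κ) ∅ H.cf Λ H.sf H.dom hδ₁0
  refine ⟨max R R₂, lt_max_of_lt_left hR, min ς ς₂, lt_min hς hς₂, ?_⟩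
  refine ((h (max R R₂) (min ς ς₂) (le_max_left _ _) (min_le_left _ _)).or hf h').mono hsum
    ⟨1, one_pos, fun ε hε _ i n θ w _ hE => ?_⟩
  obtain ⟨hN, k, hk, ι, hB⟩ := hE
  rcases k with _ | k
  · exact Or.inl ⟨hN, _, _, hB⟩
  · right
    refine badGas_mono (R' := max R R₂) (ς' := min ς ς₂) hε.le (le_max_right _ _)
      (min_le_right _ _) ⟨k + 1, hk, ι, ?_⟩
    refine badPart_one (x := Sum.inl 0) ?_ hB
    unfold anch
    rw [Finset.inl_mem_disjSum]
    exact Finset.mem_univ _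

/-- **The gateway for structures which are not localised**: as `gNull_of_det`, but the bad
partitions may consist of the structure alone, provided the event forces a close encounter of the
line `d` with the gas. -/
theorem gNull_of_det_touch (hΦ : AdmissiblePotential Φ) (hCN : ClassNull Φ T)
    (hf : Measurable f₀) (h1 : ∫⁻ z, ENNReal.ofReal (f₀ z) ≤ 1)
    (h2 : ∫⁻ z, ENNReal.ofReal (f₀ z) * ENNReal.ofReal (1 + ‖z.2‖ ^ 2) ≠ ∞)
    (he : Env f₀ γ ρ C₀) (hγ : 0 < γ) (H : TouchHyp T γ a ρ c cv Λ m b z Tr d te) (j₀ : κ)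
    (R₁ : ℝ) {E : ℝ → I → (n : ℕ) → Θ → Config n → Prop}
    {Rn Ht : ℕ → ℝ → I → (n : ℕ) → Θ → Config n → Prop}
    (hnear : ∀ ε i n θ (w : Config n), 0 < ε → w ∈ PairExcluded ε n → E ε i n θ w →
      Near Φ ε R₁ (te i) w (d ε i θ))
    (hdet : ∀ L : ℕ, ∃ (N : ℕ) (C : ℝ), ∀ R > 0, ∀ ς > 0, ∃ ε₁ : ℝ, 0 < ε₁ ∧ ∀ ε : ℝ, 0 < ε →
      ε < ε₁ → ∀ i n θ (w : Config n), w ∈ PairExcluded ε n → E ε i n θ w →
        Rn L ε i n θ w ∨ BadGas Φ T C R ς ε N 1 Finset.univ (b ε i θ) (z ε i θ) w ∨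
          Ht L ε i n θ w)
    (hrun : ∀ δ : ℝ≥0∞, 0 < δ → ∃ L, GLe f₀ m (Rn L) δ) (hhit : ∀ L, GNull f₀ m (Ht L)) :
    GNull f₀ m E := by
  intro δ hδ
  set δ₁ : ℝ≥0∞ := min δ 1 / 3 with hδ₁
  have hδ₁0 : 0 < δ₁ := ENNReal.div_pos (lt_min hδ one_pos).ne' (by norm_num)
  have hsum : δ₁ + (δ₁ + δ₁) ≤ δ := by
    have e : δ₁ + (δ₁ + δ₁) = 3 * (min δ 1 / 3) := by rw [hδ₁]; ring
    rw [e, ENNReal.mul_div_cancel (by norm_num) (by norm_num)]
    exact min_le_left _ _
  obtain ⟨L, hL⟩ := hrun _ hδ₁0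
  obtain ⟨N, C, hdet⟩ := hdet L
  obtain ⟨R, hR, ς, hς, hB⟩ := gLe_badGas_touch hΦ hCN hf h1 h2 he hγ H j₀ C R₁ N hδ₁0
  obtain ⟨ε₁, h0, h⟩ := hdet R hR ς hς
  refine (hL.or hf (hB.or hf (hhit L _ hδ₁0))).mono hsum ⟨ε₁, h0, fun ε hε hlt i n θ w hw hE => ?_⟩
  rcases h ε hε hlt i n θ w hw hE with h3 | h3 | h3
  · exact Or.inl h3
  · exact Or.inr (Or.inl ⟨hnear ε i n θ w hε hw hE, h3⟩)
  · exact Or.inr (Or.inr h3)

end null

end Crest.Agent.R122.LN2

end
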