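import Crest.Agent.R122.OneContact_45
import Crest.Agent.R122.BPair_45

/-!
# Two groups which keep distance before a time, birth convention (row 122, helper796)

`BWorld.agree_sumW`: `BWorld.agree_sum` of `OneContact_45` when the distance is larger than `ε` only
for pairs which are not both born at the current instant (two lines born at the same instant at
distance `ε` separate: `BirthSep`).
-/

set_option autoImplicit false
set_option linter.unusedSectionVars false

open MeasureTheory Set Filter Topology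
open scoped NNReal
open Crest.AnalysisR.Kinetic
open Crest.Agent.R122.Flow671 Crest.Agent.R122.Loc45
open Crest.Agent.R122.Causal291 Crest.Agent.R122.Inf879

namespace Crest.Agent.R122.Ins45

noncomputable section

variable {Φ : Space3 → ℝ} {ε : ℝ} {ι κ μ : Type*} [Fintype ι] [Fintype κ] [Fintype μ]

/-- Pairs of two groups keep distance at least `ε` shortly after `t`. -/
theorem BWorld.eventually_le {b : μ → ℝ} {t₀ t : ℝ} {W : ℝ → μ → PhasePoint}
    (hW : BWorld Φ ε b t₀ W) (hsep : BirthSep b W ε) (ht : t₀ ≤ t) {x y : μ} (hxy : x ≠ y)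
    (h : b x ≤ t → b y ≤ t → (b x < t ∨ b y < t) → ε < dist (W t x).1 (W t y).1) :
    ∀ᶠ u in 𝓝[≥] t, b x ≤ u → b y ≤ u → ε ≤ dist (W u x).1 (W u y).1 := by
  rcases lt_or_ge t (b x) with hx | hx
  · filter_upwards [Ico_mem_nhdsGE hx] with s hs h4 _
    exact absurd hs.2 (not_lt.2 h4)
  rcases lt_or_ge t (b y) with hy | hy
  · filter_upwards [Ico_mem_nhdsGE hy] with s hs _ h4
    exact absurd hs.2 (not_lt.2 h4)
  by_cases hlt : b x < t ∨ b y < t
  · have h3 : ContinuousWithinAt (fun s => dist (W s x).1 (W s y).1) (Ici t) t :=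
      ((hW.cont_pos x t ht).mono (Ici_subset_Ici.2 ht)).dist
        ((hW.cont_pos y t ht).mono (Ici_subset_Ici.2 ht))
    exact (h3.eventually (lt_mem_nhds (h hx hy hlt))).mono fun s hs _ _ => le_of_lt hs
  · push Not at hlt
    have ex : b x = t := le_antisymm hx hlt.1
    have ey : b y = t := le_antisymm hy hlt.2
    obtain ⟨δ, hδ, h1⟩ := hsep x y hxy (ex.trans ey.symm)
    rw [ex] at h1
    filter_upwards [Ico_mem_nhdsGE (show t < t + δ by linarith)] with s hs _ _
    refine hW.le_dist_of_not_ctB (ht.trans hs.1) hs.2 (hx.trans hs.1) (hy.trans hs.1)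
      fun r hr hc => ?_
    exact absurd hc.2.2.2 (not_le.2 (h1 r (hs.1.trans_lt hr.1) hr.2))

/-- **Two groups which do not come within `ε` of each other before `s` are independent up to `s`**;
pairs which are born at the same instant may be at distance `ε` at their birth. -/
theorem BWorld.agree_sumW (hΦ : AdmissiblePotential Φ) (hε : 0 < ε) {b : μ → ℝ} {t₀ : ℝ}
    {X : ℝ → ι → PhasePoint} {Y : ℝ → κ → PhasePoint} {W : ℝ → μ → PhasePoint}
    {e : ι → μ} {f : κ → μ} (he : Function.Injective e) (hf : Function.Injective f)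
    (hcov : ∀ x, x ∈ range e ∨ x ∈ range f) (hdis : ∀ i j, e i ≠ f j)
    (hW : BWorld Φ ε b t₀ W) (hsep : BirthSep b W ε)
    (hX : BWorld Φ ε (fun i => b (e i)) t₀ X)
    (hY : BWorld Φ ε (fun j => b (f j)) t₀ Y)
    (h0X : ∀ i, W t₀ (e i) = X t₀ i) (h0Y : ∀ j, W t₀ (f j) = Y t₀ j) {s : ℝ}
    (hfar : ∀ t ∈ Ico t₀ s, ∀ i j, b (e i) ≤ t → b (f j) ≤ t → (b (e i) < t ∨ b (f j) < t) →
      ε < dist (X t i).1 (Y t j).1) :
    ∀ t ∈ Icc t₀ s, (∀ i, W t (e i) = X t i) ∧ (∀ j, W t (f j) = Y t j) := by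
  set E : Set ℝ := {t | (∀ i, W t (e i) = X t i) ∧ (∀ j, W t (f j) = Y t j)} with hE
  have hmain : Icc t₀ s ⊆ E := by
    refine IsClosed.Icc_subset_of_forall_exists_gt ?_ ⟨h0X, h0Y⟩ ?_
    · have h1 : E ∩ Icc t₀ s = (⋂ i, {t | t ∈ Icc t₀ s ∧ W t (e i) = X t i}) ∩
          (⋂ j, {t | t ∈ Icc t₀ s ∧ W t (f j) = Y t j}) ∩ Icc t₀ s := by
        ext t
        simp only [hE, mem_inter_iff, mem_iInter, mem_ofPred_eq]
        constructor
        · rintro ⟨⟨h1, h2⟩, h3⟩
          exact ⟨⟨fun i => ⟨h3, h1 i⟩, fun j => ⟨h3, h2 j⟩⟩, h3⟩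
        · rintro ⟨⟨h1, h2⟩, h3⟩
          exact ⟨⟨fun i => (h1 i).2, fun j => (h2 j).2⟩, h3⟩
      rw [h1]
      refine ((isClosed_iInter fun i => ?_).inter (isClosed_iInter fun j => ?_)).inter isClosed_Icc
      · have h2 : {t | t ∈ Icc t₀ s ∧ W t (e i) = X t i} = Icc t₀ s ∩
            (fun t => (W t (e i), X t i)) ⁻¹' {p : PhasePoint × PhasePoint | p.1 = p.2} := rfl
        rw [h2]
        refine ContinuousOn.preimage_isClosed_of_isClosed ?_ isClosed_Icc
          (isClosed_eq continuous_fst continuous_snd)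
        exact ((hW.cont_apply (e i)).mono Icc_subset_Ici_self).prodMk
          ((hX.cont_apply i).mono Icc_subset_Ici_self)
      · have h2 : {t | t ∈ Icc t₀ s ∧ W t (f j) = Y t j} = Icc t₀ s ∩
            (fun t => (W t (f j), Y t j)) ⁻¹' {p : PhasePoint × PhasePoint | p.1 = p.2} := rfl
        rw [h2]
        refine ContinuousOn.preimage_isClosed_of_isClosed ?_ isClosed_Icc
          (isClosed_eq continuous_fst continuous_snd)
        exact ((hW.cont_apply (f j)).mono Icc_subset_Ici_self).prodMk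
          ((hY.cont_apply j).mono Icc_subset_Ici_self)
    · rintro t ⟨⟨hX1, hY1⟩, ht⟩ y hy
      have hWW : ∀ᶠ u in 𝓝[≥] t, ∀ i j, b (e i) ≤ u → b (f j) ≤ u →
          ε ≤ dist (W u (e i)).1 (W u (f j)).1 := by
        rw [eventually_all]
        intro i
        rw [eventually_all]
        intro j
        refine hW.eventually_le hsep ht.1 (hdis i j) fun h1 h2 h3 => ?_
        rw [hX1 i, hY1 j]
        exact hfar t ht i j h1 h2 h3
      obtain ⟨u, hu, hu'⟩ := mem_nhdsGE_iff_exists_Ico_subset.1 hWW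
      set T := min u y with hT
      have htT : t < T := lt_min hu hy
      have hsub : ∀ v ∈ Ico t T, ∀ i j, b (e i) ≤ v → b (f j) ≤ v →
          ε ≤ dist (W v (e i)).1 (W v (f j)).1 :=
        fun v hv => hu' ⟨hv.1, hv.2.trans_le (min_le_left _ _)⟩
      have k1 := BWorld.agree_own hΦ hε hX hW (μ := ι) (e := id) (f := e) Function.injective_id he
        (S := univ) (A := ∅) (a := t) (T := T) ht.1 ht.1 (fun _ _ _ _ => Iff.rfl)
        (fun _ h => absurd h (notMem_empty _)) (fun m _ => (hX1 m).symm)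
        (fun _ _ _ _ _ k _ h => absurd rfl (h k (Or.inl (mem_univ k))))
        (fun v hv m _ hm k hk hne => by
          rcases hcov k with ⟨m', rfl⟩ | ⟨j, rfl⟩
          · exact absurd rfl (hne m' (Or.inl (mem_univ m')))
          · exact hsub v hv m j hm hk)
      have k2 := BWorld.agree_own hΦ hε hY hW (μ := κ) (e := id) (f := f) Function.injective_id hf
        (S := univ) (A := ∅) (a := t) (T := T) ht.1 ht.1 (fun _ _ _ _ => Iff.rfl)
        (fun _ h => absurd h (notMem_empty _)) (fun m _ => (hY1 m).symm)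
        (fun _ _ _ _ _ k _ h => absurd rfl (h k (Or.inl (mem_univ k))))
        (fun v hv m _ hm k hk hne => by
          rcases hcov k with ⟨i, rfl⟩ | ⟨m', rfl⟩
          · rw [dist_comm]
            exact hsub v hv i m hk hm
          · exact absurd rfl (hne m' (Or.inl (mem_univ m'))))
      exact ⟨T, ⟨fun i => (k1 i (mem_univ i) T ⟨htT.le, le_rfl⟩).symm,
        fun j => (k2 j (mem_univ j) T ⟨htT.le, le_rfl⟩).symm⟩, htT, min_le_right _ _⟩
  exact fun t ht => hmain ht

end

end Crest.Agent.R122.Ins45
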