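import Crest.Agent.R122.HitPair_45
import Crest.Agent.R122.FreeW_796

/-!
# Before the first contact of a free line, birth convention (row 122, helper796)

`FreeFarW Φ ε Z l s`: the free line `l` is at distance larger than `ε` from the paths of `Z` during
`[τ, s)`; at its birth only the older particles count.
-/

set_option autoImplicit false
set_option linter.unusedSectionVars false

open MeasureTheory Set Filter Topology
open scoped ENNReal
open Crest.AnalysisR.Kinetic
open Crest.Agent.R122.Flow671 Crest.Agent.R122.Loc45 Crest.Agent.R122.Causal291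
open Crest.Agent.R122.Inf879 Crest.Agent.R122.EDefs602 Crest.Agent.R122.Tree674
open Crest.Agent.R122.Scat818 Crest.Agent.R122.OCout796

namespace Crest.Agent.R122.Ins45

noncomputable section

open scoped Classical

variable {ι : Type} [Fintype ι] {Φ : Space3 → ℝ} {ε : ℝ} {Z : MW ι} {l : ML} {s : ℝ}

/-- The free line `l` does not come within `ε` of the paths of `Z` during `[τ, s)` (birth
convention: at its birth only the older particles count). -/
def FreeFarW (Φ : Space3 → ℝ) (ε : ℝ) (Z : MW ι) (l : ML) (s : ℝ) : Prop :=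
  ∀ t k, l.1.1 ≤ t → t < s → Z.b k ≤ t → (Z.b k < t ∨ l.1.1 < t) →
    ε < dist (lineAt l.1.1 l.1.2 t).1 (Z.path Φ ε t k).1

theorem FreeFarW.mono {s t : ℝ} (h : FreeFarW Φ ε Z l t) (hst : s ≤ t) : FreeFarW Φ ε Z l s :=
  fun r k h1 h2 h3 => h r k h1 (h2.trans_le hst) h3

/-- **Before the first contact of the free line** the world `Z + l` is `Z` and the free line. -/
theorem FreeFarW.path_ins (h : FreeFarW Φ ε Z l s) (hΦ : AdmissiblePotential Φ) (hε : 0 < ε)
    (hZ : Z.Ok Φ ε) (hZl : (Z.ins l).Ok Φ ε) {t : ℝ} (ht : t ∈ Icc 0 s) :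
    (Z.ins l).path Φ ε t (Sum.inr ()) = lineAt l.1.1 l.1.2 t ∧
      ∀ k, (Z.ins l).path Φ ε t (Sum.inl k) = Z.path Φ ε t k := by
  have key := BWorld.agree_sumW hΦ hε (b := (Z.ins l).b) (t₀ := 0)
    (X := fun t (_ : Unit) => lineAt l.1.1 l.1.2 t) (Y := Z.path Φ ε)
    (W := (Z.ins l).path Φ ε) (e := Sum.inr) (f := Sum.inl) Sum.inr_injective Sum.inl_injective
    (fun x => by
      rcases x with k | u
      · exact Or.inr ⟨k, rfl⟩
      · exact Or.inl ⟨u, rfl⟩)
    (fun _ _ h => by cases h)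
    hZl.bw hZl.sep (bworld_line hΦ l.1.1 l.1.2 0) hZ.bw
    (fun _ => by
      rw [MW.path_zero hΦ hε]
      exact back_eq_lineAt l.1.1 l.1.2)
    (fun k => by
      rw [MW.path_zero hΦ hε, MW.path_zero hΦ hε]
      rfl)
    (s := s) (fun t ht _ k hl hk hlt => h t k hl ht.2 hk hlt.symm) t ht
  exact ⟨key.1 (), key.2⟩

/-- No contact of `l` before the first contact of the free line. -/
theorem FreeFarW.not_C (h : FreeFarW Φ ε Z l s) (hΦ : AdmissiblePotential Φ) (hε : 0 < ε)
    (hZ : Z.Ok Φ ε) (hZl : (Z.ins l).Ok Φ ε) (hl : 0 ≤ l.1.1) {t : ℝ} (ht : t < s) (k : ι) :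
    ¬ (Z.ins l).C Φ ε t (Sum.inr ()) (Sum.inl k) := by
  intro hc
  have h1 : l.1.1 ≤ t := MW.C_born hc
  have h2 : (Z.ins l).b (Sum.inl k) ≤ t := MW.C_born' hc
  have h3 := h.path_ins hΦ hε hZ hZl ⟨hl.trans h1, ht.le⟩
  have h4 : dist ((Z.ins l).path Φ ε t (Sum.inr ())).1 ((Z.ins l).path Φ ε t (Sum.inl k)).1 ≤ ε :=
    hc.2.2.2
  rw [h3.1, h3.2 k] at h4
  have h5 : Z.b k < t ∨ l.1.1 < t := by
    rcases hc.2.2.1 with h5 | h5 | h5
    · cases h5
    · exact Or.inr h5
    · exact Or.inl h5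
  exact absurd (h t k h1 ht h2 h5) (not_lt.2 h4)

end

end Crest.Agent.R122.Ins45
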