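import Crest.Agent.R122.HitPair_45
import Crest.Agent.R122.FreeW2_796

/-!
# One contact (row 122, block A7, helper45): geometric criterion for `Hit`

`GoodEnc Φ ε Z l c s y q`: the first contact of the FREE line `l` with the paths of `Z` is with the
line `c`, at time `s`, entrance coordinates `q = (v, u, b)`, `y` = position of `c`, and the two-body
encounter (`HitPair_45`) is isolated from `Z₀ = rest Z c` up to its exit `s' = s + outT`.

* `GoodEnc.hit` : `Hit Φ ε Z l c s s'`.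
* `GoodEnc.outL_eq`, `GoodEnc.outC_eq` : `outL`, `outC` are `lineL'`, `lineC'` of `OCout_796` with the
  mark `m_l + m_c`.
* `GoodEnc.path_before`, `GoodEnc.path_after`: the paths of `Z + l` up to the exit.
* `noContact_of_far`: no contact of the free line with the paths of `Z` in `[0, T]` gives
  `θ (Z, l) = T + 1`.
-/

set_option autoImplicit false
set_option linter.unusedSectionVars false

open MeasureTheory Set Filter Topology
open scoped ENNReal
open Crest.AnalysisR.Kinetic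
open Crest.Agent.R122.Flow671 Crest.Agent.R122.Loc45 Crest.Agent.R122.Causal291
open Crest.Agent.R122.Inf879 Crest.Agent.R122.EDefs602 Crest.Agent.R122.Tree674
open Crest.Agent.R122.Scat818 Crest.Agent.R122.OCout796

namespace Crest.Agent.R122.Ins45

noncomputable section

open scoped Classical

variable {ι : Type} [Fintype ι] {Φ : Space3 → ℝ} {ε : ℝ} {Z : MW ι} {l : ML} {c : ι}
  {s : ℝ} {y : Space3} {q : CD} {K : ℕ}

/-! ### Before the first contact -/

/-- The free line `l` does not come within `ε` of the paths of `Z` during `[τ, s)`. -/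
def FreeFar (Φ : Space3 → ℝ) (ε : ℝ) (Z : MW ι) (l : ML) (s : ℝ) : Prop :=
  ∀ t k, l.1.1 ≤ t → t < s → Z.b k ≤ t →
    ε < dist (lineAt l.1.1 l.1.2 t).1 (Z.path Φ ε t k).1

theorem FreeFar.mono {s t : ℝ} (h : FreeFar Φ ε Z l t) (hst : s ≤ t) : FreeFar Φ ε Z l s :=
  fun r k h1 h2 h3 => h r k h1 (h2.trans_le hst) h3

/-- The form with the birth convention. -/
theorem FreeFar.weak {s : ℝ} (h : FreeFar Φ ε Z l s) : FreeFarW Φ ε Z l s :=
  fun r k h1 h2 h3 _ => h r k h1 h2 h3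

/-- **Before the first contact of the free line** the world `Z + l` is `Z` and the free line. -/
theorem FreeFar.path_ins (h : FreeFar Φ ε Z l s) (hΦ : AdmissiblePotential Φ) (hε : 0 < ε)
    (hZ : Z.Ok Φ ε) (hZl : (Z.ins l).Ok Φ ε) {t : ℝ} (ht : t ∈ Icc 0 s) :
    (Z.ins l).path Φ ε t (Sum.inr ()) = lineAt l.1.1 l.1.2 t ∧
      ∀ k, (Z.ins l).path Φ ε t (Sum.inl k) = Z.path Φ ε t k := by
  have key := BWorld.agree_sum hΦ hε (b := (Z.ins l).b) (t₀ := 0)
    (X := fun t (_ : Unit) => lineAt l.1.1 l.1.2 t) (Y := Z.path Φ ε)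
    (W := (Z.ins l).path Φ ε) (e := Sum.inr) (f := Sum.inl) Sum.inr_injective Sum.inl_injective
    (fun x => by
      rcases x with k | u
      · exact Or.inr ⟨k, rfl⟩
      · exact Or.inl ⟨u, rfl⟩)
    hZl.bw (bworld_line hΦ l.1.1 l.1.2 0) hZ.bw
    (fun _ => by
      rw [MW.path_zero hΦ hε]
      exact back_eq_lineAt l.1.1 l.1.2)
    (fun k => by
      rw [MW.path_zero hΦ hε, MW.path_zero hΦ hε]
      rfl)
    (s := s) (fun t ht _ k hl hk => h t k hl ht.2 hk) t ht
  exact ⟨key.1 (), key.2⟩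

/-- No contact of `l` before the first contact of the free line. -/
theorem FreeFar.not_C (h : FreeFar Φ ε Z l s) (hΦ : AdmissiblePotential Φ) (hε : 0 < ε)
    (hZ : Z.Ok Φ ε) (hZl : (Z.ins l).Ok Φ ε) (hl : 0 ≤ l.1.1) {t : ℝ} (ht : t < s) (k : ι) :
    ¬ (Z.ins l).C Φ ε t (Sum.inr ()) (Sum.inl k) := by
  intro hc
  have h1 : l.1.1 ≤ t := MW.C_born hc
  have h2 : (Z.ins l).b (Sum.inl k) ≤ t := MW.C_born' hc
  have h3 := h.path_ins hΦ hε hZ hZl ⟨hl.trans h1, ht.le⟩
  have h4 : dist ((Z.ins l).path Φ ε t (Sum.inr ())).1 ((Z.ins l).path Φ ε t (Sum.inl k)).1 ≤ ε :=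
    hc.2.2.2
  rw [h3.1, h3.2 k] at h4
  exact absurd (h t k h1 ht h2) (not_lt.2 h4)

/-- The particles of the common part: `Z` and `rest Z c` while `c` has no contact. -/
theorem rest_path (hΦ : AdmissiblePotential Φ) (hε : 0 < ε) (hZ : Z.Ok Φ ε)
    (hR : (rest Z c).Ok Φ ε) (hfree : ∀ t k, t < s → Z.C Φ ε t c k → k = c) {t : ℝ}
    (ht : t ∈ Icc 0 s) (k : Oth c) : (rest Z c).path Φ ε t k = Z.path Φ ε t k := by
  refine BWorld.agree_own hΦ hε hR.bw hZ.bw (e := (id : Oth c → Oth c)) (f := Subtype.val)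
    Function.injective_id Subtype.val_injective (S := univ) (A := ∅) (a := 0) (T := s) le_rfl
    le_rfl (fun _ _ _ _ => Iff.rfl) (fun _ h => absurd h (notMem_empty _)) ?_ ?_ ?_ k
    (mem_univ k) t ht
  · intro m _
    rw [MW.path_zero hΦ hε, MW.path_zero hΦ hε]
    rfl
  · intro _ _ _ _ _ j _ hj
    exact absurd rfl (hj j (Or.inl (mem_univ j)))
  · intro r hr m _ hm x hx hne
    by_cases hxc : x = c
    · subst hxc
      refine hZ.bw.le_dist_of_not_ctB hr.1 hr.2 hm hx fun r' hr' hc => ?_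
      exact m.2 (hfree r' m hr'.2 (MW.C_symm _ hc))
    · exact absurd rfl (hne ⟨x, hxc⟩ (Or.inl (mem_univ _)))

/-! ### Good encounters -/

/-- The first contact of the free line `l` with the paths of `Z` is with the line `c` at time `s`, in
entrance coordinates, and the two-body encounter is isolated. -/
structure GoodEnc (Φ : Space3 → ℝ) (ε : ℝ) (Z : MW ι) (l : ML) (c : ι) (s : ℝ) (y : Space3)
    (q : CD) : Prop where
  nonneg : 0 ≤ l.1.1
  born : ∀ k, 0 ≤ Z.b k
  lt : l.1.1 < s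
  bc : Z.b c ≤ s
  pass : CDpass Φ q
  state_l : lineAt l.1.1 l.1.2 s = (y + ε • entrancePoint (relB q).1 (relB q).2, q.1)
  state_c : Z.path Φ ε s c = (y, q.2.1)
  first : FreeFarW Φ ε Z l s
  /-- `c` has no contact in `Z` up to `s` -/
  free : ∀ t k, t ≤ s → Z.C Φ ε t c k → k = c
  iso_l : ∀ t (k : Oth c), s ≤ t → t ≤ s + outT Φ ε q → Z.b k ≤ t →
    ε < dist (encPL Φ ε s y q t).1 ((rest Z c).path Φ ε t k).1
  iso_c : ∀ t (k : Oth c), s ≤ t → t ≤ s + outT Φ ε q → Z.b k ≤ t →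
    ε < dist (encPC Φ ε s y q t).1 ((rest Z c).path Φ ε t k).1
  /-- nobody is born at the exit time -/
  noborn : ∀ k, k ≠ c → Z.b k ≠ s + outT Φ ε q

namespace GoodEnc

variable (h : GoodEnc Φ ε Z l c s y q) (hΦ : AdmissiblePotential Φ) (hε : 0 < ε)
  (hZ : Z.Ok Φ ε) (hZl : (Z.ins l).Ok Φ ε) (hR : (rest Z c).Ok Φ ε)

include h in
theorem nonneg_s : 0 ≤ s := h.nonneg.trans h.lt.le

include h hΦ hε hZ hZl in
/-- Paths up to the contact. -/
theorem path_before {t : ℝ} (ht : t ∈ Icc 0 s) :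
    (Z.ins l).path Φ ε t (Sum.inr ()) = lineAt l.1.1 l.1.2 t ∧
      ∀ k, (Z.ins l).path Φ ε t (Sum.inl k) = Z.path Φ ε t k :=
  h.first.path_ins hΦ hε hZ hZl ht

include h hΦ hε hZ hZl hR in
/-- **Paths during the encounter** (and shortly after it). -/
theorem path_after : ∃ δ > 0, ∀ t ∈ Icc s (s + outT Φ ε q + δ),
    (Z.ins l).path Φ ε t (Sum.inr ()) = encPL Φ ε s y q t ∧
    (Z.ins l).path Φ ε t (Sum.inl c) = encPC Φ ε s y q t ∧
    ∀ k : Oth c, (Z.ins l).path Φ ε t (Sum.inl k) = (rest Z c).path Φ ε t k := by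
  have hs0 := h.nonneg_s
  have hs' : s ≤ s + outT Φ ε q := by
    have := h.pass.outT_pos hε
    linarith
  have hWp := world_encP (s := s) (y := y) hΦ hε h.pass.ok
  -- isolation persists shortly after the exit
  have hev : ∀ᶠ t in 𝓝[≥] (s + outT Φ ε q), ∀ k : Oth c, (Z.b k ≤ t →
      ε < dist (encPL Φ ε s y q t).1 ((rest Z c).path Φ ε t k).1) ∧ (Z.b k ≤ t →
      ε < dist (encPC Φ ε s y q t).1 ((rest Z c).path Φ ε t k).1) := by
    rw [eventually_all]
    intro k
    have c1 : ContinuousOn (fun t => (encPL Φ ε s y q t).1) (Ici s) :=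
      (hWp.continuous_pos 0).continuousOn
    have c2 : ContinuousOn (fun t => (encPC Φ ε s y q t).1) (Ici s) :=
      (hWp.continuous_pos 1).continuousOn
    have c3 : ContinuousOn (fun t => ((rest Z c).path Φ ε t k).1) (Ici s) :=
      (hR.bw.cont_pos k).mono (Ici_subset_Ici.2 hs0)
    have e1 := eventually_far (b₁ := s) (b₂ := Z.b k) hs' c1 c3
      (fun _ hb => h.iso_l _ k hs' le_rfl hb)
    have e2 := eventually_far (b₁ := s) (b₂ := Z.b k) hs' c2 c3
      (fun _ hb => h.iso_c _ k hs' le_rfl hb)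
    filter_upwards [e1, e2, self_mem_nhdsWithin] with t h1 h2 ht
    exact ⟨fun hb => h1 (hs'.trans ht) hb, fun hb => h2 (hs'.trans ht) hb⟩
  obtain ⟨u, hu, hu'⟩ := mem_nhdsGE_iff_exists_Ico_subset.1 hev
  have hu0 : s + outT Φ ε q < u := hu
  refine ⟨(u - (s + outT Φ ε q)) / 2, by linarith, fun t ht => ?_⟩
  set e : Fin 2 → ι ⊕ Unit := ![Sum.inr (), Sum.inl c] with he
  have he_inj : Function.Injective e := by
    intro i j hij
    fin_cases i <;> fin_cases j <;> simp [he] at hij ⊢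
  have hb2 : ∀ i : Fin 2, (Z.ins l).b (e i) ≤ s := by
    intro i
    fin_cases i
    · exact h.lt.le
    · exact h.bc
  have key := BWorld.agree_sum hΦ hε (b := (Z.ins l).b) (t₀ := s)
    (X := fun t => pr2 (encPL Φ ε s y q t, encPC Φ ε s y q t)) (Y := (rest Z c).path Φ ε)
    (W := (Z.ins l).path Φ ε) (e := e) (f := fun k : Oth c => Sum.inl k.1)
    he_inj (fun a b hab => Subtype.ext (Sum.inl_injective hab))
    (fun x => by
      rcases x with k | v
      · by_cases hk : k = c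
        · subst hk
          exact Or.inl ⟨1, rfl⟩
        · exact Or.inr ⟨⟨k, hk⟩, rfl⟩
      · exact Or.inl ⟨0, rfl⟩)
    (hZl.bw.mono hs0) (World.bworld hWp hb2) (hR.bw.mono hs0)
    (fun i => by
      have hp := h.path_before hΦ hε hZ hZl ⟨hs0, le_rfl⟩
      fin_cases i
      · change (Z.ins l).path Φ ε s (Sum.inr ()) = encPL Φ ε s y q s
        rw [hp.1, h.state_l, encPL_self hΦ hε h.pass.ok]
      · change (Z.ins l).path Φ ε s (Sum.inl c) = encPC Φ ε s y q s
        rw [hp.2 c, h.state_c, encPC_self hΦ hε h.pass.ok])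
    (fun k => by
      rw [(h.path_before hΦ hε hZ hZl ⟨hs0, le_rfl⟩).2 k.1]
      exact (rest_path hΦ hε hZ hR (fun r k hr hc => h.free r k hr.le hc) ⟨hs0, le_rfl⟩ k).symm)
    (s := s + outT Φ ε q + (u - (s + outT Φ ε q)) / 2)
    (fun r hr i k hi hk => by
      rcases le_or_gt r (s + outT Φ ε q) with hr' | hr'
      · fin_cases i
        · exact h.iso_l r k hr.1 hr' hk
        · exact h.iso_c r k hr.1 hr' hk
      · have hru : r < u := by linarith [hr.2]
        have h3 := hu' ⟨hr'.le, hru⟩ k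
        fin_cases i
        · exact h3.1 hk
        · exact h3.2 hk) t ht
  exact ⟨key.1 0, key.1 1, key.2⟩

include h hΦ hε hZ hZl hR in
/-- **A good encounter is a `Hit`.** -/
theorem hit : Hit Φ ε Z l c s (s + outT Φ ε q) := by
  have hs0 := h.nonneg_s
  have hT := h.pass.outT_pos hε
  obtain ⟨δ, hδ, hp⟩ := h.path_after hΦ hε hZ hZl hR
  refine ⟨hs0, by linarith, h.born, h.nonneg, h.free,
    fun t k ht => h.first.not_C hΦ hε hZ hZl h.nonneg ht k, ?_, ?_, ?_, ?_, ?_, h.noborn⟩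
  · refine ⟨h.lt.le, h.bc, Or.inr (Or.inl h.lt), ?_⟩
    have h1 := hp s ⟨le_rfl, by linarith⟩
    rw [h1.1, h1.2.1, dist_entrance hΦ hε h.pass.ok]
  · have hlt : l.1.1 < s + outT Φ ε q := h.lt.trans (by linarith)
    refine ⟨hlt.le, h.bc.trans (by linarith), Or.inr (Or.inl hlt), ?_⟩
    have h1 := hp (s + outT Φ ε q) ⟨by linarith, by linarith⟩
    rw [h1.1, h1.2.1, h.pass.dist_exit hε]
  · intro t k ht ht' hc
    by_contra hk
    have h1 := hp t ⟨ht, by linarith⟩
    have h2 : dist ((Z.ins l).path Φ ε t (Sum.inr ())).1 ((Z.ins l).path Φ ε t (Sum.inl k)).1 ≤ ε :=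
      hc.2.2.2
    rw [h1.1, h1.2.2 ⟨k, hk⟩] at h2
    have h3 : (Z.ins l).b (Sum.inl k) ≤ t := MW.C_born' hc
    exact absurd (h.iso_l t ⟨k, hk⟩ ht ht' h3) (not_lt.2 h2)
  · intro t k ht ht' hc
    by_contra hk
    have h1 := hp t ⟨ht, by linarith⟩
    have h2 : dist ((Z.ins l).path Φ ε t (Sum.inl c)).1 ((Z.ins l).path Φ ε t (Sum.inl k)).1 ≤ ε :=
      hc.2.2.2
    rw [h1.2.1, h1.2.2 ⟨k, hk⟩] at h2
    have h3 : (Z.ins l).b (Sum.inl k) ≤ t := MW.C_born' hc
    exact absurd (h.iso_c t ⟨k, hk⟩ ht ht' h3) (not_lt.2 h2)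
  · refine ⟨δ, hδ, fun t ht ht' => ?_⟩
    have h1 := hp t ⟨by linarith, ht'.le⟩
    rw [h1.1, h1.2.1]
    exact h.pass.lt_dist hΦ hε ht

include h hΦ hε hZ hZl hR in
/-- The outgoing line of `l`. -/
theorem outL_eq : outL Φ ε Z l c (s + outT Φ ε q) = (lineL' Φ ε s y q, l.2 + Z.m c) := by
  have hT := h.pass.outT_pos hε
  obtain ⟨δ, hδ, hp⟩ := h.path_after hΦ hε hZ hZl hR
  have h1 := hp (s + outT Φ ε q) ⟨by linarith, by linarith⟩
  unfold outL
  rw [h1.1, encPL_exit hε.ne']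
  rfl

include h hΦ hε hZ hZl hR in
/-- The outgoing line of `c`. -/
theorem outC_eq : outC Φ ε Z l c (s + outT Φ ε q) = (lineC' Φ ε s y q, l.2 + Z.m c) := by
  have hT := h.pass.outT_pos hε
  obtain ⟨δ, hδ, hp⟩ := h.path_after hΦ hε hZ hZl hR
  have h1 := hp (s + outT Φ ε q) ⟨by linarith, by linarith⟩
  unfold outC
  rw [h1.2.1, encPC_exit hε.ne']
  rfl

end GoodEnc

end

end Crest.Agent.R122.Ins45
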