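import Crest.Agent.R122.LN2Touch_473

/-!
# Row 122: no particle of the gas near a given point of the structure (helper473)

* `Birth Φ ε R w s y` : at time `s` a particle of the gas `w` is within `R ε` of `y`.
* `BInv` : translation invariant structure, with a point `y` (and a time `s`) of it.
* `lintegral_birthN_le` : mass `≤ (pinned mass) · c₃ R³ ε`.
* `gNull_birth` : null event. The structure measure only has to be dominated by a translation
  invariant one of finite pinned mass.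
-/

set_option autoImplicit false
set_option linter.unusedSectionVars false

open MeasureTheory Set Filter Topology
open scoped Classical ENNReal
open Crest.AnalysisR.Kinetic

noncomputable section

namespace Crest.Agent.R122.LN2

open Crest.Agent.R122.GC311 Crest.Agent.R122.EDefs602 Crest.Agent.R122.Flow671
open Crest.Agent.R122.EBasic602 Crest.Agent.R122.Causal291
open Crest.Agent.R122.Boost969 (LSt posAt)
open Crest.Agent.R122.Pair292 (shL)
open Crest.Agent.R122.Gate424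

variable {Φ : Space3 → ℝ} {f₀ : PhasePoint → ℝ} {ε R : ℝ}

/-- At time `s` a particle of the gas is within `R ε` of `y`. -/
def Birth (Φ : Space3 → ℝ) (ε R : ℝ) {n : ℕ} (w : Config n) (s : ℝ) (y : Space3) : Prop :=
  ∃ i : Fin n, dist ((MW.cfg w).path Φ ε s i).1 y ≤ R * ε

/-- The number of particles of the gas within `R ε` of `y` at time `s`. -/
def birthN (Φ : Space3 → ℝ) (ε R : ℝ) (n : ℕ) (p : Config n × (ℝ × Space3)) : ℝ≥0∞ :=
  ∑ i : Fin n, (Metric.closedBall (0 : Space3) (R * ε)).indicator 1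
    (p.2.2 - (flow Φ ε p.2.1 p.1 i).1)

theorem measurable_birthN (hΦ : AdmissiblePotential Φ) (hε : 0 < ε) (R : ℝ) (n : ℕ) :
    Measurable (birthN Φ ε R n) := by
  unfold birthN
  refine Finset.measurable_sum _ fun i _ => ?_
  refine (measurable_one.indicator Metric.isClosed_closedBall.measurableSet).comp ?_
  have h1 : Measurable fun p : Config n × (ℝ × Space3) => flow Φ ε p.2.1 p.1 :=
    (measurable_flow_joint hΦ hε).comp (measurable_snd.fst.prodMk measurable_fst)
  exact measurable_snd.snd.sub ((measurable_pi_apply i).comp h1).fst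

theorem one_le_birthN (hΦ : AdmissiblePotential Φ) (hε : 0 < ε) {n : ℕ} {w : Config n} {s : ℝ}
    {y : Space3} (h : Birth Φ ε R w s y) : 1 ≤ birthN Φ ε R n (w, (s, y)) := by
  obtain ⟨i, hi⟩ := h
  rw [cfg_path hΦ hε] at hi
  unfold birthN
  refine le_trans (le_of_eq ?_) (Finset.single_le_sum
    (f := fun i : Fin n => (Metric.closedBall (0 : Space3) (R * ε)).indicator
      (1 : Space3 → ℝ≥0∞) (y - (flow Φ ε s w i).1)) (fun _ _ => bot_le) (Finset.mem_univ i))
  rw [indicator_of_mem]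
  · rfl
  · rw [mem_closedBall_zero_iff, ← dist_eq_norm, dist_comm]
    exact hi

/-- Integral over the point. -/
theorem lintegral_birthN {n : ℕ} (w : Config n) (s : ℝ) (y : Space3) :
    ∫⁻ a : Space3, birthN Φ ε R n (w, (s, y + a)) =
      (ENNReal.ofReal (R * ε) ^ 3 * Sweep815.c3) * n := by
  unfold birthN
  rw [lintegral_finsetSum]
  · have h1 : ∀ i : Fin n, ∫⁻ a : Space3, (Metric.closedBall (0 : Space3) (R * ε)).indicator
        (1 : Space3 → ℝ≥0∞) (y + a - (flow Φ ε s w i).1) =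
        ENNReal.ofReal (R * ε) ^ 3 * Sweep815.c3 := by
      intro i
      have h2 : ∀ a : Space3, y + a - (flow Φ ε s w i).1 = (y - (flow Φ ε s w i).1) + a := by
        intro a
        abel
      simp only [h2]
      rw [lintegral_add_left_eq_self (fun a : Space3 =>
        (Metric.closedBall (0 : Space3) (R * ε)).indicator (1 : Space3 → ℝ≥0∞) a),
        lintegral_indicator_one Metric.isClosed_closedBall.measurableSet,
        Sweep815.vol_closedBall]
    simp only [h1]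
    rw [Finset.sum_const, Finset.card_univ, Fintype.card_fin, nsmul_eq_mul, mul_comm]
  · intro i _
    have h2 : Measurable fun a : Space3 => y + a - (flow Φ ε s w i).1 :=
      (measurable_const.add measurable_id).sub measurable_const
    exact (measurable_one.indicator Metric.isClosed_closedBall.measurableSet).comp h2

/-- The mean number of particles. -/
theorem gcE_card_le' (hf : Measurable f₀) (h1 : ∫⁻ z, ENNReal.ofReal (f₀ z) ≤ 1) (ε : ℝ) :
    gcE f₀ ε (fun n (_ : Config n) => (n : ℝ≥0∞)) ≤ activity ε := by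
  have h := gcE_sum_le hf h1 ε (fun _ => 1) measurable_const
  have e : (fun (n : ℕ) (Z : Config n) => ∑ j : Fin n, (1 : ℝ≥0∞)) =
      fun (n : ℕ) (_ : Config n) => (n : ℝ≥0∞) := by
    funext n Z
    simp
  rw [e] at h
  refine h.trans ?_
  simp only [mul_one]
  exact mul_le_of_le_one_right bot_le h1

/-- Translation invariant structure with a point `y`, a time `s` and a reference point `pos`. -/
structure BInv {Θ : Type} [MeasurableSpace Θ] (m : Measure Θ) (Tr : Space3 → Θ → Θ) (s : Θ → ℝ)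
    (y pos : Θ → Space3) : Prop where
  sf : SFinite m
  mT : Measurable fun q : Space3 × Θ => Tr q.1 q.2
  inv : ∀ a, m.map (Tr a) = m
  ms : Measurable s
  my : Measurable y
  mpos : Measurable pos
  s_tr : ∀ a θ, s (Tr a θ) = s θ
  y_tr : ∀ a θ, y (Tr a θ) = y θ + a
  pos_tr : ∀ a θ, pos (Tr a θ) = pos θ + a

section

variable {Θ : Type} [MeasurableSpace Θ] {m m' : Measure Θ} {Tr : Space3 → Θ → Θ} {s : Θ → ℝ}
  {y pos : Θ → Space3}

theorem BInv.invFam (h : BInv m Tr s y pos) :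
    Pair292.InvFam Tr (fun θ => ((s θ, (y θ, 0)) : LSt)) pos m where
  sf := h.sf
  mT := h.mT
  me := h.ms.prodMk (h.my.prodMk measurable_const)
  mpos := h.mpos
  eT a θ := by
    rw [h.s_tr, h.y_tr]
    unfold Pair292.shL
    rfl
  posT := h.pos_tr
  inv := h.inv

/-- **Mass bound.** -/
theorem lintegral_birthN_le (hΦ : AdmissiblePotential Φ) (hf : Measurable f₀)
    (h1 : ∫⁻ z, ENNReal.ofReal (f₀ z) ≤ 1) (hε : 0 < ε) (hR : 0 ≤ R)
    (H : BInv m Tr s y pos) {χ : Space3 → ℝ≥0∞} (hχ : Measurable χ) (hχ1 : ∫⁻ x, χ x = 1) :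
    ∫⁻ θ, gcE f₀ ε (fun n w => birthN Φ ε R n (w, (s θ, y θ))) ∂m ≤
      (∫⁻ θ, χ (pos θ) ∂m) * (ENNReal.ofReal R ^ 3 * Sweep815.c3 * ENNReal.ofReal ε) := by
  have := H.sf
  have hG : Measurable fun q : ℝ × Space3 => gcE f₀ ε fun n w => birthN Φ ε R n (w, q) :=
    MeasE416.measurable_gcE_of hf ε (F := fun n q w => birthN Φ ε R n (w, q)) fun n =>
      (measurable_birthN hΦ hε R n).comp measurable_swap
  have hGθ : Measurable fun θ => gcE f₀ ε (fun n w => birthN Φ ε R n (w, (s θ, y θ))) :=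
    hG.comp (H.ms.prodMk H.my)
  rw [H.invFam.disint hχ hχ1 hGθ]
  set K : ℝ≥0∞ := ENNReal.ofReal R ^ 3 * Sweep815.c3 * ENNReal.ofReal ε with hK
  have hc3 : Sweep815.c3 ≠ ∞ := by
    unfold Sweep815.c3
    exact ENNReal.ofReal_ne_top
  have hact : activity ε * ENNReal.ofReal ε ^ 2 = 1 := by
    have h2 := activity_pow_mul_pow hε 1
    rwa [pow_one, pow_one, ENNReal.ofReal_pow hε.le] at h2
  have hK2 : ∀ θ, ∫⁻ a : Space3, gcE f₀ ε (fun n w => birthN Φ ε R n (w, (s (Tr a θ),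
      y (Tr a θ)))) ≤ K := by
    intro θ
    simp only [H.s_tr, H.y_tr]
    have hF : ∀ n, Measurable (Function.uncurry fun (a : Space3) (w : Config n) =>
        birthN Φ ε R n (w, (s θ, y θ + a))) := fun n => by
      have h2 : Measurable fun q : Space3 × Config n => (q.2, (s θ, y θ + q.1)) :=
        measurable_snd.prodMk (measurable_const.prodMk (measurable_const.add measurable_fst))
      exact (measurable_birthN hΦ hε R n).comp h2
    rw [BadHit370.lintegral_gcE (F := fun n (a : Space3) w => birthN Φ ε R n (w, (s θ, y θ + a)))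
      hf ε volume hF]
    simp only [lintegral_birthN]
    rw [gcE_const_mul f₀ ε (ENNReal.mul_ne_top (ENNReal.pow_ne_top ENNReal.ofReal_ne_top) hc3)]
    calc ENNReal.ofReal (R * ε) ^ 3 * Sweep815.c3 * gcE f₀ ε (fun n (_ : Config n) => (n : ℝ≥0∞))
        ≤ ENNReal.ofReal (R * ε) ^ 3 * Sweep815.c3 * activity ε :=
          mul_le_mul_right (gcE_card_le' hf h1 ε) _
      _ = K * (activity ε * ENNReal.ofReal ε ^ 2) := by
          rw [ENNReal.ofReal_mul hR, hK]
          ring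
      _ = K := by rw [hact, mul_one]
  calc ∫⁻ θ, χ (pos θ) * (∫⁻ a : Space3, gcE f₀ ε (fun n w => birthN Φ ε R n (w, (s (Tr a θ),
        y (Tr a θ))))) ∂m
      ≤ ∫⁻ θ, χ (pos θ) * K ∂m := lintegral_mono fun θ => mul_le_mul_right (hK2 θ) _
    _ = _ := lintegral_mul_const _ (hχ.comp H.mpos)

end

section null

variable {Θ : Type} [MeasurableSpace Θ] {I : Type} {m m' : ℝ → I → Measure Θ}
  {Tr : ℝ → I → Space3 → Θ → Θ} {s : ℝ → I → Θ → ℝ} {y pos : ℝ → I → Θ → Space3}

/-- **No particle of the gas near the point `y` of the structure**: null event. -/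
theorem gNull_birth (hΦ : AdmissiblePotential Φ) (hf : Measurable f₀)
    (h1 : ∫⁻ z, ENNReal.ofReal (f₀ z) ≤ 1) (R : ℝ) {c M : ℝ≥0∞} (hc : c ≠ ∞) (hM : M ≠ ∞)
    {χ : Space3 → ℝ≥0∞} (hχ : Measurable χ) (hχ1 : ∫⁻ x, χ x = 1)
    (hm : ∀ ε i, 0 < ε → ∀ F : Θ → ℝ≥0∞, Measurable F → ∫⁻ θ, F θ ∂(m ε i) ≤
      c * ∫⁻ θ, F θ ∂(m' ε i))
    (H : ∀ ε i, 0 < ε → BInv (m' ε i) (Tr ε i) (s ε i) (y ε i) (pos ε i))
    (hmass : ∀ ε i, 0 < ε → ∫⁻ θ, χ (pos ε i θ) ∂(m' ε i) ≤ M) :
    GNull f₀ m (fun ε i _ θ w => Birth Φ ε R w (s ε i θ) (y ε i θ)) := by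
  intro δ hδ
  set R' : ℝ := max R 0 with hR'
  have hc3 : Sweep815.c3 ≠ ∞ := by
    unfold Sweep815.c3
    exact ENNReal.ofReal_ne_top
  set K : ℝ≥0∞ := c * (M * (ENNReal.ofReal R' ^ 3 * Sweep815.c3)) with hK
  have hKt : K ≠ ∞ := ENNReal.mul_ne_top hc (ENNReal.mul_ne_top hM
    (ENNReal.mul_ne_top (ENNReal.pow_ne_top ENNReal.ofReal_ne_top) hc3))
  have htend : Tendsto (fun ε : ℝ => K * ENNReal.ofReal ε) (𝓝[>] 0) (𝓝 0) := by
    have h2 : Tendsto (fun ε : ℝ => ENNReal.ofReal ε) (𝓝[>] 0) (𝓝 0) := by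
      have h3 : Tendsto (fun ε : ℝ => ENNReal.ofReal ε) (𝓝 0) (𝓝 (ENNReal.ofReal 0)) :=
        (ENNReal.continuous_ofReal.tendsto 0)
      rw [ENNReal.ofReal_zero] at h3
      exact h3.mono_left nhdsWithin_le_nhds
    have h4 := ENNReal.Tendsto.const_mul (a := K) h2 (Or.inr hKt)
    rwa [mul_zero] at h4
  have hev : ∀ᶠ ε : ℝ in 𝓝[>] 0, K * ENNReal.ofReal ε < δ := htend.eventually (gt_mem_nhds hδ)
  obtain ⟨ε₀, hε₀, hsub⟩ := (mem_nhdsGT_iff_exists_Ioo_subset).1 hev
  refine ⟨ε₀, hε₀, fun ε hε hlt i => ?_⟩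
  have hB := H ε i hε
  have hG : Measurable fun q : ℝ × Space3 => gcE f₀ ε fun n w => birthN Φ ε R' n (w, q) :=
    MeasE416.measurable_gcE_of hf ε (F := fun n q w => birthN Φ ε R' n (w, q)) fun n =>
      (measurable_birthN hΦ hε R' n).comp measurable_swap
  refine ⟨fun n p => birthN Φ ε R' n (p.2, (s ε i p.1, y ε i p.1)), fun n => ?_, ?_, ?_⟩
  · exact (measurable_birthN hΦ hε R' n).comp (measurable_snd.prodMk
      ((hB.ms.comp measurable_fst).prodMk (hB.my.comp measurable_fst)))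
  · rintro n θ w - ⟨j, hj⟩
    exact one_le_birthN hΦ hε ⟨j, hj.trans (mul_le_mul_of_nonneg_right (le_max_left _ _) hε.le)⟩
  · calc ∫⁻ θ, gcE f₀ ε (fun n w => birthN Φ ε R' n (w, (s ε i θ, y ε i θ))) ∂(m ε i)
        ≤ c * ∫⁻ θ, gcE f₀ ε (fun n w => birthN Φ ε R' n (w, (s ε i θ, y ε i θ))) ∂(m' ε i) :=
          hm ε i hε _ (hG.comp (hB.ms.prodMk hB.my))
      _ ≤ c * ((∫⁻ θ, χ (pos ε i θ) ∂(m' ε i)) *
            (ENNReal.ofReal R' ^ 3 * Sweep815.c3 * ENNReal.ofReal ε)) :=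
          mul_le_mul_right (lintegral_birthN_le hΦ hf h1 hε (le_max_right _ _) hB hχ hχ1) _
      _ ≤ c * (M * (ENNReal.ofReal R' ^ 3 * Sweep815.c3 * ENNReal.ofReal ε)) :=
          mul_le_mul_right (mul_le_mul_left (hmass ε i hε) _) _
      _ = K * ENNReal.ofReal ε := by rw [hK]; ring
      _ ≤ δ := le_of_lt (hsub ⟨hε, hlt⟩)

/-- The same for the measure itself. -/
theorem gNull_birth_self (hΦ : AdmissiblePotential Φ) (hf : Measurable f₀)
    (h1 : ∫⁻ z, ENNReal.ofReal (f₀ z) ≤ 1) (R : ℝ) {M : ℝ≥0∞} (hM : M ≠ ∞)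
    {χ : Space3 → ℝ≥0∞} (hχ : Measurable χ) (hχ1 : ∫⁻ x, χ x = 1)
    (H : ∀ ε i, 0 < ε → BInv (m ε i) (Tr ε i) (s ε i) (y ε i) (pos ε i))
    (hmass : ∀ ε i, 0 < ε → ∫⁻ θ, χ (pos ε i θ) ∂(m ε i) ≤ M) :
    GNull f₀ m (fun ε i _ θ w => Birth Φ ε R w (s ε i θ) (y ε i θ)) :=
  gNull_birth hΦ hf h1 R ENNReal.one_ne_top hM hχ hχ1 (fun _ _ _ _ _ => (one_mul _).ge) H hmass

end null

end Crest.Agent.R122.LN2

end
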