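import Crest.Agent.R122.LNTreeA_410
import Crest.Agent.R122.VLInstD_442

/-!
# Row 122, LN1, (X1) part B (helper410): a tree as a part of a virtual system

`TreeIn M Z T' P ℓ p e` : the labels `e i`, `i : Idx P`, of `M` are born before time `0`, they are
not the obstacle, and their phase points are the lines of the tree `(ℓ, p)`, valid and separated on
`[0, T']`.

* `st_tree`, `ok_tree` : the isolated part is the explicit path of the tree on `[0, T']`.
* `ct_tree` : contacts are collision windows.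
* `conn_tree`, `exit_tree`, `last_tree`, `line_tree` : the exit data of 255's `Parts`.
-/

set_option autoImplicit false
set_option linter.unusedSectionVars false

open MeasureTheory Set Filter Topology
open Crest.AnalysisR.Kinetic
open scoped Classical

noncomputable section

namespace Crest.Agent.R122.LNTree410

open Kin796 Kin796.CTree Disc416 Tree674 PathFlow968 TreeLines335 LNg410 Flow671 Loc45 Ins45
open VL581 VL581.VSys VLInst442

variable {J κ : Type} [Fintype J] {M : VSys J κ} {Z : J → PhasePoint} {T' : ℝ} {P : CTree}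
  {ℓ : PhasePoint} {p : Par P} {e : Idx P ↪ J}

/-- The labels `e i` form a tree `(ℓ, p)` valid and separated on `[0, T']`. -/
structure TreeIn (M : VSys J κ) (Z : J → PhasePoint) (T' : ℝ) (P : CTree) (ℓ : PhasePoint)
    (p : Par P) (e : Idx P ↪ J) : Prop where
  b : ∀ i, M.b (e i) ≤ 0
  Z : ∀ i, Z (e i) = lines M.Φ M.ε P ℓ p i
  o : ∀ i, M.o ≠ some (e i)
  valid : Valid M.Φ M.ε P T' ℓ.2 p
  sep : Sep M.Φ M.ε P T' ℓ p

/-- The labels of the tree. -/
def part (e : Idx P ↪ J) : Finset J := Finset.univ.map e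

theorem mem_part {j : J} : j ∈ part e ↔ ∃ i, e i = j := by
  simp [part]

theorem mem_part_self (i : Idx P) : e i ∈ part e := mem_part.2 ⟨i, rfl⟩

namespace TreeIn

theorem bb (h : TreeIn M Z T' P ℓ p e) (i : Idx P) : M.bb (e i) = 0 := max_eq_right (h.b i)

theorem mono (h : TreeIn M Z T' P ℓ p e) {T'' : ℝ} (hT : T' ≤ T'')
    (hs : Sep M.Φ M.ε P T'' ℓ p) : TreeIn M Z T'' P ℓ p e :=
  ⟨h.b, h.Z, h.o, valid_mono hT h.valid, hs⟩

variable (hΦ : AdmissiblePotential M.Φ) (hε : 0 < M.ε)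
include hΦ hε

/-- The flow of the lines of the tree is a local world. -/
theorem lworld_flow (h : TreeIn M Z T' P ℓ p e) (hT : 0 ≤ T') (t : ℝ) :
    LWorld M.Φ M.ε (fun _ : Idx P => 0) 0 t (fun s => flow M.Φ M.ε s (lines M.Φ M.ε P ℓ p)) :=
  LWorld.of_bworld (World.bworld (Loc45.world_flow hΦ hε
    (lines_mem_Dom hε hT h.valid.2 h.sep)) fun _ => le_rfl)

/-- **The isolated part is the explicit path of the tree.** -/
theorem st_tree (h : TreeIn M Z T' P ℓ p e) {t : ℝ} (ht : t ∈ Icc 0 T') (i : Idx P) :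
    M.st (part e) t Z (e i) = path M.Φ M.ε P ℓ p t i := by
  have hT : 0 ≤ T' := ht.1.trans ht.2
  have : Nonempty (Idx P) := ⟨root P⟩
  have hinv : ∀ i, Function.invFun e (e i) = i := Function.leftInverse_invFun e.injective
  have h1 := st_eq_of_lworld hΦ hε (h.lworld_flow hΦ hε hT t) (A := part e) (Z := Z)
    (f := Function.invFun e) (fun a ha _ b hb _ hab => by
      obtain ⟨a, rfl⟩ := mem_part.1 ha
      obtain ⟨b, rfl⟩ := mem_part.1 hb
      rw [hinv, hinv] at hab
      rw [hab]) (fun a ha _ s hs => by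
      obtain ⟨a, rfl⟩ := mem_part.1 ha
      rw [h.bb]) (fun a ha _ => by
      obtain ⟨a, rfl⟩ := mem_part.1 ha
      rw [hinv, h.Z, flow_zero hΦ hε]) (fun s _ a _ _ _ k hk => by
      exact absurd (hinv k) (hk (e k) (mem_part_self k) (h.o k))) t ⟨ht.1, le_rfl⟩ (e i)
      (mem_part_self i) (h.o i)
  rw [h1, hinv, path_eq_flow hΦ hε h.valid h.sep ht]

/-- No bad birth in the part. -/
theorem ok_tree (h : TreeIn M Z T' P ℓ p e) (hT : 0 ≤ T') (t : ℝ) : M.ok (part e) t Z := by
  intro a ha _ _ b hb _ hba _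
  obtain ⟨a, rfl⟩ := mem_part.1 ha
  obtain ⟨b, rfl⟩ := mem_part.1 hb
  rw [h.bb, st_nonpos M le_rfl, st_nonpos M le_rfl, fl_zero, fl_zero, h.Z, h.Z]
  exact Sep.zero hε.le hT h.valid.2 h.sep fun h' => hba (by rw [h'])

/-- Contacts of the isolated part are the collision windows. -/
theorem ct_tree (h : TreeIn M Z T' P ℓ p e) {i j : Idx P} (hij : i ≠ j) {t : ℝ}
    (ht : t ∈ Icc 0 T') :
    dist (M.st (part e) t Z (e i)).1 (M.st (part e) t Z (e j)).1 ≤ M.ε ↔
      InWindow M.Φ M.ε P ℓ.2 p i j t ∨ InWindow M.Φ M.ε P ℓ.2 p j i t := by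
  rw [h.st_tree hΦ hε ht, h.st_tree hΦ hε ht]
  constructor
  · intro h1
    by_contra h2
    push Not at h2
    exact absurd (h.sep i j hij t ht h2.1 h2.2) (not_lt.2 h1)
  · rintro (h1 | h1)
    · exact InWindow.dist_le hΦ hε P T' ℓ p h.valid i j t h1
    · rw [dist_comm]
      exact InWindow.dist_le hΦ hε P T' ℓ p h.valid j i t h1

/-- **The part is really connected** in its own isolated world. -/
theorem conn_tree (h : TreeIn M Z T' P ℓ p e) :
    CutConn (part e) (fun j k => ∃ r ∈ Icc 0 T', M.bb j ≤ r ∧ M.bb k ≤ r ∧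
      dist (M.st (part e) r Z j).1 (M.st (part e) r Z k).1 ≤ M.ε) := by
  refine (cutConn_tree (Φ := M.Φ) hε.le P ℓ.2 p).map e fun i _ j _ hij hw => Or.inl ?_
  obtain ⟨u, hu⟩ := hw
  have h1 := InWindow.mem hε.le P T' ℓ.2 p h.valid.2 i j u hu
  exact ⟨u, ⟨h1.1.le, h1.2.le⟩, by rw [h.bb]; exact h1.1.le, by rw [h.bb]; exact h1.1.le,
    (h.ct_tree hΦ hε hij ⟨h1.1.le, h1.2.le⟩).2 (Or.inl hu)⟩

/-- After its release time a particle is far from the other particles of the part. -/
theorem exit_tree (h : TreeIn M Z T' P ℓ p e) {i : Idx P} {k : J} (hk : k ∈ part e)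
    (hki : k ≠ e i) {t : ℝ} (ht : rel P p i < t) (htT : t ≤ T') :
    M.ε < dist (M.st (part e) t Z (e i)).1 (M.st (part e) t Z k).1 := by
  obtain ⟨k, rfl⟩ := mem_part.1 hk
  have h0 : t ∈ Icc 0 T' := ⟨(rel_nonneg hε.le h.valid.2 i).trans ht.le, htT⟩
  rw [h.st_tree hΦ hε h0, h.st_tree hΦ hε h0]
  exact lt_dist_of_rel hε.le h.valid.2 h.sep (fun h' => hki (by rw [h'])) ht htT

/-- At its release time a particle is in contact with a partner (or it is a leaf tree). -/
theorem last_tree (h : TreeIn M Z T' P ℓ p e) (hT : 0 < T') (i : Idx P) :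
    rel P p i = M.bb (e i) ∨ ∃ k ∈ part e, k ≠ e i ∧ M.bb k ≤ rel P p i ∧
      dist (M.st (part e) (rel P p i) Z (e i)).1 (M.st (part e) (rel P p i) Z k).1 ≤ M.ε := by
  by_cases hP : P = leaf
  · left
    subst hP
    rw [h.bb]
    rfl
  · right
    obtain ⟨j, hj, hw⟩ := exists_window_rel (Φ := M.Φ) hε.le P ℓ.2 p hP i
    have h0 : rel P p i ∈ Icc 0 T' :=
      ⟨rel_nonneg hε.le h.valid.2 i, (rel_lt hε.le hT h.valid.2 i).le⟩
    refine ⟨e j, mem_part_self j, fun h' => hj (e.injective h'), by rw [h.bb]; exact h0.1, ?_⟩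
    exact (h.ct_tree hΦ hε hj.symm h0).2 hw

/-- After its release time a particle of the isolated part is on its final line. -/
theorem line_tree (h : TreeIn M Z T' P ℓ p e) (i : Idx P) {t : ℝ} (ht : rel P p i ≤ t)
    (htT : t ≤ T') : M.st (part e) t Z (e i) = onLine (fin M.Φ M.ε P ℓ p i) t := by
  rw [h.st_tree hΦ hε ⟨(rel_nonneg hε.le h.valid.2 i).trans ht, htT⟩,
    path_rel hε P T' ℓ p h.valid i t ht]

/-- The free backward extension to time `0` of the state at the release time. -/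
theorem back_tree (h : TreeIn M Z T' P ℓ p e) (hT : 0 < T') (i : Idx P) :
    ((M.st (part e) (rel P p i) Z (e i)).1 - rel P p i • (M.st (part e) (rel P p i) Z (e i)).2,
      (M.st (part e) (rel P p i) Z (e i)).2) = fin M.Φ M.ε P ℓ p i := by
  rw [h.line_tree hΦ hε i le_rfl (rel_lt hε.le hT h.valid.2 i).le]
  simp only [onLine]
  ext1
  · simp
  · rfl

/-- The part is `M`-connected. -/
theorem Conn_tree (h : TreeIn M Z T' P ℓ p e) [Nonempty κ] (hT : T' ≤ M.T) {C : ℝ}
    (hC : 1 ≤ C) : M.Conn C (part e) Z := by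
  by_cases h0 : 0 ≤ T'
  · refine conn_of_cut (h.conn_tree hΦ hε) fun j hj k hk _ hr => ?_
    obtain ⟨r, hr, _, _, hd⟩ := hr
    refine ⟨r, ⟨hr.1, hr.2.trans hT⟩, part e, subset_rfl, part e, subset_rfl,
      Classical.arbitrary κ, Classical.arbitrary κ, hj, hk, h.ok_tree hΦ hε h0 r,
      h.ok_tree hΦ hε h0 r, ?_, ?_, ?_⟩
    · obtain ⟨i, rfl⟩ := mem_part.1 hj
      intro h'
      exact absurd h' (h.o i)
    · obtain ⟨i, rfl⟩ := mem_part.1 hk
      intro h'
      exact absurd h' (h.o i)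
    · obtain ⟨i, rfl⟩ := mem_part.1 hj
      obtain ⟨i', rfl⟩ := mem_part.1 hk
      unfold VSys.pos
      rw [if_neg (h.o i), if_neg (h.o i')]
      refine hd.trans ?_
      nlinarith
  · -- a tree on an empty interval is a leaf
    cases P with
    | leaf =>
      have : part e = {e ()} := by
        ext j
        rw [mem_part, Finset.mem_singleton]
        exact ⟨fun ⟨i, hi⟩ => by rw [← hi]; rfl, fun h' => ⟨(), h'.symm⟩⟩
      rw [this]
      exact conn_singleton _
    | node l r =>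
      exfalso
      have h1 := h.valid.2.1
      have h2 := h.valid.2.2.1
      have h3 := sin_le hε.le (Φ := M.Φ) ℓ.2 p.1
      linarith

end TreeIn

end Crest.Agent.R122.LNTree410

end
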