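import Mathlib
import Crest.Agent.R122.CausalGen_291

/-!
# Row 122, LN3-D (helper331), part 1: extraction of a trace from a clean chain (combinatorics)

`C b s j k` (`b : Bool`): contact of `j` and `k` at time `s` in the world `b`.  `E s i j`: virtual
contact at time `s`.  `Tree T C E`: the virtual contacts are tree-like.  `HistE C E t q`: the
contacts in the protected history of `(q, t)` are virtual contacts.

* `CC` : clean chains (which world is followed, no contact with the ghost partner).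
* `Trace Ok` : list of fresh clusters hit by the followed particle.
* `trace_of_cc` : a clean chain with `m` links gives traces of every length `≤ m`.
-/

set_option autoImplicit false

open Set

namespace Crest.Agent.R122.LinkD331

open Crest.Agent.R122.Causal291

variable {J : Type}

/-! ### Backward clusters -/

section bc

variable {C : ℝ → J → J → Prop}

theorem past_mono_time {i : J} {t₁ t₂ : ℝ} (h : t₁ ≤ t₂) {s : ℝ} {k : J} (hk : Past C t₁ i s k) :
    Past C t₂ i s k := by
  induction hk with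
  | root hs => exact .root (hs.trans h)
  | step _ hc hs ih => exact .step ih hc hs

theorem bc_mono_time (i : J) {t₁ t₂ : ℝ} (h : t₁ ≤ t₂) : BC C t₁ i ⊆ BC C t₂ i :=
  fun _ hk => past_mono_time h hk

theorem bc_contact {i j : J} {t : ℝ} (hc : C t i j) : BC C t j ⊆ BC C t i :=
  BC_subset_of_mem (Past.contact (.root le_rfl) hc)

/-- Backward cluster strictly before `r`. -/
def pre (C : ℝ → J → J → Prop) (r : ℝ) (e : J) : Set J := {k | ∃ s < r, Past C s e 0 k}

theorem pre_subset (r : ℝ) (e : J) : pre C r e ⊆ BC C r e :=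
  fun _ ⟨_, hs, hk⟩ => past_mono_time hs.le hk

theorem bc_subset_pre {s r : ℝ} (h : s < r) (e : J) : BC C s e ⊆ pre C r e := fun _ hk => ⟨s, h, hk⟩

theorem self_mem_pre {r : ℝ} (h : 0 < r) (e : J) : e ∈ pre C r e := ⟨0, h, .root le_rfl⟩

/-- Just before `r` the backward cluster is constant. -/
theorem exists_left [Finite J] {r : ℝ} (hr : 0 < r) (e : J) :
    ∃ s₀, 0 ≤ s₀ ∧ s₀ < r ∧ ∀ s, s₀ ≤ s → s < r → BC C s e = pre C r e := by
  classical
  have := Fintype.ofFinite J
  have h1 : ∀ k : J, ∃ s, 0 ≤ s ∧ s < r ∧ (k ∈ pre C r e → Past C s e 0 k) := by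
    intro k
    by_cases hk : k ∈ pre C r e
    · obtain ⟨s, hs, hk'⟩ := hk
      exact ⟨s, hk'.le, hs, fun _ => hk'⟩
    · exact ⟨0, le_rfl, hr, fun h => absurd h hk⟩
  choose f hf0 hfr hf using h1
  have hne : (insert 0 (Finset.univ.image f)).Nonempty := ⟨0, Finset.mem_insert_self _ _⟩
  refine ⟨(insert 0 (Finset.univ.image f)).max' hne, Finset.le_max' _ _ (Finset.mem_insert_self _ _),
    ?_, fun s hs hsr => Subset.antisymm (bc_subset_pre hsr e) fun k hk => ?_⟩
  · rw [Finset.max'_lt_iff]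
    intro x hx
    rcases Finset.mem_insert.1 hx with rfl | hx
    · exact hr
    · obtain ⟨k, _, rfl⟩ := Finset.mem_image.1 hx
      exact hfr k
  · have h2 : f k ≤ s := (Finset.le_max' _ _ (Finset.mem_insert_of_mem
      (Finset.mem_image_of_mem f (Finset.mem_univ k)))).trans hs
    exact past_mono_time h2 (hf k hk)

/-- Just after `r` the backward cluster is constant. -/
theorem exists_right [Finite J] {T : ℝ}
    (hC : ∀ j k, j ≠ k → IsClosed {s | s ∈ Icc 0 T ∧ C s j k}) {r : ℝ} (hr : r ∈ Ico 0 T) (q : J) :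
    ∃ δ > 0, ∀ r' ∈ Icc r (r + δ), BC C r' q = BC C r q := by
  obtain ⟨δ, hδ, _, h⟩ := CausalGen291.exists_isolated hC hr {j | Past C r q r j}
    {j | ¬ Past C r q r j} (fun k hk hk' => hk' hk)
    (fun k hk j hj hc => hj (Past.contact hk hc))
  refine ⟨δ, hδ, fun r' hr' => Subset.antisymm ?_ (bc_mono_time q hr'.1)⟩
  have key : ∀ (s : ℝ) (j : J), Past C r' q s j → Past C r q (min s r) j := by
    intro s j hj
    induction hj with
    | root hs => exact .root (min_le_right _ _)
    | @step s s' j k hp hc hss ih =>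
      rcases le_or_gt s' r with h1 | h1
      · rw [min_eq_left h1] at ih
        rw [min_eq_left (hss.trans h1)]
        exact .step ih hc hss
      · rw [min_eq_right h1.le] at ih
        have h2 : Past C r q r k := by
          by_contra hk
          exact h s' ⟨h1.le, hp.le.trans hr'.2⟩ j ih k hk hc
        exact h2.mono (min_le_right _ _)
  intro k hk
  have := key 0 k hk
  rwa [min_eq_left hr.1] at this

end bc

/-! ### Acyclic graphs -/

/-- In an acyclic graph, if a subgraph connects the two ends of an edge, it contains the edge. -/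
theorem adj_of_reachable {G H : SimpleGraph J} (hG : G.IsAcyclic) (hH : H ≤ G) {q e : J}
    (hadj : G.Adj q e) (hr : H.Reachable q e) : H.Adj q e := by
  by_contra hn
  have h1 := (SimpleGraph.isAcyclic_iff_forall_adj_isBridge.1 hG) hadj
  rw [SimpleGraph.isBridge_iff] at h1
  refine h1 (hr.mono ?_)
  intro x y hxy
  rw [SimpleGraph.deleteEdges_adj]
  refine ⟨hH hxy, fun h2 => ?_⟩
  simp only [Set.mem_singleton_iff] at h2
  rcases Sym2.eq_iff.1 h2 with ⟨rfl, rfl⟩ | ⟨rfl, rfl⟩
  · exact hn hxy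
  · exact hn hxy.symm

/-! ### Tree-like situation -/

/-- The virtual contact graph up to the time `T`. -/
def gr (T : ℝ) (E : ℝ → J → J → Prop) : SimpleGraph J where
  Adj i j := i ≠ j ∧ ∃ s ∈ Icc 0 T, E s i j ∨ E s j i
  symm := ⟨fun _ _ ⟨h, s, hs, h'⟩ => ⟨h.symm, s, hs, h'.symm⟩⟩
  loopless := ⟨fun _ h => h.1 rfl⟩

/-- The virtual contact graph (all times). -/
def grA (E : ℝ → J → J → Prop) : SimpleGraph J where
  Adj i j := i ≠ j ∧ ∃ s, E s i j ∨ E s j i
  symm := ⟨fun _ _ ⟨h, s, h'⟩ => ⟨h.symm, s, h'.symm⟩⟩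
  loopless := ⟨fun _ h => h.1 rfl⟩

/-- The contacts in the protected history of `(q, t)` are virtual contacts. -/
def HistE (C : ℝ → J → J → Prop) (E : ℝ → J → J → Prop) (t : ℝ) (q : J) : Prop :=
  ∀ s k l, Past C t q s k → C s k l → k ≠ l → E s k l

theorem HistE.mono {C : ℝ → J → J → Prop} {E : ℝ → J → J → Prop} {t t' : ℝ} {q : J}
    (h : HistE C E t q) (ht : t' ≤ t) : HistE C E t' q :=
  fun s k l hp hc hne => h s k l (past_mono_time ht hp) hc hne

theorem HistE.past {C : ℝ → J → J → Prop} {E : ℝ → J → J → Prop} {t s : ℝ} {q k : J}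
    (h : HistE C E t q) (hk : Past C t q s k) : HistE C E s k :=
  fun s' k' l hp hc hne => h s' k' l (hk.trans hp) hc hne

theorem HistE.contact {C : ℝ → J → J → Prop} {E : ℝ → J → J → Prop} {t : ℝ} {q e : J}
    (h : HistE C E t q) (hc : C t q e) : HistE C E t e :=
  h.past (Past.contact (.root le_rfl) hc)

/-- Tree-like situation for two worlds. -/
structure Tree (T : ℝ) (C : Bool → ℝ → J → J → Prop) (E : ℝ → J → J → Prop) :
    Prop where
  symmC : ∀ b s j k, C b s j k → C b s k j
  closed : ∀ b j k, j ≠ k → IsClosed {s | s ∈ Icc 0 T ∧ C b s j k}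
  pos : ∀ b s j k, C b s j k → j ≠ k → 0 < s
  symmE : ∀ s i j, E s i j → E s j i
  sep : ∀ i j k l s s' s'', i ≠ j → k ≠ l → 0 ≤ s → s' ≤ T → s ≤ s'' → s'' ≤ s' →
    E s i j → E s' i j → E s'' k l → s(i, j) = s(k, l)
  acyc : (grA E).IsAcyclic

variable {T : ℝ} {C : Bool → ℝ → J → J → Prop} {E : ℝ → J → J → Prop}

namespace Tree

/-- two different contacts at the same time -/
theorem same (hT : Tree T C E) {s : ℝ} {i j k l : J} (h0 : 0 ≤ s) (hs : s ≤ T) (hij : i ≠ j)
    (hkl : k ≠ l) (h : E s i j) (h' : E s k l) : s(i, j) = s(k, l) :=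
  hT.sep i j k l s s s hij hkl h0 hs le_rfl le_rfl h h h'

theorem adj (_ : Tree T C E) {s : ℝ} {i j : J} (hij : i ≠ j)
    (h : E s i j) : (grA E).Adj i j := ⟨hij, s, Or.inl h⟩

/-- If `q` and `e` are in contact at `r` and `e` is in the backward cluster of `q` before, then they
have been in contact before. -/
theorem contact_before (hT : Tree T C E) {b : Bool} {r s : ℝ} {q e : J} (_hrT : r ≤ T)
    (hP : HistE (C b) E r q) (hne : q ≠ e) (hc : C b r q e) (hs : s < r)
    (he : Past (C b) s q 0 e) : ∃ s' ≤ s, C b s' q e := by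
  classical
  have hr0 : 0 < r := hT.pos b r q e hc hne
  have hadj : (grA E).Adj q e :=
    hT.adj hne (hP r q e (.root le_rfl) hc hne)
  let H : SimpleGraph J :=
    { Adj := fun i j => (i ≠ j ∧ ∃ s', 0 ≤ s' ∧ s' ≤ s ∧ C b s' i j ∧ E s' i j)
      symm := ⟨fun i j ⟨h1, s', h2, h3, h4, h5⟩ =>
        ⟨h1.symm, s', h2, h3, hT.symmC _ _ _ _ h4, hT.symmE _ _ _ h5⟩⟩
      loopless := ⟨fun i h => h.1 rfl⟩ }
  have hH : H ≤ grA E := by
    rintro i j ⟨h1, s', h2, h3, _, h5⟩
    exact hT.adj h1 h5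
  have hreach : ∀ (s' : ℝ) (k : J), Past (C b) s q s' k → H.Reachable q k := by
    intro s' k hk
    induction hk with
    | root _ => exact SimpleGraph.Reachable.refl _
    | @step s' s'' j k hp hcc hss ih =>
      by_cases hjk : j = k
      · rw [← hjk]; exact ih
      · refine ih.trans (SimpleGraph.Adj.reachable ?_)
        refine ⟨hjk, s'', (hT.pos b s'' j k hcc hjk).le, hp.le, hcc, ?_⟩
        exact (hP.mono hs.le) s'' j k hp hcc hjk
  obtain ⟨_, s', _, h3, h4, _⟩ := adj_of_reachable hT.acyc hH hadj (hreach 0 e he)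
  exact ⟨s', h3, h4⟩

/-- If the backward cluster of `q` jumps at `r`, then `q` is in contact with a new particle. -/
theorem exists_new (hT : Tree T C E) {b : Bool} {r : ℝ} {q : J} (hr0 : 0 < r) (hrT : r ≤ T)
    (hP : HistE (C b) E r q) (hjump : BC (C b) r q ≠ pre (C b) r q) :
    ∃ e, e ≠ q ∧ C b r q e ∧ e ∉ pre (C b) r q := by
  by_contra hno
  push Not at hno
  refine hjump (Subset.antisymm ?_ (pre_subset r q))
  have key : ∀ (s : ℝ) (y : J), Past (C b) r q s y →
      (∃ s₀ < r, Past (C b) s₀ q s y) ∨ y = q ∨ C b r q y := by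
    intro s y hy
    induction hy with
    | root _ => exact Or.inr (Or.inl rfl)
    | @step s s' j k hp hc hss ih =>
      by_cases hjk : j = k
      · subst hjk
        rcases ih with ⟨s₀, h1, h2⟩ | h | h
        · exact Or.inl ⟨s₀, h1, h2.mono hss⟩
        · exact Or.inr (Or.inl h)
        · exact Or.inr (Or.inr h)
      have hE : E s' j k := hP s' j k hp hc hjk
      have hs'0 : 0 < s' := hT.pos b s' j k hc hjk
      rcases ih with ⟨s₀, h1, h2⟩ | h | h
      · exact Or.inl ⟨s₀, h1, .step h2 hc hss⟩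
      · subst h
        rcases hp.le.lt_or_eq with h1 | h1
        · exact Or.inl ⟨s', h1, .step (.root le_rfl) hc hss⟩
        · rw [h1] at hc
          exact Or.inr (Or.inr hc)
      · by_cases hjq : j = q
        · subst hjq
          rcases hp.le.lt_or_eq with h1 | h1
          · exact Or.inl ⟨s', h1, .step (.root le_rfl) hc hss⟩
          · rw [h1] at hc
            exact Or.inr (Or.inr hc)
        have hEr : E r q j := hP r q j (.root le_rfl) h (Ne.symm hjq)
        have hjD : j ∈ pre (C b) r q := hno j hjq h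
        obtain ⟨s₁, hs₁, hj₁⟩ := hjD
        obtain ⟨s₂, hs₂, hc₂⟩ := hT.contact_before hrT hP (Ne.symm hjq) h hs₁ hj₁
        have hs₂r : s₂ < r := hs₂.trans_lt hs₁
        have hs₂0 : 0 < s₂ := hT.pos b s₂ q j hc₂ (Ne.symm hjq)
        rcases le_or_gt s' s₂ with h3 | h3
        · exact Or.inl ⟨s₂, hs₂r, .step ((Past.contact (.root le_rfl) hc₂).mono h3) hc hss⟩
        · have hE₂ : E s₂ q j := hP s₂ q j (.root hs₂r.le) hc₂ (Ne.symm hjq)
          have h4 := hT.sep q j j k s₂ r s' (Ne.symm hjq) hjk hs₂0.le hrT h3.le hp.le hE₂ hEr hE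
          rcases Sym2.eq_iff.1 h4 with ⟨h5, _⟩ | ⟨h5, _⟩
          · exact absurd h5.symm hjq
          · exact Or.inr (Or.inl h5.symm)
  intro y hy
  rcases key 0 y hy with ⟨s₀, h1, h2⟩ | h | h
  · exact ⟨s₀, h1, h2⟩
  · rw [h]; exact self_mem_pre hr0 q
  · by_cases hyq : y = q
    · rw [hyq]; exact self_mem_pre hr0 q
    · exact hno y hyq h

/-- The backward cluster after a new contact. -/
theorem bc_eq_union (hT : Tree T C E) {b : Bool} {r : ℝ} {q e : J} (hrT : r ≤ T)
    (hP : HistE (C b) E r q) (hne : q ≠ e) (hc : C b r q e) :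
    BC (C b) r q = pre (C b) r q ∪ pre (C b) r e := by
  have hr0 : 0 < r := hT.pos b r q e hc hne
  have hEr : E r q e := hP r q e (.root le_rfl) hc hne
  apply Subset.antisymm
  · have key : ∀ (s : ℝ) (y : J), Past (C b) r q s y →
        (∃ s₀ < r, Past (C b) s₀ q s y) ∨ (∃ s₀ < r, Past (C b) s₀ e s y) ∨ y = q ∨ y = e := by
      intro s y hy
      induction hy with
      | root _ => exact Or.inr (Or.inr (Or.inl rfl))
      | @step s s' j k hp hc' hss ih =>
        by_cases hjk : j = k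
        · subst hjk
          rcases ih with ⟨s₀, h1, h2⟩ | ⟨s₀, h1, h2⟩ | h
          · exact Or.inl ⟨s₀, h1, h2.mono hss⟩
          · exact Or.inr (Or.inl ⟨s₀, h1, h2.mono hss⟩)
          · exact Or.inr (Or.inr h)
        have hE : E s' j k := hP s' j k hp hc' hjk
        rcases ih with ⟨s₀, h1, h2⟩ | ⟨s₀, h1, h2⟩ | h | h
        · exact Or.inl ⟨s₀, h1, .step h2 hc' hss⟩
        · exact Or.inr (Or.inl ⟨s₀, h1, .step h2 hc' hss⟩)
        · subst h
          rcases hp.le.lt_or_eq with h1 | h1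
          · exact Or.inl ⟨s', h1, .step (.root le_rfl) hc' hss⟩
          · rw [h1] at hE
            have h4 := hT.same hr0.le hrT hne hjk hEr hE
            rcases Sym2.eq_iff.1 h4 with ⟨_, h5⟩ | ⟨h5, _⟩
            · exact Or.inr (Or.inr (Or.inr h5.symm))
            · exact absurd h5 hjk
        · subst h
          rcases hp.le.lt_or_eq with h1 | h1
          · exact Or.inr (Or.inl ⟨s', h1, .step (.root le_rfl) hc' hss⟩)
          · rw [h1] at hE
            have h4 := hT.same hr0.le hrT hne hjk hEr hE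
            rcases Sym2.eq_iff.1 h4 with ⟨h5, _⟩ | ⟨h5, _⟩
            · exact absurd h5 hne
            · exact Or.inr (Or.inr (Or.inl h5.symm))
    intro y hy
    rcases key 0 y hy with ⟨s₀, h1, h2⟩ | ⟨s₀, h1, h2⟩ | h | h
    · exact Or.inl ⟨s₀, h1, h2⟩
    · exact Or.inr ⟨s₀, h1, h2⟩
    · rw [h]; exact Or.inl (self_mem_pre hr0 q)
    · rw [h]; exact Or.inr (self_mem_pre hr0 e)
  · exact union_subset (pre_subset r q) ((pre_subset r e).trans (bc_contact hc))

/-- A particle without contact at `r`, except possibly with `q`. -/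
theorem bc_eq_pre (hT : Tree T C E) {b b' : Bool} {r : ℝ} {q e : J} (hrT : r ≤ T)
    (hP : HistE (C b) E r q) (hne : q ≠ e) (hc : C b r q e) (hP' : HistE (C b') E r e)
    (hno : ¬ C b' r e q) : BC (C b') r e = pre (C b') r e := by
  have hr0 : 0 < r := hT.pos b r q e hc hne
  have hEr : E r q e := hP r q e (.root le_rfl) hc hne
  apply Subset.antisymm _ (pre_subset r e)
  have key : ∀ (s : ℝ) (y : J), Past (C b') r e s y → (∃ s₀ < r, Past (C b') s₀ e s y) ∨ y = e := by
    intro s y hy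
    induction hy with
    | root _ => exact Or.inr rfl
    | @step s s' j k hp hc' hss ih =>
      by_cases hjk : j = k
      · subst hjk
        rcases ih with ⟨s₀, h1, h2⟩ | h
        · exact Or.inl ⟨s₀, h1, h2.mono hss⟩
        · exact Or.inr h
      rcases ih with ⟨s₀, h1, h2⟩ | h
      · exact Or.inl ⟨s₀, h1, .step h2 hc' hss⟩
      · subst h
        rcases hp.le.lt_or_eq with h1 | h1
        · exact Or.inl ⟨s', h1, .step (.root le_rfl) hc' hss⟩
        · have hE : E s' j k := hP' s' j k hp hc' hjk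
          rw [h1] at hE hc'
          have h4 := hT.same hr0.le hrT hne hjk hEr hE
          rcases Sym2.eq_iff.1 h4 with ⟨h5, _⟩ | ⟨h5, _⟩
          · exact absurd h5 hne
          · rw [← h5] at hc'
            exact absurd hc' hno
  intro y hy
  rcases key 0 y hy with ⟨s₀, h1, h2⟩ | h
  · exact ⟨s₀, h1, h2⟩
  · rw [h]; exact self_mem_pre hr0 e

/-- **One step**: freshness of the cluster of the new contact partner. -/
theorem step_facts (hT : Tree T C E) {b : Bool} {r : ℝ} {q e : J} (_hrT : r ≤ T)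
    (hP : HistE (C b) E r q) (hne : q ≠ e) (hc : C b r q e) (he : e ∉ pre (C b) r q)
    {U : Set J} {H : SimpleGraph J} (hH : H ≤ grA E) (hsupp : ∀ x y, H.Adj x y → x ∈ U)
    (hconn : ∀ x ∈ U, H.Reachable q x) (hadj : ¬ H.Adj q e) (hqU : q ∈ U) :
    Disjoint (pre (C b) r e) U ∧ ∃ H' : SimpleGraph J, H' ≤ grA E ∧
      (∀ x y, H'.Adj x y → x ∈ U ∪ pre (C b) r e) ∧
      (∀ x ∈ U ∪ pre (C b) r e, H'.Reachable q x) ∧ H'.Adj q e ∧
      (∀ x, H'.Adj q x → H.Adj q x ∨ x = e) ∧
      (∀ x, H'.Adj e x → x ∈ pre (C b) r e ∨ x = q) := by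
  classical
  have hr0 : 0 < r := hT.pos b r q e hc hne
  have hEr : E r q e := hP r q e (.root le_rfl) hc hne
  have hG : (grA E).Adj q e := hT.adj hne hEr
  set V := pre (C b) r e with hV
  have heV : e ∈ V := self_mem_pre hr0 e
  -- the contact graph of the fresh cluster
  let HV : SimpleGraph J :=
    { Adj := fun i j => (i ≠ j ∧ i ∈ V ∧ j ∈ V ∧ ∃ s', 0 ≤ s' ∧ s' < r ∧ C b s' i j ∧ E s' i j)
      symm := ⟨fun i j ⟨h1, hi, hj, s', h2, h3, h4, h5⟩ =>
        ⟨h1.symm, hj, hi, s', h2, h3, hT.symmC _ _ _ _ h4, hT.symmE _ _ _ h5⟩⟩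
      loopless := ⟨fun i h => h.1 rfl⟩ }
  have hHV : HV ≤ grA E := by
    rintro i j ⟨h1, _, _, s', h2, h3, _, h5⟩
    exact hT.adj h1 h5
  have hPe : HistE (C b) E r e := hP.contact hc
  have hreach : ∀ s < r, ∀ (s' : ℝ) (k : J), Past (C b) s e s' k → 0 ≤ s' →
      k ∈ V ∧ HV.Reachable e k := by
    intro s hs s' k hk
    induction hk with
    | root _ => exact fun _ => ⟨heV, SimpleGraph.Reachable.refl _⟩
    | @step s' s'' j k hp hcc hss ih =>
      intro hs'
      obtain ⟨h1, h2⟩ := ih (hs'.trans hss)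
      have hkV : k ∈ V := ⟨s, hs, (Past.step hp hcc (hs'.trans hss))⟩
      by_cases hjk : j = k
      · rw [← hjk]; exact ⟨h1, h2⟩
      · refine ⟨hkV, h2.trans (SimpleGraph.Adj.reachable ?_)⟩
        refine ⟨hjk, h1, hkV, s'', hs'.trans hss, hp.le.trans_lt hs, hcc, ?_⟩
        exact (hPe.mono hs.le) s'' j k hp hcc hjk
  have hreachV : ∀ x ∈ V, HV.Reachable e x := fun x ⟨s, hs, hx⟩ => (hreach s hs 0 x hx le_rfl).2
  -- the edge is not in `H ⊔ HV`
  have hnot : ¬ (H ⊔ HV).Adj q e := by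
    rw [SimpleGraph.sup_adj]
    rintro (h | ⟨_, _, _, s', h2, h3, h4, _⟩)
    · exact hadj h
    · exact he ⟨s', h3, (Past.contact (.root le_rfl) h4).mono h2⟩
  have hle : H ⊔ HV ≤ grA E := sup_le hH hHV
  have hqe : ¬ (H ⊔ HV).Reachable q e := fun h => hnot (adj_of_reachable hT.acyc hle hG h)
  have hdis : Disjoint V U := by
    rw [Set.disjoint_left]
    intro x hxV hxU
    exact hqe (((hconn x hxU).mono le_sup_left).trans ((hreachV x hxV).symm.mono le_sup_right))
  have hqV : q ∉ V := fun h => Set.disjoint_left.1 hdis h hqU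
  have heU : e ∉ U := fun h => Set.disjoint_left.1 hdis heV h
  let D : SimpleGraph J :=
    { Adj := fun i j => (i = q ∧ j = e) ∨ (i = e ∧ j = q)
      symm := ⟨fun i j h => h.elim (fun h' => Or.inr ⟨h'.2, h'.1⟩) fun h' => Or.inl ⟨h'.2, h'.1⟩⟩
      loopless := ⟨fun i h => h.elim (fun h' => hne (h'.1.symm.trans h'.2))
        fun h' => hne (h'.2.symm.trans h'.1)⟩ }
  refine ⟨hdis, H ⊔ HV ⊔ D, ?_, ?_, ?_, ?_, ?_, ?_⟩
  · refine sup_le hle ?_
    rintro i j (⟨rfl, rfl⟩ | ⟨rfl, rfl⟩)
    · exact hG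
    · exact hG.symm
  · intro x y hxy
    rw [SimpleGraph.sup_adj, SimpleGraph.sup_adj] at hxy
    rcases hxy with (h | h) | h
    · exact Or.inl (hsupp x y h)
    · exact Or.inr h.2.1
    · rcases h with ⟨rfl, _⟩ | ⟨rfl, _⟩
      · exact Or.inl hqU
      · exact Or.inr heV
  · have h1 : (H ⊔ HV ⊔ D).Reachable q e :=
      SimpleGraph.Adj.reachable (by
        rw [SimpleGraph.sup_adj]; exact Or.inr (Or.inl ⟨rfl, rfl⟩))
    rintro x (hx | hx)
    · exact (hconn x hx).mono (le_sup_left.trans le_sup_left)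
    · exact h1.trans ((hreachV x hx).mono (le_sup_right.trans le_sup_left))
  · rw [SimpleGraph.sup_adj]; exact Or.inr (Or.inl ⟨rfl, rfl⟩)
  · intro x hx
    rw [SimpleGraph.sup_adj, SimpleGraph.sup_adj] at hx
    rcases hx with (h | h) | h
    · exact Or.inl h
    · exact absurd h.2.1 hqV
    · rcases h with ⟨_, h⟩ | ⟨h, _⟩
      · exact Or.inr h
      · exact absurd h hne
  · intro x hx
    rw [SimpleGraph.sup_adj, SimpleGraph.sup_adj] at hx
    rcases hx with (h | h) | h
    · exact absurd (hsupp e x h) heU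
    · exact Or.inl h.2.2.1
    · rcases h with ⟨h, _⟩ | ⟨_, h⟩
      · exact absurd h.symm hne
      · exact Or.inr h

end Tree

/-! ### Clean chains -/

/-- Clean chains: from the state "particle `q` followed in the world `b` after the time `t`",
`g` = set of forbidden contact partners (the ghost partner), `m` links. -/
inductive CC (T : ℝ) (C : Bool → ℝ → J → J → Prop) (E : ℝ → J → J → Prop) (K : ℕ) :
    Bool → J → ℝ → Set J → ℕ → Prop
  | nil {b : Bool} {q : J} {t : ℝ} {g : Set J} : CC T C E K b q t g 0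
  | sw {b : Bool} {q q' : J} {t t' : ℝ} {g : Set J} {m : ℕ} (ht : t < t') (htT : t' ≤ T)
      (hne : q ≠ q') (hc : C b t' q q') (hf : ∀ s < t', ¬ C b s q q') (hP : HistE (C b) E t' q)
      (hK : (BC (C b) t' q).ncard ≤ K) (hg : ∀ x ∈ g, ∀ s ≤ t', ¬ C b s q x)
      (h : CC T C E K b q' t' ∅ m) : CC T C E K b q t g (m + 1)
  | gh {b : Bool} {q q' : J} {t t' : ℝ} {g : Set J} {m : ℕ} (ht : t < t') (htT : t' ≤ T)
      (hne : q ≠ q') (hc : C b t' q q') (hf : ∀ s < t', ¬ C b s q q') (hP : HistE (C b) E t' q)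
      (hK : (BC (C b) t' q).ncard ≤ K) (hg : ∀ x ∈ g, ∀ s ≤ t', ¬ C b s q x)
      (hun : ∀ s < t', BC (C (!b)) s q' = BC (C b) s q') (hP' : HistE (C (!b)) E t' q')
      (hno : ¬ C (!b) t' q' q)
      (h : CC T C E K (!b) q' t' {q} m) : CC T C E K b q t g (m + 1)

/-- Traces: `D` current group, `q` current particle, `t` current time, `U` used particles. -/
inductive Trace (Ok : Set J → J → Set J → J → ℝ → Prop) : Set J → J → ℝ → Set J → ℕ → Prop
  | nil {D : Set J} {q : J} {t : ℝ} {U : Set J} : Trace Ok D q t U 0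
  | stay {D V : Set J} {q e : J} {t r : ℝ} {U : Set J} {m : ℕ} (ht : t ≤ r)
      (hV : Ok V e D q r) (hdis : Disjoint V U) (h : Trace Ok (D ∪ V) q r (U ∪ V) m) :
      Trace Ok D q t U (m + 1)
  | switch {D V : Set J} {q e : J} {t r : ℝ} {U : Set J} {m : ℕ} (ht : t ≤ r)
      (hV : Ok V e D q r) (hdis : Disjoint V U) (h : Trace Ok (D ∪ V) e r (U ∪ V) m) :
      Trace Ok D q t U (m + 1)
  | ghost {D V : Set J} {q e : J} {t r : ℝ} {U : Set J} {m : ℕ} (ht : t ≤ r)
      (hV : Ok V e D q r) (hdis : Disjoint V U) (h : Trace Ok V e r (U ∪ V) m) :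
      Trace Ok D q t U (m + 1)

/-- Invariant of the extraction. -/
structure Inv (T : ℝ) (C : Bool → ℝ → J → J → Prop) (E : ℝ → J → J → Prop)
    (b : Bool) (q : J) (t : ℝ) (g D U : Set J) (H : SimpleGraph J) : Prop where
  t0 : 0 ≤ t
  bc : BC (C b) t q = D
  sub : D ⊆ U
  le : H ≤ grA E
  supp : ∀ x y, H.Adj x y → x ∈ U
  conn : ∀ x ∈ U, H.Reachable q x
  adj : ∀ x, H.Adj q x → x ∈ D ∨ x ∈ g ∨ ∀ s, t < s → s ≤ T → ¬ C b s q x

theorem Inv.mem {b : Bool} {q : J} {t : ℝ} {g D U : Set J} {H : SimpleGraph J}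
    (h : Inv T C E b q t g D U H) : q ∈ D := by
  rw [← h.bc]; exact root_mem_BC h.t0

theorem pre_eq_of_const {C : ℝ → J → J → Prop} {q : J} {t r : ℝ} (htr : t < r)
    (h : ∀ s, t ≤ s → s < r → BC C s q = BC C t q) : pre C r q = BC C t q := by
  apply Subset.antisymm
  · rintro k ⟨s, hs, hk⟩
    rcases le_total t s with h1 | h1
    · have : k ∈ BC C s q := hk
      rwa [h s h1 hs] at this
    · exact past_mono_time h1 hk
  · exact bc_subset_pre htr q

/-- First jump of the backward cluster. -/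
theorem exists_jump [Finite J] {C : ℝ → J → J → Prop}
    (hC : ∀ j k, j ≠ k → IsClosed {s | s ∈ Icc 0 T ∧ C s j k}) {q : J} {t t' : ℝ} (ht0 : 0 ≤ t)
    (htT : t' ≤ T) (hj : ∃ s, t < s ∧ s < t' ∧ BC C s q ≠ BC C t q) :
    ∃ r, t < r ∧ r < t' ∧ BC C r q ≠ BC C t q ∧ ∀ s, t ≤ s → s < r → BC C s q = BC C t q := by
  set S : Set ℝ := {s | t ≤ s ∧ s < t' ∧ BC C s q ≠ BC C t q} with hS
  obtain ⟨s₁, h1, h2, h3⟩ := hj
  have hne : S.Nonempty := ⟨s₁, h1.le, h2, h3⟩
  have hbdd : BddBelow S := ⟨t, fun s hs => hs.1⟩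
  set r := sInf S with hr
  have htr : t ≤ r := le_csInf hne fun s hs => hs.1
  have hrs : r ≤ s₁ := csInf_le hbdd ⟨h1.le, h2, h3⟩
  have hrt' : r < t' := hrs.trans_lt h2
  have hlow : ∀ s, t ≤ s → s < r → BC C s q = BC C t q := by
    intro s hs1 hs2
    by_contra h
    exact absurd (csInf_le hbdd (show s ∈ S from ⟨hs1, hs2.trans hrt', h⟩)) (not_le.2 hs2)
  have hjr : BC C r q ≠ BC C t q := by
    intro heq
    obtain ⟨δ, hδ, h⟩ := exists_right hC ⟨ht0.trans htr, hrt'.trans_le htT⟩ q
    have h4 : r + δ ≤ r := by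
      refine le_csInf hne fun s hs => ?_
      by_contra hlt
      push Not at hlt
      have h5 : r ≤ s := csInf_le hbdd hs
      exact hs.2.2 ((h s ⟨h5, hlt.le⟩).trans heq)
    linarith
  refine ⟨r, lt_of_le_of_ne htr fun h => hjr (by rw [← h]), hrt', hjr, hlow⟩

/-- **Extraction of a trace from a clean chain.** -/
theorem trace_of_cc [Finite J] (hT : Tree T C E) {K : ℕ} {Ok : Set J → J → Set J → J → ℝ → Prop}
    {U₀ : Set J}
    (hOk : ∀ b q e r, r ≤ T → q ≠ e → C b r q e → HistE (C b) E r q → (BC (C b) r q).ncard ≤ K →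
      Disjoint (pre (C b) r e) U₀ → Ok (pre (C b) r e) e (pre (C b) r q) q r) :
    ∀ (m' m : ℕ) (b : Bool) (q : J) (t : ℝ) (g D U : Set J) (H : SimpleGraph J),
      CC T C E K b q t g m → m' ≤ m → Inv T C E b q t g D U H → U₀ ⊆ U →
      Trace Ok D q t U m' := by
  intro m'
  induction m' with
  | zero => intro m b q t g D U H _ _ _ _; exact .nil
  | succ m' ih =>
    intro m b q t g D U H hcc hm hI hU₀
    -- the next target
    have htar : ∃ (q' : J) (t' : ℝ), t < t' ∧ t' ≤ T ∧ q ≠ q' ∧ C b t' q q' ∧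
        (∀ s < t', ¬ C b s q q') ∧ HistE (C b) E t' q ∧ (BC (C b) t' q).ncard ≤ K ∧
        (∀ x ∈ g, ∀ s ≤ t', ¬ C b s q x) ∧ (∀ r, r < t' → CC T C E K b q r g m) ∧
        ((∃ m₁, m = m₁ + 1 ∧ CC T C E K b q' t' ∅ m₁) ∨
          (∃ m₁, m = m₁ + 1 ∧ (∀ s < t', BC (C (!b)) s q' = BC (C b) s q') ∧
            HistE (C (!b)) E t' q' ∧ ¬ C (!b) t' q' q ∧ CC T C E K (!b) q' t' {q} m₁)) := by
      cases hcc with
      | nil => omega
      | @sw _ _ q' _ t' _ m₁ ht htT hne hc hf hP hK hg h =>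
        exact ⟨q', t', ht, htT, hne, hc, hf, hP, hK, hg,
          fun r hr => .sw hr htT hne hc hf hP hK hg h, Or.inl ⟨m₁, rfl, h⟩⟩
      | @gh _ _ q' _ t' _ m₁ ht htT hne hc hf hP hK hg hun hP' hno h =>
        exact ⟨q', t', ht, htT, hne, hc, hf, hP, hK, hg,
          fun r hr => .gh hr htT hne hc hf hP hK hg hun hP' hno h,
          Or.inr ⟨m₁, rfl, hun, hP', hno, h⟩⟩
    obtain ⟨q', t', ht, htT, hne, hc, hf, hP, hK, hg, hmono, hnext⟩ := htar
    have hqU : q ∈ U := hI.sub hI.mem
    by_cases hj : ∃ s, t < s ∧ s < t' ∧ BC (C b) s q ≠ BC (C b) t q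
    · -- a jump before the target: stay
      obtain ⟨r, h1, h2, h3, h4⟩ := exists_jump (hT.closed b) hI.t0 htT hj
      have hpre : pre (C b) r q = D := (pre_eq_of_const h1 h4).trans hI.bc
      have hrT : r ≤ T := h2.le.trans htT
      have hPr : HistE (C b) E r q := hP.mono h2.le
      have hr0 : 0 < r := hI.t0.trans_lt h1
      obtain ⟨e, he1, he2, he3⟩ := hT.exists_new hr0 hrT hPr
        (by rw [hpre, ← hI.bc]; exact h3)
      have hadj : ¬ H.Adj q e := by
        intro h
        rcases hI.adj e h with h5 | h5 | h5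
        · exact he3 (by rw [hpre]; exact h5)
        · exact hg e h5 r h2.le he2
        · exact h5 r h1 hrT he2
      obtain ⟨hdis, H', g1, g2, g3, g4, g5, g6⟩ :=
        hT.step_facts hrT hPr (Ne.symm he1) he2 he3 hI.le hI.supp hI.conn hadj hqU
      have hKr : (BC (C b) r q).ncard ≤ K :=
        (ncard_le_ncard (bc_mono_time q h2.le) (toFinite _)).trans hK
      have hok := hOk b q e r hrT (Ne.symm he1) he2 hPr hKr (hdis.mono_right hU₀)
      rw [hpre] at hok
      refine .stay h1.le hok hdis (ih m b q r g _ _ H' (hmono r h2) (by omega) ?_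
        (hU₀.trans subset_union_left))
      refine ⟨hr0.le, ?_, union_subset_union_left _ hI.sub, g1, g2, g3, ?_⟩
      · rw [hT.bc_eq_union hrT hPr (Ne.symm he1) he2, hpre]
      · intro x hx
        rcases g5 x hx with h5 | h5
        · rcases hI.adj x h5 with h6 | h6 | h6
          · exact Or.inl (Or.inl h6)
          · exact Or.inr (Or.inl h6)
          · exact Or.inr (Or.inr fun s hs hs' => h6 s (h1.trans hs) hs')
        · rw [h5]; exact Or.inl (Or.inr (self_mem_pre hr0 e))
    · -- no jump: the target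
      push Not at hj
      have h4 : ∀ s, t ≤ s → s < t' → BC (C b) s q = BC (C b) t q := by
        intro s hs1 hs2
        rcases hs1.lt_or_eq with h5 | h5
        · exact hj s h5 hs2
        · rw [h5]
      have hpre : pre (C b) t' q = D := (pre_eq_of_const ht h4).trans hI.bc
      have hr0 : 0 < t' := hI.t0.trans_lt ht
      have he3 : q' ∉ pre (C b) t' q := by
        rintro ⟨s, hs, hs'⟩
        obtain ⟨s', hs1, hs2⟩ := hT.contact_before htT hP hne hc hs hs'
        exact hf s' (hs1.trans_lt hs) hs2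
      have hadj : ¬ H.Adj q q' := by
        intro h
        rcases hI.adj q' h with h5 | h5 | h5
        · exact he3 (by rw [hpre]; exact h5)
        · exact hg q' h5 t' le_rfl hc
        · exact h5 t' ht htT hc
      obtain ⟨hdis, H', g1, g2, g3, g4, g5, g6⟩ :=
        hT.step_facts htT hP hne hc he3 hI.le hI.supp hI.conn hadj hqU
      have hok := hOk b q q' t' htT hne hc hP hK (hdis.mono_right hU₀)
      rw [hpre] at hok
      have hconn' : ∀ x ∈ U ∪ pre (C b) t' q', H'.Reachable q' x := fun x hx =>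
        (SimpleGraph.Adj.reachable g4).symm.trans (g3 x hx)
      rcases hnext with ⟨m₁, rfl, h⟩ | ⟨m₁, rfl, hun, hP', hno, h⟩
      · refine .switch ht.le hok hdis (ih m₁ b q' t' ∅ _ _ H' h (by omega) ?_
          (hU₀.trans subset_union_left))
        refine ⟨hr0.le, ?_, union_subset_union_left _ hI.sub, g1, g2, hconn', ?_⟩
        · rw [← hpre, ← hT.bc_eq_union htT hP hne hc]
          exact Subset.antisymm (bc_contact hc) (bc_contact (hT.symmC _ _ _ _ hc))
        · intro x hx
          rcases g6 x hx with h5 | h5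
          · exact Or.inl (Or.inr h5)
          · rw [h5]; exact Or.inl (Or.inl hI.mem)
      · refine .ghost ht.le hok hdis (ih m₁ (!b) q' t' {q} _ _ H' h (by omega) ?_
          (hU₀.trans subset_union_left))
        refine ⟨hr0.le, ?_, subset_union_right, g1, g2, hconn', ?_⟩
        · rw [hT.bc_eq_pre htT hP hne hc hP' hno]
          apply Subset.antisymm
          · rintro k ⟨s, hs, hk⟩
            have : k ∈ BC (C (!b)) s q' := hk
            rw [hun s hs] at this
            exact ⟨s, hs, this⟩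
          · rintro k ⟨s, hs, hk⟩
            have : k ∈ BC (C b) s q' := hk
            rw [← hun s hs] at this
            exact ⟨s, hs, this⟩
        · intro x hx
          rcases g6 x hx with h5 | h5
          · exact Or.inl h5
          · exact Or.inr (Or.inl h5)

end Crest.Agent.R122.LinkD331
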