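import Crest.Agent.R122.CausalGenInf_291
import Crest.Agent.R122.LinkD1_331

/-!
# Realization of pasts in tree-like groups (row 122, H11, LN1, world part), abstract version

A (pseudo-)real world on the labels `J`: contacts `F.C`, states `F.x`, geometric contacts `F.G`
(alive and within `ε`; a geometric contact which is not a contact is a ghost passage); isolated
worlds indexed by the sets `A` of their particles (contacts `F.CA A`, states `F.z A`); virtual
contacts `F.VC` through sub-worlds contained in `P`.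

* `F.Ok T P`: locality, coherence, ghost clauses, no return.
* `F.TL T`: the virtual contacts are tree-like (acyclic and separated).
* `F.Real t k`: with `V = BC F.C t k` (closed past of `(k, t)` in the real world): every explored
  state is the state in the isolated world `V`, the explored sets coincide, no ghosts among the
  active particles.
* `closed_step`, `open_step`, `real_of_TL`: if `V ⊆ P`, then `Real t k`.
* `hist_of_TL`: the explored contacts are virtual contacts; `state_pre`, `real_pre`, `real_pre'`: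
  versions for the strict past.
-/

set_option autoImplicit false
set_option linter.unusedSectionVars false

open Set Filter Topology

namespace Crest.Agent.R122.LNW291

open Crest.Agent.R122.Causal291 Crest.Agent.R122.CausalGen291 Crest.Agent.R122.LinkD331

theorem exists_min_pos {α : Type*} [Finite α] (f : α → ℝ) (hf : ∀ a, 0 < f a) :
    ∃ δ > 0, ∀ a, δ ≤ f a := by
  classical
  have := Fintype.ofFinite α
  rcases isEmpty_or_nonempty α with h | h
  · exact ⟨1, one_pos, fun a => (h.false a).elim⟩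
  · refine ⟨Finset.univ.inf' Finset.univ_nonempty f, ?_, fun a => Finset.inf'_le f (Finset.mem_univ a)⟩
    rw [gt_iff_lt, Finset.lt_inf'_iff]
    exact fun a _ => hf a

/-- A real world (with ghost passages) and the isolated worlds. -/
structure GW (J : Type) (X : Type*) where
  /-- contacts -/
  C : ℝ → J → J → Prop
  /-- geometric contacts -/
  G : ℝ → J → J → Prop
  /-- states -/
  x : ℝ → J → X
  /-- contacts in the isolated world `A` -/
  CA : Set J → ℝ → J → J → Prop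
  /-- states in the isolated world `A` -/
  z : Set J → ℝ → J → X
  /-- virtual contacts -/
  VC : ℝ → J → J → Prop

namespace GW

variable {J : Type} {X : Type*} {F : GW J X} {T : ℝ} {P : Set J}

/-- Locality, coherence, ghost clauses, no return. -/
structure Ok (F : GW J X) (T : ℝ) (P : Set J) : Prop where
  symm : ∀ s i j, F.C s i j → F.C s j i
  symmA : ∀ A s i j, F.CA A s i j → F.CA A s j i
  supp : ∀ A s i j, F.CA A s i j → i ∈ A ∧ j ∈ A
  closed : ∀ i j, i ≠ j → IsClosed {s | s ∈ Icc 0 T ∧ F.C s i j}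
  closedA : ∀ A ⊆ P, ∀ i j, i ≠ j → IsClosed {s | s ∈ Icc 0 T ∧ F.CA A s i j}
  eqc : ∀ A ⊆ P, ∀ k ∈ A, IsClosed {s | s ∈ Icc 0 T ∧ F.x s k = F.z A s k}
  init : ∀ A ⊆ P, ∀ k ∈ A, F.x 0 k = F.z A 0 k
  geo : ∀ s ∈ Icc 0 T, ∀ i j, i ≠ j → F.C s i j → F.G s i j
  loc : ∀ A ⊆ P, ∀ G ⊆ A, ∀ a b : ℝ, 0 ≤ a → a ≤ b → b ≤ T →
    (∀ s ∈ Icc a b, ∀ k ∈ G, ∀ j, j ∉ G → ¬ F.C s k j) →
    (∀ s ∈ Icc a b, ∀ k ∈ G, ∀ l ∈ G, k ≠ l → F.G s k l → F.C s k l) →
    (∀ s ∈ Icc a b, ∀ k ∈ G, ∀ j, j ∉ G → ¬ F.CA A s k j) →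
    (∀ k ∈ G, F.x a k = F.z A a k) → ∀ s ∈ Icc a b, ∀ k ∈ G, F.x s k = F.z A s k
  coh : ∀ A ⊆ P, ∀ s ∈ Icc 0 T, ∀ k ∈ A, ∀ l ∈ A, k ≠ l → F.x s k = F.z A s k →
    F.x s l = F.z A s l → (F.G s k l ↔ F.CA A s k l)
  vcx : ∀ A ⊆ P, ∀ B ⊆ P, ∀ s ∈ Icc 0 T, ∀ k ∈ A, ∀ l ∈ B, k ≠ l → F.x s k = F.z A s k →
    F.x s l = F.z B s l → F.G s k l → F.VC s k l
  vcA : ∀ A ⊆ P, ∀ s ∈ Icc 0 T, ∀ k l, k ≠ l → F.CA A s k l → F.VC s k l
  gopen : ∀ A ⊆ P, ∀ s ∈ Ico 0 T, ∀ k ∈ A, ∀ l ∈ A, k ≠ l → F.x s k = F.z A s k →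
    F.x s l = F.z A s l → ¬ F.G s k l → ∃ δ > 0, ∀ r ∈ Icc s (s + δ), ¬ F.G r k l
  gh1 : ∀ s ∈ Icc 0 T, ∀ r ∈ Icc 0 T, ∀ k l, k ≠ l → s ≤ r → F.G s k l → ¬ F.C s k l →
    F.C r k l → ∃ r' ∈ Icc s r, ∃ m, m ≠ k ∧ m ≠ l ∧ (F.C r' k m ∨ F.C r' l m)
  gh2 : ∀ s ∈ Ico 0 T, ∀ k l, k ≠ l → F.C s k l →
    (∃ m, m ≠ k ∧ m ≠ l ∧ (F.C s k m ∨ F.C s l m)) ∨
    ∃ δ > 0, ∀ r ∈ Icc s (s + δ), F.G r k l → F.C r k l
  /-- no return: a pair which separates and has no contact with others stays separated -/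
  nr : ∀ A ⊆ P, ∀ (u s₁ r : ℝ) (j k : J), j ≠ k → 0 ≤ u → u < s₁ → s₁ ≤ r → r ≤ T →
    F.CA A u j k →
    (∀ s ∈ Icc u r, ∀ m, m ≠ j → m ≠ k → ¬ F.CA A s j m ∧ ¬ F.CA A s k m) →
    (∀ s ∈ Ioc u s₁, ¬ F.CA A s j k) → ¬ F.CA A r j k

/-- The virtual contacts are tree-like. -/
structure TL (F : GW J X) (T : ℝ) : Prop where
  acyc : (gr T F.VC).IsAcyclic
  sep : ∀ i j k l s s' s'', i ≠ j → k ≠ l → 0 ≤ s → s' ≤ T → s ≤ s'' → s'' ≤ s' →
    F.VC s i j → F.VC s' i j → F.VC s'' k l → s(i, j) = s(k, l)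

/-- The explored contacts of `(k, t)` are virtual contacts. -/
def Hist (F : GW J X) (t : ℝ) (k : J) : Prop :=
  ∀ u ∈ Icc 0 t, ∀ p q, p ≠ q → Past F.C t k u p → F.C u p q → F.VC u p q

/-- Every explored state of `(k, t)` is the state in the isolated world `V = BC F.C t k`, the
explored sets coincide, and there are no ghosts among the active particles. -/
structure Real (F : GW J X) (t : ℝ) (k : J) : Prop where
  eq : ∀ s ∈ Icc 0 t, ∀ j, Past F.C t k s j → F.x s j = F.z (BC F.C t k) s j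
  act : ∀ s ∈ Icc 0 t, ∀ j, Past (F.CA (BC F.C t k)) t k s j ↔ Past F.C t k s j
  ng : ∀ s ∈ Icc 0 t, ∀ i j, i ≠ j → Past F.C t k s i → Past F.C t k s j → F.G s i j → F.C s i j
  hist : F.Hist t k

/-- The graph of the contacts explored at times after `s`. -/
def expl (F : GW J X) (s t : ℝ) (k : J) : SimpleGraph J where
  Adj i j := i ≠ j ∧ ∃ u ∈ Icc s t, Past F.C t k u i ∧ Past F.C t k u j ∧ F.C u i j ∧ F.C u j i
  symm := ⟨fun _ _ ⟨h, u, hu, h1, h2, h3, h4⟩ => ⟨h.symm, u, hu, h2, h1, h4, h3⟩⟩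
  loopless := ⟨fun _ h => h.1 rfl⟩

variable {t : ℝ} {k : J}

theorem reach_of_past (hsy : ∀ s i j, F.C s i j → F.C s j i) {s u : ℝ} {j : J}
    (h : Past F.C t k u j) (hs : s ≤ u) : (F.expl s t k).Reachable k j := by
  induction h with
  | root _ => exact SimpleGraph.Reachable.refl _
  | @step u u' i j h' hc hss ih =>
    have h1 := ih (hs.trans hss)
    by_cases hij : i = j
    · rw [← hij]; exact h1
    · refine h1.trans (SimpleGraph.Adj.reachable ?_)
      exact ⟨hij, u', ⟨hs.trans hss, h'.le⟩, h', h'.contact hc, hc, hsy _ _ _ hc⟩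

/-- Two particles active at `s`, in virtual contact at some time, are in contact at some time after
`s`. -/
theorem exists_contact (hsy : ∀ s i j, F.C s i j → F.C s j i) (hTL : F.TL T) (hA : F.Hist t k)
    (htT : t ≤ T) {s s' : ℝ} (hs : 0 ≤ s) {i j : J} (hij : i ≠ j) (hi : Past F.C t k s i)
    (hj : Past F.C t k s j) (hs' : s' ∈ Icc 0 T) (hv : F.VC s' i j) :
    ∃ u ∈ Icc s t, Past F.C t k u i ∧ Past F.C t k u j ∧ F.C u i j := by
  have hle : F.expl s t k ≤ gr T F.VC := by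
    intro x y hxy
    obtain ⟨hne, u, hu, h1, _, h3, _⟩ := hxy
    exact ⟨hne, u, ⟨hs.trans hu.1, hu.2.trans htT⟩, Or.inl (hA u ⟨hs.trans hu.1, hu.2⟩ x y hne h1 h3)⟩
  have hreach : (F.expl s t k).Reachable i j :=
    (reach_of_past hsy hi le_rfl).symm.trans (reach_of_past hsy hj le_rfl)
  have hadj : (gr T F.VC).Adj i j := ⟨hij, s', hs', Or.inl hv⟩
  obtain ⟨_, u, hu, h1, h2, h3, _⟩ := adj_of_reachable hTL.acyc hle hadj hreach
  exact ⟨u, hu, h1, h2, h3⟩

/-- **No ghosts** among the active particles (in virtual contact). -/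
theorem no_ghost (hF : F.Ok T P) (hTL : F.TL T) (hA : F.Hist t k) (htT : t ≤ T) {s : ℝ}
    (hs : s ∈ Icc 0 t) {i j : J} (hij : i ≠ j) (hi : Past F.C t k s i) (hj : Past F.C t k s j)
    (hv : F.VC s i j) (hg : F.G s i j) : F.C s i j := by
  by_contra hn
  have hsT : s ∈ Icc 0 T := ⟨hs.1, hs.2.trans htT⟩
  obtain ⟨u, hu, hui, huj, huc⟩ := exists_contact hF.symm hTL hA htT hs.1 hij hi hj hsT hv
  have huT : u ∈ Icc 0 T := ⟨hs.1.trans hu.1, hu.2.trans htT⟩
  have hu0 : u ∈ Icc 0 t := ⟨hs.1.trans hu.1, hu.2⟩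
  obtain ⟨r, hr, m, hmi, hmj, h⟩ := hF.gh1 s hsT u huT i j hij hu.1 hg hn huc
  have hr0 : r ∈ Icc 0 t := ⟨hs.1.trans hr.1, hr.2.trans hu.2⟩
  have hvu := hA u hu0 i j hij hui huc
  rcases h with h | h
  · have h1 := hA r hr0 i m hmi.symm (hui.mono hr.2) h
    rcases Sym2.eq_iff.1 (hTL.sep i j i m s u r hij hmi.symm hs.1 huT.2 hr.1 hr.2 hv hvu h1) with
      ⟨_, h2⟩ | ⟨h2, _⟩
    · exact hmj h2.symm
    · exact hmi h2.symm
  · have h1 := hA r hr0 j m hmj.symm (huj.mono hr.2) h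
    rcases Sym2.eq_iff.1 (hTL.sep i j j m s u r hij hmj.symm hs.1 huT.2 hr.1 hr.2 hv hvu h1) with
      ⟨h2, _⟩ | ⟨h2, _⟩
    · exact hij h2
    · exact hmi h2.symm

/-- An active particle in contact with another one is in contact with nobody else. -/
theorem one_of_hist (hTL : F.TL T) (hA : F.Hist t k) (htT : t ≤ T)
    (hsy : ∀ s i j, F.C s i j → F.C s j i) {s : ℝ} (hs : s ∈ Icc 0 t) {i j : J} (hij : i ≠ j)
    (hi : Past F.C t k s i) (hc : F.C s i j) {m : J} (hmi : m ≠ i) (hmj : m ≠ j) :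
    ¬ F.C s i m ∧ ¬ F.C s j m := by
  have hsT : s ≤ T := hs.2.trans htT
  have h1 := hA s hs i j hij hi hc
  constructor
  · intro h
    have h2 := hA s hs i m hmi.symm hi h
    rcases Sym2.eq_iff.1 (hTL.sep i j i m s s s hij hmi.symm hs.1 hsT le_rfl le_rfl h1 h1 h2) with
      ⟨_, h3⟩ | ⟨h3, _⟩
    · exact hmj h3.symm
    · exact hmi h3.symm
  · intro h
    have hj : Past F.C t k s j := hi.contact hc
    have h2 := hA s hs j m hmj.symm hj h
    rcases Sym2.eq_iff.1 (hTL.sep i j j m s s s hij hmj.symm hs.1 hsT le_rfl le_rfl h1 h1 h2) with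
      ⟨h3, _⟩ | ⟨h3, _⟩
    · exact hij h3
    · exact hmi h3.symm

section step

variable [Finite J]

/-- Absence of ghosts persists for a short time. -/
theorem exists_noghost (hF : F.Ok T P) {A : Set J} (hA : A ⊆ P) {G : Set J} (hG : G ⊆ A) {s : ℝ}
    (hs : s ∈ Ico 0 T) (hag : ∀ i ∈ G, F.x s i = F.z A s i)
    (hone : ∀ i ∈ G, ∀ j ∈ G, i ≠ j → F.C s i j → ∀ m, m ≠ i → m ≠ j →
      ¬ F.C s i m ∧ ¬ F.C s j m)
    (hng : ∀ i ∈ G, ∀ j ∈ G, i ≠ j → F.G s i j → F.C s i j) :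
    ∃ δ > 0, ∀ r ∈ Icc s (s + δ), ∀ i ∈ G, ∀ j ∈ G, i ≠ j → F.G r i j → F.C r i j := by
  have h1 : ∀ p : J × J, ∃ δ > 0, ∀ r ∈ Icc s (s + δ), p.1 ∈ G → p.2 ∈ G → p.1 ≠ p.2 →
      F.G r p.1 p.2 → F.C r p.1 p.2 := by
    rintro ⟨i, j⟩
    by_cases hp : i ∈ G ∧ j ∈ G ∧ i ≠ j
    · obtain ⟨hi, hj, hij⟩ := hp
      by_cases hg : F.G s i j
      · have hc := hng i hi j hj hij hg
        rcases hF.gh2 s hs i j hij hc with ⟨m, hmi, hmj, h⟩ | ⟨δ, hδ, h⟩
        · have h' := hone i hi j hj hij hc m hmi hmj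
          exact absurd h (not_or.2 h')
        · exact ⟨δ, hδ, fun r hr _ _ _ => h r hr⟩
      · obtain ⟨δ, hδ, h⟩ := hF.gopen A hA s hs i (hG hi) j (hG hj) hij (hag i hi) (hag j hj) hg
        exact ⟨δ, hδ, fun r hr _ _ _ hg' => absurd hg' (h r hr)⟩
    · exact ⟨1, one_pos, fun r _ hi hj hij => absurd ⟨hi, hj, hij⟩ hp⟩
  choose f hf h1 using h1
  obtain ⟨δ, hδ, hle⟩ := exists_min_pos f hf
  exact ⟨δ, hδ, fun r hr i hi j hj hij =>
    h1 (i, j) r ⟨hr.1, hr.2.trans (by linarith [hle (i, j)])⟩ hi hj hij⟩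

/-- Right step: agreement at one time of a group without contacts with outsiders and without ghosts
persists for a short time. -/
theorem extend (hF : F.Ok T P) {A : Set J} (hA : A ⊆ P) {G : Set J} (hG : G ⊆ A) {s : ℝ}
    (hs : s ∈ Ico 0 T) (h1 : ∀ k ∈ G, ∀ j, j ∉ G → ¬ F.C s k j)
    (h2 : ∀ k ∈ G, ∀ j, j ∉ G → ¬ F.CA A s k j)
    (hone : ∀ i ∈ G, ∀ j ∈ G, i ≠ j → F.C s i j → ∀ m, m ≠ i → m ≠ j →
      ¬ F.C s i m ∧ ¬ F.C s j m)
    (hng : ∀ i ∈ G, ∀ j ∈ G, i ≠ j → F.G s i j → F.C s i j)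
    (hag : ∀ k ∈ G, F.x s k = F.z A s k) :
    ∃ δ > 0, s + δ ≤ T ∧ ∀ r ∈ Icc s (s + δ),
      (∀ k ∈ G, F.x r k = F.z A r k) ∧
      (∀ k ∈ G, ∀ j, j ∉ G → ¬ F.C r k j) ∧
      (∀ k ∈ G, ∀ j, j ∉ G → ¬ F.CA A r k j) ∧
      (∀ i ∈ G, ∀ j ∈ G, i ≠ j → F.G r i j → F.C r i j) := by
  obtain ⟨δ₁, hδ₁, hδ₁T, hi₁⟩ := exists_isolated hF.closed hs G Gᶜ
    (fun _ hk hk' => hk' hk) h1
  obtain ⟨δ₂, hδ₂, hδ₂T, hi₂⟩ := exists_isolated (hF.closedA A hA) hs G Gᶜ
    (fun _ hk hk' => hk' hk) h2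
  obtain ⟨δ₃, hδ₃, hi₃⟩ := exists_noghost hF hA hG hs hag hone hng
  have hδ0 : 0 < min δ₁ (min δ₂ δ₃) := lt_min hδ₁ (lt_min hδ₂ hδ₃)
  have l₁ : min δ₁ (min δ₂ δ₃) ≤ δ₁ := min_le_left _ _
  have l₂ : min δ₁ (min δ₂ δ₃) ≤ δ₂ := (min_le_right _ _).trans (min_le_left _ _)
  have l₃ : min δ₁ (min δ₂ δ₃) ≤ δ₃ := (min_le_right _ _).trans (min_le_right _ _)
  set δ := min δ₁ (min δ₂ δ₃) with hδ
  have i₁ : ∀ r ∈ Icc s (s + δ), ∀ k ∈ G, ∀ j, j ∉ G → ¬ F.C r k j :=
    fun r hr k hk j hj => hi₁ r ⟨hr.1, hr.2.trans (by linarith)⟩ k hk j hj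
  have i₂ : ∀ r ∈ Icc s (s + δ), ∀ k ∈ G, ∀ j, j ∉ G → ¬ F.CA A r k j :=
    fun r hr k hk j hj => hi₂ r ⟨hr.1, hr.2.trans (by linarith)⟩ k hk j hj
  have i₃ : ∀ r ∈ Icc s (s + δ), ∀ i ∈ G, ∀ j ∈ G, i ≠ j → F.G r i j → F.C r i j :=
    fun r hr => hi₃ r ⟨hr.1, hr.2.trans (by linarith)⟩
  have key := hF.loc A hA G hG s (s + δ) hs.1 (by linarith) (by linarith) i₁ i₃ i₂ hag
  exact ⟨δ, hδ0, by linarith, fun r hr => ⟨key r hr, i₁ r hr, i₂ r hr, i₃ r hr⟩⟩

end step

section closed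

variable [Finite J]

/-- Agreement of the active states, if no active particle meets, in the isolated world, a particle
which is not active. -/
theorem agree (hF : F.Ok T P) (hTL : F.TL T) (ht : t ∈ Icc 0 T) (hV : BC F.C t k ⊆ P)
    (hA : F.Hist t k)
    (hav : ∀ s ∈ Icc 0 t,
      (∀ s' ∈ Icc 0 s, ∀ j, Past F.C t k s' j → F.x s' j = F.z (BC F.C t k) s' j) →
      ∀ i, Past F.C t k s i → ∀ j, ¬ Past F.C t k s j → ¬ F.CA (BC F.C t k) s i j) :
    ∀ s ∈ Icc 0 t, ∀ j, Past F.C t k s j → F.x s j = F.z (BC F.C t k) s j := by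
  set V := BC F.C t k with hVdef
  set E : Set ℝ := {s | ∀ s' ∈ Icc 0 s, ∀ j, Past F.C t k s' j → F.x s' j = F.z V s' j} with hE
  have hmem : ∀ s, 0 ≤ s → ∀ j, Past F.C t k s j → j ∈ V := fun s hs j hj => hj.mono hs
  have hmain : Icc 0 t ⊆ E := by
    refine IsClosed.Icc_subset_of_forall_exists_gt ?_ ?_ ?_
    · rw [← isSeqClosed_iff_isClosed]
      intro u σ hu hlim
      have hσ : σ ∈ Icc 0 t := isClosed_Icc.mem_of_tendsto hlim
        (Eventually.of_forall fun n => (hu n).2)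
      refine ⟨?_, hσ⟩
      intro s' hs' j hj
      rcases lt_or_eq_of_le hs'.2 with h1 | h1
      · obtain ⟨n, hn⟩ := (hlim.eventually (lt_mem_nhds h1)).exists
        exact (hu n).1 s' ⟨hs'.1, hn.le⟩ j hj
      · subst h1
        by_cases h2 : ∃ n, s' ≤ u n
        · obtain ⟨n, hn⟩ := h2
          exact (hu n).1 s' ⟨hs'.1, hn⟩ j hj
        · push Not at h2
          have h3 : ∀ n, F.x (u n) j = F.z V (u n) j := fun n =>
            (hu n).1 (u n) ⟨(hu n).2.1, le_rfl⟩ j (hj.mono (h2 n).le)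
          exact ((hF.eqc V hV j (hmem s' hs'.1 j hj)).mem_of_tendsto hlim
            (Eventually.of_forall fun n => ⟨⟨(hu n).2.1, (hu n).2.2.trans ht.2⟩, h3 n⟩)).2
    · intro s' hs' j hj
      have h0 : s' = 0 := le_antisymm hs'.2 hs'.1
      subst h0
      exact hF.init V hV j hj
    · intro s hs y hy
      obtain ⟨hsE, hsI⟩ := hs
      have hsI' : s ∈ Icc 0 t := ⟨hsI.1, hsI.2.le⟩
      have hsT : s ∈ Icc 0 T := ⟨hsI.1, hsI.2.le.trans ht.2⟩
      have hag : ∀ j, Past F.C t k s j → F.x s j = F.z V s j := hsE s ⟨hsI.1, le_rfl⟩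
      obtain ⟨δ, hδ, _, key⟩ := extend (G := {j | Past F.C t k s j}) hF hV (hmem s hsI.1)
        ⟨hsI.1, hsI.2.trans_le ht.2⟩ (fun i hi j hj hc => hj (Past.contact hi hc))
        (fun i hi j hj => hav s hsI' hsE i hi j hj)
        (fun i hi j _ hij hc m hmi hmj =>
          one_of_hist hTL hA ht.2 hF.symm hsI' hij hi hc hmi hmj)
        (fun i hi j hj hij hg => no_ghost hF hTL hA ht.2 hsI' hij hi hj
          (hF.vcx V hV V hV s hsT i (hmem s hsI.1 i hi) j (hmem s hsI.1 j hj) hij (hag i hi)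
            (hag j hj) hg) hg) hag
      refine ⟨s + min δ (y - s), ?_, ?_, ?_⟩
      · intro s' hs' j hj
        rcases le_total s' s with h3 | h3
        · exact hsE s' ⟨hs'.1, h3⟩ j hj
        · exact (key s' ⟨h3, hs'.2.trans (by linarith [min_le_left δ (y - s)])⟩).1 j (hj.mono h3)
      · have : 0 < min δ (y - s) := lt_min hδ (sub_pos.2 hy)
        linarith
      · linarith [min_le_right δ (y - s)]
  intro s hs j hj
  exact hmain hs s ⟨hs.1, le_rfl⟩ j hj

/-- `Real` from agreement and absence of contacts with particles which are not active. -/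
theorem real_of_agree (hF : F.Ok T P) (hTL : F.TL T) (ht : t ∈ Icc 0 T) (hV : BC F.C t k ⊆ P)
    (hA : F.Hist t k)
    (hag : ∀ s ∈ Icc 0 t, ∀ j, Past F.C t k s j → F.x s j = F.z (BC F.C t k) s j)
    (hav : ∀ s ∈ Icc 0 t, ∀ i, Past F.C t k s i → ∀ j, ¬ Past F.C t k s j →
      ¬ F.CA (BC F.C t k) s i j) : F.Real t k where
  eq := hag
  act s hs j := by
    constructor
    · intro h
      have gen : ∀ (s : ℝ) (j : J), Past (F.CA (BC F.C t k)) t k s j → 0 ≤ s →
          Past F.C t k s j := by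
        intro s j hj
        induction hj with
        | root hr => exact fun _ => .root hr
        | @step s s' i j hi hc hss ih =>
          intro hs
          have hs' := hs.trans hss
          by_contra hn
          exact hav s' ⟨hs', hi.le⟩ i (ih hs') j (fun h => hn (h.mono hss)) hc
      exact gen s j h hs.1
    · intro h
      have gen : ∀ (s : ℝ) (j : J), Past F.C t k s j → 0 ≤ s →
          Past (F.CA (BC F.C t k)) t k s j := by
        intro s j hj
        induction hj with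
        | root hr => exact fun _ => .root hr
        | @step s s' i j hi hc hss ih =>
          intro hs
          have hs' := hs.trans hss
          by_cases hij : i = j
          · subst hij
            exact (ih hs').mono hss
          have hI : s' ∈ Icc 0 t := ⟨hs', hi.le⟩
          have hIT : s' ∈ Icc 0 T := ⟨hs', hi.le.trans ht.2⟩
          have hj : Past F.C t k s' j := Past.contact hi hc
          refine .step (ih hs') ?_ hss
          exact (hF.coh _ hV s' hIT i (hi.mono hs') j (hj.mono hs') hij (hag s' hI i hi)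
            (hag s' hI j hj)).1 (hF.geo s' hIT i j hij hc)
      exact gen s j h hs.1
  ng s hs i j hij hi hj hg := no_ghost hF hTL hA ht.2 hs hij hi hj
    (hF.vcx _ hV _ hV s ⟨hs.1, hs.2.trans ht.2⟩ i (hi.mono hs.1) j (hj.mono hs.1) hij
      (hag s hs i hi) (hag s hs j hj) hg) hg
  hist := hA

/-- **Closed step.** If the past `V` of `(k, t)` is contained in `P` and the explored contacts are
virtual contacts, then all explored states are the states in the isolated world `V`. -/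
theorem closed_step (hF : F.Ok T P) (hTL : F.TL T) (ht : t ∈ Icc 0 T) (hV : BC F.C t k ⊆ P)
    (hA : F.Hist t k) : F.Real t k := by
  set V := BC F.C t k with hVdef
  suffices hav : ∀ s ∈ Icc 0 t,
      (∀ s' ∈ Icc 0 s, ∀ j, Past F.C t k s' j → F.x s' j = F.z V s' j) →
      ∀ i, Past F.C t k s i → ∀ j, ¬ Past F.C t k s j → ¬ F.CA V s i j by
    have hag := agree hF hTL ht hV hA hav
    exact real_of_agree hF hTL ht hV hA hag fun s hs =>
      hav s hs fun s' hs' => hag s' ⟨hs'.1, hs'.2.trans hs.2⟩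
  intro s hs hag a ha j hj' hc'
  have hsT : s ∈ Icc 0 T := ⟨hs.1, hs.2.trans ht.2⟩
  obtain ⟨haV, hjV⟩ := hF.supp _ _ _ _ hc'
  have haj : a ≠ j := fun h => hj' (h ▸ ha)
  have hvc : F.VC s a j := hF.vcA V hV s hsT a j haj hc'
  obtain ⟨u, hu, hua, huj, huc⟩ := exists_contact hF.symm hTL hA ht.2 le_rfl haj (ha.mono hs.1) hjV
    hsT hvc
  have hus : u < s := by
    by_contra hle
    exact hj' (huj.mono (not_lt.1 hle))
  -- the last real contact before `s`
  set S : Set ℝ := {v | v ∈ Icc 0 T ∧ F.C v a j} ∩ Icc 0 s with hS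
  have hSc : IsClosed S := (hF.closed a j haj).inter isClosed_Icc
  have hSne : S.Nonempty := ⟨u, ⟨⟨hu.1, hu.2.trans ht.2⟩, huc⟩, ⟨hu.1, hus.le⟩⟩
  have hSb : BddAbove S := ⟨s, fun v hv => hv.2.2⟩
  set w := sSup S with hw
  have hwS : w ∈ S := hSc.csSup_mem hSne hSb
  have hwlast : ∀ v, w < v → v ≤ s → ¬ F.C v a j := fun v hv hvs h =>
    absurd (le_csSup hSb (show v ∈ S from
      ⟨⟨⟨hwS.2.1.trans hv.le, hvs.trans hsT.2⟩, h⟩, ⟨hwS.2.1.trans hv.le, hvs⟩⟩)) (not_le.2 hv)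
  have hw0 : 0 ≤ w := hwS.2.1
  have hwc : F.C w a j := hwS.1.2
  have hwa : Past F.C t k w a := ha.mono hwS.2.2
  have hwj : Past F.C t k w j := hwa.contact hwc
  have hws : w < s := lt_of_le_of_ne hwS.2.2 fun h => hj' (h ▸ hwj)
  have hwt : w ∈ Icc 0 t := ⟨hw0, hws.le.trans hs.2⟩
  have hwT : w ∈ Icc 0 T := ⟨hw0, hwt.2.trans ht.2⟩
  have hza : F.x w a = F.z V w a := hag w ⟨hw0, hws.le⟩ a hwa
  have hzj : F.x w j = F.z V w j := hag w ⟨hw0, hws.le⟩ j hwj
  have hwcV : F.CA V w a j :=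
    (hF.coh V hV w hwT a haV j hjV haj hza hzj).1 (hF.geo w hwT a j haj hwc)
  have hwvc : F.VC w a j := hA w hwt a j haj hwa hwc
  have hsep : ∀ v ∈ Icc w s, ∀ p q, p ≠ q → F.VC v p q → s(a, j) = s(p, q) :=
    fun v hv p q hpq h => hTL.sep a j p q w s v haj hpq hw0 hsT.2 hv.1 hv.2 hwvc hvc h
  -- nobody else meets `a` or `j` in the world `V` during `[w, s]`
  have hisoV : ∀ v ∈ Icc w s, ∀ m, m ≠ a → m ≠ j → ¬ F.CA V v a m ∧ ¬ F.CA V v j m := by
    intro v hv m hma hmj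
    have hvT : v ∈ Icc 0 T := ⟨hw0.trans hv.1, hv.2.trans hsT.2⟩
    constructor
    · intro h
      have := hsep v hv a m (Ne.symm hma) (hF.vcA V hV v hvT a m (Ne.symm hma) h)
      rcases Sym2.eq_iff.1 this with ⟨_, h2⟩ | ⟨h2, _⟩
      · exact hmj h2.symm
      · exact hma h2.symm
    · intro h
      have := hsep v hv j m (Ne.symm hmj) (hF.vcA V hV v hvT j m (Ne.symm hmj) h)
      rcases Sym2.eq_iff.1 this with ⟨h2, _⟩ | ⟨h2, _⟩
      · exact haj h2
      · exact hma h2.symm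
  -- nobody else meets `a` or `j` in the real world at time `w`
  have hiso : ∀ x ∈ ({a, j} : Set J), ∀ m, m ∉ ({a, j} : Set J) → ¬ F.C w x m := by
    intro x hx m hm h
    have hma : m ≠ a := fun h' => hm (Or.inl h')
    have hmj : m ≠ j := fun h' => hm (Or.inr h')
    rcases hx with rfl | hx
    · have := hsep w ⟨le_rfl, hws.le⟩ x m (Ne.symm hma) (hA w hwt x m (Ne.symm hma) hwa h)
      rcases Sym2.eq_iff.1 this with ⟨_, h2⟩ | ⟨h2, _⟩
      · exact hmj h2.symm
      · exact hma h2.symm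
    · have hxj : x = j := hx
      subst hxj
      have := hsep w ⟨le_rfl, hws.le⟩ x m (Ne.symm hmj) (hA w hwt x m (Ne.symm hmj) hwj h)
      rcases Sym2.eq_iff.1 this with ⟨h2, _⟩ | ⟨h2, _⟩
      · exact haj h2
      · exact hma h2.symm
  have hpairV : ({a, j} : Set J) ⊆ V := by
    rintro x (rfl | rfl)
    · exact haV
    · exact hjV
  obtain ⟨δ, hδ, hδT, key⟩ := extend (G := ({a, j} : Set J)) hF hV hpairV
    (⟨hw0, hws.trans_le hsT.2⟩ : w ∈ Ico 0 T) hiso
    (by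
      intro x hx m hm h
      have h1 := hisoV w ⟨le_rfl, hws.le⟩ m (fun h' => hm (Or.inl h')) (fun h' => hm (Or.inr h'))
      rcases hx with rfl | hx
      · exact h1.1 h
      · have hxj : x = j := hx
        subst hxj
        exact h1.2 h)
    (by
      intro x hx y _ hxy hcxy m hmx hmy
      have hxp : Past F.C t k w x := by
        rcases hx with rfl | hx
        · exact hwa
        · exact (show x = j from hx) ▸ hwj
      exact one_of_hist hTL hA ht.2 hF.symm hwt hxy hxp hcxy hmx hmy)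
    (by
      rintro x (rfl | hx) y (rfl | hy) hxy _
      · exact absurd rfl hxy
      · have hyj : y = j := hy
        subst hyj
        exact hwc
      · have hxj : x = j := hx
        subst hxj
        exact hF.symm _ _ _ hwc
      · exact absurd ((show x = j from hx).trans (show y = j from hy).symm) hxy)
    (by
      rintro x (rfl | hx)
      · exact hza
      · have hxj : x = j := hx
        subst hxj
        exact hzj)
  set s₁ := min (w + δ) s with hs₁
  have hws₁ : w < s₁ := lt_min (by linarith) hws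
  have hs₁s : s₁ ≤ s := min_le_right _ _
  refine hF.nr V hV w s₁ s a j haj hw0 hws₁ hs₁s hsT.2 hwcV hisoV (fun v hv h => ?_) hc'
  have hvT : v ∈ Icc 0 T := ⟨hw0.trans hv.1.le, (hv.2.trans hs₁s).trans hsT.2⟩
  obtain ⟨k1, _, _, k4⟩ := key v ⟨hv.1.le, hv.2.trans (min_le_left _ _)⟩
  refine hwlast v hv.1 (hv.2.trans hs₁s) ?_
  refine k4 a (Or.inl rfl) j (Or.inr rfl) haj ?_
  exact (hF.coh V hV v hvT a haV j hjV haj (k1 a (Or.inl rfl)) (k1 j (Or.inr rfl))).2 h

end closed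

section openStep

variable [Finite J]

omit [Finite J] in
/-- Exploration from a later time through a group without contacts with outsiders. -/
theorem past_of_iso {C : ℝ → J → J → Prop} {c r : ℝ} {q : J} {G : Set J} (hq : q ∈ G)
    (hG : ∀ j ∈ G, Past C c q c j) (hiso : ∀ s ∈ Icc c r, ∀ k ∈ G, ∀ j, j ∉ G → ¬ C s k j)
    {s : ℝ} {j : J} (h : Past C r q s j) : (s ≤ c → Past C c q s j) ∧ (c ≤ s → j ∈ G) := by
  induction h with
  | root hs => exact ⟨fun h => .root h, fun _ => hq⟩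
  | @step s s' i j hp hc hss ih =>
    have hle := hp.le
    have hj : c ≤ s' → j ∈ G := fun h => by
      by_contra hn
      exact hiso s' ⟨h, hle⟩ i (ih.2 h) j hn hc
    refine ⟨fun h => ?_, fun h => hj (h.trans hss)⟩
    rcases le_or_gt s' c with h1 | h1
    · exact .step (ih.1 h1) hc hss
    · exact (hG j (hj h1.le)).mono h

/-- **Open step.** `Real` persists for a short time. -/
theorem open_step (hF : F.Ok T P) (hTL : F.TL T) {c : ℝ} (hc : c ∈ Ico 0 T) (hV : BC F.C c k ⊆ P)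
    (hR : F.Real c k) : ∃ δ > 0, c + δ ≤ T ∧ ∀ r ∈ Icc c (c + δ), F.Real r k := by
  obtain ⟨δ₁, hδ₁, hbc⟩ := exists_right hF.closed hc k
  set V := BC F.C c k with hVdef
  set G : Set J := {j | Past F.C c k c j} with hGdef
  have hkG : k ∈ G := .root le_rfl
  have hGV : G ⊆ V := fun j hj => Past.mono hj hc.1
  have hcI : c ∈ Icc 0 c := ⟨hc.1, le_rfl⟩
  obtain ⟨δ₂, hδ₂, hδ₂T, key⟩ := extend hF hV hGV hc
    (fun i hi j hj h => hj (Past.contact hi h))
    (fun i hi j hj h => hj ((hR.act c hcI j).1 (Past.contact ((hR.act c hcI i).2 hi) h)))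
    (fun i hi j _ hij h m hmi hmj => one_of_hist hTL hR.hist hc.2.le hF.symm hcI hij hi h hmi hmj)
    (fun i hi j hj hij hg => hR.ng c hcI i j hij hi hj hg)
    (fun j hj => hR.eq c hcI j hj)
  set δ := min δ₁ δ₂ with hδ
  have hδ0 : 0 < δ := lt_min hδ₁ hδ₂
  refine ⟨δ, hδ0, by linarith [min_le_right δ₁ δ₂], fun r hr => ?_⟩
  have hr1 : r ∈ Icc c (c + δ₁) := ⟨hr.1, hr.2.trans (by linarith [min_le_left δ₁ δ₂])⟩
  have hkey : ∀ s ∈ Icc c r, (∀ j ∈ G, F.x s j = F.z V s j) ∧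
      (∀ k ∈ G, ∀ j, j ∉ G → ¬ F.C s k j) ∧ (∀ k ∈ G, ∀ j, j ∉ G → ¬ F.CA V s k j) ∧
      (∀ i ∈ G, ∀ j ∈ G, i ≠ j → F.G s i j → F.C s i j) := fun s hs =>
    key s ⟨hs.1, hs.2.trans (hr.2.trans (by linarith [min_le_right δ₁ δ₂]))⟩
  have hrT : r ≤ T := hr.2.trans (by linarith [min_le_right δ₁ δ₂])
  have hB : BC F.C r k = V := hbc r hr1
  -- explorations from `r`
  have hP1 : ∀ {s : ℝ} {j : J}, Past F.C r k s j →
      (s ≤ c → Past F.C c k s j) ∧ (c ≤ s → j ∈ G) := fun h =>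
    past_of_iso hkG (fun j hj => hj) (fun s hs => (hkey s hs).2.1) h
  have hP2 : ∀ {s : ℝ} {j : J}, Past (F.CA V) r k s j →
      (s ≤ c → Past (F.CA V) c k s j) ∧ (c ≤ s → j ∈ G) := fun h =>
    past_of_iso hkG (fun j hj => (hR.act c hcI j).2 hj) (fun s hs => (hkey s hs).2.2.1) h
  have hag : ∀ s ∈ Icc 0 r, ∀ j, Past F.C r k s j → F.x s j = F.z V s j := by
    intro s hs j hj
    rcases le_total s c with h | h
    · exact hR.eq s ⟨hs.1, h⟩ j ((hP1 hj).1 h)
    · exact (hkey s ⟨h, hs.2⟩).1 j ((hP1 hj).2 h)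
  refine ⟨?_, ?_, ?_, ?_⟩
  · rw [hB]
    exact hag
  · rw [hB]
    intro s hs j
    constructor
    · intro h
      have gen : ∀ (s : ℝ) (j : J), Past (F.CA V) r k s j → 0 ≤ s → Past F.C r k s j := by
        intro s j hj
        induction hj with
        | root hr => exact fun _ => .root hr
        | @step s s' i j hi hc' hss ih =>
          intro hs
          have hs' := hs.trans hss
          have hi' := ih hs'
          have hle := hi.le
          rcases le_or_gt s' c with h | h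
          · have h1 : Past F.C c k s' j :=
              (hR.act s' ⟨hs', h⟩ j).1 (Past.contact ((hP2 hi).1 h) hc')
            exact (past_mono_time hr.1 h1).mono hss
          · obtain ⟨k1, _, k3, k4⟩ := hkey s' ⟨h.le, hle⟩
            have hiG : i ∈ G := (hP2 hi).2 h.le
            have hjG : j ∈ G := by
              by_contra hn
              exact k3 i hiG j hn hc'
            by_cases hij : i = j
            · subst hij
              exact hi'.mono hss
            refine .step hi' ?_ hss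
            refine k4 i hiG j hjG hij ?_
            exact (hF.coh V hV s' ⟨hs', hle.trans hrT⟩ i (hGV hiG) j (hGV hjG) hij (k1 i hiG)
              (k1 j hjG)).2 hc'
      exact gen s j h hs.1
    · intro h
      have gen : ∀ (s : ℝ) (j : J), Past F.C r k s j → 0 ≤ s → Past (F.CA V) r k s j := by
        intro s j hj
        induction hj with
        | root hr => exact fun _ => .root hr
        | @step s s' i j hi hc' hss ih =>
          intro hs
          have hs' := hs.trans hss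
          by_cases hij : i = j
          · subst hij
            exact (ih hs').mono hss
          have hI : s' ∈ Icc 0 r := ⟨hs', hi.le⟩
          have hIT : s' ∈ Icc 0 T := ⟨hs', hi.le.trans hrT⟩
          have hj : Past F.C r k s' j := Past.contact hi hc'
          have hiV : i ∈ V := by rw [← hB]; exact hi.mono hs'
          have hjV : j ∈ V := by rw [← hB]; exact hj.mono hs'
          refine .step (ih hs') ?_ hss
          exact (hF.coh _ hV s' hIT i hiV j hjV hij (hag s' hI i hi)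
            (hag s' hI j hj)).1 (hF.geo s' hIT i j hij hc')
      exact gen s j h hs.1
  · intro s hs i j hij hi hj hg
    rcases le_total s c with h | h
    · exact hR.ng s ⟨hs.1, h⟩ i j hij ((hP1 hi).1 h) ((hP1 hj).1 h) hg
    · exact (hkey s ⟨h, hs.2⟩).2.2.2 i ((hP1 hi).2 h) j ((hP1 hj).2 h) hij hg
  · intro u hu p q hpq hp hpc
    have hq : Past F.C r k u q := hp.contact hpc
    have huT : u ∈ Icc 0 T := ⟨hu.1, hu.2.trans hrT⟩
    have hpV : p ∈ V := by rw [← hB]; exact hp.mono hu.1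
    have hqV : q ∈ V := by rw [← hB]; exact hq.mono hu.1
    exact hF.vcx V hV V hV u huT p hpV q hqV hpq (hag u hu p hp) (hag u hu q hq)
      (hF.geo u huT p q hpq hpc)

end openStep

section main

variable [Finite J]

/-- State at the end of the strict past. -/
theorem state_pre_aux (hF : F.Ok T P) (ht0 : 0 < t) (htT : t ≤ T) {p : J}
    (hR : ∀ u ∈ Ico 0 t, BC F.C u p ⊆ P → F.Real u p) (hV : pre F.C t p ⊆ P) :
    F.x t p = F.z (pre F.C t p) t p := by
  obtain ⟨s₀, hs₀, hs₀t, h⟩ := exists_left (C := F.C) ht0 p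
  have hcl := hF.eqc (pre F.C t p) hV p (self_mem_pre ht0 p)
  have h1 : ∀ n : ℕ, t - (t - s₀) / (n + 1) ∈ {s | s ∈ Icc 0 T ∧ F.x s p = F.z (pre F.C t p) s p} := by
    intro n
    have hn : (0 : ℝ) < (n : ℝ) + 1 := by positivity
    have h2 : 0 < (t - s₀) / (n + 1) := div_pos (sub_pos.2 hs₀t) hn
    have h3 : (t - s₀) / (n + 1) ≤ t - s₀ := by
      apply div_le_self (sub_pos.2 hs₀t).le
      have : (0 : ℝ) ≤ n := Nat.cast_nonneg n
      linarith
    have h4 : s₀ ≤ t - (t - s₀) / (n + 1) := by linarith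
    have h5 : t - (t - s₀) / (n + 1) < t := by linarith
    have h6 := h _ h4 h5
    have h7 := (hR _ ⟨hs₀.trans h4, h5⟩ (by rw [h6]; exact hV)).eq _
      ⟨hs₀.trans h4, le_rfl⟩ p (.root le_rfl)
    rw [h6] at h7
    exact ⟨⟨hs₀.trans h4, h5.le.trans htT⟩, h7⟩
  have hlim : Tendsto (fun n : ℕ => t - (t - s₀) / ((n : ℝ) + 1)) atTop (𝓝 t) := by
    have h2 : Tendsto (fun n : ℕ => (t - s₀) / ((n : ℝ) + 1)) atTop (𝓝 0) :=
      tendsto_const_nhds.div_atTop
        (tendsto_natCast_atTop_atTop.atTop_add tendsto_const_nhds)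
    simpa using h2.const_sub t
  exact (hcl.mem_of_tendsto hlim (Eventually.of_forall h1)).2

/-- The explored contacts are virtual contacts, if the earlier pasts are realized. -/
theorem hist_of_real (hF : F.Ok T P) (ht : t ∈ Icc 0 T) (hV : BC F.C t k ⊆ P)
    (hR : ∀ u ∈ Ico 0 t, ∀ p, BC F.C u p ⊆ P → F.Real u p) : F.Hist t k := by
  intro u hu p q hpq hp hc
  have hq : Past F.C t k u q := hp.contact hc
  have hpP : BC F.C u p ⊆ P := (BC_subset_of_mem hp).trans hV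
  have hqP : BC F.C u q ⊆ P := (BC_subset_of_mem hq).trans hV
  have huT : u ∈ Icc 0 T := ⟨hu.1, hu.2.trans ht.2⟩
  have key : ∀ r, BC F.C u r ⊆ P → ∃ A ⊆ P, r ∈ A ∧ F.x u r = F.z A u r := by
    intro r hrP
    rcases hu.2.lt_or_eq with h1 | h1
    · exact ⟨_, hrP, root_mem_BC hu.1, (hR u ⟨hu.1, h1⟩ r hrP).eq u ⟨hu.1, le_rfl⟩ r (.root le_rfl)⟩
    · rcases hu.1.lt_or_eq with h0 | h0
      · subst h1
        have h2 : pre F.C u r ⊆ P := (pre_subset u r).trans hrP
        exact ⟨_, h2, self_mem_pre h0 r, state_pre_aux hF h0 ht.2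
          (fun v hv => hR v hv r) h2⟩
      · rw [← h0] at hrP ⊢
        exact ⟨_, hrP, root_mem_BC le_rfl, hF.init _ hrP r (root_mem_BC le_rfl)⟩
  obtain ⟨A, hA, hpA, ha⟩ := key p hpP
  obtain ⟨B, hB, hqB, hb⟩ := key q hqP
  exact hF.vcx A hA B hB u huT p hpA q hqB hpq ha hb (hF.geo u huT p q hpq hc)

/-- **Theorem W**: every past contained in a tree-like set is realized. -/
theorem real_of_TL (hF : F.Ok T P) (hTL : F.TL T) :
    ∀ t ∈ Icc 0 T, ∀ k, BC F.C t k ⊆ P → F.Real t k := by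
  set E : Set ℝ := {t | ∀ s ∈ Icc 0 t, ∀ k, BC F.C s k ⊆ P → F.Real s k} with hE
  rcases lt_or_ge T 0 with hT | hT
  · intro t ht
    exact absurd (ht.1.trans ht.2) (not_le.2 hT)
  have hmain : Icc 0 T ⊆ E := by
    refine IsClosed.Icc_subset_of_forall_exists_gt ?_ ?_ ?_
    · rw [← isSeqClosed_iff_isClosed]
      intro u σ hu hlim
      have hσ : σ ∈ Icc 0 T := isClosed_Icc.mem_of_tendsto hlim
        (Eventually.of_forall fun n => (hu n).2)
      refine ⟨?_, hσ⟩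
      have hlt : ∀ s, 0 ≤ s → s < σ → ∀ k, BC F.C s k ⊆ P → F.Real s k := by
        intro s hs0 hs
        obtain ⟨n, hn⟩ := (hlim.eventually (lt_mem_nhds hs)).exists
        exact (hu n).1 s ⟨hs0, hn.le⟩
      intro s hs k hk
      rcases lt_or_eq_of_le hs.2 with h1 | h1
      · exact hlt s hs.1 h1 k hk
      · subst h1
        exact closed_step hF hTL hσ hk (hist_of_real hF hσ hk fun u hu => hlt u hu.1 hu.2)
    · intro s hs k hk
      have h0 : s = 0 := le_antisymm hs.2 hs.1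
      subst h0
      have h0T : (0 : ℝ) ∈ Icc 0 T := ⟨le_rfl, hT⟩
      exact closed_step hF hTL h0T hk (hist_of_real hF h0T hk fun u hu =>
        absurd (hu.1.trans_lt hu.2) (lt_irrefl _))
    · intro t ht y hy
      obtain ⟨htE, htI⟩ := ht
      have h1 : ∀ k : J, ∃ δ > 0, t + δ ≤ T ∧ ∀ r ∈ Icc t (t + δ), BC F.C r k ⊆ P → F.Real r k := by
        intro k
        by_cases hk : BC F.C t k ⊆ P
        · obtain ⟨δ, hδ, hδT, h⟩ := open_step hF hTL htI hk (htE t ⟨htI.1, le_rfl⟩ k hk)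
          exact ⟨δ, hδ, hδT, fun r hr _ => h r hr⟩
        · exact ⟨T - t, sub_pos.2 htI.2, by linarith, fun r hr h =>
            absurd ((bc_mono_time k hr.1).trans h) hk⟩
      choose f hf _ h1 using h1
      obtain ⟨δ, hδ, hle⟩ := exists_min_pos f hf
      refine ⟨t + min δ (y - t), ?_, ?_, ?_⟩
      · intro s hs k hk
        rcases le_total s t with h | h
        · exact htE s ⟨hs.1, h⟩ k hk
        · exact h1 k s ⟨h, hs.2.trans (by linarith [min_le_left δ (y - t), hle k])⟩ hk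
      · have : 0 < min δ (y - t) := lt_min hδ (sub_pos.2 hy)
        linarith
      · linarith [min_le_right δ (y - t)]
  intro t ht k hk
  exact hmain ht t ⟨ht.1, le_rfl⟩ k hk

theorem hist_of_TL (hF : F.Ok T P) (hTL : F.TL T) (ht : t ∈ Icc 0 T) (hV : BC F.C t k ⊆ P) :
    F.Hist t k :=
  hist_of_real hF ht hV fun u hu => real_of_TL hF hTL u ⟨hu.1, hu.2.le.trans ht.2⟩

/-- State at the end of the strict past. -/
theorem state_pre (hF : F.Ok T P) (hTL : F.TL T) (ht0 : 0 < t) (htT : t ≤ T)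
    (hV : pre F.C t k ⊆ P) : F.x t k = F.z (pre F.C t k) t k :=
  state_pre_aux hF ht0 htT (fun u hu => real_of_TL hF hTL u ⟨hu.1, hu.2.le.trans htT⟩ k) hV

/-- Strict past: just before `t` the past is `pre F.C t k`, and it is realized. -/
theorem real_pre (hF : F.Ok T P) (hTL : F.TL T) (ht0 : 0 < t) (htT : t ≤ T)
    (hV : pre F.C t k ⊆ P) : ∃ s₀, 0 ≤ s₀ ∧ s₀ < t ∧
      ∀ s ∈ Ico s₀ t, BC F.C s k = pre F.C t k ∧ F.Real s k := by
  obtain ⟨s₀, hs₀, hs₀t, h⟩ := exists_left (C := F.C) ht0 k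
  refine ⟨s₀, hs₀, hs₀t, fun s hs => ⟨h s hs.1 hs.2, ?_⟩⟩
  exact real_of_TL hF hTL s ⟨hs₀.trans hs.1, hs.2.le.trans htT⟩ k (by rw [h s hs.1 hs.2]; exact hV)

/-- Strict past: states and explorations. -/
theorem real_pre' (hF : F.Ok T P) (hTL : F.TL T) (ht0 : 0 < t) (htT : t ≤ T)
    (hV : pre F.C t k ⊆ P) {s : ℝ} (hs : 0 ≤ s) {j : J} :
    ((∃ u < t, Past F.C u k s j) → F.x s j = F.z (pre F.C t k) s j) ∧
    ((∃ u < t, Past (F.CA (pre F.C t k)) u k s j) ↔ ∃ u < t, Past F.C u k s j) := by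
  obtain ⟨s₀, hs₀, hs₀t, h⟩ := real_pre hF hTL ht0 htT hV
  have key : ∀ (C : ℝ → J → J → Prop), (∃ u < t, Past C u k s j) →
      ∃ u ∈ Ico s₀ t, Past C u k s j := by
    rintro C ⟨u, hu, hp⟩
    exact ⟨max u s₀, ⟨le_max_right _ _, max_lt hu hs₀t⟩, past_mono_time (le_max_left _ _) hp⟩
  refine ⟨fun h1 => ?_, fun h1 => ?_, fun h1 => ?_⟩
  · obtain ⟨u, hu, hp⟩ := key _ h1
    obtain ⟨h2, h3⟩ := h u hu
    have := h3.eq s ⟨hs, hp.le⟩ j hp
    rwa [h2] at this
  · obtain ⟨u, hu, hp⟩ := key _ h1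
    obtain ⟨h2, h3⟩ := h u hu
    rw [← h2] at hp
    exact ⟨u, hu.2, (h3.act s ⟨hs, hp.le⟩ j).1 hp⟩
  · obtain ⟨u, hu, hp⟩ := key _ h1
    obtain ⟨h2, h3⟩ := h u hu
    have := (h3.act s ⟨hs, hp.le⟩ j).2 hp
    rw [h2] at this
    exact ⟨u, hu.2, this⟩

end main

end GW

end Crest.Agent.R122.LNW291
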