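import Mathlib
import Crest.Prelude.Def_KineticLimit
import Crest.Agent.R122.PWGlue_491
import Crest.Agent.R122.LNTreeB_410
import Crest.Agent.R122.EInf_879

/-!
# Row 122, LN1 (helper442): the glued world of a marked world and a forest

Labels `J` of a virtual system `M`; a forest (a family of trees, valid and separated on `[0, M.T]`)
sits in `M` at time `0` (`Forest`); a marked world `W : MW ι` (the derived real world: gas particles,
independent lines and some of the exits of the trees) is embedded in the labels by `f : ι ↪ J`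
(`Glue`).  Then `Glue.gd : GD M Z (Sp e) (bD W f) (univ.map f) (XD M.Φ M.ε W f)`.

* `Glue.C_of_cg`, `Glue.cg_of_C`, `Glue.cg_iff` : the contacts of the glued world between labels of
  the derived world are the contacts of `W`.
-/

set_option autoImplicit false
set_option linter.unusedSectionVars false

open MeasureTheory Set Filter Topology
open scoped NNReal ENNReal
open Crest.AnalysisR.Kinetic
open Crest.Agent.R122.Flow671 Crest.Agent.R122.Loc45 Crest.Agent.R122.Ins45
open Crest.Agent.R122.VL581 Crest.Agent.R122.VL581.VSys Crest.Agent.R122.VLInst442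
open Crest.Agent.R122.LNInst491 Crest.Agent.R122.LN304 Crest.Agent.R122.LNg410
open Crest.Agent.R122.Kin796 Crest.Agent.R122.Kin796.CTree Crest.Agent.R122.Tree674
open Crest.Agent.R122.PathFlow968 Crest.Agent.R122.TreeLines335 Crest.Agent.R122.EDefs602
open Crest.Agent.R122.LNTree410 Crest.Agent.R122.PWGlue491 Crest.Agent.R122.Inf879
open scoped Classical

noncomputable section

namespace Crest.Agent.R122.PWInst442

variable {J κ ι α : Type} [Fintype J] [Fintype ι] {M : VSys J κ} {Z : J → PhasePoint}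

/-! ### The derived world on the labels -/

section derived

variable (W : MW ι) (f : ι ↪ J)

/-- Births of the derived world. -/
def bD (j : J) : ℝ := if h : ∃ i, f i = j then W.b h.choose else 0

/-- Paths of the derived world. -/
def XD (Φ : Space3 → ℝ) (ε : ℝ) (s : ℝ) (j : J) : PhasePoint :=
  if h : ∃ i, f i = j then W.path Φ ε s h.choose else 0

theorem bD_apply (i : ι) : bD W f (f i) = W.b i := by
  have h : ∃ i', f i' = f i := ⟨i, rfl⟩
  unfold bD
  rw [dif_pos h, f.injective h.choose_spec]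

theorem XD_apply (Φ : Space3 → ℝ) (ε s : ℝ) (i : ι) :
    XD W f Φ ε s (f i) = W.path Φ ε s i := by
  have h : ∃ i', f i' = f i := ⟨i, rfl⟩
  unfold XD
  rw [dif_pos h, f.injective h.choose_spec]

/-- The labels of the derived world. -/
abbrev labs : Finset J := Finset.univ.map f

theorem mem_labs {j : J} : j ∈ labs f ↔ ∃ i, f i = j := by
  simp [labs]

theorem mem_labs_self (i : ι) : f i ∈ labs f := (mem_labs f).2 ⟨i, rfl⟩

/-- Labels and indices. -/
def labE : labs f ≃ ι :=
  (Equiv.ofBijective (fun i : ι => (⟨f i, mem_labs_self f i⟩ : labs f))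
    ⟨fun i j h => f.injective (congrArg Subtype.val h), fun j => by
      obtain ⟨i, hi⟩ := (mem_labs f).1 j.2
      exact ⟨i, Subtype.ext hi⟩⟩).symm

theorem f_labE (j : labs f) : f (labE f j) = j := by
  have h := (labE f).symm_apply_apply j
  exact congrArg Subtype.val h

end derived

/-- A path is free up to the birth. -/
theorem path_birth {Φ : Space3 → ℝ} {ε : ℝ} (hΦ : AdmissiblePotential Φ) (hε : 0 < ε) (W : MW ι)
    {i : ι} {t : ℝ} (h0 : 0 ≤ t) (ht : t ≤ W.b i) :
    W.path Φ ε t i = ((W.z i).1 + t • (W.z i).2, (W.z i).2) := by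
  unfold MW.path
  rw [evo_unborn hΦ hε W.b ht h0, sub_zero]

/-! ### Forests -/

/-- A family of trees, sitting in the virtual system at time `0`. -/
structure Forest (M : VSys J κ) (Z : J → PhasePoint) (Ps : α → CTree)
    (z : (a : α) → PhasePoint × Par (Ps a)) (e : (a : α) → Idx (Ps a) ↪ J) : Prop where
  tree : ∀ a, TreeIn M Z M.T (Ps a) (z a).1 (z a).2 (e a)
  disj : ∀ a a', a ≠ a' → ∀ x y, e a x ≠ e a' y

section forest

variable {Ps : α → CTree} {z : (a : α) → PhasePoint × Par (Ps a)}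
  {e : (a : α) → Idx (Ps a) ↪ J}

/-- The part of a label. -/
def Sp {Ps : α → CTree} (e : (a : α) → Idx (Ps a) ↪ J) (j : J) : Finset J :=
  if h : ∃ a, j ∈ part (e a) then part (e h.choose) else ∅

theorem Sp_empty {j : J} (h : ∀ a, j ∉ part (e a)) : Sp e j = ∅ := by
  unfold Sp
  rw [dif_neg]
  rintro ⟨a, ha⟩
  exact h a ha

theorem exists_of_Sp {j k : J} (h : k ∈ Sp e j) : ∃ a, Sp e j = part (e a) ∧ j ∈ part (e a) := by
  unfold Sp at h ⊢
  by_cases h' : ∃ a, j ∈ part (e a)
  · rw [dif_pos h']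
    exact ⟨_, rfl, h'.choose_spec⟩
  · rw [dif_neg h'] at h
    exact absurd h (Finset.notMem_empty k)

theorem Forest.Sp_of_mem (H : Forest M Z Ps z e) {a : α} {j : J} (h : j ∈ part (e a)) :
    Sp e j = part (e a) := by
  have h' : ∃ a, j ∈ part (e a) := ⟨a, h⟩
  unfold Sp
  rw [dif_pos h']
  have h1 := h'.choose_spec
  by_contra hne
  obtain ⟨x, hx⟩ := mem_part.1 h
  obtain ⟨y, hy⟩ := mem_part.1 h1
  refine H.disj a h'.choose (fun h2 => hne ?_) x y (hx.trans hy.symm)
  rw [← h2]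

theorem Forest.Sp_apply (H : Forest M Z Ps z e) (a : α) (x : Idx (Ps a)) :
    Sp e (e a x) = part (e a) := H.Sp_of_mem (mem_part_self x)

end forest

/-! ### The glued world -/

/-- The derived world `W` over the forest. -/
structure Glue (M : VSys J κ) (Z : J → PhasePoint) (Ps : α → CTree)
    (z : (a : α) → PhasePoint × Par (Ps a)) (e : (a : α) → Idx (Ps a) ↪ J) (W : MW ι)
    (f : ι ↪ J) : Prop where
  forest : Forest M Z Ps z e
  ok : W.Ok M.Φ M.ε
  /-- a label of the derived world is a gas particle or line, or an exit of a tree -/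
  cls : ∀ i, ((∀ a, f i ∉ part (e a)) ∧ M.o ≠ some (f i) ∧ M.bb (f i) = W.b i ∧ Z (f i) = W.z i) ∨
    ∃ a x, f i = e a x ∧ W.b i = rel (Ps a) (z a).2 x ∧
      W.z i = fin M.Φ M.ε (Ps a) (z a).1 (z a).2 x

namespace Glue

variable {Ps : α → CTree} {z : (a : α) → PhasePoint × Par (Ps a)}
  {e : (a : α) → Idx (Ps a) ↪ J} {W : MW ι} {f : ι ↪ J}

variable (H : Glue M Z Ps z e W f)
include H

theorem gas_of_empty {i : ι} (h : Sp e (f i) = ∅) :
    M.o ≠ some (f i) ∧ M.bb (f i) = W.b i ∧ Z (f i) = W.z i := by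
  rcases H.cls i with h' | ⟨a, x, h1, _⟩
  · exact h'.2
  · rw [h1, H.forest.Sp_apply] at h
    exact absurd (mem_part_self (e := e a) x) (by rw [h]; exact Finset.notMem_empty _)

theorem exit_of_nonempty {i : ι} (h : (Sp e (f i)).Nonempty) :
    ∃ a x, f i = e a x ∧ W.b i = rel (Ps a) (z a).2 x ∧
      W.z i = fin M.Φ M.ε (Ps a) (z a).1 (z a).2 x := by
  rcases H.cls i with h' | h'
  · rw [Sp_empty h'.1] at h
    exact absurd h Finset.not_nonempty_empty
  · exact h'

theorem ne_o (i : ι) : M.o ≠ some (f i) := by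
  rcases H.cls i with h' | ⟨a, x, h1, _⟩
  · exact h'.2.1
  · rw [h1]
    exact (H.forest.tree a).o x

theorem bb_le (hε : 0 < M.ε) (i : ι) : M.bb (f i) ≤ W.b i := by
  rcases H.cls i with h' | ⟨a, x, h1, h2, _⟩
  · exact h'.2.2.1.le
  · rw [h1, (H.forest.tree a).bb, h2]
    exact rel_nonneg hε.le (H.forest.tree a).valid.2 x

theorem b_nonneg (hε : 0 < M.ε) (i : ι) : 0 ≤ W.b i := (bb_nonneg M _).trans (H.bb_le hε i)

/-- **The data of the glued world.** -/
theorem gd (hΦ : AdmissiblePotential M.Φ) (hε : 0 < M.ε) (hT : 0 < M.T) :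
    GD M Z (Sp e) (bD W f) (labs f) (XD W f M.Φ M.ε) where
  mem i h := by
    obtain ⟨k, hk⟩ := h
    obtain ⟨a, h1, h2⟩ := exists_of_Sp hk
    rw [h1]
    exact h2
  eq i k h := by
    obtain ⟨a, h1, h2⟩ := exists_of_Sp h
    rw [h1] at h ⊢
    exact H.forest.Sp_of_mem h
  obsA j hj := by
    obtain ⟨i, rfl⟩ := (mem_labs f).1 hj
    exact H.ne_o i
  obsS i k h := by
    obtain ⟨a, h1, h2⟩ := exists_of_Sp h
    rw [h1] at h
    obtain ⟨x, rfl⟩ := mem_part.1 h
    exact (H.forest.tree a).o x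
  ok j := by
    rcases (Sp e j).eq_empty_or_nonempty with h | ⟨k, hk⟩
    · rw [h]
      intro i hi
      exact absurd hi (Finset.notMem_empty i)
    · obtain ⟨a, h1, h2⟩ := exists_of_Sp hk
      rw [h1]
      exact (H.forest.tree a).ok_tree hΦ hε hT.le M.T
  gasb j hj h := by
    obtain ⟨i, rfl⟩ := (mem_labs f).1 hj
    rw [bD_apply]
    exact (H.gas_of_empty h).2.1.symm
  gas0 j hj h := by
    obtain ⟨i, rfl⟩ := (mem_labs f).1 hj
    rw [XD_apply, MW.path_zero hΦ hε]
    exact (H.gas_of_empty h).2.2.symm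
  bb_le j hj := by
    obtain ⟨i, rfl⟩ := (mem_labs f).1 hj
    rw [bD_apply]
    exact H.bb_le hε i
  hand j hj h hb := by
    obtain ⟨i, rfl⟩ := (mem_labs f).1 hj
    obtain ⟨a, x, h1, h2, h3⟩ := H.exit_of_nonempty h
    rw [bD_apply] at hb ⊢
    rw [XD_apply, path_birth hΦ hε W (H.b_nonneg hε i) le_rfl, h1, H.forest.Sp_apply, h2,
      (H.forest.tree a).line_tree hΦ hε x le_rfl (h2 ▸ hb), h3]
    rfl
  exit j hj t ht htT k hk hki _ := by
    obtain ⟨i, rfl⟩ := (mem_labs f).1 hj
    obtain ⟨a, x, h1, h2, h3⟩ := H.exit_of_nonempty ⟨k, hk⟩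
    rw [bD_apply, h2] at ht
    rw [h1, H.forest.Sp_apply] at hk ⊢
    rw [h1] at hki
    exact (H.forest.tree a).exit_tree hΦ hε hk hki ht htT
  last j hj h hb := by
    obtain ⟨i, rfl⟩ := (mem_labs f).1 hj
    obtain ⟨a, x, h1, h2, h3⟩ := H.exit_of_nonempty h
    rw [bD_apply, h1, H.forest.Sp_apply, h2]
    exact ((H.forest.tree a).last_tree hΦ hε hT x).imp id Or.inl
  world := by
    have h1 := (LWorld.of_bworld (T := M.T) H.ok.bw).equiv (labE f)
    have h2 : (fun j : labs f => bD W f j) = fun j : labs f => W.b (labE f j) := by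
      funext j
      rw [← bD_apply W f (labE f j), f_labE]
    rw [h2]
    refine h1.congr fun t _ => ?_
    funext j
    rw [← XD_apply W f M.Φ M.ε t (labE f j), f_labE]
  sep j hj j' hj' hjj hb _ := by
    obtain ⟨i, rfl⟩ := (mem_labs f).1 hj
    obtain ⟨i', rfl⟩ := (mem_labs f).1 hj'
    rw [bD_apply, bD_apply] at hb
    obtain ⟨δ, hδ, h1⟩ := H.ok.sep i i' (fun h => hjj (by rw [h])) hb
    rw [bD_apply]
    filter_upwards [Ioo_mem_nhdsGT (show W.b i < W.b i + δ by linarith)] with s hs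
    rw [XD_apply, XD_apply]
    exact h1 s hs.1 hs.2

/-! ### Contacts -/

theorem inG_iff {t : ℝ} {i : ι} :
    InG (Sp e) (bD W f) (labs f) t (f i) ↔ ((Sp e (f i)).Nonempty → W.b i ≤ t) := by
  unfold InG
  rw [bD_apply]
  exact ⟨fun h => h.2, fun h => ⟨mem_labs_self f i, h⟩⟩

/-- Contacts of the derived world are contacts of the glued world. -/
theorem cg_of_C (hε : 0 < M.ε) {t : ℝ} {i j : ι} (hij : i ≠ j) (h : W.C M.Φ M.ε t i j) :
    CG M Z (Sp e) (bD W f) (labs f) (XD W f M.Φ M.ε) t (f i) (f j) := by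
  obtain ⟨h1, h2, h3, h4⟩ := h
  have hi : InG (Sp e) (bD W f) (labs f) t (f i) := H.inG_iff.2 fun _ => h1
  have hj : InG (Sp e) (bD W f) (labs f) t (f j) := H.inG_iff.2 fun _ => h2
  refine ⟨H.ne_o i, H.ne_o j, Or.inl ⟨hi, hj⟩, (H.bb_le hε i).trans h1, (H.bb_le hε j).trans h2,
    ?_, ?_⟩
  · rcases h3 with h3 | h3 | h3
    · exact absurd h3 hij
    · exact Or.inl ((H.bb_le hε i).trans_lt h3)
    · exact Or.inr ((H.bb_le hε j).trans_lt h3)
  · rw [XG_of_inG hi, XG_of_inG hj, XD_apply, XD_apply]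
    exact h4

/-- Contacts of the glued world between labels of the derived world which are born there are contacts
of the derived world (not both born at this very instant). -/
theorem C_of_cg {t : ℝ} {i j : ι}
    (h : CG M Z (Sp e) (bD W f) (labs f) (XD W f M.Φ M.ε) t (f i) (f j)) (hi : W.b i ≤ t)
    (hj : W.b j ≤ t) (hne : i = j ∨ W.b i < t ∨ W.b j < t) : W.C M.Φ M.ε t i j := by
  obtain ⟨-, -, -, -, -, -, h4⟩ := h
  rw [XG_of_inG (H.inG_iff.2 fun _ => hi), XG_of_inG (H.inG_iff.2 fun _ => hj), XD_apply,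
    XD_apply] at h4
  exact ⟨hi, hj, hne, h4⟩

theorem cg_iff (hε : 0 < M.ε) {t : ℝ} {i j : ι} (hij : i ≠ j) (hne : W.b i < t ∨ W.b j < t) :
    (CG M Z (Sp e) (bD W f) (labs f) (XD W f M.Φ M.ε) t (f i) (f j) ∧ W.b i ≤ t ∧ W.b j ≤ t) ↔
      W.C M.Φ M.ε t i j :=
  ⟨fun h => H.C_of_cg h.1 h.2.1 h.2.2 (Or.inr hne),
    fun h => ⟨H.cg_of_C hε hij h, h.1, h.2.1⟩⟩

/-- A contact with a gas particle (or line) takes place in the derived world: both labels are born
there. -/
theorem born_of_cg {t : ℝ} {i j : ι} (hj0 : Sp e (f j) = ∅)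
    (h : CG M Z (Sp e) (bD W f) (labs f) (XD W f M.Φ M.ε) t (f i) (f j)) :
    W.b i ≤ t ∧ W.b j ≤ t := by
  obtain ⟨-, -, h3, h4, h5, -⟩ := h
  have hj : W.b j ≤ t := by rwa [(H.gas_of_empty hj0).2.1] at h5
  refine ⟨?_, hj⟩
  rcases (Sp e (f i)).eq_empty_or_nonempty with h' | h'
  · rwa [(H.gas_of_empty h').2.1] at h4
  · rcases h3 with h3 | h3
    · exact H.inG_iff.1 h3.1 h'
    · obtain ⟨a, h6, h7⟩ := exists_of_Sp h3.1
      have h8 := H.forest.Sp_of_mem (h6 ▸ h3.1)
      rw [h8] at hj0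
      have h9 := h3.1
      rw [h6, hj0] at h9
      exact absurd h9 (Finset.notMem_empty _)

/-- A contact of a label with a label outside the derived world: same part, before the exit. -/
theorem part_of_cg {t : ℝ} {i : ι} {k : J} (hk : k ∉ labs f)
    (h : CG M Z (Sp e) (bD W f) (labs f) (XD W f M.Φ M.ε) t (f i) k) :
    k ∈ Sp e (f i) ∧ t ≤ W.b i := by
  rcases h.2.2.1 with h' | h'
  · exact absurd h'.2.1 hk
  · refine ⟨h'.1, ?_⟩
    have := h'.2.1 (mem_labs_self f i)
    rwa [bD_apply] at this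

end Glue

end Crest.Agent.R122.PWInst442

end
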