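import Mathlib
import Crest.Prelude.Def_KineticLimit
import Crest.Agent.R122.PWInst_442

/-!
# Row 122, LN1 (helper442): the glued world of a marked world, general classes

Classes `cl : J → Finset J` (`cl j` is the class of the label `j`, `∅` for gas particles and
independent lines): `Cover M Z cl`.  `Lab M Z cl j b z` : the label `j` may be present in the derived
world with birth `b` and line `z` (gas, or exit of its class).

* `gd_of_lab`, `gd_of_lab'` (with the third alternative of `last`): the data `GD` of the glued world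
  of a marked world `W` all whose particles are admissible labels.
* `Lab.ins`, `Lab.comap` ... : insertion of a line.
* `lab_tree`, `lab_gas`, `cover_forest` : trees.
* `cg_of_C`, `C_of_cg`, `born_of_cg`, `part_of_cg` : contacts, for every `GD` over a marked world.
-/

set_option autoImplicit false
set_option linter.unusedSectionVars false

open MeasureTheory Set Filter Topology
open scoped NNReal ENNReal
open Crest.AnalysisR.Kinetic
open Crest.Agent.R122.Flow671 Crest.Agent.R122.Loc45 Crest.Agent.R122.Ins45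
open Crest.Agent.R122.VL581 Crest.Agent.R122.VL581.VSys Crest.Agent.R122.VLInst442
open Crest.Agent.R122.LNInst491 Crest.Agent.R122.LN304 Crest.Agent.R122.LNg410
open Crest.Agent.R122.Kin796 Crest.Agent.R122.Kin796.CTree Crest.Agent.R122.Tree674
open Crest.Agent.R122.PathFlow968 Crest.Agent.R122.TreeLines335 Crest.Agent.R122.EDefs602
open Crest.Agent.R122.LNTree410 Crest.Agent.R122.PWGlue491 Crest.Agent.R122.Inf879
open scoped Classical

noncomputable section

namespace Crest.Agent.R122.PWInst442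

variable {J κ ι α : Type} [Fintype J] [Fintype ι] {M : VSys J κ} {Z : J → PhasePoint}

/-- The classes of the structure labels. -/
structure Cover (M : VSys J κ) (Z : J → PhasePoint) (cl : J → Finset J) : Prop where
  mem : ∀ j, (cl j).Nonempty → j ∈ cl j
  eq : ∀ j k, k ∈ cl j → cl k = cl j
  obs : ∀ j, ∀ k ∈ cl j, M.o ≠ some k
  ok : ∀ j, M.ok (cl j) M.T Z

/-- Exit of its class, on the line `z` from time `b` on (without the last contact). -/
structure Exit0 (M : VSys J κ) (Z : J → PhasePoint) (cl : J → Finset J) (j : J) (b : ℝ)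
    (z : PhasePoint) : Prop where
  mem : j ∈ cl j
  bb_le : M.bb j ≤ b
  hand : b ≤ M.T → onLine z b = M.st (cl j) b Z j
  exit : ∀ t, b < t → t ≤ M.T → ∀ k ∈ cl j, k ≠ j → M.bb k ≤ t →
    M.ε < dist (M.st (cl j) t Z j).1 (M.st (cl j) t Z k).1

/-- The last contact of the exit takes place at its birth. -/
def Last (M : VSys J κ) (Z : J → PhasePoint) (cl : J → Finset J) (j : J) (b : ℝ) : Prop :=
  b ≤ M.T → b = M.bb j ∨ ∃ k ∈ cl j, k ≠ j ∧ M.bb k ≤ b ∧
    dist (M.st (cl j) b Z j).1 (M.st (cl j) b Z k).1 ≤ M.ε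

/-- Gas particle or independent line. -/
structure Gas (M : VSys J κ) (Z : J → PhasePoint) (cl : J → Finset J) (j : J) (b : ℝ)
    (z : PhasePoint) : Prop where
  cl : cl j = ∅
  o : M.o ≠ some j
  b : M.bb j = b
  z : Z j = z

/-- Admissible label with birth `b` and line `z`. -/
def Lab (M : VSys J κ) (Z : J → PhasePoint) (cl : J → Finset J) (j : J) (b : ℝ)
    (z : PhasePoint) : Prop :=
  Gas M Z cl j b z ∨ (Exit0 M Z cl j b z ∧ Last M Z cl j b)

variable {cl : J → Finset J} {W : MW ι} {f : ι ↪ J}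

section gd

theorem Exit0.nonempty {j : J} {b : ℝ} {z : PhasePoint} (h : Exit0 M Z cl j b z) :
    (cl j).Nonempty := ⟨j, h.mem⟩

theorem gas_or {j : J} {b : ℝ} {z : PhasePoint} {p : Prop}
    (h : Gas M Z cl j b z ∨ (Exit0 M Z cl j b z ∧ p)) :
    (cl j = ∅ → Gas M Z cl j b z) ∧ ((cl j).Nonempty → Exit0 M Z cl j b z ∧ p) := by
  rcases h with h | h
  · exact ⟨fun _ => h, fun h' => absurd h.cl h'.ne_empty⟩
  · exact ⟨fun h' => absurd h' h.1.nonempty.ne_empty, fun _ => h⟩

theorem bb_le_of {j : J} {b : ℝ} {z : PhasePoint} {p : Prop}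
    (h : Gas M Z cl j b z ∨ (Exit0 M Z cl j b z ∧ p)) : M.bb j ≤ b := by
  rcases h with h | h
  · exact h.b.le
  · exact h.1.bb_le

variable (hΦ : AdmissiblePotential M.Φ) (hε : 0 < M.ε)
include hΦ hε

/-- **The data of the glued world**, `last` with the third alternative (nobody of the derived world
is close at the birth). -/
theorem gd_of_lab' (hC : Cover M Z cl) (hW : W.Ok M.Φ M.ε)
    (hL : ∀ i, Gas M Z cl (f i) (W.b i) (W.z i) ∨ (Exit0 M Z cl (f i) (W.b i) (W.z i) ∧
      (W.b i ≤ M.T → W.b i = M.bb (f i) ∨ (∃ k ∈ cl (f i), k ≠ f i ∧ M.bb k ≤ W.b i ∧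
        dist (M.st (cl (f i)) (W.b i) Z (f i)).1 (M.st (cl (f i)) (W.b i) Z k).1 ≤ M.ε) ∨
        ∀ j, j ≠ i → W.b j ≤ W.b i →
          M.ε < dist (W.path M.Φ M.ε (W.b i) i).1 (W.path M.Φ M.ε (W.b i) j).1))) :
    GD M Z cl (bD W f) (labs f) (XD W f M.Φ M.ε) where
  mem := hC.mem
  eq := hC.eq
  obsA j hj := by
    obtain ⟨i, rfl⟩ := (mem_labs f).1 hj
    rcases hL i with h | h
    · exact h.o
    · exact hC.obs _ _ h.1.mem
  obsS := hC.obs
  ok := hC.ok
  gasb j hj h := by
    obtain ⟨i, rfl⟩ := (mem_labs f).1 hj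
    rw [bD_apply]
    exact ((gas_or (hL i)).1 h).b.symm
  gas0 j hj h := by
    obtain ⟨i, rfl⟩ := (mem_labs f).1 hj
    rw [XD_apply, MW.path_zero hΦ hε]
    exact ((gas_or (hL i)).1 h).z.symm
  bb_le j hj := by
    obtain ⟨i, rfl⟩ := (mem_labs f).1 hj
    rw [bD_apply]
    exact bb_le_of (hL i)
  hand j hj h hb := by
    obtain ⟨i, rfl⟩ := (mem_labs f).1 hj
    rw [bD_apply] at hb ⊢
    rw [XD_apply, path_birth hΦ hε W ((bb_nonneg M _).trans (bb_le_of (hL i))) le_rfl]
    exact (((gas_or (hL i)).2 h).1.hand hb)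
  exit j hj t ht htT k hk hki hb := by
    obtain ⟨i, rfl⟩ := (mem_labs f).1 hj
    rw [bD_apply] at ht
    exact ((gas_or (hL i)).2 ⟨k, hk⟩).1.exit t ht htT k hk hki hb
  last j hj h hb := by
    obtain ⟨i, rfl⟩ := (mem_labs f).1 hj
    rw [bD_apply] at hb ⊢
    rcases ((gas_or (hL i)).2 h).2 hb with h1 | h1 | h1
    · exact Or.inl h1
    · exact Or.inr (Or.inl h1)
    · refine Or.inr (Or.inr fun k hk hki hbk => ?_)
      obtain ⟨l, rfl⟩ := (mem_labs f).1 hk
      rw [bD_apply] at hbk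
      rw [XD_apply, XD_apply]
      exact h1 l (fun h' => hki (by rw [h'])) hbk
  world := by
    have h1 := (LWorld.of_bworld (T := M.T) hW.bw).equiv (labE f)
    have h2 : (fun j : labs f => bD W f j) = fun j : labs f => W.b (labE f j) := by
      funext j
      rw [← bD_apply W f (labE f j), f_labE]
    rw [h2]
    refine h1.congr fun t _ => ?_
    funext j
    rw [← XD_apply W f M.Φ M.ε t (labE f j), f_labE]
  sep j hj j' hj' hjj hb _ := by
    obtain ⟨i, rfl⟩ := (mem_labs f).1 hj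
    obtain ⟨i', rfl⟩ := (mem_labs f).1 hj'
    rw [bD_apply, bD_apply] at hb
    obtain ⟨δ, hδ, h1⟩ := hW.sep i i' (fun h => hjj (by rw [h])) hb
    rw [bD_apply]
    filter_upwards [Ioo_mem_nhdsGT (show W.b i < W.b i + δ by linarith)] with s hs
    rw [XD_apply, XD_apply]
    exact h1 s hs.1 hs.2

/-- **The data of the glued world.** -/
theorem gd_of_lab (hC : Cover M Z cl) (hW : W.Ok M.Φ M.ε)
    (hL : ∀ i, Lab M Z cl (f i) (W.b i) (W.z i)) :
    GD M Z cl (bD W f) (labs f) (XD W f M.Φ M.ε) :=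
  gd_of_lab' hΦ hε hC hW fun i => (hL i).imp id fun h => ⟨h.1, fun hb =>
    (h.2 hb).imp id fun h => Or.inl h⟩

end gd

/-! ### Insertion of a line -/

/-- The labels of `W.ins l`, the inserted line has the label `a`. -/
def insF (f : ι ↪ J) (a : J) (ha : ∀ i, f i ≠ a) : ι ⊕ Unit ↪ J where
  toFun := Sum.elim f fun _ => a
  inj' := by
    rintro (i | i) (j | j) h
    · exact congrArg Sum.inl (f.injective h)
    · exact absurd h (ha i)
    · exact absurd h.symm (ha j)
    · rfl

@[simp] theorem insF_inl (f : ι ↪ J) {a : J} (ha : ∀ i, f i ≠ a) (i : ι) :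
    insF f a ha (Sum.inl i) = f i := rfl

@[simp] theorem insF_inr (f : ι ↪ J) {a : J} (ha : ∀ i, f i ≠ a) (u : Unit) :
    insF f a ha (Sum.inr u) = a := rfl

theorem lab_ins (hL : ∀ i, Lab M Z cl (f i) (W.b i) (W.z i)) {a : J} (ha : ∀ i, f i ≠ a) {l : ML}
    (hl : Lab M Z cl a l.1.1 (back l.1)) (i : ι ⊕ Unit) :
    Lab M Z cl (insF f a ha i) ((W.ins l).b i) ((W.ins l).z i) := by
  rcases i with i | i
  · exact hL i
  · exact hl

/-- Labels of a family of lines. -/
theorem lab_add {κ' : Type} (hL : ∀ i, Lab M Z cl (f i) (W.b i) (W.z i)) {A : MW κ'} {g : κ' → J}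
    (hA : ∀ k, Lab M Z cl (g k) (A.b k) (A.z k)) (i : ι ⊕ κ') :
    Lab M Z cl (Sum.elim f g i) ((W.add A).b i) ((W.add A).z i) := by
  rcases i with i | i
  · exact hL i
  · exact hA i

theorem lab_cfg {n : ℕ} {w : Config n} {f : Fin n ↪ J} (hcl : ∀ i, cl (f i) = ∅)
    (ho : ∀ i, M.o ≠ some (f i)) (hb : ∀ i, M.b (f i) ≤ 0) (hz : ∀ i, Z (f i) = w i) (i : Fin n) :
    Lab M Z cl (f i) ((MW.cfg w).b i) ((MW.cfg w).z i) :=
  Or.inl ⟨hcl i, ho i, max_eq_right (hb i), hz i⟩

/-! ### Trees -/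

section forest

variable {Ps : α → CTree} {z : (a : α) → PhasePoint × Par (Ps a)}
  {e : (a : α) → Idx (Ps a) ↪ J}

theorem cover_forest (hΦ : AdmissiblePotential M.Φ) (hε : 0 < M.ε) (hT : 0 ≤ M.T)
    (H : Forest M Z Ps z e) : Cover M Z (Sp e) where
  mem i h := by
    obtain ⟨k, hk⟩ := h
    obtain ⟨a, h1, h2⟩ := exists_of_Sp hk
    rw [h1]
    exact h2
  eq i k h := by
    obtain ⟨a, h1, h2⟩ := exists_of_Sp h
    rw [h1] at h ⊢
    exact H.Sp_of_mem h
  obs i k h := by
    obtain ⟨a, h1, h2⟩ := exists_of_Sp h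
    rw [h1] at h
    obtain ⟨x, rfl⟩ := mem_part.1 h
    exact (H.tree a).o x
  ok j := by
    rcases (Sp e j).eq_empty_or_nonempty with h | ⟨k, hk⟩
    · rw [h]
      intro i hi
      exact absurd hi (Finset.notMem_empty i)
    · obtain ⟨a, h1, h2⟩ := exists_of_Sp hk
      rw [h1]
      exact (H.tree a).ok_tree hΦ hε hT M.T

/-- The exits of a tree are admissible labels. -/
theorem lab_tree (hΦ : AdmissiblePotential M.Φ) (hε : 0 < M.ε) (hT : 0 < M.T)
    (H : Forest M Z Ps z e) (a : α) (x : Idx (Ps a)) :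
    Lab M Z (Sp e) (e a x) (rel (Ps a) (z a).2 x) (fin M.Φ M.ε (Ps a) (z a).1 (z a).2 x) := by
  have hSp := H.Sp_apply a x
  refine Or.inr ⟨⟨?_, ?_, ?_, ?_⟩, ?_⟩
  · rw [hSp]
    exact mem_part_self x
  · rw [(H.tree a).bb]
    exact rel_nonneg hε.le (H.tree a).valid.2 x
  · intro hb
    rw [hSp, (H.tree a).line_tree hΦ hε x le_rfl hb]
  · intro t ht htT k hk hkx _
    rw [hSp] at hk ⊢
    exact (H.tree a).exit_tree hΦ hε hk hkx ht htT
  · intro _
    rw [hSp]
    exact (H.tree a).last_tree hΦ hε hT x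

/-- The marked line of an exit of a tree. -/
theorem lab_lineML (hΦ : AdmissiblePotential M.Φ) (hε : 0 < M.ε) (hT : 0 < M.T)
    (H : Forest M Z Ps z e) (a : α) (x : Idx (Ps a)) :
    Lab M Z (Sp e) (e a x) (lineML M.Φ M.ε (Ps a) (z a) x).1.1
      (back (lineML M.Φ M.ε (Ps a) (z a) x).1) := by
  rw [back_lineML]
  exact lab_tree hΦ hε hT H a x

end forest

/-! ### Contacts -/

namespace GDMW

variable (H : GD M Z cl (bD W f) (labs f) (XD W f M.Φ M.ε))
include H

theorem inG_iff {t : ℝ} {i : ι} :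
    InG cl (bD W f) (labs f) t (f i) ↔ ((cl (f i)).Nonempty → W.b i ≤ t) := by
  unfold InG
  rw [bD_apply]
  exact ⟨fun h => h.2, fun h => ⟨mem_labs_self f i, h⟩⟩

theorem bb_le (i : ι) : M.bb (f i) ≤ W.b i := by
  have h := H.bb_le (f i) (mem_labs_self f i)
  rwa [bD_apply] at h

/-- The states of the glued world are the states of the derived world for the labels of the gas and
for the exits after their birth. -/
theorem xg_eq {t : ℝ} {i : ι} (h : (cl (f i)).Nonempty → W.b i ≤ t) :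
    XG M Z cl (bD W f) (labs f) (XD W f M.Φ M.ε) t (f i) = W.path M.Φ M.ε t i := by
  rw [XG_of_inG ((inG_iff H).2 h), XD_apply]

/-- Before its birth in the derived world an exit follows its class. -/
theorem xg_before {t : ℝ} {i : ι} (h1 : (cl (f i)).Nonempty) (h : t < W.b i) :
    XG M Z cl (bD W f) (labs f) (XD W f M.Φ M.ε) t (f i) = M.st (cl (f i)) t Z (f i) :=
  XG_of_not fun h' => absurd ((inG_iff H).1 h' h1) (not_le.2 h)

/-- Labels outside the derived world follow their class. -/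
theorem xg_out {t : ℝ} {j : J} (h : j ∉ labs f) :
    XG M Z cl (bD W f) (labs f) (XD W f M.Φ M.ε) t j = M.st (cl j) t Z j :=
  XG_of_not fun h' => h h'.1

/-- Contacts of the derived world are contacts of the glued world. -/
theorem cg_of_C {t : ℝ} {i j : ι} (hij : i ≠ j) (h : W.C M.Φ M.ε t i j) :
    CG M Z cl (bD W f) (labs f) (XD W f M.Φ M.ε) t (f i) (f j) := by
  obtain ⟨h1, h2, h3, h4⟩ := h
  refine ⟨H.obsA _ (mem_labs_self f i), H.obsA _ (mem_labs_self f j),
    Or.inl ⟨(inG_iff H).2 fun _ => h1, (inG_iff H).2 fun _ => h2⟩, (bb_le H i).trans h1,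
    (bb_le H j).trans h2, ?_, ?_⟩
  · rcases h3 with h3 | h3 | h3
    · exact absurd h3 hij
    · exact Or.inl ((bb_le H i).trans_lt h3)
    · exact Or.inr ((bb_le H j).trans_lt h3)
  · rw [xg_eq H fun _ => h1, xg_eq H fun _ => h2]
    exact h4

/-- Contacts of the glued world between labels of the derived world which are born there are contacts
of the derived world (not both born at this very instant). -/
theorem C_of_cg {t : ℝ} {i j : ι}
    (h : CG M Z cl (bD W f) (labs f) (XD W f M.Φ M.ε) t (f i) (f j)) (hi : W.b i ≤ t)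
    (hj : W.b j ≤ t) (hne : i = j ∨ W.b i < t ∨ W.b j < t) : W.C M.Φ M.ε t i j := by
  obtain ⟨-, -, -, -, -, -, h4⟩ := h
  rw [xg_eq H fun _ => hi, xg_eq H fun _ => hj] at h4
  exact ⟨hi, hj, hne, h4⟩

theorem cg_iff {t : ℝ} {i j : ι} (hij : i ≠ j) (hne : W.b i < t ∨ W.b j < t) :
    (CG M Z cl (bD W f) (labs f) (XD W f M.Φ M.ε) t (f i) (f j) ∧ W.b i ≤ t ∧ W.b j ≤ t) ↔
      W.C M.Φ M.ε t i j :=
  ⟨fun h => C_of_cg H h.1 h.2.1 h.2.2 (Or.inr hne), fun h => ⟨cg_of_C H hij h, h.1, h.2.1⟩⟩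

theorem gas_b {i : ι} (h : cl (f i) = ∅) : M.bb (f i) = W.b i := by
  have h1 := H.gasb (f i) (mem_labs_self f i) h
  rw [bD_apply] at h1
  exact h1.symm

/-- A contact with a gas particle (or line) takes place in the derived world: both labels are born
there. -/
theorem born_of_cg {t : ℝ} {i j : ι} (hj0 : cl (f j) = ∅)
    (h : CG M Z cl (bD W f) (labs f) (XD W f M.Φ M.ε) t (f i) (f j)) :
    W.b i ≤ t ∧ W.b j ≤ t := by
  obtain ⟨-, -, h3, h4, h5, -⟩ := h
  have hj : W.b j ≤ t := by rwa [gas_b H hj0] at h5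
  refine ⟨?_, hj⟩
  rcases (cl (f i)).eq_empty_or_nonempty with h' | h'
  · rwa [gas_b H h'] at h4
  · rcases h3 with h3 | h3
    · exact (inG_iff H).1 h3.1 h'
    · have h8 := H.symm_mem h3.1
      rw [hj0] at h8
      exact absurd h8 (Finset.notMem_empty _)

/-- A contact with a gas particle or line, in terms of the derived world. -/
theorem C_of_cg_gas {t : ℝ} {i j : ι} (hj0 : cl (f j) = ∅) (hne : i = j ∨ W.b i < t ∨ W.b j < t)
    (h : CG M Z cl (bD W f) (labs f) (XD W f M.Φ M.ε) t (f i) (f j)) : W.C M.Φ M.ε t i j :=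
  C_of_cg H h (born_of_cg H hj0 h).1 (born_of_cg H hj0 h).2 hne

/-- A contact of a label with a label outside the derived world: same class, before the exit. -/
theorem part_of_cg {t : ℝ} {i : ι} {k : J} (hk : k ∉ labs f)
    (h : CG M Z cl (bD W f) (labs f) (XD W f M.Φ M.ε) t (f i) k) :
    k ∈ cl (f i) ∧ t ≤ W.b i := by
  rcases h.2.2.1 with h' | h'
  · exact absurd h'.2.1 hk
  · refine ⟨h'.1, ?_⟩
    have := h'.2.1 (mem_labs_self f i)
    rwa [bD_apply] at this

/-- Two labels of the derived world in contact in the glued world: both in the gas, or in the same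
class and before both exits. -/
theorem cases_of_cg {t : ℝ} {i j : ι}
    (h : CG M Z cl (bD W f) (labs f) (XD W f M.Φ M.ε) t (f i) (f j)) :
    (((cl (f i)).Nonempty → W.b i ≤ t) ∧ ((cl (f j)).Nonempty → W.b j ≤ t)) ∨
      (f j ∈ cl (f i) ∧ t ≤ W.b i ∧ t ≤ W.b j) := by
  rcases h.2.2.1 with h' | h'
  · exact Or.inl ⟨(inG_iff H).1 h'.1, (inG_iff H).1 h'.2⟩
  · refine Or.inr ⟨h'.1, ?_, ?_⟩
    · have := h'.2.1 (mem_labs_self f i)
      rwa [bD_apply] at this
    · have := h'.2.2 (mem_labs_self f j)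
      rwa [bD_apply] at this

end GDMW

end Crest.Agent.R122.PWInst442

end
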