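import Crest.Agent.R122.LN1Defs_304
import Crest.Agent.R122.VLInstB_442
import Crest.Agent.R122.LinkD1_331
import Crest.Agent.R122.InfGen_879

/-!
# Row 122, LN1 (helper304): growth of connected groups (`real`, `step`)

Over a real (pseudo-)world `RW M Z X C`: if a connected group `G` which contains a part of the
structure meets the strict past of `(x, v)`, then `G ∪ preF C x v` is connected (hence tree-like,
hence the real states explored from `(x, v)` are the states in the isolated world of the past).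
The only exceptions are `NoBad` (a bounded connected set with a part which is not tree-like) and
`BadHit`.

* `conn_bcF` : real induction (closed pasts).
* `real` : strict pasts; `step` : a contact `C v x y`.
-/

set_option autoImplicit false
set_option linter.unusedSectionVars false

open MeasureTheory Set Filter Topology
open Crest.AnalysisR.Kinetic
open Crest.Agent.R122.GIV566 Crest.Agent.R122.VL581 Crest.Agent.R122.LNg410
open Crest.Agent.R122.Causal291 Crest.Agent.R122.VLInst442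
open scoped Classical

noncomputable section

namespace Crest.Agent.R122.LN304

/-- Real induction on `[0, T]`. -/
theorem real_induction {T : ℝ} {Q : ℝ → Prop}
    (h1 : ∀ v ∈ Icc 0 T, (∀ v' ∈ Ico 0 v, Q v') → Q v)
    (h2 : ∀ v ∈ Ico 0 T, (∀ v' ∈ Icc 0 v, Q v') → ∃ δ > 0, ∀ v' ∈ Icc v (v + δ), v' ≤ T → Q v') :
    ∀ v ∈ Icc 0 T, Q v := by
  by_contra hcon
  push Not at hcon
  obtain ⟨v₀, hv₀, hQ₀⟩ := hcon
  set B : Set ℝ := {v | v ∈ Icc 0 T ∧ ¬ Q v} with hB
  have hne : B.Nonempty := ⟨v₀, hv₀, hQ₀⟩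
  have hbd : BddBelow B := ⟨0, fun v hv => hv.1.1⟩
  set m := sInf B with hm
  have hm0 : 0 ≤ m := le_csInf hne fun v hv => hv.1.1
  have hmT : m ≤ T := (csInf_le hbd ⟨hv₀, hQ₀⟩).trans hv₀.2
  have hlt : ∀ v ∈ Ico 0 m, Q v := by
    intro v hv
    by_contra h
    exact absurd (csInf_le hbd ⟨⟨hv.1, hv.2.le.trans hmT⟩, h⟩) (not_le.2 hv.2)
  have hQm : Q m := h1 m ⟨hm0, hmT⟩ hlt
  have hle : ∀ v ∈ Icc 0 m, Q v := fun v hv =>
    (lt_or_eq_of_le hv.2).elim (fun h => hlt v ⟨hv.1, h⟩) fun h => h ▸ hQm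
  rcases lt_or_eq_of_le hmT with hlT | heT
  · obtain ⟨δ, hδ, h⟩ := h2 m ⟨hm0, hlT⟩ hle
    have h3 : m + δ ≤ m := by
      conv_rhs => rw [hm]
      refine le_csInf hne fun v hv => ?_
      by_contra hv'
      push Not at hv'
      rcases le_or_gt v m with h4 | h4
      · exact hv.2 (hle v ⟨hv.1.1, h4⟩)
      · exact hv.2 (h v ⟨h4.le, hv'.le⟩ hv.1.2)
    linarith
  · have h4 : m ≤ v₀ := csInf_le hbd ⟨hv₀, hQ₀⟩
    have h5 : v₀ = m := le_antisymm (heT ▸ hv₀.2) h4
    exact hQ₀ (h5 ▸ hQm)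

variable {J κ : Type} [Fintype J] {M : VSys J κ} {c ℓ ς : ℝ} {Z : J → PhasePoint}
  {X : ℝ → J → PhasePoint} {C : ℝ → J → J → Prop} {Λ : Finset (Finset J)} {N : ℕ}

theorem mem_preF {x k : J} {v : ℝ} : k ∈ preF C x v ↔ k ∈ Inf879.pre C x v 0 := by
  simp [preF]

theorem mem_bcF {x k : J} {v : ℝ} : k ∈ bcF C x v ↔ Past C v x 0 k := by
  simp [bcF]

theorem mem_uni {i : J} : i ∈ uni Λ ↔ ∃ π ∈ Λ, i ∈ π := by
  simp [uni]

theorem self_mem_preF {x : J} {v : ℝ} (hv : 0 < v) : x ∈ preF C x v :=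
  mem_preF.2 (Inf879.mem_pre_self hv)

theorem self_mem_bcF {x : J} {v : ℝ} (hv : 0 ≤ v) : x ∈ bcF C x v := mem_bcF.2 (.root hv)

theorem preF_subset_bcF (x : J) (v : ℝ) : preF C x v ⊆ bcF C x v := by
  intro k hk
  obtain ⟨s', hs', hp⟩ := mem_preF.1 hk
  exact mem_bcF.2 (LinkD331.past_mono_time hs'.2.le hp)

/-- Just before `v` the closed past is the strict past of `(x, v)`. -/
theorem exists_left_bcF {v : ℝ} (hv : 0 < v) (x : J) :
    ∃ r ∈ Ico 0 v, ∀ r' ∈ Ico r v, bcF C x r' = preF C x v := by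
  obtain ⟨r, hr, h⟩ := Inf879.exists_Act_eq_pre (C := C) (j := x) hv
  refine ⟨r, hr, fun r' hr' => ?_⟩
  ext k
  rw [mem_bcF, mem_preF, ← h r' hr']
  rfl

/-- A chain crosses every cut. -/
theorem crossing {Q : Set J} {t s : ℝ} {x k : J} (h : Past C t x s k) (hx : x ∈ Q) (hk : k ∉ Q) :
    ∃ r, s ≤ r ∧ ∃ i ∈ Q, ∃ j, j ∉ Q ∧ Past C t x r i ∧ Past C t x r j ∧ C r i j := by
  induction h with
  | root h => exact absurd hx hk
  | @step s s' j k hp hc hs ih =>
    by_cases hj : j ∈ Q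
    · exact ⟨s', hs, j, hj, k, hk, hp, Past.contact hp hc, hc⟩
    · obtain ⟨r, hr, h⟩ := ih hj
      exact ⟨r, hs.trans hr, h⟩

/-- The closed past as the union of the strict pasts over the contact component. -/
theorem bcF_eq_biUnion (hRW : RW M Z X C) {x : J} {v : ℝ} (hv : v ∈ Ioc 0 M.T) :
    bcF C x v = (Finset.univ.filter fun j => Past C v x v j).biUnion fun j => preF C j v := by
  have h := Inf879.Act_eq_biUnion_pre_Icc (C := C) hRW.closed (i := x) le_rfl hv.1 hv.2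
  ext k
  rw [mem_bcF]
  have h1 : Past C v x 0 k ↔ k ∈ Act C v x 0 := Iff.rfl
  rw [h1, h]
  simp only [mem_iUnion, exists_prop, mem_Act, Finset.mem_biUnion, Finset.mem_filter,
    Finset.mem_univ, true_and, mem_preF]

/-- Agreement of the strict past inside a connected tree-like set. -/
theorem agr_of_tl (hW : WCore M c ℓ ς Z X C) {P : Finset J} (hP : M.Conn c P Z)
    (hT : TL M c ℓ ς P Z) {x : J} {v : ℝ} (hv : v ∈ Ioc 0 M.T) (hsub : preF C x v ⊆ P) :
    Agr M Z X C x v := by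
  intro s hs k hk
  obtain ⟨r, hr, h⟩ := exists_left_bcF (C := C) hv.1 x
  obtain ⟨s', hs', hk'⟩ := hk
  have hu : bcF C x (max r s') = preF C x v :=
    h _ ⟨le_max_left _ _, max_lt hr.2 hs'.2⟩
  have hpast : Past C (max r s') x s k := LinkD331.past_mono_time (le_max_right _ _) hk'
  have h0 : max r s' ∈ Icc 0 M.T :=
    ⟨hr.1.trans (le_max_left _ _), (max_lt hr.2 hs'.2).le.trans hv.2⟩
  have h1 := (hW P hP hT x _ h0 (hu ▸ hsub)).1 s ⟨hs.1, hs'.1.trans (le_max_right _ _)⟩ k hpast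
  rwa [hu] at h1

section adm

variable (hΦ : AdmissiblePotential M.Φ) (hε : 0 < M.ε)
include hΦ hε

/-- The real state of `x` at time `v` is its state in the isolated world of its strict past. -/
theorem state_at (hRW : RW M Z X C) {x : J} {v : ℝ} (hv : v ∈ Ioc 0 M.T)
    (hok : M.ok (preF C x v) v Z) (ha : Agr M Z X C x v) :
    X v x = M.st (preF C x v) v Z x := by
  have h1 : ContinuousOn (fun s => X s x) (Icc 0 v) :=
    (hRW.cont x).mono (Icc_subset_Icc le_rfl hv.2)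
  have h2 : ContinuousOn (fun s => M.st (preF C x v) s Z x) (Icc 0 v) :=
    (st_continuousOn hΦ hε (preF C x v) Z x).mono fun s hs => ok_anti hs.2 hok
  have h3 : EqOn (fun s => X s x) (fun s => M.st (preF C x v) s Z x) (Ico 0 v) :=
    fun s hs => ha s hs x (Inf879.mem_pre_self hs.2)
  have h4 : Icc 0 v ⊆ closure (Ico 0 v) := by
    rw [closure_Ico hv.1.ne]
  exact h3.of_subset_closure h1 h2 Ico_subset_Icc_self h4 ⟨hv.1.le, le_rfl⟩

omit hΦ in
theorem vct_of [Nonempty κ] (hc : 1 ≤ c) {A B P : Finset J} (hA : A ⊆ P) (hB : B ⊆ P) {i j : J}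
    {t : ℝ} (hi : i ∈ A) (hj : j ∈ B) (okA : M.ok A t Z) (okB : M.ok B t Z)
    (oi : M.o ≠ some i) (oj : M.o ≠ some j)
    (hd : dist (M.st A t Z i).1 (M.st B t Z j).1 ≤ M.ε) : M.VCt c P i j t Z := by
  obtain ⟨k⟩ := ‹Nonempty κ›
  refine ⟨A, hA, B, hB, k, k, hi, hj, okA, okB, fun h => absurd h oi, fun h => absurd h oj, ?_⟩
  unfold VSys.pos
  rw [if_neg oi, if_neg oj]
  exact hd.trans (by nlinarith)

omit hΦ in
/-- The strict past is connected if it agrees with its isolated world. -/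
theorem conn_preF [Nonempty κ] (hc : 1 ≤ c) (hRW : RW M Z X C) {x : J} {v : ℝ}
    (hv : v ∈ Ioc 0 M.T) (hok : M.ok (preF C x v) v Z) (ha : Agr M Z X C x v) :
    M.Conn c (preF C x v) Z := by
  refine ⟨⟨x, self_mem_preF hv.1⟩, fun Q hQ hne hneQ => ?_⟩
  have key : ∀ (s' r : ℝ) (i j : J), s' ∈ Ico 0 v → 0 ≤ r → Past C s' x r i → Past C s' x r j →
      C r i j → i ≠ j → i ∈ preF C x v ∧ j ∈ preF C x v ∧ r ∈ Icc 0 M.T ∧
        M.VCt c (preF C x v) i j r Z := by
    intro s' r i j hs' hr hpi hpj hcij hij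
    have hrs : r ≤ s' := hpi.le
    have hrv : r ∈ Ico 0 v := ⟨hr, hrs.trans_lt hs'.2⟩
    have hi : i ∈ Inf879.pre C x v r := ⟨s', ⟨hrs, hs'.2⟩, hpi⟩
    have hj : j ∈ Inf879.pre C x v r := ⟨s', ⟨hrs, hs'.2⟩, hpj⟩
    have hi0 : i ∈ preF C x v := mem_preF.2 (Inf879.pre_anti hr hi)
    have hj0 : j ∈ preF C x v := mem_preF.2 (Inf879.pre_anti hr hj)
    have hg := hRW.geo r i j hij hcij
    have hok' : M.ok (preF C x v) r Z := ok_anti hrv.2.le hok
    refine ⟨hi0, hj0, ⟨hr, hrv.2.le.trans hv.2⟩, ?_⟩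
    refine vct_of hε hc (Finset.Subset.refl _) (Finset.Subset.refl _) hi0 hj0 hok' hok' hg.1
      hg.2.1 ?_
    rw [← ha r hrv i hi, ← ha r hrv j hj]
    exact hg.2.2.2.2.2
  obtain ⟨m₁, hm₁⟩ := hne
  obtain ⟨m₂, hm₂, hm₂Q⟩ : ∃ m ∈ preF C x v, m ∉ Q := by
    by_contra h
    push Not at h
    exact hneQ (Finset.Subset.antisymm hQ h)
  by_cases hx : x ∈ Q
  · obtain ⟨s', hs', hp⟩ := mem_preF.1 hm₂
    obtain ⟨r, hr, i, hi, j, hj, hpi, hpj, hcij⟩ := crossing (Q := (Q : Set J)) hp hx hm₂Q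
    have hij : i ≠ j := fun h => hj (h ▸ hi)
    obtain ⟨h1, h2, h3, h4⟩ := key s' r i j hs' hr hpi hpj hcij hij
    exact ⟨i, hi, j, Finset.mem_sdiff.2 ⟨h2, hj⟩, r, h3, h4⟩
  · obtain ⟨s', hs', hp⟩ := mem_preF.1 (hQ hm₁)
    obtain ⟨r, hr, i, hi, j, hj, hpi, hpj, hcij⟩ := crossing (Q := {y | y ∉ Q}) hp hx
      (fun h => h hm₁)
    have hj' : j ∈ Q := by
      by_contra h
      exact hj h
    have hij : i ≠ j := fun h => hi (h ▸ hj')
    obtain ⟨h1, h2, h3, h4⟩ := key s' r i j hs' hr hpi hpj hcij hij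
    exact ⟨j, hj', i, Finset.mem_sdiff.2 ⟨h1, hi⟩, r, h3, vct_symm h4⟩

omit hε hΦ in
/-- Gas-only sets have no bad births. -/
theorem ok_of_gas (hP : Parts M c Z Λ) {V : Finset J} (hV : Disjoint V (uni Λ)) (t : ℝ) :
    M.ok V t Z := by
  have hgas : ∀ i ∈ V, ∀ π ∈ Λ, i ∉ π := fun i hi π hπ h =>
    (Finset.disjoint_left.1 hV hi) (mem_uni.2 ⟨π, hπ, h⟩)
  intro i hi ho hb j hj hj' hji hbj
  have hb0 : M.bb i = 0 := max_eq_right (hP.gas_b i (hgas i hi))
  rw [hb0, st_nonpos M le_rfl, st_nonpos M le_rfl, fl_zero, fl_zero]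
  exact hP.gas_sep i j (hgas i hi) (hgas j hj) (Ne.symm hji)

/-! ### The induction -/

variable (M c Z C Λ N) in
/-- Growth for closed pasts at time `v`. -/
def QB (v : ℝ) : Prop :=
  ∀ (x : J) (G : Finset J), M.Conn c G Z → (∃ π ∈ Λ, π ⊆ G) → (∃ i ∈ G, i ∈ bcF C x v) →
    (G ∪ bcF C x v ∪ uni Λ).card ≤ N → M.Conn c (G ∪ bcF C x v) Z

variable (M c Z C Λ N) in
/-- Growth for strict pasts at time `v`. -/
def QP (v : ℝ) : Prop :=
  ∀ (x : J) (G : Finset J), M.Conn c G Z → (∃ π ∈ Λ, π ⊆ G) → (∃ i ∈ G, i ∈ preF C x v) →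
    (G ∪ preF C x v ∪ uni Λ).card ≤ N → M.Conn c (G ∪ preF C x v) Z

omit hΦ hε in
theorem qp_of_qb {v : ℝ} (hv : v ∈ Ioc 0 M.T) (h : ∀ v' ∈ Ico 0 v, QB M c Z C Λ N v') :
    QP M c Z C Λ N v := by
  intro x G hG hπ hi hcard
  obtain ⟨r, hr, h'⟩ := exists_left_bcF (C := C) hv.1 x
  have he := h' r ⟨le_rfl, hr.2⟩
  have := h r hr x G hG hπ (by rw [he]; exact hi) (by rw [he]; exact hcard)
  rwa [he] at this

/-- The closed step. -/
theorem qb_of_qp [Nonempty κ] (hc : 1 ≤ c) (hRW : RW M Z X C) (hW : WCore M c ℓ ς Z X C)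
    (hP : Parts M c Z Λ) (hNB : NoBad M c ℓ ς Z Λ N) (hBH : ¬ BadHit M c Z X C Λ N) {v : ℝ}
    (hv : v ∈ Ioc 0 M.T) (hQP : QP M c Z C Λ N v) : QB M c Z C Λ N v := by
  intro x G hG hπ hi hcard
  obtain ⟨i, hiG, hiB⟩ := hi
  set D : Finset J := Finset.univ.filter fun j => Past C v x v j with hD
  have memD : ∀ {j}, j ∈ D ↔ Past C v x v j := fun {j} => by simp [hD]
  have hdec : bcF C x v = D.biUnion fun j => preF C j v := bcF_eq_biUnion hRW hv
  have hsubD : ∀ j ∈ D, preF C j v ⊆ bcF C x v := fun j hj => by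
    rw [hdec]; exact Finset.subset_biUnion_of_mem (fun j => preF C j v) hj
  obtain ⟨j₀, hj₀, hij₀⟩ := Finset.mem_biUnion.1 (hdec ▸ hiB)
  -- groups of members which have been added
  set S : Finset (Finset J) := D.powerset.filter fun H => j₀ ∈ H ∧
    M.Conn c (G ∪ H.biUnion fun j => preF C j v) Z with hS
  have hsub : ∀ H ⊆ D, (G ∪ H.biUnion fun j => preF C j v) ⊆ G ∪ bcF C x v := by
    intro H hH
    refine Finset.union_subset_union_right ?_
    rw [hdec]
    exact Finset.biUnion_subset_biUnion_of_subset_left _ hH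
  have hcardsub : ∀ {P : Finset J}, P ⊆ G ∪ bcF C x v ∪ uni Λ → (P ∪ uni Λ).card ≤ N := by
    intro P hPs
    refine le_trans (Finset.card_le_card (Finset.union_subset hPs ?_)) hcard
    exact Finset.subset_union_right
  have hS0 : {j₀} ∈ S := by
    rw [hS, Finset.mem_filter, Finset.mem_powerset]
    refine ⟨Finset.singleton_subset_iff.2 hj₀, Finset.mem_singleton_self _, ?_⟩
    rw [Finset.singleton_biUnion]
    refine hQP j₀ G hG hπ ⟨i, hiG, hij₀⟩ (hcardsub ?_)
    exact (Finset.union_subset_union_right (hsubD j₀ hj₀)).trans Finset.subset_union_left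
  obtain ⟨H, hHS, hmax⟩ := Finset.exists_max_image S Finset.card ⟨_, hS0⟩
  rw [hS, Finset.mem_filter, Finset.mem_powerset] at hHS
  obtain ⟨hHD, hj₀H, hPH⟩ := hHS
  by_cases hHeq : H = D
  · rw [hHeq, ← hdec] at hPH
    exact hPH
  exfalso
  -- a contact between `H` and the rest of the component
  obtain ⟨j, hj, k, hk, hkH, hcjk⟩ : ∃ j ∈ H, ∃ k ∈ D, k ∉ H ∧ C v j k := by
    by_cases hx : x ∈ H
    · obtain ⟨m, hm, hmH⟩ : ∃ m ∈ D, m ∉ H := by
        by_contra h
        push Not at h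
        exact hHeq (Finset.Subset.antisymm hHD h)
      obtain ⟨r, hr, a, ha, b, hb, hpa, hpb, hcab⟩ := crossing (Q := (H : Set J))
        (memD.1 hm) hx hmH
      have hrv : r = v := le_antisymm hpa.le hr
      subst hrv
      exact ⟨a, ha, b, memD.2 hpb, hb, hcab⟩
    · obtain ⟨r, hr, a, ha, b, hb, hpa, hpb, hcab⟩ := crossing (Q := {y | y ∉ H})
        (memD.1 hj₀) hx (fun h => h hj₀H)
      have hrv : r = v := le_antisymm hpa.le hr
      subst hrv
      have hbH : b ∈ H := by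
        by_contra h
        exact hb h
      exact ⟨b, hbH, a, memD.2 hpa, ha, hRW.symm _ _ _ hcab⟩
  set PH : Finset J := G ∪ H.biUnion fun j => preF C j v with hPHdef
  have hPHπ : ∃ π ∈ Λ, π ⊆ PH := by
    obtain ⟨π, hπ1, hπ2⟩ := hπ
    exact ⟨π, hπ1, hπ2.trans Finset.subset_union_left⟩
  have hPHsub : PH ⊆ G ∪ bcF C x v := hsub H hHD
  have hPHcard : (PH ∪ uni Λ).card ≤ N := hcardsub (hPHsub.trans Finset.subset_union_left)
  have hTL : TL M c ℓ ς PH Z := hNB PH hPH hPHπ hPHcard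
  have hVj : preF C j v ⊆ PH := by
    refine Finset.Subset.trans ?_ Finset.subset_union_right
    exact Finset.subset_biUnion_of_mem (fun j => preF C j v) hj
  have hokj : M.ok (preF C j v) v Z := ok_anti hv.2 (hTL.1 _ hVj)
  have hagrj : Agr M Z X C j v := agr_of_tl hW hPH hTL hv hVj
  have hstj : X v j = M.st (preF C j v) v Z j := state_at hΦ hε hRW hv hokj hagrj
  have hjk : j ≠ k := fun h => hkH (h ▸ hj)
  have hgeo := hRW.geo v j k hjk hcjk
  have hVk : preF C k v ⊆ bcF C x v := hsubD k hk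
  have hnew : (G ∪ (insert k H).biUnion fun j => preF C j v) = PH ∪ preF C k v := by
    rw [Finset.biUnion_insert, hPHdef]
    ext y
    simp only [Finset.mem_union]
    tauto
  have hfin : M.Conn c (PH ∪ preF C k v) Z → False := by
    intro hcon
    have hmem : insert k H ∈ S := by
      rw [hS, Finset.mem_filter, Finset.mem_powerset]
      refine ⟨Finset.insert_subset hk hHD, Finset.mem_insert_of_mem hj₀H, ?_⟩
      rw [hnew]
      exact hcon
    have := hmax _ hmem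
    rw [Finset.card_insert_of_notMem hkH] at this
    omega
  apply hfin
  have hnewcard : (PH ∪ preF C k v ∪ uni Λ).card ≤ N := by
    refine hcardsub (Finset.union_subset (hPHsub.trans Finset.subset_union_left) ?_)
    exact (hVk.trans Finset.subset_union_right).trans Finset.subset_union_left
  by_cases hmeet : ∃ m ∈ PH, m ∈ preF C k v
  · exact hQP k PH hPH hPHπ hmeet hnewcard
  have key : Agr M Z X C k v ∧ M.ok (preF C k v) v Z := by
    by_cases hpart : ∃ m ∈ preF C k v, m ∈ uni Λ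
    · obtain ⟨m, hm, hmu⟩ := hpart
      obtain ⟨π, hπΛ, hmπ⟩ := mem_uni.1 hmu
      have hπu : π ⊆ uni Λ := fun y hy => mem_uni.2 ⟨π, hπΛ, hy⟩
      have hcd : (π ∪ preF C k v ∪ uni Λ).card ≤ N := by
        refine hcardsub (Finset.union_subset (hπu.trans Finset.subset_union_right) ?_)
        exact (hVk.trans Finset.subset_union_right).trans Finset.subset_union_left
      have h1 : M.Conn c (π ∪ preF C k v) Z :=
        hQP k π (hP.conn π hπΛ) ⟨π, hπΛ, Finset.Subset.refl _⟩ ⟨m, hmπ, hm⟩ hcd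
      have h2 : TL M c ℓ ς (π ∪ preF C k v) Z :=
        hNB _ h1 ⟨π, hπΛ, Finset.subset_union_left⟩ hcd
      exact ⟨agr_of_tl hW h1 h2 hv Finset.subset_union_right,
        ok_anti hv.2 (h2.1 _ Finset.subset_union_right)⟩
    · have hdis : Disjoint (preF C k v) (uni Λ) := by
        rw [Finset.disjoint_left]
        exact fun m hm hmu => hpart ⟨m, hm, hmu⟩
      have hdisG : Disjoint (preF C k v) PH := by
        rw [Finset.disjoint_left]
        exact fun m hm hmu => hmeet ⟨m, hmu, hm⟩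
      have hok := ok_of_gas hP hdis v
      refine ⟨?_, hok⟩
      by_contra hna
      refine hBH ⟨PH, preF C j v, j, k, v, hPH, hPHπ, hPHcard, hVj, self_mem_preF hv.1, hokj, hv,
        ?_, hdisG, hdis, hcjk, hstj, ?_, hna⟩
      · refine le_trans (Finset.card_le_card ?_) hnewcard
        exact Finset.subset_union_right.trans Finset.subset_union_left
      · rw [← hstj]
        exact hgeo.2.2.2.2.2
  have hstk : X v k = M.st (preF C k v) v Z k := state_at hΦ hε hRW hv key.2 key.1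
  have hconk : M.Conn c (preF C k v) Z := conn_preF hε hc hRW hv key.2 key.1
  refine conn_union_of_vct hPH hconk (hVj (self_mem_preF hv.1)) (self_mem_preF hv.1)
    ⟨hv.1.le, hv.2⟩ ?_
  refine vct_of hε hc (hVj.trans Finset.subset_union_left) Finset.subset_union_right
    (self_mem_preF hv.1) (self_mem_preF hv.1) hokj key.2 hgeo.1 hgeo.2.1 ?_
  rw [← hstj, ← hstk]
  exact hgeo.2.2.2.2.2

omit hΦ hε in
theorem bcF_zero (hRW : RW M Z X C) (x : J) : bcF C x 0 = {x} := by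
  have key : ∀ (s : ℝ) (k : J), Past C 0 x s k → 0 ≤ s → k = x := by
    intro s k hk
    induction hk with
    | root _ => exact fun _ => rfl
    | @step s s' j k hp hcjk hs ih =>
      intro h0
      have hs' : s' = 0 := le_antisymm hp.le (h0.trans hs)
      subst hs'
      have hj : j = x := ih le_rfl
      by_contra hne
      have hjk : j ≠ k := fun h => hne (h ▸ hj)
      have hg := (hRW.geo 0 j k hjk hcjk).2.2.2.2.1
      rcases hg with hg | hg
      · exact absurd hg (not_lt.2 (bb_nonneg M j))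
      · exact absurd hg (not_lt.2 (bb_nonneg M k))
  ext k
  rw [mem_bcF, Finset.mem_singleton]
  exact ⟨fun h => key 0 k h le_rfl, fun h => h ▸ .root le_rfl⟩

/-- **Growth, closed pasts.** -/
theorem conn_bcF [Nonempty κ] (hc : 1 ≤ c) (hRW : RW M Z X C) (hW : WCore M c ℓ ς Z X C)
    (hP : Parts M c Z Λ) (hNB : NoBad M c ℓ ς Z Λ N) (hBH : ¬ BadHit M c Z X C Λ N) :
    ∀ v ∈ Icc 0 M.T, QB M c Z C Λ N v := by
  refine real_induction ?_ ?_
  · intro v hv h
    rcases eq_or_lt_of_le hv.1 with h0 | h0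
    · subst h0
      intro x G hG _ hi _
      rw [bcF_zero hRW] at hi ⊢
      obtain ⟨i, hi, hi'⟩ := hi
      rw [Finset.mem_singleton] at hi'
      subst hi'
      rwa [Finset.union_eq_left.2 (Finset.singleton_subset_iff.2 hi)]
    · exact qb_of_qp hΦ hε hc hRW hW hP hNB hBH ⟨h0, hv.2⟩ (qp_of_qb ⟨h0, hv.2⟩ h)
  · intro v hv h
    have h1 : ∀ x : J, ∃ δ > 0, ∀ r' ∈ Icc v (v + δ), bcF C x r' = bcF C x v := by
      intro x
      obtain ⟨δ, hδ, h'⟩ := LinkD331.exists_right hRW.closed hv x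
      refine ⟨δ, hδ, fun r' hr' => ?_⟩
      ext k
      rw [mem_bcF, mem_bcF]
      have := h' r' hr'
      exact (Set.ext_iff.1 this k)
    choose δ hδ h1 using h1
    obtain ⟨δ₀, hδ₀, hle⟩ : ∃ δ₀ > 0, ∀ x, δ₀ ≤ δ x := by
      rcases isEmpty_or_nonempty J with hJ | hJ
      · exact ⟨1, one_pos, fun x => (hJ.false x).elim⟩
      · obtain ⟨x₀, hx₀⟩ := Finite.exists_min δ
        exact ⟨δ x₀, hδ x₀, hx₀⟩
    refine ⟨δ₀, hδ₀, fun v' hv' _ x G hG hπ hi hcard => ?_⟩
    have he := h1 x v' ⟨hv'.1, hv'.2.trans (by linarith [hle x])⟩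
    rw [he] at hi hcard ⊢
    exact h v ⟨hv.1, le_rfl⟩ x G hG hπ hi hcard

/-- **Growth (`real`)**: a connected group which contains a part and meets the strict past of
`(x, v)`. -/
theorem real [Nonempty κ] (hc : 1 ≤ c) (hRW : RW M Z X C) (hW : WCore M c ℓ ς Z X C)
    (hP : Parts M c Z Λ) (hNB : NoBad M c ℓ ς Z Λ N) (hBH : ¬ BadHit M c Z X C Λ N)
    {v : ℝ} (hv : v ∈ Ioc 0 M.T) {x : J} {G : Finset J} (hG : M.Conn c G Z)
    (hπ : ∃ π ∈ Λ, π ⊆ G) (hi : ∃ i ∈ G, i ∈ preF C x v)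
    (hcard : (G ∪ preF C x v ∪ uni Λ).card ≤ N) :
    M.Conn c (G ∪ preF C x v) Z ∧ TL M c ℓ ς (G ∪ preF C x v) Z ∧ Agr M Z X C x v ∧
      M.ok (preF C x v) v Z ∧ X v x = M.st (preF C x v) v Z x := by
  have h1 : M.Conn c (G ∪ preF C x v) Z :=
    qp_of_qb hv (fun v' hv' => conn_bcF hΦ hε hc hRW hW hP hNB hBH v'
      ⟨hv'.1, hv'.2.le.trans hv.2⟩) x G hG hπ hi hcard
  have hπ' : ∃ π ∈ Λ, π ⊆ G ∪ preF C x v := by
    obtain ⟨π, h, h'⟩ := hπ
    exact ⟨π, h, h'.trans Finset.subset_union_left⟩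
  have h2 := hNB _ h1 hπ' hcard
  have h3 := agr_of_tl hW h1 h2 hv Finset.subset_union_right
  have h4 : M.ok (preF C x v) v Z := ok_anti hv.2 (h2.1 _ Finset.subset_union_right)
  exact ⟨h1, h2, h3, h4, state_at hΦ hε hRW hv h4 h3⟩

/-- **Step**: the partner of a contact. -/
theorem step [Nonempty κ] (hc : 1 ≤ c) (hRW : RW M Z X C) (hW : WCore M c ℓ ς Z X C)
    (hP : Parts M c Z Λ) (hNB : NoBad M c ℓ ς Z Λ N) (hBH : ¬ BadHit M c Z X C Λ N)
    {v : ℝ} (hv : v ∈ Ioc 0 M.T) {x y : J} {G : Finset J} (hG : M.Conn c G Z)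
    (hπ : ∃ π ∈ Λ, π ⊆ G) (hi : ∃ i ∈ G, i ∈ preF C x v) (hxy : C v x y)
    (hcard : (G ∪ preF C x v ∪ preF C y v ∪ uni Λ).card ≤ N) :
    M.Conn c (G ∪ preF C x v ∪ preF C y v) Z ∧ TL M c ℓ ς (G ∪ preF C x v ∪ preF C y v) Z ∧
      Agr M Z X C y v ∧ M.ok (preF C y v) v Z ∧ X v y = M.st (preF C y v) v Z y := by
  set G' : Finset J := G ∪ preF C x v with hG'
  have hcard1 : (G' ∪ uni Λ).card ≤ N := by
    refine le_trans (Finset.card_le_card ?_) hcard
    exact Finset.union_subset_union_left Finset.subset_union_left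
  obtain ⟨a1, a2, a3, a4, a5⟩ := real hΦ hε hc hRW hW hP hNB hBH hv hG hπ hi hcard1
  have hπ' : ∃ π ∈ Λ, π ⊆ G' := by
    obtain ⟨π, h, h'⟩ := hπ
    exact ⟨π, h, h'.trans Finset.subset_union_left⟩
  by_cases hmeet : ∃ i ∈ G', i ∈ preF C y v
  · exact real hΦ hε hc hRW hW hP hNB hBH hv a1 hπ' hmeet hcard
  by_cases hxy' : x = y
  · subst hxy'
    exact absurd ⟨x, Finset.mem_union_right _ (self_mem_preF hv.1), self_mem_preF hv.1⟩ hmeet
  have hgeo := hRW.geo v x y hxy' hxy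
  have key : Agr M Z X C y v ∧ M.ok (preF C y v) v Z := by
    by_cases hpart : ∃ m ∈ preF C y v, m ∈ uni Λ
    · obtain ⟨m, hm, hmu⟩ := hpart
      obtain ⟨π, hπΛ, hmπ⟩ := mem_uni.1 hmu
      have hπu : π ⊆ uni Λ := fun y hy => mem_uni.2 ⟨π, hπΛ, hy⟩
      have hcd : (π ∪ preF C y v ∪ uni Λ).card ≤ N := by
        refine le_trans (Finset.card_le_card ?_) hcard
        refine Finset.union_subset (Finset.union_subset (hπu.trans Finset.subset_union_right) ?_)
          Finset.subset_union_right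
        exact Finset.subset_union_right.trans Finset.subset_union_left
      obtain ⟨_, _, b3, b4, _⟩ := real hΦ hε hc hRW hW hP hNB hBH hv (hP.conn π hπΛ)
        ⟨π, hπΛ, Finset.Subset.refl _⟩ ⟨m, hmπ, hm⟩ hcd
      exact ⟨b3, b4⟩
    · have hdis : Disjoint (preF C y v) (uni Λ) := by
        rw [Finset.disjoint_left]
        exact fun m hm hmu => hpart ⟨m, hm, hmu⟩
      have hdisG : Disjoint (preF C y v) G' := by
        rw [Finset.disjoint_left]
        exact fun m hm hmu => hmeet ⟨m, hmu, hm⟩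
      have hok := ok_of_gas hP hdis v
      refine ⟨?_, hok⟩
      by_contra hna
      refine hBH ⟨G', preF C x v, x, y, v, a1, hπ', hcard1, Finset.subset_union_right,
        self_mem_preF hv.1, a4, hv, ?_, hdisG, hdis, hxy, a5, ?_, hna⟩
      · refine le_trans (Finset.card_le_card ?_) hcard
        exact Finset.subset_union_right.trans Finset.subset_union_left
      · rw [← a5]
        exact hgeo.2.2.2.2.2
  have hsty : X v y = M.st (preF C y v) v Z y := state_at hΦ hε hRW hv key.2 key.1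
  have hcony : M.Conn c (preF C y v) Z := conn_preF hε hc hRW hv key.2 key.1
  have h1 : M.Conn c (G' ∪ preF C y v) Z := by
    refine conn_union_of_vct a1 hcony
      (Finset.mem_union_right _ (self_mem_preF hv.1)) (self_mem_preF hv.1)
      ⟨hv.1.le, hv.2⟩ ?_
    refine vct_of hε hc (Finset.subset_union_right.trans Finset.subset_union_left)
      Finset.subset_union_right (self_mem_preF hv.1) (self_mem_preF hv.1) a4 key.2 hgeo.1
      hgeo.2.1 ?_
    rw [← a5, ← hsty]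
    exact hgeo.2.2.2.2.2
  obtain ⟨π, hπΛ, hπG⟩ := hπ'
  have h2 := hNB _ h1 ⟨π, hπΛ, hπG.trans Finset.subset_union_left⟩ hcard
  exact ⟨h1, h2, key.1, key.2, hsty⟩

end adm

end Crest.Agent.R122.LN304

end
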