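import Mathlib
import Crest.Prelude.Def_KineticLimit
import Crest.Agent.R122.PWGlue_491
import Crest.Agent.R122.PWInst_442
import Crest.Agent.R122.LN1Real_304

/-!
# Row 122, LN1 (helper365): pasts and sizes in the glued world

`H : GD M Z Sp bD A XD` (helper491): the glued world of a derived world (labels `A`, births `bD`,
paths `XD`) over the classes `Sp`.

* `CA` : contacts of the derived world on the labels.
* `CleanB u` : clean births up to time `u`: (`nb`) an exit `y` of a class with a later exit `e` of the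
  same class has no contact with the derived world at its birth; (`ns`) two labels of different
  classes born at the same instant are not in contact then.  Void if there is one exit.
* `past_cases` : an exploration in the glued world is an exploration in the derived world, or it has
  entered a class through an exit.
* `card_preF_le`, `card_bcF_le` : the number of gas particles of the past in the glued world is at
  most the marked size of the past in the derived world.
-/

set_option autoImplicit false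
set_option linter.unusedSectionVars false

open MeasureTheory Set Filter Topology
open scoped NNReal ENNReal
open Crest.AnalysisR.Kinetic
open Crest.Agent.R122.Flow671 Crest.Agent.R122.Loc45 Crest.Agent.R122.Ins45
open Crest.Agent.R122.VL581 Crest.Agent.R122.VL581.VSys Crest.Agent.R122.VLInst442
open Crest.Agent.R122.LNInst491 Crest.Agent.R122.LN304 Crest.Agent.R122.LNg410
open Crest.Agent.R122.Causal291 Crest.Agent.R122.EDefs602
open Crest.Agent.R122.PWGlue491 Crest.Agent.R122.Inf879 Crest.Agent.R122.PWInst442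
open scoped Classical

noncomputable section

namespace Crest.Agent.R122.PW365

section gd

variable {J κ : Type} [Fintype J] {M : VSys J κ} {Z : J → PhasePoint} {Sp : J → Finset J}
  {bD : J → ℝ} {A : Finset J} {XD : ℝ → J → PhasePoint}

/-- Contacts of the derived world, on the labels. -/
def CA (M : VSys J κ) (bD : J → ℝ) (A : Finset J) (XD : ℝ → J → PhasePoint) (t : ℝ) (i j : J) :
    Prop :=
  i ∈ A ∧ j ∈ A ∧ CtB bD XD M.ε t i j

/-- **Clean births** up to the time `u`. -/
structure CleanB (M : VSys J κ) (Z : J → PhasePoint) (Sp : J → Finset J) (bD : J → ℝ)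
    (A : Finset J) (XD : ℝ → J → PhasePoint) (u : ℝ) : Prop where
  /-- an exit has no contact at its birth, if its class has another exit which is not older -/
  nb : ∀ y ∈ A, bD y ≤ u → ∀ e ∈ A, e ∈ Sp y → e ≠ y → bD y ≤ bD e → ∀ j, j ≠ y →
    ¬ CA M bD A XD (bD y) y j
  /-- labels of different classes born at the same instant are not in contact then -/
  ns : ∀ i ∈ A, ∀ j ∈ A, i ≠ j → bD i = bD j → bD i ≤ u → j ∉ Sp i →
    ¬ CG M Z Sp bD A XD (bD i) i j

theorem CleanB.mono {u u' : ℝ} (h : CleanB M Z Sp bD A XD u) (hu : u' ≤ u) :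
    CleanB M Z Sp bD A XD u' where
  nb y hy hyu := h.nb y hy (hyu.trans hu)
  ns i hi j hj hij hb hiu := h.ns i hi j hj hij hb (hiu.trans hu)

/-- A label reached by an exploration of the derived world is reached already at its birth. -/
theorem past_birth {v s : ℝ} {x k : J} (h : Past (CA M bD A XD) v x s k) :
    k = x ∨ Past (CA M bD A XD) v x (bD k) k := by
  cases h with
  | root h => exact Or.inl rfl
  | step hp hc hs => exact Or.inr (.step hp hc hc.2.2.2.1)

/-- `(s, k)` is reached from `(x, v)` in the derived world, or through an exit. -/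
def Reached (M : VSys J κ) (Sp : J → Finset J) (bD : J → ℝ) (A : Finset J)
    (XD : ℝ → J → PhasePoint) (v : ℝ) (x : J) (s : ℝ) (k : J) : Prop :=
  (k ∈ A ∧ Past (CA M bD A XD) v x s k) ∨
    ∃ e ∈ A, (e = x ∨ Past (CA M bD A XD) v x (bD e) e) ∧ k ∈ Sp e ∧ s ≤ bD e ∧
      (k ∈ A → s ≤ bD k)

section

variable (H : GD M Z Sp bD A XD)
include H

/-- Contacts of the derived world are contacts of the glued world. -/
theorem cG_of_CA {t : ℝ} {i j : J} (hij : i ≠ j) (h : CA M bD A XD t i j) :
    CG M Z Sp bD A XD t i j := by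
  obtain ⟨hi, hj, h1, h2, h3, h4⟩ := h
  have gi := H.inG_of_alive hi h1
  have gj := H.inG_of_alive hj h2
  rw [cG_iff_of_inG H gi gj]
  refine ⟨(H.bb_le i hi).trans h1, (H.bb_le j hj).trans h2, ?_, h4⟩
  rcases h3 with h3 | h3 | h3
  · exact absurd h3 hij
  · exact Or.inl ((H.bb_le i hi).trans_lt h3)
  · exact Or.inr ((H.bb_le j hj).trans_lt h3)

/-- **Explorations of the derived world are explorations of the glued world.** -/
theorem past_of_CA {v s : ℝ} {x k : J} (h : Past (CA M bD A XD) v x s k) :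
    Past (CG M Z Sp bD A XD) v x s k := by
  induction h with
  | root h => exact .root h
  | @step s s' j k hp hc hs ih =>
    by_cases hjk : j = k
    · subst hjk
      exact ih.mono hs
    · exact .step ih (cG_of_CA H hjk hc) hs

/-- **Explorations of the glued world.** -/
theorem past_cases {u v s : ℝ} (hN : CleanB M Z Sp bD A XD u) (hvu : v ≤ u) {x k : J} (hx : x ∈ A)
    (h : Past (CG M Z Sp bD A XD) v x s k) : Reached M Sp bD A XD v x s k := by
  induction h with
  | root h => exact Or.inl ⟨hx, .root h⟩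
  | @step s s' j k hp hc hs ih =>
    have hs'v : s' ≤ v := hp.le
    have hc' := hc
    obtain ⟨-, -, hR, hb1, hb2, -, hd⟩ := hc'
    rcases ih with ⟨hjA, hpj⟩ | ⟨e, heA, hpe, hje, hse, hjb⟩
    · rcases hR with ⟨hj, hk⟩ | ⟨hk, hjA', hkA'⟩
      · have hbj : bD j ≤ s' := (H.alive_iff hj).1 hb1
        have hbk : bD k ≤ s' := (H.alive_iff hk).1 hb2
        rw [XG_of_inG hj, XG_of_inG hk] at hd
        by_cases hjk : j = k
        · subst hjk
          exact Or.inl ⟨hjA, hpj.mono hs⟩
        by_cases hst : bD j < s' ∨ bD k < s'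
        · exact Or.inl ⟨hk.1, .step hpj ⟨hjA, hk.1, hbj, hbk, Or.inr hst, hd⟩ hs⟩
        · push Not at hst
          have e1 : bD j = s' := le_antisymm hbj hst.1
          have e2 : bD k = s' := le_antisymm hbk hst.2
          by_cases hkS : k ∈ Sp j
          · refine Or.inr ⟨j, hjA, Or.inr (hpj.mono e1.le), hkS, by rw [e1]; exact hs, fun _ => ?_⟩
            rw [e2]
            exact hs
          · refine absurd ?_ (hN.ns j hjA k hk.1 hjk (e1.trans e2.symm)
              (by rw [e1]; exact hs'v.trans hvu) hkS)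
            rw [e1]
            exact hc
      · refine Or.inr ⟨j, hjA, ?_, hk, hs.trans (hjA' hjA), fun h => hs.trans (hkA' h)⟩
        exact past_birth hpj
    · have hSp : Sp j = Sp e := H.eq e j hje
      rcases hR with ⟨hj, hk⟩ | ⟨hk, hjA', hkA'⟩
      · have hjA := hj.1
        have hbj : bD j ≤ s' := (H.alive_iff hj).1 hb1
        have hbk : bD k ≤ s' := (H.alive_iff hk).1 hb2
        have e1 : bD j = s' := le_antisymm hbj (hjb hjA)
        rw [XG_of_inG hj, XG_of_inG hk] at hd
        by_cases hjk : j = k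
        · subst hjk
          exact Or.inr ⟨e, heA, hpe, hje, hs.trans hse, fun h => hs.trans (hjb h)⟩
        by_cases hst : bD k < s'
        · have hCA : CA M bD A XD (bD j) j k := by
            rw [e1]
            exact ⟨hjA, hk.1, hbj, hbk, Or.inr (Or.inr hst), hd⟩
          by_cases hje' : j = e
          · subst hje'
            have h1 : Past (CA M bD A XD) v x (bD j) j := by
              rcases hpe with h' | h'
              · rw [h']
                refine .root ?_
                rw [← h', e1]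
                exact hs'v
              · exact h'
            exact Or.inl ⟨hk.1, .step h1 hCA (by rw [e1]; exact hs)⟩
          · exact absurd hCA (hN.nb j hjA (by rw [e1]; exact hs'v.trans hvu) e heA
              (H.symm_mem hje) (Ne.symm hje') (by rw [e1]; exact hse) k (Ne.symm hjk))
        · have e2 : bD k = s' := le_antisymm hbk (not_lt.1 hst)
          by_cases hkS : k ∈ Sp j
          · refine Or.inr ⟨e, heA, hpe, by rwa [hSp] at hkS, hs.trans hse, fun _ => ?_⟩
            rw [e2]
            exact hs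
          · refine absurd ?_ (hN.ns j hjA k hk.1 hjk (e1.trans e2.symm)
              (by rw [e1]; exact hs'v.trans hvu) hkS)
            rw [e1]
            exact hc
      · refine Or.inr ⟨e, heA, hpe, ?_, hs.trans hse, fun h => hs.trans (hkA' h)⟩
        rwa [hSp] at hk

/-- Labels which are not members of a class are reached in the derived world. -/
theorem past_gas {u v s : ℝ} (hN : CleanB M Z Sp bD A XD u) (hvu : v ≤ u) {x k : J} (hx : x ∈ A)
    (hk : Sp k = ∅) (h : Past (CG M Z Sp bD A XD) v x s k) :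
    k ∈ A ∧ Past (CA M bD A XD) v x s k := by
  rcases past_cases H hN hvu hx h with h' | ⟨e, -, -, h2, -⟩
  · exact h'
  · have := H.nonempty h2
    rw [hk] at this
    exact absurd this Finset.not_nonempty_empty

/-- If the exploration of the derived world never meets an exit, the exploration of the glued world
is the same. -/
theorem past_plain {u v s : ℝ} (hN : CleanB M Z Sp bD A XD u) (hvu : v ≤ u) {x k : J} (hx : x ∈ A)
    (hx0 : Sp x = ∅) (hno : ∀ e, Past (CA M bD A XD) v x (bD e) e → Sp e = ∅)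
    (h : Past (CG M Z Sp bD A XD) v x s k) : k ∈ A ∧ Past (CA M bD A XD) v x s k := by
  rcases past_cases H hN hvu hx h with h' | ⟨e, -, h1, h2, -⟩
  · exact h'
  · rcases h1 with rfl | h1
    · rw [hx0] at h2
      exact absurd h2 (Finset.notMem_empty k)
    · rw [hno e h1] at h2
      exact absurd h2 (Finset.notMem_empty k)

end

/-! ### When births are clean -/

/-- Clean births from at most one exit in each class, and separated births in different classes. -/
theorem cleanB_of {u : ℝ} (H : GD M Z Sp bD A XD)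
    (h1 : ∀ y ∈ A, bD y ≤ u → ∀ e ∈ A, e ∈ Sp y → e ≠ y → bD y ≤ bD e → ∀ j, j ≠ y →
      ¬ CA M bD A XD (bD y) y j)
    (h2 : ∀ i ∈ A, (Sp i).Nonempty → bD i ≤ u → 0 < bD i → ∀ j ∈ A, i ≠ j → bD i = bD j →
      j ∉ Sp i → M.ε < dist (XD (bD i) i).1 (XD (bD i) j).1) : CleanB M Z Sp bD A XD u where
  nb := h1
  ns i hi j hj hij hb hu hS hC := by
    have gi := H.inG_of_alive hi (le_refl (bD i))
    have gj := H.inG_of_alive hj hb.ge
    have h3 := (cG_iff_of_inG H gi gj).1 hC
    obtain ⟨h4, h5, h6, h7⟩ := h3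
    have hpos : 0 < bD i := by
      rcases h6 with h6 | h6
      · exact (bb_nonneg M i).trans_lt h6
      · exact (bb_nonneg M j).trans_lt h6
    rcases (Sp i).eq_empty_or_nonempty with he | hne
    · rcases (Sp j).eq_empty_or_nonempty with he' | hne'
      · rw [H.gasb i hi he] at h6
        rcases h6 with h6 | h6
        · exact lt_irrefl _ h6
        · rw [← H.gasb j hj he', ← hb, H.gasb i hi he] at h6
          exact lt_irrefl _ h6
      · have h8 := h2 j hj hne' (hb ▸ hu) (hb ▸ hpos) i hi (Ne.symm hij) hb.symm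
          (fun h => hS (H.symm_mem h))
        rw [dist_comm, ← hb] at h8
        exact absurd h7 (not_le.2 h8)
    · exact absurd h7 (not_le.2 (h2 i hi hne hu hpos j hj hij hb hS))

end gd

/-! ### The derived world is a marked world -/

section world

variable {J κ ι : Type} [Fintype J] [Fintype ι] {M : VSys J κ} {Z : J → PhasePoint}
  {Sp : J → Finset J} {W : MW ι} {f : ι ↪ J}

theorem CA_iff {t : ℝ} {i j : ι} :
    CA M (bD W f) (labs f) (XD W f M.Φ M.ε) t (f i) (f j) ↔ W.C M.Φ M.ε t i j := by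
  unfold CA MW.C CtB
  rw [bD_apply, bD_apply, XD_apply, XD_apply, f.injective.eq_iff]
  exact ⟨fun h => h.2.2, fun h => ⟨mem_labs_self f i, mem_labs_self f j, h⟩⟩

theorem past_CA_iff {v s : ℝ} {i : ι} {k' : J} :
    Past (CA M (bD W f) (labs f) (XD W f M.Φ M.ε)) v (f i) s k' ↔
      ∃ k, f k = k' ∧ Past (W.C M.Φ M.ε) v i s k := by
  constructor
  · intro h
    induction h with
    | root h => exact ⟨i, rfl, .root h⟩
    | @step s s' j k hp hc hs ih =>
      obtain ⟨j', rfl, hj'⟩ := ih
      obtain ⟨k', rfl⟩ := (mem_labs f).1 hc.2.1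
      exact ⟨k', rfl, .step hj' (CA_iff.1 hc) hs⟩
  · rintro ⟨k, rfl, h⟩
    induction h with
    | root h => exact .root h
    | @step s s' j k hp hc hs ih => exact .step ih (CA_iff.2 hc) hs

variable (H : GD M Z Sp (bD W f) (labs f) (XD W f M.Φ M.ε))
include H

/-- **Explorations of the derived world are explorations of the glued world.** -/
theorem cG_past {v s : ℝ} {i k : ι} (h : Past (W.C M.Φ M.ε) v i s k) :
    Past (CG M Z Sp (bD W f) (labs f) (XD W f M.Φ M.ε)) v (f i) s (f k) :=
  past_of_CA H (past_CA_iff.2 ⟨k, rfl, h⟩)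

/-- **Explorations of the glued world**, cases. -/
theorem cG_past_cases {u v s : ℝ}
    (hN : CleanB M Z Sp (bD W f) (labs f) (XD W f M.Φ M.ε) u) (hvu : v ≤ u) {i : ι} {k' : J}
    (h : Past (CG M Z Sp (bD W f) (labs f) (XD W f M.Φ M.ε)) v (f i) s k') :
    (∃ k, f k = k' ∧ Past (W.C M.Φ M.ε) v i s k) ∨
      ∃ e, (e = i ∨ Past (W.C M.Φ M.ε) v i (W.b e) e) ∧ k' ∈ Sp (f e) ∧ s ≤ W.b e ∧
        (∀ k, f k = k' → s ≤ W.b k) := by
  rcases past_cases H hN hvu (mem_labs_self f i) h with ⟨-, h1⟩ | ⟨e, he, h1, h2, h3, h4⟩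
  · exact Or.inl (past_CA_iff.1 h1)
  · obtain ⟨e, rfl⟩ := (mem_labs f).1 he
    rw [bD_apply] at h1 h3
    refine Or.inr ⟨e, ?_, h2, h3, fun k hk => ?_⟩
    · rcases h1 with h1 | h1
      · exact Or.inl (f.injective h1)
      · obtain ⟨e', he', h5⟩ := past_CA_iff.1 h1
        rw [f.injective he'] at h5
        exact Or.inr h5
    · subst hk
      have := h4 (mem_labs_self f k)
      rwa [bD_apply] at this

/-- A gas label reached in the glued world is reached in the derived world. -/
theorem cG_past_gas {u v s : ℝ}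
    (hN : CleanB M Z Sp (bD W f) (labs f) (XD W f M.Φ M.ε) u) (hvu : v ≤ u) {i : ι} {k' : J}
    (hk' : Sp k' = ∅)
    (h : Past (CG M Z Sp (bD W f) (labs f) (XD W f M.Φ M.ε)) v (f i) s k') :
    ∃ k, f k = k' ∧ Past (W.C M.Φ M.ε) v i s k :=
  past_CA_iff.1 (past_gas H hN hvu (mem_labs_self f i) hk' h).2

variable {Λ : Finset (Finset J)}

/-- The closed past in the glued world. -/
theorem bcF_subset {u v : ℝ} (hN : CleanB M Z Sp (bD W f) (labs f) (XD W f M.Φ M.ε) u)
    (hvu : v ≤ u) (hΛ : ∀ j, Sp j ⊆ uni Λ) (i : ι) :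
    bcF (CG M Z Sp (bD W f) (labs f) (XD W f M.Φ M.ε)) (f i) v ⊆
      ((Finset.univ.filter fun k => k ∈ BC (W.C M.Φ M.ε) v i).map f) ∪ uni Λ := by
  intro k' hk'
  rw [mem_bcF] at hk'
  rw [Finset.mem_union]
  rcases cG_past_cases H hN hvu hk' with ⟨k, rfl, hk⟩ | ⟨e, _, h2, _⟩
  · exact Or.inl (Finset.mem_map.2 ⟨k, Finset.mem_filter.2 ⟨Finset.mem_univ _, hk⟩, rfl⟩)
  · exact Or.inr (hΛ _ h2)

/-- The strict past in the glued world. -/
theorem preF_subset {u v : ℝ} (hN : CleanB M Z Sp (bD W f) (labs f) (XD W f M.Φ M.ε) u)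
    (hvu : v ≤ u) (hΛ : ∀ j, Sp j ⊆ uni Λ) (i : ι) :
    preF (CG M Z Sp (bD W f) (labs f) (XD W f M.Φ M.ε)) (f i) v ⊆
      ((Finset.univ.filter fun k => k ∈ pre (W.C M.Φ M.ε) i v 0).map f) ∪ uni Λ := by
  intro k' hk'
  rw [mem_preF] at hk'
  obtain ⟨s', hs', hk'⟩ := hk'
  rw [Finset.mem_union]
  rcases cG_past_cases H hN (hs'.2.le.trans hvu) hk' with ⟨k, rfl, hk⟩ | ⟨e, _, h2, _⟩
  · exact Or.inl (Finset.mem_map.2 ⟨k, Finset.mem_filter.2 ⟨Finset.mem_univ _, s', hs', hk⟩, rfl⟩)
  · exact Or.inr (hΛ _ h2)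

theorem card_le_msize {v : ℝ} (hm : ∀ k, f k ∉ uni Λ → 1 ≤ W.m k) (i : ι) :
    (((Finset.univ.filter fun k => k ∈ BC (W.C M.Φ M.ε) v i).map f) \ uni Λ).card ≤
      msize (W.C M.Φ M.ε) W.m v i := by
  have h1 : ((Finset.univ.filter fun k => k ∈ BC (W.C M.Φ M.ε) v i).map f) \ uni Λ =
      (Finset.univ.filter fun k => k ∈ BC (W.C M.Φ M.ε) v i ∧ f k ∉ uni Λ).map f := by
    ext j
    simp only [Finset.mem_sdiff, Finset.mem_map, Finset.mem_filter, Finset.mem_univ, true_and]
    constructor
    · rintro ⟨⟨k, hk, rfl⟩, h2⟩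
      exact ⟨k, ⟨hk, h2⟩, rfl⟩
    · rintro ⟨k, ⟨hk, h2⟩, rfl⟩
      exact ⟨⟨k, hk, rfl⟩, h2⟩
  rw [h1, Finset.card_map, msize_eq_filter, Finset.card_eq_sum_ones]
  refine (Finset.sum_le_sum fun k hk => hm k (Finset.mem_filter.1 hk).2.2).trans ?_
  refine Finset.sum_le_sum_of_subset fun k hk => ?_
  rw [Finset.mem_filter] at hk ⊢
  exact ⟨hk.1, hk.2.1⟩

/-- **Size transfer, closed past**: not infected at time `v`. -/
theorem card_bcF_le {u v : ℝ} {K : ℕ}
    (hN : CleanB M Z Sp (bD W f) (labs f) (XD W f M.Φ M.ε) u) (hvu : v ≤ u)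
    (hΛ : ∀ j, Sp j ⊆ uni Λ) (hm : ∀ k, f k ∉ uni Λ → 1 ≤ W.m k) {i : ι}
    (hK : ¬ W.Inf M.Φ M.ε K v i) :
    (bcF (CG M Z Sp (bD W f) (labs f) (XD W f M.Φ M.ε)) (f i) v \ uni Λ).card ≤ K := by
  refine le_trans (Finset.card_le_card ?_) ((card_le_msize H hm i).trans (not_lt.1 hK))
  intro k hk
  rw [Finset.mem_sdiff] at hk ⊢
  exact ⟨(Finset.mem_union.1 (bcF_subset H hN hvu hΛ i hk.1)).resolve_right hk.2, hk.2⟩

/-- **Size transfer, strict past**: not infected before time `v`. -/
theorem card_preF_le {u v : ℝ} {K : ℕ}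
    (hN : CleanB M Z Sp (bD W f) (labs f) (XD W f M.Φ M.ε) u) (hvu : v ≤ u)
    (hΛ : ∀ j, Sp j ⊆ uni Λ) (hm : ∀ k, f k ∉ uni Λ → 1 ≤ W.m k) {i : ι}
    (hK : ∀ s, 0 ≤ s → s < v → ¬ W.Inf M.Φ M.ε K s i) :
    (preF (CG M Z Sp (bD W f) (labs f) (XD W f M.Φ M.ε)) (f i) v \ uni Λ).card ≤ K := by
  rcases le_or_gt v 0 with hv | hv
  · have h1 : preF (CG M Z Sp (bD W f) (labs f) (XD W f M.Φ M.ε)) (f i) v = ∅ := by
      ext k
      rw [mem_preF]
      constructor
      · rintro ⟨s', hs', -⟩
        exact absurd (hs'.1.trans_lt hs'.2) (not_lt.2 hv)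
      · exact fun h => absurd h (Finset.notMem_empty k)
    rw [h1, Finset.empty_sdiff]
    exact Nat.zero_le _
  · obtain ⟨r, hr, h⟩ := exists_left_bcF
      (C := CG M Z Sp (bD W f) (labs f) (XD W f M.Φ M.ε)) hv (f i)
    rw [← h r ⟨le_rfl, hr.2⟩]
    exact card_bcF_le H hN (hr.2.le.trans hvu) hΛ hm (hK r hr.1 hr.2)

end world

end Crest.Agent.R122.PW365

end
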