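import Crest.Agent.R122.UnwX_410
import Crest.Agent.R122.EInf_879

/-!
# The gas as a marked world, one inserted line (row 122, item H16, part 3)

* `path_cfg`, `cfg_ok` : the world `cfg w` of a configuration in `PairExcluded`.
* `ins_ok` : the world with one line, if the line is not created on top of a particle.
* `hit_of_theta_le` : a line of mark at most `K` with touch time at most `s` meets the gas before.
* `X_le` : the quenched touched measure is at most `cX * Yf`.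
-/

set_option autoImplicit false
set_option linter.unusedSectionVars false

open MeasureTheory Set Filter Topology
open scoped ENNReal
open Crest.AnalysisR.Kinetic
open Crest.Agent.R122.Flow671 Crest.Agent.R122.Loc45 Crest.Agent.R122.Causal291
open Crest.Agent.R122.Ins45
open Crest.Agent.R122.Inf879 Crest.Agent.R122.GC311 Crest.Agent.R122.Master566
open Crest.Agent.R122.Energy410 Crest.Agent.R122.EDefs602 Crest.Agent.R122.EW370

namespace Crest.Agent.R122.Unw410

noncomputable section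

variable {Φ : Space3 → ℝ} {f₀ : PhasePoint → ℝ} {ε : ℝ} {K : ℕ}

/-! ## The gas -/

theorem path_cfg (hΦ : AdmissiblePotential Φ) (hε : 0 < ε) {n : ℕ} {w : Config n}
    (hw : w ∈ PairExcluded ε n) {t : ℝ} (ht : 0 ≤ t) : (MW.cfg w).path Φ ε t = flow Φ ε t w := by
  have h := (bworld_flow hΦ hε (far_of_mem hw)).eq_evo hΦ hε ht
  simp only [flow_zero hΦ hε] at h
  exact h.symm

theorem birthSep_cfg (hΦ : AdmissiblePotential Φ) (hε : 0 < ε) {n : ℕ} {w : Config n}
    (hw : w ∈ PairExcluded ε n) : BirthSep (MW.cfg w).b ((MW.cfg w).path Φ ε) ε := by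
  intro j k hjk _
  have hb : (MW.cfg w).b j = 0 := rfl
  have hcont : Continuous fun s => flow Φ ε s w := flow_continuous_time hΦ hε w
  have h1 : Continuous fun s => dist (flow Φ ε s w j).1 (flow Φ ε s w k).1 :=
    Continuous.dist ((continuous_apply j).comp hcont).fst ((continuous_apply k).comp hcont).fst
  have h2 : ε < dist (flow Φ ε 0 w j).1 (flow Φ ε 0 w k).1 := by
    rw [flow_zero hΦ hε]; exact hw j k hjk
  obtain ⟨δ, hδ, h⟩ := Metric.eventually_nhds_iff.1 (h1.continuousAt.eventually (lt_mem_nhds h2))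
  refine ⟨δ, hδ, fun s hs1 hs2 => ?_⟩
  rw [hb] at hs1 hs2
  rw [path_cfg hΦ hε hw hs1.le]
  refine h ?_
  rw [Real.dist_eq, sub_zero, abs_of_pos hs1]
  linarith

theorem cfg_ok (hΦ : AdmissiblePotential Φ) (hε : 0 < ε) {n : ℕ} {w : Config n}
    (hw : w ∈ PairExcluded ε n) : (MW.cfg w).Ok Φ ε where
  bw := (bworld_flow hΦ hε (far_of_mem hw)).congr fun _ ht => path_cfg hΦ hε hw ht
  sep := birthSep_cfg hΦ hε hw

/-! ## One inserted line -/

/-- Before the birth of the line the particles of the gas move as in the gas. -/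
theorem path_ins_of_le (hΦ : AdmissiblePotential Φ) (hε : 0 < ε) {n : ℕ} (w : Config n) {l : ML}
    (hl : 0 < l.1.1) {t : ℝ} (ht : t ≤ l.1.1) (i : Fin n) :
    ((MW.cfg w).ins l).path Φ ε t (Sum.inl i) = flow Φ ε t w i := by
  set Z := (MW.cfg w).ins l with hZ
  have hb1 : ∀ i : Fin n, Z.b (Sum.inl i) = 0 := fun _ => rfl
  have hb2 : ∀ x : Unit, Z.b (Sum.inr x) = l.1.1 := fun _ => rfl
  have hal : ∀ i : Fin n, (Sum.inl i : Fin n ⊕ Unit) ∈ alive Z.b 0 := fun i =>
    mem_alive.2 (hb1 i).le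
  have hnal : ∀ x : Unit, (Sum.inr x : Fin n ⊕ Unit) ∉ alive Z.b 0 := fun x h => by
    have := mem_alive.1 h
    rw [hb2] at this
    linarith
  have h1 : Z.path Φ ε t = flowA Φ ε (alive Z.b 0) (t - 0) Z.z := by
    unfold MW.path evo
    refine evoN_of_no_birth Z.b _ Z.z fun j hj => ?_
    rcases j with j | x
    · rw [hb1] at hj; exact absurd hj (lt_irrefl _)
    · rw [hb2]; exact ht
  rw [h1, sub_zero, flowA_mem _ _ _ (hal i)]
  let σ : Fin n ≃ (alive Z.b 0 : Finset (Fin n ⊕ Unit)) :=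
    { toFun := fun i => ⟨Sum.inl i, hal i⟩
      invFun := fun a => match a with
        | ⟨Sum.inl i, _⟩ => i
        | ⟨Sum.inr x, h⟩ => absurd h (hnal x)
      left_inv := fun i => rfl
      right_inv := by
        rintro ⟨j | x, h⟩
        · rfl
        · exact absurd h (hnal x) }
  have h2 := flow_equiv hΦ hε σ t (fun a : (alive Z.b 0 : Finset (Fin n ⊕ Unit)) => Z.z a)
  have h3 : (fun i : Fin n => (fun a : (alive Z.b 0 : Finset (Fin n ⊕ Unit)) => Z.z a) (σ i)) = w :=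
    rfl
  rw [h3] at h2
  exact (congrFun h2 i).symm

/-- The position of the line at its birth, if the world with the line is a world. -/
theorem path_ins_birth (Φ : Space3 → ℝ) (ε : ℝ) {n : ℕ} (w : Config n) {l : ML}
    (hl : 0 < l.1.1) {t : ℝ} (ht : t ≤ l.1.1) (x : Unit) :
    ((MW.cfg w).ins l).path Φ ε t (Sum.inr x) =
      (l.1.2.1 + (t - l.1.1) • l.1.2.2, l.1.2.2) := by
  set Z := (MW.cfg w).ins l with hZ
  have hb1 : ∀ i : Fin n, Z.b (Sum.inl i) = 0 := fun _ => rfl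
  have hb2 : ∀ x : Unit, Z.b (Sum.inr x) = l.1.1 := fun _ => rfl
  have hnal : (Sum.inr x : Fin n ⊕ Unit) ∉ alive Z.b 0 := fun h => by
    have := mem_alive.1 h
    rw [hb2] at this
    linarith
  have h1 : Z.path Φ ε t = flowA Φ ε (alive Z.b 0) (t - 0) Z.z := by
    unfold MW.path evo
    refine evoN_of_no_birth Z.b _ Z.z fun j hj => ?_
    rcases j with j | x
    · rw [hb1] at hj; exact absurd hj (lt_irrefl _)
    · rw [hb2]; exact ht
  rw [h1, sub_zero, flowA_not_mem _ _ _ hnal]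
  have h2 : Z.z (Sum.inr x) = back l.1 := rfl
  rw [h2]
  unfold back
  refine Prod.ext ?_ rfl
  simp only
  rw [sub_smul]
  abel

/-- The world with one line is good, if the line is not created on top of a particle. -/
theorem ins_ok (hΦ : AdmissiblePotential Φ) (hε : 0 < ε) {n : ℕ} {w : Config n}
    (hw : w ∈ PairExcluded ε n) {l : ML} (hl : 0 < l.1.1)
    (hne : ∀ i, (flow Φ ε l.1.1 w i).1 ≠ l.1.2.1) : ((MW.cfg w).ins l).Ok Φ ε := by
  set Z := (MW.cfg w).ins l with hZ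
  have hb1 : ∀ i : Fin n, Z.b (Sum.inl i) = 0 := fun _ => rfl
  have hb2 : ∀ x : Unit, Z.b (Sum.inr x) = l.1.1 := fun _ => rfl
  have hwD : w ∈ Dom Φ (Fin n) := Dom_of_far hε (far_of_mem hw)
  constructor
  · refine bworld_evo hΦ hε (Or.inr ?_) ?_
    · rintro (i | x) (j | y) hij hi hj
      · exact ne_of_le_dist hε (hw i j fun h => hij (by rw [h])).le
      · rw [hb2] at hj; linarith
      · rw [hb2] at hi; linarith
      · exact absurd rfl hij
    · rintro (i | x) hi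
      · rw [hb1] at hi; exact absurd hi (lt_irrefl _)
      · rw [hb2]
        have hpi : ∀ i : Fin n, evo Φ ε Z.b 0 l.1.1 Z.z (Sum.inl i) = flow Φ ε l.1.1 w i :=
          fun i => path_ins_of_le hΦ hε w hl le_rfl i
        have hpx : ∀ x : Unit, evo Φ ε Z.b 0 l.1.1 Z.z (Sum.inr x) =
            (l.1.2.1 + (l.1.1 - l.1.1) • l.1.2.2, l.1.2.2) :=
          fun x => path_ins_birth Φ ε w hl le_rfl x
        rcases flow_mem hΦ hε hwD l.1.1 with h | h
        · exact Or.inl h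
        · refine Or.inr ?_
          rintro (i | x) (j | y) hij _ _
          · rw [hpi, hpi]
            exact h i j fun h' => hij (by rw [h'])
          · rw [hpi, hpx]
            simp only [sub_self, zero_smul, add_zero]
            exact hne i
          · rw [hpi, hpx]
            simp only [sub_self, zero_smul, add_zero]
            exact (hne j).symm
          · exact absurd rfl hij
  · rintro (i | x) (j | y) hij hb
    · obtain ⟨δ, hδ, h⟩ := birthSep_cfg hΦ hε hw i j (fun h => hij (by rw [h])) rfl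
      refine ⟨min δ l.1.1, lt_min hδ hl, fun s hs1 hs2 => ?_⟩
      rw [hb1] at hs1 hs2
      have hsl : s ≤ l.1.1 := by
        have := hs2.trans_le (add_le_add le_rfl (min_le_right δ l.1.1))
        linarith
      rw [path_ins_of_le hΦ hε w hl hsl, path_ins_of_le hΦ hε w hl hsl]
      have h2 := h s hs1 (hs2.trans_le (add_le_add le_rfl (min_le_left δ l.1.1)))
      rwa [path_cfg hΦ hε hw hs1.le] at h2
    · rw [hb1, hb2] at hb; linarith
    · rw [hb1, hb2] at hb; linarith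
    · exact absurd rfl hij

/-- **A line whose touch time is at most `s` meets the gas before `s`.** -/
theorem hit_of_theta_le (hΦ : AdmissiblePotential Φ) (hε : 0 < ε) {n : ℕ} {w : Config n}
    (hw : w ∈ PairExcluded ε n) {T : ℝ} (hT : 0 ≤ T) {l : ML} (hl : 0 < l.1.1) (hm : l.2 ≤ K)
    (hne : ∀ i, (flow Φ ε l.1.1 w i).1 ≠ l.1.2.1)
    (h : (MW.cfg w).thetaL Φ ε K T l ≤ T) :
    l ∈ hitL Φ ε w ((MW.cfg w).thetaL Φ ε K T l) := by
  set Z := (MW.cfg w).ins l with hZ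
  set θ := (MW.cfg w).thetaL Φ ε K T l with hθ
  have hZok : Z.Ok Φ ε := ins_ok hΦ hε hw hl hne
  have hwok : (MW.cfg w).Ok Φ ε := cfg_ok hΦ hε hw
  have hb1 : ∀ i : Fin n, Z.b (Sum.inl i) = 0 := fun _ => rfl
  have hb2 : ∀ x : Unit, Z.b (Sum.inr x) = l.1.1 := fun _ => rfl
  obtain ⟨r, hr, x, k, hc⟩ := MW.exists_contact_le_theta hΦ hε hwok hZok hT h
    (by rw [Finset.univ_unique, Finset.sum_singleton]; exact hm)
  -- first contact time of the line with the gas
  set S : Set ℝ := {s | s ∈ Icc 0 θ ∧ ∃ k, Z.C Φ ε s (Sum.inr ()) (Sum.inl k)} with hS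
  have hScl : IsClosed S := by
    have : S = ⋃ k, {s | s ∈ Icc 0 θ ∧ Z.C Φ ε s (Sum.inr ()) (Sum.inl k)} := by
      ext s
      simp only [hS, mem_ofPred_eq, mem_iUnion]
      exact ⟨fun ⟨h1, k, h2⟩ => ⟨k, h1, h2⟩, fun ⟨k, h1, h2⟩ => ⟨h1, k, h2⟩⟩
    rw [this]
    exact isClosed_iUnion_of_finite fun k => hZok.closed θ _ _
  have hSne : S.Nonempty := ⟨r, hr, k, hc⟩
  have hSbd : BddBelow S := ⟨0, fun s hs => hs.1.1⟩
  obtain ⟨hs1, k₁, hc₁⟩ := hScl.csInf_mem hSne hSbd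
  set s₁ := sInf S with hs₁
  have hτs : l.1.1 ≤ s₁ := by
    have := MW.C_born hc₁
    rwa [hb2] at this
  have hno : ∀ s, 0 ≤ s → s < s₁ → ∀ x j, ¬ Z.C Φ ε s (Sum.inr x) (Sum.inl j) := by
    intro s h0 hss x j hcs
    exact absurd (csInf_le hSbd (show s ∈ S from ⟨⟨h0, hss.le.trans hs1.2⟩, j, hcs⟩))
      (not_le.2 hss)
  -- the gas is unchanged up to the first contact
  have hgas : ∀ s, 0 ≤ s → s < s₁ → ∀ i, Z.path Φ ε s (Sum.inl i) = flow Φ ε s w i := by
    intro s h0 hss i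
    have h1 := MW.path_eq_of_not_fut hΦ hε hwok hZok h0 (k := i)
      (MW.not_fut_of_no_contact hΦ hε (fun r hr x k => hno r hr.1 (hr.2.trans_lt hss) x k) i)
    rw [path_cfg hΦ hε hw h0] at h1
    exact h1.symm
  have hgas1 : ∀ i, Z.path Φ ε s₁ (Sum.inl i) = flow Φ ε s₁ w i := by
    intro i
    have hs₁0 : 0 < s₁ := hl.trans_le hτs
    have hc1 : ContinuousWithinAt (fun s => Z.path Φ ε s (Sum.inl i)) (Ico 0 s₁) s₁ :=
      (hZok.bw.cont_apply (Sum.inl i) s₁ hs₁0.le).mono fun s hs => hs.1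
    have hcont : Continuous fun s => flow Φ ε s w := flow_continuous_time hΦ hε w
    have hc2 : ContinuousWithinAt (fun s => flow Φ ε s w i) (Ico 0 s₁) s₁ :=
      ((continuous_apply i).comp hcont).continuousWithinAt
    have : (𝓝[Ico 0 s₁] s₁).NeBot := by
      rw [← mem_closure_iff_nhdsWithin_neBot, closure_Ico hs₁0.ne]
      exact ⟨hs₁0.le, le_rfl⟩
    refine tendsto_nhds_unique hc1 (hc2.congr' ?_)
    filter_upwards [self_mem_nhdsWithin] with s hs
    exact (hgas s hs.1 hs.2 i).symm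
  -- the line is free up to the first contact
  have hfree : Z.path Φ ε s₁ (Sum.inr ()) = (l.1.2.1 + (s₁ - l.1.1) • l.1.2.2, l.1.2.2) := by
    have h1 := hZok.bw.free hΦ hε (Sum.inr ()) (a := l.1.1) (T := s₁) hl.le ?_ s₁ ⟨hτs, le_rfl⟩
    · rw [h1]
      have h2 := path_ins_birth Φ ε w hl le_rfl ()
      rw [← hZ] at h2
      rw [h2]
      simp
    · intro t ht _ j hj hbj
      by_contra hlt
      push Not at hlt
      rcases j with j | y
      · refine hno t (hl.le.trans ht.1) ht.2 () j ⟨?_, hbj, Or.inr (Or.inr ?_), hlt.le⟩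
        · rw [hb2]; exact ht.1
        · rw [hb1]; exact hl.trans_le ht.1
      · exact hj rfl
  refine ⟨s₁, hs1, hτs, k₁, ?_⟩
  have h1 : dist (Z.path Φ ε s₁ (Sum.inr ())).1 (Z.path Φ ε s₁ (Sum.inl k₁)).1 ≤ ε := hc₁.2.2.2
  rw [hfree, hgas1 k₁] at h1
  exact h1

/-! ## Almost every line is good -/

theorem ae_lineV (hΦ : AdmissiblePotential Φ) (hε : 0 < ε) {n : ℕ} (w : Config n) (T : ℝ) :
    ∀ᵐ l ∂(lineV T), (0 < l.1.1 ∧ l.1.1 ≤ T) ∧ ∀ i, (flow Φ ε l.1.1 w i).1 ≠ l.1.2.1 := by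
  have hcont : Continuous fun s => flow Φ ε s w := flow_continuous_time hΦ hε w
  set N : Set (ℝ × PhasePoint) := {p | p.1 ∉ Ioc 0 T ∨ ∃ i, (flow Φ ε p.1 w i).1 = p.2.1} with hN
  have hN2 : IsClosed {p : ℝ × PhasePoint | ∃ i, (flow Φ ε p.1 w i).1 = p.2.1} := by
    have : {p : ℝ × PhasePoint | ∃ i, (flow Φ ε p.1 w i).1 = p.2.1} =
        ⋃ i, {p | (flow Φ ε p.1 w i).1 = p.2.1} := by
      ext p; simp
    rw [this]
    refine isClosed_iUnion_of_finite fun i => isClosed_eq ?_ (by fun_prop)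
    exact (((continuous_apply i).comp hcont).comp continuous_fst).fst
  have hNm : MeasurableSet N := by
    have : N = (Prod.fst ⁻¹' (Ioc 0 T)ᶜ) ∪ {p | ∃ i, (flow Φ ε p.1 w i).1 = p.2.1} := by
      ext p; simp [hN]
    rw [this]
    exact (measurable_fst measurableSet_Ioc.compl).union hN2.measurableSet
  have h1 : ((volume.restrict (Ioc (0 : ℝ) T)).prod (volume : Measure PhasePoint)) N = 0 := by
    rw [Measure.measure_prod_null hNm]
    filter_upwards [ae_restrict_mem measurableSet_Ioc] with τ hτ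
    have h2 : Prod.mk τ ⁻¹' N ⊆ ⋃ i, ({(flow Φ ε τ w i).1} ×ˢ (univ : Set Space3)) := by
      rintro z (hz | ⟨i, hi⟩)
      · exact absurd hτ hz
      · exact mem_iUnion.2 ⟨i, ⟨hi.symm, mem_univ _⟩⟩
    refine measure_mono_null h2 ((measure_iUnion_null_iff).2 fun i => ?_)
    change ((volume : Measure Space3).prod (volume : Measure Space3)) _ = 0
    rw [Measure.prod_prod, measure_singleton, zero_mul]
  have h3 : (lineV T) (Prod.fst ⁻¹' N) = 0 := by
    unfold lineV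
    rw [Measure.measure_prod_null (measurable_fst hNm)]
    filter_upwards [measure_eq_zero_iff_ae_notMem.1 h1] with p hp
    have : Prod.mk p ⁻¹' (Prod.fst ⁻¹' N : Set ML) = ∅ := by
      ext k
      simp only [mem_preimage, mem_empty_iff_false, iff_false]
      exact hp
    rw [this, measure_empty]
    rfl
  filter_upwards [measure_eq_zero_iff_ae_notMem.1 h3] with l hl
  have h4 : l.1 ∉ N := hl
  simp only [hN, mem_ofPred_eq, not_or, not_not, not_exists] at h4
  exact ⟨⟨h4.1.1, h4.1.2⟩, h4.2⟩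

theorem ae_lineM (hΦ : AdmissiblePotential Φ) (hε : 0 < ε) {n : ℕ} (w : Config n) (γ : ℝ → ℝ)
    (ρ : ℝ≥0∞) (K : ℕ) (T : ℝ) :
    ∀ᵐ l ∂(lineM γ ρ K T), ((0 < l.1.1 ∧ l.1.1 ≤ T) ∧ ∀ i, (flow Φ ε l.1.1 w i).1 ≠ l.1.2.1) ∧
      1 ≤ l.2 ∧ l.2 ≤ K := by
  have h0 : ∀ᵐ l ∂(lineM γ ρ K T),
      (0 < l.1.1 ∧ l.1.1 ≤ T) ∧ ∀ i, (flow Φ ε l.1.1 w i).1 ≠ l.1.2.1 :=
    (withDensity_absolutelyContinuous _ _).ae_le (ae_lineV hΦ hε w T)
  have hS : MeasurableSet {l : ML | ¬ (1 ≤ l.2 ∧ l.2 ≤ K)} :=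
    measurable_snd (MeasurableSet.of_discrete (s := {k : ℕ | ¬ (1 ≤ k ∧ k ≤ K)}))
  have h1 : lineM γ ρ K T {l : ML | ¬ (1 ≤ l.2 ∧ l.2 ≤ K)} = 0 := by
    unfold lineM
    rw [withDensity_apply _ hS, setLIntegral_congr_fun hS (g := fun _ => 0)]
    · simp
    · intro l hl
      have hl' : ¬ (1 ≤ l.2 ∧ l.2 ≤ K) := hl
      simp only [lineD, markW, if_neg hl', mul_zero]
  filter_upwards [h0, measure_eq_zero_iff_ae_notMem.1 h1] with l hl0 hl
  refine ⟨hl0, ?_⟩
  by_contra h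
  exact hl h

/-- **The quenched touched measure is bounded by the energy**, uniformly. -/
theorem lineM_theta_le (hΦ : AdmissiblePotential Φ) (hε : 0 < ε) (hε1 : ε ≤ 1) {n : ℕ}
    {w : Config n} (hw : w ∈ PairExcluded ε n) {T : ℝ} (hT : 0 ≤ T) {γ₀ : ℝ} {γ : ℝ → ℝ}
    (hγm : Measurable γ) (hγ : ∀ τ ∈ Ioc 0 T, γ₀ ≤ γ τ) (ρ : ℝ≥0∞) {s : ℝ} (hs : s ≤ T) :
    lineM γ ρ K T {l | (MW.cfg w).thetaL Φ ε K T l ≤ s} ≤ cX γ₀ ρ T * Yf Φ ε w := by
  refine le_trans (measure_mono_ae ?_) (lineM_hit_le (K := K) hΦ hε hε1 hw hγm hγ ρ)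
  filter_upwards [ae_lineM hΦ hε w γ ρ K T] with l hl hθ
  have hθ' : (MW.cfg w).thetaL Φ ε K T l ≤ s := hθ
  obtain ⟨s', hs', h1, i, h2⟩ := hit_of_theta_le hΦ hε hw hT hl.1.1.1 hl.2.2 hl.1.2 (hθ'.trans hs)
  exact ⟨s', ⟨hs'.1, hs'.2.trans (hθ'.trans hs)⟩, h1, i, h2⟩

theorem X_le (hΦ : AdmissiblePotential Φ) (hε : 0 < ε) (hε1 : ε ≤ 1) {n : ℕ}
    {w : Config n} (hw : w ∈ PairExcluded ε n) {P : EPar} (hte : 0 ≤ P.te) {γ₀ : ℝ}
    (hγm : Measurable P.γ) (hγ : ∀ τ ∈ Ioc 0 P.te, γ₀ ≤ P.γ τ) {s : ℝ} (hs : s ≤ P.te) :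
    (MW.cfg w).X Φ ε K P s ≤ cX γ₀ P.ρ P.te * Yf Φ ε w :=
  lineM_theta_le hΦ hε hε1 hw hte hγm hγ P.ρ hs

end

end Crest.Agent.R122.Unw410
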