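import Mathlib
import Crest.Prelude.Def_KineticLimit
import Crest.Agent.R122.PWPast_365
import Crest.Agent.R122.PWInst2_442
import Crest.Agent.R122.HitOf_45
import Crest.Agent.R122.LN2Birth_473
import Crest.Agent.R122.UnwE_410

/-!
# Row 122, LN1 (helper365): clean births (`CleanB` of `PWPast_365`)

* `cleanB_gas` : a derived world without exits.
* `cleanB_ins` : one exit (world `Z.ins a`, `Z` gas).
* `cleanB_ins2` : two exits (world `(Z.ins d).ins a`, `Z` gas), from `NoB` : no gas particle of `Z`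
  within `ε` of the birth point of the first born exit at its birth.
* `noB_cfg`, `noB_of_flow` : `NoB` from the birth events of helper473 and helper664.
-/

set_option autoImplicit false
set_option linter.unusedSectionVars false

open MeasureTheory Set Filter Topology
open scoped NNReal ENNReal
open Crest.AnalysisR.Kinetic
open Crest.Agent.R122.Flow671 Crest.Agent.R122.Loc45 Crest.Agent.R122.Ins45
open Crest.Agent.R122.VL581 Crest.Agent.R122.VL581.VSys Crest.Agent.R122.VLInst442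
open Crest.Agent.R122.LNInst491 Crest.Agent.R122.LN304 Crest.Agent.R122.LNg410
open Crest.Agent.R122.Causal291 Crest.Agent.R122.EDefs602
open Crest.Agent.R122.PWGlue491 Crest.Agent.R122.Inf879 Crest.Agent.R122.PWInst442
open scoped Classical

noncomputable section

namespace Crest.Agent.R122.PW365

variable {J κ ι : Type} [Fintype J] [Fintype ι] {M : VSys J κ} {Zc : J → PhasePoint}
  {Sp : J → Finset J}

/-- Nobody of the world `Z` is within `ε` of the birth point of the line `l` at its birth. -/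
def NoB (Φ : Space3 → ℝ) (ε : ℝ) (Z : MW ι) (l : ML) : Prop :=
  ∀ i, ε < dist (Z.path Φ ε l.1.1 i).1 l.1.2.1

/-- **Clean births** without exits. -/
theorem cleanB_gas {W : MW ι} {f : ι ↪ J}
    (H : GD M Zc Sp (bD W f) (labs f) (XD W f M.Φ M.ε)) (hg : ∀ i, Sp (f i) = ∅) (u : ℝ) :
    CleanB M Zc Sp (bD W f) (labs f) (XD W f M.Φ M.ε) u := by
  refine cleanB_of H ?_ ?_
  · intro y hy _ e _ hey
    obtain ⟨i, rfl⟩ := (mem_labs f).1 hy
    rw [hg i] at hey
    exact absurd hey (Finset.notMem_empty e)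
  · intro i hi hne
    obtain ⟨i, rfl⟩ := (mem_labs f).1 hi
    rw [hg i] at hne
    exact absurd hne Finset.not_nonempty_empty

/-- **Clean births** with one exit. -/
theorem cleanB_ins {Z : MW ι} {a : ML} {f : ι ⊕ Unit ↪ J}
    (H : GD M Zc Sp (bD (Z.ins a) f) (labs f) (XD (Z.ins a) f M.Φ M.ε))
    (hg : ∀ i, Sp (f (Sum.inl i)) = ∅) (hb : ∀ i, Z.b i ≤ 0) (u : ℝ) :
    CleanB M Zc Sp (bD (Z.ins a) f) (labs f) (XD (Z.ins a) f M.Φ M.ε) u := by
  have huniq : ∀ j ∈ labs f, (Sp j).Nonempty → j = f (Sum.inr ()) := by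
    intro j hj hne
    obtain ⟨i | i, rfl⟩ := (mem_labs f).1 hj
    · rw [hg i] at hne
      exact absurd hne Finset.not_nonempty_empty
    · rfl
  refine cleanB_of H ?_ ?_
  · intro y hy _ e he hey hne
    have h1 := huniq y hy ⟨e, hey⟩
    have h2 := huniq e he (H.nonempty hey)
    exact absurd (h2.trans h1.symm) hne
  · intro i hi hne _ hpos j hj hij hbb
    exfalso
    have h1 := huniq i hi hne
    obtain ⟨j | j, rfl⟩ := (mem_labs f).1 hj
    · rw [bD_apply] at hbb
      have h3 : (Z.ins a).b (Sum.inl j) = Z.b j := rfl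
      rw [h3] at hbb
      exact absurd (hbb ▸ hpos) (not_lt.2 (hb j))
    · exact hij (by rw [h1])

section two

variable {Z : MW ι} {d a : ML} {f : (ι ⊕ Unit) ⊕ Unit ↪ J}

/-- Before its birth a line has no influence. -/
theorem path_before {Φ : Space3 → ℝ} {ε : ℝ} (hΦ : AdmissiblePotential Φ) (hε : 0 < ε)
    {Z : MW ι} {l : ML} (hZ : Z.Ok Φ ε) (hZl : (Z.ins l).Ok Φ ε) {t : ℝ} (h0 : 0 ≤ t)
    (ht : t ≤ l.1.1) (k : ι) : (Z.ins l).path Φ ε t (Sum.inl k) = Z.path Φ ε t k :=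
  (Ins45.FreeFar.path_ins (Z := Z) (l := l) (s := l.1.1)
    (fun _ _ h1 h2 _ => absurd h1 (not_le.2 h2)) hΦ hε hZ hZl ⟨h0, ht⟩).2 k

/-- A line is born at its birth point. -/
theorem path_self_birth {Φ : Space3 → ℝ} {ε : ℝ} (hΦ : AdmissiblePotential Φ) (hε : 0 < ε)
    {Z : MW ι} {l : ML} (h0 : 0 ≤ l.1.1) :
    ((Z.ins l).path Φ ε l.1.1 (Sum.inr ())).1 = l.1.2.1 := by
  have h1 : (Z.ins l).b (Sum.inr ()) = l.1.1 := rfl
  rw [path_birth hΦ hε (Z.ins l) h0 h1.ge]
  change l.1.2.1 - l.1.1 • l.1.2.2 + l.1.1 • l.1.2.2 = l.1.2.1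
  abel

/-- **Clean births** with two exits. -/
theorem cleanB_ins2
    (H : GD M Zc Sp (bD ((Z.ins d).ins a) f) (labs f) (XD ((Z.ins d).ins a) f M.Φ M.ε))
    (hΦ : AdmissiblePotential M.Φ) (hε : 0 < M.ε) (hZ : Z.Ok M.Φ M.ε)
    (hd : (Z.ins d).Ok M.Φ M.ε) (hda : ((Z.ins d).ins a).Ok M.Φ M.ε)
    (hg : ∀ i, Sp (f (Sum.inl (Sum.inl i))) = ∅) (hb : ∀ i, Z.b i ≤ 0) {u : ℝ}
    (hBd : f (Sum.inr ()) ∈ Sp (f (Sum.inl (Sum.inr ()))) → d.1.1 ≤ a.1.1 → d.1.1 ≤ u →
      NoB M.Φ M.ε Z d)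
    (hBa : f (Sum.inr ()) ∈ Sp (f (Sum.inl (Sum.inr ()))) → a.1.1 ≤ d.1.1 → a.1.1 ≤ u →
      NoB M.Φ M.ε Z a)
    (hne : d.1.1 = a.1.1 → d.1.1 ≤ u → f (Sum.inr ()) ∈ Sp (f (Sum.inl (Sum.inr ()))) ∨
      M.ε < dist d.1.2.1 a.1.2.1) :
    CleanB M Zc Sp (bD ((Z.ins d).ins a) f) (labs f) (XD ((Z.ins d).ins a) f M.Φ M.ε) u := by
  set W : MW ((ι ⊕ Unit) ⊕ Unit) := (Z.ins d).ins a with hW
  set D : J := f (Sum.inl (Sum.inr ())) with hD
  set A : J := f (Sum.inr ()) with hA
  have hWd : W.b (Sum.inl (Sum.inr ())) = d.1.1 := rfl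
  have hWa : W.b (Sum.inr ()) = a.1.1 := rfl
  have hbD : bD W f D = d.1.1 := by rw [hD, bD_apply, hWd]
  have hbA : bD W f A = a.1.1 := by rw [hA, bD_apply, hWa]
  have hd0 : 0 ≤ d.1.1 := by
    rw [← hbD]
    exact (bb_nonneg M D).trans (H.bb_le D (mem_labs_self f _))
  have ha0 : 0 ≤ a.1.1 := by
    rw [← hbA]
    exact (bb_nonneg M A).trans (H.bb_le A (mem_labs_self f _))
  have huniq : ∀ j ∈ labs f, (Sp j).Nonempty → j = D ∨ j = A := by
    intro j hj hne
    obtain ⟨(i | i) | i, rfl⟩ := (mem_labs f).1 hj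
    · rw [hg i] at hne
      exact absurd hne Finset.not_nonempty_empty
    · exact Or.inl rfl
    · exact Or.inr rfl
  -- the states at the first birth
  have hpd : (W.path M.Φ M.ε d.1.1 (Sum.inl (Sum.inr ()))).1 = d.1.2.1 ∨ ¬ d.1.1 ≤ a.1.1 := by
    by_cases hle : d.1.1 ≤ a.1.1
    · left
      rw [hW, path_before hΦ hε hd hda hd0 hle, path_self_birth hΦ hε hd0]
    · exact Or.inr hle
  have hpa : (W.path M.Φ M.ε a.1.1 (Sum.inr ())).1 = a.1.2.1 := path_self_birth hΦ hε ha0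
  have hgd : ∀ i, d.1.1 ≤ a.1.1 →
      W.path M.Φ M.ε d.1.1 (Sum.inl (Sum.inl i)) = Z.path M.Φ M.ε d.1.1 i := by
    intro i hle
    rw [hW, path_before hΦ hε hd hda hd0 hle, path_before hΦ hε hZ hd hd0 le_rfl]
  have hga : ∀ i, a.1.1 ≤ d.1.1 →
      W.path M.Φ M.ε a.1.1 (Sum.inl (Sum.inl i)) = Z.path M.Φ M.ε a.1.1 i := by
    intro i hle
    rw [hW, path_before hΦ hε hd hda ha0 le_rfl, path_before hΦ hε hZ hd ha0 hle]
  refine cleanB_of H ?_ ?_
  · intro y hy hyu e he hey hne' hle j hj hC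
    obtain ⟨-, hjA, h1, h2, h3, h4⟩ := hC
    have h3' : bD W f j < bD W f y := by
      rcases h3 with h3 | h3 | h3
      · exact absurd h3.symm hj
      · exact absurd h3 (lt_irrefl _)
      · exact h3
    have hey' := H.symm_mem hey
    rcases huniq y hy ⟨e, hey⟩ with rfl | rfl
    · -- `y = D`, `e = A`
      have heA : e = A := (huniq e he (H.nonempty hey)).resolve_left hne'
      rw [heA] at hey hle
      rw [hbD] at h3' h4 hle hyu
      rw [hbA] at hle
      obtain ⟨(i | i) | i, rfl⟩ := (mem_labs f).1 hjA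
      · rw [hD, XD_apply, XD_apply, hgd i hle] at h4
        rw [hpd.resolve_right (not_not.2 hle)] at h4
        have h5 := hBd hey hle hyu i
        rw [dist_comm] at h5
        exact absurd h4 (not_le.2 h5)
      · exact hj rfl
      · rw [bD_apply, hWa] at h3'
        exact absurd h3' (not_lt.2 hle)
    · -- `y = A`, `e = D`
      have heD : e = D := (huniq e he (H.nonempty hey)).resolve_right hne'
      rw [heD] at hey hle
      have hAD : A ∈ Sp D := H.symm_mem hey
      rw [hbA] at h3' h4 hle hyu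
      rw [hbD] at hle
      obtain ⟨(i | i) | i, rfl⟩ := (mem_labs f).1 hjA
      · rw [hA, XD_apply, XD_apply, hga i hle] at h4
        rw [hpa] at h4
        have h5 := hBa hAD hle hyu i
        rw [dist_comm] at h5
        exact absurd h4 (not_le.2 h5)
      · rw [bD_apply, hWd] at h3'
        exact absurd h3' (not_lt.2 hle)
      · exact hj rfl
  · intro i hi hnei hiu hpos j hj hij hbb hS
    have key : ∀ k : ι, f (Sum.inl (Sum.inl k)) = j → False := by
      rintro k rfl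
      rw [bD_apply] at hbb
      have h3 : W.b (Sum.inl (Sum.inl k)) = Z.b k := rfl
      rw [h3] at hbb
      exact absurd (hbb ▸ hpos) (not_lt.2 (hb k))
    rcases huniq i hi hnei with rfl | rfl
    · obtain ⟨(k | k) | k, rfl⟩ := (mem_labs f).1 hj
      · exact absurd rfl (key k)
      · exact absurd rfl hij
      · have h1 : d.1.1 = a.1.1 := by
          rw [← hbD, ← hbA]
          exact hbb
        rw [hbD] at hiu ⊢
        have h2 := (hne h1 hiu).resolve_left hS
        rw [hD, XD_apply, XD_apply, hpd.resolve_right (not_not.2 h1.le)]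
        have h3 : (W.path M.Φ M.ε d.1.1 (Sum.inr k)).1 = a.1.2.1 := by
          rw [h1]
          exact hpa
        rw [h3]
        exact h2
    · obtain ⟨(k | k) | k, rfl⟩ := (mem_labs f).1 hj
      · exact absurd rfl (key k)
      · have h1 : a.1.1 = d.1.1 := by
          rw [← hbD, ← hbA]
          exact hbb
        rw [hbA, h1] at hiu
        rw [hbA]
        have h2 := (hne h1.symm hiu).resolve_left fun h => hS (H.symm_mem h)
        rw [hA, XD_apply, XD_apply, hpa]
        have h3 : (W.path M.Φ M.ε a.1.1 (Sum.inl (Sum.inr k))).1 = d.1.2.1 := by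
          rw [h1]
          exact hpd.resolve_right (not_not.2 h1.ge)
        rw [h3, dist_comm]
        exact h2
      · exact absurd rfl hij

end two

/-! ### `NoB` from the birth events -/

section cfg

variable {Φ : Space3 → ℝ} {ε : ℝ} {n : ℕ} {w : Config n} {l : ML}

/-- helper473's event. -/
theorem noB_cfg (h : ¬ LN2.Birth Φ ε 1 w l.1.1 l.1.2.1) : NoB Φ ε (MW.cfg w) l := by
  intro i
  by_contra hcon
  refine h ⟨i, ?_⟩
  rw [one_mul]
  exact not_lt.1 hcon

/-- The event in terms of the flow (helper664's `Birth0`). -/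
theorem noB_of_flow (hΦ : AdmissiblePotential Φ) (hε : 0 < ε) (hw : w ∈ PairExcluded ε n)
    (h0 : 0 ≤ l.1.1) (h : ¬ ∃ i, dist l.1.2.1 (flow Φ ε l.1.1 w i).1 ≤ ε) :
    NoB Φ ε (MW.cfg w) l := by
  intro i
  by_contra hcon
  refine h ⟨i, ?_⟩
  rw [← Unw410.path_cfg hΦ hε hw h0, dist_comm]
  exact not_lt.1 hcon

end cfg

end Crest.Agent.R122.PW365

end
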