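import Mathlib
import Crest.Agent.R122.EDefs_602

/-!
# Algebra of marked worlds (row 122, block A8): relabelling

`path`, contacts, infection, influence, touches and touch times of a relabelled world.
Everything is unconditional (no regularity of the worlds is needed).
-/

set_option autoImplicit false
set_option linter.unusedSectionVars false

open MeasureTheory Set Filter Topology
open scoped ENNReal
open Crest.AnalysisR.Kinetic
open Crest.Agent.R122.Flow671 Crest.Agent.R122.Loc45 Crest.Agent.R122.Ins45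
open Crest.Agent.R122.Causal291 (Past BC)
open Crest.Agent.R122.Inf879 Crest.Agent.R122.EDefs602

namespace Crest.Agent.R122.MWAlg255

noncomputable section

/-! ### Relabelling of the evolution -/

section evo

variable {Φ : Space3 → ℝ} {ε : ℝ} {ι κ : Type} [Fintype ι] [Fintype κ]

theorem flowA_equiv (hΦ : AdmissiblePotential Φ) (hε : 0 < ε) (e : ι ≃ κ) (A : Finset κ)
    (B : Finset ι) (hB : ∀ i, i ∈ B ↔ e i ∈ A) (t : ℝ) (Z : κ → PhasePoint) :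
    flowA Φ ε B t (fun i => Z (e i)) = fun i => flowA Φ ε A t Z (e i) := by
  funext i
  by_cases h : i ∈ B
  · rw [flowA_mem B t _ h, flowA_mem A t Z ((hB i).1 h)]
    have h1 := flow_equiv hΦ hε (e.subtypeEquiv hB : B ≃ A) t (fun a : A => Z a)
    exact congrFun h1 ⟨i, h⟩
  · rw [flowA_not_mem B t _ h, flowA_not_mem A t Z (fun h' => h ((hB i).2 h'))]

theorem nxt_equiv (e : ι ≃ κ) (b : κ → ℝ) (s t : ℝ) :
    nxt (fun i => b (e i)) s t = nxt b s t := by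
  refine le_antisymm (le_nxt (nxt_le _ _ _) fun j hj => ?_)
    (le_nxt (nxt_le _ _ _) fun i hi => nxt_le_birth hi)
  have h1 : s < b (e (e.symm j)) := by rwa [e.apply_symm_apply]
  have h2 := nxt_le_birth (b := fun i => b (e i)) (s := s) (t := t) h1
  rwa [e.apply_symm_apply] at h2

theorem evoN_equiv (hΦ : AdmissiblePotential Φ) (hε : 0 < ε) (e : ι ≃ κ) (b : κ → ℝ) :
    ∀ (n : ℕ) (s t : ℝ) (Z : κ → PhasePoint),
      evoN Φ ε (fun i => b (e i)) n s t (fun i => Z (e i)) = fun i => evoN Φ ε b n s t Z (e i) := by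
  intro n
  induction n with
  | zero =>
    intro s t Z
    exact flowA_equiv hΦ hε e _ _ (fun i => by simp) _ _
  | succ n ih =>
    intro s t Z
    simp only [evoN, nxt_equiv]
    split_ifs with h
    · rw [flowA_equiv hΦ hε e (alive b s) _ (fun i => by simp) _ Z]
      exact ih _ _ _
    · exact flowA_equiv hΦ hε e _ _ (fun i => by simp) _ _

theorem evo_equiv (hΦ : AdmissiblePotential Φ) (hε : 0 < ε) (e : ι ≃ κ) (b : κ → ℝ) (s t : ℝ)
    (Z : κ → PhasePoint) :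
    evo Φ ε (fun i => b (e i)) s t (fun i => Z (e i)) = fun i => evo Φ ε b s t Z (e i) := by
  unfold evo
  rw [Fintype.card_congr e]
  exact evoN_equiv hΦ hε e b _ s t Z

end evo

/-! ### Relabelling of influences and touches (abstract) -/

section relabel

variable {ι₁ ι₂ κ ι₁' ι₂' κ' : Type} {X : Type*}
variable {C₁ : ℝ → ι₁ → ι₁ → Prop} {C₂ : ℝ → ι₂ → ι₂ → Prop}
variable {z₁ : ℝ → ι₁ → X} {z₂ : ℝ → ι₂ → X} {e₁ : κ → ι₁} {e₂ : κ → ι₂}
variable {C₁' : ℝ → ι₁' → ι₁' → Prop} {C₂' : ℝ → ι₂' → ι₂' → Prop}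
variable {z₁' : ℝ → ι₁' → X} {z₂' : ℝ → ι₂' → X} {e₁' : κ' → ι₁'} {e₂' : κ' → ι₂'}

/-- Two pairs of worlds which differ by a relabelling. -/
structure Rel (C₁ : ℝ → ι₁ → ι₁ → Prop) (z₁ : ℝ → ι₁ → X) (C₂ : ℝ → ι₂ → ι₂ → Prop)
    (z₂ : ℝ → ι₂ → X) (e₁ : κ → ι₁) (e₂ : κ → ι₂) (C₁' : ℝ → ι₁' → ι₁' → Prop)
    (z₁' : ℝ → ι₁' → X) (C₂' : ℝ → ι₂' → ι₂' → Prop) (z₂' : ℝ → ι₂' → X) (e₁' : κ' → ι₁')
    (e₂' : κ' → ι₂') (a : κ' ≃ κ) (a₁ : ι₁' ≃ ι₁) (a₂ : ι₂' ≃ ι₂) : Prop where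
  c₁ : ∀ s j k, C₁' s j k ↔ C₁ s (a₁ j) (a₁ k)
  c₂ : ∀ s j k, C₂' s j k ↔ C₂ s (a₂ j) (a₂ k)
  s₁ : ∀ s j, z₁' s j = z₁ s (a₁ j)
  s₂ : ∀ s j, z₂' s j = z₂ s (a₂ j)
  m₁ : ∀ k, a₁ (e₁' k) = e₁ (a k)
  m₂ : ∀ k, a₂ (e₂' k) = e₂ (a k)

variable {a : κ' ≃ κ} {a₁ : ι₁' ≃ ι₁} {a₂ : ι₂' ≃ ι₂}

theorem Rel.symm (h : Rel C₁ z₁ C₂ z₂ e₁ e₂ C₁' z₁' C₂' z₂' e₁' e₂' a a₁ a₂) :
    Rel C₁' z₁' C₂' z₂' e₁' e₂' C₁ z₁ C₂ z₂ e₁ e₂ a.symm a₁.symm a₂.symm where
  c₁ s j k := by rw [h.c₁, a₁.apply_symm_apply, a₁.apply_symm_apply]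
  c₂ s j k := by rw [h.c₂, a₂.apply_symm_apply, a₂.apply_symm_apply]
  s₁ s j := by rw [h.s₁, a₁.apply_symm_apply]
  s₂ s j := by rw [h.s₂, a₂.apply_symm_apply]
  m₁ k := by rw [a₁.symm_apply_eq, h.m₁, a.apply_symm_apply]
  m₂ k := by rw [a₂.symm_apply_eq, h.m₂, a.apply_symm_apply]

theorem Rel.range₁ (h : Rel C₁ z₁ C₂ z₂ e₁ e₂ C₁' z₁' C₂' z₂' e₁' e₂' a a₁ a₂) {j : ι₁'} :
    a₁ j ∈ range e₁ ↔ j ∈ range e₁' := by
  constructor
  · rintro ⟨k, hk⟩
    refine ⟨a.symm k, a₁.injective ?_⟩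
    rw [h.m₁, a.apply_symm_apply, hk]
  · rintro ⟨k, rfl⟩
    exact ⟨a k, (h.m₁ k).symm⟩

theorem Rel.range₂ (h : Rel C₁ z₁ C₂ z₂ e₁ e₂ C₁' z₁' C₂' z₂' e₁' e₂' a a₁ a₂) {j : ι₂'} :
    a₂ j ∈ range e₂ ↔ j ∈ range e₂' := by
  constructor
  · rintro ⟨k, hk⟩
    refine ⟨a.symm k, a₂.injective ?_⟩
    rw [h.m₂, a.apply_symm_apply, hk]
  · rintro ⟨k, rfl⟩
    exact ⟨a k, (h.m₂ k).symm⟩

theorem Rel.fut_mp (h : Rel C₁ z₁ C₂ z₂ e₁ e₂ C₁' z₁' C₂' z₂' e₁' e₂' a a₁ a₂) {s : ℝ} {k : κ'}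
    (hk : CausalGen291.Fut C₁' z₁' C₂' z₂' e₁' e₂' s k) :
    CausalGen291.Fut C₁ z₁ C₂ z₂ e₁ e₂ s (a k) := by
  induction hk with
  | @init s k hz h0 =>
    refine .init ?_ h0
    rw [h.s₁, h.s₂, h.m₁, h.m₂] at hz
    exact hz
  | @new₁ s s' k j hj hc h0 hs =>
    refine .new₁ (a₁ j) (fun h' => hj (h.range₁.1 h')) ?_ h0 hs
    rw [h.c₁, h.m₁] at hc
    exact hc
  | @new₂ s s' k j hj hc h0 hs =>
    refine .new₂ (a₂ j) (fun h' => hj (h.range₂.1 h')) ?_ h0 hs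
    rw [h.c₂, h.m₂] at hc
    exact hc
  | @chain₁ s s' k l _ hc hs ih =>
    refine .chain₁ ih ?_ hs
    rw [h.c₁, h.m₁, h.m₁] at hc
    exact hc
  | @chain₂ s s' k l _ hc hs ih =>
    refine .chain₂ ih ?_ hs
    rw [h.c₂, h.m₂, h.m₂] at hc
    exact hc

theorem Rel.fut_iff (h : Rel C₁ z₁ C₂ z₂ e₁ e₂ C₁' z₁' C₂' z₂' e₁' e₂' a a₁ a₂) {s : ℝ} {k : κ'} :
    CausalGen291.Fut C₁' z₁' C₂' z₂' e₁' e₂' s k ↔
      CausalGen291.Fut C₁ z₁ C₂ z₂ e₁ e₂ s (a k) := by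
  refine ⟨h.fut_mp, fun hk => ?_⟩
  have := h.symm.fut_mp hk
  rwa [a.symm_apply_apply] at this

variable {P₁ : ℝ → ι₁ → Prop} {P₂ : ℝ → ι₂ → Prop} {P₁' : ℝ → ι₁' → Prop} {P₂' : ℝ → ι₂' → Prop}

theorem Rel.touched_iff (h : Rel C₁ z₁ C₂ z₂ e₁ e₂ C₁' z₁' C₂' z₂' e₁' e₂' a a₁ a₂) {s : ℝ}
    (hP₁ : ∀ j, P₁' s j ↔ P₁ s (a₁ j)) (hP₂ : ∀ j, P₂' s j ↔ P₂ s (a₂ j)) :
    CausalGen291.Touched C₁' z₁' C₂' z₂' e₁' e₂' P₁' P₂' s ↔
      CausalGen291.Touched C₁ z₁ C₂ z₂ e₁ e₂ P₁ P₂ s := by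
  unfold CausalGen291.Touched
  constructor
  · rintro (⟨k, hk, hP⟩ | ⟨j, hj, hP⟩ | ⟨j, hj, hP⟩)
    · refine Or.inl ⟨a k, h.fut_iff.1 hk, ?_⟩
      rw [hP₁, hP₂, h.m₁, h.m₂] at hP
      exact hP
    · exact Or.inr (Or.inl ⟨a₁ j, fun h' => hj (h.range₁.1 h'), (hP₁ j).1 hP⟩)
    · exact Or.inr (Or.inr ⟨a₂ j, fun h' => hj (h.range₂.1 h'), (hP₂ j).1 hP⟩)
  · rintro (⟨k, hk, hP⟩ | ⟨j, hj, hP⟩ | ⟨j, hj, hP⟩)
    · refine Or.inl ⟨a.symm k, h.fut_iff.2 (by rwa [a.apply_symm_apply]), ?_⟩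
      rw [hP₁, hP₂, h.m₁, h.m₂, a.apply_symm_apply]
      exact hP
    · refine Or.inr (Or.inl ⟨a₁.symm j, fun h' => hj ?_, ?_⟩)
      · have := h.range₁.2 h'
        rwa [a₁.apply_symm_apply] at this
      · rw [hP₁, a₁.apply_symm_apply]
        exact hP
    · refine Or.inr (Or.inr ⟨a₂.symm j, fun h' => hj ?_, ?_⟩)
      · have := h.range₂.2 h'
        rwa [a₂.apply_symm_apply] at this
      · rw [hP₂, a₂.apply_symm_apply]
        exact hP

theorem Rel.theta_eq (h : Rel C₁ z₁ C₂ z₂ e₁ e₂ C₁' z₁' C₂' z₂' e₁' e₂' a a₁ a₂) {t₀ T : ℝ}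
    (hP₁ : ∀ s j, P₁' s j ↔ P₁ s (a₁ j)) (hP₂ : ∀ s j, P₂' s j ↔ P₂ s (a₂ j)) :
    CausalGen291.theta C₁' z₁' C₂' z₂' e₁' e₂' t₀ T P₁' P₂' =
      CausalGen291.theta C₁ z₁ C₂ z₂ e₁ e₂ t₀ T P₁ P₂ :=
  le_antisymm
    (CausalGen291.theta_le_theta fun s _ hs => (h.touched_iff (hP₁ s) (hP₂ s)).2 hs)
    (CausalGen291.theta_le_theta fun s _ hs => (h.touched_iff (hP₁ s) (hP₂ s)).1 hs)

end relabel

/-! ### Relabelling of marked worlds -/

section mw

variable {Φ : Space3 → ℝ} {ε : ℝ} {ι κ ι' κ' μ : Type}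
variable [Fintype ι] [Fintype κ] [Fintype ι'] [Fintype κ'] [Fintype μ]

theorem path_comap (hΦ : AdmissiblePotential Φ) (hε : 0 < ε) (Z : MW ι) (e : ι' ≃ ι) (t : ℝ)
    (i : ι') : (Z.comap e).path Φ ε t i = Z.path Φ ε t (e i) :=
  congrFun (evo_equiv hΦ hε e Z.b 0 t Z.z) i

theorem C_comap (hΦ : AdmissiblePotential Φ) (hε : 0 < ε) (Z : MW ι) (e : ι' ≃ ι) (s : ℝ)
    (j k : ι') : (Z.comap e).C Φ ε s j k ↔ Z.C Φ ε s (e j) (e k) := by
  unfold MW.C CtB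
  rw [path_comap hΦ hε, path_comap hΦ hε]
  simp only [MW.comap, e.injective.eq_iff]

theorem past_congr_rel {C C' : ℝ → ι → ι → Prop} (h : ∀ s j k, C' s j k ↔ C s j k) {t s : ℝ}
    {i k : ι} : Past C' t i s k ↔ Past C t i s k :=
  ⟨fun h' => h'.mono_rel fun s j k => (h s j k).1, fun h' => h'.mono_rel fun s j k => (h s j k).2⟩

theorem infd_relabel {C : ℝ → ι → ι → Prop} {C' : ℝ → ι' → ι' → Prop} (e : ι' ≃ ι)
    (h : ∀ s j k, C' s j k ↔ C s (e j) (e k)) (m : ι → ℕ) (K : ℕ) (t : ℝ) (i : ι') :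
    Infd C' (fun k => m (e k)) K t i ↔ Infd C m K t (e i) := by
  classical
  have h1 : ∀ k, k ∈ BC C' t i ↔ e k ∈ BC C t (e i) := fun k =>
    (past_congr_rel h).trans (Causal291.past_equiv C e)
  unfold Infd msize
  have h2 : (∑ k, if k ∈ BC C' t i then m (e k) else 0) =
      ∑ k, if k ∈ BC C t (e i) then m k else 0 := by
    refine Fintype.sum_equiv e _ _ fun k => ?_
    by_cases hk : k ∈ BC C' t i
    · rw [if_pos hk, if_pos ((h1 k).1 hk)]
    · rw [if_neg hk, if_neg fun h' => hk ((h1 k).2 h')]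
  rw [h2]

theorem Inf_comap (hΦ : AdmissiblePotential Φ) (hε : 0 < ε) (K : ℕ) (Z : MW ι) (e : ι' ≃ ι)
    (t : ℝ) (i : ι') : (Z.comap e).Inf Φ ε K t i ↔ Z.Inf Φ ε K t (e i) :=
  infd_relabel e (C_comap hΦ hε Z e) Z.m K t i

omit [Fintype ι] [Fintype κ] [Fintype ι'] [Fintype κ'] in
theorem add_comap (Z : MW ι) (A : MW κ) (e : ι' ≃ ι) (f : κ' ≃ κ) :
    (Z.comap e).add (A.comap f) = (Z.add A).comap (Equiv.sumCongr e f) := by
  unfold MW.add MW.comap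
  congr 1 <;> · funext x; cases x <;> rfl

theorem rel_comap (hΦ : AdmissiblePotential Φ) (hε : 0 < ε) (Z : MW ι) (A : MW κ) (e : ι' ≃ ι)
    (f : κ' ≃ κ) :
    Rel (Z.C Φ ε) (Z.path Φ ε) ((Z.add A).C Φ ε) ((Z.add A).path Φ ε) id Sum.inl
      ((Z.comap e).C Φ ε) ((Z.comap e).path Φ ε) (((Z.comap e).add (A.comap f)).C Φ ε)
      (((Z.comap e).add (A.comap f)).path Φ ε) id Sum.inl e e (Equiv.sumCongr e f) where
  c₁ := C_comap hΦ hε Z e
  c₂ s j k := by rw [add_comap]; exact C_comap hΦ hε (Z.add A) (Equiv.sumCongr e f) s j k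
  s₁ := path_comap hΦ hε Z e
  s₂ s j := by rw [add_comap]; exact path_comap hΦ hε (Z.add A) (Equiv.sumCongr e f) s j
  m₁ _ := rfl
  m₂ _ := rfl

theorem Fut_comap (hΦ : AdmissiblePotential Φ) (hε : 0 < ε) (Z : MW ι) (A : MW κ) (e : ι' ≃ ι)
    (f : κ' ≃ κ) (s : ℝ) (k : ι') :
    (Z.comap e).Fut Φ ε (A.comap f) s k ↔ Z.Fut Φ ε A s (e k) :=
  (rel_comap hΦ hε Z A e f).fut_iff

theorem Touched_comap (hΦ : AdmissiblePotential Φ) (hε : 0 < ε) (K : ℕ) (Z : MW ι) (A : MW κ)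
    (e : ι' ≃ ι) (f : κ' ≃ κ) (s : ℝ) :
    (Z.comap e).Touched Φ ε K (A.comap f) s ↔ Z.Touched Φ ε K A s :=
  (rel_comap hΦ hε Z A e f).touched_iff (Inf_comap hΦ hε K Z e s) fun j => by
    rw [add_comap]; exact Inf_comap hΦ hε K (Z.add A) (Equiv.sumCongr e f) s j

/-- **Touch times do not depend on the labels.** -/
theorem theta_comap (hΦ : AdmissiblePotential Φ) (hε : 0 < ε) (K : ℕ) (T : ℝ) (Z : MW ι)
    (A : MW κ) (e : ι' ≃ ι) (f : κ' ≃ κ) :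
    (Z.comap e).theta Φ ε K T (A.comap f) = Z.theta Φ ε K T A :=
  (rel_comap hΦ hε Z A e f).theta_eq (Inf_comap hΦ hε K Z e) fun s j => by
    rw [add_comap]; exact Inf_comap hΦ hε K (Z.add A) (Equiv.sumCongr e f) s j

theorem theta_comap_right (hΦ : AdmissiblePotential Φ) (hε : 0 < ε) (K : ℕ) (T : ℝ) (Z : MW ι)
    (A : MW κ) (f : κ' ≃ κ) : Z.theta Φ ε K T (A.comap f) = Z.theta Φ ε K T A :=
  theta_comap hΦ hε K T Z A (Equiv.refl ι) f

theorem theta_comap_left (hΦ : AdmissiblePotential Φ) (hε : 0 < ε) (K : ℕ) (T : ℝ) (Z : MW ι)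
    (A : MW κ) (e : ι' ≃ ι) : (Z.comap e).theta Φ ε K T A = Z.theta Φ ε K T A :=
  theta_comap hΦ hε K T Z A e (Equiv.refl κ)

/-! ### Associativity, commutativity, families of lines -/

omit [Fintype ι] [Fintype κ] [Fintype μ] in
theorem add_assoc_comap (Z : MW ι) (A : MW κ) (B : MW μ) :
    (Z.add A).add B = (Z.add (A.add B)).comap (Equiv.sumAssoc ι κ μ) := by
  unfold MW.add MW.comap
  congr 1 <;> · funext x; rcases x with (x | x) | x <;> rfl

omit [Fintype ι] [Fintype κ] in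
theorem add_comm_comap (Z : MW ι) (A : MW κ) :
    Z.add A = (A.add Z).comap (Equiv.sumComm ι κ) := by
  unfold MW.add MW.comap
  congr 1 <;> · funext x; cases x <;> rfl

/-- `(Z + A) + B` and `(Z + B) + A`. -/
def swapRight (ι κ μ : Type) : (ι ⊕ κ) ⊕ μ ≃ (ι ⊕ μ) ⊕ κ :=
  ((Equiv.sumAssoc ι κ μ).trans (Equiv.sumCongr (Equiv.refl ι) (Equiv.sumComm κ μ))).trans
    (Equiv.sumAssoc ι μ κ).symm

omit [Fintype ι] [Fintype κ] [Fintype μ] in
theorem add_swap (Z : MW ι) (A : MW κ) (B : MW μ) :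
    (Z.add A).add B = ((Z.add B).add A).comap (swapRight ι κ μ) := by
  unfold MW.add MW.comap
  congr 1 <;> · funext x; rcases x with (x | x) | x <;> rfl

theorem theta_add_comm (hΦ : AdmissiblePotential Φ) (hε : 0 < ε) (K : ℕ) (T : ℝ) (Z : MW ι)
    (A : MW κ) (B : MW μ) : Z.theta Φ ε K T (A.add B) = Z.theta Φ ε K T (B.add A) := by
  rw [add_comm_comap A B]
  exact theta_comap_right hΦ hε K T Z (B.add A) (Equiv.sumComm κ μ)

theorem theta_base_assoc (hΦ : AdmissiblePotential Φ) (hε : 0 < ε) (K : ℕ) (T : ℝ) (Z : MW ι)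
    (A : MW κ) (B : MW μ) (D : MW κ') :
    ((Z.add A).add B).theta Φ ε K T D = (Z.add (A.add B)).theta Φ ε K T D := by
  rw [add_assoc_comap]
  exact theta_comap_left hΦ hε K T _ D (Equiv.sumAssoc ι κ μ)

theorem theta_base_swap (hΦ : AdmissiblePotential Φ) (hε : 0 < ε) (K : ℕ) (T : ℝ) (Z : MW ι)
    (A : MW κ) (B : MW μ) (D : MW κ') :
    ((Z.add A).add B).theta Φ ε K T D = ((Z.add B).add A).theta Φ ε K T D := by
  rw [add_swap]
  exact theta_comap_left hΦ hε K T _ D (swapRight ι κ μ)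

/-- Splitting one line off a family. -/
def splitOff {κ : Type} (k : κ) : {j : κ // j ≠ k} ⊕ Unit ≃ κ :=
  open scoped Classical in
  { toFun := Sum.elim (fun j => j.1) fun _ => k
    invFun := fun j => if h : j = k then Sum.inr () else Sum.inl ⟨j, h⟩
    left_inv := by
      rintro (⟨j, hj⟩ | u)
      · simp [hj]
      · simp
    right_inv := by
      intro j
      by_cases h : j = k
      · simp [h]
      · simp [h] }

omit [Fintype κ] in
theorem lines_splitOff (ls : κ → ML) (k : κ) :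
    (MW.lines ls).comap (splitOff k) =
      (MW.lines fun j : {j : κ // j ≠ k} => ls j).add (MW.line (ls k)) := by
  unfold MW.add MW.comap MW.line MW.lines
  congr 1 <;> · funext x; rcases x with x | x <;> rfl

/-- A family of lines is the family without the line `k`, plus the line `k`. -/
theorem theta_splitOff (hΦ : AdmissiblePotential Φ) (hε : 0 < ε) (K : ℕ) (T : ℝ) (Z : MW ι)
    (ls : κ → ML) (k : κ) [Fintype {j : κ // j ≠ k}] :
    Z.theta Φ ε K T (MW.lines ls) =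
      Z.theta Φ ε K T ((MW.lines fun j : {j : κ // j ≠ k} => ls j).add (MW.line (ls k))) := by
  rw [← lines_splitOff]
  exact (theta_comap_right hΦ hε K T Z (MW.lines ls) (splitOff k)).symm

omit [Fintype ι] [Fintype κ] in
theorem add_empty_comap [IsEmpty κ] (Z : MW ι) (A : MW κ) :
    Z.add A = Z.comap (Equiv.sumEmpty ι κ) := by
  unfold MW.add MW.comap
  congr 1 <;> · funext x; rcases x with x | x; · rfl
                · exact isEmptyElim x

/-- The empty world has no influence. -/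
theorem not_fut_empty (hΦ : AdmissiblePotential Φ) (hε : 0 < ε) [IsEmpty κ] (Z : MW ι) (A : MW κ)
    {s : ℝ} {k : ι} : ¬ Z.Fut Φ ε A s k := by
  intro h
  have h0 : ∀ x, x ∈ range (Sum.inl : ι → ι ⊕ κ) := by
    rintro (x | x)
    · exact ⟨x, rfl⟩
    · exact isEmptyElim x
  induction h with
  | @init s k h _ =>
    refine h ?_
    rw [add_empty_comap Z A, path_comap hΦ hε]
    rfl
  | new₁ j hj _ _ _ => exact hj ⟨j, rfl⟩
  | new₂ j hj _ _ _ => exact hj (h0 j)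
  | chain₁ _ _ _ ih => exact ih
  | chain₂ _ _ _ ih => exact ih

theorem theta_empty (hΦ : AdmissiblePotential Φ) (hε : 0 < ε) (K : ℕ) (T : ℝ) [IsEmpty κ]
    (Z : MW ι) (A : MW κ) : Z.theta Φ ε K T A = T + 1 := by
  unfold MW.theta CausalGen291.theta
  rw [if_neg]
  rintro ⟨s, _, ⟨k, hk, _⟩ | ⟨j, hj, _⟩ | ⟨j, hj, _⟩⟩
  · exact not_fut_empty hΦ hε Z A hk
  · exact hj ⟨j, rfl⟩
  · refine hj ?_
    rcases j with x | x
    · exact ⟨x, rfl⟩
    · exact isEmptyElim x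

/-! ### Finite sub-families -/

/-- The sub-family `S` of a family of lines, as a world. -/
def sub {κ : Type} (ls : κ → ML) (S : Finset κ) : MW S := MW.lines fun j => ls j

/-- `insert k S` is `S` plus one element. -/
def insertEquiv {κ : Type} {S : Finset κ} {k : κ} [DecidableEq κ] (h : k ∉ S) :
    S ⊕ Unit ≃ (insert k S : Finset κ) where
  toFun := Sum.elim (fun j => ⟨j.1, Finset.mem_insert_of_mem j.2⟩)
    fun _ => ⟨k, Finset.mem_insert_self k S⟩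
  invFun j := if hj : j.1 ∈ S then Sum.inl ⟨j.1, hj⟩ else Sum.inr ()
  left_inv := by
    rintro (⟨j, hj⟩ | u)
    · simp [hj]
    · simp [h]
  right_inv := by
    rintro ⟨j, hj⟩
    by_cases h1 : j ∈ S
    · simp [h1]
    · have h2 : j = k := (Finset.mem_insert.1 hj).resolve_right h1
      subst h2
      simp [h1]

omit [Fintype κ] in
theorem sub_insert [DecidableEq κ] (ls : κ → ML) {S : Finset κ} {k : κ} (h : k ∉ S) :
    (sub ls (insert k S)).comap (insertEquiv h) = (sub ls S).add (MW.line (ls k)) := by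
  unfold sub MW.add MW.comap MW.line MW.lines
  congr 1 <;> · funext x; rcases x with x | x <;> rfl

theorem theta_sub_insert (hΦ : AdmissiblePotential Φ) (hε : 0 < ε) (K : ℕ) (T : ℝ) (Z : MW ι)
    [DecidableEq κ] (ls : κ → ML) {S : Finset κ} {k : κ} (h : k ∉ S) :
    Z.theta Φ ε K T (sub ls (insert k S)) =
      Z.theta Φ ε K T ((sub ls S).add (MW.line (ls k))) := by
  rw [← sub_insert ls h]
  exact (theta_comap_right hΦ hε K T Z _ (insertEquiv h)).symm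

theorem theta_sub_singleton (hΦ : AdmissiblePotential Φ) (hε : 0 < ε) (K : ℕ) (T : ℝ) (Z : MW ι)
    (ls : κ → ML) (k : κ) : Z.theta Φ ε K T (sub ls {k}) = Z.theta Φ ε K T (MW.line (ls k)) := by
  have h1 : (sub ls {k}).comap
      ((Equiv.ofUnique Unit ({k} : Finset κ) : Unit ≃ ({k} : Finset κ))) = MW.line (ls k) := rfl
  rw [← h1]
  exact (theta_comap_right hΦ hε K T Z _ _).symm

theorem theta_sub_univ (hΦ : AdmissiblePotential Φ) (hε : 0 < ε) (K : ℕ) (T : ℝ) (Z : MW ι)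
    (ls : κ → ML) : Z.theta Φ ε K T (sub ls Finset.univ) = Z.theta Φ ε K T (MW.lines ls) := by
  have h1 : (sub ls Finset.univ).comap (Equiv.subtypeUnivEquiv (fun x => Finset.mem_univ x)).symm =
      MW.lines ls := rfl
  rw [← h1]
  exact (theta_comap_right hΦ hε K T Z _ _).symm

/-- **(L2), lower bound.** `hT` is the triangle inequality (always true), `hW` is world consistency
(W1) for the pairs `(S, k)` of the family (true off LINK): if the line `k` touches `Z + S` not later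
than `S` touches `Z`, then it touches `Z` by then. -/
theorem exists_line_le (hΦ : AdmissiblePotential Φ) (hε : 0 < ε) (K : ℕ) (T : ℝ) (Z : MW ι)
    (ls : κ → ML)
    (hT : ∀ (S : Finset κ) (k : κ), k ∉ S →
      min (Z.theta Φ ε K T (sub ls S)) ((Z.add (sub ls S)).theta Φ ε K T (MW.line (ls k))) ≤
        Z.theta Φ ε K T ((sub ls S).add (MW.line (ls k))))
    (hW : ∀ (S : Finset κ) (k : κ), k ∉ S → S.Nonempty →
      (Z.add (sub ls S)).theta Φ ε K T (MW.line (ls k)) ≤ Z.theta Φ ε K T (sub ls S) →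
      Z.theta Φ ε K T (MW.line (ls k)) ≤ (Z.add (sub ls S)).theta Φ ε K T (MW.line (ls k)))
    {S : Finset κ} (hS : S.Nonempty) :
    ∃ k ∈ S, Z.theta Φ ε K T (MW.line (ls k)) ≤ Z.theta Φ ε K T (sub ls S) := by
  classical
  induction S using Finset.induction_on with
  | empty => exact absurd hS Finset.not_nonempty_empty
  | @insert k S hk ih =>
    rcases S.eq_empty_or_nonempty with rfl | hS'
    · refine ⟨k, Finset.mem_insert_self k ∅, le_of_eq ?_⟩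
      exact (theta_sub_singleton hΦ hε K T Z ls k).symm
    · rw [theta_sub_insert hΦ hε K T Z ls hk]
      have h1 := hT S k hk
      rcases le_total ((Z.add (sub ls S)).theta Φ ε K T (MW.line (ls k)))
        (Z.theta Φ ε K T (sub ls S)) with h2 | h2
      · rw [min_eq_right h2] at h1
        exact ⟨k, Finset.mem_insert_self k S, (hW S k hk hS' h2).trans h1⟩
      · rw [min_eq_left h2] at h1
        obtain ⟨j, hj, h3⟩ := ih hS'
        exact ⟨j, Finset.mem_insert_of_mem hj, h3.trans h1⟩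

end mw

end

end Crest.Agent.R122.MWAlg255
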