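import Crest.Agent.R122.PWInst_442
import Crest.Agent.R122.LNPart_424
import Crest.Agent.R122.LNReach_968

import Crest.Agent.R122.EFam_879

/-!
# Row 122, LN1: the tree instance (helper399)

One tree `(P, z)`, valid and separated on `[0, t]`, and a gas `w`.

* `Mt`, `Zt`, `eT`, `pT`, `Lt` : the master system of the gas and the tree, its configuration, the
  labels of the tree, the part of the tree, the set of parts.
* `treeIn`, `forest`, `glue_cfg`, `glue_ins` : the glued worlds of `cfg w` and `(cfg w).ins l`, `l` an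
  exit line.
* `parts`, `sparts`, `noTwo`, `badGasW_tree` : the graph data.
-/

set_option autoImplicit false
set_option linter.unusedSectionVars false
open MeasureTheory Set Filter
open scoped Classical ENNReal Topology
open Crest.AnalysisR.Kinetic
open Crest.Agent.R122.GIV566 Crest.Agent.R122.VL581 Crest.Agent.R122.LN304
open Crest.Agent.R122.LNTree410 Crest.Agent.R122.PWInst442 Crest.Agent.R122.PWGlue491
open Crest.Agent.R122.LNPart424 Crest.Agent.R122.EDefs602 Crest.Agent.R122.TreeLines335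
open Crest.Agent.R122.Kin796 Crest.Agent.R122.Kin796.CTree Crest.Agent.R122.Tree674

noncomputable section

namespace Crest.Agent.R122.LNTree399

variable {Φ : Space3 → ℝ} {ε t c ℓ ς : ℝ} {n : ℕ} {P : CTree} {z : PhasePoint × Par P}
  {w : Config n}

/-! ### Definitions -/

/-- The master system of the gas and one tree, all births `0`. -/
abbrev Mt (Φ : Space3 → ℝ) (t ε : ℝ) (n : ℕ) (P : CTree) : VSys (Fin n ⊕ Idx P) Unit :=
  LNPart424.gsys Φ t ε n fun _ : Idx P => 0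

/-- The configuration of the gas and the tree at time `0`. -/
abbrev Zt (Φ : Space3 → ℝ) (ε : ℝ) (w : Config n) (z : PhasePoint × Par P) :
    Fin n ⊕ Idx P → PhasePoint := Sum.elim w (Tree674.lines Φ ε P z.1 z.2)

/-- Labels of the tree. -/
def eT (n : ℕ) (P : CTree) : Idx P ↪ Fin n ⊕ Idx P := ⟨Sum.inr, Sum.inr_injective⟩

/-- Labels of the gas. -/
def eG (n : ℕ) (P : CTree) : Fin n ↪ Fin n ⊕ Idx P := ⟨Sum.inl, Sum.inl_injective⟩

/-- Labels of the gas and of the exit `x`. -/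
def eX (n : ℕ) (P : CTree) (x : Idx P) : Fin n ⊕ Unit ↪ Fin n ⊕ Idx P :=
  ⟨Sum.elim Sum.inl fun _ => Sum.inr x, by
    rintro (i | i) (j | j) h
    · simpa using h
    · simp at h
    · simp at h
    · rfl⟩

/-- The part of the tree. -/
abbrev pT (n : ℕ) (P : CTree) : Finset (Fin n ⊕ Idx P) := part (eT n P)

/-- The set of parts. -/
def Lt (n : ℕ) (P : CTree) : Finset (Finset (Fin n ⊕ Idx P)) := {pT n P}

theorem mem_pT {j : Fin n ⊕ Idx P} : j ∈ pT n P ↔ ∃ x, j = Sum.inr x := by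
  rw [mem_part]
  exact ⟨fun ⟨i, hi⟩ => ⟨i, hi.symm⟩, fun ⟨i, hi⟩ => ⟨i, hi.symm⟩⟩

theorem inl_not_mem (i : Fin n) : (Sum.inl i : Fin n ⊕ Idx P) ∉ pT n P := by
  rw [mem_pT]
  rintro ⟨x, hx⟩
  simp at hx

theorem inr_mem (x : Idx P) : (Sum.inr x : Fin n ⊕ Idx P) ∈ pT n P := mem_pT.2 ⟨x, rfl⟩

theorem mem_Lt {π : Finset (Fin n ⊕ Idx P)} : π ∈ Lt n P ↔ π = pT n P := Finset.mem_singleton

theorem uni_Lt : uni (Lt n P) = pT n P := by
  ext j
  rw [LNPart424.mem_uni]
  constructor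
  · rintro ⟨π, hπ, hj⟩
    rwa [mem_Lt.1 hπ] at hj
  · intro hj
    exact ⟨_, mem_Lt.2 rfl, hj⟩

/-! ### The glued worlds -/

theorem treeIn (hV : Valid Φ ε P t z.1.2 z.2) (hS : Sep Φ ε P t z.1 z.2) :
    TreeIn (Mt Φ t ε n P) (Zt Φ ε w z) (Mt Φ t ε n P).T P z.1 z.2 (eT n P) where
  b _ := le_rfl
  Z _ := rfl
  o _ h := by
    have h1 : (none : Option (Fin n ⊕ Idx P)) = some _ := h
    exact absurd h1 (by simp)
  valid := hV
  sep := hS

theorem forest (hV : Valid Φ ε P t z.1.2 z.2) (hS : Sep Φ ε P t z.1 z.2) :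
    Forest (Mt Φ t ε n P) (Zt Φ ε w z) (fun _ : Unit => P) (fun _ => z) (fun _ => eT n P) where
  tree _ := treeIn hV hS
  disj _ _ h := absurd rfl h

/-- The glued world of the gas alone. -/
theorem glue_cfg (hV : Valid Φ ε P t z.1.2 z.2) (hS : Sep Φ ε P t z.1 z.2)
    (hok : (MW.cfg w).Ok Φ ε) :
    Glue (Mt Φ t ε n P) (Zt Φ ε w z) (fun _ : Unit => P) (fun _ => z) (fun _ => eT n P)
      (MW.cfg w) (eG n P) where
  forest := forest hV hS
  ok := hok
  cls i := Or.inl ⟨fun _ => inl_not_mem i, fun h => by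
      have h1 : (none : Option (Fin n ⊕ Idx P)) = some _ := h
      exact absurd h1 (by simp), max_self 0, rfl⟩

/-- The glued world of the gas and an exit line. -/
theorem glue_ins (hV : Valid Φ ε P t z.1.2 z.2) (hS : Sep Φ ε P t z.1 z.2) (x : Idx P)
    (hok : ((MW.cfg w).ins (lineML Φ ε P z x)).Ok Φ ε) :
    Glue (Mt Φ t ε n P) (Zt Φ ε w z) (fun _ : Unit => P) (fun _ => z) (fun _ => eT n P)
      ((MW.cfg w).ins (lineML Φ ε P z x)) (eX n P x) where
  forest := forest hV hS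
  ok := hok
  cls i := by
    rcases i with i | i
    · exact Or.inl ⟨fun _ => inl_not_mem i, fun h => by
        have h1 : (none : Option (Fin n ⊕ Idx P)) = some _ := h
        exact absurd h1 (by simp), max_self 0, rfl⟩
    · exact Or.inr ⟨(), x, rfl, rfl, back_lineML Φ ε P z x⟩

/-! ### Parts -/

variable (hΦ : AdmissiblePotential Φ) (hε : 0 < ε)
include hΦ hε

theorem conn_pT (hc : 1 ≤ c) (hV : Valid Φ ε P t z.1.2 z.2) (hS : Sep Φ ε P t z.1 z.2) :
    (Mt Φ t ε n P).Conn c (pT n P) (Zt Φ ε w z) :=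
  (treeIn hV hS).Conn_tree (M := Mt Φ t ε n P) hΦ hε le_rfl hc

theorem parts (hc : 1 ≤ c) (hV : Valid Φ ε P t z.1.2 z.2) (hS : Sep Φ ε P t z.1 z.2)
    (hw : w ∈ PairExcluded ε n) :
    Parts (Mt Φ t ε n P) c (Zt Φ ε w z) (Lt n P) where
  conn π hπ := by
    rw [mem_Lt.1 hπ]
    exact conn_pT hΦ hε hc hV hS
  gas_o i _ h := by
    have h1 : (none : Option (Fin n ⊕ Idx P)) = some _ := h
    exact absurd h1 (by simp)
  gas_b i _ := by
    rcases i with i | i <;> exact le_rfl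
  gas_sep i j hi hj hij := by
    have hi' := hi _ (mem_Lt.2 rfl)
    have hj' := hj _ (mem_Lt.2 rfl)
    rcases i with i | i
    · rcases j with j | j
      · exact hw i j fun h => hij (by rw [h])
      · exact absurd (inr_mem j) hj'
    · exact absurd (inr_mem i) hi'

omit hΦ hε in
theorem sparts : SParts (n := n) 1 (Finset.univ : Finset (Idx P)) (Lt n P) where
  disj π hπ π' hπ' h := absurd ((mem_Lt.1 hπ).trans (mem_Lt.1 hπ').symm) h
  cov y := ⟨_, mem_Lt.2 rfl, inr_mem y⟩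
  anch π hπ := ⟨root P, Finset.mem_univ _, by
    rw [mem_Lt.1 hπ]
    exact inr_mem _⟩
  card := by
    unfold Lt
    exact le_of_eq (Finset.card_singleton _)

omit hΦ hε in
theorem noTwo (N : ℕ) : NoTwo (Mt Φ t ε n P) c (Zt Φ ε w z) (Lt n P) N :=
  fun _ _ _ π hπ π' hπ' _ _ => (mem_Lt.1 hπ).trans (mem_Lt.1 hπ').symm

/-- Not `NoBad`: bad partition of the tree and at most `N` gas particles. -/
theorem badGas_tree (hc : 1 ≤ c) (hV : Valid Φ ε P t z.1.2 z.2) (hS : Sep Φ ε P t z.1 z.2) {R T : ℝ}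
    (htT : t ≤ T) {N : ℕ}
    (h : ¬ NoBad (Mt Φ t ε n P) c (R * ε) ς (Zt Φ ε w z) (Lt n P) N) :
    LN2.BadGas Φ T c R ς ε N 1 (Finset.univ : Finset (Idx P)) (fun _ => 0)
      (Tree674.lines Φ ε P z.1 z.2) w :=
  badGas_of_not hΦ hε htT sparts (fun π hπ => by
    rw [mem_Lt.1 hπ]
    exact conn_pT hΦ hε hc hV hS) (Or.inl h)

theorem badGasW_tree (hc : 1 ≤ c) (hV : Valid Φ ε P t z.1.2 z.2) (hS : Sep Φ ε P t z.1 z.2) {R : ℝ}
    {N : ℕ} (h : ¬ NoBad (Mt Φ t ε n P) c (R * ε) ς (Zt Φ ε w z) (Lt n P) N) :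
    LN2.BadGasW Φ t c R ς ε N 1 (Finset.univ : Finset (Idx P)) (fun _ => 0)
      (Tree674.lines Φ ε P z.1 z.2) w :=
  badGasW_of_not hΦ hε sparts (fun π hπ => by
    rw [mem_Lt.1 hπ]
    exact conn_pT hΦ hε hc hV hS) (Or.inl h)

end Crest.Agent.R122.LNTree399

end
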