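import Crest.Agent.R122.LNBind_302
import Crest.Agent.R122.LNTreeRA_399

/-!
# Row 122, EVENTS (helper302): the events of one tree from `ReachAll`

Master system `Mt` of helper399 (gas and one tree, valid and separated on `[0, T']`), horizon
`u₀ ≤ T'`, arbitrary base world `Z` on the labels (`cfg w`, `cfg w` + exits).

* `pairNL_tree` : exit lines of the tree (root line included) are pairwise unlinked.
* `not_retA_tree`, `not_retB_tree` : no return to the protected tubes (exits different from the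
  root).
* `RAll`, `RAll.not_linkEx`, `RAll.not_retEx`, `RAll.not_retLn` : base world `cfg w`.
-/

set_option autoImplicit false
set_option linter.unusedSectionVars false

open MeasureTheory Set Filter Topology
open Crest.AnalysisR.Kinetic
open Crest.Agent.R122.GIV566 Crest.Agent.R122.VL581 Crest.Agent.R122.LNg410
open Crest.Agent.R122.LN304 Crest.Agent.R122.Ins45
open Crest.Agent.R122.Inf879 Crest.Agent.R122.EDefs602 Crest.Agent.R122.MWFam255
open Crest.Agent.R122.LNEv968 Crest.Agent.R122.LNEv818 Crest.Agent.R122.LNEv383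
open Crest.Agent.R122.LNTree410 Crest.Agent.R122.LNTree399 Crest.Agent.R122.Bind302
open Crest.Agent.R122.TreeLines335 Crest.Agent.R122.Kin796 Crest.Agent.R122.Kin796.CTree
open Crest.Agent.R122.Tree674 Crest.Agent.R122.PathFlow968
open Crest.Agent.R122.RtG302 (near exL protT LinkEx RetEx RetLn AllOk)
open scoped Classical

noncomputable section

namespace Crest.Agent.R122.TreeBind302

variable {Φ : Space3 → ℝ} {ε T' u₀ c ℓ ς : ℝ} {n N K : ℕ} {P : CTree} {z : PhasePoint × Par P}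
  {w : Config n}

/-- Contacts of the isolated tree. -/
def RT (Φ : Space3 → ℝ) (T' ε : ℝ) (n : ℕ) (P : CTree) (Zc : Fin n ⊕ Idx P → PhasePoint) (r : ℝ)
    (j k : Fin n ⊕ Idx P) : Prop :=
  dist ((Mt Φ T' ε n P).st (pT n P) r Zc j).1 ((Mt Φ T' ε n P).st (pT n P) r Zc k).1 ≤ ε

theorem lineAt_lineML (Φ : Space3 → ℝ) (ε : ℝ) (P : CTree) (z : PhasePoint × Par P) (x : Idx P)
    (u : ℝ) : Ins45.lineAt (lineML Φ ε P z x).1.1 (lineML Φ ε P z x).1.2 u =
      onLine (fin Φ ε P z.1 z.2 x) u := by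
  unfold Ins45.lineAt lineML onLine
  refine Prod.ext ?_ rfl
  simp only
  rw [add_assoc, ← add_smul]
  congr 2
  ring

section tree

variable (hΦ : AdmissiblePotential Φ) (hε : 0 < ε)
  (hV : Valid Φ ε P T' z.1.2 z.2) (hS : Sep Φ ε P T' z.1 z.2)
include hΦ hε hV hS

theorem st_eq_path {t : ℝ} (ht : t ∈ Icc 0 T') (i : Idx P) :
    (Mt Φ T' ε n P).st (pT n P) t (Zt Φ ε w z) (Sum.inr i) = path Φ ε P z.1 z.2 t i :=
  (treeIn hV hS).st_tree (M := Mt Φ T' ε n P) hΦ hε ht i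

theorem st_eq_lineAt {t : ℝ} (i : Idx P) (ht : rel P z.2 i ≤ t) (htT : t ≤ T') :
    (Mt Φ T' ε n P).st (pT n P) t (Zt Φ ε w z) (Sum.inr i) =
      Ins45.lineAt (lineML Φ ε P z i).1.1 (lineML Φ ε P z i).1.2 t := by
  rw [lineAt_lineML]
  exact (treeIn hV hS).line_tree (M := Mt Φ T' ε n P) hΦ hε i ht htT

theorem far_of_rel {t : ℝ} {i : Idx P} {k : Fin n ⊕ Idx P} (hk : k ∈ pT n P)
    (hki : k ≠ Sum.inr i) (ht : rel P z.2 i < t) (htT : t ≤ T') :
    ε < dist ((Mt Φ T' ε n P).st (pT n P) t (Zt Φ ε w z) (Sum.inr i)).1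
      ((Mt Φ T' ε n P).st (pT n P) t (Zt Φ ε w z) k).1 :=
  (treeIn hV hS).exit_tree (M := Mt Φ T' ε n P) hΦ hε hk hki ht htT

theorem rT_le_rel {r : ℝ} {i : Idx P} {k : Fin n ⊕ Idx P} (hk : k ∈ pT n P)
    (hki : k ≠ Sum.inr i) (hr : r ∈ Icc 0 T')
    (h : RT Φ T' ε n P (Zt Φ ε w z) r (Sum.inr i) k) : r ≤ rel P z.2 i := by
  by_contra hcon
  exact absurd h (not_le.2 (far_of_rel hΦ hε hV hS hk hki (not_le.1 hcon) hr.2))

theorem ok_pT (hT : 0 ≤ T') (t : ℝ) : (Mt Φ T' ε n P).ok (pT n P) t (Zt Φ ε w z) :=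
  (treeIn hV hS).ok_tree (M := Mt Φ T' ε n P) hΦ hε hT t

theorem partR (hT : 0 ≤ T') (hc : 1 ≤ c) :
    PartR (Mt Φ T' ε n P) c (Zt Φ ε w z) (pT n P) (RT Φ T' ε n P (Zt Φ ε w z)) where
  cut := ((treeIn (w := w) hV hS).conn_tree (M := Mt Φ T' ε n P) hΦ hε).mono
    fun i _ j _ _ h => Or.inl (by
      obtain ⟨r, hr, _, _, hd⟩ := h
      exact ⟨r, hr, hd⟩)
  symm r j k h := by
    unfold RT at h ⊢
    rwa [dist_comm]
  vct r _ j hj k hk _ h := by
    have ho : ∀ j : Fin n ⊕ Idx P, (Mt Φ T' ε n P).o ≠ some j := fun j h => by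
      have h1 : (none : Option (Fin n ⊕ Idx P)) = some _ := h
      exact absurd h1 (by simp)
    refine vct_of_st subset_rfl subset_rfl hj hk (ok_pT hΦ hε hV hS hT r)
      (ok_pT hΦ hε hV hS hT r) (ho j) (ho k) (le_trans h ?_)
    change ε ≤ c * ε
    nlinarith

/-! ### Base world on the labels -/

variable {ι μ : Type} [Fintype ι] [Fintype μ] {Z : MW ι} {lab : ι → Fin n ⊕ Idx P} {g : μ → Idx P}

/-- **Exit lines of one tree are pairwise unlinked** (the root line may be included). -/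
theorem pairNL_tree (hu : u₀ ≤ T') (hT : 0 ≤ T') (hc : 1 ≤ c) (hℓς : 2 * ℓ ≤ ς)
    (hlab : Function.Injective lab) (hg : Function.Injective g)
    (hlg : ∀ x i, lab i ≠ Sum.inr (g x))
    (hZ : Z.Ok Φ ε) (hOk : ∀ x, (Z.ins (lineML Φ ε P z (g x))).Ok Φ ε)
    (hNB : NoBad (Mt Φ T' ε n P) c ℓ ς (Zt Φ ε w z) (Lt n P) (N + N + (N + N)))
    (hRA : ∀ x, ReachAll (Reach (Mt Φ T' ε n P) c (Zt Φ ε w z) (Lt n P) (pT n P)
      (Sum.inr (g x)) N) Φ ε K u₀ Z lab (lineML Φ ε P z (g x)) (Sum.inr (g x))) :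
    PairNL Φ ε K u₀ Z fun x => lineML Φ ε P z (g x) := by
  have hR := partR (n := n) (w := w) hΦ hε hV hS hT hc
  have hπ : pT n P ∈ Lt n P := mem_Lt.2 rfl
  have hgi : ∀ {x y : μ}, x ≠ y → (Sum.inr (g x) : Fin n ⊕ Idx P) ≠ Sum.inr (g y) :=
    fun hxy h => hxy (hg (Sum.inr_injective h))
  refine pairNL_of_reach hΦ hε (M := Mt Φ T' ε n P) (c := c) (ℓ := ℓ) (ς := ς)
    (Zc := Zt Φ ε w z) (Λ := Lt n P) (N := N) rfl hu hc (fun π hπ' => ?_)
    (noBad_mono hNB (Nat.le_add_right _ _)) (noTwo _) hlab (P := fun _ => pT n P)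
    (p := fun x => Sum.inr (g x)) (fun _ => hπ) (fun x => inr_mem _)
    (fun x y h => hg (Sum.inr_injective h)) (fun x h => ?_) hRA ?_
  · rw [mem_Lt.1 hπ']
    exact conn_pT hΦ hε hc hV hS
  · obtain ⟨i, hi⟩ := h
    exact hlg x i hi
  · intro x y hxy _ u hu' hux huy hbx hby hb
    refine exits_apart hΦ hε (M := Mt Φ T' ε n P) (c := c) (ℓ := ℓ) (ς := ς) rfl hu hc hℓς hR hπ
      hZ (hOk x) (hOk y) (hRA x) (hRA y) (hlg x) (hlg y) hNB (inr_mem _) (inr_mem _) (hgi hxy)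
      (fun r hr h => ⟨rT_le_rel hΦ hε hV hS (inr_mem _) (hgi hxy.symm) hr h,
        rT_le_rel hΦ hε hV hS (inr_mem _) (hgi hxy) hr (hR.symm r _ _ h)⟩) ?_ hu' hux huy hbx hby hb
    intro t ht h1 h2 h3
    have e1 := st_eq_lineAt (n := n) (w := w) hΦ hε hV hS (g x) h1 ht.2
    have e2 := st_eq_lineAt (n := n) (w := w) hΦ hε hV hS (g y) h2 ht.2
    rw [← e1, ← e2]
    rcases h3 with h3 | h3
    · exact far_of_rel hΦ hε hV hS (inr_mem _) (hgi hxy.symm) h3 ht.2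
    · rw [dist_comm]
      exact far_of_rel hΦ hε hV hS (inr_mem _) (hgi hxy) h3 ht.2

/-- **No return of the influence of an exit to the protected tubes** (radius `r ≤ c ε`). -/
theorem not_retA_tree {x : Idx P} {r : ℝ} (hx : x ≠ root P) (hu : u₀ ≤ T') (hT : 0 < T')
    (hc : 1 ≤ c) (hr : r ≤ c * ε) (hℓς : 2 * ℓ ≤ ς) (hlg : ∀ i, lab i ≠ Sum.inr x)
    (hZ : Z.Ok Φ ε) (hOk : (Z.ins (lineML Φ ε P z x)).Ok Φ ε)
    (hNB : NoBad (Mt Φ T' ε n P) c ℓ ς (Zt Φ ε w z) (Lt n P) N)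
    (hRA : ReachAll (Reach (Mt Φ T' ε n P) c (Zt Φ ε w z) (Lt n P) (pT n P)
      (Sum.inr x) N) Φ ε K u₀ Z lab (lineML Φ ε P z x) (Sum.inr x)) :
    ¬ RetA Φ ε r K u₀ Z (lineML Φ ε P z x) (protT Φ ε P T' z) := by
  have hR := partR (n := n) (w := w) hΦ hε hV hS hT.le hc
  have hπ : pT n P ∈ Lt n P := mem_Lt.2 rfl
  have ho : ∀ j : Fin n ⊕ Idx P, (Mt Φ T' ε n P).o ≠ some j := fun j h => by
    have h1 : (none : Option (Fin n ⊕ Idx P)) = some _ := h
    exact absurd h1 (by simp)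
  refine not_retA_of hΦ hε (M := Mt Φ T' ε n P) (c := c) (ℓ := ℓ) (ς := ς) (ξ := Idx P) hu hr hℓς
    hR hπ hZ hOk hRA hlg hNB (inr_mem _) ?_
  intro y v hv hbv hvy
  have hvT : v ∈ Icc 0 T' := ⟨hv.1, hv.2.trans hu⟩
  have hok := ok_pT (n := n) (w := w) hΦ hε hV hS hT.le v
  have hc' : (protT Φ ε P T' z).c y v =
      ((Mt Φ T' ε n P).st (pT n P) v (Zt Φ ε w z) (Sum.inr y)).1 := by
    rw [st_eq_path hΦ hε hV hS hvT]
    rfl
  by_cases hxy : y = x
  · subst hxy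
    right
    have h1 : v ≤ rel P z.2 y := by rw [rel_eq_prot P T' z.2 y hx]; exact hvy
    have h2 : rel P z.2 y = v := le_antisymm hbv h1
    rcases (treeIn (w := w) (n := n) hV hS).last_tree (M := Mt Φ T' ε n P) hΦ hε hT y with h3 | h3
    · exfalso
      have h4 := rel_pos hε.le hV.2 y hx
      have h5 : (Mt Φ T' ε n P).bb (eT n P y) = 0 := max_self 0
      rw [h3, h5] at h4
      exact lt_irrefl _ h4
    · obtain ⟨k, hk, hky, _, hd⟩ := h3
      rw [h2] at hd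
      refine ⟨k, hk, hky, ho _, hok, hc', ?_⟩
      exact hR.vct v hvT _ (inr_mem _) k hk (Ne.symm hky) hd
  · left
    exact ⟨Sum.inr y, inr_mem _, fun h => hxy (Sum.inr_injective h), ho _, hok, hc'⟩

/-- **No return of an exit to the protected tubes.** -/
theorem not_retB_tree {x : Idx P} (hx : x ≠ root P) (hu : u₀ ≤ T') (hT : 0 < T')
    (hc : 1 ≤ c) (hℓς : 2 * ℓ ≤ ς) (hlg : ∀ i, lab i ≠ Sum.inr x)
    (hlb : ∀ i y, lab i = Sum.inr y → prot P T' z.2 y ≤ Z.b i)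
    (hZ : Z.Ok Φ ε) (hOk : (Z.ins (lineML Φ ε P z x)).Ok Φ ε)
    (hNB : NoBad (Mt Φ T' ε n P) c ℓ ς (Zt Φ ε w z) (Lt n P) (N + (N + N)))
    (hRA : ReachAll (Reach (Mt Φ T' ε n P) c (Zt Φ ε w z) (Lt n P) (pT n P)
      (Sum.inr x) N) Φ ε K u₀ Z lab (lineML Φ ε P z x) (Sum.inr x)) :
    ¬ RetB Φ ε ε K u₀ Z (lineML Φ ε P z x) (protT Φ ε P T' z) := by
  have hR := partR (n := n) (w := w) hΦ hε hV hS hT.le hc
  have hπ : pT n P ∈ Lt n P := mem_Lt.2 rfl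
  have ho : ∀ j : Fin n ⊕ Idx P, (Mt Φ T' ε n P).o ≠ some j := fun j h => by
    have h1 : (none : Option (Fin n ⊕ Idx P)) = some _ := h
    exact absurd h1 (by simp)
  refine not_retB_of hΦ hε (M := Mt Φ T' ε n P) (c := c) (ℓ := ℓ) (ς := ς) (ξ := Idx P) rfl hu hc
    hℓς hR hπ hZ hOk hRA hlg hNB (inr_mem _) ?_
  intro y v hv hbv hvy
  have hvT : v ∈ Icc 0 T' := ⟨hv.1, hv.2.trans hu⟩
  have hbv' : rel P z.2 x < v := hbv
  have hc' : (protT Φ ε P T' z).c y v =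
      ((Mt Φ T' ε n P).st (pT n P) v (Zt Φ ε w z) (Sum.inr y)).1 := by
    rw [st_eq_path hΦ hε hV hS hvT]
    rfl
  have hxy : y ≠ x := by
    rintro rfl
    have h1 : v ≤ rel P z.2 y := by rw [rel_eq_prot P T' z.2 y hx]; exact hvy
    exact absurd hbv' (not_lt.2 h1)
  have hne : (Sum.inr y : Fin n ⊕ Idx P) ≠ Sum.inr x := fun h => hxy (Sum.inr_injective h)
  refine ⟨Sum.inr y, inr_mem _, hne, ho _, ok_pT hΦ hε hV hS hT.le v, hc',
    fun i hi => (show v ≤ prot P T' z.2 y from hvy).trans (hlb i y hi),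
    fun r hr h => rT_le_rel hΦ hε hV hS (inr_mem _) hne hr h, ?_⟩
  rw [hc', ← st_eq_lineAt (n := n) (w := w) hΦ hε hV hS x hbv'.le hvT.2, dist_comm]
  exact far_of_rel hΦ hε hV hS (inr_mem _) hne hbv' hvT.2

end tree

/-! ### The gas alone -/

/-- All exits (different from the root) of the tree reach only their groups, and there is no bad
structure: output of the deterministic theory for the tree. -/
structure RAll (Φ : Space3 → ℝ) (T' c ℓ ς : ℝ) (N K : ℕ) (u₀ ε : ℝ) (P : CTree)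
    (z : PhasePoint × Par P) (n : ℕ) (w : Config n) : Prop where
  noBad : NoBad (Mt Φ T' ε n P) c ℓ ς (Zt Φ ε w z) (Lt n P) (N + N + (N + N))
  reach : ∀ x : {x : Idx P // x ≠ root P}, ReachAll (Reach (Mt Φ T' ε n P) c (Zt Φ ε w z)
    (Lt n P) (pT n P) (Sum.inr x.1) N) Φ ε K u₀ (MW.cfg w) Sum.inl (lineML Φ ε P z x.1)
      (Sum.inr x.1)

namespace RAll

variable (h : RAll Φ T' c ℓ ς N K u₀ ε P z n w) (hΦ : AdmissiblePotential Φ) (hε : 0 < ε)
  (hV : Valid Φ ε P T' z.1.2 z.2) (hS : Sep Φ ε P T' z.1 z.2)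
  (hOk : AllOk Φ ε w (exL Φ ε P z)) (hu : u₀ ≤ T') (hc : 1 ≤ c) (hℓς : 2 * ℓ ≤ ς)
include h hΦ hε hV hS hOk hu hc hℓς

theorem not_linkEx (hT : 0 ≤ T') : ¬ LinkEx Φ ε K u₀ w (exL Φ ε P z) := by
  unfold LinkEx
  rw [not_not]
  have hok := MWFam255.okF_of_okFam hΦ hε hOk
  exact pairNL_tree hΦ hε hV hS (g := fun x : {x : Idx P // x ≠ root P} => x.1) (Z := MW.cfg w)
    (lab := Sum.inl) hu hT hc hℓς Sum.inl_injective Subtype.val_injective
    (fun _ _ h => by cases h) hok.z (fun x => hok.line hΦ hε x) h.noBad h.reach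

theorem not_retEx : ¬ RetEx Φ ε K u₀ w (exL Φ ε P z) (protT Φ ε P T' z) := by
  rintro ⟨x, hx⟩
  have hok := MWFam255.okF_of_okFam hΦ hε hOk
  have hT : 0 < T' := (rel_pos hε.le hV.2 x.1 x.2).trans_le (by
    rw [rel_eq_prot P T' z.2 x.1 x.2]
    exact prot_le hε.le P T' z.1.2 z.2 hV.2 x.1)
  exact not_retA_tree hΦ hε hV hS (Z := MW.cfg w) (lab := Sum.inl) x.2 hu hT hc
    (by nlinarith) hℓς (fun _ h => by cases h) hok.z (hok.line hΦ hε x)
    (noBad_mono h.noBad (by omega)) (h.reach x) ((retL_iff hΦ hε _ _ _ _).1 hx)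

theorem not_retLn : ¬ RetLn Φ ε K u₀ w (exL Φ ε P z) (protT Φ ε P T' z) := by
  rintro ⟨x, hx⟩
  have hok := MWFam255.okF_of_okFam hΦ hε hOk
  have hT : 0 < T' := (rel_pos hε.le hV.2 x.1 x.2).trans_le (by
    rw [rel_eq_prot P T' z.2 x.1 x.2]
    exact prot_le hε.le P T' z.1.2 z.2 hV.2 x.1)
  exact not_retB_tree hΦ hε hV hS (Z := MW.cfg w) (lab := Sum.inl) x.2 hu hT hc
    hℓς (fun _ h => by cases h) (fun _ _ h => by cases h) hok.z (hok.line hΦ hε x)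
    (noBad_mono h.noBad (by omega)) (h.reach x) ((retM_iff _ _ _ _).1 hx)

end RAll

end Crest.Agent.R122.TreeBind302

end
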