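import Crest.Agent.R122.MWFam2_255

/-!
# Links of two lines from single-line reachability (row 122, EVENTS, helper818)

* `cf_b_le`: a particle in the clean closure at time `u` is born at time `u`.
* `ReachAll`: everything which is cleanly influenced by the line `a` before its touch time is
  reached (abstract predicate `R` on labels, times, positions).
* `noLink_of_reachAll`: if no label is reached from both lines and no two reached positions are in
  contact (contacts of the two lines themselves excluded separately), the lines are unlinked.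
* `pairNL_of_reachAll`: the same for a family.
-/

set_option autoImplicit false
set_option linter.unusedSectionVars false

open MeasureTheory Set Filter Topology
open Crest.AnalysisR.Kinetic
open Crest.Agent.R122.Ins45 Crest.Agent.R122.EDefs602 Crest.Agent.R122.CausalGen291
open Crest.Agent.R122.MWFam255
open scoped Classical

noncomputable section

namespace Crest.Agent.R122.LNEv818

variable {ι κ : Type} [Fintype ι] [Fintype κ]
variable {Φ : Space3 → ℝ} {ε T : ℝ} {K : ℕ} {Z : MW ι}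

/-- A cleanly influenced particle is born. -/
theorem cf_b_le (hΦ : AdmissiblePotential Φ) (hε : 0 < ε) {A : MW κ} {u : ℝ} {k : ι}
    (h : CF Φ ε K Z A u k) : Z.b k ≤ u := by
  cases h with
  | init h hs =>
    exfalso
    apply h
    change Z.path Φ ε 0 k = (Z.add A).path Φ ε 0 (Sum.inl k)
    rw [MW.path_zero hΦ hε, MW.path_zero hΦ hε]
    rfl
  | new₁ j hj hc h0 hs hcl => exact absurd ⟨j, rfl⟩ hj
  | new₂ j hj hc h0 hs hcl => exact (hc.2.1 : Z.b k ≤ _).trans hs
  | chain₁ h hc hs hcl => exact (hc.2.1 : Z.b k ≤ _).trans hs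
  | chain₂ h hc hs hcl => exact (hc.2.1 : Z.b k ≤ _).trans hs

/-- Everything which is cleanly influenced by the line `a` (label `p`) up to the touch time is
reached, in both worlds. -/
def ReachAll {J : Type*} (R : J → ℝ → Space3 → Prop) (Φ : Space3 → ℝ) (ε : ℝ) (K : ℕ) (T : ℝ)
    (Z : MW ι) (lab : ι → J) (a : ML) (p : J) : Prop :=
  ∀ u ∈ Icc 0 T, u ≤ Z.thetaL Φ ε K T a → ∀ x : ι ⊕ Unit, CI Φ ε K Z (MW.line a) u x →
    (Z.add (MW.line a)).b x ≤ u →
      R (Sum.elim lab (fun _ => p) x) u ((Z.add (MW.line a)).path Φ ε u x).1 ∧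
      ∀ k, x = Sum.inl k → R (lab k) u (Z.path Φ ε u k).1

variable {J : Type*}

/-- **No link from reachability.** -/
theorem noLink_of_reachAll (hΦ : AdmissiblePotential Φ) (hε : 0 < ε) {Ra Rb : J → ℝ → Space3 → Prop}
    {lab : ι → J} (hlab : Function.Injective lab) {a b : ML} {p q : J}
    (ha : ReachAll Ra Φ ε K T Z lab a p) (hb : ReachAll Rb Φ ε K T Z lab b q)
    (h1 : ∀ (k : ι) (u : ℝ) (x y : Space3), u ∈ Icc 0 T → Ra (lab k) u x → Rb (lab k) u y → False)
    (h2 : ∀ (k : ι) (j : J) (u : ℝ) (x y : Space3), u ∈ Icc 0 T → (j = q ∨ ∃ l, l ≠ k ∧ j = lab l) →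
      Ra (lab k) u x → Rb j u y → dist x y ≤ ε → False)
    (h2' : ∀ (k : ι) (u : ℝ) (x y : Space3), u ∈ Icc 0 T → Ra p u x → Rb (lab k) u y →
      dist x y ≤ ε → False)
    (h3 : ∀ u ∈ Icc 0 T, u ≤ Z.thetaL Φ ε K T a → u ≤ Z.thetaL Φ ε K T b → a.1.1 ≤ u →
      b.1.1 ≤ u → (a.1.1 < u ∨ b.1.1 < u) →
      Ra p u ((Z.add (MW.line a)).path Φ ε u (Sum.inr ())).1 →
      Rb q u ((Z.add (MW.line b)).path Φ ε u (Sum.inr ())).1 →
      ε < dist ((Z.add (MW.line a)).path Φ ε u (Sum.inr ())).1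
        ((Z.add (MW.line b)).path Φ ε u (Sum.inr ())).1) :
    MW.NoLink Φ ε K T Z (MW.line a) (MW.line b) := by
  intro s hs0 hsT hsa hsb hlk
  rw [link_iff] at hlk
  obtain ⟨u, hu, h⟩ := hlk
  have huT : u ∈ Icc 0 T := ⟨hu.1, hu.2.trans hsT⟩
  have hua : u ≤ Z.thetaL Φ ε K T a := hu.2.trans hsa
  have hub : u ≤ Z.thetaL Φ ε K T b := hu.2.trans hsb
  have key : ∀ k, CF Φ ε K Z (MW.line a) u k → CF Φ ε K Z (MW.line b) u k → False := by
    intro k hk hk'
    have hbk : Z.b k ≤ u := cf_b_le hΦ hε hk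
    exact h1 k u _ _ huT (ha u huT hua (Sum.inl k) (ci_inl hk) hbk).1
      (hb u huT hub (Sum.inl k) (ci_inl hk') hbk).1
  rcases h with ⟨k, hk, hk'⟩ | ⟨x, y, hx, hy, c1, c2, c3, c4⟩
  · exact key k hk hk'
  · rcases x with k | x <;> rcases y with l | y
    · by_cases hkl : l = k
      · subst hkl
        exact key l hx.inl hy.inl
      · exact h2 k (lab l) u _ _ huT (Or.inr ⟨l, hkl, rfl⟩) (ha u huT hua _ hx c1).1
          (hb u huT hub _ hy c2).1 c4
    · exact h2 k q u _ _ huT (Or.inl rfl) (ha u huT hua _ hx c1).1 (hb u huT hub _ hy c2).1 c4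
    · exact h2' l u _ _ huT (ha u huT hua _ hx c1).1 (hb u huT hub _ hy c2).1 c4
    · refine absurd c4 (not_le.2 (h3 u huT hua hub c1 c2 ?_ (ha u huT hua _ hx c1).1
        (hb u huT hub _ hy c2).1))
      rcases c3 with c3 | c3 | c3
      · cases c3
      · exact Or.inl c3
      · exact Or.inr c3

/-- **No link in a family from reachability.** -/
theorem pairNL_of_reachAll (hΦ : AdmissiblePotential Φ) (hε : 0 < ε)
    {R : κ → J → ℝ → Space3 → Prop} {lab : ι → J} (hlab : Function.Injective lab) {ls : κ → ML}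
    {p : κ → J} (hR : ∀ x, ReachAll (R x) Φ ε K T Z lab (ls x) (p x))
    (h1 : ∀ x y, x ≠ y → ∀ (k : ι) (u : ℝ) (q q' : Space3), u ∈ Icc 0 T → R x (lab k) u q →
      R y (lab k) u q' → False)
    (h2 : ∀ x y, x ≠ y → ∀ (i j : J) (u : ℝ) (q q' : Space3), u ∈ Icc 0 T →
      (i ∈ range lab ∨ j ∈ range lab) → i ≠ j → R x i u q → R y j u q' → dist q q' ≤ ε → False)
    (hp : ∀ x, p x ∉ range lab)
    (h3 : ∀ x y, x ≠ y → ∀ u ∈ Icc 0 T, u ≤ Z.thetaL Φ ε K T (ls x) →
      u ≤ Z.thetaL Φ ε K T (ls y) → (ls x).1.1 ≤ u → (ls y).1.1 ≤ u →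
      ((ls x).1.1 < u ∨ (ls y).1.1 < u) →
      R x (p x) u ((Z.add (MW.line (ls x))).path Φ ε u (Sum.inr ())).1 →
      R y (p y) u ((Z.add (MW.line (ls y))).path Φ ε u (Sum.inr ())).1 →
      ε < dist ((Z.add (MW.line (ls x))).path Φ ε u (Sum.inr ())).1
        ((Z.add (MW.line (ls y))).path Φ ε u (Sum.inr ())).1) :
    PairNL Φ ε K T Z ls := by
  intro x y hxy
  refine noLink_of_reachAll hΦ hε hlab (hR x) (hR y) (h1 x y hxy) ?_ ?_ (h3 x y hxy)
  · rintro k j u q q' hu (rfl | ⟨l, hl, rfl⟩) hq hq' hd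
    · exact h2 x y hxy _ _ u q q' hu (Or.inl ⟨k, rfl⟩) (fun h => hp y ⟨k, h⟩) hq hq' hd
    · exact h2 x y hxy _ _ u q q' hu (Or.inl ⟨k, rfl⟩) (fun h => hl (hlab h).symm) hq hq' hd
  · intro k u q q' hu hq hq' hd
    exact h2 x y hxy _ _ u q q' hu (Or.inr ⟨k, rfl⟩) (fun h => hp x ⟨k, h.symm⟩) hq hq' hd

end Crest.Agent.R122.LNEv818

end
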