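import Crest.Agent.R122.HitG3_167

/-!
# The first-hit inequalities of the gas (row 122, helper167)

`U t` is the probability that the test family is unhit before time `t`.

* `unhit_le` : `U t₀ ≤ U t + ∑_{k ≤ K} hitMass k + P(BadR)`.
* `le_unhit` : `U t + ∑_{k ≤ K} hitMass k ≤ U t₀` (if simultaneous first hits are null).
-/

set_option autoImplicit false

open Set Filter Topology MeasureTheory
open scoped Classical ENNReal
open Crest.AnalysisR.Kinetic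

namespace Crest.Agent.R122.Hit167

open Causal291 Flow671 Loc45 GC311

/-! ### Additivity and monotonicity of `gcE` up to null sets -/

theorem gcE_mono_ae (f₀ : PhasePoint → ℝ) (ε : ℝ) {F G : (n : ℕ) → Config n → ℝ≥0∞}
    (h : ∀ n, ∀ᵐ Z : Config n, Z ∈ PairExcluded ε n → F n Z ≤ G n Z) :
    gcE f₀ ε F ≤ gcE f₀ ε G := by
  unfold gcE
  refine mul_le_mul_right (ENNReal.tsum_le_tsum fun n => mul_le_mul_right
    (lintegral_mono_ae ?_) _) _
  filter_upwards [h n] with Z hZ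
  by_cases hp : Z ∈ PairExcluded ε n
  · exact mul_le_mul_right (hZ hp) _
  · simp [gcWeight, Set.indicator_of_notMem hp]

theorem gcE_add' {f₀ : PhasePoint → ℝ} (hf : Measurable f₀) (ε : ℝ)
    {F F' G : (n : ℕ) → Config n → ℝ≥0∞} (hF : ∀ n, Measurable (F' n))
    (h : ∀ n, ∀ Z ∈ PairExcluded ε n, F n Z = F' n Z) :
    gcE f₀ ε (fun n Z => F n Z + G n Z) = gcE f₀ ε F + gcE f₀ ε G := by
  rw [gcE_congr f₀ ε h, ← gcE_add hf ε hF]
  exact gcE_congr f₀ ε fun n Z hZ => by rw [h n Z hZ]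

section defs

variable (f₀ : PhasePoint → ℝ) (Φ : Space3 → ℝ) (ε : ℝ) {α : Type} (c : α → ℝ → Space3)
  (θ : α → ℝ) (𝒢 : Cls) (t₀ t : ℝ)

/-- Probability that the test family is unhit before time `t`. -/
noncomputable def U : ℝ≥0∞ := gcE f₀ ε fun _ Z => ind (Unhit (pth Φ ε Z) ε c θ t)

/-- The particle `i` at time `σ⁻` of the real world `Z` has a good backward cluster of at most `K`
particles: its real family is isolated in the isolated world of the cluster, `i` is alone there at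
time `σ`, and the cluster belongs to the class `𝒢`. -/
def GoodR (K : ℕ) {n : ℕ} (Z : Config n) (i : Fin n) (σ : ℝ) : Prop :=
  ∃ (k : ℕ) (f : Fin k ↪ Fin n) (j : Fin k), k ≤ K ∧ f j = i ∧
    preAct (pth Φ ε Z) ε i σ 0 = range f ∧
    Iso (pth Φ ε (fun l => Z (f l))) ε (fun s => f ⁻¹' preAct (pth Φ ε Z) ε i σ s) σ ∧
    AloneAt (pth Φ ε (fun l => Z (f l))) ε j σ ∧ 𝒢 k (fun l => Z (f l)) j σ

/-- Bad first hit in the window. -/
def BadR (K : ℕ) {n : ℕ} (Z : Config n) : Prop :=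
  ∃ σ ∈ Ico t₀ t, Unhit (pth Φ ε Z) ε c θ σ ∧
    ∃ i, HitsAt (pth Φ ε Z) ε c θ σ i ∧ ¬ GoodR Φ ε 𝒢 K Z i σ

/-- Two particles hit the test family at the same first hitting time. -/
def MultHit {n : ℕ} (Z : Config n) : Prop :=
  ∃ σ ∈ Ico t₀ t, 0 < σ ∧ Unhit (pth Φ ε Z) ε c θ σ ∧
    ∃ i i', i ≠ i' ∧ HitsAt (pth Φ ε Z) ε c θ σ i ∧ HitsAt (pth Φ ε Z) ε c θ σ i'

end defs

section main

variable {f₀ : PhasePoint → ℝ} {Φ : Space3 → ℝ} {ε : ℝ} {α : Type} [Finite α]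
  {c : α → ℝ → Space3} {θ : α → ℝ} {𝒢 : Cls} {t₀ t : ℝ}

theorem measurable_ind_unhit (hΦ : AdmissiblePotential Φ) (hε : 0 < ε)
    (hc : ∀ a, Continuous (c a)) (t : ℝ) (n : ℕ) :
    Measurable fun Z : Config n => ind (Unhit (pth Φ ε Z) ε c θ t) :=
  measurable_ind (measurableSet_unhit (fun Z => continuous_pth hΦ hε Z)
    (fun s j => measurable_pth_id hΦ hε s j) hc measurable_const)

/-- A good real hit gives an event `EvS`. -/
theorem GoodR.evS (hΦ : AdmissiblePotential Φ) (hε : 0 < ε) (ht₀ : 0 ≤ t₀) {K n : ℕ}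
    {Z : Config n} (hZ : Z ∈ PairExcluded ε n) {i : Fin n} {σ : ℝ} (hσ : σ ∈ Ico t₀ t)
    (h : GoodR Φ ε 𝒢 K Z i σ) (hU : Unhit (pth Φ ε Z) ε c θ σ)
    (hi : HitsAt (pth Φ ε Z) ε c θ σ i) :
    ∃ B : Finset (Fin n), B.card ≤ K ∧ i ∈ B ∧ EvS Φ ε c θ 𝒢 t₀ t Z B i := by
  obtain ⟨k, f, j, hk, rfl, hfull, hiso, hal, hcl⟩ := h
  refine ⟨Finset.univ.map f, by simpa using hk, by simp, k, f, j, rfl, rfl, σ, hσ, ?_⟩
  rw [← hitF_iff_hitD hΦ hε (pairExcluded_subset_Dom hε n hZ) f.injective (ht₀.trans hσ.1)]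
  exact ⟨⟨hU, hi, hfull⟩, hiso, hal, hcl⟩

/-- Pointwise upper bound. -/
theorem ind_unhit_le (hΦ : AdmissiblePotential Φ) (hε : 0 < ε)
    (hc : ∀ a, Continuous (c a)) (ht₀ : 0 ≤ t₀) (K : ℕ) {n : ℕ} {Z : Config n}
    (hZ : Z ∈ PairExcluded ε n) :
    ind (Unhit (pth Φ ε Z) ε c θ t₀) ≤
      (∑ k ∈ Finset.range (K + 1), ∑ B ∈ (Finset.univ : Finset (Fin n)).powersetCard k,
        Gfun Φ ε c θ 𝒢 t₀ t n B Z) +
      (ind (Unhit (pth Φ ε Z) ε c θ t) + ind (BadR Φ ε c θ 𝒢 t₀ t K Z)) := by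
  by_cases h0 : Unhit (pth Φ ε Z) ε c θ t₀
  swap
  · rw [ind_false h0]; exact zero_le
  rw [ind_true h0]
  by_cases h1 : Unhit (pth Φ ε Z) ε c θ t
  · rw [ind_true h1]
    exact le_add_left le_self_add
  by_cases h2 : BadR Φ ε c θ 𝒢 t₀ t K Z
  · rw [ind_true h2]
    exact le_add_left le_add_self
  refine le_add_right ?_
  obtain ⟨σ, hσ, hσ0, hU, i, hi⟩ := exists_first_hit (continuous_pth hΦ hε Z) hc h0 h1
  have hg : GoodR Φ ε 𝒢 K Z i σ := by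
    by_contra hg
    exact h2 ⟨σ, ⟨hσ0, hσ.2⟩, hU, i, hi, hg⟩
  obtain ⟨B, hB, hiB, hE⟩ := hg.evS hΦ hε ht₀ hZ ⟨hσ0, hσ.2⟩ hU hi
  calc (1 : ℝ≥0∞) = ind (EvS Φ ε c θ 𝒢 t₀ t Z B i) := (ind_true hE).symm
    _ ≤ Gfun Φ ε c θ 𝒢 t₀ t n B Z :=
        Finset.single_le_sum (f := fun i => ind (EvS Φ ε c θ 𝒢 t₀ t Z B i))
          (fun _ _ => zero_le) hiB
    _ ≤ ∑ B ∈ (Finset.univ : Finset (Fin n)).powersetCard B.card, Gfun Φ ε c θ 𝒢 t₀ t n B Z :=
        Finset.single_le_sum (f := fun B => Gfun Φ ε c θ 𝒢 t₀ t n B Z) (fun _ _ => zero_le)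
          (Finset.mem_powersetCard.2 ⟨Finset.subset_univ _, rfl⟩)
    _ ≤ _ := Finset.single_le_sum
        (f := fun k => ∑ B ∈ (Finset.univ : Finset (Fin n)).powersetCard k,
          Gfun Φ ε c θ 𝒢 t₀ t n B Z) (fun _ _ => zero_le) (Finset.mem_range.2 (by omega))

/-- Consequences of `EvS`. -/
theorem EvS.spec (hΦ : AdmissiblePotential Φ) (hε : 0 < ε) (ht₀ : 0 ≤ t₀) {n : ℕ}
    {Z : Config n} (hZ : Z ∈ PairExcluded ε n) {B : Finset (Fin n)} {i : Fin n}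
    (h : EvS Φ ε c θ 𝒢 t₀ t Z B i) :
    ∃ σ ∈ Ico t₀ t, 0 < σ ∧ Unhit (pth Φ ε Z) ε c θ σ ∧ HitsAt (pth Φ ε Z) ε c θ σ i ∧
      (B : Set (Fin n)) = preAct (pth Φ ε Z) ε i σ 0 := by
  obtain ⟨k, f, j, rfl, rfl, σ, hσ, hD⟩ := h
  have hpos : 0 < σ := hD.nonneg_pos (ht₀.trans hσ.1)
  rw [← hitF_iff_hitD hΦ hε (pairExcluded_subset_Dom hε n hZ) f.injective (ht₀.trans hσ.1)] at hD
  refine ⟨σ, hσ, hpos, hD.ghost.unhit, hD.ghost.hits, ?_⟩
  rw [hD.ghost.full]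
  simp

omit [Finite α] in
theorem sum_ind_le_one {β : Type*} (s : Finset β) (p : β → Prop)
    (h : ∀ a ∈ s, ∀ b ∈ s, p a → p b → a = b) : ∑ a ∈ s, ind (p a) ≤ 1 := by
  by_cases hex : ∃ a ∈ s, p a
  · obtain ⟨a, ha, hpa⟩ := hex
    rw [Finset.sum_eq_single_of_mem a ha]
    · exact ind_le_one _
    · intro b hb hba
      exact ind_false fun hpb => hba (h b hb a ha hpb hpa)
  · push Not at hex
    rw [Finset.sum_eq_zero fun a ha => ind_false (hex a ha)]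
    exact zero_le

/-- Pointwise lower bound. -/
theorem ind_add_le (hΦ : AdmissiblePotential Φ) (hε : 0 < ε) (ht₀ : 0 ≤ t₀) (htt : t₀ ≤ t)
    (K : ℕ) {n : ℕ} {Z : Config n} (hZ : Z ∈ PairExcluded ε n)
    (hM : ¬ MultHit Φ ε c θ t₀ t Z) :
    (∑ k ∈ Finset.range (K + 1), ∑ B ∈ (Finset.univ : Finset (Fin n)).powersetCard k,
        Gfun Φ ε c θ 𝒢 t₀ t n B Z) + ind (Unhit (pth Φ ε Z) ε c θ t) ≤
      ind (Unhit (pth Φ ε Z) ε c θ t₀) := by
  -- the double sum as one sum over pairs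
  have hsum : (∑ k ∈ Finset.range (K + 1), ∑ B ∈ (Finset.univ : Finset (Fin n)).powersetCard k,
        Gfun Φ ε c θ 𝒢 t₀ t n B Z) ≤
      ∑ p : Finset (Fin n) × Fin n, ind (EvS Φ ε c θ 𝒢 t₀ t Z p.1 p.2) := by
    rw [Fintype.sum_prod_type]
    calc (∑ k ∈ Finset.range (K + 1), ∑ B ∈ (Finset.univ : Finset (Fin n)).powersetCard k,
          Gfun Φ ε c θ 𝒢 t₀ t n B Z)
        = ∑ B ∈ (Finset.univ : Finset (Finset (Fin n))).filter (fun B => B.card < K + 1),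
          Gfun Φ ε c θ 𝒢 t₀ t n B Z := by
          have h1 := Finset.sum_fiberwise_of_maps_to (s := (Finset.univ :
            Finset (Finset (Fin n))).filter (fun B => B.card < K + 1)) (t := Finset.range (K + 1))
            (g := fun B => B.card) (fun B hB => by simpa using hB)
            (fun B => Gfun Φ ε c θ 𝒢 t₀ t n B Z)
          rw [← h1]
          refine Finset.sum_congr rfl fun k hk => ?_
          refine Finset.sum_congr ?_ fun _ _ => rfl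
          ext B
          simp only [Finset.mem_powersetCard, Finset.subset_univ, true_and, Finset.mem_filter,
            Finset.mem_univ]
          constructor
          · intro h; exact ⟨by rw [h]; exact Finset.mem_range.1 hk, h⟩
          · intro h; exact h.2
      _ ≤ ∑ B : Finset (Fin n), Gfun Φ ε c θ 𝒢 t₀ t n B Z :=
          Finset.sum_le_sum_of_subset (Finset.filter_subset _ _)
      _ ≤ ∑ B : Finset (Fin n), ∑ i : Fin n, ind (EvS Φ ε c θ 𝒢 t₀ t Z B i) := by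
          refine Finset.sum_le_sum fun B _ => ?_
          exact Finset.sum_le_sum_of_subset (Finset.subset_univ _)
  refine (add_le_add_left hsum _).trans ?_
  by_cases h1 : Unhit (pth Φ ε Z) ε c θ t
  · have h0 : Unhit (pth Φ ε Z) ε c θ t₀ := h1.mono htt
    rw [ind_true h1, ind_true h0, Finset.sum_eq_zero, zero_add]
    rintro ⟨B, i⟩ _
    refine ind_false fun hE => ?_
    obtain ⟨σ, hσ, hpos, _, hi, _⟩ := hE.spec hΦ hε ht₀ hZ
    exact h1 σ ⟨hpos.le, hσ.2⟩ i hi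
  rw [ind_false h1, add_zero]
  by_cases hex : ∃ p : Finset (Fin n) × Fin n, EvS Φ ε c θ 𝒢 t₀ t Z p.1 p.2
  · obtain ⟨⟨B, i⟩, hE⟩ := hex
    obtain ⟨σ, hσ, hpos, hU, hi, hB⟩ := hE.spec hΦ hε ht₀ hZ
    rw [ind_true (hU.mono hσ.1)]
    refine sum_ind_le_one _ _ ?_
    have key : ∀ p : Finset (Fin n) × Fin n, EvS Φ ε c θ 𝒢 t₀ t Z p.1 p.2 → p = (B, i) := by
      rintro ⟨B', i'⟩ hE'
      obtain ⟨σ', hσ', hpos', hU', hi', hB'⟩ := hE'.spec hΦ hε ht₀ hZ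
      have hσσ : σ' = σ := first_hit_unique hpos'.le hpos.le hU' hi' hU hi
      subst hσσ
      have hii : i' = i := by
        by_contra hne
        exact hM ⟨σ', hσ, hpos, hU, i', i, hne, hi', hi⟩
      have hBB : B' = B := by
        subst hii
        exact Finset.coe_injective (hB'.trans hB.symm)
      rw [hBB, hii]
    intro p _ q _ hp hq
    rw [key p hp, key q hq]
  · push Not at hex
    rw [Finset.sum_eq_zero fun p _ => ind_false (hex p)]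
    exact zero_le

/-- Expectation of the number of good first hitters. -/
theorem gcE_sum_gfun (hf : Measurable f₀) (hΦ : AdmissiblePotential Φ)
    (hε : 0 < ε) (hc : ∀ a, Continuous (c a)) (h𝒢 : 𝒢.Inv) (h𝒢m : 𝒢.Meas) (ht₀ : 0 ≤ t₀)
    (K : ℕ) (H : (n : ℕ) → Config n → ℝ≥0∞) :
    gcE f₀ ε (fun n Z => (∑ k ∈ Finset.range (K + 1),
      ∑ B ∈ (Finset.univ : Finset (Fin n)).powersetCard k, Gfun Φ ε c θ 𝒢 t₀ t n B Z) + H n Z) =
      (∑ k ∈ Finset.range (K + 1), hitMass f₀ Φ ε c θ 𝒢 t₀ t k) + gcE f₀ ε H := by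
  set G' : (n : ℕ) → Finset (Fin n) → Config n → ℝ≥0∞ := fun n B Z => ∑ j : Fin B.card,
      ind (∃ σ ∈ Ico t₀ t, HitD Φ ε c θ 𝒢 Z (B.orderEmbOfFin rfl).toEmbedding j σ) with hG
  have hGe : ∀ n B Z, Z ∈ PairExcluded ε n → Gfun Φ ε c θ 𝒢 t₀ t n B Z = G' n B Z :=
    fun n B Z hZ => gfun_eq hΦ hε h𝒢 ht₀ B Z hZ
  have hGm : ∀ n B, Measurable (G' n B) := by
    intro n B
    refine Finset.measurable_sum _ fun j _ => measurable_ind ?_
    exact measurableSet_hitD hΦ hε hc h𝒢m (B.orderEmbOfFin rfl).toEmbedding.injective j ht₀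
  rw [gcE_add' hf ε (F' := fun n Z => ∑ k ∈ Finset.range (K + 1),
      ∑ B ∈ (Finset.univ : Finset (Fin n)).powersetCard k, G' n B Z)
    (fun n => Finset.measurable_sum _ fun k _ => Finset.measurable_sum _ fun B _ => hGm n B)
    (fun n Z hZ => Finset.sum_congr rfl fun k _ => Finset.sum_congr rfl fun B _ => hGe n B Z hZ)]
  congr 1
  have h1 : gcE f₀ ε (fun n Z => ∑ k ∈ Finset.range (K + 1),
      ∑ B ∈ (Finset.univ : Finset (Fin n)).powersetCard k, Gfun Φ ε c θ 𝒢 t₀ t n B Z) =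
      gcE f₀ ε (fun n Z => ∑ k ∈ Finset.range (K + 1),
        ∑ B ∈ (Finset.univ : Finset (Fin n)).powersetCard k, G' n B Z) :=
    gcE_congr f₀ ε fun n Z hZ => Finset.sum_congr rfl fun k _ => Finset.sum_congr rfl
      fun B _ => hGe n B Z hZ
  have h2 := gcE_finset_sum hf ε (Finset.range (K + 1))
    (F := fun k n Z => ∑ B ∈ (Finset.univ : Finset (Fin n)).powersetCard k, G' n B Z)
    (fun k _ n => Finset.measurable_sum _ fun B _ => hGm n B)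
  rw [h1]
  refine h2.trans ?_
  refine Finset.sum_congr rfl fun k _ => ?_
  rw [← mecke_hit hf hΦ hε hc h𝒢 h𝒢m ht₀ k]
  exact gcE_congr f₀ ε fun n Z hZ => Finset.sum_congr rfl fun B _ => (hGe n B Z hZ).symm

/-- **First-hit inequality, upper bound.** -/
theorem unhit_le (hf : Measurable f₀) (hΦ : AdmissiblePotential Φ) (hε : 0 < ε)
    (hc : ∀ a, Continuous (c a)) (h𝒢 : 𝒢.Inv) (h𝒢m : 𝒢.Meas) (ht₀ : 0 ≤ t₀) (K : ℕ) :
    U f₀ Φ ε c θ t₀ ≤ U f₀ Φ ε c θ t +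
      ∑ k ∈ Finset.range (K + 1), hitMass f₀ Φ ε c θ 𝒢 t₀ t k +
      gcE f₀ ε (fun _ Z => ind (BadR Φ ε c θ 𝒢 t₀ t K Z)) := by
  have h1 : U f₀ Φ ε c θ t₀ ≤ gcE f₀ ε (fun n Z => (∑ k ∈ Finset.range (K + 1),
      ∑ B ∈ (Finset.univ : Finset (Fin n)).powersetCard k, Gfun Φ ε c θ 𝒢 t₀ t n B Z) +
      (ind (Unhit (pth Φ ε Z) ε c θ t) + ind (BadR Φ ε c θ 𝒢 t₀ t K Z))) :=
    gcE_mono f₀ ε fun n Z hZ => ind_unhit_le hΦ hε hc ht₀ K hZ
  rw [gcE_sum_gfun hf hΦ hε hc h𝒢 h𝒢m ht₀ K, gcE_add hf ε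
    (fun n => measurable_ind_unhit hΦ hε hc t n)] at h1
  refine h1.trans (le_of_eq ?_)
  unfold U
  ring

/-- **First-hit inequality, lower bound.** -/
theorem le_unhit (hf : Measurable f₀) (hΦ : AdmissiblePotential Φ) (hε : 0 < ε)
    (hc : ∀ a, Continuous (c a)) (h𝒢 : 𝒢.Inv) (h𝒢m : 𝒢.Meas) (ht₀ : 0 ≤ t₀) (htt : t₀ ≤ t)
    (K : ℕ) (hM : ∀ n, ∀ᵐ Z : Config n, Z ∈ PairExcluded ε n → ¬ MultHit Φ ε c θ t₀ t Z) :
    U f₀ Φ ε c θ t + ∑ k ∈ Finset.range (K + 1), hitMass f₀ Φ ε c θ 𝒢 t₀ t k ≤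
      U f₀ Φ ε c θ t₀ := by
  have h1 := gcE_sum_gfun (θ := θ) (t := t) hf hΦ hε hc h𝒢 h𝒢m ht₀ K
    (fun _ Z => ind (Unhit (pth Φ ε Z) ε c θ t))
  have h2 : gcE f₀ ε (fun n Z => (∑ k ∈ Finset.range (K + 1),
      ∑ B ∈ (Finset.univ : Finset (Fin n)).powersetCard k, Gfun Φ ε c θ 𝒢 t₀ t n B Z) +
      ind (Unhit (pth Φ ε Z) ε c θ t)) ≤ U f₀ Φ ε c θ t₀ := by
    refine gcE_mono_ae f₀ ε fun n => ?_
    filter_upwards [hM n] with Z hZ hp
    exact ind_add_le hΦ hε ht₀ htt K hp (hZ hp)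
  rw [h1] at h2
  rw [add_comm]
  exact h2

end main

end Crest.Agent.R122.Hit167
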