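import Crest.Agent.R122.GCBasic_311

/-!
# Grand-canonical calculus II: the Mecke (GNZ) formula

`mecke`: for a relabelling-invariant family `G n ι Z` of nonnegative functionals of a
configuration with a marked ordered `k`-tuple of distinct particles `ι : Fin k ↪ Fin n`,
`E[∑_ι G n ι Z] = a^k ∫ dV gcWeight(V) E_w[1[V ⟂ w] G (k+m) castAddEmb (V ⧺ w)]`.
`mecke_finset`: the same for marked `k`-element subsets (factor `1/k!`).
-/

set_option autoImplicit false
open MeasureTheory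
open scoped Classical ENNReal
open Crest.AnalysisR.Kinetic
noncomputable section

namespace Crest.Agent.R122.GC311

/-- Relabelling invariance of a functional with a marked ordered tuple (only needed on
excluded configurations). -/
def RelabelInv (ε : ℝ) {k : ℕ} (G : (n : ℕ) → (Fin k ↪ Fin n) → Config n → ℝ≥0∞) : Prop :=
  ∀ (n : ℕ) (σ : Equiv.Perm (Fin n)) (ι : Fin k ↪ Fin n) (Z : Config n),
    Z ∈ PairExcluded ε n → G n (ι.trans σ.toEmbedding) Z = G n ι (fun i => Z (σ i))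

theorem exists_perm_trans {k n : ℕ} (ι ι' : Fin k ↪ Fin n) :
    ∃ σ : Equiv.Perm (Fin n), ι' = ι.trans σ.toEmbedding := by
  have : MulAction.IsMultiplyPretransitive (Equiv.Perm (Fin n)) (Fin n) k :=
    Equiv.Perm.isMultiplyPretransitive (Fin n) k
  obtain ⟨σ, hσ⟩ := MulAction.exists_smul_eq (Equiv.Perm (Fin n)) ι ι'
  refine ⟨σ, ?_⟩
  rw [← hσ]
  rfl

theorem lintegral_marked_eq {f₀ : PhasePoint → ℝ} {ε : ℝ} {k : ℕ}
    {G : (n : ℕ) → (Fin k ↪ Fin n) → Config n → ℝ≥0∞} (hG : RelabelInv ε G) {n : ℕ}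
    (ι ι' : Fin k ↪ Fin n) :
    ∫⁻ Z, gcWeight f₀ ε n Z * G n ι' Z = ∫⁻ Z, gcWeight f₀ ε n Z * G n ι Z := by
  obtain ⟨σ, rfl⟩ := exists_perm_trans ι ι'
  rw [← lintegral_comp_perm σ (fun Z => gcWeight f₀ ε n Z * G n ι Z)]
  refine lintegral_congr fun Z => ?_
  rw [gcWeight_comp_perm]
  by_cases hZ : Z ∈ PairExcluded ε n
  · rw [hG n σ ι Z hZ]
  · have : gcWeight f₀ ε n Z = 0 := by simp [gcWeight, Set.indicator_of_notMem hZ]
    rw [this, zero_mul, zero_mul]

theorem lintegral_sum_marked {f₀ : PhasePoint → ℝ} (hf : Measurable f₀) {ε : ℝ} {k : ℕ}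
    {G : (n : ℕ) → (Fin k ↪ Fin n) → Config n → ℝ≥0∞} (hG : RelabelInv ε G)
    (hGm : ∀ n ι, Measurable (G n ι)) {n : ℕ} (ι₀ : Fin k ↪ Fin n) :
    ∫⁻ Z, gcWeight f₀ ε n Z * ∑ ι : Fin k ↪ Fin n, G n ι Z =
      (n.descFactorial k : ℝ≥0∞) * ∫⁻ Z, gcWeight f₀ ε n Z * G n ι₀ Z := by
  simp_rw [Finset.mul_sum]
  have hm : ∀ ι : Fin k ↪ Fin n, Measurable (fun Z => gcWeight f₀ ε n Z * G n ι Z) :=
    fun ι => (measurable_gcWeight hf ε n).mul (hGm n ι)
  rw [lintegral_finsetSum _ (fun ι _ => hm ι)]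
  rw [Finset.sum_congr rfl (fun ι _ => lintegral_marked_eq hG ι₀ ι)]
  rw [Finset.sum_const, Finset.card_univ, Fintype.card_embedding_eq, Fintype.card_fin,
    Fintype.card_fin, nsmul_eq_mul]

theorem lintegral_append_gc {f₀ : PhasePoint → ℝ} (hf : Measurable f₀) (ε : ℝ) {k m : ℕ}
    (H : Config (k + m) → ℝ≥0∞) (hH : Measurable H) :
    ∫⁻ Z, gcWeight f₀ ε (k + m) Z * H Z =
      ∫⁻ V : Config k, gcWeight f₀ ε k V *
        ∫⁻ w : Config m, gcWeight f₀ ε m w * (perpInd ε V w * H (Fin.append V w)) := by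
  have hm : Measurable (fun Z => gcWeight f₀ ε (k + m) Z * H Z) :=
    (measurable_gcWeight hf ε _).mul hH
  rw [lintegral_append _ hm]
  refine lintegral_congr fun V => ?_
  rw [← lintegral_const_mul]
  · refine lintegral_congr fun w => ?_
    rw [gcWeight_append]
    ring
  · exact (measurable_gcWeight hf ε m).mul
      ((measurable_perpInd_right ε m V).mul (hH.comp (measurable_append_right V)))

theorem measurable_inner_append {f₀ : PhasePoint → ℝ} (hf : Measurable f₀) (ε : ℝ) {k m : ℕ}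
    (H : Config (k + m) → ℝ≥0∞) (hH : Measurable H) :
    Measurable (fun V : Config k =>
      ∫⁻ w : Config m, gcWeight f₀ ε m w * (perpInd ε V w * H (Fin.append V w))) := by
  have h1 : Measurable (fun p : Config k × Config m =>
      gcWeight f₀ ε m p.2 * (perpInd ε p.1 p.2 * H (Fin.append p.1 p.2))) :=
    ((measurable_gcWeight hf ε m).comp measurable_snd).mul
      ((measurable_perpInd ε k m).mul (hH.comp measurable_append))
  exact Measurable.lintegral_prod_right' (ν := (volume : Measure (Config m))) h1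

/-- Splitting a sum over embeddings: combinatorial prefactor. -/
theorem coeff_identity (a : ℝ≥0∞) (k m : ℕ) (x : ℝ≥0∞) :
    a ^ (k + m) / ((k + m).factorial : ℝ≥0∞) * (((k + m).descFactorial k : ℝ≥0∞) * x) =
      a ^ k * (a ^ m / (m.factorial : ℝ≥0∞) * x) := by
  have h : (m.factorial : ℝ≥0∞) * ((k + m).descFactorial k : ℝ≥0∞) =
      ((k + m).factorial : ℝ≥0∞) := by
    have := Nat.factorial_mul_descFactorial (n := k + m) (k := k) (by omega)
    rw [Nat.add_sub_cancel_left] at this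
    exact_mod_cast this
  have hD0 : ((k + m).descFactorial k : ℝ≥0∞) ≠ 0 := by
    simp
  have hDt : ((k + m).descFactorial k : ℝ≥0∞) ≠ ∞ := ENNReal.natCast_ne_top _
  have hm0 : (m.factorial : ℝ≥0∞) ≠ 0 := by
    exact_mod_cast (Nat.factorial_pos m).ne'
  have hmt : (m.factorial : ℝ≥0∞) ≠ ∞ := ENNReal.natCast_ne_top _
  rw [← h, pow_add, div_eq_mul_inv, div_eq_mul_inv,
    ENNReal.mul_inv (Or.inl hm0) (Or.inl hmt)]
  calc a ^ k * a ^ m * ((m.factorial : ℝ≥0∞)⁻¹ * ((k + m).descFactorial k : ℝ≥0∞)⁻¹) *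
        (((k + m).descFactorial k : ℝ≥0∞) * x)
      = a ^ k * (a ^ m * (m.factorial : ℝ≥0∞)⁻¹ * x) *
        (((k + m).descFactorial k : ℝ≥0∞)⁻¹ * ((k + m).descFactorial k : ℝ≥0∞)) := by ring
    _ = _ := by rw [ENNReal.inv_mul_cancel hD0 hDt, mul_one]

/-- **Mecke (GNZ) formula**, ordered marked tuples. -/
theorem mecke {f₀ : PhasePoint → ℝ} (hf : Measurable f₀) {ε : ℝ} {k : ℕ}
    {G : (n : ℕ) → (Fin k ↪ Fin n) → Config n → ℝ≥0∞} (hG : RelabelInv ε G)
    (hGm : ∀ n ι, Measurable (G n ι)) :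
    gcE f₀ ε (fun n Z => ∑ ι : Fin k ↪ Fin n, G n ι Z) =
      activity ε ^ k * ∫⁻ V : Config k, gcWeight f₀ ε k V *
        gcE f₀ ε (fun m w => perpInd ε V w * G (k + m) (Fin.castAddEmb m) (Fin.append V w)) := by
  set T : ℕ → ℝ≥0∞ := fun n => activity ε ^ n / (n.factorial : ℝ≥0∞) *
    ∫⁻ Z, gcWeight f₀ ε n Z * ∑ ι : Fin k ↪ Fin n, G n ι Z with hT
  have hlt : ∀ n < k, T n = 0 := by
    intro n hn
    have : IsEmpty (Fin k ↪ Fin n) := by
      refine ⟨fun ι => ?_⟩
      have := Fintype.card_le_of_embedding ι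
      simp at this
      omega
    simp [hT]
  have hge : ∀ m, T (k + m) = activity ε ^ k * (activity ε ^ m / (m.factorial : ℝ≥0∞) *
      ∫⁻ V : Config k, gcWeight f₀ ε k V *
        ∫⁻ w : Config m, gcWeight f₀ ε m w *
          (perpInd ε V w * G (k + m) (Fin.castAddEmb m) (Fin.append V w))) := by
    intro m
    simp only [hT]
    rw [lintegral_sum_marked hf hG hGm (Fin.castAddEmb m : Fin k ↪ Fin (k + m)),
      lintegral_append_gc hf ε _ (hGm (k + m) (Fin.castAddEmb m)), coeff_identity]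
  have hsum : ∑' n, T n = ∑' m, T (k + m) := by
    rw [← ENNReal.summable.sum_add_tsum_nat_add' (f := T) (k := k)]
    rw [Finset.sum_eq_zero (fun n hn => hlt n (Finset.mem_range.1 hn)), zero_add]
    exact tsum_congr fun m => by rw [add_comm]
  have hZt : (gcPartition f₀ ε)⁻¹ ≠ ∞ := by
    rw [ENNReal.inv_ne_top]
    exact gcPartition_ne_zero f₀ ε
  unfold gcE
  change (gcPartition f₀ ε)⁻¹ * ∑' n, T n = _
  rw [hsum]
  simp_rw [hge]
  rw [ENNReal.tsum_mul_left, ← mul_assoc, mul_comm (gcPartition f₀ ε)⁻¹, mul_assoc]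
  congr 1
  have hmeas : ∀ m : ℕ, Measurable (fun V : Config k => gcWeight f₀ ε k V *
      (activity ε ^ m / (m.factorial : ℝ≥0∞) * ∫⁻ w : Config m, gcWeight f₀ ε m w *
        (perpInd ε V w * G (k + m) (Fin.castAddEmb m) (Fin.append V w)))) := fun m =>
    (measurable_gcWeight hf ε k).mul
      ((measurable_inner_append hf ε _ (hGm (k + m) (Fin.castAddEmb m))).const_mul _)
  calc (gcPartition f₀ ε)⁻¹ * ∑' m : ℕ, activity ε ^ m / (m.factorial : ℝ≥0∞) *
        ∫⁻ V : Config k, gcWeight f₀ ε k V * ∫⁻ w : Config m, gcWeight f₀ ε m w *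
          (perpInd ε V w * G (k + m) (Fin.castAddEmb m) (Fin.append V w))
      = (gcPartition f₀ ε)⁻¹ * ∑' m : ℕ, ∫⁻ V : Config k, gcWeight f₀ ε k V *
          (activity ε ^ m / (m.factorial : ℝ≥0∞) * ∫⁻ w : Config m, gcWeight f₀ ε m w *
          (perpInd ε V w * G (k + m) (Fin.castAddEmb m) (Fin.append V w))) := by
        congr 1
        refine tsum_congr fun m => ?_
        rw [← lintegral_const_mul]
        · refine lintegral_congr fun V => ?_
          ring
        · exact (measurable_gcWeight hf ε k).mul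
            (measurable_inner_append hf ε _ (hGm (k + m) (Fin.castAddEmb m)))
    _ = (gcPartition f₀ ε)⁻¹ * ∫⁻ V : Config k, ∑' m : ℕ, gcWeight f₀ ε k V *
          (activity ε ^ m / (m.factorial : ℝ≥0∞) * ∫⁻ w : Config m, gcWeight f₀ ε m w *
          (perpInd ε V w * G (k + m) (Fin.castAddEmb m) (Fin.append V w))) := by
        rw [lintegral_tsum (fun m => (hmeas m).aemeasurable)]
    _ = ∫⁻ V : Config k, (gcPartition f₀ ε)⁻¹ * ∑' m : ℕ, gcWeight f₀ ε k V *
          (activity ε ^ m / (m.factorial : ℝ≥0∞) * ∫⁻ w : Config m, gcWeight f₀ ε m w *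
          (perpInd ε V w * G (k + m) (Fin.castAddEmb m) (Fin.append V w))) := by
        rw [lintegral_const_mul' _ _ hZt]
    _ = _ := by
        refine lintegral_congr fun V => ?_
        rw [ENNReal.tsum_mul_left]
        ring

/-- Upper bound from the Mecke formula (drop the mutual exclusion). -/
theorem mecke_le {f₀ : PhasePoint → ℝ} (hf : Measurable f₀) {ε : ℝ} {k : ℕ}
    {G : (n : ℕ) → (Fin k ↪ Fin n) → Config n → ℝ≥0∞} (hG : RelabelInv ε G)
    (hGm : ∀ n ι, Measurable (G n ι)) :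
    gcE f₀ ε (fun n Z => ∑ ι : Fin k ↪ Fin n, G n ι Z) ≤
      activity ε ^ k * ∫⁻ V : Config k, gcWeight f₀ ε k V *
        gcE f₀ ε (fun m w => G (k + m) (Fin.castAddEmb m) (Fin.append V w)) := by
  rw [mecke hf hG hGm]
  refine mul_le_mul_right (lintegral_mono fun V => mul_le_mul_right
    (gcE_mono f₀ ε fun m w _ => ?_) _) _
  unfold perpInd
  split_ifs <;> simp

end Crest.Agent.R122.GC311
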