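import Crest.Agent.R122.TreeMeas2_674
import Crest.Agent.R122.Follow_973
import Crest.Agent.R122.LocFlow_45
import Crest.Agent.R122.CausalNewton_291
import Crest.Agent.R122.GCMecke_311

/-!
Row 122, block C (helper674): **from labelled configurations to collision trees**.

`IsTree Φ ε t V j P e` : the configuration `V` (index type `κ`) is a separated collision tree of type
`P`, the leaf `x` being the particle `e x`, with root particle `j`.  The pair `(P, e)` is unique
(`isTree_unique`).  `tree_transport`: integrals over the labelled configurations of `k` particles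
which are collision trees = integrals over tree parameters.
-/

set_option autoImplicit false
set_option synthInstance.maxSize 1024

open MeasureTheory Set Filter Topology
open Crest.AnalysisR.Kinetic
open scoped ENNReal Classical

noncomputable section

namespace Crest.Agent.R122.Relabel674

open Kin796 Kin796.CTree Disc416 Scat818 Flow671 Flux663 Tree674 Final973 Causal291 GC311

variable {Φ : Space3 → ℝ} {ε t : ℝ}

/-- `V` is the tree of type `P` with labelling `e`, root particle `j` -/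
def IsTree (Φ : Space3 → ℝ) (ε t : ℝ) {κ : Type*} (V : κ → PhasePoint) (j : κ) (P : CTree)
    (e : Idx P ≃ κ) : Prop :=
  e (root P) = j ∧ ∃ (ℓ : PhasePoint) (p : Par P), Valid Φ ε P t ℓ.2 p ∧ Sep Φ ε P t ℓ p ∧
    ∀ x, V (e x) = lines Φ ε P ℓ p x

/-- `V` is a tree with root particle `j` -/
def TreeLike (Φ : Space3 → ℝ) (ε t : ℝ) {κ : Type*} (V : κ → PhasePoint) (j : κ) : Prop :=
  ∃ (P : CTree) (e : Idx P ≃ κ), IsTree Φ ε t V j P e

/-- separated skeletons -/
def SkS (Φ : Space3 → ℝ) (ε : ℝ) (P : CTree) (t : ℝ) : Set (Idx P → PhasePoint) :=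
  {W | ∃ (ℓ : PhasePoint) (p : Par P), Valid Φ ε P t ℓ.2 p ∧ Sep Φ ε P t ℓ p ∧
    lines Φ ε P ℓ p = W}

theorem isTree_iff {κ : Type*} {V : κ → PhasePoint} {j : κ} {P : CTree} {e : Idx P ≃ κ} :
    IsTree Φ ε t V j P e ↔ e (root P) = j ∧ (fun x => V (e x)) ∈ SkS Φ ε P t := by
  constructor
  · rintro ⟨h0, ℓ, p, h1, h2, h3⟩
    exact ⟨h0, ℓ, p, h1, h2, funext fun x => (h3 x).symm⟩
  · rintro ⟨h0, ℓ, p, h1, h2, h3⟩
    exact ⟨h0, ℓ, p, h1, h2, fun x => (congrFun h3 x).symm⟩

/-- The separated skeletons through the inverse. -/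
theorem mem_skS_iff (hΦ : AdmissiblePotential Φ) (hε : 0 < ε) {P : CTree}
    {W : Idx P → PhasePoint} : W ∈ SkS Φ ε P t ↔
      W ∈ Skel Φ ε P t ∧ Sep Φ ε P t (Tree674.inv Φ ε P t W).1 (Tree674.inv Φ ε P t W).2 := by
  constructor
  · rintro ⟨ℓ, p, h1, h2, rfl⟩
    refine ⟨⟨ℓ, p, h1, rfl⟩, ?_⟩
    rw [inv_lines hΦ hε h1 le_rfl]
    exact h2
  · rintro ⟨h1, h2⟩
    obtain ⟨h3, h4⟩ := lines_inv hΦ hε h1
    exact ⟨_, _, h3, h2, h4⟩

theorem measurableSet_skS (hΦ : AdmissiblePotential Φ) (hε : 0 < ε) (P : CTree) (t : ℝ) :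
    MeasurableSet (SkS Φ ε P t) := by
  have h : SkS Φ ε P t = Skel Φ ε P t ∩ (Tree674.inv Φ ε P t) ⁻¹'
      {z : PhasePoint × Par P | Valid Φ ε P t z.1.2 z.2 ∧ Sep Φ ε P t z.1 z.2} := by
    ext W
    rw [mem_skS_iff hΦ hε]
    constructor
    · rintro ⟨h1, h2⟩
      exact ⟨h1, (lines_inv hΦ hε h1).1, h2⟩
    · rintro ⟨h1, _, h2⟩
      exact ⟨h1, h2⟩
  rw [h]
  exact (measurableSet_skel hΦ hε P t).inter
    (measurable_inv hΦ hε P t (measurableSet_validSep hΦ hε P t))

/-- **Validity and separation are jointly measurable in the final time and the parameters.** -/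
theorem measurableSet_validSep2 (hΦ : AdmissiblePotential Φ) (hε : 0 < ε) (P : CTree) :
    MeasurableSet {q : ℝ × (PhasePoint × Par P) | Valid Φ ε P q.1 q.2.1.2 q.2.2 ∧
      Sep Φ ε P q.1 q.2.1 q.2.2} := by
  have hn : ∀ n : ℕ, MeasurableSet {q : ℝ × (PhasePoint × Par P) | q.1 ≤ (n : ℝ) ∧
      Valid Φ ε P q.1 q.2.1.2 q.2.2 ∧ Sep Φ ε P q.1 q.2.1 q.2.2} := by
    intro n
    set A : Set (ℝ × (PhasePoint × Par P)) :=
      {q | q.1 ≤ (n : ℝ) ∧ Valid Φ ε P q.1 q.2.1.2 q.2.2} with hAdef
    have hA : MeasurableSet A := (measurableSet_le measurable_fst measurable_const).inter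
      ((measurable_fst.prodMk (measurable_snd.fst.snd.prodMk measurable_snd.snd))
        (measurableSet_valid3 hΦ ε P))
    have hw : ∀ i j, Measurable fun q : ℝ × (PhasePoint × Par P) =>
        win Φ ε P i j q.2.1.2 q.2.2 := fun i j =>
      (measurable_win hΦ ε P i j).comp (measurable_snd.fst.snd.prodMk measurable_snd.snd)
    have hpu : ∀ u : ℝ, Measurable fun q : ℝ × (PhasePoint × Par P) =>
        pathM Φ ε P u q.2.1 q.2.2 := fun u =>
      (measurable_pathM hΦ ε P).comp (measurable_const.prodMk measurable_snd)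
    -- times before the final time
    have hpair : ∀ i j : Idx P, MeasurableSet {q : ℝ × (PhasePoint × Par P) | q ∈ A ∧
        ∀ u : Icc (0 : ℝ) n, 0 < min (q.1 - u) (min
          (max ((win Φ ε P i j q.2.1.2 q.2.2).1 - u) (u - (win Φ ε P i j q.2.1.2 q.2.2).2))
          (max ((win Φ ε P j i q.2.1.2 q.2.2).1 - u) (u - (win Φ ε P j i q.2.1.2 q.2.2).2))) →
          0 < dist (pathM Φ ε P u q.2.1 q.2.2 i).1 (pathM Φ ε P u q.2.1 q.2.2 j).1 - ε} := by
      intro i j
      refine measurableSet_forall_open (K := Icc (0 : ℝ) n)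
        (h := fun q u => min (q.1 - u) (min
          (max ((win Φ ε P i j q.2.1.2 q.2.2).1 - u) (u - (win Φ ε P i j q.2.1.2 q.2.2).2))
          (max ((win Φ ε P j i q.2.1.2 q.2.2).1 - u) (u - (win Φ ε P j i q.2.1.2 q.2.2).2))))
        (d := fun q u => dist (pathM Φ ε P u q.2.1 q.2.2 i).1 (pathM Φ ε P u q.2.1 q.2.2 j).1 - ε)
        ?_ ?_ hA ?_ ?_
      · intro u
        exact (measurable_fst.sub measurable_const).min
          ((((hw i j).fst.sub measurable_const).max (measurable_const.sub (hw i j).snd)).min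
          (((hw j i).fst.sub measurable_const).max (measurable_const.sub (hw j i).snd)))
      · intro u
        exact (((measurable_pi_apply i).comp (hpu u)).fst.dist
          ((measurable_pi_apply j).comp (hpu u)).fst).sub measurable_const
      · intro q _
        fun_prop
      · intro q hq
        have hq' : Valid Φ ε P q.1 q.2.1.2 q.2.2 := hq.2
        have hc := Tree674.continuous_path hΦ hε hq'
        have e : ∀ u : ℝ, pathM Φ ε P u q.2.1 q.2.2 = path Φ ε P q.2.1 q.2.2 u := fun u =>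
          pathM_of_adm hΦ ε u hq'.1
        simp only [e]
        have h1 : Continuous fun u : Icc (0 : ℝ) n => (path Φ ε P q.2.1 q.2.2 u i).1 :=
          (((continuous_apply i).comp hc).fst).comp continuous_subtype_val
        have h2 : Continuous fun u : Icc (0 : ℝ) n => (path Φ ε P q.2.1 q.2.2 u j).1 :=
          (((continuous_apply j).comp hc).fst).comp continuous_subtype_val
        exact (h1.dist h2).sub continuous_const
    -- the final time
    have hpT : Measurable fun q : ℝ × (PhasePoint × Par P) => pathM Φ ε P q.1 q.2.1 q.2.2 :=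
      measurable_pathM hΦ ε P
    have hfin : ∀ i j : Idx P, MeasurableSet {q : ℝ × (PhasePoint × Par P) | 0 ≤ q.1 ∧
        0 < min
          (max ((win Φ ε P i j q.2.1.2 q.2.2).1 - q.1) (q.1 - (win Φ ε P i j q.2.1.2 q.2.2).2))
          (max ((win Φ ε P j i q.2.1.2 q.2.2).1 - q.1) (q.1 - (win Φ ε P j i q.2.1.2 q.2.2).2)) →
          0 < dist (pathM Φ ε P q.1 q.2.1 q.2.2 i).1 (pathM Φ ε P q.1 q.2.1 q.2.2 j).1 - ε} := by
      intro i j
      refine MeasurableSet.imp ?_ ?_
      · exact (measurableSet_le measurable_const measurable_fst).inter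
          (measurableSet_lt measurable_const
            ((((hw i j).fst.sub measurable_fst).max (measurable_fst.sub (hw i j).snd)).min
            (((hw j i).fst.sub measurable_fst).max (measurable_fst.sub (hw j i).snd))))
      · exact measurableSet_lt measurable_const ((((measurable_pi_apply i).comp hpT).fst.dist
          ((measurable_pi_apply j).comp hpT).fst).sub measurable_const)
    have hall := hA.inter (MeasurableSet.iInter fun i => MeasurableSet.iInter fun j =>
      MeasurableSet.iInter fun _ : i ≠ j => (hpair i j).inter (hfin i j))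
    convert hall using 1
    ext q
    simp only [mem_ofPred_eq, mem_inter_iff, mem_iInter]
    have hnot : ∀ {S E u : ℝ}, ¬ (S ≤ u ∧ u ≤ E) ↔ 0 < max (S - u) (u - E) := by
      intro S E u
      rw [lt_max_iff, sub_pos, sub_pos, not_and_or, not_le, not_le]
    constructor
    · rintro ⟨hq, hv, hs⟩
      refine ⟨⟨hq, hv⟩, fun i j hij => ⟨⟨⟨hq, hv⟩, fun u hu => ?_⟩, fun hu => ?_⟩⟩
      · rw [pathM_of_adm hΦ ε _ hv.1, sub_pos]
        rw [lt_min_iff, lt_min_iff, ← hnot, ← hnot, ← win_iff hv.1, ← win_iff hv.1, sub_pos] at hu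
        exact hs i j hij u ⟨u.2.1, hu.1.le⟩ hu.2.1 hu.2.2
      · rw [pathM_of_adm hΦ ε _ hv.1, sub_pos]
        rw [lt_min_iff, ← hnot, ← hnot, ← win_iff hv.1, ← win_iff hv.1] at hu
        exact hs i j hij q.1 ⟨hu.1, le_rfl⟩ hu.2.1 hu.2.2
    · rintro ⟨⟨hq, hv⟩, hs⟩
      refine ⟨hq, hv, fun i j hij u hu h1 h2 => ?_⟩
      rcases hu.2.lt_or_eq with hlt | heq
      · have h := (hs i j hij).1.2 ⟨u, hu.1, hu.2.trans hq⟩ (by
          rw [lt_min_iff, lt_min_iff, ← hnot, ← hnot, ← win_iff hv.1, ← win_iff hv.1, sub_pos]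
          exact ⟨hlt, h1, h2⟩)
        rw [pathM_of_adm hΦ ε _ hv.1, sub_pos] at h
        exact h
      · subst heq
        have h := (hs i j hij).2 (by
          rw [lt_min_iff, ← hnot, ← hnot, ← win_iff hv.1, ← win_iff hv.1]
          exact ⟨hu.1, h1, h2⟩)
        rw [pathM_of_adm hΦ ε _ hv.1, sub_pos] at h
        exact h
  have e : {q : ℝ × (PhasePoint × Par P) | Valid Φ ε P q.1 q.2.1.2 q.2.2 ∧
      Sep Φ ε P q.1 q.2.1 q.2.2} = ⋃ n : ℕ, {q : ℝ × (PhasePoint × Par P) | q.1 ≤ (n : ℝ) ∧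
      Valid Φ ε P q.1 q.2.1.2 q.2.2 ∧ Sep Φ ε P q.1 q.2.1 q.2.2} := by
    ext q
    simp only [mem_ofPred_eq, mem_iUnion]
    constructor
    · intro h
      obtain ⟨n, hn⟩ := exists_nat_ge q.1
      exact ⟨n, hn, h⟩
    · rintro ⟨n, _, h⟩
      exact h
  rw [e]
  exact MeasurableSet.iUnion hn

/-! ### Uniqueness -/

section Unique

variable {κ : Type*} [Fintype κ]

/-- The Newton world of a tree configuration contains its tree. -/
theorem emb_of_isTree (hΦ : AdmissiblePotential Φ) (hε : 0 < ε) {V : κ → PhasePoint}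
    {P : CTree} {e : Idx P ≃ κ} {ℓ : PhasePoint} {p : Par P} (hv : Valid Φ ε P t ℓ.2 p)
    (hs : Sep Φ ε P t ℓ p) (hV : ∀ x, V (e x) = lines Φ ε P ℓ p x) :
    Emb Φ ε (pth Φ ε V) P t ℓ p e := by
  have hpath : ∀ u, 0 ≤ u → u ≤ t → ∀ x, pth Φ ε V u (e x) = path Φ ε P ℓ p u x := by
    intro u hu0 hu x
    have h1 := congrFun (Loc45.flow_equiv hΦ hε e u V) x
    have h2 : (fun i => V (e i)) = lines Φ ε P ℓ p := funext hV
    rw [h2] at h1
    rw [PathFlow968.path_eq_flow hΦ hε hv hs ⟨hu0, hu⟩]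
    exact h1.symm
  refine ⟨e.injective, ?_, ?_⟩
  · intro k u hu0 hu
    exact hpath u hu0 (hu.trans (Final973.prot_le P p k hε.le hv.2)) k
  · intro k u hu0 huT huk j hj
    obtain ⟨k', rfl⟩ := e.surjective j
    have h1 := hj k' rfl
    rw [hpath u hu0 huT.le, hpath u hu0 huT.le]
    refine hs k k' ?_ u ⟨hu0, huT.le⟩ ?_ ?_
    · rintro rfl
      exact absurd huk (not_le.2 h1)
    · intro hw
      exact absurd (inWindow_prot P hε.le hv.2 hw).2 (not_le.2 h1)
    · intro hw
      exact absurd (inWindow_prot P hε.le hv.2 hw).1 (not_le.2 h1)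

theorem follow_of_isTree (hΦ : AdmissiblePotential Φ) (hε : 0 < ε) {V : κ → PhasePoint} {j : κ}
    {P : CTree} {e : Idx P ≃ κ} (h : IsTree Φ ε t V j P e) : Follow (pth Φ ε V) ε P j t e := by
  obtain ⟨h0, ℓ, p, h1, h2, h3⟩ := h
  rw [← h0]
  exact follow_of_emb hε h1 h2 (emb_of_isTree hΦ hε h1 h2 h3)

/-- **The type and the labelling of a tree configuration are unique.** -/
theorem isTree_unique (hΦ : AdmissiblePotential Φ) (hε : 0 < ε) {V : κ → PhasePoint} {j : κ}
    {P P' : CTree} {e : Idx P ≃ κ} {e' : Idx P' ≃ κ} (h : IsTree Φ ε t V j P e)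
    (h' : IsTree Φ ε t V j P' e') :
    (⟨P, e⟩ : Σ P : CTree, (Idx P ≃ κ)) = ⟨P', e'⟩ := by
  have h1 := (follow_of_isTree hΦ hε h).unique (follow_of_isTree hΦ hε h')
  rw [Sigma.mk.inj_iff] at h1
  obtain ⟨rfl, h2⟩ := h1
  rw [heq_iff_eq] at h2
  have : e = e' := Equiv.ext fun x => congrFun h2 x
  rw [this]

end Unique

/-! ### Relabelling integrals -/

theorem lintegral_relabel {ι κ : Type*} [Fintype ι] [Fintype κ] (e : ι ≃ κ)
    (H : (κ → PhasePoint) → ℝ≥0∞) :
    ∫⁻ V : κ → PhasePoint, H V = ∫⁻ W : ι → PhasePoint, H (fun k => W (e.symm k)) := by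
  have h := volume_measurePreserving_piCongrLeft (fun _ : κ => PhasePoint) e
  have h2 := h.lintegral_comp_emb (MeasurableEquiv.measurableEmbedding _) H
  rw [← h2]
  refine lintegral_congr fun W => ?_
  congr 1
  ext i : 1
  obtain ⟨j, rfl⟩ := e.surjective i
  rw [MeasurableEquiv.coe_piCongrLeft]
  refine Eq.trans (Equiv.piCongrLeft_apply_apply (fun _ : κ => PhasePoint) e W j) ?_
  simp

/-- separated skeletons, final time depending on the configuration -/
def SkT (Φ : Space3 → ℝ) (ε : ℝ) (P : CTree) (τ : (Idx P → PhasePoint) → ℝ) :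
    Set (Idx P → PhasePoint) := {W | W ∈ SkS Φ ε P (τ W)}

/-- valid and separated parameters, final time depending on the configuration -/
def VST (Φ : Space3 → ℝ) (ε : ℝ) (P : CTree) (τ : (Idx P → PhasePoint) → ℝ) :
    Set (PhasePoint × Par P) :=
  {z | Valid Φ ε P (τ (lines Φ ε P z.1 z.2)) z.1.2 z.2 ∧
    Sep Φ ε P (τ (lines Φ ε P z.1 z.2)) z.1 z.2}

theorem measurableSet_VST (hΦ : AdmissiblePotential Φ) (hε : 0 < ε) {P : CTree}
    {τ : (Idx P → PhasePoint) → ℝ} (hτ : Measurable τ) : MeasurableSet (VST Φ ε P τ) := by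
  have e : VST Φ ε P τ = (fun z : PhasePoint × Par P => (τ (linesM Φ ε P z.1 z.2), z)) ⁻¹'
      {q : ℝ × (PhasePoint × Par P) | Valid Φ ε P q.1 q.2.1.2 q.2.2 ∧
        Sep Φ ε P q.1 q.2.1 q.2.2} := by
    ext z
    constructor
    · intro h
      show Valid Φ ε P (τ (linesM Φ ε P z.1 z.2)) z.1.2 z.2 ∧
        Sep Φ ε P (τ (linesM Φ ε P z.1 z.2)) z.1 z.2
      rw [linesM_of_adm ε h.1.1]
      exact h
    · intro h
      have h' : Valid Φ ε P (τ (linesM Φ ε P z.1 z.2)) z.1.2 z.2 ∧
        Sep Φ ε P (τ (linesM Φ ε P z.1 z.2)) z.1 z.2 := h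
      rw [linesM_of_adm ε h'.1.1] at h'
      exact h'
  rw [e]
  exact ((hτ.comp (measurable_linesM hΦ ε P)).prodMk measurable_id)
    (measurableSet_validSep2 hΦ hε P)

/-- the separated skeletons through the inverse at a larger time -/
theorem mem_skT_iff (hΦ : AdmissiblePotential Φ) (hε : 0 < ε) {P : CTree}
    {τ : (Idx P → PhasePoint) → ℝ} {T : ℝ} (hT : ∀ W, τ W ≤ T) {W : Idx P → PhasePoint} :
    W ∈ SkT Φ ε P τ ↔ W ∈ Skel Φ ε P T ∧ Tree674.inv Φ ε P T W ∈ VST Φ ε P τ := by
  constructor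
  · rintro ⟨ℓ, p, h1, h2, h3⟩
    have h4 := (valid_iff_top (hT W)).1 h1
    have h5 : Tree674.inv Φ ε P T W = (ℓ, p) := by
      rw [← h3]; exact inv_lines hΦ hε h4.1 le_rfl
    refine ⟨⟨ℓ, p, h4.1, h3⟩, ?_⟩
    rw [h5]
    show Valid Φ ε P (τ (lines Φ ε P ℓ p)) ℓ.2 p ∧ Sep Φ ε P (τ (lines Φ ε P ℓ p)) ℓ p
    rw [h3]
    exact ⟨h1, h2⟩
  · rintro ⟨h1, h2⟩
    obtain ⟨_, h4⟩ := lines_inv hΦ hε h1
    obtain ⟨h5, h6⟩ := h2
    rw [h4] at h5 h6
    exact ⟨_, _, h5, h6, h4⟩

/-- Integral over the separated skeletons in tree parameters. -/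
theorem lintegral_skT (hΦ : AdmissiblePotential Φ) (hε : 0 < ε) (P : CTree)
    {τ : (Idx P → PhasePoint) → ℝ} (hτ : Measurable τ) {T : ℝ} (hT : ∀ W, τ W ≤ T)
    {G : (Idx P → PhasePoint) → ℝ≥0∞} (hG : Measurable G) :
    ∫⁻ W : Idx P → PhasePoint, (SkT Φ ε P τ).indicator G W =
      ENNReal.ofReal (ε ^ 2) ^ P.size * ∫⁻ z : PhasePoint × Par P,
        (VST Φ ε P τ).indicator (fun z => wt Φ P z.1.2 z.2 * G (lines Φ ε P z.1 z.2)) z := by
  set A : Set (PhasePoint × Par P) := VST Φ ε P τ with hA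
  have hAm : MeasurableSet A := measurableSet_VST hΦ hε hτ
  have h := treeMeasure hΦ hε P T (H := fun q => A.indicator 1 q.1 * G q.2)
    (((measurable_one.indicator hAm).comp measurable_fst).mul (hG.comp measurable_snd))
  have e1 : ∀ z : PhasePoint × Par P,
      {z : PhasePoint × Par P | Valid Φ ε P T z.1.2 z.2}.indicator (fun z => wt Φ P z.1.2 z.2 *
        (A.indicator (1 : PhasePoint × Par P → ℝ≥0∞) z * G (lines Φ ε P z.1 z.2))) z =
      A.indicator (fun z => wt Φ P z.1.2 z.2 * G (lines Φ ε P z.1 z.2)) z := by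
    intro z
    by_cases h1 : z ∈ A
    · have h2 : z ∈ {z : PhasePoint × Par P | Valid Φ ε P T z.1.2 z.2} :=
        ((valid_iff_top (hT _)).1 h1.1).1
      rw [indicator_of_mem h2, indicator_of_mem h1, indicator_of_mem h1, Pi.one_apply, one_mul]
    · rw [indicator_of_notMem h1]
      by_cases h2 : z ∈ {z : PhasePoint × Par P | Valid Φ ε P T z.1.2 z.2}
      · rw [indicator_of_mem h2, indicator_of_notMem h1, zero_mul, mul_zero]
      · rw [indicator_of_notMem h2]
  have e2 : ∀ W : Idx P → PhasePoint, (Skel Φ ε P T).indicator (fun W =>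
      A.indicator (1 : PhasePoint × Par P → ℝ≥0∞) (Tree674.inv Φ ε P T W) * G W) W =
      (SkT Φ ε P τ).indicator G W := by
    intro W
    by_cases h1 : W ∈ Skel Φ ε P T
    · rw [indicator_of_mem h1]
      by_cases h4 : Tree674.inv Φ ε P T W ∈ A
      · have h3 : W ∈ SkT Φ ε P τ := (mem_skT_iff hΦ hε hT).2 ⟨h1, h4⟩
        rw [indicator_of_mem h3, indicator_of_mem h4, Pi.one_apply, one_mul]
      · have h3 : W ∉ SkT Φ ε P τ := fun h => h4 ((mem_skT_iff hΦ hε hT).1 h).2
        rw [indicator_of_notMem h3, indicator_of_notMem h4, zero_mul]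
    · have h3 : W ∉ SkT Φ ε P τ := fun h => h1 ((mem_skT_iff hΦ hε hT).1 h).1
      rw [indicator_of_notMem h3, indicator_of_notMem h1]
  simp only [e1, e2] at h
  exact h.symm

theorem measurableSet_skT (hΦ : AdmissiblePotential Φ) (hε : 0 < ε) (P : CTree)
    {τ : (Idx P → PhasePoint) → ℝ} (hτ : Measurable τ) {T : ℝ} (hT : ∀ W, τ W ≤ T) :
    MeasurableSet (SkT Φ ε P τ) := by
  have h : SkT Φ ε P τ = Skel Φ ε P T ∩ (Tree674.inv Φ ε P T) ⁻¹' VST Φ ε P τ := by
    ext W
    exact mem_skT_iff hΦ hε hT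
  rw [h]
  exact (measurableSet_skel hΦ hε P T).inter
    (measurable_inv hΦ hε P T (measurableSet_VST hΦ hε hτ))

/-! ### The transport theorem -/

/-- a fixed enumeration of the particles of a tree -/
def eP (P : CTree) : Idx P ≃ Fin P.leaves := Fintype.equivFinOfCardEq (card_idx P)

/-- labelled configuration of a tree -/
def confOf (P : CTree) (W : Idx P → PhasePoint) : Config P.leaves := fun i => W ((eP P).symm i)

theorem measurable_confOf (P : CTree) : Measurable (confOf P) :=
  measurable_pi_iff.2 fun _ => measurable_pi_apply _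

/-- relabelling covariance (on excluded configurations) -/
def Cov (ε : ℝ) {β : Type*} (F : (k : ℕ) → Config k → Fin k → β) : Prop :=
  ∀ (k : ℕ) (σ : Equiv.Perm (Fin k)) (V : Config k) (j : Fin k), V ∈ PairExcluded ε k →
    F k (fun i => V (σ i)) j = F k V (σ j)

/-- the sum over the roots of a tree configuration as a sum over types and labellings -/
theorem sum_treeLike (hΦ : AdmissiblePotential Φ) (hε : 0 < ε) {k : ℕ} (V : Config k)
    (τ : Fin k → ℝ) (f : Fin k → ℝ≥0∞) :
    ∑ j : Fin k, (if TreeLike Φ ε (τ j) V j then f j else 0) =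
      ∑' P : CTree, ∑ e : Idx P ≃ Fin k,
        (if (fun x => V (e x)) ∈ SkS Φ ε P (τ (e (root P))) then f (e (root P)) else 0) := by
  have h1 : ∀ j : Fin k, (if TreeLike Φ ε (τ j) V j then f j else 0) =
      ∑' q : (Σ P : CTree, (Idx P ≃ Fin k)),
        (if IsTree Φ ε (τ j) V j q.1 q.2 then f j else 0) := by
    intro j
    by_cases h : TreeLike Φ ε (τ j) V j
    · rw [if_pos h]
      obtain ⟨P, e, hPe⟩ := h
      rw [tsum_eq_single (⟨P, e⟩ : Σ P : CTree, (Idx P ≃ Fin k))]
      · rw [if_pos hPe]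
      · rintro ⟨P', e'⟩ hne
        rw [if_neg]
        intro h'
        exact hne (isTree_unique hΦ hε h' hPe)
    · rw [if_neg h]
      symm
      rw [ENNReal.tsum_eq_zero]
      rintro ⟨P, e⟩
      rw [if_neg]
      exact fun h' => h ⟨P, e, h'⟩
  simp only [h1]
  rw [← Summable.tsum_finsetSum fun _ _ => ENNReal.summable, ENNReal.tsum_sigma']
  refine tsum_congr fun P => ?_
  rw [tsum_fintype]
  refine Finset.sum_congr rfl fun e _ => ?_
  have h2 : ∀ j : Fin k, (if IsTree Φ ε (τ j) V j P e then f j else 0) =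
      if j = e (root P) then
        (if (fun x => V (e x)) ∈ SkS Φ ε P (τ (e (root P))) then f (e (root P)) else 0)
      else 0 := by
    intro j
    by_cases hj : j = e (root P)
    · subst hj
      rw [if_pos rfl]
      congr 1
      exact propext ⟨fun h => (isTree_iff.1 h).2, fun h => isTree_iff.2 ⟨rfl, h⟩⟩
    · rw [if_neg hj, if_neg]
      exact fun h => hj h.1.symm
  simp only [h2]
  rw [Finset.sum_ite_eq' Finset.univ (e (root P))]
  simp

theorem skS_excluded (hε : 0 < ε) (ht : 0 ≤ t) {P : CTree}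
    {W : Idx P → PhasePoint} (hW : W ∈ SkS Φ ε P t) {x y : Idx P} (hxy : x ≠ y) :
    ε < dist (W x).1 (W y).1 := by
  obtain ⟨ℓ, p, h1, h2, rfl⟩ := hW
  exact PathFlow968.Sep.zero hε.le ht h1.2 h2 hxy

theorem confOf_excluded (hε : 0 < ε) (ht : 0 ≤ t) {P : CTree}
    {W : Idx P → PhasePoint} (hW : W ∈ SkS Φ ε P t) : confOf P W ∈ PairExcluded ε P.leaves := by
  intro i j hij
  exact skS_excluded hε ht hW fun h => hij ((eP P).symm.injective h)

theorem treeLike_excluded (hε : 0 < ε) (ht : 0 ≤ t) {k : ℕ} {V : Config k} {j : Fin k}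
    (h : TreeLike Φ ε t V j) : V ∈ PairExcluded ε k := by
  obtain ⟨P, e, h1⟩ := h
  intro i i' hi
  have h2 := skS_excluded hε ht (isTree_iff.1 h1).2 (x := e.symm i) (y := e.symm i')
    (fun h => hi (e.symm.injective h))
  simpa using h2

/-- the final time of a tree, in terms of the configuration of its particles -/
def tauP (τ : (k : ℕ) → Config k → Fin k → ℝ) (P : CTree) (W : Idx P → PhasePoint) : ℝ :=
  τ P.leaves (confOf P W) (eP P (root P))

theorem measurable_tauP {τ : (k : ℕ) → Config k → Fin k → ℝ}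
    (hτm : ∀ k j, Measurable fun V => τ k V j) (P : CTree) : Measurable (tauP τ P) :=
  (hτm P.leaves (eP P (root P))).comp (measurable_confOf P)

/-- **Transport, skeleton form**: integrals over labelled tree configurations. -/
theorem tree_transport_skel (hΦ : AdmissiblePotential Φ) (hε : 0 < ε)
    {τ : (k : ℕ) → Config k → Fin k → ℝ} (hτ : Cov ε τ)
    (hτm : ∀ k j, Measurable fun V => τ k V j) (hτ0 : ∀ k V j, 0 ≤ τ k V j)
    {T : ℝ} (hτT : ∀ k V j, τ k V j ≤ T)
    {F : (k : ℕ) → Config k → Fin k → ℝ≥0∞} (hF : Cov ε F)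
    (hFm : ∀ k j, Measurable fun V => F k V j) (k : ℕ) :
    ∫⁻ V : Config k, ∑ j : Fin k, (if TreeLike Φ ε (τ k V j) V j then F k V j else 0) =
      ∑' P : CTree, if P.leaves = k then (k.factorial : ℝ≥0∞) *
        ∫⁻ W : Idx P → PhasePoint, (SkT Φ ε P (tauP τ P)).indicator
          (fun W => F P.leaves (confOf P W) (eP P (root P))) W else 0 := by
  -- membership for a labelling
  have hms : ∀ (P : CTree) (e : Idx P ≃ Fin k), MeasurableSet
      {V : Config k | (fun x => V (e x)) ∈ SkS Φ ε P (τ k V (e (root P)))} := by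
    intro P e
    have hm1 : Measurable fun V : Config k => (fun x => V (e x)) :=
      measurable_pi_iff.2 fun x => measurable_pi_apply (e x)
    have hm2 : Measurable fun W : Idx P → PhasePoint =>
        τ k (fun i => W (e.symm i)) (e (root P)) :=
      (hτm k (e (root P))).comp (measurable_pi_iff.2 fun i => measurable_pi_apply _)
    have h1 := hm1 (measurableSet_skT hΦ hε P hm2 (fun W => hτT _ _ _))
    convert h1 using 1
    ext V
    show (fun x => V (e x)) ∈ SkS Φ ε P (τ k V (e (root P))) ↔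
      (fun x => V (e x)) ∈ SkS Φ ε P (τ k (fun i => V (e (e.symm i))) (e (root P)))
    simp only [Equiv.apply_symm_apply]
  have hm : ∀ (P : CTree) (e : Idx P ≃ Fin k), Measurable fun V : Config k =>
      (if (fun x => V (e x)) ∈ SkS Φ ε P (τ k V (e (root P))) then
        F k V (e (root P)) else 0) := fun P e =>
    Measurable.ite (hms P e) (hFm k _) measurable_const
  have e0 : ∀ V : Config k, ∑ j : Fin k,
      (if TreeLike Φ ε (τ k V j) V j then F k V j else 0) =
      ∑' P : CTree, ∑ e : Idx P ≃ Fin k,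
        (if (fun x => V (e x)) ∈ SkS Φ ε P (τ k V (e (root P))) then
          F k V (e (root P)) else 0) := fun V =>
    sum_treeLike hΦ hε V (τ k V) (F k V)
  simp only [e0]
  rw [lintegral_tsum fun P => (Finset.measurable_sum _ fun e _ => hm P e).aemeasurable]
  refine tsum_congr fun P => ?_
  rw [lintegral_finsetSum _ fun e _ => hm P e]
  by_cases hP : P.leaves = k
  · subst hP
    rw [if_pos rfl]
    have h1 : ∀ e : Idx P ≃ Fin P.leaves, ∫⁻ V : Config P.leaves,
        (if (fun x => V (e x)) ∈ SkS Φ ε P (τ P.leaves V (e (root P))) then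
          F P.leaves V (e (root P)) else 0) =
        ∫⁻ W : Idx P → PhasePoint, (SkT Φ ε P (tauP τ P)).indicator
          (fun W => F P.leaves (confOf P W) (eP P (root P))) W := by
      intro e
      rw [lintegral_relabel e]
      refine lintegral_congr fun W => ?_
      have h2 : (fun x => W (e.symm (e x))) = W := by
        funext x; rw [Equiv.symm_apply_apply]
      rw [h2]
      have h4 : (fun i => confOf P W ((e.symm.trans (eP P)) i)) = fun i => W (e.symm i) := by
        funext i
        simp [confOf]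
      have h5 : (e.symm.trans (eP P)) (e (root P)) = eP P (root P) := by simp
      -- the relabelled values, on excluded configurations
      have hrel : ∀ {β : Type} (F' : (k : ℕ) → Config k → Fin k → β), Cov ε F' →
          confOf P W ∈ PairExcluded ε P.leaves →
          F' P.leaves (fun i => W (e.symm i)) (e (root P)) =
            F' P.leaves (confOf P W) (eP P (root P)) := by
        intro β F' hF' hex
        have h3 := hF' P.leaves (e.symm.trans (eP P)) (confOf P W) (e (root P)) hex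
        rw [h4, h5] at h3
        exact h3
      have hex' : (fun i => W (e.symm i)) ∈ PairExcluded ε P.leaves ↔
          confOf P W ∈ PairExcluded ε P.leaves := by
        rw [← h4]
        exact pairExcluded_comp_iff _ _
      by_cases hex : confOf P W ∈ PairExcluded ε P.leaves
      · rw [hrel τ hτ hex, hrel F hF hex]
        by_cases hW : W ∈ SkT Φ ε P (tauP τ P)
        · rw [indicator_of_mem hW]
          exact if_pos hW
        · rw [indicator_of_notMem hW]
          exact if_neg hW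
      · have hn1 : W ∉ SkT Φ ε P (tauP τ P) := fun h =>
          hex (confOf_excluded hε (hτ0 _ _ _) h)
        have hn2 : W ∉ SkS Φ ε P (τ P.leaves (fun i => W (e.symm i)) (e (root P))) := fun h =>
          hex (confOf_excluded hε (hτ0 _ _ _) h)
        rw [indicator_of_notMem hn1, if_neg hn2]
    simp only [h1]
    rw [Finset.sum_const, Finset.card_univ, Fintype.card_equiv (eP P), card_idx, nsmul_eq_mul]
  · rw [if_neg hP]
    have hem : IsEmpty (Idx P ≃ Fin k) := by
      refine ⟨fun e => hP ?_⟩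
      have := Fintype.card_congr e
      rwa [card_idx, Fintype.card_fin] at this
    exact Finset.sum_eq_zero fun e _ => (hem.false e).elim

theorem activity_mul (hε : 0 < ε) : activity ε * ENNReal.ofReal (ε ^ 2) = 1 := by
  unfold activity
  rw [← ENNReal.ofReal_mul (by positivity), inv_mul_cancel₀ (by positivity), ENNReal.ofReal_one]

theorem activity_pow_mul (hε : 0 < ε) (P : CTree) :
    activity ε ^ P.leaves * ENNReal.ofReal (ε ^ 2) ^ P.size = activity ε := by
  rw [leaves_eq, pow_succ, mul_right_comm, ← mul_pow, activity_mul hε, one_pow, one_mul]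

/-- **Transport theorem (d)**, final time depending on the configuration: grand canonical integrals
over labelled tree configurations are integrals over tree parameters. -/
theorem tree_transport_tau (hΦ : AdmissiblePotential Φ) (hε : 0 < ε)
    {τ : (k : ℕ) → Config k → Fin k → ℝ} (hτ : Cov ε τ)
    (hτm : ∀ k j, Measurable fun V => τ k V j) (hτ0 : ∀ k V j, 0 ≤ τ k V j)
    {T : ℝ} (hτT : ∀ k V j, τ k V j ≤ T)
    {F : (k : ℕ) → Config k → Fin k → ℝ≥0∞} (hF : Cov ε F)
    (hFm : ∀ k j, Measurable fun V => F k V j) (k : ℕ) :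
    activity ε ^ k / (k.factorial : ℝ≥0∞) *
      ∫⁻ V : Config k, ∑ j : Fin k, (if TreeLike Φ ε (τ k V j) V j then F k V j else 0) =
      activity ε * ∑' P : CTree, if P.leaves = k then ∫⁻ z : PhasePoint × Par P,
        (VST Φ ε P (tauP τ P)).indicator
          (fun z => wt Φ P z.1.2 z.2 *
            F P.leaves (confOf P (lines Φ ε P z.1 z.2)) (eP P (root P))) z else 0 := by
  rw [tree_transport_skel hΦ hε hτ hτm hτ0 hτT hF hFm k, ← ENNReal.tsum_mul_left,
    ← ENNReal.tsum_mul_left]
  refine tsum_congr fun P => ?_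
  by_cases hP : P.leaves = k
  · subst hP
    rw [if_pos rfl, if_pos rfl, lintegral_skT hΦ hε P (measurable_tauP hτm P)
      (fun W => hτT _ _ _)
      (G := fun W => F P.leaves (confOf P W) (eP P (root P)))
      ((hFm P.leaves (eP P (root P))).comp (measurable_confOf P))]
    have hf0 : ((P.leaves).factorial : ℝ≥0∞) ≠ 0 := by
      exact_mod_cast (Nat.factorial_pos _).ne'
    have hft : ((P.leaves).factorial : ℝ≥0∞) ≠ ∞ := ENNReal.natCast_ne_top _
    have h1 : activity ε ^ P.leaves / ((P.leaves).factorial : ℝ≥0∞) *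
        ((P.leaves).factorial : ℝ≥0∞) = activity ε ^ P.leaves :=
      ENNReal.div_mul_cancel hf0 hft
    rw [← mul_assoc, h1, ← mul_assoc, activity_pow_mul hε P]
  · rw [if_neg hP, if_neg hP, mul_zero, mul_zero]

/-- **Transport theorem (d)** at a fixed time. -/
theorem tree_transport (hΦ : AdmissiblePotential Φ) (hε : 0 < ε) (ht : 0 ≤ t)
    {F : (k : ℕ) → Config k → Fin k → ℝ≥0∞} (hF : Cov ε F)
    (hFm : ∀ k j, Measurable fun V => F k V j) (k : ℕ) :
    activity ε ^ k / (k.factorial : ℝ≥0∞) *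
      ∫⁻ V : Config k, ∑ j : Fin k, (if TreeLike Φ ε t V j then F k V j else 0) =
      activity ε * ∑' P : CTree, if P.leaves = k then ∫⁻ z : PhasePoint × Par P,
        {z : PhasePoint × Par P | Valid Φ ε P t z.1.2 z.2 ∧ Sep Φ ε P t z.1 z.2}.indicator
          (fun z => wt Φ P z.1.2 z.2 *
            F P.leaves (confOf P (lines Φ ε P z.1 z.2)) (eP P (root P))) z else 0 :=
  tree_transport_tau hΦ hε (τ := fun _ _ _ => t) (fun _ _ _ _ _ => rfl)
    (fun _ _ => measurable_const) (fun _ _ _ => ht) (fun _ _ _ => le_rfl) hF hFm k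

end Crest.Agent.R122.Relabel674

end
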