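import Crest.Agent.R122.HitG1_167
import Crest.Agent.R122.PathCausal_968

/-!
# Ghost hits of trees (row 122, helper317)

For a valid separated tree `(ℓ, p)` at time `σ > 0`, with isolated world `pth Φ ε (lines ..)`:

* `mem_preAct_iff`: the exploration of `(root, σ⁻)` is `{m | s ≤ prot P σ p m}`;
* `preAct_zero`, `aloneAt`, `tauPre_eq`;
* `goodGhostHit_iff`: `GoodGhostHit` of `Hit167` in tree form.
-/

set_option autoImplicit false

open Set Filter Topology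
open Crest.AnalysisR.Kinetic

namespace Crest.Agent.R122.TreeHit317

open Kin796 Kin796.CTree Tree674 Flow671 Loc45 Causal291 PathFlow968 Hit167

variable {Φ : Space3 → ℝ} {ε : ℝ}

/-- A valid tree at time `σ` is valid at slightly earlier times. -/
theorem exists_earlier : ∀ {P : CTree} {σ : ℝ} {v : Space3} {p : Par P}, Valid Φ ε P σ v p →
    ∀ {s : ℝ}, s < σ → ∃ r ∈ Ioo s σ, Valid Φ ε P r v p
  | leaf, σ, v, p, _, s, hs => ⟨(s + σ) / 2, ⟨by linarith, by linarith⟩, trivial, trivial⟩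
  | node l r, σ, v, p, h, s, hs => by
      have h1 : p.1.1 < σ := h.2.1
      have h2 : max s p.1.1 < σ := max_lt hs h1
      refine ⟨(max s p.1.1 + σ) / 2, ⟨?_, by linarith⟩, h.1, ?_, h.2.2⟩
      · have := le_max_left s p.1.1
        linarith
      · have := le_max_right s p.1.1
        linarith

theorem sep_mono {P : CTree} {σ r : ℝ} {ℓ : PhasePoint} {p : Par P} (h : Sep Φ ε P σ ℓ p)
    (hr : r ≤ σ) : Sep Φ ε P r ℓ p :=
  fun i j hij u hu => h i j hij u ⟨hu.1, hu.2.trans hr⟩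

section

variable {P : CTree} {σ : ℝ} {ℓ : PhasePoint} {p : Par P}

/-- The protected time of a non-root particle is strictly before `σ`. -/
theorem prot_lt (hε : 0 < ε) (hσ : 0 < σ) (hv : Valid Φ ε P σ ℓ.2 p) {k : Idx P}
    (hk : k ≠ root P) : prot P σ p k < σ := by
  obtain ⟨r, hr, hv'⟩ := exists_earlier hv hσ
  rw [prot_eq_of_ne P σ r p hk]
  exact (prot_le hε.le P r ℓ.2 p hv'.2 k).trans_lt hr.2

/-- **Exploration before the hitting time.** -/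
theorem mem_preAct_iff (hΦ : AdmissiblePotential Φ) (hε : 0 < ε) (hσ : 0 < σ)
    (hv : Valid Φ ε P σ ℓ.2 p) (hs : Sep Φ ε P σ ℓ p) {s : ℝ} (h0 : 0 ≤ s) (hsσ : s < σ)
    {k : Idx P} :
    k ∈ preAct (pth Φ ε (lines Φ ε P ℓ p)) ε (root P) σ s ↔ s ≤ prot P σ p k := by
  constructor
  · rintro ⟨r', hr', hp⟩
    exact (past_world_iff hΦ hε hσ.le hv hs h0).1 (Past.extend hr'.2.le hp)
  · intro h
    by_cases hk : k = root P
    · subst hk
      exact mem_preAct_self hsσ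
    · obtain ⟨r, hr, hv'⟩ := exists_earlier hv hsσ
      rw [prot_eq_of_ne P σ r p hk] at h
      exact ⟨r, ⟨hr.1.le, hr.2⟩, (past_world_iff hΦ hε (h0.trans hr.1.le) hv'
        (sep_mono hs hr.2.le) h0).2 h⟩

theorem preAct_zero (hΦ : AdmissiblePotential Φ) (hε : 0 < ε) (hσ : 0 < σ)
    (hv : Valid Φ ε P σ ℓ.2 p) (hs : Sep Φ ε P σ ℓ p) :
    preAct (pth Φ ε (lines Φ ε P ℓ p)) ε (root P) σ 0 = univ := by
  ext k
  simp only [mem_univ, iff_true]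
  exact (mem_preAct_iff hΦ hε hσ hv hs le_rfl hσ).2 (prot_nonneg hε.le P hσ.le ℓ.2 p hv.2 k)

/-- The hitter is alone. -/
theorem aloneAt (hΦ : AdmissiblePotential Φ) (hε : 0 < ε) (hσ : 0 < σ)
    (hv : Valid Φ ε P σ ℓ.2 p) (hs : Sep Φ ε P σ ℓ p) :
    AloneAt (pth Φ ε (lines Φ ε P ℓ p)) ε (root P) σ := by
  intro i hi
  have h1 : pth Φ ε (lines Φ ε P ℓ p) σ = path Φ ε P ℓ p σ :=
    (path_eq_flow hΦ hε hv hs ⟨hσ.le, le_rfl⟩).symm
  rw [h1]
  refine hs (root P) i (Ne.symm hi) σ ⟨hσ.le, le_rfl⟩ (fun h => ?_) (fun h => ?_)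
  · exact absurd (InWindow.mem hε.le P σ ℓ.2 p hv.2 _ _ _ h).2 (lt_irrefl σ)
  · exact absurd (InWindow.mem hε.le P σ ℓ.2 p hv.2 _ _ _ h).2 (lt_irrefl σ)

/-- Protected times. -/
theorem tauPre_eq (hΦ : AdmissiblePotential Φ) (hε : 0 < ε) (hσ : 0 < σ)
    (hv : Valid Φ ε P σ ℓ.2 p) (hs : Sep Φ ε P σ ℓ p) (k : Idx P) :
    tauPre (pth Φ ε (lines Φ ε P ℓ p)) ε (root P) σ k = prot P σ p k := by
  by_cases hk : k = root P
  · subst hk
    rw [tauPre_self, prot_root]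
  · have hp0 := prot_nonneg hε.le P hσ.le ℓ.2 p hv.2 k
    have hlt := prot_lt hε hσ hv hk
    unfold tauPre
    refine le_antisymm (csSup_le ⟨_, hlt, (mem_preAct_iff hΦ hε hσ hv hs hp0 hlt).2 le_rfl⟩ ?_) ?_
    · rintro s ⟨h1, h2⟩
      rcases le_total s 0 with h3 | h3
      · exact h3.trans hp0
      · exact (mem_preAct_iff hΦ hε hσ hv hs h3 h1).1 h2
    · exact le_csSup ⟨σ, fun s h => h.1.le⟩ ⟨hlt, (mem_preAct_iff hΦ hε hσ hv hs hp0 hlt).2 le_rfl⟩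

variable {α : Type*} {c : α → ℝ → Space3} {θ : α → ℝ}

/-- **Good ghost hits of a tree.** -/
theorem goodGhostHit_iff (hΦ : AdmissiblePotential Φ) (hε : 0 < ε) (hσ : 0 < σ)
    (hv : Valid Φ ε P σ ℓ.2 p) (hs : Sep Φ ε P σ ℓ p) :
    GoodGhostHit (pth Φ ε (lines Φ ε P ℓ p)) ε c θ (root P) σ ↔
      (∃ a, σ ≤ θ a ∧ dist (c a σ) (onLine ℓ σ).1 ≤ ε) ∧
      ∀ u ∈ Ico 0 σ, ∀ m, u ≤ prot P σ p m → ∀ a, u ≤ θ a →
        ε < dist (c a u) (path Φ ε P ℓ p u m).1 := by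
  have hpath : ∀ u ∈ Icc 0 σ, pth Φ ε (lines Φ ε P ℓ p) u = path Φ ε P ℓ p u := fun u hu =>
    (path_eq_flow hΦ hε hv hs hu).symm
  have hroot : pth Φ ε (lines Φ ε P ℓ p) σ (root P) = onLine ℓ σ :=
    flow_root hΦ hε hσ.le hv hs
  constructor
  · intro h
    refine ⟨?_, fun u hu m hm a ha => ?_⟩
    · obtain ⟨a, ha, hd⟩ := h.hits
      rw [hroot] at hd
      exact ⟨a, ha, hd⟩
    · by_contra hle
      push Not at hle
      refine h.unhit u hu m ((mem_preAct_iff hΦ hε hσ hv hs hu.1 hu.2).2 hm) ⟨a, ha, ?_⟩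
      rw [hpath u ⟨hu.1, hu.2.le⟩]
      exact hle
  · rintro ⟨⟨a, ha, hd⟩, h2⟩
    refine ⟨⟨a, ha, ?_⟩, preAct_zero hΦ hε hσ hv hs, ?_⟩
    · rw [hroot]
      exact hd
    · rintro u hu m hm ⟨b, hb, hd'⟩
      rw [hpath u ⟨hu.1, hu.2.le⟩] at hd'
      exact absurd (h2 u hu m ((mem_preAct_iff hΦ hε hσ hv hs hu.1 hu.2).1 hm) b hb)
        (not_lt.2 hd')

end

end Crest.Agent.R122.TreeHit317
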