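import Crest.Agent.R122.GIVDefs_566
import Crest.Agent.R122.HitG4_167
import Crest.Agent.R122.TreeHit_317
import Crest.Agent.R122.Relabel_674

/-!
# The first-hit identity in tree form: definitions (row 122, helper317, block F, I1)

* `ptubes Φ ε P ℓ p σ` : protected tubes of a tree with root time `σ`;
* `sigHit`, `FirstAt` : first hitting time of the root, first good hit;
* `Hgh Φ f₀ ε P S tw t` : mass of the first good hits in `[tw, t)` by trees of type `P`;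
* `clTubes`, `treeCls`, `hitMassG`, `errC` : the same in configuration form.
-/

set_option autoImplicit false

open MeasureTheory Set Filter
open scoped Classical ENNReal Topology
open Crest.AnalysisR.Kinetic

noncomputable section

namespace Crest.Agent.R122.IStep317

open Kin796 Kin796.CTree Tree674 Flow671 Loc45 Causal291 PathFlow968 Hit167 GC311 GIV566
  TreeHit317 Relabel674

/-- Protected tubes of a tree with root time `σ`. -/
def ptubes (Φ : Space3 → ℝ) (ε : ℝ) (P : CTree) (ℓ : PhasePoint) (p : Par P) (σ : ℝ) :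
    Tubes (Idx P) := ⟨fun m u => (path Φ ε P ℓ p u m).1, fun m => prot P σ p m⟩

/-- First time at which the root of the tree hits the family `S`. -/
def sigHit (Φ : Space3 → ℝ) (ε : ℝ) (P : CTree) {ι : Type} (S : Tubes ι)
    (z : PhasePoint × Par P) : ℝ :=
  sInf {s | 0 ≤ s ∧ ∃ i, s ≤ S.b i ∧ dist (S.c i s) (path Φ ε P z.1 z.2 s (root P)).1 ≤ ε}

/-- First good hit of `S` at time `σ` by the tree `z`. -/
structure FirstAt (Φ : Space3 → ℝ) (ε : ℝ) (P : CTree) {ι : Type} (S : Tubes ι)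
    (z : PhasePoint × Par P) (σ : ℝ) : Prop where
  valid : Valid Φ ε P σ z.1.2 z.2
  sep : Sep Φ ε P σ z.1 z.2
  hit : ∃ i, σ ≤ S.b i ∧ dist (S.c i σ) (onLine z.1 σ).1 ≤ ε
  first : ∀ u ∈ Ico 0 σ, ∀ m, u ≤ prot P σ z.2 m → ∀ i, u ≤ S.b i →
    ε < dist (S.c i u) (path Φ ε P z.1 z.2 u m).1

/-- Mass of the first good hits of `S` in `[tw, t)` by trees of type `P`, weighted by the
probability that `S` and the protected tubes of the tree are unhit. -/
def Hgh (Φ : Space3 → ℝ) (f₀ : PhasePoint → ℝ) (ε : ℝ) (P : CTree) {ι : Type} (S : Tubes ι)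
    (tw t : ℝ) : ℝ≥0∞ :=
  activity ε * ∫⁻ z : PhasePoint × Par P,
    if sigHit Φ ε P S z ∈ Ico tw t ∧ 0 < sigHit Φ ε P S z ∧
        FirstAt Φ ε P S z (sigHit Φ ε P S z) then
      wt Φ P z.1.2 z.2 * ((∏ x, ENNReal.ofReal (f₀ (lines Φ ε P z.1 z.2 x))) *
        uG Φ f₀ ε (S.sum (ptubes Φ ε P z.1 z.2 (sigHit Φ ε P S z))) (sigHit Φ ε P S z))
    else 0

/-- Protected tubes of the cluster `V` with root `j` at time `σ`. -/
def clTubes (Φ : Space3 → ℝ) (ε : ℝ) {k : ℕ} (V : Config k) (j : Fin k) (σ : ℝ) : Tubes (Fin k) :=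
  ⟨fun i u => (pth Φ ε V u i).1, fun i => tauPre (pth Φ ε V) ε j σ i⟩

/-- The class of tree clusters. -/
def treeCls (Φ : Space3 → ℝ) (ε : ℝ) : Cls := fun _ V j σ => TreeLike Φ ε σ V j

/-- First hitting time of the particle `j` of the isolated world of `V`. -/
def hT (Φ : Space3 → ℝ) (ε : ℝ) {ι : Type} (S : Tubes ι) {k : ℕ} (V : Config k) (j : Fin k) : ℝ :=
  hitTime (pth Φ ε V) ε S.c S.b 0 j

/-- `hitMass` with the ghost avoidance probability. -/
def hitMassG (Φ : Space3 → ℝ) (f₀ : PhasePoint → ℝ) (ε : ℝ) {ι : Type} (S : Tubes ι) (𝒢 : Cls)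
    (tw t : ℝ) (k : ℕ) : ℝ≥0∞ :=
  activity ε ^ k / (k.factorial : ℝ≥0∞) * ∫⁻ V : Config k, gcWeight f₀ ε k V *
    ∑ j : Fin k, ind (hT Φ ε S V j ∈ Ico tw t ∧ GoodV Φ ε S.c S.b 𝒢 V j (hT Φ ε S V j)) *
      uG Φ f₀ ε (S.sum (clTubes Φ ε V j (hT Φ ε S V j))) (hT Φ ε S V j)

/-- Error (c): real versus ghost avoidance for one cluster. -/
def errC (Φ : Space3 → ℝ) (f₀ : PhasePoint → ℝ) (ε : ℝ) {ι : Type} (S : Tubes ι) (𝒢 : Cls)
    (tw t : ℝ) (k : ℕ) : ℝ≥0∞ :=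
  activity ε ^ k / (k.factorial : ℝ≥0∞) * ∫⁻ V : Config k, gcWeight f₀ ε k V *
    ∑ j : Fin k, ind (hT Φ ε S V j ∈ Ico tw t ∧ GoodV Φ ε S.c S.b 𝒢 V j (hT Φ ε S V j)) *
      adiff (restE f₀ Φ ε S.c S.b V j (hT Φ ε S V j))
        (uG Φ f₀ ε (S.sum (clTubes Φ ε V j (hT Φ ε S V j))) (hT Φ ε S V j))

/-! ### The hitting time of a tree -/

section tree

variable {Φ : Space3 → ℝ} {f₀ : PhasePoint → ℝ} {ε : ℝ} {P : CTree} {ι : Type} {S : Tubes ι}
  {z : PhasePoint × Par P} {σ : ℝ}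

theorem FirstAt.sigHit_eq (hε : 0 < ε) (hσ : 0 ≤ σ) (h : FirstAt Φ ε P S z σ) :
    sigHit Φ ε P S z = σ := by
  have hroot : path Φ ε P z.1 z.2 σ (root P) = onLine z.1 σ :=
    path_root_after hε.le h.valid.2 le_rfl
  refine le_antisymm (csInf_le ⟨0, fun s hs => hs.1⟩ ⟨hσ, ?_⟩) ?_
  · obtain ⟨i, hi, hd⟩ := h.hit
    exact ⟨i, hi, by rw [hroot]; exact hd⟩
  · refine le_csInf ?_ ?_
    · obtain ⟨i, hi, hd⟩ := h.hit
      exact ⟨σ, hσ, i, hi, by rw [hroot]; exact hd⟩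
    · rintro s ⟨hs0, i, hi, hd⟩
      by_contra hlt
      push Not at hlt
      have := h.first s ⟨hs0, hlt⟩ (root P) (by rw [PathFlow968.prot_root]; exact hlt.le) i hi
      exact absurd this (not_lt.2 hd)

/-- `FirstAt` in the coordinates of `Hit167`. -/
theorem firstAt_iff (hΦ : AdmissiblePotential Φ) (hε : 0 < ε) (hσ : 0 < σ) :
    FirstAt Φ ε P S z σ ↔ Valid Φ ε P σ z.1.2 z.2 ∧ Sep Φ ε P σ z.1 z.2 ∧
      GoodGhostHit (pth Φ ε (lines Φ ε P z.1 z.2)) ε S.c S.b (root P) σ := by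
  constructor
  · rintro ⟨h1, h2, h3, h4⟩
    exact ⟨h1, h2, (goodGhostHit_iff hΦ hε hσ h1 h2).2 ⟨h3, h4⟩⟩
  · rintro ⟨h1, h2, h3⟩
    obtain ⟨h4, h5⟩ := (goodGhostHit_iff hΦ hε hσ h1 h2).1 h3
    exact ⟨h1, h2, h4, h5⟩

end tree

/-! ### Relabelling -/

section relabel

variable {Φ : Space3 → ℝ} {f₀ : PhasePoint → ℝ} {ε : ℝ}

theorem hitsAt_relabel {α ι ι' : Type*} {c : α → ℝ → Space3} {θ : α → ℝ} (g : ι → ι')
    {z : ℝ → ι' → PhasePoint} {s : ℝ} {k : ι} :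
    HitsAt (fun s i => z s (g i)) ε c θ s k ↔ HitsAt z ε c θ s (g k) := Iff.rfl

theorem hitTime_relabel {α ι ι' : Type*} {c : α → ℝ → Space3} {θ : α → ℝ} (g : ι → ι')
    {z : ℝ → ι' → PhasePoint} {t₀ : ℝ} {k : ι} :
    hitTime (fun s i => z s (g i)) ε c θ t₀ k = hitTime z ε c θ t₀ (g k) := rfl

theorem goodGhostHit_relabel {α : Type*} {ι ι' : Type*} {c : α → ℝ → Space3} {θ : α → ℝ}
    (g : ι ≃ ι') {z : ℝ → ι' → PhasePoint} {j : ι} {σ : ℝ} :
    GoodGhostHit (fun s i => z s (g i)) ε c θ j σ ↔ GoodGhostHit z ε c θ (g j) σ := by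
  constructor
  · rintro ⟨h1, h2, h3⟩
    refine ⟨h1, ?_, ?_⟩
    · rw [preAct_relabel g] at h2
      have := congrArg (fun A => g '' A) h2
      simpa [image_preimage_eq _ g.surjective] using this
    · intro s hs k hk
      obtain ⟨k, rfl⟩ := g.surjective k
      refine h3 s hs k ?_
      rw [preAct_relabel g]
      exact hk
  · rintro ⟨h1, h2, h3⟩
    refine ⟨h1, ?_, ?_⟩
    · rw [preAct_relabel g, h2, preimage_univ]
    · intro s hs k hk
      rw [preAct_relabel g] at hk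
      exact h3 s hs (g k) hk

theorem tauPre_relabel {ι ι' : Type*} (g : ι ≃ ι') {z : ℝ → ι' → PhasePoint} {j k : ι} {σ : ℝ} :
    tauPre (fun s i => z s (g i)) ε j σ k = tauPre z ε (g j) σ (g k) := by
  unfold tauPre
  congr 1
  ext s
  simp only [mem_ofPred_eq]
  rw [preAct_relabel g]
  rfl

/-- The avoidance probability does not depend on the labelling of the tubes. -/
theorem uG_congr_tubes {ι ι' : Type} (e : ι' ≃ ι) {S : Tubes ι} {S' : Tubes ι'} {t : ℝ}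
    (hb : ∀ i, S'.b i = S.b (e i)) (hc : ∀ i, ∀ s ∈ Icc 0 (min (S'.b i) t), S'.c i s = S.c (e i) s) :
    uG Φ f₀ ε S' t = uG Φ f₀ ε S t := by
  unfold uG unhitInd
  congr 1
  funext n w
  have : unhit Φ ε S' t w ↔ unhit Φ ε S t w := by
    constructor
    · intro h i j s hs
      obtain ⟨i, rfl⟩ := e.surjective i
      rw [← hb] at hs
      have := h i j s hs
      rwa [hc i s hs] at this
    · intro h i j s hs
      rw [hc i s hs]
      rw [hb] at hs
      exact h (e i) j s hs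
  simp only [this]

end relabel

end Crest.Agent.R122.IStep317
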