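import Crest.Agent.R122.RtGKey_302
import Crest.Agent.R122.EFam_879
import Crest.Agent.R122.MWFam3_255
import Crest.Agent.R122.EBasic_602
import Crest.Agent.R122.IDefs_317

/-!
# Deterministic dichotomy for H12 / F3 / forests (row 122), helper302

`w` a gas world, `ls : Ex → ML` finitely many exit lines, `O` a family of tubes.

* `near ε O v q` : an active curve of `O` is within `ε` of `q` at time `v`.
* `AllOk`, `LinkEx`, `RetEx`, `RetLn` : the exceptional events (not good, link between two exit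
  lines, return of the influence of an untouched exit line to `O`, return of an exit line to `O`).
* `Shadow.det`, `Shadow.det_exit` : if at time `v ≤ u₀` a particle of `w` is near `O` in exactly one
  of the worlds `w` (alone) and `X` (real world), resp. a released member is near `O` in `X`, then
  an exit line has touched `w` by the time `v`, or one of the exceptional events holds.
* `Cut` : the history of the root of a tree, cut at time `v`; `RealTree.cut`, `Cut.shadow`,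
  `Cut.det`, `Cut.h12` (ghost hit of the protected tubes).
-/

set_option autoImplicit false
set_option linter.unusedSectionVars false

open MeasureTheory Set Filter Topology
open Crest.AnalysisR.Kinetic
open Crest.Agent.R122.Flow671 Crest.Agent.R122.Loc45 Crest.Agent.R122.Ins45
open Crest.Agent.R122.Causal291 Crest.Agent.R122.Inf879 Crest.Agent.R122.EDefs602
open Crest.Agent.R122.Kin796 Crest.Agent.R122.Kin796.CTree Crest.Agent.R122.Tree674
open Crest.Agent.R122.PathFlow968 Crest.Agent.R122.TreeLines335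
open Crest.Agent.R122.Decomp811 Crest.Agent.R122.MWAlg255 Crest.Agent.R122.GIV566

namespace Crest.Agent.R122.RtG302

noncomputable section

open scoped Classical

/-! ### The exceptional events -/

section defs

variable {m : ℕ} {Ex ι : Type} [Fintype Ex]

/-- An active curve of `O` is within `ε` of `q` at time `v`. -/
def near (ε : ℝ) (O : Tubes ι) (v : ℝ) (q : Space3) : Prop := ∃ a, v ≤ O.b a ∧ dist (O.c a v) q ≤ ε

/-- Some world `w +` (sub-family of the exit lines) is not good. -/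
def AllOk (Φ : Space3 → ℝ) (ε : ℝ) (w : Config m) (ls : Ex → ML) : Prop :=
  MW.OkFam Φ ε (MW.cfg w) ls

/-- Two exit lines are linked in `w` before the first touch. -/
def LinkEx (Φ : Space3 → ℝ) (ε : ℝ) (K : ℕ) (u₀ : ℝ) (w : Config m) (ls : Ex → ML) : Prop :=
  ¬ MWFam255.PairNL Φ ε K u₀ (MW.cfg w) ls

/-- Return of the influence of the line `l` to `O` before the line touches: an influenced particle
of `w` is near `O` in the world `w` or in the world `w + l`. -/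
def RetL (Φ : Space3 → ℝ) (ε : ℝ) (K : ℕ) (u₀ : ℝ) (w : Config m) (l : ML) (O : Tubes ι) : Prop :=
  ∃ v ∈ Icc 0 u₀, ¬ (MW.cfg w).Touched Φ ε K (MW.line l) v ∧
    ∃ i, (MW.cfg w).Fut Φ ε (MW.line l) v i ∧
      (near ε O v (pth Φ ε w v i).1 ∨
        near ε O v (((MW.cfg w).ins l).path Φ ε v (Sum.inl i)).1)

/-- Return of the line `l` to `O`, after its birth and before it touches. -/
def RetM (Φ : Space3 → ℝ) (ε : ℝ) (K : ℕ) (u₀ : ℝ) (w : Config m) (l : ML) (O : Tubes ι) : Prop :=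
  ∃ v ∈ Icc 0 u₀, ¬ (MW.cfg w).Touched Φ ε K (MW.line l) v ∧ l.1.1 < v ∧
    near ε O v (((MW.cfg w).ins l).path Φ ε v (Sum.inr ())).1

/-- Return of the influence of an exit line to `O`. -/
def RetEx (Φ : Space3 → ℝ) (ε : ℝ) (K : ℕ) (u₀ : ℝ) (w : Config m) (ls : Ex → ML) (O : Tubes ι) :
    Prop := ∃ x, RetL Φ ε K u₀ w (ls x) O

/-- Return of an exit line to `O`. -/
def RetLn (Φ : Space3 → ℝ) (ε : ℝ) (K : ℕ) (u₀ : ℝ) (w : Config m) (ls : Ex → ML) (O : Tubes ι) :
    Prop := ∃ x, RetM Φ ε K u₀ w (ls x) O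

theorem near_mono {ε : ℝ} {O : Tubes ι} {κ : Type} {O' : Tubes κ} {v : ℝ} {q : Space3}
    (hO : ∀ a, v ≤ O.b a → ∃ a', v ≤ O'.b a' ∧ O'.c a' v = O.c a v) (h : near ε O v q) :
    near ε O' v q := by
  obtain ⟨a, ha, h⟩ := h
  obtain ⟨a', ha', h'⟩ := hO a ha
  exact ⟨a', ha', by rwa [h']⟩

end defs

/-! ### The dichotomy -/

section det

variable {κ' Ex κ ι : Type} [Fintype κ'] [Fintype Ex] [Fintype κ]
variable {Φ : Space3 → ℝ} {ε v u₀ : ℝ} {K : ℕ} {G : Str κ' Ex} {m : ℕ} {X : κ → PhasePoint}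
  {e : κ' → κ} {g : Fin m → κ} {O : Tubes ι}

/-- A family of exit lines which has touched by the time `v`: one of its lines has touched, or there
is a link. -/
theorem exists_touch (hΦ : AdmissiblePotential Φ) (hε : 0 < ε) {w : Config m} {ls : Ex → ML}
    (hOk : AllOk Φ ε w ls) (hv : v ∈ Icc 0 u₀) {S : Finset Ex}
    (h : (MW.cfg w).Touched Φ ε K (sub ls S) v) :
    (∃ x ∈ S, (MW.cfg w).thetaL Φ ε K u₀ (ls x) ≤ v) ∨ LinkEx Φ ε K u₀ w ls := by
  by_cases hl : LinkEx Φ ε K u₀ w ls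
  · exact Or.inr hl
  left
  unfold LinkEx at hl
  rw [not_not] at hl
  have h0 : 0 ≤ u₀ := hv.1.trans hv.2
  have h1 : (MW.cfg w).theta Φ ε K u₀ (sub ls S) ≤ v := MW.theta_le_of_touched hv h
  rw [MW.theta_sub_eq_fold hΦ hε hOk (MWFam255.noLinkFam hΦ hε h0 hOk hl) h0,
    Finset.fold_min_le] at h1
  rcases h1 with h1 | h1
  · linarith [hv.2]
  · exact h1

theorem not_touched_line (hΦ : AdmissiblePotential Φ) (hε : 0 < ε) {w : Config m} {ls : Ex → ML}
    (hOk : AllOk Φ ε w ls) (hl : ¬ LinkEx Φ ε K u₀ w ls) (hv : v ∈ Icc 0 u₀) {S : Finset Ex}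
    (h : ¬ (MW.cfg w).Touched Φ ε K (sub ls S) v) {x : Ex} (hx : x ∈ S) :
    ¬ (MW.cfg w).Touched Φ ε K (MW.line (ls x)) v := by
  unfold LinkEx at hl
  rw [not_not] at hl
  have hok := MWFam255.okF_of_okFam hΦ hε hOk
  intro ht
  have h1 := MWFam255.lt_thetaL_of_sub hΦ hε hok (hl.noLk S) hv h hx
  have h2 := (MW.touched_iff hΦ hε hok.z (hok.line hΦ hε x) (T := u₀) hv).1 ht
  exact absurd h2 (not_le.2 h1)

/-- **Dichotomy**, particles of the gas. -/
theorem Shadow.det (hΦ : AdmissiblePotential Φ) (hε : 0 < ε) (h : Shadow Φ ε G v X e g)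
    (hv : v ∈ Icc 0 u₀) (hOk : AllOk Φ ε (fun i => X (g i)) G.ls) {i : Fin m}
    (hi : ¬ (near ε O v (pth Φ ε (fun i => X (g i)) v i).1 ↔
      near ε O v (pth Φ ε X v (g i)).1)) :
    (∃ x, (MW.cfg fun i => X (g i)).thetaL Φ ε K u₀ (G.ls x) ≤ v) ∨
      LinkEx Φ ε K u₀ (fun i => X (g i)) G.ls ∨ RetEx Φ ε K u₀ (fun i => X (g i)) G.ls O := by
  set w : Config m := fun i => X (g i) with hw
  have hZ : (MW.cfg w).Ok Φ ε := MW.OkFam.base hΦ hε hOk
  have hZA : ((MW.cfg w).add (sub G.ls (G.born v))).Ok Φ ε := hOk _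
  have hpath : ((MW.cfg w).add (sub G.ls (G.born v))).path Φ ε v (Sum.inl i) =
      pth Φ ε X v (g i) := h.path_eq hΦ hε hv.1 hZA.bw ⟨hv.1, le_rfl⟩ i
  have hpw : (MW.cfg w).path Φ ε v i = pth Φ ε w v i := by
    rw [EBasic602.cfg_path hΦ hε]
  have hF : (MW.cfg w).Fut Φ ε (sub G.ls (G.born v)) v i := by
    by_contra hno
    have h1 := MW.path_eq_of_not_fut hΦ hε hZ hZA hv.1 hno
    rw [hpath, hpw] at h1
    rw [h1] at hi
    exact hi Iff.rfl
  by_cases hT : (MW.cfg w).Touched Φ ε K (sub G.ls (G.born v)) v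
  · rcases exists_touch hΦ hε hOk hv hT with ⟨x, _, hx⟩ | hl
    · exact Or.inl ⟨x, hx⟩
    · exact Or.inr (Or.inl hl)
  by_cases hl : LinkEx Φ ε K u₀ w G.ls
  · exact Or.inr (Or.inl hl)
  refine Or.inr (Or.inr ?_)
  have hok := MWFam255.okF_of_okFam hΦ hε hOk
  have hl' := hl
  unfold LinkEx at hl'
  rw [not_not] at hl'
  obtain ⟨f1, -, f3⟩ := MWFam255.fut_sub hΦ hε hok (hl'.noLk (G.born v)) hv hT
  obtain ⟨x, hx, hxi⟩ := (f1 i).1 hF
  refine ⟨x, v, hv, not_touched_line hΦ hε hOk hl hv hT hx, i, hxi, ?_⟩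
  rw [← f3 x hx i hxi, hpath]
  by_contra hno
  push Not at hno
  exact hi ⟨fun h => absurd h hno.1, fun h => absurd h hno.2⟩

/-- **Dichotomy**, released members. -/
theorem Shadow.det_exit (hΦ : AdmissiblePotential Φ) (hε : 0 < ε) (h : Shadow Φ ε G v X e g)
    (hv : v ∈ Icc 0 u₀) (hOk : AllOk Φ ε (fun i => X (g i)) G.ls) {k : κ'} (hk : G.σ k < v)
    (hi : near ε O v (pth Φ ε X v (e k)).1) :
    (∃ x, (MW.cfg fun i => X (g i)).thetaL Φ ε K u₀ (G.ls x) ≤ v) ∨
      LinkEx Φ ε K u₀ (fun i => X (g i)) G.ls ∨ RetLn Φ ε K u₀ (fun i => X (g i)) G.ls O := by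
  set w : Config m := fun i => X (g i) with hw
  have hZA : ((MW.cfg w).add (sub G.ls (G.born v))).Ok Φ ε := hOk _
  obtain ⟨x, rfl⟩ := h.exits k hk
  have hxv : x ∈ G.born v := Str.mem_born.2 hk
  have hpath : ((MW.cfg w).add (sub G.ls (G.born v))).path Φ ε v (Sum.inr ⟨x, hxv⟩) =
      pth Φ ε X v (e (G.j x)) := h.path_eq_exit hΦ hε hv.1 hZA.bw ⟨hv.1, le_rfl⟩ ⟨x, hxv⟩ hk.le
  by_cases hT : (MW.cfg w).Touched Φ ε K (sub G.ls (G.born v)) v
  · rcases exists_touch hΦ hε hOk hv hT with ⟨x, _, hx⟩ | hl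
    · exact Or.inl ⟨x, hx⟩
    · exact Or.inr (Or.inl hl)
  by_cases hl : LinkEx Φ ε K u₀ w G.ls
  · exact Or.inr (Or.inl hl)
  refine Or.inr (Or.inr ⟨x, v, hv, not_touched_line hΦ hε hOk hl hv hT hxv, ?_, ?_⟩)
  · rw [G.birth]; exact hk
  · have hok := MWFam255.okF_of_okFam hΦ hε hOk
    have hl' := hl
    unfold LinkEx at hl'
    rw [not_not] at hl'
    obtain ⟨-, f2, -⟩ := MWFam255.fut_sub hΦ hε hok (hl'.noLk (G.born v)) hv hT
    rw [← f2 x hxv, hpath]
    exact hi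

end det

/-! ### Trees -/

section tree

variable {κ ι : Type} [Fintype κ]
variable {Φ : Space3 → ℝ} {ε T v u₀ : ℝ} {K : ℕ} {P : CTree} {z : PhasePoint × Par P}

/-- Up to time `v` the protected legs of the tree `z` (horizon `T`) are in the world of `Z` on their
paths, at distance more than `ε` from everybody who is not protected. -/
structure Cut (Φ : Space3 → ℝ) (ε T v : ℝ) {κ : Type} [Fintype κ] (Z : κ → PhasePoint) (P : CTree)
    (z : PhasePoint × Par P) (e : Idx P → κ) : Prop where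
  inj : Function.Injective e
  agree : ∀ k s, 0 ≤ s → s ≤ v → s ≤ prot P T z.2 k →
    pth Φ ε Z s (e k) = path Φ ε P z.1 z.2 s k
  avoid : ∀ s ∈ Icc 0 v, ∀ k, s ≤ prot P T z.2 k → ∀ j, (∀ m, e m = j → prot P T z.2 m < s) →
    ε < dist (path Φ ε P z.1 z.2 s k).1 (pth Φ ε Z s j).1

theorem Cut.mono {Z : κ → PhasePoint} {e : Idx P → κ} {v' : ℝ} (h : Cut Φ ε T v Z P z e)
    (hv : v' ≤ v) : Cut Φ ε T v' Z P z e where
  inj := h.inj
  agree k s h0 hs hk := h.agree k s h0 (hs.trans hv) hk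
  avoid s hs := h.avoid s ⟨hs.1, hs.2.trans hv⟩

theorem _root_.Crest.Agent.R122.RealTree674.RealTree.cut {t : ℝ} {Z : κ → PhasePoint} {i : κ}
    {ℓ : PhasePoint} {p : Par P} {e : Idx P → κ}
    (h : RealTree674.RealTree Φ ε t Z i P ℓ p e) : Cut Φ ε t t Z P (ℓ, p) e where
  inj := h.inj
  agree k s h0 _ hk := h.agree k s h0 hk
  avoid _ hs _ hk _ hj := h.avoid hs hk hj

/-- The protected tubes (root protected up to the horizon). -/
def protT (Φ : Space3 → ℝ) (ε : ℝ) (P : CTree) (T : ℝ) (z : PhasePoint × Par P) : Tubes (Idx P) :=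
  ⟨fun k s => (path Φ ε P z.1 z.2 s k).1, prot P T z.2⟩

theorem protT_eq (P : CTree) (T : ℝ) (z : PhasePoint × Par P) :
    protT Φ ε P T z = IStep317.ptubes Φ ε P z.1 z.2 T := rfl

variable {k m : ℕ} {V : Config k} {w : Config m}

theorem Cut.shadow (_hΦ : AdmissiblePotential Φ) (hε : 0 < ε) (hT : 0 ≤ T)
    (hV : Valid Φ ε P T z.1.2 z.2) (hvT : v ≤ T)
    (hX : Fin.append V w ∈ Dom Φ (Fin (k + m))) (e : Idx P ≃ Fin k)
    (h : Cut Φ ε T v (Fin.append V w) P z (Fin.castAdd m ∘ e)) :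
    Shadow Φ ε (treeStr Φ ε P T z hε hT hV) v (Fin.append V w) (Fin.castAdd m ∘ e)
      (Fin.natAdd k) where
  dom := hX
  e_inj := h.inj
  g_inj := Fin.natAdd_injective _ _
  cover q := by
    refine Fin.addCases (fun a => ?_) (fun b => ?_) q
    · exact Or.inl ⟨e.symm a, by simp⟩
    · exact Or.inr ⟨b, rfl⟩
  disj x i := by
    intro hc
    have := congrArg Fin.val hc
    simp only [Function.comp_apply, Fin.val_castAdd, Fin.val_natAdd] at this
    have := (e x).2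
    omega
  exits x hx := ⟨⟨x, tree_exits hvT hx⟩, rfl⟩
  agree x s h0 hs hx := h.agree x s h0 hs hx
  iso s hs x hx q hq := by
    rw [h.agree x s hs.1 hs.2.le hx]
    exact (h.avoid s ⟨hs.1, hs.2.le⟩ x hx q hq).le

/-- **Dichotomy for trees**, particles of the gas. -/
theorem Cut.det {O : Tubes ι} (hΦ : AdmissiblePotential Φ) (hε : 0 < ε) (hT : 0 ≤ T)
    (hV : Valid Φ ε P T z.1.2 z.2) (hvT : v ≤ T) (hv : v ∈ Icc 0 u₀)
    (hX : Fin.append V w ∈ Dom Φ (Fin (k + m))) (e : Idx P ≃ Fin k)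
    (h : Cut Φ ε T v (Fin.append V w) P z (Fin.castAdd m ∘ e))
    (hOk : AllOk Φ ε w (exL Φ ε P z)) {i : Fin m}
    (hi : ¬ (near ε O v (pth Φ ε w v i).1 ↔
      near ε O v (pth Φ ε (Fin.append V w) v (Fin.natAdd k i)).1)) :
    (∃ x, (MW.cfg w).thetaL Φ ε K u₀ (exL Φ ε P z x) ≤ v) ∨
      LinkEx Φ ε K u₀ w (exL Φ ε P z) ∨ RetEx Φ ε K u₀ w (exL Φ ε P z) O := by
  have hS := h.shadow hΦ hε hT hV hvT hX e
  have hw : (fun i => (Fin.append V w) (Fin.natAdd k i)) = w := by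
    funext i; simp
  have := hS.det (K := K) (O := O) hΦ hε hv (i := i)
  rw [hw] at this
  exact this hOk hi

/-- **Dichotomy for trees**, released members. -/
theorem Cut.det_exit {O : Tubes ι} (hΦ : AdmissiblePotential Φ) (hε : 0 < ε) (hT : 0 ≤ T)
    (hV : Valid Φ ε P T z.1.2 z.2) (hvT : v ≤ T) (hv : v ∈ Icc 0 u₀)
    (hX : Fin.append V w ∈ Dom Φ (Fin (k + m))) (e : Idx P ≃ Fin k)
    (h : Cut Φ ε T v (Fin.append V w) P z (Fin.castAdd m ∘ e))
    (hOk : AllOk Φ ε w (exL Φ ε P z)) {x : Idx P} (hx : prot P T z.2 x < v)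
    (hi : near ε O v (pth Φ ε (Fin.append V w) v (Fin.castAdd m (e x))).1) :
    (∃ x, (MW.cfg w).thetaL Φ ε K u₀ (exL Φ ε P z x) ≤ v) ∨
      LinkEx Φ ε K u₀ w (exL Φ ε P z) ∨ RetLn Φ ε K u₀ w (exL Φ ε P z) O := by
  have hS := h.shadow hΦ hε hT hV hvT hX e
  have hw : (fun i => (Fin.append V w) (Fin.natAdd k i)) = w := by
    funext i; simp
  have := hS.det_exit (K := K) (O := O) hΦ hε hv (k := x)
  rw [hw] at this
  exact this hOk hx hi

/-- **H12, deterministic part**: the protected legs are isolated in the real world up to `v`, but a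
particle of `w` (alone) hits a protected tube by the time `v`. -/
theorem Cut.h12 (hΦ : AdmissiblePotential Φ) (hε : 0 < ε) (hT : 0 ≤ T)
    (hV : Valid Φ ε P T z.1.2 z.2) (hvT : v ≤ T) (hv : v ∈ Icc 0 u₀)
    (hX : Fin.append V w ∈ Dom Φ (Fin (k + m))) (e : Idx P ≃ Fin k)
    (h : Cut Φ ε T v (Fin.append V w) P z (Fin.castAdd m ∘ e))
    (hOk : AllOk Φ ε w (exL Φ ε P z)) (hi : ¬ unhit Φ ε (protT Φ ε P T z) v w) :
    (∃ x, (MW.cfg w).thetaL Φ ε K u₀ (exL Φ ε P z x) ≤ v) ∨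
      LinkEx Φ ε K u₀ w (exL Φ ε P z) ∨ RetEx Φ ε K u₀ w (exL Φ ε P z) (protT Φ ε P T z) := by
  unfold unhit at hi
  push Not at hi
  obtain ⟨a, j, s, hs, hd⟩ := hi
  have hsv : s ≤ v := hs.2.trans (min_le_right _ _)
  have hsa : s ≤ prot P T z.2 a := hs.2.trans (min_le_left _ _)
  have h1 : near ε (protT Φ ε P T z) s (pth Φ ε w s j).1 := ⟨a, hsa, hd⟩
  have h2 : ¬ near ε (protT Φ ε P T z) s (pth Φ ε (Fin.append V w) s (Fin.natAdd k j)).1 := by
    rintro ⟨a', ha', hd'⟩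
    refine absurd hd' (not_le.2 (h.avoid s ⟨hs.1, hsv⟩ a' ha' _ fun b hb => ?_))
    exfalso
    have := congrArg Fin.val hb
    simp only [Function.comp_apply, Fin.val_castAdd, Fin.val_natAdd] at this
    have := (e b).2
    omega
  rcases (h.mono hsv).det (K := K) (u₀ := u₀) (O := protT Φ ε P T z) hΦ hε hT hV (hsv.trans hvT)
    ⟨hs.1, hsv.trans hv.2⟩ hX e hOk (i := j) (fun hc => h2 (hc.1 h1)) with ⟨x, hx⟩ | h3
  · exact Or.inl ⟨x, hx.trans hsv⟩
  · exact Or.inr h3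

end tree

end

end Crest.Agent.R122.RtG302
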