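import Crest.Agent.R122.LNTreeRA_399
import Crest.Agent.R122.LNLinkEx_818
import Crest.Agent.R122.LinkDefs_547
import Crest.Agent.R122.RtGDet_302

/-!
# Row 122, LN1: the deterministic alternative for trees, statement (helper399)

* `Xg`, `Cg` : paths and contacts of the glued world of a world `W` embedded by `f` (tree instance).
* `HitT` : BadHit in the glued world of the gas or of the gas and one exit line.
* `RunS` : run of length `L` from a member of a sub-structure of the tree.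
* `RAT` : reachability of everything which is influenced by an exit line up to its touch time, or
  one of the alternatives: run, bad partition, bad hit.
-/

set_option autoImplicit false
set_option linter.unusedSectionVars false
open MeasureTheory Set Filter
open scoped Classical ENNReal Topology
open Crest.AnalysisR.Kinetic
open Crest.Agent.R122.GIV566 Crest.Agent.R122.VL581 Crest.Agent.R122.LN304
open Crest.Agent.R122.LNTree410 Crest.Agent.R122.PWInst442 Crest.Agent.R122.PWGlue491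
open Crest.Agent.R122.LNPart424 Crest.Agent.R122.EDefs602 Crest.Agent.R122.TreeLines335
open Crest.Agent.R122.Kin796 Crest.Agent.R122.Kin796.CTree Crest.Agent.R122.Tree674
open Crest.Agent.R122.RtG302

noncomputable section

namespace Crest.Agent.R122.LNTree399

/-! ### The glued worlds -/

/-- Paths of the glued world of `W`. -/
abbrev Xg (Φ : Space3 → ℝ) (t ε : ℝ) {n : ℕ} {P : CTree} (z : PhasePoint × Par P) (w : Config n)
    {ι : Type} [Fintype ι] (W : MW ι) (f : ι ↪ Fin n ⊕ Idx P) : ℝ → Fin n ⊕ Idx P → PhasePoint :=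
  XG (Mt Φ t ε n P) (Zt Φ ε w z) (Sp fun _ : Unit => eT n P) (bD W f) (labs f) (XD W f Φ ε)

/-- Contacts of the glued world of `W`. -/
abbrev Cg (Φ : Space3 → ℝ) (t ε : ℝ) {n : ℕ} {P : CTree} (z : PhasePoint × Par P) (w : Config n)
    {ι : Type} [Fintype ι] (W : MW ι) (f : ι ↪ Fin n ⊕ Idx P) :
    ℝ → Fin n ⊕ Idx P → Fin n ⊕ Idx P → Prop :=
  CG (Mt Φ t ε n P) (Zt Φ ε w z) (Sp fun _ : Unit => eT n P) (bD W f) (labs f) (XD W f Φ ε)

/-- BadHit in the glued world of `W`. -/
def HitW (Φ : Space3 → ℝ) (t c ε : ℝ) (N : ℕ) {n : ℕ} {P : CTree} (z : PhasePoint × Par P)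
    (w : Config n) {ι : Type} [Fintype ι] (W : MW ι) (f : ι ↪ Fin n ⊕ Idx P) : Prop :=
  BadHit (Mt Φ t ε n P) c (Zt Φ ε w z) (Xg Φ t ε z w W f) (Cg Φ t ε z w W f) (Lt n P) N

/-- BadHit in the glued world of the gas, or of the gas and one exit line. -/
def HitT (Φ : Space3 → ℝ) (t c ε : ℝ) (N : ℕ) {n : ℕ} {P : CTree} (z : PhasePoint × Par P)
    (w : Config n) : Prop :=
  HitW Φ t c ε N z w (MW.cfg w) (eG n P) ∨
    ∃ x, x ≠ root P ∧ HitW Φ t c ε N z w ((MW.cfg w).ins (lineML Φ ε P z x)) (eX n P x)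

/-- The sub-structure `D` of the tree as a world (births `0`, marks `1`). -/
def sT (Φ : Space3 → ℝ) (ε : ℝ) {P : CTree} (z : PhasePoint × Par P) (D : Finset (Idx P)) : MW D :=
  ⟨fun _ => 0, fun i => Tree674.lines Φ ε P z.1 z.2 i, fun _ => 1⟩

/-- Run of length `L` from a member of a sub-structure of the tree. -/
def RunS (Φ : Space3 → ℝ) (t : ℝ) (K L : ℕ) (ε : ℝ) {n : ℕ} {P : CTree} (z : PhasePoint × Par P)
    (w : Config n) : Prop :=
  ∃ (D : Finset (Idx P)) (a : D), LinkM547.Run Φ ε t K L (sT Φ ε z D) a w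

/-- Everything which is influenced by an exit line up to its touch time is reached. -/
def RAll (Φ : Space3 → ℝ) (t c ε : ℝ) (K N : ℕ) {n : ℕ} {P : CTree} (z : PhasePoint × Par P)
    (w : Config n) : Prop :=
  ∀ x : {x : Idx P // x ≠ root P},
    LNEv818.ReachAll (LNEv968.Reach (Mt Φ t ε n P) c (Zt Φ ε w z) (Lt n P) (pT n P)
      (Sum.inr x.1) N) Φ ε K t (MW.cfg w) Sum.inl (exL Φ ε P z x) (Sum.inr x.1)

/-- **The deterministic alternative for trees with at most `K` leaves** (touch constant `K₂`). -/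
def RAT (Φ : Space3 → ℝ) (t : ℝ) (K K₂ : ℕ) : Prop :=
  ∀ L : ℕ, ∃ N : ℕ, ∀ (c ε ℓ ς : ℝ), 1 ≤ c → 0 < ε → 0 ≤ ℓ → 2 * ℓ ≤ ς →
    ∀ (P : CTree) (z : PhasePoint × Par P) (n : ℕ) (w : Config n), P.leaves ≤ K →
      Valid Φ ε P t z.1.2 z.2 → Sep Φ ε P t z.1 z.2 → w ∈ PairExcluded ε n →
      (∀ i q, ε < dist (Tree674.lines Φ ε P z.1 z.2 i).1 (w q).1) →
      AllOk Φ ε w (exL Φ ε P z) →
      RunS Φ t K₂ L ε z w ∨
      ¬ NoBad (Mt Φ t ε n P) c ℓ ς (Zt Φ ε w z) (Lt n P) (N + N) ∨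
      HitT Φ t c ε N z w ∨ RAll Φ t c ε K₂ N z w

end Crest.Agent.R122.LNTree399

end
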