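import Crest.Agent.R122.LinkGate_424
import Crest.Agent.R122.MomForest_998

/-!
# Row 122, H11 (helper424): runs from a group of a structure

* `sMW b z D` : the members `D` of a structure `(b, z)` as a marked world.
* `RunS` : a run of length `L` from a group of members of a structure.
* `gLe_runS` : the event `RunS` for a structure with exponential moments.
-/

set_option autoImplicit false
set_option linter.unusedSectionVars false

open MeasureTheory Set Filter Topology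
open scoped Classical ENNReal
open Crest.AnalysisR.Kinetic
open Crest.Agent.R122.GC311 Crest.Agent.R122.EDefs602 Crest.Agent.R122.LinkM547
open Crest.Agent.R122.LN2 Crest.Agent.R122.Loc45

noncomputable section

namespace Crest.Agent.R122.Gate424

variable {f₀ : PhasePoint → ℝ} {I Θ : Type} [MeasurableSpace Θ]
  {m : ℝ → I → Measure Θ} {κ : Type} [Fintype κ]

/-- The members `D` of a structure as a marked world. -/
def sMW (b : κ → ℝ) (z : κ → PhasePoint) (D : Finset κ) : MW D where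
  b i := b i
  z i := z i
  m _ := 1

theorem exp_kin_le {β : ℝ} (hβ : 0 ≤ β) (b : κ → ℝ) (z : κ → PhasePoint) (D : Finset κ) :
    ENNReal.ofReal (Real.exp (2 * β * kin (sMW b z D).z)) ≤ expW β z := by
  rw [DomForest998.expW_eq]
  refine ENNReal.ofReal_le_ofReal (Real.exp_le_exp.2 ?_)
  have h1 : kin (sMW b z D).z = (1 / 2) * ∑ i ∈ D, ‖(z i).2‖ ^ 2 := by
    unfold kin
    rw [← Finset.sum_coe_sort D (fun i => ‖(z i).2‖ ^ 2)]
    rfl
  have h2 : ∑ i ∈ D, ‖(z i).2‖ ^ 2 ≤ ∑ i, ‖(z i).2‖ ^ 2 :=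
    Finset.sum_le_sum_of_subset_of_nonneg (Finset.subset_univ D) fun _ _ _ => sq_nonneg _
  rw [h1]
  calc 2 * β * ((1 / 2) * ∑ i ∈ D, ‖(z i).2‖ ^ 2) = β * ∑ i ∈ D, ‖(z i).2‖ ^ 2 := by ring
    _ ≤ β * ∑ i, ‖(z i).2‖ ^ 2 := mul_le_mul_of_nonneg_left h2 hβ

/-- Run of length `L` from the group `D` of a structure with an exponential moment. -/
theorem gLe_runS1 {Φ : Space3 → ℝ} (hΦ : AdmissiblePotential Φ) {β : ℝ} (hβ : 0 < β) {T C₀ : ℝ}
    (hT : 0 ≤ T) (hC₀ : 0 ≤ C₀) (K : ℕ) (hf : Measurable f₀)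
    (hb : ∀ z : PhasePoint, f₀ z ≤ C₀ * Real.exp (-(2 * β * ‖z.2‖ ^ 2)))
    (h1 : ∫⁻ z, ENNReal.ofReal (f₀ z) ≤ 1) {t : I → ℝ} (ht : ∀ i, t i ≤ T)
    {b : ℝ → I → Θ → κ → ℝ} {z : ℝ → I → Θ → κ → PhasePoint}
    (hbm : ∀ ε i, 0 < ε → Measurable (b ε i)) (hzm : ∀ ε i, 0 < ε → Measurable (z ε i))
    {M : ℝ≥0∞} (hM : M ≠ ∞) (hmom : ∀ ε i, 0 < ε → ∫⁻ θ, expW β (z ε i θ) ∂(m ε i) ≤ M)
    (D : Finset κ) (a : D) {δ : ℝ≥0∞} (hδ : 0 < δ) : ∃ L₀ : ℕ, ∀ L, L₀ ≤ L →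
      GLe f₀ m (fun ε i _ θ w => Run Φ ε (t i) K L (sMW (b ε i θ) (z ε i θ) D) a w) δ := by
  obtain ⟨η, hη, hηt, h⟩ := runM_tail hΦ hβ T C₀ hT hC₀ K (Fintype.card D)
  have h2 : Tendsto (fun L => η L * M) atTop (𝓝 (0 * M)) :=
    ENNReal.Tendsto.mul_const hη (Or.inr hM)
  rw [zero_mul] at h2
  obtain ⟨L₀, hL₀⟩ := eventually_atTop.1 (h2.eventually_lt_const hδ)
  refine ⟨L₀, fun L hL => ?_⟩
  obtain ⟨ε₀, h0, h⟩ := h L
  refine ⟨ε₀, h0, fun ε hε hlt i => ⟨fun n p =>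
    runM Φ ε T K L D (sMW (b ε i p.1) (z ε i p.1) D) a n p.2, fun n => ?_,
    fun n θ w hw hR => one_le_runM_of_le hΦ hε (ht i) hw hR, ?_⟩⟩
  · refine measurable_runM (δ := Θ × Config n) (Z := fun p => sMW (b ε i p.1) (z ε i p.1) D)
      (w := fun p => p.2) hΦ hε T K L a ?_ ?_ measurable_snd
    · exact measurable_pi_iff.2 fun j =>
        (measurable_pi_apply (j : κ)).comp ((hbm ε i hε).comp measurable_fst)
    · exact measurable_pi_iff.2 fun j =>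
        (measurable_pi_apply (j : κ)).comp ((hzm ε i hε).comp measurable_fst)
  · have h3 : ∀ θ, gcE f₀ ε (fun n w => runM Φ ε T K L D (sMW (b ε i θ) (z ε i θ) D) a n w) ≤
        η L * expW β (z ε i θ) := fun θ =>
      (h ε hε hlt f₀ hf hb h1 D le_rfl (sMW (b ε i θ) (z ε i θ) D) a).trans
        (mul_le_mul_right (exp_kin_le hβ.le _ _ D) _)
    calc ∫⁻ θ, gcE f₀ ε (fun n w => runM Φ ε T K L D (sMW (b ε i θ) (z ε i θ) D) a n w) ∂(m ε i)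
        ≤ ∫⁻ θ, η L * expW β (z ε i θ) ∂(m ε i) := lintegral_mono h3
      _ = η L * ∫⁻ θ, expW β (z ε i θ) ∂(m ε i) := lintegral_const_mul' _ _ (hηt L)
      _ ≤ η L * M := mul_le_mul_right (hmom ε i hε) _
      _ ≤ δ := (hL₀ L hL).le

/-- A run from some group of members of the structure. -/
def RunS (Φ : Space3 → ℝ) (ε t : ℝ) (K L : ℕ) (b : κ → ℝ) (z : κ → PhasePoint) {n : ℕ}
    (w : Config n) : Prop :=
  ∃ (D : Finset κ) (a : D), Run Φ ε t K L (sMW b z D) a w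

/-- **Runs from the groups of members** of a structure with exponential moments. -/
theorem gLe_runS {Φ : Space3 → ℝ} (hΦ : AdmissiblePotential Φ) {β : ℝ} (hβ : 0 < β) {T C₀ : ℝ}
    (hT : 0 ≤ T) (hC₀ : 0 ≤ C₀) (K : ℕ) (hf : Measurable f₀)
    (hb : ∀ z : PhasePoint, f₀ z ≤ C₀ * Real.exp (-(2 * β * ‖z.2‖ ^ 2)))
    (h1 : ∫⁻ z, ENNReal.ofReal (f₀ z) ≤ 1) {t : I → ℝ} (ht : ∀ i, t i ≤ T)
    {b : ℝ → I → Θ → κ → ℝ} {z : ℝ → I → Θ → κ → PhasePoint}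
    (hbm : ∀ ε i, 0 < ε → Measurable (b ε i)) (hzm : ∀ ε i, 0 < ε → Measurable (z ε i))
    {M : ℝ≥0∞} (hM : M ≠ ∞) (hmom : ∀ ε i, 0 < ε → ∫⁻ θ, expW β (z ε i θ) ∂(m ε i) ≤ M)
    {δ : ℝ≥0∞} (hδ : 0 < δ) : ∃ L₀ : ℕ, ∀ L, L₀ ≤ L →
      GLe f₀ m (fun ε i _ θ w => RunS Φ ε (t i) K L (b ε i θ) (z ε i θ) w) δ := by
  set α := (D : Finset κ) × D with hα
  set δ' : ℝ≥0∞ := δ / (Fintype.card α + 1) with hδ'
  have hc : (Fintype.card α + 1 : ℝ≥0∞) ≠ ∞ :=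
    ENNReal.add_ne_top.2 ⟨ENNReal.natCast_ne_top _, ENNReal.one_ne_top⟩
  have hδ'0 : 0 < δ' := ENNReal.div_pos hδ.ne' hc
  choose L₀ hL₀ using fun x : α => gLe_runS1 (m := m) hΦ hβ hT hC₀ K hf hb h1 ht hbm hzm hM hmom
    x.1 x.2 hδ'0
  refine ⟨Finset.univ.sup L₀, fun L hL => ?_⟩
  have h2 := GLe.exists_fin hf Finset.univ (m := m) (d := fun _ => δ')
    (F := fun (x : α) ε i _ θ w => Run Φ ε (t i) K L (sMW (b ε i θ) (z ε i θ) x.1) x.2 w)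
    (fun x _ => hL₀ x L ((Finset.le_sup (Finset.mem_univ x)).trans hL))
  refine h2.mono ?_ ⟨1, one_pos, fun ε _ _ i n θ w _ ⟨D, a, ha⟩ =>
    ⟨⟨D, a⟩, Finset.mem_univ _, ha⟩⟩
  rw [Finset.sum_const, Finset.card_univ, nsmul_eq_mul]
  calc (Fintype.card α : ℝ≥0∞) * δ' ≤ (Fintype.card α + 1) * δ' := by
        gcongr
        exact le_self_add
    _ = δ := by
        rw [hδ', ENNReal.mul_div_cancel (by simp) hc]

end Crest.Agent.R122.Gate424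

end
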