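import Crest.Agent.R122.TreeGate_302
import Crest.Agent.R122.LNTreeBind_302
import Crest.Agent.R122.LNTreeDef_399
import Crest.Agent.R122.LinkGate2_424
import Crest.Agent.R122.GateTree_522

/-!
# Links and returns of the exit lines of a tree are null (row 122, H12/F3, helper302)

* `RunST`, `runST_small` : runs which start from a group of leaves (helper331, helper424).
* `tNull_of_det2` : gateway with group runs.
* `reachAll_hor` : `ReachAll` at a smaller horizon.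
* `RATR` : helper399's `RAT` with the root line included.
* `linkNull_of_rat`, `retNullT_of_rat` : **`LinkNull`, `RetNullT`** from `RAT`;
  `linkNullR_of_ratR` : all lines of the tree (root line included).
-/

set_option autoImplicit false
set_option linter.unusedSectionVars false

open MeasureTheory Set Filter Topology
open scoped ENNReal
open Crest.AnalysisR.Kinetic
open Crest.Agent.R122.GC311 Crest.Agent.R122.EDefs602
open Crest.Agent.R122.Kin796 Crest.Agent.R122.Kin796.CTree Crest.Agent.R122.Tree674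
open Crest.Agent.R122.TreeLines335 Crest.Agent.R122.LineMeas994
open Crest.Agent.R122.LinkM547 Crest.Agent.R122.LN2
open Crest.Agent.R122.Gate424 Crest.Agent.R122.RtG302 Crest.Agent.R122.Excl302
open Crest.Agent.R122.TreeGate302 Crest.Agent.R122.LN304 Crest.Agent.R122.LNEv968
open Crest.Agent.R122.LNEv818 Crest.Agent.R122.LNTree399 Crest.Agent.R122.TreeBind302

noncomputable section

open scoped Classical

namespace Crest.Agent.R122.TreeGate2302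

variable {Φ : Space3 → ℝ} {f₀ : PhasePoint → ℝ} {ε T' : ℝ} {K : ℕ} {δ : ℝ≥0∞} {E : TEv}

/-- Monotonicity of null events. -/
theorem tNull_mono {E E' : TEv} (h : TNull Φ f₀ T' K E)
    (hE : ∀ ε P z m w, E' ε P z m w → E ε P z m w) : TNull Φ f₀ T' K E' := by
  intro δ hδ
  obtain ⟨e, he, h⟩ := h δ hδ
  refine ⟨e, he, fun ε hε hlt => ?_⟩
  obtain ⟨G, hG, hm⟩ := h ε hε hlt
  exact ⟨G, ⟨hG.meas, fun P z m w hP hV hS hw h' => hG.maj P z m w hP hV hS hw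
    (hE ε P z m w h')⟩, hm⟩

/-! ### Group runs -/

/-- A run of length `L` starts from a group of leaves. -/
def RunST (Φ : Space3 → ℝ) (T' : ℝ) (K₂ L : ℕ) : TEv := fun ε _ z _ w =>
  LNTree399.RunS Φ T' K₂ L ε z w

/-- **Long runs from groups of leaves have small mass.** -/
theorem runST_small (hΦ : AdmissiblePotential Φ) {γ : ℝ} (hγ : 0 < γ) (hf : Continuous f₀)
    (H : HasSummableGaussianBound γ (fun x v => f₀ (x, v)))
    (h1 : ∫⁻ z, ENNReal.ofReal (f₀ z) ≤ 1) (hT : 0 ≤ T') (K K₂ : ℕ) (hδ : 0 < δ) :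
    ∃ L₀ : ℕ, ∀ L, L₀ ≤ L → TLe Φ f₀ T' K (RunST Φ T' K₂ L) δ := by
  obtain ⟨C₀, hC₀, hb⟩ := exists_gaussian_bound H
  have hb' : ∀ z : PhasePoint, f₀ z ≤ C₀ * Real.exp (-(2 * (γ / 4) * ‖z.2‖ ^ 2)) := by
    intro z
    refine (le_abs_self _).trans ((hb z.1 z.2).trans ?_)
    refine mul_le_mul_of_nonneg_left (Real.exp_le_exp.2 ?_) hC₀
    have := mul_nonneg hγ.le (sq_nonneg ‖z.2‖)
    linarith
  obtain ⟨δ', hδ', hle⟩ := exists_div (GIVStep383.trees K).card hδ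
  have hP : ∀ P : CTree, ∃ L₀ : ℕ, ∀ L, L₀ ≤ L → GLe (I := Unit) f₀
      (fun ε _ => treeQ Φ f₀ ε P T')
      (fun ε _ _ z w => Gate424.RunS Φ ε T' K₂ L (fun _ : Idx P => 0) (linesM Φ ε P z.1 z.2) w)
        δ' := by
    intro P
    obtain ⟨M, hM, hmom⟩ := GateT522.exists_moment_expW hΦ hf.measurable H
      (β := γ / 4) (by linarith) P T'
    exact gLe_runS (I := Unit) (m := fun ε _ => treeQ Φ f₀ ε P T') hΦ (β := γ / 4) (by positivity)
      hT hC₀ K₂ hf.measurable hb' h1 (t := fun _ => T') (fun _ => le_rfl)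
      (b := fun _ _ _ _ => 0) (z := fun ε _ z => linesM Φ ε P z.1 z.2)
      (fun _ _ _ => measurable_const) (fun ε _ _ => measurable_linesM hΦ ε P) hM
      (fun ε _ hε => hmom ε T' hε le_rfl) hδ'
  choose L₀ hL₀ using hP
  refine ⟨(GIVStep383.trees K).sup L₀, fun L hL => ?_⟩
  refine (tLe_of_gLe hΦ hf.measurable (E := RunST Φ T' K₂ L) fun P hP => ?_).mono hle
    ⟨1, one_pos, fun _ _ _ _ _ _ _ _ _ _ _ h => h⟩
  refine (hL₀ P L ((Finset.le_sup (GIVStep383.mem_trees.2 hP)).trans hL)).mono' ?_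
  rintro ε - n z w ⟨hV, -, D, a, hR⟩
  refine ⟨D, a, ?_⟩
  rw [linesM_of_adm ε hV.1]
  exact hR

/-- **Tree instance of the gateway**, group runs. -/
theorem tNull_of_det2 (hΦ : AdmissiblePotential Φ) {γ : ℝ} (hγ : 0 < γ) (hf : Continuous f₀)
    (H : HasSummableGaussianBound γ (fun x v => f₀ (x, v)))
    (h1 : ∫⁻ z, ENNReal.ofReal (f₀ z) ≤ 1) (hT : 0 ≤ T') (hCN : VLMeas973.ClassNull Φ T')
    {K₂ : ℕ} {Ht : ℕ → TEv} {G : TEv} (hG : TNull Φ f₀ T' K fun ε P z m w => ¬ G ε P z m w)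
    (hdet : ∀ L : ℕ, ∃ (N : ℕ) (C : ℝ), ∀ R > 0, ∀ ς > 0, ∃ ε₁ : ℝ, 0 < ε₁ ∧ ∀ ε : ℝ, 0 < ε →
      ε < ε₁ → ∀ P z m w, P.leaves ≤ K → Valid Φ ε P T' z.1.2 z.2 → Sep Φ ε P T' z.1 z.2 →
        Exc Φ ε P z w → G ε P z m w → E ε P z m w →
          RunST Φ T' K₂ L ε P z m w ∨ BadT Φ T' C R ς N ε P z m w ∨ Ht L ε P z m w)
    (hhit : ∀ L, TNull Φ f₀ T' K (Ht L)) : TNull Φ f₀ T' K E := by
  refine tNull_of_exc hΦ hγ hf H h1 hT (E' := fun ε P z m w => Exc Φ ε P z w ∧ E ε P z m w)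
    ?_ fun ε P z m w _ _ _ h2 h3 => ⟨h2, h3⟩
  intro δ hδ
  have h3 : (0 : ℝ≥0∞) < ENNReal.ofReal (δ / 3) := ENNReal.ofReal_pos.2 (by positivity)
  obtain ⟨L, hL⟩ := runST_small hΦ hγ hf H h1 hT K K₂ h3
  have hL := hL L le_rfl
  obtain ⟨N, C, hdet⟩ := hdet L
  obtain ⟨R, hR, ς, hς, hB⟩ := badT_small hΦ hγ hf H h1 hCN K C N h3
  obtain ⟨ε₁, he₁, hdet⟩ := hdet R hR ς hς
  have h4 := (hL.or hΦ hf.measurable (hB.or hΦ hf.measurable
    ((tNull_or hΦ hf.measurable (hhit L) hG).tLe h3)))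
  have h5 : ENNReal.ofReal (δ / 3) + (ENNReal.ofReal (δ / 3) + ENNReal.ofReal (δ / 3)) =
      ENNReal.ofReal δ := by
    rw [← ENNReal.ofReal_add (by positivity) (by positivity),
      ← ENNReal.ofReal_add (by positivity) (by positivity)]
    congr 1
    ring
  rw [h5] at h4
  obtain ⟨e, he, h⟩ := h4.mono le_rfl (E' := fun ε P z m w => Exc Φ ε P z w ∧ E ε P z m w)
    ⟨ε₁, he₁, fun ε hε hlt P z m w hP hV hS _ h => by
      by_cases hg : G ε P z m w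
      · rcases hdet ε hε hlt P z m w hP hV hS h.1 hg h.2 with h6 | h6 | h6
        · exact Or.inl h6
        · exact Or.inr (Or.inl h6)
        · exact Or.inr (Or.inr (Or.inl h6))
      · exact Or.inr (Or.inr (Or.inr hg))⟩
  exact ⟨e, he, h⟩

/-! ### Horizons -/

/-- `ReachAll` at a smaller horizon. -/
theorem reachAll_hor {ι J : Type} [Fintype ι] {Rp : J → ℝ → Space3 → Prop} {Z : MW ι}
    {lab : ι → J} {a : ML} {p : J} {u₀ : ℝ} (hu : u₀ ≤ T')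
    (h : ReachAll Rp Φ ε K T' Z lab a p) : ReachAll Rp Φ ε K u₀ Z lab a p := by
  intro u hu' hθ x hx hb
  refine h u ⟨hu'.1, hu'.2.trans hu⟩ ?_ x hx hb
  by_contra hcon
  rw [not_le] at hcon
  obtain ⟨s, hs1, hs2⟩ := exists_between hcon
  have h1 : Z.Touched Φ ε K (MW.line a) s :=
    EBasic602.touched_of_theta_lt (hs2.le.trans (hu'.2.trans hu)) hs1
  have hT0 : 0 ≤ T' := hu'.1.trans (hu'.2.trans hu)
  have h0 : 0 ≤ s := (EBasic602.theta_nonneg hT0).trans hs1.le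
  exact absurd (hθ.trans (MW.theta_le_of_touched ⟨h0, hs2.le.trans hu'.2⟩ h1)) (not_le.2 hs2)

/-! ### Events of one tree -/

/-- helper399's `RAll` with the root line included. -/
def RAllR (Φ : Space3 → ℝ) (t c ε : ℝ) (K N : ℕ) {n : ℕ} {P : CTree} (z : PhasePoint × Par P)
    (w : Config n) : Prop :=
  ∀ x : Idx P, ReachAll (Reach (Mt Φ t ε n P) c (Zt Φ ε w z) (Lt n P) (pT n P)
    (Sum.inr x) N) Φ ε K t (MW.cfg w) Sum.inl (lineML Φ ε P z x) (Sum.inr x)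

/-- helper399's `HitT` with the root line included. -/
def HitTR (Φ : Space3 → ℝ) (t c ε : ℝ) (N : ℕ) {n : ℕ} {P : CTree} (z : PhasePoint × Par P)
    (w : Config n) : Prop :=
  HitW Φ t c ε N z w (MW.cfg w) (eG n P) ∨
    ∃ x, HitW Φ t c ε N z w ((MW.cfg w).ins (lineML Φ ε P z x)) (eX n P x)

/-- **helper399's `RAT` with the root line included.** -/
def RATR (Φ : Space3 → ℝ) (t : ℝ) (K K₂ : ℕ) : Prop :=
  ∀ L : ℕ, ∃ N : ℕ, ∀ (c ε ℓ ς : ℝ), 1 ≤ c → 0 < ε → 0 ≤ ℓ → 2 * ℓ ≤ ς →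
    ∀ (P : CTree) (z : PhasePoint × Par P) (n : ℕ) (w : Config n), P.leaves ≤ K →
      Valid Φ ε P t z.1.2 z.2 → Sep Φ ε P t z.1 z.2 → w ∈ PairExcluded ε n →
      (∀ i q, ε < dist (Tree674.lines Φ ε P z.1 z.2 i).1 (w q).1) →
      MW.OkFam Φ ε (MW.cfg w) (lineML Φ ε P z) →
      LNTree399.RunS Φ t K₂ L ε z w ∨
      ¬ NoBad (Mt Φ t ε n P) c ℓ ς (Zt Φ ε w z) (Lt n P) (N + N) ∨
      HitTR Φ t c ε N z w ∨ RAllR Φ t c ε K₂ N z w

/-- Two of the lines of the tree are linked (root line included). -/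
def LinkR (Φ : Space3 → ℝ) (K' : ℕ) (u₀ : ℝ) : TEv := fun ε P z _ w =>
  ¬ MWFam255.PairNL Φ ε K' u₀ (MW.cfg w) (lineML Φ ε P z)

/-- The family of all lines of the tree is not good. -/
def NOkR (Φ : Space3 → ℝ) : TEv := fun ε P z _ w =>
  ¬ MW.OkFam Φ ε (MW.cfg w) (lineML Φ ε P z)

/-- Link or return. -/
def LREv (Φ : Space3 → ℝ) (K' : ℕ) (u₀ T' : ℝ) : TEv := fun ε P z _ w =>
  LinkEx Φ ε K' u₀ w (exL Φ ε P z) ∨ (RetEx Φ ε K' u₀ w (exL Φ ε P z) (protT Φ ε P T' z) ∨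
    RetLn Φ ε K' u₀ w (exL Φ ε P z) (protT Φ ε P T' z))

section events

variable {u₀ ℓ ς : ℝ} {N K' n : ℕ} {P : CTree} {z : PhasePoint × Par P} {w : Config n}

/-- **No link, no return** from helper399's `RAll`. -/
theorem not_lrEv (hΦ : AdmissiblePotential Φ) (hε : 0 < ε)
    (hV : Valid Φ ε P T' z.1.2 z.2) (hS : Sep Φ ε P T' z.1 z.2)
    (hOk : AllOk Φ ε w (exL Φ ε P z)) (hu : u₀ ≤ T') (hT : 0 ≤ T') (hℓς : 2 * ℓ ≤ ς)
    (hNB : NoBad (Mt Φ T' ε n P) 1 ℓ ς (Zt Φ ε w z) (Lt n P) (N + N + (N + N)))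
    (hRA : LNTree399.RAll Φ T' 1 ε K' N z w) : ¬ LREv Φ K' u₀ T' ε P z n w := by
  have h : TreeBind302.RAll Φ T' 1 ℓ ς N K' u₀ ε P z n w := ⟨hNB, fun x => reachAll_hor hu (hRA x)⟩
  rintro (h1 | h1 | h1)
  · exact h.not_linkEx hΦ hε hV hS hOk hu le_rfl hℓς hT h1
  · exact h.not_retEx hΦ hε hV hS hOk hu le_rfl hℓς h1
  · exact h.not_retLn hΦ hε hV hS hOk hu le_rfl hℓς h1

/-- **No link**, root line included. -/
theorem not_linkR (hΦ : AdmissiblePotential Φ) (hε : 0 < ε)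
    (hV : Valid Φ ε P T' z.1.2 z.2) (hS : Sep Φ ε P T' z.1 z.2)
    (hOk : MW.OkFam Φ ε (MW.cfg w) (lineML Φ ε P z)) (hu : u₀ ≤ T') (hT : 0 ≤ T')
    (hℓς : 2 * ℓ ≤ ς)
    (hNB : NoBad (Mt Φ T' ε n P) 1 ℓ ς (Zt Φ ε w z) (Lt n P) (N + N + (N + N)))
    (hRA : RAllR Φ T' 1 ε K' N z w) : ¬ LinkR Φ K' u₀ ε P z n w := by
  unfold LinkR
  rw [not_not]
  have hok := MWFam255.okF_of_okFam hΦ hε hOk
  exact pairNL_tree hΦ hε hV hS (g := id) (Z := MW.cfg w) (lab := Sum.inl) (w := w) hu hT le_rfl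
    hℓς Sum.inl_injective Function.injective_id (fun _ _ h => by cases h) hok.z
    (fun x => hok.line hΦ hε x) hNB (fun x => reachAll_hor hu (hRA x))

end events

/-! ### Null events -/

section null

variable {u₀ : ℝ} {K' : ℕ} {Ht : ℕ → TEv}

/-- The excluded case `T' = 0`: no exits. -/
theorem tNull_zero (hT : T' ≤ 0) (h : ∀ ε : ℝ, 0 < ε → ∀ P (z : PhasePoint × Par P) n
    (w : Config n), P = CTree.leaf → ¬ E ε P z n w) : TNull Φ f₀ T' K E := by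
  intro δ hδ
  refine ⟨1, one_pos, fun ε hε _ => ⟨fun _ _ _ _ => 0, ⟨fun _ _ => measurable_const, ?_⟩, ?_⟩⟩
  · intro P z m w _ hV _ _ hE
    exfalso
    cases P with
    | leaf => exact h ε hε _ z m w rfl hE
    | node l r =>
      have h1 := hV.2.1
      have h2 := hV.2.2.1
      have h3 := sin_le hε.le (Φ := Φ) z.1.2 z.2.1
      linarith
  · have h1 : InEq2.TS Φ f₀ ε T' (fun P z m w => InEq2.wQ Φ ε P z * 0) = 0 := by
      simp [InEq2.TS, gcE_zero]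
    rw [h1]
    exact bot_le

/-- **Links and returns of the exit lines are null.** -/
theorem lr_null (hΦ : AdmissiblePotential Φ) {γ : ℝ} (hγ : 0 < γ) (hf : Continuous f₀)
    (H : HasSummableGaussianBound γ (fun x v => f₀ (x, v)))
    (h1 : ∫⁻ z, ENNReal.ofReal (f₀ z) ≤ 1) (hT : 0 ≤ T') (hu : u₀ ≤ T')
    (hCN : VLMeas973.ClassNull Φ T') (hok : OkNull Φ f₀ T' K) (hR : RAT Φ T' K K')
    (hH : ∀ N, TNull Φ f₀ T' K (Ht N))
    (hHd : ∀ N (ε : ℝ), 0 < ε → ∀ P (z : PhasePoint × Par P) n (w : Config n), P.leaves ≤ K →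
      Valid Φ ε P T' z.1.2 z.2 → Sep Φ ε P T' z.1 z.2 → Exc Φ ε P z w →
        AllOk Φ ε w (exL Φ ε P z) → LNTree399.HitT Φ T' 1 ε N z w → Ht N ε P z n w) :
    TNull Φ f₀ T' K (LREv Φ K' u₀ T') := by
  choose Nf hNf using hR
  refine tNull_of_det2 hΦ hγ hf H h1 hT hCN (K₂ := K') (Ht := fun L => Ht (Nf L))
    (G := fun ε P z m w => AllOk Φ ε w (exL Φ ε P z)) hok (fun L => ?_) fun L => hH _
  refine ⟨Nf L + Nf L + (Nf L + Nf L), 1, fun R hR ς hς => ⟨ς / (2 * R), by positivity,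
    fun ε hε hlt P z m w hP hV hS hE hOk hev => ?_⟩⟩
  have hℓς : 2 * (R * ε) ≤ ς := by
    have h2 := (lt_div_iff₀ (by positivity : 0 < 2 * R)).1 hlt
    linarith
  by_cases hNB : NoBad (Mt Φ T' ε m P) 1 (R * ε) ς (Zt Φ ε w z) (Lt m P)
    (Nf L + Nf L + (Nf L + Nf L))
  · rcases hNf L 1 ε (R * ε) ς le_rfl hε (by positivity) hℓς P z m w hP hV hS hE.2.1 hE.2.2 hOk
      with h3 | h3 | h3 | h3
    · exact Or.inl h3
    · exact absurd (Bind302.noBad_mono hNB (Nat.le_add_right _ _)) h3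
    · exact Or.inr (Or.inr (hHd _ ε hε P z m w hP hV hS hE hOk h3))
    · exact absurd hev (not_lrEv hΦ hε hV hS hOk hu hT hℓς hNB h3)
  · right; left
    exact LNTree399.badGas_tree hΦ hε le_rfl hV hS le_rfl hNB

/-- **Links of all lines of the tree (root line included) are null.** -/
theorem linkR_null (hΦ : AdmissiblePotential Φ) {γ : ℝ} (hγ : 0 < γ) (hf : Continuous f₀)
    (H : HasSummableGaussianBound γ (fun x v => f₀ (x, v)))
    (h1 : ∫⁻ z, ENNReal.ofReal (f₀ z) ≤ 1) (hT : 0 ≤ T') (hu : u₀ ≤ T')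
    (hCN : VLMeas973.ClassNull Φ T') (hok : TNull Φ f₀ T' K (NOkR Φ)) (hR : RATR Φ T' K K')
    (hH : ∀ N, TNull Φ f₀ T' K (Ht N))
    (hHd : ∀ N (ε : ℝ), 0 < ε → ∀ P (z : PhasePoint × Par P) n (w : Config n), P.leaves ≤ K →
      Valid Φ ε P T' z.1.2 z.2 → Sep Φ ε P T' z.1 z.2 → Exc Φ ε P z w →
        MW.OkFam Φ ε (MW.cfg w) (lineML Φ ε P z) → HitTR Φ T' 1 ε N z w → Ht N ε P z n w) :
    TNull Φ f₀ T' K (LinkR Φ K' u₀) := by
  choose Nf hNf using hR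
  refine tNull_of_det2 hΦ hγ hf H h1 hT hCN (K₂ := K') (Ht := fun L => Ht (Nf L))
    (G := fun ε P z m w => MW.OkFam Φ ε (MW.cfg w) (lineML Φ ε P z)) hok (fun L => ?_) fun L => hH _
  refine ⟨Nf L + Nf L + (Nf L + Nf L), 1, fun R hR ς hς => ⟨ς / (2 * R), by positivity,
    fun ε hε hlt P z m w hP hV hS hE hOk hev => ?_⟩⟩
  have hℓς : 2 * (R * ε) ≤ ς := by
    have h2 := (lt_div_iff₀ (by positivity : 0 < 2 * R)).1 hlt
    linarith
  by_cases hNB : NoBad (Mt Φ T' ε m P) 1 (R * ε) ς (Zt Φ ε w z) (Lt m P)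
    (Nf L + Nf L + (Nf L + Nf L))
  · rcases hNf L 1 ε (R * ε) ς le_rfl hε (by positivity) hℓς P z m w hP hV hS hE.2.1 hE.2.2 hOk
      with h3 | h3 | h3 | h3
    · exact Or.inl h3
    · exact absurd (Bind302.noBad_mono hNB (Nat.le_add_right _ _)) h3
    · exact Or.inr (Or.inr (hHd _ ε hε P z m w hP hV hS hE hOk h3))
    · exact absurd hev (not_linkR hΦ hε hV hS hOk hu hT hℓς hNB h3)
  · right; left
    exact LNTree399.badGas_tree hΦ hε le_rfl hV hS le_rfl hNB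

/-- Zero horizon: no events. -/
theorem lrEv_leaf (ε : ℝ) (z : PhasePoint × Par CTree.leaf) (n : ℕ) (w : Config n) :
    ¬ LREv Φ K' u₀ T' ε CTree.leaf z n w := by
  have hex : ∀ x : {x : Idx CTree.leaf // x ≠ root CTree.leaf}, False := fun x => x.2 rfl
  rintro (h | ⟨x, _⟩ | ⟨x, _⟩)
  · exact h fun x => (hex x).elim
  · exact hex x
  · exact hex x

/-- Deterministic input about trees (root line not included). -/
structure TreeDet (Φ : Space3 → ℝ) (T' : ℝ) (K K' : ℕ) (Ht : ℕ → TEv) : Prop where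
  rat : RAT Φ T' K K'
  hit : ∀ N (ε : ℝ), 0 < ε → ∀ P (z : PhasePoint × Par P) n (w : Config n), P.leaves ≤ K →
    Valid Φ ε P T' z.1.2 z.2 → Sep Φ ε P T' z.1 z.2 → Exc Φ ε P z w →
      AllOk Φ ε w (exL Φ ε P z) → LNTree399.HitT Φ T' 1 ε N z w → Ht N ε P z n w

/-- Deterministic input about trees (root line included). -/
structure TreeDetR (Φ : Space3 → ℝ) (T' : ℝ) (K K' : ℕ) (Ht : ℕ → TEv) : Prop where
  rat : RATR Φ T' K K'
  hit : ∀ N (ε : ℝ), 0 < ε → ∀ P (z : PhasePoint × Par P) n (w : Config n), P.leaves ≤ K →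
    Valid Φ ε P T' z.1.2 z.2 → Sep Φ ε P T' z.1 z.2 → Exc Φ ε P z w →
      MW.OkFam Φ ε (MW.cfg w) (lineML Φ ε P z) → HitTR Φ T' 1 ε N z w → Ht N ε P z n w

/-- **Links and returns are null**, every horizon `T' ≥ 0`. -/
theorem lr_null' (hΦ : AdmissiblePotential Φ) {γ : ℝ} (hγ : 0 < γ) (hf : Continuous f₀)
    (H : HasSummableGaussianBound γ (fun x v => f₀ (x, v)))
    (h1 : ∫⁻ z, ENNReal.ofReal (f₀ z) ≤ 1) (hT : 0 ≤ T') (hu : u₀ ≤ T')
    (hCN : 0 < T' → VLMeas973.ClassNull Φ T') (hok : OkNull Φ f₀ T' K)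
    (hD : 0 < T' → TreeDet Φ T' K K' Ht) (hH : ∀ N, TNull Φ f₀ T' K (Ht N)) :
    TNull Φ f₀ T' K (LREv Φ K' u₀ T') := by
  rcases hT.eq_or_lt with h | h
  · refine tNull_zero h.symm.le ?_
    rintro ε - P z n w rfl
    exact lrEv_leaf ε z n w
  · exact lr_null hΦ hγ hf H h1 hT hu (hCN h) hok (hD h).rat hH (hD h).hit

/-- **`LinkNull`.** -/
theorem linkNull (hΦ : AdmissiblePotential Φ) {γ : ℝ} (hγ : 0 < γ) (hf : Continuous f₀)
    (H : HasSummableGaussianBound γ (fun x v => f₀ (x, v)))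
    (h1 : ∫⁻ z, ENNReal.ofReal (f₀ z) ≤ 1) (hT : 0 ≤ T') (hu : u₀ ≤ T')
    (hCN : 0 < T' → VLMeas973.ClassNull Φ T') (hok : OkNull Φ f₀ T' K)
    (hD : 0 < T' → TreeDet Φ T' K K' Ht) (hH : ∀ N, TNull Φ f₀ T' K (Ht N)) :
    LinkNull Φ f₀ u₀ T' K K' :=
  tNull_mono (lr_null' hΦ hγ hf H h1 hT hu hCN hok hD hH) fun _ _ _ _ _ h => Or.inl h

/-- **`RetNullT`.** -/
theorem retNullT (hΦ : AdmissiblePotential Φ) {γ : ℝ} (hγ : 0 < γ) (hf : Continuous f₀)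
    (H : HasSummableGaussianBound γ (fun x v => f₀ (x, v)))
    (h1 : ∫⁻ z, ENNReal.ofReal (f₀ z) ≤ 1) (hT : 0 ≤ T') (hu : u₀ ≤ T')
    (hCN : 0 < T' → VLMeas973.ClassNull Φ T') (hok : OkNull Φ f₀ T' K)
    (hD : 0 < T' → TreeDet Φ T' K K' Ht) (hH : ∀ N, TNull Φ f₀ T' K (Ht N)) :
    RetNullT Φ f₀ u₀ T' K K' :=
  tNull_mono (lr_null' hΦ hγ hf H h1 hT hu hCN hok hD hH) fun _ _ _ _ _ h => Or.inr h

end null

end Crest.Agent.R122.TreeGate2302

end
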