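import Crest.Agent.R122.LN2Birth_473
import Crest.Agent.R122.PWBirth_365
import Crest.Agent.R122.SepNull_302
import Crest.Agent.R122.GateTree_522
import Crest.Agent.R122.NuLA_735
import Crest.Agent.R122.TreeGate2_302

/-!
# No exit line of a tree is born near a particle of the gas (row 122, LN1), helper302

* `refT` : translation invariant reference law of a tree; `treeQ_le_refT`.
* `yT Φ ε P i z` : the birth point of the exit line `i`, translation covariant version.
* `gNull_birthT`, `tNull_birthT` : an exit line (the root line included) is born within `R ε` of a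
  particle of the gas: null event. `tNull_noB` : the same with helper365's `NoB`.
-/

set_option autoImplicit false
set_option linter.unusedSectionVars false

open MeasureTheory Set Filter Topology
open scoped ENNReal
open Crest.AnalysisR.Kinetic
open Crest.Agent.R122.GC311 Crest.Agent.R122.EDefs602
open Crest.Agent.R122.Kin796 Crest.Agent.R122.Kin796.CTree Crest.Agent.R122.Tree674
open Crest.Agent.R122.InEq2 Crest.Agent.R122.TreeLines335 Crest.Agent.R122.LineMeas994
open Crest.Agent.R122.ToTree335 Crest.Agent.R122.LN2 Crest.Agent.R122.Gate424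
open Crest.Agent.R122.RtG302 Crest.Agent.R122.TreeDom974 Crest.Agent.R122.TreeLim974
open Crest.Agent.R122.TreeLimX974 Crest.Agent.R122.Relabel674 Crest.Agent.R122.GateT522
open Crest.Agent.R122.NuL735 (trZ lineML_tr)

noncomputable section

open scoped Classical

namespace Crest.Agent.R122.BW302

variable {Φ : Space3 → ℝ} {f₀ : PhasePoint → ℝ} {ε T' : ℝ} {K : ℕ} {P : CTree}

/-! ### The reference law -/

/-- Translation invariant reference law of a tree. -/
def refT (C b T : ℝ) (P : CTree) : Measure (PhasePoint × Par P) :=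
  (volume : Measure (PhasePoint × Par P)).withDensity fun z => domG C b T P z.1.2 z.2

theorem measurable_refD {C : ℝ} (hC : 0 ≤ C) (b T : ℝ) (P : CTree) :
    Measurable fun z : PhasePoint × Par P => domG C b T P z.1.2 z.2 :=
  (measurable_domG hC b T P).comp (by fun_prop : Measurable fun z : PhasePoint × Par P =>
    (z.1.2, z.2))

theorem lintegral_refT {C : ℝ} (hC : 0 ≤ C) (b T : ℝ) (P : CTree)
    {F : PhasePoint × Par P → ℝ≥0∞} (hF : Measurable F) :
    ∫⁻ z, F z ∂(refT C b T P) = ∫⁻ z : PhasePoint × Par P, domG C b T P z.1.2 z.2 * F z := by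
  unfold refT
  rw [lintegral_withDensity_eq_lintegral_mul _ (measurable_refD hC b T P) hF]
  rfl

/-- The law of a tree is dominated by the reference law. -/
theorem treeQ_le_refT (hΦ : AdmissiblePotential Φ) {γ : ℝ} (hγ : 0 < γ) (hf : Measurable f₀)
    (H : HasSummableGaussianBound γ (fun x v => f₀ (x, v))) (P : CTree) (T : ℝ) :
    ∃ (c : ℝ≥0∞) (C b : ℝ), c ≠ ∞ ∧ 0 ≤ C ∧ 0 < b ∧ ∀ ε : ℝ, 0 < ε →
      ∀ F : PhasePoint × Par P → ℝ≥0∞, Measurable F →
        ∫⁻ z, F z ∂(treeQ Φ f₀ ε P T) ≤ c * ∫⁻ z, F z ∂(refT C b T P) := by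
  obtain ⟨m, C₁, hkb⟩ := exists_kb (κ := γ / 2) (half_lt_self hγ) H
  have hk : ∀ z, kE f₀ (γ / 2) z ≤
      ENNReal.ofReal (C₁ * Real.exp (-(γ - γ / 2) * ‖z.2‖ ^ 2)) := by
    intro z
    rw [ENNReal.ofReal_mul hkb.C0]
    exact (hkb.bd z).trans (mul_le_mul_left (hkb.le z.1) _)
  obtain ⟨C, hC, hdom⟩ := le_domG hΦ hkb.C0 (b' := γ / 4) (by linarith) hk P
  refine ⟨ENNReal.ofReal (Fintype.card (Idx P) + 1 / (γ / 2)), C, γ / 4, ENNReal.ofReal_ne_top,
    hC, by positivity, fun ε hε F hF => ?_⟩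
  have hwF : Measurable fun z : PhasePoint × Par P => wQ Φ ε P z * F z :=
    (measurable_wQ hΦ P).mul hF
  rw [lintegral_treeQ hΦ P T hF, lintegral_treeM hΦ hf ε P T hwF, lintegral_refT hC _ _ P hF,
    ← lintegral_const_mul' _ _ ENNReal.ofReal_ne_top]
  refine lintegral_mono fun z => ?_
  by_cases hz : z ∈ {z : PhasePoint × Par P | Valid Φ ε P T z.1.2 z.2}
  · rw [indicator_of_mem hz]
    have hz' : Valid Φ ε P T z.1.2 z.2 := hz
    calc wt Φ P z.1.2 z.2 * (pf Φ f₀ ε P z * (wQ Φ ε P z * F z))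
        = wt Φ P z.1.2 z.2 * (wQ Φ ε P z * pf Φ f₀ ε P z) * F z := by ring
      _ ≤ wt Φ P z.1.2 z.2 * (ENNReal.ofReal (Fintype.card (Idx P) + 1 / (γ / 2)) *
          ∏ i, kE f₀ (γ / 2) (lines Φ ε P z.1 z.2 i)) * F z :=
          mul_le_mul_left (mul_le_mul_right (Small302.wQ_mul_pf_le (half_pos hγ) ε hz'.1) _) _
      _ = ENNReal.ofReal (Fintype.card (Idx P) + 1 / (γ / 2)) *
          ((wt Φ P z.1.2 z.2 * ∏ i, kE f₀ (γ / 2) (lines Φ ε P z.1 z.2 i)) * F z) := by ring
      _ ≤ _ := mul_le_mul_right (mul_le_mul_left (hdom ε T T z.1 z.2 hε.le le_rfl hz') _) _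
  · rw [indicator_of_notMem hz]
    exact bot_le

/-- Translations preserve the volume. -/
theorem mp_trZ (a : Space3) : MeasurePreserving (fun z : PhasePoint × Par P => trZ a z) := by
  have h1 : MeasurePreserving (fun x : Space3 => x + a) := measurePreserving_add_right volume a
  exact (h1.prod (MeasurePreserving.id volume)).prod (MeasurePreserving.id volume)

theorem measurable_trZ2 :
    Measurable fun q : Space3 × (PhasePoint × Par P) => trZ q.1 q.2 := by
  unfold trZ
  fun_prop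

theorem refT_inv {C : ℝ} (hC : 0 ≤ C) (b T : ℝ) (a : Space3) :
    (refT C b T P).map (trZ a) = refT C b T P := by
  have hm : Measurable (trZ a : PhasePoint × Par P → PhasePoint × Par P) :=
    measurable_trZ2.comp (measurable_const.prodMk measurable_id)
  refine Measure.ext_of_lintegral _ fun F hF => ?_
  rw [lintegral_map hF hm, lintegral_refT hC b T P hF]
  refine (lintegral_refT hC b T P (hF.comp hm)).trans ?_
  exact (mp_trZ a).lintegral_comp ((measurable_refD hC b T P).mul hF)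

/-! ### Birth points -/

/-- The birth point of the exit line `i`, measurable and translation covariant version. -/
def yT (Φ : Space3 → ℝ) (ε : ℝ) (P : CTree) (i : Idx P) (z : PhasePoint × Par P) : Space3 :=
  (lineMM Φ ε P (trZ (-z.1.1) z) i).1.2.1 + z.1.1

theorem measurable_yT (hΦ : AdmissiblePotential Φ) (ε : ℝ) (P : CTree) (i : Idx P) :
    Measurable (yT Φ ε P i) := by
  unfold yT
  have h1 : Measurable fun z : PhasePoint × Par P => trZ (-z.1.1) z :=
    measurable_trZ2.comp ((measurable_fst.fst.neg).prodMk measurable_id)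
  exact ((measurable_lineMM hΦ ε P i).comp h1).fst.snd.fst.add measurable_fst.fst

theorem trZ_neg_trZ (a : Space3) (z : PhasePoint × Par P) :
    trZ (-(trZ a z).1.1) (trZ a z) = trZ (-z.1.1) z := by
  unfold trZ
  simp

theorem yT_tr (ε : ℝ) (i : Idx P) (a : Space3) (z : PhasePoint × Par P) :
    yT Φ ε P i (trZ a z) = yT Φ ε P i z + a := by
  unfold yT
  rw [trZ_neg_trZ]
  show _ + (z.1.1 + a) = _
  rw [add_assoc]

theorem yT_of_adm {i : Idx P} {z : PhasePoint × Par P} (h : Adm Φ P z.1.2 z.2) :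
    yT Φ ε P i z = (lineML Φ ε P z i).1.2.1 := by
  unfold yT
  have h1 : Adm Φ P (trZ (-z.1.1) z).1.2 (trZ (-z.1.1) z).2 := h
  rw [lineMM_of_adm ε h1, lineML_tr]
  show (lineML Φ ε P z i).1.2.1 + -z.1.1 + z.1.1 = _
  rw [neg_add_cancel_right]

theorem bInv {C : ℝ} (hΦ : AdmissiblePotential Φ) (hC : 0 ≤ C) (b T ε : ℝ) (P : CTree)
    (i : Idx P) :
    BInv (refT C b T P) trZ (fun z => rel P z.2 i) (yT Φ ε P i) (fun z => z.1.1) where
  sf := by unfold refT; infer_instance
  mT := measurable_trZ2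
  inv := refT_inv hC b T
  ms := (measurable_rel P i).comp measurable_snd
  my := measurable_yT hΦ ε P i
  mpos := measurable_fst.fst
  s_tr _ _ := rfl
  y_tr a z := yT_tr ε i a z
  pos_tr _ _ := rfl

/-- The reference law has finite mass per unit volume. -/
theorem pin_refT {C b : ℝ} (hC : 0 ≤ C) (hb : 0 < b) (T : ℝ) (P : CTree) :
    ∫⁻ z, chi z.1.1 ∂(refT C b T P) ≠ ∞ := by
  have hm : Measurable fun z : PhasePoint × Par P => chi z.1.1 :=
    measurable_chi.comp measurable_fst.fst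
  have hm2 : Measurable fun z : PhasePoint × Par P => domG C b T P z.1.2 z.2 * chi z.1.1 :=
    (measurable_refD hC b T P).mul hm
  rw [lintegral_refT hC b T P hm, lintegral_split P hm2]
  have h1 : ∀ q : Space3 × Par P, ∫⁻ x : Space3, domG C b T P q.1 q.2 * chi x =
      domG C b T P q.1 q.2 := by
    intro q
    rw [lintegral_const_mul _ measurable_chi, lintegral_chi, mul_one]
  simp only [h1]
  exact lintegral_domG_ne_top hC hb T P

/-! ### The null event -/

/-- **An exit line is born near a particle of the gas**: null event. -/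
theorem gNull_birthT (hΦ : AdmissiblePotential Φ) {γ : ℝ} (hγ : 0 < γ) (hf : Measurable f₀)
    (H : HasSummableGaussianBound γ (fun x v => f₀ (x, v)))
    (h1 : ∫⁻ z, ENNReal.ofReal (f₀ z) ≤ 1) (R : ℝ) (P : CTree) (T : ℝ) (i : Idx P) :
    GNull f₀ (fun ε (_ : Unit) => treeQ Φ f₀ ε P T)
      (fun ε _ _ z w => Birth Φ ε R w (rel P z.2 i) (yT Φ ε P i z)) := by
  obtain ⟨c, C, b, hc, hC, hb, hle⟩ := treeQ_le_refT hΦ hγ hf H P T
  exact gNull_birth (I := Unit) (m := fun ε _ => treeQ Φ f₀ ε P T)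
    (m' := fun _ _ => refT C b T P) (Tr := fun _ _ => trZ) (s := fun _ _ z => rel P z.2 i)
    (y := fun ε _ => yT Φ ε P i) (pos := fun _ _ z => z.1.1) hΦ hf h1 R hc
    (pin_refT hC hb T P) measurable_chi lintegral_chi (fun ε _ hε => hle ε hε)
    (fun ε _ _ => bInv hΦ hC b T ε P i) (fun _ _ _ => le_rfl)

/-- **An exit line of a tree is born near a particle of the gas**: `TNull`. -/
theorem tNull_birthT (hΦ : AdmissiblePotential Φ) {γ : ℝ} (hγ : 0 < γ) (hf : Measurable f₀)
    (H : HasSummableGaussianBound γ (fun x v => f₀ (x, v)))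
    (h1 : ∫⁻ z, ENNReal.ofReal (f₀ z) ≤ 1) (R T' : ℝ) (K : ℕ) :
    TNull Φ f₀ T' K fun ε P z _ w => ∃ i : Idx P,
      Birth Φ ε R w (lineML Φ ε P z i).1.1 (lineML Φ ε P z i).1.2.1 := by
  refine GateT522.tNull_of_gNull hΦ hf fun P _ => ?_
  refine (GNull.exists_fintype hf fun i : Idx P =>
    gNull_birthT hΦ hγ hf H h1 R P T' i).mono' ?_
  rintro ε - n z w ⟨hV, -, i, hi⟩
  refine ⟨i, ?_⟩
  rw [yT_of_adm hV.1]
  exact hi

/-- The same with helper365's `NoB`. -/
theorem tNull_noB (hΦ : AdmissiblePotential Φ) {γ : ℝ} (hγ : 0 < γ) (hf : Measurable f₀)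
    (H : HasSummableGaussianBound γ (fun x v => f₀ (x, v)))
    (h1 : ∫⁻ z, ENNReal.ofReal (f₀ z) ≤ 1) (T' : ℝ) (K : ℕ) :
    TNull Φ f₀ T' K fun ε P z _ w => ∃ i : Idx P,
      ¬ PW365.NoB Φ ε (MW.cfg w) (lineML Φ ε P z i) :=
  TreeGate2302.tNull_mono (tNull_birthT hΦ hγ hf H h1 1 T' K) fun _ _ _ _ _ ⟨i, hi⟩ =>
    ⟨i, by_contra fun h => hi (PW365.noB_cfg h)⟩

end Crest.Agent.R122.BW302

end
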