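import Crest.Agent.R122.Disc_416

/-!
# Row 122, block F2 (S7): flux coordinates

* `flux` : the measure `‖g‖ dg dμHE[2](b)` on pairs `(b, g)`, `b ∈ impactDisc g`.
* `lintegral_flux` : its lintegral.
* `measurePreserving_line` : `(s, (b, g)) ↦ (b + s g, g)` maps `ds ⊗ flux` to Lebesgue measure on the
  set of phase points whose free line meets the open unit ball.
-/

set_option autoImplicit false

open MeasureTheory Set Filter
open Crest.AnalysisR.Kinetic
open scoped ENNReal

noncomputable section

namespace Crest.Agent.R122.Flux663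

open Disc416

/-- The flux measure on pairs `(b, g)`. -/
def flux : Measure (Space3 × Space3) :=
  (((volume : Measure Space3).withDensity (fun g => ENNReal.ofReal ‖g‖)).prod
    (volume.restrict (Metric.ball (0 : Plane) 1))).map (fun p => (frameMap p.1 p.2, p.1))

instance : SFinite flux := by unfold flux; infer_instance

lemma measurable_ofReal_norm : Measurable (fun g : Space3 => ENNReal.ofReal ‖g‖) :=
  measurable_norm.ennreal_ofReal

lemma measurable_frame_pair :
    Measurable (fun p : Space3 × Plane => ((frameMap p.1 p.2, p.1) : Space3 × Space3)) :=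
  measurable_frameMap.prodMk measurable_fst

lemma lintegral_flux' {F : Space3 × Space3 → ℝ≥0∞} (hF : Measurable F) :
    ∫⁻ e, F e ∂flux =
      ∫⁻ g : Space3, ENNReal.ofReal ‖g‖ * ∫⁻ y in Metric.ball (0 : Plane) 1, F (frameMap g y, g) := by
  have h1 : Measurable (fun p : Space3 × Plane => F (frameMap p.1 p.2, p.1)) :=
    hF.comp measurable_frame_pair
  unfold flux
  rw [lintegral_map hF measurable_frame_pair, lintegral_prod _ h1.aemeasurable,
    lintegral_withDensity_eq_lintegral_mul _ measurable_ofReal_norm
      (Measurable.lintegral_prod_right' h1)]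
  rfl

/-- The lintegral against the flux measure. -/
theorem lintegral_flux {F : Space3 × Space3 → ℝ≥0∞} (hF : Measurable F) :
    ∫⁻ e, F e ∂flux =
      ∫⁻ g : Space3, ENNReal.ofReal ‖g‖ * ∫⁻ b in impactDisc g, F (b, g) ∂μHE[2] := by
  rw [lintegral_flux' hF]
  refine lintegral_congr fun g => ?_
  rw [norm_mul_lintegral_impactDisc g (fun b => F (b, g))]

/-- The set of honest pairs. -/
def FS : Set (Space3 × Space3) := {e | e.2 ≠ 0 ∧ e.1 ∈ impactDisc e.2}

lemma measurableSet_FS : MeasurableSet FS := by
  have h1 : MeasurableSet {e : Space3 × Space3 | e.2 ≠ 0} :=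
    (measurableSet_singleton (0 : Space3)).compl.preimage measurable_snd
  have h2 : MeasurableSet {e : Space3 × Space3 | inner ℝ e.1 e.2 = 0} :=
    (isClosed_eq (by fun_prop) continuous_const).measurableSet
  have h3 : MeasurableSet {e : Space3 × Space3 | ‖e.1‖ < 1} :=
    (isOpen_lt (by fun_prop) continuous_const).measurableSet
  exact h1.inter (h2.inter h3)

lemma mem_FS {e : Space3 × Space3} : e ∈ FS ↔ e.2 ≠ 0 ∧ inner ℝ e.1 e.2 = 0 ∧ ‖e.1‖ < 1 := Iff.rfl

lemma frame_mem_FS {g : Space3} (hg : g ≠ 0) {y : Plane} (hy : y ∈ Metric.ball (0 : Plane) 1) :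
    (frameMap g y, g) ∈ FS := by
  refine ⟨hg, inner_frameMap_self g y, ?_⟩
  rw [norm_frameMap hg]
  simpa using hy

lemma flux_compl_FS : flux FSᶜ = 0 := by
  have hm : Measurable (FSᶜ.indicator (1 : Space3 × Space3 → ℝ≥0∞)) :=
    measurable_one.indicator measurableSet_FS.compl
  rw [← lintegral_indicator_one measurableSet_FS.compl, lintegral_flux' hm]
  rw [lintegral_eq_zero_iff']
  · filter_upwards [Measure.ae_ne volume (0 : Space3)] with g hg
    simp only [Pi.zero_apply, mul_eq_zero]
    right
    rw [setLIntegral_congr_fun (g := fun _ => 0) measurableSet_ball]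
    · simp
    · intro y hy
      have := frame_mem_FS hg hy
      simp [this]
  · refine (measurable_ofReal_norm.mul (Measurable.lintegral_prod_right' (f := fun p : Space3 × Plane =>
      (FSᶜ).indicator (1 : Space3 × Space3 → ℝ≥0∞) (frameMap p.1 p.2, p.1)) ?_)).aemeasurable
    exact hm.comp measurable_frame_pair

lemma ae_FS : ∀ᵐ e ∂flux, e ∈ FS := flux_compl_FS


/-! ### Line coordinates -/

/-- The time (in free flight, counted from the point of closest approach to `0`). -/
def tline (z : Space3 × Space3) : ℝ := inner ℝ z.1 z.2 / ‖z.2‖ ^ 2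

/-- The point of closest approach. -/
def bline (z : Space3 × Space3) : Space3 := z.1 - tline z • z.2

/-- `(s, (b, g)) ↦ (b + s g, g)`. -/
def lineMap (p : ℝ × (Space3 × Space3)) : Space3 × Space3 := (p.2.1 + p.1 • p.2.2, p.2.2)

/-- Inverse of `lineMap` on the cylinder. -/
def lineInv (z : Space3 × Space3) : ℝ × (Space3 × Space3) := (tline z, (bline z, z.2))

/-- Phase points whose free line meets the open unit ball. -/
def Cyl : Set (Space3 × Space3) := {z | z.2 ≠ 0 ∧ ‖bline z‖ < 1}

lemma measurable_tline : Measurable tline := by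
  unfold tline
  fun_prop

lemma measurable_bline : Measurable bline := by
  unfold bline
  exact measurable_fst.sub (measurable_tline.smul measurable_snd)

lemma measurable_lineMap : Measurable lineMap := by
  unfold lineMap
  fun_prop

lemma measurable_lineInv : Measurable lineInv :=
  measurable_tline.prodMk (measurable_bline.prodMk measurable_snd)

lemma measurableSet_Cyl : MeasurableSet Cyl :=
  ((measurableSet_singleton (0 : Space3)).compl.preimage measurable_snd).inter
    (measurableSet_lt (measurable_bline.norm) measurable_const)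

lemma lineMap_lineInv (z : Space3 × Space3) : lineMap (lineInv z) = z := by
  unfold lineMap lineInv bline
  ext1 <;> simp

lemma inner_bline {z : Space3 × Space3} (hz : z.2 ≠ 0) : inner ℝ (bline z) z.2 = 0 := by
  have : ‖z.2‖ ^ 2 ≠ 0 := by positivity
  unfold bline tline
  rw [inner_sub_left, inner_smul_left, real_inner_self_eq_norm_sq]
  simp only [conj_trivial]
  field_simp
  ring

lemma tline_lineMap {s : ℝ} {e : Space3 × Space3} (he : e ∈ FS) : tline (lineMap (s, e)) = s := by
  have : ‖e.2‖ ^ 2 ≠ 0 := by have := he.1; positivity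
  have h2 : inner ℝ e.1 e.2 = 0 := he.2.1
  unfold tline lineMap
  simp only [inner_add_left, inner_smul_left, real_inner_self_eq_norm_sq, h2, conj_trivial, zero_add]
  exact mul_div_cancel_right₀ s this

lemma bline_lineMap {s : ℝ} {e : Space3 × Space3} (he : e ∈ FS) : bline (lineMap (s, e)) = e.1 := by
  unfold bline
  rw [tline_lineMap he]
  simp [lineMap]

lemma lineInv_lineMap {s : ℝ} {e : Space3 × Space3} (he : e ∈ FS) :
    lineInv (lineMap (s, e)) = (s, e) := by
  unfold lineInv
  rw [tline_lineMap he, bline_lineMap he]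
  rfl

lemma lineMap_mem_Cyl {s : ℝ} {e : Space3 × Space3} (he : e ∈ FS) : lineMap (s, e) ∈ Cyl := by
  refine ⟨he.1, ?_⟩
  rw [bline_lineMap he]
  exact he.2.2

lemma lineInv_mem {z : Space3 × Space3} (hz : z ∈ Cyl) : (lineInv z).2 ∈ FS :=
  ⟨hz.1, inner_bline hz.1, hz.2⟩

/-- Scaling of the line in the lintegral. -/
lemma lintegral_scale {a : ℝ} (ha : 0 < a) (H : ℝ → ℝ≥0∞) (hH : Measurable H) :
    ∫⁻ r, H r = ENNReal.ofReal a * ∫⁻ s, H (a * s) := by
  conv_lhs => rw [← Real.smul_map_volume_mul_left ha.ne']
  rw [lintegral_smul_measure, lintegral_map hH (measurable_const_mul a), abs_of_pos ha]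
  rfl

/-- One velocity: cylinder coordinates with time. -/
lemma lintegral_cyl_fixed {g : Space3} (hg : g ≠ 0) {F : Space3 → ℝ≥0∞} (hF : Measurable F) :
    ∫⁻ q, (if ‖bline (q, g)‖ < 1 then F q else 0) =
      ENNReal.ofReal ‖g‖ * ∫⁻ y in Metric.ball (0 : Plane) 1, ∫⁻ s : ℝ, F (frameMap g y + s • g) := by
  have hm : Measurable (fun q : Space3 => if ‖bline (q, g)‖ < 1 then F q else 0) := by
    refine Measurable.ite (measurableSet_lt ?_ measurable_const) hF measurable_const
    exact (measurable_bline.comp (measurable_id.prodMk measurable_const)).norm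
  have hm2 : Measurable (fun p : Plane × ℝ =>
      if ‖bline (frameMap g p.1 + p.2 • dir g, g)‖ < 1 then F (frameMap g p.1 + p.2 • dir g) else 0) :=
    hm.comp (measurePreserving_cylinder hg).measurable
  have hb : ∀ (y : Plane) (r : ℝ), bline (frameMap g y + r • dir g, g) = frameMap g y := by
    intro y r
    have h0 : ‖g‖ ≠ 0 := norm_ne_zero_iff.2 hg
    unfold bline tline
    simp only [inner_add_left, inner_frameMap_self, zero_add, dir, smul_smul, inner_smul_left,
      real_inner_self_eq_norm_sq, conj_trivial]
    have : r * ‖g‖⁻¹ * ‖g‖ ^ 2 / ‖g‖ ^ 2 = r * ‖g‖⁻¹ := by field_simp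
    rw [this]
    simp
  rw [lintegral_cylinder hg hm, Measure.volume_eq_prod, lintegral_prod _ hm2.aemeasurable,
    ← lintegral_const_mul' _ _ ENNReal.ofReal_ne_top, ← lintegral_indicator measurableSet_ball]
  refine lintegral_congr fun y => ?_
  simp only [hb, norm_frameMap hg, indicator, Metric.mem_ball, dist_zero_right]
  by_cases hy : ‖y‖ < 1
  · simp only [hy, if_true]
    rw [lintegral_scale (norm_pos_iff.2 hg)]
    · congr 1
      refine lintegral_congr fun s => ?_
      congr 2
      rw [mul_comm, mul_smul, norm_smul_dir]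
    · exact hF.comp ((measurable_const).add (measurable_id.smul measurable_const))
  · simp [hy]

/-- (S7) Flux coordinates. -/
theorem lintegral_line {F : Space3 × Space3 → ℝ≥0∞} (hF : Measurable F) :
    ∫⁻ p, F (lineMap p) ∂((volume : Measure ℝ).prod flux) = ∫⁻ z in Cyl, F z := by
  have h1 : Measurable (fun p : ℝ × (Space3 × Space3) => F (lineMap p)) :=
    hF.comp measurable_lineMap
  rw [lintegral_prod_symm _ h1.aemeasurable, lintegral_flux' (h1.lintegral_prod_left'),
    ← lintegral_indicator measurableSet_Cyl, Measure.volume_eq_prod,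
    lintegral_prod_symm _ (hF.indicator measurableSet_Cyl).aemeasurable]
  refine lintegral_congr_ae ?_
  filter_upwards [Measure.ae_ne volume (0 : Space3)] with g hg
  have h2 := lintegral_cyl_fixed hg (F := fun q => F (q, g)) (hF.comp (measurable_id.prodMk measurable_const))
  rw [show (fun q : Space3 => Cyl.indicator F (q, g)) =
      fun q => if ‖bline (q, g)‖ < 1 then F (q, g) else 0 from ?_, h2]
  · rfl
  · funext q
    simp only [indicator, Cyl, mem_ofPred_eq, hg, ne_eq, not_false_eq_true, true_and]

/-- (S7) Flux coordinates as a measure preserving map. -/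
theorem measurePreserving_line :
    MeasurePreserving lineMap ((volume : Measure ℝ).prod flux) (volume.restrict Cyl) := by
  refine ⟨measurable_lineMap, ?_⟩
  ext A hA
  have h := lintegral_line (F := A.indicator 1) (measurable_one.indicator hA)
  rw [lintegral_indicator_one hA] at h
  rw [← h, Measure.map_apply measurable_lineMap hA,
    ← lintegral_indicator_one (measurable_lineMap hA)]
  rfl

/-- Iterated form of (S7). -/
theorem lintegral_line' {F : Space3 × Space3 → ℝ≥0∞} (hF : Measurable F) :
    ∫⁻ z in Cyl, F z = ∫⁻ s : ℝ, ∫⁻ g : Space3, ENNReal.ofReal ‖g‖ *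
      ∫⁻ b in impactDisc g, F (b + s • g, g) ∂μHE[2] := by
  have h1 : Measurable (fun p : ℝ × (Space3 × Space3) => F (lineMap p)) :=
    hF.comp measurable_lineMap
  rw [← lintegral_line hF, lintegral_prod _ h1.aemeasurable]
  refine lintegral_congr fun s => ?_
  have hm : Measurable (fun e : Space3 × Space3 => F (lineMap (s, e))) :=
    hF.comp (measurable_lineMap.comp (measurable_const.prodMk measurable_id))
  rw [lintegral_flux hm]
  rfl

end Crest.Agent.R122.Flux663
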