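import Crest.Agent.R122.TreeDefs_674
import Crest.Agent.R122.Scat4_818
import Crest.Agent.R122.NewtonFlow_671
import Crest.Agent.R122.Flux_663

/-!
Row 122, block C (helper674), part C1: the isolated two-body collision in outgoing parameters:
explicit solution of the two-body problem.
-/

set_option autoImplicit false

open MeasureTheory Set Filter Topology
open Crest.AnalysisR.Kinetic
open scoped ENNReal

noncomputable section

namespace Crest.Agent.R122.Tree674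

open Kin796 Kin796.CTree Disc416 Scat818 Flow671

variable {Φ : Space3 → ℝ}

/-! ### Bridge to the relative flow -/

theorem nt_iff (hΦ : AdmissiblePotential Φ) {b g : Space3} (hb : b ∈ impactDisc g) (hg : g ≠ 0) :
    NT Φ b g ↔ ∃ τ, HasExit Φ (inc b g) τ := exists_passage_iff hΦ (reg_entrance Φ hb hg)

theorem hasExit_tau (hΦ : AdmissiblePotential Φ) {b g : Space3} (hb : b ∈ impactDisc g) (hg : g ≠ 0)
    (h : NT Φ b g) : HasExit Φ (inc b g) (tau Φ b g) :=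
  ((passage_iff hΦ (reg_entrance Φ hb hg)).1 (passage_spec h)).1

theorem qpath_eq (hΦ : AdmissiblePotential Φ) {b g : Space3} (hb : b ∈ impactDisc g) (hg : g ≠ 0)
    (h : NT Φ b g) (s : ℝ) : qpath Φ b g s = (relFlow Φ s (inc b g)).1 :=
  ((passage_iff hΦ (reg_entrance Φ hb hg)).1 (passage_spec h)).2 s

theorem deriv_qpath (hΦ : AdmissiblePotential Φ) {b g : Space3} (hb : b ∈ impactDisc g) (hg : g ≠ 0)
    (h : NT Φ b g) (s : ℝ) : deriv (qpath Φ b g) s = (relFlow Φ s (inc b g)).2 := by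
  have h1 : qpath Φ b g = fun s => (relFlow Φ s (inc b g)).1 := funext (qpath_eq hΦ hb hg h)
  rw [h1]
  exact ((isRel_relFlow hΦ (z := inc b g) (reg_entrance Φ hb hg)).pos s).deriv

theorem tau_eq (hΦ : AdmissiblePotential Φ) {b g : Space3} (hb : b ∈ impactDisc g) (hg : g ≠ 0)
    (h : NT Φ b g) : tau Φ b g = exitTime Φ b g := (exitTime_eq (hasExit_tau hΦ hb hg h)).symm

theorem tau_nonneg (Φ : Space3 → ℝ) (b g : Space3) : 0 ≤ tau Φ b g := by
  by_cases h : NT Φ b g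
  · exact (passage_spec h).1.le
  · unfold tau
    rw [dif_neg h]

theorem tau_pos {b g : Space3} (h : NT Φ b g) : 0 < tau Φ b g := (passage_spec h).1

theorem qpath_neg (hΦ : AdmissiblePotential Φ) {b g : Space3} (hb : b ∈ impactDisc g) (hg : g ≠ 0)
    (h : NT Φ b g) {s : ℝ} (hs : s ≤ 0) :
    qpath Φ b g s = entrancePoint b g + s • g ∧ deriv (qpath Φ b g) s = g := by
  rw [qpath_eq hΦ hb hg h, deriv_qpath hΦ hb hg h]
  have h1 : relFlow Φ s (entrancePoint b g, g) = (entrancePoint b g + s • g, g) :=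
    relFlow_free_neg hΦ (norm_entrance hb hg).ge (inner_entrance_neg hb hg).le hs
  have h2 : inc b g = (entrancePoint b g, g) := rfl
  rw [h2, h1]
  exact ⟨rfl, rfl⟩

theorem qpath_after (hΦ : AdmissiblePotential Φ) {b g : Space3} (hb : b ∈ impactDisc g) (hg : g ≠ 0)
    (h : NT Φ b g) {s : ℝ} (hs : tau Φ b g ≤ s) :
    qpath Φ b g s = qx Φ b g + (s - tau Φ b g) • exitVelocity Φ b g ∧
      deriv (qpath Φ b g) s = exitVelocity Φ b g := by
  have hE := hasExit_tau hΦ hb hg h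
  rw [qpath_eq hΦ hb hg h, deriv_qpath hΦ hb hg h, hE.after hΦ (reg_entrance Φ hb hg) hs,
    Scat818.exitVelocity_eq hΦ (reg_entrance Φ hb hg) hE, qx, qpath_eq hΦ hb hg h]
  exact ⟨rfl, rfl⟩

theorem reg_qpath (hΦ : AdmissiblePotential Φ) {b g : Space3} (hb : b ∈ impactDisc g) (hg : g ≠ 0)
    (h : NT Φ b g) (s : ℝ) : Reg Φ (qpath Φ b g s) := by
  rw [qpath_eq hΦ hb hg h]
  exact reg_relFlow hΦ (z := inc b g) (reg_entrance Φ hb hg) s

theorem norm_qx {b g : Space3} (h : NT Φ b g) : ‖qx Φ b g‖ = 1 := (passage_spec h).2.2.2.2.2.2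

/-! ### Node facts -/

theorem Adm1.ng_ne {v : Space3} {a : NodeP} (h : Adm1 Φ v a) : ng v a ≠ 0 := sub_ne_zero.2 h.2.1

theorem Adm1.nt {v : Space3} {a : NodeP} (h : Adm1 Φ v a) : NT Φ (nb v a) (ng v a) := h.2.2

theorem nb_mem {v : Space3} {a : NodeP} (hy : ‖a.2.2‖ < 1) (hv : v ≠ a.2.1) :
    nb v a ∈ impactDisc (ng v a) := by
  refine ⟨inner_frameMap_self _ _, ?_⟩
  rw [nb, norm_frameMap (sub_ne_zero.2 hv)]
  exact hy

theorem Adm1.nb_mem {v : Space3} {a : NodeP} (h : Adm1 Φ v a) : nb v a ∈ impactDisc (ng v a) :=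
  Tree674.nb_mem h.1 h.2.1

theorem sin_le (Φ : Space3 → ℝ) {ε : ℝ} (hε : 0 ≤ ε) (v : Space3) (a : NodeP) :
    Tree674.sin Φ ε v a ≤ a.1 := by
  unfold Tree674.sin
  have := mul_nonneg hε (tau_nonneg Φ (nb v a) (ng v a))
  linarith

theorem preV_eq (v : Space3) (a : NodeP) : preV Φ v a =
    (cmv v a + (1 / 2 : ℝ) • exitVelocity Φ (nb v a) (ng v a),
      cmv v a - (1 / 2 : ℝ) • exitVelocity Φ (nb v a) (ng v a)) := rfl

/-! ### The pair path -/

/-- configuration of a pair -/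
def pr2 (q : PhasePoint × PhasePoint) : Fin 2 → PhasePoint := ![q.1, q.2]

theorem nf_pair (hΦ : AdmissiblePotential Φ) (ε : ℝ) (q : PhasePoint × PhasePoint) :
    nf Φ ε (pr2 q) =
      ![(q.1.2, -(1 / ε) • gradient Φ ((1 / ε) • (q.1.1 - q.2.1))),
        (q.2.2, (1 / ε) • gradient Φ ((1 / ε) • (q.1.1 - q.2.1)))] := by
  funext i
  fin_cases i
  · simp [nf, pr2, Fin.sum_univ_two, grad_origin hΦ]
  · have h1 : (1 / ε) • (q.2.1 - q.1.1) = -((1 / ε) • (q.1.1 - q.2.1)) := by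
      rw [← smul_neg, neg_sub]
    simp only [nf, pr2, Fin.sum_univ_two]
    simp only [Fin.mk_one, Fin.isValue, Matrix.cons_val_one, Matrix.cons_val_zero, sub_self,
      smul_zero, grad_origin hΦ, add_zero]
    rw [h1, grad_neg hΦ, smul_neg, neg_smul, neg_neg]

theorem hasDerivAt_qcomp {b g : Space3} (h : NT Φ b g) {ε s u : ℝ}
    (_hε : ε ≠ 0) : HasDerivAt (fun u : ℝ => qpath Φ b g ((s - u) / ε))
      ((-(1 / ε)) • deriv (qpath Φ b g) ((s - u) / ε)) u ∧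
    HasDerivAt (fun u : ℝ => deriv (qpath Φ b g) ((s - u) / ε))
      ((2 / ε) • gradient Φ (qpath Φ b g ((s - u) / ε))) u := by
  obtain ⟨-, -, -, h1, h2, -, -⟩ := passage_spec h
  have h0 : HasDerivAt (fun u : ℝ => (s - u) / ε) (-(1 / ε)) u := by
    have := ((hasDerivAt_id u).const_sub s).div_const ε
    rw [neg_div] at this
    exact this
  refine ⟨(h1 _).scomp u h0, ?_⟩
  have h3 := (h2 ((s - u) / ε)).scomp u h0
  rw [smul_smul] at h3
  have h4 : -(1 / ε) * -(2 : ℝ) = 2 / ε := by ring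
  rw [h4] at h3
  exact h3

/-- the pair path as a curve of configurations -/
theorem hasDerivAt_pairPath (hΦ : AdmissiblePotential Φ) {ε : ℝ} (hε : 0 < ε) {ℓ : PhasePoint}
    {a : NodeP} (ha : Adm1 Φ ℓ.2 a) (u : ℝ) :
    HasDerivAt (fun u => pr2 (pairPath Φ ε ℓ a u)) (nf Φ ε (pr2 (pairPath Φ ε ℓ a u))) u := by
  obtain ⟨h1, h2⟩ := hasDerivAt_qcomp ha.nt (ε := ε) (s := a.1) (u := u) hε.ne'
  set q := qpath Φ (nb ℓ.2 a) (ng ℓ.2 a) with hq
  have hrel : (1 / ε) • ((pairPath Φ ε ℓ a u).1.1 - (pairPath Φ ε ℓ a u).2.1) =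
      -(q ((a.1 - u) / ε)) := by
    simp only [pairPath, ← hq]
    have : ∀ A B : Space3, A - (ε / 2) • B - (A + (ε / 2) • B) = (-ε) • B := by
      intro A B; module
    rw [this, smul_smul]
    have : 1 / ε * -ε = -1 := by field_simp
    rw [this, neg_one_smul]
  rw [nf_pair hΦ, hrel, grad_neg hΦ]
  have hc : HasDerivAt (fun u : ℝ => cms ε ℓ a + (u - a.1) • cmv ℓ.2 a) (cmv ℓ.2 a) u := by
    have := (((hasDerivAt_id u).sub_const a.1).smul_const (cmv ℓ.2 a)).const_add (cms ε ℓ a)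
    simpa using this
  rw [hasDerivAt_pi]
  intro i
  fin_cases i
  · show HasDerivAt (fun u => (pairPath Φ ε ℓ a u).1) ((pairPath Φ ε ℓ a u).1.2,
      -(1 / ε) • -gradient Φ (q ((a.1 - u) / ε))) u
    simp only [pairPath, ← hq]
    refine HasDerivAt.prodMk ?_ ?_
    · refine (hc.fun_sub (h1.fun_const_smul (ε / 2))).congr_deriv ?_
      rw [smul_smul]
      have : ε / 2 * -(1 / ε) = -(1 / 2) := by field_simp
      rw [this, neg_smul, sub_neg_eq_add]
    · refine ((h2.fun_const_smul (1 / 2 : ℝ)).const_add (cmv ℓ.2 a)).congr_deriv ?_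
      rw [smul_smul, smul_neg, neg_smul, neg_neg]
      congr 1
      ring
  · show HasDerivAt (fun u => (pairPath Φ ε ℓ a u).2) ((pairPath Φ ε ℓ a u).2.2,
      (1 / ε) • -gradient Φ (q ((a.1 - u) / ε))) u
    simp only [pairPath, ← hq]
    refine HasDerivAt.prodMk ?_ ?_
    · refine (hc.fun_add (h1.fun_const_smul (ε / 2))).congr_deriv ?_
      rw [smul_smul]
      have : ε / 2 * -(1 / ε) = -(1 / 2) := by field_simp
      rw [this, neg_smul, ← sub_eq_add_neg]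
    · refine ((h2.fun_const_smul (1 / 2 : ℝ)).const_sub (cmv ℓ.2 a)).congr_deriv ?_
      rw [smul_smul, smul_neg]
      congr 2
      ring

theorem pairPath_mem_Dom (hΦ : AdmissiblePotential Φ) {ε : ℝ} (hε : 0 < ε) {ℓ : PhasePoint}
    {a : NodeP} (ha : Adm1 Φ ℓ.2 a) (u : ℝ) : pr2 (pairPath Φ ε ℓ a u) ∈ Dom Φ (Fin 2) := by
  rcases reg_qpath hΦ ha.nb_mem ha.ng_ne ha.nt ((a.1 - u) / ε) with h | h
  · refine Or.inr fun i j hij heq => h ?_
    have h1 : (pairPath Φ ε ℓ a u).1.1 = (pairPath Φ ε ℓ a u).2.1 := by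
      fin_cases i <;> fin_cases j
      · exact absurd rfl hij
      · exact heq
      · exact heq.symm
      · exact absurd rfl hij
    have h2 : (pairPath Φ ε ℓ a u).1.1 - (pairPath Φ ε ℓ a u).2.1 = 0 := sub_eq_zero.2 h1
    simp only [pairPath] at h2
    have h3 : ∀ A B : Space3, A - (ε / 2) • B - (A + (ε / 2) • B) = (-ε) • B := by
      intro A B; module
    rw [h3, smul_eq_zero] at h2
    exact h2.resolve_left (neg_ne_zero.2 hε.ne')
  · exact Or.inl h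

/-- **The pair path is the Newton flow.** -/
theorem pairPath_flow (hΦ : AdmissiblePotential Φ) {ε : ℝ} (hε : 0 < ε) {ℓ : PhasePoint}
    {a : NodeP} (ha : Adm1 Φ ℓ.2 a) (t u : ℝ) :
    flow Φ ε (t - u) (pr2 (pairPath Φ ε ℓ a u)) = pr2 (pairPath Φ ε ℓ a t) := by
  have key : ∀ t, pr2 (pairPath Φ ε ℓ a t) = flow Φ ε t (pr2 (pairPath Φ ε ℓ a 0)) := fun t =>
    eq_flow_univ hΦ hε (γ := fun u => pr2 (pairPath Φ ε ℓ a u))
      (fun u => hasDerivAt_pairPath hΦ hε ha u) (pairPath_mem_Dom hΦ hε ha 0) t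
  rw [key u, ← flow_add hΦ hε, key t]
  congr 1
  ring

theorem cm_add (v : Space3) (a : NodeP) : cmv v a + (1 / 2 : ℝ) • ng v a = v := by
  simp only [cmv, ng]; module

theorem cm_sub (v : Space3) (a : NodeP) : cmv v a - (1 / 2 : ℝ) • ng v a = a.2.1 := by
  simp only [cmv, ng]; module

/-- after the exit time: outgoing lines -/
theorem pairPath_out (hΦ : AdmissiblePotential Φ) {ε : ℝ} (hε : 0 < ε) {ℓ : PhasePoint}
    {a : NodeP} (ha : Adm1 Φ ℓ.2 a) {u : ℝ} (hu : a.1 ≤ u) :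
    pairPath Φ ε ℓ a u = (onLine ℓ u, onLine (outLine ε ℓ a) u) := by
  have hs : (a.1 - u) / ε ≤ 0 := div_nonpos_of_nonpos_of_nonneg (by linarith) hε.le
  obtain ⟨h1, h2⟩ := qpath_neg hΦ ha.nb_mem ha.ng_ne ha.nt hs
  have h3 : (ε / 2) • ((a.1 - u) / ε) • ng ℓ.2 a = ((a.1 - u) / 2) • ng ℓ.2 a := by
    rw [smul_smul]; congr 1; field_simp
  have hv := cm_add ℓ.2 a
  have hw := cm_sub ℓ.2 a
  have e1 : cms ε ℓ a + (u - a.1) • cmv ℓ.2 a
      - (ε / 2) • qpath Φ (nb ℓ.2 a) (ng ℓ.2 a) ((a.1 - u) / ε) = ℓ.1 + u • ℓ.2 := by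
    have h4 : ℓ.1 + u • ℓ.2 = ℓ.1 + a.1 • ℓ.2 + (u - a.1) • (cmv ℓ.2 a + (1 / 2 : ℝ) • ng ℓ.2 a) := by
      rw [hv]; module
    rw [h1, smul_add, h3, cms, h4]
    module
  have e2 : cms ε ℓ a + (u - a.1) • cmv ℓ.2 a
      + (ε / 2) • qpath Φ (nb ℓ.2 a) (ng ℓ.2 a) ((a.1 - u) / ε) =
      (outLine ε ℓ a).1 + u • (outLine ε ℓ a).2 := by
    have h4 : (outLine ε ℓ a).1 + u • (outLine ε ℓ a).2 =
        ℓ.1 + a.1 • ℓ.2 + ε • entrancePoint (nb ℓ.2 a) (ng ℓ.2 a)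
          + (u - a.1) • (cmv ℓ.2 a - (1 / 2 : ℝ) • ng ℓ.2 a) := by
      rw [hw]; simp only [outLine]; module
    rw [h1, smul_add, h3, cms, h4]
    module
  rw [pairPath, e1, e2, h2, hv, hw]
  rfl

/-- before the entrance time: incoming lines -/
theorem pairPath_in (hΦ : AdmissiblePotential Φ) {ε : ℝ} (hε : 0 < ε) {ℓ : PhasePoint}
    {a : NodeP} (ha : Adm1 Φ ℓ.2 a) {u : ℝ} (hu : u ≤ Tree674.sin Φ ε ℓ.2 a) :
    pairPath Φ ε ℓ a u = (onLine (inMap Φ ε ℓ a).1 u, onLine (inMap Φ ε ℓ a).2 u) := by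
  have hs : tau Φ (nb ℓ.2 a) (ng ℓ.2 a) ≤ (a.1 - u) / ε := by
    rw [le_div_iff₀ hε]
    unfold Tree674.sin at hu
    linarith
  obtain ⟨h1, h2⟩ := qpath_after hΦ ha.nb_mem ha.ng_ne ha.nt hs
  set τ := tau Φ (nb ℓ.2 a) (ng ℓ.2 a) with hτ
  set q' := exitVelocity Φ (nb ℓ.2 a) (ng ℓ.2 a) with hq'
  have h3 : (ε / 2) • ((a.1 - u) / ε - τ) • q' = ((Tree674.sin Φ ε ℓ.2 a - u) / 2) • q' := by
    rw [smul_smul]; congr 1
    unfold Tree674.sin
    field_simp
    ring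
  have hs' : a.1 = Tree674.sin Φ ε ℓ.2 a + ε * τ := by unfold Tree674.sin; ring
  have e1 : cms ε ℓ a + (u - a.1) • cmv ℓ.2 a
      - (ε / 2) • qpath Φ (nb ℓ.2 a) (ng ℓ.2 a) ((a.1 - u) / ε) =
      (inMap Φ ε ℓ a).1.1 + u • (inMap Φ ε ℓ a).1.2 := by
    rw [h1, smul_add, h3]
    simp only [inMap, xin, preV_eq]
    rw [← hτ, ← hq', show u - a.1 = u - Tree674.sin Φ ε ℓ.2 a - ε * τ by rw [hs']; ring]
    module
  have e2 : cms ε ℓ a + (u - a.1) • cmv ℓ.2 a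
      + (ε / 2) • qpath Φ (nb ℓ.2 a) (ng ℓ.2 a) ((a.1 - u) / ε) =
      (inMap Φ ε ℓ a).2.1 + u • (inMap Φ ε ℓ a).2.2 := by
    rw [h1, smul_add, h3]
    simp only [inMap, xin, preV_eq]
    rw [← hτ, ← hq', show u - a.1 = u - Tree674.sin Φ ε ℓ.2 a - ε * τ by rw [hs']; ring]
    module
  rw [pairPath, e1, e2, h2]
  rfl

/-! ### Scattering in line coordinates -/

/-- state at time `T` of a pair of lines, as a configuration -/
def atT (T : ℝ) (q : PhasePoint × PhasePoint) : Fin 2 → PhasePoint := pr2 (onLine q.1 T, onLine q.2 T)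

/-- lines through the phase points of a pair at time `T` -/
def lineT (T : ℝ) (Z : Fin 2 → PhasePoint) : PhasePoint × PhasePoint :=
  (onLine (Z 0) (-T), onLine (Z 1) (-T))

theorem onLine_neg (z : PhasePoint) (T : ℝ) : onLine (onLine z T) (-T) = z := by
  simp [onLine]

theorem onLine_neg' (z : PhasePoint) (T : ℝ) : onLine (onLine z (-T)) T = z := by
  simp [onLine]

theorem onLine_zero (z : PhasePoint) : onLine z 0 = z := by simp [onLine]

theorem lineT_atT (T : ℝ) (q : PhasePoint × PhasePoint) : lineT T (atT T q) = q := by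
  simp [lineT, atT, pr2, onLine_neg]

theorem atT_lineT (T : ℝ) (Z : Fin 2 → PhasePoint) : atT T (lineT T Z) = Z := by
  funext i
  fin_cases i <;> simp [lineT, atT, pr2, onLine_neg']

/-- outgoing lines (at final time `T`) of a pair with time-`0` states `q` -/
def sc (Φ : Space3 → ℝ) (ε T : ℝ) (q : PhasePoint × PhasePoint) : PhasePoint × PhasePoint :=
  lineT T (flow Φ ε T (pr2 q))

/-- inverse of `sc` -/
def scInv (Φ : Space3 → ℝ) (ε T : ℝ) (q : PhasePoint × PhasePoint) : PhasePoint × PhasePoint :=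
  lineT 0 (flow Φ ε (-T) (atT T q))

theorem lineT_zero (Z : Fin 2 → PhasePoint) : lineT 0 Z = (Z 0, Z 1) := by
  simp [lineT, onLine_zero]

theorem pr2_lineT_zero (Z : Fin 2 → PhasePoint) : pr2 (lineT 0 Z) = Z := by
  rw [lineT_zero]
  funext i
  fin_cases i <;> rfl

theorem lineT_zero_pr2 (q : PhasePoint × PhasePoint) : lineT 0 (pr2 q) = q := by
  rw [lineT_zero]; rfl

theorem scInv_sc (hΦ : AdmissiblePotential Φ) {ε : ℝ} (hε : 0 < ε) (T : ℝ)
    (q : PhasePoint × PhasePoint) : scInv Φ ε T (sc Φ ε T q) = q := by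
  rw [scInv, sc, atT_lineT, flow_neg_flow hΦ hε, lineT_zero_pr2]

theorem sc_scInv (hΦ : AdmissiblePotential Φ) {ε : ℝ} (hε : 0 < ε) (T : ℝ)
    (q : PhasePoint × PhasePoint) : sc Φ ε T (scInv Φ ε T q) = q := by
  rw [scInv, sc, pr2_lineT_zero, flow_flow_neg hΦ hε, lineT_atT]

/-- **Incoming lines are obtained by scattering back the outgoing lines.** -/
theorem inMap_eq_scInv (hΦ : AdmissiblePotential Φ) {ε : ℝ} (hε : 0 < ε) {T : ℝ} {ℓ : PhasePoint}
    {a : NodeP} (ha : Adm1 Φ ℓ.2 a) (h0 : 0 ≤ Tree674.sin Φ ε ℓ.2 a) (hT : a.1 ≤ T) :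
    inMap Φ ε ℓ a = scInv Φ ε T (ℓ, outLine ε ℓ a) := by
  have h1 := pairPath_flow hΦ hε ha 0 T
  rw [pairPath_out hΦ hε ha hT, pairPath_in hΦ hε ha h0, zero_sub] at h1
  rw [scInv, atT, h1, lineT_zero_pr2, onLine_zero, onLine_zero]

theorem sc_inMap (hΦ : AdmissiblePotential Φ) {ε : ℝ} (hε : 0 < ε) {T : ℝ} {ℓ : PhasePoint}
    {a : NodeP} (ha : Adm1 Φ ℓ.2 a) (h0 : 0 ≤ Tree674.sin Φ ε ℓ.2 a) (hT : a.1 ≤ T) :
    sc Φ ε T (inMap Φ ε ℓ a) = (ℓ, outLine ε ℓ a) := by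
  rw [inMap_eq_scInv hΦ hε ha h0 hT, sc_scInv hΦ hε]

end Crest.Agent.R122.Tree674

end
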