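import Crest.Agent.R122.OneMW_45
import Crest.Agent.R122.OCout_796
import Crest.Agent.R122.Coll_674

/-!
# Two-body encounter in entrance coordinates (row 122, block A7, helper45)

`q = (v, u, b)`: contact data, `y`: position of `c` at the entrance time `s`; the state of `l` at time
`s` is `(y + ε • entrancePoint b (v - u), v)`, the state of `c` is `(y, u)`.

* `encPL`, `encPC` : the two-body paths (for all times, free before `s` and after `s + outT`).
* `world_encP` : they solve Newton's equations.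
* `encPL_of_le`, `encPC_of_le` : lines before `s`; `encPL_exit`, `encPC_exit`: the outgoing lines
  `lineL'`, `lineC'` of `OCout_796`.
* `dist_encP`, `dist_encP_le`, `lt_dist_encP`.
-/

set_option autoImplicit false
set_option linter.unusedSectionVars false

open MeasureTheory Set Filter Topology
open scoped ENNReal
open Crest.AnalysisR.Kinetic
open Crest.Agent.R122.Flow671 Crest.Agent.R122.Loc45 Crest.Agent.R122.Causal291
open Crest.Agent.R122.EDefs602 Crest.Agent.R122.Tree674
open Crest.Agent.R122.Scat818 Crest.Agent.R122.OCout796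

namespace Crest.Agent.R122.Ins45

noncomputable section

open scoped Classical

variable {Φ : Space3 → ℝ} {ε s : ℝ} {y : Space3} {q : CD}

/-- Relative position (in units of `ε`) and relative velocity. -/
def encR (Φ : Space3 → ℝ) (ε s : ℝ) (q : CD) (t : ℝ) : Space3 × Space3 :=
  relFlow Φ ((t - s) / ε) (inc (relB q).1 (relB q).2)

/-- Centre of mass. -/
def encCM (ε s : ℝ) (y : Space3) (q : CD) (t : ℝ) : Space3 :=
  y + (ε / 2) • entrancePoint (relB q).1 (relB q).2 + (t - s) • cmvel q

/-- Path of the tagged particle. -/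
def encPL (Φ : Space3 → ℝ) (ε s : ℝ) (y : Space3) (q : CD) (t : ℝ) : PhasePoint :=
  (encCM ε s y q t + (ε / 2) • (encR Φ ε s q t).1, cmvel q + (1 / 2 : ℝ) • (encR Φ ε s q t).2)

/-- Path of the partner. -/
def encPC (Φ : Space3 → ℝ) (ε s : ℝ) (y : Space3) (q : CD) (t : ℝ) : PhasePoint :=
  (encCM ε s y q t - (ε / 2) • (encR Φ ε s q t).1, cmvel q - (1 / 2 : ℝ) • (encR Φ ε s q t).2)

/-- Nondegenerate contact data: `b` in the open impact disc, `v ≠ u`. -/
def CDok (q : CD) : Prop := (relB q).1 ∈ impactDisc (relB q).2 ∧ (relB q).2 ≠ 0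

theorem cmvel_add (q : CD) : cmvel q + (1 / 2 : ℝ) • (relB q).2 = q.1 := by
  unfold cmvel relB
  module

theorem cmvel_sub (q : CD) : cmvel q - (1 / 2 : ℝ) • (relB q).2 = q.2.1 := by
  unfold cmvel relB
  module

theorem encPL_sub_encPC (t : ℝ) :
    (encPL Φ ε s y q t).1 - (encPC Φ ε s y q t).1 = ε • (encR Φ ε s q t).1 := by
  unfold encPL encPC
  simp only
  module

theorem dist_encP (hε : 0 ≤ ε) (t : ℝ) :
    dist (encPL Φ ε s y q t).1 (encPC Φ ε s y q t).1 = ε * ‖(encR Φ ε s q t).1‖ := by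
  rw [dist_eq_norm, encPL_sub_encPC, norm_smul, Real.norm_eq_abs, abs_of_nonneg hε]

theorem world_encP (hΦ : AdmissiblePotential Φ) (hε : 0 < ε) (hq : CDok q) :
    World Φ ε (fun t => pr2 (encPL Φ ε s y q t, encPC Φ ε s y q t)) := by
  have hreg : Reg Φ (inc (relB q).1 (relB q).2).1 := reg_entrance Φ hq.1 hq.2
  have hrel := isRel_relFlow hΦ hreg
  have h0 : ∀ t : ℝ, HasDerivAt (fun t : ℝ => (t - s) / ε) (1 / ε) t := fun t =>
    ((hasDerivAt_id t).sub_const s).div_const ε
  have h1 : ∀ t : ℝ, HasDerivAt (fun t : ℝ => (encR Φ ε s q t).1)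
      ((1 / ε) • (encR Φ ε s q t).2) t := fun t => by
    have h := (hrel.pos ((t - s) / ε)).scomp t (h0 t)
    exact h
  have h2 : ∀ t : ℝ, HasDerivAt (fun t : ℝ => (encR Φ ε s q t).2)
      ((1 / ε) • force Φ (encR Φ ε s q t).1) t := fun t => by
    have h := (hrel.vel ((t - s) / ε)).scomp t (h0 t)
    exact h
  have h3 : ∀ t : ℝ, HasDerivAt (encCM ε s y q) (cmvel q) t := by
    intro t
    have h := (((hasDerivAt_id t).sub_const s).smul_const (cmvel q)).const_add
      (y + (ε / 2) • entrancePoint (relB q).1 (relB q).2)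
    rw [one_smul] at h
    exact h
  have hgrad : ∀ t, (1 / ε) • ((encPL Φ ε s y q t).1 - (encPC Φ ε s y q t).1) =
      (encR Φ ε s q t).1 := by
    intro t
    rw [encPL_sub_encPC, smul_smul, one_div, inv_mul_cancel₀ hε.ne', one_smul]
  intro t
  refine ⟨?_, ?_⟩
  · rcases reg_relFlow hΦ hreg ((t - s) / ε) with h | h
    · refine Or.inr fun i j hij heq => h ?_
      have h4 : (encPL Φ ε s y q t).1 = (encPC Φ ε s y q t).1 := by
        fin_cases i <;> fin_cases j
        · exact absurd rfl hij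
        · exact heq
        · exact heq.symm
        · exact absurd rfl hij
      have h5 := hgrad t
      rw [h4, sub_self, smul_zero] at h5
      exact h5.symm
    · exact Or.inl h
  · rw [nf_pair hΦ]
    simp only
    rw [hgrad t, hasDerivAt_pi]
    intro i
    fin_cases i
    · show HasDerivAt (encPL Φ ε s y q) ((encPL Φ ε s y q t).2,
        -(1 / ε) • gradient Φ (encR Φ ε s q t).1) t
      refine HasDerivAt.prodMk ?_ ?_
      · refine ((h3 t).fun_add ((h1 t).fun_const_smul (ε / 2))).congr_deriv ?_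
        rw [smul_smul]
        have : ε / 2 * (1 / ε) = 1 / 2 := by field_simp
        rw [this]
        rfl
      · refine (((h2 t).fun_const_smul (1 / 2 : ℝ)).const_add (cmvel q)).congr_deriv ?_
        unfold force
        rw [smul_smul, smul_smul]
        congr 1
        ring
    · show HasDerivAt (encPC Φ ε s y q) ((encPC Φ ε s y q t).2,
        (1 / ε) • gradient Φ (encR Φ ε s q t).1) t
      refine HasDerivAt.prodMk ?_ ?_
      · refine ((h3 t).fun_sub ((h1 t).fun_const_smul (ε / 2))).congr_deriv ?_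
        rw [smul_smul]
        have : ε / 2 * (1 / ε) = 1 / 2 := by field_simp
        rw [this]
        rfl
      · refine (((h2 t).fun_const_smul (1 / 2 : ℝ)).const_sub (cmvel q)).congr_deriv ?_
        unfold force
        rw [smul_smul, smul_smul, ← neg_smul]
        congr 1
        ring

/-! ### Before the entrance -/

theorem encR_of_le (hΦ : AdmissiblePotential Φ) (hε : 0 < ε) (hq : CDok q) {t : ℝ} (ht : t ≤ s) :
    encR Φ ε s q t = (entrancePoint (relB q).1 (relB q).2 + ((t - s) / ε) • (relB q).2,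
      (relB q).2) :=
  relFlow_free_neg hΦ (norm_entrance hq.1 hq.2).ge (inner_entrance_neg hq.1 hq.2).le
    (div_nonpos_of_nonpos_of_nonneg (by linarith) hε.le)

theorem encPL_of_le (hΦ : AdmissiblePotential Φ) (hε : 0 < ε) (hq : CDok q) {t : ℝ} (ht : t ≤ s) :
    encPL Φ ε s y q t =
      lineAt s (y + ε • entrancePoint (relB q).1 (relB q).2, q.1) t := by
  have h1 : (ε / 2) • ((t - s) / ε) • (relB q).2 = (t - s) • (1 / 2 : ℝ) • (relB q).2 := by
    rw [smul_smul, smul_smul]
    congr 1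
    field_simp
  unfold encPL lineAt encCM
  rw [encR_of_le hΦ hε hq ht]
  refine Prod.ext ?_ (cmvel_add q)
  simp only
  rw [smul_add, h1, ← cmvel_add q]
  module

theorem encPC_of_le (hΦ : AdmissiblePotential Φ) (hε : 0 < ε) (hq : CDok q) {t : ℝ} (ht : t ≤ s) :
    encPC Φ ε s y q t = lineAt s (y, q.2.1) t := by
  have h1 : (ε / 2) • ((t - s) / ε) • (relB q).2 = (t - s) • (1 / 2 : ℝ) • (relB q).2 := by
    rw [smul_smul, smul_smul]
    congr 1
    field_simp
  unfold encPC lineAt encCM
  rw [encR_of_le hΦ hε hq ht]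
  refine Prod.ext ?_ (cmvel_sub q)
  simp only
  rw [smul_add, h1, ← cmvel_sub q]
  module

theorem encPL_self (hΦ : AdmissiblePotential Φ) (hε : 0 < ε) (hq : CDok q) :
    encPL Φ ε s y q s = (y + ε • entrancePoint (relB q).1 (relB q).2, q.1) := by
  rw [encPL_of_le hΦ hε hq le_rfl, lineAt_self]

theorem encPC_self (hΦ : AdmissiblePotential Φ) (hε : 0 < ε) (hq : CDok q) :
    encPC Φ ε s y q s = (y, q.2.1) := by
  rw [encPC_of_le hΦ hε hq le_rfl, lineAt_self]

/-! ### At the exit -/

theorem encR_exit (hε : ε ≠ 0) : encR Φ ε s q (s + outT Φ ε q) = exitM Φ (relB q) := by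
  unfold encR exitM outT
  rw [add_sub_cancel_left, mul_div_cancel_left₀ _ hε]

theorem encPL_exit (hε : ε ≠ 0) :
    encPL Φ ε s y q (s + outT Φ ε q) = (lineL' Φ ε s y q).2 := by
  unfold encPL lineL' encCM outCM
  rw [encR_exit hε]
  refine Prod.ext ?_ rfl
  simp only
  rw [add_sub_cancel_left]
  module

theorem encPC_exit (hε : ε ≠ 0) :
    encPC Φ ε s y q (s + outT Φ ε q) = (lineC' Φ ε s y q).2 := by
  unfold encPC lineC' encCM outCM
  rw [encR_exit hε]
  refine Prod.ext ?_ rfl
  simp only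
  rw [add_sub_cancel_left]
  module

/-- Contact data with a passage. -/
def CDpass (Φ : Space3 → ℝ) (q : CD) : Prop := relB q ∈ passSet Φ

theorem CDpass.ok (hq : CDpass Φ q) : CDok q := hq.1

theorem CDpass.hasExit (hq : CDpass Φ q) :
    HasExit Φ (inc (relB q).1 (relB q).2) (tauM Φ (relB q)) := by
  rw [tauM_of_mem hq]
  exact hq.2.hasExit

theorem CDpass.outT_pos (hε : 0 < ε) (hq : CDpass Φ q) : 0 < outT Φ ε q :=
  mul_pos hε hq.hasExit.1

theorem CDpass.dist_exit (hε : 0 < ε) (hq : CDpass Φ q) :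
    dist (encPL Φ ε s y q (s + outT Φ ε q)).1 (encPC Φ ε s y q (s + outT Φ ε q)).1 = ε := by
  rw [dist_encP hε.le, encR_exit hε.ne', exitM, hq.hasExit.2.2, mul_one]

theorem dist_entrance (hΦ : AdmissiblePotential Φ) (hε : 0 < ε) (hq : CDok q) :
    dist (encPL Φ ε s y q s).1 (encPC Φ ε s y q s).1 = ε := by
  rw [dist_encP hε.le, encR, sub_self, zero_div, relFlow_zero hΦ]
  change ε * ‖entrancePoint (relB q).1 (relB q).2‖ = ε
  rw [norm_entrance hq.1 hq.2, mul_one]

theorem CDpass.lt_dist (hΦ : AdmissiblePotential Φ) (hε : 0 < ε) (hq : CDpass Φ q) {t : ℝ}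
    (ht : s + outT Φ ε q < t) :
    ε < dist (encPL Φ ε s y q t).1 (encPC Φ ε s y q t).1 := by
  rw [dist_encP hε.le]
  have h1 : tauM Φ (relB q) < (t - s) / ε := by
    rw [lt_div_iff₀ hε]
    have h2 : s + ε * tauM Φ (relB q) < t := ht
    linarith
  have h3 : 1 < ‖(encR Φ ε s q t).1‖ :=
    hq.hasExit.one_lt_norm hΦ (reg_entrance Φ hq.ok.1 hq.ok.2) h1
  nlinarith

theorem CDpass.dist_le (hΦ : AdmissiblePotential Φ) (hε : 0 < ε) (hq : CDpass Φ q) {t : ℝ}
    (ht : s ≤ t) (ht' : t ≤ s + outT Φ ε q) :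
    dist (encPL Φ ε s y q t).1 (encPC Φ ε s y q t).1 ≤ ε := by
  rcases eq_or_lt_of_le ht with h | h
  · rw [← h, dist_entrance hΦ hε hq.ok]
  rcases eq_or_lt_of_le ht' with h' | h'
  · rw [h', hq.dist_exit hε]
  rw [dist_encP hε.le]
  have h1 : (t - s) / ε < tauM Φ (relB q) := by
    rw [div_lt_iff₀ hε]
    have h2 : t < s + ε * tauM Φ (relB q) := h'
    linarith
  have h3 : ‖(encR Φ ε s q t).1‖ < 1 :=
    hq.hasExit.2.1 _ ⟨div_pos (by linarith) hε, h1⟩
  nlinarith

end

end Crest.Agent.R122.Ins45
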