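import Crest.Agent.R122.Hid_424
import Crest.Agent.R122.TreeMeas_674
import Crest.Agent.R122.CausalMeas_291

/-!
# Row 122 (helper424): measurability of the hidden tubes of a tree

* `measurable_prot`, `hSM` / `hSM_of_adm` / `measurable_hSM`, `curveM` / `curveM_of_adm` /
  `measurable_curveM` : measurable versions (equal on admissible parameters) of the end times and of
  the curves of the hidden tubes, jointly in the root line, the parameters and the time;
* `measurableSet_unhit` : measurability of the event "no particle of the world `w` enters the tubes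
  `(c, b)` before `t`", for curves, end times, world and time depending measurably on a parameter;
* `measurableSet_unhit_tree` : the same for the hidden tubes of a tree.
-/

set_option autoImplicit false

open MeasureTheory Set Filter
open scoped ENNReal Topology Classical
open Crest.AnalysisR.Kinetic Crest.Agent.R122.Kin796 Crest.Agent.R122.Disc416
  Crest.Agent.R122.Tree674

noncomputable section

namespace Crest.Agent.R122.Hid424

open CTree

variable {Φ : Space3 → ℝ}

/-! ### End times -/

theorem measurable_prot : ∀ P : CTree, Measurable fun z : ℝ × Par P => prot P z.1 z.2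
  | leaf => measurable_pi_iff.2 fun _ => measurable_fst
  | node l r => by
      have hp : Measurable fun z : ℝ × Par (node l r) => z.2 := measurable_snd
      have hl : Measurable fun z : ℝ × Par (node l r) => prot l z.1 z.2.2.1 :=
        (measurable_prot l).comp (f := fun z : ℝ × Par (node l r) => (z.1, z.2.2.1))
          (measurable_fst.prodMk ((measurable_parL l r).comp hp))
      have hr : Measurable fun z : ℝ × Par (node l r) => prot r z.2.1.1 z.2.2.2 :=
        (measurable_prot r).comp (f := fun z : ℝ × Par (node l r) => (z.2.1.1, z.2.2.2))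
          (((measurable_par1 l r).comp hp).fst.prodMk ((measurable_parR l r).comp hp))
      refine measurable_pi_iff.2 fun i => ?_
      cases i with
      | inl i => exact (measurable_pi_apply i).comp hl
      | inr i => exact (measurable_pi_apply i).comp hr

/-- measurable version of `hS` -/
def hSM (Φ : Space3 → ℝ) : ∀ P : CTree, Space3 → Par P → (Idx P → ℝ)
  | leaf => fun _ _ _ => -1
  | node l r => fun v p => Sum.elim
      (if (preM Φ (v, p.1)).1 = v then hSM Φ l v p.2.1 else prot l p.1.1 p.2.1)
      (if (preM Φ (v, p.1)).2 = v then hSM Φ r v p.2.2 else prot r p.1.1 p.2.2)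

theorem hSM_of_adm : ∀ {P : CTree} {v : Space3} {p : Par P}, Adm Φ P v p →
    hSM Φ P v p = hS Φ P v p
  | leaf, _, _, _ => rfl
  | node l r, v, p, h => by
      have h1 : Adm1 Φ v p.1 := h.1
      have e : preM Φ (v, p.1) = preV Φ v p.1 := preM_of_adm (z := (v, p.1)) h1
      have h2 : Adm Φ l (preV Φ v p.1).1 p.2.1 := h.2.1
      have h3 : Adm Φ r (preV Φ v p.1).2 p.2.2 := h.2.2
      simp only [hSM, hS, e]
      congr 1
      · split_ifs with hv
        · rw [hv] at h2
          exact hSM_of_adm h2
        · rfl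
      · split_ifs with hv
        · rw [hv] at h3
          exact hSM_of_adm h3
        · rfl

theorem measurable_hSM (hΦ : AdmissiblePotential Φ) : ∀ P : CTree,
    Measurable fun z : Space3 × Par P => hSM Φ P z.1 z.2
  | leaf => measurable_const
  | node l r => by
      have hp : Measurable fun z : Space3 × Par (node l r) => z.2 := measurable_snd
      have ha : Measurable fun z : Space3 × Par (node l r) => z.2.1 :=
        (measurable_par1 l r).comp hp
      have hz : Measurable fun z : Space3 × Par (node l r) => (z.1, z.2.1) :=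
        measurable_fst.prodMk ha
      have hi := (measurable_preM hΦ).comp hz
      have hl1 : Measurable fun z : Space3 × Par (node l r) => hSM Φ l z.1 z.2.2.1 :=
        (measurable_hSM hΦ l).comp (f := fun z : Space3 × Par (node l r) => (z.1, z.2.2.1))
          (measurable_fst.prodMk ((measurable_parL l r).comp hp))
      have hr1 : Measurable fun z : Space3 × Par (node l r) => hSM Φ r z.1 z.2.2.2 :=
        (measurable_hSM hΦ r).comp (f := fun z : Space3 × Par (node l r) => (z.1, z.2.2.2))
          (measurable_fst.prodMk ((measurable_parR l r).comp hp))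
      have hl2 : Measurable fun z : Space3 × Par (node l r) => prot l z.2.1.1 z.2.2.1 :=
        (measurable_prot l).comp (f := fun z : Space3 × Par (node l r) => (z.2.1.1, z.2.2.1))
          (ha.fst.prodMk ((measurable_parL l r).comp hp))
      have hr2 : Measurable fun z : Space3 × Par (node l r) => prot r z.2.1.1 z.2.2.2 :=
        (measurable_prot r).comp (f := fun z : Space3 × Par (node l r) => (z.2.1.1, z.2.2.2))
          (ha.fst.prodMk ((measurable_parR l r).comp hp))
      have h1 : MeasurableSet {z : Space3 × Par (node l r) | (preM Φ (z.1, z.2.1)).1 = z.1} :=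
        measurableSet_eq_fun hi.fst measurable_fst
      have h2 : MeasurableSet {z : Space3 × Par (node l r) | (preM Φ (z.1, z.2.1)).2 = z.1} :=
        measurableSet_eq_fun hi.snd measurable_fst
      have hL : Measurable fun z : Space3 × Par (node l r) =>
          if (preM Φ (z.1, z.2.1)).1 = z.1 then hSM Φ l z.1 z.2.2.1 else prot l z.2.1.1 z.2.2.1 :=
        Measurable.ite h1 hl1 hl2
      have hR : Measurable fun z : Space3 × Par (node l r) =>
          if (preM Φ (z.1, z.2.1)).2 = z.1 then hSM Φ r z.1 z.2.2.2 else prot r z.2.1.1 z.2.2.2 :=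
        Measurable.ite h2 hr1 hr2
      refine measurable_pi_iff.2 fun i => ?_
      cases i with
      | inl i => exact (measurable_pi_apply i).comp hL
      | inr i => exact (measurable_pi_apply i).comp hR

/-! ### Curves -/

/-- measurable version of `curve` -/
def curveM (Φ : Space3 → ℝ) (ε : ℝ) (P : CTree) (ℓ : PhasePoint) (p : Par P) (i : Idx P) (s : ℝ) :
    Space3 := (Flow671.flow Φ ε s (linesM Φ ε P ℓ p) i).1

theorem curveM_of_adm {ε : ℝ} {P : CTree} {ℓ : PhasePoint} {p : Par P} (h : Adm Φ P ℓ.2 p)
    (i : Idx P) : curveM Φ ε P ℓ p i = curve Φ ε P ℓ p i := by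
  funext s
  unfold curveM curve
  rw [linesM_of_adm ε h]

theorem continuous_curveM (hΦ : AdmissiblePotential Φ) {ε : ℝ} (hε : 0 < ε) (P : CTree)
    (ℓ : PhasePoint) (p : Par P) (i : Idx P) : Continuous (curveM Φ ε P ℓ p i) :=
  continuous_fst.comp ((continuous_apply i).comp
    (Flow671.flow_continuous_time hΦ hε (linesM Φ ε P ℓ p)))

theorem measurable_curveM (hΦ : AdmissiblePotential Φ) {ε : ℝ} (hε : 0 < ε) (P : CTree)
    (i : Idx P) :
    Measurable fun z : ℝ × (PhasePoint × Par P) => curveM Φ ε P z.2.1 z.2.2 i z.1 := by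
  have h := (Flow671.measurable_flow_joint (ι := Idx P) hΦ hε).comp
    (f := fun z : ℝ × (PhasePoint × Par P) => (z.1, linesM Φ ε P z.2.1 z.2.2))
    (measurable_fst.prodMk ((measurable_linesM hΦ ε P).comp measurable_snd))
  exact ((measurable_pi_apply i).comp h).fst

/-! ### The event that a family of tubes is not hit -/

theorem measurableSet_unhit (hΦ : AdmissiblePotential Φ) {ε : ℝ} (hε : 0 < ε)
    {Ω : Type*} [MeasurableSpace Ω] {κ : Type*} [Finite κ] {ι : Type*} [Fintype ι]
    {c : Ω → κ → ℝ → Space3} (hc : ∀ ω i, Continuous (c ω i))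
    (hcm : ∀ i s, Measurable fun ω => c ω i s) {b : Ω → κ → ℝ}
    (hb : ∀ i, Measurable fun ω => b ω i) {w : Ω → ι → PhasePoint} (hw : Measurable w)
    {t : Ω → ℝ} (ht : Measurable t) :
    MeasurableSet {ω | ∀ i j, ∀ s ∈ Icc 0 (min (b ω i) (t ω)),
      ε < dist (c ω i s) (Flow671.flow Φ ε s (w ω) j).1} := by
  have e : {ω | ∀ i j, ∀ s ∈ Icc 0 (min (b ω i) (t ω)),
      ε < dist (c ω i s) (Flow671.flow Φ ε s (w ω) j).1} =
      ⋂ i, ⋂ j, {ω | ∃ s ∈ Icc 0 (min (b ω i) (t ω)),
        dist (c ω i s) (Flow671.flow Φ ε s (w ω) j).1 ≤ ε}ᶜ := by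
    ext ω
    simp only [mem_iInter, mem_compl_iff, mem_ofPred_eq, not_exists, not_and, not_le]
  rw [e]
  refine MeasurableSet.iInter fun i => MeasurableSet.iInter fun j => MeasurableSet.compl ?_
  refine Causal291.measurableSet_exists_Icc (α := fun _ => (0 : ℝ))
    (g := fun ω s => dist (c ω i s) (Flow671.flow Φ ε s (w ω) j).1) measurable_const
    ((hb i).min ht) (fun ω => ?_) (fun s => ?_) ε
  · exact (hc ω i).dist (continuous_fst.comp ((continuous_apply j).comp
      (Flow671.flow_continuous_time hΦ hε (w ω))))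
  · exact (hcm i s).dist ((measurable_pi_apply j).comp ((Flow671.measurable_flow hΦ hε s).comp
      hw)).fst

/-- the hidden tubes of a tree are not hit, jointly in the gas and in the tree -/
theorem measurableSet_unhit_tree (hΦ : AdmissiblePotential Φ) {ε : ℝ} (hε : 0 < ε) (P : CTree)
    (T : ℝ) {ι : Type*} [Fintype ι] {Ω : Type*} [MeasurableSpace Ω]
    {w : Ω → ι → PhasePoint} (hw : Measurable w) {t : Ω → ℝ} (ht : Measurable t)
    {ℓ : Ω → PhasePoint} (hℓ : Measurable ℓ) {p : Ω → Par P} (hp : Measurable p) :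
    MeasurableSet {ω | Valid Φ ε P T (ℓ ω).2 (p ω) ∧
      ∀ i j, ∀ s ∈ Icc 0 (min (hS Φ P (ℓ ω).2 (p ω) i) (t ω)),
      ε < dist (curve Φ ε P (ℓ ω) (p ω) i s) (Flow671.flow Φ ε s (w ω) j).1} := by
  have h := measurableSet_unhit hΦ hε (κ := Idx P)
    (c := fun ω i s => curveM Φ ε P (ℓ ω) (p ω) i s)
    (fun ω i => continuous_curveM hΦ hε P (ℓ ω) (p ω) i)
    (fun i s => (measurable_curveM hΦ hε P i).comp
      (f := fun ω => (s, (ℓ ω, p ω))) (measurable_const.prodMk (hℓ.prodMk hp)))
    (b := fun ω i => hSM Φ P (ℓ ω).2 (p ω) i)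
    (fun i => (measurable_pi_apply i).comp ((measurable_hSM hΦ P).comp
      (f := fun ω => ((ℓ ω).2, p ω)) (hℓ.snd.prodMk hp))) hw ht
  have hV : MeasurableSet {ω | Valid Φ ε P T (ℓ ω).2 (p ω)} :=
    (hℓ.prodMk hp) (measurableSet_valid hΦ ε P T)
  have e : {ω | Valid Φ ε P T (ℓ ω).2 (p ω) ∧
      ∀ i j, ∀ s ∈ Icc 0 (min (hS Φ P (ℓ ω).2 (p ω) i) (t ω)),
      ε < dist (curve Φ ε P (ℓ ω) (p ω) i s) (Flow671.flow Φ ε s (w ω) j).1} =
      {ω | Valid Φ ε P T (ℓ ω).2 (p ω)} ∩
      {ω | ∀ i j, ∀ s ∈ Icc 0 (min (hSM Φ P (ℓ ω).2 (p ω) i) (t ω)),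
      ε < dist (curveM Φ ε P (ℓ ω) (p ω) i s) (Flow671.flow Φ ε s (w ω) j).1} := by
    ext ω
    simp only [mem_inter_iff, mem_ofPred_eq]
    refine and_congr_right fun hv => ?_
    rw [hSM_of_adm hv.1]
    simp only [curveM_of_adm (ℓ := ℓ ω) hv.1]
  rw [e]
  exact hV.inter h

end Crest.Agent.R122.Hid424
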