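import Crest.Agent.R122.ToTree_335
import Crest.Agent.R122.BadHit_370
import Crest.Agent.R122.LineMeas_994
import Crest.Agent.R122.HidMeas_424

/-!
# Calculus of structure integrals with a parameter (row 122, boards H2, H4)

Functionals `F P z m w a` of a tree `(P, z)`, of the gas `w : Config m` and of a parameter `a : α`.

* `MeasG` joint measurability; `MeasVP`, `MeasV` measurability on valid trees, closure lemmas.
* `GS ν F` : `activity * ∑_P ∫ dz 1[valid] wt pf gcE (∫ F dν)` (the right side of `to_tree`).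
* `GS_mono_on`, `GS_congr_on`, `GS_const_mul`, `GS_add`, `GS_finset_sum`, `GS_tsum`.
-/

set_option autoImplicit false
set_option linter.unusedSectionVars false

open MeasureTheory Set Filter
open scoped ENNReal Classical Topology
open Crest.AnalysisR.Kinetic
open Crest.Agent.R122.Kin796 Crest.Agent.R122.Kin796.CTree Crest.Agent.R122.Tree674
open Crest.Agent.R122.GC311

noncomputable section

namespace Crest.Agent.R122.GSCalc495

variable {Φ : Space3 → ℝ} {f₀ : PhasePoint → ℝ} {ε : ℝ} {T' : ℝ} {P : CTree}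
  {α : Type*} [MeasurableSpace α]

/-- Functionals of a tree of shape `P`, the gas and a parameter. -/
abbrev PF (P : CTree) (α : Type*) : Type _ :=
  PhasePoint × Par P → (m : ℕ) → Config m → α → ℝ≥0∞

/-- Functionals of a tree, the gas and a parameter. -/
abbrev GF (α : Type*) : Type _ :=
  (P : CTree) → PhasePoint × Par P → (m : ℕ) → Config m → α → ℝ≥0∞

/-- Joint measurability. -/
def MeasG (F : GF α) : Prop := ∀ (P : CTree) (m : ℕ), Measurable
  fun q : (PhasePoint × Par P) × (Config m × α) => F P q.1 m q.2.1 q.2.2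

/-- Measurability on the valid trees of shape `P`. -/
def MeasVP (Φ : Space3 → ℝ) (ε T' : ℝ) (P : CTree) (F : PF P α) : Prop := ∀ m : ℕ, Measurable
  fun q : (PhasePoint × Par P) × (Config m × α) =>
    if Valid Φ ε P T' q.1.1.2 q.1.2 then F q.1 m q.2.1 q.2.2 else 0

/-- Measurability on valid trees. -/
def MeasV (Φ : Space3 → ℝ) (ε T' : ℝ) (H : GF α) : Prop := ∀ P, MeasVP Φ ε T' P (H P)

/-- Restriction of a functional to valid trees. -/
def cut (Φ : Space3 → ℝ) (ε T' : ℝ) (H : GF α) : GF α := fun P z m w l =>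
  if Valid Φ ε P T' z.1.2 z.2 then H P z m w l else 0

theorem MeasV.cut {H : GF α} (h : MeasV Φ ε T' H) : MeasG (cut Φ ε T' H) := fun P m => h P m

theorem measurableSet_val (hΦ : AdmissiblePotential Φ) (ε T' : ℝ) (P : CTree) (m : ℕ) :
    MeasurableSet {q : (PhasePoint × Par P) × (Config m × α) |
      Valid Φ ε P T' q.1.1.2 q.1.2} :=
  measurable_fst (measurableSet_valid hΦ ε P T')

namespace MeasVP

theorem of_meas (hΦ : AdmissiblePotential Φ) {F : PF P α} (h : ∀ m, Measurable
    fun q : (PhasePoint × Par P) × (Config m × α) => F q.1 m q.2.1 q.2.2) :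
    MeasVP Φ ε T' P F := fun m =>
  Measurable.ite (measurableSet_val hΦ ε T' P m) (h m) measurable_const

theorem congr {F F' : PF P α} (h : MeasVP Φ ε T' P F)
    (e : ∀ z m w l, Valid Φ ε P T' z.1.2 z.2 → F' z m w l = F z m w l) : MeasVP Φ ε T' P F' := by
  intro m
  have h1 : (fun q : (PhasePoint × Par P) × (Config m × α) =>
      if Valid Φ ε P T' q.1.1.2 q.1.2 then F' q.1 m q.2.1 q.2.2 else 0) = fun q =>
      if Valid Φ ε P T' q.1.1.2 q.1.2 then F q.1 m q.2.1 q.2.2 else 0 := by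
    funext q
    by_cases hq : Valid Φ ε P T' q.1.1.2 q.1.2
    · rw [if_pos hq, if_pos hq, e _ _ _ _ hq]
    · rw [if_neg hq, if_neg hq]
  rw [h1]
  exact h m

/-- A functional with a measurable version on admissible trees. -/
theorem of_adm (hΦ : AdmissiblePotential Φ) {F F' : PF P α} (h : ∀ m, Measurable
    fun q : (PhasePoint × Par P) × (Config m × α) => F' q.1 m q.2.1 q.2.2)
    (e : ∀ z m w l, Adm Φ P z.1.2 z.2 → F' z m w l = F z m w l) : MeasVP Φ ε T' P F :=
  (of_meas hΦ h).congr fun z m w l hz => (e z m w l hz.1).symm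

theorem const (hΦ : AdmissiblePotential Φ) (c : ℝ≥0∞) :
    MeasVP Φ ε T' P (fun _ _ _ (_ : α) => c) := of_meas hΦ fun _ => measurable_const

theorem add {F F' : PF P α} (h : MeasVP Φ ε T' P F) (h' : MeasVP Φ ε T' P F') :
    MeasVP Φ ε T' P (fun z m w l => F z m w l + F' z m w l) := by
  intro m
  have h1 := (h m).add (h' m)
  have h2 : (fun q : (PhasePoint × Par P) × (Config m × α) =>
      if Valid Φ ε P T' q.1.1.2 q.1.2 then F q.1 m q.2.1 q.2.2 + F' q.1 m q.2.1 q.2.2 else 0) =
      fun q => (if Valid Φ ε P T' q.1.1.2 q.1.2 then F q.1 m q.2.1 q.2.2 else 0) +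
        (if Valid Φ ε P T' q.1.1.2 q.1.2 then F' q.1 m q.2.1 q.2.2 else 0) := by
    funext q
    split_ifs
    · rfl
    · rw [add_zero]
  rw [h2]
  exact h1

theorem mul {F F' : PF P α} (h : MeasVP Φ ε T' P F) (h' : MeasVP Φ ε T' P F') :
    MeasVP Φ ε T' P (fun z m w l => F z m w l * F' z m w l) := by
  intro m
  have h1 := (h m).mul (h' m)
  have h2 : (fun q : (PhasePoint × Par P) × (Config m × α) =>
      if Valid Φ ε P T' q.1.1.2 q.1.2 then F q.1 m q.2.1 q.2.2 * F' q.1 m q.2.1 q.2.2 else 0) =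
      fun q => (if Valid Φ ε P T' q.1.1.2 q.1.2 then F q.1 m q.2.1 q.2.2 else 0) *
        (if Valid Φ ε P T' q.1.1.2 q.1.2 then F' q.1 m q.2.1 q.2.2 else 0) := by
    funext q
    split_ifs
    · rfl
    · rw [mul_zero]
  rw [h2]
  exact h1

theorem const_mul {F : PF P α} (h : MeasVP Φ ε T' P F) (c : ℝ≥0∞) :
    MeasVP Φ ε T' P (fun z m w l => c * F z m w l) := by
  intro m
  have h2 : (fun q : (PhasePoint × Par P) × (Config m × α) =>
      if Valid Φ ε P T' q.1.1.2 q.1.2 then c * F q.1 m q.2.1 q.2.2 else 0) =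
      fun q => c * (if Valid Φ ε P T' q.1.1.2 q.1.2 then F q.1 m q.2.1 q.2.2 else 0) := by
    funext q
    split_ifs
    · rfl
    · rw [mul_zero]
  rw [h2]
  exact (h m).const_mul c

theorem min {F F' : PF P α} (h : MeasVP Φ ε T' P F) (h' : MeasVP Φ ε T' P F') :
    MeasVP Φ ε T' P (fun z m w l => Min.min (F z m w l) (F' z m w l)) := by
  intro m
  have h1 := (h m).min (h' m)
  have h2 : (fun q : (PhasePoint × Par P) × (Config m × α) =>
      if Valid Φ ε P T' q.1.1.2 q.1.2 then Min.min (F q.1 m q.2.1 q.2.2) (F' q.1 m q.2.1 q.2.2)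
        else 0) =
      fun q => Min.min (if Valid Φ ε P T' q.1.1.2 q.1.2 then F q.1 m q.2.1 q.2.2 else 0)
        (if Valid Φ ε P T' q.1.1.2 q.1.2 then F' q.1 m q.2.1 q.2.2 else 0) := by
    funext q
    split_ifs
    · rfl
    · exact (min_self 0).symm
  rw [h2]
  exact h1

theorem zero : MeasVP Φ ε T' P (fun _ _ _ (_ : α) => 0) := by
  intro m
  have h2 : (fun q : (PhasePoint × Par P) × (Config m × α) =>
      if Valid Φ ε P T' q.1.1.2 q.1.2 then (0 : ℝ≥0∞) else 0) = fun _ => 0 := by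
    funext q
    split_ifs <;> rfl
  rw [h2]
  exact measurable_const

theorem sum {β : Type*} (s : Finset β) {F : β → PF P α} (h : ∀ a ∈ s, MeasVP Φ ε T' P (F a)) :
    MeasVP Φ ε T' P (fun z m w l => ∑ a ∈ s, F a z m w l) := by
  induction s using Finset.induction_on with
  | empty =>
    simp only [Finset.sum_empty]
    exact zero
  | insert a s ha ih =>
    simp only [Finset.sum_insert ha]
    exact (h a (Finset.mem_insert_self a s)).add
      (ih fun b hb => h b (Finset.mem_insert_of_mem hb))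

theorem tsum {β : Type*} [Countable β] {F : β → PF P α} (h : ∀ a, MeasVP Φ ε T' P (F a)) :
    MeasVP Φ ε T' P (fun z m w l => ∑' a, F a z m w l) := by
  intro m
  have h2 : (fun q : (PhasePoint × Par P) × (Config m × α) =>
      if Valid Φ ε P T' q.1.1.2 q.1.2 then ∑' a, F a q.1 m q.2.1 q.2.2 else 0) =
      fun q => ∑' a, (if Valid Φ ε P T' q.1.1.2 q.1.2 then F a q.1 m q.2.1 q.2.2 else 0) := by
    funext q
    split_ifs
    · rfl
    · rw [tsum_zero]
  rw [h2]
  exact Measurable.tsum fun a => h a m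

/-- Switch on any constant proposition (shape of the tree, ...). -/
theorem ite_const (p : Prop) [Decidable p] {F F' : PF P α} (h : MeasVP Φ ε T' P F)
    (h' : MeasVP Φ ε T' P F') :
    MeasVP Φ ε T' P (fun z m w l => if p then F z m w l else F' z m w l) := by
  by_cases hp : p
  · simp only [if_pos hp]; exact h
  · simp only [if_neg hp]; exact h'

/-- Switch on a measurable condition. -/
theorem ite {F F' : PF P α} {p : ∀ (_ : PhasePoint × Par P) (m : ℕ) (_ : Config m) (_ : α), Prop}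
    (hp : ∀ m, MeasurableSet {q : (PhasePoint × Par P) × (Config m × α) | p q.1 m q.2.1 q.2.2})
    (h : MeasVP Φ ε T' P F) (h' : MeasVP Φ ε T' P F') :
    MeasVP Φ ε T' P (fun z m w l => if p z m w l then F z m w l else F' z m w l) := by
  intro m
  have h2 : (fun q : (PhasePoint × Par P) × (Config m × α) =>
      if Valid Φ ε P T' q.1.1.2 q.1.2 then
        (if p q.1 m q.2.1 q.2.2 then F q.1 m q.2.1 q.2.2 else F' q.1 m q.2.1 q.2.2) else 0) =
      fun q => if p q.1 m q.2.1 q.2.2 then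
        (if Valid Φ ε P T' q.1.1.2 q.1.2 then F q.1 m q.2.1 q.2.2 else 0) else
        (if Valid Φ ε P T' q.1.1.2 q.1.2 then F' q.1 m q.2.1 q.2.2 else 0) := by
    funext q
    split_ifs <;> rfl
  rw [h2]
  exact Measurable.ite (hp m) (h m) (h' m)

end MeasVP

namespace MeasV

theorem of_measG (hΦ : AdmissiblePotential Φ) {H : GF α} (h : MeasG H) : MeasV Φ ε T' H :=
  fun P => MeasVP.of_meas hΦ (h P)

theorem congr {H H' : GF α} (h : MeasV Φ ε T' H)
    (e : ∀ P z m w l, Valid Φ ε P T' z.1.2 z.2 → H' P z m w l = H P z m w l) :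
    MeasV Φ ε T' H' := fun P => (h P).congr (e P)

theorem add {H H' : GF α} (h : MeasV Φ ε T' H) (h' : MeasV Φ ε T' H') :
    MeasV Φ ε T' (fun P z m w l => H P z m w l + H' P z m w l) := fun P => (h P).add (h' P)

theorem mul {H H' : GF α} (h : MeasV Φ ε T' H) (h' : MeasV Φ ε T' H') :
    MeasV Φ ε T' (fun P z m w l => H P z m w l * H' P z m w l) := fun P => (h P).mul (h' P)

theorem const_mul {H : GF α} (h : MeasV Φ ε T' H) (c : ℝ≥0∞) :
    MeasV Φ ε T' (fun P z m w l => c * H P z m w l) := fun P => (h P).const_mul c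

theorem sum {β : Type*} (s : Finset β) {H : β → GF α} (h : ∀ a ∈ s, MeasV Φ ε T' (H a)) :
    MeasV Φ ε T' (fun P z m w l => ∑ a ∈ s, H a P z m w l) := fun P =>
  MeasVP.sum s fun a ha => h a ha P

theorem tsum {β : Type*} [Countable β] {H : β → GF α} (h : ∀ a, MeasV Φ ε T' (H a)) :
    MeasV Φ ε T' (fun P z m w l => ∑' a, H a P z m w l) := fun P =>
  MeasVP.tsum fun a => h a P

end MeasV

/-! ## The structure integral -/

/-- Integrand in the tree. -/
def inn (f₀ : PhasePoint → ℝ) (ε : ℝ) (ν : Measure α) (F : GF α) (P : CTree)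
    (z : PhasePoint × Par P) : ℝ≥0∞ := gcE f₀ ε fun m w => ∫⁻ a, F P z m w a ∂ν

/-- Structure integral with a parameter. -/
def GS (Φ : Space3 → ℝ) (f₀ : PhasePoint → ℝ) (ε T' : ℝ) (ν : Measure α) (F : GF α) : ℝ≥0∞ :=
  activity ε * ∑' P : CTree, ∫⁻ z : PhasePoint × Par P,
    {z : PhasePoint × Par P | Valid Φ ε P T' z.1.2 z.2}.indicator
      (fun z => wt Φ P z.1.2 z.2 * (ToTree335.pf Φ f₀ ε P z *
        gcE f₀ ε (fun m w => ∫⁻ a, F P z m w a ∂ν))) z

variable {ν : Measure α}

/-- Measurable form of the structure integral. -/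
theorem GS_eq_M (F : GF α) : GS Φ f₀ ε T' ν F = activity ε * ∑' P : CTree,
    ∫⁻ z : PhasePoint × Par P, {z : PhasePoint × Par P | Valid Φ ε P T' z.1.2 z.2}.indicator
      (fun z => wtM Φ P z.1.2 z.2 * (ToTree335.pfM Φ f₀ ε P z * inn f₀ ε ν F P z)) z := by
  unfold GS
  congr 1
  refine tsum_congr fun P => lintegral_congr fun z => ?_
  by_cases hz : Valid Φ ε P T' z.1.2 z.2
  · rw [indicator_of_mem (show z ∈ {z : PhasePoint × Par P | Valid Φ ε P T' z.1.2 z.2} from hz),
      indicator_of_mem (show z ∈ {z : PhasePoint × Par P | Valid Φ ε P T' z.1.2 z.2} from hz),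
      wtM_of_adm hz.1, ToTree335.pfM_of_adm hz.1]
    rfl
  · rw [indicator_of_notMem
      (show z ∉ {z : PhasePoint × Par P | Valid Φ ε P T' z.1.2 z.2} from hz),
      indicator_of_notMem
      (show z ∉ {z : PhasePoint × Par P | Valid Φ ε P T' z.1.2 z.2} from hz)]

/-- Comparison under a common weight: constant, expectation. -/
theorem GS_le_mul {ν' : Measure α} {F F' : GF α} {c : ℝ≥0∞} (h : ∀ (P : CTree) z,
    Valid Φ ε P T' z.1.2 z.2 → ∀ (m : ℕ) (w : Config m), w ∈ PairExcluded ε m →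
    ∫⁻ a, F P z m w a ∂ν ≤ c * ∫⁻ a, F' P z m w a ∂ν') (hc : c ≠ ∞) :
    GS Φ f₀ ε T' ν F ≤ c * GS Φ f₀ ε T' ν' F' := by
  unfold GS
  rw [mul_left_comm c, ← ENNReal.tsum_mul_left (a := c)]
  refine mul_le_mul_right (ENNReal.tsum_le_tsum fun P => ?_) _
  rw [← lintegral_const_mul' _ _ hc]
  refine lintegral_mono fun z => ?_
  by_cases hz : Valid Φ ε P T' z.1.2 z.2
  swap
  · rw [indicator_of_notMem
      (show z ∉ {z : PhasePoint × Par P | Valid Φ ε P T' z.1.2 z.2} from hz)]
    exact zero_le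
  rw [indicator_of_mem (show z ∈ {z : PhasePoint × Par P | Valid Φ ε P T' z.1.2 z.2} from hz),
    indicator_of_mem (show z ∈ {z : PhasePoint × Par P | Valid Φ ε P T' z.1.2 z.2} from hz)]
  have h1 : gcE f₀ ε (fun m w => ∫⁻ a, F P z m w a ∂ν) ≤
      c * gcE f₀ ε (fun m w => ∫⁻ a, F' P z m w a ∂ν') := by
    rw [← gcE_const_mul f₀ ε hc]
    exact gcE_mono f₀ ε fun m w hw => h P z hz m w hw
  calc wt Φ P z.1.2 z.2 * (ToTree335.pf Φ f₀ ε P z *
        gcE f₀ ε (fun m w => ∫⁻ a, F P z m w a ∂ν))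
      ≤ wt Φ P z.1.2 z.2 * (ToTree335.pf Φ f₀ ε P z *
        (c * gcE f₀ ε (fun m w => ∫⁻ a, F' P z m w a ∂ν'))) :=
        mul_le_mul_right (mul_le_mul_right h1 _) _
    _ = _ := by ring

theorem GS_mono_on {F F' : GF α} (h : ∀ P z m w a, Valid Φ ε P T' z.1.2 z.2 →
    w ∈ PairExcluded ε m → F P z m w a ≤ F' P z m w a) :
    GS Φ f₀ ε T' ν F ≤ GS Φ f₀ ε T' ν F' := by
  have h1 := GS_le_mul (Φ := Φ) (f₀ := f₀) (ε := ε) (T' := T') (ν := ν) (ν' := ν) (F := F)
    (F' := F') (c := 1) (fun P z hz m w hw => by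
      rw [one_mul]
      exact lintegral_mono fun a => h P z m w a hz hw) ENNReal.one_ne_top
  rwa [one_mul] at h1

theorem GS_mono_ae {F F' : GF α} (h : ∀ P z m w, Valid Φ ε P T' z.1.2 z.2 →
    w ∈ PairExcluded ε m → ∀ᵐ a ∂ν, F P z m w a ≤ F' P z m w a) :
    GS Φ f₀ ε T' ν F ≤ GS Φ f₀ ε T' ν F' := by
  have h1 := GS_le_mul (Φ := Φ) (f₀ := f₀) (ε := ε) (T' := T') (ν := ν) (ν' := ν) (F := F)
    (F' := F') (c := 1) (fun P z hz m w hw => by
      rw [one_mul]
      exact lintegral_mono_ae (h P z m w hz hw)) ENNReal.one_ne_top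
  rwa [one_mul] at h1

theorem GS_congr_on {F F' : GF α} (h : ∀ P z m w a, Valid Φ ε P T' z.1.2 z.2 →
    w ∈ PairExcluded ε m → F P z m w a = F' P z m w a) :
    GS Φ f₀ ε T' ν F = GS Φ f₀ ε T' ν F' :=
  le_antisymm (GS_mono_on fun P z m w a hz hw => (h P z m w a hz hw).le)
    (GS_mono_on fun P z m w a hz hw => (h P z m w a hz hw).ge)

theorem GS_mono_measure {ν' : Measure α} (h : ν ≤ ν') (F : GF α) :
    GS Φ f₀ ε T' ν F ≤ GS Φ f₀ ε T' ν' F := by
  have h1 := GS_le_mul (Φ := Φ) (f₀ := f₀) (ε := ε) (T' := T') (ν := ν) (ν' := ν') (F := F)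
    (F' := F) (c := 1) (fun P z hz m w hw => by
      rw [one_mul]
      exact lintegral_mono' h le_rfl) ENNReal.one_ne_top
  rwa [one_mul] at h1

theorem GS_cut (F : GF α) : GS Φ f₀ ε T' ν (cut Φ ε T' F) = GS Φ f₀ ε T' ν F :=
  GS_congr_on fun _ _ _ _ _ hz _ => if_pos hz

theorem GS_const_mul {c : ℝ≥0∞} (hc : c ≠ ∞) (F : GF α) :
    GS Φ f₀ ε T' ν (fun P z m w a => c * F P z m w a) = c * GS Φ f₀ ε T' ν F := by
  refine le_antisymm (GS_le_mul (fun P z hz m w hw => ?_) hc) ?_
  · rw [lintegral_const_mul' _ _ hc]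
  · by_cases h0 : c = 0
    · rw [h0, zero_mul]; exact zero_le
    have h1 : GS Φ f₀ ε T' ν F ≤ c⁻¹ * GS Φ f₀ ε T' ν (fun P z m w a => c * F P z m w a) := by
      refine GS_le_mul (fun P z hz m w hw => ?_) (ENNReal.inv_ne_top.2 h0)
      rw [lintegral_const_mul' _ _ hc, ← mul_assoc, ENNReal.inv_mul_cancel h0 hc, one_mul]
    calc c * GS Φ f₀ ε T' ν F
        ≤ c * (c⁻¹ * GS Φ f₀ ε T' ν (fun P z m w a => c * F P z m w a)) :=
          mul_le_mul_right h1 _
      _ = _ := by rw [← mul_assoc, ENNReal.mul_inv_cancel h0 hc, one_mul]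

theorem GS_zero : GS Φ f₀ ε T' ν (fun _ _ _ _ _ => 0) = 0 := by
  have h := GS_const_mul (Φ := Φ) (f₀ := f₀) (ε := ε) (T' := T') (ν := ν)
    (c := 0) ENNReal.zero_ne_top (fun _ _ _ _ _ => 0)
  simpa using h

/-! ### Measurability -/

theorem measurable_a {F : GF α} (hF : MeasG F) (P : CTree) (z : PhasePoint × Par P) (m : ℕ)
    (w : Config m) : Measurable fun a => F P z m w a :=
  (hF P m).comp
    (f := fun a : α => ((z, (w, a)) : (PhasePoint × Par P) × (Config m × α)))
    (measurable_const.prodMk (measurable_const.prodMk measurable_id))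

theorem measurable_lint {F : GF α} (hF : MeasG F) [SFinite ν] (P : CTree) (m : ℕ) :
    Measurable fun q : (PhasePoint × Par P) × Config m => ∫⁻ a, F P q.1 m q.2 a ∂ν := by
  refine Measurable.lintegral_prod_right' (f := fun q : ((PhasePoint × Par P) × Config m) × α =>
    F P q.1.1 m q.1.2 q.2) ?_
  exact (hF P m).comp
    (f := fun q : ((PhasePoint × Par P) × Config m) × α => (q.1.1, (q.1.2, q.2)))
    (measurable_fst.fst.prodMk (measurable_fst.snd.prodMk measurable_snd))

theorem measurable_inn (hf : Measurable f₀) {F : GF α} (hF : MeasG F) [SFinite ν] (P : CTree) :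
    Measurable fun z : PhasePoint × Par P => inn f₀ ε ν F P z :=
  ToTree335.measurable_gcE_par hf (F := fun z m w => ∫⁻ a, F P z m w a ∂ν) fun m =>
    measurable_lint hF P m

theorem measurable_wtpf (hΦ : AdmissiblePotential Φ) (hf : Measurable f₀) (P : CTree)
    {g : PhasePoint × Par P → ℝ≥0∞} (hg : Measurable g) :
    Measurable ({z : PhasePoint × Par P | Valid Φ ε P T' z.1.2 z.2}.indicator
      (fun z => wtM Φ P z.1.2 z.2 * (ToTree335.pfM Φ f₀ ε P z * g z))) := by
  refine Measurable.indicator ?_ (measurableSet_valid hΦ ε P T')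
  exact ((measurable_wtM hΦ P).comp (f := fun z : PhasePoint × Par P => (z.1.2, z.2))
    (measurable_fst.snd.prodMk measurable_snd)).mul
    ((ToTree335.measurable_pfM hΦ hf P).mul hg)

/-! ### Additivity -/

theorem GS_add_meas (hΦ : AdmissiblePotential Φ) (hf : Measurable f₀) [SFinite ν] {F : GF α}
    (hF : MeasG F) (F' : GF α) :
    GS Φ f₀ ε T' ν (fun P z m w a => F P z m w a + F' P z m w a) =
      GS Φ f₀ ε T' ν F + GS Φ f₀ ε T' ν F' := by
  rw [GS_eq_M, GS_eq_M, GS_eq_M, ← mul_add, ← ENNReal.tsum_add]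
  congr 1
  refine tsum_congr fun P => ?_
  rw [← lintegral_add_left (measurable_wtpf hΦ hf P (measurable_inn hf hF P))]
  refine lintegral_congr fun z => ?_
  by_cases hz : Valid Φ ε P T' z.1.2 z.2
  swap
  · simp only [indicator_of_notMem
      (show z ∉ {z : PhasePoint × Par P | Valid Φ ε P T' z.1.2 z.2} from hz), add_zero]
  simp only [indicator_of_mem
    (show z ∈ {z : PhasePoint × Par P | Valid Φ ε P T' z.1.2 z.2} from hz)]
  have h1 : inn f₀ ε ν (fun P z m w a => F P z m w a + F' P z m w a) P z =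
      inn f₀ ε ν F P z + inn f₀ ε ν F' P z := by
    unfold inn
    rw [← gcE_add hf ε]
    · congr 1
      funext m w
      rw [← lintegral_add_left (measurable_a hF P z m w)]
    · intro m
      exact (measurable_lint hF P m).comp
        (f := fun w : Config m => ((z, w) : (PhasePoint × Par P) × Config m))
        (measurable_const.prodMk measurable_id)
  rw [h1]
  ring

/-- **Additivity** (first functional measurable on valid trees, second one arbitrary). -/
theorem GS_add (hΦ : AdmissiblePotential Φ) (hf : Measurable f₀) [SFinite ν] {F : GF α}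
    (hF : MeasV Φ ε T' F) (F' : GF α) :
    GS Φ f₀ ε T' ν (fun P z m w a => F P z m w a + F' P z m w a) =
      GS Φ f₀ ε T' ν F + GS Φ f₀ ε T' ν F' := by
  rw [← GS_cut F, ← GS_add_meas hΦ hf hF.cut F']
  refine GS_congr_on fun P z m w l hz _ => ?_
  unfold cut
  rw [if_pos hz]

theorem GS_finset_sum (hΦ : AdmissiblePotential Φ) (hf : Measurable f₀) [SFinite ν]
    {β : Type*} (s : Finset β) {F : β → GF α} (hF : ∀ b ∈ s, MeasV Φ ε T' (F b)) :
    GS Φ f₀ ε T' ν (fun P z m w a => ∑ b ∈ s, F b P z m w a) =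
      ∑ b ∈ s, GS Φ f₀ ε T' ν (F b) := by
  induction s using Finset.induction_on with
  | empty =>
    simp only [Finset.sum_empty]
    exact GS_zero
  | insert b s hb ih =>
    simp only [Finset.sum_insert hb]
    rw [GS_add hΦ hf (hF b (Finset.mem_insert_self b s)),
      ih fun c hc => hF c (Finset.mem_insert_of_mem hc)]

theorem GS_tsum (hΦ : AdmissiblePotential Φ) (hf : Measurable f₀) [SFinite ν]
    {β : Type*} [Countable β] {F : β → GF α} (hF : ∀ b, MeasV Φ ε T' (F b)) :
    GS Φ f₀ ε T' ν (fun P z m w a => ∑' b, F b P z m w a) =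
      ∑' b, GS Φ f₀ ε T' ν (F b) := by
  have h0 : GS Φ f₀ ε T' ν (fun P z m w a => ∑' b, F b P z m w a) =
      GS Φ f₀ ε T' ν (fun P z m w a => ∑' b, cut Φ ε T' (F b) P z m w a) :=
    GS_congr_on fun P z m w l hz _ => tsum_congr fun a => (if_pos hz).symm
  have h0' : ∀ b, GS Φ f₀ ε T' ν (F b) = GS Φ f₀ ε T' ν (cut Φ ε T' (F b)) :=
    fun b => (GS_cut (F b)).symm
  rw [h0, tsum_congr h0', GS_eq_M, tsum_congr fun b => GS_eq_M (cut Φ ε T' (F b)),
    ENNReal.tsum_mul_left, ENNReal.tsum_comm]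
  congr 1
  refine tsum_congr fun P => ?_
  rw [← lintegral_tsum fun b =>
    (measurable_wtpf hΦ hf P (measurable_inn hf (hF b).cut P)).aemeasurable]
  refine lintegral_congr fun z => ?_
  by_cases hz : Valid Φ ε P T' z.1.2 z.2
  swap
  · simp only [indicator_of_notMem
      (show z ∉ {z : PhasePoint × Par P | Valid Φ ε P T' z.1.2 z.2} from hz), tsum_zero]
  simp only [indicator_of_mem
    (show z ∈ {z : PhasePoint × Par P | Valid Φ ε P T' z.1.2 z.2} from hz)]
  rw [ENNReal.tsum_mul_left, ENNReal.tsum_mul_left]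
  congr 2
  unfold inn
  rw [← gcE_tsum hf ε]
  · congr 1
    funext m w
    rw [← lintegral_tsum fun b => (measurable_a (hF b).cut P z m w).aemeasurable]
  · intro b m
    exact (measurable_lint (hF b).cut P m).comp
      (f := fun w : Config m => ((z, w) : (PhasePoint × Par P) × Config m))
      (measurable_const.prodMk measurable_id)

/-! ### Fubini in a parameter -/

section fubini

variable {β : Type*} [MeasurableSpace β]

theorem measurable_GS_par (hΦ : AdmissiblePotential Φ) (hf : Measurable f₀) [SFinite ν]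
    {F : β → GF α} (hF : ∀ (P : CTree) (m : ℕ), Measurable
      fun q : (β × (PhasePoint × Par P)) × (Config m × α) => F q.1.1 P q.1.2 m q.2.1 q.2.2) :
    Measurable fun b => GS Φ f₀ ε T' ν (F b) := by
  simp only [GS_eq_M]
  refine Measurable.const_mul (Measurable.tsum fun P => ?_) _
  refine Measurable.lintegral_prod_right' (f := fun q : β × (PhasePoint × Par P) =>
    {z : PhasePoint × Par P | Valid Φ ε P T' z.1.2 z.2}.indicator
      (fun z => wtM Φ P z.1.2 z.2 * (ToTree335.pfM Φ f₀ ε P z * inn f₀ ε ν (F q.1) P z)) q.2) ?_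
  have h2 : Measurable fun q : β × (PhasePoint × Par P) => inn f₀ ε ν (F q.1) P q.2 := by
    refine ToTree335.measurable_gcE_par hf (F := fun (q : β × (PhasePoint × Par P)) m w =>
      ∫⁻ a, F q.1 P q.2 m w a ∂ν) fun m => ?_
    refine Measurable.lintegral_prod_right' (f := fun q :
      ((β × (PhasePoint × Par P)) × Config m) × α => F q.1.1.1 P q.1.1.2 m q.1.2 q.2) ?_
    exact (hF P m).comp (f := fun q : ((β × (PhasePoint × Par P)) × Config m) × α =>
      (q.1.1, (q.1.2, q.2))) (measurable_fst.fst.prodMk (measurable_fst.snd.prodMk measurable_snd))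
  have h1 : Measurable fun q : β × (PhasePoint × Par P) => wtM Φ P q.2.1.2 q.2.2 *
      (ToTree335.pfM Φ f₀ ε P q.2 * inn f₀ ε ν (F q.1) P q.2) :=
    ((measurable_wtM hΦ P).comp (f := fun q : β × (PhasePoint × Par P) => (q.2.1.2, q.2.2))
      (measurable_snd.fst.snd.prodMk measurable_snd.snd)).mul
      (((ToTree335.measurable_pfM hΦ hf P).comp measurable_snd).mul h2)
  exact h1.indicator (measurable_snd (measurableSet_valid hΦ ε P T'))

end fubini

end Crest.Agent.R122.GSCalc495

end
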