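import Crest.Agent.R122.Nu0_566
import Crest.Agent.R122.GSCalc_495

/-!
# Calculus of the structure integrals `OS` (row 122, board H2)

* Measurability on valid trees of the functionals of section E: `measV_uI`, `measV_smI`,
  `measVP_oneLs`, `measVP_lineML`, `measVP_touchP`, `measLF_touchW`, `measLF_tB`; measurable versions
  `ptubeM`, `uIM`.
* `OS_mono_on`, `OS_congr_on`, `OS_add`, `OS_const_mul`, `OS_finset_sum`, `OS_tsum`.
* `measurable_OS_dirac`, `lintegral_OS_dirac` : `∫ OS (dirac τ) H κ(dτ) = OS κ H`.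
-/

set_option autoImplicit false
set_option linter.unusedSectionVars false

open MeasureTheory Set Filter
open scoped ENNReal Classical Topology
open Crest.AnalysisR.Kinetic
open Crest.Agent.R122.Kin796 Crest.Agent.R122.Kin796.CTree Crest.Agent.R122.Tree674
open Crest.Agent.R122.GC311 Crest.Agent.R122.EDefs602 Crest.Agent.R122.TreeLines335
open Crest.Agent.R122.OneC285 Crest.Agent.R122.MeasE416 Crest.Agent.R122.GSCalc495

noncomputable section

namespace Crest.Agent.R122.OSCalc495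

variable {Φ : Space3 → ℝ} {f₀ : PhasePoint → ℝ} {ε : ℝ} {K : ℕ} {Q : EPar} {T' : ℝ}
  {κ : Measure ℝ} {P : CTree}

theorem MeasSF.measV (hΦ : AdmissiblePotential Φ) {H : SF} (h : MeasSF H) : MeasV Φ ε T' H :=
  MeasV.of_measG hΦ h

/-! ## The protected tubes and the ghost indicator -/

/-- Measurable version of the protected tubes. -/
def ptubeM (Φ : Space3 → ℝ) (ε : ℝ) (P : CTree) (z : PhasePoint × Par P) :
    GIV566.Tubes (Idx P) := ⟨Hid424.curveM Φ ε P z.1 z.2, rel P z.2⟩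

theorem ptubeM_of_adm {z : PhasePoint × Par P} (h : Adm Φ P z.1.2 z.2) :
    ptubeM Φ ε P z = ptube Φ ε P z := by
  unfold ptubeM ptube
  congr 1
  funext i
  exact Hid424.curveM_of_adm (ℓ := z.1) h i

/-- Measurable version of the ghost indicator. -/
def uIM (Φ : Space3 → ℝ) (ε tw : ℝ) (P : CTree) (z : PhasePoint × Par P) {m : ℕ}
    (w : Config m) : ℝ≥0∞ := GIV566.unhitInd Φ ε (ptubeM Φ ε P z) tw w

theorem uIM_of_adm {z : PhasePoint × Par P} (h : Adm Φ P z.1.2 z.2) {tw : ℝ} {m : ℕ}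
    {w : Config m} : uIM Φ ε tw P z w = uI Φ ε tw P z w := by
  unfold uIM uI
  rw [ptubeM_of_adm h]

theorem uIM_le_one {z : PhasePoint × Par P} {tw : ℝ} {m : ℕ} {w : Config m} :
    uIM Φ ε tw P z w ≤ 1 := GIV566.unhitInd_le_one

theorem uI_le_one {z : PhasePoint × Par P} {tw : ℝ} {m : ℕ} {w : Config m} :
    uI Φ ε tw P z w ≤ 1 := GIV566.unhitInd_le_one

theorem measurable_uIM (hΦ : AdmissiblePotential Φ) (hε : 0 < ε) (tw : ℝ) (P : CTree) (m : ℕ) :
    Measurable fun q : (PhasePoint × Par P) × Config m => uIM Φ ε tw P q.1 q.2 := by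
  unfold uIM
  refine GIV566.measurable_unhitInd (Ω := (PhasePoint × Par P) × Config m) (T := max tw 0) hΦ hε
    (le_max_right _ _) (S := fun q => ptubeM Φ ε P q.1) (fun q i => ?_) (fun i s => ?_) (fun i => ?_)
    (t := fun _ => tw) measurable_const (fun _ => le_max_left _ _) (w := fun q => q.2)
    measurable_snd
  · exact (Hid424.continuous_curveM hΦ hε P q.1.1 q.1.2 i).continuousOn
  · exact (Hid424.measurable_curveM hΦ hε P i).comp
      (f := fun q : (PhasePoint × Par P) × Config m => (s, q.1))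
      (measurable_const.prodMk measurable_fst)
  · exact (LineMeas994.measurable_rel P i).comp (measurable_fst.snd)

/-- The ghost indicator is measurable on valid trees (any parameter space). -/
theorem measVP_uI (hΦ : AdmissiblePotential Φ) (hε : 0 < ε) {α : Type*} [MeasurableSpace α]
    (tw : ℝ) (P : CTree) : MeasVP Φ ε T' P (fun z _ w (_ : α) => uI Φ ε tw P z w) :=
  MeasVP.of_adm hΦ (F' := fun z _ w (_ : α) => uIM Φ ε tw P z w)
    (fun m => (measurable_uIM hΦ hε tw P m).comp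
      (f := fun q : (PhasePoint × Par P) × (Config m × α) => (q.1, q.2.1))
      (measurable_fst.prodMk measurable_snd.fst))
    fun _ _ _ _ h => uIM_of_adm h

theorem measV_uI (hΦ : AdmissiblePotential Φ) (hε : 0 < ε) {α : Type*} [MeasurableSpace α]
    (tw : ℝ) : MeasV Φ ε T' (fun P z _ w (_ : α) => uI Φ ε tw P z w) := measVP_uI hΦ hε tw

theorem measSF_uIM (hΦ : AdmissiblePotential Φ) (hε : 0 < ε) (tw : ℝ) :
    MeasSF fun P z _ w _ => uIM Φ ε tw P z w := fun P m =>
  (measurable_uIM hΦ hε tw P m).comp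
    (f := fun q : (PhasePoint × Par P) × (Config m × ML) => (q.1, q.2.1))
    (measurable_fst.prodMk measurable_snd.fst)

/-! ## Marks -/

/-- Functions of the mark of the test line. -/
theorem measSF_mark (a : CTree → ℕ → ℝ≥0∞) : MeasSF fun P _ _ _ l => a P l.2 := fun P _ =>
  (measurable_of_countable (a P)).comp (measurable_snd.snd.snd)

theorem measVP_mark (hΦ : AdmissiblePotential Φ) (a : ℕ → ℝ≥0∞) :
    MeasVP Φ ε T' P (fun _ _ _ (l : ML) => a l.2) :=
  MeasVP.of_meas hΦ fun _ => (measurable_of_countable a).comp (measurable_snd.snd.snd)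

theorem measSF_smI (K : ℕ) : MeasSF fun P _ _ _ l => smI K P l :=
  measSF_mark fun P n => if n + P.leaves ≤ K then 1 else 0

theorem measVP_smI (hΦ : AdmissiblePotential Φ) (K : ℕ) (P : CTree) :
    MeasVP Φ ε T' P (fun _ _ _ (l : ML) => smI K P l) := MeasVP.of_meas hΦ (measSF_smI K P)

theorem measV_smI (hΦ : AdmissiblePotential Φ) (K : ℕ) :
    MeasV Φ ε T' (fun P _ _ _ (l : ML) => smI K P l) := measVP_smI hΦ K

/-! ## Lines -/

/-- Functionals of the gas and of the test line. -/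
theorem measVP_gas (hΦ : AdmissiblePotential Φ) {G : LF} (hG : MeasLF G) :
    MeasVP Φ ε T' P (fun _ m w (l : ML) => G m w l) :=
  MeasVP.of_meas hΦ fun m => (hG m).comp measurable_snd

/-- Functional of the gas and of a line of the structure, measurable version. -/
theorem measurable_gas_oneLsM (hΦ : AdmissiblePotential Φ) (ε : ℝ) {G : LF} (hG : MeasLF G)
    (P : CTree) (x : Idx P ⊕ Bool) (m : ℕ) :
    Measurable fun q : (PhasePoint × Par P) × (Config m × ML) =>
      G m q.2.1 (Nu0566.oneLsM Φ ε P q.1 q.2.2 x) :=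
  (hG m).comp (f := fun q : (PhasePoint × Par P) × (Config m × ML) =>
    (q.2.1, Nu0566.oneLsM Φ ε P q.1 q.2.2 x))
    (measurable_snd.fst.prodMk ((Nu0566.measurable_oneLsM hΦ ε P x).comp
      (f := fun q : (PhasePoint × Par P) × (Config m × ML) => (q.1, q.2.2))
      (measurable_fst.prodMk measurable_snd.snd)))

theorem measSF_oneLsM (hΦ : AdmissiblePotential Φ) (ε : ℝ) {G : LF} (hG : MeasLF G)
    (k : ∀ P : CTree, Idx P ⊕ Bool) :
    MeasSF fun P z m w l => G m w (Nu0566.oneLsM Φ ε P z l (k P)) := fun P m =>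
  measurable_gas_oneLsM hΦ ε hG P (k P) m

theorem measVP_oneLs (hΦ : AdmissiblePotential Φ) {G : LF} (hG : MeasLF G) (P : CTree)
    (x : Idx P ⊕ Bool) :
    MeasVP Φ ε T' P (fun z m w (l : ML) => G m w (oneLs Φ ε P z l x)) :=
  MeasVP.of_adm hΦ (F' := fun z m w (l : ML) => G m w (Nu0566.oneLsM Φ ε P z l x))
    (measurable_gas_oneLsM hΦ ε hG P x) fun z m w l h => by
      simp only [Nu0566.oneLsM_of_adm h]

theorem measV_oneLs (hΦ : AdmissiblePotential Φ) {G : LF} (hG : MeasLF G)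
    (k : ∀ P : CTree, Idx P ⊕ Bool) :
    MeasV Φ ε T' (fun P z m w (l : ML) => G m w (oneLs Φ ε P z l (k P))) := fun P =>
  measVP_oneLs hΦ hG P (k P)

theorem measVP_lineML (hΦ : AdmissiblePotential Φ) {α : Type*} [MeasurableSpace α] {G : LF}
    (hG : MeasLF G) (P : CTree) (i : Idx P) :
    MeasVP Φ ε T' P (fun z m w (_ : α) => G m w (lineML Φ ε P z i)) :=
  MeasVP.of_adm hΦ (F' := fun z m w (_ : α) => G m w (LineMeas994.lineMM Φ ε P z i))
    (fun m => (hG m).comp (f := fun q : (PhasePoint × Par P) × (Config m × α) =>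
      (q.2.1, LineMeas994.lineMM Φ ε P q.1 i))
      (measurable_snd.fst.prodMk ((LineMeas994.measurable_lineMM hΦ ε P i).comp measurable_fst)))
    fun z m w l h => by simp only [LineMeas994.lineMM_of_adm ε h]

/-! ## Functionals of the gas and of a line -/

theorem measLF_touchW (hΦ : AdmissiblePotential Φ) (hε : 0 < ε) (K : ℕ) (Q : EPar) :
    MeasLF fun _ w l => (MW.cfg w).touchW Φ ε K Q l := fun m =>
  measurable_touchW_cfg hΦ hε K Q m

theorem measurable_tB (tw : ℝ) : Measurable (Line285.tB tw) := by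
  unfold Line285.tB
  exact Measurable.ite measurableSet_Iic measurable_const measurable_const

theorem measLF_tB (hΦ : AdmissiblePotential Φ) (hε : 0 < ε) (K : ℕ) (T tw : ℝ) :
    MeasLF fun _ w l => Line285.tB tw ((MW.cfg w).thetaL Φ ε K T l) := fun m =>
  (measurable_tB tw).comp (measurable_thetaL_cfg hΦ hε K T m)

theorem MeasLF.add {G G' : LF} (h : MeasLF G) (h' : MeasLF G') :
    MeasLF fun m w l => G m w l + G' m w l := fun m => (h m).add (h' m)

theorem measurable_oneLsM_q (hΦ : AdmissiblePotential Φ) (ε : ℝ) (P : CTree) (m : ℕ)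
    (x : Idx P ⊕ Bool) : Measurable fun q : (PhasePoint × Par P) × (Config m × ML) =>
      Nu0566.oneLsM Φ ε P q.1 q.2.2 x :=
  (Nu0566.measurable_oneLsM hΦ ε P x).comp
    (f := fun q : (PhasePoint × Par P) × (Config m × ML) => (q.1, q.2.2))
    (measurable_fst.prodMk measurable_snd.snd)

/-- Pairs of lines of the structure, measurable version. -/
theorem measSF_touchPM (hΦ : AdmissiblePotential Φ) (hε : 0 < ε) (K : ℕ) (Q : EPar)
    (d e : ∀ P : CTree, Idx P ⊕ Bool) :
    MeasSF fun P z _ w l => (MW.cfg w).touchP Φ ε K Q (Nu0566.oneLsM Φ ε P z l (d P))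
      (Nu0566.oneLsM Φ ε P z l (e P)) := fun P m =>
  (MeasW.cfg (w := fun q : (PhasePoint × Par P) × (Config m × ML) => q.2.1)
    measurable_snd.fst).touchP hΦ hε (measurable_oneLsM_q hΦ ε P m _)
    (measurable_oneLsM_q hΦ ε P m _) K Q

theorem measVP_touchP (hΦ : AdmissiblePotential Φ) (hε : 0 < ε) (K : ℕ) (Q : EPar) (P : CTree)
    (d e : Idx P ⊕ Bool) :
    MeasVP Φ ε T' P (fun z _ w (l : ML) => (MW.cfg w).touchP Φ ε K Q (oneLs Φ ε P z l d)
      (oneLs Φ ε P z l e)) := by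
  refine MeasVP.of_adm hΦ (F' := fun z _ w (l : ML) =>
    (MW.cfg w).touchP Φ ε K Q (Nu0566.oneLsM Φ ε P z l d) (Nu0566.oneLsM Φ ε P z l e))
    (fun m => ?_) (fun z m w l h => ?_)
  · exact (MeasW.cfg (w := fun q : (PhasePoint × Par P) × (Config m × ML) => q.2.1)
      measurable_snd.fst).touchP hΦ hε (measurable_oneLsM_q hΦ ε P m _)
      (measurable_oneLsM_q hΦ ε P m _) K Q
  · simp only [Nu0566.oneLsM_of_adm h]

/-! ## The structure integral -/

/-- Integrand in the line. -/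
def ctF (Φ : Space3 → ℝ) (ε : ℝ) (K : ℕ) (Q : EPar) (H : SF) : SF := fun P z m w l =>
  {l : ML | (z, l.1) ∈ OneC423.ctSet Φ ε Q.te P}.indicator
    (fun l => lineD Q.γ Q.ρ K l * H P z m w l) l

theorem OS_eq_GS (H : SF) : OS Φ f₀ ε K Q T' κ H =
    GS Φ f₀ ε T' (OneC423.baseM κ) (ctF Φ ε K Q H) := rfl

theorem OS_mono_on' {H H' : SF} (h : ∀ P z m w l, Valid Φ ε P T' z.1.2 z.2 →
    w ∈ PairExcluded ε m → (z, l.1) ∈ OneC423.ctSet Φ ε Q.te P → H P z m w l ≤ H' P z m w l) :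
    OS Φ f₀ ε K Q T' κ H ≤ OS Φ f₀ ε K Q T' κ H' := by
  rw [OS_eq_GS, OS_eq_GS]
  refine GS_mono_on fun P z m w l hz hw => ?_
  unfold ctF
  by_cases hl : (z, l.1) ∈ OneC423.ctSet Φ ε Q.te P
  · rw [indicator_of_mem (show l ∈ {l : ML | (z, l.1) ∈ OneC423.ctSet Φ ε Q.te P} from hl),
      indicator_of_mem (show l ∈ {l : ML | (z, l.1) ∈ OneC423.ctSet Φ ε Q.te P} from hl)]
    exact mul_le_mul_right (h P z m w l hz hw hl) _
  · rw [indicator_of_notMem (show l ∉ {l : ML | (z, l.1) ∈ OneC423.ctSet Φ ε Q.te P} from hl)]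
    exact zero_le

theorem OS_mono_on {H H' : SF} (h : ∀ P z m w l, Valid Φ ε P T' z.1.2 z.2 →
    (z, l.1) ∈ OneC423.ctSet Φ ε Q.te P → H P z m w l ≤ H' P z m w l) :
    OS Φ f₀ ε K Q T' κ H ≤ OS Φ f₀ ε K Q T' κ H' :=
  OS_mono_on' fun P z m w l hz _ hl => h P z m w l hz hl

theorem OS_mono {H H' : SF} (h : ∀ P z m w l, H P z m w l ≤ H' P z m w l) :
    OS Φ f₀ ε K Q T' κ H ≤ OS Φ f₀ ε K Q T' κ H' := OS_mono_on fun P z m w l _ _ => h P z m w l

theorem OS_congr_on {H H' : SF} (h : ∀ P z m w l, Valid Φ ε P T' z.1.2 z.2 →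
    (z, l.1) ∈ OneC423.ctSet Φ ε Q.te P → H P z m w l = H' P z m w l) :
    OS Φ f₀ ε K Q T' κ H = OS Φ f₀ ε K Q T' κ H' :=
  le_antisymm (OS_mono_on fun P z m w l hz hl => (h P z m w l hz hl).le)
    (OS_mono_on fun P z m w l hz hl => (h P z m w l hz hl).ge)

theorem OS_cut (H : SF) : OS Φ f₀ ε K Q T' κ (cut Φ ε T' H) = OS Φ f₀ ε K Q T' κ H :=
  OS_congr_on fun _ _ _ _ _ hz _ => if_pos hz

theorem ctF_const_mul (c : ℝ≥0∞) (H : SF) (P : CTree) (z : PhasePoint × Par P) (m : ℕ)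
    (w : Config m) (l : ML) : ctF Φ ε K Q (fun P z m w l => c * H P z m w l) P z m w l =
      c * ctF Φ ε K Q H P z m w l := by
  unfold ctF
  by_cases hl : (z, l.1) ∈ OneC423.ctSet Φ ε Q.te P
  · rw [indicator_of_mem (show l ∈ {l : ML | (z, l.1) ∈ OneC423.ctSet Φ ε Q.te P} from hl),
      indicator_of_mem (show l ∈ {l : ML | (z, l.1) ∈ OneC423.ctSet Φ ε Q.te P} from hl)]
    ring
  · rw [indicator_of_notMem (show l ∉ {l : ML | (z, l.1) ∈ OneC423.ctSet Φ ε Q.te P} from hl),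
      indicator_of_notMem (show l ∉ {l : ML | (z, l.1) ∈ OneC423.ctSet Φ ε Q.te P} from hl),
      mul_zero]

theorem ctF_add (H H' : SF) (P : CTree) (z : PhasePoint × Par P) (m : ℕ) (w : Config m)
    (l : ML) : ctF Φ ε K Q (fun P z m w l => H P z m w l + H' P z m w l) P z m w l =
      ctF Φ ε K Q H P z m w l + ctF Φ ε K Q H' P z m w l := by
  unfold ctF
  by_cases hl : (z, l.1) ∈ OneC423.ctSet Φ ε Q.te P
  · rw [indicator_of_mem (show l ∈ {l : ML | (z, l.1) ∈ OneC423.ctSet Φ ε Q.te P} from hl),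
      indicator_of_mem (show l ∈ {l : ML | (z, l.1) ∈ OneC423.ctSet Φ ε Q.te P} from hl),
      indicator_of_mem (show l ∈ {l : ML | (z, l.1) ∈ OneC423.ctSet Φ ε Q.te P} from hl),
      mul_add]
  · rw [indicator_of_notMem (show l ∉ {l : ML | (z, l.1) ∈ OneC423.ctSet Φ ε Q.te P} from hl),
      indicator_of_notMem (show l ∉ {l : ML | (z, l.1) ∈ OneC423.ctSet Φ ε Q.te P} from hl),
      indicator_of_notMem (show l ∉ {l : ML | (z, l.1) ∈ OneC423.ctSet Φ ε Q.te P} from hl),
      add_zero]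

theorem ctF_tsum {β : Type*} (H : β → SF) (P : CTree) (z : PhasePoint × Par P) (m : ℕ)
    (w : Config m) (l : ML) : ctF Φ ε K Q (fun P z m w l => ∑' a, H a P z m w l) P z m w l =
      ∑' a, ctF Φ ε K Q (H a) P z m w l := by
  unfold ctF
  by_cases hl : (z, l.1) ∈ OneC423.ctSet Φ ε Q.te P
  · simp only [indicator_of_mem
      (show l ∈ {l : ML | (z, l.1) ∈ OneC423.ctSet Φ ε Q.te P} from hl)]
    rw [ENNReal.tsum_mul_left]
  · simp only [indicator_of_notMem
      (show l ∉ {l : ML | (z, l.1) ∈ OneC423.ctSet Φ ε Q.te P} from hl), tsum_zero]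

theorem OS_const_mul {c : ℝ≥0∞} (hc : c ≠ ∞) (H : SF) :
    OS Φ f₀ ε K Q T' κ (fun P z m w l => c * H P z m w l) = c * OS Φ f₀ ε K Q T' κ H := by
  rw [OS_eq_GS, OS_eq_GS, ← GS_const_mul hc]
  exact GS_congr_on fun P z m w l _ _ => ctF_const_mul c H P z m w l

theorem OS_zero : OS Φ f₀ ε K Q T' κ (fun _ _ _ _ _ => 0) = 0 := by
  have h := OS_const_mul (Φ := Φ) (f₀ := f₀) (ε := ε) (K := K) (Q := Q) (T' := T') (κ := κ)
    (c := 0) ENNReal.zero_ne_top (fun _ _ _ _ _ => 0)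
  simpa using h

/-! ### Joint measurability -/

theorem measurableSet_ct (hΦ : AdmissiblePotential Φ) (ε te : ℝ) (P : CTree) (m : ℕ) :
    MeasurableSet {q : (PhasePoint × Par P) × (Config m × ML) |
      (q.1, q.2.2.1) ∈ OneC423.ctSet Φ ε te P} := by
  have h1 : Measurable fun q : (PhasePoint × Par P) × (Config m × ML) =>
      ((q.1, q.2.2.1) : (PhasePoint × Par P) × (ℝ × PhasePoint)) :=
    measurable_fst.prodMk measurable_snd.snd.fst
  exact h1 (OneC423.measurableSet_ctSet hΦ ε te P)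

theorem measG_ctF (hΦ : AdmissiblePotential Φ) (hγ : Measurable Q.γ) {H : SF} (hH : MeasSF H) :
    MeasG (ctF Φ ε K Q H) := fun P m => by
  have h3 : Measurable fun q : (PhasePoint × Par P) × (Config m × ML) =>
      lineD Q.γ Q.ρ K q.2.2 * H P q.1 m q.2.1 q.2.2 :=
    ((measurable_lineD hγ Q.ρ K).comp measurable_snd.snd).mul (hH P m)
  exact h3.indicator (measurableSet_ct hΦ ε Q.te P m)

theorem measV_ctF (hΦ : AdmissiblePotential Φ) (hγ : Measurable Q.γ) {H : SF}
    (hH : MeasV Φ ε T' H) : MeasV Φ ε T' (ctF Φ ε K Q H) := by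
  have h1 : MeasV Φ ε T' (ctF Φ ε K Q (cut Φ ε T' H)) :=
    MeasV.of_measG hΦ (measG_ctF hΦ hγ hH.cut)
  refine h1.congr fun P z m w l hz => ?_
  unfold ctF cut
  simp only [if_pos hz]

/-- **Additivity** (first functional measurable on valid trees, second one arbitrary). -/
theorem OS_add (hΦ : AdmissiblePotential Φ) (hf : Measurable f₀) (hγ : Measurable Q.γ)
    [SFinite κ] {H : SF} (hH : MeasV Φ ε T' H) (H' : SF) :
    OS Φ f₀ ε K Q T' κ (fun P z m w l => H P z m w l + H' P z m w l) =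
      OS Φ f₀ ε K Q T' κ H + OS Φ f₀ ε K Q T' κ H' := by
  rw [OS_eq_GS, OS_eq_GS, OS_eq_GS, ← GS_add hΦ hf (measV_ctF hΦ hγ hH)]
  exact GS_congr_on fun P z m w l _ _ => ctF_add H H' P z m w l

theorem OS_finset_sum (hΦ : AdmissiblePotential Φ) (hf : Measurable f₀) (hγ : Measurable Q.γ)
    [SFinite κ] {β : Type*} (s : Finset β) {H : β → SF} (hH : ∀ a ∈ s, MeasV Φ ε T' (H a)) :
    OS Φ f₀ ε K Q T' κ (fun P z m w l => ∑ a ∈ s, H a P z m w l) =
      ∑ a ∈ s, OS Φ f₀ ε K Q T' κ (H a) := by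
  induction s using Finset.induction_on with
  | empty =>
    simp only [Finset.sum_empty]
    exact OS_zero
  | insert a s ha ih =>
    simp only [Finset.sum_insert ha]
    rw [OS_add hΦ hf hγ (hH a (Finset.mem_insert_self a s)),
      ih fun b hb => hH b (Finset.mem_insert_of_mem hb)]

theorem OS_tsum (hΦ : AdmissiblePotential Φ) (hf : Measurable f₀) (hγ : Measurable Q.γ)
    [SFinite κ] {β : Type*} [Countable β] {H : β → SF} (hH : ∀ a, MeasV Φ ε T' (H a)) :
    OS Φ f₀ ε K Q T' κ (fun P z m w l => ∑' a, H a P z m w l) =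
      ∑' a, OS Φ f₀ ε K Q T' κ (H a) := by
  have h1 : ∀ a, OS Φ f₀ ε K Q T' κ (H a) =
      GS Φ f₀ ε T' (OneC423.baseM κ) (ctF Φ ε K Q (H a)) := fun a => OS_eq_GS (H a)
  rw [OS_eq_GS, tsum_congr h1, ← GS_tsum hΦ hf fun a => measV_ctF hΦ hγ (hH a)]
  exact GS_congr_on fun P z m w l _ _ => ctF_tsum H P z m w l

/-! ### Fubini in the birth time -/

/-- Slice of the line integral at the birth time `τ`. -/
def slc (Φ : Space3 → ℝ) (ε : ℝ) (K : ℕ) (Q : EPar) (H : SF) (P : CTree)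
    (z : PhasePoint × Par P) (m : ℕ) (w : Config m) (τ : ℝ) : ℝ≥0∞ :=
  ∑' n : ℕ, ∫⁻ v : Space3, ∫⁻ y : Space3, ctF Φ ε K Q H P z m w ((τ, (y, v)), n)

theorem measurable_slc (hΦ : AdmissiblePotential Φ) (hγ : Measurable Q.γ) {H : SF}
    (hH : MeasSF H) (P : CTree) (m : ℕ) :
    Measurable fun q : ℝ × ((PhasePoint × Par P) × Config m) =>
      slc Φ ε K Q H P q.2.1 m q.2.2 q.1 := by
  unfold slc
  refine Measurable.tsum fun n => ?_
  refine Measurable.lintegral_prod_right' (f := fun q :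
    (ℝ × ((PhasePoint × Par P) × Config m)) × Space3 =>
    ∫⁻ y : Space3, ctF Φ ε K Q H P q.1.2.1 m q.1.2.2 ((q.1.1, (y, q.2)), n)) ?_
  refine Measurable.lintegral_prod_right' (f := fun q :
    ((ℝ × ((PhasePoint × Par P) × Config m)) × Space3) × Space3 =>
    ctF Φ ε K Q H P q.1.1.2.1 m q.1.1.2.2 ((q.1.1.1, (q.2, q.1.2)), n)) ?_
  exact (measG_ctF (ε := ε) (K := K) hΦ hγ hH P m).comp
    (f := fun q : ((ℝ × ((PhasePoint × Par P) × Config m)) × Space3) × Space3 =>
      ((q.1.1.2.1, (q.1.1.2.2, ((q.1.1.1, (q.2, q.1.2)), n))) :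
        (PhasePoint × Par P) × (Config m × ML)))
    (measurable_fst.fst.snd.fst.prodMk (measurable_fst.fst.snd.snd.prodMk
      ((measurable_fst.fst.fst.prodMk (measurable_snd.prodMk measurable_fst.snd)).prodMk
        measurable_const)))

theorem measurable_slc_τ (hΦ : AdmissiblePotential Φ) (hγ : Measurable Q.γ) {H : SF}
    (hH : MeasSF H) (P : CTree) (z : PhasePoint × Par P) (m : ℕ) (w : Config m) :
    Measurable fun τ => slc Φ ε K Q H P z m w τ :=
  (measurable_slc (ε := ε) (K := K) hΦ hγ hH P m).comp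
    (f := fun τ : ℝ => ((τ, (z, w)) : ℝ × ((PhasePoint × Par P) × Config m)))
    (measurable_id.prodMk measurable_const)

theorem lintegral_slc (hΦ : AdmissiblePotential Φ) (hγ : Measurable Q.γ) {H : SF}
    (hH : MeasSF H) [SFinite κ] (P : CTree) (z : PhasePoint × Par P) (m : ℕ) (w : Config m) :
    ∫⁻ l, ctF Φ ε K Q H P z m w l ∂(OneC423.baseM κ) =
      ∫⁻ τ, slc Φ ε K Q H P z m w τ ∂κ :=
  OneC423.lintegral_baseM κ (measurable_a (measG_ctF hΦ hγ hH) P z m w)

theorem inn_dirac (hΦ : AdmissiblePotential Φ) (hγ : Measurable Q.γ) {H : SF}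
    (hH : MeasSF H) (P : CTree) (z : PhasePoint × Par P) (τ : ℝ) :
    inn f₀ ε (OneC423.baseM (Measure.dirac τ)) (ctF Φ ε K Q H) P z =
      gcE f₀ ε fun m w => slc Φ ε K Q H P z m w τ := by
  unfold inn
  congr 1
  funext m w
  rw [lintegral_slc hΦ hγ hH P z m w, lintegral_dirac' _ (measurable_slc_τ hΦ hγ hH P z m w)]

/-- Joint measurability in the birth time and the tree. -/
theorem measurable_inn_dirac (hΦ : AdmissiblePotential Φ) (hf : Measurable f₀)
    (hγ : Measurable Q.γ) {H : SF} (hH : MeasSF H) (P : CTree) :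
    Measurable fun q : ℝ × (PhasePoint × Par P) =>
      inn f₀ ε (OneC423.baseM (Measure.dirac q.1)) (ctF Φ ε K Q H) P q.2 := by
  simp only [inn_dirac hΦ hγ hH P]
  refine ToTree335.measurable_gcE_par hf (F := fun (q : ℝ × (PhasePoint × Par P)) m w =>
    slc Φ ε K Q H P q.2 m w q.1) fun m => ?_
  exact (measurable_slc (ε := ε) (K := K) hΦ hγ hH P m).comp
    (f := fun q : (ℝ × (PhasePoint × Par P)) × Config m => (q.1.1, (q.1.2, q.2)))
    (measurable_fst.fst.prodMk (measurable_fst.snd.prodMk measurable_snd))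

theorem lintegral_inn_dirac (hΦ : AdmissiblePotential Φ) (hf : Measurable f₀)
    (hγ : Measurable Q.γ) {H : SF} (hH : MeasSF H) (κ : Measure ℝ) [SFinite κ] (P : CTree)
    (z : PhasePoint × Par P) :
    ∫⁻ τ, inn f₀ ε (OneC423.baseM (Measure.dirac τ)) (ctF Φ ε K Q H) P z ∂κ =
      inn f₀ ε (OneC423.baseM κ) (ctF Φ ε K Q H) P z := by
  simp only [inn_dirac hΦ hγ hH P]
  rw [BadHit370.lintegral_gcE hf ε κ (F := fun m (τ : ℝ) w => slc Φ ε K Q H P z m w τ)]
  · unfold inn
    congr 1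
    funext m w
    rw [lintegral_slc hΦ hγ hH P z m w]
  · intro m
    exact (measurable_slc (ε := ε) (K := K) hΦ hγ hH P m).comp
      (f := fun q : ℝ × Config m => (q.1, (z, q.2)))
      (measurable_fst.prodMk (measurable_const.prodMk measurable_snd))

/-- Integrand of `OS (dirac τ)`, jointly measurable. -/
theorem measurable_OS_integrand (hΦ : AdmissiblePotential Φ) (hf : Measurable f₀)
    (hγ : Measurable Q.γ) {H : SF} (hH : MeasSF H) (P : CTree) :
    Measurable fun q : ℝ × (PhasePoint × Par P) =>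
      {z : PhasePoint × Par P | Valid Φ ε P T' z.1.2 z.2}.indicator
      (fun z => wtM Φ P z.1.2 z.2 * (ToTree335.pfM Φ f₀ ε P z *
        inn f₀ ε (OneC423.baseM (Measure.dirac q.1)) (ctF Φ ε K Q H) P z)) q.2 := by
  have h1 : Measurable fun q : ℝ × (PhasePoint × Par P) => wtM Φ P q.2.1.2 q.2.2 *
      (ToTree335.pfM Φ f₀ ε P q.2 *
        inn f₀ ε (OneC423.baseM (Measure.dirac q.1)) (ctF Φ ε K Q H) P q.2) :=
    ((measurable_wtM hΦ P).comp (f := fun q : ℝ × (PhasePoint × Par P) => (q.2.1.2, q.2.2))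
      (measurable_snd.fst.snd.prodMk measurable_snd.snd)).mul
      (((ToTree335.measurable_pfM hΦ hf P).comp measurable_snd).mul
        (measurable_inn_dirac hΦ hf hγ hH P))
  exact h1.indicator (measurable_snd (measurableSet_valid hΦ ε P T'))

theorem OS_eq_M (H : SF) : OS Φ f₀ ε K Q T' κ H = activity ε * ∑' P : CTree,
    ∫⁻ z : PhasePoint × Par P, {z : PhasePoint × Par P | Valid Φ ε P T' z.1.2 z.2}.indicator
      (fun z => wtM Φ P z.1.2 z.2 * (ToTree335.pfM Φ f₀ ε P z *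
        inn f₀ ε (OneC423.baseM κ) (ctF Φ ε K Q H) P z)) z := by
  rw [OS_eq_GS, GS_eq_M]

theorem measurable_OS_dirac (hΦ : AdmissiblePotential Φ) (hf : Measurable f₀)
    (hγ : Measurable Q.γ) {H : SF} (hH : MeasV Φ ε T' H) :
    Measurable fun τ => OS Φ f₀ ε K Q T' (Measure.dirac τ) H := by
  have h0 : (fun τ => OS Φ f₀ ε K Q T' (Measure.dirac τ) H) =
      fun τ => OS Φ f₀ ε K Q T' (Measure.dirac τ) (cut Φ ε T' H) := by
    funext τ
    exact (OS_cut H).symm
  rw [h0]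
  simp only [OS_eq_M]
  refine Measurable.const_mul (Measurable.tsum fun P => ?_) _
  exact (measurable_OS_integrand hΦ hf hγ hH.cut P).lintegral_prod_right'

/-- **Fubini in the birth time.** -/
theorem lintegral_OS_dirac (hΦ : AdmissiblePotential Φ) (hf : Measurable f₀)
    (hγ : Measurable Q.γ) {H : SF} (hH : MeasV Φ ε T' H) (κ : Measure ℝ) [SFinite κ] :
    ∫⁻ τ, OS Φ f₀ ε K Q T' (Measure.dirac τ) H ∂κ = OS Φ f₀ ε K Q T' κ H := by
  have h0 : (fun τ => OS Φ f₀ ε K Q T' (Measure.dirac τ) H) =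
      fun τ => OS Φ f₀ ε K Q T' (Measure.dirac τ) (cut Φ ε T' H) := by
    funext τ
    exact (OS_cut H).symm
  rw [h0, ← OS_cut H (κ := κ)]
  simp only [OS_eq_M]
  have hm : ∀ P : CTree, Measurable fun τ : ℝ => ∫⁻ z : PhasePoint × Par P,
      {z : PhasePoint × Par P | Valid Φ ε P T' z.1.2 z.2}.indicator
      (fun z => wtM Φ P z.1.2 z.2 * (ToTree335.pfM Φ f₀ ε P z *
        inn f₀ ε (OneC423.baseM (Measure.dirac τ)) (ctF Φ ε K Q (cut Φ ε T' H)) P z)) z :=
    fun P => (measurable_OS_integrand hΦ hf hγ hH.cut P).lintegral_prod_right'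
  rw [lintegral_const_mul _ (Measurable.tsum hm), lintegral_tsum fun P => (hm P).aemeasurable]
  congr 1
  refine tsum_congr fun P => ?_
  rw [lintegral_lintegral_swap
    (f := fun (τ : ℝ) (z : PhasePoint × Par P) =>
      {z : PhasePoint × Par P | Valid Φ ε P T' z.1.2 z.2}.indicator
      (fun z => wtM Φ P z.1.2 z.2 * (ToTree335.pfM Φ f₀ ε P z *
        inn f₀ ε (OneC423.baseM (Measure.dirac τ)) (ctF Φ ε K Q (cut Φ ε T' H)) P z)) z)
    (measurable_OS_integrand hΦ hf hγ hH.cut P).aemeasurable]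
  refine lintegral_congr fun z => ?_
  by_cases hz : Valid Φ ε P T' z.1.2 z.2
  swap
  · simp only [indicator_of_notMem
      (show z ∉ {z : PhasePoint × Par P | Valid Φ ε P T' z.1.2 z.2} from hz), lintegral_zero]
  simp only [indicator_of_mem
    (show z ∈ {z : PhasePoint × Par P | Valid Φ ε P T' z.1.2 z.2} from hz)]
  have h1 : Measurable fun τ : ℝ =>
      inn f₀ ε (OneC423.baseM (Measure.dirac τ)) (ctF Φ ε K Q (cut Φ ε T' H)) P z :=
    (measurable_inn_dirac hΦ hf hγ hH.cut P).comp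
      (f := fun τ : ℝ => ((τ, z) : ℝ × (PhasePoint × Par P)))
      (measurable_id.prodMk measurable_const)
  rw [lintegral_const_mul _ (h1.const_mul _), lintegral_const_mul _ h1,
    lintegral_inn_dirac hΦ hf hγ hH.cut κ P z]

theorem lintegral_OS_Ioc (hΦ : AdmissiblePotential Φ) (hf : Measurable f₀)
    (hγ : Measurable Q.γ) {H : SF} (hH : MeasV Φ ε T' H) :
    ∫⁻ τ in Ioc 0 Q.te, OS Φ f₀ ε K Q T' (Measure.dirac τ) H =
      OS Φ f₀ ε K Q T' (volume.restrict (Ioc 0 Q.te)) H :=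
  lintegral_OS_dirac hΦ hf hγ hH _

end Crest.Agent.R122.OSCalc495

end
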