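import Crest.Agent.R122.PairRoot_292
import Crest.Agent.R122.OSCalc_495

/-!
# Calculus of the structure integrals `OS2` of inequality 3 (row 122, board H4)

* `OS2_mono_on`, `OS2_mono_ae`, `OS2_congr_on`, `OS2_const_mul`, `OS2_add`, `OS2_finset_sum`,
  `OS2_tsum`, `OS2_mono_measure`, `OS2_smul_measure`, `OS2_add_measure`.
* Measurability on valid trees: `uG`, `outP` (`outPM`), `tPK w (outP ..)`, `age`, `cT`.
-/

set_option autoImplicit false
set_option linter.unusedSectionVars false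

open MeasureTheory Set Filter
open scoped ENNReal Classical Topology
open Crest.AnalysisR.Kinetic
open Crest.Agent.R122.Kin796 Crest.Agent.R122.Kin796.CTree Crest.Agent.R122.Tree674
open Crest.Agent.R122.GC311 Crest.Agent.R122.EDefs602 Crest.Agent.R122.TreeLines335
open Crest.Agent.R122.MeasE416 Crest.Agent.R122.GSCalc495
open Crest.Agent.R122.Boost969 (LSt posAt)
open Crest.Agent.R122.Pair292 (Lab CDat PPar PX sig)
open Crest.Agent.R122.OneC285 (cfT rt cT cB cD cX lpos uI ptube RF MeasRF rfl4)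
open Crest.Agent.R122.PairD292

noncomputable section

namespace Crest.Agent.R122.OS2Calc495

variable {Φ : Space3 → ℝ} {f₀ : PhasePoint → ℝ} {ε : ℝ} {K : ℕ} {Q : EPar} {te T' : ℝ}
  {ν : Measure (Lab × LSt)} {P : CTree}

theorem MeasSF2.measV (hΦ : AdmissiblePotential Φ) {H : SF2} (h : MeasSF2 H) :
    MeasV Φ ε T' H := MeasV.of_measG hΦ h

/-! ## The structure integral -/

/-- Integrand in the pair. -/
def ctF2 (Φ : Space3 → ℝ) (ε te : ℝ) (H : SF2) : SF2 := fun P z m w θ =>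
  {θ : Lab × LSt | (z, θ.2) ∈ OneC423.ctSet Φ ε te P}.indicator (fun θ => H P z m w θ) θ

theorem OS2_eq_GS (H : SF2) : OS2 Φ f₀ ε te T' ν H = GS Φ f₀ ε T' ν (ctF2 Φ ε te H) := rfl

theorem ctF2_le {H H' : SF2} {P : CTree} {z : PhasePoint × Par P} {m : ℕ} {w : Config m}
    {θ : Lab × LSt} (h : (z, θ.2) ∈ OneC423.ctSet Φ ε te P → H P z m w θ ≤ H' P z m w θ) :
    ctF2 Φ ε te H P z m w θ ≤ ctF2 Φ ε te H' P z m w θ := by
  unfold ctF2
  by_cases hl : (z, θ.2) ∈ OneC423.ctSet Φ ε te P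
  · rw [indicator_of_mem
      (show θ ∈ {θ : Lab × LSt | (z, θ.2) ∈ OneC423.ctSet Φ ε te P} from hl),
      indicator_of_mem
      (show θ ∈ {θ : Lab × LSt | (z, θ.2) ∈ OneC423.ctSet Φ ε te P} from hl)]
    exact h hl
  · rw [indicator_of_notMem
      (show θ ∉ {θ : Lab × LSt | (z, θ.2) ∈ OneC423.ctSet Φ ε te P} from hl)]
    exact zero_le

theorem OS2_mono_on {H H' : SF2} (h : ∀ P z m w θ, Valid Φ ε P T' z.1.2 z.2 →
    w ∈ PairExcluded ε m → (z, θ.2) ∈ OneC423.ctSet Φ ε te P → H P z m w θ ≤ H' P z m w θ) :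
    OS2 Φ f₀ ε te T' ν H ≤ OS2 Φ f₀ ε te T' ν H' := by
  rw [OS2_eq_GS, OS2_eq_GS]
  exact GS_mono_on fun P z m w θ hz hw => ctF2_le (h P z m w θ hz hw)

theorem OS2_mono {H H' : SF2} (h : ∀ P z m w θ, H P z m w θ ≤ H' P z m w θ) :
    OS2 Φ f₀ ε te T' ν H ≤ OS2 Φ f₀ ε te T' ν H' :=
  OS2_mono_on fun P z m w θ _ _ _ => h P z m w θ

/-- Comparison `ν`-almost everywhere. -/
theorem OS2_mono_ae {H H' : SF2} (h : ∀ P z m w, Valid Φ ε P T' z.1.2 z.2 →
    w ∈ PairExcluded ε m → ∀ᵐ θ ∂ν, (z, θ.2) ∈ OneC423.ctSet Φ ε te P →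
      H P z m w θ ≤ H' P z m w θ) :
    OS2 Φ f₀ ε te T' ν H ≤ OS2 Φ f₀ ε te T' ν H' := by
  rw [OS2_eq_GS, OS2_eq_GS]
  refine GS_mono_ae fun P z m w hz hw => ?_
  filter_upwards [h P z m w hz hw] with θ hθ
  exact ctF2_le hθ

theorem OS2_congr_on {H H' : SF2} (h : ∀ P z m w θ, Valid Φ ε P T' z.1.2 z.2 →
    w ∈ PairExcluded ε m → (z, θ.2) ∈ OneC423.ctSet Φ ε te P → H P z m w θ = H' P z m w θ) :
    OS2 Φ f₀ ε te T' ν H = OS2 Φ f₀ ε te T' ν H' :=
  le_antisymm (OS2_mono_on fun P z m w l hz hw hl => (h P z m w l hz hw hl).le)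
    (OS2_mono_on fun P z m w l hz hw hl => (h P z m w l hz hw hl).ge)

theorem OS2_cut (H : SF2) : OS2 Φ f₀ ε te T' ν (cut Φ ε T' H) = OS2 Φ f₀ ε te T' ν H :=
  OS2_congr_on fun _ _ _ _ _ hz _ _ => if_pos hz

theorem ctF2_const_mul (c : ℝ≥0∞) (H : SF2) (P : CTree) (z : PhasePoint × Par P) (m : ℕ)
    (w : Config m) (θ : Lab × LSt) : ctF2 Φ ε te (fun P z m w θ => c * H P z m w θ) P z m w θ =
      c * ctF2 Φ ε te H P z m w θ := by
  unfold ctF2
  by_cases hl : (z, θ.2) ∈ OneC423.ctSet Φ ε te P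
  · simp only [indicator_of_mem
      (show θ ∈ {θ : Lab × LSt | (z, θ.2) ∈ OneC423.ctSet Φ ε te P} from hl)]
  · simp only [indicator_of_notMem
      (show θ ∉ {θ : Lab × LSt | (z, θ.2) ∈ OneC423.ctSet Φ ε te P} from hl), mul_zero]

theorem ctF2_add (H H' : SF2) (P : CTree) (z : PhasePoint × Par P) (m : ℕ) (w : Config m)
    (θ : Lab × LSt) : ctF2 Φ ε te (fun P z m w θ => H P z m w θ + H' P z m w θ) P z m w θ =
      ctF2 Φ ε te H P z m w θ + ctF2 Φ ε te H' P z m w θ := by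
  unfold ctF2
  by_cases hl : (z, θ.2) ∈ OneC423.ctSet Φ ε te P
  · simp only [indicator_of_mem
      (show θ ∈ {θ : Lab × LSt | (z, θ.2) ∈ OneC423.ctSet Φ ε te P} from hl)]
  · simp only [indicator_of_notMem
      (show θ ∉ {θ : Lab × LSt | (z, θ.2) ∈ OneC423.ctSet Φ ε te P} from hl), add_zero]

theorem ctF2_tsum {β : Type*} (H : β → SF2) (P : CTree) (z : PhasePoint × Par P) (m : ℕ)
    (w : Config m) (θ : Lab × LSt) :
    ctF2 Φ ε te (fun P z m w θ => ∑' a, H a P z m w θ) P z m w θ =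
      ∑' a, ctF2 Φ ε te (H a) P z m w θ := by
  unfold ctF2
  by_cases hl : (z, θ.2) ∈ OneC423.ctSet Φ ε te P
  · simp only [indicator_of_mem
      (show θ ∈ {θ : Lab × LSt | (z, θ.2) ∈ OneC423.ctSet Φ ε te P} from hl)]
  · simp only [indicator_of_notMem
      (show θ ∉ {θ : Lab × LSt | (z, θ.2) ∈ OneC423.ctSet Φ ε te P} from hl), tsum_zero]

theorem OS2_const_mul {c : ℝ≥0∞} (hc : c ≠ ∞) (H : SF2) :
    OS2 Φ f₀ ε te T' ν (fun P z m w θ => c * H P z m w θ) = c * OS2 Φ f₀ ε te T' ν H := by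
  rw [OS2_eq_GS, OS2_eq_GS, ← GS_const_mul hc]
  exact GS_congr_on fun P z m w l _ _ => ctF2_const_mul c H P z m w l

theorem OS2_zero : OS2 Φ f₀ ε te T' ν (fun _ _ _ _ _ => 0) = 0 := by
  have h := OS2_const_mul (Φ := Φ) (f₀ := f₀) (ε := ε) (te := te) (T' := T') (ν := ν)
    (c := 0) ENNReal.zero_ne_top (fun _ _ _ _ _ => 0)
  simpa using h

/-! ### Measurability -/

theorem measurableSet_ct2 (hΦ : AdmissiblePotential Φ) (ε te : ℝ) (P : CTree) (m : ℕ) :
    MeasurableSet {q : (PhasePoint × Par P) × (Config m × (Lab × LSt)) |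
      (q.1, q.2.2.2) ∈ OneC423.ctSet Φ ε te P} := by
  have h1 : Measurable fun q : (PhasePoint × Par P) × (Config m × (Lab × LSt)) =>
      ((q.1, q.2.2.2) : (PhasePoint × Par P) × (ℝ × PhasePoint)) :=
    measurable_fst.prodMk measurable_snd.snd.snd
  exact h1 (OneC423.measurableSet_ctSet hΦ ε te P)

theorem measSF2_ctF2 (hΦ : AdmissiblePotential Φ) {H : SF2} (hH : MeasSF2 H) :
    MeasSF2 (ctF2 Φ ε te H) := fun P m => (hH P m).indicator (measurableSet_ct2 hΦ ε te P m)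

theorem measV_ctF2 (hΦ : AdmissiblePotential Φ) {H : SF2} (hH : MeasV Φ ε T' H) :
    MeasV Φ ε T' (ctF2 Φ ε te H) := by
  have h1 : MeasV Φ ε T' (ctF2 Φ ε te (cut Φ ε T' H)) :=
    MeasV.of_measG hΦ (measSF2_ctF2 hΦ hH.cut)
  refine h1.congr fun P z m w θ hz => ?_
  unfold ctF2 cut
  simp only [if_pos hz]

/-- **Additivity** (first functional measurable on valid trees, second one arbitrary). -/
theorem OS2_add (hΦ : AdmissiblePotential Φ) (hf : Measurable f₀) [SFinite ν] {H : SF2}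
    (hH : MeasV Φ ε T' H) (H' : SF2) :
    OS2 Φ f₀ ε te T' ν (fun P z m w θ => H P z m w θ + H' P z m w θ) =
      OS2 Φ f₀ ε te T' ν H + OS2 Φ f₀ ε te T' ν H' := by
  rw [OS2_eq_GS, OS2_eq_GS, OS2_eq_GS, ← GS_add hΦ hf (measV_ctF2 hΦ hH)]
  exact GS_congr_on fun P z m w l _ _ => ctF2_add H H' P z m w l

theorem OS2_finset_sum (hΦ : AdmissiblePotential Φ) (hf : Measurable f₀) [SFinite ν]
    {β : Type*} (s : Finset β) {H : β → SF2} (hH : ∀ a ∈ s, MeasV Φ ε T' (H a)) :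
    OS2 Φ f₀ ε te T' ν (fun P z m w θ => ∑ a ∈ s, H a P z m w θ) =
      ∑ a ∈ s, OS2 Φ f₀ ε te T' ν (H a) := by
  induction s using Finset.induction_on with
  | empty =>
    simp only [Finset.sum_empty]
    exact OS2_zero
  | insert a s ha ih =>
    simp only [Finset.sum_insert ha]
    rw [OS2_add hΦ hf (hH a (Finset.mem_insert_self a s)),
      ih fun b hb => hH b (Finset.mem_insert_of_mem hb)]

theorem OS2_tsum (hΦ : AdmissiblePotential Φ) (hf : Measurable f₀) [SFinite ν]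
    {β : Type*} [Countable β] {H : β → SF2} (hH : ∀ a, MeasV Φ ε T' (H a)) :
    OS2 Φ f₀ ε te T' ν (fun P z m w θ => ∑' a, H a P z m w θ) =
      ∑' a, OS2 Φ f₀ ε te T' ν (H a) := by
  have h1 : ∀ a, OS2 Φ f₀ ε te T' ν (H a) =
      GS Φ f₀ ε T' ν (ctF2 Φ ε te (H a)) := fun a => OS2_eq_GS (H a)
  rw [OS2_eq_GS, tsum_congr h1, ← GS_tsum hΦ hf fun a => measV_ctF2 hΦ (hH a)]
  exact GS_congr_on fun P z m w l _ _ => ctF2_tsum H P z m w l

/-! ### The law of the pair -/

theorem OS2_mono_measure {ν' : Measure (Lab × LSt)} (h : ν ≤ ν') (H : SF2) :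
    OS2 Φ f₀ ε te T' ν H ≤ OS2 Φ f₀ ε te T' ν' H := GS_mono_measure h _

theorem OS2_smul_measure {c : ℝ≥0∞} (hc : c ≠ ∞) (H : SF2) :
    OS2 Φ f₀ ε te T' (c • ν) H = c * OS2 Φ f₀ ε te T' ν H := by
  rw [OS2_eq_GS, OS2_eq_GS]
  refine le_antisymm (GS_le_mul (fun P z _ m w _ => ?_) hc) ?_
  · rw [lintegral_smul_measure, smul_eq_mul]
  · by_cases h0 : c = 0
    · rw [h0, zero_mul]; exact zero_le
    have h1 : GS Φ f₀ ε T' ν (ctF2 Φ ε te H) ≤
        c⁻¹ * GS Φ f₀ ε T' (c • ν) (ctF2 Φ ε te H) := by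
      refine GS_le_mul (fun P z _ m w _ => ?_) (ENNReal.inv_ne_top.2 h0)
      rw [lintegral_smul_measure, smul_eq_mul, ← mul_assoc, ENNReal.inv_mul_cancel h0 hc, one_mul]
    calc c * GS Φ f₀ ε T' ν (ctF2 Φ ε te H)
        ≤ c * (c⁻¹ * GS Φ f₀ ε T' (c • ν) (ctF2 Φ ε te H)) := mul_le_mul_right h1 _
      _ = _ := by rw [← mul_assoc, ENNReal.mul_inv_cancel h0 hc, one_mul]

/-! ## Labels, ages, outgoing lines -/

theorem measurable_q {m : ℕ} : Measurable
    fun q : (PhasePoint × Par P) × (Config m × (Lab × LSt)) => (q.1, q.2.2) :=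
  measurable_fst.prodMk measurable_snd.snd

theorem measurable_cT2 (ε : ℝ) (P : CTree) :
    Measurable fun q : (PhasePoint × Par P) × (Lab × LSt) => cT ε q.1 (eL q.2) :=
  (Nu0566.measurable_cT ε P).comp (f := fun q : (PhasePoint × Par P) × (Lab × LSt) =>
    (q.1, eL q.2)) (measurable_fst.prodMk (measurable_eL.comp measurable_snd))

theorem measurable_age (ε : ℝ) (P : CTree) :
    Measurable fun q : (PhasePoint × Par P) × (Lab × LSt) => age ε q.1 q.2 := by
  unfold age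
  exact (measurable_cT2 ε P).sub (Pair292.measurable_sig.comp measurable_snd.fst)

/-- Outgoing lines: measurable in the tree parameters and the pair (no measurable version
needed). -/
theorem measurable_outL6 (hΦ : AdmissiblePotential Φ) (ε : ℝ) (P : CTree) (k : Option Bool) :
    Measurable fun q : (PhasePoint × Par P) × ML => outL6 Φ ε P q.1 q.2 k := by
  have hd : Measurable fun q : (PhasePoint × Par P) × ML =>
      ((cT ε q.1 q.2, (cX ε q.1 q.2, cD ε q.1 q.2)) : ℝ × (Space3 × OCout796.CD)) :=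
    (Nu0566.measurable_cT ε P).prodMk ((Nu0566.measurable_cX ε P).prodMk
      (Nu0566.measurable_cD ε P))
  have hn : Measurable fun q : (PhasePoint × Par P) × ML => q.2.2 + P.leaves :=
    (measurable_snd.comp measurable_snd).add_const _
  rcases k with _ | b
  · simp only [outL6]
    exact ((Nu0566.measurable_lineC hΦ ε).comp hd).prodMk measurable_const
  · cases b
    · simp only [outL6]
      exact ((Nu0566.measurable_lineL' hΦ ε).comp hd).prodMk hn
    · simp only [outL6]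
      exact ((Nu0566.measurable_lineC' hΦ ε).comp hd).prodMk hn

theorem measurable_outP (hΦ : AdmissiblePotential Φ) (ε : ℝ) (P : CTree) (k : Option Bool) :
    Measurable fun q : (PhasePoint × Par P) × (Lab × LSt) => outP Φ ε P q.1 q.2 k := by
  have h1 : Measurable fun q : (PhasePoint × Par P) × (Lab × LSt) =>
      outL6 Φ ε P q.1 (eL q.2) k :=
    (measurable_outL6 hΦ ε P k).comp (f := fun q : (PhasePoint × Par P) × (Lab × LSt) =>
      (q.1, eL q.2)) (measurable_fst.prodMk (measurable_eL.comp measurable_snd))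
  unfold outP
  exact (measurable_snd.fst.fst.prodMk (measurable_snd.fst.snd.fst.prodMk h1.snd)).prodMk h1.fst

/-! ## Functionals -/

/-- The pair functional, jointly in the gas and the pair. -/
theorem measurable_tPK (hΦ : AdmissiblePotential Φ) (hε : 0 < ε) (K : ℕ) (Q : EPar) (m : ℕ) :
    Measurable fun q : Config m × (Lab × LSt) => tPK Φ ε K Q q.1 q.2 := by
  unfold tPK
  refine Measurable.ite ((measurableSet_okL K).preimage measurable_snd) ?_ measurable_const
  exact (MeasW.cfg (w := fun q : Config m × (Lab × LSt) => q.1) measurable_fst).touchP hΦ hε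
    (measurable_dL.comp measurable_snd) (measurable_eL.comp measurable_snd) K Q

theorem measurable_tPK_of (hΦ : AdmissiblePotential Φ) (hε : 0 < ε) (K : ℕ) (Q : EPar) {m : ℕ}
    {Ω : Type*} [MeasurableSpace Ω] {w : Ω → Config m} {θ : Ω → Lab × LSt} (hw : Measurable w)
    (hθ : Measurable θ) : Measurable fun ω => tPK Φ ε K Q (w ω) (θ ω) :=
  (measurable_tPK hΦ hε K Q m).comp (hw.prodMk hθ)

theorem measSF2_tPK_outP (hΦ : AdmissiblePotential Φ) (hε : 0 < ε) (K : ℕ) (Q : EPar)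
    (k : Option Bool) : MeasSF2 fun P z _ w θ => tPK Φ ε K Q w (outP Φ ε P z θ k) := fun P _ =>
  measurable_tPK_of hΦ hε K Q measurable_snd.fst ((measurable_outP hΦ ε P k).comp measurable_q)

theorem measSF2_tPK (hΦ : AdmissiblePotential Φ) (hε : 0 < ε) (K : ℕ) (Q : EPar) :
    MeasSF2 fun _ _ _ w θ => tPK Φ ε K Q w θ := fun _ m =>
  (measurable_tPK hΦ hε K Q m).comp measurable_snd

/-- Measurable version of `uG`. -/
def uGM (Φ : Space3 → ℝ) (ε tw : ℝ) (K : ℕ) (P : CTree) (z : PhasePoint × Par P) {m : ℕ}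
    (w : Config m) (θ : Lab × LSt) : ℝ≥0∞ :=
  if OkL K θ ∧ P.leaves ≤ K then OSCalc495.uIM Φ ε tw P z w else 0

theorem uGM_of_adm {z : PhasePoint × Par P} (h : Adm Φ P z.1.2 z.2) {tw : ℝ} {m : ℕ}
    {w : Config m} {θ : Lab × LSt} : uGM Φ ε tw K P z w θ = uG Φ ε tw K P z w θ := by
  unfold uGM uG
  rw [OSCalc495.uIM_of_adm h]

theorem measSF2_uGM (hΦ : AdmissiblePotential Φ) (hε : 0 < ε) (tw : ℝ) (K : ℕ) :
    MeasSF2 fun P z _ w θ => uGM Φ ε tw K P z w θ := fun P m => by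
  unfold uGM
  refine Measurable.ite ?_ ?_ measurable_const
  · have h1 : MeasurableSet {q : (PhasePoint × Par P) × (Config m × (Lab × LSt)) |
        OkL K q.2.2} := (measurableSet_okL K).preimage measurable_snd.snd
    exact h1.inter (MeasurableSet.const _)
  · exact (OSCalc495.measurable_uIM hΦ hε tw P m).comp
      (f := fun q : (PhasePoint × Par P) × (Config m × (Lab × LSt)) => (q.1, q.2.1))
      (measurable_fst.prodMk measurable_snd.fst)

theorem measV_uG (hΦ : AdmissiblePotential Φ) (hε : 0 < ε) (tw : ℝ) (K : ℕ) :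
    MeasV Φ ε T' (fun P z _ w (θ : Lab × LSt) => uG Φ ε tw K P z w θ) :=
  (MeasV.of_measG hΦ (measSF2_uGM hΦ hε tw K)).congr fun _ _ _ _ _ hz => (uGM_of_adm hz.1).symm

theorem uG_le_one {z : PhasePoint × Par P} {tw : ℝ} {m : ℕ} {w : Config m} {θ : Lab × LSt} :
    uG Φ ε tw K P z w θ ≤ 1 := by
  unfold uG
  split_ifs
  · exact OSCalc495.uI_le_one
  · exact zero_le_one

theorem measV_tPK_outP (hΦ : AdmissiblePotential Φ) (hε : 0 < ε) (K : ℕ) (Q : EPar)
    (k : Option Bool) :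
    MeasV Φ ε T' (fun P z _ w (θ : Lab × LSt) => tPK Φ ε K Q w (outP Φ ε P z θ k)) :=
  MeasV.of_measG hΦ (measSF2_tPK_outP hΦ hε K Q k)

/-- The ages are measurable. -/
theorem measurableSet_age (r : ℝ) (ε : ℝ) (P : CTree) (m : ℕ) :
    MeasurableSet {q : (PhasePoint × Par P) × (Config m × (Lab × LSt)) |
      r ≤ age ε q.1 q.2.2} := by
  have h1 : Measurable fun q : (PhasePoint × Par P) × (Config m × (Lab × LSt)) =>
      age ε q.1 q.2.2 :=
    (measurable_age ε P).comp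
      (f := fun q : (PhasePoint × Par P) × (Config m × (Lab × LSt)) => (q.1, q.2.2)) measurable_q
  exact measurableSet_le measurable_const h1

/-- Switch on the age of the contact. -/
theorem measV_age_ite (r : ℝ) {H H' : SF2} (h : MeasV Φ ε T' H) (h' : MeasV Φ ε T' H') :
    MeasV Φ ε T' (fun P z m w (θ : Lab × LSt) =>
      if r ≤ age ε z θ then H P z m w θ else H' P z m w θ) := by
  intro P
  have h1 := MeasVP.ite (P := P) (F := H P) (F' := H' P)
    (p := fun z _ _ θ => r ≤ age ε z θ) (fun m => measurableSet_age r ε P m) (h P) (h' P)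
  intro m
  convert h1 m

theorem measSF2_age_ite (r : ℝ) {H H' : SF2} (h : MeasSF2 H) (h' : MeasSF2 H') :
    MeasSF2 (fun P z m w (θ : Lab × LSt) =>
      if r ≤ age ε z θ then H P z m w θ else H' P z m w θ) := by
  intro P m
  exact Measurable.ite (measurableSet_age r ε P m) (h P m) (h' P m)

/-- Mark switch. -/
theorem measSF2_mark (a : CTree → ℕ → ℝ≥0∞) :
    MeasSF2 fun P _ _ _ θ => a P (eL θ).2 := fun P _ =>
  (measurable_of_countable (a P)).comp (measurable_eL.comp measurable_snd.snd).snd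

end Crest.Agent.R122.OS2Calc495

end
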