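import Crest.Agent.R122.ThirdD_741
import Crest.Agent.R122.OS2Calc_495
import Crest.Agent.R122.HitPair_45
import Crest.Agent.R122.SmallNull_566

/-!
# Births near the gas in the structure integrals of pairs (row 122, GAP-E, E6)

`BW6 Φ ε P z w θ` : a gas particle is within `ε` of the birth point, at the birth time, of one of the
lines `d`, `e`, `outL6 k` (the reborn root, `e'`, `c'`).

* `norm_out_le`, `near_of_bOut` : the births of the outgoing lines are near the encounter.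
* `OS2_trans_le` : structure integral of a functional of the gas and the pair whose integral over the
  joint translations of the pair is small.
* `bW6_OS2_le` : `BW6` is null, uniformly over the laws `PX`.
-/

set_option autoImplicit false

open MeasureTheory Set Filter Topology
open scoped ENNReal
open Crest.AnalysisR.Kinetic
open Crest.Agent.R122.Kin796 Crest.Agent.R122.Kin796.CTree Crest.Agent.R122.Tree674
open Crest.Agent.R122.Disc416 Crest.Agent.R122.Flux663 Crest.Agent.R122.OC663 Crest.Agent.R122.EDefs602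
open Crest.Agent.R122.GC311 Crest.Agent.R122.Flow671 Crest.Agent.R122.Loc45 Crest.Agent.R122.Mom974
open Crest.Agent.R122.OneC423 Crest.Agent.R122.TreeDom974 Crest.Agent.R122.OneC285
open Crest.Agent.R122.Pair292 hiding ML
open Crest.Agent.R122.PairD292
open Crest.Agent.R122.Boost969 (LSt posAt)
open Crest.Agent.R122.Long984 (longI longI_le_one longI_eq_zero)
open Crest.Agent.R122.OCout796 Crest.Agent.R122.Scat818
open Crest.Agent.R122.Third741

noncomputable section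

namespace Crest.Agent.R122.BirthOut664

variable {Φ : Space3 → ℝ} {f₀ : PhasePoint → ℝ} {ε : ℝ}

/-! ### The births of the outgoing lines -/

theorem norm_exit (hΦ : AdmissiblePotential Φ) {q : CD} (hg : (relB q).2 ≠ 0)
    (hb : inner ℝ (relB q).1 (relB q).2 = 0) (hb1 : ‖(relB q).1‖ ≤ 1) :
    ‖(Scat818.exitM Φ (relB q)).1‖ = 1 := by
  by_cases h : Ins45.CDpass Φ q
  · exact h.hasExit.2.2
  · have h' : relB q ∉ passSet Φ := h
    rw [exitM_of_not hΦ h']
    exact norm_ent hg hb hb1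

/-- The birth points of the outgoing lines. -/
theorem norm_out_le (hΦ : AdmissiblePotential Φ) (hε : 0 ≤ ε) {q : CD} (hg : (relB q).2 ≠ 0)
    (hb : inner ℝ (relB q).1 (relB q).2 = 0) (hb1 : ‖(relB q).1‖ ≤ 1) (s : ℝ) (y : Space3) :
    dist (lineC Φ ε s y q).2.1 y ≤ ε + ε * tauM Φ (relB q) * (‖q.1‖ + ‖q.2.1‖) ∧
    dist (lineL' Φ ε s y q).2.1 y ≤ ε + ε * tauM Φ (relB q) * (‖q.1‖ + ‖q.2.1‖) ∧
    dist (lineC' Φ ε s y q).2.1 y ≤ ε + ε * tauM Φ (relB q) * (‖q.1‖ + ‖q.2.1‖) := by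
  have hx := norm_exit hΦ hg hb hb1
  have he := norm_ent hg hb hb1
  have hτ := tauM_nonneg (Φ := Φ) (relB q)
  have ho : 0 ≤ outT Φ ε q := outT_nonneg hε q
  have hv := norm_nonneg q.1
  have hu := norm_nonneg q.2.1
  have hcm : ‖cmvel q‖ ≤ ‖q.1‖ + ‖q.2.1‖ := by
    unfold cmvel
    rw [norm_smul, Real.norm_eq_abs, abs_of_pos (by norm_num : (0 : ℝ) < 1 / 2)]
    have := norm_add_le q.1 q.2.1
    linarith
  have h1 : ‖outCM Φ ε q‖ ≤ ε / 2 + outT Φ ε q * (‖q.1‖ + ‖q.2.1‖) := by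
    unfold outCM
    refine (norm_add_le _ _).trans (add_le_add ?_ ?_)
    · rw [norm_smul, he, mul_one, Real.norm_eq_abs, abs_of_nonneg (by positivity)]
    · rw [norm_smul, Real.norm_eq_abs, abs_of_nonneg ho]
      exact mul_le_mul_of_nonneg_left hcm ho
  have h2 : ‖(ε / 2) • (Scat818.exitM Φ (relB q)).1‖ = ε / 2 := by
    rw [norm_smul, hx, mul_one, Real.norm_eq_abs, abs_of_nonneg (by positivity)]
  have h3 : outT Φ ε q = ε * tauM Φ (relB q) := rfl
  refine ⟨?_, ?_, ?_⟩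
  · unfold lineC
    rw [dist_eq_norm]
    simp only [add_sub_cancel_left]
    rw [norm_smul, Real.norm_eq_abs, abs_of_nonneg ho, h3]
    nlinarith [mul_nonneg (mul_nonneg hε hτ) hv]
  · unfold lineL'
    rw [dist_eq_norm]
    simp only [add_sub_cancel_left]
    refine (norm_add_le _ _).trans ?_
    rw [h2, ← h3]
    linarith
  · unfold lineC'
    rw [dist_eq_norm]
    simp only [add_sub_cancel_left]
    refine (norm_sub_le _ _).trans ?_
    rw [h2, ← h3]
    linarith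

/-- Births of the outgoing lines near the gas. -/
def BOut (Φ : Space3 → ℝ) (ε : ℝ) (P : CTree) (z : PhasePoint × Par P) {m : ℕ} (w : Config m)
    (θ : Lab × LSt) : Prop :=
  ∃ k : Option Bool, ∃ i : Fin m, dist (outL6 Φ ε P z (eL θ) k).1.2.1
    (flow Φ ε (outL6 Φ ε P z (eL θ) k).1.1 w i).1 ≤ ε

/-- A gas particle is within `ε` of the birth point of one of the lines `d`, `e`, `outL6 k`. -/
def BW6 (Φ : Space3 → ℝ) (ε : ℝ) (P : CTree) (z : PhasePoint × Par P) {m : ℕ} (w : Config m)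
    (θ : Lab × LSt) : Prop :=
  (∃ i : Fin m, dist (dL θ).1.2.1 (flow Φ ε (dL θ).1.1 w i).1 ≤ ε) ∨
  (∃ i : Fin m, dist (eL θ).1.2.1 (flow Φ ε (eL θ).1.1 w i).1 ≤ ε) ∨
  BOut Φ ε P z w θ

/-- Contact data on `ctSet`. -/
theorem cD_of_ct (hε : 0 < ε) {te : ℝ} {P : CTree} {z : PhasePoint × Par P} {θ : Lab × LSt}
    (hct : (z, θ.2) ∈ ctSet Φ ε te P) :
    (relB (cD ε z (eL θ))).2 ≠ 0 ∧
      inner ℝ (relB (cD ε z (eL θ))).1 (relB (cD ε z (eL θ))).2 = 0 ∧
      ‖(relB (cD ε z (eL θ))).1‖ ≤ 1 := by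
  obtain ⟨hg, hb, -⟩ := hct
  refine ⟨hg, ?_, ?_⟩
  · show inner ℝ (entB ε (relL z.1 θ.2)) (relL z.1 θ.2).2 = 0
    unfold entB
    rw [inner_smul_left, inner_bline hg, mul_zero]
  · show ‖entB ε (relL z.1 θ.2)‖ ≤ 1
    rw [norm_entB hε, div_le_one hε]
    exact hb

theorem near_of_bOut (hΦ : AdmissiblePotential Φ) (hε : 0 < ε) {te : ℝ} {P : CTree}
    {z : PhasePoint × Par P} {m : ℕ} {w : Config m} {θ : Lab × LSt}
    (hct : (z, θ.2) ∈ ctSet Φ ε te P) (h : BOut Φ ε P z w θ) {R : ℝ}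
    (hR : tauM Φ (relB (cD ε z (eL θ))) ≤ R) :
    Near Φ ε w (cT ε z (eL θ)) ((R + 2) * ε)
      (((R + 2) * ε) * (1 + ‖θ.2.2.2‖ + ‖z.1.2‖)) (z.1.1 + cT ε z (eL θ) • z.1.2) := by
  obtain ⟨k, i, hd⟩ := h
  obtain ⟨hg, hb, hb1⟩ := cD_of_ct hε hct
  have hτ := tauM_nonneg (Φ := Φ) (relB (cD ε z (eL θ)))
  have hR0 : 0 ≤ R := hτ.trans hR
  obtain ⟨e1, e2, e3⟩ := norm_out_le hΦ hε.le hg hb hb1 (cT ε z (eL θ)) (cX ε z (eL θ))
  have hv := norm_nonneg θ.2.2.2
  have hu := norm_nonneg z.1.2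
  have hs : (outL6 Φ ε P z (eL θ) k).1.1 = cT ε z (eL θ) + outT Φ ε (cD ε z (eL θ)) := by
    rcases k with _ | _ | _ <;> rfl
  have hp : dist (outL6 Φ ε P z (eL θ) k).1.2.1 (cX ε z (eL θ)) ≤
      ε + ε * tauM Φ (relB (cD ε z (eL θ))) * (‖θ.2.2.2‖ + ‖z.1.2‖) := by
    rcases k with _ | _ | _
    · exact e1
    · exact e2
    · exact e3
  have ho : outT Φ ε (cD ε z (eL θ)) ≤ ε * R := mul_le_mul_of_nonneg_left hR hε.le
  have ho0 := outT_nonneg (Φ := Φ) hε.le (cD ε z (eL θ))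
  have hX : z.1.1 + cT ε z (eL θ) • z.1.2 = cX ε z (eL θ) := rfl
  refine ⟨i, (outL6 Φ ε P z (eL θ) k).1.1, ⟨?_, ?_⟩, ?_⟩
  · rw [hs]
    nlinarith
  · rw [hs]
    nlinarith
  · rw [hX]
    refine (dist_triangle_left _ _ (outL6 Φ ε P z (eL θ) k).1.2.1).trans ?_
    have h4 : ε * tauM Φ (relB (cD ε z (eL θ))) * (‖θ.2.2.2‖ + ‖z.1.2‖) ≤
        ε * R * (‖θ.2.2.2‖ + ‖z.1.2‖) :=
      mul_le_mul_of_nonneg_right (mul_le_mul_of_nonneg_left hR hε.le) (by positivity)
    have h5 : 0 ≤ ε * R := by positivity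
    have h6 : 0 ≤ ε * (‖θ.2.2.2‖ + ‖z.1.2‖) := by positivity
    nlinarith

/-! ### Translations -/

theorem relL_shift (x u a : Space3) (l : LSt) :
    relL (x + a, u) (shL a l) = relL (x, u) l := by
  unfold relL shL back
  refine Prod.ext ?_ rfl
  simp only
  abel

theorem ctSet_shift {te : ℝ} {P : CTree} (x u a : Space3) (p : Par P) (l : LSt) :
    ((((x + a, u), p) : PhasePoint × Par P), shL a l) ∈ ctSet Φ ε te P ↔
      ((((x, u), p) : PhasePoint × Par P), l) ∈ ctSet Φ ε te P := by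
  unfold ctSet
  simp only [mem_ofPred_eq, relL_shift]
  exact Iff.rfl

theorem ind_congr {α β : Type*} {s : Set α} {t : Set β} {x : α} {y : β}
    (h : x ∈ s ↔ y ∈ t) :
    s.indicator (fun _ => (1 : ℝ≥0∞)) x = t.indicator (fun _ => (1 : ℝ≥0∞)) y := by
  by_cases hx : x ∈ s
  · rw [indicator_of_mem hx, indicator_of_mem (h.1 hx)]
  · rw [indicator_of_notMem hx, indicator_of_notMem (fun h' => hx (h.2 h'))]

/-- Positions of the root which meet a given line. -/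
theorem lintegral_ct_x (hΦ : AdmissiblePotential Φ) (hε : 0 < ε) {te : ℝ} {P : CTree}
    (u : Space3) (p : Par P) {l : LSt} (hl : 0 < l.1) :
    ∫⁻ x : Space3, {x : Space3 | ((((x, u), p) : PhasePoint × Par P), l) ∈
        ctSet Φ ε te P}.indicator (fun _ => (1 : ℝ≥0∞)) x ≤
      if l.1 ≤ te then ENNReal.ofReal (ε ^ 2) *
        (ENNReal.ofReal ‖l.2.2 - u‖ * (ENNReal.ofReal te * ENNReal.ofReal Real.pi)) else 0 := by
  classical
  have e1 : ∀ x : Space3, {x : Space3 | ((((x, u), p) : PhasePoint × Par P), l) ∈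
        ctSet Φ ε te P}.indicator (fun _ => (1 : ℝ≥0∞)) x =
      {l' : ML | ((((0, u), p) : PhasePoint × Par P), l'.1) ∈ ctSet Φ ε te P}.indicator
        (fun _ => (1 : ℝ≥0∞)) ((l.1, (l.2.1 - x, l.2.2)), 0) := by
    intro x
    have h1 : ((((x, u), p) : PhasePoint × Par P), l) ∈ ctSet Φ ε te P ↔
        ((((0, u), p) : PhasePoint × Par P), ((l.1, (l.2.1 - x, l.2.2)) : LSt)) ∈
          ctSet Φ ε te P := by
      rw [← ctSet_shift 0 u x p ((l.1, (l.2.1 - x, l.2.2)) : LSt), zero_add]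
      unfold shL
      simp only [sub_add_cancel]
    exact ind_congr h1
  simp only [e1]
  rw [lintegral_sub_left_eq_self (fun y : Space3 =>
    {l' : ML | ((((0, u), p) : PhasePoint × Par P), l'.1) ∈ ctSet Φ ε te P}.indicator
        (fun _ => (1 : ℝ≥0∞)) ((l.1, (y, l.2.2)), 0)) l.2.1,
    lintegral_ct_y hΦ hε (((0, u), p) : PhasePoint × Par P) l.1 l.2.2 0
      (H := fun _ => (1 : ℝ≥0∞)) measurable_const]
  by_cases hte : l.1 ≤ te
  · rw [if_pos hte]
    refine mul_le_mul' le_rfl ?_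
    simp only
    by_cases hg0 : l.2.2 - u = 0
    · simp [hg0]
    refine mul_le_mul' le_rfl ?_
    rw [setLIntegral_const (impactDisc (l.2.2 - u)), one_mul, measure_impactDisc hg0,
      setLIntegral_const, mul_comm]
    refine mul_le_mul' ?_ le_rfl
    have hsub : {s | l.1 < s ∧ s ≤ te ∧ Valid Φ ε P s u p} ⊆ Ioc 0 te := by
      rintro s ⟨h1, h2, -⟩
      exact ⟨hl.trans h1, h2⟩
    refine (measure_mono hsub).trans (le_of_eq ?_)
    rw [Real.volume_Ioc, sub_zero]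
  · have hem : {s | l.1 < s ∧ s ≤ te ∧ Valid Φ ε P s u p} = ∅ := by
      ext s
      simp only [mem_ofPred_eq, mem_empty_iff_false, iff_false]
      rintro ⟨h1, h2, -⟩
      exact hte (h1.le.trans h2)
    rw [if_neg hte]
    simp only [hem]
    simp

/-- Functionals of the gas and the pair. -/
abbrev GF : Type := (m : ℕ) → Config m → Lab × LSt → ℝ≥0∞

open scoped Classical in
/-- The structure functional of `G`. -/
def sfG (K : ℕ) (G : GF) : SF2 := fun P _z m w θ =>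
  if OkL K θ ∧ P.leaves ≤ K then G m w θ else 0

/-- Joint measurability; the integral over the joint translations of the pair is small. -/
structure TFun (Φ : Space3 → ℝ) (ε : ℝ) (K : ℕ) (η : ℝ≥0∞) (G : GF) : Prop where
  meas : ∀ m, Measurable fun q : Config m × (Lab × LSt) => G m q.1 q.2
  le : ∀ (m : ℕ) (w : Config m), w ∈ PairExcluded ε m → ∀ θ : Lab × LSt, OkL K θ →
    ∫⁻ a : Space3, G m w (shP a θ) ≤ η * ENNReal.ofReal ((1 + ‖θ.2.2.2‖) ^ 3) * Wt Φ w

theorem measSF2_sfG (K : ℕ) {G : GF}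
    (hG : ∀ m, Measurable fun q : Config m × (Lab × LSt) => G m q.1 q.2) :
    MeasSF2 (sfG K G) := by
  classical
  intro P m
  unfold sfG
  refine Measurable.ite ?_ ((hG m).comp measurable_snd) measurable_const
  by_cases hP : P.leaves ≤ K
  · simp only [hP, and_true]
    exact (measurable_snd.comp measurable_snd) (measurableSet_OkL K)
  · simp only [hP, and_false]
    exact MeasurableSet.empty

/-- The integrand in the pair, as a function of the position of the root. -/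
def cI (Φ : Space3 → ℝ) (ε te : ℝ) (K : ℕ) (G : GF) (P : CTree) (u : Space3) (p : Par P)
    (x : Space3) (m : ℕ) (w : Config m) (θ : Lab × LSt) : ℝ≥0∞ :=
  {θ : Lab × LSt | ((((x, u), p) : PhasePoint × Par P), θ.2) ∈ ctSet Φ ε te P}.indicator
    (fun θ => sfG K G P ((x, u), p) m w θ) θ

theorem measurable_cI (hΦ : AdmissiblePotential Φ) (ε te : ℝ) (K : ℕ) {G : GF}
    (hG : ∀ m, Measurable fun q : Config m × (Lab × LSt) => G m q.1 q.2) (P : CTree)
    (u : Space3) (p : Par P) (m : ℕ) :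
    Measurable fun q : (Space3 × Config m) × (Lab × LSt) =>
      cI Φ ε te K G P u p q.1.1 m q.1.2 q.2 := by
  have h1 : Measurable fun q : (Space3 × Config m) × (Lab × LSt) =>
      (((((q.1.1, u), p) : PhasePoint × Par P), (q.1.2, q.2)) :
        (PhasePoint × Par P) × (Config m × (Lab × LSt))) := by fun_prop
  have h2 : Measurable fun q : (Space3 × Config m) × (Lab × LSt) =>
      sfG K G P ((q.1.1, u), p) m q.1.2 q.2 := (measSF2_sfG K hG P m).comp h1
  have h3 : MeasurableSet {q : (Space3 × Config m) × (Lab × LSt) |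
      ((((q.1.1, u), p) : PhasePoint × Par P), q.2.2) ∈ ctSet Φ ε te P} := by
    have h4 : Measurable fun q : (Space3 × Config m) × (Lab × LSt) =>
        (((((q.1.1, u), p) : PhasePoint × Par P), q.2.2) :
          (PhasePoint × Par P) × (ℝ × PhasePoint)) := by fun_prop
    exact h4 (measurableSet_ctSet hΦ ε te P)
  exact h2.indicator h3

/-- **Fixed gas**: integral over the position of the root and the pair. -/
theorem lintegral_cI_le (hΦ : AdmissiblePotential Φ) (hε : 0 < ε) {K : ℕ} {te : ℝ}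
    {ν : Measure (Lab × LSt)} (hν : InvFam shP (fun p : Lab × LSt => p.2) posD ν)
    {G : GF} {η : ℝ≥0∞} (hG : TFun Φ ε K η G) (P : CTree) (u : Space3) (p : Par P) {m : ℕ}
    {w : Config m} (hw : w ∈ PairExcluded ε m) :
    ∫⁻ x : Space3, ∫⁻ θ, cI Φ ε te K G P u p x m w θ ∂ν ≤
      ENNReal.ofReal (ε ^ 2) * ((ENNReal.ofReal te * ENNReal.ofReal Real.pi) * η *
        (ENNReal.ofReal (1 + ‖u‖) * m4 (muV K te ν))) * Wt Φ w := by
  classical
  have hsf := hν.sf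
  have hm := measurable_cI hΦ ε te K hG.meas P u p m
  have hm1 : Measurable fun q : Space3 × (Lab × LSt) => cI Φ ε te K G P u p q.1 m w q.2 :=
    hm.comp (f := fun q : Space3 × (Lab × LSt) => ((q.1, w), q.2)) (by fun_prop)
  have hmx : ∀ x : Space3, Measurable fun θ : Lab × LSt => cI Φ ε te K G P u p x m w θ :=
    fun x => hm1.comp (f := fun θ : Lab × LSt => (x, θ)) (by fun_prop)
  have hm2 : Measurable fun q : (Space3 × (Lab × LSt)) × Space3 =>
      cI Φ ε te K G P u p q.1.1 m w (shP q.2 q.1.2) := by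
    have h1 : Measurable fun q : (Space3 × (Lab × LSt)) × Space3 => shP q.2 q.1.2 :=
      hν.mT.comp (f := fun q : (Space3 × (Lab × LSt)) × Space3 => (q.2, q.1.2)) (by fun_prop)
    exact hm1.comp (f := fun q : (Space3 × (Lab × LSt)) × Space3 => (q.1.1, shP q.2 q.1.2))
      ((measurable_fst.comp measurable_fst).prodMk h1)
  have hm3 : Measurable fun q : Space3 × (Lab × LSt) => PairS969.rho0 (posD q.2) *
      ∫⁻ a : Space3, cI Φ ε te K G P u p q.1 m w (shP a q.2) :=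
    ((PairS969.measurable_rho0.comp measurable_posD).comp measurable_snd).mul
      hm2.lintegral_prod_right'
  have hpm : Measurable fun v : Space3 => ENNReal.ofReal ((1 + ‖v‖) ^ 4) := by fun_prop
  -- fixed pair
  have key : ∀ θ : Lab × LSt, ∫⁻ x : Space3, ∫⁻ a : Space3,
      cI Φ ε te K G P u p x m w (shP a θ) ≤
      if OkL K θ ∧ θ.2.1 ≤ te then ENNReal.ofReal (ε ^ 2) *
        ((ENNReal.ofReal te * ENNReal.ofReal Real.pi) * η * (ENNReal.ofReal (1 + ‖u‖) *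
          ENNReal.ofReal ((1 + ‖θ.2.2.2‖) ^ 4))) * Wt Φ w else 0 := by
    intro θ
    have hmθ : Measurable fun q : Space3 × Space3 => cI Φ ε te K G P u p q.1 m w (shP q.2 θ) :=
      hm2.comp (f := fun q : Space3 × Space3 => ((q.1, θ), q.2)) (by fun_prop)
    by_cases hok : OkL K θ ∧ P.leaves ≤ K
    · set X : Set Space3 := {x : Space3 | ((((x, u), p) : PhasePoint × Par P), θ.2) ∈
        ctSet Φ ε te P} with hX
      have hXm : MeasurableSet X := by
        have h4 : Measurable fun x : Space3 => (((((x, u), p) : PhasePoint × Par P), θ.2) :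
          (PhasePoint × Par P) × (ℝ × PhasePoint)) := by fun_prop
        exact h4 (measurableSet_ctSet hΦ ε te P)
      have e1 : ∀ a : Space3, ∫⁻ x : Space3, cI Φ ε te K G P u p x m w (shP a θ) =
          G m w (shP a θ) * ∫⁻ x : Space3, X.indicator (fun _ => (1 : ℝ≥0∞)) x := by
        intro a
        have hXi : Measurable (X.indicator (fun _ => (1 : ℝ≥0∞))) :=
          measurable_const.indicator hXm
        rw [← lintegral_const_mul _ hXi, ← lintegral_add_right_eq_self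
          (fun x : Space3 => cI Φ ε te K G P u p x m w (shP a θ)) a]
        refine lintegral_congr fun x => ?_
        have hiff : shP a θ ∈ {θ : Lab × LSt | ((((x + a, u), p) : PhasePoint × Par P), θ.2) ∈
            ctSet Φ ε te P} ↔ x ∈ X := ctSet_shift x u a p θ.2
        unfold cI
        by_cases hx : x ∈ X
        · rw [indicator_of_mem (hiff.2 hx), indicator_of_mem hx, mul_one]
          unfold sfG
          rw [if_pos ⟨(OkL_shP K a θ).2 hok.1, hok.2⟩]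
        · rw [indicator_of_notMem (fun h => hx (hiff.1 h)), indicator_of_notMem hx, mul_zero]
      have hv := lintegral_ct_x hΦ hε (te := te) (P := P) u p (l := θ.2) hok.1.e0
      have hGa : Measurable fun a : Space3 => G m w (shP a θ) := by
        have h1 : Measurable fun a : Space3 => shP a θ :=
          hν.mT.comp (f := fun a : Space3 => (a, θ)) (by fun_prop)
        exact (hG.meas m).comp (f := fun a : Space3 => (w, shP a θ)) (measurable_const.prodMk h1)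
      rw [lintegral_lintegral_swap (f := fun (x : Space3) (a : Space3) =>
        cI Φ ε te K G P u p x m w (shP a θ)) hmθ.aemeasurable]
      simp only [e1]
      rw [lintegral_mul_const _ hGa]
      have hle := hG.le m w hw θ hok.1
      by_cases hte : θ.2.1 ≤ te
      · rw [if_pos ⟨hok.1, hte⟩]
        rw [if_pos hte] at hv
        refine (mul_le_mul' hle hv).trans ?_
        have h14 : ENNReal.ofReal ((1 + ‖θ.2.2.2‖) ^ 3) * ENNReal.ofReal ‖θ.2.2.2 - u‖ ≤
            ENNReal.ofReal (1 + ‖u‖) * ENNReal.ofReal ((1 + ‖θ.2.2.2‖) ^ 4) := by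
          rw [← ENNReal.ofReal_mul (by positivity), ← ENNReal.ofReal_mul (by positivity)]
          refine ENNReal.ofReal_le_ofReal ?_
          have h5 := norm_sub_le_mul θ.2.2.2 u
          calc (1 + ‖θ.2.2.2‖) ^ 3 * ‖θ.2.2.2 - u‖
              ≤ (1 + ‖θ.2.2.2‖) ^ 3 * ((1 + ‖θ.2.2.2‖) * (1 + ‖u‖)) :=
                mul_le_mul_of_nonneg_left h5 (by positivity)
            _ = _ := by ring
        calc η * ENNReal.ofReal ((1 + ‖θ.2.2.2‖) ^ 3) * Wt Φ w * (ENNReal.ofReal (ε ^ 2) *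
              (ENNReal.ofReal ‖θ.2.2.2 - u‖ * (ENNReal.ofReal te * ENNReal.ofReal Real.pi)))
            = ENNReal.ofReal (ε ^ 2) * ((ENNReal.ofReal te * ENNReal.ofReal Real.pi) * η *
              (ENNReal.ofReal ((1 + ‖θ.2.2.2‖) ^ 3) * ENNReal.ofReal ‖θ.2.2.2 - u‖)) *
                Wt Φ w := by ring
          _ ≤ _ := by gcongr
      · rw [if_neg hte] at hv
        rw [le_antisymm hv zero_le, mul_zero]
        exact zero_le
    · have e1 : ∀ x a : Space3, cI Φ ε te K G P u p x m w (shP a θ) = 0 := by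
        intro x a
        unfold cI
        refine indicator_apply_eq_zero.2 fun _ => ?_
        unfold sfG
        rw [if_neg fun h => hok ⟨(OkL_shP K a θ).1 h.1, h.2⟩]
      simp only [e1, lintegral_zero]
      exact zero_le
  calc ∫⁻ x : Space3, ∫⁻ θ, cI Φ ε te K G P u p x m w θ ∂ν
      = ∫⁻ x : Space3, ∫⁻ θ, PairS969.rho0 (posD θ) *
          (∫⁻ a : Space3, cI Φ ε te K G P u p x m w (shP a θ)) ∂ν := by
        refine lintegral_congr fun x => ?_
        exact hν.disint (χ := PairS969.rho0) PairS969.measurable_rho0 PairS969.lintegral_rho0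
          (hmx x)
    _ = ∫⁻ θ, (∫⁻ x : Space3, PairS969.rho0 (posD θ) *
          (∫⁻ a : Space3, cI Φ ε te K G P u p x m w (shP a θ))) ∂ν :=
        lintegral_lintegral_swap hm3.aemeasurable
    _ ≤ ∫⁻ θ, (ENNReal.ofReal (ε ^ 2) *
        ((ENNReal.ofReal te * ENNReal.ofReal Real.pi) * η * ENNReal.ofReal (1 + ‖u‖)) *
          Wt Φ w) * (chiV K te θ * ENNReal.ofReal ((1 + ‖θ.2.2.2‖) ^ 4)) ∂ν := by
        refine lintegral_mono fun θ => ?_
        have hm4 : Measurable fun x : Space3 =>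
            ∫⁻ a : Space3, cI Φ ε te K G P u p x m w (shP a θ) :=
          (hm2.comp (f := fun q : Space3 × Space3 => ((q.1, θ), q.2))
            (by fun_prop)).lintegral_prod_right'
        rw [lintegral_const_mul _ hm4]
        refine (mul_le_mul' le_rfl (key θ)).trans (le_of_eq ?_)
        unfold chiV
        split_ifs
        · ring
        · simp
    _ = (ENNReal.ofReal (ε ^ 2) *
        ((ENNReal.ofReal te * ENNReal.ofReal Real.pi) * η * ENNReal.ofReal (1 + ‖u‖)) *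
          Wt Φ w) * ∫⁻ θ, chiV K te θ * ENNReal.ofReal ((1 + ‖θ.2.2.2‖) ^ 4) ∂ν := by
        have hcm : Measurable fun θ : Lab × LSt =>
            chiV K te θ * ENNReal.ofReal ((1 + ‖θ.2.2.2‖) ^ 4) :=
          (measurable_chiV K te).mul (hpm.comp measurable_vel2)
        rw [lintegral_const_mul _ hcm]
    _ = _ := by
        rw [← lintegral_muV K te ν hpm]
        unfold m4
        ring

/-- **Structure integral of a translation-small functional.** -/
theorem OS2_trans_le (hΦ : AdmissiblePotential Φ) {A : Space3 → ℝ≥0∞} {C b g0 : ℝ}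
    (hF : FOk f₀ A C b) {Q : EPar} (hQ : QOk Q g0) {PP : ℕ → PPar} (hP : PPOk Q PP)
    {Cv : ℝ≥0∞} (hV : Vel4 Q PP Cv) (K : ℕ) (T' : ℝ) :
    ∃ D : ℝ≥0∞, D ≠ ∞ ∧ ∀ (ε : ℝ), 0 < ε →
      ∀ (Ξ ν : Measure (Lab × LSt)) (c : ℝ≥0∞), c ≠ ∞ → PX (PP K) Ξ ν c →
      ∀ (G : GF) (η : ℝ≥0∞), η ≠ ∞ → TFun Φ ε K η G → ∀ H : SF2,
      (∀ P z m w θ, (z, θ.2) ∈ ctSet Φ ε Q.te P → H P z m w θ ≤ sfG K G P z m w θ) →
      OS2 Φ f₀ ε Q.te T' ν H ≤ c * (D * (activity ε * η)) := by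
  classical
  have hb2 := half_pos hF.b_pos
  choose C' hC' using fun P : CTree => hF.maj.tree hΦ hb2 (half_lt_self hF.b_pos) P
  set m2 : ℝ≥0∞ := ∫⁻ z, ENNReal.ofReal (f₀ z) * ENNReal.ofReal (1 + ‖z.2‖ ^ 2) with hm2
  set c1 : ℝ≥0∞ := (ENNReal.ofReal Q.te * ENNReal.ofReal Real.pi) * Dm4 Q g0 Cv K *
    (ENNReal.ofReal (1 + 2 * stabB Φ) * m2) with hc1
  have hD4 := Dm4_ne_top hQ hV.fin K
  have hc1t : c1 ≠ ∞ := by
    rw [hc1]
    exact ENNReal.mul_ne_top (ENNReal.mul_ne_top (ENNReal.mul_ne_top ENNReal.ofReal_ne_top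
      ENNReal.ofReal_ne_top) hD4) (ENNReal.mul_ne_top ENNReal.ofReal_ne_top hF.mom)
  refine ⟨∑ P ∈ GIVStep383.trees K, c1 * ∫⁻ q : Space3 × Par P,
    domG (C' P) (b / 2) T' P q.1 q.2 * ENNReal.ofReal ((1 + ‖q.1‖) ^ 4), ?_, ?_⟩
  · exact ENNReal.sum_ne_top.2 fun P _ => ENNReal.mul_ne_top hc1t
      (lintegral_domG_pow_ne_top (hC' P).C_nonneg hb2 T' P 4)
  intro ε hε Ξ ν c hcν hPX G η hηt hG H hH
  have hν := hPX.invFam
  have := hPX.sfν
  have hμ4 := m4_muV_le hQ hP hV hPX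
  have hμt : m4 (muV K Q.te ν) ≠ ∞ := ne_top_of_le_ne_top (ENNReal.mul_ne_top hD4 hcν) hμ4
  set F : (P : CTree) → PhasePoint × Par P → ℝ≥0∞ := fun P z =>
    gcE f₀ ε (fun m w => ∫⁻ θ, cI Φ ε Q.te K G P z.1.2 z.2 z.1.1 m w θ ∂ν) with hFd
  have hFm : ∀ P, Measurable (F P) := by
    intro P
    refine ToTree335.measurable_gcE_par hF.meas fun m => ?_
    have h1 : Measurable fun q : ((PhasePoint × Par P) × Config m) × (Lab × LSt) =>
        cI Φ ε Q.te K G P q.1.1.1.2 q.1.1.2 q.1.1.1.1 m q.1.2 q.2 := by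
      have h2 : Measurable fun q : ((PhasePoint × Par P) × Config m) × (Lab × LSt) =>
          sfG K G P q.1.1 m q.1.2 q.2 := (measSF2_sfG K hG.meas P m).comp
        (f := fun q : ((PhasePoint × Par P) × Config m) × (Lab × LSt) =>
          (q.1.1, (q.1.2, q.2))) (by fun_prop)
      have h3 : MeasurableSet {q : ((PhasePoint × Par P) × Config m) × (Lab × LSt) |
          (q.1.1, q.2.2) ∈ ctSet Φ ε Q.te P} := by
        have h4 : Measurable fun q : ((PhasePoint × Par P) × Config m) × (Lab × LSt) =>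
            ((q.1.1, q.2.2) : (PhasePoint × Par P) × (ℝ × PhasePoint)) := by fun_prop
        exact h4 (measurableSet_ctSet hΦ ε Q.te P)
      exact h2.indicator h3
    exact h1.lintegral_prod_right'
  have hHF : ∀ (P : CTree) (z : PhasePoint × Par P),
      gcE f₀ ε (fun m w => ∫⁻ θ, {θ : Lab × LSt | (z, θ.2) ∈ ctSet Φ ε Q.te P}.indicator
        (fun θ => H P z m w θ) θ ∂ν) ≤ F P z := by
    intro P z
    refine gcE_mono f₀ ε fun m w _ => lintegral_mono fun θ => ?_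
    unfold cI
    by_cases hθ : θ ∈ {θ : Lab × LSt | (z, θ.2) ∈ ctSet Φ ε Q.te P}
    · rw [indicator_of_mem hθ, indicator_of_mem (s := {θ : Lab × LSt |
        ((((z.1.1, z.1.2), z.2) : PhasePoint × Par P), θ.2) ∈ ctSet Φ ε Q.te P}) hθ]
      exact hH P z m w θ hθ
    · rw [indicator_of_notMem hθ]
      exact zero_le
  -- position of the root
  have hx : ∀ (P : CTree) (q : Space3 × Par P), ∫⁻ x : Space3, F P ((x, q.1), q.2) ≤
      ENNReal.ofReal (ε ^ 2) * ((ENNReal.ofReal Q.te * ENNReal.ofReal Real.pi) * η *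
        (ENNReal.ofReal (1 + ‖q.1‖) * m4 (muV K Q.te ν))) *
        (ENNReal.ofReal (1 + 2 * stabB Φ) * (activity ε * m2)) := by
    intro P q
    have hms : ∀ n, Measurable (Function.uncurry fun (x : Space3) (w : Config n) =>
        ∫⁻ θ, cI Φ ε Q.te K G P q.1 q.2 x n w θ ∂ν) := fun n =>
      (measurable_cI hΦ ε Q.te K hG.meas P q.1 q.2 n).lintegral_prod_right'
    rw [hFd]
    simp only
    rw [BadHit370.lintegral_gcE hF.meas ε volume hms]
    set kk : ℝ≥0∞ := ENNReal.ofReal (ε ^ 2) * ((ENNReal.ofReal Q.te * ENNReal.ofReal Real.pi) *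
      η * (ENNReal.ofReal (1 + ‖q.1‖) * m4 (muV K Q.te ν))) with hkk
    have hkt : kk ≠ ∞ := by
      rw [hkk]
      exact ENNReal.mul_ne_top ENNReal.ofReal_ne_top (ENNReal.mul_ne_top (ENNReal.mul_ne_top
        (ENNReal.mul_ne_top ENNReal.ofReal_ne_top ENNReal.ofReal_ne_top) hηt)
          (ENNReal.mul_ne_top ENNReal.ofReal_ne_top hμt))
    calc gcE f₀ ε (fun n w => ∫⁻ x : Space3, ∫⁻ θ, cI Φ ε Q.te K G P q.1 q.2 x n w θ ∂ν)
        ≤ gcE f₀ ε (fun _ w => kk * Wt Φ w) :=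
          gcE_mono f₀ ε fun n w hw => lintegral_cI_le hΦ hε hν hG P q.1 q.2 hw
      _ = kk * gcE f₀ ε (fun _ w => Wt Φ w) := gcE_const_mul f₀ ε hkt _
      _ ≤ _ := mul_le_mul' le_rfl (gcE_Wt_le hF.meas hF.mass ε)
  have hone : ∀ P : CTree, ∫⁻ z : PhasePoint × Par P,
      {z : PhasePoint × Par P | Valid Φ ε P T' z.1.2 z.2}.indicator
        (fun z => wt Φ P z.1.2 z.2 * (ToTree335.pf Φ f₀ ε P z *
          gcE f₀ ε (fun m w => ∫⁻ θ, {θ : Lab × LSt | (z, θ.2) ∈ ctSet Φ ε Q.te P}.indicator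
            (fun θ => H P z m w θ) θ ∂ν))) z ≤
      (ENNReal.ofReal ε ^ 2 * activity ε) * (c * η * (c1 * ∫⁻ q : Space3 × Par P,
        domG (C' P) (b / 2) T' P q.1 q.2 * ENNReal.ofReal ((1 + ‖q.1‖) ^ 4))) := by
    intro P
    calc _ ≤ ∫⁻ z : PhasePoint × Par P, {z : PhasePoint × Par P |
            Valid Φ ε P T' z.1.2 z.2}.indicator
          (fun z => wt Φ P z.1.2 z.2 * (ToTree335.pf Φ f₀ ε P z * F P z)) z :=
          lintegral_mono fun z => indicator_le_indicator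
            (mul_le_mul' le_rfl (mul_le_mul' le_rfl (hHF P z)))
      _ ≤ ∫⁻ q : Space3 × Par P, domG (C' P) (b / 2) T' P q.1 q.2 *
            ∫⁻ x : Space3, F P ((x, q.1), q.2) := (hC' P).lintegral_x hε.le T' (hFm P)
      _ ≤ ∫⁻ q : Space3 × Par P, ((ENNReal.ofReal ε ^ 2 * activity ε) * (c * η * c1)) *
            (domG (C' P) (b / 2) T' P q.1 q.2 * ENNReal.ofReal ((1 + ‖q.1‖) ^ 4)) := by
          refine lintegral_mono fun q => ?_
          have hu4 : ENNReal.ofReal (1 + ‖q.1‖) ≤ ENNReal.ofReal ((1 + ‖q.1‖) ^ 4) := by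
            refine ENNReal.ofReal_le_ofReal ?_
            have h1 : (1 : ℝ) ≤ 1 + ‖q.1‖ := by linarith [norm_nonneg q.1]
            exact le_self_pow₀ h1 (by norm_num)
          refine (mul_le_mul' le_rfl (hx P q)).trans ?_
          calc domG (C' P) (b / 2) T' P q.1 q.2 * (ENNReal.ofReal (ε ^ 2) *
                ((ENNReal.ofReal Q.te * ENNReal.ofReal Real.pi) * η *
                  (ENNReal.ofReal (1 + ‖q.1‖) * m4 (muV K Q.te ν))) *
                  (ENNReal.ofReal (1 + 2 * stabB Φ) * (activity ε * m2)))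
              ≤ domG (C' P) (b / 2) T' P q.1 q.2 * (ENNReal.ofReal (ε ^ 2) *
                ((ENNReal.ofReal Q.te * ENNReal.ofReal Real.pi) * η *
                  (ENNReal.ofReal ((1 + ‖q.1‖) ^ 4) * (Dm4 Q g0 Cv K * c))) *
                  (ENNReal.ofReal (1 + 2 * stabB Φ) * (activity ε * m2))) := by gcongr
            _ = _ := by
                rw [hc1, ENNReal.ofReal_pow hε.le]
                ring
      _ = ((ENNReal.ofReal ε ^ 2 * activity ε) * (c * η * c1)) *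
            ∫⁻ q : Space3 × Par P, domG (C' P) (b / 2) T' P q.1 q.2 *
              ENNReal.ofReal ((1 + ‖q.1‖) ^ 4) := by
          refine lintegral_const_mul' _ _ ?_
          exact ENNReal.mul_ne_top (ENNReal.mul_ne_top
            (ENNReal.pow_ne_top ENNReal.ofReal_ne_top) (activity_ne_top ε))
            (ENNReal.mul_ne_top (ENNReal.mul_ne_top hcν hηt) hc1t)
      _ = _ := by ring
  have hP0 : ∀ P : CTree, P ∉ GIVStep383.trees K →
      ∫⁻ z : PhasePoint × Par P, {z : PhasePoint × Par P | Valid Φ ε P T' z.1.2 z.2}.indicator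
      (fun z => wt Φ P z.1.2 z.2 * (ToTree335.pf Φ f₀ ε P z *
        gcE f₀ ε (fun m w => ∫⁻ θ, {θ : Lab × LSt | (z, θ.2) ∈ ctSet Φ ε Q.te P}.indicator
          (fun θ => H P z m w θ) θ ∂ν))) z = 0 := by
    intro P hP
    have hP' : ¬ P.leaves ≤ K := fun h => hP (GIVStep383.mem_trees.2 h)
    have h0 : ∀ (z : PhasePoint × Par P) (m : ℕ) (w : Config m) (θ : Lab × LSt),
        {θ : Lab × LSt | (z, θ.2) ∈ ctSet Φ ε Q.te P}.indicator
          (fun θ => H P z m w θ) θ = 0 := by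
      intro z m w θ
      refine indicator_apply_eq_zero.2 fun hθ => ?_
      have h1 := hH P z m w θ hθ
      unfold sfG at h1
      rw [if_neg fun h => hP' h.2] at h1
      exact le_antisymm h1 zero_le
    simp only [h0, lintegral_zero, gcE_zero, mul_zero, indicator_zero]
  unfold OS2
  rw [tsum_eq_sum (s := GIVStep383.trees K) (fun P hP => hP0 P hP)]
  calc activity ε * ∑ P ∈ GIVStep383.trees K, ∫⁻ z : PhasePoint × Par P,
        {z : PhasePoint × Par P | Valid Φ ε P T' z.1.2 z.2}.indicator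
          (fun z => wt Φ P z.1.2 z.2 * (ToTree335.pf Φ f₀ ε P z *
            gcE f₀ ε (fun m w => ∫⁻ θ, {θ : Lab × LSt |
              (z, θ.2) ∈ ctSet Φ ε Q.te P}.indicator (fun θ => H P z m w θ) θ ∂ν))) z
      ≤ activity ε * ∑ P ∈ GIVStep383.trees K,
        (ENNReal.ofReal ε ^ 2 * activity ε) * (c * η * (c1 * ∫⁻ q : Space3 × Par P,
          domG (C' P) (b / 2) T' P q.1 q.2 * ENNReal.ofReal ((1 + ‖q.1‖) ^ 4))) :=
        mul_le_mul' le_rfl (Finset.sum_le_sum fun P _ => hone P)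
    _ = (activity ε * ENNReal.ofReal ε ^ 2) * (activity ε * (c * η *
        (∑ P ∈ GIVStep383.trees K, (c1 * ∫⁻ q : Space3 × Par P,
          domG (C' P) (b / 2) T' P q.1 q.2 * ENNReal.ofReal ((1 + ‖q.1‖) ^ 4))))) := by
        rw [← Finset.mul_sum, ← Finset.mul_sum]
        ring
    _ = _ := by
        rw [activity_mul_sq hε, one_mul]
        ring

/-! ### Births of the two lines near the gas -/

/-- The birth of the first line is `r`-close to the gas. -/
def gD (Φ : Space3 → ℝ) (ε r : ℝ) : GF := fun _m w θ => nearI Φ ε w θ.1.1.1.1 0 r θ.1.1.1.2.1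

/-- The birth of the second line is `r`-close to the gas. -/
def gE (Φ : Space3 → ℝ) (ε r : ℝ) : GF := fun _m w θ => nearI Φ ε w θ.2.1 0 r θ.2.2.1

theorem lintegral_near0_le (hΦ : AdmissiblePotential Φ) (hε : 0 < ε) {m : ℕ} {w : Config m}
    (hw : w ∈ PairExcluded ε m) {s r : ℝ} (hr : 0 < r) (y v : Space3) :
    ∫⁻ a : Space3, nearI Φ ε w s 0 r (y + a) ≤
      (8 * Sweep815.c3 * ENNReal.ofReal r ^ 3) * ENNReal.ofReal ((1 + ‖v‖) ^ 3) * Wt Φ w := by
  have h := lintegral_nearI_le hΦ hε hw (s := s) (a := 0) hr y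
  have e1 : ∀ a : Space3, y + a = a + y := fun a => add_comm _ _
  simp only [e1]
  refine h.trans ?_
  rw [ENNReal.ofReal_zero, mul_zero, add_zero]
  have h1 : (1 : ℝ≥0∞) ≤ ENNReal.ofReal ((1 + ‖v‖) ^ 3) := by
    rw [← ENNReal.ofReal_one]
    exact ENNReal.ofReal_le_ofReal (one_le_pow₀ (by linarith [norm_nonneg v]))
  calc 8 * Sweep815.c3 * ENNReal.ofReal r ^ 2 * ENNReal.ofReal r * Wt Φ w
      = 8 * Sweep815.c3 * ENNReal.ofReal r ^ 3 * 1 * Wt Φ w := by ring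
    _ ≤ _ := by gcongr

theorem tFun_gD (hΦ : AdmissiblePotential Φ) (hε : 0 < ε) (K : ℕ) {r : ℝ} (hr : 0 < r) :
    TFun Φ ε K (8 * Sweep815.c3 * ENNReal.ofReal r ^ 3) (gD Φ ε r) where
  meas m := (measurable_nearI hΦ hε 0 m).comp
    (f := fun q : Config m × (Lab × LSt) => (q.1, (q.2.1.1.1.1, (r, q.2.1.1.1.2.1))))
    (by fun_prop)
  le _m _w hw θ _ := lintegral_near0_le hΦ hε hw hr θ.1.1.1.2.1 θ.2.2.2

theorem tFun_gE (hΦ : AdmissiblePotential Φ) (hε : 0 < ε) (K : ℕ) {r : ℝ} (hr : 0 < r) :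
    TFun Φ ε K (8 * Sweep815.c3 * ENNReal.ofReal r ^ 3) (gE Φ ε r) where
  meas m := (measurable_nearI hΦ hε 0 m).comp
    (f := fun q : Config m × (Lab × LSt) => (q.1, (q.2.2.1, (r, q.2.2.2.1))))
    (by fun_prop)
  le _m _w hw θ _ := lintegral_near0_le hΦ hε hw hr θ.2.2.1 θ.2.2.2

/-! ### The null bound -/

open scoped Classical in
/-- Pointwise bound. -/
theorem bW6_le (hΦ : AdmissiblePotential Φ) (hε : 0 < ε) {te : ℝ} {K : ℕ} {P : CTree}
    {z : PhasePoint × Par P} {m : ℕ} {w : Config m} {θ : Lab × LSt}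
    (hct : (z, θ.2) ∈ ctSet Φ ε te P) (R : ℝ) :
    (if OkL K θ ∧ P.leaves ≤ K ∧ BW6 Φ ε P z w θ then (1 : ℝ≥0∞) else 0) ≤
      sfG K (gD Φ ε ε) P z m w θ + (sfG K (gE Φ ε ε) P z m w θ +
        (sf2Of ε K (thirdG Φ ε ((R + 2) * ε)) P z m w θ + sf2Of ε K (longG Φ R) P z m w θ)) := by
  by_cases h : OkL K θ ∧ P.leaves ≤ K ∧ BW6 Φ ε P z w θ
  swap
  · rw [if_neg h]
    exact zero_le
  rw [if_pos h]
  obtain ⟨hok, hK, hB⟩ := h
  rcases hB with ⟨i, hd⟩ | ⟨i, hd⟩ | hB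
  · have h1 : Near Φ ε w θ.1.1.1.1 0 ε θ.1.1.1.2.1 :=
      ⟨i, θ.1.1.1.1, ⟨by simp, by simp⟩, hd⟩
    have h2 : sfG K (gD Φ ε ε) P z m w θ = 1 := by
      unfold sfG gD
      rw [if_pos ⟨hok, hK⟩, nearI_of h1]
    rw [h2]
    exact le_self_add
  · have h1 : Near Φ ε w θ.2.1 0 ε θ.2.2.1 := ⟨i, θ.2.1, ⟨by simp, by simp⟩, hd⟩
    have h2 : sfG K (gE Φ ε ε) P z m w θ = 1 := by
      unfold sfG gE
      rw [if_pos ⟨hok, hK⟩, nearI_of h1]
    rw [h2]
    exact le_add_left le_self_add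
  · by_cases hl : longI Φ R (cD ε z (eL θ)) = 0
    · have h1 := near_of_bOut hΦ hε hct hB (longI_eq_zero.1 hl).1
      have h2 : sf2Of ε K (thirdG Φ ε ((R + 2) * ε)) P z m w θ = 1 := by
        unfold sf2Of thirdG
        rw [if_pos ⟨hok, hK⟩]
        exact nearI_of h1
      rw [h2]
      exact le_add_left (le_add_left le_self_add)
    · have h2 : sf2Of ε K (longG Φ R) P z m w θ = 1 := by
        unfold sf2Of longG
        rw [if_pos ⟨hok, hK⟩]
        have h3 : longI Φ R (cD ε z (eL θ)) = 1 := by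
          unfold longI at hl ⊢
          split_ifs at hl ⊢ with h4
          · exact absurd rfl hl
          · rfl
        exact h3
      rw [h2]
      exact le_add_left (le_add_left le_add_self)

/-- Upper bounds, cut-off `n`. -/
def bnd (Φ : Space3 → ℝ) (b : ℝ) (D₁ D₂ D₃ : ℝ≥0∞) (n : ℕ) (ε : ℝ) : ℝ≥0∞ :=
  (2 * D₁ * (8 * Sweep815.c3) + D₂ * ENNReal.ofReal ((n : ℝ) + 2) ^ 3) * ENNReal.ofReal ε +
    D₃ * lamR Φ (b / 2) n

theorem tendsto_bnd (hΦ : AdmissiblePotential Φ) {b : ℝ} (hb : 0 < b) {D₁ D₂ D₃ : ℝ≥0∞}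
    (h1 : D₁ ≠ ∞) (h2 : D₂ ≠ ∞) (h3 : D₃ ≠ ∞) :
    Tendsto (fun ε : ℝ => ENNReal.ofReal ε + ⨅ n : ℕ, bnd Φ b D₁ D₂ D₃ n ε) (𝓝[>] 0) (𝓝 0) := by
  have he : Tendsto (fun ε : ℝ => ENNReal.ofReal ε) (𝓝[>] 0) (𝓝 0) := by
    have h := ENNReal.tendsto_ofReal (f := 𝓝[>] (0 : ℝ)) (m := fun ε : ℝ => ε)
      (tendsto_nhdsWithin_of_tendsto_nhds tendsto_id)
    rwa [ENNReal.ofReal_zero] at h
  have hc3 : Sweep815.c3 ≠ ∞ := ENNReal.ofReal_ne_top
  have hlam : Tendsto (fun n : ℕ => D₃ * lamR Φ (b / 2) n) atTop (𝓝 0) := by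
    have h := ENNReal.Tendsto.const_mul (a := D₃)
      ((tendsto_lamR hΦ (half_pos hb)).comp tendsto_natCast_atTop_atTop) (Or.inr h3)
    simpa using h
  have hA : ∀ n : ℕ, Tendsto (fun ε : ℝ => ENNReal.ofReal ε + (2 * D₁ * (8 * Sweep815.c3) +
      D₂ * ENNReal.ofReal ((n : ℝ) + 2) ^ 3) * ENNReal.ofReal ε) (𝓝[>] 0) (𝓝 0) := by
    intro n
    have hAt : 2 * D₁ * (8 * Sweep815.c3) + D₂ * ENNReal.ofReal ((n : ℝ) + 2) ^ 3 ≠ ∞ :=
      ENNReal.add_ne_top.2 ⟨ENNReal.mul_ne_top (ENNReal.mul_ne_top (by norm_num) h1)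
        (ENNReal.mul_ne_top (by norm_num) hc3), ENNReal.mul_ne_top h2
          (ENNReal.pow_ne_top ENNReal.ofReal_ne_top)⟩
    have h := he.add (ENNReal.Tendsto.const_mul he (Or.inr hAt))
    simpa using h
  rw [ENNReal.tendsto_nhds_zero]
  intro δ hδ
  have hδ2 : 0 < δ / 2 := ENNReal.half_pos hδ.ne'
  obtain ⟨n, hn⟩ := ((ENNReal.tendsto_nhds_zero.1 hlam) (δ / 2) hδ2).exists
  filter_upwards [(ENNReal.tendsto_nhds_zero.1 (hA n)) (δ / 2) hδ2] with ε hε
  calc ENNReal.ofReal ε + ⨅ n : ℕ, bnd Φ b D₁ D₂ D₃ n ε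
      ≤ ENNReal.ofReal ε + bnd Φ b D₁ D₂ D₃ n ε := add_le_add le_rfl (iInf_le _ n)
    _ = (ENNReal.ofReal ε + (2 * D₁ * (8 * Sweep815.c3) +
      D₂ * ENNReal.ofReal ((n : ℝ) + 2) ^ 3) * ENNReal.ofReal ε) + D₃ * lamR Φ (b / 2) n := by
        unfold bnd
        rw [add_assoc]
    _ ≤ δ / 2 + δ / 2 := add_le_add hε hn
    _ = δ := ENNReal.add_halves δ

theorem activity_mul_cube (hε : 0 < ε) {a : ℝ} (ha : 0 ≤ a) :
    activity ε * ENNReal.ofReal (a * ε) ^ 3 = ENNReal.ofReal a ^ 3 * ENNReal.ofReal ε := by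
  rw [ENNReal.ofReal_mul ha]
  calc activity ε * (ENNReal.ofReal a * ENNReal.ofReal ε) ^ 3
      = (activity ε * ENNReal.ofReal ε ^ 2) * (ENNReal.ofReal a ^ 3 * ENNReal.ofReal ε) := by ring
    _ = _ := by rw [activity_mul_sq hε, one_mul]

open scoped Classical in
/-- **Births near the gas are null**, uniformly over the laws `PX` (`c = ∞` included). -/
theorem bW6_OS2_le (hΦ : AdmissiblePotential Φ) {A : Space3 → ℝ≥0∞} {C b g0 : ℝ}
    (hF : FOk f₀ A C b) {Q : EPar} (hQ : QOk Q g0) {PP : ℕ → PPar} (hP : PPOk Q PP)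
    {Cv : ℝ≥0∞} (hV : Vel4 Q PP Cv) (T' : ℝ) :
    ∃ δ : ℕ → ℝ → ℝ≥0∞, (∀ K, Tendsto (δ K) (𝓝[>] 0) (𝓝 0)) ∧ ∀ (K : ℕ) (ε : ℝ), 0 < ε →
      ∀ (Ξ ν : Measure (Lab × LSt)) (c : ℝ≥0∞), PX (PP K) Ξ ν c → ∀ H : SF2,
      (∀ P z m w θ, (z, θ.2) ∈ ctSet Φ ε Q.te P →
        H P z m w θ ≤ if OkL K θ ∧ P.leaves ≤ K ∧ BW6 Φ ε P z w θ then 1 else 0) →
      OS2 Φ f₀ ε Q.te T' ν H ≤ c * δ K ε := by
  choose D₁ hD₁ hle₁ using fun K : ℕ => OS2_trans_le hΦ hF hQ hP hV K T'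
  choose D₂ hD₂ hle₂ using fun K : ℕ => third_OS2_le hΦ hF hQ hP hV K T'
  choose D₃ hD₃ hle₃ using fun K : ℕ => long_OS2_le hΦ hF hQ hP hV K T'
  refine ⟨fun K ε => ENNReal.ofReal ε + ⨅ n : ℕ, bnd Φ b (D₁ K) (D₂ K) (D₃ K) n ε,
    fun K => tendsto_bnd hΦ hF.b_pos (hD₁ K) (hD₂ K) (hD₃ K), ?_⟩
  intro K ε hε Ξ ν c hPX H hH
  have hε0 : ENNReal.ofReal ε ≠ 0 := (ENNReal.ofReal_pos.2 hε).ne'
  rcases eq_or_ne c ∞ with rfl | hcν
  · rw [ENNReal.top_mul (by
      intro h0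
      exact hε0 (by simpa using (add_eq_zero.1 h0).1))]
    exact le_top
  have := hPX.sfν
  have hη : (8 * Sweep815.c3 * ENNReal.ofReal ε ^ 3 : ℝ≥0∞) ≠ ∞ :=
    ENNReal.mul_ne_top (ENNReal.mul_ne_top (by norm_num) ENNReal.ofReal_ne_top)
      (ENNReal.pow_ne_top ENNReal.ofReal_ne_top)
  have hn : ∀ n : ℕ, OS2 Φ f₀ ε Q.te T' ν H ≤ c * bnd Φ b (D₁ K) (D₂ K) (D₃ K) n ε := by
    intro n
    have h1 := hle₁ K ε hε Ξ ν c hcν hPX (gD Φ ε ε) _ hη (tFun_gD hΦ hε K hε)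
      (sfG K (gD Φ ε ε)) fun _ _ _ _ _ _ => le_rfl
    have h2 := hle₁ K ε hε Ξ ν c hcν hPX (gE Φ ε ε) _ hη (tFun_gE hΦ hε K hε)
      (sfG K (gE Φ ε ε)) fun _ _ _ _ _ _ => le_rfl
    have h3 := hle₂ K ε hε (((n : ℝ) + 2) * ε) (by positivity) Ξ ν c hcν hPX
      (sf2Of ε K (thirdG Φ ε (((n : ℝ) + 2) * ε))) fun _ _ _ _ _ _ => le_rfl
    have h4 := hle₃ K ε hε n Ξ ν c hcν hPX
      (sf2Of ε K (longG Φ n)) fun _ _ _ _ _ _ => le_rfl
    have m1 := OS2Calc495.MeasSF2.measV (ε := ε) (T' := T') hΦ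
      (measSF2_sfG K (tFun_gD hΦ hε K hε).meas)
    have m2 := OS2Calc495.MeasSF2.measV (ε := ε) (T' := T') hΦ
      (measSF2_sfG K (tFun_gE hΦ hε K hε).meas)
    have m3 := OS2Calc495.MeasSF2.measV (ε := ε) (T' := T') hΦ
      (measSF2_sf2Of ε K (measCF_thirdG hΦ hε (((n : ℝ) + 2) * ε)))
    have h5 : OS2 Φ f₀ ε Q.te T' ν H ≤ OS2 Φ f₀ ε Q.te T' ν (fun P z m w θ =>
        sfG K (gD Φ ε ε) P z m w θ + (sfG K (gE Φ ε ε) P z m w θ +
          (sf2Of ε K (thirdG Φ ε (((n : ℝ) + 2) * ε)) P z m w θ +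
            sf2Of ε K (longG Φ n) P z m w θ))) :=
      OS2Calc495.OS2_mono_on fun P z m w θ _ _ hct =>
        (hH P z m w θ hct).trans (bW6_le hΦ hε hct n)
    refine h5.trans ?_
    rw [OS2Calc495.OS2_add hΦ hF.meas m1, OS2Calc495.OS2_add hΦ hF.meas m2,
      OS2Calc495.OS2_add hΦ hF.meas m3]
    refine (add_le_add h1 (add_le_add h2 (add_le_add h3 h4))).trans (le_of_eq ?_)
    have e1 := activity_mul_cube hε (a := 1) zero_le_one
    rw [one_mul, ENNReal.ofReal_one, one_pow, one_mul] at e1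
    have e2 := activity_mul_cube hε (a := (n : ℝ) + 2) (by positivity)
    have e3 : activity ε * (8 * Sweep815.c3 * ENNReal.ofReal ε ^ 3) =
        8 * Sweep815.c3 * ENNReal.ofReal ε := by
      calc activity ε * (8 * Sweep815.c3 * ENNReal.ofReal ε ^ 3)
          = 8 * Sweep815.c3 * (activity ε * ENNReal.ofReal ε ^ 3) := by ring
        _ = _ := by rw [e1]
    rw [e3, e2]
    unfold bnd
    ring
  refine le_trans ?_ (mul_le_mul' le_rfl le_add_self)
  rcases eq_or_ne c 0 with rfl | hc0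
  · have h0 := hn 0
    rw [zero_mul] at h0
    exact h0.trans zero_le
  · rw [ENNReal.mul_iInf_of_ne hc0 hcν]
    exact le_iInf hn

theorem exists_vel4 {Q : EPar} {PP : ℕ → PPar} (hP : PPOk Q PP) : ∃ Cv : ℝ≥0∞, Vel4 Q PP Cv := by
  obtain ⟨Cv, h1, h2⟩ := hP.vel4
  exact ⟨Cv, h1, h2⟩

open scoped Classical in
/-- **Births near the gas are null**, uniformly over the laws `PX`. -/
theorem bW6_null (hΦ : AdmissiblePotential Φ) {A : Space3 → ℝ≥0∞} {C b g0 : ℝ}
    (hF : FOk f₀ A C b) {Q : EPar} (hQ : QOk Q g0) {PP : ℕ → PPar} (hP : PPOk Q PP) (T' : ℝ) :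
    ∃ δ : ℕ → ℝ → ℝ≥0∞, Null δ ∧ ∀ (K : ℕ) (ε : ℝ), 0 < ε →
      ∀ (Ξ ν : Measure (Lab × LSt)) (c : ℝ≥0∞), PX (PP K) Ξ ν c → ∀ H : SF2,
      (∀ P z m w θ, (z, θ.2) ∈ ctSet Φ ε Q.te P →
        H P z m w θ ≤ if OkL K θ ∧ P.leaves ≤ K ∧ BW6 Φ ε P z w θ then 1 else 0) →
      OS2 Φ f₀ ε Q.te T' ν H ≤ c * δ K ε := by
  obtain ⟨Cv, hV⟩ := exists_vel4 hP
  obtain ⟨δ, h1, h2⟩ := bW6_OS2_le hΦ hF hQ hP hV T'
  exact ⟨δ, null_iff_tendsto.2 h1, h2⟩

end Crest.Agent.R122.BirthOut664
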