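import Crest.Agent.R122.SepNull_302
import Crest.Agent.R122.GCBounds_311

/-!
# Overlap of the gas with a tree is null (row 122), helper302

* `inWindow_pos`, `lines_excl` : the leaves of a valid separated tree do not overlap at time `0`.
* `exists_wQ_mass` : energy weighted mass of one tree, uniform in `ε`.
* `exclNull` : some gas particle overlaps a leaf at time `0` : null, energy weight.
* `TNull.of_excl`, `TNull2.of_excl` : null statements need only be proved for non-overlapping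
  trees and gases.
-/

set_option autoImplicit false

open MeasureTheory Set Filter Topology
open scoped ENNReal
open Crest.AnalysisR.Kinetic
open Crest.Agent.R122.Flow671 Crest.Agent.R122.Loc45 Crest.Agent.R122.Causal291
open Crest.Agent.R122.Inf879 Crest.Agent.R122.GC311 Crest.Agent.R122.EDefs602
open Crest.Agent.R122.Kin796 Crest.Agent.R122.Kin796.CTree Crest.Agent.R122.Tree674
open Crest.Agent.R122.InEq2 Crest.Agent.R122.TreeLines335 Crest.Agent.R122.TreeDom974
open Crest.Agent.R122.TreeLim974 Crest.Agent.R122.TreeLimX974 Crest.Agent.R122.TreeEps399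
open Crest.Agent.R122.RtG302 Crest.Agent.R122.Small302 Crest.Agent.R122.ToTree335

noncomputable section

open scoped Classical

namespace Crest.Agent.R122.Excl302

variable {Φ : Space3 → ℝ} {f₀ : PhasePoint → ℝ} {ε T' : ℝ} {K : ℕ}

/-! ### The leaves -/

theorem inWindow_pos : ∀ (P : CTree) {T : ℝ} {v : Space3} {p : Par P} {i j : Idx P} {u : ℝ},
    Ord Φ ε P T v p → InWindow Φ ε P v p i j u → 0 < u
  | leaf, _, _, _, _, _, _, _, h => h.elim
  | node l r, T, v, p, i, j, u, ho, h => by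
      rcases h with ⟨-, -, h1, -⟩ | ⟨i', j', -, -, h1⟩ | ⟨i', j', -, -, h1⟩
      · exact ho.2.1.trans_le h1
      · exact inWindow_pos l ho.2.2.1 h1
      · exact inWindow_pos r ho.2.2.2 h1

/-- The leaves do not overlap at time `0`. -/
theorem lines_excl {P : CTree} {ℓ : PhasePoint} {p : Par P} (hT : 0 ≤ T')
    (hV : Valid Φ ε P T' ℓ.2 p) (hS : Sep Φ ε P T' ℓ p) {i j : Idx P} (hij : i ≠ j) :
    ε < dist (lines Φ ε P ℓ p i).1 (lines Φ ε P ℓ p j).1 := by
  have h := hS i j hij 0 ⟨le_rfl, hT⟩ (fun h => lt_irrefl _ (inWindow_pos P hV.2 h))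
    (fun h => lt_irrefl _ (inWindow_pos P hV.2 h))
  rwa [PathFlow968.path_zero P T' ℓ p hV.2] at h

/-! ### Mass -/

/-- Energy weighted mass of one tree, uniform in `ε`. -/
theorem exists_wQ_mass (hΦ : AdmissiblePotential Φ) {γ : ℝ} (hγ : 0 < γ) (hf : Continuous f₀)
    (H : HasSummableGaussianBound γ (fun x v => f₀ (x, v))) (P : CTree) (T : ℝ) :
    ∃ M : ℝ≥0∞, M ≠ ∞ ∧ ∀ ε : ℝ, 0 < ε →
      ∫⁻ z : PhasePoint × Par P, {z : PhasePoint × Par P | Valid Φ ε P T z.1.2 z.2}.indicator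
        (fun z => wt Φ P z.1.2 z.2 * (wQ Φ ε P z * pf Φ f₀ ε P z)) z ≤ M := by
  obtain ⟨m, C, hkb⟩ := exists_kb (κ := γ / 2) (half_lt_self hγ) H
  have hk : Measurable (kE f₀ (γ / 2)) := (continuous_kE hf _).measurable
  obtain ⟨C', hC', hdom⟩ := lintegral_gX_le hΦ hkb P T
  refine ⟨ENNReal.ofReal (Fintype.card (Idx P) + 1 / (γ / 2)) *
    ∫⁻ q : Space3 × Par P, domG C' ((γ - γ / 2) / 2) T P q.1 q.2 * ∫⁻ x, m x, ?_,
      fun ε hε => ?_⟩
  · refine ENNReal.mul_ne_top ENNReal.ofReal_ne_top ?_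
    rw [lintegral_mul_const _ (measurable_domG hC' _ T P)]
    exact ENNReal.mul_ne_top (lintegral_domG_ne_top hC' (half_pos hkb.b0) T P) hkb.fin
  set B : Set (PhasePoint × Par P) := {z : PhasePoint × Par P | Valid Φ ε P T z.1.2 z.2} with hB
  have hBm : MeasurableSet B := measurableSet_valid hΦ ε P T
  have hm : Measurable (B.indicator (tA Φ (kE f₀ (γ / 2)) ε P)) := by
    have h1 := measurable_ind_tA hΦ hk ε P (S := B) (fun z hz => hz.1)
      (G := fun _ => 1) (measurable_const.indicator hBm)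
    simpa using h1
  have h1 : ∫⁻ z, B.indicator (fun z => wt Φ P z.1.2 z.2 * (wQ Φ ε P z * pf Φ f₀ ε P z)) z ≤
      ENNReal.ofReal (Fintype.card (Idx P) + 1 / (γ / 2)) *
        ∫⁻ z, B.indicator (tA Φ (kE f₀ (γ / 2)) ε P) z := by
    rw [← lintegral_const_mul' _ _ ENNReal.ofReal_ne_top]
    refine lintegral_mono fun z => ?_
    by_cases hz : z ∈ B
    · rw [indicator_of_mem hz, indicator_of_mem hz]
      unfold tA
      calc wt Φ P z.1.2 z.2 * (wQ Φ ε P z * pf Φ f₀ ε P z)
          ≤ wt Φ P z.1.2 z.2 * (ENNReal.ofReal (Fintype.card (Idx P) + 1 / (γ / 2)) *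
            ∏ i, kE f₀ (γ / 2) (lines Φ ε P z.1 z.2 i)) :=
            mul_le_mul_right (wQ_mul_pf_le (half_pos hγ) ε hz.1) _
        _ = _ := by ring
    · rw [indicator_of_notMem hz, indicator_of_notMem hz, mul_zero]
  refine h1.trans (mul_le_mul_right ?_ _)
  rw [lintegral_split P hm]
  refine lintegral_mono fun q => ?_
  by_cases hV : Valid Φ ε P T q.1 q.2
  · exact (lintegral_mono fun x => indicator_le_self _ _ _).trans (hdom ε hε.le q hV)
  · have : ∀ x : Space3, B.indicator (tA Φ (kE f₀ (γ / 2)) ε P) ((x, q.1), q.2) = 0 := fun x =>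
      indicator_of_notMem (fun h : ((x, q.1), q.2) ∈ B => hV h) _
    simp only [this, lintegral_zero]
    exact bot_le

/-! ### Overlap with the gas -/

/-- Number of overlaps, at most `K` leaves. -/
def oG (Φ : Space3 → ℝ) (ε : ℝ) (K : ℕ) (P : CTree) (z : PhasePoint × Par P) (m : ℕ)
    (w : Config m) : ℝ≥0∞ :=
  if P.leaves ≤ K then ∑ i : Idx P, ∑ q : Fin m,
    (if dist (linesM Φ ε P z.1 z.2 i).1 (w q).1 ≤ ε then 1 else 0) else 0

theorem measTS_oG (hΦ : AdmissiblePotential Φ) (ε : ℝ) (K : ℕ) : MeasTS (oG Φ ε K) := by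
  intro P m
  unfold oG
  by_cases hP : P.leaves ≤ K
  · simp only [hP, if_true]
    refine Finset.measurable_sum _ fun i _ => Finset.measurable_sum _ fun q _ => ?_
    refine Measurable.ite (measurableSet_le ?_ measurable_const) measurable_const measurable_const
    have h1 : Measurable fun r : (PhasePoint × Par P) × Config m =>
        (linesM Φ ε P r.1.1 r.1.2 i).1 :=
      (((measurable_pi_apply i).comp (measurable_linesM hΦ ε P)).comp measurable_fst).fst
    have h2 : Measurable fun r : (PhasePoint × Par P) × Config m => (r.2 q).1 :=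
      ((measurable_pi_apply q).comp measurable_snd).fst
    exact h1.dist h2
  · simp only [hP, if_false]
    exact measurable_const

/-- Expected number of overlaps. -/
theorem gcE_oG_le (hf : Measurable f₀) (h1 : ∫⁻ z, ENNReal.ofReal (f₀ z) ≤ 1) {R : ℝ≥0∞}
    (hR : ∀ x : Space3, ∫⁻ v : Space3, ENNReal.ofReal (f₀ (x, v)) ≤ R) (hε : 0 < ε) {P : CTree}
    (hP : P.leaves ≤ K) (z : PhasePoint × Par P) :
    gcE f₀ ε (fun m w => oG Φ ε K P z m w) ≤
      Fintype.card (Idx P) * (R * ENNReal.ofReal (4 / 3 * Real.pi * ε)) := by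
  have hm : ∀ x : Space3, Measurable fun y : PhasePoint =>
      (if dist x y.1 ≤ ε then (1 : ℝ≥0∞) else 0) := fun x =>
    Measurable.ite (measurableSet_le (measurable_const.dist measurable_fst) measurable_const)
      measurable_const measurable_const
  have h2 : (fun (m : ℕ) (w : Config m) => oG Φ ε K P z m w) = fun m w =>
      ∑ i : Idx P, ∑ q : Fin m,
        (if dist (linesM Φ ε P z.1 z.2 i).1 (w q).1 ≤ ε then (1 : ℝ≥0∞) else 0) := by
    funext m w
    unfold oG
    rw [if_pos hP]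
  have h3 : ∀ i ∈ (Finset.univ : Finset (Idx P)), ∀ n : ℕ, Measurable fun w : Config n =>
      ∑ q : Fin n, (if dist (linesM Φ ε P z.1 z.2 i).1 (w q).1 ≤ ε then (1 : ℝ≥0∞) else 0) :=
    fun i _ n => Finset.measurable_sum _ fun q _ =>
      (hm (linesM Φ ε P z.1 z.2 i).1).comp (measurable_pi_apply q)
  rw [h2, gcE_finset_sum hf ε Finset.univ h3]
  calc ∑ i : Idx P, gcE f₀ ε (fun m w => ∑ q : Fin m,
        (if dist (linesM Φ ε P z.1 z.2 i).1 (w q).1 ≤ ε then (1 : ℝ≥0∞) else 0))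
      ≤ ∑ _i : Idx P, R * ENNReal.ofReal (4 / 3 * Real.pi * ε) := by
        refine Finset.sum_le_sum fun i _ => ?_
        refine (gcE_sum_le hf h1 ε _ (hm _)).trans ?_
        exact activity_mul_ballMass_le hf hR hε _
    _ = _ := by rw [Finset.sum_const, Finset.card_univ, nsmul_eq_mul]

/-- The gas overlaps a leaf at time `0`. -/
def Ovl (Φ : Space3 → ℝ) : TEv := fun ε P z _ w =>
  ∃ i q, dist (lines Φ ε P z.1 z.2 i).1 (w q).1 ≤ ε

/-- **Overlaps are null.** -/
theorem exclNull (hΦ : AdmissiblePotential Φ) {γ : ℝ} (hγ : 0 < γ) (hf : Continuous f₀)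
    (H : HasSummableGaussianBound γ (fun x v => f₀ (x, v)))
    (h1 : ∫⁻ z, ENNReal.ofReal (f₀ z) ≤ 1) (T' : ℝ) (K : ℕ) : TNull Φ f₀ T' K (Ovl Φ) := by
  obtain ⟨R, hRt, hR⟩ := exists_position_density_bound (β := γ / 2) (half_pos hγ) (f₀ := f₀)
    (by rwa [mul_div_cancel₀ γ two_ne_zero])
  choose M hM hmass using fun P => exists_wQ_mass hΦ hγ hf H P T'
  set c : ℝ≥0∞ := ∑ P ∈ GIVStep383.trees K, M P * (Fintype.card (Idx P) * R) with hc
  have hct : c ≠ ∞ := ENNReal.sum_ne_top.2 fun P _ =>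
    ENNReal.mul_ne_top (hM P) (ENNReal.mul_ne_top (ENNReal.natCast_ne_top _) hRt)
  set c' : ℝ := c.toReal + 1 with hc'
  have hc0 : 0 < c' := by positivity
  have hcc : c ≤ ENNReal.ofReal c' := by
    rw [← ENNReal.ofReal_toReal hct]
    exact ENNReal.ofReal_le_ofReal (by rw [hc']; linarith)
  intro δ hδ
  refine ⟨δ / (c' * (4 / 3 * Real.pi)), by positivity, fun ε hε hlt =>
    ⟨oG Φ ε K, ⟨measTS_oG hΦ ε K, ?_⟩, ?_⟩⟩
  · rintro P z m w hP hV - - ⟨i, q, hiq⟩
    unfold oG
    rw [if_pos hP]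
    have h2 : (1 : ℝ≥0∞) ≤ (if dist (linesM Φ ε P z.1 z.2 i).1 (w q).1 ≤ ε then 1 else 0) := by
      rw [linesM_of_adm ε hV.1, if_pos hiq]
    refine h2.trans ?_
    refine (Finset.single_le_sum (f := fun q : Fin m =>
      (if dist (linesM Φ ε P z.1 z.2 i).1 (w q).1 ≤ ε then (1 : ℝ≥0∞) else 0))
      (fun _ _ => zero_le) (Finset.mem_univ q)).trans ?_
    exact Finset.single_le_sum (f := fun i : Idx P => ∑ q : Fin m,
      (if dist (linesM Φ ε P z.1 z.2 i).1 (w q).1 ≤ ε then (1 : ℝ≥0∞) else 0))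
      (fun _ _ => zero_le) (Finset.mem_univ i)
  · have h3 : TS Φ f₀ ε T' (fun P z m w => wQ Φ ε P z * oG Φ ε K P z m w) ≤
        c * ENNReal.ofReal (4 / 3 * Real.pi * ε) := by
      unfold InEq2.TS
      rw [tsum_eq_sum (s := GIVStep383.trees K)]
      · rw [hc, Finset.sum_mul]
        refine Finset.sum_le_sum fun P hP => ?_
        have hP' : P.leaves ≤ K := GIVStep383.mem_trees.1 hP
        calc _ ≤ ∫⁻ z : PhasePoint × Par P,
              {z : PhasePoint × Par P | Valid Φ ε P T' z.1.2 z.2}.indicator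
                (fun z => wt Φ P z.1.2 z.2 * (wQ Φ ε P z * pf Φ f₀ ε P z)) z *
                (Fintype.card (Idx P) * (R * ENNReal.ofReal (4 / 3 * Real.pi * ε))) := by
              refine lintegral_mono fun z => ?_
              by_cases hz : z ∈ {z : PhasePoint × Par P | Valid Φ ε P T' z.1.2 z.2}
              · rw [indicator_of_mem hz, indicator_of_mem hz, gcE_const_mul f₀ ε (wQ_ne_top z)]
                calc wt Φ P z.1.2 z.2 * (pf Φ f₀ ε P z *
                      (wQ Φ ε P z * gcE f₀ ε (fun m w => oG Φ ε K P z m w)))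
                    = wt Φ P z.1.2 z.2 * (wQ Φ ε P z * pf Φ f₀ ε P z) *
                      gcE f₀ ε (fun m w => oG Φ ε K P z m w) := by ring
                  _ ≤ _ := mul_le_mul_right (gcE_oG_le hf.measurable h1 hR hε hP' z) _
              · rw [indicator_of_notMem hz, indicator_of_notMem hz, zero_mul]
          _ ≤ _ := by
              rw [lintegral_mul_const']
              · refine (mul_le_mul_left (hmass P ε hε) _).trans (le_of_eq ?_)
                ring
              · exact ENNReal.mul_ne_top (ENNReal.natCast_ne_top _)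
                  (ENNReal.mul_ne_top hRt ENNReal.ofReal_ne_top)
      · intro P hP
        have hP' : ¬ P.leaves ≤ K := fun h => hP (GIVStep383.mem_trees.2 h)
        have h0 : ∀ z, (fun (m : ℕ) (w : Config m) => wQ Φ ε P z * oG Φ ε K P z m w) =
            fun _ _ => 0 := by
          intro z
          funext m w
          unfold oG
          rw [if_neg hP', mul_zero]
        simp only [h0, gcE_zero, mul_zero, indicator_zero, lintegral_zero]
    refine h3.trans ?_
    calc c * ENNReal.ofReal (4 / 3 * Real.pi * ε)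
        ≤ ENNReal.ofReal c' * ENNReal.ofReal (4 / 3 * Real.pi * ε) := mul_le_mul_left hcc _
      _ = ENNReal.ofReal (c' * (4 / 3 * Real.pi) * ε) := by
          rw [← ENNReal.ofReal_mul hc0.le]
          congr 1
          ring
      _ ≤ ENNReal.ofReal δ := by
          refine ENNReal.ofReal_le_ofReal ?_
          have h4 : 0 < c' * (4 / 3 * Real.pi) := by positivity
          rw [lt_div_iff₀ h4] at hlt
          linarith

/-- Exclusion of the leaves among themselves, of the gas, and of the leaves and the gas. -/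
def Exc (Φ : Space3 → ℝ) (ε : ℝ) (P : CTree) (z : PhasePoint × Par P) {m : ℕ} (w : Config m) :
    Prop :=
  (∀ i j, i ≠ j → ε < dist (lines Φ ε P z.1 z.2 i).1 (lines Φ ε P z.1 z.2 j).1) ∧
    w ∈ PairExcluded ε m ∧ ∀ i q, ε < dist (lines Φ ε P z.1 z.2 i).1 (w q).1

theorem exc_or_ovl {P : CTree} {z : PhasePoint × Par P} {m : ℕ} {w : Config m} (hT : 0 ≤ T')
    (hV : Valid Φ ε P T' z.1.2 z.2) (hS : Sep Φ ε P T' z.1 z.2) (hw : w ∈ PairExcluded ε m) :
    Exc Φ ε P z w ∨ Ovl Φ ε P z m w := by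
  by_cases h : Ovl Φ ε P z m w
  · exact Or.inr h
  · left
    refine ⟨fun i j hij => lines_excl hT hV hS hij, hw, fun i q => ?_⟩
    by_contra hc
    exact h ⟨i, q, not_lt.1 hc⟩

/-- It is enough to prove null statements under exclusion. -/
theorem tNull2_of_exc (hΦ : AdmissiblePotential Φ) {γ : ℝ} (hγ : 0 < γ) (hf : Continuous f₀)
    (H : HasSummableGaussianBound γ (fun x v => f₀ (x, v)))
    (h1 : ∫⁻ z, ENNReal.ofReal (f₀ z) ≤ 1) (hT : 0 ≤ T') {E E' : ℕ → TEv}
    (h : TNull2 Φ f₀ T' K E')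
    (hE : ∀ K' ε P z m w, 0 < ε → Valid Φ ε P T' z.1.2 z.2 → Sep Φ ε P T' z.1 z.2 →
      Exc Φ ε P z w → E K' ε P z m w → E' K' ε P z m w) : TNull2 Φ f₀ T' K E := by
  intro δ hδ
  obtain ⟨K₀, hK⟩ := (h.or hΦ hf.measurable (exclNull hΦ hγ hf H h1 T' K).to2) δ hδ
  refine ⟨K₀, fun K' hK' => ?_⟩
  obtain ⟨e, he, hK⟩ := hK K' hK'
  refine ⟨e, he, fun ε hε hlt => ?_⟩
  obtain ⟨G, hG, hm⟩ := hK ε hε hlt
  refine ⟨G, ⟨hG.meas, fun P z m w hP hV hS hw hev => hG.maj P z m w hP hV hS hw ?_⟩, hm⟩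
  rcases exc_or_ovl hT hV hS hw with h2 | h2
  · exact Or.inl (hE K' ε P z m w hε hV hS h2 hev)
  · exact Or.inr h2

/-- It is enough to prove null statements under exclusion. -/
theorem tNull_of_exc (hΦ : AdmissiblePotential Φ) {γ : ℝ} (hγ : 0 < γ) (hf : Continuous f₀)
    (H : HasSummableGaussianBound γ (fun x v => f₀ (x, v)))
    (h1 : ∫⁻ z, ENNReal.ofReal (f₀ z) ≤ 1) (hT : 0 ≤ T') {E E' : TEv}
    (h : TNull Φ f₀ T' K E')
    (hE : ∀ ε P z m w, 0 < ε → Valid Φ ε P T' z.1.2 z.2 → Sep Φ ε P T' z.1 z.2 →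
      Exc Φ ε P z w → E ε P z m w → E' ε P z m w) : TNull Φ f₀ T' K E := by
  have h2 := tNull2_of_exc hΦ hγ hf H h1 hT (E := fun _ => E) h.to2
    fun _ ε P z m w => hE ε P z m w
  intro δ hδ
  obtain ⟨K₀, hK⟩ := h2 δ hδ
  exact hK K₀ le_rfl

end Crest.Agent.R122.Excl302
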