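import Mathlib
import Crest.Agent.R122.Causal_291

/-!
# A closed active family is replaced by its exit lines (row 122, block A9), relational part

`C` is the contact relation of a world, `D` a family of particles and `σ : ι → ℝ` the exit times.
Hypothesis `Closed`: a particle of `D` has, up to (and including) its exit time, contacts only with
particles of `D` which have not exited before. In the new world the particles of `D` are lines which
are born at their exit times; its contact relation `C'` is sandwiched between the contacts of `C`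
between particles which are strictly visible and those between visible particles (so any convention
for the contacts at the birth times is allowed).

* `past_iff`: the exploration in the real world in terms of the exploration in the world with lines
  and of the own pasts `Past C (σ j) j`.
* `bc_eq`: backward clusters.
* `size_le`, `size_eq`: marked sizes.
-/

set_option autoImplicit false

open Set

namespace Crest.Agent.R122.Lines255

open Crest.Agent.R122.Causal291

variable {ι : Type*}

/-- The family `D` with exit times `σ` is closed under contacts. -/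
def Closed (C : ℝ → ι → ι → Prop) (D : Set ι) (σ : ι → ℝ) : Prop :=
  ∀ s j k, j ∈ D → s ≤ σ j → C s j k → k ∈ D ∧ s ≤ σ k

/-- `C'` is the contact relation of the world in which the particles of `D` are born at the times
`σ` (the contacts at the birth times may or may not be counted). -/
structure Lines (C C' : ℝ → ι → ι → Prop) (D : Set ι) (σ : ι → ℝ) : Prop where
  of_strict : ∀ s j k, C s j k → (j ∈ D → σ j < s) → (k ∈ D → σ k < s) → C' s j k
  sub : ∀ s j k, C' s j k → C s j k
  left : ∀ s j k, C' s j k → j ∈ D → σ j ≤ s
  right : ∀ s j k, C' s j k → k ∈ D → σ k ≤ s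

variable {C C' : ℝ → ι → ι → Prop} {D : Set ι} {σ : ι → ℝ} {t : ℝ} {i : ι}

/-- The own past of a particle of `D` stays in `D`. -/
theorem own_past (hA : Closed C D σ) {j : ι} (hj : j ∈ D) {s s₀ : ℝ} {k : ι} (hs₀ : s₀ ≤ σ j)
    (h : Past C s₀ j s k) : k ∈ D ∧ s ≤ σ k := by
  induction h with
  | root h => exact ⟨hj, h.trans hs₀⟩
  | @step s s' j' k _ hc hs ih =>
    obtain ⟨h1, h2⟩ := hA s' j' k ih.1 ih.2 hc
    exact ⟨h1, hs.trans h2⟩

/-- A line which is reached is reached at its birth time. -/
theorem past_birth (hL : Lines C C' D σ) (hi : i ∈ D → σ i ≤ t) {s : ℝ} {k : ι}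
    (h : Past C' t i s k) (hk : k ∈ D) : Past C' t i (max s (σ k)) k := by
  cases h with
  | root h => exact .root (max_le h (hi hk))
  | @step _ s' j' _ h hc hs => exact .step h hc (max_le hs (hL.right _ _ _ hc hk))

/-- **Explorations in the real world and in the world with lines.** -/
theorem past_iff (hA : Closed C D σ) (hsymm : ∀ s j k, C s j k → C s k j) (hL : Lines C C' D σ)
    (hi : i ∈ D → σ i ≤ t) {s : ℝ} {k : ι} :
    Past C t i s k ↔ (Past C' t i s k ∧ (k ∈ D → σ k ≤ s)) ∨
      ∃ j ∈ D, Past C' t i (σ j) j ∧ Past C (σ j) j s k := by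
  constructor
  · intro h
    induction h with
    | @root s h =>
      by_cases hD : i ∈ D
      · rcases le_or_gt (σ i) s with h1 | h1
        · exact Or.inl ⟨.root h, fun _ => h1⟩
        · exact Or.inr ⟨i, hD, .root (hi hD), .root h1.le⟩
      · exact Or.inl ⟨.root h, fun h' => absurd h' hD⟩
    | @step s s' j' k _ hc hs ih =>
      rcases ih with ⟨h1, h2⟩ | ⟨j, hj, h1, h2⟩
      · -- the previous particle is visible
        by_cases hk : k ∈ D
        · rcases lt_or_ge (σ k) s' with h3 | h3
          · -- the new particle is strictly visible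
            have h4 : j' ∈ D → σ j' < s' := by
              intro hj'
              refine lt_of_le_of_ne (h2 hj') fun he => ?_
              have := (hA s' j' k hj' he.ge hc).2
              exact absurd h3 (not_lt.2 this)
            have h5 : C' s' j' k := hL.of_strict _ _ _ hc h4 fun _ => h3
            rcases le_or_gt (σ k) s with h6 | h6
            · exact Or.inl ⟨.step h1 h5 hs, fun _ => h6⟩
            · exact Or.inr ⟨k, hk, .step h1 h5 h3.le, .root h6.le⟩
          · -- the new particle is hidden
            obtain ⟨h4, h5⟩ := hA s' k j' hk h3 (hsymm _ _ _ hc)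
            have h6 : s' = σ j' := le_antisymm h5 (h2 h4)
            subst h6
            exact Or.inr ⟨j', h4, h1, .step (.root le_rfl) hc hs⟩
        · have h4 : j' ∈ D → σ j' < s' := by
            intro hj'
            refine lt_of_le_of_ne (h2 hj') fun he => ?_
            exact hk (hA s' j' k hj' he.ge hc).1
          exact Or.inl ⟨.step h1 (hL.of_strict _ _ _ hc h4 fun h => absurd h hk) hs,
            fun h => absurd h hk⟩
      · exact Or.inr ⟨j, hj, h1, .step h2 hc hs⟩
  · rintro (⟨h, -⟩ | ⟨j, -, h1, h2⟩)
    · exact h.mono_rel hL.sub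
    · exact (h1.mono_rel hL.sub).trans h2

/-- The lines which are reached. -/
theorem past_line_iff (hL : Lines C C' D σ) (hi : i ∈ D → σ i ≤ t) {s : ℝ} {k : ι} (hk : k ∈ D)
    (hs : s ≤ σ k) : Past C' t i s k ↔ Past C' t i (σ k) k := by
  constructor
  · intro h
    have := past_birth hL hi h hk
    rwa [max_eq_right hs] at this
  · intro h
    exact h.mono hs

/-- **Backward clusters.** -/
theorem bc_eq (hA : Closed C D σ) (hsymm : ∀ s j k, C s j k → C s k j) (hL : Lines C C' D σ)
    (hi : i ∈ D → σ i ≤ t) (hσ : ∀ j ∈ D, 0 ≤ σ j) :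
    BC C t i = (BC C' t i \ D) ∪ ⋃ j ∈ BC C' t i ∩ D, BC C (σ j) j := by
  ext k
  simp only [mem_BC, mem_union, Set.mem_sdiff, mem_iUnion, mem_inter_iff, exists_prop]
  rw [past_iff hA hsymm hL hi]
  constructor
  · rintro (⟨h1, h2⟩ | ⟨j, hj, h1, h2⟩)
    · by_cases hk : k ∈ D
      · exact Or.inr ⟨k, ⟨h1, hk⟩, .root (hσ k hk)⟩
      · exact Or.inl ⟨h1, hk⟩
    · exact Or.inr ⟨j, ⟨(past_line_iff hL hi hj (hσ j hj)).2 h1, hj⟩, h2⟩
  · rintro (⟨h1, h2⟩ | ⟨j, ⟨h1, hj⟩, h2⟩)
    · exact Or.inl ⟨h1, fun h => absurd h h2⟩
    · exact Or.inr ⟨j, hj, (past_line_iff hL hi hj (hσ j hj)).1 h1, h2⟩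

end Crest.Agent.R122.Lines255
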