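import Mathlib
import Crest.Agent.R122.Lines1_255
import Crest.Agent.R122.InfRule_879

/-!
# Exit lines: marked sizes (row 122, block A9)
-/

set_option autoImplicit false

open Set

namespace Crest.Agent.R122.Lines255

open Crest.Agent.R122.Causal291 Crest.Agent.R122.Inf879

variable {ι : Type*} [Fintype ι]
variable {C C' : ℝ → ι → ι → Prop} {D : Set ι} {σ : ι → ℝ} {t : ℝ} {i : ι} {m : ι → ℕ}

theorem sum_biUnion_le {α β : Type*} [DecidableEq β] (s : Finset α) (f : α → Finset β)
    (m : β → ℕ) : ∑ k ∈ s.biUnion f, m k ≤ ∑ j ∈ s, ∑ k ∈ f j, m k := by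
  classical
  induction s using Finset.induction_on with
  | empty => simp
  | @insert a s ha ih =>
    rw [Finset.biUnion_insert, Finset.sum_insert ha]
    have h1 : ∑ k ∈ f a ∪ s.biUnion f, m k + ∑ k ∈ f a ∩ s.biUnion f, m k =
        ∑ k ∈ f a, m k + ∑ k ∈ s.biUnion f, m k := Finset.sum_union_inter
    omega

open scoped Classical in
/-- The marks in the world with lines: the mark of a line is the marked size of its own past. -/
noncomputable def lmark (C : ℝ → ι → ι → Prop) (m : ι → ℕ) (D : Set ι) (σ : ι → ℝ) (j : ι) : ℕ :=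
  if j ∈ D then msize C m (σ j) j else m j

theorem lmark_of_mem {j : ι} (h : j ∈ D) : lmark C m D σ j = msize C m (σ j) j := if_pos h

theorem lmark_of_not_mem {j : ι} (h : j ∉ D) : lmark C m D σ j = m j := if_neg h

open scoped Classical in
theorem bc_finset (hA : Closed C D σ) (hsymm : ∀ s j k, C s j k → C s k j) (hL : Lines C C' D σ)
    (hi : i ∈ D → σ i ≤ t) (hσ : ∀ j ∈ D, 0 ≤ σ j) :
    (Finset.univ.filter fun k => k ∈ BC C t i) =
      (Finset.univ.filter fun k => k ∈ BC C' t i ∧ k ∉ D) ∪
        (Finset.univ.filter fun j => j ∈ BC C' t i ∧ j ∈ D).biUnion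
          fun j => Finset.univ.filter fun k => k ∈ BC C (σ j) j := by
  ext k
  have := congrArg (fun S : Set ι => k ∈ S) (bc_eq hA hsymm hL hi hσ)
  simp only [eq_iff_iff, mem_union, Set.mem_sdiff, mem_iUnion, mem_inter_iff, exists_prop] at this
  simp only [Finset.mem_filter, Finset.mem_univ, true_and, Finset.mem_union, Finset.mem_biUnion]
  exact this

open scoped Classical in
theorem msize_split (hA : Closed C D σ) (hsymm : ∀ s j k, C s j k → C s k j)
    (hL : Lines C C' D σ) (hi : i ∈ D → σ i ≤ t) (hσ : ∀ j ∈ D, 0 ≤ σ j) :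
    msize C m t i = ∑ k ∈ Finset.univ.filter (fun k => k ∈ BC C' t i ∧ k ∉ D), m k +
      ∑ k ∈ (Finset.univ.filter fun j => j ∈ BC C' t i ∧ j ∈ D).biUnion
          fun j => Finset.univ.filter fun k => k ∈ BC C (σ j) j, m k := by
  rw [msize_eq_filter, bc_finset hA hsymm hL hi hσ, Finset.sum_union]
  rw [Finset.disjoint_left]
  intro k hk hk'
  simp only [Finset.mem_filter, Finset.mem_univ, true_and, Finset.mem_biUnion] at hk hk'
  obtain ⟨j, ⟨-, hj⟩, h⟩ := hk'
  exact hk.2 (own_past hA hj le_rfl h).1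

open scoped Classical in
theorem msize_lines_split : msize C' (lmark C m D σ) t i =
    ∑ k ∈ Finset.univ.filter (fun k => k ∈ BC C' t i ∧ k ∉ D), m k +
      ∑ j ∈ Finset.univ.filter (fun j => j ∈ BC C' t i ∧ j ∈ D),
        ∑ k ∈ Finset.univ.filter (fun k => k ∈ BC C (σ j) j), m k := by
  rw [msize_eq_filter]
  have h1 : (Finset.univ.filter fun k => k ∈ BC C' t i) =
      (Finset.univ.filter fun k => k ∈ BC C' t i ∧ k ∉ D) ∪
        (Finset.univ.filter fun j => j ∈ BC C' t i ∧ j ∈ D) := by
    ext k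
    simp only [Finset.mem_filter, Finset.mem_univ, true_and, Finset.mem_union]
    tauto
  rw [h1, Finset.sum_union]
  · congr 1
    · refine Finset.sum_congr rfl fun k hk => ?_
      exact lmark_of_not_mem (Finset.mem_filter.1 hk).2.2
    · refine Finset.sum_congr rfl fun k hk => ?_
      rw [lmark_of_mem (Finset.mem_filter.1 hk).2.2, msize_eq_filter]
  · rw [Finset.disjoint_left]
    intro k hk hk'
    exact (Finset.mem_filter.1 hk).2.2 (Finset.mem_filter.1 hk').2.2

/-- The marked size in the world with lines is at least the real one. -/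
theorem msize_le (hA : Closed C D σ) (hsymm : ∀ s j k, C s j k → C s k j)
    (hL : Lines C C' D σ) (hi : i ∈ D → σ i ≤ t) (hσ : ∀ j ∈ D, 0 ≤ σ j) :
    msize C m t i ≤ msize C' (lmark C m D σ) t i := by
  classical
  rw [msize_split hA hsymm hL hi hσ, msize_lines_split]
  refine Nat.add_le_add_left ?_ _
  exact sum_biUnion_le _ _ _

/-- The marked sizes are equal if the own pasts of the lines which are reached are disjoint. -/
theorem msize_eq (hA : Closed C D σ) (hsymm : ∀ s j k, C s j k → C s k j)
    (hL : Lines C C' D σ) (hi : i ∈ D → σ i ≤ t) (hσ : ∀ j ∈ D, 0 ≤ σ j)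
    (hdisj : ∀ j ∈ BC C' t i ∩ D, ∀ j' ∈ BC C' t i ∩ D, j ≠ j' →
      Disjoint (BC C (σ j) j) (BC C (σ j') j')) :
    msize C m t i = msize C' (lmark C m D σ) t i := by
  classical
  rw [msize_split hA hsymm hL hi hσ, msize_lines_split, Finset.sum_biUnion]
  intro j hj j' hj' hne
  have h1 := hdisj j (by simpa using hj) j' (by simpa using hj') hne
  rw [Function.onFun, Finset.disjoint_left]
  intro k hk hk'
  exact Set.disjoint_left.1 h1 (by simpa using hk) (by simpa using hk')

/-- The marked sizes are equal if at most one line is reached. -/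
theorem msize_eq_of_subsingleton (hA : Closed C D σ) (hsymm : ∀ s j k, C s j k → C s k j)
    (hL : Lines C C' D σ) (hi : i ∈ D → σ i ≤ t) (hσ : ∀ j ∈ D, 0 ≤ σ j)
    (h1 : (BC C' t i ∩ D).Subsingleton) :
    msize C m t i = msize C' (lmark C m D σ) t i :=
  msize_eq hA hsymm hL hi hσ fun _ hj _ hj' hne => absurd (h1 hj hj') hne

/-- Infected in the real world implies infected in the world with lines. -/
theorem infd_lines (hA : Closed C D σ) (hsymm : ∀ s j k, C s j k → C s k j)
    (hL : Lines C C' D σ) (hi : i ∈ D → σ i ≤ t) (hσ : ∀ j ∈ D, 0 ≤ σ j) {K : ℕ}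
    (h : Infd C m K t i) : Infd C' (lmark C m D σ) K t i :=
  lt_of_lt_of_le h (msize_le hA hsymm hL hi hσ)

theorem infd_iff (hA : Closed C D σ) (hsymm : ∀ s j k, C s j k → C s k j)
    (hL : Lines C C' D σ) (hi : i ∈ D → σ i ≤ t) (hσ : ∀ j ∈ D, 0 ≤ σ j) {K : ℕ}
    (h1 : (BC C' t i ∩ D).Subsingleton) :
    Infd C m K t i ↔ Infd C' (lmark C m D σ) K t i := by
  unfold Infd
  rw [msize_eq_of_subsingleton hA hsymm hL hi hσ h1]

/-- Same sizes as soon as every CLEAN particle has at most one line in its past. -/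
theorem infd_iff' (hA : Closed C D σ) (hsymm : ∀ s j k, C s j k → C s k j)
    (hL : Lines C C' D σ) (hi : i ∈ D → σ i ≤ t) (hσ : ∀ j ∈ D, 0 ≤ σ j) {K : ℕ}
    (h1 : ¬ Infd C m K t i → (BC C' t i ∩ D).Subsingleton) :
    Infd C m K t i ↔ Infd C' (lmark C m D σ) K t i := by
  by_cases h : Infd C m K t i
  · exact ⟨fun _ => infd_lines hA hsymm hL hi hσ h, fun _ => h⟩
  · exact infd_iff hA hsymm hL hi hσ (h1 h)

omit [Fintype ι] in
/-- An unborn line has no past. -/
theorem past_unborn (hL : Lines C C' D σ) (hi : i ∈ D) (ht : t < σ i) {s : ℝ} {k : ι}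
    (h : Past C' t i s k) : k = i := by
  induction h with
  | root _ => rfl
  | @step s s' j k h hc _ ih =>
    subst ih
    exact absurd (hL.left _ _ _ hc hi) (not_le.2 (h.le.trans_lt ht))

/-- The marked size of an unborn line is at most its mark. -/
theorem msize_unborn (hL : Lines C C' D σ) (hi : i ∈ D) (ht : t < σ i) {m' : ι → ℕ} :
    msize C' m' t i ≤ m' i := by
  classical
  unfold msize
  have h1 : ∀ k, (if k ∈ BC C' t i then m' k else 0) ≤ if k = i then m' k else 0 := by
    intro k
    by_cases hk : k ∈ BC C' t i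
    · have h2 : k = i := past_unborn hL hi ht hk
      rw [if_pos hk, if_pos h2]
    · rw [if_neg hk]
      exact Nat.zero_le _
  refine (Finset.sum_le_sum fun k _ => h1 k).trans (le_of_eq ?_)
  rw [Finset.sum_ite_eq' Finset.univ i m', if_pos (Finset.mem_univ i)]

/-- If the family is clean then real and lines-world infections coincide at all times and for all
particles (hidden or not), provided that no clean particle has two lines in its past. -/
theorem infd_iff_all (hA : Closed C D σ) (hsymm : ∀ s j k, C s j k → C s k j)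
    (hL : Lines C C' D σ) (hσ : ∀ j ∈ D, 0 ≤ σ j) {K : ℕ}
    (hclean : ∀ j ∈ D, msize C m (σ j) j ≤ K)
    (h1 : (i ∈ D → σ i ≤ t) → ¬ Infd C m K t i → (BC C' t i ∩ D).Subsingleton) :
    Infd C m K t i ↔ Infd C' (lmark C m D σ) K t i := by
  by_cases hi : i ∈ D → σ i ≤ t
  · exact infd_iff' hA hsymm hL hi hσ (h1 hi)
  · push Not at hi
    obtain ⟨hi, ht⟩ := hi
    constructor
    · intro h
      have h2 : msize C m t i ≤ msize C m (σ i) i := msize_mono ht.le i
      unfold Infd at h
      have h3 := hclean i hi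
      omega
    · intro h
      have h2 := msize_unborn hL hi ht (m' := lmark C m D σ)
      rw [lmark_of_mem hi] at h2
      unfold Infd at h
      have h3 := hclean i hi
      omega

/-- One inclusion holds without any condition on double lines. -/
theorem infd_lines_all (hA : Closed C D σ) (hsymm : ∀ s j k, C s j k → C s k j)
    (hL : Lines C C' D σ) (hσ : ∀ j ∈ D, 0 ≤ σ j) {K : ℕ}
    (hclean : ∀ j ∈ D, msize C m (σ j) j ≤ K) (h : Infd C m K t i) :
    Infd C' (lmark C m D σ) K t i := by
  by_cases hi : i ∈ D → σ i ≤ t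
  · exact infd_lines hA hsymm hL hi hσ h
  · push Not at hi
    obtain ⟨hi, ht⟩ := hi
    have h2 : msize C m t i ≤ msize C m (σ i) i := msize_mono ht.le i
    unfold Infd at h
    have h3 := hclean i hi
    omega

end Crest.Agent.R122.Lines255
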