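import Mathlib
import Crest.Prelude.Def_KineticLimit
import Crest.Agent.R122.Rebirth_45
import Crest.Agent.R122.CtB_879

/-!
# Replacement of a cluster by its exit lines (row 122, block A9), trajectories (helper302)

`X` is a world with births `b`, `D` a set of particles with exit times `σ` (`b ≤ σ`, `σ = b` off
`D`), such that before their exits the particles of `D` are in contact only with particles of `D`
which have not exited either (`Sealed`). Then `lines b' = σ`: the path `rebirthPath σ X` is a world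
with births `σ`, in which every particle of `D` is a line born at its exit time, all the others
have the same paths, and the contacts are the contacts of `X` between visible particles.
-/

set_option autoImplicit false
set_option linter.unusedSectionVars false

open MeasureTheory Set Filter Topology
open Crest.AnalysisR.Kinetic
open Crest.Agent.R122.Flow671 Crest.Agent.R122.Loc45 Crest.Agent.R122.Ins45
open Crest.Agent.R122.Causal291 Crest.Agent.R122.Inf879

namespace Crest.Agent.R122.Repl302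

noncomputable section

/-- The particles of `D` are in contact, before their exit times `σ`, only with particles of `D`
which have not exited. -/
def SealedD {ι : Type*} (C : ℝ → ι → ι → Prop) (D : Set ι) (σ : ι → ℝ) (t₀ : ℝ) : Prop :=
  ∀ s j k, t₀ ≤ s → j ∈ D → s ≤ σ j → C s j k → k ∈ D ∧ s ≤ σ k

variable {Φ : Space3 → ℝ} {ε : ℝ} {ι : Type*} [Fintype ι]
variable {b σ : ι → ℝ} {t₀ : ℝ} {X : ℝ → ι → PhasePoint} {D : Set ι}

theorem mem_of_hidden (hoff : ∀ i, i ∉ D → σ i = b i) {t : ℝ} {j : ι} (hj : b j ≤ t)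
    (hj' : t < σ j) : j ∈ D := by
  by_contra h
  rw [hoff j h] at hj'
  exact absurd hj' (not_lt.2 hj)

/-- A visible particle is at distance at least `ε` from a hidden one. -/
theorem le_dist_of_sealed (hX : BWorld Φ ε b t₀ X) (hbσ : ∀ i, b i ≤ σ i)
    (hoff : ∀ i, i ∉ D → σ i = b i) (hD : SealedD (CtB b X ε) D σ t₀) {t : ℝ} (ht : t₀ ≤ t)
    {i j : ι} (hi : σ i ≤ t) (hj : b j ≤ t) (hj' : t < σ j) :
    ε ≤ dist (X t i).1 (X t j).1 := by
  by_contra hcon
  push Not at hcon
  have hjD : j ∈ D := mem_of_hidden hoff hj hj'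
  have hc : ContinuousOn (fun s => dist (X s i).1 (X s j).1) (Ici t₀) :=
    continuous_dist.comp_continuousOn ((hX.cont_pos i).prodMk (hX.cont_pos j))
  have h1 : ∀ᶠ s in 𝓝[>] t, dist (X s i).1 (X s j).1 < ε := by
    have h2 : ContinuousWithinAt (fun s => dist (X s i).1 (X s j).1) (Ioi t) t :=
      (hc t ht).mono fun s hs => ht.trans (le_of_lt hs)
    exact h2.eventually_lt_const hcon
  have h2 : ∀ᶠ s in 𝓝[>] t, s < σ j := by
    filter_upwards [Ioo_mem_nhdsGT hj'] with s hs using hs.2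
  obtain ⟨s, ⟨hs1, hs2⟩, hs3⟩ := ((h1.and h2).and self_mem_nhdsWithin).exists
  have hs3' : t < s := hs3
  have hC : CtB b X ε s j i := by
    refine ⟨hj.trans hs3'.le, ((hbσ i).trans hi).trans hs3'.le, Or.inr (Or.inl ?_), ?_⟩
    · exact hj.trans_lt hs3'
    · rw [dist_comm]; exact hs1.le
  have h3 := hD s j i (ht.trans hs3'.le) hjD hs2.le hC
  exact absurd (hi.trans_lt hs3') (not_lt.2 h3.2)

/-- **Replacement lemma, trajectories.** -/
theorem bworld_lines (hΦ : AdmissiblePotential Φ) (hε : 0 < ε) (hX : BWorld Φ ε b t₀ X)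
    (hbσ : ∀ i, b i ≤ σ i) (hoff : ∀ i, i ∉ D → σ i = b i)
    (hD : SealedD (CtB b X ε) D σ t₀) :
    BWorld Φ ε σ t₀ (rebirthPath σ X) :=
  hX.rebirth hΦ hε hbσ fun _ ht _ _ hi hj hj' => le_dist_of_sealed hX hbσ hoff hD ht hi hj hj'

/-- Off `D` the paths are the same at all times. -/
theorem lines_path_eq (hΦ : AdmissiblePotential Φ) (hε : 0 < ε) (hX : BWorld Φ ε b t₀ X)
    (hoff : ∀ i, i ∉ D → σ i = b i) {i : ι} (hi : i ∉ D) {t : ℝ} (ht : t₀ ≤ t) :
    rebirthPath σ X t i = X t i :=
  hX.rebirth_eq hΦ hε (hoff i hi) ht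

/-- Contacts of the world with lines: contacts of `X` between visible particles. -/
theorem ctB_lines {s : ℝ} {j k : ι} (hbσ : ∀ i, b i ≤ σ i) :
    CtB σ (rebirthPath σ X) ε s j k ↔
      σ j ≤ s ∧ σ k ≤ s ∧ (j = k ∨ σ j < s ∨ σ k < s) ∧ CtB b X ε s j k := by
  constructor
  · rintro ⟨h1, h2, h3, h4⟩
    rw [rebirthPath_of_le h1, rebirthPath_of_le h2] at h4
    refine ⟨h1, h2, h3, (hbσ j).trans h1, (hbσ k).trans h2, ?_, h4⟩
    rcases h3 with h3 | h3 | h3
    · exact Or.inl h3
    · exact Or.inr (Or.inl ((hbσ j).trans_lt h3))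
    · exact Or.inr (Or.inr ((hbσ k).trans_lt h3))
  · rintro ⟨h1, h2, h3, _, _, _, h4⟩
    refine ⟨h1, h2, h3, ?_⟩
    rw [rebirthPath_of_le h1, rebirthPath_of_le h2]
    exact h4

/-- First half of the interface with the relational core. -/
theorem ctB_lines_of_ctB {s : ℝ} {j k : ι} (hbσ : ∀ i, b i ≤ σ i) (hoff : ∀ i, i ∉ D → σ i = b i)
    (h : CtB b X ε s j k) (hj : j ∈ D → σ j < s) (hk : k ∈ D → σ k < s) :
    CtB σ (rebirthPath σ X) ε s j k := by
  have hj1 : σ j ≤ s := by
    by_cases hjD : j ∈ D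
    · exact (hj hjD).le
    · rw [hoff j hjD]; exact h.1
  have hk1 : σ k ≤ s := by
    by_cases hkD : k ∈ D
    · exact (hk hkD).le
    · rw [hoff k hkD]; exact h.2.1
  refine (ctB_lines hbσ).2 ⟨hj1, hk1, ?_, h⟩
  by_cases hjD : j ∈ D
  · exact Or.inr (Or.inl (hj hjD))
  by_cases hkD : k ∈ D
  · exact Or.inr (Or.inr (hk hkD))
  rw [hoff j hjD, hoff k hkD]
  exact h.2.2.1

/-- Second half of the interface with the relational core. -/
theorem ctB_of_ctB_lines {s : ℝ} {j k : ι} (hbσ : ∀ i, b i ≤ σ i)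
    (h : CtB σ (rebirthPath σ X) ε s j k) :
    CtB b X ε s j k ∧ (j ∈ D → σ j ≤ s) ∧ (k ∈ D → σ k ≤ s) :=
  let h' := (ctB_lines hbσ).1 h
  ⟨h'.2.2.2, fun _ => h'.1, fun _ => h'.2.1⟩

/-- `BirthSep` for the world with lines: it is enough that two particles of `D` with the same exit
time separate at once, that a particle off `D` born exactly at an exit time is far from the exit
line, and that `BirthSep` holds off `D`. -/
theorem birthSep_lines
    (h : ∀ j k, j ≠ k → σ j = σ k → ∃ δ > 0, ∀ s, σ j < s → s < σ j + δ →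
      ε < dist (X s j).1 (X s k).1) :
    BirthSep σ (rebirthPath σ X) ε := by
  intro j k hjk hjk'
  obtain ⟨δ, hδ, h1⟩ := h j k hjk hjk'
  refine ⟨δ, hδ, fun s hs hs' => ?_⟩
  rw [rebirthPath_of_le hs.le, rebirthPath_of_le (hjk' ▸ hs.le)]
  exact h1 s hs hs'

end

end Crest.Agent.R122.Repl302
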