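import Mathlib
import Crest.Agent.R122.CausalGen_291
import Crest.Agent.R122.Lines1_255
import Crest.Agent.R122.ReplPath_302

/-!
# Replacement of a cluster by its exit lines (row 122, block A9), clusters and own worlds

* `closed_cluster`, `closed_cluster_root`: the backward cluster `D` of `(c, T)` with the last
  activity times `tau` (the root line may be born at the last contact of the root) is closed in the
  sense of `Lines255.Closed`.
* `bworld_of_closed`, `lines_ctB`: the world with lines and its contact relation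
  (`Lines255.Lines`).
* `own_past_iff`, `tau_eq_of_compare`, `closed_of_compare`: the cluster in its own isolated world and
  in the big world.
-/

set_option autoImplicit false
set_option linter.unusedSectionVars false

open MeasureTheory Set Filter Topology
open Crest.AnalysisR.Kinetic
open Crest.Agent.R122.Flow671 Crest.Agent.R122.Loc45 Crest.Agent.R122.Ins45
open Crest.Agent.R122.Causal291 Crest.Agent.R122.Inf879 Crest.Agent.R122.CausalGen291
open Crest.Agent.R122.Lines255

namespace Crest.Agent.R122.Repl302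

noncomputable section

/-! ### Clusters -/

section cluster

variable {ι : Type*} {C : ℝ → ι → ι → Prop} {T : ℝ} {c : ι}

/-- The backward cluster with its last activity times is closed. -/
theorem closed_cluster [Finite ι] (hC : ∀ j k, IsClosed {s | C s j k})
    (hpos : ∀ s j k, C s j k → 0 ≤ s) : Closed C (BC C T c) (tau C T c) := by
  intro s j k hj hs hc
  have h1 : Past C T c s j := (past_iff_le_tau hC hj).2 hs
  have h2 : Past C T c s k := Past.contact h1 hc
  exact ⟨h2.mono (hpos _ _ _ hc), le_tau h2⟩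

open scoped Classical in
/-- The exit times of the cluster of `(c, T)`, the root line being born at `ρ`. Off the cluster: the
birth times `b`. -/
def exitT (C : ℝ → ι → ι → Prop) (T : ℝ) (c : ι) (ρ : ℝ) (b : ι → ℝ) (j : ι) : ℝ :=
  if j = c then ρ else if j ∈ BC C T c then tau C T c j else b j

variable {ρ : ℝ} {b : ι → ℝ}

theorem exitT_root : exitT C T c ρ b c = ρ := if_pos rfl

theorem exitT_of_mem {j : ι} (hj : j ≠ c) (h : j ∈ BC C T c) : exitT C T c ρ b j = tau C T c j := by
  unfold exitT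
  rw [if_neg hj, if_pos h]

theorem exitT_of_not_mem {j : ι} (hT : 0 ≤ T) (h : j ∉ BC C T c) : exitT C T c ρ b j = b j := by
  have hjc : j ≠ c := by
    rintro rfl
    exact h (root_mem_BC hT)
  unfold exitT
  rw [if_neg hjc, if_neg h]

/-- **The real cluster is closed**, also when the root line is born at any time `ρ ≤ T` after which
the root has no contact with other particles. -/
theorem closed_exitT [Finite ι] (hC : ∀ j k, IsClosed {s | C s j k})
    (hpos : ∀ s j k, C s j k → 0 ≤ s) (hρT : ρ ≤ T)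
    (hρ : ∀ s j, ρ < s → s ≤ T → C s j c → j = c) :
    Closed C (BC C T c) (exitT C T c ρ b) := by
  have hle : ∀ j ∈ BC C T c, exitT C T c ρ b j ≤ tau C T c j := by
    intro j hj
    by_cases hjc : j = c
    · subst hjc; rw [exitT_root, tau_root]; exact hρT
    · rw [exitT_of_mem hjc hj]
  intro s j k hj hs hc
  obtain ⟨h1, h2⟩ := closed_cluster hC hpos s j k hj (hs.trans (hle j hj)) hc
  refine ⟨h1, ?_⟩
  by_cases hkc : k = c
  · subst hkc
    rw [exitT_root]
    by_cases hjk : j = k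
    · subst hjk; rwa [exitT_root] at hs
    · by_contra hlt
      push Not at hlt
      rw [tau_root] at h2
      exact hjk (hρ s j hlt h2 hc)
  · rw [exitT_of_mem hkc h1]
    exact h2

/-- Births are at most the exit times. -/
theorem le_exitT [Finite ι] (hC : ∀ j k, IsClosed {s | C s j k})
    (hborn : ∀ s j k, C s j k → b k ≤ s) (hT : 0 ≤ T) (hc : b c ≤ ρ) (j : ι) :
    b j ≤ exitT C T c ρ b j := by
  by_cases hjc : j = c
  · subst hjc; rw [exitT_root]; exact hc
  by_cases hj : j ∈ BC C T c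
  · rw [exitT_of_mem hjc hj]
    obtain ⟨l, h1, _⟩ := exists_contact_tau hC hj hjc
    exact hborn _ _ _ h1
  · rw [exitT_of_not_mem hT hj]

end cluster

/-! ### The world with lines -/

section lines

variable {Φ : Space3 → ℝ} {ε : ℝ} {ι : Type*} [Fintype ι]
variable {b σ : ι → ℝ} {t₀ : ℝ} {X : ℝ → ι → PhasePoint} {D : Set ι}

/-- **World with lines**, from `Lines255.Closed`. -/
theorem bworld_of_closed (hΦ : AdmissiblePotential Φ) (hε : 0 < ε) (hX : BWorld Φ ε b t₀ X)
    (hbσ : ∀ i, b i ≤ σ i) (hoff : ∀ i, i ∉ D → σ i = b i) (hD : Closed (CtB b X ε) D σ) :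
    BWorld Φ ε σ t₀ (rebirthPath σ X) :=
  bworld_lines hΦ hε hX hbσ hoff fun s j k _ hj hs hc => hD s j k hj hs hc

/-- The contact relation of the world with lines. -/
theorem lines_ctB (hbσ : ∀ i, b i ≤ σ i) (hoff : ∀ i, i ∉ D → σ i = b i) :
    Lines (CtB b X ε) (CtB σ (rebirthPath σ X) ε) D σ where
  of_strict _ _ _ h hj hk := ctB_lines_of_ctB hbσ hoff h hj hk
  sub _ _ _ h := (ctB_of_ctB_lines (D := D) hbσ h).1
  left _ _ _ h hj := (ctB_of_ctB_lines hbσ h).2.1 hj
  right _ _ _ h hk := (ctB_of_ctB_lines hbσ h).2.2 hk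

end lines

/-! ### Own isolated world -/

section own

variable {ι₁ ι₂ : Type} {S : Type*} {T t : ℝ}
variable {C₁ : ℝ → ι₁ → ι₁ → Prop} {C₂ : ℝ → ι₂ → ι₂ → Prop}
variable {z₁ : ℝ → ι₁ → S} {z₂ : ℝ → ι₂ → S} {e : ι₁ → ι₂} {r : ι₁}

/-- Result of the comparison of the isolated world `1` of a cluster with the big world `2`: equal
states and equal explorations from the root `(r, t)`. -/
structure SameCluster (C₁ : ℝ → ι₁ → ι₁ → Prop) (z₁ : ℝ → ι₁ → S) (C₂ : ℝ → ι₂ → ι₂ → Prop)
    (z₂ : ℝ → ι₂ → S) (e : ι₁ → ι₂) (t : ℝ) (r : ι₁) : Prop where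
  state : ∀ s ∈ Icc 0 t, ∀ k, Past C₁ t r s k → z₁ s k = z₂ s (e k)
  act : ∀ s ∈ Icc 0 t, ∀ x, Past C₂ t (e r) s x ↔ ∃ k, e k = x ∧ Past C₁ t r s k
  contact : ∀ s ∈ Icc 0 t, ∀ k l, Past C₁ t r s k → (C₁ s k l ↔ C₂ s (e k) (e l))

/-- If the cluster is unhit in the big world, then it is the same as in its own world. -/
theorem sameCluster_of_unhit [Finite ι₁] [Finite ι₂] (h : Pair T C₁ z₁ C₂ z₂ id e)
    (ht : t ∈ Icc 0 T) (h0 : ∀ k, Past C₁ t r 0 k → z₁ 0 k = z₂ 0 (e k))
    (hav : ∀ s ∈ Icc 0 t, (∀ s' ∈ Icc 0 s, ∀ k, Past C₁ t r s' k → z₁ s' k = z₂ s' (e k)) →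
      ∀ k, Past C₁ t r s k → ∀ x, (∀ l, Past C₁ t r s l → e l ≠ x) → ¬ C₂ s (e k) x) :
    SameCluster C₁ z₁ C₂ z₂ e t r := by
  have key := compare h ht r (fun x _ => ⟨x, rfl⟩) (fun k hk => h0 k hk)
    (fun s hs hp k hk x hx => hav s hs (fun s' hs' l hl => hp s' hs' l hl) k hk x
      fun l hl hlx => hx ⟨l, hl, hlx⟩)
  have hst : ∀ s ∈ Icc 0 t, ∀ k, Past C₁ t r s k → z₁ s k = z₂ s (e k) :=
    fun s hs k hk => key.1 s hs k hk
  have hact : ∀ s ∈ Icc 0 t, ∀ x, Past C₂ t (e r) s x ↔ ∃ k, e k = x ∧ Past C₁ t r s k := by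
    intro s hs x
    have h1 := key.2 s hs
    constructor
    · intro hx
      have h2 : x ∈ Act C₂ t (e r) s := hx
      rw [h1] at h2
      obtain ⟨k, hk, hkx⟩ := h2
      exact ⟨k, hkx, hk⟩
    · rintro ⟨k, rfl, hk⟩
      have h2 : e k ∈ e '' ActC C₁ id t r s := ⟨k, hk, rfl⟩
      rw [← h1] at h2
      exact h2
  refine ⟨hst, hact, fun s hs k l hk => ?_⟩
  have hsT : s ∈ Icc 0 T := ⟨hs.1, hs.2.trans ht.2⟩
  constructor
  · intro hc
    exact (h.coh s hsT k l (hst s hs k hk) (hst s hs l (Past.contact hk hc))).1 hc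
  · intro hc
    have h1 : Past C₂ t (e r) s (e l) := Past.contact ((hact s hs _).2 ⟨k, rfl, hk⟩) hc
    obtain ⟨l', hl', hl''⟩ := (hact s hs _).1 h1
    rw [h.inj₂ hl'] at hl''
    exact (h.coh s hsT k l (hst s hs k hk) (hst s hs l hl'')).2 hc

variable (H : SameCluster C₁ z₁ C₂ z₂ e t r) (he : Function.Injective e)
include H he

theorem SameCluster.past_iff {s : ℝ} (hs : s ∈ Icc 0 t) {k : ι₁} :
    Past C₂ t (e r) s (e k) ↔ Past C₁ t r s k := by
  rw [H.act s hs]
  constructor
  · rintro ⟨l, hl, h⟩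
    rwa [← he hl]
  · intro h
    exact ⟨k, rfl, h⟩

/-- Own pasts of the members are the same in the two worlds. -/
theorem SameCluster.own_past {s₁ : ℝ} {j : ι₁} (hj : Past C₁ t r s₁ j) {s : ℝ} (hs : 0 ≤ s)
    {x : ι₂} : Past C₂ s₁ (e j) s x ↔ ∃ k, e k = x ∧ Past C₁ s₁ j s k := by
  constructor
  · intro h
    induction h with
    | root h => exact ⟨j, rfl, .root h⟩
    | @step s s' y x h hc hss' ih =>
      obtain ⟨l, rfl, hl⟩ := ih (hs.trans hss')
      have hs' : s' ∈ Icc 0 t := ⟨hs.trans hss', (hj.trans hl).le⟩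
      have h1 : Past C₂ t (e r) s' x :=
        Past.contact ((H.act s' hs' _).2 ⟨l, rfl, hj.trans hl⟩) hc
      obtain ⟨k, rfl, _⟩ := (H.act s' hs' x).1 h1
      exact ⟨k, rfl, .step hl ((H.contact s' hs' l k (hj.trans hl)).2 hc) hss'⟩
  · rintro ⟨k, rfl, h⟩
    induction h with
    | root h => exact .root h
    | @step s s' l k h hc hss' ih =>
      have hs' : s' ∈ Icc 0 t := ⟨hs.trans hss', (hj.trans h).le⟩
      exact .step (ih (hs.trans hss')) ((H.contact s' hs' l k (hj.trans h)).1 hc) hss'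

theorem SameCluster.bc_eq (ht : 0 ≤ t) : BC C₂ t (e r) = e '' BC C₁ t r := by
  ext x
  simp only [mem_BC, mem_image]
  rw [H.act 0 ⟨le_rfl, ht⟩]
  exact ⟨fun ⟨k, h1, h2⟩ => ⟨k, h2, h1⟩, fun ⟨k, h1, h2⟩ => ⟨k, h2, h1⟩⟩

/-- The exit times are the same in the two worlds. -/
theorem SameCluster.tau_eq {k : ι₁} (ht : 0 ≤ t) (hk : k ∈ BC C₁ t r) :
    tau C₂ t (e r) (e k) = tau C₁ t r k := by
  have h1 : {s | Past C₂ t (e r) s (e k)} = {s | Past C₁ t r s k} := by
    ext s
    simp only [mem_ofPred_eq]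
    rcases lt_or_ge t s with hst | hst
    · exact ⟨fun h => absurd h.le (not_le.2 hst), fun h => absurd h.le (not_le.2 hst)⟩
    rcases le_total 0 s with hs | hs
    · exact H.past_iff he ⟨hs, hst⟩
    · exact ⟨fun _ => Past.mono hk hs, fun _ => Past.mono ((H.past_iff he ⟨le_rfl, ht⟩).2 hk) hs⟩
  unfold tau
  rw [h1]

end own

end

end Crest.Agent.R122.Repl302
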