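import Crest.Agent.R122.HitUse_45
import Crest.Agent.R122.Lines3_255
import Crest.Agent.R122.ReplOwn_302

/-!
# A closed family of a world replaced by its lines (row 122, blocks A9/A7, helper45)

`Z` a marked world, `f : κ → α` labels of a family of particles of `Z`, `ls : κ → ML` marked lines.

* `lw Z f ls` : the world `Z` in which the particle `f i` is the line `ls i`.
* `FamIn Φ ε Z f ls` : up to the birth of its line every particle of the family is in contact only
  with particles of the family whose lines are not born yet; at its birth the line has the state of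
  the particle, and its mark is at least the size of the particle.
* `FamIn.path_lw`, `FamIn.path_eq`, `FamIn.path_off` : paths of the world with lines.
* `FamIn.C_lw` : a contact of the world with lines is a contact of `Z`.
* `FamIn.theta_le` : `θ (lw Z f ls, A) ≤ θ (Z, A)`.
* `FamIn.theta_eq` : equality under helper255's `NoDouble` if the marks are the sizes.
-/

set_option autoImplicit false
set_option linter.unusedSectionVars false

open MeasureTheory Set Filter Topology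
open scoped ENNReal
open Crest.AnalysisR.Kinetic
open Crest.Agent.R122.Flow671 Crest.Agent.R122.Loc45 Crest.Agent.R122.Causal291
open Crest.Agent.R122.Inf879 Crest.Agent.R122.EDefs602 Crest.Agent.R122.Lines255
open Crest.Agent.R122.Repl302 Crest.Agent.R122.MWAlg255

namespace Crest.Agent.R122.Ins45

noncomputable section

open scoped Classical

/-! ### Marks -/

theorem msize_mono_mark {α : Type} [Fintype α] {C : ℝ → α → α → Prop} {m m' : α → ℕ}
    (h : ∀ j, m j ≤ m' j) (t : ℝ) (i : α) : msize C m t i ≤ msize C m' t i := by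
  unfold msize
  refine Finset.sum_le_sum fun k _ => ?_
  by_cases hk : k ∈ BC C t i
  · rw [if_pos hk, if_pos hk]; exact h k
  · rw [if_neg hk, if_neg hk]

theorem infd_mono_mark {α : Type} [Fintype α] {C : ℝ → α → α → Prop} {m m' : α → ℕ} {K : ℕ}
    (h : ∀ j, m j ≤ m' j) {t : ℝ} {i : α} (hi : Infd C m K t i) : Infd C m' K t i :=
  lt_of_lt_of_le hi (msize_mono_mark h t i)

variable {α κ β : Type} [Fintype α] [Fintype κ] [Fintype β] {Φ : Space3 → ℝ} {ε : ℝ}
  {Z : MW α} {f : κ → α} {ls : κ → ML} {K : ℕ}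

/-- The world `Z` in which the particle `f i` is the line `ls i`. -/
def lw (Z : MW α) (f : κ → α) (ls : κ → ML) : MW α where
  b := Function.extend f (fun i => (ls i).1.1) Z.b
  z := Function.extend f (fun i => back (ls i).1) Z.z
  m := Function.extend f (fun i => (ls i).2) Z.m

/-- The family `f` of particles of `Z` is closed up to the births of the lines `ls`. -/
structure FamIn (Φ : Space3 → ℝ) (ε : ℝ) (Z : MW α) (f : κ → α) (ls : κ → ML) : Prop where
  inj : Function.Injective f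
  le : ∀ i, Z.b (f i) ≤ (ls i).1.1
  pos : ∀ i, 0 ≤ (ls i).1.1
  state : ∀ i, Z.path Φ ε (ls i).1.1 (f i) = (ls i).1.2
  closed : ∀ i t x, t ≤ (ls i).1.1 → Z.C Φ ε t (f i) x → ∃ j, x = f j ∧ t ≤ (ls j).1.1
  size : ∀ i, msize (Z.C Φ ε) Z.m (ls i).1.1 (f i) ≤ (ls i).2

theorem lw_b (hf : Function.Injective f) (i : κ) : (lw Z f ls).b (f i) = (ls i).1.1 :=
  hf.extend_apply (fun i => (ls i).1.1) Z.b i

theorem lw_z (hf : Function.Injective f) (i : κ) : (lw Z f ls).z (f i) = back (ls i).1 :=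
  hf.extend_apply (fun i => back (ls i).1) Z.z i

theorem lw_m (hf : Function.Injective f) (i : κ) : (lw Z f ls).m (f i) = (ls i).2 :=
  hf.extend_apply (fun i => (ls i).2) Z.m i

theorem lw_b_off {x : α} (hx : x ∉ range f) : (lw Z f ls).b x = Z.b x :=
  Function.extend_apply' (fun i => (ls i).1.1) Z.b x (fun ⟨i, hi⟩ => hx ⟨i, hi⟩)

theorem lw_z_off {x : α} (hx : x ∉ range f) : (lw Z f ls).z x = Z.z x :=
  Function.extend_apply' (fun i => back (ls i).1) Z.z x (fun ⟨i, hi⟩ => hx ⟨i, hi⟩)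

theorem lw_m_off {x : α} (hx : x ∉ range f) : (lw Z f ls).m x = Z.m x :=
  Function.extend_apply' (fun i => (ls i).2) Z.m x (fun ⟨i, hi⟩ => hx ⟨i, hi⟩)

theorem extend_sumElim {γ : Type*} (hf : Function.Injective f) (g : κ → γ) (a : α → γ) (b : β → γ) :
    Function.extend (fun i => (Sum.inl (f i) : α ⊕ β)) g (Sum.elim a b) =
      Sum.elim (Function.extend f g a) b := by
  have hf' : Function.Injective (fun i => (Sum.inl (f i) : α ⊕ β)) := Sum.inl_injective.comp hf
  funext x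
  rcases x with x | x
  · by_cases hx : x ∈ range f
    · obtain ⟨i, rfl⟩ := hx
      rw [Sum.elim_inl, hf.extend_apply]
      exact hf'.extend_apply g _ i
    · rw [Sum.elim_inl, Function.extend_apply' _ _ x (fun ⟨i, hi⟩ => hx ⟨i, hi⟩),
        Function.extend_apply' _ _ (Sum.inl x : α ⊕ β)
          (fun ⟨i, hi⟩ => hx ⟨i, Sum.inl_injective hi⟩)]
      rfl
  · rw [Sum.elim_inr, Function.extend_apply' _ _ (Sum.inr x : α ⊕ β)
      (fun ⟨i, hi⟩ => by cases hi)]
    rfl

/-- Insertion of a world and replacement commute. -/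
theorem lw_add (hf : Function.Injective f) (A : MW β) :
    lw (Z.add A) (fun i => Sum.inl (f i)) ls = (lw Z f ls).add A := by
  unfold lw MW.add
  simp only
  rw [extend_sumElim hf, extend_sumElim hf, extend_sumElim hf]

namespace FamIn

variable (h : FamIn Φ ε Z f ls) (hΦ : AdmissiblePotential Φ) (hε : 0 < ε)
  (hZ : BWorld Φ ε Z.b 0 (Z.path Φ ε))

include h in
theorem b_le (x : α) : Z.b x ≤ (lw Z f ls).b x := by
  by_cases hx : x ∈ range f
  · obtain ⟨i, rfl⟩ := hx
    rw [lw_b h.inj]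
    exact h.le i
  · rw [lw_b_off hx]

include h in
theorem closed' : Closed (Z.C Φ ε) (range f) (lw Z f ls).b := by
  rintro t _ x ⟨i, rfl⟩ ht hc
  rw [lw_b h.inj] at ht
  obtain ⟨j, rfl, hj⟩ := h.closed i t x ht hc
  exact ⟨⟨j, rfl⟩, by rw [lw_b h.inj]; exact hj⟩

include h hΦ hε hZ in
theorem bw_lines : BWorld Φ ε (lw Z f ls).b 0 (rebirthPath (lw Z f ls).b (Z.path Φ ε)) :=
  bworld_of_closed hΦ hε hZ h.b_le (fun _ hx => lw_b_off hx) h.closed'

include h hΦ hε hZ in
theorem rebirth_zero : rebirthPath (lw Z f ls).b (Z.path Φ ε) 0 = (lw Z f ls).z := by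
  funext x
  by_cases hx : x ∈ range f
  · obtain ⟨i, rfl⟩ := hx
    rw [rebirthPath_of_ge (by rw [lw_b h.inj]; exact h.pos i), lw_b h.inj, lw_z h.inj, h.state i]
    exact (back_eq_lineAt (ls i).1.1 (ls i).1.2).symm
  · rw [hZ.rebirth_eq hΦ hε (lw_b_off hx) le_rfl, lw_z_off hx, MW.path_zero hΦ hε]

include h hΦ hε hZ in
/-- **Paths of the world with lines.** -/
theorem path_lw {t : ℝ} (ht : 0 ≤ t) :
    (lw Z f ls).path Φ ε t = rebirthPath (lw Z f ls).b (Z.path Φ ε) t := by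
  rw [(h.bw_lines hΦ hε hZ).eq_evo hΦ hε ht, h.rebirth_zero hΦ hε hZ]
  rfl

include h hΦ hε hZ in
/-- Born particles. -/
theorem path_eq {t : ℝ} (ht : 0 ≤ t) {x : α} (hx : (lw Z f ls).b x ≤ t) :
    (lw Z f ls).path Φ ε t x = Z.path Φ ε t x := by
  rw [h.path_lw hΦ hε hZ ht, rebirthPath_of_le hx]

include h hΦ hε hZ in
/-- Particles outside the family. -/
theorem path_off {t : ℝ} (ht : 0 ≤ t) {x : α} (hx : x ∉ range f) :
    (lw Z f ls).path Φ ε t x = Z.path Φ ε t x := by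
  rw [h.path_lw hΦ hε hZ ht]
  exact hZ.rebirth_eq hΦ hε (lw_b_off hx) ht

include h hΦ hε hZ in
theorem bw : BWorld Φ ε (lw Z f ls).b 0 ((lw Z f ls).path Φ ε) :=
  (h.bw_lines hΦ hε hZ).congr fun _ ht => h.path_lw hΦ hε hZ ht

variable (hb : ∀ x, 0 ≤ Z.b x)

include h hΦ hε hZ hb in
theorem C_iff (t : ℝ) (x y : α) : (lw Z f ls).C Φ ε t x y ↔
    CtB (lw Z f ls).b (rebirthPath (lw Z f ls).b (Z.path Φ ε)) ε t x y := by
  rcases lt_or_ge t 0 with h0 | h0
  · exact ⟨fun h' => absurd (((hb x).trans (h.b_le x)).trans (MW.C_born h')) (not_le.2 h0),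
      fun h' => absurd (((hb x).trans (h.b_le x)).trans h'.born) (not_le.2 h0)⟩
  · refine ctB_congr Iff.rfl rfl rfl ?_ ?_
    · rw [h.path_lw hΦ hε hZ h0]
    · rw [h.path_lw hΦ hε hZ h0]

include h hΦ hε hZ hb in
theorem lines : Lines (Z.C Φ ε) ((lw Z f ls).C Φ ε) (range f) (lw Z f ls).b := by
  have h1 := lines_ctB (X := Z.path Φ ε) (ε := ε) (D := range f) h.b_le
    (fun _ hx => lw_b_off hx)
  exact ⟨fun s j k hc hj hk => (h.C_iff hΦ hε hZ hb s j k).2 (h1.of_strict s j k hc hj hk),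
    fun s j k hc => h1.sub s j k ((h.C_iff hΦ hε hZ hb s j k).1 hc),
    fun s j k hc => h1.left s j k ((h.C_iff hΦ hε hZ hb s j k).1 hc),
    fun s j k hc => h1.right s j k ((h.C_iff hΦ hε hZ hb s j k).1 hc)⟩

include h hΦ hε hZ hb in
/-- A contact of the world with lines is a contact of `Z`. -/
theorem C_sub {t : ℝ} {x y : α} (hc : (lw Z f ls).C Φ ε t x y) : Z.C Φ ε t x y :=
  (h.lines hΦ hε hZ hb).sub t x y hc

include h hΦ hε hZ hb in
/-- The data of helper255. -/
theorem repl (hK : ∀ i, (ls i).2 ≤ K) :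
    Repl (Z.C Φ ε) ((lw Z f ls).C Φ ε) Z.m (range f) (lw Z f ls).b K where
  symm _ _ _ hc := MW.C_symm _ hc
  closed := h.closed'
  lines := h.lines hΦ hε hZ hb
  pos x _ := (hb x).trans (h.b_le x)
  clean := by
    rintro _ ⟨i, rfl⟩
    rw [lw_b h.inj]
    exact (h.size i).trans (hK i)

include h in
theorem lmark_le (x : α) : lmark (Z.C Φ ε) Z.m (range f) (lw Z f ls).b x ≤ (lw Z f ls).m x := by
  by_cases hx : x ∈ range f
  · rw [lmark_of_mem hx]
    obtain ⟨i, rfl⟩ := hx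
    rw [lw_b h.inj, lw_m h.inj]
    exact h.size i
  · rw [lmark_of_not_mem hx, lw_m_off hx]

include h in
/-- If the marks are the sizes of the members. -/
theorem lmark_eq (hs : ∀ i, msize (Z.C Φ ε) Z.m (ls i).1.1 (f i) = (ls i).2) (x : α) :
    lmark (Z.C Φ ε) Z.m (range f) (lw Z f ls).b x = (lw Z f ls).m x := by
  by_cases hx : x ∈ range f
  · rw [lmark_of_mem hx]
    obtain ⟨i, rfl⟩ := hx
    rw [lw_b h.inj, lw_m h.inj]
    exact hs i
  · rw [lmark_of_not_mem hx, lw_m_off hx]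

include h hΦ hε hZ hb in
/-- Infected in `Z` implies infected in the world with lines. -/
theorem inf (hK : ∀ i, (ls i).2 ≤ K) {t : ℝ} {x : α} (hx : Z.Inf Φ ε K t x) :
    (lw Z f ls).Inf Φ ε K t x :=
  infd_mono_mark h.lmark_le ((h.repl hΦ hε hZ hb hK).infd_lines hx)

/-- Common part of the two pairs of worlds. -/
theorem compat (A : MW β) (hΦ : AdmissiblePotential Φ) (hε : 0 < ε) :
    Compat (Z.path Φ ε) ((lw Z f ls).path Φ ε) ((Z.add A).path Φ ε)
      (((lw Z f ls).add A).path Φ ε) id Sum.inl (range f)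
      (range fun i => (Sum.inl (f i) : α ⊕ β)) (lw Z f ls).b ((lw Z f ls).add A).b where
  mem_iff x := by
    constructor
    · rintro ⟨i, hi⟩
      exact ⟨i, congrArg Sum.inl hi⟩
    · rintro ⟨i, hi⟩
      exact ⟨i, Sum.inl_injective hi⟩
  exit x _ := rfl
  new₁ x _ hx := absurd ⟨x, rfl⟩ hx
  new₂ := by
    rintro _ ⟨i, rfl⟩ hx
    exact absurd ⟨f i, rfl⟩ hx
  out₁ x hx := by
    rw [MW.path_zero hΦ hε, MW.path_zero hΦ hε]
    exact lw_z_off hx
  out₂ x hx := by
    rw [MW.path_zero hΦ hε, MW.path_zero hΦ hε]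
    change (lw Z f ls).z x = Z.z x
    exact lw_z_off fun ⟨i, hi⟩ => hx ⟨i, congrArg Sum.inl hi⟩
  fam x _ := by
    rw [MW.path_zero hΦ hε, MW.path_zero hΦ hε]
    rfl
  fam' x _ := by
    rw [MW.path_zero hΦ hε, MW.path_zero hΦ hε]
    rfl

end FamIn

/-- **Replacement of a closed family by its lines**: the touch time can only decrease. -/
theorem theta_lw_le (hΦ : AdmissiblePotential Φ) (hε : 0 < ε) {A : MW β} (h : FamIn Φ ε Z f ls)
    (h₂ : FamIn Φ ε (Z.add A) (fun i => (Sum.inl (f i) : α ⊕ β)) ls)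
    (hZ : BWorld Φ ε Z.b 0 (Z.path Φ ε))
    (hZA : BWorld Φ ε (Z.add A).b 0 ((Z.add A).path Φ ε)) (hb : ∀ x, 0 ≤ Z.b x)
    (hA : ∀ x, 0 ≤ A.b x) (hK : ∀ i, (ls i).2 ≤ K) (T : ℝ) :
    (lw Z f ls).theta Φ ε K T A ≤ Z.theta Φ ε K T A := by
  have hb₂ : ∀ x, 0 ≤ (Z.add A).b x := by
    rintro (x | x)
    · exact hb x
    · exact hA x
  have e2 : lw (Z.add A) (fun i => (Sum.inl (f i) : α ⊕ β)) ls = (lw Z f ls).add A := lw_add h.inj A
  have r1 := h.repl hΦ hε hZ hb hK
  have r2 := h₂.repl hΦ hε hZA hb₂ hK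
  rw [e2] at r2
  have i2 : ∀ {t : ℝ} {x : α ⊕ β}, (Z.add A).Inf Φ ε K t x →
      ((lw Z f ls).add A).Inf Φ ε K t x := by
    intro t x hx
    have := h₂.inf hΦ hε hZA hb₂ hK hx
    rw [e2] at this
    exact this
  exact theta_lines_le (FamIn.compat A hΦ hε) r1.closed r2.closed r1.symm r2.symm r1.lines
    r2.lines (fun _ _ _ hx => h.inf hΦ hε hZ hb hK hx) (fun _ _ _ hx => i2 hx)

/-- **Replacement of a closed family by its lines**: equality if no clean particle has two lines in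
its past and the marks are the sizes. -/
theorem theta_lw_eq (hΦ : AdmissiblePotential Φ) (hε : 0 < ε) {A : MW β} (h : FamIn Φ ε Z f ls)
    (h₂ : FamIn Φ ε (Z.add A) (fun i => (Sum.inl (f i) : α ⊕ β)) ls)
    (hZ : BWorld Φ ε Z.b 0 (Z.path Φ ε))
    (hZA : BWorld Φ ε (Z.add A).b 0 ((Z.add A).path Φ ε)) (hb : ∀ x, 0 ≤ Z.b x)
    (hA : ∀ x, 0 ≤ A.b x) (hK : ∀ i, (ls i).2 ≤ K)
    (hs : ∀ i, msize (Z.C Φ ε) Z.m (ls i).1.1 (f i) = (ls i).2)
    (hs₂ : ∀ i, msize ((Z.add A).C Φ ε) (Z.add A).m (ls i).1.1 (Sum.inl (f i)) = (ls i).2) {T : ℝ}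
    (hN : NoDouble (Z.C Φ ε) ((lw Z f ls).C Φ ε) Z.m (range f) (lw Z f ls).b K 0 T)
    (hN₂ : NoDouble ((Z.add A).C Φ ε) (((lw Z f ls).add A).C Φ ε) (Z.add A).m
      (range fun i => (Sum.inl (f i) : α ⊕ β)) ((lw Z f ls).add A).b K 0 T) :
    (lw Z f ls).theta Φ ε K T A = Z.theta Φ ε K T A := by
  have hb₂ : ∀ x, 0 ≤ (Z.add A).b x := by
    rintro (x | x)
    · exact hb x
    · exact hA x
  have e2 : lw (Z.add A) (fun i => (Sum.inl (f i) : α ⊕ β)) ls = (lw Z f ls).add A := lw_add h.inj A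
  have r1 := h.repl hΦ hε hZ hb hK
  have r2 := h₂.repl hΦ hε hZA hb₂ hK
  have m1 : (lw Z f ls).m = lmark (Z.C Φ ε) Z.m (range f) (lw Z f ls).b :=
    funext fun x => (h.lmark_eq hs x).symm
  have m2 : ((lw Z f ls).add A).m = lmark ((Z.add A).C Φ ε) (Z.add A).m
      (range fun i => (Sum.inl (f i) : α ⊕ β)) ((lw Z f ls).add A).b := by
    rw [← e2]
    exact funext fun x => (h₂.lmark_eq hs₂ x).symm
  rw [e2] at r2
  have key := theta_infd_eq (a := 0) (T := T) (FamIn.compat A hΦ hε) r1 r2 hN hN₂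
  rw [← m1, ← m2] at key
  exact key.symm

end

end Crest.Agent.R122.Ins45
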