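import Crest.Agent.R122.Hid_879
import Crest.Agent.R122.CutRel_879
import Crest.Agent.R122.RealLines_45

/-!
# Hidden members which are not hit, marked worlds (row 122, blocks A7/A9)

`Ω` a real world, `f` a family with lines `ls` (`FamIn`, helper45), `B` an inserted object.

* `FamIn.linesTo` : `LinesTo` for `Ω` and `lw Ω f ls`.
* `Avoid Φ ε Ω f ls B t` : up to `t` the visible particles of `(lw Ω f ls).add B` stay away from the
  curves of the hidden members.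
* `HidIn` : hypotheses; `HidIn.path_hid`, `HidIn.path_vis` : paths in `Ω.add B` up to `t`;
  `HidIn.linesTo` : `LinesTo` for `Ω.add B` and `(lw Ω f ls).add B`.
* `HidIn.touched_iff` : touches at the time `t`.
-/

set_option autoImplicit false
set_option linter.unusedSectionVars false

open MeasureTheory Set Filter Topology
open Crest.AnalysisR.Kinetic
open Crest.Agent.R122.Flow671 Crest.Agent.R122.Loc45 Crest.Agent.R122.Ins45
open Crest.Agent.R122.Causal291 (Past BC)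
open Crest.Agent.R122.Inf879 Crest.Agent.R122.EDefs602 Crest.Agent.R122.Lines255
open Crest.Agent.R122.CutRel879

namespace Crest.Agent.R122.Hid879

noncomputable section

open scoped Classical

variable {α β κ : Type} [Fintype α] [Fintype β] [Fintype κ] {Φ : Space3 → ℝ} {ε t : ℝ}
  {Ω : MW α} {f : κ → α} {ls : κ → ML} {B : MW β} {K : ℕ}

/-- The state of a line at its birth. -/
theorem path_birth (hΦ : AdmissiblePotential Φ) (hε : 0 < ε) {Z : MW α}
    (hZ : BWorld Φ ε Z.b 0 (Z.path Φ ε)) {x : α} {l : ℝ × PhasePoint} (hb : Z.b x = l.1)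
    (hz : Z.z x = back l) (h0 : 0 ≤ l.1) : Z.path Φ ε l.1 x = l.2 := by
  have h1 := hZ.free_of_unborn hΦ hε x (t := l.1) h0 hb.ge
  rw [h1, MW.path_zero hΦ hε, hz]
  unfold back
  refine Prod.ext ?_ rfl
  simp

/-- `LinesTo` for the real world itself. -/
theorem _root_.Crest.Agent.R122.Ins45.FamIn.linesTo (h : FamIn Φ ε Ω f ls)
    (hΦ : AdmissiblePotential Φ) (hε : 0 < ε) (hΩ : BWorld Φ ε Ω.b 0 (Ω.path Φ ε))
    (hb : ∀ x, 0 ≤ Ω.b x) (hK : ∀ i, (ls i).2 ≤ K)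
    (hs : ∀ i, msize (Ω.C Φ ε) Ω.m (ls i).1.1 (f i) = (ls i).2) (t : ℝ) :
    LinesTo (Ω.C Φ ε) ((lw Ω f ls).C Φ ε) Ω.m (lw Ω f ls).m (range f) (lw Ω f ls).b K t where
  symm _ _ _ hc := MW.C_symm _ hc
  closed s _ := h.closed' s
  of_strict s _ := (h.lines hΦ hε hΩ hb).of_strict s
  sub s _ := (h.lines hΦ hε hΩ hb).sub s
  left := (h.lines hΦ hε hΩ hb).left
  right := (h.lines hΦ hε hΩ hb).right
  pos x _ := (hb x).trans (h.b_le x)
  off _ hj := lw_m_off hj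
  mark := by
    rintro _ ⟨i, rfl⟩ _
    rw [lw_b h.inj, lw_m h.inj]
    exact hs i
  clean := by
    rintro _ ⟨i, rfl⟩
    rw [lw_m h.inj]
    exact hK i
  clean' := by
    rintro _ ⟨i, rfl⟩ hi
    rw [lw_b h.inj] at hi
    exact (msize_mono hi.le (f i)).trans ((hs i).le.trans (hK i))

/-- Up to `t` the visible particles of `(lw Ω f ls).add B` stay away from the hidden curves. -/
def Avoid (Φ : Space3 → ℝ) (ε : ℝ) (Ω : MW α) (f : κ → α) (ls : κ → ML) (B : MW β) (t : ℝ) :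
    Prop :=
  ∀ u ∈ Icc 0 t, ∀ i, u ≤ (ls i).1.1 → ∀ y : α ⊕ β, ((lw Ω f ls).add B).b y ≤ u →
    (∀ k, y = Sum.inl (f k) → (ls k).1.1 < u) →
    ε < dist (Ω.path Φ ε u (f i)).1 (((lw Ω f ls).add B).path Φ ε u y).1

/-- Hypotheses for the insertion of `B` up to the time `t`. -/
structure HidIn (Φ : Space3 → ℝ) (ε : ℝ) (Ω : MW α) (f : κ → α) (ls : κ → ML) (B : MW β)
    (t : ℝ) : Prop where
  fam : FamIn Φ ε Ω f ls
  bw : BWorld Φ ε Ω.b 0 (Ω.path Φ ε)
  bwB : BWorld Φ ε (Ω.add B).b 0 ((Ω.add B).path Φ ε)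
  bwL : BWorld Φ ε ((lw Ω f ls).add B).b 0 (((lw Ω f ls).add B).path Φ ε)
  /-- the members are born at the time `0` -/
  b0 : ∀ i, Ω.b (f i) = 0
  pos : ∀ x, 0 ≤ Ω.b x
  posB : ∀ x, 0 ≤ B.b x
  /-- at the time `0` the members are away from the others -/
  sep0 : ∀ i x, x ∉ range f → Ω.b x ≤ 0 → ε < dist (Ω.path Φ ε 0 (f i)).1 (Ω.path Φ ε 0 x).1
  avoid : Avoid Φ ε Ω f ls B t

namespace HidIn

variable (h : HidIn Φ ε Ω f ls B t)

include h in
theorem mono {s : ℝ} (hs : s ≤ t) : HidIn Φ ε Ω f ls B s :=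
  ⟨h.fam, h.bw, h.bwB, h.bwL, h.b0, h.pos, h.posB, h.sep0,
    fun u hu => h.avoid u ⟨hu.1, hu.2.trans hs⟩⟩

theorem inl_mem {y : α} : (Sum.inl y : α ⊕ β) ∈ range (fun i => (Sum.inl (f i) : α ⊕ β)) ↔
    y ∈ range f := by
  constructor
  · rintro ⟨i, hi⟩
    exact ⟨i, Sum.inl_injective hi⟩
  · rintro ⟨i, hi⟩
    exact ⟨i, congrArg Sum.inl hi⟩

theorem inr_not_mem {x : β} : (Sum.inr x : α ⊕ β) ∉ range (fun i => (Sum.inl (f i) : α ⊕ β)) := by
  rintro ⟨i, hi⟩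
  cases hi

include h in
theorem b_mem (i : κ) : ((lw Ω f ls).add B).b (Sum.inl (f i)) = (ls i).1.1 := lw_b h.fam.inj i

include h in
theorem b_off {y : α ⊕ β} (hy : y ∉ range (fun i => (Sum.inl (f i) : α ⊕ β))) :
    ((lw Ω f ls).add B).b y = (Ω.add B).b y := by
  rcases y with y | y
  · exact lw_b_off fun h' => hy (inl_mem.2 h')
  · rfl

include h in
theorem b_le (y : α ⊕ β) : (Ω.add B).b y ≤ ((lw Ω f ls).add B).b y := by
  rcases y with y | y
  · exact h.fam.b_le y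
  · exact le_rfl

include h in
theorem b_nonneg (y : α ⊕ β) : 0 ≤ (Ω.add B).b y := by
  rcases y with y | y
  · exact h.pos y
  · exact h.posB y

include h in
theorem hidHyp (hΦ : AdmissiblePotential Φ) (hε : 0 < ε) :
    HidHyp Φ ε t Ω.b (Ω.path Φ ε) (Ω.add B).b ((Ω.add B).path Φ ε) ((lw Ω f ls).add B).b
      (((lw Ω f ls).add B).path Φ ε) Sum.inl (range fun i => (Sum.inl (f i) : α ⊕ β)) where
  hX := h.bw
  hX' := h.bwB
  hW := h.bwL
  inj := Sum.inl_injective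
  sub := by
    rintro _ ⟨i, rfl⟩
    exact ⟨f i, rfl⟩
  birth _ := rfl
  off y hy := h.b_off hy
  le := h.b_le
  pos := by
    rintro _ ⟨i, rfl⟩
    rw [h.b_mem]
    exact h.fam.pos i
  init a := by
    rw [MW.path_zero hΦ hε, MW.path_zero hΦ hε]
    rfl
  init' y hy := by
    rw [MW.path_zero hΦ hε, MW.path_zero hΦ hε]
    rcases y with y | y
    · exact (lw_z_off fun h' => hy (inl_mem.2 h')).symm
    · rfl
  match_ a ha hat := by
    obtain ⟨i, rfl⟩ := inl_mem.1 ha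
    rw [h.b_mem] at hat ⊢
    rw [h.fam.state i]
    exact path_birth hΦ hε h.bwL (h.b_mem i) (lw_z h.fam.inj i) (h.fam.pos i)
  closed u hu a a' ha hua ha' hd := by
    obtain ⟨i, rfl⟩ := inl_mem.1 ha
    rw [h.b_mem] at hua
    rcases hu.1.lt_or_eq with h0 | h0
    · obtain ⟨k, rfl, hk⟩ := h.fam.closed i u a' hua
        ⟨by rw [h.b0 i]; exact hu.1, ha', Or.inr (Or.inl (by rw [h.b0 i]; exact h0)), hd⟩
      exact ⟨inl_mem.2 ⟨k, rfl⟩, by rw [h.b_mem]; exact hk⟩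
    · subst h0
      by_cases hr : a' ∈ range f
      · obtain ⟨k, rfl⟩ := hr
        exact ⟨inl_mem.2 ⟨k, rfl⟩, by rw [h.b_mem]; exact h.fam.pos k⟩
      · exact absurd hd (not_le.2 (h.sep0 i a' hr ha'))
  avoid u hu a ha hua y hy hvis := by
    obtain ⟨i, rfl⟩ := inl_mem.1 ha
    rw [h.b_mem] at hua
    refine h.avoid u hu i hua y hy fun k hk => ?_
    by_contra hlt
    exact hvis ⟨⟨k, hk.symm⟩, by rw [hk, h.b_mem]; exact not_lt.1 hlt⟩

include h in
/-- Paths of the hidden members. -/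
theorem path_hid (hΦ : AdmissiblePotential Φ) (hε : 0 < ε) {u : ℝ} (hu : u ∈ Icc 0 t) {i : κ}
    (hi : u ≤ (ls i).1.1) : (Ω.add B).path Φ ε u (Sum.inl (f i)) = Ω.path Φ ε u (f i) :=
  ((h.hidHyp hΦ hε).agree hΦ hε (hu.1.trans hu.2) u hu).1 (f i) (inl_mem.2 ⟨i, rfl⟩)
    (by rw [h.b_mem]; exact hi)

include h in
/-- Paths of the visible particles. -/
theorem path_vis (hΦ : AdmissiblePotential Φ) (hε : 0 < ε) {u : ℝ} (hu : u ∈ Icc 0 t) {y : α ⊕ β}
    (hy : y ∈ range (fun i => (Sum.inl (f i) : α ⊕ β)) → ((lw Ω f ls).add B).b y ≤ u) :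
    (Ω.add B).path Φ ε u y = ((lw Ω f ls).add B).path Φ ε u y :=
  ((h.hidHyp hΦ hε).agree hΦ hε (hu.1.trans hu.2) u hu).2 y hy

include h in
/-- The family is closed in `Ω.add B` up to `t`. -/
theorem closed (hΦ : AdmissiblePotential Φ) (hε : 0 < ε) {s : ℝ} (hs : s ≤ t) {i : κ}
    (hi : s ≤ (ls i).1.1) {y : α ⊕ β} (hc : (Ω.add B).C Φ ε s (Sum.inl (f i)) y) :
    ∃ k, y = Sum.inl (f k) ∧ s ≤ (ls k).1.1 := by
  obtain ⟨c1, c2, c3, c4⟩ := hc
  have h0 : 0 ≤ s := (h.b_nonneg _).trans c1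
  by_contra hno
  push Not at hno
  have hyb : ((lw Ω f ls).add B).b y ≤ s := by
    by_cases hy : y ∈ range (fun i => (Sum.inl (f i) : α ⊕ β))
    · obtain ⟨k, rfl⟩ := hy
      rw [h.b_mem]
      exact (hno k rfl).le
    · rw [h.b_off hy]; exact c2
  have h1 := h.avoid s ⟨h0, hs⟩ i hi y hyb hno
  rw [← h.path_vis hΦ hε ⟨h0, hs⟩ fun _ => hyb, ← h.path_hid hΦ hε ⟨h0, hs⟩ hi] at h1
  exact absurd c4 (not_le.2 h1)

include h in
/-- A contact of two hidden members. -/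
theorem C_hid (hΦ : AdmissiblePotential Φ) (hε : 0 < ε) {s : ℝ} (hs : s ≤ t) {i k : κ}
    (hi : s ≤ (ls i).1.1) (hk : s ≤ (ls k).1.1) :
    (Ω.add B).C Φ ε s (Sum.inl (f i)) (Sum.inl (f k)) ↔ Ω.C Φ ε s (f i) (f k) := by
  have key : 0 ≤ s → ((Ω.add B).C Φ ε s (Sum.inl (f i)) (Sum.inl (f k)) ↔
      Ω.C Φ ε s (f i) (f k)) := by
    intro h0
    change (_ ∧ _ ∧ _ ∧ _) ↔ (_ ∧ _ ∧ _ ∧ _)
    rw [h.path_hid hΦ hε ⟨h0, hs⟩ hi, h.path_hid hΦ hε ⟨h0, hs⟩ hk]
    refine and_congr Iff.rfl (and_congr Iff.rfl (and_congr ?_ Iff.rfl))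
    refine or_congr ?_ Iff.rfl
    exact Sum.inl_injective.eq_iff
  constructor
  · intro hc
    exact (key ((h.b_nonneg _).trans (MW.C_born hc))).1 hc
  · intro hc
    exact (key ((h.pos _).trans (MW.C_born hc))).2 hc

include h in
/-- The own past of a hidden member. -/
theorem own_past (hΦ : AdmissiblePotential Φ) (hε : 0 < ε) {τ : ℝ} (hτ : τ ≤ t) {i : κ}
    (hi : τ ≤ (ls i).1.1) {s : ℝ} {y : α ⊕ β} :
    Past ((Ω.add B).C Φ ε) τ (Sum.inl (f i)) s y ↔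
      ∃ k, y = Sum.inl (f k) ∧ s ≤ (ls k).1.1 ∧ Past (Ω.C Φ ε) τ (f i) s (f k) := by
  constructor
  · intro hp
    induction hp with
    | @root s hs => exact ⟨i, rfl, hs.trans hi, .root hs⟩
    | @step s s' y y' hy hc hs ih =>
      obtain ⟨k, rfl, hk, hpk⟩ := ih
      obtain ⟨k', rfl, hk'⟩ := h.closed hΦ hε (hy.le.trans hτ) hk hc
      exact ⟨k', rfl, hs.trans hk',
        .step hpk ((h.C_hid hΦ hε (hy.le.trans hτ) hk hk').1 hc) hs⟩
  · rintro ⟨k, rfl, hk, hp⟩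
    have key : ∀ {s : ℝ} {a : α}, Past (Ω.C Φ ε) τ (f i) s a → ∃ k, a = f k ∧
        s ≤ (ls k).1.1 ∧ Past ((Ω.add B).C Φ ε) τ (Sum.inl (f i)) s (Sum.inl (f k)) := by
      intro s a hp
      induction hp with
      | @root s hs => exact ⟨i, rfl, hs.trans hi, .root hs⟩
      | @step s s' a a' ha hc hs ih =>
        obtain ⟨k, rfl, hk, hpk⟩ := ih
        obtain ⟨k', rfl, hk'⟩ := h.fam.closed k s' a' hk hc
        exact ⟨k', rfl, hs.trans hk',
          .step hpk ((h.C_hid hΦ hε (ha.le.trans hτ) hk hk').2 hc) hs⟩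
    obtain ⟨k', hk', _, hp'⟩ := key hp
    rw [hk']
    exact hp'

include h in
/-- The own size of a hidden member. -/
theorem own_msize (hΦ : AdmissiblePotential Φ) (hε : 0 < ε) {τ : ℝ} (hτ : τ ≤ t) {i : κ}
    (hi : τ ≤ (ls i).1.1) :
    msize ((Ω.add B).C Φ ε) (Ω.add B).m τ (Sum.inl (f i)) = msize (Ω.C Φ ε) Ω.m τ (f i) := by
  unfold msize
  rw [Fintype.sum_sum_type]
  have h1 : ∀ x : β, (if (Sum.inr x : α ⊕ β) ∈ BC ((Ω.add B).C Φ ε) τ (Sum.inl (f i)) then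
      (Ω.add B).m (Sum.inr x) else 0) = 0 := by
    intro x
    rw [if_neg]
    intro hp
    obtain ⟨k, hk, _⟩ := (h.own_past hΦ hε hτ hi).1 hp
    cases hk
  have h2 : ∀ a : α, (if (Sum.inl a : α ⊕ β) ∈ BC ((Ω.add B).C Φ ε) τ (Sum.inl (f i)) then
      (Ω.add B).m (Sum.inl a) else 0) = if a ∈ BC (Ω.C Φ ε) τ (f i) then Ω.m a else 0 := by
    intro a
    have h3 : (Sum.inl a : α ⊕ β) ∈ BC ((Ω.add B).C Φ ε) τ (Sum.inl (f i)) ↔
        a ∈ BC (Ω.C Φ ε) τ (f i) := by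
      constructor
      · intro hp
        obtain ⟨k, hk, _, hp'⟩ := (h.own_past hΦ hε hτ hi).1 hp
        rw [Sum.inl_injective hk]
        exact hp'
      · intro hp
        have hcl := Lines255.own_past (C := Ω.C Φ ε) h.fam.closed' (j := f i) ⟨i, rfl⟩
          (s₀ := τ) (by rw [lw_b h.fam.inj]; exact hi) hp
        obtain ⟨⟨k, rfl⟩, hk⟩ := hcl
        rw [lw_b h.fam.inj] at hk
        exact (h.own_past hΦ hε hτ hi).2 ⟨k, rfl, hk, hp⟩
    exact if_congr h3 rfl rfl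
  rw [Finset.sum_congr rfl fun a _ => h2 a, Finset.sum_congr rfl fun x _ => h1 x,
    Finset.sum_const_zero, add_zero]

include h in
/-- **`LinesTo` for `Ω.add B`.** -/
theorem linesTo (hΦ : AdmissiblePotential Φ) (hε : 0 < ε) (hK : ∀ i, (ls i).2 ≤ K)
    (hs : ∀ i, msize (Ω.C Φ ε) Ω.m (ls i).1.1 (f i) = (ls i).2) :
    LinesTo ((Ω.add B).C Φ ε) (((lw Ω f ls).add B).C Φ ε) (Ω.add B).m ((lw Ω f ls).add B).m
      (range fun i => (Sum.inl (f i) : α ⊕ β)) ((lw Ω f ls).add B).b K t where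
  symm _ _ _ hc := MW.C_symm _ hc
  closed := by
    rintro s hst _ y ⟨i, rfl⟩ hi hc
    rw [h.b_mem] at hi
    obtain ⟨k, rfl, hk⟩ := h.closed hΦ hε hst hi hc
    exact ⟨⟨k, rfl⟩, by rw [h.b_mem]; exact hk⟩
  of_strict := by
    intro s hst x y hc hx hy
    obtain ⟨c1, c2, c3, c4⟩ := hc
    have h0 : 0 ≤ s := (h.b_nonneg _).trans c1
    have hbx : ((lw Ω f ls).add B).b x ≤ s := by
      by_cases hD : x ∈ range (fun i => (Sum.inl (f i) : α ⊕ β))
      · exact (hx hD).le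
      · rw [h.b_off hD]; exact c1
    have hby : ((lw Ω f ls).add B).b y ≤ s := by
      by_cases hD : y ∈ range (fun i => (Sum.inl (f i) : α ⊕ β))
      · exact (hy hD).le
      · rw [h.b_off hD]; exact c2
    refine ⟨hbx, hby, ?_, ?_⟩
    · rcases c3 with c3 | c3 | c3
      · exact Or.inl c3
      · right; left
        by_cases hD : x ∈ range (fun i => (Sum.inl (f i) : α ⊕ β))
        · exact hx hD
        · rw [h.b_off hD]; exact c3
      · right; right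
        by_cases hD : y ∈ range (fun i => (Sum.inl (f i) : α ⊕ β))
        · exact hy hD
        · rw [h.b_off hD]; exact c3
    · rw [← h.path_vis hΦ hε ⟨h0, hst⟩ fun _ => hbx, ← h.path_vis hΦ hε ⟨h0, hst⟩ fun _ => hby]
      exact c4
  sub := by
    intro s hst x y hc
    obtain ⟨c1, c2, c3, c4⟩ := hc
    have h0 : 0 ≤ s := (h.b_nonneg x).trans ((h.b_le x).trans c1)
    refine ⟨(h.b_le x).trans c1, (h.b_le y).trans c2, ?_, ?_⟩
    · rcases c3 with c3 | c3 | c3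
      · exact Or.inl c3
      · exact Or.inr (Or.inl ((h.b_le x).trans_lt c3))
      · exact Or.inr (Or.inr ((h.b_le y).trans_lt c3))
    · rw [h.path_vis hΦ hε ⟨h0, hst⟩ fun _ => c1, h.path_vis hΦ hε ⟨h0, hst⟩ fun _ => c2]
      exact c4
  left _ _ _ hc _ := hc.1
  right _ _ _ hc _ := hc.2.1
  pos := by
    rintro _ ⟨i, rfl⟩
    rw [h.b_mem]
    exact h.fam.pos i
  off y hy := by
    rcases y with y | y
    · exact lw_m_off fun h' => hy (inl_mem.2 h')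
    · rfl
  mark := by
    rintro _ ⟨i, rfl⟩ hi
    rw [h.b_mem] at hi ⊢
    rw [h.own_msize hΦ hε hi le_rfl, hs i]
    exact (lw_m h.fam.inj i).symm
  clean := by
    rintro _ ⟨i, rfl⟩
    exact (lw_m h.fam.inj i).le.trans (hK i)
  clean' := by
    rintro _ ⟨i, rfl⟩ hi
    rw [h.b_mem] at hi
    rw [h.own_msize hΦ hε le_rfl hi.le]
    exact (msize_mono hi.le (f i)).trans ((hs i).le.trans (hK i))

include h in
/-- **Touches at the time `t`**: real family versus its lines. -/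
theorem touched_iff (hΦ : AdmissiblePotential Φ) (hε : 0 < ε) (hK : ∀ i, (ls i).2 ≤ K)
    (hs : ∀ i, msize (Ω.C Φ ε) Ω.m (ls i).1.1 (f i) = (ls i).2)
    (hP₁ : ∀ y, Ω.Inf Φ ε K t y ↔ (lw Ω f ls).Inf Φ ε K t y)
    (hP₂ : ∀ y, (Ω.add B).Inf Φ ε K t y ↔ ((lw Ω f ls).add B).Inf Φ ε K t y) :
    Ω.Touched Φ ε K B t ↔ (lw Ω f ls).Touched Φ ε K B t := by
  exact touched_iff_to (FamIn.compat (f := f) (ls := ls) B hΦ hε)
    (h.fam.linesTo hΦ hε h.bw h.pos hK hs t) (h.linesTo hΦ hε hK hs) hP₁ hP₂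

end HidIn

end

end Crest.Agent.R122.Hid879
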