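import Crest.Agent.R122.ClusterBC_311

/-!
# Measure-level one-contact step (row 122, board H1), part 1: Mecke formula with a parameter

`param_mecke`: a marked particle `i` of the gas and a parameter `a` (for instance an inserted line
`l`, or a pair of lines `(d, e)`), a cluster map `cl n Z i a` depending on the parameter.
The parameter is integrated with respect to a measure `ν`, the cluster is opened by Mecke.
-/

set_option autoImplicit false
open MeasureTheory
open scoped Classical ENNReal
open Crest.AnalysisR.Kinetic
open Crest.Agent.R122.GC311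
noncomputable section

namespace Crest.Agent.R122.OC285

variable {α : Type*} [MeasurableSpace α]

/-- A cluster map with one marked particle and a parameter. -/
structure PClusterMap (ε : ℝ)
    (cl : (n : ℕ) → Config n → Fin n → α → Finset (Fin n)) : Prop where
  /-- the marked particle belongs to its cluster whenever the cluster is nonempty -/
  self_mem : ∀ n Z i a, Z ∈ PairExcluded ε n → (cl n Z i a).Nonempty → i ∈ cl n Z i a
  equiv : ∀ (n : ℕ) (σ : Equiv.Perm (Fin n)) (Z : Config n) (i : Fin n) (a : α),
    Z ∈ PairExcluded ε n →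
    cl n Z (σ i) a = (cl n (fun i => Z (σ i)) i a).map σ.toEmbedding
  meas : ∀ n i B, MeasurableSet {p : Config n × α | cl n p.1 i p.2 = B}

/-- **Mecke formula for clusters with a parameter** (functionals of the marked particle, its
cluster, the configuration and the parameter; the parameter is integrated). Empty clusters are
ignored: take `cl = ∅` to encode that the event does not happen. -/
theorem param_mecke {f₀ : PhasePoint → ℝ} (hf : Measurable f₀) {ε : ℝ} (ν : Measure α)
    [SFinite ν] {cl : (n : ℕ) → Config n → Fin n → α → Finset (Fin n)}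
    (hcl : PClusterMap ε cl)
    {F : (n : ℕ) → Fin n → Finset (Fin n) → Config n → α → ℝ≥0∞}
    (hF : ∀ (n : ℕ) (σ : Equiv.Perm (Fin n)) (i : Fin n) (B : Finset (Fin n)) (Z : Config n)
      (a : α), Z ∈ PairExcluded ε n →
      F n (σ i) (B.map σ.toEmbedding) Z a = F n i B (fun i => Z (σ i)) a)
    (hFm : ∀ n i B, Measurable fun p : Config n × α => F n i B p.1 p.2) :
    gcE f₀ ε (fun n Z => ∑ i : Fin n, ∫⁻ a,
        (if (cl n Z i a).Nonempty then F n i (cl n Z i a) Z a else 0) ∂ν) =
      ∑' k : ℕ, activity ε ^ (k + 1) / ((k + 1).factorial : ℝ≥0∞) *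
        ∫⁻ V : Config (k + 1), gcWeight f₀ ε (k + 1) V *
        gcE f₀ ε (fun m w => perpInd ε V w * ∑ j : Fin (k + 1), ∫⁻ a,
          (if cl (k + 1 + m) (Fin.append V w) (Fin.castAdd m j) a = block (k + 1) m then
            F (k + 1 + m) (Fin.castAdd m j) (block (k + 1) m) (Fin.append V w) a else 0) ∂ν) := by
  set G : (n : ℕ) → Finset (Fin n) → Config n → ℝ≥0∞ := fun n B Z =>
    ∑ i : Fin n, ∫⁻ a, (if cl n Z i a = B then F n i B Z a else 0) ∂ν with hG
  have hGm : ∀ n B, Measurable (G n B) := by
    intro n B
    refine Finset.measurable_sum _ fun i _ => ?_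
    have h : Measurable fun p : Config n × α => if cl n p.1 i p.2 = B then F n i B p.1 p.2 else 0 :=
      Measurable.ite (hcl.meas n i B) (hFm n i B) measurable_const
    exact h.lintegral_prod_right'
  have hGe : ∀ (n : ℕ) (σ : Equiv.Perm (Fin n)) (B : Finset (Fin n)) (Z : Config n),
      Z ∈ PairExcluded ε n → G n (B.map σ.toEmbedding) Z = G n B (fun i => Z (σ i)) := by
    intro n σ B Z hZ
    simp only [hG]
    rw [← Equiv.sum_comp σ (fun i : Fin n => ∫⁻ a, (if cl n Z i a = B.map σ.toEmbedding then
        F n i (B.map σ.toEmbedding) Z a else 0) ∂ν)]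
    refine Finset.sum_congr rfl fun i _ => lintegral_congr fun a => ?_
    rw [hcl.equiv n σ Z i a hZ, hF n σ i B Z a hZ]
    by_cases h : cl n (fun i => Z (σ i)) i a = B
    · rw [if_pos h, if_pos (by rw [h])]
    · rw [if_neg h, if_neg]
      intro hc
      exact h (Finset.map_injective _ hc)
  -- decomposition according to the cluster
  have hdec : ∀ (n : ℕ) (Z : Config n), (∑ i : Fin n, ∫⁻ a,
        (if (cl n Z i a).Nonempty then F n i (cl n Z i a) Z a else 0) ∂ν) =
      ∑' k : ℕ, ∑ B ∈ (Finset.univ : Finset (Fin n)).powersetCard (k + 1), G n B Z := by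
    intro n Z
    have h0 : ∀ k ∉ Finset.range n,
        ∑ B ∈ (Finset.univ : Finset (Fin n)).powersetCard (k + 1), G n B Z = 0 := by
      intro k hk
      rw [Finset.powersetCard_eq_empty.2, Finset.sum_empty]
      simp only [Finset.mem_range, not_lt] at hk
      simpa using Nat.lt_succ_of_le hk
    rw [tsum_eq_sum h0]
    have h1 : ∑ k ∈ Finset.range (n + 1),
        ∑ B ∈ (Finset.univ : Finset (Fin n)).powersetCard k, G n B Z =
        ∑ B ∈ (Finset.univ : Finset (Fin n)).powerset, G n B Z := by
      rw [Finset.sum_powerset]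
      simp
    rw [Finset.sum_range_succ'] at h1
    have h2 : ∑ B ∈ (Finset.univ : Finset (Fin n)).powerset, G n B Z =
        (∑ i : Fin n, ∫⁻ a,
          (if (cl n Z i a).Nonempty then F n i (cl n Z i a) Z a else 0) ∂ν) + G n ∅ Z := by
      have h3 : ∑ B ∈ (Finset.univ : Finset (Fin n)).powerset, G n B Z =
          (∑ B ∈ ((Finset.univ : Finset (Fin n)).powerset).erase ∅, G n B Z) + G n ∅ Z := by
        rw [Finset.sum_erase_add _ _ (Finset.empty_mem_powerset _)]
      rw [h3]
      congr 1
      simp only [hG]
      rw [Finset.sum_comm]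
      refine Finset.sum_congr rfl fun i _ => ?_
      rw [← lintegral_finsetSum']
      · refine lintegral_congr fun a => ?_
        rw [Finset.sum_ite_eq]
        by_cases hne : (cl n Z i a).Nonempty
        · rw [if_pos hne, if_pos]
          rw [Finset.mem_erase]
          exact ⟨hne.ne_empty, Finset.mem_powerset.2 (Finset.subset_univ _)⟩
        · rw [if_neg hne, if_neg]
          rw [Finset.mem_erase]
          intro hc
          exact hne (Finset.nonempty_iff_ne_empty.2 hc.1)
      · intro B _
        have h : Measurable fun p : Config n × α =>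
            if cl n p.1 i p.2 = B then F n i B p.1 p.2 else 0 :=
          Measurable.ite (hcl.meas n i B) (hFm n i B) measurable_const
        exact (h.comp measurable_prodMk_left).aemeasurable
    rw [h2] at h1
    rw [Finset.powersetCard_zero, Finset.sum_singleton] at h1
    -- cancel `G n ∅ Z`; it may be infinite, so argue directly
    have h4 : ∑ k ∈ Finset.range n,
        ∑ B ∈ (Finset.univ : Finset (Fin n)).powersetCard (k + 1), G n B Z =
        ∑ B ∈ ((Finset.univ : Finset (Fin n)).powerset).erase ∅, G n B Z := by
      have h5 : ((Finset.univ : Finset (Fin n)).powerset).erase ∅ =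
          (Finset.range n).biUnion
            fun k => (Finset.univ : Finset (Fin n)).powersetCard (k + 1) := by
        ext B
        simp only [Finset.mem_erase, Finset.mem_powerset, Finset.mem_biUnion, Finset.mem_range,
          Finset.mem_powersetCard]
        constructor
        · rintro ⟨hne, hsub⟩
          have hc : 0 < B.card := Finset.card_pos.2 (Finset.nonempty_iff_ne_empty.2 hne)
          have hle : B.card ≤ n := by simpa using Finset.card_le_card hsub
          exact ⟨B.card - 1, by omega, hsub, by omega⟩
        · rintro ⟨k, hk, hsub, hcard⟩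
          refine ⟨?_, hsub⟩
          rintro rfl
          simp at hcard
      rw [h5, Finset.sum_biUnion]
      intro k _ k' _ hkk'
      rw [Function.onFun, Finset.disjoint_left]
      intro B hB hB'
      rw [Finset.mem_powersetCard] at hB hB'
      apply hkk'
      omega
    rw [h4]
    simp only [hG]
    rw [Finset.sum_comm]
    refine Finset.sum_congr rfl fun i _ => ?_
    rw [← lintegral_finsetSum']
    · refine lintegral_congr fun a => ?_
      rw [Finset.sum_ite_eq]
      by_cases hne : (cl n Z i a).Nonempty
      · rw [if_pos hne, if_pos]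
        rw [Finset.mem_erase]
        exact ⟨hne.ne_empty, Finset.mem_powerset.2 (Finset.subset_univ _)⟩
      · rw [if_neg hne, if_neg]
        rw [Finset.mem_erase]
        intro hc
        exact hne (Finset.nonempty_iff_ne_empty.2 hc.1)
    · intro B _
      have h : Measurable fun p : Config n × α =>
          if cl n p.1 i p.2 = B then F n i B p.1 p.2 else 0 :=
        Measurable.ite (hcl.meas n i B) (hFm n i B) measurable_const
      exact (h.comp measurable_prodMk_left).aemeasurable
  have hcong : gcE f₀ ε (fun n Z => ∑ i : Fin n, ∫⁻ a,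
        (if (cl n Z i a).Nonempty then F n i (cl n Z i a) Z a else 0) ∂ν) =
      gcE f₀ ε (fun n Z => ∑' k : ℕ,
        ∑ B ∈ (Finset.univ : Finset (Fin n)).powersetCard (k + 1), G n B Z) :=
    gcE_congr f₀ ε fun n Z _ => hdec n Z
  rw [hcong, gcE_tsum hf ε (fun k n => Finset.measurable_sum _ fun B _ => hGm n B)]
  refine tsum_congr fun k => ?_
  rw [mecke_finset hf (k + 1) hGe hGm]
  congr 1
  refine lintegral_congr fun V => ?_
  by_cases hV : V ∈ PairExcluded ε (k + 1)
  swap
  · have : gcWeight f₀ ε (k + 1) V = 0 := by simp [gcWeight, Set.indicator_of_notMem hV]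
    rw [this, zero_mul, zero_mul]
  congr 1
  refine gcE_congr f₀ ε fun m w hw => ?_
  unfold perpInd
  by_cases hp : Perp ε V w
  swap
  · rw [if_neg hp, zero_mul, zero_mul]
  rw [if_pos hp, one_mul, one_mul]
  have hVw : (Fin.append V w : Config (k + 1 + m)) ∈ PairExcluded ε (k + 1 + m) :=
    (append_mem_pairExcluded_iff V w).2 ⟨hV, hw, hp⟩
  simp only [hG]
  change (∑ i : Fin (k + 1 + m), ∫⁻ a, (if cl (k + 1 + m) (Fin.append V w) i a = block (k + 1) m
    then F (k + 1 + m) i (block (k + 1) m) (Fin.append V w) a else 0) ∂ν) = _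
  -- only marks in the block contribute
  rw [Fin.sum_univ_add]
  have hzero : ∑ i : Fin m, ∫⁻ a, (if cl (k + 1 + m) (Fin.append V w) (Fin.natAdd (k + 1) i) a =
      block (k + 1) m then F (k + 1 + m) (Fin.natAdd (k + 1) i) (block (k + 1) m)
        (Fin.append V w) a else 0) ∂ν = 0 := by
    refine Finset.sum_eq_zero fun i _ => ?_
    refine (lintegral_congr fun a => ?_).trans (lintegral_zero (μ := ν))
    rw [if_neg]
    intro hc
    have hne : (cl (k + 1 + m) (Fin.append V w) (Fin.natAdd (k + 1) i) a).Nonempty := by
      rw [hc]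
      exact ⟨Fin.castAdd m 0, castAdd_mem_block _⟩
    have hmem := hcl.self_mem (k + 1 + m) (Fin.append V w) (Fin.natAdd (k + 1) i) a hVw hne
    rw [hc] at hmem
    obtain ⟨j, hj⟩ := mem_block.1 hmem
    have := congrArg Fin.val hj
    simp at this
    omega
  rw [hzero, add_zero]

end Crest.Agent.R122.OC285
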