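import Crest.Agent.R122.BoltzEn_814

/-!
Row 122 (helper814): weights on collision trees, parameter form of the kinetic bounds.

* `eng Φ P v p` : the energy `∑ ‖v_i‖²` of the leaves.
* `KinC` : the constants of `exists_energy_moments` as a predicate, `exists_kinC`.
* `KinC.param`, `KinC.paramS` : bounds of `∑ lam^size ∫ wt * exp (kap * eng) * dens(S)`.
* `KinC.weightS`, `KinC.tailS` : the same for an arbitrary weight `phi` with
  `phi ≤ M * lam₁ ^ size * exp (kap * eng)`; `sum_weight_le` : the additive weight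
  `∑ (1 + ‖v_i‖²)` is such a weight.
-/

set_option autoImplicit false
set_option linter.unusedSectionVars false
open MeasureTheory ProbabilityTheory Set
open Crest.AnalysisR.Kinetic
open Crest.Agent.R122.Boltz814 Crest.Agent.R122.Kin416 Crest.Agent.R122.Kin796
  Crest.Agent.R122.Disc416 Crest.Agent.R122.Tree674 Crest.Agent.R122.Scat818
  Crest.Agent.R122.TreeF399
open scoped Classical ENNReal

noncomputable section

namespace Crest.Agent.R122.Seg814

variable {Φ : Space3 → ℝ} {β T : ℝ} {f₀ : PhasePoint → ℝ} {f : ℝ → PhasePoint → ℝ}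

/-- Energy of the leaves. -/
def eng (Φ : Space3 → ℝ) (P : CTree) (v : Space3) (p : Par P) : ℝ :=
  ∑ i : Idx P, ‖vels Φ P v p i‖ ^ 2

theorem eng_nonneg (P : CTree) (v : Space3) (p : Par P) : 0 ≤ eng Φ P v p :=
  Finset.sum_nonneg fun _ _ => sq_nonneg _

theorem sq_le_eng (P : CTree) (v : Space3) (p : Par P) (i : Idx P) :
    ‖vels Φ P v p i‖ ^ 2 ≤ eng Φ P v p :=
  Finset.single_le_sum (f := fun i => ‖vels Φ P v p i‖ ^ 2) (fun _ _ => sq_nonneg _)
    (Finset.mem_univ i)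

theorem eng_leaf (v : Space3) (p : Par .leaf) : eng Φ .leaf v p = ‖v‖ ^ 2 := by
  change (∑ _i : Unit, ‖v‖ ^ 2) = ‖v‖ ^ 2
  simp

theorem eng_node (l r : CTree) (v : Space3) (p : Par (.node l r)) :
    eng Φ (.node l r) v p = eng Φ l (preV Φ v p.1).1 p.2.1 + eng Φ r (preV Φ v p.1).2 p.2.2 := by
  unfold eng
  change (∑ i : Idx l ⊕ Idx r, ‖vels Φ (.node l r) v p i‖ ^ 2) = _
  rw [Fintype.sum_sum_type]
  rfl

/-- The constants of the kinetic bounds: window length `h₀`, energy weight `kap`, size marker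
`lam`, bound `C * exp (-b‖v‖²)`. -/
def KinC (Φ : Space3 → ℝ) (T : ℝ) (f : ℝ → PhasePoint → ℝ) (h₀ kap lam C b : ℝ) : Prop :=
  0 < h₀ ∧ 0 < kap ∧ 1 < lam ∧ 0 ≤ C ∧ 0 < b ∧
    ∀ tw ∈ Icc 0 T, ∀ t ∈ Icc 0 (tw + h₀), ∀ x v,
      ∑' τ : CTree, ENNReal.ofReal lam ^ τ.size *
        F (kapQ Φ) (Dwin (damp T f) tw) (fEn T f kap) τ t x v ≤ ENNReal.ofReal C * wG b v ∧
      ∑' τ : CTree, ENNReal.ofReal lam ^ τ.size *
        FS (kapQ Φ) (Dwin (damp T f) tw) (fEn T f kap) τ t x v ≤ ENNReal.ofReal C * wG b v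

theorem exists_kinC (hβ : 0 < β) (hT : 0 < T) (hΦ : AdmissiblePotential Φ)
    (hf : IsRegularKineticSolution Φ β T f₀ f) :
    ∃ h₀ kap lam C b : ℝ, KinC Φ T f h₀ kap lam C b := exists_energy_moments hβ hT hΦ hf

/-- the weighted integrand over the tree parameters (root damped) -/
def wD (Φ : Space3 → ℝ) (T : ℝ) (f : ℝ → PhasePoint → ℝ) (tw : ℝ) (P : CTree) (t : ℝ)
    (x v : Space3) (p : Par P) : ℝ≥0∞ :=
  {p | Valid Φ 0 P t v p}.indicator (fun p => wt Φ P v p *
    dens Φ (Dwin (damp T f) tw) (fE T f 0) P t (x - t • v, v) p) p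

/-- the weighted integrand over the tree parameters (straight line of the root undamped) -/
def wS (Φ : Space3 → ℝ) (T : ℝ) (f : ℝ → PhasePoint → ℝ) (tw : ℝ) (P : CTree) (t : ℝ)
    (x v : Space3) (p : Par P) : ℝ≥0∞ :=
  {p | Valid Φ 0 P t v p}.indicator (fun p => wt Φ P v p *
    densS Φ (Dwin (damp T f) tw) (fE T f 0) P t (x - t • v, v) p) p

theorem wD_eq_Wt (tw : ℝ) (P : CTree) (t : ℝ)
    (x v : Space3) (p : Par P) :
    wD Φ T f tw P t x v p = Wt Φ (Dwin (damp T f) tw) (fE T f 0) P t x v p := weight_eq P t x v p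

theorem wS_eq_WtS (tw : ℝ) (P : CTree) (t : ℝ)
    (x v : Space3) (p : Par P) :
    wS Φ T f tw P t x v p = WtS Φ (Dwin (damp T f) tw) (fE T f 0) P t x v p :=
  weightS_eq P t x v p

theorem F_energy (hΦ : AdmissiblePotential Φ) (hf : IsRegularKineticSolution Φ β T f₀ f)
    (kap tw : ℝ) (P : CTree) (t : ℝ) (x v : Space3) :
    F (kapQ Φ) (Dwin (damp T f) tw) (fEn T f kap) P t x v =
      ∫⁻ p : Par P, ENNReal.ofReal (Real.exp (kap * eng Φ P v p)) * wD Φ T f tw P t x v p := by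
  rw [← lintegral_Wt hΦ (meas4_Dwin (meas4_damp hf) tw) (measurable_fEn hf kap) P t x v]
  refine lintegral_congr fun p => ?_
  rw [← weight_eq (Φ := Φ)]
  unfold wD
  by_cases h : p ∈ {p | Valid Φ 0 P t v p}
  · rw [indicator_of_mem h, indicator_of_mem h]
    have h1 := dens_weight (Φ := Φ) (D := Dwin (damp T f) tw) (f0 := fE T f 0)
      (fun v => ENNReal.ofReal (Real.exp (kap * ‖v‖ ^ 2))) P t (x - t • v, v) p
    have h2 : dens Φ (Dwin (damp T f) tw) (fEn T f kap) P t (x - t • v, v) p = _ := h1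
    rw [h2, prod_exp_weight]
    unfold eng
    ring
  · rw [indicator_of_notMem h, indicator_of_notMem h, mul_zero]

theorem FS_energy (hΦ : AdmissiblePotential Φ) (hf : IsRegularKineticSolution Φ β T f₀ f)
    (kap tw : ℝ) (P : CTree) (t : ℝ) (x v : Space3) :
    FS (kapQ Φ) (Dwin (damp T f) tw) (fEn T f kap) P t x v =
      ∫⁻ p : Par P, ENNReal.ofReal (Real.exp (kap * eng Φ P v p)) * wS Φ T f tw P t x v p := by
  rw [FS_eq hΦ (meas4_Dwin (meas4_damp hf) tw) (measurable_fEn hf kap) P t x v]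
  refine lintegral_congr fun p => ?_
  unfold wS
  by_cases h : p ∈ {p | Valid Φ 0 P t v p}
  · rw [indicator_of_mem h, indicator_of_mem h]
    have h1 := densS_weight (Φ := Φ) (D := Dwin (damp T f) tw) (f0 := fE T f 0)
      (fun v => ENNReal.ofReal (Real.exp (kap * ‖v‖ ^ 2))) P t (x - t • v, v) p
    have h2 : densS Φ (Dwin (damp T f) tw) (fEn T f kap) P t (x - t • v, v) p = _ := h1
    rw [h2, prod_exp_weight]
    unfold eng
    ring
  · rw [indicator_of_notMem h, indicator_of_notMem h, mul_zero]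

section bounds

variable {h₀ kap lam C b : ℝ}

/-- General weights, root damped. -/
theorem KinC.weight (hΦ : AdmissiblePotential Φ) (hf : IsRegularKineticSolution Φ β T f₀ f)
    (hK : KinC Φ T f h₀ kap lam C b) {phi : ∀ P : CTree, Space3 → Par P → ℝ≥0∞} {M : ℝ≥0∞}
    (hM : M ≠ ∞)
    (hphi : ∀ P v p, phi P v p ≤ M * ENNReal.ofReal lam ^ P.size *
      ENNReal.ofReal (Real.exp (kap * eng Φ P v p)))
    {tw : ℝ} (htw : tw ∈ Icc 0 T) {t : ℝ} (ht : t ∈ Icc 0 (tw + h₀)) (x v : Space3) :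
    ∑' P : CTree, ∫⁻ p : Par P, phi P v p * wD Φ T f tw P t x v p ≤
      M * (ENNReal.ofReal C * wG b v) := by
  refine le_trans ?_ (mul_le_mul' le_rfl (hK.2.2.2.2.2 tw htw t ht x v).1)
  rw [← ENNReal.tsum_mul_left]
  refine ENNReal.tsum_le_tsum fun P => ?_
  have hfin : M * ENNReal.ofReal lam ^ P.size ≠ ∞ :=
    ENNReal.mul_ne_top hM (ENNReal.pow_ne_top ENNReal.ofReal_ne_top)
  rw [F_energy hΦ hf, ← mul_assoc, ← lintegral_const_mul' _ _ hfin]
  refine lintegral_mono fun p => ?_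
  rw [← mul_assoc]
  exact mul_le_mul' (hphi P v p) le_rfl

/-- General weights, straight line of the root undamped. -/
theorem KinC.weightS (hΦ : AdmissiblePotential Φ) (hf : IsRegularKineticSolution Φ β T f₀ f)
    (hK : KinC Φ T f h₀ kap lam C b) {phi : ∀ P : CTree, Space3 → Par P → ℝ≥0∞} {M : ℝ≥0∞}
    (hM : M ≠ ∞)
    (hphi : ∀ P v p, phi P v p ≤ M * ENNReal.ofReal lam ^ P.size *
      ENNReal.ofReal (Real.exp (kap * eng Φ P v p)))
    {tw : ℝ} (htw : tw ∈ Icc 0 T) {t : ℝ} (ht : t ∈ Icc 0 (tw + h₀)) (x v : Space3) :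
    ∑' P : CTree, ∫⁻ p : Par P, phi P v p * wS Φ T f tw P t x v p ≤
      M * (ENNReal.ofReal C * wG b v) := by
  refine le_trans ?_ (mul_le_mul' le_rfl (hK.2.2.2.2.2 tw htw t ht x v).2)
  rw [← ENNReal.tsum_mul_left]
  refine ENNReal.tsum_le_tsum fun P => ?_
  have hfin : M * ENNReal.ofReal lam ^ P.size ≠ ∞ :=
    ENNReal.mul_ne_top hM (ENNReal.pow_ne_top ENNReal.ofReal_ne_top)
  rw [FS_energy hΦ hf, ← mul_assoc, ← lintegral_const_mul' _ _ hfin]
  refine lintegral_mono fun p => ?_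
  rw [← mul_assoc]
  exact mul_le_mul' (hphi P v p) le_rfl

/-- size tails: a weight growing like `lam₁ ^ size`, `lam₁ < lam`, restricted to the trees with at
least `m` collisions -/
theorem tail_weight {lam lam₁ : ℝ} (h1 : 0 < lam₁) (h2 : lam₁ ≤ lam) {M e : ℝ≥0∞} {n m : ℕ}
    (hn : m ≤ n) : M * ENNReal.ofReal lam₁ ^ n * e ≤
      (M * ENNReal.ofReal (lam₁ / lam) ^ m) * ENNReal.ofReal lam ^ n * e := by
  have hlam : 0 < lam := lt_of_lt_of_le h1 h2
  refine mul_le_mul' ?_ le_rfl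
  rw [mul_assoc]
  refine mul_le_mul' le_rfl ?_
  rw [← ENNReal.ofReal_pow h1.le, ← ENNReal.ofReal_pow hlam.le,
    ← ENNReal.ofReal_pow (by positivity), ← ENNReal.ofReal_mul (by positivity)]
  refine ENNReal.ofReal_le_ofReal ?_
  obtain ⟨k, rfl⟩ := Nat.exists_eq_add_of_le hn
  rw [pow_add, pow_add, div_pow, ← mul_assoc, div_mul_cancel₀ _ (by positivity)]
  exact mul_le_mul_of_nonneg_left (pow_le_pow_left₀ h1.le h2 k) (by positivity)

/-- Tails, straight line of the root undamped. -/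
theorem KinC.tailS (hΦ : AdmissiblePotential Φ) (hf : IsRegularKineticSolution Φ β T f₀ f)
    (hK : KinC Φ T f h₀ kap lam C b) {phi : ∀ P : CTree, Space3 → Par P → ℝ≥0∞} {M : ℝ≥0∞}
    (hM : M ≠ ∞) {lam₁ : ℝ} (h1 : 0 < lam₁) (h2 : lam₁ ≤ lam)
    (hphi : ∀ P v p, phi P v p ≤ M * ENNReal.ofReal lam₁ ^ P.size *
      ENNReal.ofReal (Real.exp (kap * eng Φ P v p))) (m : ℕ)
    {tw : ℝ} (htw : tw ∈ Icc 0 T) {t : ℝ} (ht : t ∈ Icc 0 (tw + h₀)) (x v : Space3) :
    ∑' P : CTree, ∫⁻ p : Par P, (if m ≤ P.size then phi P v p else 0) * wS Φ T f tw P t x v p ≤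
      M * ENNReal.ofReal (lam₁ / lam) ^ m * (ENNReal.ofReal C * wG b v) := by
  refine hK.weightS hΦ hf (phi := fun P v p => if m ≤ P.size then phi P v p else 0)
    (ENNReal.mul_ne_top hM (ENNReal.pow_ne_top ENNReal.ofReal_ne_top)) (fun P v p => ?_) htw ht x v
  by_cases h : m ≤ P.size
  · simp only [if_pos h]
    exact (hphi P v p).trans (tail_weight h1 h2 h)
  · simp only [if_neg h]
    exact bot_le

end bounds

/-! ### The additive weight -/

theorem exists_nat_le_pow {lam : ℝ} (h : 1 < lam) : ∃ M : ℝ, 0 < M ∧ ∀ n : ℕ,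
    ((n : ℝ) + 1) ≤ M * lam ^ n := by
  refine ⟨1 + 1 / (lam - 1), by have : 0 < lam - 1 := by linarith
                                positivity, fun n => ?_⟩
  have h0 : 0 < lam - 1 := by linarith
  have h1 : 1 + (n : ℝ) * (lam - 1) ≤ lam ^ n := by
    have := one_add_mul_le_pow (a := lam - 1) (by linarith) n
    simpa using this
  have h2 : (n : ℝ) ≤ 1 / (lam - 1) * lam ^ n := by
    rw [one_div, inv_mul_eq_div, le_div_iff₀ h0]
    linarith
  have h3 : (1 : ℝ) ≤ lam ^ n := one_le_pow₀ h.le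
  nlinarith

/-- The additive weight `∑ (1 + ‖v_i‖²)` is dominated by `lam ^ size * exp (kap * eng)`. -/
theorem exists_additive_le {lam kap : ℝ} (hlam : 1 < lam) (hkap : 0 < kap) :
    ∃ M : ℝ, 0 < M ∧ ∀ (P : CTree) (v : Space3) (p : Par P),
      ∑ i : Idx P, ENNReal.ofReal (1 + ‖vels Φ P v p i‖ ^ 2) ≤
        ENNReal.ofReal M * ENNReal.ofReal lam ^ P.size *
          ENNReal.ofReal (Real.exp (kap * eng Φ P v p)) := by
  obtain ⟨M, hM, h⟩ := exists_nat_le_pow hlam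
  refine ⟨M * (1 + 1 / kap), by positivity, fun P v p => ?_⟩
  have hlam0 : 0 < lam := by linarith
  have h1 : ∀ i : Idx P, 1 + ‖vels Φ P v p i‖ ^ 2 ≤
      (1 + 1 / kap) * Real.exp (kap * eng Φ P v p) := by
    intro i
    have h2 := sq_le_eng (Φ := Φ) P v p i
    have h3 : kap * eng Φ P v p + 1 ≤ Real.exp (kap * eng Φ P v p) := Real.add_one_le_exp _
    have h4 : 1 ≤ Real.exp (kap * eng Φ P v p) :=
      Real.one_le_exp (mul_nonneg hkap.le (eng_nonneg P v p))
    have h5 : eng Φ P v p ≤ 1 / kap * Real.exp (kap * eng Φ P v p) := by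
      rw [one_div, inv_mul_eq_div, le_div_iff₀ hkap]
      linarith
    linarith
  rw [← ENNReal.ofReal_sum_of_nonneg (fun i _ => by positivity), ← ENNReal.ofReal_pow hlam0.le,
    ← ENNReal.ofReal_mul (by positivity), ← ENNReal.ofReal_mul (by positivity)]
  refine ENNReal.ofReal_le_ofReal ?_
  calc ∑ i : Idx P, (1 + ‖vels Φ P v p i‖ ^ 2)
      ≤ ∑ _i : Idx P, (1 + 1 / kap) * Real.exp (kap * eng Φ P v p) :=
        Finset.sum_le_sum fun i _ => h1 i
    _ = ((P.size : ℝ) + 1) * ((1 + 1 / kap) * Real.exp (kap * eng Φ P v p)) := by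
        rw [Finset.sum_const, Finset.card_univ, card_idx, CTree.leaves_eq, nsmul_eq_mul]
        push_cast
        ring
    _ ≤ (M * lam ^ P.size) * ((1 + 1 / kap) * Real.exp (kap * eng Φ P v p)) :=
        mul_le_mul_of_nonneg_right (h P.size) (by positivity)
    _ = M * (1 + 1 / kap) * lam ^ P.size * Real.exp (kap * eng Φ P v p) := by ring

/-- powers of the size -/
theorem exists_size_le {lam : ℝ} (hlam : 1 < lam) : ∃ M : ℝ, 0 < M ∧ ∀ (P : CTree),
    ((P.size : ℝ≥0∞) + 1) ≤ ENNReal.ofReal M * ENNReal.ofReal lam ^ P.size := by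
  obtain ⟨M, hM, h⟩ := exists_nat_le_pow hlam
  refine ⟨M, hM, fun P => ?_⟩
  have hlam0 : 0 < lam := by linarith
  have h1 : ((P.size : ℝ≥0∞) + 1) = ENNReal.ofReal ((P.size : ℝ) + 1) := by
    rw [ENNReal.ofReal_add (by positivity) zero_le_one, ENNReal.ofReal_natCast,
      ENNReal.ofReal_one]
  rw [h1, ← ENNReal.ofReal_pow hlam0.le, ← ENNReal.ofReal_mul hM.le]
  exact ENNReal.ofReal_le_ofReal (h P.size)

end Crest.Agent.R122.Seg814
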