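import Crest.Agent.R122.Q1Main_815
import Crest.Agent.R122.HidLam2_424
import Crest.Agent.R122.BoltzEn2_814

/-!
helper815, row 122, block Q (quenched densities), part 4: consequences of **(Q1)**.

* `measurable_Dw`, `D0_eq` (`D0` in the form of 814's kinetic bounds), `measurable_D0`,
  `D0_tsum_le` : `∑ D0 ≤ M C wG b`;
* `gcE_adversary`, `gcE_excess` : abstract adversary and excess forms;
* `Ctx` : the standing hypotheses; `tendsto_err`, `tendsto_err_sum`, `tendsto_excess`,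
  `adversary` : the forms used by the inequalities.
-/

set_option autoImplicit false

open MeasureTheory Set Filter
open scoped ENNReal Topology Classical
open Crest.AnalysisR.Kinetic Crest.Agent.R122.Kin796 Crest.Agent.R122.Disc416
  Crest.Agent.R122.Kin416 Crest.Agent.R122.Tree674
  Crest.Agent.R122.Scat818 Crest.Agent.R122.TreeF399 Crest.Agent.R122.TreeEps399
  Crest.Agent.R122.Hid424 Crest.Agent.R122.Quench815 Crest.Agent.R122.QDens815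
  Crest.Agent.R122.GC311

noncomputable section

namespace Crest.Agent.R122.Q1815

open CTree

variable {Φ : Space3 → ℝ} {f₀ : PhasePoint → ℝ} {f : ℝ → PhasePoint → ℝ} {β T : ℝ}

/-! ### Measurability and monotonicity of the densities -/

theorem Dw_eq_M {P : CTree} {φ : ℝ × PhasePoint × Par P → ℝ≥0∞} {ε tw s : ℝ} {ℓ : PhasePoint}
    {n : ℕ} {w : Config n} : Dw Φ f₀ P φ ε tw s ℓ w =
      ∫⁻ p : Par P, gw Φ f₀ P φ ε s ℓ p * GIV566.unhitInd Φ ε (hidM Φ ε P ℓ p) tw w := by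
  unfold Dw
  refine lintegral_congr fun p => ?_
  by_cases hV : Valid Φ ε P s ℓ.2 p
  · rw [hidM_of_adm (ℓ := ℓ) hV.1]
  · rw [gw_of_not_valid hV, zero_mul, zero_mul]

theorem measurable_Dw (hΦ : AdmissiblePotential Φ) (hf : Measurable f₀) {P : CTree}
    {φ : ℝ × PhasePoint × Par P → ℝ≥0∞} (hφ : Measurable φ) {ε : ℝ} (hε : 0 < ε) (tw : ℝ) :
    Measurable fun q : (Σ n : ℕ, Config n) × (ℝ × PhasePoint) =>
      Dw Φ f₀ P φ ε tw q.2.1 q.2.2 q.1.2 := by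
  simp only [Dw_eq_M]
  have h := measurable_unhit_hidM hΦ hε P (tw := tw) (W := PhasePoint × Par P)
      (ℓ := fun z => z.1) measurable_fst (p := fun z => z.2) measurable_snd
  have h2 : Measurable fun q : ((Σ n : ℕ, Config n) × (ℝ × PhasePoint)) × Par P =>
      gw Φ f₀ P φ ε q.1.2.1 q.1.2.2 q.2 *
        GIV566.unhitInd Φ ε (hidM Φ ε P q.1.2.2 q.2) tw q.1.1.2 :=
    ((measurable_gw hΦ hf hφ ε).comp (f := fun q : ((Σ n : ℕ, Config n) ×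
      (ℝ × PhasePoint)) × Par P => (q.1.2, q.2)) (measurable_fst.snd.prodMk measurable_snd)).mul
      (h.comp (f := fun q : ((Σ n : ℕ, Config n) × (ℝ × PhasePoint)) × Par P =>
        (q.1.1, (q.1.2.2, q.2)))
        (measurable_fst.fst.prodMk (measurable_fst.snd.snd.prodMk measurable_snd)))
  exact h2.lintegral_prod_right'

theorem measurable_Dw_n (hΦ : AdmissiblePotential Φ) (hf : Measurable f₀) {P : CTree}
    {φ : ℝ × PhasePoint × Par P → ℝ≥0∞} (hφ : Measurable φ) {ε : ℝ} (hε : 0 < ε) (tw : ℝ) (n : ℕ) :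
    Measurable fun q : Config n × (ℝ × PhasePoint) => Dw Φ f₀ P φ ε tw q.2.1 q.2.2 q.1 :=
  (measurable_Dw hΦ hf hφ hε tw).comp (f := fun q : Config n × (ℝ × PhasePoint) =>
    ((⟨n, q.1⟩ : Σ n : ℕ, Config n), q.2))
    (((measurable_sigmaMk' n).comp measurable_fst).prodMk measurable_snd)

theorem gw_mono {P : CTree} {φ φ' : ℝ × PhasePoint × Par P → ℝ≥0∞} {ε s : ℝ} {ℓ : PhasePoint}
    {p : Par P} (h : φ (s, ℓ, p) ≤ φ' (s, ℓ, p)) :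
    gw Φ f₀ P φ ε s ℓ p ≤ gw Φ f₀ P φ' ε s ℓ p := by
  by_cases hV : Valid Φ ε P s ℓ.2 p
  · rw [gw_of_valid hV, gw_of_valid hV]
    gcongr
  · rw [gw_of_not_valid hV]; exact bot_le

theorem Dw_mono {P : CTree} {φ φ' : ℝ × PhasePoint × Par P → ℝ≥0∞} {ε tw s : ℝ} {ℓ : PhasePoint}
    {n : ℕ} {w : Config n} (h : ∀ p, φ (s, ℓ, p) ≤ φ' (s, ℓ, p)) :
    Dw Φ f₀ P φ ε tw s ℓ w ≤ Dw Φ f₀ P φ' ε tw s ℓ w :=
  lintegral_mono fun p => mul_le_mul_left (gw_mono (h p)) _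

theorem Dw_zero {P : CTree} {φ : ℝ × PhasePoint × Par P → ℝ≥0∞} {ε tw s : ℝ} {ℓ : PhasePoint}
    {n : ℕ} {w : Config n} (h : ∀ p, φ (s, ℓ, p) = 0) : Dw Φ f₀ P φ ε tw s ℓ w = 0 := by
  unfold Dw
  have : ∀ p, gw Φ f₀ P φ ε s ℓ p * GIV566.unhitInd Φ ε (hid Φ ε P ℓ p) tw w = 0 := by
    intro p
    by_cases hV : Valid Φ ε P s ℓ.2 p
    · rw [gw_of_valid hV, h p, mul_zero, zero_mul]
    · rw [gw_of_not_valid hV, zero_mul]
  simp [this]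

theorem D0_zero {P : CTree} {φ : ℝ × PhasePoint × Par P → ℝ≥0∞} {tw s : ℝ} {ℓ : PhasePoint}
    (h : ∀ p, φ (s, ℓ, p) = 0) : D0 Φ f₀ f T P φ tw s ℓ = 0 := by
  unfold D0
  have : ∀ p, gw Φ f₀ P φ 0 s ℓ p * GIV566.dampG T f (hid0 Φ P ℓ p) tw = 0 := by
    intro p
    by_cases hV : Valid Φ 0 P s ℓ.2 p
    · rw [gw_of_valid hV, h p, mul_zero, zero_mul]
    · rw [gw_of_not_valid hV, zero_mul]
  simp [this]

/-- the limit density in the form of 814's kinetic bounds -/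
theorem D0_eq (hβ : 0 < β) (hT : 0 < T)
    (hf : IsRegularKineticSolution Φ β T f₀ f) {tw : ℝ} (htw : 0 ≤ tw) (P : CTree)
    (φ : ℝ × PhasePoint × Par P → ℝ≥0∞) (s : ℝ) (ℓ : PhasePoint) :
    D0 Φ f₀ f T P φ tw s ℓ = ∫⁻ p : Par P, φ (s, ℓ, p) *
      Seg814.wS Φ T f tw P s (ℓ.1 + s • ℓ.2) ℓ.2 p := by
  unfold D0
  refine lintegral_congr fun p => ?_
  by_cases hV : Valid Φ 0 P s ℓ.2 p
  · rw [gw_of_valid hV]
    unfold Seg814.wS
    rw [indicator_of_mem (show p ∈ {p | Valid Φ 0 P s ℓ.2 p} from hV), Dwin_814', densS_814]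
    have e1 : ((ℓ.1 + s • ℓ.2 - s • ℓ.2, ℓ.2) : PhasePoint) = ℓ := by
      rw [add_sub_cancel_right]
    rw [e1, densS_eq (finRate_nuF hβ hT hf) htw _ hV, dampG_hid0 hf hV]
    have e2 : ∏ i, Boltz814.fE T f 0 (lines Φ 0 P ℓ p i).1 (lines Φ 0 P ℓ p i).2 =
        fp Φ f₀ 0 P ℓ p := by
      unfold fp
      refine Finset.prod_congr rfl fun i _ => ?_
      rw [Boltz814.fE_of_mem ⟨le_rfl, hT.le⟩, hf.initial]
    rw [e2]
    ring
  · rw [gw_of_not_valid hV, zero_mul]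
    unfold Seg814.wS
    rw [indicator_of_notMem (show p ∉ {p | Valid Φ 0 P s ℓ.2 p} from hV), mul_zero]

theorem measurable_D0 (hΦ : AdmissiblePotential Φ) (hβ : 0 < β) (hT : 0 < T)
    (hf : IsRegularKineticSolution Φ β T f₀ f) {tw : ℝ} (htw : 0 ≤ tw) {P : CTree}
    {φ : ℝ × PhasePoint × Par P → ℝ≥0∞} (hφ : Measurable φ) :
    Measurable fun y : ℝ × PhasePoint => D0 Φ f₀ f T P φ tw y.1 y.2 := by
  simp only [D0_eq hβ hT hf htw]
  have h1 := Seg814.measurable_WtS hΦ (Seg814.meas4_Dwin (meas4_damp hf) tw) (meas_fE_zero hf) P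
  have h2 : Measurable fun q : (ℝ × PhasePoint) × Par P =>
      φ (q.1.1, q.1.2, q.2) * Seg814.wS Φ T f tw P q.1.1 (q.1.2.1 + q.1.1 • q.1.2.2) q.1.2.2 q.2 := by
    refine (hφ.comp (measurable_fst.fst.prodMk (measurable_fst.snd.prodMk measurable_snd))).mul ?_
    simp only [Seg814.wS_eq_WtS]
    exact h1.comp (f := fun q : (ℝ × PhasePoint) × Par P =>
      (((q.1.1, q.1.2.1 + q.1.1 • q.1.2.2, q.1.2.2), q.2) : (ℝ × Space3 × Space3) × Par P))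
      (by fun_prop)
  exact h2.lintegral_prod_right'

/-- **kinetic bound** of the sum of the limit densities -/
theorem D0_tsum_le (hΦ : AdmissiblePotential Φ) (hβ : 0 < β) (hT : 0 < T)
    (hf : IsRegularKineticSolution Φ β T f₀ f) {h₀ kap lam C b : ℝ}
    (hK : Seg814.KinC Φ T f h₀ kap lam C b) {φ : ∀ P : CTree, ℝ × PhasePoint × Par P → ℝ≥0∞}
    {M : ℝ≥0∞} (hM : M ≠ ∞) {tw s : ℝ} (htw : tw ∈ Icc 0 T) (hs : s ∈ Icc 0 (tw + h₀))
    (ℓ : PhasePoint)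
    (hφ : ∀ P p, Adm Φ P ℓ.2 p → φ P (s, ℓ, p) ≤ M * ENNReal.ofReal lam ^ P.size *
      ENNReal.ofReal (Real.exp (kap * Seg814.eng Φ P ℓ.2 p))) :
    ∑' P, D0 Φ f₀ f T P (φ P) tw s ℓ ≤ M * (ENNReal.ofReal C * wG b ℓ.2) := by
  refine le_trans (ENNReal.tsum_le_tsum fun P => ?_) (hK.weightS hΦ hf hM
    (phi := fun P v p => M * ENNReal.ofReal lam ^ P.size *
      ENNReal.ofReal (Real.exp (kap * Seg814.eng Φ P v p))) (fun P v p => le_rfl) htw hs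
    (ℓ.1 + s • ℓ.2) ℓ.2)
  rw [D0_eq hβ hT hf htw.1]
  refine lintegral_mono fun p => ?_
  by_cases hV : Valid Φ 0 P s ℓ.2 p
  · exact mul_le_mul_left (hφ P p hV.1) _
  · have h0 : Seg814.wS Φ T f tw P s (ℓ.1 + s • ℓ.2) ℓ.2 p = 0 := by
      unfold Seg814.wS
      exact indicator_of_notMem (show p ∉ {p | Valid Φ 0 P s ℓ.2 p} from hV) _
    rw [h0, mul_zero]
    exact bot_le

/-! ### Abstract adversary and excess forms -/

section abs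

variable {Y : Type*} [MeasurableSpace Y]

theorem gcE_adversary (hf : Measurable f₀) (ε : ℝ) (μ : Measure Y) [SFinite μ]
    {D : (n : ℕ) → Config n → Y → ℝ≥0∞} (hD : ∀ n, Measurable fun q : Config n × Y => D n q.1 q.2)
    {E : Y → ℝ≥0∞} (hE : Measurable E) {Θ : (n : ℕ) → Config n → Y → ℝ≥0∞}
    (hΘ : ∀ n w y, Θ n w y ≤ 1) :
    gcE f₀ ε (fun n w => ∫⁻ y, D n w y * Θ n w y ∂μ) ≤
      gcE f₀ ε (fun n w => ∫⁻ y, E y * Θ n w y ∂μ) +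
        gcE f₀ ε (fun n w => ∫⁻ y, absd (D n w y) (E y) ∂μ) := by
  have hm : ∀ n, Measurable fun q : Config n × Y => absd (D n q.1 q.2) (E q.2) := fun n =>
    measurable_absd (hD n) (hE.comp measurable_snd)
  have hadd := gcE_add hf ε (F := fun n w => ∫⁻ y, absd (D n w y) (E y) ∂μ)
    (G := fun n w => ∫⁻ y, E y * Θ n w y ∂μ) (fun n => (hm n).lintegral_prod_right')
  rw [add_comm, ← hadd]
  refine gcE_mono f₀ ε fun n w _ => ?_
  have hmy : Measurable fun y => absd (D n w y) (E y) := (hm n).comp measurable_prodMk_left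
  rw [← lintegral_add_left hmy]
  refine lintegral_mono fun y => ?_
  calc D n w y * Θ n w y ≤ (E y + absd (D n w y) (E y)) * Θ n w y := by
        gcongr; exact le_add_absd _ _
    _ = absd (D n w y) (E y) * Θ n w y + E y * Θ n w y := by ring
    _ ≤ absd (D n w y) (E y) * 1 + E y * Θ n w y := by gcongr; exact hΘ n w y
    _ = _ := by rw [mul_one]

theorem gcE_excess (ε : ℝ) (μ : Measure Y)
    {D : (n : ℕ) → Config n → Y → ℝ≥0∞} {E G : Y → ℝ≥0∞} (hEG : ∀ᵐ y ∂μ, E y ≤ G y) :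
    gcE f₀ ε (fun n w => ∫⁻ y, (D n w y - G y) ∂μ) ≤
      gcE f₀ ε (fun n w => ∫⁻ y, absd (D n w y) (E y) ∂μ) := by
  refine gcE_mono f₀ ε fun n w _ => lintegral_mono_ae (hEG.mono fun y hy => ?_)
  rw [tsub_le_iff_left]
  exact (le_add_absd (D n w y) (E y)).trans (by gcongr)

end abs

/-! ### Trees of bounded size -/

/-- trees of size `≤ K` -/
def treesLE (K : ℕ) : Finset CTree := (CTree.lt (K + 1)).filter fun P => P.size ≤ K

theorem mem_treesLE {K : ℕ} {P : CTree} : P ∈ treesLE K ↔ P.size ≤ K := by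
  unfold treesLE
  rw [Finset.mem_filter, CTree.mem_lt]
  exact ⟨fun h => h.2, fun h => ⟨lt_of_le_of_lt (CTree.height_le_size P) (by omega), h⟩⟩

/-! ### The standing hypotheses -/

/-- Standing hypotheses of the quenched theorems. -/
structure Ctx (Φ : Space3 → ℝ) (β T : ℝ) (f₀ : PhasePoint → ℝ) (f : ℝ → PhasePoint → ℝ)
    (T₀ tw : ℝ) : Prop where
  hΦ : AdmissiblePotential Φ
  hβ : 0 < β
  hT : 0 < T
  cont : Continuous f₀
  mass : ∫⁻ z, ENNReal.ofReal (f₀ z) ≤ 1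
  gauss : HasSummableGaussianBound (2 * β) (fun x v => f₀ (x, v))
  sol : IsRegularKineticSolution Φ β T f₀ f
  htw : tw ∈ Icc 0 T
  input : ∀ P : CTree, QInput Φ f₀ f T P T₀ tw

/-- the error of (Q1) -/
def err (Φ : Space3 → ℝ) (f₀ : PhasePoint → ℝ) (f : ℝ → PhasePoint → ℝ) (T : ℝ) (P : CTree)
    (φ : ℝ × PhasePoint × Par P → ℝ≥0∞) (κ : Measure ℝ) (tw ε : ℝ) : ℝ≥0∞ :=
  gcE f₀ ε fun _ w => ∫⁻ y : ℝ × PhasePoint,
      absd (Dw Φ f₀ P φ ε tw y.1 y.2 w) (D0 Φ f₀ f T P φ tw y.1 y.2) ∂(κ.prod volume)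

/-- admissible weights: measurable, dominated by `M exp (a eng)`, `a < 2β` -/
structure Wgt (Φ : Space3 → ℝ) (β : ℝ) (P : CTree) (φ : ℝ × PhasePoint × Par P → ℝ≥0∞) (T₀ : ℝ) :
    Prop where
  meas : Measurable φ
  bound : ∃ a Cφ : ℝ, a < 2 * β ∧ ∀ s ℓ p, s ≤ T₀ → Valid Φ 0 P s ℓ.2 p → φ (s, ℓ, p) ≤
      ENNReal.ofReal Cφ * ENNReal.ofReal (Real.exp (a * Seg814.eng Φ P ℓ.2 p))

theorem eng_eq (hΦ : AdmissiblePotential Φ) {P : CTree} {v : Space3} {p : Par P}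
    (h : Adm Φ P v p) : Seg814.eng Φ P v p = ‖v‖ ^ 2 + nodeEn P p := sum_vels hΦ P v p h

variable {T₀ tw : ℝ}

/-- **(Q1)** -/
theorem tendsto_err (X : Ctx Φ β T f₀ f T₀ tw) {κ : Measure ℝ} [IsFiniteMeasure κ]
    (hκ : ∀ᵐ s ∂κ, s ≤ T₀) {P : CTree} {φ : ℝ × PhasePoint × Par P → ℝ≥0∞}
    (hφ : Wgt Φ β P φ T₀) : Tendsto (err Φ f₀ f T P φ κ tw) L (𝓝 0) := by
  obtain ⟨env, A, hE⟩ := exists_env X.gauss
  obtain ⟨a, Cφ, ha, hb⟩ := hφ.bound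
  refine Q1 (a := a) (Cφ := Cφ) X.hΦ hκ hE ha X.cont X.mass hφ.meas (fun s ℓ p hs hV => ?_) (X.input P)
  rw [← eng_eq X.hΦ hV.1]
  exact hb s ℓ p hs hV

/-- finite sums over tree shapes -/
theorem gcE_absd_sum_le (X : Ctx Φ β T f₀ f T₀ tw) {κ : Measure ℝ} [IsFiniteMeasure κ]
    (S : Finset CTree) {φ : ∀ P : CTree, ℝ × PhasePoint × Par P → ℝ≥0∞}
    (hφ : ∀ P ∈ S, Measurable (φ P)) {ε : ℝ} (hε : 0 < ε) :
    gcE f₀ ε (fun _ w => ∫⁻ y : ℝ × PhasePoint,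
      absd (∑ P ∈ S, Dw Φ f₀ P (φ P) ε tw y.1 y.2 w)
        (∑ P ∈ S, D0 Φ f₀ f T P (φ P) tw y.1 y.2) ∂(κ.prod volume)) ≤
      ∑ P ∈ S, err Φ f₀ f T P (φ P) κ tw ε := by
  have hm : ∀ P ∈ S, ∀ n, Measurable fun q : Config n × (ℝ × PhasePoint) =>
      absd (Dw Φ f₀ P (φ P) ε tw q.2.1 q.2.2 q.1) (D0 Φ f₀ f T P (φ P) tw q.2.1 q.2.2) :=
    fun P hP n => measurable_absd (measurable_Dw_n X.hΦ X.cont.measurable (hφ P hP) hε tw n)
      ((measurable_D0 X.hΦ X.hβ X.hT X.sol X.htw.1 (hφ P hP)).comp measurable_snd)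
  unfold err
  rw [← gcE_finset_sum X.cont.measurable ε S (F := fun P n w => ∫⁻ y : ℝ × PhasePoint,
      absd (Dw Φ f₀ P (φ P) ε tw y.1 y.2 w) (D0 Φ f₀ f T P (φ P) tw y.1 y.2) ∂(κ.prod volume))
    (fun P hP n => (hm P hP n).lintegral_prod_right')]
  refine gcE_mono f₀ ε fun n w _ => ?_
  have hmy : ∀ P ∈ S, AEMeasurable (fun y : ℝ × PhasePoint =>
      absd (Dw Φ f₀ P (φ P) ε tw y.1 y.2 w) (D0 Φ f₀ f T P (φ P) tw y.1 y.2))
      (κ.prod volume) := fun P hP =>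
    ((hm P hP n).comp (f := fun y : ℝ × PhasePoint => (w, y))
      measurable_prodMk_left).aemeasurable
  rw [← lintegral_finsetSum' _ hmy]
  exact lintegral_mono fun y => absd_sum_le _ _ _

theorem tendsto_err_sum (X : Ctx Φ β T f₀ f T₀ tw) {κ : Measure ℝ} [IsFiniteMeasure κ]
    (hκ : ∀ᵐ s ∂κ, s ≤ T₀) (S : Finset CTree)
    {φ : ∀ P : CTree, ℝ × PhasePoint × Par P → ℝ≥0∞} (hφ : ∀ P ∈ S, Wgt Φ β P (φ P) T₀) :
    Tendsto (fun ε => ∑ P ∈ S, err Φ f₀ f T P (φ P) κ tw ε) L (𝓝 0) := by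
  have := tendsto_finsetSum (M := ℝ≥0∞) S fun P hP => tendsto_err X hκ (hφ P hP)
  simpa using this

/-- **excess form** of the quenched bound -/
theorem tendsto_excess (X : Ctx Φ β T f₀ f T₀ tw) {κ : Measure ℝ} [IsFiniteMeasure κ]
    (hκ : ∀ᵐ s ∂κ, s ≤ T₀) {h₀ kap lam C b : ℝ} (hK : Seg814.KinC Φ T f h₀ kap lam C b)
    (hκ2 : ∀ᵐ s ∂κ, s ∈ Icc 0 (tw + h₀)) (S : Finset CTree)
    {φ : ∀ P : CTree, ℝ × PhasePoint × Par P → ℝ≥0∞} (hφ : ∀ P ∈ S, Wgt Φ β P (φ P) T₀)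
    (hφ0 : ∀ P ∉ S, ∀ q, φ P q = 0) {M : ℝ≥0∞} (hM : M ≠ ∞)
    (hφM : ∀ P s ℓ p, Adm Φ P ℓ.2 p → φ P (s, ℓ, p) ≤ M * ENNReal.ofReal lam ^ P.size *
      ENNReal.ofReal (Real.exp (kap * Seg814.eng Φ P ℓ.2 p))) :
    Tendsto (fun ε => gcE f₀ ε fun _ w => ∫⁻ y : ℝ × PhasePoint,
      ((∑' P, Dw Φ f₀ P (φ P) ε tw y.1 y.2 w) - M * (ENNReal.ofReal C * wG b y.2.2))
        ∂(κ.prod volume)) L (𝓝 0) := by
  refine tendsto_of_tendsto_of_tendsto_of_le_of_le' tendsto_const_nhds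
    (tendsto_err_sum X hκ S hφ) (Eventually.of_forall fun _ => bot_le) ?_
  filter_upwards [eventually_pos] with ε hε
  refine le_trans ?_ (gcE_absd_sum_le X S (fun P hP => (hφ P hP).meas) hε)
  have e1 : ∀ {n : ℕ} (w : Config n) (y : ℝ × PhasePoint),
      ∑' P, Dw Φ f₀ P (φ P) ε tw y.1 y.2 w = ∑ P ∈ S, Dw Φ f₀ P (φ P) ε tw y.1 y.2 w :=
    fun w y => tsum_eq_sum fun P hP => Dw_zero fun p => hφ0 P hP _
  have e2 : ∀ y : ℝ × PhasePoint, ∑ P ∈ S, D0 Φ f₀ f T P (φ P) tw y.1 y.2 =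
      ∑' P, D0 Φ f₀ f T P (φ P) tw y.1 y.2 :=
    fun y => (tsum_eq_sum fun P hP => D0_zero fun p => hφ0 P hP _).symm
  have hκ' : ∀ᵐ y : ℝ × PhasePoint ∂(κ.prod volume), y.1 ∈ Icc 0 (tw + h₀) :=
    Measure.quasiMeasurePreserving_fst.ae hκ2
  simp only [e1]
  refine gcE_excess ε (κ.prod volume) (D := fun n w y => ∑ P ∈ S, Dw Φ f₀ P (φ P) ε tw y.1 y.2 w)
    (E := fun y => ∑ P ∈ S, D0 Φ f₀ f T P (φ P) tw y.1 y.2)
    (G := fun y => M * (ENNReal.ofReal C * wG b y.2.2)) (hκ'.mono fun y hy => ?_)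
  rw [e2]
  exact D0_tsum_le X.hΦ X.hβ X.hT X.sol hK hM X.htw hy y.2 fun P p => hφM P y.1 y.2 p

/-- **adversary form** of the quenched bound: there is an error `δ(ε) → 0` such that for every test
`Θ ≤ 1` (depending on everything) the mass of the quenched density against `Θ` is bounded by the mass
of `M C wG b`. -/
theorem adversary (X : Ctx Φ β T f₀ f T₀ tw) {κ : Measure ℝ} [IsFiniteMeasure κ]
    (hκ : ∀ᵐ s ∂κ, s ≤ T₀) {h₀ kap lam C b : ℝ} (hK : Seg814.KinC Φ T f h₀ kap lam C b)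
    (hκ2 : ∀ᵐ s ∂κ, s ∈ Icc 0 (tw + h₀)) (S : Finset CTree)
    {φ : ∀ P : CTree, ℝ × PhasePoint × Par P → ℝ≥0∞} (hφ : ∀ P ∈ S, Wgt Φ β P (φ P) T₀)
    (hφ0 : ∀ P ∉ S, ∀ q, φ P q = 0) {M : ℝ≥0∞} (hM : M ≠ ∞)
    (hφM : ∀ P s ℓ p, Adm Φ P ℓ.2 p → φ P (s, ℓ, p) ≤ M * ENNReal.ofReal lam ^ P.size *
      ENNReal.ofReal (Real.exp (kap * Seg814.eng Φ P ℓ.2 p))) :
    ∃ δ : ℝ → ℝ≥0∞, Tendsto δ L (𝓝 0) ∧ ∀ ε, 0 < ε →
      ∀ Θ : (n : ℕ) → Config n → ℝ × PhasePoint → ℝ≥0∞, (∀ n w y, Θ n w y ≤ 1) →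
        gcE f₀ ε (fun n w => ∫⁻ y : ℝ × PhasePoint,
          (∑' P, Dw Φ f₀ P (φ P) ε tw y.1 y.2 w) * Θ n w y ∂(κ.prod volume)) ≤
        gcE f₀ ε (fun n w => ∫⁻ y : ℝ × PhasePoint,
          M * (ENNReal.ofReal C * wG b y.2.2) * Θ n w y ∂(κ.prod volume)) + δ ε := by
  refine ⟨fun ε => ∑ P ∈ S, err Φ f₀ f T P (φ P) κ tw ε, tendsto_err_sum X hκ S hφ,
    fun ε hε Θ hΘ => ?_⟩
  have e1 : ∀ {n : ℕ} (w : Config n) (y : ℝ × PhasePoint),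
      ∑' P, Dw Φ f₀ P (φ P) ε tw y.1 y.2 w = ∑ P ∈ S, Dw Φ f₀ P (φ P) ε tw y.1 y.2 w :=
    fun w y => tsum_eq_sum fun P hP => Dw_zero fun p => hφ0 P hP _
  have e2 : ∀ y : ℝ × PhasePoint, ∑ P ∈ S, D0 Φ f₀ f T P (φ P) tw y.1 y.2 =
      ∑' P, D0 Φ f₀ f T P (φ P) tw y.1 y.2 :=
    fun y => (tsum_eq_sum fun P hP => D0_zero fun p => hφ0 P hP _).symm
  have hκ' : ∀ᵐ y : ℝ × PhasePoint ∂(κ.prod volume), y.1 ∈ Icc 0 (tw + h₀) :=
    Measure.quasiMeasurePreserving_fst.ae hκ2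
  simp only [e1]
  refine (gcE_adversary X.cont.measurable ε (κ.prod volume)
    (D := fun n w y => ∑ P ∈ S, Dw Φ f₀ P (φ P) ε tw y.1 y.2 w) (fun n => ?_)
    (E := fun y => ∑ P ∈ S, D0 Φ f₀ f T P (φ P) tw y.1 y.2) ?_ hΘ).trans ?_
  · exact Finset.measurable_sum _ fun P hP =>
      measurable_Dw_n X.hΦ X.cont.measurable (hφ P hP).meas hε tw n
  · exact Finset.measurable_sum _ fun P hP =>
      measurable_D0 X.hΦ X.hβ X.hT X.sol X.htw.1 (hφ P hP).meas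
  · refine add_le_add (gcE_mono f₀ ε fun n w _ => lintegral_mono_ae (hκ'.mono fun y hy => ?_))
      (gcE_absd_sum_le X S (fun P hP => (hφ P hP).meas) hε)
    refine mul_le_mul_left ?_ _
    rw [e2]
    exact D0_tsum_le X.hΦ X.hβ X.hT X.sol hK hM X.htw hy y.2 fun P p => hφM P y.1 y.2 p

end Crest.Agent.R122.Q1815

end
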