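import Crest.Agent.R122.TreeDefs_674
import Crest.Agent.R122.PathFlow_968
import Crest.Agent.R122.PathCausal_968
import Crest.Agent.R122.EDefs_602

/-!
# Marked lines of a collision tree (row 122, common interface of E_FINAL (1.4))

For `z = (ℓ, p) : PhasePoint × Par P`:

* `rel P p i`   : release time of `i`: exit time of the last node of `i` (`0` for a leaf tree);
  equal to `prot P T p i` for `i ≠ root P`; for the root: exit time of the top node.
* `mk P i`      : number of leaves of the sub-tree under the last node of `i` (mark of the line).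
* `lineML Φ ε P z i : ML` : the marked line of `i`, born at `rel P p i`.
-/

set_option autoImplicit false

open MeasureTheory
open Crest.AnalysisR.Kinetic
open Crest.Agent.R122.Kin796 Crest.Agent.R122.Kin796.CTree Crest.Agent.R122.Tree674
open Crest.Agent.R122.PathFlow968 Crest.Agent.R122.EDefs602

namespace Crest.Agent.R122.TreeLines335

noncomputable section

open scoped Classical

/-- Release times (exit time of the last node). -/
def rel : ∀ P : CTree, Par P → Idx P → ℝ
  | leaf => fun _ _ => 0
  | node l r => fun p => Sum.elim
      (fun i => if i = root l then p.1.1 else rel l p.2.1 i)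
      (fun i => if i = root r then p.1.1 else rel r p.2.2 i)

/-- Marks: number of leaves under the last node. -/
def mk : ∀ P : CTree, Idx P → ℕ
  | leaf => fun _ => 1
  | node l r => Sum.elim
      (fun i => if i = root l then (node l r).leaves else mk l i)
      (fun i => if i = root r then (node l r).leaves else mk r i)

/-- The marked line of the particle `i` of a tree. -/
def lineML (Φ : Space3 → ℝ) (ε : ℝ) (P : CTree) (z : PhasePoint × Par P) (i : Idx P) : ML :=
  ((rel P z.2 i, onLine (fin Φ ε P z.1 z.2 i) (rel P z.2 i)), mk P i)

theorem mk_root : ∀ P : CTree, mk P (root P) = P.leaves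
  | leaf => rfl
  | node l r => by simp [mk, root]

theorem rel_root_node (l r : CTree) (p : Par (node l r)) : rel (node l r) p (root (node l r)) = p.1.1 := by
  simp [rel, root]

theorem rel_root_leaf (p : Par leaf) : rel leaf p (root leaf) = 0 := rfl

/-- For the released particles the release time is the protected time. -/
theorem rel_eq_prot : ∀ (P : CTree) (T : ℝ) (p : Par P) (i : Idx P), i ≠ root P →
    rel P p i = prot P T p i
  | leaf, _, _, _, h => absurd rfl h
  | node l r, T, p, Sum.inl i, h => by
      have hi : i ≠ root l := fun hh => h (by rw [hh]; rfl)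
      simp only [rel, prot, Sum.elim_inl, if_neg hi]
      exact rel_eq_prot l T p.2.1 i hi
  | node l r, T, p, Sum.inr i, _ => by
      by_cases hi : i = root r
      · subst hi
        simp only [rel, prot, Sum.elim_inr, if_pos]
        have : ∀ (Q : CTree) (s : ℝ) (q : Par Q), prot Q s q (root Q) = s := by
          intro Q
          induction Q with
          | leaf => intro s q; rfl
          | node a b iha ihb => intro s q; exact iha s q.2.1
        rw [this]
      · simp only [rel, prot, Sum.elim_inr, if_neg hi]
        exact rel_eq_prot r p.1.1 p.2.2 i hi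

theorem one_le_leaves : ∀ P : CTree, 1 ≤ P.leaves
  | leaf => le_rfl
  | node l r => by
      have := one_le_leaves l
      show 1 ≤ l.leaves + r.leaves
      omega

theorem one_le_mk : ∀ (P : CTree) (i : Idx P), 1 ≤ mk P i
  | leaf, _ => le_rfl
  | node l r, Sum.inl i => by
      simp only [mk, Sum.elim_inl]
      split_ifs
      · exact one_le_leaves _
      · exact one_le_mk l i
  | node l r, Sum.inr i => by
      simp only [mk, Sum.elim_inr]
      split_ifs
      · exact one_le_leaves _
      · exact one_le_mk r i

theorem mk_le : ∀ (P : CTree) (i : Idx P), mk P i ≤ P.leaves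
  | leaf, _ => le_rfl
  | node l r, Sum.inl i => by
      simp only [mk, Sum.elim_inl]
      split_ifs
      · exact le_rfl
      · exact (mk_le l i).trans (show l.leaves ≤ l.leaves + r.leaves by omega)
  | node l r, Sum.inr i => by
      simp only [mk, Sum.elim_inr]
      split_ifs
      · exact le_rfl
      · exact (mk_le r i).trans (show r.leaves ≤ l.leaves + r.leaves by omega)

/-- The free extension of the marked line to time `0` is the final line. -/
theorem back_lineML (Φ : Space3 → ℝ) (ε : ℝ) (P : CTree) (z : PhasePoint × Par P) (i : Idx P) :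
    back (lineML Φ ε P z i).1 = fin Φ ε P z.1 z.2 i := by
  simp only [back, lineML, onLine]
  ext1
  · simp
  · rfl

theorem rel_pos {Φ : Space3 → ℝ} {ε : ℝ} (hε : 0 ≤ ε) : ∀ {P : CTree} {T : ℝ} {v : Space3} {p : Par P},
    Ord Φ ε P T v p → ∀ i, i ≠ root P → 0 < rel P p i
  | leaf, _, _, _, _, _, h => absurd rfl h
  | node l r, T, v, p, ho, Sum.inl i, h => by
      have hi : i ≠ root l := fun hh => h (by rw [hh]; rfl)
      simp only [rel, Sum.elim_inl, if_neg hi]
      exact rel_pos hε ho.2.2.1 i hi
  | node l r, T, v, p, ho, Sum.inr i, _ => by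
      by_cases hi : i = root r
      · subst hi
        simp only [rel, Sum.elim_inr, if_pos]
        exact ho.2.1.trans_le (sin_le hε v p.1)
      · simp only [rel, Sum.elim_inr, if_neg hi]
        exact rel_pos hε ho.2.2.2 i hi

theorem rel_nonneg {Φ : Space3 → ℝ} {ε : ℝ} (hε : 0 ≤ ε) : ∀ {P : CTree} {T : ℝ} {v : Space3} {p : Par P},
    Ord Φ ε P T v p → ∀ i, 0 ≤ rel P p i
  | leaf, _, _, _, _, _ => le_rfl
  | node l r, T, v, p, ho, i => by
      have h1 : 0 < p.1.1 := ho.2.1.trans_le (sin_le hε v p.1)
      rcases i with i | i
      · simp only [rel, Sum.elim_inl]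
        split_ifs
        · exact h1.le
        · exact rel_nonneg hε ho.2.2.1 i
      · simp only [rel, Sum.elim_inr]
        split_ifs
        · exact h1.le
        · exact rel_nonneg hε ho.2.2.2 i

theorem rel_lt {Φ : Space3 → ℝ} {ε : ℝ} (hε : 0 ≤ ε) : ∀ {P : CTree} {T : ℝ} {v : Space3} {p : Par P},
    0 < T → Ord Φ ε P T v p → ∀ i, rel P p i < T
  | leaf, _, _, _, hT, _, _ => hT
  | node l r, T, v, p, hT, ho, i => by
      have h2 : Tree674.sin Φ ε v p.1 ≤ p.1.1 := sin_le hε v p.1
      have h3 : Tree674.sin Φ ε v p.1 < T := h2.trans_lt ho.1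
      rcases i with i | i
      · simp only [rel, Sum.elim_inl]
        split_ifs
        · exact ho.1
        · exact (rel_lt hε ho.2.1 ho.2.2.1 i).trans h3
      · simp only [rel, Sum.elim_inr]
        split_ifs
        · exact ho.1
        · exact (rel_lt hε ho.2.1 ho.2.2.2 i).trans h3

end

end Crest.Agent.R122.TreeLines335
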