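import Crest.Agent.R122.Line2B_879
import Crest.Agent.R122.RealTree_674
import Crest.Agent.R122.OCMecke_285
import Crest.Agent.R122.OCout_796
import Crest.Agent.R122.OneCA_423
import Crest.Agent.R122.ToTree_335
import Crest.Agent.R122.TreeLines_335
import Crest.Agent.R122.LineMeas_994
import Crest.Agent.R122.Q1Cor_815
import Crest.Agent.R122.SmallNull_566

/-!
# One-contact structures of section E (row 122, boards H1, H2): literal definitions (v3)

A test line `l` (birth `τ`, velocity `v`, mark `n`) meets the gas for the first time at time `mT`, the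
particle met is clean with past cluster `V` (strictly before the contact); `w` = rest of the gas.

Tree coordinates: `V` is the collision tree `(P, z)`, `z = (ℓ, p)`, valid at the horizon `T' > te`;
root line `ℓ = z.1` (state at time `0`). The test line `l : ML` stays a free parameter: contact time
`cT z l`, impact parameter `cB z l` (helper663's `entT`, `entB`), contact set `OneC423.ctSet`.

* `lpos`, `mSet`, `mT`, `Meet`, `CMeet`, `DMeet`, `clM` : first contact with the gas, cluster map.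
* `cT`, `cB`, `cD`, `cX`, `oneLs` : contact data, lines `c` (root reborn after the encounter), exits,
  `l'`, `c'`.
* `Real4` : the contact structure `(P, z; w; l)` is real in the world `V ++ w`.
* `Good4`, `Nbad4` : off LINK; linked independent test lines.
* `OS` : structure integral (birth times integrated with respect to `κ`).
* `rfl4` : real flux form. `StmtRed`, `StmtLink` : the null facts consumed by INEQUALITY 1.
* `StmtNS`, `StmtXC`, `StmtPb`, `StmtEB` : the terms after the reduction.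
-/

set_option autoImplicit false
set_option linter.unusedSectionVars false

open MeasureTheory Set Filter
open scoped ENNReal Classical Topology
open Crest.AnalysisR.Kinetic
open Crest.Agent.R122.Kin796 Crest.Agent.R122.Kin796.CTree Crest.Agent.R122.Tree674
open Crest.Agent.R122.Relabel674 Crest.Agent.R122.GC311 Crest.Agent.R122.Flow671
open Crest.Agent.R122.EDefs602 Crest.Agent.R122.TreeLines335 Crest.Agent.R122.Line285
open Crest.Agent.R122.Decomp285 Crest.Agent.R122.Disc416

noncomputable section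

namespace Crest.Agent.R122.OneC285

/-! ## First contact of a free line with the gas -/

/-- Position at time `s` of the free line `l`. -/
def lpos (l : ML) (s : ℝ) : Space3 := (back l.1).1 + s • (back l.1).2

/-- Times (after its birth) at which the free line is within `ε` of a gas particle. -/
def mSet (Φ : Space3 → ℝ) (ε : ℝ) {n : ℕ} (w : Config n) (l : ML) : Set ℝ :=
  {s | l.1.1 ≤ s ∧ ∃ i, dist (lpos l s) (flow Φ ε s w i).1 ≤ ε}

/-- First contact time of the free line with the gas. -/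
def mT (Φ : Space3 → ℝ) (ε : ℝ) {n : ℕ} (w : Config n) (l : ML) : ℝ := sInf (mSet Φ ε w l)

/-- The free line meets first the particle `i`, after its birth and before `T`. -/
structure Meet (Φ : Space3 → ℝ) (ε T : ℝ) {n : ℕ} (w : Config n) (l : ML) (i : Fin n) : Prop where
  ne : (mSet Φ ε w l).Nonempty
  lt : l.1.1 < mT Φ ε w l
  le : mT Φ ε w l ≤ T
  dist : dist (lpos l (mT Φ ε w l)) (flow Φ ε (mT Φ ε w l) w i).1 ≤ ε

/-- The particle met first is clean. -/
def CMeet (Φ : Space3 → ℝ) (ε : ℝ) (K : ℕ) (T : ℝ) {n : ℕ} (w : Config n) (l : ML) (i : Fin n) :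
    Prop := Meet Φ ε T w l i ∧ ¬ (MW.cfg w).Inf Φ ε K (mT Φ ε w l) i

/-- The particle met first is infected. -/
def DMeet (Φ : Space3 → ℝ) (ε : ℝ) (K : ℕ) (T : ℝ) {n : ℕ} (w : Config n) (l : ML) (i : Fin n) :
    Prop := Meet Φ ε T w l i ∧ (MW.cfg w).Inf Φ ε K (mT Φ ε w l) i

/-- The cluster map of the one-contact step: past cluster (strictly before the contact) of the clean
particle met first. -/
def clM (Φ : Space3 → ℝ) (ε : ℝ) (K : ℕ) (T : ℝ) (n : ℕ) (w : Config n) (i : Fin n) (l : ML) :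
    Finset (Fin n) :=
  if CMeet Φ ε K T w l i then preC Φ ε w (mT Φ ε w l) i else ∅

/-! ## Tree coordinates -/

/-- Labelled configuration of the tree `(P, z)`. -/
def cfT (Φ : Space3 → ℝ) (ε : ℝ) (P : CTree) (z : PhasePoint × Par P) : Config P.leaves :=
  confOf P (lines Φ ε P z.1 z.2)

/-- Index of the root in `cfT`. -/
def rt (P : CTree) : Fin P.leaves := eP P (root P)

variable {P : CTree}

/-- Contact time of the line `l` with the root line of `z`. -/
def cT (ε : ℝ) (z : PhasePoint × Par P) (l : ML) : ℝ := OC663.entT ε (OneC423.relL z.1 l.1)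

/-- Impact parameter of the contact. -/
def cB (ε : ℝ) (z : PhasePoint × Par P) (l : ML) : Space3 := OC663.entB ε (OneC423.relL z.1 l.1)

/-- Contact data `(v, u, b)`. -/
def cD (ε : ℝ) (z : PhasePoint × Par P) (l : ML) : OCout796.CD := (l.1.2.2, z.1.2, cB ε z l)

/-- Position of the root at the contact time. -/
def cX (ε : ℝ) (z : PhasePoint × Par P) (l : ML) : Space3 := z.1.1 + cT ε z l • z.1.2

/-- The lines of the structure: `inl root` = the root `c`, undeflected, reborn at the exit time of the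
encounter; `inl i` = exits; `inr false = l'`, `inr true = c'`. -/
def oneLs (Φ : Space3 → ℝ) (ε : ℝ) (P : CTree) (z : PhasePoint × Par P) (l : ML) :
    Idx P ⊕ Bool → ML
  | Sum.inl i => if i = root P then
      (OCout796.lineC Φ ε (cT ε z l) (cX ε z l) (cD ε z l), P.leaves) else lineML Φ ε P z i
  | Sum.inr false => (OCout796.lineL' Φ ε (cT ε z l) (cX ε z l) (cD ε z l), l.2 + P.leaves)
  | Sum.inr true => (OCout796.lineC' Φ ε (cT ε z l) (cX ε z l) (cD ε z l), l.2 + P.leaves)

/-- The exits of the structure. -/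
def exS (P : CTree) : Finset (Idx P ⊕ Bool) :=
  (Finset.univ.filter fun i : Idx P => i ≠ root P).map Function.Embedding.inl

/-- The contact structure `(P, z; w; l)` is real: in the world `V ++ w`, `V = cfT z`, the test line
meets first the root of `V`, at the time `cT z l`, this particle is clean, its past cluster is
`V` and its real history is the tree `(P, z)`. `T'` = horizon (`te < T'`). -/
structure Real4 (Φ : Space3 → ℝ) (ε : ℝ) (K : ℕ) (te T' : ℝ) (P : CTree)
    (z : PhasePoint × Par P) {m : ℕ} (w : Config m) (l : ML) : Prop where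
  exV : cfT Φ ε P z ∈ PairExcluded ε P.leaves
  exw : w ∈ PairExcluded ε m
  perp : Perp ε (cfT Φ ε P z) w
  valid : Valid Φ ε P T' z.1.2 z.2
  sep : Sep Φ ε P T' z.1 z.2
  ct : (z, l.1) ∈ OneC423.ctSet Φ ε te P
  time : mT Φ ε (Fin.append (cfT Φ ε P z) w) l = cT ε z l
  mark : 1 ≤ l.2 ∧ l.2 ≤ K
  birth : 0 < l.1.1
  cluster : clM Φ ε K te (P.leaves + m) (Fin.append (cfT Φ ε P z) w) (Fin.castAdd m (rt P)) l =
    block P.leaves m
  real : RealTree674.RealTree Φ ε (cT ε z l) (Fin.append (cfT Φ ε P z) w) (Fin.castAdd m (rt P))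
    P z.1 z.2 (fun x => Fin.castAdd m (eP P x))

/-- Off LINK: superposition facts for the coexisting lines `c + exits` and `l' + c' + exits` in the
base worlds `w`, `w + d`, `d` an exit (helper879's `UnlB`), and the one-contact lemma (1.6). -/
structure Good4 (Φ : Space3 → ℝ) (ε : ℝ) (K : ℕ) (te : ℝ) (P : CTree) (z : PhasePoint × Par P)
    {m : ℕ} (w : Config m) (l : ML) : Prop where
  unl1 : UnlB (thF Φ ε K te (MW.cfg w) (oneLs Φ ε P z l)) (exS P)
    (insert (Sum.inl (root P)) (exS P))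
  unl2 : UnlB (thF Φ ε K te (MW.cfg w) (oneLs Φ ε P z l)) (exS P)
    (insert (Sum.inr false) (insert (Sum.inr true) (exS P)))
  one : min (thF Φ ε K te (MW.cfg w) (oneLs Φ ε P z l) (exS P) (Sum.inl (root P)))
    (min (thF Φ ε K te (MW.cfg w) (oneLs Φ ε P z l) (exS P) (Sum.inr false))
      (thF Φ ε K te (MW.cfg w) (oneLs Φ ε P z l) (insert (Sum.inr false) (exS P))
        (Sum.inr true))) ≤
    (MW.cfg (Fin.append (cfT Φ ε P z) w)).thetaL Φ ε K te l

/-- Test lines `x` linked to the structure: touches in the base worlds not seen in `V ++ w`. -/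
def Nbad4 (Φ : Space3 → ℝ) (ε : ℝ) (K : ℕ) (te : ℝ) (P : CTree) (z : PhasePoint × Par P)
    {m : ℕ} (w : Config m) (l : ML) : Set ML :=
  NbadB Φ ε K te (MW.cfg w) (MW.cfg (Fin.append (cfT Φ ε P z) w)) (oneLs Φ ε P z l)
    (exS P) (insert (Sum.inl (root P)) (exS P))

/-- Protected tubes of a tree (end time = exit time of the last node, also for the root). -/
def ptube (Φ : Space3 → ℝ) (ε : ℝ) (P : CTree) (z : PhasePoint × Par P) : GIV566.Tubes (Idx P) :=
  ⟨Hid424.curve Φ ε P z.1 z.2, rel P z.2⟩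

/-- Functionals of a contact structure `(P, z; w; l)`. -/
abbrev SF : Type := (P : CTree) → PhasePoint × Par P → (m : ℕ) → Config m → ML → ℝ≥0∞

/-- Joint measurability of a functional of contact structures. -/
def MeasSF (F : SF) : Prop := ∀ (P : CTree) (m : ℕ), Measurable
  fun q : (PhasePoint × Par P) × (Config m × ML) => F P q.1 m q.2.1 q.2.2

/-- Structure integral; birth times of the test line integrated with respect to `κ`. -/
def OS (Φ : Space3 → ℝ) (f₀ : PhasePoint → ℝ) (ε : ℝ) (K : ℕ) (Q : EPar) (T' : ℝ)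
    (κ : Measure ℝ) (H : SF) : ℝ≥0∞ :=
  activity ε * ∑' P : CTree, ∫⁻ z : PhasePoint × Par P,
    {z : PhasePoint × Par P | Valid Φ ε P T' z.1.2 z.2}.indicator
      (fun z => wt Φ P z.1.2 z.2 * (ToTree335.pf Φ f₀ ε P z *
        gcE f₀ ε (fun m w => ∫⁻ l, {l : ML | (z, l.1) ∈ OneC423.ctSet Φ ε Q.te P}.indicator
          (fun l => lineD Q.γ Q.ρ K l * H P z m w l) l ∂(OneC423.baseM κ)))) z

/-- Ghost indicator: the protected tubes of `(P, z)` are not hit by `w` alone before `tw`. -/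
def uI (Φ : Space3 → ℝ) (ε tw : ℝ) (P : CTree) (z : PhasePoint × Par P) {m : ℕ} (w : Config m) :
    ℝ≥0∞ := GIV566.unhitInd Φ ε (ptube Φ ε P z) tw w

/-! ## Real flux form -/

/-- Functionals of a real cluster: `V : Config k`, rest `w : Config m`, root `j`, time `s`. -/
abbrev RF : Type := (k m : ℕ) → Config k → Config m → Fin k → ℝ → ℝ≥0∞

/-- Joint measurability. -/
def MeasRF (B : RF) : Prop := ∀ (k m : ℕ) (j : Fin k), Measurable
  fun q : Config k × (Config m × ℝ) => B k m q.1 q.2.1 j q.2.2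

/-- Real flux form: `∫_{(0,T]} ds E ε² ∑_i (1+|v_i(s)|) 1[preC = V, |V| ≤ K] B`, Mecke'd. -/
def rfl4 (Φ : Space3 → ℝ) (f₀ : PhasePoint → ℝ) (ε : ℝ) (K : ℕ) (T : ℝ) (B : RF) : ℝ≥0∞ :=
  ∑' k : ℕ, activity ε ^ k / (k.factorial : ℝ≥0∞) * ∫⁻ V : Config k, gcWeight f₀ ε k V *
    gcE f₀ ε (fun m w => perpInd ε V w * ∑ j : Fin k, ∫⁻ s in Ioc 0 T,
      ENNReal.ofReal (ε ^ 2 * (1 + ‖(flow Φ ε s (Fin.append V w) (Fin.castAdd m j)).2‖)) *
        (if k ≤ K ∧ preC Φ ε (Fin.append V w) s (Fin.castAdd m j) = block k m then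
          B k m V w j s else 0))

/-! ## The null facts consumed by INEQUALITY 1 -/

/-- Reduction to good trees (D5 + H12 + mid-encounter contacts): a measurable majorant `B`, null in
real flux form, such that a real clean cluster (seen at time `s`, strictly-past cluster `V`) is
either bad (`B ≥ 1`) or its real history is a tree (`RealTree` at time `s`; this contains `Valid` at
`s`, hence the root has left its last encounter), valid and separated at the horizon `T'`, whose
protected tubes are not hit by `w` alone before `tw`. -/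
def StmtRed (Φ : Space3 → ℝ) (f₀ : PhasePoint → ℝ) (tw te T' : ℝ) : Prop :=
  ∃ B : ℕ → ℝ → RF, (∀ K ε, MeasRF (B K ε)) ∧
    (∀ (K : ℕ) (ε : ℝ), 0 < ε → ∀ (k m : ℕ) (V : Config k) (w : Config m) (j : Fin k) (s : ℝ),
      V ∈ PairExcluded ε k → w ∈ PairExcluded ε m → Perp ε V w → k ≤ K → 0 < s → s ≤ te →
      preC Φ ε (Fin.append V w) s (Fin.castAdd m j) = block k m →
      1 ≤ B K ε k m V w j s ∨
        ∃ (P : CTree) (e : Idx P ≃ Fin k) (z : PhasePoint × Par P), e (root P) = j ∧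
          (∀ x, V (e x) = lines Φ ε P z.1 z.2 x) ∧
          Valid Φ ε P T' z.1.2 z.2 ∧ Sep Φ ε P T' z.1 z.2 ∧
          RealTree674.RealTree Φ ε s (Fin.append V w) (Fin.castAdd m j) P z.1 z.2
            (fun x => Fin.castAdd m (e x)) ∧
          GIV566.unhit Φ ε (ptube Φ ε P z) tw w) ∧
    Null fun K ε => rfl4 Φ f₀ ε K te (B K ε)

/-- (H11, 741, 984) LINK and bad encounters: for every `K`, `ε` there is a measurable majorant `bd` of
`if Good4 then lineM (Nbad4) else 1` on the real structures with `n + |P| ≤ K` and unhit protected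
tubes, whose structure integral is null. -/
def StmtLink (Φ : Space3 → ℝ) (f₀ : PhasePoint → ℝ) (Q : EPar) (T' : ℝ) : Prop :=
  ∃ bd : ℕ → ℝ → SF, (∀ K ε, MeasSF (bd K ε)) ∧
    (∀ (K : ℕ) (ε : ℝ), 0 < ε → ∀ (P : CTree) (z : PhasePoint × Par P) (m : ℕ) (w : Config m)
      (l : ML), l.2 + P.leaves ≤ K → Real4 Φ ε K Q.te T' P z w l →
      GIV566.unhit Φ ε (ptube Φ ε P z) Q.tw w →
      (if Good4 Φ ε K Q.te P z w l then lineM Q.γ Q.ρ K Q.te (Nbad4 Φ ε K Q.te P z w l)
        else 1) ≤ bd K ε P z m w l) ∧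
    Null fun K ε => OS Φ f₀ ε K Q T' (volume.restrict (Ioc 0 Q.te)) (bd K ε)

/-! ## The terms after the reduction -/

/-- Functionals of the gas and of a line. -/
abbrev LF : Type := (m : ℕ) → Config m → ML → ℝ≥0∞

/-- Joint measurability. -/
def MeasLF (G : LF) : Prop := ∀ m : ℕ, Measurable fun q : Config m × ML => G m q.1 q.2

/-- Density of `G` over the lines born at time `s` with velocity `v` (`xE` is the case
`G = touchW`). -/
def XG (f₀ : PhasePoint → ℝ) (ε : ℝ) (K : ℕ) (ρ : ℝ≥0∞) (G : LF) (s : ℝ) (v : Space3) : ℝ≥0∞ :=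
  gcE f₀ ε fun m w => ∫⁻ y : Space3, ∑' n : ℕ, markW ρ K n * G m w ((s, (y, v)), n)

/-- Small structures (marks `≤ K` after the contact). -/
def smI (K : ℕ) (P : CTree) (l : ML) : ℝ≥0∞ := if l.2 + P.leaves ≤ K then 1 else 0

/-- (NS) the successors `c`, `l'`, `c'`: Volterra term. -/
def StmtNS (Φ : Space3 → ℝ) (f₀ : PhasePoint → ℝ) (Q : EPar) (T' : ℝ) (C : ℝ≥0∞) : Prop :=
  ∃ δ : ℕ → ℝ → ℝ≥0∞, Null δ ∧ ∀ (K : ℕ) (ε : ℝ), 0 < ε → ∀ G : LF, MeasLF G →
    (∀ m w l, G m w l ≤ 1) → ∀ τ ∈ Ioc 0 Q.te, ∀ k : ∀ P : CTree, Idx P ⊕ Bool,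
    ((∀ P, k P = Sum.inl (root P)) ∨ (∀ P, k P = Sum.inr false) ∨ (∀ P, k P = Sum.inr true)) →
    OS Φ f₀ ε K Q T' (Measure.dirac τ)
      (fun P z m w l => smI K P l * (uI Φ ε Q.tw P z w * G m w (oneLs Φ ε P z l (k P)))) ≤
    C * (∫⁻ s in Ioi τ, ∫⁻ v : Space3, ENNReal.ofReal (1 + ‖v‖) *
      (wG (Q.γ τ) v * XG f₀ ε K Q.ρ G s v)) + δ K ε

/-- (XC) size crossings. -/
def StmtXC (Φ : Space3 → ℝ) (f₀ : PhasePoint → ℝ) (Q : EPar) (T' : ℝ) : Prop :=
  ∃ S : ℕ → ℝ → ℝ≥0∞, Small S ∧ ∀ (K : ℕ) (ε : ℝ), 0 < ε → ∀ τ ∈ Ioc 0 Q.te,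
    OS Φ f₀ ε K Q T' (Measure.dirac τ)
      (fun P z m w l => (if P.leaves ≤ K ∧ K < l.2 + P.leaves then 1 else 0) *
        uI Φ ε Q.tw P z w) ≤ S K ε

/-- (EX) the exits of the separated trees, test functional `G`, sizes `> m₀`; `m₀ = 0`: all
sizes. -/
def StmtEX (Φ : Space3 → ℝ) (f₀ : PhasePoint → ℝ) (Q : EPar) (T' : ℝ) (m₀ : ℕ) (C : ℝ≥0∞) :
    Prop :=
  ∃ δ : ℕ → ℝ → ℝ≥0∞, Null δ ∧ ∀ (K : ℕ) (ε : ℝ), 0 < ε → ∀ G : LF, MeasLF G →
    (∀ m w l, G m w l ≤ 1) → ∀ τ ∈ Ioc 0 Q.te,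
    OS Φ f₀ ε K Q T' (Measure.dirac τ)
      (fun P z m w l => (if m₀ < P.leaves ∧ Sep Φ ε P T' z.1 z.2 then smI K P l else 0) *
        (uI Φ ε Q.tw P z w *
        ∑ i ∈ Finset.univ.filter (fun i : Idx P => i ≠ root P), G m w (lineML Φ ε P z i))) ≤
    C * gcE f₀ ε (fun m w => ∫⁻ l, G m w l ∂(lineM Q.γ Q.ρ K Q.te)) + δ K ε

/-- (SP) small clusters `|P| ≤ m₀`: the pair functional (to be identified with
`PE Φ f₀ ε K Q nu0`). -/
def OSP (Φ : Space3 → ℝ) (f₀ : PhasePoint → ℝ) (ε : ℝ) (K : ℕ) (Q : EPar) (T' : ℝ) (m₀ : ℕ)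
    (κ : Measure ℝ) : ℝ≥0∞ :=
  OS Φ f₀ ε K Q T' κ (fun P z m w l => (if P.leaves ≤ m₀ then smI K P l else 0) *
    ∑ d ∈ exS P, ∑ e ∈ Finset.univ.erase d,
      (MW.cfg w).touchP Φ ε K Q (oneLs Φ ε P z l d) (oneLs Φ ε P z l e))

end Crest.Agent.R122.OneC285

end
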