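import Crest.Agent.R122.InEq2TInt_335
import Crest.Agent.R122.LinkVh_335

/-!
# Row 122, INEQUALITY 2', touched half, v3 (helper335): the events of the independent line

Only links of single lines are used.

* `GoodX P z w l` : `l` is unlinked to every line of the tree (root included) in the gas `w`, its
  clean closure does not return to the tubes of the tree, the worlds are good (X1, X2, X3 of
  helper879); `lkX` : the other lines.
* `LnMaj NL` : `NL` dominates `min 1 (lineM (lkX ..))`; `ExMajR N` : `N` dominates the exceptional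
  events of the tree alone (all lines of the tree, root included).
-/

set_option autoImplicit false
set_option linter.unusedSectionVars false

open MeasureTheory Set Filter Topology
open scoped ENNReal
open Crest.AnalysisR.Kinetic
open Crest.Agent.R122.Flow671 Crest.Agent.R122.Causal291 Crest.Agent.R122.Loc45
open Crest.Agent.R122.Inf879 Crest.Agent.R122.GC311 Crest.Agent.R122.EDefs602
open Crest.Agent.R122.InEq2 Crest.Agent.R122.EBasic602
open Crest.Agent.R122.Kin796 Crest.Agent.R122.Kin796.CTree Crest.Agent.R122.Tree674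
open Crest.Agent.R122.PathFlow968 Crest.Agent.R122.TreeLines335 Crest.Agent.R122.LineMeas994
open Crest.Agent.R122.RtG302 Crest.Agent.R122.Weight984 Crest.Agent.R122.MeasE416
open Crest.Agent.R122.E6Hyp879 (withD)
open Crest.Agent.R122.OneC285 (ptube)
open Crest.Agent.R122.LNEv383 (RetC)
open Crest.Agent.R122.MWFam255 (PairNL)

namespace Crest.Agent.R122.InEq2T

noncomputable section

open scoped Classical

/-- The line `l` is good for the tree `z` in the gas `w` (horizon `te`). -/
structure GoodX (Φ : Space3 → ℝ) (ε : ℝ) (K : ℕ) (te : ℝ) (P : CTree) (z : PhasePoint × Par P)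
    {m : ℕ} (w : Config m) (l : ML) : Prop where
  /-- (X1) the lines of the tree and `l` can be inserted together in the gas -/
  ok : MW.OkFam Φ ε (MW.cfg w) (withD (lineML Φ ε P z) l)
  /-- (X1) the real world with `l` -/
  okr : (((MW.cfg w).add (RealL811.treeW Φ ε P z)).add (MW.line l)).Ok Φ ε
  /-- (X2) no link -/
  nl : ∀ i : Idx P, MW.NoLink Φ ε K te (MW.cfg w) (MW.line (lineML Φ ε P z i)) (MW.line l)
  /-- (X3) no return -/
  ret : ¬ RetC Φ ε ε K te (MW.cfg w) l (ptube Φ ε P z)

/-- The lines which are not good. -/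
def lkX (Φ : Space3 → ℝ) (ε : ℝ) (K : ℕ) (te : ℝ) (P : CTree) (z : PhasePoint × Par P)
    {m : ℕ} (w : Config m) : Set ML := {l | ¬ GoodX Φ ε K te P z w l}

/-- `NL` dominates the (capped) measure of the lines which are not good. -/
def LnMaj (Φ : Space3 → ℝ) (ε : ℝ) (K : ℕ) (T te : ℝ) (γ : ℝ → ℝ) (ρ : ℝ≥0∞)
    (NL : (P : CTree) → PhasePoint × Par P → (m : ℕ) → Config m → ℝ≥0∞) : Prop :=
  ∀ P z m (w : Config m), P.leaves ≤ K → Valid Φ ε P T z.1.2 z.2 → Sep Φ ε P T z.1 z.2 →
    w ∈ PairExcluded ε m → PerpT Φ ε P z w →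
      min 1 (lineM γ ρ K te (lkX Φ ε K te P z w)) ≤ NL P z m w

/-- The lines of the tree (root included) can be inserted together in the gas and are pairwise
unlinked. -/
def GoodT (Φ : Space3 → ℝ) (ε : ℝ) (K : ℕ) (te : ℝ) (P : CTree) (z : PhasePoint × Par P)
    {m : ℕ} (w : Config m) : Prop :=
  MW.OkFam Φ ε (MW.cfg w) (lineML Φ ε P z) ∧ PairNL Φ ε K te (MW.cfg w) (lineML Φ ε P z)

/-- `N` dominates the exceptional events of the tree. -/
def ExMajR (Φ : Space3 → ℝ) (ε : ℝ) (K : ℕ) (T te : ℝ)
    (N : (P : CTree) → PhasePoint × Par P → (m : ℕ) → Config m → ℝ≥0∞) : Prop :=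
  ∀ P z m (w : Config m), P.leaves ≤ K → Valid Φ ε P T z.1.2 z.2 → Sep Φ ε P T z.1 z.2 →
    w ∈ PairExcluded ε m → PerpT Φ ε P z w → ¬ GoodT Φ ε K te P z w → 1 ≤ N P z m w

end

end Crest.Agent.R122.InEq2T
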