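import Crest.Agent.R122.RetIn_974
import Crest.Agent.R122.InEq2TX_335
import Crest.Agent.R122.ExclNull_302

/-!
# The exceptional lines of inequality 3 (row 122, E6: X1, X2, X3), helper974

* `GoodXB Φ ε K T Y P z l` : the line `l` is good for the tree `z` in the base world `Y` (X1, X2, X3);
  `goodX_iff` : helper335's `GoodX` is the case `Y = cfg w`.
* `not_mem_badF` : a good line is not in `badF Y (treeW z) (lineML z)`, `z` real in `Y + V`.
* `lk_le` : `lk Y (treeW z) (lineML z) ≤ L * lineM {l | ¬ GoodXB}`.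
* `R6.lk₁`, `R6.lk₂` : from `Real6` and `E6Hyp`, `Y = cfg w`, `Y = (cfg w).ins d`.
-/

set_option autoImplicit false
set_option linter.unusedSectionVars false

open MeasureTheory Set Filter Topology
open scoped ENNReal
open Crest.AnalysisR.Kinetic
open Crest.Agent.R122.Flow671 hiding rel
open Crest.Agent.R122.Loc45 Crest.Agent.R122.Ins45
open Crest.Agent.R122.Causal291 Crest.Agent.R122.Inf879 Crest.Agent.R122.EDefs602
open Crest.Agent.R122.Lines255 Crest.Agent.R122.MWAlg255 Crest.Agent.R122.Decomp811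
open Crest.Agent.R122.Kin796 Crest.Agent.R122.Kin796.CTree Crest.Agent.R122.Tree674
open Crest.Agent.R122.TreeLines335 Crest.Agent.R122.PathFlow968
open Crest.Agent.R122.MWFam255 (FamNL PairNL CF Col)
open Crest.Agent.R122.E6Hyp879 (E6Hyp withD)
open Crest.Agent.R122.RealL811 (RL ND DF treeW)
open Crest.Agent.R122.OneC285 (ptube cfT rt cT)
open Crest.Agent.R122.Boost969 (LSt)
open Crest.Agent.R122.Pair292 (Lab)
open Crest.Agent.R122.PairD292
open Crest.Agent.R122.RealX974 Crest.Agent.R122.RetIn974 Crest.Agent.R122.R6Tree974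

namespace Crest.Agent.R122.BadX974

noncomputable section

open scoped Classical

variable {ι : Type} [Fintype ι] {Φ : Space3 → ℝ} {ε T T' : ℝ} {K : ℕ} {Y : MW ι} {P : CTree}
  {z : PhasePoint × Par P} {l : ML}

/-- The line `l` is good for the tree `z` in the base world `Y`. -/
structure GoodXB (Φ : Space3 → ℝ) (ε : ℝ) (K : ℕ) (T : ℝ) (Y : MW ι) (P : CTree)
    (z : PhasePoint × Par P) (l : ML) : Prop where
  /-- (X1) the lines of the tree and `l` can be inserted together in `Y` -/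
  ok : MW.OkFam Φ ε Y (withD (lineML Φ ε P z) l)
  /-- (X1) the real world with `l` -/
  okr : ((Y.add (treeW Φ ε P z)).ins l).Ok Φ ε
  /-- (X2) no link -/
  nl : ∀ i : Idx P, MW.NoLink Φ ε K T Y (MW.line (lineML Φ ε P z i)) (MW.line l)
  /-- (X3) no return -/
  ret : ¬ LNEv383.RetC Φ ε ε K T Y l (ptube Φ ε P z)

theorem goodX_iff {m : ℕ} {w : Config m} :
    InEq2T.GoodX Φ ε K T P z w l ↔ GoodXB Φ ε K T (MW.cfg w) P z l :=
  ⟨fun h => ⟨h.ok, h.okr, h.nl, h.ret⟩, fun h => ⟨h.ok, h.okr, h.nl, h.ret⟩⟩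

/-- The family of the lines of the tree and `l`. -/
theorem pairNL_withD {κ : Type} [Fintype κ] {F : κ → ML} (h : PairNL Φ ε K T Y F)
    (hl : ∀ i, MW.NoLink Φ ε K T Y (MW.line (F i)) (MW.line l)) :
    PairNL Φ ε K T Y (withD F l) := by
  rintro (j | j) (k | k) hjk
  · exact h j k fun h => hjk (congrArg _ h)
  · exact hl j
  · exact (hl k).symm
  · exact absurd rfl hjk

/-- Data of a real tree in a base world. -/
structure RealBase (Φ : Space3 → ℝ) (ε : ℝ) (K : ℕ) (T T' : ℝ) (Y : MW ι) (P : CTree)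
    (z : PhasePoint × Par P) : Prop where
  valid : Valid Φ ε P T' z.1.2 z.2
  sep : Sep Φ ε P T' z.1 z.2
  T'pos : 0 < T'
  hK : P.leaves ≤ K
  pos : ∀ x, 0 ≤ Y.b x
  /-- the tree is real up to the horizon -/
  tree : ∀ s, s ≤ T → RealL811.TreeIn Φ ε (Y.add (treeW Φ ε P z)) P z Sum.inr (min s T')
  ok : (Y.add (treeW Φ ε P z)).Ok Φ ε
  nl : PairNL Φ ε K T Y (lineML Φ ε P z)
  /-- at time `0` the tree is away from the particles of `Y` -/
  sep0 : ∀ (k : Idx P) x, Y.b x ≤ 0 → ε < dist (Tree674.lines Φ ε P z.1 z.2 k).1 (Y.z x).1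

/-- **World consistency of a good line.** -/
theorem w1_of_good (hΦ : AdmissiblePotential Φ) (hε : 0 < ε) (hT : 0 ≤ T)
    (h : RealBase Φ ε K T T' Y P z) (hl : 0 ≤ l.1.1) (hg : GoodXB Φ ε K T Y P z l) :
    W1 (firstT Φ ε K T Y (lineML Φ ε P z)) (Y.thetaL Φ ε K T l)
      ((Y.add (treeW Φ ε P z)).thetaL Φ ε K T l) := by
  have hnl := pairNL_withD h.nl hg.nl
  refine w1_treeAt hΦ hε hT h.valid h.sep h.T'pos h.hK h.pos hl
    (fun s _ hsT _ _ => h.tree s hsT) (fun s hs0 hsT hsF hsl => ?_) h.ok hg.okr hg.ok hnl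
  have hfam : FamNL Φ ε K T Y (withD (lineML Φ ε P z) l) s :=
    MWFam255.famNL_of_pair hg.ok hnl hs0 hsT fun k => by
      rcases k with k | u
      · exact hsF.trans (firstT_le Φ ε K T Y (lineML Φ ε P z) k)
      · exact hsl
  have hm0 : 0 ≤ min s T' := le_min hs0 h.T'pos.le
  have hR : RetHypX Φ ε K T T' (min s T') Y P z l :=
    ⟨h.valid, h.sep, min_le_right _ _, h.hK, h.pos, hl, h.tree s hsT, h.ok, hg.okr,
      hfam.mono hm0 (min_le_left _ _), hg.ret, h.sep0⟩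
  exact hR.treeIn_ins hΦ hε

/-- **A good line is not in `badF`.** -/
theorem not_mem_badF (hΦ : AdmissiblePotential Φ) (hε : 0 < ε) (hT : 0 ≤ T)
    (h : RealBase Φ ε K T T' Y P z) (hl : 0 ≤ l.1.1) (hg : GoodXB Φ ε K T Y P z l) :
    l ∉ badF Φ ε K T Y (treeW Φ ε P z) (lineML Φ ε P z) :=
  fun hno => hno (w1_of_good hΦ hε hT h hl hg)

/-- **The measure of `badF`.** -/
theorem lineM_badF_le (hΦ : AdmissiblePotential Φ) (hε : 0 < ε) (hT : 0 ≤ T) {γ : ℝ → ℝ}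
    (hγ : Measurable γ) {ρ : ℝ≥0∞} (h : RealBase Φ ε K T T' Y P z) :
    lineM γ ρ K T (badF Φ ε K T Y (treeW Φ ε P z) (lineML Φ ε P z)) ≤
      lineM γ ρ K T {l | ¬ GoodXB Φ ε K T Y P z l} := by
  refine measure_mono_ae ?_
  filter_upwards [EBasic602.lineM_ae hγ] with l hl hbad hg
  exact hbad (w1_of_good hΦ hε hT h hl.1.le hg)

/-- **The link term**. -/
theorem lk_le (hΦ : AdmissiblePotential Φ) (hε : 0 < ε) {Q : EPar} (hT : 0 ≤ Q.te)
    (hγ : Measurable Q.γ) (h : RealBase Φ ε K Q.te T' Y P z) :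
    lk Φ ε K Q Y (treeW Φ ε P z) (lineML Φ ε P z) ≤
      ENNReal.ofReal Q.L * lineM Q.γ Q.ρ K Q.te {l | ¬ GoodXB Φ ε K Q.te Y P z l} := by
  unfold lk
  exact mul_le_mul_right (lineM_badF_le hΦ hε hT hγ h) _

/-! ### From `Real6` -/

section r6

variable {te : ℝ} {m : ℕ} {w : Config m} {θ : Lab × LSt} {r : Idx P} {e' c' : ML}

theorem sep0_w (h : Real6 Φ ε K te T' P z w θ) (k : Idx P) (x : Fin m) :
    ε < dist (Tree674.lines Φ ε P z.1 z.2 k).1 (w x).1 := by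
  have h1 := h.perp (Relabel674.eP P k) x
  rwa [cfT_apply] at h1

/-- Base world `w`. -/
theorem R6.base₁ (hΦ : AdmissiblePotential Φ) (hε : 0 < ε) (hK : P.leaves ≤ K)
    (h : Real6 Φ ε K te T' P z w θ)
    (hE : E6Hyp Φ ε K te (MW.cfg w) (lineML Φ ε P z) r (dL θ) e' c') :
    RealBase Φ ε K te (cT ε z (eL θ)) (MW.cfg w) P z :=
  ⟨h.real.valid, h.real.sep, R6Tree974.R6.cT_pos h, hK, fun _ => le_rfl,
    fun _ _ => toRL (R6Tree974.R6.in1 hΦ hε h) _,
    R6Tree974.R6.ok1 hΦ hε h,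
    fun j k hjk => hE.nl₀ (Sum.inl j) (Sum.inl k) fun h => hjk (Sum.inl_injective h),
    fun k x _ => sep0_w h k x⟩

/-- Base world `w + d`. -/
theorem R6.base₂ (hΦ : AdmissiblePotential Φ) (hε : 0 < ε) (hK : P.leaves ≤ K)
    (h : Real6 Φ ε K te T' P z w θ)
    (hE : E6Hyp Φ ε K te (MW.cfg w) (lineML Φ ε P z) r (dL θ) e' c') :
    RealBase Φ ε K te (cT ε z (eL θ)) ((MW.cfg w).ins (dL θ)) P z :=
  ⟨h.real.valid, h.real.sep, R6Tree974.R6.cT_pos h, hK, b_nonneg_ins h,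
    fun _ _ => toRL (R6Tree974.R6.in2 hΦ hε h) _, R6Tree974.R6.ok2 hΦ hε h, hE.nl₁, fun k x hx => by
      rcases x with x | u
      · exact sep0_w h k x
      · exact absurd hx (not_le.2 h.okL.d0)⟩

/-- **The link term in the world `w`.** -/
theorem R6.lk₁ (hΦ : AdmissiblePotential Φ) (hε : 0 < ε) {Q : EPar} (hT : 0 ≤ Q.te)
    (hγ : Measurable Q.γ) (hK : P.leaves ≤ K) (h : Real6 Φ ε K Q.te T' P z w θ)
    (hE : E6Hyp Φ ε K Q.te (MW.cfg w) (lineML Φ ε P z) r (dL θ) e' c') :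
    lk Φ ε K Q (MW.cfg w) (treeW Φ ε P z) (lineML Φ ε P z) ≤
      ENNReal.ofReal Q.L * lineM Q.γ Q.ρ K Q.te (InEq2T.lkX Φ ε K Q.te P z w) := by
  refine (lk_le hΦ hε hT hγ (R6.base₁ hΦ hε hK h hE)).trans (le_of_eq ?_)
  congr 2
  ext l
  exact not_congr goodX_iff.symm

/-- **The link term in the world `w + d`.** -/
theorem R6.lk₂ (hΦ : AdmissiblePotential Φ) (hε : 0 < ε) {Q : EPar} (hT : 0 ≤ Q.te)
    (hγ : Measurable Q.γ) (hK : P.leaves ≤ K) (h : Real6 Φ ε K Q.te T' P z w θ)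
    (hE : E6Hyp Φ ε K Q.te (MW.cfg w) (lineML Φ ε P z) r (dL θ) e' c') :
    lk Φ ε K Q ((MW.cfg w).ins (dL θ)) (treeW Φ ε P z) (lineML Φ ε P z) ≤
      ENNReal.ofReal Q.L * lineM Q.γ Q.ρ K Q.te
        {l | ¬ GoodXB Φ ε K Q.te ((MW.cfg w).ins (dL θ)) P z l} :=
  lk_le hΦ hε hT hγ (R6.base₂ hΦ hε hK h hE)

end r6

/-! ### Valid separated trees which are real in `w + V` (error term `errA`) -/

section errA

variable {te : ℝ} {m : ℕ} {w : Config m}

theorem treeW_eq (h : Adm Φ P z.1.2 z.2) : InEq2T.treeW Φ ε P z = RealL811.treeW Φ ε P z := by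
  unfold InEq2T.treeW RealL811.treeW
  rw [Tree674.linesM_of_adm ε h]

/-- The leaves and the gas are pairwise excluded. -/
theorem append_mem (hT : 0 ≤ T') (hV : Valid Φ ε P T' z.1.2 z.2) (hS : Sep Φ ε P T' z.1 z.2)
    (hw : w ∈ PairExcluded ε m) (hp : InEq2T.PerpT Φ ε P z w) :
    (Fin.append (cfT Φ ε P z) w : Config (P.leaves + m)) ∈ PairExcluded ε (P.leaves + m) := by
  refine (GC311.append_mem_pairExcluded_iff _ _).2 ⟨fun i j hij => ?_, hw, fun i j => ?_⟩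
  · obtain ⟨a, rfl⟩ := (Relabel674.eP P).surjective i
    obtain ⟨b, rfl⟩ := (Relabel674.eP P).surjective j
    rw [cfT_apply, cfT_apply]
    exact Excl302.lines_excl hT hV hS fun h => hij (congrArg _ h)
  · obtain ⟨a, rfl⟩ := (Relabel674.eP P).surjective i
    have h1 := hp a j
    rw [Tree674.linesM_of_adm ε hV.1] at h1
    rw [cfT_apply]
    exact h1

theorem ok_tree (hΦ : AdmissiblePotential Φ) (hε : 0 < ε) (hT : 0 ≤ T')
    (hV : Valid Φ ε P T' z.1.2 z.2) (hS : Sep Φ ε P T' z.1 z.2)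
    (hw : w ∈ PairExcluded ε m) (hp : InEq2T.PerpT Φ ε P z w) :
    ((MW.cfg w).add (treeW Φ ε P z)).Ok Φ ε := by
  rw [← comap1]
  exact MWFam255.Ok.relabel hΦ hε (Unw410.cfg_ok hΦ hε (append_mem hT hV hS hw hp)) _

/-- **The base data** of a valid separated tree which is real in `w + V` up to `te`. -/
theorem base_tiS (hΦ : AdmissiblePotential Φ) (hε : 0 < ε) (hT : 0 < te)
    (hV : Valid Φ ε P te z.1.2 z.2) (hS : Sep Φ ε P te z.1 z.2) (hK : P.leaves ≤ K)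
    (hw : w ∈ PairExcluded ε m) (hp : InEq2T.PerpT Φ ε P z w)
    (ht : RealL811.TreeIn Φ ε ((MW.cfg w).add (treeW Φ ε P z)) P z Sum.inr te)
    (hnl : PairNL Φ ε K te (MW.cfg w) (lineML Φ ε P z)) :
    RealBase Φ ε K te te (MW.cfg w) P z :=
  ⟨hV, hS, hT, hK, fun _ => le_rfl, fun _ _ => ht.mono (min_le_right _ _),
    ok_tree hΦ hε hT.le hV hS hw hp, hnl, fun k x _ => by
      have h1 := hp k x
      rw [Tree674.linesM_of_adm ε hV.1] at h1
      exact h1⟩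

/-- **`errA`**: a line of `badF` is not good, if the lines of the tree are pairwise unlinked. -/
theorem mem_lkX_of_badF (hΦ : AdmissiblePotential Φ) (hε : 0 < ε) (hT : 0 < te)
    (hV : Valid Φ ε P te z.1.2 z.2) (hS : Sep Φ ε P te z.1 z.2) (hK : P.leaves ≤ K)
    (hw : w ∈ PairExcluded ε m) (hp : InEq2T.PerpT Φ ε P z w)
    (ht : RealL811.TreeIn Φ ε ((MW.cfg w).add (treeW Φ ε P z)) P z Sum.inr te)
    (hnl : PairNL Φ ε K te (MW.cfg w) (lineML Φ ε P z)) (hl : 0 ≤ l.1.1)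
    (hb : l ∈ badF Φ ε K te (MW.cfg w) (InEq2T.treeW Φ ε P z)
      (LineMeas994.lineMM Φ ε P z)) : l ∈ InEq2T.lkX Φ ε K te P z w := by
  have e : LineMeas994.lineMM Φ ε P z = lineML Φ ε P z :=
    funext fun i => LineMeas994.lineMM_of_adm ε hV.1 i
  rw [treeW_eq hV.1, e] at hb
  intro hg
  exact not_mem_badF hΦ hε hT.le (base_tiS hΦ hε hT hV hS hK hw hp ht hnl) hl
    (goodX_iff.1 hg) hb

/-- **The measure form**, with the realness of the tree and the absence of links of its lines inside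
the sets. -/
theorem lineM_tiS_le (hΦ : AdmissiblePotential Φ) (hε : 0 < ε) (hT : 0 < te) {γ : ℝ → ℝ}
    (hγ : Measurable γ) {ρ : ℝ≥0∞}
    (hV : Valid Φ ε P te z.1.2 z.2) (hS : Sep Φ ε P te z.1 z.2) (hK : P.leaves ≤ K)
    (hw : w ∈ PairExcluded ε m) (hp : InEq2T.PerpT Φ ε P z w) :
    lineM γ ρ K te {l | RealL811.TreeIn Φ ε ((MW.cfg w).add (treeW Φ ε P z)) P z Sum.inr te ∧
      l ∈ badF Φ ε K te (MW.cfg w) (InEq2T.treeW Φ ε P z) (LineMeas994.lineMM Φ ε P z)} ≤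
    lineM γ ρ K te {l | ¬ InEq2T.GoodT Φ ε K te P z w ∨ l ∈ InEq2T.lkX Φ ε K te P z w} := by
  refine measure_mono_ae ?_
  filter_upwards [EBasic602.lineM_ae hγ] with l hl hbad
  by_cases hG : InEq2T.GoodT Φ ε K te P z w
  · exact Or.inr (mem_lkX_of_badF hΦ hε hT hV hS hK hw hp hbad.1 hG.2 hl.1.le hbad.2)
  · exact Or.inl hG

end errA

end

end Crest.Agent.R122.BadX974
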