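import Crest.Agent.R122.OCout_796
import Crest.Agent.R122.Volt2_796
import Crest.Agent.R122.EDefs_602

/-!
# The NS term of Inequality 1 (row 122, section E4): sum over the marks of the one-contact flux bound

For an abstract functional `G` of marked lines and the lines `lineL'`, `lineC'`, `lineC` of a contact
(helper796), with marks `n + k`, `n + k`, `k`.
-/

set_option autoImplicit false

open MeasureTheory Set Filter Topology
open Crest.AnalysisR.Kinetic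
open Crest.Agent.R122.Boltz814 Crest.Agent.R122.Kin416 Crest.Agent.R122.Disc416
open Crest.Agent.R122.Kin796 Crest.Agent.R122.Flux663 Crest.Agent.R122.Scat818
open Crest.Agent.R122.Volt796 Crest.Agent.R122.OCout796 Crest.Agent.R122.EDefs602
open scoped ENNReal

noncomputable section

namespace Crest.Agent.R122.NS423

/-! ### Marks -/

theorem marks_add {ρ ρ₀ : ℝ≥0∞} (hρ : ρ ≠ 0) (hρ' : ρ ≠ ∞) (K : ℕ) (I : ℕ → ℝ≥0∞) :
    ∑' n : ℕ, markW ρ K n * ∑' k : ℕ, (if 1 ≤ k ∧ n + k ≤ K then ρ₀ ^ k * I (n + k) else 0) ≤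
      (1 - ρ₀ / ρ)⁻¹ * ∑' N : ℕ, markW ρ K N * I N := by
  have h := marks_conv (ρ := ρ) (ρ₀ := ρ₀) hρ hρ' (fun N => if 1 ≤ N ∧ N ≤ K then I N else 0)
  refine le_trans (ENNReal.tsum_le_tsum fun n => ?_) (h.trans (le_of_eq ?_))
  · refine mul_le_mul' ?_ (ENNReal.tsum_le_tsum fun k => ?_)
    · unfold markW
      split_ifs
      · exact le_rfl
      · exact zero_le
    · by_cases hk : 1 ≤ k ∧ n + k ≤ K
      · rw [if_pos hk, if_pos ⟨by omega, hk.2⟩]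
      · rw [if_neg hk]
        exact zero_le
  · congr 1
    refine tsum_congr fun N => ?_
    unfold markW
    split_ifs <;> simp

theorem marks_right {ρ ρ₀ : ℝ≥0∞} (h : ρ₀ ≤ ρ) (K : ℕ) (I : ℕ → ℝ≥0∞) :
    ∑' n : ℕ, markW ρ K n * ∑' k : ℕ, (if 1 ≤ k ∧ n + k ≤ K then ρ₀ ^ k * I k else 0) ≤
      (1 - ρ)⁻¹ * ∑' N : ℕ, markW ρ K N * I N := by
  have h1 : ∀ n : ℕ, ∑' k : ℕ, (if 1 ≤ k ∧ n + k ≤ K then ρ₀ ^ k * I k else 0) ≤
      ∑' N : ℕ, markW ρ K N * I N := by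
    intro n
    refine ENNReal.tsum_le_tsum fun k => ?_
    by_cases hk : 1 ≤ k ∧ n + k ≤ K
    · rw [if_pos hk]
      unfold markW
      rw [if_pos ⟨hk.1, by omega⟩]
      exact mul_le_mul' (pow_le_pow_left' h k) le_rfl
    · rw [if_neg hk]
      exact zero_le
  calc ∑' n : ℕ, markW ρ K n * ∑' k : ℕ, (if 1 ≤ k ∧ n + k ≤ K then ρ₀ ^ k * I k else 0)
      ≤ ∑' n : ℕ, ρ ^ n * ∑' N : ℕ, markW ρ K N * I N := by
        refine ENNReal.tsum_le_tsum fun n => mul_le_mul' ?_ (h1 n)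
        unfold markW
        split_ifs
        · exact le_rfl
        · exact zero_le
    _ = _ := by rw [ENNReal.tsum_mul_right, ENNReal.tsum_geometric]

/-- The crossing sum. -/
theorem marks_cross (ρ ρ₀ : ℝ≥0∞) (K : ℕ) :
    ∑' n : ℕ, markW ρ K n * ∑' k : ℕ, (if K < n + k then ρ₀ ^ k else 0) ≤
      (1 - ρ₀)⁻¹ * ((K + 1 : ℕ) * (max ρ ρ₀) ^ K) := by
  have hin : ∀ n : ℕ, n ≤ K → ∑' k : ℕ, (if K < n + k then ρ₀ ^ k else 0) ≤
      ρ₀ ^ (K - n) * (1 - ρ₀)⁻¹ := by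
    intro n hn
    have h2 : ∀ k : ℕ, k ∉ Set.range (fun j : ℕ => j + (K - n)) →
        (if K < n + k then ρ₀ ^ k else 0) = 0 := by
      intro k hk
      rw [if_neg]
      intro hlt
      exact hk ⟨k - (K - n), by simp only; omega⟩
    have hinj : Function.Injective (fun j : ℕ => j + (K - n)) := fun a b hab => by simpa using hab
    have h3 : ∑' k : ℕ, (if K < n + k then ρ₀ ^ k else 0) =
        ∑' j : ℕ, (if K < n + (j + (K - n)) then ρ₀ ^ (j + (K - n)) else 0) := by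
      symm
      exact hinj.tsum_eq (f := fun k : ℕ => if K < n + k then ρ₀ ^ k else 0) (by
        intro k hk
        by_contra hc
        exact hk (h2 k hc))
    rw [h3, ← ENNReal.tsum_geometric, ← ENNReal.tsum_mul_left]
    refine ENNReal.tsum_le_tsum fun j => ?_
    split_ifs
    · rw [pow_add, mul_comm]
    · exact zero_le
  have h4 : ∀ n : ℕ, markW ρ K n * ∑' k : ℕ, (if K < n + k then ρ₀ ^ k else 0) ≤
      if n ∈ Finset.range (K + 1) then (max ρ ρ₀) ^ K * (1 - ρ₀)⁻¹ else 0 := by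
    intro n
    unfold markW
    by_cases hn : 1 ≤ n ∧ n ≤ K
    · rw [if_pos hn, if_pos (Finset.mem_range.2 (by omega))]
      calc ρ ^ n * ∑' k : ℕ, (if K < n + k then ρ₀ ^ k else 0)
          ≤ (max ρ ρ₀) ^ n * ((max ρ ρ₀) ^ (K - n) * (1 - ρ₀)⁻¹) :=
            mul_le_mul' (pow_le_pow_left' (le_max_left _ _) n)
              ((hin n hn.2).trans (mul_le_mul' (pow_le_pow_left' (le_max_right _ _) _) le_rfl))
        _ = (max ρ ρ₀) ^ K * (1 - ρ₀)⁻¹ := by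
            rw [← mul_assoc, ← pow_add, Nat.add_sub_cancel' hn.2]
    · rw [if_neg hn, zero_mul]
      exact zero_le
  refine (ENNReal.tsum_le_tsum h4).trans (le_of_eq ?_)
  rw [tsum_eq_sum (s := Finset.range (K + 1)) (fun n hn => by rw [if_neg hn]),
    Finset.sum_congr rfl (fun n hn => by rw [if_pos hn]), Finset.sum_const, Finset.card_range,
    nsmul_eq_mul]
  ring

/-- The crossing sum is small. -/
theorem tendsto_cross {r : ℝ≥0∞} (hr : r < 1) :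
    Tendsto (fun K : ℕ => ((K + 1 : ℕ) : ℝ≥0∞) * r ^ K) atTop (𝓝 0) := by
  have hr' : r ≠ ∞ := (hr.trans ENNReal.one_lt_top).ne
  lift r to NNReal using hr'
  have hr0 : (0 : ℝ) ≤ (r : ℝ) := NNReal.coe_nonneg r
  have hr1 : (r : ℝ) < 1 := by exact_mod_cast hr
  have h1 : Tendsto (fun K : ℕ => ((K + 1 : ℕ) : ℝ) * (r : ℝ) ^ K) atTop (𝓝 0) := by
    have h2 := tendsto_self_mul_const_pow_of_lt_one hr0 hr1
    have h3 := tendsto_pow_atTop_nhds_zero_of_lt_one hr0 hr1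
    have h4 := h2.add h3
    rw [add_zero] at h4
    refine h4.congr fun K => ?_
    push_cast
    ring
  have h5 : Tendsto (fun K : ℕ => ENNReal.ofReal (((K + 1 : ℕ) : ℝ) * (r : ℝ) ^ K)) atTop
      (𝓝 (ENNReal.ofReal 0)) := (ENNReal.continuous_ofReal.tendsto 0).comp h1
  rw [ENNReal.ofReal_zero] at h5
  refine h5.congr fun K => ?_
  rw [ENNReal.ofReal_mul (by positivity), ENNReal.ofReal_natCast,
    ENNReal.ofReal_pow hr0, ENNReal.ofReal_coe_nnreal]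

/-! ### Flux -/

theorem wG_eq_gau (γ : ℝ) (v : Space3) : wG γ v = gau γ v := by
  unfold wG gau
  congr 2
  ring

variable {Φ : Space3 → ℝ} {γ₀ γ b₀ ε τ te : ℝ}

/-- Right-hand side of the NS bound. -/
def nsR (γ : ℝ) (ρ : ℝ≥0∞) (K : ℕ) (J : Set ℝ) (G : ML → ℝ≥0∞) : ℝ≥0∞ :=
  ∫⁻ s in J, ∫⁻ v : Space3, ENNReal.ofReal (1 + ‖v‖) * (wG γ v *
    ∫⁻ y : Space3, ∑' n : ℕ, markW ρ K n * G ((s, (y, v)), n))

theorem tsum_mul_lintegral {H : ℕ → ℝ × Space3 → ℝ≥0∞} (hH : ∀ N, Measurable (H N))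
    (c : ℕ → ℝ≥0∞) (J : Set ℝ) :
    ∑' N : ℕ, c N * ∫⁻ s in J, ∫⁻ v : Space3, H N (s, v) =
      ∫⁻ s in J, ∫⁻ v : Space3, ∑' N : ℕ, c N * H N (s, v) := by
  have h1 : ∀ N : ℕ, Measurable fun s : ℝ => ∫⁻ v : Space3, H N (s, v) := fun N =>
    (hH N).lintegral_prod_right'
  have h2 : ∀ (N : ℕ) (s : ℝ), Measurable fun v : Space3 => H N (s, v) := fun N s =>
    (hH N).comp (measurable_const.prodMk measurable_id)
  calc ∑' N : ℕ, c N * ∫⁻ s in J, ∫⁻ v : Space3, H N (s, v)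
      = ∑' N : ℕ, ∫⁻ s in J, c N * ∫⁻ v : Space3, H N (s, v) :=
        tsum_congr fun N => (lintegral_const_mul _ (h1 N)).symm
    _ = ∫⁻ s in J, ∑' N : ℕ, c N * ∫⁻ v : Space3, H N (s, v) :=
        (lintegral_tsum fun N => ((h1 N).const_mul _).aemeasurable).symm
    _ = _ := by
        refine lintegral_congr fun s => ?_
        rw [lintegral_tsum fun N => ((h2 N s).const_mul _).aemeasurable]
        exact tsum_congr fun N => (lintegral_const_mul _ (h2 N s)).symm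

/-- Integrand of the flux. -/
def fI (γ : ℝ) (G : ML → ℝ≥0∞) (N : ℕ) (q : ℝ × Space3) : ℝ≥0∞ :=
  ENNReal.ofReal (1 + ‖q.2‖) * (wG γ q.2 * ∫⁻ y : Space3, G ((q.1, (y, q.2)), N))

theorem measurable_wG' (γ : ℝ) : Measurable fun v : Space3 => wG γ v := by
  simp only [wG_eq_gau]
  exact measurable_gau γ

theorem measurable_inner {G : ML → ℝ≥0∞} (hG : Measurable G) (N : ℕ) :
    Measurable fun q : ℝ × Space3 => ∫⁻ y : Space3, G ((q.1, (y, q.2)), N) := by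
  refine Measurable.lintegral_prod_right' (f := fun q : (ℝ × Space3) × Space3 =>
    G ((q.1.1, (q.2, q.1.2)), N)) ?_
  exact hG.comp (f := fun q : (ℝ × Space3) × Space3 =>
    (((q.1.1, (q.2, q.1.2)), N) : ML)) (by fun_prop)

theorem measurable_fI (γ : ℝ) {G : ML → ℝ≥0∞} (hG : Measurable G) (N : ℕ) :
    Measurable (fI γ G N) := by
  unfold fI
  have h4 : Measurable fun q : ℝ × Space3 => ENNReal.ofReal (1 + ‖q.2‖) := by fun_prop
  exact h4.mul (((measurable_wG' γ).comp measurable_snd).mul (measurable_inner hG N))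

theorem fluxM_eq {G : ML → ℝ≥0∞} (hG : Measurable G) (N : ℕ) :
    fluxM γ (OCout796.lineM τ fun e => G (e, N)) =
      ∫⁻ s in Ioi τ, ∫⁻ v : Space3, fI γ G N (s, v) := by
  have hm := measurable_inner hG N
  have hs : ∀ v : Space3, Measurable fun s : ℝ => ∫⁻ y : Space3, G ((s, (y, v)), N) := fun v =>
    hm.comp (measurable_id.prodMk measurable_const)
  have h1 : Measurable (fI γ G N) := measurable_fI γ hG N
  have h2 : ∫⁻ s in Ioi τ, ∫⁻ v : Space3, fI γ G N (s, v) =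
      ∫⁻ v : Space3, ∫⁻ s in Ioi τ, fI γ G N (s, v) :=
    lintegral_lintegral_swap (f := fun (s : ℝ) (v : Space3) => fI γ G N (s, v)) h1.aemeasurable
  rw [h2]
  unfold fluxM OCout796.lineM fI
  refine lintegral_congr fun v => ?_
  simp only
  rw [lintegral_const_mul _ ((hs v).const_mul _), lintegral_const_mul _ (hs v), wG_eq_gau]

theorem sum_flux {G : ML → ℝ≥0∞} (hG : Measurable G) (ρ : ℝ≥0∞) (K : ℕ) (c : ℝ≥0∞) :
    ∑' N : ℕ, markW ρ K N * (c * fluxM γ (OCout796.lineM τ fun e => G (e, N))) =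
      c * nsR γ ρ K (Ioi τ) G := by
  have h5 : ∀ N : ℕ, markW ρ K N * (c * fluxM γ (OCout796.lineM τ fun e => G (e, N))) =
      c * (markW ρ K N * ∫⁻ s in Ioi τ, ∫⁻ v : Space3, fI γ G N (s, v)) := by
    intro N
    rw [fluxM_eq hG N]
    ring
  simp only [h5]
  rw [ENNReal.tsum_mul_left, tsum_mul_lintegral (measurable_fI γ hG)]
  congr 1
  unfold nsR fI
  refine lintegral_congr fun s => lintegral_congr fun v => ?_
  have hy : ∀ N : ℕ, Measurable fun y : Space3 => G ((s, (y, v)), N) := fun N =>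
    hG.comp (f := fun y : Space3 => (((s, (y, v)), N) : ML)) (by fun_prop)
  rw [lintegral_tsum fun N => ((hy N).const_mul _).aemeasurable, ← ENNReal.tsum_mul_left,
    ← ENNReal.tsum_mul_left]
  refine tsum_congr fun N => ?_
  rw [lintegral_const_mul _ (hy N)]
  ring

/-- Abstract form: `E` is a line of a contact with the flux bound of helper796. -/
theorem ns_add {E : ℝ → Space3 → CD → Ln}
    (hE : ∀ {F : Ln → ℝ≥0∞}, Measurable F →
      ocInt γ b₀ τ te (fun s y q => F (E s y q)) ≤ CG γ₀ * fluxM γ (OCout796.lineM τ F))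
    {ρ ρ₀ : ℝ≥0∞} (hρ : ρ ≠ 0) (hρ' : ρ ≠ ∞) (K : ℕ) {G : ML → ℝ≥0∞} (hG : Measurable G) :
    ∑' n : ℕ, markW ρ K n * ∑' k : ℕ, (if 1 ≤ k ∧ n + k ≤ K then
        ρ₀ ^ k * ocInt γ b₀ τ te (fun s y q => G (E s y q, n + k)) else 0) ≤
      (1 - ρ₀ / ρ)⁻¹ * CG γ₀ * nsR γ ρ K (Ioi τ) G := by
  refine (marks_add hρ hρ' K (fun N => ocInt γ b₀ τ te (fun s y q => G (E s y q, N)))).trans ?_
  rw [mul_assoc, ← sum_flux hG ρ K (CG γ₀)]
  refine mul_le_mul' le_rfl (ENNReal.tsum_le_tsum fun N => mul_le_mul' le_rfl ?_)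
  exact hE (F := fun e => G (e, N)) (hG.comp (measurable_id.prodMk measurable_const))

theorem ns_right {E : ℝ → Space3 → CD → Ln}
    (hE : ∀ {F : Ln → ℝ≥0∞}, Measurable F →
      ocInt γ b₀ τ te (fun s y q => F (E s y q)) ≤ CG γ₀ * fluxM γ (OCout796.lineM τ F))
    {ρ ρ₀ : ℝ≥0∞} (h : ρ₀ ≤ ρ) (K : ℕ) {G : ML → ℝ≥0∞} (hG : Measurable G) :
    ∑' n : ℕ, markW ρ K n * ∑' k : ℕ, (if 1 ≤ k ∧ n + k ≤ K then
        ρ₀ ^ k * ocInt γ b₀ τ te (fun s y q => G (E s y q, k)) else 0) ≤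
      (1 - ρ)⁻¹ * CG γ₀ * nsR γ ρ K (Ioi τ) G := by
  refine (marks_right h K (fun N => ocInt γ b₀ τ te (fun s y q => G (E s y q, N)))).trans ?_
  rw [mul_assoc, ← sum_flux hG ρ K (CG γ₀)]
  refine mul_le_mul' le_rfl (ENNReal.tsum_le_tsum fun N => mul_le_mul' le_rfl ?_)
  exact hE (F := fun e => G (e, N)) (hG.comp (measurable_id.prodMk measurable_const))

/-- Constant of the NS bound. -/
def C1 (γ₀ : ℝ) (ρ ρ₀ : ℝ≥0∞) : ℝ≥0∞ := ((1 - ρ₀ / ρ)⁻¹ + (1 - ρ)⁻¹) * CG γ₀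

theorem C1_ne_top (hγ₀ : 0 < γ₀) {ρ ρ₀ : ℝ≥0∞} (h : ρ₀ < ρ) (h1 : ρ < 1) :
    C1 γ₀ ρ ρ₀ ≠ ∞ := by
  have hρt : ρ ≠ ∞ := (h1.trans ENNReal.one_lt_top).ne
  have hρ0 : ρ ≠ 0 := (zero_le.trans_lt h).ne'
  unfold C1
  refine ENNReal.mul_ne_top (ENNReal.add_ne_top.2 ⟨?_, ?_⟩) (CG_lt_top hγ₀).ne
  · refine ENNReal.inv_ne_top.2 (tsub_pos_of_lt ?_).ne'
    rw [ENNReal.div_lt_iff (Or.inl hρ0) (Or.inl hρt), one_mul]
    exact h
  · exact ENNReal.inv_ne_top.2 (tsub_pos_of_lt h1).ne'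

section main

variable {ρ ρ₀ : ℝ≥0∞} {G : ML → ℝ≥0∞}

/-- Functionals of lines born in the window. -/
theorem nsR_Ioc (hG0 : ∀ s y v n, te < s → G ((s, (y, v)), n) = 0) (ρ : ℝ≥0∞) (K : ℕ) :
    nsR γ ρ K (Ioi τ) G = nsR γ ρ K (Ioc τ te) G := by
  unfold nsR
  have h1 : ∀ s, te < s → ∫⁻ v : Space3, ENNReal.ofReal (1 + ‖v‖) * (wG γ v *
      ∫⁻ y : Space3, ∑' n : ℕ, markW ρ K n * G ((s, (y, v)), n)) = 0 := by
    intro s hs
    simp [hG0 s _ _ _ hs]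
  rw [← lintegral_indicator measurableSet_Ioi, ← lintegral_indicator measurableSet_Ioc]
  refine lintegral_congr fun s => ?_
  by_cases hs : s ∈ Ioc τ te
  · rw [indicator_of_mem hs, indicator_of_mem (show s ∈ Ioi τ from hs.1)]
  · rw [indicator_of_notMem hs]
    by_cases hs' : s ∈ Ioi τ
    · rw [indicator_of_mem hs']
      exact h1 s (not_le.1 fun h => hs ⟨hs', h⟩)
    · rw [indicator_of_notMem hs']

/-- **NS term, outgoing tagged line** (mark `n + k`). -/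
theorem ns_lineL' (hΦ : AdmissiblePotential Φ) (hγ₀ : 0 < γ₀) (h : γ₀ ≤ γ) (hγb : γ ≤ b₀)
    (hε : 0 ≤ ε) (hρ : ρ₀ < ρ) (hρ1 : ρ < 1) (K : ℕ) (hG : Measurable G) :
    ∑' n : ℕ, markW ρ K n * ∑' k : ℕ, (if 1 ≤ k ∧ n + k ≤ K then
        ρ₀ ^ k * ocInt γ b₀ τ te (fun s y q => G (lineL' Φ ε s y q, n + k)) else 0) ≤
      C1 γ₀ ρ ρ₀ * nsR γ ρ K (Ioi τ) G := by
  refine (ns_add (E := fun s y q => lineL' Φ ε s y q)
    (fun hF => oc_lineL' hΦ hγ₀ h hγb hε hF) (zero_le.trans_lt hρ).ne'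
    (hρ1.trans ENNReal.one_lt_top).ne K hG).trans ?_
  refine mul_le_mul' ?_ le_rfl
  exact mul_le_mul' le_self_add le_rfl

/-- **NS term, outgoing partner** (mark `n + k`). -/
theorem ns_lineC' (hΦ : AdmissiblePotential Φ) (hγ₀ : 0 < γ₀) (h : γ₀ ≤ γ) (hγb : γ ≤ b₀)
    (hε : 0 ≤ ε) (hρ : ρ₀ < ρ) (hρ1 : ρ < 1) (K : ℕ) (hG : Measurable G) :
    ∑' n : ℕ, markW ρ K n * ∑' k : ℕ, (if 1 ≤ k ∧ n + k ≤ K then
        ρ₀ ^ k * ocInt γ b₀ τ te (fun s y q => G (lineC' Φ ε s y q, n + k)) else 0) ≤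
      C1 γ₀ ρ ρ₀ * nsR γ ρ K (Ioi τ) G := by
  refine (ns_add (E := fun s y q => lineC' Φ ε s y q)
    (fun hF => oc_lineC' hΦ hγ₀ h hγb hε hF) (zero_le.trans_lt hρ).ne'
    (hρ1.trans ENNReal.one_lt_top).ne K hG).trans ?_
  refine mul_le_mul' ?_ le_rfl
  exact mul_le_mul' le_self_add le_rfl

/-- **NS term, undeflected partner** (mark `k`). -/
theorem ns_lineC (hΦ : AdmissiblePotential Φ) (hγ₀ : 0 < γ₀) (h : γ₀ ≤ γ) (hγb : γ ≤ b₀)
    (hε : 0 ≤ ε) (hρ : ρ₀ < ρ) (K : ℕ) (hG : Measurable G) :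
    ∑' n : ℕ, markW ρ K n * ∑' k : ℕ, (if 1 ≤ k ∧ n + k ≤ K then
        ρ₀ ^ k * ocInt γ b₀ τ te (fun s y q => G (lineC Φ ε s y q, k)) else 0) ≤
      C1 γ₀ ρ ρ₀ * nsR γ ρ K (Ioi τ) G := by
  refine (ns_right (E := fun s y q => lineC Φ ε s y q)
    (fun hF => oc_lineC hΦ hγ₀ h hγb hε hF) hρ.le K hG).trans ?_
  refine mul_le_mul' ?_ le_rfl
  exact mul_le_mul' le_add_self le_rfl

end main

end Crest.Agent.R122.NS423
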