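import Crest.Agent.R122.Q1Use_815

/-!
helper815, row 122, block Q (quenched densities), part 7: concrete weights.

* `KinC.mono_kap`, `exists_kinC_le` : the energy rate may be taken `≤ β` (in fact as small as wanted);
* `Wgt.of_le` : a measurable weight `≤ M lam^size exp (kap eng)`, `kap < 2β`, is admissible;
* `wtA` : additive energy weight `∑ (1 + |v_i|²)` (all leaves), `wtA_le`;
* `rootA` : `1 + |v|` of the root line, `rootA_le`;
* `cutW` : cut-off to trees with at most `K` leaves.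
-/

set_option autoImplicit false

open MeasureTheory Set Filter
open scoped ENNReal Topology Classical
open Crest.AnalysisR.Kinetic Crest.Agent.R122.Kin796 Crest.Agent.R122.Disc416
  Crest.Agent.R122.Kin416 Crest.Agent.R122.Tree674
  Crest.Agent.R122.Scat818 Crest.Agent.R122.TreeF399 Crest.Agent.R122.TreeEps399
  Crest.Agent.R122.Hid424 Crest.Agent.R122.Quench815 Crest.Agent.R122.QDens815
  Crest.Agent.R122.GC311 Crest.Agent.R122.EDefs602

noncomputable section

namespace Crest.Agent.R122.Q1815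

open CTree

variable {Φ : Space3 → ℝ} {f₀ : PhasePoint → ℝ} {f : ℝ → PhasePoint → ℝ} {β T : ℝ}

/-! ### The energy rate -/

theorem KinC.mono_kap (hΦ : AdmissiblePotential Φ) (hf : IsRegularKineticSolution Φ β T f₀ f)
    {h₀ kap lam C b : ℝ} (hK : Seg814.KinC Φ T f h₀ kap lam C b) {kap' : ℝ} (h0 : 0 < kap')
    (h : kap' ≤ kap) : Seg814.KinC Φ T f h₀ kap' lam C b := by
  obtain ⟨a1, a2, a3, a4, a5, a6⟩ := hK
  refine ⟨a1, h0, a3, a4, a5, fun tw htw t ht x v => ?_⟩
  have hexp : ∀ (P : CTree) (p : Par P), ENNReal.ofReal (Real.exp (kap' * Seg814.eng Φ P v p)) ≤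
      ENNReal.ofReal (Real.exp (kap * Seg814.eng Φ P v p)) := fun P p =>
    ENNReal.ofReal_le_ofReal (Real.exp_le_exp.2
      (mul_le_mul_of_nonneg_right h (Seg814.eng_nonneg P v p)))
  refine ⟨le_trans (ENNReal.tsum_le_tsum fun P => ?_) (a6 tw htw t ht x v).1,
    le_trans (ENNReal.tsum_le_tsum fun P => ?_) (a6 tw htw t ht x v).2⟩
  · rw [Seg814.F_energy hΦ hf, Seg814.F_energy hΦ hf]
    exact mul_le_mul_right (lintegral_mono fun p => mul_le_mul_left (hexp P p) _) _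
  · rw [Seg814.FS_energy hΦ hf, Seg814.FS_energy hΦ hf]
    exact mul_le_mul_right (lintegral_mono fun p => mul_le_mul_left (hexp P p) _) _

theorem exists_kinC_le (hΦ : AdmissiblePotential Φ) (hβ : 0 < β) (hT : 0 < T)
    (hf : IsRegularKineticSolution Φ β T f₀ f) :
    ∃ h₀ kap lam C b : ℝ, Seg814.KinC Φ T f h₀ kap lam C b ∧ kap ≤ β := by
  obtain ⟨h₀, kap, lam, C, b, hK⟩ := Seg814.exists_kinC hβ hT hΦ hf
  exact ⟨h₀, min kap β, lam, C, b, KinC.mono_kap hΦ hf hK (lt_min hK.2.1 hβ) (min_le_left _ _),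
    min_le_right _ _⟩

/-- admissible weights from the bound -/
theorem Wgt.of_le {P : CTree} {φ : ℝ × PhasePoint × Par P → ℝ≥0∞} (hφ : Measurable φ) {T₀ : ℝ}
    {kap lam : ℝ} (hkap : kap < 2 * β) {M : ℝ≥0∞} (hM : M ≠ ∞)
    (hφM : ∀ s ℓ p, Adm Φ P ℓ.2 p → φ (s, ℓ, p) ≤ M * ENNReal.ofReal lam ^ P.size *
      ENNReal.ofReal (Real.exp (kap * Seg814.eng Φ P ℓ.2 p))) : Wgt Φ β P φ T₀ where
  meas := hφ
  bound := by
    refine ⟨kap, (M * ENNReal.ofReal lam ^ P.size).toReal, hkap, fun s ℓ p _ hV => ?_⟩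
    rw [ENNReal.ofReal_toReal (ENNReal.mul_ne_top hM (ENNReal.pow_ne_top ENNReal.ofReal_ne_top))]
    exact hφM s ℓ p hV.1

/-! ### Concrete weights -/

/-- additive energy weight of the leaves -/
def wtA (Φ : Space3 → ℝ) (P : CTree) : ℝ × PhasePoint × Par P → ℝ≥0∞ := fun q =>
  ∑ i : Idx P, ENNReal.ofReal (1 + ‖vels Φ P q.2.1.2 q.2.2 i‖ ^ 2)

/-- speed weight of the root line -/
def rootA (P : CTree) : ℝ × PhasePoint × Par P → ℝ≥0∞ := fun q => ENNReal.ofReal (1 + ‖q.2.1.2‖)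

/-- cut-off in the number of leaves -/
def cutW (K : ℕ) (P : CTree) (φ : ℝ × PhasePoint × Par P → ℝ≥0∞) :
    ℝ × PhasePoint × Par P → ℝ≥0∞ := fun q => if P.leaves ≤ K then φ q else 0

theorem cutW_le {K : ℕ} {P : CTree} {φ : ℝ × PhasePoint × Par P → ℝ≥0∞}
    (q : ℝ × PhasePoint × Par P) : cutW K P φ q ≤ φ q := by
  unfold cutW
  split_ifs
  · exact le_rfl
  · exact bot_le

theorem cutW_of_lt {K : ℕ} {P : CTree} {φ : ℝ × PhasePoint × Par P → ℝ≥0∞}
    (h : K < P.leaves) (q : ℝ × PhasePoint × Par P) : cutW K P φ q = 0 :=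
  if_neg (not_le.2 h)

theorem cutW_of_le {K : ℕ} {P : CTree} {φ : ℝ × PhasePoint × Par P → ℝ≥0∞}
    (h : P.leaves ≤ K) (q : ℝ × PhasePoint × Par P) : cutW K P φ q = φ q := if_pos h

theorem measurable_cutW {K : ℕ} {P : CTree} {φ : ℝ × PhasePoint × Par P → ℝ≥0∞}
    (hφ : Measurable φ) : Measurable (cutW K P φ) := by
  unfold cutW
  by_cases h : P.leaves ≤ K
  · simp only [if_pos h]; exact hφ
  · simp only [if_neg h]; exact measurable_const

theorem measurable_rootA (P : CTree) : Measurable (rootA P) := by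
  unfold rootA
  fun_prop

theorem exists_wtA_le (Φ : Space3 → ℝ) {lam kap : ℝ} (hlam : 1 < lam) (hkap : 0 < kap) :
    ∃ M : ℝ, 0 < M ∧ ∀ (P : CTree) (s : ℝ) (ℓ : PhasePoint) (p : Par P),
      wtA Φ P (s, ℓ, p) ≤ ENNReal.ofReal M * ENNReal.ofReal lam ^ P.size *
        ENNReal.ofReal (Real.exp (kap * Seg814.eng Φ P ℓ.2 p)) := by
  obtain ⟨M, hM, h⟩ := Seg814.exists_additive_le (Φ := Φ) hlam hkap
  exact ⟨M, hM, fun P s ℓ p => h P ℓ.2 p⟩

/-- the additive weight on the lines -/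
theorem wtA_eq_lines {P : CTree} {s ε : ℝ} {ℓ : PhasePoint}
    {p : Par P} : wtA Φ P (s, ℓ, p) =
      ∑ i : Idx P, ENNReal.ofReal (1 + ‖(lines Φ ε P ℓ p i).2‖ ^ 2) := by
  unfold wtA
  refine Finset.sum_congr rfl fun i _ => ?_
  rw [lines_vel]

/-- the set of admissible parameters is measurable -/
theorem measurableSet_adm (hΦ : AdmissiblePotential Φ) : ∀ P : CTree,
    MeasurableSet {q : Space3 × Par P | Adm Φ P q.1 q.2}
  | leaf => by
      have : {q : Space3 × Par leaf | Adm Φ leaf q.1 q.2} = univ := by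
        ext q; simp [Adm]
      rw [this]; exact MeasurableSet.univ
  | node l r => by
      have hv : Measurable fun q : Space3 × Par (node l r) => q.1 := measurable_fst
      have hp : Measurable fun q : Space3 × Par (node l r) => q.2 := measurable_snd
      have ha : Measurable fun q : Space3 × Par (node l r) => q.2.1 :=
        (measurable_par1 l r).comp hp
      have hz : Measurable fun q : Space3 × Par (node l r) => (q.1, q.2.1) := hv.prodMk ha
      have hpre := (measurable_preM hΦ).comp hz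
      have hl := (measurable_parL l r).comp hp
      have hr := (measurable_parR l r).comp hp
      have e : {q : Space3 × Par (node l r) | Adm Φ (node l r) q.1 q.2} =
          {q | (q.1, q.2.1) ∈ NS Φ} ∩
          ((fun q => ((preM Φ (q.1, q.2.1)).1, q.2.2.1)) ⁻¹'
              {q : Space3 × Par l | Adm Φ l q.1 q.2} ∩
           (fun q => ((preM Φ (q.1, q.2.1)).2, q.2.2.2)) ⁻¹'
              {q : Space3 × Par r | Adm Φ r q.1 q.2}) := by
        ext q
        simp only [mem_ofPred_eq, mem_inter_iff, mem_preimage]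
        constructor
        · rintro ⟨h2, h5, h6⟩
          have e2 : preM Φ (q.1, q.2.1) = _ := preM_of_adm (z := (q.1, q.2.1)) h2
          rw [e2]
          exact ⟨h2, h5, h6⟩
        · rintro ⟨h2, h5, h6⟩
          have h2' : Adm1 Φ q.1 q.2.1 := h2
          have e2 : preM Φ (q.1, q.2.1) = _ := preM_of_adm (z := (q.1, q.2.1)) h2'
          rw [e2] at h5 h6
          exact ⟨h2', h5, h6⟩
      rw [e]
      refine (hz (measurableSet_NS hΦ)).inter (MeasurableSet.inter ?_ ?_)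
      · exact (hpre.fst.prodMk hl) (measurableSet_adm hΦ l)
      · exact (hpre.snd.prodMk hr) (measurableSet_adm hΦ r)

theorem measurable_nodeEn : ∀ P : CTree, Measurable (nodeEn P)
  | leaf => measurable_const
  | node l r => by
      have h1 := measurable_par1 l r
      have h2 := (measurable_nodeEn l).comp (measurable_parL l r)
      have h3 := (measurable_nodeEn r).comp (measurable_parR l r)
      exact (h1.snd.fst.norm.pow_const 2).add (h2.add h3)

/-- measurable form of the additive weight (`0` outside the admissible parameters) -/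
def wtE (Φ : Space3 → ℝ) (P : CTree) : ℝ × PhasePoint × Par P → ℝ≥0∞ := fun q =>
  {z : Space3 × Par P | Adm Φ P z.1 z.2}.indicator
    (fun z => ENNReal.ofReal (P.leaves + (‖z.1‖ ^ 2 + nodeEn P z.2))) (q.2.1.2, q.2.2)

theorem wtE_eq (hΦ : AdmissiblePotential Φ) {P : CTree} {s : ℝ} {ℓ : PhasePoint} {p : Par P}
    (h : Adm Φ P ℓ.2 p) : wtE Φ P (s, ℓ, p) = wtA Φ P (s, ℓ, p) := by
  unfold wtE wtA
  rw [indicator_of_mem (show (ℓ.2, p) ∈ {z : Space3 × Par P | Adm Φ P z.1 z.2} from h),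
    ← ENNReal.ofReal_sum_of_nonneg (fun i _ => by positivity), Finset.sum_add_distrib,
    Finset.sum_const, Finset.card_univ, card_idx, nsmul_eq_mul, mul_one]
  have := sum_vels hΦ P ℓ.2 p h
  simp only
  rw [this]

theorem wtE_le (hΦ : AdmissiblePotential Φ) {P : CTree} (q : ℝ × PhasePoint × Par P) :
    wtE Φ P q ≤ wtA Φ P q := by
  obtain ⟨s, ℓ, p⟩ := q
  by_cases h : Adm Φ P ℓ.2 p
  · exact (wtE_eq hΦ h).le
  · unfold wtE
    rw [indicator_of_notMem (show (ℓ.2, p) ∉ {z : Space3 × Par P | Adm Φ P z.1 z.2} from h)]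
    exact bot_le

theorem measurable_wtE (hΦ : AdmissiblePotential Φ) (P : CTree) : Measurable (wtE Φ P) := by
  have h1 : Measurable fun z : Space3 × Par P =>
      {z : Space3 × Par P | Adm Φ P z.1 z.2}.indicator
        (fun z => ENNReal.ofReal (P.leaves + (‖z.1‖ ^ 2 + nodeEn P z.2))) z := by
    refine Measurable.indicator ?_ (measurableSet_adm hΦ P)
    refine ENNReal.measurable_ofReal.comp (measurable_const.add
      ((measurable_fst.norm.pow_const 2).add ((measurable_nodeEn P).comp measurable_snd)))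
  exact h1.comp (f := fun q : ℝ × PhasePoint × Par P => (q.2.1.2, q.2.2))
    (measurable_snd.fst.snd.prodMk measurable_snd.snd)

/-- in the weight of the trees the two forms agree -/
theorem gw_wtE (hΦ : AdmissiblePotential Φ) {P : CTree} {ε s : ℝ} {ℓ : PhasePoint} {p : Par P} :
    gw Φ f₀ P (wtE Φ P) ε s ℓ p = {p : Par P | Valid Φ ε P s ℓ.2 p}.indicator
      (fun p => wt Φ P ℓ.2 p * (∏ i, ENNReal.ofReal (f₀ (lines Φ ε P ℓ p i))) *
        ∑ i : Idx P, ENNReal.ofReal (1 + ‖(lines Φ ε P ℓ p i).2‖ ^ 2)) p := by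
  by_cases hV : Valid Φ ε P s ℓ.2 p
  · rw [gw_of_valid hV, wtE_eq hΦ hV.1, wtA_eq_lines (ε := ε),
      indicator_of_mem (show p ∈ {p : Par P | Valid Φ ε P s ℓ.2 p} from hV)]
    rfl
  · rw [gw_of_not_valid hV,
      indicator_of_notMem (show p ∉ {p : Par P | Valid Φ ε P s ℓ.2 p} from hV)]

/-- powers of the additive weight -/
theorem exists_wtA_pow_le (Φ : Space3 → ℝ) {lam kap : ℝ} (hlam : 1 < lam) (hkap : 0 < kap)
    (N : ℕ) : ∃ M : ℝ, 0 < M ∧ ∀ (P : CTree) (s : ℝ) (ℓ : PhasePoint) (p : Par P),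
      wtA Φ P (s, ℓ, p) ^ N ≤ ENNReal.ofReal M * ENNReal.ofReal lam ^ P.size *
        ENNReal.ofReal (Real.exp (kap * Seg814.eng Φ P ℓ.2 p)) := by
  rcases Nat.eq_zero_or_pos N with rfl | hN
  · refine ⟨1, one_pos, fun P s ℓ p => ?_⟩
    rw [pow_zero, ENNReal.ofReal_one, one_mul]
    have h1 : (1 : ℝ≥0∞) ≤ ENNReal.ofReal lam ^ P.size := by
      refine one_le_pow₀ ?_
      rw [← ENNReal.ofReal_one]
      exact ENNReal.ofReal_le_ofReal hlam.le
    have h2 : (1 : ℝ≥0∞) ≤ ENNReal.ofReal (Real.exp (kap * Seg814.eng Φ P ℓ.2 p)) := by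
      rw [← ENNReal.ofReal_one]
      exact ENNReal.ofReal_le_ofReal
        (Real.one_le_exp (mul_nonneg hkap.le (Seg814.eng_nonneg P ℓ.2 p)))
    calc (1 : ℝ≥0∞) = 1 * 1 := (one_mul 1).symm
      _ ≤ _ := mul_le_mul' h1 h2
  · have hN' : (0 : ℝ) < N := by exact_mod_cast hN
    set l1 : ℝ := lam ^ ((1 : ℝ) / N) with hl1
    have hl1' : 1 < l1 := Real.one_lt_rpow hlam (by positivity)
    have hpow : l1 ^ N = lam := by
      rw [hl1, ← Real.rpow_natCast, ← Real.rpow_mul (by linarith), one_div,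
        inv_mul_cancel₀ hN'.ne', Real.rpow_one]
    obtain ⟨M, hM, h⟩ := exists_wtA_le Φ hl1' (div_pos hkap hN')
    refine ⟨M ^ N, by positivity, fun P s ℓ p => ?_⟩
    refine (pow_le_pow_left' (h P s ℓ p) N).trans (le_of_eq ?_)
    rw [mul_pow, mul_pow, ← pow_mul, mul_comm P.size N, pow_mul, ← ENNReal.ofReal_pow hM.le,
      ← ENNReal.ofReal_pow (by linarith : 0 ≤ l1), hpow, ← ENNReal.ofReal_pow (Real.exp_nonneg _),
      ← Real.exp_nat_mul]
    congr 3
    field_simp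

theorem wtA_adm (hΦ : AdmissiblePotential Φ) {P : CTree} {s : ℝ} {ℓ : PhasePoint} {p : Par P}
    (h : Adm Φ P ℓ.2 p) :
    wtA Φ P (s, ℓ, p) = ENNReal.ofReal (P.leaves + (‖ℓ.2‖ ^ 2 + nodeEn P p)) := by
  rw [← wtE_eq hΦ h]
  exact indicator_of_mem (show (ℓ.2, p) ∈ {z : Space3 × Par P | Adm Φ P z.1 z.2} from h) _

/-- `1 + |v|²` of the root is at most the additive weight -/
theorem one_add_sq_le_wtA (hΦ : AdmissiblePotential Φ) {P : CTree} {s : ℝ} {ℓ : PhasePoint}
    {p : Par P} (h : Adm Φ P ℓ.2 p) :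
    ENNReal.ofReal (1 + ‖ℓ.2‖ ^ 2) ≤ wtA Φ P (s, ℓ, p) := by
  rw [wtA_adm hΦ h]
  refine ENNReal.ofReal_le_ofReal ?_
  have h1 : (1 : ℝ) ≤ P.leaves := by exact_mod_cast one_le_leaves' P
  have h2 := nodeEn_nonneg P p
  linarith

/-- `1 + |v|` of the root -/
theorem rootA_le_wtA (hΦ : AdmissiblePotential Φ) {P : CTree} {s : ℝ} {ℓ : PhasePoint}
    {p : Par P} (h : Adm Φ P ℓ.2 p) : rootA P (s, ℓ, p) ≤ 2 * wtA Φ P (s, ℓ, p) := by
  refine le_trans ?_ (mul_le_mul_right (one_add_sq_le_wtA hΦ h) 2)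
  unfold rootA
  have e2 : (2 : ℝ≥0∞) * ENNReal.ofReal (1 + ‖ℓ.2‖ ^ 2) =
      ENNReal.ofReal (2 * (1 + ‖ℓ.2‖ ^ 2)) := by
    rw [ENNReal.ofReal_mul (by norm_num), ENNReal.ofReal_ofNat]
  rw [e2]
  refine ENNReal.ofReal_le_ofReal ?_
  show 1 + ‖ℓ.2‖ ≤ _
  nlinarith [sq_nonneg (‖ℓ.2‖ - 1)]

/-- measurable integrand of the quenched densities (input `hA` of `InEq2V263.ineq2_untouched`) -/
theorem measurable_gw_unhit (hΦ : AdmissiblePotential Φ) (hf : Measurable f₀) {P : CTree}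
    {φ : ℝ × PhasePoint × Par P → ℝ≥0∞} (hφ : Measurable φ) {ε : ℝ} (hε : 0 < ε) (tw t : ℝ)
    (n : ℕ) : Measurable fun q : Config n × (PhasePoint × Par P) =>
      gw Φ f₀ P φ ε t q.2.1 q.2.2 * GIV566.unhitInd Φ ε (hid Φ ε P q.2.1 q.2.2) tw q.1 := by
  have hpt : ∀ q : Config n × (PhasePoint × Par P), gw Φ f₀ P φ ε t q.2.1 q.2.2 *
      GIV566.unhitInd Φ ε (hid Φ ε P q.2.1 q.2.2) tw q.1 = gw Φ f₀ P φ ε t q.2.1 q.2.2 *
      GIV566.unhitInd Φ ε (hidM Φ ε P q.2.1 q.2.2) tw q.1 := by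
    intro q
    by_cases hV : Valid Φ ε P t q.2.1.2 q.2.2
    · rw [hidM_of_adm hV.1]
    · rw [gw_of_not_valid hV, zero_mul, zero_mul]
  simp only [hpt]
  refine ((measurable_gw hΦ hf hφ ε).comp (f := fun q : Config n × (PhasePoint × Par P) =>
    ((t, q.2.1), q.2.2)) (by fun_prop)).mul ?_
  have h := measurable_unhit_hidM hΦ hε P (tw := tw) (W := PhasePoint × Par P)
      (ℓ := fun z => z.1) measurable_fst (p := fun z => z.2) measurable_snd
  exact h.comp (f := fun q : Config n × (PhasePoint × Par P) =>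
    ((⟨n, q.1⟩ : Σ n : ℕ, Config n), q.2))
    (((measurable_sigmaMk' n).comp measurable_fst).prodMk measurable_snd)

variable {T₀ tw : ℝ}

/-- **the input `hQ` of inequality 2'** : fixed time `t`, trees with at most `K` leaves, energy
weight `∑ (1 + |v_i(0)|²)`; `c = M C` does not depend on the window. -/
theorem energy_excess_time (X : Ctx Φ β T f₀ f T₀ tw) {h₀ kap lam C b : ℝ}
    (hK : Seg814.KinC Φ T f h₀ kap lam C b) (hkap : kap ≤ β) {t : ℝ}
    (ht : t ∈ Icc 0 (tw + h₀)) (htT : t ≤ T₀) {M : ℝ}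
    (hM : ∀ (P : CTree) (s : ℝ) (ℓ : PhasePoint) (p : Par P),
      wtA Φ P (s, ℓ, p) ≤ ENNReal.ofReal M * ENNReal.ofReal lam ^ P.size *
        ENNReal.ofReal (Real.exp (kap * Seg814.eng Φ P ℓ.2 p))) :
    Null fun K ε => gcE f₀ ε fun _ w => ∫⁻ ℓ : PhasePoint,
      ((∑' P, ∫⁻ p : Par P, gw Φ f₀ P (cutW K P (wtE Φ P)) ε t ℓ p *
        GIV566.unhitInd Φ ε (hid Φ ε P ℓ p) tw w) -
          (ENNReal.ofReal M * ENNReal.ofReal C) * wG b ℓ.2) := by
  have hb := X.hβ
  refine excess_time X hK ht htT (φ := fun K P => cutW K P (wtE Φ P)) (fun K P => ?_)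
    (fun K P h q => cutW_of_lt h q) ENNReal.ofReal_ne_top
    (fun K P s ℓ p _ => (cutW_le _).trans ((wtE_le X.hΦ _).trans (hM P s ℓ p)))
  exact Wgt.of_le (measurable_cutW (measurable_wtE X.hΦ P)) (by linarith) ENNReal.ofReal_ne_top
    (fun s ℓ p _ => (cutW_le _).trans ((wtE_le X.hΦ _).trans (hM P s ℓ p)))

end Crest.Agent.R122.Q1815

end
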