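import Crest.Agent.R122.Q1Tail_815
import Crest.Agent.R122.OneCDefs_285

/-!
helper815, row 122: **size crossings** (XC) of INEQUALITY 1.

* `ct_flux_le` : the flux of the marked lines born at `τ` through the root line of a tree;
* `tsum_markW_gt` : `∑ markW ρ K n 1[K < n + leaves] ≤ ρ ^ (K - size) / (1 - ρ)`;
* `stmtXC` : `StmtXC` of `OneCDefs_285`.
-/

set_option autoImplicit false

open MeasureTheory Set Filter
open scoped ENNReal Topology Classical
open Crest.AnalysisR.Kinetic Crest.Agent.R122.Kin796 Crest.Agent.R122.Disc416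
  Crest.Agent.R122.Kin416 Crest.Agent.R122.Tree674
  Crest.Agent.R122.Hid424 Crest.Agent.R122.Quench815 Crest.Agent.R122.QDens815
  Crest.Agent.R122.GC311 Crest.Agent.R122.EDefs602 Crest.Agent.R122.OneC285
  Crest.Agent.R122.OneC423 Crest.Agent.R122.Q1815 Crest.Agent.R122.Master566

noncomputable section

namespace Crest.Agent.R122.XC815

open CTree

variable {Φ : Space3 → ℝ} {f₀ : PhasePoint → ℝ} {f : ℝ → PhasePoint → ℝ} {β T : ℝ}

/-! ### Flux of marked lines through a root line -/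

/-- velocity constant -/
def cV (g0 : ℝ) : ℝ≥0∞ := ∫⁻ v : Space3, wG g0 v * ENNReal.ofReal (1 + ‖v‖)

theorem cV_ne_top {g0 : ℝ} (h : 0 < g0) : cV g0 ≠ ∞ := by
  have h1 := (Kin416.CG_lt_top h).ne
  unfold Kin416.CG at h1
  have h2 : ∫⁻ w : Space3, ENNReal.ofReal (1 + ‖w‖) * Kin416.gau g0 w ≠ ∞ := by
    intro hh
    rw [hh, ENNReal.mul_top (by simpa using Real.pi_pos)] at h1
    exact h1 rfl
  refine ne_of_eq_of_ne ?_ h2
  unfold cV
  refine lintegral_congr fun v => ?_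
  rw [wG_eq_gau, mul_comm]

theorem norm_sub_le_mul (v u : Space3) :
    ENNReal.ofReal ‖v - u‖ ≤ ENNReal.ofReal (1 + ‖v‖) * ENNReal.ofReal (1 + ‖u‖) := by
  rw [← ENNReal.ofReal_mul (by positivity)]
  refine ENNReal.ofReal_le_ofReal ((norm_sub_le v u).trans ?_)
  nlinarith [norm_nonneg v, norm_nonneg u]

/-- flux of the marked lines born at time `τ` through the root line of a tree -/
theorem ct_flux_le (hΦ : AdmissiblePotential Φ) {ε : ℝ} (hε : 0 < ε) {P : CTree}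
    (z : PhasePoint × Par P) {te τ : ℝ} (hτ : 0 < τ) {γ : ℝ → ℝ} (hγ : Measurable γ) {g0 : ℝ}
    (hg : g0 ≤ γ τ) (ρ : ℝ≥0∞) (K : ℕ) (a : ℕ → ℝ≥0∞) :
    ∫⁻ l, {l : ML | (z, l.1) ∈ ctSet Φ ε te P}.indicator
        (fun l => lineD γ ρ K l * a l.2) l ∂(baseM (Measure.dirac τ)) ≤
      ENNReal.ofReal (ε ^ 2) * (ENNReal.ofReal te * ENNReal.ofReal Real.pi * cV g0 *
        (ENNReal.ofReal (1 + ‖z.1.2‖) * ∑' n : ℕ, markW ρ K n * a n)) := by
  have hH : Measurable fun l : ML => lineD γ ρ K l * a l.2 :=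
    (EBasic602.measurable_lineD hγ).mul (measurable_from_top.comp measurable_snd)
  have hms : MeasurableSet {l : ML | (z, l.1) ∈ ctSet Φ ε te P} :=
    (measurable_const.prodMk measurable_fst : Measurable fun l : ML =>
      ((z, l.1) : (PhasePoint × Par P) × (ℝ × PhasePoint))) (measurableSet_ctSet hΦ ε te P)
  rw [lintegral_baseM _ (hH.indicator hms), lintegral_dirac' _ ?_]
  swap
  · have h2 : ∀ n : ℕ, Measurable fun q : ℝ × (Space3 × Space3) =>
        {l : ML | (z, l.1) ∈ ctSet Φ ε te P}.indicator (fun l => lineD γ ρ K l * a l.2)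
          ((q.1, (q.2.2, q.2.1)), n) := fun n =>
      (hH.indicator hms).comp (by fun_prop : Measurable fun q : ℝ × (Space3 × Space3) =>
        (((q.1, (q.2.2, q.2.1)), n) : ML))
    refine Measurable.tsum fun n => ?_
    have h3 : Measurable fun q : (ℝ × Space3) × Space3 =>
        {l : ML | (z, l.1) ∈ ctSet Φ ε te P}.indicator (fun l => lineD γ ρ K l * a l.2)
          ((q.1.1, (q.2, q.1.2)), n) :=
      (h2 n).comp (f := fun q : (ℝ × Space3) × Space3 => (q.1.1, (q.1.2, q.2))) (by fun_prop)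
    have h4 : Measurable fun q : ℝ × Space3 => ∫⁻ y : Space3,
        {l : ML | (z, l.1) ∈ ctSet Φ ε te P}.indicator (fun l => lineD γ ρ K l * a l.2)
          ((q.1, (y, q.2)), n) := h3.lintegral_prod_right'
    exact h4.lintegral_prod_right'
  have hJ : volume {s | τ < s ∧ s ≤ te ∧ Valid Φ ε P s z.1.2 z.2} ≤ ENNReal.ofReal te := by
    refine (measure_mono (t := Ioc 0 te) fun s hs => ⟨hτ.trans hs.1, hs.2.1⟩).trans ?_
    rw [Real.volume_Ioc, sub_zero]
  -- one mark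
  have hone : ∀ n : ℕ, ∫⁻ v : Space3, ∫⁻ y : Space3,
      {l : ML | (z, l.1) ∈ ctSet Φ ε te P}.indicator (fun l => lineD γ ρ K l * a l.2)
        ((τ, (y, v)), n) ≤ (ENNReal.ofReal (ε ^ 2) * (ENNReal.ofReal te * ENNReal.ofReal Real.pi *
          cV g0 * ENNReal.ofReal (1 + ‖z.1.2‖))) * (markW ρ K n * a n) := by
    intro n
    have hv : ∀ v : Space3, ∫⁻ y : Space3,
        {l : ML | (z, l.1) ∈ ctSet Φ ε te P}.indicator (fun l => lineD γ ρ K l * a l.2)
          ((τ, (y, v)), n) ≤ (ENNReal.ofReal (ε ^ 2) * (ENNReal.ofReal te *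
            ENNReal.ofReal Real.pi * ENNReal.ofReal (1 + ‖z.1.2‖)) * (markW ρ K n * a n)) *
              (wG g0 v * ENNReal.ofReal (1 + ‖v‖)) := by
      intro v
      rw [lintegral_ct_y hΦ hε z τ v n hH]
      have hH2 : ∀ (s : ℝ) (b : Space3), lineD γ ρ K (lineAt ε s z.1 τ v b n) *
          a (lineAt ε s z.1 τ v b n).2 = wG (γ τ) v * markW ρ K n * a n := fun s b => rfl
      simp only [hH2, lintegral_const, Measure.restrict_apply_univ]
      by_cases hvu : v - z.1.2 = 0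
      · rw [hvu, norm_zero, ENNReal.ofReal_zero, zero_mul, mul_zero]
        exact bot_le
      · rw [measure_impactDisc hvu]
        have h1 := norm_sub_le_mul v z.1.2
        have h2 := Kin796.wG_anti hg v
        calc ENNReal.ofReal (ε ^ 2) * (ENNReal.ofReal ‖v - z.1.2‖ *
              (wG (γ τ) v * markW ρ K n * a n * ENNReal.ofReal Real.pi *
                volume {s | τ < s ∧ s ≤ te ∧ Valid Φ ε P s z.1.2 z.2}))
            ≤ ENNReal.ofReal (ε ^ 2) * ((ENNReal.ofReal (1 + ‖v‖) *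
              ENNReal.ofReal (1 + ‖z.1.2‖)) *
              (wG g0 v * markW ρ K n * a n * ENNReal.ofReal Real.pi * ENNReal.ofReal te)) := by
              gcongr
          _ = _ := by ring
    refine (lintegral_mono hv).trans (le_of_eq ?_)
    have hm : Measurable fun v : Space3 => wG g0 v * ENNReal.ofReal (1 + ‖v‖) := by
      unfold wG
      fun_prop
    rw [lintegral_const_mul _ hm]
    unfold cV
    ring
  refine (ENNReal.tsum_le_tsum hone).trans (le_of_eq ?_)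
  rw [ENNReal.tsum_mul_left]
  ring

/-! ### Marks -/

/-- weight of the marks crossing the level `K` with a cluster `P` -/
def rK (ρ : ℝ≥0∞) (K : ℕ) (P : CTree) : ℝ≥0∞ :=
  ∑' n : ℕ, markW ρ K n * (if P.leaves ≤ K ∧ K < n + P.leaves then 1 else 0)

theorem rK_of_lt {ρ : ℝ≥0∞} {K : ℕ} {P : CTree} (h : K < P.leaves) : rK ρ K P = 0 := by
  unfold rK
  have : ∀ n : ℕ, markW ρ K n * (if P.leaves ≤ K ∧ K < n + P.leaves then 1 else 0) =
      (0 : ℝ≥0∞) := by
    intro n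
    rw [if_neg fun hh => absurd hh.1 (not_le.2 h), mul_zero]
  simp only [this, tsum_zero]

theorem tsum_ge (ρ : ℝ≥0∞) (j : ℕ) :
    ∑' n : ℕ, (if j ≤ n then ρ ^ n else 0) = ρ ^ j * (1 - ρ)⁻¹ := by
  have h := ENNReal.summable.sum_add_tsum_nat_add' (f := fun n => if j ≤ n then ρ ^ n else 0)
    (k := j)
  rw [← h]
  have h1 : ∑ n ∈ Finset.range j, (if j ≤ n then ρ ^ n else 0) = 0 :=
    Finset.sum_eq_zero fun n hn => if_neg (not_le.2 (Finset.mem_range.1 hn))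
  have h2 : ∀ n : ℕ, (if j ≤ n + j then ρ ^ (n + j) else 0) = ρ ^ j * ρ ^ n := by
    intro n
    rw [if_pos (Nat.le_add_left j n), pow_add, mul_comm]
  rw [h1, zero_add]
  simp only [h2]
  rw [ENNReal.tsum_mul_left, ENNReal.tsum_geometric]

theorem rK_le {ρ : ℝ≥0∞} {K : ℕ} {P : CTree} (h : P.leaves ≤ K) :
    rK ρ K P ≤ ρ ^ (K - P.size) * (1 - ρ)⁻¹ := by
  rw [← tsum_ge]
  unfold rK
  refine ENNReal.tsum_le_tsum fun n => ?_
  by_cases hn : K < n + P.leaves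
  · rw [if_pos ⟨h, hn⟩, mul_one, if_pos]
    · exact EBasic602.markW_le K n
    · have := CTree.leaves_eq P
      omega
  · rw [if_neg fun hh => hn hh.2, mul_zero]
    exact bot_le

/-! ### The tree masses -/

/-- weight of the quenched densities -/
def φX (ρ : ℝ≥0∞) (K : ℕ) (P : CTree) : ℝ × PhasePoint × Par P → ℝ≥0∞ := fun q =>
  rK ρ K P * rootA P q

theorem measurable_φX (ρ : ℝ≥0∞) (K : ℕ) (P : CTree) : Measurable (φX ρ K P) :=
  (measurable_rootA P).const_mul _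

theorem rK_ne_top {ρ : ℝ≥0∞} (hρ : ρ < 1) (K : ℕ) (P : CTree) : rK ρ K P ≠ ∞ := by
  by_cases h : P.leaves ≤ K
  · refine ne_top_of_le_ne_top (ENNReal.mul_ne_top (ENNReal.pow_ne_top (hρ.trans
      ENNReal.one_lt_top).ne) ?_) (rK_le h)
    rw [Ne, ENNReal.inv_eq_top, tsub_eq_zero_iff_le]
    exact not_le.2 hρ
  · rw [rK_of_lt (not_le.1 h)]
    exact ENNReal.zero_ne_top

theorem gw_ne_top {P : CTree} {φ : ℝ × PhasePoint × Par P → ℝ≥0∞} {ε s : ℝ} {ℓ : PhasePoint}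
    {p : Par P} (h : φ (s, ℓ, p) ≠ ∞) : gw Φ f₀ P φ ε s ℓ p ≠ ∞ := by
  by_cases hV : Valid Φ ε P s ℓ.2 p
  · rw [gw_of_valid hV]
    exact ENNReal.mul_ne_top (ENNReal.mul_ne_top wt_ne_top' (fp_ne_top ε P ℓ p)) h
  · rw [gw_of_not_valid hV]
    exact ENNReal.zero_ne_top

/-- mass of the gas-quenched trees seen at time `t` -/
theorem lintegral_gw_unhit (hΦ : AdmissiblePotential Φ) (hf : Measurable f₀) {P : CTree}
    {φ : ℝ × PhasePoint × Par P → ℝ≥0∞} (hφ : Measurable φ) (hφt : ∀ q, φ q ≠ ∞) {ε : ℝ}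
    (hε : 0 < ε) (tw t : ℝ) :
    ∫⁻ z : PhasePoint × Par P, gw Φ f₀ P φ ε t z.1 z.2 *
        gcE f₀ ε (fun _ w => GIV566.unhitInd Φ ε (hid Φ ε P z.1 z.2) tw w) =
      gcE f₀ ε fun _ w => ∫⁻ ℓ : PhasePoint, Dw Φ f₀ P φ ε tw t ℓ w := by
  have hm := fun n => measurable_gw_unhit hΦ hf hφ hε tw t n
  have h1 : ∀ z : PhasePoint × Par P, gw Φ f₀ P φ ε t z.1 z.2 *
      gcE f₀ ε (fun _ w => GIV566.unhitInd Φ ε (hid Φ ε P z.1 z.2) tw w) =
      gcE f₀ ε (fun _ w => gw Φ f₀ P φ ε t z.1 z.2 *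
        GIV566.unhitInd Φ ε (hid Φ ε P z.1 z.2) tw w) := fun z =>
    (gcE_const_mul f₀ ε (gw_ne_top (hφt _)) _).symm
  simp only [h1]
  rw [BadHit370.lintegral_gcE hf ε (volume : Measure (PhasePoint × Par P))
    (F := fun n (z : PhasePoint × Par P) (w : Config n) => gw Φ f₀ P φ ε t z.1 z.2 *
      GIV566.unhitInd Φ ε (hid Φ ε P z.1 z.2) tw w) (fun n => (hm n).comp measurable_swap)]
  congr 1
  funext n w
  have hmw : Measurable fun z : PhasePoint × Par P => gw Φ f₀ P φ ε t z.1 z.2 *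
      GIV566.unhitInd Φ ε (hid Φ ε P z.1 z.2) tw w := (hm n).comp measurable_prodMk_left
  rw [show (volume : Measure (PhasePoint × Par P)) = (volume : Measure PhasePoint).prod volume
    from rfl, lintegral_prod _ hmw.aemeasurable]
  rfl

/-! ### The structure integral -/

/-- the structure integral of a functional of the mark and of the ghost indicator -/
theorem OS_le (hΦ : AdmissiblePotential Φ) (hf : Measurable f₀) {ε : ℝ} (hε : 0 < ε) {K : ℕ}
    {Q : EPar} (hγ : Measurable Q.γ) {g0 : ℝ} (hg0 : 0 < g0) {τ : ℝ} (hτ : 0 < τ)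
    (hg : g0 ≤ Q.γ τ) (T' : ℝ) {a : CTree → ℕ → ℝ≥0∞}
    (ha : ∀ P, ∑' n : ℕ, markW Q.ρ K n * a P n ≠ ∞) :
    OS Φ f₀ ε K Q T' (Measure.dirac τ) (fun P z m w l => a P l.2 * uI Φ ε Q.tw P z w) ≤
      ENNReal.ofReal Q.te * ENNReal.ofReal Real.pi * cV g0 * ∑' P : CTree, gcE f₀ ε fun _ w =>
        ∫⁻ ℓ : PhasePoint, Dw Φ f₀ P (fun q => (∑' n : ℕ, markW Q.ρ K n * a P n) * rootA P q) ε
          Q.tw T' ℓ w := by
  set c : ℝ≥0∞ := ENNReal.ofReal Q.te * ENNReal.ofReal Real.pi * cV g0 with hc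
  have hct : c ≠ ∞ := ENNReal.mul_ne_top (ENNReal.mul_ne_top ENNReal.ofReal_ne_top
    ENNReal.ofReal_ne_top) (cV_ne_top hg0)
  unfold OS
  rw [← ENNReal.tsum_mul_left, ← ENNReal.tsum_mul_left]
  refine ENNReal.tsum_le_tsum fun P => ?_
  set r : ℝ≥0∞ := ∑' n : ℕ, markW Q.ρ K n * a P n with hr
  have hrt : r ≠ ∞ := ha P
  have hφm : Measurable fun q : ℝ × PhasePoint × Par P => r * rootA P q :=
    (measurable_rootA P).const_mul _
  have hφt : ∀ q : ℝ × PhasePoint × Par P, r * rootA P q ≠ ∞ := fun q =>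
    ENNReal.mul_ne_top hrt ENNReal.ofReal_ne_top
  rw [← lintegral_gw_unhit hΦ hf hφm hφt hε Q.tw T', ← lintegral_const_mul' _ _ hct,
    ← lintegral_const_mul' _ _ (show activity ε ≠ ∞ from ENNReal.ofReal_ne_top)]
  refine lintegral_mono fun z => ?_
  by_cases hV : Valid Φ ε P T' z.1.2 z.2
  · rw [indicator_of_mem (show z ∈ {z : PhasePoint × Par P | Valid Φ ε P T' z.1.2 z.2} from hV),
      gw_of_valid hV]
    have hfl := ct_flux_le hΦ hε z (te := Q.te) hτ hγ hg Q.ρ K (a P)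
    have hin : gcE f₀ ε (fun m w => ∫⁻ l, {l : ML | (z, l.1) ∈ ctSet Φ ε Q.te P}.indicator
        (fun l => lineD Q.γ Q.ρ K l * (a P l.2 * uI Φ ε Q.tw P z w)) l
          ∂(baseM (Measure.dirac τ))) ≤ (ENNReal.ofReal (ε ^ 2) * (c *
          (ENNReal.ofReal (1 + ‖z.1.2‖) * r))) *
        gcE f₀ ε (fun _ w => GIV566.unhitInd Φ ε (hid Φ ε P z.1 z.2) Q.tw w) := by
      have hkt : ENNReal.ofReal (ε ^ 2) * (c * (ENNReal.ofReal (1 + ‖z.1.2‖) * r)) ≠ ∞ :=
        ENNReal.mul_ne_top ENNReal.ofReal_ne_top (ENNReal.mul_ne_top hct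
          (ENNReal.mul_ne_top ENNReal.ofReal_ne_top hrt))
      rw [← gcE_const_mul f₀ ε hkt]
      refine gcE_mono f₀ ε fun m w _ => ?_
      have hu : uI Φ ε Q.tw P z w ≠ ∞ := by
        unfold uI GIV566.unhitInd
        split_ifs <;> simp
      have e1 : ∀ l : ML, {l : ML | (z, l.1) ∈ ctSet Φ ε Q.te P}.indicator
          (fun l => lineD Q.γ Q.ρ K l * (a P l.2 * uI Φ ε Q.tw P z w)) l =
          {l : ML | (z, l.1) ∈ ctSet Φ ε Q.te P}.indicator
            (fun l => lineD Q.γ Q.ρ K l * a P l.2) l * uI Φ ε Q.tw P z w := by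
        intro l
        by_cases hl : l ∈ {l : ML | (z, l.1) ∈ ctSet Φ ε Q.te P}
        · rw [indicator_of_mem hl, indicator_of_mem hl, mul_assoc]
        · rw [indicator_of_notMem hl, indicator_of_notMem hl, zero_mul]
      simp only [e1]
      rw [lintegral_mul_const' _ _ hu]
      refine mul_le_mul' hfl ?_
      exact unhitInd_rel_le hε.le hV Q.tw w
    have hact : activity ε * ENNReal.ofReal (ε ^ 2) = 1 := by
      unfold activity
      rw [← ENNReal.ofReal_mul (by positivity), inv_mul_cancel₀ (by positivity),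
        ENNReal.ofReal_one]
    calc activity ε * (wt Φ P z.1.2 z.2 * (ToTree335.pf Φ f₀ ε P z * gcE f₀ ε (fun m w =>
          ∫⁻ l, {l : ML | (z, l.1) ∈ ctSet Φ ε Q.te P}.indicator
            (fun l => lineD Q.γ Q.ρ K l * (a P l.2 * uI Φ ε Q.tw P z w)) l
              ∂(baseM (Measure.dirac τ)))))
        ≤ activity ε * (wt Φ P z.1.2 z.2 * (ToTree335.pf Φ f₀ ε P z *
            ((ENNReal.ofReal (ε ^ 2) * (c * (ENNReal.ofReal (1 + ‖z.1.2‖) * r))) *
              gcE f₀ ε (fun _ w => GIV566.unhitInd Φ ε (hid Φ ε P z.1 z.2) Q.tw w)))) := by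
          gcongr
      _ = (activity ε * ENNReal.ofReal (ε ^ 2)) * (c * (wt Φ P z.1.2 z.2 *
            ToTree335.pf Φ f₀ ε P z * (r * ENNReal.ofReal (1 + ‖z.1.2‖)) *
              gcE f₀ ε (fun _ w => GIV566.unhitInd Φ ε (hid Φ ε P z.1 z.2) Q.tw w))) := by ring
      _ = _ := by rw [hact, one_mul]; rfl
  · rw [indicator_of_notMem (show z ∉ {z : PhasePoint × Par P | Valid Φ ε P T' z.1.2 z.2} from hV),
      mul_zero]
    exact bot_le

/-! ### The size crossings are small -/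

/-- coefficient of the crossing mass -/
def aX (ρ : ℝ≥0∞) (M r : ℝ) (K : ℕ) : ℝ≥0∞ :=
  (1 - ρ)⁻¹ * (2 * ENNReal.ofReal M) * (max ρ (ENNReal.ofReal r)) ^ K

theorem tendsto_aX {ρ : ℝ≥0∞} (hρ : ρ < 1) (M : ℝ) {r : ℝ} (hr : r < 1) :
    Tendsto (aX ρ M r) atTop (𝓝 0) := by
  have h1 : max ρ (ENNReal.ofReal r) < 1 :=
    max_lt hρ (by rw [← ENNReal.ofReal_one]; exact (ENNReal.ofReal_lt_ofReal_iff one_pos).2 hr)
  have h2 := ENNReal.tendsto_pow_atTop_nhds_zero_of_lt_one h1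
  have h3 : (1 - ρ)⁻¹ * (2 * ENNReal.ofReal M) ≠ ∞ := by
    refine ENNReal.mul_ne_top ?_ (ENNReal.mul_ne_top (by norm_num) ENNReal.ofReal_ne_top)
    rw [Ne, ENNReal.inv_eq_top, tsub_eq_zero_iff_le]
    exact not_le.2 hρ
  have := ENNReal.Tendsto.const_mul (a := (1 - ρ)⁻¹ * (2 * ENNReal.ofReal M)) h2 (Or.inr h3)
  rwa [mul_zero] at this

theorem aX_ne_top {ρ : ℝ≥0∞} (hρ : ρ < 1) (M r : ℝ) (K : ℕ) : aX ρ M r K ≠ ∞ := by
  unfold aX
  refine ENNReal.mul_ne_top (ENNReal.mul_ne_top ?_ (ENNReal.mul_ne_top (by norm_num)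
    ENNReal.ofReal_ne_top)) (ENNReal.pow_ne_top ?_)
  · rw [Ne, ENNReal.inv_eq_top, tsub_eq_zero_iff_le]
    exact not_le.2 hρ
  · rw [Ne, max_eq_top, not_or]
    exact ⟨(hρ.trans ENNReal.one_lt_top).ne, ENNReal.ofReal_ne_top⟩

/-- the crossing weight against the kinetic weight -/
theorem φX_le (hΦ : AdmissiblePotential Φ) {ρ : ℝ≥0∞} {lam lam₁ kap M : ℝ} (h1 : 0 < lam₁)
    (hlam : 0 < lam) (hM : ∀ (P : CTree) (s : ℝ) (ℓ : PhasePoint) (p : Par P),
      wtA Φ P (s, ℓ, p) ≤ ENNReal.ofReal M * ENNReal.ofReal lam₁ ^ P.size *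
        ENNReal.ofReal (Real.exp (kap * Seg814.eng Φ P ℓ.2 p)))
    {K : ℕ} {P : CTree} (hP : P.leaves ≤ K) (s : ℝ) (ℓ : PhasePoint) (p : Par P)
    (hA : Adm Φ P ℓ.2 p) : φX ρ K P (s, ℓ, p) ≤ aX ρ M (lam₁ / lam) K *
      ENNReal.ofReal lam ^ P.size * ENNReal.ofReal (Real.exp (kap * Seg814.eng Φ P ℓ.2 p)) := by
  have hsz : P.size ≤ K := by
    have := CTree.leaves_eq P
    omega
  have e1 : ENNReal.ofReal lam₁ = ENNReal.ofReal (lam₁ / lam) * ENNReal.ofReal lam := by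
    rw [← ENNReal.ofReal_mul (by positivity), div_mul_cancel₀ _ hlam.ne']
  set m : ℝ≥0∞ := max ρ (ENNReal.ofReal (lam₁ / lam)) with hm
  have h2 : ρ ^ (K - P.size) * ENNReal.ofReal (lam₁ / lam) ^ P.size ≤ m ^ K := by
    calc ρ ^ (K - P.size) * ENNReal.ofReal (lam₁ / lam) ^ P.size
        ≤ m ^ (K - P.size) * m ^ P.size := by
          gcongr
          · exact le_max_left _ _
          · exact le_max_right _ _
      _ = m ^ K := by rw [← pow_add, Nat.sub_add_cancel hsz]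
  have h3 : rootA P (s, ℓ, p) ≤ 2 * (ENNReal.ofReal M * ENNReal.ofReal lam₁ ^ P.size *
      ENNReal.ofReal (Real.exp (kap * Seg814.eng Φ P ℓ.2 p))) :=
    (rootA_le_wtA hΦ hA).trans (mul_le_mul_right (hM P s ℓ p) 2)
  calc φX ρ K P (s, ℓ, p) ≤ (ρ ^ (K - P.size) * (1 - ρ)⁻¹) *
        (2 * (ENNReal.ofReal M * ENNReal.ofReal lam₁ ^ P.size *
          ENNReal.ofReal (Real.exp (kap * Seg814.eng Φ P ℓ.2 p)))) :=
        mul_le_mul' (rK_le hP) h3
    _ = (1 - ρ)⁻¹ * (2 * ENNReal.ofReal M) * (ρ ^ (K - P.size) *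
          ENNReal.ofReal (lam₁ / lam) ^ P.size) * ENNReal.ofReal lam ^ P.size *
          ENNReal.ofReal (Real.exp (kap * Seg814.eng Φ P ℓ.2 p)) := by
        rw [e1, mul_pow]
        ring
    _ ≤ (1 - ρ)⁻¹ * (2 * ENNReal.ofReal M) * m ^ K * ENNReal.ofReal lam ^ P.size *
          ENNReal.ofReal (Real.exp (kap * Seg814.eng Φ P ℓ.2 p)) := by gcongr

/-- **(XC)** : the size crossings of INEQUALITY 1 are small. -/
theorem stmtXC (hD : KData Φ β T f₀ f) {Q : EPar} (htw : Q.tw ∈ Icc 0 T)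
    (hG : GIV566.GIV Φ f₀ f T Q.tw) {h₀ kap lam b M : ℝ}
    (hK : KinL1.KinM Φ T f h₀ kap lam b M) {T' : ℝ} (hT' : 0 < T') (hT'2 : T' ≤ Q.tw + h₀)
    (hγ : Measurable Q.γ) {g0 : ℝ} (hg0 : 0 < g0) (hγ0 : ∀ τ ∈ Ioc (0 : ℝ) Q.te, g0 ≤ Q.γ τ)
    (hρ : Q.ρ < 1) : StmtXC Φ f₀ Q T' := by
  have hΦ := hD.adm
  have hf : Measurable f₀ := hD.contDiff.continuous.measurable
  have X : Ctx Φ β T f₀ f T' Q.tw := Ctx.of_kdata hD htw hG hT'
  have hβ := hD.beta_pos
  have hlam : 1 < lam := hK.2.2.1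
  have hkap : 0 < kap := hK.2.1
  set lam₁ : ℝ := Real.sqrt lam with hl1
  have hl1' : 1 < lam₁ := by
    rw [hl1]
    exact Real.lt_sqrt_of_sq_lt (by simpa using hlam)
  have hl2 : lam₁ < lam := by
    rw [hl1, Real.sqrt_lt' (by linarith)]
    nlinarith
  set kap' : ℝ := min kap β with hkap'
  have hkap'0 : 0 < kap' := lt_min hkap hβ
  obtain ⟨MA, hMA, hMAle⟩ := exists_wtA_le Φ hl1' hkap'0
  have hr1 : lam₁ / lam < 1 := (div_lt_one (by linarith)).2 hl2
  have hexp : ∀ (P : CTree) (v : Space3) (p : Par P),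
      ENNReal.ofReal (Real.exp (kap' * Seg814.eng Φ P v p)) ≤
        ENNReal.ofReal (Real.exp (kap * Seg814.eng Φ P v p)) := fun P v p =>
    ENNReal.ofReal_le_ofReal (Real.exp_le_exp.2 (mul_le_mul_of_nonneg_right (min_le_left _ _)
      (Seg814.eng_nonneg P v p)))
  -- the small quantity
  have hsmall := small_time X hK (t := T') ⟨hT'.le, hT'2⟩ le_rfl (φ := fun K P => φX Q.ρ K P)
    (N := fun K => K) (fun K P => by
      by_cases hP : P.leaves ≤ K
      · exact Wgt.of_le (measurable_φX Q.ρ K P) (kap := kap') (lam := lam)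
          (by linarith [min_le_right kap β]) (aX_ne_top hρ MA (lam₁ / lam) K)
          (fun s ℓ p hA => φX_le hΦ (by linarith) (by linarith) hMAle hP s ℓ p hA)
      · refine Wgt.of_le (measurable_φX Q.ρ K P) (kap := kap') (lam := lam)
          (by linarith [min_le_right kap β]) (M := 0) ENNReal.zero_ne_top (fun s ℓ p _ => ?_)
        unfold φX
        rw [rK_of_lt (not_le.1 hP), zero_mul]
        exact bot_le)
    (a := aX Q.ρ MA (lam₁ / lam)) (aX_ne_top hρ MA (lam₁ / lam)) (tendsto_aX hρ MA hr1)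
    (fun K P ℓ p hP hA => (φX_le hΦ (by linarith) (by linarith) hMAle hP T' ℓ p hA).trans
      (mul_le_mul_right (hexp P ℓ.2 p) _))
  have hct : ENNReal.ofReal Q.te * ENNReal.ofReal Real.pi * cV g0 ≠ ∞ :=
    ENNReal.mul_ne_top (ENNReal.mul_ne_top ENNReal.ofReal_ne_top ENNReal.ofReal_ne_top)
      (cV_ne_top hg0)
  refine ⟨_, hsmall.const_mul hct, fun K ε hε τ hτ => ?_⟩
  refine (OS_le hΦ hf hε hγ hg0 hτ.1 (hγ0 τ hτ) T'
    (a := fun P n => if P.leaves ≤ K ∧ K < n + P.leaves then 1 else 0)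
    (fun P => rK_ne_top hρ K P)).trans (mul_le_mul_right ?_ _)
  -- the sum over the trees
  have e1 : ∀ P : CTree, (fun q : ℝ × PhasePoint × Par P => (∑' n : ℕ, markW Q.ρ K n *
      (if P.leaves ≤ K ∧ K < n + P.leaves then 1 else 0)) * rootA P q) = φX Q.ρ K P := fun P => rfl
  simp only [e1]
  have e2 : ∀ P ∉ GIVStep383.trees K, (gcE f₀ ε fun (n : ℕ) (w : Config n) =>
      ∫⁻ ℓ : PhasePoint, Dw Φ f₀ P (φX Q.ρ K P) ε Q.tw T' ℓ w) = 0 := by
    intro P hP
    have hP' : K < P.leaves := by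
      by_contra hh
      exact hP (GIVStep383.mem_trees.2 (not_lt.1 hh))
    rw [← gcE_zero f₀ ε]
    congr 1
    funext n w
    have : ∀ ℓ : PhasePoint, Dw Φ f₀ P (φX Q.ρ K P) ε Q.tw T' ℓ w = 0 := fun ℓ =>
      Dw_zero fun p => by
        unfold φX
        rw [rK_of_lt hP', zero_mul]
    simp only [this, lintegral_zero]
  rw [tsum_eq_sum e2, ← gcE_finset_sum hf ε (GIVStep383.trees K) (F := fun P n w =>
    ∫⁻ ℓ : PhasePoint, Dw Φ f₀ P (φX Q.ρ K P) ε Q.tw T' ℓ w) (fun P _ n => ?_)]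
  have hm := (measurable_Dw_n hΦ hf (measurable_φX Q.ρ K P) hε Q.tw n).comp
    (f := fun q : Config n × PhasePoint => (q.1, (T', q.2))) (by fun_prop)
  exact hm.lintegral_prod_right'

end Crest.Agent.R122.XC815

end
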