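import Crest.Agent.R122.LongE_984
import Crest.Agent.R122.OneC_423
import Crest.Agent.R122.SizeCross_815
import Crest.Agent.R122.OSCalc_495
import Crest.Agent.R122.MeasEDefs_416

/-!
# Contact structures with a prescribed contact time (row 122, H1, helper423)

* `ctInt_J_le`, `ct_flux_J` : flux of the marked lines through the root line of a tree during a set
  `J` of contact times: `ε² κ(0,te] |J| π cV (1 + |v|) ∑ markW`.
* `coF` : some exit of the tree is first touched by the gas at a time in `[cT, cT + R ε]`.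
* `OS_coF_le`, `coinc_null` : the structure integral of `coF` is `O(R ε)`, hence null.
-/

set_option autoImplicit false
set_option linter.unusedSectionVars false

open MeasureTheory Set Filter
open scoped ENNReal Classical Topology
open Crest.AnalysisR.Kinetic
open Crest.Agent.R122.Kin796 Crest.Agent.R122.Kin796.CTree Crest.Agent.R122.Tree674
open Crest.Agent.R122.Relabel674 Crest.Agent.R122.GC311 Crest.Agent.R122.Flow671
open Crest.Agent.R122.EDefs602 Crest.Agent.R122.OneC285 Crest.Agent.R122.OCout796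
open Crest.Agent.R122.Disc416 Crest.Agent.R122.Scat818 Crest.Agent.R122.Kin416
open Crest.Agent.R122.TreeLines335 Crest.Agent.R122.LineMeas994
open Crest.Agent.R122.XC815 (cV cV_ne_top norm_sub_le_mul)

noncomputable section

namespace Crest.Agent.R122.Coinc423

variable {Φ : Space3 → ℝ} {f₀ : PhasePoint → ℝ} {ε : ℝ} {P : CTree}

/-! ### Flux during a set of contact times -/

/-- The contact kernel of the lines with contact time in `J`. -/
theorem ctInt_J_le (hε : 0 < ε) (z : PhasePoint × Par P) {γ : ℝ → ℝ} (ρ : ℝ≥0∞) {K : ℕ}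
    {g τ s : ℝ} (hg : g ≤ γ τ) (J : Set ℝ) (a : ℕ → ℝ≥0∞) :
    OneC423.ctInt ε s z.1 τ (fun l => lineD γ ρ K l * (a l.2 * if cT ε z l ∈ J then 1 else 0)) ≤
      (if s ∈ J then 1 else 0) * ((∑' n : ℕ, markW ρ K n * a n) * (ENNReal.ofReal Real.pi * cV g *
        ENNReal.ofReal (1 + ‖z.1.2‖))) := by
  unfold OneC423.ctInt
  rw [← ENNReal.tsum_mul_right, ← ENNReal.tsum_mul_left]
  refine ENNReal.tsum_le_tsum fun n => ?_
  have hv : ∀ v : Space3, ENNReal.ofReal ‖v - z.1.2‖ *
      ∫⁻ b in impactDisc (v - z.1.2), (lineD γ ρ K (OneC423.lineAt ε s z.1 τ v b n) *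
        (a (OneC423.lineAt ε s z.1 τ v b n).2 *
          if cT ε z (OneC423.lineAt ε s z.1 τ v b n) ∈ J then 1 else 0)) ∂μHE[2] ≤
      ((if s ∈ J then 1 else 0) * (markW ρ K n * a n * (ENNReal.ofReal Real.pi *
        ENNReal.ofReal (1 + ‖z.1.2‖)))) * (wG g v * ENNReal.ofReal (1 + ‖v‖)) := by
    intro v
    by_cases hv : v - z.1.2 = 0
    · rw [hv, norm_zero, ENNReal.ofReal_zero, zero_mul]
      exact zero_le
    calc ENNReal.ofReal ‖v - z.1.2‖ *
        ∫⁻ b in impactDisc (v - z.1.2), (lineD γ ρ K (OneC423.lineAt ε s z.1 τ v b n) *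
          (a (OneC423.lineAt ε s z.1 τ v b n).2 *
            if cT ε z (OneC423.lineAt ε s z.1 τ v b n) ∈ J then 1 else 0)) ∂μHE[2]
        ≤ (ENNReal.ofReal (1 + ‖v‖) * ENNReal.ofReal (1 + ‖z.1.2‖)) *
          ∫⁻ _ in impactDisc (v - z.1.2), (wG g v * markW ρ K n *
            (a n * if s ∈ J then 1 else 0)) ∂μHE[2] := by
          refine mul_le_mul' (norm_sub_le_mul v z.1.2) ?_
          refine setLIntegral_mono' (measurableSet_impactDisc _) fun b hb => ?_
          rw [OneNS423.cT_lineAt hε hv hb]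
          refine mul_le_mul' ?_ le_rfl
          exact mul_le_mul' (Kin796.wG_anti hg v) le_rfl
      _ = _ := by
          rw [setLIntegral_const, measure_impactDisc hv]
          ring
  refine (lintegral_mono hv).trans (le_of_eq ?_)
  have hm : Measurable fun v : Space3 => wG g v * ENNReal.ofReal (1 + ‖v‖) := by
    unfold wG
    fun_prop
  rw [lintegral_const_mul _ hm]
  unfold cV
  ring

/-- **Flux of the marked lines through the root line during `J`.** -/
theorem ct_flux_J (hΦ : AdmissiblePotential Φ) (hε : 0 < ε) (z : PhasePoint × Par P)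
    {te : ℝ} {κ : Measure ℝ} [SFinite κ] {γ : ℝ → ℝ} (hγ : Measurable γ) {g : ℝ}
    (hg : ∀ᵐ τ ∂κ, 0 < τ ∧ g ≤ γ τ) (ρ : ℝ≥0∞) (K : ℕ) (a : ℕ → ℝ≥0∞)
    {J : Set ℝ} (hJ : MeasurableSet J) :
    ∫⁻ l, {l : ML | (z, l.1) ∈ OneC423.ctSet Φ ε te P}.indicator
        (fun l => lineD γ ρ K l * (a l.2 * if cT ε z l ∈ J then 1 else 0)) l
          ∂(OneC423.baseM κ) ≤
      ENNReal.ofReal (ε ^ 2) * (κ univ * (volume (J ∩ Ioc 0 te) *
        ((∑' n : ℕ, markW ρ K n * a n) * (ENNReal.ofReal Real.pi * cV g *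
          ENNReal.ofReal (1 + ‖z.1.2‖))))) := by
  set c : ℝ≥0∞ := (∑' n : ℕ, markW ρ K n * a n) * (ENNReal.ofReal Real.pi * cV g *
    ENNReal.ofReal (1 + ‖z.1.2‖)) with hc
  have hmT : Measurable fun l : ML => cT ε z l :=
    (OneNS423.measurable_cT (P := P) (ε := ε)).comp (f := fun l : ML => (z, l))
      (measurable_const.prodMk measurable_id)
  have hms : MeasurableSet {l : ML | cT ε z l ∈ J} := hmT hJ
  have hm1 : Measurable fun l : ML => (if cT ε z l ∈ J then 1 else 0 : ℝ≥0∞) :=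
    Measurable.ite hms measurable_const measurable_const
  have hm2 : Measurable fun l : ML => a l.2 := measurable_from_top.comp measurable_snd
  have hH : Measurable fun l : ML => lineD γ ρ K l * (a l.2 * if cT ε z l ∈ J then 1 else 0) :=
    (EBasic602.measurable_lineD hγ).mul (hm2.mul hm1)
  rw [OneC423.lintegral_ct hΦ hε z κ hH]
  refine mul_le_mul' le_rfl ?_
  calc ∫⁻ τ, (∫⁻ s in Ioc τ te, {s | s ≤ te ∧ Valid Φ ε P s z.1.2 z.2}.indicator
        (fun s => OneC423.ctInt ε s z.1 τ (fun l => lineD γ ρ K l *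
          (a l.2 * if cT ε z l ∈ J then 1 else 0))) s) ∂κ
      ≤ ∫⁻ _, volume (J ∩ Ioc 0 te) * c ∂κ := by
        refine lintegral_mono_ae ?_
        filter_upwards [hg] with τ hτ
        calc ∫⁻ s in Ioc τ te, {s | s ≤ te ∧ Valid Φ ε P s z.1.2 z.2}.indicator
              (fun s => OneC423.ctInt ε s z.1 τ (fun l => lineD γ ρ K l *
                (a l.2 * if cT ε z l ∈ J then 1 else 0))) s
            ≤ ∫⁻ s in Ioc τ te, J.indicator (fun _ => c) s := by
              refine lintegral_mono fun s => ?_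
              refine (indicator_le_self' (fun _ _ => zero_le) s).trans ?_
              refine (ctInt_J_le hε z ρ hτ.2 J a).trans (le_of_eq ?_)
              rw [indicator_apply]
              by_cases hs : s ∈ J
              · rw [if_pos hs, if_pos hs, one_mul]
              · rw [if_neg hs, if_neg hs, zero_mul]
          _ = c * volume (J ∩ Ioc τ te) := by
              rw [lintegral_indicator hJ, setLIntegral_const, Measure.restrict_apply hJ]
          _ ≤ volume (J ∩ Ioc 0 te) * c := by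
              rw [mul_comm]
              refine mul_le_mul' (measure_mono ?_) le_rfl
              exact inter_subset_inter_right J (Ioc_subset_Ioc_left hτ.1.le)
    _ = _ := by
        rw [lintegral_const, mul_comm]

/-! ### Coincidence of the contact with the first touch of an exit -/

/-- Some exit of the tree (`|P| ≤ K`) is first touched by the gas in `[cT, cT + R ε]`. -/
def coF (Φ : Space3 → ℝ) (ε : ℝ) (K : ℕ) (te R : ℝ) : SF := fun P z _ w l =>
  if P.leaves ≤ K ∧ ∃ i : Idx P, i ≠ root P ∧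
    (MW.cfg w).thetaL Φ ε K te (lineMM Φ ε P z i) ∈ Icc (cT ε z l) (cT ε z l + R * ε) then 1 else 0

theorem measSF_coF (hΦ : AdmissiblePotential Φ) (hε : 0 < ε) (K : ℕ) (te R : ℝ) :
    MeasSF (coF Φ ε K te R) := by
  intro P m
  unfold coF
  refine Measurable.ite ?_ measurable_const measurable_const
  have hc : Measurable fun q : (PhasePoint × Par P) × (Config m × ML) => cT ε q.1 q.2.2 :=
    (OneNS423.measurable_cT (P := P) (ε := ε)).comp
      (f := fun q : (PhasePoint × Par P) × (Config m × ML) => (q.1, q.2.2))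
      (measurable_fst.prodMk measurable_snd.snd)
  have hset : ∀ i : Idx P, MeasurableSet {q : (PhasePoint × Par P) × (Config m × ML) |
      (MW.cfg q.2.1).thetaL Φ ε K te (lineMM Φ ε P q.1 i) ∈
        Icc (cT ε q.1 q.2.2) (cT ε q.1 q.2.2 + R * ε)} := by
    intro i
    have ht : Measurable fun q : (PhasePoint × Par P) × (Config m × ML) =>
        (MW.cfg q.2.1).thetaL Φ ε K te (lineMM Φ ε P q.1 i) :=
      (MeasE416.measurable_thetaL_cfg hΦ hε K te m).comp
        (f := fun q : (PhasePoint × Par P) × (Config m × ML) => (q.2.1, lineMM Φ ε P q.1 i))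
        (measurable_snd.fst.prodMk ((measurable_lineMM hΦ ε P i).comp measurable_fst))
    exact (measurableSet_le hc ht).inter (measurableSet_le ht (hc.add_const _))
  have : {q : (PhasePoint × Par P) × (Config m × ML) | P.leaves ≤ K ∧ ∃ i : Idx P, i ≠ root P ∧
      (MW.cfg q.2.1).thetaL Φ ε K te (lineMM Φ ε P q.1 i) ∈
        Icc (cT ε q.1 q.2.2) (cT ε q.1 q.2.2 + R * ε)} =
      {_q | P.leaves ≤ K} ∩ ⋃ i : Idx P, ({_q | i ≠ root P} ∩
        {q | (MW.cfg q.2.1).thetaL Φ ε K te (lineMM Φ ε P q.1 i) ∈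
        Icc (cT ε q.1 q.2.2) (cT ε q.1 q.2.2 + R * ε)}) := by
    ext q
    simp only [mem_inter_iff, mem_iUnion, Set.mem_ofPred_eq]
  rw [this]
  exact (MeasurableSet.const _).inter (MeasurableSet.iUnion fun i =>
    (MeasurableSet.const _).inter (hset i))

theorem coF_zero_of_not {K : ℕ} {te R : ℝ} (hP : ¬ P.leaves ≤ K) (z : PhasePoint × Par P) (m : ℕ)
    (w : Config m) (l : ML) : coF Φ ε K te R P z m w l = 0 := by
  unfold coF
  rw [if_neg fun h => hP h.1]

/-- At fixed tree and gas: flux of the lines with `coF`. -/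
theorem inner_coF_le (hΦ : AdmissiblePotential Φ) (hε : 0 < ε) (z : PhasePoint × Par P) {K : ℕ}
    {Q : EPar} (hγ : Measurable Q.γ) {g R : ℝ} (hg : ∀ τ ∈ Ioc 0 Q.te, g ≤ Q.γ τ) {m : ℕ}
    (w : Config m) :
    ∫⁻ l, {l : ML | (z, l.1) ∈ OneC423.ctSet Φ ε Q.te P}.indicator
        (fun l => lineD Q.γ Q.ρ K l * coF Φ ε K Q.te R P z m w l) l
          ∂(OneC423.baseM (volume.restrict (Ioc 0 Q.te))) ≤
      (Fintype.card (Idx P) : ℝ≥0∞) * (ENNReal.ofReal (ε ^ 2) * (ENNReal.ofReal Q.te *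
        (ENNReal.ofReal (R * ε) * ((∑' n : ℕ, markW Q.ρ K n) * (ENNReal.ofReal Real.pi * cV g *
          ENNReal.ofReal (1 + ‖z.1.2‖)))))) := by
  obtain ⟨J, hJ⟩ : ∃ J : Idx P → Set ℝ, ∀ i, J i =
      Icc ((MW.cfg w).thetaL Φ ε K Q.te (lineMM Φ ε P z i) - R * ε)
        ((MW.cfg w).thetaL Φ ε K Q.te (lineMM Φ ε P z i)) := ⟨_, fun _ => rfl⟩
  have hJm : ∀ i, MeasurableSet (J i) := fun i => by rw [hJ i]; exact measurableSet_Icc
  have hms : MeasurableSet {l : ML | (z, l.1) ∈ OneC423.ctSet Φ ε Q.te P} :=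
    (measurable_const.prodMk measurable_fst : Measurable fun l : ML =>
      ((z, l.1) : (PhasePoint × Par P) × (ℝ × PhasePoint)))
      (OneC423.measurableSet_ctSet hΦ ε Q.te P)
  have hmT : Measurable fun l : ML => cT ε z l :=
    (OneNS423.measurable_cT (P := P) (ε := ε)).comp (f := fun l : ML => (z, l))
      (measurable_const.prodMk measurable_id)
  have hpt : ∀ l : ML, {l : ML | (z, l.1) ∈ OneC423.ctSet Φ ε Q.te P}.indicator
      (fun l => lineD Q.γ Q.ρ K l * coF Φ ε K Q.te R P z m w l) l ≤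
      ∑ i : Idx P, {l : ML | (z, l.1) ∈ OneC423.ctSet Φ ε Q.te P}.indicator
        (fun l => lineD Q.γ Q.ρ K l * ((fun _ : ℕ => (1 : ℝ≥0∞)) l.2 *
          if cT ε z l ∈ J i then 1 else 0)) l := by
    intro l
    by_cases hl : l ∈ {l : ML | (z, l.1) ∈ OneC423.ctSet Φ ε Q.te P}
    swap
    · rw [indicator_of_notMem hl]
      exact zero_le
    rw [indicator_of_mem hl]
    by_cases hc : P.leaves ≤ K ∧ ∃ i : Idx P, i ≠ root P ∧
        (MW.cfg w).thetaL Φ ε K Q.te (lineMM Φ ε P z i) ∈ Icc (cT ε z l) (cT ε z l + R * ε)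
    · obtain ⟨-, i, -, hi⟩ := hc
      have hi' : cT ε z l ∈ J i := by
        rw [hJ i]
        exact ⟨by linarith [hi.2], hi.1⟩
      refine le_trans ?_ (Finset.single_le_sum (f := fun i =>
        {l : ML | (z, l.1) ∈ OneC423.ctSet Φ ε Q.te P}.indicator
        (fun l => lineD Q.γ Q.ρ K l * ((fun _ : ℕ => (1 : ℝ≥0∞)) l.2 *
          if cT ε z l ∈ J i then 1 else 0)) l) (fun _ _ => zero_le) (Finset.mem_univ i))
      simp only
      rw [indicator_of_mem hl, if_pos hi', one_mul]
      refine mul_le_mul' le_rfl ?_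
      unfold coF
      split_ifs
      · exact le_rfl
      · exact zero_le_one
    · unfold coF
      rw [if_neg hc, mul_zero]
      exact zero_le
  have hmi : ∀ i : Idx P, Measurable fun l : ML =>
      {l : ML | (z, l.1) ∈ OneC423.ctSet Φ ε Q.te P}.indicator
        (fun l => lineD Q.γ Q.ρ K l * ((fun _ : ℕ => (1 : ℝ≥0∞)) l.2 *
          if cT ε z l ∈ J i then 1 else 0)) l := by
    intro i
    have hms1 : MeasurableSet {l : ML | cT ε z l ∈ J i} := hmT (hJm i)
    have hm1 : Measurable fun l : ML => (if cT ε z l ∈ J i then 1 else 0 : ℝ≥0∞) :=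
      Measurable.ite hms1 measurable_const measurable_const
    exact ((EBasic602.measurable_lineD hγ).mul (measurable_const.mul hm1)).indicator hms
  refine (lintegral_mono hpt).trans ?_
  rw [lintegral_finsetSum _ fun i _ => hmi i]
  refine (Finset.sum_le_card_nsmul _ _ (ENNReal.ofReal (ε ^ 2) * (ENNReal.ofReal Q.te *
        (ENNReal.ofReal (R * ε) * ((∑' n : ℕ, markW Q.ρ K n) * (ENNReal.ofReal Real.pi * cV g *
          ENNReal.ofReal (1 + ‖z.1.2‖)))))) fun i _ => ?_).trans (le_of_eq ?_)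
  · refine (ct_flux_J hΦ hε z hγ (κ := volume.restrict (Ioc 0 Q.te)) (g := g) ?_ Q.ρ K
      (fun _ => 1) (J := J i) (hJm i)).trans ?_
    · exact (ae_restrict_iff' measurableSet_Ioc).2 (Eventually.of_forall fun τ hτ =>
        ⟨hτ.1, hg τ hτ⟩)
    · refine mul_le_mul' le_rfl ?_
      rw [Measure.restrict_apply_univ, Real.volume_Ioc, sub_zero]
      refine mul_le_mul' le_rfl (mul_le_mul' ?_ ?_)
      · refine (measure_mono inter_subset_left).trans (le_of_eq ?_)
        rw [hJ i, Real.volume_Icc]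
        congr 1
        ring
      · simp only [mul_one]
        exact le_rfl
  · rw [Finset.card_univ, nsmul_eq_mul]

/-- **The structure integral of the coincidences is `O(R ε)`.** -/
theorem OS_coF_le (hΦ : AdmissiblePotential Φ) (hf : Measurable f₀)
    (h1 : ∫⁻ z, ENNReal.ofReal (f₀ z) ≤ 1) {b : ℝ} (hb : 0 < b)
    (H : HasSummableGaussianBound b (fun x v => f₀ (x, v))) (K : ℕ) (T' : ℝ) :
    ∃ M : ℝ≥0∞, M ≠ ∞ ∧ ∀ (Q : EPar) (g R ε : ℝ), 0 < ε → Measurable Q.γ →
      (∀ τ ∈ Ioc 0 Q.te, g ≤ Q.γ τ) →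
      OS Φ f₀ ε K Q T' (volume.restrict (Ioc 0 Q.te)) (coF Φ ε K Q.te R) ≤
        M * (ENNReal.ofReal Q.te * ((∑' n : ℕ, markW Q.ρ K n) * cV g)) *
          ENNReal.ofReal (R * ε) := by
  choose M hM hMle using fun P : CTree => Long984.exists_root_mass hΦ hf hb H P T'
  have hb2 : 0 < b / 2 := by linarith
  refine ⟨∑ P ∈ GIVStep383.trees K, M P * ((Fintype.card (Idx P) : ℝ≥0∞) *
    ENNReal.ofReal Real.pi * cV (b / 2)), ENNReal.sum_ne_top.2 fun P _ =>
      ENNReal.mul_ne_top (hM P) (ENNReal.mul_ne_top (ENNReal.mul_ne_top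
        (ENNReal.natCast_ne_top _) ENNReal.ofReal_ne_top) (cV_ne_top hb2)), ?_⟩
  intro Q g R ε hε hγm hg
  set mk : ℝ≥0∞ := ∑' n : ℕ, markW Q.ρ K n with hmk
  set c : ℝ≥0∞ := ENNReal.ofReal Q.te * (mk * cV g) with hc
  -- one tree
  have htree : ∀ P : CTree, ∫⁻ z : PhasePoint × Par P,
      {z : PhasePoint × Par P | Valid Φ ε P T' z.1.2 z.2}.indicator
        (fun z => wt Φ P z.1.2 z.2 * (ToTree335.pf Φ f₀ ε P z *
          gcE f₀ ε (fun m w => ∫⁻ l, {l : ML | (z, l.1) ∈ OneC423.ctSet Φ ε Q.te P}.indicator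
            (fun l => lineD Q.γ Q.ρ K l * coF Φ ε K Q.te R P z m w l) l
              ∂(OneC423.baseM (volume.restrict (Ioc 0 Q.te)))))) z ≤
      if P ∈ GIVStep383.trees K then (M P * ((Fintype.card (Idx P) : ℝ≥0∞) *
        ENNReal.ofReal Real.pi * cV (b / 2))) * (ENNReal.ofReal (ε ^ 2) *
          (c * ENNReal.ofReal (R * ε))) else 0 := by
    intro P
    by_cases hP : P.leaves ≤ K
    · rw [if_pos (GIVStep383.mem_trees.2 hP)]
      set d : ℝ≥0∞ := (Fintype.card (Idx P) : ℝ≥0∞) * (ENNReal.ofReal (ε ^ 2) *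
        (ENNReal.ofReal Q.te * (ENNReal.ofReal (R * ε) * (mk * (ENNReal.ofReal Real.pi * cV g)))))
        with hd
      have hh : Measurable fun u : Space3 => d * ENNReal.ofReal (1 + ‖u‖) := by fun_prop
      refine le_trans ?_ ((hMle P ε T' hε.le le_rfl _ hh).trans (le_of_eq ?_))
      · refine lintegral_mono fun z => ?_
        refine indicator_le_indicator ?_
        refine mul_le_mul' le_rfl (mul_le_mul' le_rfl ?_)
        refine le_trans (gcE_mono f₀ ε fun m w _ =>
          inner_coF_le hΦ hε z hγm hg (R := R) w) ?_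
        refine (Long984.gcE_const_le hf h1 ε _).trans (le_of_eq ?_)
        rw [hd]; ring
      · have hm : Measurable fun u : Space3 => wG (b / 2) u * ENNReal.ofReal (1 + ‖u‖) := by
          unfold wG
          fun_prop
        have e1 : ∫⁻ u : Space3, wG (b / 2) u * (d * ENNReal.ofReal (1 + ‖u‖)) =
            d * cV (b / 2) := by
          unfold cV
          rw [← lintegral_const_mul _ hm]
          refine lintegral_congr fun u => ?_
          ring
        rw [e1, hd, hc]
        ring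
    · rw [if_neg fun h => hP (GIVStep383.mem_trees.1 h)]
      refine le_of_eq ?_
      have h0 : ∀ z : PhasePoint × Par P,
          {z : PhasePoint × Par P | Valid Φ ε P T' z.1.2 z.2}.indicator
          (fun z => wt Φ P z.1.2 z.2 * (ToTree335.pf Φ f₀ ε P z *
          gcE f₀ ε (fun m w => ∫⁻ l, {l : ML | (z, l.1) ∈ OneC423.ctSet Φ ε Q.te P}.indicator
            (fun l => lineD Q.γ Q.ρ K l * coF Φ ε K Q.te R P z m w l) l
              ∂(OneC423.baseM (volume.restrict (Ioc 0 Q.te)))))) z = 0 := by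
        intro z
        refine indicator_apply_eq_zero.2 fun _ => ?_
        simp only [coF_zero_of_not hP, mul_zero, indicator_zero, lintegral_zero, gcE_zero]
      simp only [h0, lintegral_zero]
  unfold OS
  calc _ ≤ activity ε * ∑' P : CTree, (if P ∈ GIVStep383.trees K then
        (M P * ((Fintype.card (Idx P) : ℝ≥0∞) *
        ENNReal.ofReal Real.pi * cV (b / 2))) * (ENNReal.ofReal (ε ^ 2) *
          (c * ENNReal.ofReal (R * ε))) else 0) :=
        mul_le_mul' le_rfl (ENNReal.tsum_le_tsum htree)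
    _ = activity ε * ∑ P ∈ GIVStep383.trees K, (M P * ((Fintype.card (Idx P) : ℝ≥0∞) *
        ENNReal.ofReal Real.pi * cV (b / 2))) * (ENNReal.ofReal (ε ^ 2) *
          (c * ENNReal.ofReal (R * ε))) := by
        rw [tsum_eq_sum (s := GIVStep383.trees K) fun P hP => if_neg hP]
        congr 1
        exact Finset.sum_congr rfl fun P hP => if_pos hP
    _ = (activity ε * ENNReal.ofReal (ε ^ 2)) * ((∑ P ∈ GIVStep383.trees K,
          M P * ((Fintype.card (Idx P) : ℝ≥0∞) * ENNReal.ofReal Real.pi * cV (b / 2))) *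
          (c * ENNReal.ofReal (R * ε))) := by
        rw [← Finset.sum_mul]
        ring
    _ = _ := by
        rw [ENNReal.ofReal_pow hε.le, Mom974.activity_mul_sq hε, one_mul, ← mul_assoc]

/-- **The coincidences are null** (H1): for fixed `K`, `R`. -/
theorem coinc_null (hΦ : AdmissiblePotential Φ) (hf : Measurable f₀)
    (h1 : ∫⁻ z, ENNReal.ofReal (f₀ z) ≤ 1) {b : ℝ} (hb : 0 < b)
    (H : HasSummableGaussianBound b (fun x v => f₀ (x, v))) (T' : ℝ) {Q : EPar}
    (hγ : Measurable Q.γ) (hρ : Q.ρ ≠ ∞) {g : ℝ} (hg0 : 0 < g)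
    (hg : ∀ τ ∈ Ioc 0 Q.te, g ≤ Q.γ τ) (R : ℝ) :
    Null fun K ε => OS Φ f₀ ε K Q T' (volume.restrict (Ioc 0 Q.te)) (coF Φ ε K Q.te R) := by
  intro K δ hδ
  obtain ⟨M, hM, hle⟩ := OS_coF_le hΦ hf h1 hb H K T'
  set c : ℝ≥0∞ := M * (ENNReal.ofReal Q.te * ((∑' n : ℕ, markW Q.ρ K n) * cV g)) with hc
  have hct : c ≠ ∞ := ENNReal.mul_ne_top hM (ENNReal.mul_ne_top ENNReal.ofReal_ne_top
    (ENNReal.mul_ne_top (LinkM547.tsum_markW_ne_top hρ K) (cV_ne_top hg0)))
  have h2 : Tendsto (fun ε : ℝ => c * ENNReal.ofReal (R * ε)) (𝓝[>] 0) (𝓝 0) := by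
    have h3 : Tendsto (fun ε : ℝ => ENNReal.ofReal (R * ε)) (𝓝[>] 0) (𝓝 0) := by
      have h4 : Tendsto (fun ε : ℝ => R * ε) (𝓝[>] 0) (𝓝 0) := by
        have : Tendsto (fun ε : ℝ => R * ε) (𝓝 0) (𝓝 (R * 0)) :=
          (continuous_const.mul continuous_id).tendsto 0
        rw [mul_zero] at this
        exact this.mono_left nhdsWithin_le_nhds
      have := (ENNReal.continuous_ofReal.tendsto 0).comp h4
      rwa [ENNReal.ofReal_zero] at this
    have := ENNReal.Tendsto.const_mul (a := c) h3 (Or.inr hct)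
    rwa [mul_zero] at this
  have h5 : ∀ᶠ ε in 𝓝[>] (0 : ℝ), c * ENNReal.ofReal (R * ε) ≤ ENNReal.ofReal δ :=
    (h2.eventually (gt_mem_nhds (ENNReal.ofReal_pos.2 hδ))).mono fun _ h => le_of_lt h
  rw [eventually_nhdsWithin_iff, Metric.eventually_nhds_iff] at h5
  obtain ⟨η, hη, h6⟩ := h5
  refine ⟨η, hη, fun ε hε hlt => (hle Q g R ε hε hγ hg).trans (h6 ?_ hε)⟩
  rw [Real.dist_eq, sub_zero, abs_of_pos hε]
  exact hlt

/-- On admissible parameters `coF` is the event with the lines `lineML`. -/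
theorem coF_eq_one {K : ℕ} {te R : ℝ} {z : PhasePoint × Par P} (hz : Adm Φ P z.1.2 z.2) {m : ℕ}
    {w : Config m} {l : ML} (hP : P.leaves ≤ K) {i : Idx P} (hi : i ≠ root P)
    (h : (MW.cfg w).thetaL Φ ε K te (lineML Φ ε P z i) ∈ Icc (cT ε z l) (cT ε z l + R * ε)) :
    coF Φ ε K te R P z m w l = 1 := by
  unfold coF
  rw [if_pos ⟨hP, i, hi, by rw [lineMM_of_adm ε hz]; exact h⟩]

end Crest.Agent.R122.Coinc423

end
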