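import Crest.Agent.R122.RootNo_45
import Crest.Agent.R122.MWFam3_255

/-!
# No third particle near the encounter (row 122, E4/E6, helper45)

* `far_of_parts` : a family `ls` of pairwise unlinked lines which have not touched `Y` at time `t`; a
  point `p` which is far from the particles of `Y`, from the free lines, and from the altered
  particles in the worlds `Y + one line`, is far from all particles of `Y + family`.
* `EncEv.of_parts` : the encounter event of the one-contact structure.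
-/

set_option autoImplicit false
set_option linter.unusedSectionVars false

open MeasureTheory Set Filter Topology
open scoped ENNReal
open Crest.AnalysisR.Kinetic
open Crest.Agent.R122.Flow671 hiding rel
open Crest.Agent.R122.Loc45 Crest.Agent.R122.Causal291 Crest.Agent.R122.MWAlg255
open Crest.Agent.R122.Inf879 Crest.Agent.R122.EDefs602 Crest.Agent.R122.MWFam255
open Crest.Agent.R122.Kin796 Crest.Agent.R122.Kin796.CTree Crest.Agent.R122.Tree674
open Crest.Agent.R122.PathFlow968 Crest.Agent.R122.TreeLines335 Crest.Agent.R122.Relabel674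
open Crest.Agent.R122.GC311 Crest.Agent.R122.Line285
open Crest.Agent.R122.Scat818 Crest.Agent.R122.OCout796
open Crest.Agent.R122.OneC285 (lpos mSet mT Meet clM cfT rt cT cB cD cX oneLs exS Real4)

namespace Crest.Agent.R122.Ins45

noncomputable section

open scoped Classical

section fam

variable {ι κ : Type} [Fintype ι] [Fintype κ] {Φ : Space3 → ℝ} {ε : ℝ} {K : ℕ} {T t : ℝ}
  {Y : MW ι} {ls : κ → ML}

/-- A family of pairwise unlinked lines has not touched if no line has touched. -/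
theorem lt_theta_lines (hΦ : AdmissiblePotential Φ) (hε : 0 < ε) (hT : 0 ≤ T)
    (hok : MW.OkFam Φ ε Y ls) (hnl : PairNL Φ ε K T Y ls) (ht : t ≤ T)
    (hlt : ∀ j, t < Y.thetaL Φ ε K T (ls j)) : t < Y.theta Φ ε K T (MW.lines ls) := by
  have h1 : Y.theta Φ ε K T (MW.lines ls) = Decomp811.firstT Φ ε K T Y ls :=
    theta_lines_eq hΦ hε hT hok hnl (Function.Embedding.refl κ)
  rw [h1]
  by_contra hle
  rw [not_lt] at hle
  obtain ⟨k, hk⟩ := Decomp811.exists_firstT (F := ls) (hle.trans_lt (ht.trans_lt (lt_add_one T)))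
  exact absurd (hlt k) (not_lt.2 (hk.le.trans hle))

/-- The relabelling of the whole family. -/
theorem lines_univ (ls : κ → ML) : MW.lines ls =
    (sub ls Finset.univ).comap (mapEquiv (Function.Embedding.refl κ) |>.trans
      (Equiv.subtypeEquivRight (by intro x; simp))) := rfl

/-- **States of a family of unlinked, untouched lines.** -/
theorem fam_states (hΦ : AdmissiblePotential Φ) (hε : 0 < ε) (hok : MW.OkFam Φ ε Y ls)
    (hnl : PairNL Φ ε K T Y ls) (ht : t ∈ Icc 0 T) (hlt : ∀ j, t < Y.thetaL Φ ε K T (ls j)) :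
    (∀ k, Y.Fut Φ ε (MW.lines ls) t k ↔ ∃ j, CF Φ ε K Y (MW.line (ls j)) t k) ∧
    (∀ j, (Y.add (MW.lines ls)).path Φ ε t (Sum.inr j) = (Y.ins (ls j)).path Φ ε t (Sum.inr ())) ∧
    (∀ j k, CF Φ ε K Y (MW.line (ls j)) t k →
      (Y.add (MW.lines ls)).path Φ ε t (Sum.inl k) = (Y.ins (ls j)).path Φ ε t (Sum.inl k)) := by
  have hT : 0 ≤ T := ht.1.trans ht.2
  have hokF := okF_of_okFam hΦ hε hok
  obtain ⟨h1, h2, h3⟩ := fam_core2 (K := K) (T := T) (u := t) hΦ hε hokF ht.1 ht.2 Finset.univ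
    (fun j _ => (hlt j).le)
    (fun j _ k _ hjk => hnl j k hjk t ht.1 ht.2 (hlt j).le (hlt k).le) ⟨ht.1, le_rfl⟩
  set e : κ ≃ (Finset.univ : Finset κ) := (mapEquiv (Function.Embedding.refl κ)).trans
      (Equiv.subtypeEquivRight (by intro x; simp)) with he
  have hpath : ∀ x, (Y.add (MW.lines ls)).path Φ ε t x =
      (Y.add (sub ls Finset.univ)).path Φ ε t (Equiv.sumCongr (Equiv.refl ι) e x) := by
    intro x
    rw [lines_univ ls, add_comap_right, path_comap hΦ hε]
  have hnt : ¬ Y.Touched Φ ε K (MW.lines ls) t := fun h =>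
    absurd ((MW.touched_iff hΦ hε hokF.z (hok.lines hΦ hε) ht).1 h)
      (not_le.2 (lt_theta_lines hΦ hε hT hok hnl ht.2 hlt))
  refine ⟨fun k => ?_, fun j => ?_, fun j k hk => ?_⟩
  · rw [← cf_iff_fut (K := K) hΦ hε hokF.z (hok.lines hΦ hε) ht.1 hnt, lines_univ ls,
      cf_comap hΦ hε, h1]
    exact ⟨fun ⟨j, _, hj⟩ => ⟨j, hj⟩, fun ⟨j, hj⟩ => ⟨j, Finset.mem_univ j, hj⟩⟩
  · rw [hpath]
    exact h2 j (Finset.mem_univ j)
  · rw [hpath]
    exact h3 j (Finset.mem_univ j) k hk

/-- **Far from all particles of `Y + family`.** -/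
theorem far_of_parts (hΦ : AdmissiblePotential Φ) (hε : 0 < ε) (hok : MW.OkFam Φ ε Y ls)
    (hnl : PairNL Φ ε K T Y ls) (ht : t ∈ Icc 0 T) (hlt : ∀ j, t < Y.thetaL Φ ε K T (ls j))
    {p : Space3} {ρ : ℝ} (h0 : ∀ k, Y.b k ≤ t → ρ < dist (Y.path Φ ε t k).1 p)
    (hfree : ∀ j, (ls j).1.1 ≤ t → ρ < dist (lpos (ls j) t) p)
    (hcf : ∀ j k, CF Φ ε K Y (MW.line (ls j)) t k →
      ρ < dist ((Y.ins (ls j)).path Φ ε t (Sum.inl k)).1 p)
    (hline : ∀ j, (ls j).1.1 ≤ t → (∃ r k, r < t ∧ (Y.ins (ls j)).C Φ ε r (Sum.inr ()) (Sum.inl k)) →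
      ρ < dist ((Y.ins (ls j)).path Φ ε t (Sum.inr ())).1 p) (x : ι ⊕ κ)
    (hx : (Y.add (MW.lines ls)).b x ≤ t) : ρ < dist ((Y.add (MW.lines ls)).path Φ ε t x).1 p := by
  obtain ⟨h1, h2, h3⟩ := fam_states hΦ hε hok hnl ht hlt
  have hokF := okF_of_okFam hΦ hε hok
  rcases x with k | j
  · by_cases hk : Y.Fut Φ ε (MW.lines ls) t k
    · obtain ⟨j, hj⟩ := (h1 k).1 hk
      rw [h3 j k hj]
      exact hcf j k hj
    · rw [← MW.path_eq_of_not_fut hΦ hε hokF.z (hok.lines hΦ hε) ht.1 hk]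
      exact h0 k hx
  · rw [h2 j]
    by_cases hc : ∃ r k, r < t ∧ (Y.ins (ls j)).C Φ ε r (Sum.inr ()) (Sum.inl k)
    · exact hline j hx hc
    · push Not at hc
      rw [Direct658.ins_free hΦ hε (hok.line hΦ hε j) (s₁ := t) (fun s k hs => hc s k hs)
        ⟨ht.1, le_rfl⟩]
      have h4 : Direct658.fpos (ls j) t = lpos (ls j) t := rfl
      rw [h4]
      exact hfree j hx

end fam

/-! ### The one-contact structures -/

section one

variable {Φ : Space3 → ℝ} {ε te T' R : ℝ} {K : ℕ} {P : CTree} {z : PhasePoint × Par P} {m : ℕ}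
  {w : Config m} {l : ML}

/-- The exits, as labels of the tree. -/
def exF (P : CTree) : exS P ↪ Idx P where
  toFun x := match x with
    | ⟨Sum.inl i, _⟩ => i
    | ⟨Sum.inr _, hb⟩ => absurd hb inr_not_mem_exS
  inj' := by
    rintro ⟨i | b, hi⟩ ⟨j | b', hj⟩ h
    · have h' : i = j := h
      subst h'
      rfl
    · exact absurd hj inr_not_mem_exS
    · exact absurd hi inr_not_mem_exS
    · exact absurd hi inr_not_mem_exS

theorem exF_ne (x : exS P) : exF P x ≠ root P := by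
  obtain ⟨i | b, hi⟩ := x
  · exact mem_exS.1 hi
  · exact absurd hi inr_not_mem_exS

theorem oneLs_exF (x : exS P) : oneLs Φ ε P z l x = lineML Φ ε P z (exF P x) := by
  obtain ⟨i | b, hi⟩ := x
  · exact oneLs_exit (mem_exS.1 hi)
  · exact absurd hi inr_not_mem_exS

theorem sub_oneLs : sub (oneLs Φ ε P z l) (exS P) =
    MW.lines fun x : exS P => lineML Φ ε P z (exF P x) := by
  unfold sub
  rw [funext fun x : exS P => oneLs_exF x]

/-- **The parts of the encounter event.** `c` is the root, `p t = z.1.1 + t • z.1.2` its undeflected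
position. -/
structure EncParts (Φ : Space3 → ℝ) (ε R : ℝ) (K : ℕ) (te : ℝ) (P : CTree)
    (z : PhasePoint × Par P) {m : ℕ} (w : Config m) (l : ML) : Prop where
  /-- the encounter is a passage, short (984's (3L)) -/
  pass : CDpass Φ (cD ε z l)
  tau : tauM Φ (relB (cD ε z l)) ≤ R
  disp : tauM Φ (relB (cD ε z l)) * ‖(relB (cD ε z l)).2‖ ≤ R
  /-- it ends before the horizon -/
  hor : cT ε z l + ε * R ≤ te
  /-- no exit has touched the gas before its end -/
  unt : ∀ j, j ≠ root P →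
    cT ε z l + ε * R < (MW.cfg w).thetaL Φ ε K te (lineML Φ ε P z j)
  /-- no gas particle near the root line (741's (3w)) -/
  gas : ∀ t, cT ε z l ≤ t → t ≤ cT ε z l + ε * R → ∀ i : Fin m,
    (R + 2) * ε < dist ((MW.cfg w).path Φ ε t i).1 (z.1.1 + t • z.1.2)
  /-- no free exit near the root line (796's (3V)) -/
  mem : ∀ t, cT ε z l ≤ t → t ≤ cT ε z l + ε * R → ∀ j, j ≠ root P →
    (R + 2) * ε < dist (lpos (lineML Φ ε P z j) t) (z.1.1 + t • z.1.2)
  /-- no particle of the clean closure of an exit near the root line (LINK class) -/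
  cf : ∀ t, cT ε z l ≤ t → t ≤ cT ε z l + ε * R → ∀ j, j ≠ root P → ∀ k,
    CF Φ ε K (MW.cfg w) (MW.line (lineML Φ ε P z j)) t k →
    (R + 2) * ε < dist (((MW.cfg w).ins (lineML Φ ε P z j)).path Φ ε t (Sum.inl k)).1
      (z.1.1 + t • z.1.2)
  /-- no deflected exit near the root line (LINK class) -/
  line : ∀ t, cT ε z l ≤ t → t ≤ cT ε z l + ε * R → ∀ j, j ≠ root P →
    (∃ r k, r < t ∧ ((MW.cfg w).ins (lineML Φ ε P z j)).C Φ ε r (Sum.inr ()) (Sum.inl k)) →
    (R + 2) * ε < dist (((MW.cfg w).ins (lineML Φ ε P z j)).path Φ ε t (Sum.inr ())).1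
      (z.1.1 + t • z.1.2)

/-- Goodness of `w + exits` from the family of all lines of the tree. -/
theorem ok_exits (hΦ : AdmissiblePotential Φ) (hε : 0 < ε)
    (hok : MW.OkFam Φ ε (MW.cfg w) (lineML Φ ε P z)) :
    ((MW.cfg w).add (sub (oneLs Φ ε P z l) (exS P))).Ok Φ ε := by
  rw [sub_oneLs]
  exact (okFam_comp hΦ hε hok (exF P)).lines hΦ hε

/-- **The encounter event from its parts.** -/
theorem EncEv.of_parts (hΦ : AdmissiblePotential Φ) (hε : 0 < ε)
    (h : EncParts Φ ε R K te P z w l) (h0 : 0 ≤ cT ε z l)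
    (hok : MW.OkFam Φ ε (MW.cfg w) (lineML Φ ε P z))
    (hnl : PairNL Φ ε K te (MW.cfg w) (lineML Φ ε P z)) : EncEv Φ ε R P z w l where
  pass := h.pass
  tau := h.tau
  disp := h.disp
  far t ht ht' x hx := by
    rw [sub_oneLs] at hx ⊢
    refine far_of_parts (K := K) (T := te) hΦ hε (okFam_comp hΦ hε hok (exF P))
      (hnl.comp (exF P)) ⟨h0.trans ht, ht'.trans h.hor⟩
      (fun j => ht'.trans_lt (h.unt _ (exF_ne j))) (fun k _ => h.gas t ht ht' k)
      (fun j _ => h.mem t ht ht' _ (exF_ne j)) (fun j k => h.cf t ht ht' _ (exF_ne j) k)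
      (fun j _ => h.line t ht ht' _ (exF_ne j)) x hx

end one

end

end Crest.Agent.R122.Ins45
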