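import Crest.Agent.R122.UnlC2_263
import Crest.Agent.R122.EncFar_45

/-!
# `Good4` from pairs of unlinked lines (row 122, H1), helper263

* `Ad P x y` : the lines `x`, `y` of the structure coexist.
* `E4Pairs` : good worlds and no links between two coexisting lines, in `w` and in `w + d`, `d` an exit;
  root line born at its release time (`relLs`).
* `E4Pairs.hyp1`, `E4Pairs.hyp2` : helper879's `E4Hyp` for the two families.
* `Good4.of_encEv`, `Good4.of` : **`Good4`** from `Real4`, `E4Pairs` and `EncEv` (resp. helper45's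
  `EncParts`).
-/

set_option autoImplicit false
set_option linter.unusedSectionVars false

open MeasureTheory Set Filter Topology
open scoped ENNReal
open Crest.AnalysisR.Kinetic
open Crest.Agent.R122.Flow671 hiding rel
open Crest.Agent.R122.Loc45 Crest.Agent.R122.Causal291 Crest.Agent.R122.MWAlg255
open Crest.Agent.R122.Inf879 Crest.Agent.R122.EDefs602 Crest.Agent.R122.Lines255
open Crest.Agent.R122.Kin796 Crest.Agent.R122.Kin796.CTree Crest.Agent.R122.Tree674
open Crest.Agent.R122.PathFlow968 Crest.Agent.R122.TreeLines335 Crest.Agent.R122.Relabel674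
open Crest.Agent.R122.GC311 Crest.Agent.R122.Line285 Crest.Agent.R122.Decomp285
open Crest.Agent.R122.Scat818 Crest.Agent.R122.OCout796 Crest.Agent.R122.Ins45
open Crest.Agent.R122.MWFam255 (okFam_comp PairNL)
open Crest.Agent.R122.E4Hyp879
open Crest.Agent.R122.OneC285 (lpos mSet mT Meet clM cfT rt cT cB cD cX oneLs exS Real4 Good4)

namespace Crest.Agent.R122.UnlC263

noncomputable section

open scoped Classical

/-- Two different lines of the structure coexist: not the root line and an outgoing line. -/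
structure Ad (P : CTree) (x y : Idx P ⊕ Bool) : Prop where
  ne : x ≠ y
  left : ¬ (x = Sum.inl (root P) ∧ ∃ b, y = Sum.inr b)
  right : ¬ (y = Sum.inl (root P) ∧ ∃ b, x = Sum.inr b)

/-- Good worlds and absence of links for the contact structure `(P, z; w; l)`, root line born at its
release time. -/
structure E4Pairs (Φ : Space3 → ℝ) (ε : ℝ) (K : ℕ) (te : ℝ) (P : CTree) (z : PhasePoint × Par P)
    {m : ℕ} (w : Config m) (l : ML) : Prop where
  /-- the lines of the tree -/
  okR : MW.OkFam Φ ε (MW.cfg w) (lineML Φ ε P z)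
  /-- the exits and the reborn root -/
  ok1 : MW.OkFam Φ ε (MW.cfg w)
    (fun x : (insert (Sum.inl (root P)) (exS P) : Finset (Idx P ⊕ Bool)) => oneLs Φ ε P z l x)
  /-- the exits and the outgoing lines -/
  ok2 : MW.OkFam Φ ε (MW.cfg w)
    (fun x : (insert (Sum.inr false) (insert (Sum.inr true) (exS P)) : Finset (Idx P ⊕ Bool)) =>
      oneLs Φ ε P z l x)
  /-- coexisting lines are unlinked in `w` -/
  nl : ∀ x y, Ad P x y → MW.NoLink Φ ε K te (MW.cfg w) (MW.line (relLs Φ ε P z l x))
    (MW.line (relLs Φ ε P z l y))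
  /-- coexisting lines are unlinked in `w + d`, `d` an exit -/
  nld : ∀ d, d ≠ root P → ∀ x y, Ad P x y → x ≠ Sum.inl d → y ≠ Sum.inl d →
    MW.NoLink Φ ε K te ((MW.cfg w).ins (lineML Φ ε P z d)) (MW.line (relLs Φ ε P z l x))
      (MW.line (relLs Φ ε P z l y))

variable {Φ : Space3 → ℝ} {ε te T' R : ℝ} {K : ℕ} {P : CTree} {z : PhasePoint × Par P} {m : ℕ}
  {w : Config m} {l : ML}

theorem ad_of_mem1 {x y : Idx P ⊕ Bool} (hx : x ∈ insert (Sum.inl (root P)) (exS P))
    (hy : y ∈ insert (Sum.inl (root P)) (exS P)) (hxy : x ≠ y) : Ad P x y := by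
  have key : ∀ {x : Idx P ⊕ Bool} (b : Bool), x ∈ insert (Sum.inl (root P)) (exS P) →
      x ≠ Sum.inr b := by
    intro x b hx h
    subst h
    rcases Finset.mem_insert.1 hx with h | h
    · cases h
    · exact inr_not_mem_exS h
  exact ⟨hxy, fun h => h.2.elim fun b hb => key b hy hb, fun h => h.2.elim fun b hb => key b hx hb⟩

theorem ad_of_mem2 {x y : Idx P ⊕ Bool}
    (hx : x ∈ insert (Sum.inr false) (insert (Sum.inr true) (exS P)))
    (hy : y ∈ insert (Sum.inr false) (insert (Sum.inr true) (exS P))) (hxy : x ≠ y) :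
    Ad P x y := by
  have key : ∀ {x : Idx P ⊕ Bool}, x ∈ insert (Sum.inr false) (insert (Sum.inr true) (exS P)) →
      x ≠ Sum.inl (root P) := by
    intro x hx h
    subst h
    rcases Finset.mem_insert.1 hx with h | h
    · cases h
    · rcases Finset.mem_insert.1 h with h | h
      · cases h
      · exact mem_exS.1 h rfl
  exact ⟨hxy, fun h => key hx h.1, fun h => key hy h.1⟩

/-- Membership in an erased set, classical instance. -/
theorem mem_er {κ : Type*} {s : Finset κ} {d x : κ} (hx : x ∈ s.erase d) : x ∈ s ∧ x ≠ d :=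
  ⟨Finset.mem_of_mem_erase hx, (Finset.mem_erase.1 hx).1⟩

/-- The exits of the structure are exits of the tree. -/
theorem exS_cases {d : Idx P ⊕ Bool} (hd : d ∈ exS P) : ∃ i, i ≠ root P ∧ d = Sum.inl i := by
  rcases d with i | b
  · exact ⟨i, mem_exS.1 hd, rfl⟩
  · exact absurd hd inr_not_mem_exS

/-- The index in the tree of a line of the family `root + exits`. -/
theorem idx_of_mem1 (x : (insert (Sum.inl (root P)) (exS P) : Finset (Idx P ⊕ Bool))) :
    ∃ i : Idx P, (x : Idx P ⊕ Bool) = Sum.inl i := by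
  rcases x with ⟨i | b, hx⟩
  · exact ⟨i, rfl⟩
  · rcases Finset.mem_insert.1 hx with h | h
    · cases h
    · exact absurd h inr_not_mem_exS

/-- Helper879's `E4Hyp` for the family `root + exits`. -/
theorem E4Pairs.hyp1 (h : E4Pairs Φ ε K te P z w l) (hΦ : AdmissiblePotential Φ) (hε : 0 < ε) :
    E4Hyp Φ ε K te (MW.cfg w) (relLs Φ ε P z l) (exS P)
      (insert (Sum.inl (root P)) (exS P)) where
  ok := by
    choose g hg using idx_of_mem1 (P := P)
    have hinj : Function.Injective g := fun x y hxy => by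
      apply Subtype.ext
      rw [hg x, hg y, hxy]
    have h1 := okFam_comp hΦ hε h.okR ⟨g, hinj⟩
    have h2 : (fun x : (insert (Sum.inl (root P)) (exS P) : Finset (Idx P ⊕ Bool)) =>
        relLs Φ ε P z l x) = fun x => lineML Φ ε P z ((⟨g, hinj⟩ :
          (insert (Sum.inl (root P)) (exS P) : Finset (Idx P ⊕ Bool)) ↪ Idx P) x) := by
      funext x
      rw [hg x]
      rfl
    rw [h2]
    exact h1
  nl := fun x y hxy => h.nl _ _ (ad_of_mem1 x.2 y.2 fun h' => hxy (Subtype.ext h'))
  nld := by
    intro d hd x y hxy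
    obtain ⟨i, hi, rfl⟩ := exS_cases hd
    have hx := mem_er x.2
    have hy := mem_er y.2
    exact h.nld i hi _ _ (ad_of_mem1 hx.1 hy.1 fun h' => hxy (Subtype.ext h')) hx.2 hy.2

theorem relLs_eq_oneLs {x : Idx P ⊕ Bool}
    (hx : x ∈ insert (Sum.inr false) (insert (Sum.inr true) (exS P))) :
    relLs Φ ε P z l x = oneLs Φ ε P z l x := by
  rcases x with i | b
  · have hi : i ≠ root P := by
      rcases Finset.mem_insert.1 hx with h | h
      · cases h
      · rcases Finset.mem_insert.1 h with h | h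
        · cases h
        · exact mem_exS.1 h
    exact (oneLs_exit hi).symm
  · rfl

/-- Helper879's `E4Hyp` for the family `exits + outgoing lines`. -/
theorem E4Pairs.hyp2 (h : E4Pairs Φ ε K te P z w l) :
    E4Hyp Φ ε K te (MW.cfg w) (oneLs Φ ε P z l) (exS P)
      (insert (Sum.inr false) (insert (Sum.inr true) (exS P))) where
  ok := h.ok2
  nl := fun x y hxy => by
    have h1 := h.nl _ _ (ad_of_mem2 x.2 y.2 fun h' => hxy (Subtype.ext h'))
    rw [relLs_eq_oneLs x.2, relLs_eq_oneLs y.2] at h1
    exact h1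
  nld := by
    intro d hd x y hxy
    have hx := mem_er x.2
    have hy := mem_er y.2
    obtain ⟨i, hi, rfl⟩ := exS_cases hd
    have h1 := h.nld i hi _ _ (ad_of_mem2 hx.1 hy.1 fun h' => hxy (Subtype.ext h')) hx.2 hy.2
    rw [relLs_eq_oneLs hx.1, relLs_eq_oneLs hy.1] at h1
    rw [oneLs_exit hi]
    exact h1

/-- **`Good4`** from the encounter event and pairs of unlinked lines. -/
theorem _root_.Crest.Agent.R122.OneC285.Good4.of_encEv (hR : Real4 Φ ε K te T' P z w l)
    (hΦ : AdmissiblePotential Φ) (hε : 0 < ε) (hK : l.2 + P.leaves ≤ K)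
    (h : E4Pairs Φ ε K te P z w l) (hE : EncEv Φ ε R P z w l) : Good4 Φ ε K te P z w l where
  unl1 := hR.unl1 hΦ hε (by omega) hE (h.hyp1 hΦ hε) h.ok1
  unl2 := by
    have hte : 0 ≤ te := hR.pos.le.trans hR.le
    refine unlB_of_E4Hyp hΦ hε hte ?_ h.hyp2
    exact (Finset.subset_insert _ _).trans (Finset.subset_insert _ _)
  one := by
    refine hR.one hΦ hε hK (okSub hΦ hε h.ok1 (Finset.subset_insert _ _)) ?_ hE
    have hsub : insert (Sum.inr false : Idx P ⊕ Bool) (exS P) ⊆
        insert (Sum.inr false) (insert (Sum.inr true) (exS P)) :=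
      Finset.insert_subset_insert _ (Finset.subset_insert _ _)
    have h1 := okSub hΦ hε h.ok2 hsub
    have h2 : (((MW.cfg w).add (sub (oneLs Φ ε P z l)
        (insert (Sum.inr false : Idx P ⊕ Bool) (exS P)))).comap
        ((Equiv.sumAssoc (Fin m) (exS P) Unit).trans (Equiv.sumCongr (Equiv.refl (Fin m))
          (insertEquiv (inr_not_mem_exS (P := P) (b := false)))))) =
        ((MW.cfg w).add (sub (oneLs Φ ε P z l) (exS P))).ins
          (oneLs Φ ε P z l (Sum.inr false)) := by
      unfold MW.ins MW.comap MW.add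
      congr 1 <;> · funext x; rcases x with (x | x) | x <;> rfl
    rw [← h2]
    exact h1.comap hΦ hε _

/-- **`Good4`** from helper45's `EncParts` and pairs of unlinked lines. -/
theorem _root_.Crest.Agent.R122.OneC285.Good4.of (hR : Real4 Φ ε K te T' P z w l)
    (hΦ : AdmissiblePotential Φ) (hε : 0 < ε) (hK : l.2 + P.leaves ≤ K)
    (h : E4Pairs Φ ε K te P z w l) (hE : EncParts Φ ε R K te P z w l) :
    Good4 Φ ε K te P z w l := by
  refine Good4.of_encEv (R := R) hR hΦ hε hK h (EncEv.of_parts hΦ hε hE hR.pos.le h.okR ?_)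
  intro i j hij
  have hne : (Sum.inl i : Idx P ⊕ Bool) ≠ Sum.inl j := fun h' => hij (Sum.inl_injective h')
  refine h.nl (Sum.inl i) (Sum.inl j) ⟨hne, ?_, ?_⟩
  · rintro ⟨-, b, hb⟩
    cases hb
  · rintro ⟨-, b, hb⟩
    cases hb

end

end Crest.Agent.R122.UnlC263
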