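import Crest.Agent.R122.TreeIn_45
import Crest.Agent.R122.OneCDefs_285

/-!
# The field `one` of `Good4` (row 122, board H1, helper45)

* `enc_near_c`, `enc_near_l` : during the encounter both particles stay within `(1 + R/2) ε` of the
  undeflected root.
* `EncEv Φ ε R P z w l` : the encounter of the test line with the root is a passage, lasts at most
  `R ε`, the relative displacement is at most `R ε`, and no other born particle of the world
  `w + exits` is within `(R + 2) ε` of the undeflected root during it.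
* `root_far` : after its release the root of a real tree is at distance `> ε` from everybody, up to
  the time at which it is seen.
* `Real4.goodEnc` : `GoodEnc` in the world `w + lines of the tree`.
* `Real4.one` : **the field `one` of `Good4`**, from `Real4`, the encounter event and good worlds.
-/

set_option autoImplicit false
set_option linter.unusedSectionVars false

open MeasureTheory Set Filter Topology
open scoped ENNReal
open Crest.AnalysisR.Kinetic
open Crest.Agent.R122.Flow671 hiding rel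
open Crest.Agent.R122.Loc45 Crest.Agent.R122.Causal291 Crest.Agent.R122.MWAlg255
open Crest.Agent.R122.Inf879 Crest.Agent.R122.EDefs602 Crest.Agent.R122.Lines255
open Crest.Agent.R122.Kin796 Crest.Agent.R122.Kin796.CTree Crest.Agent.R122.Tree674
open Crest.Agent.R122.PathFlow968 Crest.Agent.R122.TreeLines335 Crest.Agent.R122.Relabel674
open Crest.Agent.R122.GC311 Crest.Agent.R122.Line285
open Crest.Agent.R122.Scat818 Crest.Agent.R122.OCout796
open Crest.Agent.R122.OneC285 (lpos mSet mT Meet clM cfT rt cT cB cD cX oneLs exS Real4)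

namespace Crest.Agent.R122.Ins45

noncomputable section

open scoped Classical

/-- The instance used by the general theorems. -/
local instance (priority := 2000) othFintype {α : Type} [Fintype α] (c : α) : Fintype (Oth c) :=
  Subtype.fintype fun k => k ≠ c

/-! ### Displacements during the encounter -/

section near

variable {Φ : Space3 → ℝ} {ε s R : ℝ} {y : Space3} {q : CD}

theorem CDpass.norm_encR (hΦ : AdmissiblePotential Φ) (hε : 0 < ε) (hq : CDpass Φ q) {t : ℝ}
    (ht : s ≤ t) (ht' : t ≤ s + outT Φ ε q) : ‖(encR Φ ε s q t).1‖ ≤ 1 := by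
  have h1 := hq.dist_le (y := 0) hΦ hε ht ht'
  rw [dist_encP hε.le] at h1
  by_contra hlt
  rw [not_le] at hlt
  nlinarith

theorem enc_aux (hε : 0 < ε) (hq : CDpass Φ q) (hR : tauM Φ (relB q) * ‖(relB q).2‖ ≤ R) {t : ℝ}
    (ht : s ≤ t) (ht' : t ≤ s + outT Φ ε q) {r : Space3} (hr : ‖r‖ ≤ 1) :
    ‖(ε / 2) • (entrancePoint (relB q).1 (relB q).2 + r) + ((t - s) / 2) • (relB q).2‖ ≤
      (1 + R / 2) * ε := by
  have h1 : ‖entrancePoint (relB q).1 (relB q).2‖ = 1 := norm_entrance hq.ok.1 hq.ok.2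
  have h2 : (t - s) / 2 * ‖(relB q).2‖ ≤ ε * R / 2 := by
    have h3 : t - s ≤ ε * tauM Φ (relB q) := by
      have : outT Φ ε q = ε * tauM Φ (relB q) := rfl
      linarith
    have h4 := mul_le_mul_of_nonneg_right h3 (norm_nonneg (relB q).2)
    have h5 := mul_le_mul_of_nonneg_left hR hε.le
    nlinarith
  calc _ ≤ ‖(ε / 2) • (entrancePoint (relB q).1 (relB q).2 + r)‖ + ‖((t - s) / 2) • (relB q).2‖ :=
        norm_add_le _ _
    _ = (ε / 2) * ‖entrancePoint (relB q).1 (relB q).2 + r‖ + (t - s) / 2 * ‖(relB q).2‖ := by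
        rw [norm_smul, norm_smul, Real.norm_eq_abs, Real.norm_eq_abs, abs_of_pos (by linarith),
          abs_of_nonneg (by linarith)]
    _ ≤ (ε / 2) * 2 + ε * R / 2 := by
        refine add_le_add ?_ h2
        refine mul_le_mul_of_nonneg_left ?_ (by linarith)
        calc _ ≤ ‖entrancePoint (relB q).1 (relB q).2‖ + ‖r‖ := norm_add_le _ _
          _ ≤ 2 := by linarith
    _ = (1 + R / 2) * ε := by ring

/-- The partner stays close to its free extension. -/
theorem enc_near_c (hΦ : AdmissiblePotential Φ) (hε : 0 < ε) (hq : CDpass Φ q)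
    (hR : tauM Φ (relB q) * ‖(relB q).2‖ ≤ R) {t : ℝ} (ht : s ≤ t) (ht' : t ≤ s + outT Φ ε q) :
    dist (encPC Φ ε s y q t).1 (y + (t - s) • q.2.1) ≤ (1 + R / 2) * ε := by
  have h1 : (encPC Φ ε s y q t).1 - (y + (t - s) • q.2.1) =
      (ε / 2) • (entrancePoint (relB q).1 (relB q).2 + -(encR Φ ε s q t).1) +
        ((t - s) / 2) • (relB q).2 := by
    rw [← cmvel_sub q]
    unfold encPC encCM
    module
  rw [dist_eq_norm, h1]
  exact enc_aux hε hq hR ht ht' (by rw [norm_neg]; exact hq.norm_encR hΦ hε ht ht')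

/-- The test particle stays close to the free extension of its partner. -/
theorem enc_near_l (hΦ : AdmissiblePotential Φ) (hε : 0 < ε) (hq : CDpass Φ q)
    (hR : tauM Φ (relB q) * ‖(relB q).2‖ ≤ R) {t : ℝ} (ht : s ≤ t) (ht' : t ≤ s + outT Φ ε q) :
    dist (encPL Φ ε s y q t).1 (y + (t - s) • q.2.1) ≤ (1 + R / 2) * ε := by
  have h1 : (encPL Φ ε s y q t).1 - (y + (t - s) • q.2.1) =
      (ε / 2) • (entrancePoint (relB q).1 (relB q).2 + (encR Φ ε s q t).1) +
        ((t - s) / 2) • (relB q).2 := by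
    rw [← cmvel_sub q]
    unfold encPL encCM
    module
  rw [dist_eq_norm, h1]
  exact enc_aux hε hq hR ht ht' (hq.norm_encR hΦ hε ht ht')

end near

/-! ### The exits -/

section exits

variable {P : CTree} {ι : Type} [Fintype ι]

theorem mem_exS {i : Idx P} : (Sum.inl i : Idx P ⊕ Bool) ∈ exS P ↔ i ≠ root P := by
  unfold exS
  rw [Finset.mem_map]
  constructor
  · rintro ⟨j, hj, hji⟩
    have : j = i := Sum.inl_injective hji
    subst this
    exact (Finset.mem_filter.1 hj).2
  · intro h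
    exact ⟨i, Finset.mem_filter.2 ⟨Finset.mem_univ _, h⟩, rfl⟩

theorem inr_not_mem_exS {b : Bool} : (Sum.inr b : Idx P ⊕ Bool) ∉ exS P := by
  unfold exS
  rw [Finset.mem_map]
  rintro ⟨j, -, hj⟩
  cases hj

/-- Labels of the other particles of `w + lines`, `c` = root line. -/
def exE (ι : Type) (P : CTree) : ι ⊕ exS P ≃ Oth (Sum.inr (root P) : ι ⊕ Idx P) where
  toFun := Sum.elim (fun i => ⟨Sum.inl i, by simp⟩) fun x => match x with
    | ⟨Sum.inl i, hi⟩ => ⟨Sum.inr i, fun h => mem_exS.1 hi (Sum.inr_injective h)⟩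
    | ⟨Sum.inr _, hb⟩ => absurd hb inr_not_mem_exS
  invFun x := match x with
    | ⟨Sum.inl i, _⟩ => Sum.inl i
    | ⟨Sum.inr i, hi⟩ => Sum.inr ⟨Sum.inl i, mem_exS.2 fun h => hi (by rw [h])⟩
  left_inv := by
    rintro (i | ⟨i | b, hb⟩)
    · rfl
    · rfl
    · exact absurd hb inr_not_mem_exS
  right_inv := by
    rintro ⟨i | i, hi⟩ <;> rfl

/-- The world without the root line. -/
theorem rest_exS (Z : MW ι) {F : Idx P → ML} {ls : Idx P ⊕ Bool → ML}
    (h : ∀ i, i ≠ root P → ls (Sum.inl i) = F i) :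
    (rest (Z.add (MW.lines F)) (Sum.inr (root P))).comap (exE ι P) = Z.add (sub ls (exS P)) := by
  unfold rest sub MW.add MW.comap MW.lines
  congr 1
  · funext x
    rcases x with i | ⟨i | b, hb⟩
    · rfl
    · change (F i).1.1 = (ls (Sum.inl i)).1.1
      rw [h i (mem_exS.1 hb)]
    · exact absurd hb inr_not_mem_exS
  · funext x
    rcases x with i | ⟨i | b, hb⟩
    · rfl
    · change back (F i).1 = back (ls (Sum.inl i)).1
      rw [h i (mem_exS.1 hb)]
    · exact absurd hb inr_not_mem_exS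
  · funext x
    rcases x with i | ⟨i | b, hb⟩
    · rfl
    · change (F i).2 = (ls (Sum.inl i)).2
      rw [h i (mem_exS.1 hb)]
    · exact absurd hb inr_not_mem_exS

/-- Base world with one more line of the family. -/
theorem thF_insert {Φ : Space3 → ℝ} {ε : ℝ} (hΦ : AdmissiblePotential Φ) (hε : 0 < ε) (K : ℕ)
    (T : ℝ) (Z : MW ι) {κ : Type} [Fintype κ] [DecidableEq κ] (ls : κ → ML) {S : Finset κ}
    {a b : κ} (ha : a ∉ S) :
    thF Φ ε K T Z ls (insert a S) b = ((Z.add (sub ls S)).ins (ls a)).thetaL Φ ε K T (ls b) := by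
  have h1 : (Z.add (sub ls (insert a S))).comap
      ((Equiv.sumAssoc ι S Unit).trans (Equiv.sumCongr (Equiv.refl ι) (insertEquiv ha))) =
        (Z.add (sub ls S)).ins (ls a) := by
    unfold MW.ins MW.comap MW.add
    congr 1 <;> · funext x; rcases x with (x | x) | x <;> rfl
  exact (thetaL_relabel hΦ hε _ h1 T (ls b)).symm

end exits

/-! ### The root of a real tree -/

section real

variable {Φ : Space3 → ℝ} {ε : ℝ} {P : CTree} {z : PhasePoint × Par P} {k m : ℕ}
  {V : Config k} {w : Config m} {e : Idx P ≃ Fin k} {s : ℝ} {l : ML}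

/-- After its release the root is at distance `> ε` from everybody. -/
theorem root_far (hΦ : AdmissiblePotential Φ) (hε : 0 < ε) (hs : 0 < s)
    (hr : RealTree674.RealTree Φ ε s (Fin.append V w) (Fin.castAdd m (e (root P))) P z.1 z.2
      fun i => Fin.castAdd m (e i)) {t : ℝ} (ht : rel P z.2 (root P) < t) (hts : t ≤ s)
    {x : Fin (k + m)} (hx : x ≠ Fin.castAdd m (e (root P))) :
    ε < dist (pth Φ ε (Fin.append V w) t (Fin.castAdd m (e (root P)))).1
      (pth Φ ε (Fin.append V w) t x).1 := by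
  by_contra hle
  rw [not_lt] at hle
  have h0 : 0 ≤ t := (rel_nonneg hε.le hr.valid.2 (root P)).trans ht.le
  have hp : Past (Ct (pth Φ ε (Fin.append V w)) ε) s (Fin.castAdd m (e (root P))) t
      (Fin.castAdd m (e (root P))) := .root hts
  obtain ⟨j, rfl, hj⟩ := (hr.past t ⟨h0, hts⟩ _).1 (hp.contact hle)
  have hct : Ct (path Φ ε P z.1 z.2) ε t (root P) j := by
    unfold Ct
    rw [← hr.agree (root P) t h0 (by rw [PathFlow968.prot_root]; exact hts),
      ← hr.agree j t h0 hj]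
    exact hle
  rcases (ct_iff hΦ hε hr.valid hr.sep ⟨h0, hts⟩).1 hct with h1 | h1 | h1
  · exact hx (by rw [h1])
  · exact absurd (inWindow_rel hε.le hr.valid.2 h1).1 (not_le.2 ht)
  · exact absurd (inWindow_rel hε.le hr.valid.2 h1).2 (not_le.2 ht)

/-- `c` = root line: no contact up to the time at which the root is seen. -/
theorem root_free (hΦ : AdmissiblePotential Φ) (hε : 0 < ε) (hs : 0 < s)
    (hX : Fin.append V w ∈ PairExcluded ε (k + m))
    (hr : RealTree674.RealTree Φ ε s (Fin.append V w) (Fin.castAdd m (e (root P))) P z.1 z.2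
      fun i => Fin.castAdd m (e i)) {t : ℝ} (hts : t ≤ s) {x : Fin m ⊕ Idx P}
    (hc : ((MW.cfg w).add (MW.lines (lineML Φ ε P z))).C Φ ε t (Sum.inr (root P)) x) :
    x = Sum.inr (root P) := by
  have hct := C_tree hΦ hε hs hX hr hc
  have h1 : rel P z.2 (root P) ≤ t := MW.C_born hc
  by_contra hne
  have hne' : treeE m e x ≠ Fin.castAdd m (e (root P)) := fun h =>
    hne ((treeE m e).injective h)
  rcases eq_or_lt_of_le h1 with h2 | h2
  · -- contact at the release time
    have h0 : 0 ≤ t := (rel_nonneg hε.le hr.valid.2 (root P)).trans h1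
    have hp : Past (Ct (pth Φ ε (Fin.append V w)) ε) s (Fin.castAdd m (e (root P))) t
        (Fin.castAdd m (e (root P))) := .root hts
    obtain ⟨j, hj1, hj2⟩ := (hr.past t ⟨h0, hts⟩ _).1 (hp.contact hct)
    have hxj : x = Sum.inr j := (treeE m e).injective (by rw [treeE_inr]; exact hj1.symm)
    subst hxj
    have hjr : j ≠ root P := fun h => hne (by rw [h])
    have h3 : rel P z.2 j = t := by
      refine le_antisymm (MW.C_born' hc) ?_
      rw [rel_eq_prot P s z.2 j hjr]
      exact hj2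
    rcases hc.2.2.1 with h4 | h4 | h4
    · exact hne h4.symm
    · exact absurd h4 (not_lt.2 h2.ge)
    · exact absurd h4 (not_lt.2 h3.ge)
  · exact absurd hct (not_le.2 (root_far hΦ hε hs hr h2 hts hne'))

/-- The world `w + lines of the tree` is good if `w + exits` is good. -/
theorem ok_tree (hΦ : AdmissiblePotential Φ) (hε : 0 < ε) (hs : 0 < s)
    (hX : Fin.append V w ∈ PairExcluded ε (k + m))
    (hr : RealTree674.RealTree Φ ε s (Fin.append V w) (Fin.castAdd m (e (root P))) P z.1 z.2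
      fun i => Fin.castAdd m (e i)) {Z₀ : MW (Fin m ⊕ exS P)}
    (hZ₀ : (rest ((MW.cfg w).add (MW.lines (lineML Φ ε P z))) (Sum.inr (root P))).comap
      (exE (Fin m) P) = Z₀) (hOk : Z₀.Ok Φ ε) :
    ((MW.cfg w).add (MW.lines (lineML Φ ε P z))).Ok Φ ε := by
  set Zt := (MW.cfg w).add (MW.lines (lineML Φ ε P z)) with hZt
  have hZ : (MW.cfg (Fin.append V w)).Ok Φ ε := Unw410.cfg_ok hΦ hε hX
  have hF := (TreeIn.of_real hΦ hε hs hr).famIn hε hr.valid
  have hbw : BWorld Φ ε Zt.b 0 (Zt.path Φ ε) := by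
    have h1 := (hF.bw hΦ hε hZ.bw).equiv (treeE m e)
    rw [hZt, ← treeW (V := V) (e := e)]
    exact h1.congr fun t _ => funext fun i => path_comap hΦ hε _ (treeE m e) t i
  have hR : (rest Zt (Sum.inr (root P))).Ok Φ ε := ok_of_comap hΦ hε _ hZ₀ hOk
  have hb0 : ∀ x, 0 ≤ Zt.b x := by
    rintro (x | x)
    · exact le_rfl
    · exact rel_nonneg hε.le hr.valid.2 x
  have hbs : ∀ x, Zt.b x < s := by
    rintro (x | x)
    · exact hs
    · exact rel_lt hε.le hs hr.valid.2 x
  -- before `s` the other particles have in `rest` their paths of `Zt`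
  have hrest : ∀ t ∈ Icc 0 s, ∀ x : Oth (Sum.inr (root P) : Fin m ⊕ Idx P),
      (rest Zt (Sum.inr (root P))).path Φ ε t x = Zt.path Φ ε t x := by
    intro t ht x
    refine BWorld.agree_own hΦ hε hR.bw hbw (e := (id : Oth _ → Oth _)) (f := Subtype.val)
      Function.injective_id Subtype.val_injective (S := univ) (A := ∅) (a := 0) (T := s) le_rfl
      le_rfl (fun _ _ _ _ => Iff.rfl) (fun _ h => absurd h (notMem_empty _)) ?_ ?_ ?_ x
      (mem_univ x) t ht
    · intro m _
      rw [MW.path_zero hΦ hε, MW.path_zero hΦ hε]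
      rfl
    · intro _ _ _ _ _ j _ hj
      exact absurd rfl (hj j (Or.inl (mem_univ j)))
    · intro r hr' m _ hm y hy hne
      by_cases hyc : y = Sum.inr (root P)
      · subst hyc
        refine hbw.le_dist_of_not_ctB hr'.1 hr'.2 hm hy fun r' hr'' hc => ?_
        exact m.2 (root_free hΦ hε hs hX hr hr''.2.le (MW.C_symm _ hc))
      · exact absurd rfl (hne ⟨y, hyc⟩ (Or.inl (mem_univ _)))
  -- pairs with the root
  have hroot : ∀ y, y ≠ Sum.inr (root P) → Zt.b y = Zt.b (Sum.inr (root P)) →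
      ∃ δ > 0, ∀ t, Zt.b y < t → t < Zt.b y + δ →
        ε < dist (Zt.path Φ ε t (Sum.inr (root P))).1 (Zt.path Φ ε t y).1 := by
    intro y hy hby
    refine ⟨s - Zt.b y, by linarith [hbs y], fun t h1 h2 => ?_⟩
    have h0 : 0 ≤ t := (hb0 y).trans h1.le
    rw [path_tree hΦ hε hs hX hr h0 (x := Sum.inr (root P)) (by
      change Zt.b (Sum.inr (root P)) ≤ t; linarith), path_tree hΦ hε hs hX hr h0 h1.le, treeE_inr]
    refine root_far hΦ hε hs hr ?_ (by linarith) fun h => hy ((treeE m e).injective h)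
    have h3 : Zt.b (Sum.inr (root P)) = rel P z.2 (root P) := rfl
    linarith
  refine ⟨hbw, fun x y hxy hb => ?_⟩
  by_cases hx : x = Sum.inr (root P)
  · subst hx
    obtain ⟨δ, hδ, h1⟩ := hroot y (Ne.symm hxy) hb.symm
    refine ⟨δ, hδ, fun t ht1 ht2 => h1 t ?_ ?_⟩
    · rw [← hb]; exact ht1
    · rw [← hb]; exact ht2
  by_cases hy : y = Sum.inr (root P)
  · subst hy
    obtain ⟨δ, hδ, h1⟩ := hroot x hx hb
    refine ⟨δ, hδ, fun t ht1 ht2 => ?_⟩
    rw [dist_comm]
    exact h1 t ht1 ht2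
  · obtain ⟨δ, hδ, h1⟩ := hR.sep ⟨x, hx⟩ ⟨y, hy⟩ (fun h => hxy (congrArg Subtype.val h)) hb
    refine ⟨min δ (s - Zt.b x), lt_min hδ (by linarith [hbs x]), fun t ht1 ht2 => ?_⟩
    have ht3 : t < s := by
      have := ht2.trans_le (add_le_add le_rfl (min_le_right δ (s - Zt.b x)))
      linarith
    have ht : t ∈ Icc 0 s := ⟨(hb0 x).trans ht1.le, ht3.le⟩
    have h2 := h1 t ht1 (ht2.trans_le (add_le_add le_rfl (min_le_left δ (s - Zt.b x))))
    rw [hrest t ht, hrest t ht] at h2
    exact h2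

/-- The world `w + lines of the tree + l` is good. -/
theorem ok_tree_ins (hΦ : AdmissiblePotential Φ) (hε : 0 < ε) (hs : 0 < s)
    (hX : Fin.append V w ∈ PairExcluded ε (k + m))
    (hr : RealTree674.RealTree Φ ε s (Fin.append V w) (Fin.castAdd m (e (root P))) P z.1 z.2
      fun i => Fin.castAdd m (e i))
    (hOk : ((MW.cfg w).add (MW.lines (lineML Φ ε P z))).Ok Φ ε)
    (hl : 0 ≤ l.1.1) (hls : l.1.1 < s) (hF : FreeFar Φ ε (MW.cfg (Fin.append V w)) l s)
    (hZl : ((MW.cfg (Fin.append V w)).ins l).Ok Φ ε) :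
    (((MW.cfg w).add (MW.lines (lineML Φ ε P z))).ins l).Ok Φ ε := by
  set Zt := (MW.cfg w).add (MW.lines (lineML Φ ε P z)) with hZt
  have hZ : (MW.cfg (Fin.append V w)).Ok Φ ε := Unw410.cfg_ok hΦ hε hX
  have h1 := TreeIn.of_real hΦ hε hs hr
  have h2 := (h1.ins hΦ hε hF hZ hZl hl (rel_lt_real hε hs hr)).famIn hε hr.valid
  have e2 : lw ((MW.cfg (Fin.append V w)).ins l) (fun i => Sum.inl (Fin.castAdd m (e i)))
      (lineML Φ ε P z) = (lw (MW.cfg (Fin.append V w)) (fun i => Fin.castAdd m (e i))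
        (lineML Φ ε P z)).add (MW.line l) :=
    lw_add (Z := MW.cfg (Fin.append V w)) (ls := lineML Φ ε P z) h1.inj (MW.line l)
  have e3 : ((lw (MW.cfg (Fin.append V w)) (fun i => Fin.castAdd m (e i)) (lineML Φ ε P z)).add
      (MW.line l)).comap (Equiv.sumCongr (treeE m e) (Equiv.refl Unit)) = Zt.ins l :=
    ins_comap (treeE m e) (treeW (lineML Φ ε P z)) l
  have hbw2 := h2.bw hΦ hε hZl.bw
  have hpath2 : ∀ t, 0 ≤ t → ∀ x, (Zt.ins l).b x ≤ t → (Zt.ins l).path Φ ε t x =
      ((MW.cfg (Fin.append V w)).ins l).path Φ ε t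
        (Equiv.sumCongr (treeE m e) (Equiv.refl Unit) x) := by
    intro t ht x hx
    rw [← e3] at hx ⊢
    rw [path_comap hΦ hε]
    have := h2.path_eq hΦ hε hZl.bw ht (x := Equiv.sumCongr (treeE m e) (Equiv.refl Unit) x)
    rw [e2] at this
    exact this hx
  have hb0 : ∀ x, 0 ≤ (Zt.ins l).b x := by
    rintro ((x | x) | x)
    · exact le_rfl
    · exact rel_nonneg hε.le hr.valid.2 x
    · exact hl
  have hbs : ∀ x, (Zt.ins l).b x < s := by
    rintro ((x | x) | x)
    · exact hs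
    · exact rel_lt hε.le hs hr.valid.2 x
    · exact hls
  have hpi := fun (t : ℝ) (ht : t ∈ Icc 0 s) => hF.path_ins hΦ hε hZ hZl ht
  -- pairs with the inserted line
  have hnew : ∀ (x : Fin m ⊕ Idx P), Zt.b x = l.1.1 → ∃ δ > 0, ∀ t, l.1.1 < t → t < l.1.1 + δ →
      ε < dist ((Zt.ins l).path Φ ε t (Sum.inr ())).1 ((Zt.ins l).path Φ ε t (Sum.inl x)).1 := by
    intro x hx
    refine ⟨s - l.1.1, by linarith, fun t ht1 ht2 => ?_⟩
    have ht : t ∈ Icc 0 s := ⟨hl.trans ht1.le, by linarith⟩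
    rw [hpath2 t ht.1 (Sum.inr ()) ht1.le, hpath2 t ht.1 (Sum.inl x)
      (by change Zt.b x ≤ t; rw [hx]; exact ht1.le)]
    change ε < dist (((MW.cfg (Fin.append V w)).ins l).path Φ ε t (Sum.inr ())).1
      (((MW.cfg (Fin.append V w)).ins l).path Φ ε t (Sum.inl (treeE m e x))).1
    rw [(hpi t ht).1, (hpi t ht).2]
    exact hF t _ ht1.le (by linarith) ht.1
  refine ⟨?_, ?_⟩
  · have h4 := hbw2.equiv (Equiv.sumCongr (treeE m e) (Equiv.refl Unit))
    rw [e2] at h4
    rw [← e3]
    exact h4.congr fun t _ => funext fun i =>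
      path_comap hΦ hε _ (Equiv.sumCongr (treeE m e) (Equiv.refl Unit)) t i
  · rintro (x | x) (y | y) hxy hb
    · obtain ⟨δ, hδ, h4⟩ := hOk.sep x y (fun h => hxy (by rw [h])) hb
      have hbx : (Zt.ins l).b (Sum.inl x) = Zt.b x := rfl
      have hby : (Zt.ins l).b (Sum.inl y) = Zt.b y := rfl
      have hbx' : Zt.b x < s := hbs (Sum.inl x)
      refine ⟨min δ (s - Zt.b x), lt_min hδ (by linarith), fun t ht1 ht2 => ?_⟩
      rw [hbx] at ht1 ht2
      have ht3 : t < s := by
        have := ht2.trans_le (add_le_add le_rfl (min_le_right δ (s - Zt.b x)))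
        linarith
      have ht : t ∈ Icc 0 s := ⟨(hb0 (Sum.inl x)).trans ht1.le, ht3.le⟩
      have hty : Zt.b y ≤ t := by
        have h5 : Zt.b x = Zt.b y := hb
        rw [← h5]; exact ht1.le
      have h5 := h4 t ht1 (ht2.trans_le (add_le_add le_rfl (min_le_left δ (s - Zt.b x))))
      rw [hpath2 t ht.1 (Sum.inl x) ht1.le, hpath2 t ht.1 (Sum.inl y) hty]
      change ε < dist (((MW.cfg (Fin.append V w)).ins l).path Φ ε t (Sum.inl (treeE m e x))).1
        (((MW.cfg (Fin.append V w)).ins l).path Φ ε t (Sum.inl (treeE m e y))).1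
      rw [(hpi t ht).2, (hpi t ht).2]
      rw [path_tree hΦ hε hs hX hr ht.1 ht1.le, path_tree hΦ hε hs hX hr ht.1 hty] at h5
      rw [EBasic602.cfg_path hΦ hε]
      exact h5
    · obtain ⟨δ, hδ, h4⟩ := hnew x hb
      have hbx : (Zt.ins l).b (Sum.inl x) = l.1.1 := hb
      refine ⟨δ, hδ, fun t ht1 ht2 => ?_⟩
      rw [hbx] at ht1 ht2
      rw [dist_comm]
      exact h4 t ht1 ht2
    · obtain ⟨δ, hδ, h4⟩ := hnew y hb.symm
      exact ⟨δ, hδ, fun t ht1 ht2 => h4 t ht1 ht2⟩
    · exact absurd rfl hxy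

end real

/-! ### The one-contact structures of helper285 -/

section one

variable {Φ : Space3 → ℝ} {ε te T' R : ℝ} {K : ℕ} {P : CTree} {z : PhasePoint × Par P} {m : ℕ}
  {w : Config m} {l : ML}

/-- The encounter of the test line with the root is good: it is a passage, it lasts at most `R ε`,
the relative displacement is at most `R ε`, and no other born particle of the world `w + exits` is
within `(R + 2) ε` of the undeflected root during it. -/
structure EncEv (Φ : Space3 → ℝ) (ε R : ℝ) (P : CTree) (z : PhasePoint × Par P) {m : ℕ}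
    (w : Config m) (l : ML) : Prop where
  pass : CDpass Φ (cD ε z l)
  tau : tauM Φ (relB (cD ε z l)) ≤ R
  disp : tauM Φ (relB (cD ε z l)) * ‖(relB (cD ε z l)).2‖ ≤ R
  far : ∀ t, cT ε z l ≤ t → t ≤ cT ε z l + ε * R → ∀ x,
    ((MW.cfg w).add (sub (oneLs Φ ε P z l) (exS P))).b x ≤ t →
      (R + 2) * ε < dist (((MW.cfg w).add (sub (oneLs Φ ε P z l) (exS P))).path Φ ε t x).1
        (z.1.1 + t • z.1.2)

theorem EncEv.nonneg (h : EncEv Φ ε R P z w l) : 0 ≤ R := h.pass.hasExit.1.le.trans h.tau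

theorem oneLs_root : oneLs Φ ε P z l (Sum.inl (root P)) =
    (lineC Φ ε (cT ε z l) (cX ε z l) (cD ε z l), P.leaves) := if_pos rfl

theorem oneLs_exit {i : Idx P} (h : i ≠ root P) :
    oneLs Φ ε P z l (Sum.inl i) = lineML Φ ε P z i := if_neg h

theorem lpos_eq (l : ML) (t : ℝ) : lpos l t = (lineAt l.1.1 l.1.2 t).1 := by
  unfold lpos
  rw [back_eq_lineAt]
  have h1 := lineAt_lineAt l.1.1 0 t l.1.2
  rw [← h1]
  unfold lineAt
  simp


variable (h : Real4 Φ ε K te T' P z w l)

include h in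
theorem _root_.Crest.Agent.R122.OneC285.Real4.excl : Fin.append (cfT Φ ε P z) w ∈ PairExcluded ε (P.leaves + m) :=
  (append_mem_pairExcluded_iff _ _).2 ⟨h.exV, h.exw, h.perp⟩

include h in
theorem _root_.Crest.Agent.R122.OneC285.Real4.lt : l.1.1 < cT ε z l := h.ct.2.2.1

include h in
theorem _root_.Crest.Agent.R122.OneC285.Real4.pos : 0 < cT ε z l := h.birth.trans h.lt

include h in
theorem _root_.Crest.Agent.R122.OneC285.Real4.le : cT ε z l ≤ te := h.ct.2.2.2.1

include h in
/-- The free line does not meet the gas before `cT`. -/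
theorem _root_.Crest.Agent.R122.OneC285.Real4.freeFar (hΦ : AdmissiblePotential Φ) (hε : 0 < ε) :
    FreeFar Φ ε (MW.cfg (Fin.append (cfT Φ ε P z) w)) l (cT ε z l) := by
  intro t i ht hts _
  rw [← h.time] at hts
  rw [EBasic602.cfg_path hΦ hε, ← lpos_eq]
  by_contra hle
  rw [not_lt] at hle
  refine absurd (csInf_le ?_ ?_) (not_le.2 hts)
  · exact ⟨l.1.1, fun r hr => hr.1⟩
  · exact ⟨ht, i, hle⟩

include h in
/-- The real world with the line is good. -/
theorem _root_.Crest.Agent.R122.OneC285.Real4.ok_ins (hΦ : AdmissiblePotential Φ) (hε : 0 < ε) :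
    ((MW.cfg (Fin.append (cfT Φ ε P z) w)).ins l).Ok Φ ε := by
  refine Unw410.ins_ok hΦ hε h.excl h.birth fun i hi => ?_
  have h1 := h.freeFar hΦ hε l.1.1 i le_rfl h.lt h.birth.le
  rw [EBasic602.cfg_path hΦ hε, lineAt_self] at h1
  have h2 : (pth Φ ε (Fin.append (cfT Φ ε P z) w) l.1.1 i).1 = l.1.2.1 := hi
  rw [h2, dist_self] at h1
  linarith

include h in
/-- State of the test line at the contact. -/
theorem _root_.Crest.Agent.R122.OneC285.Real4.state_l (hε : 0 < ε) : lineAt l.1.1 l.1.2 (cT ε z l) =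
    (cX ε z l + ε • entrancePoint (relB (cD ε z l)).1 (relB (cD ε z l)).2, (cD ε z l).1) := by
  have h1 := OC663.ent_pos hε (OneC423.relL z.1 l.1)
  refine Prod.ext ?_ rfl
  rw [← lpos_eq]
  have h2 : (OneC423.relL z.1 l.1).1 = (back l.1).1 - z.1.1 := rfl
  have h3 : (OneC423.relL z.1 l.1).2 = l.1.2.2 - z.1.2 := rfl
  rw [h2, h3] at h1
  change (back l.1).1 + cT ε z l • l.1.2.2 = z.1.1 + cT ε z l • z.1.2 +
    ε • entrancePoint (cB ε z l) (l.1.2.2 - z.1.2)
  rw [show entrancePoint (cB ε z l) (l.1.2.2 - z.1.2) =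
    entrancePoint (OC663.entB ε (OneC423.relL z.1 l.1)) (l.1.2.2 - z.1.2) from rfl, ← h1]
  change (back l.1).1 + cT ε z l • l.1.2.2 = z.1.1 + cT ε z l • z.1.2 +
    ((back l.1).1 - z.1.1 + cT ε z l • (l.1.2.2 - z.1.2))
  rw [smul_sub]
  abel

include h in
theorem _root_.Crest.Agent.R122.OneC285.Real4.ok_tree (hΦ : AdmissiblePotential Φ) (hε : 0 < ε)
    (hOk : ((MW.cfg w).add (sub (oneLs Φ ε P z l) (exS P))).Ok Φ ε) :
    ((MW.cfg w).add (MW.lines (lineML Φ ε P z))).Ok Φ ε :=
  Ins45.ok_tree hΦ hε h.pos h.excl h.real (rest_exS (MW.cfg w) fun _ hi => oneLs_exit hi) hOk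

include h in
theorem _root_.Crest.Agent.R122.OneC285.Real4.ok_tree_ins (hΦ : AdmissiblePotential Φ) (hε : 0 < ε)
    (hOk : ((MW.cfg w).add (sub (oneLs Φ ε P z l) (exS P))).Ok Φ ε) :
    (((MW.cfg w).add (MW.lines (lineML Φ ε P z))).ins l).Ok Φ ε :=
  Ins45.ok_tree_ins hΦ hε h.pos h.excl h.real (h.ok_tree hΦ hε hOk) h.birth.le h.lt
    (h.freeFar hΦ hε) (h.ok_ins hΦ hε)

include h in
/-- **The encounter in the world `w + lines of the tree`.** -/
theorem _root_.Crest.Agent.R122.OneC285.Real4.goodEnc (hΦ : AdmissiblePotential Φ) (hε : 0 < ε) (hE : EncEv Φ ε R P z w l) :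
    GoodEnc Φ ε ((MW.cfg w).add (MW.lines (lineML Φ ε P z))) l (Sum.inr (root P)) (cT ε z l)
      (cX ε z l) (cD ε z l) ∧
    UnIso Φ ε ((MW.cfg w).add (MW.lines (lineML Φ ε P z))) (Sum.inr (root P)) (cT ε z l)
      (cT ε z l + outT Φ ε (cD ε z l)) (cX ε z l, (cD ε z l).2.1) := by
  set Zt := (MW.cfg w).add (MW.lines (lineML Φ ε P z)) with hZt
  have hs := h.pos
  have hX := h.excl
  have hr := h.real
  have hR := hE.nonneg
  have hrest := rest_exS (P := P) (MW.cfg w) (F := lineML Φ ε P z) (ls := oneLs Φ ε P z l)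
    fun _ hi => oneLs_exit hi
  have hb0 : ∀ x, 0 ≤ Zt.b x := by
    rintro (x | x)
    · exact le_rfl
    · exact rel_nonneg hε.le hr.valid.2 x
  have hbs : ∀ x, Zt.b x < cT ε z l := by
    rintro (x | x)
    · exact hs
    · exact rel_lt hε.le hs hr.valid.2 x
  -- distance to the others during the encounter
  have hfar : ∀ t (k : Oth (Sum.inr (root P) : Fin m ⊕ Idx P)), cT ε z l ≤ t →
      t ≤ cT ε z l + outT Φ ε (cD ε z l) → Zt.b k ≤ t →
      (R + 2) * ε < dist ((rest Zt (Sum.inr (root P))).path Φ ε t k).1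
        (cX ε z l + (t - cT ε z l) • (cD ε z l).2.1) := by
    intro t k ht ht' hk
    obtain ⟨x, rfl⟩ := (exE (Fin m) P).surjective k
    have h1 : t ≤ cT ε z l + ε * R := by
      have h2 : outT Φ ε (cD ε z l) = ε * tauM Φ (relB (cD ε z l)) := rfl
      have h3 := mul_le_mul_of_nonneg_left hE.tau hε.le
      linarith
    have h4 := hE.far t ht h1 x
    rw [← hrest] at h4
    rw [path_comap hΦ hε] at h4
    have h5 := h4 hk
    have h6 : cX ε z l + (t - cT ε z l) • (cD ε z l).2.1 = z.1.1 + t • z.1.2 := by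
      change z.1.1 + cT ε z l • z.1.2 + (t - cT ε z l) • z.1.2 = _
      rw [sub_smul]
      abel
    rw [h6]
    exact h5
  have hmul : (1 + R / 2) * ε + ε ≤ (R + 2) * ε := by nlinarith
  refine ⟨⟨h.birth.le, hb0, h.lt, (hbs _).le, hE.pass, h.state_l hε, ?_, ?_, ?_, ?_, ?_, ?_⟩, ?_⟩
  · -- state of the root
    rw [path_tree hΦ hε hs hX hr hs.le (x := Sum.inr (root P)) (hbs _).le, treeE_inr]
    exact hr.state hε hs.le
  · -- the free line before the contact
    intro t x ht hts hx _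
    have ht0 : 0 ≤ t := h.birth.le.trans ht
    rw [path_tree hΦ hε hs hX hr ht0 hx]
    have h1 := h.freeFar hΦ hε t (treeE m (eP P) x) ht hts ht0
    rw [EBasic602.cfg_path hΦ hε] at h1
    exact h1
  · intro t x ht hc
    exact root_free hΦ hε hs hX hr ht hc
  · intro t k ht ht' hk
    have h1 := hfar t k ht ht' hk
    have h2 := enc_near_l (y := cX ε z l) hΦ hε hE.pass hE.disp ht ht'
    have h3 := dist_triangle ((rest Zt (Sum.inr (root P))).path Φ ε t k).1
      (encPL Φ ε (cT ε z l) (cX ε z l) (cD ε z l) t).1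
      (cX ε z l + (t - cT ε z l) • (cD ε z l).2.1)
    have h4 := dist_comm ((rest Zt (Sum.inr (root P))).path Φ ε t k).1
      (encPL Φ ε (cT ε z l) (cX ε z l) (cD ε z l) t).1
    linarith
  · intro t k ht ht' hk
    have h1 := hfar t k ht ht' hk
    have h2 := enc_near_c (y := cX ε z l) hΦ hε hE.pass hE.disp ht ht'
    have h3 := dist_triangle ((rest Zt (Sum.inr (root P))).path Φ ε t k).1
      (encPC Φ ε (cT ε z l) (cX ε z l) (cD ε z l) t).1
      (cX ε z l + (t - cT ε z l) • (cD ε z l).2.1)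
    have h4 := dist_comm ((rest Zt (Sum.inr (root P))).path Φ ε t k).1
      (encPC Φ ε (cT ε z l) (cX ε z l) (cD ε z l) t).1
    linarith
  · intro k _ hk
    have := hE.pass.outT_pos hε
    linarith [hbs k]
  · intro t k ht ht' hk
    have h1 := hfar t k ht ht' hk
    have h2 : ε ≤ (R + 2) * ε := by nlinarith
    have h3 := dist_comm ((rest Zt (Sum.inr (root P))).path Φ ε t k).1
      (cX ε z l + (t - cT ε z l) • (cD ε z l).2.1)
    rw [h3] at h1
    exact h2.trans_lt h1

include h in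
/-- **The field `one` of `Good4`.** -/
theorem _root_.Crest.Agent.R122.OneC285.Real4.one (hΦ : AdmissiblePotential Φ) (hε : 0 < ε) (hK : l.2 + P.leaves ≤ K)
    (hOk : ((MW.cfg w).add (sub (oneLs Φ ε P z l) (exS P))).Ok Φ ε)
    (hOkL : (((MW.cfg w).add (sub (oneLs Φ ε P z l) (exS P))).ins
      (oneLs Φ ε P z l (Sum.inr false))).Ok Φ ε)
    (hE : EncEv Φ ε R P z w l) :
    min (thF Φ ε K te (MW.cfg w) (oneLs Φ ε P z l) (exS P) (Sum.inl (root P)))
      (min (thF Φ ε K te (MW.cfg w) (oneLs Φ ε P z l) (exS P) (Sum.inr false))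
        (thF Φ ε K te (MW.cfg w) (oneLs Φ ε P z l) (insert (Sum.inr false) (exS P))
          (Sum.inr true))) ≤
      (MW.cfg (Fin.append (cfT Φ ε P z) w)).thetaL Φ ε K te l := by
  set Zt := (MW.cfg w).add (MW.lines (lineML Φ ε P z)) with hZt
  have hrest := rest_exS (P := P) (MW.cfg w) (F := lineML Φ ε P z) (ls := oneLs Φ ε P z l)
    fun _ hi => oneLs_exit hi
  obtain ⟨hG, hU⟩ := h.goodEnc hΦ hε hE
  have hZ := h.ok_tree hΦ hε hOk
  have hZl := h.ok_tree_ins hΦ hε hOk
  have hR : (rest Zt (Sum.inr (root P))).Ok Φ ε := ok_of_comap hΦ hε _ hrest hOk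
  have hm : Zt.m (Sum.inr (root P)) = P.leaves := mk_root P
  have hL : (lineL' Φ ε (cT ε z l) (cX ε z l) (cD ε z l), l.2 + Zt.m (Sum.inr (root P))) =
      oneLs Φ ε P z l (Sum.inr false) := by rw [hm]; rfl
  have hC : (lineC' Φ ε (cT ε z l) (cX ε z l) (cD ε z l), l.2 + Zt.m (Sum.inr (root P))) =
      oneLs Φ ε P z l (Sum.inr true) := by rw [hm]; rfl
  have hc : (lineC Φ ε (cT ε z l) (cX ε z l) (cD ε z l), Zt.m (Sum.inr (root P))) =
      oneLs Φ ε P z l (Sum.inl (root P)) := by rw [hm, oneLs_root]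
  have hRl : ((rest Zt (Sum.inr (root P))).ins (oneLs Φ ε P z l (Sum.inr false))).Ok Φ ε :=
    ok_of_comap hΦ hε _ (ins_comap (exE (Fin m) P) hrest _) hOkL
  have key := hG.one_std' (K := K) hΦ hε hZ hZl hR (by rw [hL]; exact hRl)
    (by rw [hm]; exact hK) (cl := lineML Φ ε P z (root P)) ⟨rfl, rfl, rfl⟩ hU te
  rw [hL, hC, hc] at key
  have t1 : thF Φ ε K te (MW.cfg w) (oneLs Φ ε P z l) (exS P) (Sum.inl (root P)) =
      (rest Zt (Sum.inr (root P))).thetaL Φ ε K te (oneLs Φ ε P z l (Sum.inl (root P))) :=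
    thetaL_relabel hΦ hε (exE (Fin m) P) hrest te _
  have t2 : thF Φ ε K te (MW.cfg w) (oneLs Φ ε P z l) (exS P) (Sum.inr false) =
      (rest Zt (Sum.inr (root P))).thetaL Φ ε K te (oneLs Φ ε P z l (Sum.inr false)) :=
    thetaL_relabel hΦ hε (exE (Fin m) P) hrest te _
  have t3 : thF Φ ε K te (MW.cfg w) (oneLs Φ ε P z l) (insert (Sum.inr false) (exS P))
      (Sum.inr true) = ((rest Zt (Sum.inr (root P))).ins
        (oneLs Φ ε P z l (Sum.inr false))).thetaL Φ ε K te (oneLs Φ ε P z l (Sum.inr true)) := by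
    rw [thF_insert hΦ hε K te (MW.cfg w) (oneLs Φ ε P z l) inr_not_mem_exS]
    exact thetaL_relabel hΦ hε _ (ins_comap (exE (Fin m) P) hrest _) te _
  rw [t1, t2, t3]
  exact key.trans (theta_tree_le hΦ hε h.pos h.excl h.real h.birth.le (h.freeFar hΦ hε)
    (h.ok_ins hΦ hε) (by omega) te)


end one

end

end Crest.Agent.R122.Ins45
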