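import Crest.Agent.R122.Line3_285
import Crest.Agent.R122.Good4One_45

/-!
# INEQUALITY 1 (row 122, board H2), exits touched before the contact (GAP-G)

The one-contact lemma (field `one` of `Good4`) is used only if no exit of the tree touches the base
gas before the contact time `cT`. Otherwise the first touch of an exit is not later than the touch of
the test line, and the weight is estimated at that time; the contact time is then in the window.

* `Alt4` : some exit touches the gas `w` not later than the contact.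
* `NbadE` : test lines touched in `w` before the exits, but not in `V ++ w`.
* `StmtLink4` : the null fact consumed by INEQUALITY 1 (replaces `StmtLink`).
* `StmtEXW` : exits, contact time in the window (replaces nothing, new term `≤ C (te - tw) X`).
* `line3alt`, `majT4`, `line3b4` : pointwise inequality on real structures.
-/

set_option autoImplicit false
set_option linter.unusedSectionVars false

open MeasureTheory Set Filter
open scoped ENNReal Classical Topology
open Crest.AnalysisR.Kinetic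
open Crest.Agent.R122.Kin796 Crest.Agent.R122.Kin796.CTree Crest.Agent.R122.Tree674
open Crest.Agent.R122.Relabel674 Crest.Agent.R122.GC311 Crest.Agent.R122.Flow671
open Crest.Agent.R122.EDefs602 Crest.Agent.R122.TreeLines335 Crest.Agent.R122.Line285
open Crest.Agent.R122.Decomp285 Crest.Agent.R122.Disc416 Crest.Agent.R122.Weight984

noncomputable section

namespace Crest.Agent.R122.OneC285

variable {Φ : Space3 → ℝ} {f₀ : PhasePoint → ℝ} {ε : ℝ} {K : ℕ} {Q : EPar} {T' : ℝ} {P : CTree}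

/-! ## Definitions -/

/-- Some exit of the tree touches the base gas not later than the contact. -/
def Alt4 (Φ : Space3 → ℝ) (ε : ℝ) (K : ℕ) (te : ℝ) (P : CTree) (z : PhasePoint × Par P) {m : ℕ}
    (w : Config m) (l : ML) : Prop :=
  ∃ i : Idx P, i ≠ root P ∧ (MW.cfg w).thetaL Φ ε K te (lineML Φ ε P z i) ≤ cT ε z l

/-- Test lines which touch the base gas strictly before the exits, but not (not then) the real
gas. -/
def NbadE (Φ : Space3 → ℝ) (ε : ℝ) (K : ℕ) (te : ℝ) (P : CTree) (z : PhasePoint × Par P) {m : ℕ}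
    (w : Config m) : Set ML :=
  {x | (∀ i : Idx P, i ≠ root P → (MW.cfg w).thetaL Φ ε K te x <
      (MW.cfg w).thetaL Φ ε K te (lineML Φ ε P z i)) ∧
    (MW.cfg w).thetaL Φ ε K te x < (MW.cfg (Fin.append (cfT Φ ε P z) w)).thetaL Φ ε K te x}

/-- The error of a real structure: linked test lines; bad structures. -/
def err4 (Φ : Space3 → ℝ) (ε : ℝ) (K : ℕ) (Q : EPar) (P : CTree) (z : PhasePoint × Par P) {m : ℕ}
    (w : Config m) (l : ML) : ℝ≥0∞ :=
  if Alt4 Φ ε K Q.te P z w l then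
    min 1 (lineM Q.γ Q.ρ K Q.te (NbadE Φ ε K Q.te P z w))
  else if Good4 Φ ε K Q.te P z w l then
    min 1 (lineM Q.γ Q.ρ K Q.te (Nbad4 Φ ε K Q.te P z w l))
  else 1

/-- (H11, 741, 796, 984) LINK and bad encounters: for every `K`, `ε` there is a measurable majorant
`bd` of `err4` on the real structures with `n + |P| ≤ K` and unhit protected tubes, whose structure
integral is null. -/
def StmtLink4 (Φ : Space3 → ℝ) (f₀ : PhasePoint → ℝ) (Q : EPar) (T' : ℝ) : Prop :=
  ∃ bd : ℕ → ℝ → SF, (∀ K ε, MeasSF (bd K ε)) ∧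
    (∀ (K : ℕ) (ε : ℝ), 0 < ε → ∀ (P : CTree) (z : PhasePoint × Par P) (m : ℕ) (w : Config m)
      (l : ML), l.2 + P.leaves ≤ K → Real4 Φ ε K Q.te T' P z w l →
      GIV566.unhit Φ ε (ptube Φ ε P z) Q.tw w →
      err4 Φ ε K Q P z w l ≤ bd K ε P z m w l) ∧
    Null fun K ε => OS Φ f₀ ε K Q T' (volume.restrict (Ioc 0 Q.te)) (bd K ε)

/-- (EXW) the exits of small trees, contact time in the window `(tw, te]`: the constant is
proportional to the length of the window. -/
def StmtEXW (Φ : Space3 → ℝ) (f₀ : PhasePoint → ℝ) (Q : EPar) (T' : ℝ) (m₀ : ℕ) (C : ℝ≥0∞) :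
    Prop :=
  ∃ δ : ℕ → ℝ → ℝ≥0∞, Null δ ∧ ∀ (K : ℕ) (ε : ℝ), 0 < ε → ∀ G : LF, MeasLF G →
    (∀ m w l, G m w l ≤ 1) → ∀ τ ∈ Ioc 0 Q.te,
    OS Φ f₀ ε K Q T' (Measure.dirac τ)
      (fun P z m w l => (if P.leaves ≤ m₀ ∧ Sep Φ ε P T' z.1 z.2 ∧ Q.tw < cT ε z l then
          smI K P l else 0) * (uI Φ ε Q.tw P z w *
        ∑ i ∈ Finset.univ.filter (fun i : Idx P => i ≠ root P), G m w (lineML Φ ε P z i))) ≤
    C * ENNReal.ofReal (Q.te - Q.tw) * gcE f₀ ε (fun m w => ∫⁻ l, G m w l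
      ∂(lineM Q.γ Q.ρ K Q.te)) + δ K ε

/-! ## Exits touched before the contact -/

/-- Abstract form. -/
theorem alt_MW {ι ι' κ : Type} [Fintype ι] [Fintype ι'] (hL : 0 < Q.L) (Z : MW ι) (VW : MW ι')
    (ls : κ → ML) (E : Finset κ) {l : ML} {t : ℝ} (ht : t ≤ VW.thetaL Φ ε K Q.te l)
    (hE : ∃ d ∈ E, Z.thetaL Φ ε K Q.te (ls d) ≤ t) :
    VW.touchW Φ ε K Q l ≤
      (if Q.tw < t then ∑ d ∈ E, Z.touchW Φ ε K Q (ls d) else 0) +
      ∑ d ∈ E, tB Q.tw (Z.thetaL Φ ε K Q.te (ls d)) +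
      ENNReal.ofReal Q.L * lineM Q.γ Q.ρ K Q.te {x |
        (∀ d ∈ E, Z.thetaL Φ ε K Q.te x < Z.thetaL Φ ε K Q.te (ls d)) ∧
        Z.thetaL Φ ε K Q.te x < VW.thetaL Φ ε K Q.te x} := by
  obtain ⟨d₁, hd₁, hle₁⟩ := hE
  obtain ⟨d, hd, hmin⟩ := Finset.exists_min_image E (fun d => Z.thetaL Φ ε K Q.te (ls d)) ⟨d₁, hd₁⟩
  have hst : Z.thetaL Φ ε K Q.te (ls d) ≤ t := (hmin d₁ hd₁).trans hle₁
  have hle := hst.trans ht
  set s := Z.thetaL Φ ε K Q.te (ls d) with hs
  by_cases hc : Q.tw < VW.thetaL Φ ε K Q.te l ∧ VW.thetaL Φ ε K Q.te l ≤ Q.te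
  swap
  · have h0 : VW.touchW Φ ε K Q l = 0 := by unfold MW.touchW; rw [if_neg hc]
    rw [h0]; exact zero_le
  have h0 : VW.touchW Φ ε K Q l = VW.Wm Φ ε K Q (VW.thetaL Φ ε K Q.te l) := by
    unfold MW.touchW; rw [if_pos hc]
  rw [h0]
  by_cases hsw : s ≤ Q.tw
  · -- early touch
    have h1 : (1 : ℝ≥0∞) ≤ ∑ d ∈ E, tB Q.tw (Z.thetaL Φ ε K Q.te (ls d)) := by
      refine le_trans (le_of_eq ?_) (Finset.single_le_sum (f := fun d =>
        tB Q.tw (Z.thetaL Φ ε K Q.te (ls d))) (fun _ _ => zero_le) hd)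
      unfold tB
      rw [if_pos hsw]
    exact (W_le_one hL.le _).trans (h1.trans (le_add_self.trans le_self_add))
  · rw [not_le] at hsw
    have h1 : Z.touchW Φ ε K Q (ls d) = Z.Wm Φ ε K Q s := by
      unfold MW.touchW
      rw [if_pos ⟨hsw, hle.trans hc.2⟩]
    have h2 : VW.Wm Φ ε K Q (VW.thetaL Φ ε K Q.te l) ≤ Z.Wm Φ ε K Q s +
        ENNReal.ofReal Q.L * lineM Q.γ Q.ρ K Q.te {x |
          (∀ d ∈ E, Z.thetaL Φ ε K Q.te x < Z.thetaL Φ ε K Q.te (ls d)) ∧
          Z.thetaL Φ ε K Q.te x < VW.thetaL Φ ε K Q.te x} := by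
      refine (W_anti hL.le (XRm_mono hle)).trans ?_
      refine W_XRm_le_of_lt hL fun x hx hxs => ?_
      by_contra hlt
      rw [not_le] at hlt
      exact hx ⟨fun d' hd' => hxs.trans_le (hmin d' hd'), hlt⟩
    refine h2.trans (add_le_add ?_ le_rfl)
    rw [← h1, if_pos (hsw.trans_le hst)]
    exact (Finset.single_le_sum (f := fun d => Z.touchW Φ ε K Q (ls d))
      (fun _ _ => zero_le) hd).trans le_self_add

/-- **Pointwise inequality, an exit touches the gas not later than the contact.** -/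
theorem line3alt (hL : 0 < Q.L) {z : PhasePoint × Par P} {m : ℕ} {w : Config m} {l : ML}
    (hθ : cT ε z l ≤ (MW.cfg (Fin.append (cfT Φ ε P z) w)).thetaL Φ ε K Q.te l)
    (h4 : Alt4 Φ ε K Q.te P z w l) :
    (MW.cfg (Fin.append (cfT Φ ε P z) w)).touchW Φ ε K Q l ≤
      (if Q.tw < cT ε z l then exT Φ ε K Q P z w else 0) + exB Φ ε K Q P z w +
        ENNReal.ofReal Q.L * lineM Q.γ Q.ρ K Q.te (NbadE Φ ε K Q.te P z w) := by
  obtain ⟨i, hi, hle⟩ := h4
  have h := alt_MW (Φ := Φ) (ε := ε) (K := K) hL (MW.cfg w) (MW.cfg (Fin.append (cfT Φ ε P z) w))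
    (lineML Φ ε P z) (Finset.univ.filter fun i : Idx P => i ≠ root P) (l := l) hθ
    ⟨i, Finset.mem_filter.2 ⟨Finset.mem_univ _, hi⟩, hle⟩
  refine h.trans (add_le_add le_rfl (mul_le_mul' le_rfl (measure_mono ?_)))
  intro x hx
  exact ⟨fun j hj => hx.1 j (Finset.mem_filter.2 ⟨Finset.mem_univ _, hj⟩), hx.2⟩

/-- The test line is not touched before the contact. -/
theorem Real4.le_thetaL {te : ℝ} {z : PhasePoint × Par P} {m : ℕ} {w : Config m} {l : ML}
    (h : Real4 Φ ε K te T' P z w l) (hΦ : AdmissiblePotential Φ) (hε : 0 < ε) :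
    cT ε z l ≤ (MW.cfg (Fin.append (cfT Φ ε P z) w)).thetaL Φ ε K te l := by
  by_contra hlt
  rw [not_le] at hlt
  have hZ : (MW.cfg (Fin.append (cfT Φ ε P z) w)).Ok Φ ε := Unw410.cfg_ok hΦ hε h.excl
  have hZl := h.ok_ins hΦ hε
  have hte : (0 : ℝ) ≤ te := h.pos.le.trans h.le
  obtain ⟨r, hr, x, k, hc⟩ := MW.exists_contact_le_theta
    (Z := MW.cfg (Fin.append (cfT Φ ε P z) w)) (A := MW.line l) hΦ hε hZ hZl hte
    (K := K) (T := te) (hlt.le.trans h.le) (by simpa [MW.line, MW.lines] using h.mark.2)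
  have hx : x = () := rfl
  subst hx
  exact (h.freeFar hΦ hε).not_C hΦ hε hZ hZl h.birth.le (hr.2.trans_lt hlt) k hc

/-- **Pieces of the majorant of a contact structure** (`majT` and the exits, contact in the
window). -/
def majT4 (Φ : Space3 → ℝ) (ε : ℝ) (K : ℕ) (Q : EPar) (T' : ℝ) (m₀ : ℕ) (bd : SF) (P : CTree)
    (z : PhasePoint × Par P) (m : ℕ) (w : Config m) (l : ML) : ℝ≥0∞ :=
  majT Φ ε K Q T' m₀ bd P z m w l +
    (if P.leaves ≤ m₀ ∧ Sep Φ ε P T' z.1 z.2 ∧ Q.tw < cT ε z l then smI K P l else 0) *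
      (uI Φ ε Q.tw P z w * exT Φ ε K Q P z w)

/-- **Pointwise inequality on real structures.** -/
theorem line3b4 (hΦ : AdmissiblePotential Φ) (hε : 0 < ε) (hL : 0 < Q.L) (m₀ : ℕ) {bd : SF}
    {z : PhasePoint × Par P} {m : ℕ} {w : Config m} {l : ML} (hPK : P.leaves ≤ K)
    (hR : Real4 Φ ε K Q.te T' P z w l)
    (hu : GIV566.unhit Φ ε (ptube Φ ε P z) Q.tw w)
    (hbd : l.2 + P.leaves ≤ K → err4 Φ ε K Q P z w l ≤ bd P z m w l) :
    (MW.cfg (Fin.append (cfT Φ ε P z) w)).touchW Φ ε K Q l ≤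
      majT4 Φ ε K Q T' m₀ bd P z m w l := by
  have hsep := hR.sep
  by_cases hs : l.2 + P.leaves ≤ K
  swap
  · -- size crossing
    refine le_trans ?_ (le_self_add : majT Φ ε K Q T' m₀ bd P z m w l ≤ _)
    exact line3b hΦ hε hL m₀ hPK hsep hu fun h => absurd h hs
  have hb := hbd hs
  unfold err4 at hb
  have huI : uI Φ ε Q.tw P z w = 1 := by
    unfold uI GIV566.unhitInd
    rw [if_pos hu]
  have hsm : smI K P l = 1 := if_pos hs
  have hW1 : (MW.cfg (Fin.append (cfT Φ ε P z) w)).touchW Φ ε K Q l ≤ 1 := touchW_le_one hL.le _ _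
  -- the error piece is a summand of `majT`
  have hE : (1 + ENNReal.ofReal Q.L) * bd P z m w l ≤ majT Φ ε K Q T' m₀ bd P z m w l := by
    unfold majT
    exact le_add_self.trans (le_add_self.trans (le_add_self.trans (le_add_self.trans le_add_self)))
  -- large error
  have hbig : 1 ≤ bd P z m w l → (MW.cfg (Fin.append (cfT Φ ε P z) w)).touchW Φ ε K Q l ≤
      majT4 Φ ε K Q T' m₀ bd P z m w l := by
    intro h1
    refine hW1.trans (le_trans ?_ (hE.trans le_self_add))
    calc (1 : ℝ≥0∞) = 1 * 1 := (one_mul 1).symm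
      _ ≤ _ := mul_le_mul' le_self_add h1
  by_cases hA : Alt4 Φ ε K Q.te P z w l
  · rw [if_pos hA] at hb
    rcases le_total 1 (lineM Q.γ Q.ρ K Q.te (NbadE Φ ε K Q.te P z w)) with hN | hN
    · rw [min_eq_left hN] at hb
      exact hbig hb
    rw [min_eq_right hN] at hb
    refine (line3alt hL (hR.le_thetaL hΦ hε) hA).trans ?_
    have hexB : exB Φ ε K Q P z w + ENNReal.ofReal Q.L *
        lineM Q.γ Q.ρ K Q.te (NbadE Φ ε K Q.te P z w) ≤
        (if 0 < P.leaves ∧ Sep Φ ε P T' z.1 z.2 then smI K P l else 0) *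
          (uI Φ ε Q.tw P z w * exB Φ ε K Q P z w) + (1 + ENNReal.ofReal Q.L) * bd P z m w l := by
      rw [if_pos ⟨leaves_pos P, hsep⟩, huI, hsm, one_mul, one_mul]
      exact add_le_add le_rfl (mul_le_mul' le_add_self hb)
    by_cases hm : m₀ < P.leaves
    · -- large tree: the piece is in `majT`
      have hT : (if Q.tw < cT ε z l then exT Φ ε K Q P z w else 0) ≤
          (if m₀ < P.leaves ∧ Sep Φ ε P T' z.1 z.2 then smI K P l else 0) *
            (uI Φ ε Q.tw P z w * exT Φ ε K Q P z w) := by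
        have e1 : (if m₀ < P.leaves ∧ Sep Φ ε P T' z.1 z.2 then smI K P l else 0) = smI K P l :=
          if_pos ⟨hm, hsep⟩
        rw [e1, huI, hsm, one_mul, one_mul]
        by_cases hc : Q.tw < cT ε z l
        · rw [if_pos hc]
        · rw [if_neg hc]; exact zero_le
      rw [add_assoc]
      refine (add_le_add hT hexB).trans (le_trans ?_ (le_self_add :
        majT Φ ε K Q T' m₀ bd P z m w l ≤ _))
      unfold majT
      refine le_trans ?_ (le_add_self.trans le_add_self)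
      exact add_le_add le_rfl le_add_self
    · have hT : (if Q.tw < cT ε z l then exT Φ ε K Q P z w else 0) ≤
          (if P.leaves ≤ m₀ ∧ Sep Φ ε P T' z.1 z.2 ∧ Q.tw < cT ε z l then smI K P l else 0) *
            (uI Φ ε Q.tw P z w * exT Φ ε K Q P z w) := by
        by_cases hc : Q.tw < cT ε z l
        · rw [if_pos hc, if_pos ⟨not_lt.1 hm, hsep, hc⟩, huI, hsm, one_mul, one_mul]
        · rw [if_neg hc]; exact zero_le
      rw [add_assoc, add_comm]
      refine add_le_add (hexB.trans ?_) hT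
      unfold majT
      exact le_add_self.trans (le_add_self.trans (le_add_self.trans le_add_self))
  · rw [if_neg hA] at hb
    by_cases h4 : Good4 Φ ε K Q.te P z w l
    · rw [if_pos h4] at hb
      rcases le_total 1 (lineM Q.γ Q.ρ K Q.te (Nbad4 Φ ε K Q.te P z w l)) with hN | hN
      · rw [min_eq_left hN] at hb
        exact hbig hb
      rw [min_eq_right hN] at hb
      refine le_trans ?_ (le_self_add : majT Φ ε K Q T' m₀ bd P z m w l ≤ _)
      refine line3b hΦ hε hL m₀ hPK hsep hu fun _ => ?_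
      rw [if_pos h4]
      exact hb
    · rw [if_neg h4] at hb
      exact hbig hb

end Crest.Agent.R122.OneC285

end
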