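import Crest.Agent.R122.PairDefs_292

/-!
# Inequality 3 of section E (row 122, board H4), helper292: split by the first contact

* `tPK_le_one`, `tPK_eq_zero` : no contact of the free second line with `w + d` up to `te` : no touch.
* `tPK_split` : `tPK ≤ direct + bad + clean`.
-/

set_option autoImplicit false
set_option linter.unusedSectionVars false

open MeasureTheory Set Filter
open scoped ENNReal Classical Topology
open Crest.AnalysisR.Kinetic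
open Crest.Agent.R122.GC311 Crest.Agent.R122.Flow671
open Crest.Agent.R122.EDefs602 Crest.Agent.R122.Direct658
open Crest.Agent.R122.Boost969 (LSt posAt)
open Crest.Agent.R122.Pair292 (Lab CDat PPar PX sig)
open Crest.Agent.R122.OneC285 (lpos)

noncomputable section

namespace Crest.Agent.R122.PairD292

variable {Φ : Space3 → ℝ} {ε T : ℝ} {K : ℕ} {Q : EPar}

section world

variable {ι : Type} [Fintype ι] {Z : MW ι} {l : ML}

theorem fpos_eq_lpos (l : ML) (s : ℝ) : fpos l s = lpos l s := rfl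

theorem not_ctL_of_lt {s : ℝ} (hs : s < mT2 Φ ε T Z l) (hT : s ≤ T) (i : ι) :
    ¬ CtL Φ ε Z l s i := by
  intro hc
  unfold mT2 MeasE416.first at hs
  have hex : ∃ s ∈ Icc l.1.1 T, ∃ i, CtL Φ ε Z l s i := ⟨s, ⟨hc.2.1, hT⟩, i, hc⟩
  rw [if_pos hex] at hs
  have hbd : BddBelow {s | s ∈ Icc l.1.1 T ∧ ∃ i, CtL Φ ε Z l s i} := ⟨l.1.1, fun s hs => hs.1.1⟩
  exact absurd (csInf_le hbd ⟨⟨hc.2.1, hT⟩, i, hc⟩) (not_le.2 hs)

/-- Far before the first contact. -/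
theorem far_of_lt_mT2 {s₁ : ℝ} (h1 : s₁ ≤ mT2 Φ ε T Z l) (hT : s₁ ≤ T) :
    ∀ s k, l.1.1 ≤ s → s < s₁ → Z.b k ≤ s → (Z.b k < s ∨ l.1.1 < s) →
      ε < dist (fpos l s) (Z.path Φ ε s k).1 := by
  intro s k hls hs hb hb'
  by_contra hc
  exact not_ctL_of_lt (Φ := Φ) (ε := ε) (T := T) (Z := Z) (l := l) (hs.trans_le h1)
    (hs.le.trans hT) k ⟨hb, hls, hb', not_lt.1 hc⟩

/-- **No contact of the free line up to the horizon: no touch.** -/
theorem lt_thetaL_of_lt_mT2 (hΦ : AdmissiblePotential Φ) (hε : 0 < ε) (hZ : Z.Ok Φ ε)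
    (hZl : (Z.ins l).Ok Φ ε) (hb : 0 ≤ l.1.1) (hm : l.2 ≤ K) (hT0 : 0 ≤ T)
    (h : T < mT2 Φ ε T Z l) : T < Z.thetaL Φ ε K T l := by
  by_contra hle
  push Not at hle
  obtain ⟨r, hr, x, k, hc⟩ := MW.exists_contact_le_theta (Z := Z) (A := MW.line l) hΦ hε hZ hZl hT0
    (K := K) (T := T) hle (by simpa [MW.line, MW.lines] using hm)
  have hrT : r ≤ T := hr.2.trans hle
  have hx : x = () := rfl
  subst hx
  have hno := no_contact_of_far hΦ hε hZ hZl hb (far_of_lt_mT2 (s₁ := T) h.le le_rfl)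
  rcases lt_or_eq_of_le hrT with h1 | h1
  · exact hno r k h1 hc
  · have h2 := ins_agree hΦ hε hZ hZl hno (t := r) ⟨hr.1, hrT⟩ k
    have h3 := ins_free hΦ hε hZl hno (t := r) ⟨hr.1, hrT⟩
    obtain ⟨hc1, hc2, hc3, hc4⟩ := hc
    have hc4' : dist ((Z.ins l).path Φ ε r (Sum.inr ())).1 ((Z.ins l).path Φ ε r (Sum.inl k)).1 ≤ ε :=
      hc4
    rw [h3, ← h2] at hc4'
    refine not_ctL_of_lt (Φ := Φ) (ε := ε) (T := T) (Z := Z) (l := l) (hrT.trans_lt h) hrT k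
      ⟨hc2, hc1, ?_, hc4'⟩
    rcases hc3 with hc3 | hc3 | hc3
    · cases hc3
    · exact Or.inr hc3
    · exact Or.inl hc3

end world

/-! ## The pair functional -/

variable {n : ℕ} {w : Config n} {θ : Lab × LSt}

theorem tPK_le_one (hL : 0 ≤ Q.L) : tPK Φ ε K Q w θ ≤ 1 := by
  unfold tPK MW.touchP MW.W
  split_ifs
  · exact (min_le_left _ _).trans (Weight984.W_le_one hL _)
  · exact zero_le
  · exact zero_le

theorem t1_of_tPK_ne_zero (h : tPK Φ ε K Q w θ ≠ 0) : T1 Φ ε K Q w θ := by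
  unfold tPK MW.touchP at h
  split_ifs at h with h1 h2
  · exact ⟨h2.1, h2.2.1.trans h2.2.2⟩
  · exact absurd rfl h
  · exact absurd rfl h

theorem okL_of_tPK_ne_zero (h : tPK Φ ε K Q w θ ≠ 0) : OkL K θ := by
  unfold tPK at h
  split_ifs at h with h1
  · exact h1
  · exact absurd rfl h

/-- No contact of the free second line with `w + d` up to `te`: no touch. -/
theorem tPK_eq_zero (hΦ : AdmissiblePotential Φ) (hε : 0 < ε) (hQ : 0 ≤ Q.te)
    (hok : OkL K θ → OkW Φ ε w θ) (h : Q.te < tC Φ ε Q.te w θ) : tPK Φ ε K Q w θ = 0 := by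
  by_contra hne
  have hL := okL_of_tPK_ne_zero hne
  have hW := hok hL
  have h1 : Q.te < (Zd w θ).thetaL Φ ε K Q.te (eL θ) :=
    lt_thetaL_of_lt_mT2 hΦ hε hW.1 hW.2 hL.e0.le hL.eK hQ h
  apply hne
  unfold tPK
  rw [if_pos hL]
  unfold MW.touchP
  rw [if_neg]
  rintro ⟨_, _, h2⟩
  exact absurd h2 (not_le.2 h1)

/-- **Split by the first contact.** -/
theorem tPK_split (hΦ : AdmissiblePotential Φ) (hε : 0 < ε) (hQ : 0 ≤ Q.te) (hQL : 0 ≤ Q.L)
    (hok : OkL K θ → OkW Φ ε w θ) :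
    tPK Φ ε K Q w θ ≤
      (∑ i : Fin n, (if (clM2 Φ ε K Q.te n w i θ).Nonempty then tPK Φ ε K Q w θ else 0)) +
      ((if OkW Φ ε w θ ∧ (DMeet2 Φ ε K Q.te (Zd w θ) (eL θ) ∨
        (tC Φ ε Q.te w θ ≤ Q.te ∧
          (MW.cfg w).thetaL Φ ε K Q.te (dL θ) ≤ tC Φ ε Q.te w θ + slk ε)) then
        tPK Φ ε K Q w θ else 0) +
      (if OkL K θ ∧ OkW Φ ε w θ ∧ T1 Φ ε K Q w θ ∧ BMeet2 Φ ε K Q.te w θ ∧
        tC Φ ε Q.te w θ + slk ε < (MW.cfg w).thetaL Φ ε K Q.te (dL θ) then 1 else 0)) := by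
  by_cases h0 : tPK Φ ε K Q w θ = 0
  · rw [h0]; exact zero_le
  have hL := okL_of_tPK_ne_zero h0
  have hW := hok hL
  have hT := t1_of_tPK_ne_zero h0
  have htC : tC Φ ε Q.te w θ ≤ Q.te := by
    by_contra hlt
    exact h0 (tPK_eq_zero hΦ hε hQ hok (not_le.1 hlt))
  by_cases hD : DMeet2 Φ ε K Q.te (Zd w θ) (eL θ) ∨ (tC Φ ε Q.te w θ ≤ Q.te ∧
      (MW.cfg w).thetaL Φ ε K Q.te (dL θ) ≤ tC Φ ε Q.te w θ + slk ε)
  · rw [if_pos (show OkW Φ ε w θ ∧ (DMeet2 Φ ε K Q.te (Zd w θ) (eL θ) ∨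
      (tC Φ ε Q.te w θ ≤ Q.te ∧
        (MW.cfg w).thetaL Φ ε K Q.te (dL θ) ≤ tC Φ ε Q.te w θ + slk ε)) from ⟨hW, hD⟩)]
    exact le_add_self.trans' le_self_add
  push Not at hD
  have hth := hD.2 htC
  by_cases hC : ∃ i, CMeet2 Φ ε K Q.te w θ i
  · obtain ⟨i, hi⟩ := hC
    have hne : (clM2 Φ ε K Q.te n w i θ).Nonempty := by
      unfold clM2
      rw [if_pos (show CMeet2 Φ ε K Q.te w θ i ∧ tC Φ ε Q.te w θ + slk ε <
        (MW.cfg w).thetaL Φ ε K Q.te (dL θ) from ⟨hi, hth⟩)]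
      exact ⟨i, by simp [preC]⟩
    refine le_trans ?_ le_self_add
    refine le_trans ?_ (Finset.single_le_sum (f := fun i : Fin n =>
      if (clM2 Φ ε K Q.te n w i θ).Nonempty then tPK Φ ε K Q w θ else 0)
      (fun _ _ => zero_le) (Finset.mem_univ i))
    simp only [if_pos hne]
    exact le_rfl
  · have hB : BMeet2 Φ ε K Q.te w θ := ⟨htC, hD.1, fun i hi => hC ⟨i, hi⟩⟩
    rw [if_pos (show OkL K θ ∧ OkW Φ ε w θ ∧ T1 Φ ε K Q w θ ∧ BMeet2 Φ ε K Q.te w θ ∧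
      tC Φ ε Q.te w θ + slk ε < (MW.cfg w).thetaL Φ ε K Q.te (dL θ) from
      ⟨hL, hW, hT, hB, hth⟩)]
    exact (tPK_le_one hQL).trans (le_add_self.trans' le_add_self)

end Crest.Agent.R122.PairD292

end
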