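import Crest.Agent.R122.RtGDet_302

/-!
# A touch of a tree cluster is a touch of an exit line (row 122, request of helper335), helper302

* `sub P x` : the particles below the node at which `x` is released; `card_sub : card = TreeLines335.mk P x`.
* `tree_past` : the pasts of the protected members of a tree, at their release times, consist of the
  particles below their last node (`Sep`).
* `past_vis` : pasts in the real world and in the world with exit lines.
* `msize_le` : sizes in the real world are at most the marked sizes in the world with exit lines.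
* `Strict.touched` : `cfg V` has touched `cfg w`: the exit lines born before have touched it.
* `Cut.exit_of_touched` : the result for trees.
-/

set_option autoImplicit false
set_option linter.unusedSectionVars false

open MeasureTheory Set Filter Topology
open Crest.AnalysisR.Kinetic
open Crest.Agent.R122.Flow671 Crest.Agent.R122.Loc45 Crest.Agent.R122.Ins45
open Crest.Agent.R122.Causal291 Crest.Agent.R122.Inf879 Crest.Agent.R122.EDefs602
open Crest.Agent.R122.Kin796 Crest.Agent.R122.Kin796.CTree Crest.Agent.R122.Tree674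
open Crest.Agent.R122.PathFlow968 Crest.Agent.R122.TreeLines335
open Crest.Agent.R122.Decomp811 Crest.Agent.R122.MWAlg255 Crest.Agent.R122.GIV566

namespace Crest.Agent.R122.RtG302

noncomputable section

open scoped Classical

/-! ### The particles below the last node -/

/-- The particles below the node at which `x` is released. -/
def sub' : ∀ P : CTree, Idx P → Finset (Idx P)
  | leaf => fun _ => Finset.univ
  | node l r => Sum.elim
      (fun i => if i = root l then Finset.univ else (sub' l i).map Function.Embedding.inl)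
      (fun i => if i = root r then Finset.univ else (sub' r i).map Function.Embedding.inr)

theorem card_idx : ∀ P : CTree, Fintype.card (Idx P) = P.leaves
  | leaf => rfl
  | node l r => by
      have h1 : Fintype.card (Idx (node l r)) = Fintype.card (Idx l ⊕ Idx r) := rfl
      rw [h1, Fintype.card_sum, card_idx l, card_idx r]
      rfl

theorem card_sub' : ∀ (P : CTree) (x : Idx P), (sub' P x).card = TreeLines335.mk P x
  | leaf, _ => by simp only [sub', TreeLines335.mk, Finset.card_univ]; exact card_idx leaf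
  | node l r, Sum.inl i => by
      by_cases hi : i = root l
      · simp only [sub', TreeLines335.mk, Sum.elim_inl, if_pos hi, Finset.card_univ]
        exact card_idx (node l r)
      · simp only [sub', TreeLines335.mk, Sum.elim_inl, if_neg hi, Finset.card_map]
        exact card_sub' l i
  | node l r, Sum.inr i => by
      by_cases hi : i = root r
      · simp only [sub', TreeLines335.mk, Sum.elim_inr, if_pos hi, Finset.card_univ]
        exact card_idx (node l r)
      · simp only [sub', TreeLines335.mk, Sum.elim_inr, if_neg hi, Finset.card_map]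
        exact card_sub' r i

theorem mk_le : ∀ (P : CTree) (x : Idx P), TreeLines335.mk P x ≤ P.leaves := fun P x => by
  rw [← card_sub', ← card_idx]
  exact Finset.card_le_univ _

section past

variable {κ : Type} {Φ : Space3 → ℝ} {ε : ℝ}

/-- The protected legs of a tree have contacts only among themselves up to time `S`. -/
def Closed (Φ : Space3 → ℝ) (ε : ℝ) (C : ℝ → κ → κ → Prop) (P : CTree) (T : ℝ)
    (z : PhasePoint × Par P) (e : Idx P → κ) (S : ℝ) : Prop :=
  ∀ y s q, 0 ≤ s → s ≤ S → s ≤ prot P T z.2 y → C s (e y) q →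
    ∃ y', q = e y' ∧ s ≤ prot P T z.2 y' ∧
      dist (path Φ ε P z.1 z.2 s y).1 (path Φ ε P z.1 z.2 s y').1 ≤ ε

theorem Closed.past {C : ℝ → κ → κ → Prop} {P : CTree} {T : ℝ} {z : PhasePoint × Par P}
    {e : Idx P → κ} {S : ℝ} (h : Closed Φ ε C P T z e S) {t : ℝ} (htS : t ≤ S) {x : Idx P}
    (hx : t ≤ prot P T z.2 x) {s : ℝ} {q : κ} (hs : 0 ≤ s) (hp : Past C t (e x) s q) :
    ∃ y, q = e y ∧ s ≤ prot P T z.2 y := by
  revert hs
  induction hp with
  | @root s hst => exact fun _ => ⟨x, rfl, hst.trans hx⟩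
  | @step s s' j k hj hc hss ih =>
    intro hs
    obtain ⟨y, rfl, hy⟩ := ih (hs.trans hss)
    obtain ⟨y', rfl, hy', _⟩ := h y s' k (hs.trans hss) (hj.le.trans htS) hy hc
    exact ⟨y', rfl, hss.trans hy'⟩

theorem tree_past (hε : 0 < ε) {C : ℝ → κ → κ → Prop} : ∀ (P : CTree) (T : ℝ)
    (z : PhasePoint × Par P) (e : Idx P → κ) (S : ℝ), Valid Φ ε P T z.1.2 z.2 →
      Sep Φ ε P T z.1 z.2 → Closed Φ ε C P T z e S → ∀ x, TreeLines335.rel P z.2 x ≤ S → 0 < T →
        ∀ s q, 0 ≤ s → Past C (TreeLines335.rel P z.2 x) (e x) s q → ∃ y ∈ sub' P x, q = e y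
  | leaf, T, z, e, S, hV, hS, hC, x, hx, hT, s, q, hs, hp => by
      obtain ⟨y, rfl, _⟩ := hC.past hx (x := x) hT.le hs hp
      exact ⟨y, Finset.mem_univ _, rfl⟩
  | node l r, T, z, e, S, hV, hS, hC, Sum.inl i, hx, hT, s, q, hs, hp => by
      by_cases hi : i = root l
      · have hrel : TreeLines335.rel (node l r) z.2 (Sum.inl i) = z.2.1.1 := by
          simp only [TreeLines335.rel, Sum.elim_inl, if_pos hi]
        rw [hrel] at hx hp
        have hpr : z.2.1.1 ≤ prot (node l r) T z.2 (Sum.inl i) := by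
          subst hi
          change _ ≤ prot l T z.2.2.1 (root l)
          rw [PathFlow968.prot_root]
          exact hV.2.1.le
        obtain ⟨y, rfl, _⟩ := hC.past hx (x := Sum.inl i) hpr hs hp
        refine ⟨y, ?_, rfl⟩
        simp [sub', hi]
      · have hrel : TreeLines335.rel (node l r) z.2 (Sum.inl i) =
            TreeLines335.rel l z.2.2.1 i := by
          simp only [TreeLines335.rel, Sum.elim_inl, if_neg hi]
        rw [hrel] at hx hp
        have hsin : 0 < Tree674.sin Φ ε z.1.2 z.2.1 := hV.2.2.1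
        have hlt := rel_lt hε.le hsin (Valid.left hV).2 i
        have hsT : Tree674.sin Φ ε z.1.2 z.2.1 < T := Valid.sin_lt hε.le hV
        have ih := tree_past hε (C := C) l (Tree674.sin Φ ε z.1.2 z.2.1)
          ((inMap Φ ε z.1 z.2.1).1, z.2.2.1) (fun y => e (Sum.inl y))
          (TreeLines335.rel l z.2.2.1 i) (Valid.left hV) (Sep.left hε.le hV hS) ?_ i le_rfl hsin
          s q hs hp
        · obtain ⟨y, hy, rfl⟩ := ih
          refine ⟨Sum.inl y, ?_, rfl⟩
          simp only [sub', Sum.elim_inl, if_neg hi]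
          exact Finset.mem_map_of_mem _ hy
        · intro y s q hs0 hsS hsy hc
          have hss : s ≤ Tree674.sin Φ ε z.1.2 z.2.1 := hsS.trans hlt.le
          have hy1 : s ≤ prot (node l r) T z.2 (Sum.inl y) :=
            (show s ≤ prot l (Tree674.sin Φ ε z.1.2 z.2.1) z.2.2.1 y from hsy).trans
              (prot_mono l hsT.le z.2.2.1 y)
          obtain ⟨y', rfl, hy', hd⟩ := hC (Sum.inl y) s q hs0 (hsS.trans hx) hy1 hc
          rcases y' with y' | y'
          · refine ⟨y', rfl, ?_, ?_⟩
            · by_cases hr : y' = root l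
              · subst hr
                change s ≤ prot l _ z.2.2.1 (root l)
                rw [PathFlow968.prot_root]
                exact hss
              · change s ≤ prot l (Tree674.sin Φ ε z.1.2 z.2.1) z.2.2.1 y'
                rw [prot_eq_of_ne l _ T z.2.2.1 hr]
                exact hy'
            · rw [path_node_before z.1 z.2 hss] at hd
              exact hd
          · exfalso
            refine absurd hd (not_le.2 (hS (Sum.inl y) (Sum.inr y') (by simp) s
              ⟨hs0, hss.trans hsT.le⟩ ?_ ?_))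
            · rintro (⟨_, _, h1, _⟩ | ⟨i', j', h1, h2, _⟩ | ⟨i', j', h1, h2, _⟩)
              · exact absurd (hsS.trans_lt hlt) (not_lt.2 h1)
              · cases h2
              · cases h1
            · rintro (⟨h1, _⟩ | ⟨i', j', h1, h2, _⟩ | ⟨i', j', h1, h2, _⟩)
              · cases h1
              · cases h1
              · cases h2
  | node l r, T, z, e, S, hV, hS, hC, Sum.inr i, hx, hT, s, q, hs, hp => by
      by_cases hi : i = root r
      · have hrel : TreeLines335.rel (node l r) z.2 (Sum.inr i) = z.2.1.1 := by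
          simp only [TreeLines335.rel, Sum.elim_inr, if_pos hi]
        rw [hrel] at hx hp
        have hpr : z.2.1.1 ≤ prot (node l r) T z.2 (Sum.inr i) := by
          subst hi
          change _ ≤ prot r z.2.1.1 z.2.2.2 (root r)
          rw [PathFlow968.prot_root]
        obtain ⟨y, rfl, _⟩ := hC.past hx (x := Sum.inr i) hpr hs hp
        refine ⟨y, ?_, rfl⟩
        simp [sub', hi]
      · have hrel : TreeLines335.rel (node l r) z.2 (Sum.inr i) =
            TreeLines335.rel r z.2.2.2 i := by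
          simp only [TreeLines335.rel, Sum.elim_inr, if_neg hi]
        rw [hrel] at hx hp
        have hsin : 0 < Tree674.sin Φ ε z.1.2 z.2.1 := hV.2.2.1
        have hlt := rel_lt hε.le hsin (Valid.right hV).2 i
        have hsT : Tree674.sin Φ ε z.1.2 z.2.1 < T := Valid.sin_lt hε.le hV
        have hsx : Tree674.sin Φ ε z.1.2 z.2.1 ≤ z.2.1.1 := sin_le hε.le _ _
        have ih := tree_past hε (C := C) r (Tree674.sin Φ ε z.1.2 z.2.1)
          ((inMap Φ ε z.1 z.2.1).2, z.2.2.2) (fun y => e (Sum.inr y))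
          (TreeLines335.rel r z.2.2.2 i) (Valid.right hV) (Sep.right hε.le hV hS) ?_ i le_rfl hsin
          s q hs hp
        · obtain ⟨y, hy, rfl⟩ := ih
          refine ⟨Sum.inr y, ?_, rfl⟩
          simp only [sub', Sum.elim_inr, if_neg hi]
          exact Finset.mem_map_of_mem _ hy
        · intro y s q hs0 hsS hsy hc
          have hss : s ≤ Tree674.sin Φ ε z.1.2 z.2.1 := hsS.trans hlt.le
          have hy1 : s ≤ prot (node l r) T z.2 (Sum.inr y) :=
            (show s ≤ prot r (Tree674.sin Φ ε z.1.2 z.2.1) z.2.2.2 y from hsy).trans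
              (prot_mono r hsx z.2.2.2 y)
          obtain ⟨y', rfl, hy', hd⟩ := hC (Sum.inr y) s q hs0 (hsS.trans hx) hy1 hc
          rcases y' with y' | y'
          · exfalso
            refine absurd hd (not_le.2 (hS (Sum.inr y) (Sum.inl y') (by simp) s
              ⟨hs0, hss.trans hsT.le⟩ ?_ ?_))
            · rintro (⟨h1, _⟩ | ⟨i', j', h1, h2, _⟩ | ⟨i', j', h1, h2, _⟩)
              · cases h1
              · cases h1
              · cases h2
            · rintro (⟨_, _, h1, _⟩ | ⟨i', j', h1, h2, _⟩ | ⟨i', j', h1, h2, _⟩)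
              · exact absurd (hsS.trans_lt hlt) (not_lt.2 h1)
              · cases h2
              · cases h1
          · refine ⟨y', rfl, ?_, ?_⟩
            · by_cases hr : y' = root r
              · subst hr
                change s ≤ prot r _ z.2.2.2 (root r)
                rw [PathFlow968.prot_root]
                exact hss
              · change s ≤ prot r (Tree674.sin Φ ε z.1.2 z.2.1) z.2.2.2 y'
                rw [prot_eq_of_ne r _ z.2.1.1 z.2.2.2 hr]
                exact hy'
            · rw [path_node_before z.1 z.2 hss] at hd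
              exact hd

end past

/-! ### Pasts and sizes in the real world and in the world with exit lines -/

section world

variable {κ' Ex κ : Type} [Fintype κ'] [Fintype Ex] [Fintype κ]
variable {Φ : Space3 → ℝ} {ε v : ℝ} {K : ℕ} {G : Str κ' Ex} {m : ℕ} {X : κ → PhasePoint}
  {e : κ' → κ} {g : Fin m → κ}

/-- Contact relation of the real world, all particles born at time `0`. -/
def CX (Φ : Space3 → ℝ) (ε : ℝ) (X : κ → PhasePoint) : ℝ → κ → κ → Prop :=
  CtB (fun _ => (0 : ℝ)) (pth Φ ε X) ε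

/-- Protected legs are at distance more than `ε` from all unprotected particles up to and including
time `v`. -/
def Strict (Φ : Space3 → ℝ) (ε : ℝ) (G : Str κ' Ex) (v : ℝ) (X : κ → PhasePoint) (e : κ' → κ) :
    Prop :=
  ∀ s ∈ Icc 0 v, ∀ x, s ≤ G.σ x → ∀ q, (∀ y, e y = q → G.σ y < s) →
    ε < dist (pth Φ ε X s (e x)).1 (pth Φ ε X s q).1

/-- Visible labels at time `s`: particles of the gas and exit lines born before `s`. -/
def vis (G : Str κ' Ex) (v : ℝ) (s : ℝ) : Fin m ⊕ G.born v → Prop
  | Sum.inl _ => True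
  | Sum.inr x => G.σ (G.j x) < s

theorem Strict.contact (h : Strict Φ ε G v X e) {s : ℝ} (hs : s ∈ Icc 0 v) {x : κ'}
    (hx : s ≤ G.σ x) {q : κ} (hc : CX Φ ε X s (e x) q) : ∃ y, e y = q ∧ s ≤ G.σ y := by
  by_contra hno
  push Not at hno
  exact absurd hc.2.2.2 (not_le.2 (h s hs x hx q hno))

theorem wL_contact (hΦ : AdmissiblePotential Φ) (hε : 0 < ε) (h : Shadow Φ ε G v X e g)
    (hv : 0 ≤ v)
    (hOk : BWorld Φ ε (G.wL v fun i => X (g i)).b 0 ((G.wL v fun i => X (g i)).path Φ ε))
    {s : ℝ} (hs : s ∈ Icc 0 v) {a b : Fin m ⊕ G.born v} (ha : vis G v s a) (hb : vis G v s b)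
    (hc : CX Φ ε X s (G.lab v e g a) (G.lab v e g b)) :
    (G.wL v fun i => X (g i)).C Φ ε s a b := by
  have hpath : ∀ a, vis G v s a →
      (G.wL v fun i => X (g i)).path Φ ε s a = pth Φ ε X s (G.lab v e g a) := by
    rintro (a | a) ha
    · exact h.path_eq hΦ hε hv hOk hs a
    · exact h.path_eq_exit hΦ hε hv hOk hs a (le_of_lt ha)
  have hbirth : ∀ a, vis G v s a → (G.wL v fun i => X (g i)).b a ≤ s := by
    rintro (a | a) ha
    · exact hs.1
    · change (G.ls a).1.1 ≤ s
      rw [G.birth]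
      exact le_of_lt ha
  have hbirth' : ∀ a : G.born v, vis (m := m) G v s (Sum.inr a) →
      (G.wL v fun i => X (g i)).b (Sum.inr a) < s := by
    intro a ha
    change (G.ls a).1.1 < s
    rw [G.birth]
    exact ha
  refine ⟨hbirth a ha, hbirth b hb, ?_, ?_⟩
  · rcases a with a | a
    · rcases b with b | b
      · rcases hc.2.2.1 with h1 | h1 | h1
        · exact Or.inl (congrArg Sum.inl (h.g_inj h1))
        · exact Or.inr (Or.inl h1)
        · exact Or.inr (Or.inl h1)
      · exact Or.inr (Or.inr (hbirth' b hb))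
    · exact Or.inr (Or.inl (hbirth' a ha))
  · rw [hpath a ha, hpath b hb]
    exact hc.2.2.2

/-- **Pasts in the real world.** -/
theorem past_vis (hΦ : AdmissiblePotential Φ) (hε : 0 < ε) (h : Shadow Φ ε G v X e g)
    (hv : 0 ≤ v) (hst : Strict Φ ε G v X e)
    (hOk : BWorld Φ ε (G.wL v fun i => X (g i)).b 0 ((G.wL v fun i => X (g i)).path Φ ε))
    {t : ℝ} (ht : t ≤ v) {a₀ : Fin m ⊕ G.born v} (ha₀ : vis G v t a₀) {s : ℝ} {q : κ}
    (hp : Past (CX Φ ε X) t (G.lab v e g a₀) s q) (hs : 0 ≤ s) :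
    (∃ a, q = G.lab v e g a ∧ vis G v s a ∧
      Past ((G.wL v fun i => X (g i)).C Φ ε) t a₀ s a) ∨
    (∃ y, ∃ x : G.born v, q = e y ∧ s ≤ G.σ y ∧
      Past ((G.wL v fun i => X (g i)).C Φ ε) t a₀ (G.σ (G.j x)) (Sum.inr x) ∧
      Past (CX Φ ε X) (G.σ (G.j x)) (e (G.j x)) s q) := by
  induction hp with
  | @root s hst' =>
    rcases a₀ with i | x
    · exact Or.inl ⟨Sum.inl i, rfl, trivial, Past.root hst'⟩
    · by_cases hx : G.σ (G.j x) < s
      · exact Or.inl ⟨Sum.inr x, rfl, hx, Past.root hst'⟩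
      · push Not at hx
        exact Or.inr ⟨G.j x, x, rfl, hx, Past.root (le_of_lt ha₀), Past.root hx⟩
  | @step s s' j k hj hc hss ih =>
    have hs' : 0 ≤ s' := hs.trans hss
    have hs'v : s' ∈ Icc 0 v := ⟨hs', hj.le.trans ht⟩
    rcases ih hs' with ⟨a, rfl, ha, hpa⟩ | ⟨y, x, rfl, hy, hpx, hpy⟩
    · rcases h.cover k with ⟨y, rfl⟩ | ⟨i, rfl⟩
      · by_cases hy : G.σ y < s'
        · obtain ⟨x, rfl⟩ := h.exits y (hy.trans_le hs'v.2)
          have hxb : x ∈ G.born v := Str.mem_born.2 (hy.trans_le hs'v.2)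
          have hC : (G.wL v fun i => X (g i)).C Φ ε s' a (Sum.inr ⟨x, hxb⟩) :=
            wL_contact hΦ hε h hv hOk hs'v ha hy hc
          by_cases hys : G.σ (G.j x) < s
          · exact Or.inl ⟨Sum.inr ⟨x, hxb⟩, rfl, hys, Past.step hpa hC hss⟩
          · push Not at hys
            exact Or.inr ⟨G.j x, ⟨x, hxb⟩, rfl, hys, Past.step hpa hC hy.le, Past.root hys⟩
        · exfalso
          push Not at hy
          obtain ⟨y', hy', hy2⟩ := hst.contact hs'v hy hc.symm
          rcases a with a | a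
          · exact h.disj y' a hy'
          · have : y' = G.j a := h.e_inj hy'
            subst this
            exact absurd ha (not_lt.2 hy2)
      · refine Or.inl ⟨Sum.inl i, rfl, trivial, Past.step hpa ?_ hss⟩
        exact wL_contact (b := Sum.inl i) hΦ hε h hv hOk hs'v ha trivial hc
    · obtain ⟨y', rfl, hy'⟩ := hst.contact hs'v hy hc
      exact Or.inr ⟨y', x, rfl, hss.trans hy', hpx, Past.step hpy hc hss⟩

/-- **Sizes in the real world** are at most marked sizes in the world with exit lines. -/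
theorem msize_le (hΦ : AdmissiblePotential Φ) (hε : 0 < ε) (h : Shadow Φ ε G v X e g)
    (hv : 0 ≤ v) (hst : Strict Φ ε G v X e)
    (hOk : BWorld Φ ε (G.wL v fun i => X (g i)).b 0 ((G.wL v fun i => X (g i)).path Φ ε))
    (hmk : ∀ x : G.born v,
      {q | Past (CX Φ ε X) (G.σ (G.j x)) (e (G.j x)) 0 q}.ncard ≤ (G.ls x).2)
    {t : ℝ} (ht : t ≤ v) {a₀ : Fin m ⊕ G.born v} (ha₀ : vis G v t a₀) :
    msize (CX Φ ε X) (fun _ => 1) t (G.lab v e g a₀) ≤
      msize ((G.wL v fun i => X (g i)).C Φ ε) (G.wL v fun i => X (g i)).m t a₀ := by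
  set W := G.wL v fun i => X (g i) with hW
  set CW := W.C Φ ε with hCW
  have hsub : BC (CX Φ ε X) t (G.lab v e g a₀) ⊆
      ((Finset.univ.filter fun i : Fin m => (Sum.inl i : Fin m ⊕ G.born v) ∈ BC CW t a₀).image g ∪
        (Finset.univ.filter fun x : G.born v =>
          (Sum.inr x : Fin m ⊕ G.born v) ∈ BC CW t a₀).biUnion fun x =>
            (Finset.univ.filter fun q => Past (CX Φ ε X) (G.σ (G.j x)) (e (G.j x)) 0 q) :
              Finset κ) := by
    intro q hq
    rw [Finset.coe_union, mem_union, Finset.mem_coe, Finset.mem_coe, Finset.mem_image,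
      Finset.mem_biUnion]
    rcases past_vis hΦ hε h hv hst hOk ht ha₀ hq le_rfl with ⟨a, rfl, ha, hp⟩ |
      ⟨y, x, rfl, hy, hpx, hpy⟩
    · rcases a with i | x
      · exact Or.inl ⟨i, Finset.mem_filter.2 ⟨Finset.mem_univ _, hp⟩, rfl⟩
      · exact absurd (G.nonneg (G.j x)) (not_le.2 ha)
    · exact Or.inr ⟨x, Finset.mem_filter.2 ⟨Finset.mem_univ _, hpx.mono (G.nonneg _)⟩,
        Finset.mem_filter.2 ⟨Finset.mem_univ _, hpy⟩⟩
  rw [msize_one]
  refine (Set.ncard_le_ncard hsub (Finset.finite_toSet _)).trans ?_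
  rw [Set.ncard_coe_finset]
  refine (Finset.card_union_le _ _).trans ?_
  have h1 : msize CW W.m t a₀ =
      (Finset.univ.filter fun i : Fin m => (Sum.inl i : Fin m ⊕ G.born v) ∈ BC CW t a₀).card +
        ∑ x ∈ Finset.univ.filter (fun x : G.born v =>
          (Sum.inr x : Fin m ⊕ G.born v) ∈ BC CW t a₀), (G.ls x).2 := by
    unfold msize
    rw [Fintype.sum_sum_type, Finset.card_filter, Finset.sum_filter]
    rfl
  rw [h1]
  refine add_le_add Finset.card_image_le (Finset.card_biUnion_le.trans ?_)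
  refine Finset.sum_le_sum fun x _ => ?_
  refine le_trans (le_of_eq ?_) (hmk x)
  rw [← Set.ncard_coe_finset]
  congr 1
  ext q
  simp

end world

/-! ### Touches -/

section touch

variable {κ' Ex : Type} [Fintype κ'] [Fintype Ex]
variable {Φ : Space3 → ℝ} {ε v u₀ : ℝ} {K : ℕ} {G : Str κ' Ex} {m k : ℕ} {w : Config m}
  {V : Config k} {e : κ' → Fin k}

theorem path_of_zero {ι : Type} [Fintype ι] (hΦ : AdmissiblePotential Φ) (hε : 0 < ε) (Z : MW ι)
    (hb : Z.b = fun _ => 0) : Z.path Φ ε = pth Φ ε Z.z := by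
  funext t
  have h1 : alive Z.b (0 : ℝ) = Finset.univ := by
    ext i
    simp [hb]
  have h2 := evoN_of_no_birth (Φ := Φ) (ε := ε) Z.b (Fintype.card ι) (s := 0)
    (t := t) Z.z fun i hi => absurd hi (by rw [hb]; exact lt_irrefl _)
  unfold MW.path evo
  rw [h2, h1, flowA_univ hΦ hε, sub_zero]
  rfl

theorem add_cfg_b : ((MW.cfg w).add (MW.cfg V)).b = fun _ => 0 := by
  funext x; rcases x with x | x <;> rfl

theorem add_cfg_m : ((MW.cfg w).add (MW.cfg V)).m = fun _ => 1 := by
  funext x; rcases x with x | x <;> rfl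

theorem add_cfg_C (hΦ : AdmissiblePotential Φ) (hε : 0 < ε) :
    ((MW.cfg w).add (MW.cfg V)).C Φ ε = CX Φ ε (Sum.elim w V) := by
  unfold MW.C CX
  rw [path_of_zero hΦ hε _ add_cfg_b, add_cfg_b]
  rfl

theorem touched_exits (hΦ : AdmissiblePotential Φ) (hε : 0 < ε)
    (h : Shadow Φ ε G v (Sum.elim w V) (Sum.inr ∘ e) Sum.inl) (hv : 0 ≤ v)
    (hst : Strict Φ ε G v (Sum.elim w V) (Sum.inr ∘ e))
    (hOk : BWorld Φ ε (G.wL v w).b 0 ((G.wL v w).path Φ ε))
    (hmk : ∀ x : G.born v,
      {q | Past (CX Φ ε (Sum.elim w V)) (G.σ (G.j x)) (Sum.inr (e (G.j x))) 0 q}.ncard ≤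
        (G.ls x).2)
    (hK : Fintype.card κ' ≤ K) (ht : (MW.cfg w).Touched Φ ε K (MW.cfg V) v) :
    (MW.cfg w).Touched Φ ε K (sub G.ls (G.born v)) v := by
  have hw : (fun i => (Sum.elim w V : Fin m ⊕ Fin k → PhasePoint) (Sum.inl i)) = w := rfl
  have hC := add_cfg_C (V := V) (w := w) hΦ hε
  have hsize : ∀ {a₀ : Fin m ⊕ G.born v}, vis G v v a₀ →
      msize (CX Φ ε (Sum.elim w V)) (fun _ => 1) v (G.lab v (Sum.inr ∘ e) Sum.inl a₀) ≤
        msize ((G.wL v w).C Φ ε) (G.wL v w).m v a₀ := fun ha₀ =>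
    msize_le hΦ hε h hv hst hOk hmk le_rfl ha₀
  -- influences
  have hF : ∀ s i, (MW.cfg w).Fut Φ ε (MW.cfg V) s i → s ≤ v →
      (MW.cfg w).Fut Φ ε (sub G.ls (G.born v)) s i := by
    intro s i hf
    induction hf with
    | @init s k h0 _ =>
      intro _
      refine absurd ?_ h0
      have h1 : (MW.cfg w).path Φ ε 0 = (MW.cfg w).z := MW.path_zero hΦ hε _
      have h2 : ((MW.cfg w).add (MW.cfg V)).path Φ ε 0 = ((MW.cfg w).add (MW.cfg V)).z :=
        MW.path_zero hΦ hε _
      rw [h1, h2]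
      rfl
    | new₁ j hj _ _ _ => exact fun _ => absurd ⟨j, rfl⟩ hj
    | @new₂ s s' i j hj hc h0 hs =>
      intro hsv
      rcases j with j | j
      · exact absurd ⟨j, rfl⟩ hj
      · have hs'v : s' ∈ Icc 0 v := ⟨h0, hs.trans hsv⟩
        rw [hC] at hc
        rcases h.cover (Sum.inr j) with ⟨y, hy⟩ | ⟨i', hi'⟩
        swap
        · cases hi'
        · rw [← hy] at hc
          by_cases hys : G.σ y < s'
          · obtain ⟨x, rfl⟩ := h.exits y (hys.trans_le hs'v.2)
            have hxb : x ∈ G.born v := Str.mem_born.2 (hys.trans_le hs'v.2)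
            refine CausalGen291.Fut.new₂ (Sum.inr ⟨x, hxb⟩) (by rintro ⟨l, hl⟩; cases hl) ?_ h0 hs
            exact wL_contact (a := Sum.inr ⟨x, hxb⟩) (b := Sum.inl i) hΦ hε h hv hOk hs'v hys
              trivial hc
          · exfalso
            push Not at hys
            obtain ⟨y', hy', _⟩ := hst.contact hs'v hys hc
            exact h.disj y' i hy'
    | @chain₁ s s' i l hl hc hs ih => exact fun hsv => (ih (hs.trans hsv)).chain₁ hc hs
    | @chain₂ s s' i l hl hc hs ih =>
      intro hsv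
      have h0 : 0 ≤ s' := CausalGen291.Fut.nonneg hl
      rw [hC] at hc
      refine (ih (hs.trans hsv)).chain₂ ?_ hs
      exact wL_contact (a := Sum.inl l) (b := Sum.inl i) hΦ hε h hv hOk ⟨h0, hs.trans hsv⟩ trivial
        trivial hc
  rcases ht with ⟨i, hi, h1⟩ | ⟨j, hj, _⟩ | ⟨j, hj, h1⟩
  · refine Or.inl ⟨i, hF v i hi le_rfl, h1.imp id fun h2 => ?_⟩
    have h3 : K < msize (CX Φ ε (Sum.elim w V)) (fun _ => 1) v (Sum.inl i) := by
      have h4 : K < msize (((MW.cfg w).add (MW.cfg V)).C Φ ε) ((MW.cfg w).add (MW.cfg V)).m v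
        (Sum.inl i) := h2
      rwa [hC, add_cfg_m] at h4
    exact h3.trans_le (hsize (a₀ := Sum.inl i) trivial)
  · exact absurd ⟨j, rfl⟩ hj
  · rcases j with j | j
    · exact absurd ⟨j, rfl⟩ hj
    · have h3 : K < msize (CX Φ ε (Sum.elim w V)) (fun _ => 1) v (Sum.inr j) := by
        have h4 : K < msize (((MW.cfg w).add (MW.cfg V)).C Φ ε) ((MW.cfg w).add (MW.cfg V)).m v
          (Sum.inr j) := h1
        rwa [hC, add_cfg_m] at h4
      rcases h.cover (Sum.inr j) with ⟨y, hy⟩ | ⟨i', hi'⟩
      swap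
      · cases hi'
      by_cases hys : G.σ y < v
      · obtain ⟨x, rfl⟩ := h.exits y hys
        have hxb : x ∈ G.born v := Str.mem_born.2 hys
        refine Or.inr (Or.inr ⟨Sum.inr ⟨x, hxb⟩, (by rintro ⟨l, hl⟩; cases hl), ?_⟩)
        rw [← hy] at h3
        exact h3.trans_le (hsize (a₀ := Sum.inr ⟨x, hxb⟩) hys)
      · exfalso
        push Not at hys
        rw [← hy, msize_one] at h3
        have hsub : BC (CX Φ ε (Sum.elim w V)) v ((Sum.inr ∘ e) y) ⊆
            ((Finset.univ.image (Sum.inr ∘ e : κ' → Fin m ⊕ Fin k) : Finset (Fin m ⊕ Fin k)) :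
              Set (Fin m ⊕ Fin k)) := by
          have key : ∀ s q, Past (CX Φ ε (Sum.elim w V)) v ((Sum.inr ∘ e) y) s q → 0 ≤ s →
              ∃ y', (Sum.inr ∘ e : κ' → Fin m ⊕ Fin k) y' = q ∧ s ≤ G.σ y' := by
            intro s q hp
            induction hp with
            | @root s hs => exact fun _ => ⟨y, rfl, hs.trans hys⟩
            | @step s s' j' l hj' hc hss ih =>
              intro hs
              obtain ⟨y', rfl, hy'⟩ := ih (hs.trans hss)
              obtain ⟨y'', rfl, hy''⟩ := hst.contact ⟨hs.trans hss, hj'.le⟩ hy' hc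
              exact ⟨y'', rfl, hss.trans hy''⟩
          intro q hq
          obtain ⟨y', rfl, _⟩ := key 0 q hq le_rfl
          simp
        have h5 := (Set.ncard_le_ncard hsub (Finset.finite_toSet _))
        rw [Set.ncard_coe_finset] at h5
        have h6 : (Finset.univ.image (Sum.inr ∘ e : κ' → Fin m ⊕ Fin k)).card ≤
            Fintype.card κ' := Finset.card_image_le
        omega

end touch

/-! ### Trees -/

section tree

variable {Φ : Space3 → ℝ} {ε T v u₀ : ℝ} {K : ℕ} {P : CTree} {z : PhasePoint × Par P} {k m : ℕ}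
  {V : Config k} {w : Config m}

/-- The relabelling between `Fin.append V w` and `Sum.elim w V`. -/
def swapE (k m : ℕ) : Fin m ⊕ Fin k ≃ Fin (k + m) := (Equiv.sumComm _ _).trans finSumFinEquiv

theorem elim_eq_append : (Sum.elim w V : Fin m ⊕ Fin k → PhasePoint) =
    fun a => Fin.append V w (swapE k m a) := by
  funext a
  rcases a with a | a <;> simp [swapE]

theorem pth_elim (hΦ : AdmissiblePotential Φ) (hε : 0 < ε) (s : ℝ) (a : Fin m ⊕ Fin k) :
    pth Φ ε (Sum.elim w V) s a = pth Φ ε (Fin.append V w) s (swapE k m a) := by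
  unfold pth
  rw [elim_eq_append, flow_equiv hΦ hε (swapE k m)]

theorem Cut.elim (hΦ : AdmissiblePotential Φ) (hε : 0 < ε) {e : Idx P → Fin k}
    (h : Cut Φ ε T v (Fin.append V w) P z (Fin.castAdd m ∘ e)) :
    Cut Φ ε T v (Sum.elim w V) P z (Sum.inr ∘ e) where
  inj := by
    intro x y hxy
    refine h.inj ?_
    exact congrArg (Fin.castAdd m) (Sum.inr_injective hxy)
  agree x s h0 hs hx := by
    rw [pth_elim hΦ hε]
    have := h.agree x s h0 hs hx
    simpa [swapE] using this
  avoid s hs x hx j hj := by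
    rw [pth_elim hΦ hε]
    refine h.avoid s hs x hx _ fun b hb => hj b ?_
    have h1 : swapE k m (Sum.inr (e b)) = swapE k m j := by
      rw [← hb]
      simp [swapE]
    exact (swapE k m).injective h1

theorem Cut.shadow' (hε : 0 < ε) (hT : 0 ≤ T)
    (hV : Valid Φ ε P T z.1.2 z.2) (hvT : v ≤ T)
    (hX : Fin.append V w ∈ Dom Φ (Fin (k + m))) (e : Idx P ≃ Fin k)
    (h : Cut Φ ε T v (Sum.elim w V) P z (Sum.inr ∘ e)) :
    Shadow Φ ε (treeStr Φ ε P T z hε hT hV) v (Sum.elim w V) (Sum.inr ∘ e) Sum.inl where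
  dom := by
    rw [elim_eq_append]
    exact (Dom_equiv (swapE k m)).2 hX
  e_inj := h.inj
  g_inj := Sum.inl_injective
  cover q := by
    rcases q with i | y
    · exact Or.inr ⟨i, rfl⟩
    · exact Or.inl ⟨e.symm y, by simp⟩
  disj x i := by simp
  exits x hx := ⟨⟨x, tree_exits hvT hx⟩, rfl⟩
  agree x s h0 hs hx := h.agree x s h0 hs hx
  iso s hs x hx q hq := by
    rw [h.agree x s hs.1 hs.2.le hx]
    exact (h.avoid s ⟨hs.1, hs.2.le⟩ x hx q hq).le

/-- **Touch of a tree cluster = touch of an exit line** (or a link between exit lines). -/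
theorem Cut.exit_of_touched (hΦ : AdmissiblePotential Φ) (hε : 0 < ε) (hT : 0 ≤ T)
    (hV : Valid Φ ε P T z.1.2 z.2) (hS : Sep Φ ε P T z.1 z.2) (hvT : v ≤ T) (hv : v ∈ Icc 0 u₀)
    (hX : Fin.append V w ∈ Dom Φ (Fin (k + m))) (e : Idx P ≃ Fin k)
    (h : Cut Φ ε T v (Fin.append V w) P z (Fin.castAdd m ∘ e))
    (hOk : AllOk Φ ε w (exL Φ ε P z)) (hK : k ≤ K)
    (ht : (MW.cfg w).Touched Φ ε K (MW.cfg V) v) :
    (∃ x, (MW.cfg w).thetaL Φ ε K u₀ (exL Φ ε P z x) ≤ v) ∨
      LinkEx Φ ε K u₀ w (exL Φ ε P z) := by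
  have h' := h.elim hΦ hε
  have hSh := h'.shadow' hε hT hV hvT hX e
  have hst : Strict Φ ε (treeStr Φ ε P T z hε hT hV) v (Sum.elim w V) (Sum.inr ∘ e) := by
    intro s hs x hx q hq
    rw [h'.agree x s hs.1 hs.2 hx]
    exact h'.avoid s hs x hx q hq
  have hcl : Closed Φ ε (CX Φ ε (Sum.elim w V)) P T z (fun y => Sum.inr (e y)) v := by
    intro y s q h0 hsv hy hc
    obtain ⟨y', rfl, hy'⟩ := hst.contact ⟨h0, hsv⟩ hy hc
    refine ⟨y', rfl, hy', ?_⟩
    have h1 := hc.2.2.2
    have h2 := h'.agree y s h0 hsv hy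
    have h3 := h'.agree y' s h0 hsv hy'
    simp only [Function.comp_apply] at h2 h3
    rw [h2] at h1
    change dist _ (pth Φ ε (Sum.elim w V) s (Sum.inr (e y'))).1 ≤ ε at h1
    rw [h3] at h1
    exact h1
  have hmk : ∀ x : (treeStr Φ ε P T z hε hT hV).born v,
      {q | Past (CX Φ ε (Sum.elim w V)) (prot P T z.2 x.1.1) (Sum.inr (e x.1.1)) 0 q}.ncard ≤
        TreeLines335.mk P x.1.1 := by
    intro x
    have hxv : prot P T z.2 x.1.1 < v := Str.mem_born.1 x.2
    have hT' : 0 < T := ((PathFlow968.prot_nonneg hε.le P hT z.1.2 z.2 hV.2 x.1.1).trans_lt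
      hxv).trans_le hvT
    have hrel := rel_eq_prot P T z.2 x.1.1 x.1.2
    have hsub : {q | Past (CX Φ ε (Sum.elim w V)) (prot P T z.2 x.1.1) (Sum.inr (e x.1.1)) 0 q} ⊆
        (((sub' P x.1.1).image fun y => (Sum.inr (e y) : Fin m ⊕ Fin k)) :
          Finset (Fin m ⊕ Fin k)) := by
      intro q hq
      have hq' : Past (CX Φ ε (Sum.elim w V)) (TreeLines335.rel P z.2 x.1.1)
        (Sum.inr (e x.1.1)) 0 q := by rw [hrel]; exact hq
      obtain ⟨y, hy, rfl⟩ := tree_past hε P T z (fun y => Sum.inr (e y)) v hV hS hcl x.1.1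
        (by rw [hrel]; exact hxv.le) hT' 0 q le_rfl hq'
      rw [Finset.mem_coe]
      exact Finset.mem_image_of_mem _ hy
    refine (Set.ncard_le_ncard hsub (Finset.finite_toSet _)).trans ?_
    rw [Set.ncard_coe_finset, ← card_sub']
    exact Finset.card_image_le
  have hcard : Fintype.card (Idx P) ≤ K := by
    rw [Fintype.card_congr e, Fintype.card_fin]
    exact hK
  have h3 := touched_exits hΦ hε hSh hv.1 hst (hOk _).bw hmk hcard ht
  rcases exists_touch hΦ hε hOk hv h3 with ⟨x, _, hx⟩ | hl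
  · exact Or.inl ⟨x, hx⟩
  · exact Or.inr hl

end tree

end

end Crest.Agent.R122.RtG302
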