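import Crest.Agent.R122.HitOf_45

/-!
# Rebirth of a line (row 122, block A7, helper45)

A line which has no contact up to a time `σ` can be created at the time `σ` instead.

* `reb l σ`, `NoCt`.
* `NoCt.path_reb`, `NoCt.ok_reb`, `NoCt.thetaL_reb`.
* `thetaL_reb_rest` : for a line `c` of `Z`: `θ (Z₀, c) = θ (Z₀, c reborn at σ)`, `Z₀ = rest Z c`.
-/

set_option autoImplicit false
set_option linter.unusedSectionVars false

open MeasureTheory Set Filter Topology
open scoped ENNReal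
open Crest.AnalysisR.Kinetic
open Crest.Agent.R122.Flow671 Crest.Agent.R122.Loc45 Crest.Agent.R122.Causal291
open Crest.Agent.R122.Inf879 Crest.Agent.R122.EDefs602 Crest.Agent.R122.Lines255
open Crest.Agent.R122.Repl302 Crest.Agent.R122.MWAlg255

namespace Crest.Agent.R122.Ins45

noncomputable section

open scoped Classical

/-! ### Self-contacts are irrelevant -/

section self

variable {α : Type} {C C' : ℝ → α → α → Prop} {t s : ℝ} {i k : α}

theorem past_mono_ne (h : ∀ s j k, j ≠ k → C s j k → C' s j k) (hp : Past C t i s k) :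
    Past C' t i s k := by
  have key : ∀ r x, Past C t i r x → ∀ r' ≤ r, Past C' t i r' x := by
    intro r x hx
    induction hx with
    | root h0 => exact fun r' hr' => .root (hr'.trans h0)
    | @step s₁ s₂ j x' _ hc hs ih =>
      intro r' hr'
      by_cases hjx : j = x'
      · subst hjx
        exact ih r' (hr'.trans hs)
      · exact .step (ih s₂ le_rfl) (h _ _ _ hjx hc) (hr'.trans hs)
  exact key s k hp s le_rfl

theorem past_congr_ne (h : ∀ s j k, j ≠ k → (C s j k ↔ C' s j k)) :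
    Past C t i s k ↔ Past C' t i s k :=
  ⟨past_mono_ne fun s j k hjk => (h s j k hjk).1, past_mono_ne fun s j k hjk => (h s j k hjk).2⟩

theorem msize_congr_ne [Fintype α] {m : α → ℕ} (h : ∀ s j k, j ≠ k → (C s j k ↔ C' s j k)) :
    msize C m t i = msize C' m t i := by
  unfold msize
  refine Finset.sum_congr rfl fun k _ => ?_
  have h1 : k ∈ BC C t i ↔ k ∈ BC C' t i := past_congr_ne h
  simp only [h1]

theorem infd_congr_ne [Fintype α] {m : α → ℕ} {K : ℕ}
    (h : ∀ s j k, j ≠ k → (C s j k ↔ C' s j k)) : Infd C m K t i ↔ Infd C' m K t i := by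
  unfold Infd
  rw [msize_congr_ne h]

variable {β γ : Type} {X : Type*} {C₁ : ℝ → β → β → Prop} {z₁ : ℝ → β → X}
  {z₂ z₂' : ℝ → α → X} {e₁ : γ → β} {e₂ : γ → α} {x : γ}

theorem fut_mono_ne (he : Function.Injective e₂) (h : ∀ s j k, j ≠ k → C s j k → C' s j k)
    (h0 : ∀ k, z₂ 0 (e₂ k) = z₂' 0 (e₂ k))
    (hp : CausalGen291.Fut C₁ z₁ C z₂ e₁ e₂ s x) :
    CausalGen291.Fut C₁ z₁ C' z₂' e₁ e₂ s x := by
  induction hp with
  | init hne hs => exact .init (by rw [← h0]; exact hne) hs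
  | new₁ j hj hc h1 hs => exact .new₁ j hj hc h1 hs
  | new₂ j hj hc h1 hs =>
    exact .new₂ j hj (h _ _ _ (fun he' => hj ⟨_, he'.symm⟩) hc) h1 hs
  | chain₁ _ hc hs ih => exact .chain₁ ih hc hs
  | @chain₂ s₁ s₂ k l _ hc hs ih =>
    by_cases hkl : l = k
    · subst hkl
      exact ih.mono hs
    · exact .chain₂ ih (h _ _ _ (fun he' => hkl (he he')) hc) hs

end self

/-! ### Reborn lines -/

variable {ι : Type} [Fintype ι] {Φ : Space3 → ℝ} {ε : ℝ} {Z : MW ι} {l : ML} {c : ι}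
  {σ : ℝ} {K : ℕ}

/-- The line `l` created at the time `σ`. -/
def reb (l : ML) (σ : ℝ) : ML := ((σ, lineAt l.1.1 l.1.2 σ), l.2)

theorem back_reb : back (reb l σ).1 = back l.1 := by
  rw [show (reb l σ).1 = (σ, lineAt l.1.1 l.1.2 σ) from rfl, back_eq_lineAt, lineAt_lineAt]
  exact (back_eq_lineAt l.1.1 l.1.2).symm

theorem z_reb : (Z.ins (reb l σ)).z = (Z.ins l).z := by
  funext x
  rcases x with k | u
  · rfl
  · exact back_reb

/-- The line `l` has no contact with `Z` up to the time `σ`. -/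
structure NoCt (Φ : Space3 → ℝ) (ε : ℝ) (Z : MW ι) (l : ML) (σ : ℝ) : Prop where
  nonneg : 0 ≤ l.1.1
  born : ∀ k, 0 ≤ Z.b k
  le : l.1.1 ≤ σ
  no : ∀ t k, t ≤ σ → ¬ (Z.ins l).C Φ ε t (Sum.inr ()) (Sum.inl k)

namespace NoCt

variable (h : NoCt Φ ε Z l σ) (hΦ : AdmissiblePotential Φ) (hε : 0 < ε)
  (hZl : (Z.ins l).Ok Φ ε)

include h hΦ hε hZl in
/-- Up to `σ` the particle is on its free line. -/
theorem path_line {t : ℝ} (ht : t ∈ Icc 0 σ) :
    (Z.ins l).path Φ ε t (Sum.inr ()) = lineAt l.1.1 l.1.2 t := by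
  have h1 := hZl.bw.free hΦ hε (Sum.inr ()) (a := 0) (T := σ) le_rfl
    (fun r hr hb x hx hbx => by
      rcases x with k | u
      · exact hZl.bw.le_dist_of_not_ctB hr.1 hr.2 hb hbx fun r' hr' hc => h.no r' k hr'.2.le hc
      · exact absurd rfl hx) t ht
  rw [h1, MW.path_zero hΦ hε]
  have h2 : (Z.ins l).z (Sum.inr ()) = lineAt l.1.1 l.1.2 0 := back_eq_lineAt l.1.1 l.1.2
  rw [h2]
  exact lineAt_lineAt l.1.1 0 t l.1.2

theorem b_reb_inr : (Z.ins (reb l σ)).b (Sum.inr ()) = σ := rfl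

theorem b_reb_inl (k : ι) : (Z.ins (reb l σ)).b (Sum.inl k) = (Z.ins l).b (Sum.inl k) := rfl

include h hΦ hε hZl in
theorem rebirthPath_eq {t : ℝ} (ht : 0 ≤ t) :
    rebirthPath (Z.ins (reb l σ)).b ((Z.ins l).path Φ ε) t = (Z.ins l).path Φ ε t := by
  funext x
  rcases x with k | u
  · exact hZl.bw.rebirth_eq hΦ hε (b_reb_inl k) ht
  · rcases le_total σ t with h1 | h1
    · exact rebirthPath_of_le h1
    · have h0 : 0 ≤ σ := h.nonneg.trans h.le
      have h2 : rebirthPath (Z.ins (reb l σ)).b ((Z.ins l).path Φ ε) t (Sum.inr u) =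
          lineAt σ ((Z.ins l).path Φ ε σ (Sum.inr u)) t := rebirthPath_of_ge h1
      rw [h2]
      have h3 := h.path_line hΦ hε hZl (t := σ) ⟨h0, le_rfl⟩
      have h4 := h.path_line hΦ hε hZl (t := t) ⟨ht, h1⟩
      cases u
      rw [h3, h4]
      exact lineAt_lineAt l.1.1 σ t l.1.2

include h in
theorem b_le (x : ι ⊕ Unit) : (Z.ins l).b x ≤ (Z.ins (reb l σ)).b x := by
  rcases x with k | u
  · exact le_rfl
  · exact h.le

include h in
theorem closed : Closed ((Z.ins l).C Φ ε) {x : ι ⊕ Unit | x = Sum.inr ()}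
    (Z.ins (reb l σ)).b := by
  rintro s x y rfl hs hc
  rcases y with k | u
  · exact absurd hc (h.no s k hs)
  · exact ⟨rfl, hs⟩

include h hΦ hε hZl in
theorem bw_reb : BWorld Φ ε (Z.ins (reb l σ)).b 0 ((Z.ins l).path Φ ε) := by
  refine BWorld.congr (bworld_of_closed hΦ hε hZl.bw h.b_le ?_ h.closed)
    fun t ht => (h.rebirthPath_eq hΦ hε hZl ht).symm
  intro x hx
  rcases x with k | u
  · rfl
  · exact absurd rfl hx

include h hΦ hε hZl in
/-- **The paths of the world with the reborn line are the same.** -/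
theorem path_reb {t : ℝ} (ht : 0 ≤ t) :
    (Z.ins (reb l σ)).path Φ ε t = (Z.ins l).path Φ ε t := by
  have h1 := (h.bw_reb hΦ hε hZl).eq_evo hΦ hε ht
  rw [h1, MW.path_zero hΦ hε, ← z_reb (σ := σ)]
  rfl

include h hΦ hε hZl in
/-- The contacts of the world with the reborn line. -/
theorem C_reb (s : ℝ) (x y : ι ⊕ Unit) (hxy : x ≠ y) :
    (Z.ins (reb l σ)).C Φ ε s x y ↔ (Z.ins l).C Φ ε s x y := by
  have hσ0 : 0 ≤ σ := h.nonneg.trans h.le
  have hb0 : ∀ x, 0 ≤ (Z.ins l).b x := by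
    rintro (k | u)
    · exact h.born k
    · exact h.nonneg
  have hd : 0 ≤ s → dist ((Z.ins (reb l σ)).path Φ ε s x).1 ((Z.ins (reb l σ)).path Φ ε s y).1 =
      dist ((Z.ins l).path Φ ε s x).1 ((Z.ins l).path Φ ε s y).1 := fun hs => by
    rw [h.path_reb hΦ hε hZl hs]
  have mp : ∀ x y : ι ⊕ Unit, (Z.ins (reb l σ)).C Φ ε s x y → (Z.ins l).b x ≤ s ∧
      (Z.ins l).b y ≤ s ∧ (x = y ∨ (Z.ins l).b x < s ∨ (Z.ins l).b y < s) := fun x y hc =>
    ⟨(h.b_le x).trans hc.1, (h.b_le y).trans hc.2.1, hc.2.2.1.imp id fun h' =>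
      h'.imp (fun h' => (h.b_le x).trans_lt h') fun h' => (h.b_le y).trans_lt h'⟩
  constructor
  · intro hc
    obtain ⟨h1, h2, h3⟩ := mp x y hc
    refine ⟨h1, h2, h3, ?_⟩
    rw [← hd ((hb0 x).trans h1)]
    exact hc.2.2.2
  · intro hc
    have hs : 0 ≤ s := (hb0 x).trans hc.1
    have key : ∀ x y : ι ⊕ Unit, x ≠ y → (Z.ins l).C Φ ε s x y → x = Sum.inr () → σ < s := by
      rintro x y hxy hc rfl
      rcases y with k | u
      · by_contra hlt
        exact h.no s k (not_lt.1 hlt) hc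
      · exact absurd rfl hxy
    have hx : (Z.ins (reb l σ)).b x ≤ s := by
      rcases x with k | u
      · exact hc.1
      · exact (key _ _ hxy hc rfl).le
    have hy : (Z.ins (reb l σ)).b y ≤ s := by
      rcases y with k | u
      · exact hc.2.1
      · exact (key _ _ (Ne.symm hxy) (MW.C_symm _ hc) rfl).le
    refine ⟨hx, hy, Or.inr ?_, ?_⟩
    · rcases x with k | u
      · rcases y with k' | u'
        · exact hc.2.2.1.resolve_left hxy
        · exact Or.inr (key _ _ (Ne.symm hxy) (MW.C_symm _ hc) rfl)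
      · exact Or.inl (key _ _ hxy hc rfl)
    · rw [hd hs]
      exact hc.2.2.2

include h hΦ hε hZl in
/-- The world with the reborn line is good. -/
theorem ok_reb : (Z.ins (reb l σ)).Ok Φ ε where
  bw := (h.bw_reb hΦ hε hZl).congr fun t ht => h.path_reb hΦ hε hZl ht
  sep := by
    have h0 : 0 ≤ σ := h.nonneg.trans h.le
    -- pairs with the reborn line
    have key : ∀ k : ι, Z.b k = σ → ∃ δ > 0, ∀ s, σ < s → s < σ + δ →
        ε < dist ((Z.ins l).path Φ ε s (Sum.inr ())).1 ((Z.ins l).path Φ ε s (Sum.inl k)).1 := by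
      intro k hk
      rcases eq_or_lt_of_le h.le with hl | hl
      · obtain ⟨δ, hδ, hs⟩ := hZl.sep (Sum.inr ()) (Sum.inl k) (by simp)
          (show l.1.1 = Z.b k by rw [hk, hl])
        refine ⟨δ, hδ, fun s h1 h2 => hs s ?_ ?_⟩
        · change l.1.1 < s
          rw [hl]; exact h1
        · change s < l.1.1 + δ
          rw [hl]; exact h2
      · have hfar : ε < dist ((Z.ins l).path Φ ε σ (Sum.inr ())).1
            ((Z.ins l).path Φ ε σ (Sum.inl k)).1 := by
          by_contra hle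
          exact h.no σ k le_rfl ⟨h.le, hk.le, Or.inr (Or.inl hl), not_lt.1 hle⟩
        have hev := eventually_far (b₁ := σ) (b₂ := σ) h0 (hZl.bw.cont_pos (Sum.inr ()))
          (hZl.bw.cont_pos (Sum.inl k)) (fun _ _ => hfar)
        obtain ⟨u, hu, hu'⟩ := mem_nhdsGE_iff_exists_Ico_subset.1 hev
        have hu0 : σ < u := hu
        exact ⟨u - σ, by linarith, fun s h1 h2 => hu' ⟨h1.le, by linarith⟩ h1.le h1.le⟩
    intro x y hxy hb
    rcases x with j | u <;> rcases y with k | u'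
    · obtain ⟨δ, hδ, hs⟩ := hZl.sep (Sum.inl j) (Sum.inl k) hxy hb
      refine ⟨δ, hδ, fun s h1 h2 => ?_⟩
      rw [h.path_reb hΦ hε hZl ((h.born j).trans h1.le)]
      exact hs s h1 h2
    · have hb' : Z.b j = σ := hb
      obtain ⟨δ, hδ, hs⟩ := key j hb'
      refine ⟨δ, hδ, fun s h1 h2 => ?_⟩
      have h1' : Z.b j < s := h1
      have h2' : s < Z.b j + δ := h2
      rw [h.path_reb hΦ hε hZl ((h.born j).trans h1.le), dist_comm]
      rw [hb'] at h1' h2'
      exact hs s h1' h2'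
    · have hb' : Z.b k = σ := hb.symm
      obtain ⟨δ, hδ, hs⟩ := key k hb'
      refine ⟨δ, hδ, fun s h1 h2 => ?_⟩
      have h1' : σ < s := h1
      have h2' : s < σ + δ := h2
      rw [h.path_reb hΦ hε hZl (h0.trans h1'.le)]
      exact hs s h1' h2'
    · exact absurd rfl hxy

include h hΦ hε hZl in
theorem inf_reb {s : ℝ} (x : ι ⊕ Unit) :
    (Z.ins (reb l σ)).Inf Φ ε K s x ↔ (Z.ins l).Inf Φ ε K s x := by
  have hm : (Z.ins (reb l σ)).m = (Z.ins l).m := by
    funext x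
    rcases x with k | u <;> rfl
  unfold MW.Inf
  rw [hm]
  exact infd_congr_ne fun s j k hjk => h.C_reb hΦ hε hZl s j k hjk

include h hΦ hε hZl in
theorem fut_reb {s : ℝ} (k : ι) :
    Z.Fut Φ ε (MW.line (reb l σ)) s k ↔ Z.Fut Φ ε (MW.line l) s k := by
  have hz : ∀ k : ι, (Z.ins (reb l σ)).path Φ ε 0 (Sum.inl k) =
      (Z.ins l).path Φ ε 0 (Sum.inl k) := fun k => by
    rw [h.path_reb hΦ hε hZl le_rfl]
  exact ⟨fut_mono_ne Sum.inl_injective (fun s j k hjk => (h.C_reb hΦ hε hZl s j k hjk).1) hz,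
    fut_mono_ne Sum.inl_injective (fun s j k hjk => (h.C_reb hΦ hε hZl s j k hjk).2)
      fun k => (hz k).symm⟩

include h hΦ hε hZl in
theorem touched_reb {s : ℝ} :
    Z.Touched Φ ε K (MW.line (reb l σ)) s ↔ Z.Touched Φ ε K (MW.line l) s := by
  unfold MW.Touched CausalGen291.Touched
  refine or_congr (exists_congr fun k => and_congr (h.fut_reb hΦ hε hZl k)
    (or_congr Iff.rfl (h.inf_reb hΦ hε hZl _))) (or_congr Iff.rfl
      (exists_congr fun j => and_congr Iff.rfl (h.inf_reb hΦ hε hZl _)))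

include h hΦ hε hZl in
/-- **The touch time of the reborn line is the same.** -/
theorem thetaL_reb (T : ℝ) : Z.thetaL Φ ε K T (reb l σ) = Z.thetaL Φ ε K T l := by
  have h1 : ∀ s, Z.Touched Φ ε K (MW.line (reb l σ)) s ↔ Z.Touched Φ ε K (MW.line l) s :=
    fun s => h.touched_reb hΦ hε hZl
  change (if ∃ s ∈ Icc 0 T, Z.Touched Φ ε K (MW.line (reb l σ)) s then
      sInf {s | s ∈ Icc 0 T ∧ Z.Touched Φ ε K (MW.line (reb l σ)) s} else T + 1) =
    (if ∃ s ∈ Icc 0 T, Z.Touched Φ ε K (MW.line l) s then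
      sInf {s | s ∈ Icc 0 T ∧ Z.Touched Φ ε K (MW.line l) s} else T + 1)
  simp only [h1]

end NoCt

/-! ### A line of a world -/

/-- **The line `c` of `Z`, reborn at `σ`**: same touch time in `Z₀ = rest Z c`, if `c` has no contact
in `Z` up to `σ`. -/
theorem thetaL_reb_rest (hΦ : AdmissiblePotential Φ) (hε : 0 < ε) (hZ : Z.Ok Φ ε) {cl : ML}
    (hcl : IsLine Z c cl) (hborn : ∀ k, 0 ≤ Z.b k) (hσ : Z.b c ≤ σ)
    (hno : ∀ t k, t ≤ σ → Z.C Φ ε t c k → k = c) (T : ℝ) :
    (rest Z c).thetaL Φ ε K T (reb cl σ) = (rest Z c).thetaL Φ ε K T cl ∧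
      ((rest Z c).ins (reb cl σ)).Ok Φ ε := by
  have hok : ((rest Z c).ins cl).Ok Φ ε := by
    rw [← comap_splitOff hcl]
    exact ok_comap hΦ hε hZ (splitOff c)
  have hno' : NoCt Φ ε (rest Z c) cl σ := by
    refine ⟨?_, fun k => hborn k, ?_, fun t k ht hc => ?_⟩
    · rw [← hcl.b]; exact hborn c
    · rw [← hcl.b]; exact hσ
    · rw [← comap_splitOff hcl, C_comap hΦ hε] at hc
      exact k.2 (hno t k ht hc)
  exact ⟨hno'.thetaL_reb hΦ hε hok T, hno'.ok_reb hΦ hε hok⟩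

end

end Crest.Agent.R122.Ins45
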