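import Crest.Agent.R122.TreeIn_45
import Crest.Agent.R122.Reborn_45

/-!
# Closed families in worlds `Y + A` (row 122, blocks A9/A7, helper45)

* `TreeIn.of_past` : `TreeIn` from the past of the root in an arbitrary marked world.
* `addW` : the world `Y + A` with the whole of `A` replaced by lines, relabelled: `Y + lines`.
* `theta_add_le`, `theta_add_eq` : `θ (Y, lines) ≤ θ (Y, A)` (and equality).
* `theta_base_le`, `theta_base_eq` : `θ (Y + lines, B) ≤ θ (Y + A, B)` (and equality).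
* `theta_add_iff`, `theta_base_iff` : `≤ s` iff `≤ s`.
-/

set_option autoImplicit false
set_option linter.unusedSectionVars false

open MeasureTheory Set Filter Topology
open scoped ENNReal
open Crest.AnalysisR.Kinetic
open Crest.Agent.R122.Flow671 hiding rel
open Crest.Agent.R122.Loc45 Crest.Agent.R122.Causal291 Crest.Agent.R122.MWAlg255
open Crest.Agent.R122.Inf879 Crest.Agent.R122.EDefs602 Crest.Agent.R122.Lines255
open Crest.Agent.R122.Kin796 Crest.Agent.R122.Kin796.CTree Crest.Agent.R122.Tree674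
open Crest.Agent.R122.PathFlow968 Crest.Agent.R122.TreeLines335
open Crest.Agent.R122.InEq2T (lastS card_lastS mem_lastS lastS_closed)

namespace Crest.Agent.R122.Ins45

noncomputable section

open scoped Classical

/-! ### Trees from the past of the root -/

section past

variable {α : Type} [Fintype α] {Φ : Space3 → ℝ} {ε : ℝ} {W : MW α} {P : CTree}
  {z : PhasePoint × Par P} {f : Idx P → α}

/-- **A tree from the past of a particle** of an arbitrary marked world. -/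
theorem TreeIn.of_past (hΦ : AdmissiblePotential Φ) (hε : 0 < ε) {s : ℝ} (hs : 0 < s) {i₀ : α}
    (hinj : Function.Injective f) (hb : ∀ i, W.b (f i) = 0) (hm : ∀ i, W.m (f i) = 1)
    (hV : Valid Φ ε P s z.1.2 z.2) (hS : Sep Φ ε P s z.1 z.2)
    (ha : ∀ i t, 0 ≤ t → t ≤ prot P s z.2 i → W.path Φ ε t (f i) = path Φ ε P z.1 z.2 t i)
    (hp : ∀ t ∈ Icc 0 s, ∀ x, Past (W.C Φ ε) s i₀ t x ↔ ∃ j, f j = x ∧ t ≤ prot P s z.2 j) :
    TreeIn Φ ε W P z f where
  inj := hinj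
  b := hb
  m := hm
  agree i t h0 ht := ha i t h0 (ht.trans (rel_le_prot hε.le hs hV.2 i))
  closed i t x ht hc := by
    have h0 : 0 ≤ t := by
      have h1 : W.b (f i) ≤ t := MW.C_born hc
      rwa [hb i] at h1
    have hts : t ≤ s := ht.trans (rel_lt hε.le hs hV.2 i).le
    have hti : t ≤ prot P s z.2 i := ht.trans (rel_le_prot hε.le hs hV.2 i)
    have h1 : Past (W.C Φ ε) s i₀ t (f i) := (hp t ⟨h0, hts⟩ _).2 ⟨i, rfl, hti⟩
    obtain ⟨j, rfl, hj⟩ := (hp t ⟨h0, hts⟩ _).1 (h1.contact hc)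
    have hw : Ct (path Φ ε P z.1 z.2) ε t i j := by
      unfold Ct
      rw [← ha i t h0 hti, ← ha j t h0 hj]
      exact hc.2.2.2
    have hw2 := (ct_iff hΦ hε hV hS ⟨h0, hts⟩).1 hw
    refine ⟨j, rfl, ?_, hw2⟩
    rcases hw2 with rfl | hw2 | hw2
    · exact ht
    · exact (inWindow_rel hε.le hV.2 hw2).2
    · exact (inWindow_rel hε.le hV.2 hw2).1

end past

variable {ι κ β γ : Type} [Fintype ι] [Fintype κ] [Fintype β] [Fintype γ] {Φ : Space3 → ℝ}
  {ε : ℝ} {Y : MW ι} {A : MW β} {B : MW γ} {f : κ ≃ β} {ls : κ → ML} {K : ℕ}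

/-! ### Relabelling -/

theorem inr_inj (f : κ ≃ β) : Function.Injective fun i => (Sum.inr (f i) : ι ⊕ β) :=
  Sum.inr_injective.comp f.injective

/-- The world `Y + A` in which the whole of `A` is replaced by lines. -/
theorem lw_whole (f : κ ≃ β) (ls : κ → ML) :
    lw (Y.add A) (fun i => Sum.inr (f i)) ls = Y.add ((MW.lines ls).comap f.symm) := by
  have h0 : ∀ x : ι, (Sum.inl x : ι ⊕ β) ∉ range fun i => (Sum.inr (f i) : ι ⊕ β) := by
    rintro x ⟨i, hi⟩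
    cases hi
  have key : ∀ {δ : Type} (g : κ → δ) (a : ι → δ) (b : β → δ),
      Function.extend (fun i => (Sum.inr (f i) : ι ⊕ β)) g (Sum.elim a b) =
        Sum.elim a fun y => g (f.symm y) := by
    intro δ g a b
    funext x
    rcases x with x | y
    · exact Function.extend_apply' _ _ _ fun ⟨i, hi⟩ => h0 x ⟨i, hi⟩
    · have h1 := (inr_inj (ι := ι) f).extend_apply g (Sum.elim a b) (f.symm y)
      simp only [Equiv.apply_symm_apply] at h1
      exact h1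
  unfold lw MW.add
  simp only
  rw [key, key, key]
  rfl

/-- The relabelled form. -/
theorem addW (f : κ ≃ β) (ls : κ → ML) :
    (lw (Y.add A) (fun i => Sum.inr (f i)) ls).comap (Equiv.sumCongr (Equiv.refl ι) f) =
      Y.add (MW.lines ls) := by
  rw [lw_whole]
  unfold MW.comap MW.add
  congr 1
  · funext x
    rcases x with x | x
    · rfl
    · simp [Equiv.sumCongr]
  · funext x
    rcases x with x | x
    · rfl
    · simp [Equiv.sumCongr]
  · funext x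
    rcases x with x | x
    · rfl
    · simp [Equiv.sumCongr]


/-! ### Touch times -/

theorem repl_empty {C : ℝ → ι → ι → Prop} {m : ι → ℕ} (hC : ∀ s j k, C s j k → C s k j)
    (σ : ι → ℝ) (K : ℕ) : Repl C C m ∅ σ K where
  symm := hC
  closed _ _ _ hj := hj.elim
  lines := ⟨fun _ _ _ hc _ _ => hc, fun _ _ _ hc => hc, fun _ _ _ _ hj => hj.elim,
    fun _ _ _ _ hj => hj.elim⟩
  pos _ hj := hj.elim
  clean _ hj := hj.elim

theorem lmark_empty {C : ℝ → ι → ι → Prop} {m : ι → ℕ} (σ : ι → ℝ) : lmark C m ∅ σ = m :=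
  funext fun _ => lmark_of_not_mem (fun h => h.elim)

/-- Compatibility if the family is the whole inserted world. -/
theorem compat_whole (hΦ : AdmissiblePotential Φ) (hε : 0 < ε) :
    Compat (Y.path Φ ε) (Y.path Φ ε) ((Y.add A).path Φ ε)
      ((lw (Y.add A) (fun i => (Sum.inr (f i) : ι ⊕ β)) ls).path Φ ε) id Sum.inl ∅
      (range fun i => (Sum.inr (f i) : ι ⊕ β)) Y.b
      (lw (Y.add A) (fun i => (Sum.inr (f i) : ι ⊕ β)) ls).b where
  mem_iff x := by
    constructor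
    · exact fun h => h.elim
    · rintro ⟨i, hi⟩
      cases hi
  exit x hx := hx.elim
  new₁ x hx := hx.elim
  new₂ := by
    rintro _ ⟨i, rfl⟩ - k ⟨j, hj⟩
    cases hj
  out₁ _ _ := rfl
  out₂ x hx := by
    rw [MW.path_zero hΦ hε, MW.path_zero hΦ hε]
    exact lw_z_off hx
  fam x hx := hx.elim
  fam' x hx := hx.elim

section theta

variable (hΦ : AdmissiblePotential Φ) (hε : 0 < ε)
  (h : FamIn Φ ε (Y.add A) (fun i => (Sum.inr (f i) : ι ⊕ β)) ls)
  (hYA : BWorld Φ ε (Y.add A).b 0 ((Y.add A).path Φ ε))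
  (hY : ∀ x, 0 ≤ Y.b x) (hA : ∀ x, 0 ≤ A.b x) (hK : ∀ i, (ls i).2 ≤ K)

theorem b_add (hY : ∀ x, 0 ≤ Y.b x) (hA : ∀ x, 0 ≤ A.b x) (x : ι ⊕ β) : 0 ≤ (Y.add A).b x := by
  rcases x with x | x
  · exact hY x
  · exact hA x

theorem theta_whole (f : κ ≃ β) (hΦ : AdmissiblePotential Φ) (hε : 0 < ε) (K : ℕ) (T : ℝ) :
    Y.theta Φ ε K T (MW.lines ls) = CausalGen291.theta (Y.C Φ ε) (Y.path Φ ε)
      ((lw (Y.add A) (fun i => (Sum.inr (f i) : ι ⊕ β)) ls).C Φ ε)
      ((lw (Y.add A) (fun i => (Sum.inr (f i) : ι ⊕ β)) ls).path Φ ε) id Sum.inl 0 T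
      (Y.Inf Φ ε K) ((lw (Y.add A) (fun i => (Sum.inr (f i) : ι ⊕ β)) ls).Inf Φ ε K) := by
  rw [lw_whole]
  exact (theta_comap_right hΦ hε K T Y (MW.lines ls) f.symm).symm

include hΦ hε h hYA hY hA hK in
/-- **The inserted world replaced by its lines**: the touch time can only decrease. -/
theorem theta_add_le (T : ℝ) : Y.theta Φ ε K T (MW.lines ls) ≤ Y.theta Φ ε K T A := by
  have r1 : Repl (Y.C Φ ε) (Y.C Φ ε) Y.m ∅ Y.b K :=
    repl_empty (C := Y.C Φ ε) (fun _ _ _ hc => MW.C_symm _ hc) _ _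
  have r2 := h.repl hΦ hε hYA (b_add hY hA) hK
  rw [theta_whole (A := A) f hΦ hε]
  exact theta_lines_le (compat_whole hΦ hε) r1.closed r2.closed r1.symm r2.symm r1.lines
    r2.lines (fun _ _ _ hx => hx) (fun _ _ _ hx => h.inf hΦ hε hYA (b_add hY hA) hK hx)

include hΦ hε h hYA hY hA hK in
/-- **The inserted world replaced by its lines**: equality if no clean particle has two lines in its
past and the marks are the sizes. -/
theorem theta_add_eq
    (hs : ∀ i, msize ((Y.add A).C Φ ε) (Y.add A).m (ls i).1.1 (Sum.inr (f i)) = (ls i).2) {T : ℝ}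
    (hN : NoDouble ((Y.add A).C Φ ε) ((lw (Y.add A) (fun i => Sum.inr (f i)) ls).C Φ ε) (Y.add A).m
      (range fun i => (Sum.inr (f i) : ι ⊕ β)) (lw (Y.add A) (fun i => Sum.inr (f i)) ls).b K 0 T) :
    Y.theta Φ ε K T (MW.lines ls) = Y.theta Φ ε K T A := by
  have r1 : Repl (Y.C Φ ε) (Y.C Φ ε) Y.m ∅ Y.b K :=
    repl_empty (C := Y.C Φ ε) (fun _ _ _ hc => MW.C_symm _ hc) _ _
  have r2 := h.repl hΦ hε hYA (b_add hY hA) hK
  have m2 : (lw (Y.add A) (fun i => (Sum.inr (f i) : ι ⊕ β)) ls).m = lmark ((Y.add A).C Φ ε)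
      (Y.add A).m (range fun i => (Sum.inr (f i) : ι ⊕ β))
      (lw (Y.add A) (fun i => Sum.inr (f i)) ls).b :=
    funext fun x => (h.lmark_eq hs x).symm
  have hN₁ : NoDouble (Y.C Φ ε) (Y.C Φ ε) Y.m ∅ Y.b K 0 T := by
    intro t _ i _ _
    rw [inter_empty]
    exact subsingleton_empty
  have key := theta_infd_eq (a := 0) (T := T) (compat_whole hΦ hε) r1 r2 hN₁ hN
  rw [← m2, lmark_empty] at key
  rw [theta_whole (A := A) f hΦ hε]
  exact key.symm

include hΦ hε h hYA hY hA in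
/-- `≤ s` form. -/
theorem theta_add_iff (hK : ∀ i, (ls i).2 ≤ K)
    (hs : ∀ i, msize ((Y.add A).C Φ ε) (Y.add A).m (ls i).1.1 (Sum.inr (f i)) = (ls i).2)
    (hYo : Y.Ok Φ ε) (hYAo : (Y.add A).Ok Φ ε) (hYLo : (Y.add (MW.lines ls)).Ok Φ ε) {s T : ℝ}
    (h0 : 0 ≤ s) (hsT : s ≤ T)
    (hN : NoDouble ((Y.add A).C Φ ε) ((lw (Y.add A) (fun i => Sum.inr (f i)) ls).C Φ ε) (Y.add A).m
      (range fun i => (Sum.inr (f i) : ι ⊕ β)) (lw (Y.add A) (fun i => Sum.inr (f i)) ls).b K 0 s) :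
    Y.theta Φ ε K T (MW.lines ls) ≤ s ↔ Y.theta Φ ε K T A ≤ s := by
  rw [MW.theta_le_iff_horizon hΦ hε hYo hYLo h0 hsT le_rfl,
    MW.theta_le_iff_horizon hΦ hε hYo hYAo h0 hsT le_rfl,
    theta_add_eq hΦ hε h hYA hY hA hK hs hN]

include hΦ hε h hYA hY hA hK in
/-- **A part of the base world replaced by its lines**: the touch time can only decrease. -/
theorem theta_base_le
    (h₂ : FamIn Φ ε ((Y.add A).add B) (fun i => (Sum.inl (Sum.inr (f i)) : (ι ⊕ β) ⊕ γ)) ls)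
    (hYAB : BWorld Φ ε ((Y.add A).add B).b 0 (((Y.add A).add B).path Φ ε))
    (hB : ∀ x, 0 ≤ B.b x) (T : ℝ) :
    (Y.add (MW.lines ls)).theta Φ ε K T B ≤ (Y.add A).theta Φ ε K T B := by
  rw [← addW (A := A) f ls, theta_comap_left hΦ hε]
  exact theta_lw_le hΦ hε h h₂ hYA hYAB (b_add hY hA) hB hK T

include hΦ hε h hYA hY hA hK in
/-- **A part of the base world replaced by its lines**: equality. -/
theorem theta_base_eq
    (h₂ : FamIn Φ ε ((Y.add A).add B) (fun i => (Sum.inl (Sum.inr (f i)) : (ι ⊕ β) ⊕ γ)) ls)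
    (hYAB : BWorld Φ ε ((Y.add A).add B).b 0 (((Y.add A).add B).path Φ ε))
    (hB : ∀ x, 0 ≤ B.b x)
    (hs : ∀ i, msize ((Y.add A).C Φ ε) (Y.add A).m (ls i).1.1 (Sum.inr (f i)) = (ls i).2)
    (hs₂ : ∀ i, msize (((Y.add A).add B).C Φ ε) ((Y.add A).add B).m (ls i).1.1
      (Sum.inl (Sum.inr (f i))) = (ls i).2) {T : ℝ}
    (hN : NoDouble ((Y.add A).C Φ ε) ((lw (Y.add A) (fun i => Sum.inr (f i)) ls).C Φ ε) (Y.add A).m
      (range fun i => (Sum.inr (f i) : ι ⊕ β)) (lw (Y.add A) (fun i => Sum.inr (f i)) ls).b K 0 T)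
    (hN₂ : NoDouble (((Y.add A).add B).C Φ ε)
      (((lw (Y.add A) (fun i => Sum.inr (f i)) ls).add B).C Φ ε) ((Y.add A).add B).m
      (range fun i => (Sum.inl (Sum.inr (f i)) : (ι ⊕ β) ⊕ γ))
      ((lw (Y.add A) (fun i => Sum.inr (f i)) ls).add B).b K 0 T) :
    (Y.add (MW.lines ls)).theta Φ ε K T B = (Y.add A).theta Φ ε K T B := by
  rw [← addW (A := A) f ls, theta_comap_left hΦ hε]
  exact theta_lw_eq hΦ hε h h₂ hYA hYAB (b_add hY hA) hB hK hs hs₂ hN hN₂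

include hΦ hε h hY hA hK in
/-- `≤ s` form. -/
theorem theta_base_iff
    (h₂ : FamIn Φ ε ((Y.add A).add B) (fun i => (Sum.inl (Sum.inr (f i)) : (ι ⊕ β) ⊕ γ)) ls)
    (hB : ∀ x, 0 ≤ B.b x)
    (hs : ∀ i, msize ((Y.add A).C Φ ε) (Y.add A).m (ls i).1.1 (Sum.inr (f i)) = (ls i).2)
    (hs₂ : ∀ i, msize (((Y.add A).add B).C Φ ε) ((Y.add A).add B).m (ls i).1.1
      (Sum.inl (Sum.inr (f i))) = (ls i).2)
    (hYAo : (Y.add A).Ok Φ ε) (hYABo : ((Y.add A).add B).Ok Φ ε)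
    (hYLo : (Y.add (MW.lines ls)).Ok Φ ε) (hYLBo : ((Y.add (MW.lines ls)).add B).Ok Φ ε) {s T : ℝ}
    (h0 : 0 ≤ s) (hsT : s ≤ T)
    (hN : NoDouble ((Y.add A).C Φ ε) ((lw (Y.add A) (fun i => Sum.inr (f i)) ls).C Φ ε) (Y.add A).m
      (range fun i => (Sum.inr (f i) : ι ⊕ β)) (lw (Y.add A) (fun i => Sum.inr (f i)) ls).b K 0 s)
    (hN₂ : NoDouble (((Y.add A).add B).C Φ ε)
      (((lw (Y.add A) (fun i => Sum.inr (f i)) ls).add B).C Φ ε) ((Y.add A).add B).m
      (range fun i => (Sum.inl (Sum.inr (f i)) : (ι ⊕ β) ⊕ γ))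
      ((lw (Y.add A) (fun i => Sum.inr (f i)) ls).add B).b K 0 s) :
    (Y.add (MW.lines ls)).theta Φ ε K T B ≤ s ↔ (Y.add A).theta Φ ε K T B ≤ s := by
  rw [MW.theta_le_iff_horizon hΦ hε hYLo hYLBo h0 hsT le_rfl,
    MW.theta_le_iff_horizon hΦ hε hYAo hYABo h0 hsT le_rfl,
    theta_base_eq hΦ hε h hYAo.bw hY hA hK h₂ hYABo.bw hB hs hs₂ hN hN₂]

end theta

end

end Crest.Agent.R122.Ins45
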