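import Crest.Agent.R122.RealA_811
import Crest.Agent.R122.TreeIn2_45
import Crest.Agent.R122.PairSplit_292
import Crest.Agent.R122.RtGExit_302
import Crest.Agent.R122.CausalGen_291
import Crest.Agent.R122.EInf_879

/-!
# A real contact structure of inequality 3: the tree in the worlds of E6 (row 122), helper974

* `CutIn Φ ε W t v P z e` : in the world `W` the particles `e k` follow the tree `(P, z)` (valid at
  the horizon `t`) up to time `v` and up to their protected times, and are in contact only with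
  protected particles of the tree. `cutIn_cfg` : the gas, from `RealTree`; `CutIn.add` : stable under
  insertion of a world which does not influence the protected particles.
* `CutIn.treeIn`, `toRL` : the structures `TreeIn` of helper45 and helper811.
* `R6.in1`, `R6.in2`, `R6.in3`, `R6.ok1`, `R6.ok2`, `R6.ok3`, `tPK_append` : from `Real6` the tree is
  real in the worlds `w + V`, `w + d + V`, `w + d + V + e`, `V = treeW`.
-/

set_option autoImplicit false
set_option linter.unusedSectionVars false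

open MeasureTheory Set Filter Topology
open scoped ENNReal
open Crest.AnalysisR.Kinetic
open Crest.Agent.R122.Flow671 hiding rel
open Crest.Agent.R122.Loc45 Crest.Agent.R122.Causal291
open Crest.Agent.R122.Inf879 Crest.Agent.R122.EDefs602
open Crest.Agent.R122.Kin796 Crest.Agent.R122.Kin796.CTree Crest.Agent.R122.Tree674
open Crest.Agent.R122.TreeLines335 Crest.Agent.R122.GC311 Crest.Agent.R122.RealTree674
open Crest.Agent.R122.PathFlow968
open Crest.Agent.R122.Boost969 (LSt)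
open Crest.Agent.R122.Pair292 (Lab)
open Crest.Agent.R122.OneC285 (cfT rt cT)
open Crest.Agent.R122.PairD292

namespace Crest.Agent.R122.R6Tree974

noncomputable section

open scoped Classical

variable {α β : Type} [Fintype α] [Fintype β] {Φ : Space3 → ℝ} {ε t v : ℝ} {P : CTree}
  {z : PhasePoint × Par P}

/-- The tree `(P, z)` in the world `W`, up to time `v`. -/
structure CutIn (Φ : Space3 → ℝ) (ε : ℝ) (W : MW α) (t v : ℝ) (P : CTree)
    (z : PhasePoint × Par P) (e : Idx P → α) : Prop where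
  inj : Function.Injective e
  born : ∀ k, W.b (e k) = 0
  mark : ∀ k, W.m (e k) = 1
  agree : ∀ k u, 0 ≤ u → u ≤ v → u ≤ prot P t z.2 k →
    W.path Φ ε u (e k) = path Φ ε P z.1 z.2 u k
  closed : RtG302.Closed Φ ε (W.C Φ ε) P t z e v

theorem CutIn.mono {W : MW α} {e : Idx P → α} (h : CutIn Φ ε W t v P z e) {v' : ℝ}
    (hv : v' ≤ v) : CutIn Φ ε W t v' P z e where
  inj := h.inj
  born := h.born
  mark := h.mark
  agree k u h0 hu hk := h.agree k u h0 (hu.trans hv) hk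
  closed y s q h0 hs := h.closed y s q h0 (hs.trans hv)

/-- **The gas.** -/
theorem cutIn_cfg (hΦ : AdmissiblePotential Φ) (hε : 0 < ε) {n : ℕ} {X : Config n}
    (hX : X ∈ PairExcluded ε n) {i : Fin n} {e : Idx P → Fin n}
    (h : RealTree Φ ε t X i P z.1 z.2 e) : CutIn Φ ε (MW.cfg X) t t P z e where
  inj := h.inj
  born _ := rfl
  mark _ := rfl
  agree k u h0 _ hk := by
    rw [EBasic602.cfg_path hΦ hε]
    exact h.agree k u h0 hk
  closed y s q h0 hs hy hc := by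
    have hc' := (EBasic602.cfg_C_iff hΦ hε hX h0 _ _).1 hc
    have h1 : Past (Ct (pth Φ ε X) ε) t i s (e y) := (h.past s ⟨h0, hs⟩ _).2 ⟨y, rfl, hy⟩
    obtain ⟨m, hm, hm2⟩ := (h.past s ⟨h0, hs⟩ _).1 (h1.contact hc')
    refine ⟨m, hm.symm, hm2, ?_⟩
    have h2 : dist (pth Φ ε X s (e y)).1 (pth Φ ε X s q).1 ≤ ε := hc'
    rw [← hm, h.agree y s h0 hy, h.agree m s h0 hm2] at h2
    exact h2

/-- The past of a particle which is not influenced is not influenced. -/
theorem not_fut_of_past {W : MW α} {A : MW β} {i : α} (hi : ¬ W.Fut Φ ε A t i) {s : ℝ} {k : α}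
    (hp : Past (W.C Φ ε) t i s k) : ¬ W.Fut Φ ε A s k := by
  induction hp with
  | root hs => exact fun h => hi (CausalGen291.Fut.mono h hs)
  | @step s s' j k hj hc hs ih =>
    intro h
    refine ih ?_
    exact CausalGen291.Fut.chain₁ (CausalGen291.Fut.mono h hs) (MW.C_symm _ hc) le_rfl

/-- **Insertion of a world which does not influence the protected particles.** -/
theorem CutIn.add {W : MW α} {e : Idx P → α} (h : CutIn Φ ε W t v P z e)
    (hΦ : AdmissiblePotential Φ) (hε : 0 < ε) {A : MW β} (hW : W.Ok Φ ε) (hWA : (W.add A).Ok Φ ε)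
    (hf : ∀ s, 0 ≤ s → s ≤ v → ∀ k, s ≤ prot P t z.2 k → ¬ W.Fut Φ ε A s (e k)) :
    CutIn Φ ε (W.add A) t v P z (fun k => Sum.inl (e k)) where
  inj := Sum.inl_injective.comp h.inj
  born k := h.born k
  mark k := h.mark k
  agree k u h0 hu hk := by
    rw [← MW.path_eq_of_not_fut hΦ hε hW hWA h0 (hf u h0 hu k hk)]
    exact h.agree k u h0 hu hk
  closed y s q h0 hs hy hc := by
    obtain ⟨l, hl, -, hl2⟩ := CausalGen291.contact_of_not_fut₂
      ((MW.com_add W A).pair hΦ hε hW hWA s) ⟨h0, le_rfl⟩ (hf s h0 hs y hy) hc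
    obtain ⟨y', h1, h2, h3⟩ := h.closed y s l h0 hs hy hl2
    exact ⟨y', by rw [← hl, h1], h2, h3⟩

/-- The past of the root contains the protected particles. -/
theorem past_of_real (hΦ : AdmissiblePotential Φ) (hε : 0 < ε) {n : ℕ} {X : Config n}
    (hX : X ∈ PairExcluded ε n) {i : Fin n} {e : Idx P → Fin n}
    (h : RealTree Φ ε t X i P z.1 z.2 e) {s : ℝ} (h0 : 0 ≤ s) (hs : s ≤ t) {k : Idx P}
    (hk : s ≤ prot P t z.2 k) : Past ((MW.cfg X).C Φ ε) t i s (e k) :=
  (EBasic602.cfg_past_iff hΦ hε hX h0).2 ((h.past s ⟨h0, hs⟩ _).2 ⟨k, rfl, hk⟩)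

/-- **The gas and an inserted world which does not influence the root.** -/
theorem cutIn_cfg_add (hΦ : AdmissiblePotential Φ) (hε : 0 < ε) {n : ℕ} {X : Config n}
    (hX : X ∈ PairExcluded ε n) {i : Fin n} {e : Idx P → Fin n}
    (h : RealTree Φ ε t X i P z.1 z.2 e) {A : MW β} (hA : ((MW.cfg X).add A).Ok Φ ε)
    (hf : ¬ (MW.cfg X).Fut Φ ε A t i) :
    CutIn Φ ε ((MW.cfg X).add A) t t P z (fun k => Sum.inl (e k)) :=
  (cutIn_cfg hΦ hε hX h).add hΦ hε (Unw410.cfg_ok hΦ hε hX) hA fun _ h0 hs _ hk =>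
    not_fut_of_past hf (past_of_real hΦ hε hX h h0 hs hk)

/-- **Insertion of a world which has no contact before the time `v`.** -/
theorem CutIn.add_of_no_contact {W : MW α} {e : Idx P → α} (h : CutIn Φ ε W t v P z e)
    (hΦ : AdmissiblePotential Φ) (hε : 0 < ε) {A : MW β} (hW : W.Ok Φ ε) (hWA : (W.add A).Ok Φ ε)
    (hc : ∀ r ∈ Icc 0 v, ∀ x k, ¬ (W.add A).C Φ ε r (Sum.inr x) (Sum.inl k)) :
    CutIn Φ ε (W.add A) t v P z (fun k => Sum.inl (e k)) :=
  h.add hΦ hε hW hWA fun _ _ hs _ _ =>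
    MW.not_fut_of_no_contact hΦ hε (fun r hr => hc r ⟨hr.1, hr.2.trans hs⟩) _

/-! ### The structures of helper45 and helper811 -/

/-- **helper45's `TreeIn`.** -/
theorem CutIn.treeIn {W : MW α} {e : Idx P → α} (h : CutIn Φ ε W t v P z e)
    (hΦ : AdmissiblePotential Φ) (hε : 0 < ε) (ht : 0 < t) (hV : Valid Φ ε P t z.1.2 z.2)
    (hS : Sep Φ ε P t z.1 z.2) (hv : ∀ i, rel P z.2 i ≤ v) : Ins45.TreeIn Φ ε W P z e where
  inj := h.inj
  b := h.born
  m := h.mark
  agree i s h0 hs := h.agree i s h0 (hs.trans (hv i))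
    (hs.trans (Ins45.rel_le_prot hε.le ht hV.2 i))
  closed i s x hs hc := by
    have h0 : 0 ≤ s := by
      have h1 := MW.C_born hc
      rwa [h.born i] at h1
    have hst : s ≤ t := hs.trans (rel_lt hε.le ht hV.2 i).le
    obtain ⟨j, rfl, hj, hd⟩ := h.closed i s x h0 (hs.trans (hv i))
      (hs.trans (Ins45.rel_le_prot hε.le ht hV.2 i)) hc
    have hw := (ct_iff hΦ hε hV hS ⟨h0, hst⟩).1 hd
    refine ⟨j, rfl, ?_, hw⟩
    rcases hw with rfl | hw | hw
    · exact hs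
    · exact (Ins45.inWindow_rel hε.le hV.2 hw).2
    · exact (Ins45.inWindow_rel hε.le hV.2 hw).1

/-- **helper811's `TreeIn`** from helper45's, at every horizon. -/
theorem toRL {W : MW α} {e : Idx P → α} (h : Ins45.TreeIn Φ ε W P z e) (v : ℝ) :
    RealL811.TreeIn Φ ε W P z e v where
  inj := h.inj
  born := h.b
  one := h.m
  agree k u h0 _ hk := h.agree k u h0 hk
  sealed k u j _ _ hk hc := by
    obtain ⟨m, hm, hm2, _⟩ := h.closed k u j hk hc
    exact ⟨m, hm.symm, hm2⟩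

/-- Relabelling. -/
theorem treeIn_comap {W : MW α} {e : Idx P → α} (h : Ins45.TreeIn Φ ε W P z e)
    (hΦ : AdmissiblePotential Φ) (hε : 0 < ε) (g : β ≃ α) {f : Idx P → β}
    (hf : ∀ k, g (f k) = e k) : Ins45.TreeIn Φ ε (W.comap g) P z f where
  inj := by
    intro a b hab
    refine h.inj ?_
    rw [← hf, ← hf, hab]
  b k := by
    show W.b (g (f k)) = 0
    rw [hf]; exact h.b k
  m k := by
    show W.m (g (f k)) = 1
    rw [hf]; exact h.m k
  agree k u h0 hk := by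
    rw [EquivE416.path_comap hΦ hε]
    show W.path Φ ε u (g (f k)) = _
    rw [hf]
    exact h.agree k u h0 hk
  closed k s x hk hc := by
    rw [EquivE416.C_comap hΦ hε, hf] at hc
    obtain ⟨j, h1, h2, h3⟩ := h.closed k s (g x) hk hc
    refine ⟨j, g.injective ?_, h2, h3⟩
    rw [h1, hf]

/-! ### The worlds of E6 -/

section worlds

variable {m : ℕ} {w : Config m}

/-- Labels of `w + V`. -/
abbrev gE (P : CTree) (m : ℕ) : Fin m ⊕ Idx P ≃ Fin (P.leaves + m) :=
  Ins45.treeE m (Relabel674.eP P)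

/-- Labels of `w + d + V`. -/
def gE2 (P : CTree) (m : ℕ) : (Fin m ⊕ Unit) ⊕ Idx P ≃ Fin (P.leaves + m) ⊕ Unit :=
  (Equiv.sumAssoc (Fin m) Unit (Idx P)).trans <|
    (Equiv.sumCongr (Equiv.refl (Fin m)) (Equiv.sumComm Unit (Idx P))).trans <|
      (Equiv.sumAssoc (Fin m) (Idx P) Unit).symm.trans <|
        Equiv.sumCongr (gE P m) (Equiv.refl Unit)

/-- Labels of `w + d + V + e`. -/
def gE3 (P : CTree) (m : ℕ) :
    ((Fin m ⊕ Unit) ⊕ Idx P) ⊕ Unit ≃ (Fin (P.leaves + m) ⊕ Unit) ⊕ Unit :=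
  Equiv.sumCongr (gE2 P m) (Equiv.refl Unit)

theorem cfT_apply (Φ : Space3 → ℝ) (ε : ℝ) (P : CTree) (z : PhasePoint × Par P) (k : Idx P) :
    cfT Φ ε P z (Relabel674.eP P k) = lines Φ ε P z.1 z.2 k := by
  unfold cfT Relabel674.confOf
  simp

/-- `w + V` is the gas `V ++ w`, relabelled. -/
theorem comap1 : (MW.cfg (Fin.append (cfT Φ ε P z) w)).comap (gE P m) =
    (MW.cfg w).add (RealL811.treeW Φ ε P z) := by
  unfold MW.comap MW.add
  congr 1
  · funext x
    rcases x with x | x <;> rfl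
  · funext x
    rcases x with x | x
    · exact Fin.append_right _ w x
    · exact (Fin.append_left _ w (Relabel674.eP P x)).trans (cfT_apply Φ ε P z x)
  · funext x
    rcases x with x | x <;> rfl

/-- `w + d + V` is `(V ++ w) + d`, relabelled. -/
theorem comap2 (d : ML) : ((MW.cfg (Fin.append (cfT Φ ε P z) w)).ins d).comap (gE2 P m) =
    ((MW.cfg w).ins d).add (RealL811.treeW Φ ε P z) := by
  have h1 := comap1 (Φ := Φ) (ε := ε) (z := z) (w := w)
  have hb := congrArg MW.b h1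
  have hz := congrArg MW.z h1
  have hm := congrArg MW.m h1
  unfold MW.ins MW.comap
  rw [MW.mk.injEq]
  refine ⟨?_, ?_, ?_⟩
  · funext x
    rcases x with (x | x) | x
    · exact congrFun hb (Sum.inl x)
    · rfl
    · exact congrFun hb (Sum.inr x)
  · funext x
    rcases x with (x | x) | x
    · exact congrFun hz (Sum.inl x)
    · rfl
    · exact congrFun hz (Sum.inr x)
  · funext x
    rcases x with (x | x) | x
    · exact congrFun hm (Sum.inl x)
    · rfl
    · exact congrFun hm (Sum.inr x)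

/-- `w + d + V + e` is `(V ++ w) + d + e`, relabelled. -/
theorem comap3 (d e : ML) :
    (((MW.cfg (Fin.append (cfT Φ ε P z) w)).ins d).ins e).comap (gE3 P m) =
      (((MW.cfg w).ins d).add (RealL811.treeW Φ ε P z)).ins e := by
  rw [← comap2 d]
  exact (EquivE416.ins_comap _ e (gE2 P m)).symm

end worlds

/-! ### From `Real6` -/

section r6

variable {m K : ℕ} {w : Config m} {θ : Lab × LSt} {te T' : ℝ}

theorem R6.exX (h : Real6 Φ ε K te T' P z w θ) :
    (Fin.append (cfT Φ ε P z) w : Config (P.leaves + m)) ∈ PairExcluded ε (P.leaves + m) :=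
  (append_mem_pairExcluded_iff _ _).2 ⟨h.exV, h.exw, h.perp⟩

theorem R6.cT_pos (h : Real6 Φ ε K te T' P z w θ) : 0 < cT ε z (eL θ) := by
  have h1 := h.meet.lt
  rw [h.time] at h1
  exact h.okL.e0.trans h1

/-- Release times are before the contact. -/
theorem R6.rel_lt (hε : 0 < ε) (h : Real6 Φ ε K te T' P z w θ) (i : Idx P) :
    rel P z.2 i < cT ε z (eL θ) :=
  TreeLines335.rel_lt hε.le (R6.cT_pos h) h.real.valid.2 i

/-- The tree in the gas `V ++ w`. -/
theorem R6.cut1 (hΦ : AdmissiblePotential Φ) (hε : 0 < ε) (h : Real6 Φ ε K te T' P z w θ) :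
    CutIn Φ ε (MW.cfg (Fin.append (cfT Φ ε P z) w)) (cT ε z (eL θ)) (cT ε z (eL θ)) P z
      fun x => Fin.castAdd m (Relabel674.eP P x) :=
  cutIn_cfg hΦ hε (R6.exX h) h.real

/-- The tree in `(V ++ w) + d`. -/
theorem R6.cut2 (hΦ : AdmissiblePotential Φ) (hε : 0 < ε) (h : Real6 Φ ε K te T' P z w θ) :
    CutIn Φ ε ((MW.cfg (Fin.append (cfT Φ ε P z) w)).ins (dL θ)) (cT ε z (eL θ)) (cT ε z (eL θ)) P z
      fun x => Sum.inl (Fin.castAdd m (Relabel674.eP P x)) := by
  refine cutIn_cfg_add hΦ hε (R6.exX h) h.real h.okW.1 ?_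
  have h1 := h.meet.nofut
  rw [h.time] at h1
  exact h1

/-- `e` has no contact in `(V ++ w) + d + e` before `cT`. -/
theorem R6.no_contact (hΦ : AdmissiblePotential Φ) (hε : 0 < ε) (h : Real6 Φ ε K te T' P z w θ) :
    ∀ s k, s < cT ε z (eL θ) →
      ¬ (((MW.cfg (Fin.append (cfT Φ ε P z) w)).ins (dL θ)).ins (eL θ)).C Φ ε s (Sum.inr ())
        (Sum.inl k) := by
  refine Direct658.no_contact_of_far hΦ hε h.okW.1 h.okW.2 h.okL.e0.le ?_
  have h1 := h.meet.le
  rw [h.time] at h1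
  exact far_of_lt_mT2 (T := te) h.time.ge h1

/-- The tree in `(V ++ w) + d + e`, before the contact. -/
theorem R6.cut3 (hΦ : AdmissiblePotential Φ) (hε : 0 < ε) (h : Real6 Φ ε K te T' P z w θ)
    {v : ℝ} (hv : v < cT ε z (eL θ)) :
    CutIn Φ ε (((MW.cfg (Fin.append (cfT Φ ε P z) w)).ins (dL θ)).ins (eL θ)) (cT ε z (eL θ)) v P z
      fun x => Sum.inl (Sum.inl (Fin.castAdd m (Relabel674.eP P x))) :=
  ((R6.cut2 hΦ hε h).mono hv.le).add_of_no_contact hΦ hε h.okW.1 h.okW.2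
    fun r hr _ k => R6.no_contact hΦ hε h r k (hr.2.trans_lt hv)

theorem R6.exists_max (P : CTree) (z : PhasePoint × Par P) :
    ∃ i₀ : Idx P, ∀ i, rel P z.2 i ≤ rel P z.2 i₀ := by
  have : Nonempty (Idx P) := ⟨root P⟩
  exact Finite.exists_max (rel P z.2)

/-- **World `w + V`.** -/
theorem R6.in1 (hΦ : AdmissiblePotential Φ) (hε : 0 < ε) (h : Real6 Φ ε K te T' P z w θ) :
    Ins45.TreeIn Φ ε ((MW.cfg w).add (RealL811.treeW Φ ε P z)) P z Sum.inr := by
  rw [← comap1]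
  exact treeIn_comap ((R6.cut1 hΦ hε h).treeIn hΦ hε (R6.cT_pos h) h.real.valid h.real.sep
    fun i => (R6.rel_lt hε h i).le) hΦ hε (gE P m) fun _ => rfl

/-- **World `w + d + V`.** -/
theorem R6.in2 (hΦ : AdmissiblePotential Φ) (hε : 0 < ε) (h : Real6 Φ ε K te T' P z w θ) :
    Ins45.TreeIn Φ ε (((MW.cfg w).ins (dL θ)).add (RealL811.treeW Φ ε P z)) P z Sum.inr := by
  rw [← comap2]
  exact treeIn_comap ((R6.cut2 hΦ hε h).treeIn hΦ hε (R6.cT_pos h) h.real.valid h.real.sep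
    fun i => (R6.rel_lt hε h i).le) hΦ hε (gE2 P m) fun _ => rfl

/-- **World `w + V + d`.** -/
theorem R6.in2' (hΦ : AdmissiblePotential Φ) (hε : 0 < ε) (h : Real6 Φ ε K te T' P z w θ) :
    Ins45.TreeIn Φ ε (((MW.cfg w).add (RealL811.treeW Φ ε P z)).ins (dL θ)) P z
      fun k => Sum.inl (Sum.inr k) := by
  rw [← comap1, EquivE416.ins_comap]
  exact treeIn_comap ((R6.cut2 hΦ hε h).treeIn hΦ hε (R6.cT_pos h) h.real.valid h.real.sep
    fun i => (R6.rel_lt hε h i).le) hΦ hε _ fun _ => rfl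

/-- **World `w + d + V + e`.** -/
theorem R6.in3 (hΦ : AdmissiblePotential Φ) (hε : 0 < ε) (h : Real6 Φ ε K te T' P z w θ) :
    Ins45.TreeIn Φ ε ((((MW.cfg w).ins (dL θ)).add (RealL811.treeW Φ ε P z)).ins (eL θ)) P z
      fun k => Sum.inl (Sum.inr k) := by
  rw [← comap3]
  obtain ⟨i₀, hi₀⟩ := R6.exists_max P z
  exact treeIn_comap ((R6.cut3 hΦ hε h (R6.rel_lt hε h i₀)).treeIn hΦ hε (R6.cT_pos h)
    h.real.valid h.real.sep hi₀) hΦ hε (gE3 P m) fun _ => rfl

/-- **World `w + V + d + e`.** -/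
theorem R6.in3' (hΦ : AdmissiblePotential Φ) (hε : 0 < ε) (h : Real6 Φ ε K te T' P z w θ) :
    Ins45.TreeIn Φ ε ((((MW.cfg w).add (RealL811.treeW Φ ε P z)).ins (dL θ)).ins (eL θ)) P z
      fun k => Sum.inl (Sum.inl (Sum.inr k)) := by
  rw [← comap1, EquivE416.ins_comap, EquivE416.ins_comap]
  obtain ⟨i₀, hi₀⟩ := R6.exists_max P z
  exact treeIn_comap ((R6.cut3 hΦ hε h (R6.rel_lt hε h i₀)).treeIn hΦ hε (R6.cT_pos h)
    h.real.valid h.real.sep hi₀) hΦ hε _ fun _ => rfl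

/-- helper811's form, every horizon. -/
theorem R6.rl1 (hΦ : AdmissiblePotential Φ) (hε : 0 < ε) (h : Real6 Φ ε K te T' P z w θ) (v : ℝ) :
    RealL811.TreeIn Φ ε ((MW.cfg w).add (RealL811.treeW Φ ε P z)) P z Sum.inr v :=
  toRL (R6.in1 hΦ hε h) v

theorem R6.rl2 (hΦ : AdmissiblePotential Φ) (hε : 0 < ε) (h : Real6 Φ ε K te T' P z w θ) (v : ℝ) :
    RealL811.TreeIn Φ ε (((MW.cfg w).ins (dL θ)).add (RealL811.treeW Φ ε P z)) P z Sum.inr v :=
  toRL (R6.in2 hΦ hε h) v

theorem R6.rl2' (hΦ : AdmissiblePotential Φ) (hε : 0 < ε) (h : Real6 Φ ε K te T' P z w θ) (v : ℝ) :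
    RealL811.TreeIn Φ ε (((MW.cfg w).add (RealL811.treeW Φ ε P z)).ins (dL θ)) P z
      (fun k => Sum.inl (Sum.inr k)) v :=
  toRL (R6.in2' hΦ hε h) v

theorem R6.rl3 (hΦ : AdmissiblePotential Φ) (hε : 0 < ε) (h : Real6 Φ ε K te T' P z w θ) (v : ℝ) :
    RealL811.TreeIn Φ ε ((((MW.cfg w).ins (dL θ)).add (RealL811.treeW Φ ε P z)).ins (eL θ)) P z
      (fun k => Sum.inl (Sum.inr k)) v :=
  toRL (R6.in3 hΦ hε h) v

theorem R6.ok3' (hΦ : AdmissiblePotential Φ) (hε : 0 < ε) (h : Real6 Φ ε K te T' P z w θ) :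
    ((((MW.cfg w).add (RealL811.treeW Φ ε P z)).ins (dL θ)).ins (eL θ)).Ok Φ ε := by
  rw [← comap1, EquivE416.ins_comap, EquivE416.ins_comap]
  exact MWFam255.Ok.relabel hΦ hε h.okW.2 _

theorem R6.ok1 (hΦ : AdmissiblePotential Φ) (hε : 0 < ε) (h : Real6 Φ ε K te T' P z w θ) :
    ((MW.cfg w).add (RealL811.treeW Φ ε P z)).Ok Φ ε := by
  rw [← comap1]
  exact MWFam255.Ok.relabel hΦ hε (Unw410.cfg_ok hΦ hε (R6.exX h)) _

theorem R6.ok2 (hΦ : AdmissiblePotential Φ) (hε : 0 < ε) (h : Real6 Φ ε K te T' P z w θ) :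
    (((MW.cfg w).ins (dL θ)).add (RealL811.treeW Φ ε P z)).Ok Φ ε := by
  rw [← comap2]
  exact MWFam255.Ok.relabel hΦ hε h.okW.1 _

theorem R6.ok2' (hΦ : AdmissiblePotential Φ) (hε : 0 < ε) (h : Real6 Φ ε K te T' P z w θ) :
    (((MW.cfg w).add (RealL811.treeW Φ ε P z)).ins (dL θ)).Ok Φ ε := by
  rw [← comap1, EquivE416.ins_comap]
  exact MWFam255.Ok.relabel hΦ hε h.okW.1 _

theorem R6.ok3 (hΦ : AdmissiblePotential Φ) (hε : 0 < ε) (h : Real6 Φ ε K te T' P z w θ) :
    ((((MW.cfg w).ins (dL θ)).add (RealL811.treeW Φ ε P z)).ins (eL θ)).Ok Φ ε := by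
  rw [← comap3]
  exact MWFam255.Ok.relabel hΦ hε h.okW.2 _

/-- The gas `w` alone. -/
theorem R6.ok0 (hΦ : AdmissiblePotential Φ) (hε : 0 < ε) (h : Real6 Φ ε K te T' P z w θ) :
    (MW.cfg w).Ok Φ ε := Unw410.cfg_ok hΦ hε h.exw

/-- **The pair functional in the world `w + V`.** -/
theorem tPK_append (hΦ : AdmissiblePotential Φ) (hε : 0 < ε) (Q : EPar) :
    tPK Φ ε K Q (Fin.append (cfT Φ ε P z) w) θ = if OkL K θ then
      ((MW.cfg w).add (RealL811.treeW Φ ε P z)).touchP Φ ε K Q (dL θ) (eL θ) else 0 := by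
  unfold tPK
  rw [← comap1, EquivE416.touchP_comap hΦ hε]

/-- The two orders of insertion. -/
theorem relW (hΦ : AdmissiblePotential Φ) (hε : 0 < ε) (d : ML) (T : ℝ) :
    Decomp811.RelW Φ ε K T (MW.cfg w) (RealL811.treeW Φ ε P z) d := by
  intro l
  rw [← comap2, ← comap1, EquivE416.ins_comap, EquivE416.thetaL_comap hΦ hε,
    EquivE416.thetaL_comap hΦ hε]

end r6

end

end Crest.Agent.R122.R6Tree974
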