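import Crest.Agent.R122.Good4One_45

/-!
# The one-contact lemma for a real tree in a general marked world (row 122, helper796)

General version of helper45's `Good4One_45`: the real world `X` is an arbitrary marked world in which
the particles `f k` follow the tree `(P, z)`.

* `RealIn Φ ε s X W P z f` : `X` good, the particles `f k` follow the tree `(P, z)` up to their
  release times, the root is far from everybody between its release and the time `s`; `W` is the
  world `X` with the particles `f k` replaced by the marked lines `lineML`.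
* `EncE Φ ε R Z₀ ℓ s q` : good encounter with the root line `ℓ` in the world `Z₀` (= `W` without the
  root line).
* `RealIn.okLn`, `okLn_ins` : good worlds; `RealIn.goodEnc` : `GoodEnc` in `W`; `RealIn.hit`,
  `outL_eq`, `outC_eq`; `RealIn.one` : the one-contact inequality (1.6) for the real world `X`.
-/

set_option autoImplicit false
set_option linter.unusedSectionVars false

open MeasureTheory Set Filter Topology
open scoped ENNReal
open Crest.AnalysisR.Kinetic
open Crest.Agent.R122.Flow671 hiding rel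
open Crest.Agent.R122.Loc45 Crest.Agent.R122.Causal291 Crest.Agent.R122.MWAlg255
open Crest.Agent.R122.Inf879 Crest.Agent.R122.EDefs602 Crest.Agent.R122.Lines255
open Crest.Agent.R122.Kin796 Crest.Agent.R122.Kin796.CTree Crest.Agent.R122.Tree674
open Crest.Agent.R122.PathFlow968 Crest.Agent.R122.TreeLines335 Crest.Agent.R122.Relabel674
open Crest.Agent.R122.GC311 Crest.Agent.R122.Line285
open Crest.Agent.R122.Scat818 Crest.Agent.R122.OCout796 Crest.Agent.R122.Ins45
open Crest.Agent.R122.OneC285 (cT cB cD cX)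

namespace Crest.Agent.R122.One796

noncomputable section

open scoped Classical

/-- The instance used by the general theorems. -/
local instance (priority := 2000) othFintype {α : Type} [Fintype α] (c : α) : Fintype (Oth c) :=
  Subtype.fintype fun k => k ≠ c

variable {α γ : Type} [Fintype α] [Fintype γ] {Φ : Space3 → ℝ} {ε s : ℝ}
  {P : CTree} {z : PhasePoint × Par P} {X W : MW α} {f : Idx P → α} {l : ML} {K : ℕ}

/-- A real tree in a general world; `W` is the world with the lines of the tree. -/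
structure RealIn (Φ : Space3 → ℝ) (ε s : ℝ) (X W : MW α) (P : CTree) (z : PhasePoint × Par P)
    (f : Idx P → α) : Prop where
  lines : lw X f (lineML Φ ε P z) = W
  ok : X.Ok Φ ε
  b0 : ∀ x, 0 ≤ X.b x
  pos : 0 < s
  valid : Valid Φ ε P s z.1.2 z.2
  tree : TreeIn Φ ε X P z f
  far : ∀ t, rel P z.2 (root P) < t → t ≤ s → ∀ x, x ≠ f (root P) → X.b x ≤ t →
    ε < dist (X.path Φ ε t (f (root P))).1 (X.path Φ ε t x).1

namespace RealIn

variable (h : RealIn Φ ε s X W P z f) (hΦ : AdmissiblePotential Φ) (hε : 0 < ε)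

include h hε in
theorem rel_lt (i : Idx P) : rel P z.2 i < s := TreeLines335.rel_lt hε.le h.pos h.valid.2 i

include h hε in
theorem famIn : FamIn Φ ε X f (lineML Φ ε P z) := h.tree.famIn hε h.valid

include h in
theorem W_b (i : Idx P) : W.b (f i) = rel P z.2 i := by
  rw [← h.lines, lw_b h.tree.inj]
  rfl

include h in
theorem W_m (i : Idx P) : W.m (f i) = (lineML Φ ε P z i).2 := by
  rw [← h.lines, lw_m h.tree.inj]

include h in
theorem W_z (i : Idx P) : W.z (f i) = back (lineML Φ ε P z i).1 := by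
  rw [← h.lines, lw_z h.tree.inj]

include h in
theorem W_b_off {x : α} (hx : x ∉ range f) : W.b x = X.b x := by
  rw [← h.lines, lw_b_off hx]

include h hε in
theorem X_b_le (x : α) : X.b x ≤ W.b x := by
  rw [← h.lines]
  exact (h.famIn hε).b_le x

include h hε in
theorem W_nonneg (x : α) : 0 ≤ W.b x := (h.b0 x).trans (h.X_b_le hε x)

include h hε in
/-- Particles which are born late are not lines of the tree. -/
theorem not_mem_of_le {x : α} (hx : s ≤ W.b x) : x ∉ range f := by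
  rintro ⟨i, rfl⟩
  rw [h.W_b] at hx
  exact absurd hx (not_le.2 (h.rel_lt hε i))

include h hΦ hε in
/-- Paths of the world with lines: born particles have their real states. -/
theorem path_ln {t : ℝ} (ht : 0 ≤ t) {x : α} (hx : W.b x ≤ t) :
    W.path Φ ε t x = X.path Φ ε t x := by
  have h1 := h.famIn hε
  rw [← h.lines] at hx ⊢
  exact h1.path_eq hΦ hε h.ok.bw ht hx

include h hΦ hε in
/-- Contacts of the world with lines are real contacts. -/
theorem C_ln {t : ℝ} {x y : α} (hc : W.C Φ ε t x y) : X.C Φ ε t x y := by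
  have h1 := h.famIn hε
  rw [← h.lines] at hc
  exact h1.C_sub hΦ hε h.ok.bw h.b0 hc

include h hΦ hε in
/-- The root line has no contact up to the time at which the root is seen. -/
theorem root_free {t : ℝ} (hts : t ≤ s) {x : α} (hc : W.C Φ ε t (f (root P)) x) :
    x = f (root P) := by
  have hct := h.C_ln hΦ hε hc
  have h1 : rel P z.2 (root P) ≤ t := by
    have := MW.C_born hc
    rwa [h.W_b] at this
  by_contra hne
  rcases eq_or_lt_of_le h1 with h2 | h2
  · obtain ⟨j, hj, hjt, -⟩ := h.tree.closed (root P) t x h2.ge hct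
    subst hj
    have h3 : rel P z.2 j = t := by
      have := MW.C_born' hc
      rw [h.W_b] at this
      exact le_antisymm this hjt
    rcases hc.2.2.1 with h4 | h4 | h4
    · exact hne h4.symm
    · rw [h.W_b] at h4
      exact absurd h4 (not_lt.2 h2.ge)
    · rw [h.W_b] at h4
      exact absurd h4 (not_lt.2 h3.ge)
  · exact absurd hct.2.2.2 (not_le.2 (h.far t h2 hts x hne (MW.C_born' hct)))

/-! ### Good worlds -/

variable {Z₀ : MW γ} {G : γ ≃ Oth (f (root P))}

include h hΦ hε in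
theorem bw_ln : BWorld Φ ε W.b 0 (W.path Φ ε) := by
  have h1 := (h.famIn hε).bw hΦ hε h.ok.bw
  rw [h.lines] at h1
  exact h1

include h hΦ hε in
/-- The world with lines is good if the world with the exits is good. -/
theorem okLn (hG : (rest W (f (root P))).comap G = Z₀) (hOk : Z₀.Ok Φ ε) : W.Ok Φ ε := by
  have hbw : BWorld Φ ε W.b 0 (W.path Φ ε) := h.bw_ln hΦ hε
  have hR : (rest W (f (root P))).Ok Φ ε := ok_of_comap hΦ hε G hG hOk
  have hb0 : ∀ x, 0 ≤ W.b x := h.W_nonneg hε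
  -- before `s` the other particles have in `rest` their paths of `W`
  have hrest : ∀ t ∈ Icc 0 s, ∀ x : Oth (f (root P)),
      (rest W (f (root P))).path Φ ε t x = W.path Φ ε t x := by
    intro t ht x
    refine BWorld.agree_own hΦ hε hR.bw hbw (e := (id : Oth _ → Oth _)) (f := Subtype.val)
      Function.injective_id Subtype.val_injective (S := univ) (A := ∅) (a := 0) (T := s) le_rfl
      le_rfl (fun _ _ _ _ => Iff.rfl) (fun _ h => absurd h (notMem_empty _)) ?_ ?_ ?_ x
      (mem_univ x) t ht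
    · intro m _
      rw [MW.path_zero hΦ hε, MW.path_zero hΦ hε]
      rfl
    · intro _ _ _ _ _ j _ hj
      exact absurd rfl (hj j (Or.inl (mem_univ j)))
    · intro r hr' m _ hm y hy hne
      by_cases hyc : y = f (root P)
      · subst hyc
        refine hbw.le_dist_of_not_ctB hr'.1 hr'.2 hm hy fun r' hr'' hc => ?_
        exact m.2 (h.root_free hΦ hε hr''.2.le (MW.C_symm _ hc))
      · exact absurd rfl (hne ⟨y, hyc⟩ (Or.inl (mem_univ _)))
  -- pairs with the root
  have hrs := h.rel_lt hε (root P)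
  have hroot : ∀ y, y ≠ f (root P) → W.b y = W.b (f (root P)) →
      ∃ δ > 0, ∀ t, W.b y < t → t < W.b y + δ →
        ε < dist (W.path Φ ε t (f (root P))).1 (W.path Φ ε t y).1 := by
    intro y hy hby
    have h3 : W.b (f (root P)) = rel P z.2 (root P) := h.W_b _
    have hys : W.b y < s := by rw [hby, h3]; exact hrs
    refine ⟨s - W.b y, by linarith, fun t h1 h2 => ?_⟩
    have h0 : 0 ≤ t := (hb0 y).trans h1.le
    rw [h.path_ln hΦ hε h0 (x := f (root P)) (by rw [← hby]; exact h1.le),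
      h.path_ln hΦ hε h0 h1.le]
    refine h.far t ?_ (by linarith) _ hy ((h.X_b_le hε y).trans h1.le)
    rw [← h3, ← hby]
    exact h1
  refine ⟨hbw, fun x y hxy hb => ?_⟩
  by_cases hx : x = f (root P)
  · subst hx
    obtain ⟨δ, hδ, h1⟩ := hroot y (Ne.symm hxy) hb.symm
    refine ⟨δ, hδ, fun t ht1 ht2 => h1 t ?_ ?_⟩
    · rw [← hb]; exact ht1
    · rw [← hb]; exact ht2
  by_cases hy : y = f (root P)
  · subst hy
    obtain ⟨δ, hδ, h1⟩ := hroot x hx hb
    refine ⟨δ, hδ, fun t ht1 ht2 => ?_⟩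
    rw [dist_comm]
    exact h1 t ht1 ht2
  rcases lt_or_ge (W.b x) s with hxs | hxs
  · obtain ⟨δ, hδ, h1⟩ := hR.sep ⟨x, hx⟩ ⟨y, hy⟩ (fun h => hxy (congrArg Subtype.val h)) hb
    refine ⟨min δ (s - W.b x), lt_min hδ (by linarith), fun t ht1 ht2 => ?_⟩
    have ht3 : t < s := by
      have := ht2.trans_le (add_le_add le_rfl (min_le_right δ (s - W.b x)))
      linarith
    have ht : t ∈ Icc 0 s := ⟨(hb0 x).trans ht1.le, ht3.le⟩
    have h2 := h1 t ht1 (ht2.trans_le (add_le_add le_rfl (min_le_left δ (s - W.b x))))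
    rw [hrest t ht, hrest t ht] at h2
    exact h2
  · -- late births: both are base particles
    have hx' := h.W_b_off (h.not_mem_of_le hε hxs)
    have hy' := h.W_b_off (h.not_mem_of_le hε (hb ▸ hxs))
    obtain ⟨δ, hδ, h1⟩ := h.ok.sep x y hxy (by rw [← hx', ← hy']; exact hb)
    refine ⟨δ, hδ, fun t ht1 ht2 => ?_⟩
    have h0 : 0 ≤ t := (hb0 _).trans ht1.le
    rw [h.path_ln hΦ hε h0 ht1.le, h.path_ln hΦ hε h0 (x := y) (by rw [← hb]; exact ht1.le)]
    exact h1 t (by rw [← hx']; exact ht1) (by rw [← hx']; exact ht2)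

include h hΦ hε in
/-- Real tree after insertion of a free line. -/
theorem tree_ins (hl : 0 ≤ l.1.1) (hF : FreeFarW Φ ε X l s) (hXl : (X.ins l).Ok Φ ε) :
    TreeIn Φ ε (X.ins l) P z fun i => Sum.inl (f i) where
  inj := Sum.inl_injective.comp h.tree.inj
  b := h.tree.b
  m := h.tree.m
  agree i t h0 ht := by
    rw [(hF.path_ins hΦ hε h.ok hXl ⟨h0, ht.trans (h.rel_lt hε i).le⟩).2 (f i)]
    exact h.tree.agree i t h0 ht
  closed i t x ht hc := by
    have h0 : 0 ≤ t := by
      have h1 : (X.ins l).b (Sum.inl (f i)) ≤ t := MW.C_born hc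
      have h2 : (X.ins l).b (Sum.inl (f i)) = X.b (f i) := rfl
      rwa [h2, h.tree.b i] at h1
    have hts : t < s := ht.trans_lt (h.rel_lt hε i)
    rcases x with x | u
    · have hp := (hF.path_ins hΦ hε h.ok hXl ⟨h0, hts.le⟩).2
      have hc' : X.C Φ ε t (f i) x := by
        obtain ⟨c1, c2, c3, c4⟩ := hc
        refine ⟨c1, c2, ?_, ?_⟩
        · rcases c3 with c3 | c3
          · exact Or.inl (Sum.inl_injective c3)
          · exact Or.inr c3
        · rw [hp, hp] at c4
          exact c4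
      obtain ⟨j, rfl, hj⟩ := h.tree.closed i t x ht hc'
      exact ⟨j, rfl, hj⟩
    · exact absurd (MW.C_symm _ hc) (hF.not_C hΦ hε h.ok hXl hl hts (f i))

include h in
theorem lines_ins (l : ML) : lw (X.ins l) (fun i => Sum.inl (f i)) (lineML Φ ε P z) = W.ins l := by
  have h1 := lw_add (Z := X) (ls := lineML Φ ε P z) h.tree.inj (MW.line l)
  rw [h.lines] at h1
  exact h1

include h hΦ hε in
/-- The world with lines and `l` is good. -/
theorem okLn_ins (hOk : W.Ok Φ ε) (hl : 0 ≤ l.1.1) (hls : l.1.1 < s)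
    (hF : FreeFarW Φ ε X l s) (hXl : (X.ins l).Ok Φ ε) : (W.ins l).Ok Φ ε := by
  have h2 := (h.tree_ins hΦ hε hl hF hXl).famIn hε h.valid
  have e2 := h.lines_ins l
  have hbw2 := h2.bw hΦ hε hXl.bw
  rw [e2] at hbw2
  have hpath2 : ∀ t, 0 ≤ t → ∀ x, (W.ins l).b x ≤ t → (W.ins l).path Φ ε t x =
      (X.ins l).path Φ ε t x := by
    intro t ht x hx
    rw [← e2] at hx ⊢
    exact h2.path_eq hΦ hε hXl.bw ht hx
  have hb0 : ∀ x, 0 ≤ (W.ins l).b x := by
    rintro (x | x)
    · exact h.W_nonneg hε x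
    · exact hl
  have hpi := fun (t : ℝ) (ht : t ∈ Icc 0 s) => hF.path_ins hΦ hε h.ok hXl ht
  -- pairs with the inserted line
  have hnew : ∀ x : α, W.b x = l.1.1 → ∃ δ > 0, ∀ t, l.1.1 < t → t < l.1.1 + δ →
      ε < dist ((W.ins l).path Φ ε t (Sum.inr ())).1 ((W.ins l).path Φ ε t (Sum.inl x)).1 := by
    intro x hx
    refine ⟨s - l.1.1, by linarith, fun t ht1 ht2 => ?_⟩
    have ht : t ∈ Icc 0 s := ⟨hl.trans ht1.le, by linarith⟩
    have hxt : W.b x ≤ t := by rw [hx]; exact ht1.le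
    rw [hpath2 t ht.1 (Sum.inr ()) ht1.le, hpath2 t ht.1 (Sum.inl x) hxt,
      (hpi t ht).1, (hpi t ht).2]
    exact hF t _ ht1.le (by linarith) ((h.X_b_le hε x).trans hxt) (Or.inr ht1)
  refine ⟨hbw2, ?_⟩
  rintro (x | x) (y | y) hxy hb
  · have hbx : (W.ins l).b (Sum.inl x) = W.b x := rfl
    have hbb : W.b x = W.b y := hb
    have hxyn : x ≠ y := fun h => hxy (by rw [h])
    rcases lt_or_ge (W.b x) s with hbs | hbs
    · obtain ⟨δ, hδ, h4⟩ := hOk.sep x y hxyn hb
      refine ⟨min δ (s - W.b x), lt_min hδ (by linarith), fun t ht1 ht2 => ?_⟩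
      rw [hbx] at ht1 ht2
      have ht3 : t < s := by
        have := ht2.trans_le (add_le_add le_rfl (min_le_right δ (s - W.b x)))
        linarith
      have ht : t ∈ Icc 0 s := ⟨(hb0 (Sum.inl x)).trans ht1.le, ht3.le⟩
      have hty : W.b y ≤ t := by rw [← hbb]; exact ht1.le
      have h5 := h4 t ht1 (ht2.trans_le (add_le_add le_rfl (min_le_left δ (s - W.b x))))
      rw [hpath2 t ht.1 (Sum.inl x) ht1.le, hpath2 t ht.1 (Sum.inl y) hty,
        (hpi t ht).2, (hpi t ht).2]
      rw [h.path_ln hΦ hε ht.1 ht1.le, h.path_ln hΦ hε ht.1 hty] at h5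
      exact h5
    · -- late births
      have hx' := h.W_b_off (h.not_mem_of_le hε hbs)
      have hy' := h.W_b_off (h.not_mem_of_le hε (hbb ▸ hbs))
      obtain ⟨δ, hδ, h1⟩ := hXl.sep (Sum.inl x) (Sum.inl y) hxy (by
        change X.b x = X.b y
        rw [← hx', ← hy']
        exact hb)
      refine ⟨δ, hδ, fun t ht1 ht2 => ?_⟩
      have h0 : 0 ≤ t := (hb0 _).trans ht1.le
      rw [hpath2 t h0 _ ht1.le, hpath2 t h0 (Sum.inl y) (by rw [← hb]; exact ht1.le)]
      refine h1 t ?_ ?_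
      · change X.b x < t
        rw [← hx']; exact ht1
      · change t < X.b x + δ
        rw [← hx']; exact ht2
  · obtain ⟨δ, hδ, h4⟩ := hnew x hb
    have hbx : (W.ins l).b (Sum.inl x) = l.1.1 := hb
    refine ⟨δ, hδ, fun t ht1 ht2 => ?_⟩
    rw [hbx] at ht1 ht2
    rw [dist_comm]
    exact h4 t ht1 ht2
  · obtain ⟨δ, hδ, h4⟩ := hnew y hb.symm
    exact ⟨δ, hδ, fun t ht1 ht2 => h4 t ht1 ht2⟩
  · exact absurd rfl hxy

/-! ### The state of the root -/

include h hΦ hε in
/-- The root is on its line between its release and the time `s`. -/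
theorem state_root (hOk : W.Ok Φ ε) :
    W.path Φ ε s (f (root P)) = (z.1.1 + s • z.1.2, z.1.2) := by
  have h1 := path_line_of_free (s := s) (c := f (root P))
    (cl := lineML Φ ε P z (root P)) hΦ hε hOk ⟨h.W_b _, h.W_z _, h.W_m _⟩
    (fun t k ht hc => h.root_free hΦ hε ht.le hc) ⟨h.pos.le, le_rfl⟩
  rw [h1]
  unfold lineAt lineML
  rw [fin_root]
  refine Prod.ext ?_ rfl
  simp only [onLine]
  rw [sub_smul]
  abel

end RealIn

/-! ### Good encounters -/

/-- The encounter with the root line `ℓ` is good: it is a passage, it lasts at most `R ε`, the relative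
displacement is at most `R ε`, no other born particle of `Z₀` is within `(R + 2) ε` of the
undeflected root during it, nobody is born at its end. -/
structure EncE (Φ : Space3 → ℝ) (ε R : ℝ) (Z₀ : MW γ) (ℓ : PhasePoint) (s : ℝ) (q : CD) :
    Prop where
  pass : CDpass Φ q
  tau : tauM Φ (relB q) ≤ R
  disp : tauM Φ (relB q) * ‖(relB q).2‖ ≤ R
  far : ∀ t, s ≤ t → t ≤ s + ε * R → ∀ x, Z₀.b x ≤ t →
    (R + 2) * ε < dist (Z₀.path Φ ε t x).1 (ℓ.1 + t • ℓ.2)
  noborn : ∀ x, Z₀.b x ≠ s + outT Φ ε q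

theorem EncE.nonneg {R : ℝ} {Z₀ : MW γ} {ℓ : PhasePoint} {q : CD}
    (h : EncE Φ ε R Z₀ ℓ s q) : 0 ≤ R := h.pass.hasExit.1.le.trans h.tau

/-- State of the test line at the contact. -/
theorem state_l (hε : 0 < ε) (z : PhasePoint × Par P) (l : ML) :
    lineAt l.1.1 l.1.2 (cT ε z l) =
    (cX ε z l + ε • entrancePoint (relB (cD ε z l)).1 (relB (cD ε z l)).2, (cD ε z l).1) := by
  have h1 := OC663.ent_pos hε (OneC423.relL z.1 l.1)
  refine Prod.ext ?_ rfl
  rw [← lpos_eq]
  have h2 : (OneC423.relL z.1 l.1).1 = (back l.1).1 - z.1.1 := rfl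
  have h3 : (OneC423.relL z.1 l.1).2 = l.1.2.2 - z.1.2 := rfl
  rw [h2, h3] at h1
  change (back l.1).1 + cT ε z l • l.1.2.2 = z.1.1 + cT ε z l • z.1.2 +
    ε • entrancePoint (cB ε z l) (l.1.2.2 - z.1.2)
  rw [show entrancePoint (cB ε z l) (l.1.2.2 - z.1.2) =
    entrancePoint (OC663.entB ε (OneC423.relL z.1 l.1)) (l.1.2.2 - z.1.2) from rfl, ← h1]
  change (back l.1).1 + cT ε z l • l.1.2.2 = z.1.1 + cT ε z l • z.1.2 +
    ((back l.1).1 - z.1.1 + cT ε z l • (l.1.2.2 - z.1.2))
  rw [smul_sub]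
  abel

namespace RealIn

variable {Z₀ : MW γ} {G : γ ≃ Oth (f (root P))} {R : ℝ}
  (h : RealIn Φ ε (cT ε z l) X W P z f) (hΦ : AdmissiblePotential Φ) (hε : 0 < ε)
  (hG : (rest W (f (root P))).comap G = Z₀)

include h in
theorem m_root : W.m (f (root P)) = P.leaves := by
  rw [h.W_m]
  exact mk_root P

include h hΦ hε hG in
/-- **The encounter in the world with the lines of the tree.** -/
theorem goodEnc (hOk : Z₀.Ok Φ ε) (hl : 0 ≤ l.1.1) (hls : l.1.1 < cT ε z l)
    (hF : FreeFarW Φ ε X l (cT ε z l)) (hE : EncE Φ ε R Z₀ z.1 (cT ε z l) (cD ε z l)) :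
    GoodEnc Φ ε W l (f (root P)) (cT ε z l) (cX ε z l) (cD ε z l) ∧
    UnIso Φ ε W (f (root P)) (cT ε z l)
      (cT ε z l + outT Φ ε (cD ε z l)) (cX ε z l, (cD ε z l).2.1) := by
  have hR := hE.nonneg
  have hZ := h.okLn hΦ hε hG hOk
  -- distance to the others during the encounter
  have hfar : ∀ t (k : Oth (f (root P))), cT ε z l ≤ t →
      t ≤ cT ε z l + outT Φ ε (cD ε z l) → W.b k ≤ t →
      (R + 2) * ε < dist ((rest W (f (root P))).path Φ ε t k).1
        (cX ε z l + (t - cT ε z l) • (cD ε z l).2.1) := by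
    intro t k ht ht' hk
    obtain ⟨x, rfl⟩ := G.surjective k
    have h1 : t ≤ cT ε z l + ε * R := by
      have h2 : outT Φ ε (cD ε z l) = ε * tauM Φ (relB (cD ε z l)) := rfl
      have h3 := mul_le_mul_of_nonneg_left hE.tau hε.le
      linarith
    have h4 := hE.far t ht h1 x
    rw [← hG] at h4
    rw [path_comap hΦ hε] at h4
    have h5 := h4 hk
    have h6 : cX ε z l + (t - cT ε z l) • (cD ε z l).2.1 = z.1.1 + t • z.1.2 := by
      change z.1.1 + cT ε z l • z.1.2 + (t - cT ε z l) • z.1.2 = _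
      rw [sub_smul]
      abel
    rw [h6]
    exact h5
  have hmul : (1 + R / 2) * ε + ε ≤ (R + 2) * ε := by nlinarith
  refine ⟨⟨hl, h.W_nonneg hε, hls, ?_, hE.pass, state_l hε z l, ?_, ?_, ?_, ?_,
    ?_, ?_⟩, ?_⟩
  · rw [h.W_b]
    exact (h.rel_lt hε _).le
  · -- state of the root
    exact h.state_root hΦ hε hZ
  · -- the free line before the contact
    intro t x ht hts hx hlt
    have ht0 : 0 ≤ t := hl.trans ht
    rw [h.path_ln hΦ hε ht0 hx]
    exact hF t x ht hts ((h.X_b_le hε x).trans hx)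
      (hlt.imp (fun h' => (h.X_b_le hε x).trans_lt h') id)
  · intro t x ht hc
    exact h.root_free hΦ hε ht hc
  · intro t k ht ht' hk
    have h1 := hfar t k ht ht' hk
    have h2 := enc_near_l (y := cX ε z l) hΦ hε hE.pass hE.disp ht ht'
    have h3 := dist_triangle ((rest W (f (root P))).path Φ ε t k).1
      (encPL Φ ε (cT ε z l) (cX ε z l) (cD ε z l) t).1
      (cX ε z l + (t - cT ε z l) • (cD ε z l).2.1)
    have h4 := dist_comm ((rest W (f (root P))).path Φ ε t k).1
      (encPL Φ ε (cT ε z l) (cX ε z l) (cD ε z l) t).1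
    linarith
  · intro t k ht ht' hk
    have h1 := hfar t k ht ht' hk
    have h2 := enc_near_c (y := cX ε z l) hΦ hε hE.pass hE.disp ht ht'
    have h3 := dist_triangle ((rest W (f (root P))).path Φ ε t k).1
      (encPC Φ ε (cT ε z l) (cX ε z l) (cD ε z l) t).1
      (cX ε z l + (t - cT ε z l) • (cD ε z l).2.1)
    have h4 := dist_comm ((rest W (f (root P))).path Φ ε t k).1
      (encPC Φ ε (cT ε z l) (cX ε z l) (cD ε z l) t).1
    linarith
  · intro k hk
    obtain ⟨x, hx⟩ := G.surjective ⟨k, hk⟩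
    have h1 := hE.noborn x
    have h2 : Z₀.b x = W.b k := by
      rw [← hG]
      change W.b (G x : α) = W.b k
      rw [hx]
    rwa [h2] at h1
  · intro t k ht ht' hk
    have h1 := hfar t k ht ht' hk
    have h2 : ε ≤ (R + 2) * ε := by nlinarith
    have h3 := dist_comm ((rest W (f (root P))).path Φ ε t k).1
      (cX ε z l + (t - cT ε z l) • (cD ε z l).2.1)
    rw [h3] at h1
    exact h2.trans_lt h1

include h hΦ hε hG in
/-- **The hit in the world with the lines of the tree**, with its outgoing lines. -/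
theorem hit (hOk : Z₀.Ok Φ ε) (hl : 0 ≤ l.1.1) (hls : l.1.1 < cT ε z l)
    (hF : FreeFarW Φ ε X l (cT ε z l)) (hXl : (X.ins l).Ok Φ ε)
    (hE : EncE Φ ε R Z₀ z.1 (cT ε z l) (cD ε z l)) :
    Hit Φ ε W l (f (root P)) (cT ε z l) (cT ε z l + outT Φ ε (cD ε z l)) ∧
    outL Φ ε W l (f (root P)) (cT ε z l + outT Φ ε (cD ε z l)) =
      (lineL' Φ ε (cT ε z l) (cX ε z l) (cD ε z l), l.2 + P.leaves) ∧
    outC Φ ε W l (f (root P)) (cT ε z l + outT Φ ε (cD ε z l)) =
      (lineC' Φ ε (cT ε z l) (cX ε z l) (cD ε z l), l.2 + P.leaves) := by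
  obtain ⟨hGd, -⟩ := h.goodEnc hΦ hε hG hOk hl hls hF hE
  have hZ := h.okLn hΦ hε hG hOk
  have hZl := h.okLn_ins hΦ hε hZ hl hls hF hXl
  have hR : (rest W (f (root P))).Ok Φ ε := ok_of_comap hΦ hε _ hG hOk
  have h1 := hGd.outL_eq hΦ hε hZ hZl hR
  have h2 := hGd.outC_eq hΦ hε hZ hZl hR
  rw [h.m_root] at h1 h2
  exact ⟨hGd.hit hΦ hε hZ hZl hR, h1, h2⟩

include h hΦ hε in
/-- The touch time in the world with lines is at most the real one. -/
theorem thetaL_ln_le (hl : 0 ≤ l.1.1) (hF : FreeFarW Φ ε X l (cT ε z l))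
    (hXl : (X.ins l).Ok Φ ε) (hK : P.leaves ≤ K) (T : ℝ) :
    W.thetaL Φ ε K T l ≤ X.thetaL Φ ε K T l := by
  have h2 := (h.tree_ins hΦ hε hl hF hXl).famIn hε h.valid
  rw [← h.lines]
  exact theta_lw_le hΦ hε (h.famIn hε) h2 h.ok.bw hXl.bw h.b0 (fun _ => hl)
    (fun i => (mk_le P i).trans hK) T

include h hΦ hε hG in
/-- **The one-contact inequality** for a real tree in a general world. -/
theorem one (hl : 0 ≤ l.1.1) (hls : l.1.1 < cT ε z l) (hF : FreeFarW Φ ε X l (cT ε z l))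
    (hXl : (X.ins l).Ok Φ ε) (hK : l.2 + P.leaves ≤ K) (hOk : Z₀.Ok Φ ε)
    (hOkL : (Z₀.ins (lineL' Φ ε (cT ε z l) (cX ε z l) (cD ε z l), l.2 + P.leaves)).Ok Φ ε)
    (hE : EncE Φ ε R Z₀ z.1 (cT ε z l) (cD ε z l)) (T : ℝ) :
    min (Z₀.thetaL Φ ε K T (lineC Φ ε (cT ε z l) (cX ε z l) (cD ε z l), P.leaves))
      (min (Z₀.thetaL Φ ε K T (lineL' Φ ε (cT ε z l) (cX ε z l) (cD ε z l), l.2 + P.leaves))
        ((Z₀.ins (lineL' Φ ε (cT ε z l) (cX ε z l) (cD ε z l), l.2 + P.leaves)).thetaL Φ ε K T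
          (lineC' Φ ε (cT ε z l) (cX ε z l) (cD ε z l), l.2 + P.leaves))) ≤
      X.thetaL Φ ε K T l := by
  obtain ⟨hGd, hU⟩ := h.goodEnc hΦ hε hG hOk hl hls hF hE
  have hZ := h.okLn hΦ hε hG hOk
  have hZl := h.okLn_ins hΦ hε hZ hl hls hF hXl
  have hR : (rest W (f (root P))).Ok Φ ε := ok_of_comap hΦ hε _ hG hOk
  have hm : W.m (f (root P)) = P.leaves := h.m_root
  set L1 : ML := (lineL' Φ ε (cT ε z l) (cX ε z l) (cD ε z l), l.2 + P.leaves) with hL1
  set C1 : ML := (lineC' Φ ε (cT ε z l) (cX ε z l) (cD ε z l), l.2 + P.leaves) with hC1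
  set c1 : ML := (lineC Φ ε (cT ε z l) (cX ε z l) (cD ε z l), P.leaves) with hc1
  have hL : (lineL' Φ ε (cT ε z l) (cX ε z l) (cD ε z l), l.2 + W.m (f (root P))) = L1 := by
    rw [hm]
  have hC : (lineC' Φ ε (cT ε z l) (cX ε z l) (cD ε z l), l.2 + W.m (f (root P))) = C1 := by
    rw [hm]
  have hc : (lineC Φ ε (cT ε z l) (cX ε z l) (cD ε z l), W.m (f (root P))) = c1 := by
    rw [hm]
  have hRl : ((rest W (f (root P))).ins L1).Ok Φ ε :=
    ok_of_comap hΦ hε _ (ins_comap G hG _) hOkL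
  have key := hGd.one_std' (K := K) hΦ hε hZ hZl hR (by rw [hL]; exact hRl)
    (by rw [hm]; exact hK) (cl := lineML Φ ε P z (root P)) ⟨h.W_b _, h.W_z _, h.W_m _⟩ hU T
  rw [hL, hC, hc] at key
  have t1 : Z₀.thetaL Φ ε K T c1 = (rest W (f (root P))).thetaL Φ ε K T c1 :=
    thetaL_relabel hΦ hε G hG T _
  have t2 : Z₀.thetaL Φ ε K T L1 = (rest W (f (root P))).thetaL Φ ε K T L1 :=
    thetaL_relabel hΦ hε G hG T _
  have t3 : (Z₀.ins L1).thetaL Φ ε K T C1 =
      ((rest W (f (root P))).ins L1).thetaL Φ ε K T C1 :=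
    thetaL_relabel hΦ hε _ (ins_comap G hG _) T _
  rw [t1, t2, t3]
  exact key.trans (h.thetaL_ln_le hΦ hε hl hF hXl (by omega) T)

include h hΦ hε hG in
/-- The root line born at its release and the root line reborn at the exit time of the encounter
have the same touch time in the world with the exits. -/
theorem thetaL_root (hOk : Z₀.Ok Φ ε) (hl : 0 ≤ l.1.1) (hls : l.1.1 < cT ε z l)
    (hF : FreeFarW Φ ε X l (cT ε z l)) (hE : EncE Φ ε R Z₀ z.1 (cT ε z l) (cD ε z l)) (T : ℝ) :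
    Z₀.thetaL Φ ε K T (lineC Φ ε (cT ε z l) (cX ε z l) (cD ε z l), P.leaves) =
      Z₀.thetaL Φ ε K T (lineML Φ ε P z (root P)) := by
  obtain ⟨hGd, hU⟩ := h.goodEnc hΦ hε hG hOk hl hls hF hE
  have hZ := h.okLn hΦ hε hG hOk
  have hR : (rest W (f (root P))).Ok Φ ε := ok_of_comap hΦ hε _ hG hOk
  have h1 := (hGd.thetaL_lineC (K := K) hΦ hε hZ hR (cl := lineML Φ ε P z (root P))
    ⟨h.W_b _, h.W_z _, h.W_m _⟩ hU T).1
  rw [h.m_root] at h1
  rw [thetaL_relabel hΦ hε G hG, thetaL_relabel hΦ hε G hG]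
  exact h1

end RealIn

end

end Crest.Agent.R122.One796
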