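import Crest.Agent.R122.UnwE_410

/-!
# Row 122, section E, direct terms (helper658), part 1: first contact of an inserted line

`Z` is a good marked world, `l` a marked line, `Z.ins l` good.

* `fpos l s` : position at time `s` of the free line `l`.
* `ins_agree`, `ins_free` : up to the first contact of `l` the particles of `Z` are unchanged and `l`
  is on its free line.
* `no_contact_of_far` : if the free line stays away from the particles of `Z` up to `s₁`, there is no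
  contact in `Z.ins l` before `s₁`.
* `theta_eq_of_dirty` : if the first contact of the free line with `Z` is with an infected particle,
  the touch time is the time of this contact.
-/

set_option autoImplicit false
set_option linter.unusedSectionVars false

open MeasureTheory Set Filter Topology
open scoped ENNReal
open Crest.AnalysisR.Kinetic
open Crest.Agent.R122.Flow671 Crest.Agent.R122.Loc45 Crest.Agent.R122.Causal291
open Crest.Agent.R122.Inf879 Crest.Agent.R122.EDefs602 Crest.Agent.R122.Ins45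
open Crest.Agent.R122.GC311

namespace Crest.Agent.R122.Direct658

noncomputable section

open scoped Classical

variable {ι : Type} [Fintype ι] {Φ : Space3 → ℝ} {ε : ℝ} {Z : MW ι} {l : ML} {K : ℕ} {T s₁ : ℝ}

/-- Position at time `s` of the free line `l` (equal to `OneC285.lpos`). -/
def fpos (l : ML) (s : ℝ) : Space3 := (back l.1).1 + s • (back l.1).2

theorem fpos_eq (l : ML) (s : ℝ) : fpos l s = l.1.2.1 + (s - l.1.1) • l.1.2.2 := by
  unfold fpos back
  simp only
  rw [sub_smul]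
  abel

theorem continuous_fpos (l : ML) : Continuous (fpos l) := by
  unfold fpos
  fun_prop

/-- Up to the first contact of `l` the particles of `Z` have the same paths in `Z` and in `Z + l`. -/
theorem ins_agree (hΦ : AdmissiblePotential Φ) (hε : 0 < ε) (hZ : Z.Ok Φ ε)
    (hZl : (Z.ins l).Ok Φ ε)
    (hno : ∀ s k, s < s₁ → ¬ (Z.ins l).C Φ ε s (Sum.inr ()) (Sum.inl k)) {t : ℝ}
    (ht : t ∈ Icc 0 s₁) (k : ι) :
    Z.path Φ ε t k = (Z.ins l).path Φ ε t (Sum.inl k) := by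
  refine BWorld.agree_own hΦ hε hZ.bw hZl.bw (e := (id : ι → ι)) (f := Sum.inl)
    Function.injective_id Sum.inl_injective (S := univ) (A := ∅) (a := 0) (T := s₁) le_rfl le_rfl
    (fun _ _ _ _ => Iff.rfl) (fun _ h => absurd h (notMem_empty _)) ?_ ?_ ?_ k (mem_univ k) t ht
  · intro m _
    rw [MW.path_zero hΦ hε, MW.path_zero hΦ hε]
    rfl
  · intro _ _ _ _ _ j _ hj
    exact absurd rfl (hj j (Or.inl (mem_univ j)))
  · intro r hr m _ hm x hx hne
    rcases x with j | u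
    · exact absurd rfl (hne j (Or.inl (mem_univ j)))
    · refine hZl.bw.le_dist_of_not_ctB hr.1 hr.2 hm hx fun r' hr' hc => ?_
      exact hno r' m hr'.2 (MW.C_symm _ hc)

/-- Up to its first contact the line is on its free line. -/
theorem ins_free (hΦ : AdmissiblePotential Φ) (hε : 0 < ε) (hZl : (Z.ins l).Ok Φ ε)
    (hno : ∀ s k, s < s₁ → ¬ (Z.ins l).C Φ ε s (Sum.inr ()) (Sum.inl k)) {t : ℝ}
    (ht : t ∈ Icc 0 s₁) :
    (Z.ins l).path Φ ε t (Sum.inr ()) = (fpos l t, l.1.2.2) := by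
  have h := hZl.bw.free hΦ hε (Sum.inr ()) (a := 0) (T := s₁) le_rfl ?_ t ht
  · rw [h, MW.path_zero hΦ hε]
    have h2 : (Z.ins l).z (Sum.inr ()) = back l.1 := rfl
    rw [h2]
    unfold fpos
    simp only [sub_zero]
    rfl
  · intro r hr hb j hj hbj
    rcases j with j | y
    · exact hZl.bw.le_dist_of_not_ctB hr.1 hr.2 hb hbj fun r' hr' hc => hno r' j hr'.2 hc
    · exact absurd rfl hj

/-- The times of contact of `l` in `Z + l` are bounded below by the first time at which the free line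
is close to a particle of `Z`. -/
theorem no_contact_of_far (hΦ : AdmissiblePotential Φ) (hε : 0 < ε) (hZ : Z.Ok Φ ε)
    (hZl : (Z.ins l).Ok Φ ε) (hb : 0 ≤ l.1.1)
    (hfar : ∀ s k, l.1.1 ≤ s → s < s₁ → Z.b k ≤ s → (Z.b k < s ∨ l.1.1 < s) →
      ε < dist (fpos l s) (Z.path Φ ε s k).1) :
    ∀ s k, s < s₁ → ¬ (Z.ins l).C Φ ε s (Sum.inr ()) (Sum.inl k) := by
  intro s k hs hc
  have hs0 : 0 ≤ s := hb.trans (MW.C_born hc)
  set S : Set ℝ := {r | r ∈ Icc 0 s ∧ ∃ k, (Z.ins l).C Φ ε r (Sum.inr ()) (Sum.inl k)} with hS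
  have hScl : IsClosed S := by
    have : S = ⋃ k, {r | r ∈ Icc 0 s ∧ (Z.ins l).C Φ ε r (Sum.inr ()) (Sum.inl k)} := by
      ext r
      simp only [hS, mem_ofPred_eq, mem_iUnion]
      exact ⟨fun ⟨h1, k, h2⟩ => ⟨k, h1, h2⟩, fun ⟨k, h1, h2⟩ => ⟨h1, k, h2⟩⟩
    rw [this]
    exact isClosed_iUnion_of_finite fun k => hZl.closed s _ _
  have hSne : S.Nonempty := ⟨s, ⟨hs0, le_rfl⟩, k, hc⟩
  have hSbd : BddBelow S := ⟨0, fun r hr => hr.1.1⟩
  obtain ⟨hr1, k₁, hc₁⟩ := hScl.csInf_mem hSne hSbd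
  set r₁ := sInf S with hr₁
  have hno : ∀ r j, r < r₁ → ¬ (Z.ins l).C Φ ε r (Sum.inr ()) (Sum.inl j) := by
    intro r j hr hcr
    have h0 : 0 ≤ r := hb.trans (MW.C_born hcr)
    exact absurd (csInf_le hSbd (show r ∈ S from ⟨⟨h0, hr.le.trans hr1.2⟩, j, hcr⟩))
      (not_le.2 hr)
  have h1 := ins_agree hΦ hε hZ hZl hno (t := r₁) ⟨hr1.1, le_rfl⟩ k₁
  have h2 := ins_free hΦ hε hZl hno (t := r₁) ⟨hr1.1, le_rfl⟩
  obtain ⟨hc1, hc2, hc3, hc4⟩ := hc₁
  rw [h2, ← h1] at hc4
  refine absurd (hfar r₁ k₁ hc1 (hr1.2.trans_lt hs) hc2 ?_) (not_lt.2 hc4)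
  rcases hc3 with hc3 | hc3 | hc3
  · cases hc3
  · exact Or.inr hc3
  · exact Or.inl hc3

/-- **Direct touch**: if the first contact of the free line with the particles of `Z` is with an
infected particle, the touch time is the time of this contact. -/
theorem theta_eq_of_dirty (hΦ : AdmissiblePotential Φ) (hε : 0 < ε) (hZ : Z.Ok Φ ε)
    (hZl : (Z.ins l).Ok Φ ε) (hb : 0 ≤ l.1.1) (hm : l.2 ≤ K)
    (hfar : ∀ s k, l.1.1 ≤ s → s < s₁ → Z.b k ≤ s → (Z.b k < s ∨ l.1.1 < s) →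
      ε < dist (fpos l s) (Z.path Φ ε s k).1)
    (hls : l.1.1 ≤ s₁) (hsT : s₁ ≤ T) {i : ι} (hbi : Z.b i ≤ s₁) (hbi' : Z.b i < s₁ ∨ l.1.1 < s₁)
    (hi : dist (fpos l s₁) (Z.path Φ ε s₁ i).1 ≤ ε) (hinf : Z.Inf Φ ε K s₁ i) :
    Z.thetaL Φ ε K T l = s₁ := by
  have hno := no_contact_of_far hΦ hε hZ hZl hb hfar
  have hs0 : 0 ≤ s₁ := hb.trans hls
  have hT0 : 0 ≤ T := hs0.trans hsT
  refine le_antisymm ?_ ?_
  · refine MW.theta_le_of_touched ⟨hs0, hsT⟩ (MW.touched_of_contact (x := ()) (k := i) hs0 ?_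
      (Or.inl hinf))
    refine ⟨hls, hbi, ?_, ?_⟩
    · exact Or.inr (hbi'.symm)
    · have h1 := ins_agree hΦ hε hZ hZl hno (t := s₁) ⟨hs0, le_rfl⟩ i
      have h2 := ins_free hΦ hε hZl hno (t := s₁) ⟨hs0, le_rfl⟩
      have h3 : (Z.add (MW.line l)).path Φ ε s₁ (Sum.inr ()) = (fpos l s₁, l.1.2.2) := h2
      have h4 : Z.path Φ ε s₁ i = (Z.add (MW.line l)).path Φ ε s₁ (Sum.inl i) := h1
      rw [h3, ← h4]
      exact hi
  · by_contra hlt
    push Not at hlt
    have hθ : Z.thetaL Φ ε K T l ≤ T := hlt.le.trans hsT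
    obtain ⟨r, hr, x, k, hc⟩ := MW.exists_contact_le_theta hΦ hε hZ hZl hT0 hθ
      (by rw [Finset.univ_unique, Finset.sum_singleton]; exact hm)
    exact hno r k (hr.2.trans_lt hlt) hc

end

end Crest.Agent.R122.Direct658
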