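import Crest.Agent.R122.MWFam_255
import Crest.Agent.R122.EFam_879

/-!
# Pairwise unlinked lines: all family facts (row 122, block A8)

`PairNL Φ ε K T Z ls` : any two different lines of the family are unlinked in the base world `Z`
(`MW.NoLink` of helper879, cut at the touch times of the two lines). Consequences, all in terms of
the base world only:

* `noLink_sub` : two disjoint sub-families are unlinked; `noLink_sub_line`, `noLinkFam`.
* `noLink_lines` : the same for families given by embeddings of the index types.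
* `w1E_lines`, `w1E_lines_line` : world consistency `W1E` of helper811.
* `theta_lines_eq_fold` etc. follow from `noLinkFam` and `EFam_879`.
-/

set_option autoImplicit false
set_option linter.unusedSectionVars false

open MeasureTheory Set Filter Topology
open Crest.AnalysisR.Kinetic
open Crest.Agent.R122.EDefs602 Crest.Agent.R122.MWAlg255

namespace Crest.Agent.R122.MWFam255

noncomputable section

variable {Φ : Space3 → ℝ} {ε T s : ℝ} {K : ℕ} {ι κ κ₁ κ₂ : Type}
variable [Fintype ι] [Fintype κ] [Fintype κ₁] [Fintype κ₂]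

theorem okF_of_okFam (hΦ : AdmissiblePotential Φ) (hε : 0 < ε) {Z : MW ι} {ls : κ → ML}
    (h : MW.OkFam Φ ε Z ls) : OkF Φ ε Z ls := ⟨h.base hΦ hε, h⟩

/-- Any two different lines of the family are unlinked in `Z`. -/
def PairNL (Φ : Space3 → ℝ) (ε : ℝ) (K : ℕ) (T : ℝ) (Z : MW ι) (ls : κ → ML) : Prop :=
  ∀ j k, j ≠ k → MW.NoLink Φ ε K T Z (MW.line (ls j)) (MW.line (ls k))

theorem PairNL.noLk {Z : MW ι} {ls : κ → ML} (h : PairNL Φ ε K T Z ls) (S : Finset κ) :
    NoLk Φ ε K T Z ls S :=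
  fun s h0 hsT hle j hj k hk hjk => h j k hjk s h0 hsT (hle j hj) (hle k hk)

/-- The same for a sub-family. -/
theorem PairNL.comp {Z : MW ι} {ls : κ → ML} (h : PairNL Φ ε K T Z ls) (f : κ₁ ↪ κ) :
    PairNL Φ ε K T Z (fun i => ls (f i)) :=
  fun j k hjk => h (f j) (f k) (f.injective.ne hjk)

theorem _root_.Crest.Agent.R122.EDefs602.MW.NoLink.symm {Z : MW ι} {A : MW κ₁} {B : MW κ₂}
    (h : MW.NoLink Φ ε K T Z A B) : MW.NoLink Φ ε K T Z B A :=
  fun s h0 hsT hB hA hl => h s h0 hsT hA hB (link_symm hl)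

/-- **Disjoint sub-families of a family of pairwise unlinked lines are unlinked.** -/
theorem noLink_sub (hΦ : AdmissiblePotential Φ) (hε : 0 < ε) (hT : 0 ≤ T) {Z : MW ι} {ls : κ → ML}
    (hok : MW.OkFam Φ ε Z ls) (h : PairNL Φ ε K T Z ls) {S S' : Finset κ} (hd : Disjoint S S') :
    MW.NoLink Φ ε K T Z (sub ls S) (sub ls S') := by
  classical
  intro s h0 hsT hS hS'
  have hok' := okF_of_okFam hΦ hε hok
  have hle : ∀ k ∈ S ∪ S', s ≤ Z.thetaL Φ ε K T (ls k) := by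
    intro k hk
    rcases Finset.mem_union.1 hk with hk | hk
    · exact hS.trans (theta_sub_le hΦ hε hT hok' (h.noLk S) hk)
    · exact hS'.trans (theta_sub_le hΦ hε hT hok' (h.noLk S') hk)
  exact not_link_sub hΦ hε hok' h0 hsT hd hle fun j hj k hk hjk =>
    h j k hjk s h0 hsT (hle j hj) (hle k hk)

theorem noLink_comap (hΦ : AdmissiblePotential Φ) (hε : 0 < ε) {Z : MW ι} {κ₁' κ₂' : Type}
    [Fintype κ₁'] [Fintype κ₂'] {A : MW κ₁} {B : MW κ₂} (f : κ₁' ≃ κ₁) (g : κ₂' ≃ κ₂) :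
    MW.NoLink Φ ε K T Z (A.comap f) (B.comap g) ↔ MW.NoLink Φ ε K T Z A B := by
  unfold MW.NoLink
  simp only [theta_comap_right hΦ hε, link_comap hΦ hε f, link_comap_right hΦ hε g]

theorem noLink_sub_line (hΦ : AdmissiblePotential Φ) (hε : 0 < ε) (hT : 0 ≤ T) {Z : MW ι}
    {ls : κ → ML} (hok : MW.OkFam Φ ε Z ls) (h : PairNL Φ ε K T Z ls) {S : Finset κ} {k : κ}
    (hk : k ∉ S) : MW.NoLink Φ ε K T Z (sub ls S) (MW.line (ls k)) := by
  have h1 := noLink_sub hΦ hε hT hok h (S := S) (S' := {k}) (by simpa using hk)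
  have h2 : (sub ls {k}).comap
      ((Equiv.ofUnique Unit ({k} : Finset κ) : Unit ≃ ({k} : Finset κ))) = MW.line (ls k) := rfl
  have h3 := (noLink_comap (K := K) (T := T) hΦ hε (Z := Z) (A := sub ls S) (B := sub ls {k})
    (Equiv.refl S) ((Equiv.ofUnique Unit ({k} : Finset κ) : Unit ≃ ({k} : Finset κ)))).2 h1
  rw [h2] at h3
  exact h3

/-- Pairwise unlinked lines form an unlinked family (helper879). -/
theorem noLinkFam (hΦ : AdmissiblePotential Φ) (hε : 0 < ε) (hT : 0 ≤ T) {Z : MW ι}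
    {ls : κ → ML} (hok : MW.OkFam Φ ε Z ls) (h : PairNL Φ ε K T Z ls) :
    MW.NoLinkFam Φ ε K T Z ls :=
  fun _ _ hk => noLink_sub_line hΦ hε hT hok h hk

/-! ### Families given by embeddings -/

/-- The image of an embedding of index types. -/
def mapEquiv (f : κ₁ ↪ κ) : κ₁ ≃ (Finset.univ.map f : Finset κ) :=
  Equiv.ofBijective (fun i => ⟨f i, Finset.mem_map_of_mem f (Finset.mem_univ i)⟩)
    ⟨fun i j h => f.injective (congrArg Subtype.val h), fun ⟨k, hk⟩ => by
      obtain ⟨i, _, rfl⟩ := Finset.mem_map.1 hk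
      exact ⟨i, rfl⟩⟩

theorem lines_eq_sub (ls : κ → ML) (f : κ₁ ↪ κ) :
    MW.lines (fun i => ls (f i)) = (sub ls (Finset.univ.map f)).comap (mapEquiv f) := rfl

/-- Sub-families of a good family are good. -/
theorem okFam_comp (hΦ : AdmissiblePotential Φ) (hε : 0 < ε) {Z : MW ι} {ls : κ → ML}
    (hok : MW.OkFam Φ ε Z ls) (f : κ₁ ↪ κ) : MW.OkFam Φ ε Z (fun i => ls (f i)) := by
  intro S
  have h1 := hok (S.map f)
  have h2 : Z.add (sub (fun i => ls (f i)) S) = (Z.add (sub ls (S.map f))).comap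
      (Equiv.sumCongr (Equiv.refl ι) (Equiv.ofBijective
        (fun i : S => (⟨f i.1, Finset.mem_map_of_mem f i.2⟩ : (S.map f : Finset κ)))
      ⟨fun i j h => Subtype.ext (f.injective (congrArg Subtype.val h)), fun ⟨k, hk⟩ => by
        obtain ⟨i, hi, rfl⟩ := Finset.mem_map.1 hk
        exact ⟨⟨i, hi⟩, rfl⟩⟩)) := by
    rw [← add_comap_right]
    rfl
  rw [h2]
  exact h1.comap hΦ hε _

/-- **Two disjoint families of lines**, all lines pairwise unlinked. -/
theorem noLink_lines (hΦ : AdmissiblePotential Φ) (hε : 0 < ε) (hT : 0 ≤ T) {Z : MW ι}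
    {ls : κ → ML} (hok : MW.OkFam Φ ε Z ls) (h : PairNL Φ ε K T Z ls) (f : κ₁ ↪ κ) (g : κ₂ ↪ κ)
    (hfg : ∀ i j, f i ≠ g j) :
    MW.NoLink Φ ε K T Z (MW.lines fun i => ls (f i)) (MW.lines fun j => ls (g j)) := by
  classical
  rw [lines_eq_sub ls f, lines_eq_sub ls g, noLink_comap hΦ hε]
  refine noLink_sub hΦ hε hT hok h ?_
  rw [Finset.disjoint_left]
  intro x hx hx'
  obtain ⟨i, _, rfl⟩ := Finset.mem_map.1 hx
  obtain ⟨j, _, hj⟩ := Finset.mem_map.1 hx'
  exact hfg i j hj.symm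

/-- All the good worlds for two disjoint families. -/
theorem ok_lines_add (hΦ : AdmissiblePotential Φ) (hε : 0 < ε) {Z : MW ι}
    {ls : κ → ML} (hok : MW.OkFam Φ ε Z ls) (f : κ₁ ↪ κ) (g : κ₂ ↪ κ)
    (hfg : ∀ i j, f i ≠ g j) :
    ((Z.add (MW.lines fun i => ls (f i))).add (MW.lines fun j => ls (g j))).Ok Φ ε := by
  rw [MW.ok_add_assoc hΦ hε]
  have hinj : Function.Injective (Sum.elim f g) := by
    rintro (x | x) (y | y) hxy
    · exact congrArg Sum.inl (f.injective hxy)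
    · exact absurd hxy (hfg x y)
    · exact absurd hxy.symm (hfg y x)
    · exact congrArg Sum.inr (g.injective hxy)
  have h1 := (okFam_comp hΦ hε hok ⟨Sum.elim f g, hinj⟩).lines hΦ hε
  have h2 : (MW.lines fun i => ls (f i)).add (MW.lines fun j => ls (g j)) =
      MW.lines fun i => ls ((⟨Sum.elim f g, hinj⟩ : κ₁ ⊕ κ₂ ↪ κ) i) := by
    unfold MW.add MW.lines
    congr 1 <;> · funext x; rcases x with x | x <;> rfl
  rw [h2]
  exact h1

/-- **World consistency for two disjoint families of pairwise unlinked lines.** -/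
theorem w1E_lines (hΦ : AdmissiblePotential Φ) (hε : 0 < ε) (hT : 0 ≤ T) {Z : MW ι}
    {ls : κ → ML} (hok : MW.OkFam Φ ε Z ls) (h : PairNL Φ ε K T Z ls) (f : κ₁ ↪ κ) (g : κ₂ ↪ κ)
    (hfg : ∀ i j, f i ≠ g j) :
    Decomp811.W1E Φ ε K T Z (MW.lines fun i => ls (f i)) (MW.lines fun j => ls (g j)) :=
  MW.W1_of_noLink hΦ hε (hok.base hΦ hε) ((okFam_comp hΦ hε hok f).lines hΦ hε)
    ((okFam_comp hΦ hε hok g).lines hΦ hε) (ok_lines_add hΦ hε hok f g hfg) hT
    (noLink_lines hΦ hε hT hok h f g hfg)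

/-- The same for a family and one line. -/
theorem w1E_lines_line (hΦ : AdmissiblePotential Φ) (hε : 0 < ε) (hT : 0 ≤ T) {Z : MW ι}
    {ls : κ → ML} (hok : MW.OkFam Φ ε Z ls) (h : PairNL Φ ε K T Z ls) (f : κ₁ ↪ κ) (k : κ)
    (hk : ∀ i, f i ≠ k) :
    Decomp811.W1E Φ ε K T Z (MW.lines fun i => ls (f i)) (MW.line (ls k)) :=
  w1E_lines hΦ hε hT hok h f ⟨fun _ : Unit => k, fun _ _ _ => rfl⟩ fun i _ => hk i

/-- The same for one line and a family. -/
theorem w1E_line_lines (hΦ : AdmissiblePotential Φ) (hε : 0 < ε) (hT : 0 ≤ T) {Z : MW ι}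
    {ls : κ → ML} (hok : MW.OkFam Φ ε Z ls) (h : PairNL Φ ε K T Z ls) (k : κ) (g : κ₂ ↪ κ)
    (hk : ∀ i, g i ≠ k) :
    Decomp811.W1E Φ ε K T Z (MW.line (ls k)) (MW.lines fun i => ls (g i)) :=
  w1E_lines hΦ hε hT hok h ⟨fun _ : Unit => k, fun _ _ _ => rfl⟩ g fun _ i => (hk i).symm

/-- The same for two lines. -/
theorem w1E_line_line (hΦ : AdmissiblePotential Φ) (hε : 0 < ε) (hT : 0 ≤ T) {Z : MW ι}
    {ls : κ → ML} (hok : MW.OkFam Φ ε Z ls) (h : PairNL Φ ε K T Z ls) {j k : κ} (hjk : j ≠ k) :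
    Decomp811.W1E Φ ε K T Z (MW.line (ls j)) (MW.line (ls k)) :=
  w1E_lines hΦ hε hT hok h ⟨fun _ : Unit => j, fun _ _ _ => rfl⟩
    ⟨fun _ : Unit => k, fun _ _ _ => rfl⟩ fun _ _ => hjk

/-- **Touch time of a family of pairwise unlinked lines.** -/
theorem theta_lines_eq (hΦ : AdmissiblePotential Φ) (hε : 0 < ε) (hT : 0 ≤ T) {Z : MW ι}
    {ls : κ → ML} (hok : MW.OkFam Φ ε Z ls) (h : PairNL Φ ε K T Z ls) (f : κ₁ ↪ κ) :
    Z.theta Φ ε K T (MW.lines fun i => ls (f i)) =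
      Decomp811.firstT Φ ε K T Z (fun i => ls (f i)) :=
  MW.theta_lines_eq_fold hΦ hε (okFam_comp hΦ hε hok f)
    (noLinkFam hΦ hε hT (okFam_comp hΦ hε hok f) (h.comp f)) hT

end

end Crest.Agent.R122.MWFam255
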