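import Crest.Agent.R122.Reborn_45
import Crest.Agent.R122.MWFam2_255
import Crest.Agent.R122.Direct1_658
import Crest.Agent.R122.EBasic_602

/-!
# The root line: rebirth and links (row 122, blocks H1/E6, helper45)

* `NoCt.link_reb`, `NoCt.noLink_reb` : a link of the reborn line is a link of the line.
* `not_C_of_add` : if the line `c` has no contact in `Y + E` up to `σ`, no clean link between `E` and
  `c` in `Y`, and `E` has not touched `Y` before `s`, then `c` has no contact in `Y` up to `min s σ`.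
* `le_thetaL_of_reb`, `lt_thetaL_of_reb` : (a), (b) of helper879; `.._lines` : for families of lines.
* `NoCt.comap` : relabelling.
-/

set_option autoImplicit false
set_option linter.unusedSectionVars false

open MeasureTheory Set Filter Topology
open scoped ENNReal
open Crest.AnalysisR.Kinetic
open Crest.Agent.R122.Flow671 Crest.Agent.R122.Loc45 Crest.Agent.R122.Causal291
open Crest.Agent.R122.Inf879 Crest.Agent.R122.EDefs602 Crest.Agent.R122.MWAlg255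
open Crest.Agent.R122.MWFam255 Crest.Agent.R122.CausalGen291

namespace Crest.Agent.R122.Ins45

noncomputable section

open scoped Classical

variable {ι ι' κ κ' ξ : Type} [Fintype ι] [Fintype ι'] [Fintype κ] [Fintype κ'] [Fintype ξ]
variable {Φ : Space3 → ℝ} {ε : ℝ} {Y : MW ι} {l c : ML} {E : MW κ} {B : MW κ'} {K : ℕ}
  {σ s T : ℝ}

/-! ### Links of the reborn line -/

namespace NoCt

variable (h : NoCt Φ ε Y l σ) (hΦ : AdmissiblePotential Φ) (hε : 0 < ε)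
  (hYl : (Y.ins l).Ok Φ ε)

include h hΦ hε hYl in
theorem cleanB_reb {k : ι}
    (hk : CleanB 0 (Y.Inf Φ ε K) ((Y.add (MW.line (reb l σ))).Inf Φ ε K) id Sum.inl s k) :
    CleanB 0 (Y.Inf Φ ε K) ((Y.add (MW.line l)).Inf Φ ε K) id Sum.inl s k :=
  fun u h0 hu => ⟨(hk u h0 hu).1, fun h' => (hk u h0 hu).2 ((h.inf_reb hΦ hε hYl _).2 h')⟩

include h hΦ hε hYl in
/-- The clean closure of the reborn line is contained in the clean closure of the line. -/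
theorem cf_reb {k : ι} (hk : CF Φ ε K Y (MW.line (reb l σ)) s k) :
    CF Φ ε K Y (MW.line l) s k := by
  unfold CF at hk ⊢
  induction hk with
  | @init s k h0 hs =>
    refine .init ?_ hs
    have h1 : (Y.add (MW.line (reb l σ))).path Φ ε 0 = (Y.add (MW.line l)).path Φ ε 0 :=
      h.path_reb hΦ hε hYl le_rfl
    rwa [h1] at h0
  | new₁ j hj _ _ _ _ => exact absurd ⟨j, rfl⟩ hj
  | @new₂ s s' k j hj hc h0 hs hcl =>
    refine .new₂ j hj ?_ h0 hs (h.cleanB_reb hΦ hε hYl hcl)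
    exact (h.C_reb hΦ hε hYl s' j (Sum.inl k) fun he => hj ⟨k, he.symm⟩).1 hc
  | chain₁ _ hc hs hcl ih => exact .chain₁ ih hc hs (h.cleanB_reb hΦ hε hYl hcl)
  | @chain₂ s s' k m _ hc hs hcl ih =>
    by_cases hmk : m = k
    · subst hmk
      exact ih.mono hs
    · refine .chain₂ ih ?_ hs (h.cleanB_reb hΦ hε hYl hcl)
      exact (h.C_reb hΦ hε hYl s' (Sum.inl m) (Sum.inl k) fun he =>
        hmk (Sum.inl_injective he)).1 hc

include h hΦ hε hYl in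
/-- **A link of the reborn line is a link of the line.** -/
theorem link_reb (hl : Y.LINK Φ ε K (MW.line (reb l σ)) B s) : Y.LINK Φ ε K (MW.line l) B s := by
  rw [link_iff] at hl ⊢
  obtain ⟨u, hu, ⟨k, hk, hk'⟩ | ⟨x, y, hx, hy, hc⟩⟩ := hl
  · exact ⟨u, hu, Or.inl ⟨k, h.cf_reb hΦ hε hYl hk, hk'⟩⟩
  · refine ⟨u, hu, Or.inr ⟨x, y, fun k hk => h.cf_reb hΦ hε hYl (hx k hk), hy, ?_⟩⟩
    obtain ⟨h1, h2, h3, h4⟩ := hc
    refine ⟨(h.b_le x).trans h1, h2,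
      h3.imp id fun h' => h'.imp (fun h' => (h.b_le x).trans_lt h') id, ?_⟩
    · have h5 : (Y.add (MW.line (reb l σ))).path Φ ε u = (Y.add (MW.line l)).path Φ ε u :=
        h.path_reb hΦ hε hYl hu.1
      rwa [h5] at h4

include h hΦ hε hYl in
/-- **Unlinked lines stay unlinked if one of them is reborn.** -/
theorem noLink_reb (hl : MW.NoLink Φ ε K T Y (MW.line l) B) :
    MW.NoLink Φ ε K T Y (MW.line (reb l σ)) B := by
  intro s h0 hsT hs hs' hlk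
  have h1 : Y.theta Φ ε K T (MW.line (reb l σ)) = Y.theta Φ ε K T (MW.line l) :=
    h.thetaL_reb hΦ hε hYl T
  rw [h1] at hs
  exact hl s h0 hsT hs hs' (h.link_reb hΦ hε hYl hlk)

include h hΦ hε hYl in
theorem noLink_reb' (hl : MW.NoLink Φ ε K T Y B (MW.line l)) :
    MW.NoLink Φ ε K T Y B (MW.line (reb l σ)) :=
  (h.noLink_reb hΦ hε hYl hl.symm).symm

end NoCt

/-- Relabelling. -/
theorem NoCt.comap (hΦ : AdmissiblePotential Φ) (hε : 0 < ε) (h : NoCt Φ ε Y l σ) (e : ι' ≃ ι) :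
    NoCt Φ ε (Y.comap e) l σ where
  nonneg := h.nonneg
  born k := h.born (e k)
  le := h.le
  no t k ht hc := by
    have h1 : (Y.comap e).ins l = (Y.ins l).comap (Equiv.sumCongr e (Equiv.refl Unit)) :=
      add_comap Y (MW.line l) e (Equiv.refl Unit)
    rw [h1, C_comap hΦ hε] at hc
    exact h.no t (e k) ht hc

/-! ### The line in the smaller world -/

/-- First contact of an inserted line. -/
theorem exists_first_C (hYc : (Y.ins c).Ok Φ ε) (hb : 0 ≤ c.1.1) {t : ℝ} {k : ι}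
    (hc : (Y.ins c).C Φ ε t (Sum.inr ()) (Sum.inl k)) :
    ∃ r k₁, 0 ≤ r ∧ r ≤ t ∧ (Y.ins c).C Φ ε r (Sum.inr ()) (Sum.inl k₁) ∧
      ∀ r' j, r' < r → ¬ (Y.ins c).C Φ ε r' (Sum.inr ()) (Sum.inl j) := by
  have hs0 : 0 ≤ t := hb.trans (MW.C_born hc)
  set S : Set ℝ := {r | r ∈ Icc 0 t ∧ ∃ k, (Y.ins c).C Φ ε r (Sum.inr ()) (Sum.inl k)} with hS
  have hScl : IsClosed S := by
    have : S = ⋃ k, {r | r ∈ Icc 0 t ∧ (Y.ins c).C Φ ε r (Sum.inr ()) (Sum.inl k)} := by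
      ext r
      simp only [hS, mem_ofPred_eq, mem_iUnion]
      exact ⟨fun ⟨h1, k, h2⟩ => ⟨k, h1, h2⟩, fun ⟨k, h1, h2⟩ => ⟨h1, k, h2⟩⟩
    rw [this]
    exact isClosed_iUnion_of_finite fun k => hYc.closed t _ _
  have hSne : S.Nonempty := ⟨t, ⟨hs0, le_rfl⟩, k, hc⟩
  have hSbd : BddBelow S := ⟨0, fun r hr => hr.1.1⟩
  obtain ⟨hr1, k₁, hc₁⟩ := hScl.csInf_mem hSne hSbd
  refine ⟨sInf S, k₁, hr1.1, hr1.2, hc₁, fun r j hr hcr => ?_⟩
  have h0 : 0 ≤ r := hb.trans (MW.C_born hcr)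
  exact absurd (csInf_le hSbd (show r ∈ S from ⟨⟨h0, hr.le.trans hr1.2⟩, j, hcr⟩)) (not_le.2 hr)

/-- **The line `c` in the smaller world.** If `c` has no contact in `Y + E` up to `σ`, there is no
clean link between `E` and `c` in `Y`, and `E` has not touched `Y` before `s`, then `c` has no contact
in `Y` up to `min s σ`. -/
theorem not_C_of_add (hΦ : AdmissiblePotential Φ) (hε : 0 < ε) (hY : Y.Ok Φ ε)
    (hYE : (Y.add E).Ok Φ ε) (hYc : (Y.ins c).Ok Φ ε) (hYEc : ((Y.add E).ins c).Ok Φ ε)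
    (hbY : ∀ x, 0 ≤ Y.b x) (hbc : 0 ≤ c.1.1)
    (hnl : MW.NoLink Φ ε K T Y E (MW.line c)) (hcK : c.2 ≤ K)
    (hno : ∀ t x, t ≤ σ → ¬ ((Y.add E).ins c).C Φ ε t (Sum.inr ()) (Sum.inl x))
    (hsT : s ≤ T) (hE : s ≤ Y.theta Φ ε K T E) {t : ℝ} (hts : t ≤ s) (htσ : t ≤ σ) (k : ι) :
    ¬ (Y.ins c).C Φ ε t (Sum.inr ()) (Sum.inl k) := by
  intro hc
  obtain ⟨r, k₀, hr0, hrt, hcr, hfirst⟩ := exists_first_C hYc hbc hc
  have hrs : r ≤ s := hrt.trans hts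
  have hrσ : r ≤ σ := hrt.trans htσ
  have hrT : r ≤ T := hrs.trans hsT
  obtain ⟨hc1, hc2, hc3, hc4⟩ := hcr
  have hb3 : c.1.1 < r ∨ Y.b k₀ < r := by
    rcases hc3 with hc3 | hc3 | hc3
    · cases hc3
    · exact Or.inl hc3
    · exact Or.inr hc3
  have hrpos : 0 < r := by
    rcases hb3 with h | h
    · exact hbc.trans_lt h
    · exact (hbY k₀).trans_lt h
  -- states at the first contact
  have hk1 := Direct658.ins_agree hΦ hε hY hYc hfirst (t := r) ⟨hr0, le_rfl⟩ k₀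
  have hl1 := Direct658.ins_free hΦ hε hYc hfirst (t := r) ⟨hr0, le_rfl⟩
  rw [hl1, ← hk1] at hc4
  -- the bigger world
  have hno' : ∀ t x, t < σ → ¬ ((Y.add E).ins c).C Φ ε t (Sum.inr ()) (Sum.inl x) :=
    fun t x ht => hno t x ht.le
  have hk2 := Direct658.ins_agree hΦ hε hYE hYEc hno' (t := r) ⟨hr0, hrσ⟩ (Sum.inl k₀)
  have hl2 := Direct658.ins_free hΦ hε hYEc hno' (t := r) ⟨hr0, hrσ⟩
  -- `k₀` is influenced before `r`
  have hfut : ∃ u, 0 ≤ u ∧ u < r ∧ Y.Fut Φ ε E u k₀ := by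
    by_contra hn
    push Not at hn
    have heq : EqOn (fun u => Y.path Φ ε u k₀) (fun u => (Y.add E).path Φ ε u (Sum.inl k₀))
        (Ico 0 r) := fun u hu =>
      MW.path_eq_of_not_fut hΦ hε hY hYE hu.1 (hn u hu.1 hu.2)
    have heq2 := heq.of_subset_closure (t := Icc 0 r)
      ((hY.bw.cont_apply k₀).mono Icc_subset_Ici_self)
      ((hYE.bw.cont_apply (Sum.inl k₀)).mono Icc_subset_Ici_self) Ico_subset_Icc_self
      (by rw [closure_Ico hrpos.ne])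
    have heq3 : Y.path Φ ε r k₀ = (Y.add E).path Φ ε r (Sum.inl k₀) := heq2 ⟨hr0, le_rfl⟩
    refine hno r (Sum.inl k₀) hrσ ⟨hc1, hc2, Or.inr hb3, ?_⟩
    rw [hl2, ← hk2, ← heq3]
    exact hc4
  obtain ⟨u₁, hu0, hu1, hf⟩ := hfut
  -- clean closure of `E`
  have hUnt : ∀ u, 0 ≤ u → u < r → ¬ Y.Touched Φ ε K E u := fun u h0 hu h' =>
    absurd ((MW.touched_iff hΦ hε hY hYE ⟨h0, hu.le.trans hrT⟩).1 h')
      (not_le.2 (hu.trans_le (hrs.trans hE)))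
  have hcfE : CF Φ ε K Y E r k₀ := by
    have h1 : CF Φ ε K Y E u₁ k₀ :=
      CFut.of_fut (hY.rule 0 T K) (hYE.rule 0 T K) hrT hUnt hu1 hf
    exact CFut.mono h1 hu1.le
  -- the touch time of `c`
  have hθc : r ≤ Y.theta Φ ε K T (MW.line c) := by
    by_contra hlt
    push Not at hlt
    have hT0 : 0 ≤ T := hr0.trans hrT
    obtain ⟨r', hr', x, j, hcj⟩ := MW.exists_contact_le_theta hΦ hε hY hYc hT0
      (hlt.le.trans hrT) (by rw [Finset.univ_unique, Finset.sum_singleton]; exact hcK)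
    exact hfirst r' j (hr'.2.trans_lt hlt) hcj
  -- clean closure of `c`
  have hcl : CleanB 0 (Y.Inf Φ ε K) ((Y.add (MW.line c)).Inf Φ ε K) id Sum.inl r k₀ := by
    have h1 : ∀ u, 0 ≤ u → u < r → ¬ Y.Inf Φ ε K u k₀ := by
      intro u h0 hu hi
      have hm : max u u₁ < r := max_lt hu hu1
      have h2 : Y.Fut Φ ε E (max u u₁) k₀ := CausalGen291.Fut.mono hf (le_max_right _ _)
      refine hUnt (max u u₁) (h0.trans (le_max_left _ _)) hm
        (MW.touched_of_fut h2 (Or.inl ?_))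
      exact EBasic602.inf_mono (le_max_left _ _) hi
    intro u h0 hu
    refine ⟨h1 u h0 hu, fun h' => h1 u h0 hu ?_⟩
    exact (MW.inf_iff_of_lt_theta hΦ hε hY hYc ⟨h0, hu.le.trans hrT⟩ (hu.trans_le hθc) k₀).2 h'
  have hcfc : CF Φ ε K Y (MW.line c) r k₀ := by
    refine CFut.new₂ (Sum.inr ()) (by rintro ⟨j, hj⟩; cases hj) ?_ hr0 le_rfl hcl
    refine ⟨hc1, hc2, Or.inr hb3, ?_⟩
    have h1 : (Y.add (MW.line c)).path Φ ε r (Sum.inr ()) = (Direct658.fpos c r, c.1.2.2) := hl1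
    have h2 : Y.path Φ ε r k₀ = (Y.add (MW.line c)).path Φ ε r (Sum.inl k₀) := hk1
    rw [h1, ← h2]
    exact hc4
  exact hnl r hr0 hrT (hrs.trans hE) hθc (link_iff.2 ⟨r, ⟨hr0, le_rfl⟩, Or.inl ⟨k₀, hcfE, hcfc⟩⟩)

/-- The data of `not_C_of_add`. -/
structure SubRoot (Φ : Space3 → ℝ) (ε : ℝ) (K : ℕ) (T : ℝ) (Y : MW ι) (E : MW κ) (c : ML)
    (σ : ℝ) : Prop where
  y : Y.Ok Φ ε
  yE : (Y.add E).Ok Φ ε
  yc : (Y.ins c).Ok Φ ε
  yEc : ((Y.add E).ins c).Ok Φ ε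
  bY : ∀ x, 0 ≤ Y.b x
  bc : 0 ≤ c.1.1
  cσ : c.1.1 ≤ σ
  nl : MW.NoLink Φ ε K T Y E (MW.line c)
  cK : c.2 ≤ K
  no : ∀ t x, t ≤ σ → ¬ ((Y.add E).ins c).C Φ ε t (Sum.inr ()) (Sum.inl x)

namespace SubRoot

theorem noCt (h : SubRoot Φ ε K T Y E c σ) (hΦ : AdmissiblePotential Φ) (hε : 0 < ε)
    (hσs : σ ≤ s) (hsT : s ≤ T) (hE : s ≤ Y.theta Φ ε K T E) : NoCt Φ ε Y c σ where
  nonneg := h.bc
  born := h.bY
  le := h.cσ
  no t k ht := not_C_of_add hΦ hε h.y h.yE h.yc h.yEc h.bY h.bc h.nl h.cK h.no hsT hE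
    (ht.trans hσs) ht k

/-- No contact of `c` before `min s σ`: the first contact before `s` is after `σ`. -/
theorem lt_of_C (h : SubRoot Φ ε K T Y E c σ) (hΦ : AdmissiblePotential Φ) (hε : 0 < ε)
    (hsT : s ≤ T) (hE : s ≤ Y.theta Φ ε K T E) {r : ℝ} {k : ι} (hr : r ≤ s)
    (hc : (Y.ins c).C Φ ε r (Sum.inr ()) (Sum.inl k)) : σ < r := by
  by_contra hlt
  exact not_C_of_add hΦ hε h.y h.yE h.yc h.yEc h.bY h.bc h.nl h.cK h.no hsT hE hr
    (not_lt.1 hlt) k hc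

/-- **(a)** -/
theorem le_thetaL (h : SubRoot Φ ε K T Y E c σ) (hΦ : AdmissiblePotential Φ) (hε : 0 < ε)
    (h0 : 0 ≤ s) (hsT : s ≤ T) (hE : s ≤ Y.theta Φ ε K T E)
    (hs : s ≤ Y.thetaL Φ ε K T (reb c σ)) : s ≤ Y.thetaL Φ ε K T c := by
  by_contra hlt
  push Not at hlt
  have hT0 : 0 ≤ T := h0.trans hsT
  obtain ⟨r, hr, x, k, hc⟩ := MW.exists_contact_le_theta hΦ hε h.y h.yc hT0
    (hlt.le.trans hsT) (by rw [Finset.univ_unique, Finset.sum_singleton]; exact h.cK)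
  have hrs : r < s := hr.2.trans_lt hlt
  have hσ := h.lt_of_C hΦ hε hsT hE hrs.le hc
  have h1 := (h.noCt hΦ hε (hσ.trans hrs).le hsT hE).thetaL_reb (K := K) hΦ hε h.yc T
  rw [h1] at hs
  exact absurd hs (not_le.2 hlt)

/-- **(b)** -/
theorem lt_thetaL (h : SubRoot Φ ε K T Y E c σ) (hΦ : AdmissiblePotential Φ) (hε : 0 < ε)
    (h0 : 0 ≤ s) (hsT : s ≤ T) (hE : s ≤ Y.theta Φ ε K T E)
    (hs : s < Y.thetaL Φ ε K T (reb c σ)) : s < Y.thetaL Φ ε K T c := by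
  by_contra hlt
  push Not at hlt
  have hT0 : 0 ≤ T := h0.trans hsT
  obtain ⟨r, hr, x, k, hc⟩ := MW.exists_contact_le_theta hΦ hε h.y h.yc hT0
    (hlt.trans hsT) (by rw [Finset.univ_unique, Finset.sum_singleton]; exact h.cK)
  have hrs : r ≤ s := hr.2.trans hlt
  have hσ := h.lt_of_C hΦ hε hsT hE hrs hc
  have h1 := (h.noCt hΦ hε (hσ.le.trans hrs) hsT hE).thetaL_reb (K := K) hΦ hε h.yc T
  rw [h1] at hs
  exact absurd hs (not_lt.2 hlt)

/-- The same with `≤` for the minimum: `min s (θ (reb c)) ≤ θ c`. -/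
theorem min_le_thetaL (h : SubRoot Φ ε K T Y E c σ) (hΦ : AdmissiblePotential Φ) (hε : 0 < ε)
    (hT : 0 ≤ T) : min (min T (Y.theta Φ ε K T E)) (Y.thetaL Φ ε K T (reb c σ)) ≤
      Y.thetaL Φ ε K T c :=
  h.le_thetaL hΦ hε (le_min (le_min hT (MW.theta_nonneg hT)) (MW.theta_nonneg hT))
    ((min_le_left _ _).trans (min_le_left _ _)) ((min_le_left _ _).trans (min_le_right _ _))
    (min_le_right _ _)

/-- **From a family of pairwise unlinked lines**: `E` the exits `ls ∘ f`, `c = ls r`. -/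
theorem of_fam (hΦ : AdmissiblePotential Φ) (hε : 0 < ε) (hT : 0 ≤ T) {ls : ξ → ML}
    (hok : MW.OkFam Φ ε Y ls) (hnl : PairNL Φ ε K T Y ls) (f : κ ↪ ξ) {r : ξ} (hf : ∀ i, f i ≠ r)
    (hbY : ∀ x, 0 ≤ Y.b x) (hK : (ls r).2 ≤ K)
    (hno : NoCt Φ ε (Y.add (MW.lines fun i => ls (f i))) (ls r) σ) :
    SubRoot Φ ε K T Y (MW.lines fun i => ls (f i)) (ls r) σ where
  y := hok.base hΦ hε
  yE := (okFam_comp hΦ hε hok f).lines hΦ hε
  yc := hok.line hΦ hε r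
  yEc := ok_lines_add hΦ hε hok f ⟨fun _ : Unit => r, fun _ _ _ => rfl⟩ fun i _ => hf i
  bY := hbY
  bc := hno.nonneg
  cσ := hno.le
  nl := noLink_lines hΦ hε hT hok hnl f ⟨fun _ : Unit => r, fun _ _ _ => rfl⟩ fun i _ => hf i
  cK := hK
  no t x ht := hno.no t x ht

end SubRoot

/-- The touch time of a family of pairwise unlinked lines. -/
theorem le_theta_lines (hΦ : AdmissiblePotential Φ) (hε : 0 < ε) (hT : 0 ≤ T) {ls : ξ → ML}
    (hok : MW.OkFam Φ ε Y ls) (hnl : PairNL Φ ε K T Y ls) (f : κ ↪ ξ) (hsT : s ≤ T)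
    (h : ∀ i, s ≤ Y.thetaL Φ ε K T (ls (f i))) :
    s ≤ Y.theta Φ ε K T (MW.lines fun i => ls (f i)) := by
  rw [theta_lines_eq hΦ hε hT hok hnl f]
  exact Decomp811.le_firstT (hsT.trans (by linarith)) h

/-- **(R2) (a), family form.** -/
theorem le_thetaL_of_reb (hΦ : AdmissiblePotential Φ) (hε : 0 < ε) {ls : ξ → ML}
    (hok : MW.OkFam Φ ε Y ls) (hnl : PairNL Φ ε K T Y ls) (f : κ ↪ ξ) {r : ξ} (hf : ∀ i, f i ≠ r)
    (hbY : ∀ x, 0 ≤ Y.b x) (hK : (ls r).2 ≤ K)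
    (hno : NoCt Φ ε (Y.add (MW.lines fun i => ls (f i))) (ls r) σ) (h0 : 0 ≤ s) (hsT : s ≤ T)
    (hE : ∀ i, s ≤ Y.thetaL Φ ε K T (ls (f i))) (hs : s ≤ Y.thetaL Φ ε K T (reb (ls r) σ)) :
    s ≤ Y.thetaL Φ ε K T (ls r) :=
  (SubRoot.of_fam hΦ hε (h0.trans hsT) hok hnl f hf hbY hK hno).le_thetaL hΦ hε h0 hsT
    (le_theta_lines hΦ hε (h0.trans hsT) hok hnl f hsT hE) hs

/-- **(R2) (b), family form.** -/
theorem lt_thetaL_of_reb (hΦ : AdmissiblePotential Φ) (hε : 0 < ε) {ls : ξ → ML}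
    (hok : MW.OkFam Φ ε Y ls) (hnl : PairNL Φ ε K T Y ls) (f : κ ↪ ξ) {r : ξ} (hf : ∀ i, f i ≠ r)
    (hbY : ∀ x, 0 ≤ Y.b x) (hK : (ls r).2 ≤ K)
    (hno : NoCt Φ ε (Y.add (MW.lines fun i => ls (f i))) (ls r) σ) (h0 : 0 ≤ s) (hsT : s ≤ T)
    (hE : ∀ i, s ≤ Y.thetaL Φ ε K T (ls (f i))) (hs : s < Y.thetaL Φ ε K T (reb (ls r) σ)) :
    s < Y.thetaL Φ ε K T (ls r) :=
  (SubRoot.of_fam hΦ hε (h0.trans hsT) hok hnl f hf hbY hK hno).lt_thetaL hΦ hε h0 hsT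
    (le_theta_lines hΦ hε (h0.trans hsT) hok hnl f hsT hE) hs

end

end Crest.Agent.R122.Ins45
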