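import Crest.Agent.R122.Good4One_45
import Crest.Agent.R122.RootR_45

/-!
# The root line of a one-contact structure has no contact up to the end of the encounter
(row 122, H1, helper45)

* `noCt_rest` : a line `c` of a world `Z` without contact up to `σ` has no contact in `rest Z c`.
* `Real4.noCt_root` : the root line, born at its release, has no contact in `w + exits` up to the end
  `cT + outT` of the encounter.
* `Real4.reb_root` : reborn there it is the line `oneLs (inl root)`.
-/

set_option autoImplicit false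
set_option linter.unusedSectionVars false

open MeasureTheory Set Filter Topology
open scoped ENNReal
open Crest.AnalysisR.Kinetic
open Crest.Agent.R122.Flow671 hiding rel
open Crest.Agent.R122.Loc45 Crest.Agent.R122.Causal291 Crest.Agent.R122.MWAlg255
open Crest.Agent.R122.Inf879 Crest.Agent.R122.EDefs602 Crest.Agent.R122.Lines255
open Crest.Agent.R122.Kin796 Crest.Agent.R122.Kin796.CTree Crest.Agent.R122.Tree674
open Crest.Agent.R122.PathFlow968 Crest.Agent.R122.TreeLines335 Crest.Agent.R122.Relabel674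
open Crest.Agent.R122.GC311 Crest.Agent.R122.Line285
open Crest.Agent.R122.Scat818 Crest.Agent.R122.OCout796
open Crest.Agent.R122.OneC285 (lpos mSet mT Meet clM cfT rt cT cB cD cX oneLs exS Real4)

namespace Crest.Agent.R122.Ins45

noncomputable section

open scoped Classical

/-- The instance used by the general theorems. -/
local instance (priority := 2000) othFintype' {α : Type} [Fintype α] (c : α) : Fintype (Oth c) :=
  Subtype.fintype fun k => k ≠ c

variable {Φ : Space3 → ℝ} {ε : ℝ}

/-- A line of a world without contact up to `σ`. -/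
theorem noCt_rest {ι : Type} [Fintype ι] {Z : MW ι} {c : ι} {σ : ℝ} (hΦ : AdmissiblePotential Φ)
    (hε : 0 < ε) {cl : ML} (hcl : IsLine Z c cl) (hborn : ∀ k, 0 ≤ Z.b k) (hσ : Z.b c ≤ σ)
    (hno : ∀ t k, t ≤ σ → Z.C Φ ε t c k → k = c) : NoCt Φ ε (rest Z c) cl σ := by
  refine ⟨?_, fun k => hborn k, ?_, fun t k ht hc => ?_⟩
  · rw [← hcl.b]; exact hborn c
  · rw [← hcl.b]; exact hσ
  · rw [← comap_splitOff hcl, C_comap hΦ hε] at hc
    exact k.2 (hno t k ht hc)

variable {te T' R : ℝ} {K : ℕ} {P : CTree} {z : PhasePoint × Par P} {m : ℕ}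
  {w : Config m} {l : ML} (h : Real4 Φ ε K te T' P z w l)

include h in
/-- **The root line has no contact in `w + exits` up to the end of the encounter.** -/
theorem _root_.Crest.Agent.R122.OneC285.Real4.noCt_root (hΦ : AdmissiblePotential Φ) (hε : 0 < ε)
    (hOk : ((MW.cfg w).add (sub (oneLs Φ ε P z l) (exS P))).Ok Φ ε) (hE : EncEv Φ ε R P z w l) :
    NoCt Φ ε ((MW.cfg w).add (sub (oneLs Φ ε P z l) (exS P))) (lineML Φ ε P z (root P))
      (cT ε z l + outT Φ ε (cD ε z l)) := by
  set Zt := (MW.cfg w).add (MW.lines (lineML Φ ε P z)) with hZt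
  have hrest := rest_exS (P := P) (MW.cfg w) (F := lineML Φ ε P z) (ls := oneLs Φ ε P z l)
    fun _ hi => oneLs_exit hi
  obtain ⟨hG, hU⟩ := h.goodEnc hΦ hε hE
  have hZ := h.ok_tree hΦ hε hOk
  have hR : (rest Zt (Sum.inr (root P))).Ok Φ ε := ok_of_comap hΦ hε _ hrest hOk
  have h1 : NoCt Φ ε (rest Zt (Sum.inr (root P))) (lineML Φ ε P z (root P))
      (cT ε z l + outT Φ ε (cD ε z l)) := by
    refine noCt_rest (Z := Zt) (c := Sum.inr (root P)) hΦ hε (cl := lineML Φ ε P z (root P))
      ⟨rfl, rfl, rfl⟩ hG.born ?_ ?_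
    · have := hG.pass.outT_pos hε
      linarith [hG.bc]
    · exact hU.free hΦ hε hZ hR hG.nonneg_s hG.bc (fun t k ht => hG.free t k ht.le) hG.state_c
  have h2 := h1.comap hΦ hε (exE (Fin m) P)
  rw [hrest] at h2
  exact h2

include h in
/-- **The root line, reborn at the end of the encounter.** -/
theorem _root_.Crest.Agent.R122.OneC285.Real4.reb_root (hΦ : AdmissiblePotential Φ) (hε : 0 < ε)
    (hOk : ((MW.cfg w).add (sub (oneLs Φ ε P z l) (exS P))).Ok Φ ε) (hE : EncEv Φ ε R P z w l) :
    reb (lineML Φ ε P z (root P)) (cT ε z l + outT Φ ε (cD ε z l)) =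
      oneLs Φ ε P z l (Sum.inl (root P)) := by
  set Zt := (MW.cfg w).add (MW.lines (lineML Φ ε P z)) with hZt
  obtain ⟨hG, -⟩ := h.goodEnc hΦ hε hE
  have h1 := hG.reb_eq hΦ hε (h.ok_tree hΦ hε hOk) (cl := lineML Φ ε P z (root P)) ⟨rfl, rfl, rfl⟩
  have hm : Zt.m (Sum.inr (root P)) = P.leaves := mk_root P
  rw [h1, hm, oneLs_root]

/-- The family of helper285 with the root line born at its release. -/
def relLs (Φ : Space3 → ℝ) (ε : ℝ) (P : CTree) (z : PhasePoint × Par P) (l : ML) :
    Idx P ⊕ Bool → ML :=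
  Function.update (oneLs Φ ε P z l) (Sum.inl (root P)) (lineML Φ ε P z (root P))

theorem relLs_inl (i : Idx P) : relLs Φ ε P z l (Sum.inl i) = lineML Φ ε P z i := by
  unfold relLs
  by_cases hi : i = root P
  · subst hi
    exact Function.update_self ..
  · rw [Function.update_of_ne fun h => hi (Sum.inl_injective h)]
    exact oneLs_exit hi

theorem relLs_inr (b : Bool) : relLs Φ ε P z l (Sum.inr b) = oneLs Φ ε P z l (Sum.inr b) :=
  Function.update_of_ne (by simp) _ _

theorem sub_relLs : sub (relLs Φ ε P z l) (exS P) = sub (oneLs Φ ε P z l) (exS P) := by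
  have h1 : ∀ x : exS P, relLs Φ ε P z l x = oneLs Φ ε P z l x := by
    rintro ⟨i | b, hx⟩
    · change relLs Φ ε P z l (Sum.inl i) = oneLs Φ ε P z l (Sum.inl i)
      rw [relLs_inl, oneLs_exit (mem_exS.1 hx)]
    · exact absurd hx inr_not_mem_exS
  unfold sub
  rw [funext h1]

include h in
/-- `oneLs` is the family `relLs` with the root line reborn. -/
theorem _root_.Crest.Agent.R122.OneC285.Real4.oneLs_eq (hΦ : AdmissiblePotential Φ) (hε : 0 < ε)
    (hOk : ((MW.cfg w).add (sub (oneLs Φ ε P z l) (exS P))).Ok Φ ε) (hE : EncEv Φ ε R P z w l) :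
    oneLs Φ ε P z l = Function.update (relLs Φ ε P z l) (Sum.inl (root P))
      (reb (relLs Φ ε P z l (Sum.inl (root P))) (cT ε z l + outT Φ ε (cD ε z l))) := by
  rw [relLs_inl, h.reb_root hΦ hε hOk hE]
  unfold relLs
  rw [Function.update_idem, Function.update_eq_self]

end

end Crest.Agent.R122.Ins45
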