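import Crest.Agent.R122.LinkVh_335
import Crest.Agent.R122.R6Tree_974
import Crest.Agent.R122.RootNo_45
import Crest.Agent.R122.RealOne_796
import Crest.Agent.R122.Line3G_984

/-!
# Test lines which touch before the exits (row 122, board H1, GAP-G), helper796

From `h : Real4 Φ ε K te T' P z w l`:

* `R4.in1`, `R4.ok1`, `R4.sep0`, `realIn4` : the tree is real in `w + V`, `V = treeW`.
* `R4.noCt_root` : the root line has no contact in `w + exits` up to `cT`.
* `R4.lt_thetaL_root` : a time which is not later than the touch times of the exits and not later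
  than `cT` is before the touch time of the root line (world `w`).
* `not_mem_nbadE` : if an exit touches not later than `cT` (`Alt4`), a test line `x` which is unlinked
  to the lines of the tree in `w` and whose clean closure does not return to the tubes of the tree is
  not in `NbadE`.
-/

set_option autoImplicit false
set_option linter.unusedSectionVars false

open MeasureTheory Set Filter Topology
open scoped ENNReal
open Crest.AnalysisR.Kinetic
open Crest.Agent.R122.Flow671 hiding rel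
open Crest.Agent.R122.Loc45 Crest.Agent.R122.Ins45
open Crest.Agent.R122.Causal291 Crest.Agent.R122.Inf879 Crest.Agent.R122.EDefs602
open Crest.Agent.R122.Lines255
open Crest.Agent.R122.Kin796 Crest.Agent.R122.Kin796.CTree Crest.Agent.R122.Tree674
open Crest.Agent.R122.PathFlow968 Crest.Agent.R122.TreeLines335 Crest.Agent.R122.Relabel674
open Crest.Agent.R122.GC311
open Crest.Agent.R122.MWFam255 (FamNL PairNL)
open Crest.Agent.R122.E6Hyp879 (withD)
open Crest.Agent.R122.RealL811 (treeW)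
open Crest.Agent.R122.LNEv383 (RetC)
open Crest.Agent.R122.OneC285 (lpos cfT rt cT Real4 ptube NbadE Alt4)
open Crest.Agent.R122.R6Tree974 (gE comap1 treeIn_comap toRL)

namespace Crest.Agent.R122.NbadX796

noncomputable section

open scoped Classical

/-- The instance used by the general theorems. -/
local instance (priority := 2000) othFintype {α : Type} [Fintype α] (c : α) : Fintype (Oth c) :=
  Subtype.fintype fun k => k ≠ c

section labels

variable {ι κ : Type} [Fintype ι] [Fintype κ]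

/-- Labels of the world `w + lines F` without the line `r`. -/
def exE' (ι κ : Type) (r : κ) :
    ι ⊕ {k : κ // k ≠ r} ≃ Oth (Sum.inr r : ι ⊕ κ) where
  toFun := Sum.elim (fun i => ⟨Sum.inl i, by simp⟩)
    fun k => ⟨Sum.inr k.1, fun h => k.2 (by simpa using h)⟩
  invFun x := match x with
    | ⟨Sum.inl i, _⟩ => Sum.inl i
    | ⟨Sum.inr k, hk⟩ => Sum.inr ⟨k, fun h => hk (by rw [h])⟩
  left_inv := by
    rintro (i | k) <;> rfl
  right_inv := by
    rintro ⟨i | k, hx⟩ <;> rfl

theorem rest_exE' (w : MW ι) (F : κ → ML) (r : κ) :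
    (rest (w.add (MW.lines F)) (Sum.inr r)).comap (exE' ι κ r) =
      w.add (MW.lines fun k : {k : κ // k ≠ r} => F k) := by
  unfold rest MW.add MW.comap MW.lines
  congr 1 <;> · funext x; rcases x with x | x <;> rfl

end labels

variable {Φ : Space3 → ℝ} {ε te T' : ℝ} {K : ℕ} {P : CTree} {z : PhasePoint × Par P} {m : ℕ}
  {w : Config m} {l x : ML}

/-! ### The tree in `w + V` -/

theorem R4.in1 (hΦ : AdmissiblePotential Φ) (hε : 0 < ε) (h : Real4 Φ ε K te T' P z w l) :
    Ins45.TreeIn Φ ε ((MW.cfg w).add (treeW Φ ε P z)) P z Sum.inr := by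
  rw [← comap1]
  exact treeIn_comap (TreeIn.of_real hΦ hε h.pos h.real) hΦ hε (gE P m) fun _ => rfl

theorem R4.ok1 (hΦ : AdmissiblePotential Φ) (hε : 0 < ε) (h : Real4 Φ ε K te T' P z w l) :
    ((MW.cfg w).add (treeW Φ ε P z)).Ok Φ ε := by
  rw [← comap1]
  exact MWFam255.Ok.relabel hΦ hε (Unw410.cfg_ok hΦ hε h.excl) _

theorem R4.sep0 (hΦ : AdmissiblePotential Φ) (hε : 0 < ε) (h : Real4 Φ ε K te T' P z w l)
    (k : Idx P) (i : Fin m) :
    ε < dist (((MW.cfg w).add (treeW Φ ε P z)).path Φ ε 0 (Sum.inr k)).1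
      (((MW.cfg w).add (treeW Φ ε P z)).path Φ ε 0 (Sum.inl i)).1 := by
  rw [MW.path_zero hΦ hε, ← comap1]
  refine h.excl _ _ fun he => ?_
  have h1 : (Sum.inr k : Fin m ⊕ Idx P) = Sum.inl i := (gE P m).injective he
  cases h1

theorem R4.far (hΦ : AdmissiblePotential Φ) (hε : 0 < ε) (h : Real4 Φ ε K te T' P z w l) (t : ℝ)
    (ht : rel P z.2 (root P) < t) (hts : t ≤ cT ε z l) (x : Fin m ⊕ Idx P)
    (hx : x ≠ Sum.inr (root P)) (_hb : ((MW.cfg w).add (treeW Φ ε P z)).b x ≤ t) :
    ε < dist (((MW.cfg w).add (treeW Φ ε P z)).path Φ ε t (Sum.inr (root P))).1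
      (((MW.cfg w).add (treeW Φ ε P z)).path Φ ε t x).1 := by
  rw [← comap1, EquivE416.path_comap hΦ hε, EquivE416.path_comap hΦ hε,
    EBasic602.cfg_path hΦ hε]
  exact root_far hΦ hε h.pos h.real ht hts fun he => hx ((gE P m).injective he)

theorem lines4 (A : MW (Idx P)) (ls : Idx P → ML) :
    lw ((MW.cfg w).add A) (Sum.inr : Idx P → Fin m ⊕ Idx P) ls =
      (MW.cfg w).add (MW.lines ls) := by
  have hinj : Function.Injective (Sum.inr : Idx P → Fin m ⊕ Idx P) := Sum.inr_injective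
  have hoff : ∀ x : Fin m, (Sum.inl x : Fin m ⊕ Idx P) ∉ range (Sum.inr : Idx P → _) := by
    rintro x ⟨y, hy⟩
    cases hy
  have h2 : ∀ {α : Type} (Y Y' : MW α), (∀ x, Y.b x = Y'.b x) → (∀ x, Y.z x = Y'.z x) →
      (∀ x, Y.m x = Y'.m x) → Y = Y' := by
    intro α Y Y' a1 a2 a3
    cases Y
    cases Y'
    simp only at a1 a2 a3
    rw [MW.mk.injEq]
    exact ⟨funext a1, funext a2, funext a3⟩
  refine h2 _ _ ?_ ?_ ?_
  · rintro (x | x)
    · rw [lw_b_off (hoff x)]; rfl
    · exact lw_b hinj x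
  · rintro (x | x)
    · rw [lw_z_off (hoff x)]; rfl
    · exact lw_z hinj x
  · rintro (x | x)
    · rw [lw_m_off (hoff x)]; rfl
    · exact lw_m hinj x

/-- **`RealIn` for `w + V`.** -/
theorem realIn4 (hΦ : AdmissiblePotential Φ) (hε : 0 < ε) (h : Real4 Φ ε K te T' P z w l) :
    One796.RealIn Φ ε (cT ε z l) ((MW.cfg w).add (treeW Φ ε P z))
      ((MW.cfg w).add (MW.lines (lineML Φ ε P z))) P z Sum.inr where
  lines := lines4 _ _
  ok := R4.ok1 hΦ hε h
  b0 := by
    rintro (x | x) <;> exact le_rfl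
  pos := h.pos
  valid := h.real.valid
  tree := R4.in1 hΦ hε h
  far := R4.far hΦ hε h

/-! ### The root line -/

/-- The root line has no contact in `w + exits` up to `cT`. -/
theorem R4.noCt_root (hΦ : AdmissiblePotential Φ) (hε : 0 < ε)
    (h : Real4 Φ ε K te T' P z w l) :
    NoCt Φ ε ((MW.cfg w).add (MW.lines fun i : {i : Idx P // i ≠ root P} => lineML Φ ε P z i))
      (lineML Φ ε P z (root P)) (cT ε z l) := by
  have hR := realIn4 hΦ hε h
  set Zt := (MW.cfg w).add (MW.lines (lineML Φ ε P z)) with hZt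
  have h1 : NoCt Φ ε (rest Zt (Sum.inr (root P))) (lineML Φ ε P z (root P)) (cT ε z l) :=
    noCt_rest (Z := Zt) (c := Sum.inr (root P)) hΦ hε (cl := lineML Φ ε P z (root P))
      ⟨rfl, rfl, rfl⟩ (hR.W_nonneg hε) (hR.rel_lt hε _).le
      fun t k ht hc => hR.root_free hΦ hε ht hc
  have h2 := h1.comap hΦ hε (exE' (Fin m) (Idx P) (root P))
  rw [rest_exE'] at h2
  exact h2

/-- **The root line touches later than every time which is not later than the touch times of the
exits and than `cT`.** -/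
theorem R4.lt_thetaL_root (hΦ : AdmissiblePotential Φ) (hε : 0 < ε)
    (h : Real4 Φ ε K te T' P z w l) (hK : P.leaves ≤ K)
    (hok : MW.OkFam Φ ε (MW.cfg w) (lineML Φ ε P z))
    (hnl : PairNL Φ ε K te (MW.cfg w) (lineML Φ ε P z)) {s : ℝ} (hs0 : 0 ≤ s) (hs : s ≤ cT ε z l)
    (hex : ∀ i, i ≠ root P → s ≤ (MW.cfg w).thetaL Φ ε K te (lineML Φ ε P z i)) :
    s < (MW.cfg w).thetaL Φ ε K te (lineML Φ ε P z (root P)) := by
  have hste : s ≤ te := hs.trans h.le
  have hT : 0 ≤ te := hs0.trans hste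
  have hSR := SubRoot.of_fam hΦ hε hT hok hnl
    (Function.Embedding.subtype fun i : Idx P => i ≠ root P) (r := root P) (fun i => i.2)
    (fun _ => le_rfl) ((mk_le P (root P)).trans hK) (R4.noCt_root hΦ hε h)
  have hE : s ≤ (MW.cfg w).theta Φ ε K te
      (MW.lines fun i : {i : Idx P // i ≠ root P} => lineML Φ ε P z i) :=
    le_theta_lines hΦ hε hT hok hnl (Function.Embedding.subtype fun i : Idx P => i ≠ root P) hste
      fun i => hex i i.2
  by_contra hlt
  rw [not_lt] at hlt
  obtain ⟨r, hr, y, k, hc⟩ := MW.exists_contact_le_theta (Z := MW.cfg w)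
    (A := MW.line (lineML Φ ε P z (root P))) hΦ hε hSR.y hSR.yc hT
    (K := K) (T := te) (hlt.trans hste)
    (by rw [Finset.univ_unique, Finset.sum_singleton]; exact hSR.cK)
  have hrs : r ≤ s := hr.2.trans hlt
  exact absurd (hSR.lt_of_C hΦ hε hste hE hrs hc) (not_lt.2 (hrs.trans hs))

/-! ### The set `NbadE` -/

/-- **A good test line is not in `NbadE`.** -/
theorem not_mem_nbadE (hΦ : AdmissiblePotential Φ) (hε : 0 < ε) (hTT : te ≤ T')
    (h : Real4 Φ ε K te T' P z w l) (hK : P.leaves ≤ K) (hA : Alt4 Φ ε K te P z w l)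
    (hx0 : 0 ≤ x.1.1)
    (hokx : ((MW.cfg (Fin.append (cfT Φ ε P z) w)).ins x).Ok Φ ε)
    (hok : MW.OkFam Φ ε (MW.cfg w) (withD (lineML Φ ε P z) x))
    (hnl : PairNL Φ ε K te (MW.cfg w) (withD (lineML Φ ε P z) x))
    (hret : ¬ RetC Φ ε ε K te (MW.cfg w) x (ptube Φ ε P z)) :
    x ∉ NbadE Φ ε K te P z w := by
  rintro ⟨h1, h2⟩
  obtain ⟨i, hi, hic⟩ := hA
  set t := (MW.cfg w).thetaL Φ ε K te x with ht
  have htc : t < cT ε z l := (h1 i hi).trans_le hic
  have hte : t ≤ te := htc.le.trans h.le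
  have hT : 0 ≤ te := h.pos.le.trans h.le
  have ht0 : 0 ≤ t := MW.theta_nonneg hT
  have hok' : MW.OkFam Φ ε (MW.cfg w) (lineML Φ ε P z) :=
    MWFam255.okFam_comp hΦ hε hok (E6Hyp879.inlEmb (Idx P) Unit)
  have hnl' : PairNL Φ ε K te (MW.cfg w) (lineML Φ ε P z) := fun j k hjk =>
    hnl (Sum.inl j) (Sum.inl k) fun h => hjk (Sum.inl_injective h)
  have hroot := R4.lt_thetaL_root hΦ hε h hK hok' hnl' ht0 htc.le fun i hi => (h1 i hi).le
  have hall : ∀ k, t ≤ (MW.cfg w).thetaL Φ ε K te (lineML Φ ε P z k) := by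
    intro k
    by_cases hk : k = root P
    · subst hk
      exact hroot.le
    · exact (h1 k hk).le
  have hokAx : (((MW.cfg w).add (treeW Φ ε P z)).add (MW.line x)).Ok Φ ε := by
    have h3 : ((MW.cfg w).add (treeW Φ ε P z)).add (MW.line x) =
        ((MW.cfg (Fin.append (cfT Φ ε P z) w)).ins x).comap
          (Equiv.sumCongr (gE P m) (Equiv.refl Unit)) := by
      rw [← comap1]
      exact EquivE416.ins_comap _ x (gE P m)
    rw [h3]
    exact MWFam255.Ok.relabel hΦ hε hokx _
  have key := LinkVh335.thetaL_le (Z := MW.cfg w) (T := te) (T' := T') (v := t) (l := x) hΦ hε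
    h.valid h.sep hK (hte.trans hTT) hT (fun _ => le_rfl) hx0 (toRL (R4.in1 hΦ hε h) t)
    (R4.ok1 hΦ hε h) hokAx (fun k i _ => R4.sep0 hΦ hε h k i) hok hnl hret le_rfl hte hall
  have h4 : ((MW.cfg w).add (treeW Φ ε P z)).thetaL Φ ε K te x =
      (MW.cfg (Fin.append (cfT Φ ε P z) w)).thetaL Φ ε K te x := by
    rw [← comap1, EquivE416.thetaL_comap hΦ hε]
  rw [h4] at key
  exact absurd h2 (not_lt.2 key)

end

end Crest.Agent.R122.NbadX796
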