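import Crest.Agent.R122.LinkHor_984
import Crest.Agent.R122.Coinc_423
import Crest.Agent.R122.GoodOf_263
import Crest.Agent.R122.NbadE_796
import Crest.Agent.R122.InEq2TX_335
import Crest.Agent.R122.BadX_974

/-!
# Assembly of `StmtLink4` (row 122, board H1): the pointwise bound and the assembly

* `OkE4` : almost sure facts; `LinkE4` : link events of a contact structure; `XbadD`, `Xbad4` : linked
  test lines, base worlds `w` and `w + d`.
* `NbadDet` : deterministic statement on `Nbad4` (helper879).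
* `err4_le` : the error is bounded by the pieces.
* `osNull_err4`, `stmtLink4_of_parts` : `StmtLink4` from the pieces.
-/

set_option autoImplicit false
set_option linter.unusedSectionVars false

open MeasureTheory Set Filter Topology
open scoped ENNReal
open Crest.AnalysisR.Kinetic
open Crest.Agent.R122.Kin796 Crest.Agent.R122.Kin796.CTree Crest.Agent.R122.Tree674
open Crest.Agent.R122.GC311 Crest.Agent.R122.EDefs602 Crest.Agent.R122.OneC285
open Crest.Agent.R122.Long984 Crest.Agent.R122.Third741 Crest.Agent.R122.ThirdV796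
open Crest.Agent.R122.OSCalc495 Crest.Agent.R122.GSCalc495
open Crest.Agent.R122.Scat818 Crest.Agent.R122.OCout796
open Crest.Agent.R122.Ins45 hiding relLs
open Crest.Agent.R122.Flow671 hiding rel
open Crest.Agent.R122.TreeLines335 Crest.Agent.R122.Line285 Crest.Agent.R122.Inf879
open Crest.Agent.R122.MWFam255 (PairNL CF)
open Crest.Agent.R122.E6Hyp879 (withD)
open Crest.Agent.R122.LNEv383 (RetC)
open Crest.Agent.R122.UnlC263 (Ad E4Pairs relLs)
open Crest.Agent.R122.Coinc423 (coF)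

noncomputable section

open scoped Classical

namespace Crest.Agent.R122.LinkAsm984

variable {Φ : Space3 → ℝ} {f₀ : PhasePoint → ℝ} {ε R : ℝ} {K : ℕ} {Q : EPar} {T' : ℝ} {P : CTree}
  {z : PhasePoint × Par P} {m : ℕ} {w : Config m} {l x : ML}

/-! ## Events -/

/-- Good worlds of the contact structure. -/
structure OkE4 (Φ : Space3 → ℝ) (ε : ℝ) (P : CTree) (z : PhasePoint × Par P) {m : ℕ}
    (w : Config m) (l : ML) : Prop where
  okR : MW.OkFam Φ ε (MW.cfg w) (lineML Φ ε P z)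
  ok1 : MW.OkFam Φ ε (MW.cfg w)
    (fun x : (insert (Sum.inl (root P)) (exS P) : Finset (Idx P ⊕ Bool)) => oneLs Φ ε P z l x)
  ok2 : MW.OkFam Φ ε (MW.cfg w)
    (fun x : (insert (Sum.inr false) (insert (Sum.inr true) (exS P)) : Finset (Idx P ⊕ Bool)) =>
      oneLs Φ ε P z l x)

/-- An exit which is altered by the gas, or a gas particle which is altered by an exit, is near the
undeflected root line during the encounter, before the exit has touched. -/
def NearL (Φ : Space3 → ℝ) (ε R : ℝ) (K : ℕ) (te : ℝ) (P : CTree) (z : PhasePoint × Par P) {m : ℕ}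
    (w : Config m) (l : ML) : Prop :=
  ∃ t, cT ε z l ≤ t ∧ t ≤ cT ε z l + ε * R ∧ ∃ j, j ≠ root P ∧
    t < (MW.cfg w).thetaL Φ ε K te (lineML Φ ε P z j) ∧
    ((∃ k, CF Φ ε K (MW.cfg w) (MW.line (lineML Φ ε P z j)) t k ∧
      dist (((MW.cfg w).ins (lineML Φ ε P z j)).path Φ ε t (Sum.inl k)).1
        (z.1.1 + t • z.1.2) ≤ (R + 2) * ε) ∨
    ((∃ r k, r < t ∧ ((MW.cfg w).ins (lineML Φ ε P z j)).C Φ ε r (Sum.inr ()) (Sum.inl k)) ∧
      dist (((MW.cfg w).ins (lineML Φ ε P z j)).path Φ ε t (Sum.inr ())).1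
        (z.1.1 + t • z.1.2) ≤ (R + 2) * ε))

/-- Two coexisting lines of the contact structure are linked in `w`. -/
def LinkA (Φ : Space3 → ℝ) (ε : ℝ) (K : ℕ) (te : ℝ) (P : CTree) (z : PhasePoint × Par P) {m : ℕ}
    (w : Config m) (l : ML) : Prop :=
  ∃ x y, Ad P x y ∧ ¬ MW.NoLink Φ ε K te (MW.cfg w) (MW.line (relLs Φ ε P z l x))
    (MW.line (relLs Φ ε P z l y))

/-- Two coexisting lines of the contact structure are linked in `w + d`, `d` an exit. -/
def LinkB (Φ : Space3 → ℝ) (ε : ℝ) (K : ℕ) (te : ℝ) (P : CTree) (z : PhasePoint × Par P) {m : ℕ}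
    (w : Config m) (l : ML) : Prop :=
  ∃ d, d ≠ root P ∧ ∃ x y, Ad P x y ∧ x ≠ Sum.inl d ∧ y ≠ Sum.inl d ∧
    ¬ MW.NoLink Φ ε K te ((MW.cfg w).ins (lineML Φ ε P z d)) (MW.line (relLs Φ ε P z l x))
      (MW.line (relLs Φ ε P z l y))

/-- The encounter is a passage, short, and ends before the horizon. -/
structure EncOk (Φ : Space3 → ℝ) (ε R te : ℝ) (P : CTree) (z : PhasePoint × Par P) (l : ML) :
    Prop where
  pass : CDpass Φ (cD ε z l)
  tau : tauM Φ (relB (cD ε z l)) ≤ R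
  disp : tauM Φ (relB (cD ε z l)) * ‖(relB (cD ε z l)).2‖ ≤ R
  hor : cT ε z l + ε * R ≤ te

/-- **The link events of a contact structure** (good worlds, passage). -/
structure LinkE4 (Φ : Space3 → ℝ) (ε R : ℝ) (K : ℕ) (te : ℝ) (P : CTree) (z : PhasePoint × Par P)
    {m : ℕ} (w : Config m) (l : ML) : Prop where
  ok : OkE4 Φ ε P z w l
  enc : EncOk Φ ε R te P z l
  link : LinkA Φ ε K te P z w l ∨ LinkB Φ ε K te P z w l ∨ NearL Φ ε R K te P z w l

/-- Test lines which are linked to the tree or return to it in the base world `w + d`, `d` an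
exit. -/
def XbadD (Φ : Space3 → ℝ) (ε : ℝ) (K : ℕ) (te : ℝ) (P : CTree) (z : PhasePoint × Par P) {m : ℕ}
    (w : Config m) : Set ML :=
  {x | ∃ d, d ≠ root P ∧
    (RetC Φ ε ε K te ((MW.cfg w).ins (lineML Φ ε P z d)) x (ptube Φ ε P z) ∨
    ∃ i, i ≠ d ∧ ¬ MW.NoLink Φ ε K te ((MW.cfg w).ins (lineML Φ ε P z d))
      (MW.line (lineML Φ ε P z i)) (MW.line x))}

/-- **Exceptional test lines.** -/
def Xbad4 (Φ : Space3 → ℝ) (ε : ℝ) (K : ℕ) (te : ℝ) (P : CTree) (z : PhasePoint × Par P) {m : ℕ}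
    (w : Config m) : Set ML :=
  InEq2T.lkX Φ ε K te P z w ∪ XbadD Φ ε K te P z w

/-- (helper879) Deterministic statement: good test lines are not in `Nbad4`. -/
def NbadDet (Φ : Space3 → ℝ) : Prop :=
  ∀ (ε R : ℝ) (K : ℕ) (te T' : ℝ) (P : CTree) (z : PhasePoint × Par P) (m : ℕ) (w : Config m)
    (l x : ML), 0 < ε → te ≤ T' → l.2 + P.leaves ≤ K → Real4 Φ ε K te T' P z w l →
    E4Pairs Φ ε K te P z w l → EncParts Φ ε R K te P z w l → 0 < x.1.1 → x.1.1 ≤ te → 1 ≤ x.2 →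
    x.2 ≤ K → InEq2T.GoodX Φ ε K te P z w x → x ∉ XbadD Φ ε K te P z w →
    x ∉ Nbad4 Φ ε K te P z w l

/-! ## The parts of the encounter -/

/-- The parts of the encounter from the pieces. -/
theorem encParts_of (hε : 0 < ε) (hR : 0 ≤ R) (hK : l.2 + P.leaves ≤ K)
    (h : Real4 Φ ε K Q.te T' P z w l) (hΦ : AdmissiblePotential Φ)
    (hen : EncOk Φ ε R Q.te P z l) (hA : ¬ Alt4 Φ ε K Q.te P z w l)
    (hco : coF Φ ε K Q.te R P z m w l < 1) (hth : thirdS Φ K R ε P z m w l < 1)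
    (hme : memS Φ Q.te K (2 * (R + 1) * ε) ε P z m w l < 1)
    (hn : ¬ NearL Φ ε R K Q.te P z w l) : EncParts Φ ε R K Q.te P z w l := by
  have hPK : P.leaves ≤ K := le_trans (Nat.le_add_left _ _) hK
  have hunt : ∀ j, j ≠ root P →
      cT ε z l + ε * R < (MW.cfg w).thetaL Φ ε K Q.te (lineML Φ ε P z j) := by
    intro j hj
    by_contra hc
    have h1 : cT ε z l ≤ (MW.cfg w).thetaL Φ ε K Q.te (lineML Φ ε P z j) := by
      by_contra h2
      exact hA ⟨j, hj, (not_le.1 h2).le⟩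
    have h2 := Coinc423.coF_eq_one (Φ := Φ) (ε := ε) (K := K) (te := Q.te) (R := R) (l := l)
      (w := w) h.valid.1 hPK hj ⟨h1, by rw [mul_comm R ε]; exact not_lt.1 hc⟩
    rw [h2] at hco
    exact absurd hco (lt_irrefl 1)
  have ha : 0 < 2 * (R + 1) * ε := by positivity
  have htl : ∀ t, cT ε z l ≤ t → t ≤ cT ε z l + ε * R → |t - cT ε z l| ≤ 2 * (R + 1) * ε := by
    intro t h1 h2
    rw [abs_of_nonneg (sub_nonneg.2 h1)]
    nlinarith
  have hrad : (R + 2) * ε ≤ 2 * (R + 1) * ε := by nlinarith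
  refine ⟨hen.pass, hen.tau, hen.disp, hen.hor, hunt, ?_, ?_, ?_, ?_⟩
  · -- gas
    intro t h1 h2 i
    by_contra hc
    rw [not_lt, EBasic602.cfg_path hΦ hε] at hc
    have hnear : Near Φ ε w (cT ε z l) (2 * (R + 1) * ε)
        ((2 * (R + 1) * ε) * (1 + ‖l.1.2.2‖ + ‖z.1.2‖)) (z.1.1 + cT ε z l • z.1.2) := by
      refine ⟨i, t, ⟨by linarith [ha], ?_⟩, ?_⟩
      · have := (abs_le.1 (htl t h1 h2)).2
        linarith
      · have h3 : dist (z.1.1 + cT ε z l • z.1.2) (z.1.1 + t • z.1.2) ≤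
            ε * R * ‖z.1.2‖ := by
          rw [dist_eq_norm]
          have e1 : z.1.1 + cT ε z l • z.1.2 - (z.1.1 + t • z.1.2) =
              (cT ε z l - t) • z.1.2 := by module
          rw [e1, norm_smul, Real.norm_eq_abs, abs_sub_comm, abs_of_nonneg (sub_nonneg.2 h1)]
          exact mul_le_mul_of_nonneg_right (by linarith) (norm_nonneg _)
        have h4 : dist (z.1.1 + t • z.1.2) (flow Φ ε t w i).1 ≤ (R + 2) * ε := by
          rw [dist_comm]
          exact hc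
        have h5 := (dist_triangle _ _ _).trans (add_le_add h3 h4)
        refine h5.trans ?_
        have h6 : 0 ≤ ‖l.1.2.2‖ := norm_nonneg _
        have h7 : 0 ≤ ‖z.1.2‖ := norm_nonneg _
        have h8 : ε * R * ‖z.1.2‖ ≤ 2 * (R + 1) * ε * ‖z.1.2‖ :=
          mul_le_mul_of_nonneg_right (by nlinarith) h7
        nlinarith [mul_nonneg ha.le h6]
    have h3 : thirdS Φ K R ε P z m w l = 1 := by
      unfold thirdS sfOf thirdG
      rw [if_pos hPK, nearI_of hnear]
    rw [h3] at hth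
    exact absurd hth (lt_irrefl 1)
  · -- members
    intro t h1 h2 j hj
    have h3 := (of_memS_lt hPK h.ct hme).2 j hj t (htl t h1 h2)
    refine lt_of_le_of_lt ?_ h3
    refine hrad.trans ?_
    have h6 : 0 ≤ ‖l.1.2.2‖ := norm_nonneg _
    have h7 : 0 ≤ ‖z.1.2‖ := norm_nonneg _
    nlinarith [mul_nonneg ha.le h6, mul_nonneg ha.le h7]
  · intro t h1 h2 j hj k hk
    by_contra hc
    exact hn ⟨t, h1, h2, j, hj, h2.trans_lt (hunt j hj), Or.inl ⟨k, hk, not_lt.1 hc⟩⟩
  · intro t h1 h2 j hj hk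
    by_contra hc
    exact hn ⟨t, h1, h2, j, hj, h2.trans_lt (hunt j hj), Or.inr ⟨hk, not_lt.1 hc⟩⟩

/-! ## The pointwise bound -/

/-- `Good4` and the parts, off the pieces. -/
theorem good4_of (hε : 0 < ε) (hR : 0 ≤ R) (hK : l.2 + P.leaves ≤ K)
    (h : Real4 Φ ε K Q.te T' P z w l) (hΦ : AdmissiblePotential Φ)
    (hen : EncOk Φ ε R Q.te P z l) (hA : ¬ Alt4 Φ ε K Q.te P z w l)
    (hco : coF Φ ε K Q.te R P z m w l < 1) (hth : thirdS Φ K R ε P z m w l < 1)
    (hme : memS Φ Q.te K (2 * (R + 1) * ε) ε P z m w l < 1) (hok : OkE4 Φ ε P z w l)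
    (hl : ¬ LinkE4 Φ ε R K Q.te P z w l) :
    Good4 Φ ε K Q.te P z w l ∧ E4Pairs Φ ε K Q.te P z w l ∧
      EncParts Φ ε R K Q.te P z w l := by
  have h1 : ¬ (LinkA Φ ε K Q.te P z w l ∨ LinkB Φ ε K Q.te P z w l ∨
      NearL Φ ε R K Q.te P z w l) := fun h1 => hl ⟨hok, hen, h1⟩
  push Not at h1
  obtain ⟨h2, h3, h4⟩ := h1
  have hE : EncParts Φ ε R K Q.te P z w l := encParts_of hε hR hK h hΦ hen hA hco hth hme h4
  have hP : E4Pairs Φ ε K Q.te P z w l := by
    refine ⟨hok.okR, hok.ok1, hok.ok2, fun x y hxy => ?_, fun d hd x y hxy hx hy => ?_⟩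
    · by_contra hc
      exact h2 ⟨x, y, hxy, hc⟩
    · by_contra hc
      exact h3 ⟨d, hd, x, y, hxy, hx, hy, hc⟩
  exact ⟨Good4.of h hΦ hε hK hP hE, hP, hE⟩

/-- The encounter is a short passage before the horizon, off the pieces. -/
theorem encOk_of (hg : Gd4 Φ ε K Q T' P z w l) (hlo : longS Φ K R ε P z m w l < 1)
    (hpa : passS Φ K ε P z m w l < 1) (hho : horS Q.te R K ε P z m w l < 1) :
    EncOk Φ ε R Q.te P z l := by
  have hPK : P.leaves ≤ K := le_trans (Nat.le_add_left _ _) hg.small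
  have h1 : longI Φ R (cD ε z l) = 0 := by
    by_contra hc
    have h2 : longI Φ R (cD ε z l) = 1 := by
      unfold longI at hc ⊢
      split_ifs with h3
      · rw [if_pos h3] at hc
        exact absurd rfl hc
      · rfl
    have h3 : smI K P l = 1 := if_pos hg.small
    unfold longS at hlo
    rw [h2, h3, one_mul] at hlo
    exact absurd hlo (lt_irrefl 1)
  rw [longI_eq_zero] at h1
  refine ⟨?_, h1.1, h1.2, ?_⟩
  · by_contra hc
    have h2 : passS Φ K ε P z m w l = 1 := by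
      unfold passS sfOf passG
      rw [if_pos hPK]
      exact if_neg hc
    rw [h2] at hpa
    exact absurd hpa (lt_irrefl 1)
  · by_contra hc
    have h2 : horS Q.te R K ε P z m w l = 1 := by
      unfold horS
      refine if_pos ⟨hPK, ?_, hg.real.le⟩
      rw [not_le] at hc
      nlinarith
    rw [h2] at hho
    exact absurd hho (lt_irrefl 1)

/-- The lines of the tree are pairwise unlinked, off the link events. -/
theorem pairNL_of (h : ¬ LinkA Φ ε K Q.te P z w l) :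
    PairNL Φ ε K Q.te (MW.cfg w) (lineML Φ ε P z) := by
  intro i j hij
  by_contra hc
  have hne : (Sum.inl i : Idx P ⊕ Bool) ≠ Sum.inl j := fun h' => hij (Sum.inl_injective h')
  refine h ⟨Sum.inl i, Sum.inl j, ⟨hne, ?_, ?_⟩, hc⟩
  · rintro ⟨-, b, hb⟩
    cases hb
  · rintro ⟨-, b, hb⟩
    cases hb

theorem okx_of (hΦ : AdmissiblePotential Φ) (hε : 0 < ε)
    (h : (((MW.cfg w).add (RealL811.treeW Φ ε P z)).add (MW.line x)).Ok Φ ε) :
    ((MW.cfg (Fin.append (cfT Φ ε P z) w)).ins x).Ok Φ ε := by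
  have h3 : ((MW.cfg w).add (RealL811.treeW Φ ε P z)).add (MW.line x) =
      ((MW.cfg (Fin.append (cfT Φ ε P z) w)).ins x).comap
        (Equiv.sumCongr (R6Tree974.gE P m) (Equiv.refl Unit)) := by
    rw [← R6Tree974.comap1]
    exact EquivE416.ins_comap _ x (R6Tree974.gE P m)
  rw [h3] at h
  exact (MW.ok_comap_iff hΦ hε _).1 h

/-- **The pointwise bound.** -/
theorem err4_le (hΦ : AdmissiblePotential Φ) (hD : NbadDet Φ) (hγ : Measurable Q.γ) (hε : 0 < ε)
    (hR : 0 ≤ R) (hTT : Q.te ≤ T') (hg : Gd4 Φ ε K Q T' P z w l) :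
    err4 Φ ε K Q P z w l ≤ longS Φ K R ε P z m w l + (passS Φ K ε P z m w l +
      (horS Q.te R K ε P z m w l + (coF Φ ε K Q.te R P z m w l + (thirdS Φ K R ε P z m w l +
      (memS Φ Q.te K (2 * (R + 1) * ε) ε P z m w l + ((if ¬ OkE4 Φ ε P z w l then 1 else 0) +
      ((if LinkE4 Φ ε R K Q.te P z w l then 1 else 0) +
        min 1 (lineM Q.γ Q.ρ K Q.te (Xbad4 Φ ε K Q.te P z w))))))))) := by
  have hPK : P.leaves ≤ K := le_trans (Nat.le_add_left _ _) hg.small
  by_cases h1 : longS Φ K R ε P z m w l < 1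
  swap
  · exact err4_le_one.trans ((not_lt.1 h1).trans le_self_add)
  refine le_trans ?_ le_add_self
  by_cases h2 : passS Φ K ε P z m w l < 1
  swap
  · exact err4_le_one.trans ((not_lt.1 h2).trans le_self_add)
  refine le_trans ?_ le_add_self
  by_cases h3 : horS Q.te R K ε P z m w l < 1
  swap
  · exact err4_le_one.trans ((not_lt.1 h3).trans le_self_add)
  refine le_trans ?_ le_add_self
  by_cases h4 : coF Φ ε K Q.te R P z m w l < 1
  swap
  · exact err4_le_one.trans ((not_lt.1 h4).trans le_self_add)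
  refine le_trans ?_ le_add_self
  by_cases h5 : thirdS Φ K R ε P z m w l < 1
  swap
  · exact err4_le_one.trans ((not_lt.1 h5).trans le_self_add)
  refine le_trans ?_ le_add_self
  by_cases h6 : memS Φ Q.te K (2 * (R + 1) * ε) ε P z m w l < 1
  swap
  · exact err4_le_one.trans ((not_lt.1 h6).trans le_self_add)
  refine le_trans ?_ le_add_self
  by_cases h7 : OkE4 Φ ε P z w l
  swap
  · refine err4_le_one.trans (le_trans ?_ le_self_add)
    rw [if_pos h7]
  refine le_trans ?_ le_add_self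
  by_cases h8 : LinkE4 Φ ε R K Q.te P z w l
  · refine err4_le_one.trans (le_trans ?_ le_self_add)
    rw [if_pos h8]
  refine le_trans ?_ le_add_self
  have hen : EncOk Φ ε R Q.te P z l := encOk_of hg h1 h2 h3
  have hA0 : ¬ LinkA Φ ε K Q.te P z w l := fun h => h8 ⟨h7, hen, Or.inl h⟩
  have hnl := pairNL_of hA0
  unfold err4
  by_cases hA : Alt4 Φ ε K Q.te P z w l
  · rw [if_pos hA]
    refine min_le_min le_rfl (measure_mono_ae ?_)
    filter_upwards [EBasic602.lineM_ae hγ] with x hx hxN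
    by_contra hgx
    have hgx' : x ∉ Xbad4 Φ ε K Q.te P z w := hgx
    have hG : InEq2T.GoodX Φ ε K Q.te P z w x := by
      by_contra hc
      exact hgx' (Or.inl hc)
    exact NbadX796.not_mem_nbadE hΦ hε hTT hg.real hPK hA hx.1.le (okx_of hΦ hε hG.okr) hG.ok
      (BadX974.pairNL_withD hnl hG.nl) hG.ret hxN
  · rw [if_neg hA]
    obtain ⟨hG4, hE4, hEP⟩ := good4_of hε hR hg.small hg.real hΦ hen hA h4 h5 h6 h7 h8
    rw [if_pos hG4]
    refine min_le_min le_rfl (measure_mono_ae ?_)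
    filter_upwards [EBasic602.lineM_ae hγ] with x hx hxN
    by_contra hgx
    have hgx' : x ∉ Xbad4 Φ ε K Q.te P z w := hgx
    have hG : InEq2T.GoodX Φ ε K Q.te P z w x := by
      by_contra hc
      exact hgx' (Or.inl hc)
    exact hD ε R K Q.te T' P z m w l x hε hTT hg.small hg.real hE4 hEP hx.1 hx.2.1 hx.2.2.1
      hx.2.2.2 hG (fun h => hgx' (Or.inr h)) hxN

/-! ## Assembly -/

/-- Standing hypotheses of the assembly. -/
structure AsmH (Φ : Space3 → ℝ) (f₀ : PhasePoint → ℝ) (Q : EPar) (A : Space3 → ℝ≥0∞) (C b g0 : ℝ) :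
    Prop where
  hΦ : AdmissiblePotential Φ
  hF : FOk f₀ A C b
  hQ : QOk Q g0
  H : HasSummableGaussianBound b (fun x v => f₀ (x, v))
  te : 0 ≤ Q.te

/-- **The error is null**: `StmtLink4` from almost sure facts, link events and exceptional test
lines. -/
theorem osNull_err4 {A : Space3 → ℝ≥0∞} {C b g0 : ℝ} (h : AsmH Φ f₀ Q A C b g0)
    (hTT : Q.te ≤ T') (hD : NbadDet Φ)
    (hok : OSNull Φ f₀ K Q T' fun ε P z _ w l => if ¬ OkE4 Φ ε P z w l then 1 else 0)
    (hlk : ∀ R : ℝ, 0 ≤ R →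
      OSNull Φ f₀ K Q T' fun ε P z _ w l => if LinkE4 Φ ε R K Q.te P z w l then 1 else 0)
    (hX : OSNull Φ f₀ K Q T' fun ε P z _ w _ =>
      min 1 (lineM Q.γ Q.ρ K Q.te (Xbad4 Φ ε K Q.te P z w))) :
    OSNull Φ f₀ K Q T' fun ε P z _ w l => err4 Φ ε K Q P z w l := by
  intro δ hδ
  have hΦ := h.hΦ
  have hf := h.hF.meas
  have hγ := h.hQ.γ_meas
  obtain ⟨R₀, hR₀⟩ := osLe_long hΦ hf h.hF.mass h.hF.b_pos h.H K T' hγ h.hQ.ρ_ne h.hQ.g0_pos
    h.hQ.γ_ge h.te (half_pos hδ)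
  set R : ℝ := max R₀ 0 with hRdef
  have hR : 0 ≤ R := le_max_right _ _
  have hlong := hR₀ R (le_max_left _ _)
  have hco : OSNull Φ f₀ K Q T' fun ε => coF Φ ε K Q.te R :=
    OSNull.of_meas (fun ε hε => Coinc423.measSF_coF hΦ hε K Q.te R) fun δ' hδ' =>
      Coinc423.coinc_null hΦ hf h.hF.mass h.hF.b_pos h.H T' hγ h.hQ.ρ_ne h.hQ.g0_pos h.hQ.γ_ge R K
        δ' hδ'
  have h8 := (hlk R hR).add hΦ hf hγ hX
  have h7 := hok.add hΦ hf hγ h8
  have h6 := (osNull_mem hΦ h.hF h.hQ K T' R).add hΦ hf hγ h7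
  have h5 := (osNull_third hΦ h.hF h.hQ K T' hR).add hΦ hf hγ h6
  have h4 := hco.add hΦ hf hγ h5
  have h3 := (osNull_hor hΦ hf h.hF h.hQ K T' R).add hΦ hf hγ h4
  have h2 := (osNull_pass (f₀ := f₀) hΦ h.hQ K T').add hΦ hf hγ h3
  have h1 := hlong.add hΦ hf hγ (h2 (δ / 2) (half_pos hδ))
  refine h1.mono (le_of_eq ?_) ⟨1, one_pos, fun ε hε _ P z m w l hg => ?_⟩
  · rw [← ENNReal.ofReal_add (half_pos hδ).le (half_pos hδ).le, add_halves]
  · exact err4_le hΦ hD hγ hε hR hTT hg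

/-- **`StmtLink4` from the pieces.** -/
theorem stmtLink4_of_parts {A : Space3 → ℝ≥0∞} {C b g0 : ℝ} (h : AsmH Φ f₀ Q A C b g0)
    (hTT : Q.te ≤ T') (hD : NbadDet Φ)
    (hok : ∀ K, OSNull Φ f₀ K Q T' fun ε P z _ w l => if ¬ OkE4 Φ ε P z w l then 1 else 0)
    (hlk : ∀ K, ∀ R : ℝ, 0 ≤ R →
      OSNull Φ f₀ K Q T' fun ε P z _ w l => if LinkE4 Φ ε R K Q.te P z w l then 1 else 0)
    (hX : ∀ K, OSNull Φ f₀ K Q T' fun ε P z _ w _ =>
      min 1 (lineM Q.γ Q.ρ K Q.te (Xbad4 Φ ε K Q.te P z w))) :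
    StmtLink4 Φ f₀ Q T' :=
  stmtLink4_of fun K => osNull_err4 h hTT hD (hok K) (hlk K) (hX K)

end Crest.Agent.R122.LinkAsm984

end
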