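import Crest.Agent.R122.OSOut_434
import Crest.Agent.R122.RtG_302

/-!
# Tree events as null functionals of contact structures (row 122, H1)

* `os_zw_le` : `OS` of a functional of `(z, w)` is `≤ C * TS` of its product with `wQ`.
* `osNull_of_tNull` : 302's `TNull` events are null for contact structures.
-/

set_option autoImplicit false
set_option linter.unusedSectionVars false

open MeasureTheory Set Filter Topology
open scoped ENNReal Classical
open Crest.AnalysisR.Kinetic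
open Crest.Agent.R122.Kin796 Crest.Agent.R122.Kin796.CTree Crest.Agent.R122.Tree674
open Crest.Agent.R122.GC311 Crest.Agent.R122.EDefs602 Crest.Agent.R122.OneC285
open Crest.Agent.R122.Gate424 Crest.Agent.R122.Gate973 Crest.Agent.R122.OSMeas984
open Crest.Agent.R122.OneC423 Crest.Agent.R122.GateT522 Crest.Agent.R122.InEq2
open Crest.Agent.R122.LinkAsm984 Crest.Agent.R122.GateOS434

noncomputable section

namespace Crest.Agent.R122.GateOS434

variable {Φ : Space3 → ℝ} {f₀ : PhasePoint → ℝ} {Q : EPar} {T' : ℝ}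

/-- The constant of the structure integrals of `(z, w)`-functionals. -/
def cOS (Q : EPar) (K : ℕ) (g : ℝ) : ℝ≥0∞ :=
  ENNReal.ofReal (Q.te ^ 2) * ((∑' n : ℕ, markW Q.ρ K n) * kL g)

theorem cOS_ne_top {K : ℕ} (hρ : Q.ρ ≠ ∞) {g : ℝ} (hg0 : 0 < g) : cOS Q K g ≠ ∞ :=
  ENNReal.mul_ne_top ENNReal.ofReal_ne_top
    (ENNReal.mul_ne_top (Third741.tsum_markW_ne_top hρ K) (kL_ne_top hg0))

/-- **`OS` of a functional of `(z, w)`.** -/
theorem os_zw_le (hΦ : AdmissiblePotential Φ) (hf : Measurable f₀) {ε : ℝ} (hε : 0 < ε) (K : ℕ)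
    (hγm : Measurable Q.γ) (hρ : Q.ρ ≠ ∞) {g : ℝ} (hg : ∀ τ ∈ Ioc 0 Q.te, g ≤ Q.γ τ)
    {G : (P : CTree) → PhasePoint × Par P → (m : ℕ) → Config m → ℝ≥0∞} (hG : MeasTS G) :
    OS Φ f₀ ε K Q T' (volume.restrict (Ioc 0 Q.te)) (fun P z m w _ => G P z m w) ≤
      cOS Q K g * (2 * InEq2.TS Φ f₀ ε T' (fun P z m w => wQ Φ ε P z * G P z m w)) := by
  have hGS : MeasSF (fun P z m w _ => G P z m w : SF) := fun P m =>
    (hG P m).comp (measurable_fst.prodMk measurable_snd.fst)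
  rw [OS_eq hΦ hf hγm hGS]
  unfold InEq2.TS
  rw [← ENNReal.tsum_mul_left, ← ENNReal.tsum_mul_left]
  refine ENNReal.tsum_le_tsum fun P => ?_
  have hgm : Measurable fun z : PhasePoint × Par P => gcE f₀ ε (fun m w => G P z m w) :=
    MeasE416.measurable_gcE_of hf ε (F := fun m z w => G P z m w) fun m => hG P m
  have e1 : gcE f₀ ε (fun m w => ∫⁻ θ, G P θ.1 m w
      ∂(osM Φ f₀ ε K Q T' (volume.restrict (Ioc 0 Q.te)) P)) =
      ∫⁻ θ, gcE f₀ ε (fun m w => G P θ.1 m w)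
        ∂(osM Φ f₀ ε K Q T' (volume.restrict (Ioc 0 Q.te)) P) :=
    (LN2.lintegral_gcE_swap hf ε (osM Φ f₀ ε K Q T' (volume.restrict (Ioc 0 Q.te)) P)
      (F := fun m θ w => G P θ.1 m w) fun m =>
        (hG P m).comp (measurable_fst.fst.prodMk measurable_snd)).symm
  rw [e1]
  refine (osM_fst_le (G := fun z => gcE f₀ ε (fun m w => G P z m w)) hΦ hε K hγm hρ hg
    hgm).trans ?_
  refine mul_le_mul' le_rfl ?_
  have hm1 : Measurable fun z : PhasePoint × Par P =>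
      ENNReal.ofReal (1 + ‖z.1.2‖) * gcE f₀ ε (fun m w => G P z m w) := by
    refine Measurable.mul ?_ hgm
    exact ((measurable_fst.snd.norm).const_add 1).ennreal_ofReal
  rw [LN2.lintegral_treeM hΦ hf ε P T' hm1, ← lintegral_const_mul' _ _ (by norm_num)]
  refine lintegral_mono fun z => ?_
  by_cases hz : z ∈ {z : PhasePoint × Par P | Valid Φ ε P T' z.1.2 z.2}
  · rw [indicator_of_mem hz, indicator_of_mem hz]
    have hwt : wQ Φ ε P z ≠ ∞ := by
      unfold wQ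
      exact ENNReal.sum_ne_top.2 fun i _ => ENNReal.ofReal_ne_top
    rw [gcE_const_mul f₀ ε hwt]
    have h2 := one_add_root_le hΦ ε (z := z) hz.1
    calc wt Φ P z.1.2 z.2 * (ToTree335.pf Φ f₀ ε P z *
          (ENNReal.ofReal (1 + ‖z.1.2‖) * gcE f₀ ε (fun m w => G P z m w)))
        ≤ wt Φ P z.1.2 z.2 * (ToTree335.pf Φ f₀ ε P z *
          ((2 * wQ Φ ε P z) * gcE f₀ ε (fun m w => G P z m w))) :=
          mul_le_mul' le_rfl (mul_le_mul' le_rfl (mul_le_mul' h2 le_rfl))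
      _ = _ := by ring
  · rw [indicator_of_notMem hz, indicator_of_notMem hz, mul_zero]

/-- **Functionals of `(z, w)` with small tree integral.** -/
theorem osLe_of_TS (hΦ : AdmissiblePotential Φ) (hf : Measurable f₀) (K : ℕ)
    (hγm : Measurable Q.γ) (hρ : Q.ρ ≠ ∞) {g : ℝ} (hg : ∀ τ ∈ Ioc 0 Q.te, g ≤ Q.γ τ) {c : ℝ≥0∞}
    {F : ℝ → (P : CTree) → PhasePoint × Par P → (m : ℕ) → Config m → ℝ≥0∞}
    (h : ∃ ε₀ : ℝ, 0 < ε₀ ∧ ∀ ε : ℝ, 0 < ε → ε < ε₀ →
      ∃ G : (P : CTree) → PhasePoint × Par P → (m : ℕ) → Config m → ℝ≥0∞, MeasTS G ∧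
        (∀ (P : CTree) (z : PhasePoint × Par P) (m : ℕ) (w : Config m), P.leaves ≤ K →
          Valid Φ ε P T' z.1.2 z.2 → Sep Φ ε P T' z.1 z.2 → w ∈ PairExcluded ε m →
          F ε P z m w ≤ G P z m w) ∧
        InEq2.TS Φ f₀ ε T' (fun P z m w => wQ Φ ε P z * G P z m w) ≤ c) :
    OSLe Φ f₀ K Q T' (fun ε P z m w _ => F ε P z m w) (cOS Q K g * (2 * c)) := by
  obtain ⟨ε₀, h0, h⟩ := h
  refine ⟨ε₀, h0, fun ε hε hlt => ?_⟩
  obtain ⟨G, hGm, hG, hGi⟩ := h ε hε hlt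
  refine ⟨fun P z m w _ => G P z m w, fun P m =>
    (hGm P m).comp (measurable_fst.prodMk measurable_snd.fst), fun P z m w l hg => ?_, ?_⟩
  · exact hG P z m w ((Nat.le_add_left _ _).trans hg.small) hg.real.valid hg.real.sep
      hg.real.exw
  · exact (os_zw_le hΦ hf hε K hγm hρ hg hGm).trans
      (mul_le_mul' le_rfl (mul_le_mul' le_rfl hGi))

/-- **Tree events (302's `TNull`) are null for contact structures.** -/
theorem osNull_of_tNull (hΦ : AdmissiblePotential Φ) (hf : Measurable f₀) (K : ℕ)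
    (hγm : Measurable Q.γ) (hρ : Q.ρ ≠ ∞) {g : ℝ} (hg0 : 0 < g)
    (hg : ∀ τ ∈ Ioc 0 Q.te, g ≤ Q.γ τ) {E : RtG302.TEv} (h : RtG302.TNull Φ f₀ T' K E) :
    OSNull Φ f₀ K Q T' (fun ε P z m w _ => if E ε P z m w then 1 else 0) := by
  intro δ hδ
  obtain ⟨δ', hδ', hmul⟩ := exists_mul_le (c := cOS Q K g * 2)
    (ENNReal.mul_ne_top (cOS_ne_top hρ hg0) (by norm_num)) hδ
  obtain ⟨ε₀, h0, h1⟩ := h δ' hδ'
  have h2 := osLe_of_TS (Φ := Φ) (f₀ := f₀) (Q := Q) (T' := T') hΦ hf K hγm hρ hg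
    (c := ENNReal.ofReal δ') (F := fun ε P z m w => if E ε P z m w then 1 else 0)
    ⟨ε₀, h0, fun ε hε hlt => by
      obtain ⟨G, hG, hGi⟩ := h1 ε hε hlt
      refine ⟨G, hG.meas, fun P z m w hP hV hS hw => ?_, hGi⟩
      split_ifs with hE
      · exact hG.maj P z m w hP hV hS hw hE
      · exact bot_le⟩
  refine h2.mono ?_ ⟨1, one_pos, fun _ _ _ _ _ _ _ _ _ => le_rfl⟩
  rw [← mul_assoc]
  exact hmul _ le_rfl

end Crest.Agent.R122.GateOS434

end
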