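import Crest.Agent.R122.BWNull_302
import Crest.Agent.R122.BirthOut_664
import Crest.Agent.R122.OSTN_434
import Crest.Agent.R122.LinkAsm_984

/-!
# No line of a contact structure is born near a particle of the gas (row 122, StmtLink4), helper302

* `BW4` : a tree line (exits, root) or an outgoing line `l'`, `c'` is born within `ε` of a particle
  of the gas (helper365's `NoB` fails).
* `near_of_out` : for the outgoing lines this is a third particle near the encounter.
* `osNull_bw4` : null on the structures whose encounter is short (`EncOk`).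
-/

set_option autoImplicit false
set_option linter.unusedSectionVars false

open MeasureTheory Set Filter Topology
open scoped ENNReal
open Crest.AnalysisR.Kinetic
open Crest.Agent.R122.Kin796 Crest.Agent.R122.Kin796.CTree Crest.Agent.R122.Tree674
open Crest.Agent.R122.GC311 Crest.Agent.R122.EDefs602 Crest.Agent.R122.OneC285
open Crest.Agent.R122.Third741 Crest.Agent.R122.OSCalc495 Crest.Agent.R122.GSCalc495
open Crest.Agent.R122.Scat818 Crest.Agent.R122.OCout796
open Crest.Agent.R122.TreeLines335 Crest.Agent.R122.Line285 Crest.Agent.R122.Inf879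
open Crest.Agent.R122.LinkAsm984 Crest.Agent.R122.PairD292 Crest.Agent.R122.Ins45
open Crest.Agent.R122.PW365 (NoB)
open Crest.Agent.R122.Pair292 (Lab)
open Crest.Agent.R122.Boost969 (LSt)
open Crest.Agent.R122.Flow671 hiding rel

noncomputable section

open scoped Classical

namespace Crest.Agent.R122.BW302

variable {Φ : Space3 → ℝ} {f₀ : PhasePoint → ℝ} {ε R te : ℝ} {K : ℕ} {Q : EPar} {T' : ℝ}
  {P : CTree} {z : PhasePoint × Par P} {m : ℕ} {w : Config m} {l : ML}

/-- A line of the structure is born near a particle of the gas. -/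
def BW4 (Φ : Space3 → ℝ) (ε : ℝ) (P : CTree) (z : PhasePoint × Par P) {m : ℕ} (w : Config m)
    (l : ML) : Prop :=
  (∃ i : Idx P, ¬ NoB Φ ε (MW.cfg w) (lineML Φ ε P z i)) ∨
    ∃ b : Bool, ¬ NoB Φ ε (MW.cfg w) (oneLs Φ ε P z l (Sum.inr b))

/-- The outgoing lines: a particle of the gas near the encounter. -/
theorem near_of_out (hΦ : AdmissiblePotential Φ) (hε : 0 < ε)
    (hct : (z, l.1) ∈ OneC423.ctSet Φ ε te P) (hw : w ∈ PairExcluded ε m) (hl : 0 ≤ l.1.1)
    {b : Bool} (h : ¬ NoB Φ ε (MW.cfg w) (oneLs Φ ε P z l (Sum.inr b)))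
    (hR : tauM Φ (relB (cD ε z l)) ≤ R) :
    Near Φ ε w (cT ε z l) ((R + 2) * ε)
      (((R + 2) * ε) * (1 + ‖l.1.2.2‖ + ‖z.1.2‖)) (z.1.1 + cT ε z l • z.1.2) := by
  set θ : Lab × LSt := ((l, ((0 : ℝ), l.2)), l.1) with hθ
  have he : eL θ = l := rfl
  have h0 : 0 ≤ (oneLs Φ ε P z l (Sum.inr b)).1.1 := by
    have h1 : l.1.1 < cT ε z l := hct.2.2.1
    have h2 := outT_nonneg (Φ := Φ) hε.le (cD ε z l)
    have h3 : (oneLs Φ ε P z l (Sum.inr b)).1.1 = cT ε z l + outT Φ ε (cD ε z l) := by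
      cases b <;> rfl
    rw [h3]
    linarith
  have hn : ∃ i : Fin m, dist (oneLs Φ ε P z l (Sum.inr b)).1.2.1
      (flow Φ ε (oneLs Φ ε P z l (Sum.inr b)).1.1 w i).1 ≤ ε := by
    by_contra hc
    exact h (PW365.noB_of_flow hΦ hε hw h0 hc)
  have hO : BirthOut664.BOut Φ ε P z w θ := by
    obtain ⟨i, hi⟩ := hn
    refine ⟨some b, i, ?_⟩
    rw [he]
    cases b
    · exact hi
    · exact hi
  exact BirthOut664.near_of_bOut (θ := θ) hΦ hε hct hO hR

/-- The outgoing lines of a short encounter. -/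
theorem osNull_out (hΦ : AdmissiblePotential Φ) {A : Space3 → ℝ≥0∞} {C b g0 : ℝ}
    (hF : FOk f₀ A C b) (hQ : QOk Q g0) (K : ℕ) (T' : ℝ) {R : ℝ} (hR : 0 ≤ R) :
    OSNull Φ f₀ K Q T' fun ε P z _ w l => if EncOk Φ ε R Q.te P z l ∧
      ∃ b : Bool, ¬ NoB Φ ε (MW.cfg w) (oneLs Φ ε P z l (Sum.inr b)) then 1 else 0 := by
  refine (osNull_third hΦ hF hQ K T' hR).congr fun ε hε P z m w l hg => ?_
  split_ifs with h
  swap
  · exact bot_le
  obtain ⟨hen, b, hb⟩ := h
  have hPK : P.leaves ≤ K := le_trans (Nat.le_add_left _ _) hg.small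
  have h1 := near_of_out hΦ hε hg.real.ct hg.real.exw hg.real.birth.le hb hen.tau
  have ha : (R + 2) * ε ≤ 2 * (R + 1) * ε := by nlinarith
  have h2 : Near Φ ε w (cT ε z l) (2 * (R + 1) * ε)
      ((2 * (R + 1) * ε) * (1 + ‖l.1.2.2‖ + ‖z.1.2‖)) (z.1.1 + cT ε z l • z.1.2) := by
    obtain ⟨i, t, ht, hd⟩ := h1
    refine ⟨i, t, ⟨by linarith [ht.1], by linarith [ht.2]⟩, hd.trans ?_⟩
    exact mul_le_mul_of_nonneg_right ha (by positivity)
  unfold thirdS sfOf thirdG
  rw [if_pos hPK, nearI_of h2]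

/-- The tree lines. -/
theorem osNull_tree (hΦ : AdmissiblePotential Φ) {A : Space3 → ℝ≥0∞} {C b g0 : ℝ}
    (h : AsmH Φ f₀ Q A C b g0) (K : ℕ) (T' : ℝ) :
    OSNull Φ f₀ K Q T' fun ε P z _ w _ => if ∃ i : Idx P,
      ¬ NoB Φ ε (MW.cfg w) (lineML Φ ε P z i) then 1 else 0 := by
  refine (GateOS434.osNull_of_tNull hΦ h.hF.meas K h.hQ.γ_meas h.hQ.ρ_ne h.hQ.g0_pos h.hQ.γ_ge
    (tNull_noB hΦ h.hF.b_pos h.hF.meas h.H h.hF.mass T' K)).congr fun ε _ P z m w l _ => ?_
  split_ifs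
  · exact le_rfl
  · exact bot_le

/-- **No line of the structure is born near a particle of the gas**: null. -/
theorem osNull_bw4 {A : Space3 → ℝ≥0∞} {C b g0 : ℝ} (h : AsmH Φ f₀ Q A C b g0) (K : ℕ) (T' : ℝ)
    {R : ℝ} (hR : 0 ≤ R) :
    OSNull Φ f₀ K Q T' fun ε P z _ w l =>
      if EncOk Φ ε R Q.te P z l ∧ BW4 Φ ε P z w l then 1 else 0 := by
  have h1 := (osNull_tree (K := K) (T' := T') h.hΦ h).add h.hΦ h.hF.meas h.hQ.γ_meas
    (osNull_out h.hΦ h.hF h.hQ K T' hR)
  refine h1.congr fun ε _ P z m w l _ => ?_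
  split_ifs with h2 h3 h4 h4
  all_goals first | exact bot_le | skip
  · exact le_self_add
  · exact le_self_add
  · exact le_add_self
  · rcases h2.2 with h5 | h5
    · exact absurd h5 h3
    · exact absurd ⟨h2.1, h5⟩ h4

end Crest.Agent.R122.BW302

end
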