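import Crest.Agent.R122.Graft_968

/-!
# Row 122, block D, D5 (helper968): good configurations, the graft step

`Good0 Φ ε T i W σ P e ℓ p`: `W` is the configuration at time `0` of a valid separated tree with
root `i` and release times `σ`.  `good_graft`: the pull back to time `0` of the state in which the
additional particle leaves the leaf `m` at the time `a.1` is good if the grafted tree is valid and
separated.
-/

set_option autoImplicit false

open MeasureTheory Set Filter Topology
open Crest.AnalysisR.Kinetic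
open scoped Classical ENNReal

noncomputable section

namespace Crest.Agent.R122.Graft968

open Kin796 Kin796.CTree Disc416 Tree674 Flow671 Loc45 Causal291 PathFlow968 Surj968

variable {Φ : Space3 → ℝ} {ε : ℝ}

/-! ### Good configurations -/

/-- `W` is the initial configuration of a valid separated tree with root `i` and protected times
`σ`. -/
structure Good0 (Φ : Space3 → ℝ) (ε T : ℝ) {κ : Type*} (i : κ) (W : κ → PhasePoint) (σ : κ → ℝ)
    (P : CTree) (e : Idx P ≃ κ) (ℓ : PhasePoint) (p : Par P) : Prop where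
  valid : Valid Φ ε P T ℓ.2 p
  sep : Sep Φ ε P T ℓ p
  root : e (root P) = i
  state : ∀ x, W (e x) = lines Φ ε P ℓ p x
  rel : ∀ x, σ (e x) = prot P T p x

/-- `Z` is the configuration at time `s` of a valid separated tree with root `i`, protected times
`σ` and all collisions after `s`. -/
structure GoodAt (Φ : Space3 → ℝ) (ε T : ℝ) {κ : Type*} (i : κ) (s : ℝ) (Z : κ → PhasePoint)
    (σ : κ → ℝ) (P : CTree) (e : Idx P ≃ κ) (ℓ : PhasePoint) (p : Par P) : Prop where
  valid : Valid Φ ε P T ℓ.2 p
  after : After Φ ε s P ℓ.2 p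
  sep : Sep Φ ε P T ℓ p
  root : e (root P) = i
  state : ∀ x, Z (e x) = path Φ ε P ℓ p s x
  rel : ∀ x, σ (e x) = prot P T p x

/-- A single particle. -/
theorem good0_leaf (Φ : Space3 → ℝ) (ε T : ℝ) {κ : Type*} [Subsingleton κ] (i : κ)
    (W : κ → PhasePoint) (σ : κ → ℝ) (h : σ i = T) (e : Idx leaf ≃ κ) :
    Good0 Φ ε T i W σ leaf e (W i) () where
  valid := ⟨trivial, trivial⟩
  sep := fun a b hab => absurd (Subsingleton.elim (α := Unit) a b) hab
  root := Subsingleton.elim _ _
  state _ := congrArg W (Subsingleton.elim _ _)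
  rel _ := (congrArg σ (Subsingleton.elim _ _)).trans h

theorem exists_good0_leaf (Φ : Space3 → ℝ) (ε T : ℝ) {κ : Type*} [Subsingleton κ] (i : κ)
    (W : κ → PhasePoint) (σ : κ → ℝ) (h : σ i = T) :
    ∃ e : Idx leaf ≃ κ, Good0 Φ ε T i W σ leaf e (W i) () :=
  ⟨⟨fun _ => i, fun _ => (), fun _ => rfl, fun _ => Subsingleton.elim _ _⟩,
    good0_leaf Φ ε T i W σ h _⟩

section good

variable {κ : Type*} [Fintype κ] {T : ℝ} {i : κ} {W : κ → PhasePoint} {σ : κ → ℝ} {P : CTree}
  {e : Idx P ≃ κ} {ℓ : PhasePoint} {p : Par P}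

/-- The isolated motion of a good configuration is the path of the tree. -/
theorem Good0.flow_eq (hΦ : AdmissiblePotential Φ) (hε : 0 < ε)
    (h : Good0 Φ ε T i W σ P e ℓ p) {u : ℝ} (hu : u ∈ Icc 0 T) (x : Idx P) :
    flow Φ ε u W (e x) = path Φ ε P ℓ p u x := by
  have h1 : (fun x => W (e x)) = lines Φ ε P ℓ p := funext h.state
  have h2 := path_eq_flow hΦ hε h.valid h.sep hu
  rw [← h1] at h2
  rw [h2, flow_equiv hΦ hε e u W]

/-- Configurations at time `s` and at time `0`. -/
theorem GoodAt.good0 (hΦ : AdmissiblePotential Φ) (hε : 0 < ε) {s : ℝ} (hs : s ∈ Icc 0 T)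
    {Z : κ → PhasePoint} (h : GoodAt Φ ε T i s Z σ P e ℓ p) :
    Good0 Φ ε T i (flow Φ ε (-s) Z) σ P e ℓ p where
  valid := h.valid
  sep := h.sep
  root := h.root
  state x := by
    have h1 : (fun x => Z (e x)) = path Φ ε P ℓ p s := funext h.state
    have h2 := flow_equiv hΦ hε e (-s) Z
    rw [h1, path_eq_flow hΦ hε h.valid h.sep hs, flow_neg_flow hΦ hε] at h2
    exact (congrFun h2 x).symm
  rel := h.rel

theorem Good0.goodAt (hΦ : AdmissiblePotential Φ) (hε : 0 < ε) {s : ℝ} (hs : s ∈ Icc 0 T)
    (h : Good0 Φ ε T i W σ P e ℓ p) (ha : After Φ ε s P ℓ.2 p) :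
    GoodAt Φ ε T i s (flow Φ ε s W) σ P e ℓ p where
  valid := h.valid
  after := ha
  sep := h.sep
  root := h.root
  state x := h.flow_eq hΦ hε hs x
  rel := h.rel

/-- Relabelling of the particles of a grafted tree. -/
def gLabel {κ' : Type*} (P : CTree) (m : Idx P) (e : Idx P ≃ κ) (f : Option κ ≃ κ') :
    Idx (graft P m) ≃ κ' :=
  (gE P m).symm.trans ((Equiv.optionCongr e).trans f)

omit [Fintype κ] in
theorem gLabel_new {κ' : Type*} (m : Idx P) (f : Option κ ≃ κ') :
    gLabel P m e f (new P m) = f none := by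
  simp [gLabel]

omit [Fintype κ] in
theorem gLabel_old {κ' : Type*} (m : Idx P) (f : Option κ ≃ κ') (k : Idx P) :
    gLabel P m e f (old P m k) = f (some (e k)) := by
  simp [gLabel]

/-- **The graft step** (pull back to time `0`). -/
theorem good_graft0 (hΦ : AdmissiblePotential Φ) (hε : 0 < ε)
    (h : Good0 Φ ε T i W σ P e ℓ p) (m : Idx P) (a : NodeP)
    (hv : Valid Φ ε (graft P m) T ℓ.2 (gpar P m (a, p)))
    (hs : Sep Φ ε (graft P m) T ℓ (gpar P m (a, p)))
    {κ' : Type*} [Fintype κ'] (f : Option κ ≃ κ') {W' : κ' → PhasePoint} {σ' : κ' → ℝ}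
    (h1 : ∀ k, flow Φ ε a.1 W' (f (some k)) = flow Φ ε a.1 W k)
    (h2 : flow Φ ε a.1 W' (f none) = onLine (outLine ε (lines Φ ε P ℓ p m) a) a.1)
    (h3 : ∀ k, σ' (f (some k)) = σ k) (h4 : σ' (f none) = a.1) :
    Good0 Φ ε T (f (some i)) W' σ' (graft P m) (gLabel P m e f) ℓ (gpar P m (a, p)) := by
  obtain ⟨hvP, hadm, hent, hsin⟩ := valid_graft.1 hv
  have hadm' : Adm1 Φ (lines Φ ε P ℓ p m).2 a := by
    rw [lines_snd]
    exact hadm
  have ha0 : 0 ≤ a.1 := hsin.le.trans (sin_le hε.le _ a)
  have haT : a.1 ≤ T := hent.le.trans (entr_le hε.le P T _ p m hvP.2)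
  refine ⟨hv, hs, ?_, ?_, ?_⟩
  · rw [root_graft, gLabel_old, h.root]
  · -- the states agree at the time `a.1`
    have key : (fun x => flow Φ ε a.1 W' (gLabel P m e f x)) =
        path Φ ε (graft P m) ℓ (gpar P m (a, p)) a.1 := by
      funext x
      induction x using gcases with
      | hn => rw [gLabel_new, h2, path_graft_new_after hΦ hε hadm' le_rfl]
      | ho k =>
        rw [gLabel_old, h1, path_graft_old hΦ hε P m T ℓ a p hv a.1 k (Or.inr le_rfl),
          h.flow_eq hΦ hε ⟨ha0, haT⟩]
    rw [← flow_equiv hΦ hε (gLabel P m e f) a.1 W',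
      path_eq_flow hΦ hε hv hs ⟨ha0, haT⟩] at key
    exact fun x => congrFun ((flow_bijective hΦ hε a.1).1 key) x
  · intro x
    induction x using gcases with
    | hn => rw [gLabel_new, h4, prot_graft_new]
    | ho k => rw [gLabel_old, h3, prot_graft_old, h.rel]

/-- **The graft step** (states at the times `s₀ ≤ s₁`). -/
theorem good_graft (hΦ : AdmissiblePotential Φ) (hε : 0 < ε) {s₀ s₁ : ℝ} {Z : κ → PhasePoint}
    (h : GoodAt Φ ε T i s₁ Z σ P e ℓ p) (m : Idx P) (a : NodeP) (ha : a.1 = s₁)
    (hv : Valid Φ ε (graft P m) T ℓ.2 (gpar P m (a, p)))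
    (hs : Sep Φ ε (graft P m) T ℓ (gpar P m (a, p))) (h0 : 0 ≤ s₀)
    (h01 : s₀ < Tree674.sin Φ ε (lines Φ ε P ℓ p m).2 a)
    {κ' : Type*} [Fintype κ'] (f : Option κ ≃ κ') {Z' : κ' → PhasePoint} {σ' : κ' → ℝ}
    (h1 : ∀ k, Z' (f (some k)) = Z k)
    (h2 : Z' (f none) = onLine (outLine ε (lines Φ ε P ℓ p m) a) s₁)
    (h3 : ∀ k, σ' (f (some k)) = σ k) (h4 : σ' (f none) = s₁) :
    GoodAt Φ ε T (f (some i)) s₀ (flow Φ ε (s₀ - s₁) Z') σ' (graft P m) (gLabel P m e f) ℓ
      (gpar P m (a, p)) := by
  subst ha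
  obtain ⟨hvP, hadm, hent, hsin⟩ := valid_graft.1 hv
  have ha1 : s₀ ≤ a.1 := h01.le.trans (sin_le hε.le _ a)
  have ha0 : 0 ≤ a.1 := h0.trans ha1
  have haT : a.1 ≤ T := hent.le.trans (entr_le hε.le P T _ p m hvP.2)
  have hg := good_graft0 hΦ hε (h.good0 hΦ hε ⟨ha0, haT⟩) m a hv hs f
    (W' := flow Φ ε (-a.1) Z') (σ' := σ')
    (fun k => by rw [flow_flow_neg hΦ hε, flow_flow_neg hΦ hε, h1])
    (by rw [flow_flow_neg hΦ hε, h2]) h3 h4
  have hmono : After Φ ε s₀ P ℓ.2 p := by
    have : ∀ (Q : CTree) (v : Space3) (q : Par Q), After Φ ε a.1 Q v q → After Φ ε s₀ Q v q := by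
      intro Q
      induction Q with
      | leaf => exact fun _ _ _ => trivial
      | node l r ihl ihr =>
        exact fun v q hq => ⟨ha1.trans_lt hq.1, ihl _ _ hq.2.1, ihr _ _ hq.2.2⟩
    exact this P _ p h.after
  have haf : After Φ ε s₀ (graft P m) ℓ.2 (gpar P m (a, p)) := by
    rw [after_graft]
    refine ⟨hmono, ?_⟩
    rw [← lines_snd (ε := ε)]
    exact h01
  have := hg.goodAt hΦ hε (s := s₀) ⟨h0, ha1.trans haT⟩ haf
  rwa [← flow_add hΦ hε, neg_add_eq_sub] at this

end good

/-- **The node parameter** of a particle `z` which leaves the particle on the line `ℓ` at time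
`s`. -/
theorem exists_node (hε : 0 < ε) {ℓ z : PhasePoint} {s : ℝ}
    (hd : dist z.1 (onLine ℓ s).1 = ε)
    (ho : 0 < inner ℝ (z.1 - (onLine ℓ s).1) (z.2 - (onLine ℓ s).2)) :
    ∃ a : NodeP, a.1 = s ∧ a.2.1 = z.2 ∧ ‖a.2.2‖ < 1 ∧ ℓ.2 ≠ a.2.1 ∧
      onLine (outLine ε ℓ a) s = z := by
  set e : Space3 := (1 / ε) • (z.1 - (onLine ℓ s).1) with hedef
  set g : Space3 := ℓ.2 - z.2 with hgdef
  have henorm : ‖e‖ = 1 := by
    rw [hedef, norm_smul, ← dist_eq_norm, hd, Real.norm_eq_abs, abs_of_pos (by positivity),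
      one_div, inv_mul_cancel₀ hε.ne']
  have heg : inner ℝ e g < 0 := by
    rw [hedef, inner_smul_left, hgdef]
    simp only [conj_trivial]
    have h1 : 0 < 1 / ε * inner ℝ (z.1 - (onLine ℓ s).1) (z.2 - (onLine ℓ s).2) :=
      mul_pos (by positivity) ho
    have h2 : ℓ.2 - z.2 = -(z.2 - (onLine ℓ s).2) := (neg_sub _ _).symm
    rw [h2, inner_neg_right]
    linarith
  obtain ⟨b, hb, hbe⟩ := exists_impact henorm heg
  have hg0 : g ≠ 0 := by
    rintro h
    rw [h] at heg
    simp at heg
  obtain ⟨y, hy⟩ : b ∈ Set.range (frameMap g) := by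
    rw [range_frameMap hg0]
    exact hb.1
  have hynorm : ‖y‖ < 1 := by
    rw [← norm_frameMap hg0 y, hy]
    exact hb.2
  refine ⟨(s, z.2, y), rfl, rfl, hynorm, sub_ne_zero.1 hg0, ?_⟩
  have hnb : nb ℓ.2 (s, z.2, y) = b := hy
  have hng : ng ℓ.2 (s, z.2, y) = g := rfl
  unfold outLine
  rw [hnb, hng, hbe, hedef]
  unfold onLine
  refine Prod.ext ?_ rfl
  simp only
  rw [smul_smul, mul_one_div_cancel hε.ne', one_smul]
  abel

/-- **One release**: at the time `s`, before the first collision of the leaf `m` of a good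
configuration, the particle `z` leaves `m`; the node parameter `a`; if the grafted tree is valid and
separated, then the pull back `W'` to time `0` is good. -/
theorem exists_graft (hΦ : AdmissiblePotential Φ) (hε : 0 < ε) {κ : Type*} [Fintype κ] {T : ℝ}
    {i : κ} {W : κ → PhasePoint} {σ : κ → ℝ} {P : CTree} {e : Idx P ≃ κ} {ℓ : PhasePoint}
    {p : Par P} (h : Good0 Φ ε T i W σ P e ℓ p) {s : ℝ} (hs : 0 ≤ s) (m : Idx P)
    (hm : s ≤ entr Φ ε P T ℓ.2 p m) {z : PhasePoint}
    (hd : dist z.1 (flow Φ ε s W (e m)).1 = ε)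
    (ho : 0 < inner ℝ (z.1 - (flow Φ ε s W (e m)).1) (z.2 - (flow Φ ε s W (e m)).2)) :
    flow Φ ε s W (e m) = onLine (lines Φ ε P ℓ p m) s ∧
    ∃ a : NodeP, a.1 = s ∧ a.2.1 = z.2 ∧ ‖a.2.2‖ < 1 ∧ (lines Φ ε P ℓ p m).2 ≠ a.2.1 ∧
      onLine (outLine ε (lines Φ ε P ℓ p m) a) s = z ∧
      (Valid Φ ε (graft P m) T ℓ.2 (gpar P m (a, p)) →
        Sep Φ ε (graft P m) T ℓ (gpar P m (a, p)) →
        ∀ {κ' : Type*} [Fintype κ'] (f : Option κ ≃ κ') {W' : κ' → PhasePoint} {σ' : κ' → ℝ},
          (∀ k, flow Φ ε s W' (f (some k)) = flow Φ ε s W k) → flow Φ ε s W' (f none) = z →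
          (∀ k, σ' (f (some k)) = σ k) → σ' (f none) = s →
          Good0 Φ ε T (f (some i)) W' σ' (graft P m) (gLabel P m e f) ℓ (gpar P m (a, p))) := by
  have hsT : s ≤ T := hm.trans (entr_le hε.le P T _ p m h.valid.2)
  have h1 : flow Φ ε s W (e m) = onLine (lines Φ ε P ℓ p m) s := by
    rw [h.flow_eq hΦ hε ⟨hs, hsT⟩, path_of_le_entr hε.le P T ℓ p m h.valid.2 s hm]
  rw [h1] at hd ho ⊢
  obtain ⟨a, ha1, ha2, ha3, ha4, ha5⟩ := exists_node hε hd ho
  refine ⟨rfl, a, ha1, ha2, ha3, ha4, ha5, ?_⟩
  intro hv hsep κ' _ f W' σ' g1 g2 g3 g4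
  subst ha1
  exact good_graft0 hΦ hε h m a hv hsep f g1 (g2.trans ha5.symm) g3 g4

/-! ### The measure on the parameters -/

theorem measurable_gpar : ∀ (P : CTree) (m : Idx P),
    Measurable fun q : NodeP × Par P => gpar P m (q.1, q.2)
  | leaf, _ => measurable_fst.prodMk (measurable_const.prodMk measurable_const)
  | node l r, Sum.inl m => by
      have h2 : Measurable fun q : NodeP × Par (node l r) => q.2 := measurable_snd
      have h1 := (measurable_par1 l r).comp h2
      have hl := (measurable_parL l r).comp h2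
      have hr := (measurable_parR l r).comp h2
      exact h1.prodMk (((measurable_gpar l m).comp (measurable_fst.prodMk hl)).prodMk hr)
  | node l r, Sum.inr m => by
      have h2 : Measurable fun q : NodeP × Par (node l r) => q.2 := measurable_snd
      have h1 := (measurable_par1 l r).comp h2
      have hl := (measurable_parL l r).comp h2
      have hr := (measurable_parR l r).comp h2
      exact h1.prodMk (hl.prodMk ((measurable_gpar r m).comp (measurable_fst.prodMk hr)))

/-- Integration over the parameters of a node, all variables separated. -/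
theorem lintegral_par_node3 (l r : CTree) {f : Par (node l r) → ℝ≥0∞} (hf : Measurable f) :
    ∫⁻ p : Par (node l r), f p =
      ∫⁻ a : NodeP, ∫⁻ x : Par l, ∫⁻ y : Par r, f ((a, (x, y)) : Par (node l r)) := by
  rw [lintegral_par_node l r hf]
  refine lintegral_congr fun a => ?_
  have h : Measurable fun y : Par l × Par r => f ((a, y) : Par (node l r)) :=
    hf.comp (measurable_const.prodMk measurable_id)
  exact lintegral_pair h

theorem measurable_mk3 {α : Type*} [MeasurableSpace α] {l r : CTree} {f : Par (node l r) → ℝ≥0∞}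
    (hf : Measurable f) {A : α → NodeP} {X : α → Par l} {Y : α → Par r} (hA : Measurable A)
    (hX : Measurable X) (hY : Measurable Y) :
    Measurable fun z => f ((A z, (X z, Y z)) : Par (node l r)) :=
  hf.comp (hA.prodMk (hX.prodMk hY))

/-- **Integration over the parameters of the grafted tree.** -/
theorem lintegral_gpar (P : CTree) : ∀ (m : Idx P) {f : Par (graft P m) → ℝ≥0∞}
    (_ : Measurable f), ∫⁻ q, f q = ∫⁻ a : NodeP, ∫⁻ p : Par P, f (gpar P m (a, p)) := by
  induction P with
  | leaf =>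
    intro m f hf
    have h1 := lintegral_par_node3 leaf leaf (f := f) hf
    refine h1.trans (lintegral_congr fun a => ?_)
    rw [lintegral_par_leaf, lintegral_par_leaf]
    exact (lintegral_par_leaf fun p : Par leaf => f (gpar leaf m (a, p))).symm
  | node l r ihl ihr =>
    intro m f hf
    rcases m with m | m
    · have h1 := lintegral_par_node3 (graft l m) r (f := f) hf
      have h2 : ∀ a : NodeP, ∫⁻ p : Par (node l r), f (gpar (node l r) (Sum.inl m) (a, p)) =
          ∫⁻ a₀ : NodeP, ∫⁻ x : Par l, ∫⁻ y : Par r,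
            f ((a₀, (gpar l m (a, x), y)) : Par (node (graft l m) r)) := fun a =>
        lintegral_par_node3 l r
          (f := fun p => f (gpar (node l r) (Sum.inl m) (a, p)))
          (hf.comp ((measurable_gpar (node l r) (Sum.inl m)).comp
            (measurable_const.prodMk measurable_id)))
      have hg : Measurable fun z : (NodeP × Par (graft l m)) × Par r =>
          f ((z.1.1, (z.1.2, z.2)) : Par (node (graft l m) r)) :=
        measurable_mk3 (l := graft l m) (r := r) hf measurable_fst.fst measurable_fst.snd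
          measurable_snd
      have hg1 : Measurable fun z : NodeP × Par (graft l m) => ∫⁻ y : Par r,
          f ((z.1, (z.2, y)) : Par (node (graft l m) r)) := hg.lintegral_prod_right'
      refine h1.trans ?_
      simp_rw [h2]
      have h3 : ∀ a₀ : NodeP, ∫⁻ x' : Par (graft l m), ∫⁻ y : Par r,
          f ((a₀, (x', y)) : Par (node (graft l m) r)) =
          ∫⁻ a : NodeP, ∫⁻ x : Par l, ∫⁻ y : Par r,
            f ((a₀, (gpar l m (a, x), y)) : Par (node (graft l m) r)) := fun a₀ =>
        ihl m (f := fun x' => ∫⁻ y : Par r, f ((a₀, (x', y)) : Par (node (graft l m) r)))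
          (hg1.comp (measurable_const.prodMk measurable_id))
      have hG : Measurable fun z : ((NodeP × NodeP) × Par l) × Par r =>
          f ((z.1.1.1, (gpar l m (z.1.1.2, z.1.2), z.2)) : Par (node (graft l m) r)) :=
        measurable_mk3 (l := graft l m) (r := r) hf measurable_fst.fst.fst
          ((measurable_gpar l m).comp (measurable_fst.fst.snd.prodMk measurable_fst.snd))
          measurable_snd
      have hG0 : Measurable fun z : (NodeP × NodeP) × Par l => ∫⁻ y : Par r,
          f ((z.1.1, (gpar l m (z.1.2, z.2), y)) : Par (node (graft l m) r)) :=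
        hG.lintegral_prod_right'
      have hG1 : Measurable fun z : NodeP × NodeP => ∫⁻ x : Par l, ∫⁻ y : Par r,
          f ((z.1, (gpar l m (z.2, x), y)) : Par (node (graft l m) r)) :=
        hG0.lintegral_prod_right'
      rw [lintegral_congr h3]
      exact lintegral_lintegral_swap (f := fun a₀ a => ∫⁻ x : Par l, ∫⁻ y : Par r,
            f ((a₀, (gpar l m (a, x), y)) : Par (node (graft l m) r))) hG1.aemeasurable
    · have h1 := lintegral_par_node3 l (graft r m) (f := f) hf
      have h2 : ∀ a : NodeP, ∫⁻ p : Par (node l r), f (gpar (node l r) (Sum.inr m) (a, p)) =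
          ∫⁻ a₀ : NodeP, ∫⁻ x : Par l, ∫⁻ y : Par r,
            f ((a₀, (x, gpar r m (a, y))) : Par (node l (graft r m))) := fun a =>
        lintegral_par_node3 l r
          (f := fun p => f (gpar (node l r) (Sum.inr m) (a, p)))
          (hf.comp ((measurable_gpar (node l r) (Sum.inr m)).comp
            (measurable_const.prodMk measurable_id)))
      refine h1.trans ?_
      simp_rw [h2]
      have h3 : ∀ (a₀ : NodeP) (x : Par l), ∫⁻ y' : Par (graft r m),
          f ((a₀, (x, y')) : Par (node l (graft r m))) =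
          ∫⁻ a : NodeP, ∫⁻ y : Par r,
            f ((a₀, (x, gpar r m (a, y))) : Par (node l (graft r m))) := fun a₀ x =>
        ihr m (f := fun y' => f ((a₀, (x, y')) : Par (node l (graft r m))))
          (measurable_mk3 (l := l) (r := graft r m) hf measurable_const measurable_const
            measurable_id)
      have hG : Measurable fun z : ((NodeP × Par l) × NodeP) × Par r =>
          f ((z.1.1.1, (z.1.1.2, gpar r m (z.1.2, z.2))) : Par (node l (graft r m))) :=
        measurable_mk3 (l := l) (r := graft r m) hf measurable_fst.fst.fst measurable_fst.fst.snd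
          ((measurable_gpar r m).comp (measurable_fst.snd.prodMk measurable_snd))
      have hG' : Measurable fun z : ((NodeP × NodeP) × Par l) × Par r =>
          f ((z.1.1.1, (z.1.2, gpar r m (z.1.1.2, z.2))) : Par (node l (graft r m))) :=
        measurable_mk3 (l := l) (r := graft r m) hf measurable_fst.fst.fst measurable_fst.snd
          ((measurable_gpar r m).comp (measurable_fst.fst.snd.prodMk measurable_snd))
      have hG1 : Measurable fun z : (NodeP × Par l) × NodeP => ∫⁻ y : Par r,
          f ((z.1.1, (z.1.2, gpar r m (z.2, y))) : Par (node l (graft r m))) :=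
        hG.lintegral_prod_right'
      have hG0 : Measurable fun z : (NodeP × NodeP) × Par l => ∫⁻ y : Par r,
          f ((z.1.1, (z.2, gpar r m (z.1.2, y))) : Par (node l (graft r m))) :=
        hG'.lintegral_prod_right'
      have hG2 : Measurable fun z : NodeP × NodeP => ∫⁻ x : Par l, ∫⁻ y : Par r,
          f ((z.1, (x, gpar r m (z.2, y))) : Par (node l (graft r m))) :=
        hG0.lintegral_prod_right'
      have h4 : ∀ a₀ : NodeP, ∫⁻ x : Par l, ∫⁻ y' : Par (graft r m),
          f ((a₀, (x, y')) : Par (node l (graft r m))) =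
          ∫⁻ a : NodeP, ∫⁻ x : Par l, ∫⁻ y : Par r,
            f ((a₀, (x, gpar r m (a, y))) : Par (node l (graft r m))) := by
        intro a₀
        rw [lintegral_congr (h3 a₀)]
        refine lintegral_lintegral_swap (f := fun (x : Par l) (a : NodeP) => ∫⁻ y : Par r,
          f ((a₀, (x, gpar r m (a, y))) : Par (node l (graft r m)))) ?_
        exact (hG1.comp ((measurable_const.prodMk measurable_fst).prodMk
          measurable_snd)).aemeasurable
      rw [lintegral_congr h4]
      exact lintegral_lintegral_swap (f := fun a₀ a => ∫⁻ x : Par l, ∫⁻ y : Par r,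
            f ((a₀, (x, gpar r m (a, y))) : Par (node l (graft r m)))) hG2.aemeasurable

theorem measurePreserving_gpar (P : CTree) (m : Idx P) :
    MeasurePreserving (gpar P m) volume volume := by
  have hm : Measurable (gpar P m) := measurable_gpar P m
  refine ⟨hm, ?_⟩
  ext S hS
  have h1 : Measurable (S.indicator (1 : Par (graft P m) → ℝ≥0∞)) :=
    measurable_const.indicator hS
  have h2 : Measurable ((gpar P m ⁻¹' S).indicator (1 : NodeP × Par P → ℝ≥0∞)) :=
    measurable_const.indicator (hm hS)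
  rw [Measure.map_apply hm hS, ← lintegral_indicator_one hS, lintegral_gpar P m h1,
    ← lintegral_indicator_one (hm hS), lintegral_pair h2]
  rfl

end Crest.Agent.R122.Graft968

end
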