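import Crest.Agent.R122.ChainHist_726
import Crest.Agent.R122.Graft2_968

/-!
# Bad release chains (row 122, D5, helper726): definitions

All states are time-`0` pull-backs, `T` is the horizon of the trees.
-/

set_option autoImplicit false
set_option linter.unusedSectionVars false

open Set Filter Topology
open Crest.AnalysisR.Kinetic
open scoped Classical

noncomputable section

namespace Crest.Agent.R122.Chain726

open Kin796 Kin796.CTree Disc416 Tree674 Flow671 Loc45 Causal291 PathFlow968 Surj968 Graft968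

/-- **Bad graft**: `W'` is the configuration at time `0` of a valid separated tree with root `i` and
all exit times `≥ s`; at time `s` the partner `z` leaves the particle `m` with the planar impact
parameter `y`; a collision window of the tree is not after `s`, or the grafted tree is not valid
or not separated. -/
def BadGraft (Φ : Space3 → ℝ) (ε T : ℝ) {κ : Type*} [Fintype κ] (i : κ) (s : ℝ)
    (W' : κ → PhasePoint) (m : κ) (z : PhasePoint) : Prop :=
  ∃ (P : CTree) (e : Idx P ≃ κ) (ℓ : PhasePoint) (p : Par P) (y : Plane),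
    Valid Φ ε P T ℓ.2 p ∧ Sep Φ ε P T ℓ p ∧ e (root P) = i ∧ (∀ x, W' (e x) = lines Φ ε P ℓ p x) ∧
    (∀ x, s ≤ prot P T p x) ∧ ‖y‖ < 1 ∧ (flow Φ ε s W' m).2 ≠ z.2 ∧
    z.1 = (flow Φ ε s W' m).1 + ε • entrancePoint (frameMap ((flow Φ ε s W' m).2 - z.2) y)
      ((flow Φ ε s W' m).2 - z.2) ∧
    ¬ (After Φ ε s P ℓ.2 p ∧
      Valid Φ ε (graft P (e.symm m)) T ℓ.2 (gpar P (e.symm m) ((s, z.2, y), p)) ∧
      Sep Φ ε (graft P (e.symm m)) T ℓ (gpar P (e.symm m) ((s, z.2, y), p)))

/-- **Badness of the release step** `W → W'` at time `s`: at least two particles are released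
together (and the chain of the remaining group goes on to the root), or one particle is released and
the release is grazing, or the graft is bad. -/
def BadAt (Φ : Space3 → ℝ) (ε T : ℝ) {ι : Type*} (i : ι) (s : ℝ) {A A' : Finset ι}
    (W : A → PhasePoint) (W' : A' → PhasePoint) : Prop :=
  (A'.card + 2 ≤ A.card ∧ ∃ W'' : ({i} : Finset ι) → PhasePoint,
      Chain Φ ε T A' W' {i} W'') ∨
    (A'.card + 1 = A.card ∧ ∃ (j : A) (m : A') (i' : A'), (i' : ι) = i ∧ (j : ι) ∉ A' ∧
      dist (flow Φ ε s W j).1 (flow Φ ε s W' m).1 = ε ∧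
      (inner ℝ ((flow Φ ε s W j).1 - (flow Φ ε s W' m).1)
          ((flow Φ ε s W j).2 - (flow Φ ε s W' m).2) = 0 ∨
        0 < inner ℝ ((flow Φ ε s W j).1 - (flow Φ ε s W' m).1)
          ((flow Φ ε s W j).2 - (flow Φ ε s W' m).2) ∧
        BadGraft Φ ε T i' s W' m (flow Φ ε s W j)))

/-- **Bad release step** from the group `A`. -/
def BadStep (Φ : Space3 → ℝ) (ε T : ℝ) {ι : Type*} (i : ι) {A : Finset ι} (W : A → PhasePoint) :
    Prop :=
  ∃ s ∈ Icc 0 T, ∃ (A' : Finset ι) (W' : A' → PhasePoint), Step Φ ε s W W' ∧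
    BadAt Φ ε T i s W W'

/-- **Bad terminal group**: at least three particles which are contact-connected at a time in
`[0, te]`, or two particles in contact at the horizon `T`. -/
def TermBad (Φ : Space3 → ℝ) (ε T te : ℝ) {ι : Type*} (i : ι) {A : Finset ι}
    (W : A → PhasePoint) : Prop :=
  ∃ i' : A, (i' : ι) = i ∧
    ((3 ≤ A.card ∧ ∃ u ∈ Icc 0 te, ∀ k : A,
        Relation.ReflTransGen (fun a b => dst (flow Φ ε u W) a b ≤ ε) i' k) ∨
      (A.card = 2 ∧ ∃ j : A, j ≠ i' ∧ dst (flow Φ ε T W) i' j ≤ ε))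

/-- **Bad group**: a chain of releases leads to a bad step or to a bad terminal group. -/
def BadGrp (Φ : Space3 → ℝ) (ε T te : ℝ) {ι : Type*} (i : ι) (A : Finset ι)
    (W : A → PhasePoint) : Prop :=
  ∃ (A' : Finset ι) (W' : A' → PhasePoint), Chain Φ ε T A W A' W' ∧
    (BadStep Φ ε T i W' ∨ TermBad Φ ε T te i W')

/-- **Bad configuration.** -/
def BadCh (Φ : Space3 → ℝ) (ε T te : ℝ) {ι : Type*} [Fintype ι] (V : ι → PhasePoint) (i : ι) :
    Prop :=
  BadGrp Φ ε T te i Finset.univ (grp Finset.univ V)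

theorem BadGrp.of_chain {Φ : Space3 → ℝ} {ε T te : ℝ} {ι : Type*} {i : ι} {A A' : Finset ι}
    {W : A → PhasePoint} {W' : A' → PhasePoint} (h : Chain Φ ε T A W A' W')
    (h' : BadGrp Φ ε T te i A' W') : BadGrp Φ ε T te i A W := by
  obtain ⟨A₁, W₁, hc, hb⟩ := h'
  exact ⟨A₁, W₁, h.trans hc, hb⟩

theorem BadGrp.of_step {Φ : Space3 → ℝ} {ε T te : ℝ} {ι : Type*} {i : ι} {A : Finset ι}
    {W : A → PhasePoint} (h : BadStep Φ ε T i W) : BadGrp Φ ε T te i A W :=
  ⟨A, W, .refl _ _, Or.inl h⟩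

theorem BadGrp.of_term {Φ : Space3 → ℝ} {ε T te : ℝ} {ι : Type*} {i : ι} {A : Finset ι}
    {W : A → PhasePoint} (h : TermBad Φ ε T te i W) : BadGrp Φ ε T te i A W :=
  ⟨A, W, .refl _ _, Or.inr h⟩

end Crest.Agent.R122.Chain726

end
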