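import Crest.Agent.R122.HitSweep_167
import Crest.Agent.R122.BadHit_370

/-!
# First-hit sweep in the gas (row 122, helper167)

`lintegral_first_hit_le`: the translation average of the probability that the first hit of the
translated test family is made by a particle with the property `Q` (an arbitrary measurable
property of the particle and the time) is at most
`C ε² |α| ∫ ds E ∑_i 1[Q i s] (M + |v_i(s)|)`.
-/

set_option autoImplicit false

open Set Filter Topology MeasureTheory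
open scoped Classical ENNReal NNReal
open Crest.AnalysisR.Kinetic

namespace Crest.Agent.R122.Hit167

open Causal291 Flow671 Loc45 GC311 Vol365

/-- Translated curves. -/
def shiftC {α : Type} (c : α → ℝ → Space3) (x : Space3) : α → ℝ → Space3 := fun a s => c a s + x

section

variable {f₀ : PhasePoint → ℝ} {Φ : Space3 → ℝ} {ε : ℝ} {α : Type}
  {c : α → ℝ → Space3} {θ : α → ℝ} {t₀ t : ℝ}

/-- relative motion of particle `i` and curve `a` -/
noncomputable def rel (Φ : Space3 → ℝ) (ε : ℝ) (c : α → ℝ → Space3) {n : ℕ} (Z : Config n) (a : α)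
    (i : Fin n) : ℝ → Space3 := fun s => (pth Φ ε Z s i).1 - c a s

theorem continuous_rel (hΦ : AdmissiblePotential Φ) (hε : 0 < ε) (hc : ∀ a, Continuous (c a))
    {n : ℕ} (Z : Config n) (a : α) (i : Fin n) : Continuous (rel Φ ε c Z a i) :=
  (continuous_pth hΦ hε Z i).fst.sub (hc a)

theorem dist_rel {n : ℕ} (Z : Config n) (a : α) (i : Fin n) (s : ℝ) (x : Space3) :
    dist x (rel Φ ε c Z a i s) = dist (shiftC c x a s) (pth Φ ε Z s i).1 := by
  unfold rel shiftC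
  rw [dist_eq_norm, dist_eq_norm]
  congr 1
  abel

/-- Speed weight. -/
noncomputable def spdW (Φ : Space3 → ℝ) (ε : ℝ) (M : ℝ≥0) {n : ℕ} (Z : Config n) (i : Fin n)
    (s : ℝ) : ℝ≥0∞ := (M : ℝ≥0∞) + ‖(pth Φ ε Z s i).2‖ₑ

theorem measurable_spdW (hΦ : AdmissiblePotential Φ) (hε : 0 < ε) (M : ℝ≥0) (n : ℕ) (i : Fin n) :
    Measurable fun p : ℝ × Config n => spdW Φ ε M p.2 i p.1 := by
  have h : Measurable (Function.uncurry fun (s : ℝ) (Z : Config n) => pth Φ ε Z s i) :=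
    measurable_uncurry_of_continuous_of_measurable (fun Z => continuous_pth hΦ hε Z i)
      (fun s => measurable_pth_id hΦ hε s i)
  unfold spdW
  exact measurable_const.add h.snd.enorm

theorem measurable_spdW_time (hΦ : AdmissiblePotential Φ) (hε : 0 < ε) (M : ℝ≥0) {n : ℕ}
    (Z : Config n) (i : Fin n) : Measurable (spdW Φ ε M Z i) := by
  have h : Measurable fun s : ℝ => ((s, Z) : ℝ × Config n) := measurable_prodMk_right
  have h2 := (measurable_spdW hΦ hε M n i).comp h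
  exact h2

theorem lintegral_spdW_ne_top (hΦ : AdmissiblePotential Φ) (hε : 0 < ε) (M : ℝ≥0) {n : ℕ}
    (Z : Config n) (i : Fin n) (t : ℝ) : ∫⁻ s in Ioc 0 t, spdW Φ ε M Z i s ≠ ∞ := by
  unfold spdW
  rw [lintegral_add_left measurable_const, setLIntegral_const]
  refine ENNReal.add_ne_top.2 ⟨ENNReal.mul_ne_top ENNReal.coe_ne_top (by simp), ?_⟩
  have h := ((continuous_pth hΦ hε Z i).snd).integrableOn_Ioc (μ := volume) (a := 0) (b := t)
  exact h.2.ne

theorem dist_rel_le (hΦ : AdmissiblePotential Φ) (hε : 0 < ε) {M : ℝ≥0}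
    (hcM : ∀ a, LipschitzOnWith M (c a) (Icc 0 t)) {n : ℕ} {Z : Config n}
    (hZ : Z ∈ Dom Φ (Fin n)) (a : α) (i : Fin n) {s s' : ℝ} (h0 : 0 ≤ s) (hss : s ≤ s')
    (hst : s' ≤ t) :
    ENNReal.ofReal (dist (rel Φ ε c Z a i s) (rel Φ ε c Z a i s')) ≤
      ∫⁻ u in Ioc s s', spdW Φ ε M Z i u := by
  have h1 : dist (rel Φ ε c Z a i s) (rel Φ ε c Z a i s') ≤
      dist (pth Φ ε Z s i).1 (pth Φ ε Z s' i).1 + dist (c a s) (c a s') := by
    unfold rel
    exact dist_sub_sub_le _ _ _ _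
  have h2 : dist (c a s) (c a s') ≤ M * (s' - s) := by
    have := (hcM a).dist_le_mul s ⟨h0, hss.trans hst⟩ s' ⟨h0.trans hss, hst⟩
    rwa [Real.dist_eq, abs_sub_comm, abs_of_nonneg (sub_nonneg.2 hss)] at this
  have h3 : ENNReal.ofReal (dist (pth Φ ε Z s i).1 (pth Φ ε Z s' i).1) ≤
      ∫⁻ u in Ioc s s', ‖(pth Φ ε Z u i).2‖ₑ := by
    have hder : ∀ u ∈ uIcc s s', HasDerivAt (fun s => (pth Φ ε Z s i).1) ((pth Φ ε Z u i).2) u :=
      fun u _ => hasDerivAt_pos_flow hΦ hε hZ u i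
    have hcont : Continuous fun u => (pth Φ ε Z u i).2 := (continuous_pth hΦ hε Z i).snd
    have e := intervalIntegral.integral_eq_sub_of_hasDerivAt hder (hcont.intervalIntegrable _ _)
    rw [intervalIntegral.integral_of_le hss] at e
    rw [dist_comm, dist_eq_norm, ← e, ofReal_norm]
    exact enorm_integral_le_lintegral_enorm _
  calc ENNReal.ofReal (dist (rel Φ ε c Z a i s) (rel Φ ε c Z a i s'))
      ≤ ENNReal.ofReal (dist (pth Φ ε Z s i).1 (pth Φ ε Z s' i).1 + M * (s' - s)) :=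
        ENNReal.ofReal_le_ofReal (h1.trans (add_le_add_right h2 _))
    _ = ENNReal.ofReal (dist (pth Φ ε Z s i).1 (pth Φ ε Z s' i).1) +
          ENNReal.ofReal (M * (s' - s)) :=
        ENNReal.ofReal_add dist_nonneg (mul_nonneg M.coe_nonneg (sub_nonneg.2 hss))
    _ ≤ (∫⁻ u in Ioc s s', ‖(pth Φ ε Z u i).2‖ₑ) + ∫⁻ _u in Ioc s s', (M : ℝ≥0∞) := by
        refine add_le_add h3 (le_of_eq ?_)
        rw [setLIntegral_const, Real.volume_Ioc, ENNReal.ofReal_mul M.coe_nonneg,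
          ENNReal.ofReal_coe_nnreal]
    _ = ∫⁻ u in Ioc s s', spdW Φ ε M Z i u := by
        unfold spdW
        rw [lintegral_add_left measurable_const, add_comm]

/-- Joint measurability of the entrance time. -/
theorem measurable_inTime_joint (hΦ : AdmissiblePotential Φ) (hε : 0 < ε)
    (hc : ∀ a, Continuous (c a)) (n : ℕ) (a : α) (i : Fin n) (r t : ℝ) :
    Measurable fun p : Space3 × Config n => inTime (rel Φ ε c p.2 a i) r t p.1 := by
  refine measurable_hitTime (x := fun p : Space3 × Config n => oneW (rel Φ ε c p.2 a i) p.1)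
    (fun p _ => (((continuous_rel hΦ hε hc p.2 a i).sub continuous_const).prodMk
      continuous_const)) (fun s _ => ?_) (fun _ => continuous_const) 0 ()
  refine Measurable.prodMk ?_ measurable_const
  refine Measurable.sub ?_ measurable_fst
  exact ((measurable_pth_id hΦ hε s i).fst.sub measurable_const).comp measurable_snd

/-- Joint measurability of the set of points entered at a bad time. -/
theorem measurableSet_inSet_joint (hΦ : AdmissiblePotential Φ) (hε : 0 < ε)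
    (hc : ∀ a, Continuous (c a)) {n : ℕ} (a : α) (i : Fin n) {Q : Config n → ℝ → Prop}
    (hQ : MeasurableSet {p : Config n × ℝ | Q p.1 p.2})
    (hQt : ∀ Z s, Q Z s → s ∈ Icc 0 t) :
    MeasurableSet {p : Space3 × Config n | p.1 ∈ inSet (rel Φ ε c p.2 a i) ε {s | Q p.2 s}} := by
  have hm := measurable_inTime_joint hΦ hε hc n a i ε t
  have h : Measurable (Function.uncurry fun (s : ℝ) (Z : Config n) => rel Φ ε c Z a i s) :=
    measurable_uncurry_of_continuous_of_measurable (fun Z => continuous_rel hΦ hε hc Z a i)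
      (fun s => (measurable_pth_id hΦ hε s i).fst.sub measurable_const)
  have key : {p : Space3 × Config n | p.1 ∈ inSet (rel Φ ε c p.2 a i) ε {s | Q p.2 s}} =
      (fun p : Space3 × Config n => (p.2, inTime (rel Φ ε c p.2 a i) ε t p.1)) ⁻¹'
        {p : Config n × ℝ | Q p.1 p.2} ∩
      {p : Space3 × Config n | dist p.1 (rel Φ ε c p.2 a i (inTime (rel Φ ε c p.2 a i) ε t p.1)) ≤
        ε ∧ inTime (rel Φ ε c p.2 a i) ε t p.1 ∈ Icc 0 t} := by
    ext p
    have := inSet_eq (η := rel Φ ε c p.2 a i) (r := ε) (t := t) (A := {s | Q p.2 s})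
      (fun s hs => hQt _ _ hs)
    exact Set.ext_iff.1 this p.1
  rw [key]
  refine ((measurable_snd.prodMk hm) hQ).inter ?_
  refine (measurableSet_le (measurable_fst.dist ?_) measurable_const).inter (hm measurableSet_Icc)
  exact h.comp (hm.prodMk measurable_snd)

/-- A first hit with property `Q` after time `0`. -/
def QHit (Φ : Space3 → ℝ) (ε : ℝ) (c : α → ℝ → Space3) (θ : α → ℝ) (t₀ t : ℝ) {n : ℕ}
    (Q : Config n → Fin n → ℝ → Prop) (Z : Config n) : Prop :=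
  ∃ σ ∈ Ico t₀ t, 0 < σ ∧ Unhit (pth Φ ε Z) ε c θ σ ∧
    ∃ i, HitsAt (pth Φ ε Z) ε c θ σ i ∧ Q Z i σ

theorem QHit.exists_inSet {n : ℕ} {Q : Config n → Fin n → ℝ → Prop} {Z : Config n} {x : Space3}
    (h : QHit Φ ε (shiftC c x) θ t₀ t Q Z) :
    ∃ a i, x ∈ inSet (rel Φ ε c Z a i) ε {s | s ∈ Ico t₀ t ∧ 0 < s ∧ Q Z i s} := by
  obtain ⟨σ, hσ, hpos, hU, i, ⟨a, ha, hd⟩, hQ⟩ := h
  refine ⟨a, i, σ, ⟨hσ, hpos, hQ⟩, ?_, fun s hs => ?_⟩
  · rw [dist_rel]; exact hd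
  · rw [dist_rel]
    exact (unhit_iff.1 hU) s hs a (hs.2.le.trans ha) i

/-- Volume entered by one particle at the times of a measurable set. -/
theorem volume_inSet_rel_le (hΦ : AdmissiblePotential Φ) (hε : 0 < ε)
    (hc : ∀ a, Continuous (c a)) {M : ℝ≥0} (hcM : ∀ a, LipschitzOnWith M (c a) (Icc 0 t))
    {n : ℕ} {Z : Config n} (hZ : Z ∈ Dom Φ (Fin n)) (a : α) (i : Fin n) {Q : ℝ → Prop}
    (hQ : MeasurableSet {s | Q s}) (ht₀ : 0 ≤ t₀) :
    volume (inSet (rel Φ ε c Z a i) ε {s | s ∈ Ico t₀ t ∧ 0 < s ∧ Q s}) ≤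
      ENNReal.ofReal (7 * ε ^ 2) * kap *
        ∫⁻ s in Ioo t₀ t, ind (Q s) * spdW Φ ε M Z i s := by
  set A : Set ℝ := {s | s ∈ Ico t₀ t ∧ 0 < s ∧ Q s} with hA
  have hAm : MeasurableSet A :=
    measurableSet_Ico.inter (measurableSet_Ioi.inter hQ)
  have hAsub : A ⊆ Ioc 0 t := fun s hs => ⟨hs.2.1, hs.1.2.le⟩
  have hm : Measurable (spdW Φ ε M Z i) := measurable_spdW_time hΦ hε M Z i
  refine (volume_inSet_le (continuous_rel hΦ hε hc Z a i) hm (lintegral_spdW_ne_top hΦ hε M Z i t)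
    (fun s s' h0 hss hst => dist_rel_le hΦ hε hcM hZ a i h0 hss hst) hε hAm hAsub).trans ?_
  refine mul_le_mul_right ?_ _
  rw [← lintegral_indicator hAm, ← lintegral_indicator measurableSet_Ioo]
  refine lintegral_mono_ae ?_
  have h0 : ∀ᵐ s : ℝ, s ≠ t₀ := by
    rw [ae_iff]; simp
  filter_upwards [h0] with s hs
  by_cases hsA : s ∈ A
  · rw [indicator_of_mem hsA, indicator_of_mem (show s ∈ Ioo t₀ t from
      ⟨lt_of_le_of_ne hsA.1.1 (Ne.symm hs), hsA.1.2⟩), ind_true hsA.2.2, one_mul]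
  · rw [indicator_of_notMem hsA]; exact zero_le

theorem lintegral_ind_mem {X : Type*} [MeasurableSpace X] (μ : Measure X) {S : Set X}
    (hS : MeasurableSet S) : ∫⁻ x, ind (x ∈ S) ∂μ = μ S := by
  have : (fun x => ind (x ∈ S)) = S.indicator 1 := by
    funext x
    by_cases hx : x ∈ S
    · rw [ind_true hx, indicator_of_mem hx, Pi.one_apply]
    · rw [ind_false hx, indicator_of_notMem hx]
  rw [this, lintegral_indicator_one hS]

variable [Fintype α]

/-- Majorant of the indicator of `QHit`. -/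
noncomputable def majQ (Φ : Space3 → ℝ) (ε : ℝ) (c : α → ℝ → Space3) (t₀ t : ℝ) {n : ℕ}
    (Q : Config n → Fin n → ℝ → Prop) (x : Space3) (Z : Config n) : ℝ≥0∞ :=
  ∑ a : α, ∑ i : Fin n,
    ind (x ∈ inSet (rel Φ ε c Z a i) ε {s | s ∈ Ico t₀ t ∧ 0 < s ∧ Q Z i s})

theorem ind_qHit_le {n : ℕ} (Q : Config n → Fin n → ℝ → Prop) (x : Space3) (Z : Config n) :
    ind (QHit Φ ε (shiftC c x) θ t₀ t Q Z) ≤ majQ Φ ε c t₀ t Q x Z := by
  by_cases h : QHit Φ ε (shiftC c x) θ t₀ t Q Z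
  · obtain ⟨a, i, hx⟩ := h.exists_inSet
    have h2 : ind (x ∈ inSet (rel Φ ε c Z a i) ε {s | s ∈ Ico t₀ t ∧ 0 < s ∧ Q Z i s}) ≤
        ∑ i : Fin n, ind (x ∈ inSet (rel Φ ε c Z a i) ε {s | s ∈ Ico t₀ t ∧ 0 < s ∧ Q Z i s}) :=
      Finset.single_le_sum (f := fun i : Fin n => ind (x ∈ inSet (rel Φ ε c Z a i) ε
        {s | s ∈ Ico t₀ t ∧ 0 < s ∧ Q Z i s})) (fun _ _ => zero_le) (Finset.mem_univ i)
    have h3 : ∑ i : Fin n,
        ind (x ∈ inSet (rel Φ ε c Z a i) ε {s | s ∈ Ico t₀ t ∧ 0 < s ∧ Q Z i s}) ≤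
        majQ Φ ε c t₀ t Q x Z :=
      Finset.single_le_sum (f := fun a : α => ∑ i : Fin n, ind (x ∈ inSet (rel Φ ε c Z a i) ε
        {s | s ∈ Ico t₀ t ∧ 0 < s ∧ Q Z i s})) (fun _ _ => zero_le) (Finset.mem_univ a)
    rw [ind_true hx] at h2
    exact (ind_le_one _).trans (h2.trans h3)
  · rw [ind_false h]; exact zero_le

theorem measurable_majQ (hΦ : AdmissiblePotential Φ) (hε : 0 < ε) (hc : ∀ a, Continuous (c a))
    {n : ℕ} {Q : Config n → Fin n → ℝ → Prop}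
    (hQ : ∀ i, MeasurableSet {p : Config n × ℝ | Q p.1 i p.2}) :
    Measurable (Function.uncurry (majQ Φ ε c t₀ t Q)) := by
  refine Finset.measurable_sum _ fun a _ => Finset.measurable_sum _ fun i _ => measurable_ind ?_
  exact measurableSet_inSet_joint (t := t) hΦ hε hc a i
    (Q := fun Z s => s ∈ Ico t₀ t ∧ 0 < s ∧ Q Z i s)
    ((measurable_snd measurableSet_Ico).inter ((measurable_snd measurableSet_Ioi).inter (hQ i)))
    (fun Z s hs => ⟨hs.2.1.le, hs.1.2.le⟩)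

theorem lintegral_majQ_le (hΦ : AdmissiblePotential Φ) (hε : 0 < ε) (hc : ∀ a, Continuous (c a))
    {M : ℝ≥0} (hcM : ∀ a, LipschitzOnWith M (c a) (Icc 0 t)) {n : ℕ}
    {Q : Config n → Fin n → ℝ → Prop}
    (hQ : ∀ i, MeasurableSet {p : Config n × ℝ | Q p.1 i p.2}) (ht₀ : 0 ≤ t₀) {Z : Config n}
    (hZ : Z ∈ Dom Φ (Fin n)) :
    ∫⁻ x : Space3, majQ Φ ε c t₀ t Q x Z ≤ ENNReal.ofReal (7 * ε ^ 2) * kap * Fintype.card α *
        ∫⁻ s in Ioo t₀ t, ∑ i, ind (Q Z i s) * spdW Φ ε M Z i s := by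
  have hQZ : ∀ i, MeasurableSet {s | Q Z i s} := fun i =>
    (measurable_prodMk_left (x := Z)) (hQ i)
  have hm : ∀ (a : α) (i : Fin n), MeasurableSet (inSet (rel Φ ε c Z a i) ε
      {s | s ∈ Ico t₀ t ∧ 0 < s ∧ Q Z i s}) := fun a i =>
    measurableSet_inSet (t := t) (continuous_rel hΦ hε hc Z a i)
      (fun s hs => ⟨hs.2.1.le, hs.1.2.le⟩)
      (measurableSet_Ico.inter (measurableSet_Ioi.inter (hQZ i)))
  have hS : ∀ i, Measurable fun s => ind (Q Z i s) * spdW Φ ε M Z i s := fun i =>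
    (measurable_ind (hQZ i)).mul (measurable_spdW_time hΦ hε M Z i)
  have e1 : ∫⁻ x : Space3, majQ Φ ε c t₀ t Q x Z = ∑ a : α, ∑ i : Fin n,
      volume (inSet (rel Φ ε c Z a i) ε {s | s ∈ Ico t₀ t ∧ 0 < s ∧ Q Z i s}) := by
    have hmi : ∀ (a : α) (i : Fin n), Measurable fun x : Space3 =>
        ind (x ∈ inSet (rel Φ ε c Z a i) ε {s | s ∈ Ico t₀ t ∧ 0 < s ∧ Q Z i s}) :=
      fun a i => measurable_ind (p := fun x : Space3 =>
        x ∈ inSet (rel Φ ε c Z a i) ε {s | s ∈ Ico t₀ t ∧ 0 < s ∧ Q Z i s}) (hm a i)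
    unfold majQ
    rw [lintegral_finsetSum _ fun a _ => Finset.measurable_sum _ fun i _ => hmi a i]
    refine Finset.sum_congr rfl fun a _ => ?_
    rw [lintegral_finsetSum _ fun i _ => hmi a i]
    exact Finset.sum_congr rfl fun i _ => lintegral_ind_mem _ (hm a i)
  rw [e1]
  have e2 : ∑ a : α, ∑ i : Fin n,
      volume (inSet (rel Φ ε c Z a i) ε {s | s ∈ Ico t₀ t ∧ 0 < s ∧ Q Z i s}) ≤
      ∑ _a : α, ∑ i : Fin n, ENNReal.ofReal (7 * ε ^ 2) * kap *
            ∫⁻ s in Ioo t₀ t, ind (Q Z i s) * spdW Φ ε M Z i s :=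
    Finset.sum_le_sum fun a _ => Finset.sum_le_sum fun i _ =>
      volume_inSet_rel_le hΦ hε hc hcM hZ a i (hQZ i) ht₀
  refine e2.trans (le_of_eq ?_)
  rw [lintegral_finsetSum _ fun i _ => hS i, Finset.sum_const, Finset.card_univ,
    nsmul_eq_mul, ← Finset.mul_sum]
  ring

/-- The majorant is measurable in the translation. -/
theorem measurable_gcE_majQ (hf : Measurable f₀) (hΦ : AdmissiblePotential Φ) (hε : 0 < ε)
    (hc : ∀ a, Continuous (c a)) {Q : (n : ℕ) → Config n → Fin n → ℝ → Prop}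
    (hQ : ∀ n i, MeasurableSet {p : Config n × ℝ | Q n p.1 i p.2}) :
    Measurable fun x : Space3 => gcE f₀ ε (fun n Z => majQ Φ ε c t₀ t (Q n) x Z) :=
  BadHit370.measurable_gcE_param hf ε (F := fun n x Z => majQ Φ ε c t₀ t (Q n) x Z)
    (fun n => measurable_majQ hΦ hε hc (hQ n))

/-- Integral of the majorant. -/
theorem lintegral_gcE_majQ_le (hf : Measurable f₀) (hΦ : AdmissiblePotential Φ) (hε : 0 < ε)
    (hc : ∀ a, Continuous (c a)) {M : ℝ≥0} (hcM : ∀ a, LipschitzOnWith M (c a) (Icc 0 t))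
    {Q : (n : ℕ) → Config n → Fin n → ℝ → Prop}
    (hQ : ∀ n i, MeasurableSet {p : Config n × ℝ | Q n p.1 i p.2}) (ht₀ : 0 ≤ t₀) :
    ∫⁻ x : Space3, gcE f₀ ε (fun n Z => majQ Φ ε c t₀ t (Q n) x Z) ≤
      ENNReal.ofReal (7 * ε ^ 2) * kap * Fintype.card α *
        ∫⁻ s in Ioo t₀ t, gcE f₀ ε (fun n Z => ∑ i, ind (Q n Z i s) * spdW Φ ε M Z i s) := by
  have hFt : ∀ n, Measurable (Function.uncurry fun (s : ℝ) (Z : Config n) =>
      ∑ i, ind (Q n Z i s) * spdW Φ ε M Z i s) := by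
    intro n
    refine Finset.measurable_sum _ fun i _ => Measurable.mul ?_ (measurable_spdW hΦ hε M n i)
    exact (measurable_ind (hQ n i)).comp measurable_swap
  have h2 : ∫⁻ x : Space3, gcE f₀ ε (fun n Z => majQ Φ ε c t₀ t (Q n) x Z) =
      gcE f₀ ε (fun n Z => ∫⁻ x : Space3, majQ Φ ε c t₀ t (Q n) x Z) :=
    BadHit370.lintegral_gcE hf ε volume (F := fun n x Z => majQ Φ ε c t₀ t (Q n) x Z)
      (fun n => measurable_majQ hΦ hε hc (hQ n))
  have h3 : gcE f₀ ε (fun n Z => ∫⁻ x : Space3, majQ Φ ε c t₀ t (Q n) x Z) ≤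
      gcE f₀ ε (fun n Z => ENNReal.ofReal (7 * ε ^ 2) * kap * Fintype.card α *
          ∫⁻ s in Ioo t₀ t, ∑ i, ind (Q n Z i s) * spdW Φ ε M Z i s) :=
    gcE_mono f₀ ε fun n Z hZ => lintegral_majQ_le hΦ hε hc hcM (hQ n) ht₀
      (pairExcluded_subset_Dom hε n hZ)
  have h4 : gcE f₀ ε (fun n Z => ENNReal.ofReal (7 * ε ^ 2) * kap * Fintype.card α *
          ∫⁻ s in Ioo t₀ t, ∑ i, ind (Q n Z i s) * spdW Φ ε M Z i s) =
      ENNReal.ofReal (7 * ε ^ 2) * kap * Fintype.card α *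
          gcE f₀ ε (fun n Z => ∫⁻ s in Ioo t₀ t, ∑ i, ind (Q n Z i s) * spdW Φ ε M Z i s) := by
    refine gcE_const_mul f₀ ε ?_ _
    exact ENNReal.mul_ne_top (ENNReal.mul_ne_top ENNReal.ofReal_ne_top kap_ne_top)
      (ENNReal.natCast_ne_top _)
  have h5 := BadHit370.lintegral_gcE hf ε (volume.restrict (Ioo t₀ t))
    (F := fun n s Z => ∑ i, ind (Q n Z i s) * spdW Φ ε M Z i s) hFt
  calc ∫⁻ x : Space3, gcE f₀ ε (fun n Z => majQ Φ ε c t₀ t (Q n) x Z)
      = _ := h2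
    _ ≤ _ := h3
    _ = _ := h4
    _ = _ := by rw [h5]

/-- **First-hit sweep in the gas.** -/
theorem lintegral_first_hit_le (hf : Measurable f₀) (hΦ : AdmissiblePotential Φ) (hε : 0 < ε)
    (hc : ∀ a, Continuous (c a)) {M : ℝ≥0} (hcM : ∀ a, LipschitzOnWith M (c a) (Icc 0 t))
    {Q : (n : ℕ) → Config n → Fin n → ℝ → Prop}
    (hQ : ∀ n i, MeasurableSet {p : Config n × ℝ | Q n p.1 i p.2}) (ht₀ : 0 ≤ t₀) :
    ∫⁻ x : Space3, gcE f₀ ε (fun n Z => ind (QHit Φ ε (shiftC c x) θ t₀ t (Q n) Z)) ≤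
      ENNReal.ofReal (7 * ε ^ 2) * kap * Fintype.card α *
        ∫⁻ s in Ioo t₀ t, gcE f₀ ε (fun n Z => ∑ i, ind (Q n Z i s) * spdW Φ ε M Z i s) :=
  (lintegral_mono fun x => gcE_mono f₀ ε fun n Z _ => ind_qHit_le (Q n) x Z).trans
    (lintegral_gcE_majQ_le hf hΦ hε hc hcM hQ ht₀)

end

end Crest.Agent.R122.Hit167
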