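import Crest.Agent.R122.Mid1_317
import Crest.Agent.R122.NGin_416
import Crest.Agent.R122.InEq2Defs_311
import Crest.Agent.R122.HitSwG_167
import Crest.Agent.R122.EnergyFlow_410
import Crest.Agent.R122.GIVChild_383

/-!
# Real clusters which are not trees have small mass (row 122, helper317)

* `speed_le`, `spdW_le` : speed of a particle from the initial energies of its backward cluster;
* `skF`, `gcE_skF_le` : expectation of the sum over embedded tree configurations;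
* `NGin Φ f₀ T' te K` : the input from D5 (closed real histories of at most `K` particles are trees up
  to a small functional);
* `realTree_of_hTreeC` : a closed real history whose top collision is finished is a real tree;
* `notGood_le` : mass of the real clusters of at most `K` particles which are not trees.
* `ngq_of` : the integrated form.
-/

set_option autoImplicit false

open MeasureTheory Set Filter
open scoped Classical ENNReal NNReal Topology
open Crest.AnalysisR.Kinetic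

noncomputable section

namespace Crest.Agent.R122.Mid317

open Kin796 Kin796.CTree Tree674 ToTree335 QDens815 TreeDom974 Kin416 Relabel674 GC311
  Causal291 Flow671 Loc45 Master566 EDefs602

variable {Φ : Space3 → ℝ} {f₀ : PhasePoint → ℝ} {ε : ℝ}

/-! ### Speed of a particle from its backward cluster -/

theorem far_of_mem {n : ℕ} {Z : Config n} (hZ : Z ∈ PairExcluded ε n) (i j : Fin n) (hij : i ≠ j) :
    ε ≤ dist (Z i).1 (Z j).1 := by
  have := hZ i j hij
  exact this.le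

theorem sq_speed_le (hΦ : AdmissiblePotential Φ) (hε : 0 < ε) {n : ℕ} {Z : Config n}
    (hZ : Z ∈ PairExcluded ε n) {s : ℝ} (hs : 0 ≤ s) (i : Fin n) :
    ‖(pth Φ ε Z s i).2‖ ^ 2 ≤
      ∑ b ∈ (bc Φ ε Z s i).toFinset, (‖(Z b).2‖ ^ 2 + 4 * stabB Φ) := by
  have W := Energy410.world_flow hΦ hε (far_of_mem hZ) s
  set z : ℝ → Fin n → PhasePoint := fun t => flow Φ ε t Z with hz
  set G : Finset (Fin n) := Finset.univ.filter fun k => Past (Ct z ε) s i s k with hG
  have hGm : ∀ k, k ∈ G ↔ Past (Ct z ε) s i s k := fun k => by simp [hG]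
  have hiso : Energy410.Iso ε G (z s) := by
    intro j hj k hk
    by_contra hlt
    rw [not_le] at hlt
    rw [hGm] at hj hk
    exact hk (hj.contact hlt.le)
  have h1 := Energy410.eng_root_le hΦ hε W hs le_rfl hiso
  have h2 := W.stab s ⟨hs, le_rfl⟩ G
  have hz0 : z 0 = Z := Flow671.flow_zero hΦ hε Z
  have hBC : (⋃ p ∈ G, BC (Ct z ε) s p) ⊆ bc Φ ε Z s i := by
    intro k hk
    simp only [mem_iUnion] at hk
    obtain ⟨p, hp, hk⟩ := hk
    exact ((hGm p).1 hp).trans hk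
  have hB := stabB_nonneg Φ
  have h3 : Energy410.Wt (stabB Φ) (z 0) (⋃ p ∈ G, BC (Ct z ε) s p) ≤
      ∑ b ∈ (bc Φ ε Z s i).toFinset, ((1 / 2) * ‖(Z b).2‖ ^ 2 + stabB Φ) := by
    refine (Energy410.Wt_mono hB (z 0) hBC).trans (le_of_eq ?_)
    have := Energy410.Wt_coe (stabB Φ) (z 0) (bc Φ ε Z s i).toFinset
    rw [Set.coe_toFinset] at this
    rw [this, hz0]
  have hGBC : G ⊆ (bc Φ ε Z s i).toFinset := by
    intro k hk
    rw [Set.mem_toFinset]
    exact ((hGm k).1 hk).mono hs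
  have hiG : i ∈ G := (hGm i).2 (.root le_rfl)
  have h4 : ‖(z s i).2‖ ^ 2 ≤ ∑ j ∈ G, ‖(z s j).2‖ ^ 2 :=
    Finset.single_le_sum (f := fun j => ‖(z s j).2‖ ^ 2) (fun _ _ => by positivity) hiG
  have h5 : stabB Φ * (G.card : ℝ) ≤ ∑ _b ∈ (bc Φ ε Z s i).toFinset, stabB Φ := by
    rw [Finset.sum_const, nsmul_eq_mul, mul_comm]
    have : (G.card : ℝ) ≤ ((bc Φ ε Z s i).toFinset.card : ℝ) := by
      exact_mod_cast Finset.card_le_card hGBC
    exact mul_le_mul_of_nonneg_right this hB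
  have h6 : ∑ b ∈ (bc Φ ε Z s i).toFinset, (‖(Z b).2‖ ^ 2 + 4 * stabB Φ) =
      2 * ∑ b ∈ (bc Φ ε Z s i).toFinset, ((1 / 2) * ‖(Z b).2‖ ^ 2 + stabB Φ) +
        2 * ∑ _b ∈ (bc Φ ε Z s i).toFinset, stabB Φ := by
    rw [Finset.mul_sum, Finset.mul_sum, ← Finset.sum_add_distrib]
    refine Finset.sum_congr rfl fun b _ => ?_
    ring
  have h7 : (pth Φ ε Z s i) = z s i := rfl
  rw [h6, h7]
  linarith

/-- constant of the speed weight -/
def cS (Φ : Space3 → ℝ) (M : ℝ≥0) : ℝ≥0∞ := ENNReal.ofReal (M + 2 * stabB Φ + 1)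

theorem cS_ne_top (M : ℝ≥0) : cS Φ M ≠ ∞ := ENNReal.ofReal_ne_top

/-- The speed weight is bounded by the initial energies of the backward cluster. -/
theorem spdW_le (hΦ : AdmissiblePotential Φ) (hε : 0 < ε) {n : ℕ} {Z : Config n}
    (hZ : Z ∈ PairExcluded ε n) {s : ℝ} (hs : 0 ≤ s) (i : Fin n) (M : ℝ≥0) :
    Hit167.spdW Φ ε M Z i s ≤ cS Φ M * eW Z (bc Φ ε Z s i).toFinset := by
  have h1 := sq_speed_le hΦ hε hZ hs i
  have hB := stabB_nonneg Φ
  have hi : i ∈ (bc Φ ε Z s i).toFinset := by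
    rw [Set.mem_toFinset]
    exact Past.root hs
  set S : ℝ := ∑ b ∈ (bc Φ ε Z s i).toFinset, (1 + ‖(Z b).2‖ ^ 2) with hS
  have hM : (0 : ℝ) ≤ (M : ℝ) := M.2
  have h2 : 1 ≤ S := by
    have h3 : 1 + ‖(Z i).2‖ ^ 2 ≤ S :=
      Finset.single_le_sum (f := fun b => 1 + ‖(Z b).2‖ ^ 2) (fun _ _ => by positivity) hi
    have : 0 ≤ ‖(Z i).2‖ ^ 2 := by positivity
    linarith
  have h4 : ∑ b ∈ (bc Φ ε Z s i).toFinset, (‖(Z b).2‖ ^ 2 + 4 * stabB Φ) ≤
      (1 + 4 * stabB Φ) * S := by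
    rw [hS, Finset.mul_sum]
    refine Finset.sum_le_sum fun b _ => ?_
    have : 0 ≤ ‖(Z b).2‖ ^ 2 := by positivity
    nlinarith
  have h5 : (M : ℝ) + ‖(pth Φ ε Z s i).2‖ ≤ (M + 2 * stabB Φ + 1) * S := by
    have h6 : ‖(pth Φ ε Z s i).2‖ ≤ (1 + ‖(pth Φ ε Z s i).2‖ ^ 2) / 2 := by
      nlinarith [sq_nonneg (‖(pth Φ ε Z s i).2‖ - 1)]
    nlinarith [mul_le_mul_of_nonneg_left h2 hM]
  have h6 : Hit167.spdW Φ ε M Z i s = ENNReal.ofReal ((M : ℝ) + ‖(pth Φ ε Z s i).2‖) := by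
    unfold Hit167.spdW
    rw [ENNReal.ofReal_add hM (norm_nonneg _), ofReal_norm, ENNReal.ofReal_coe_nnreal]
  have h7 : eW Z (bc Φ ε Z s i).toFinset = ENNReal.ofReal S := by
    unfold eW
    rw [hS, ENNReal.ofReal_sum_of_nonneg fun b _ => by positivity]
  rw [h6, h7]
  unfold cS
  rw [← ENNReal.ofReal_mul (by positivity)]
  exact ENNReal.ofReal_le_ofReal h5

/-! ### Embedded tree configurations -/

/-- functional of a labelled tree configuration -/
def skF (Φ : Space3 → ℝ) (ε T : ℝ) (P : CTree) (g : PhasePoint × Par P → ℝ≥0∞)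
    (V : Config P.leaves) : ℝ≥0∞ :=
  (Skel Φ ε P T).indicator (fun W => g (Tree674.inv Φ ε P T W)) (fun x => V (eP P x))

theorem measurable_skF (hΦ : AdmissiblePotential Φ) (hε : 0 < ε) (T : ℝ) (P : CTree)
    {g : PhasePoint × Par P → ℝ≥0∞} (hg : Measurable g) : Measurable (skF Φ ε T P g) := by
  have h1 : Measurable fun V : Config P.leaves => (fun x : Idx P => V (eP P x)) :=
    measurable_pi_iff.2 fun x => measurable_pi_apply (eP P x)
  exact ((hg.comp (measurable_inv hΦ hε P T)).indicator (measurableSet_skel hΦ hε P T)).comp h1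

/-- Expectation of the number of embedded trees with a weight. -/
theorem gcE_skF_le (hΦ : AdmissiblePotential Φ) (hf : Measurable f₀)
    (h1 : ∫⁻ z, ENNReal.ofReal (f₀ z) ≤ 1) (hε : 0 < ε) (T : ℝ) (P : CTree)
    {g : PhasePoint × Par P → ℝ≥0∞} (hg : Measurable g) :
    gcE f₀ ε (fun n X => ∑ e : Fin P.leaves ↪ Fin n, skF Φ ε T P g (fun x => X (e x))) ≤
      activity ε * ∫⁻ z : PhasePoint × Par P,
        {z : PhasePoint × Par P | Valid Φ ε P T z.1.2 z.2}.indicator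
          (fun z => wt Φ P z.1.2 z.2 * (pfM Φ f₀ ε P z * g z)) z := by
  refine (gcE_sum_emb_le hf h1 ε _ (measurable_skF hΦ hε T P hg)).trans ?_
  have hfm : Measurable fun q : (PhasePoint × Par P) × (Idx P → PhasePoint) =>
      (∏ x, ENNReal.ofReal (f₀ (q.2 x))) * g q.1 := by
    refine (Finset.measurable_prod _ fun x _ => ?_).mul (hg.comp measurable_fst)
    exact (hf.comp ((measurable_pi_apply x).comp measurable_snd)).ennreal_ofReal
  have h := treeMeasure hΦ hε P T hfm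
  have h2 : ∫⁻ V : Config P.leaves, gcWeight f₀ ε P.leaves V * skF Φ ε T P g V ≤
      ∫⁻ W : Idx P → PhasePoint, (Skel Φ ε P T).indicator (fun W =>
        (∏ x, ENNReal.ofReal (f₀ (W x))) * g (Tree674.inv Φ ε P T W)) W := by
    rw [lintegral_relabel (eP P)]
    refine lintegral_mono fun W => ?_
    have e1 : (fun x => (fun k => W ((eP P).symm k)) (eP P x)) = W := by
      funext x; simp
    have e2 : skF Φ ε T P g (fun k => W ((eP P).symm k)) =
        (Skel Φ ε P T).indicator (fun W => g (Tree674.inv Φ ε P T W)) W := by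
      unfold skF
      rw [e1]
    rw [e2]
    by_cases hW : W ∈ Skel Φ ε P T
    · rw [indicator_of_mem hW, indicator_of_mem hW]
      refine mul_le_mul_left ?_ _
      unfold gcWeight
      refine (indicator_le_self _ _ _).trans (le_of_eq ?_)
      rw [← Equiv.prod_comp (eP P)]
      refine Finset.prod_congr rfl fun x _ => ?_
      show ENNReal.ofReal (f₀ (W ((eP P).symm ((eP P) x)))) = _
      rw [Equiv.symm_apply_apply]
    · rw [indicator_of_notMem hW, mul_zero]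
      exact bot_le
  refine (mul_le_mul_right h2 _).trans (le_of_eq ?_)
  rw [← h, ← mul_assoc, activity_pow_mul hε P]
  congr 1
  refine lintegral_congr fun z => ?_
  by_cases hz : Valid Φ ε P T z.1.2 z.2
  · rw [indicator_of_mem (show z ∈ {z : PhasePoint × Par P | Valid Φ ε P T z.1.2 z.2} from hz),
      indicator_of_mem (show z ∈ {z : PhasePoint × Par P | Valid Φ ε P T z.1.2 z.2} from hz),
      pfM_of_adm hz.1]
    rfl
  · rw [indicator_of_notMem
      (show z ∉ {z : PhasePoint × Par P | Valid Φ ε P T z.1.2 z.2} from hz),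
      indicator_of_notMem
      (show z ∉ {z : PhasePoint × Par P | Valid Φ ε P T z.1.2 z.2} from hz)]

/-! ### Real histories and trees -/

section det

variable {T' s : ℝ} {κ : Type} [Fintype κ] {Z : κ → PhasePoint} {i : κ} {P : CTree}
  {ℓ : PhasePoint} {p : Par P} {e : Idx P → κ}

/-- A closed real history whose top collision is finished is a real tree. -/
theorem realTree_of_hTreeC (hε : 0 < ε) (hsT : s ≤ T')
    (h : InEq2.HTreeC Φ ε T' s Z i P ℓ p e) (ht : TopLt P s p) :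
    RealTree674.RealTree Φ ε s Z i P ℓ p e := by
  have hv : Valid Φ ε P s ℓ.2 p := (valid_iff_top hsT).2 ⟨h.valid, ht⟩
  refine ⟨hv, ?_, h.root, h.inj, ?_, ?_⟩
  · intro a b hab u hu h1 h2
    exact h.sep a b hab u ⟨hu.1, hu.2.trans hsT⟩ h1 h2
  · intro k u hu huk
    have hus : u ≤ s := huk.trans (PathFlow968.prot_le hε.le P s ℓ.2 p hv.2 k)
    refine h.agree k u hu hus ?_
    by_cases hk : k = Tree674.root P
    · subst hk
      rw [Final973.prot_root]
      exact hus.trans hsT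
    · rw [PathFlow968.prot_eq_of_ne P T' s p hk]
      exact huk
  · intro u hu j
    rw [h.past u hu j]
    refine exists_congr fun m => and_congr_right fun _ => ?_
    by_cases hm : m = Tree674.root P
    · subst hm
      rw [Final973.prot_root, Final973.prot_root]
      exact ⟨fun _ => hu.2, fun _ => hu.2.trans hsT⟩
    · rw [PathFlow968.prot_eq_of_ne P T' s p hm]

/-- If the top collision is not finished, the root is in its last collision window. -/
theorem mid_of_hTreeC (h : InEq2.HTreeC Φ ε T' s Z i P ℓ p e) (ht : ¬ TopLt P s p) :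
    Mid Φ ε s P ℓ.2 p := by
  cases P with
  | leaf => exact absurd trivial ht
  | node l r =>
    have h1 : ¬ p.1.1 < s := ht
    have h2 : Tree674.sin Φ ε ℓ.2 p.1 ≤ s := h.top
    exact ⟨(valid_node_iff.1 h.valid).1.1, h2, not_lt.1 h1⟩

end det

/-! ### The input of D5 -/

/-- **Input (D5)**: closed real histories of at most `K` particles at times in `[0, te]` are trees
(valid and separated at the horizon `T'`), except on a small functional of the gas. -/
def NGin (Φ : Space3 → ℝ) (f₀ : PhasePoint → ℝ) (T' te : ℝ) (K : ℕ) : Prop :=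
  ∃ B : ℝ → (n : ℕ) → Config n → Fin n → ℝ≥0∞,
    (∀ ε n i, Measurable fun X : Config n => B ε n X i) ∧
    (∀ ε n (σ : Equiv.Perm (Fin n)) (X : Config n) i,
      B ε n (fun x => X (σ x)) i = B ε n X (σ i)) ∧
    Tendsto (fun ε : ℝ => gcE f₀ ε (fun n X => (activity ε)⁻¹ * ∑ i, B ε n X i))
      (𝓝[>] 0) (𝓝 0) ∧
    ∃ e0 > 0, ∀ ε, 0 < ε → ε < e0 → ∀ (n : ℕ) (X : Config n), X ∈ PairExcluded ε n →
      ∀ i, ∀ u ∈ Icc 0 te, (bc Φ ε X u i).ncard ≤ K →
        (∃ P ℓ p e, InEq2.HTreeC Φ ε T' u X i P ℓ p e) ∨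
          eW X (bc Φ ε X u i).toFinset ≤ B ε n X i

/-- The functional of the trees seen in the middle of their last collision. -/
def gMid (Φ : Space3 → ℝ) (ε s : ℝ) (P : CTree) (z : PhasePoint × Par P) : ℝ≥0∞ :=
  WM Φ ε P z * indM Φ ε s P (z.1.2, z.2)

theorem measurable_gMid (hΦ : AdmissiblePotential Φ) (ε s : ℝ) (P : CTree) :
    Measurable (gMid Φ ε s P) := by
  refine (measurable_WM hΦ ε P).mul ?_
  have h : Measurable fun z : PhasePoint × Par P => (s, (z.1.2, z.2)) :=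
    measurable_const.prodMk (measurable_fst.snd.prodMk measurable_snd)
  exact (measurable_indM hΦ ε P).comp h

/-- Embedded trees with root `i`, seen in the middle of their last collision. -/
def midF (Φ : Space3 → ℝ) (ε T s : ℝ) (P : CTree) {n : ℕ} (X : Config n) (i : Fin n) : ℝ≥0∞ :=
  ∑ e : Fin P.leaves ↪ Fin n,
    if e (eP P (Tree674.root P)) = i then skF Φ ε T P (gMid Φ ε s P) (fun x => X (e x)) else 0

theorem sum_midF (ε T s : ℝ) (P : CTree) {n : ℕ} (X : Config n) :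
    ∑ i, midF Φ ε T s P X i =
      ∑ e : Fin P.leaves ↪ Fin n, skF Φ ε T P (gMid Φ ε s P) (fun x => X (e x)) := by
  unfold midF
  rw [Finset.sum_comm]
  refine Finset.sum_congr rfl fun e _ => ?_
  rw [Finset.sum_ite_eq]
  simp

theorem eW_le_midF (hΦ : AdmissiblePotential Φ) (hε : 0 < ε) {T' s : ℝ} (hs : 0 ≤ s)
    (hsT : s ≤ T') {n : ℕ} {X : Config n} {i : Fin n} {P : CTree} {ℓ : PhasePoint} {p : Par P}
    {e : Idx P → Fin n} (h : InEq2.HTreeC Φ ε T' s X i P ℓ p e) (hm : Mid Φ ε s P ℓ.2 p) :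
    eW X (bc Φ ε X s i).toFinset ≤ midF Φ ε T' s P X i := by
  have hT : 0 ≤ T' := hs.trans hsT
  have hr := h.range_eq hε hT hs
  set E : Fin P.leaves ↪ Fin n :=
    ⟨fun x => e ((eP P).symm x), fun x y hxy => (eP P).symm.injective (h.inj hxy)⟩ with hE
  have hEx : ∀ x, E x = e ((eP P).symm x) := fun x => rfl
  have hlines : (fun x : Idx P => X (E (eP P x))) = lines Φ ε P ℓ p := by
    funext x
    rw [hEx, Equiv.symm_apply_apply]
    exact h.lines_eq hΦ hε hT hs x
  have hroot : E (eP P (Tree674.root P)) = i := by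
    rw [hEx, Equiv.symm_apply_apply, h.root]
  have h1 : skF Φ ε T' P (gMid Φ ε s P) (fun x => X (E x)) =
      ∑ x : Idx P, ENNReal.ofReal (1 + ‖(X (e x)).2‖ ^ 2) := by
    unfold skF
    change (Skel Φ ε P T').indicator (fun W => gMid Φ ε s P (Tree674.inv Φ ε P T' W))
      (fun x : Idx P => X (E (eP P x))) = _
    rw [hlines, indicator_of_mem (mem_skel_lines h.valid), inv_lines hΦ hε h.valid le_rfl]
    unfold gMid indM
    rw [if_pos hm, mul_one, WM]
    refine Finset.sum_congr rfl fun x _ => ?_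
    rw [linesM_of_adm ε h.valid.1, h.lines_eq hΦ hε hT hs x]
  have h2 : eW X (bc Φ ε X s i).toFinset = ∑ x : Idx P, ENNReal.ofReal (1 + ‖(X (e x)).2‖ ^ 2) := by
    have h3 : (bc Φ ε X s i).toFinset = Finset.univ.image e := by
      ext j
      rw [Set.mem_toFinset, Finset.mem_image]
      have : bc Φ ε X s i = range e := hr.symm
      rw [this, mem_range]
      simp
    unfold eW
    rw [h3, Finset.sum_image fun x _ y _ hxy => h.inj hxy]
  rw [h2, ← h1]
  unfold midF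
  refine le_trans (le_of_eq ?_) (Finset.single_le_sum (f := fun e : Fin P.leaves ↪ Fin n =>
    if e (eP P (Tree674.root P)) = i then skF Φ ε T' P (gMid Φ ε s P) (fun x => X (e x)) else 0)
    (fun _ _ => bot_le) (Finset.mem_univ E))
  rw [if_pos hroot]

/-- Pointwise bound of the energy weight of a real cluster which is not a tree. -/
theorem eW_le (hΦ : AdmissiblePotential Φ) (hε : 0 < ε) {T' s : ℝ} (hs : 0 ≤ s)
    (hsT : s ≤ T') {n : ℕ} {X : Config n} {i : Fin n} {K : ℕ} (hK : (bc Φ ε X s i).ncard ≤ K)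
    (hg : ¬ RealTree674.Good Φ ε s X i) {B : ℝ≥0∞}
    (h : (∃ P ℓ p e, InEq2.HTreeC Φ ε T' s X i P ℓ p e) ∨ eW X (bc Φ ε X s i).toFinset ≤ B) :
    eW X (bc Φ ε X s i).toFinset ≤ B + ∑ P ∈ GIVStep383.trees K, midF Φ ε T' s P X i := by
  rcases h with ⟨P, ℓ, p, e, h⟩ | h
  · have ht : ¬ TopLt P s p := fun ht => hg ⟨P, ℓ, p, e, realTree_of_hTreeC hε hsT h ht⟩
    have hT : 0 ≤ T' := hs.trans hsT
    have hPK : P ∈ GIVStep383.trees K := by
      rw [GIVStep383.mem_trees]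
      have hr : bc Φ ε X s i = range e := (h.range_eq hε hT hs).symm
      rw [hr, ← image_univ, ncard_image_of_injective _ h.inj, ncard_univ,
        Nat.card_eq_fintype_card, card_idx] at hK
      exact hK
    refine (eW_le_midF hΦ hε hs hsT h (mid_of_hTreeC h ht)).trans ?_
    exact (Finset.single_le_sum (f := fun P => midF Φ ε T' s P X i) (fun _ _ => bot_le)
      hPK).trans le_add_self
  · exact h.trans le_self_add

theorem gcE_midF_le (hΦ : AdmissiblePotential Φ) (hf : Measurable f₀)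
    (h1 : ∫⁻ z, ENNReal.ofReal (f₀ z) ≤ 1) (hε : 0 < ε) (T s : ℝ) (P : CTree) :
    (activity ε)⁻¹ * gcE f₀ ε (fun n X => ∑ i, midF Φ ε T s P X i) ≤ midI Φ f₀ ε T s P := by
  have h2 := gcE_skF_le hΦ hf h1 hε T P (measurable_gMid hΦ ε s P)
  have h3 : gcE f₀ ε (fun n X => ∑ i, midF Φ ε T s P X i) =
      gcE f₀ ε (fun n X => ∑ e : Fin P.leaves ↪ Fin n,
        skF Φ ε T P (gMid Φ ε s P) (fun x => X (e x))) :=
    gcE_congr f₀ ε fun n X _ => sum_midF ε T s P X
  rw [h3]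
  refine (mul_le_mul_right h2 _).trans (le_of_eq ?_)
  rw [← mul_assoc, ENNReal.inv_mul_cancel (activity_ne_zero hε) ENNReal.ofReal_ne_top, one_mul]
  rfl

/-- **Mass of the real clusters of at most `K` particles which are not trees**, with the speed
weight. -/
theorem notGood_le (hΦ : AdmissiblePotential Φ) (hf : Measurable f₀)
    (h1 : ∫⁻ z, ENNReal.ofReal (f₀ z) ≤ 1) (hε : 0 < ε) {T' s : ℝ} (hs : 0 ≤ s)
    (hsT : s ≤ T') (K : ℕ) (M : ℝ≥0) {B : (n : ℕ) → Config n → Fin n → ℝ≥0∞}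
    (hB : ∀ n i, Measurable fun X : Config n => B n X i)
    (h : ∀ (n : ℕ) (X : Config n), X ∈ PairExcluded ε n → ∀ i, (bc Φ ε X s i).ncard ≤ K →
        (∃ P ℓ p e, InEq2.HTreeC Φ ε T' s X i P ℓ p e) ∨
          eW X (bc Φ ε X s i).toFinset ≤ B n X i) :
    (activity ε)⁻¹ * gcE f₀ ε (fun _ Z => ∑ i,
      Hit167.ind ((bc Φ ε Z s i).ncard ≤ K ∧ ¬ RealTree674.Good Φ ε s Z i) *
        Hit167.spdW Φ ε M Z i s) ≤
      cS Φ M * (gcE f₀ ε (fun n X => (activity ε)⁻¹ * ∑ i, B n X i) +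
        ∑ P ∈ GIVStep383.trees K, midI Φ f₀ ε T' s P) := by
  have hainv : (activity ε)⁻¹ ≠ ∞ := ENNReal.inv_ne_top.2 (activity_ne_zero hε)
  have hBs : ∀ n, Measurable fun X : Config n => ∑ i, B n X i := fun n =>
    Finset.measurable_sum _ fun i _ => hB n i
  have hms : ∀ (P : CTree) (n : ℕ), Measurable fun X : Config n =>
      ∑ i, midF Φ ε T' s P X i := by
    intro P n
    have : (fun X : Config n => ∑ i, midF Φ ε T' s P X i) = fun X =>
        ∑ e : Fin P.leaves ↪ Fin n, skF Φ ε T' P (gMid Φ ε s P) (fun x => X (e x)) :=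
      funext fun X => sum_midF ε T' s P X
    rw [this]
    refine Finset.measurable_sum _ fun e _ => ?_
    exact (measurable_skF hΦ hε T' P (measurable_gMid hΦ ε s P)).comp
      (measurable_pi_iff.2 fun x => measurable_pi_apply (e x))
  have hpt : ∀ (n : ℕ) (X : Config n), X ∈ PairExcluded ε n → ∑ i,
      Hit167.ind ((bc Φ ε X s i).ncard ≤ K ∧ ¬ RealTree674.Good Φ ε s X i) *
        Hit167.spdW Φ ε M X i s ≤
      cS Φ M * (∑ i, B n X i + ∑ P ∈ GIVStep383.trees K, ∑ i, midF Φ ε T' s P X i) := by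
    intro n X hX
    have e1 : ∑ i, B n X i + ∑ P ∈ GIVStep383.trees K, ∑ i, midF Φ ε T' s P X i =
        ∑ i, (B n X i + ∑ P ∈ GIVStep383.trees K, midF Φ ε T' s P X i) := by
      rw [Finset.sum_add_distrib, Finset.sum_comm (s := GIVStep383.trees K)]
    rw [e1, Finset.mul_sum]
    refine Finset.sum_le_sum fun i _ => ?_
    unfold Hit167.ind
    split_ifs with hc
    · rw [one_mul]
      refine (spdW_le hΦ hε hX hs i M).trans (mul_le_mul_right ?_ _)
      exact eW_le hΦ hε hs hsT hc.1 hc.2 (h n X hX i hc.1)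
    · rw [zero_mul]
      exact bot_le
  calc (activity ε)⁻¹ * gcE f₀ ε (fun _ Z => ∑ i,
      Hit167.ind ((bc Φ ε Z s i).ncard ≤ K ∧ ¬ RealTree674.Good Φ ε s Z i) *
        Hit167.spdW Φ ε M Z i s)
      ≤ (activity ε)⁻¹ * gcE f₀ ε (fun n X => cS Φ M * (∑ i, B n X i +
          ∑ P ∈ GIVStep383.trees K, ∑ i, midF Φ ε T' s P X i)) :=
        mul_le_mul_right (gcE_mono f₀ ε hpt) _
    _ = cS Φ M * (gcE f₀ ε (fun n X => (activity ε)⁻¹ * ∑ i, B n X i) +
          ∑ P ∈ GIVStep383.trees K,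
            (activity ε)⁻¹ * gcE f₀ ε (fun n X => ∑ i, midF Φ ε T' s P X i)) := by
        rw [gcE_const_mul f₀ ε (cS_ne_top M), gcE_add hf ε hBs,
          gcE_finset_sum hf ε _ fun P _ n => hms P n, gcE_const_mul f₀ ε hainv,
          ← Finset.mul_sum]
        ring
    _ ≤ _ := by
        refine mul_le_mul_right (add_le_add_right (Finset.sum_le_sum fun P _ => ?_) _) _
        exact gcE_midF_le hΦ hf h1 hε T' s P

/-- **Fixed time**: the mass of the real clusters of at most `K` particles which are not trees tends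
to zero. -/
theorem tendsto_notGood (hΦ : AdmissiblePotential Φ) (hf : Measurable f₀)
    (h1 : ∫⁻ z, ENNReal.ofReal (f₀ z) ≤ 1) {γ : ℝ} (hγ : 0 < γ)
    (hb : HasSummableGaussianBound γ (fun x v => f₀ (x, v))) {T' te : ℝ} {K : ℕ}
    (hte : te ≤ T') (hNG : NGin Φ f₀ T' te K) {s : ℝ} (hs : s ∈ Icc 0 te) (M : ℝ≥0) :
    Tendsto (fun ε => (activity ε)⁻¹ * gcE f₀ ε (fun _ Z => ∑ i,
      Hit167.ind ((bc Φ ε Z s i).ncard ≤ K ∧ ¬ RealTree674.Good Φ ε s Z i) *
        Hit167.spdW Φ ε M Z i s)) (𝓝[>] 0) (𝓝 0) := by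
  obtain ⟨B, hBm, -, hB0, e0, he0, hB⟩ := hNG
  have hlim : Tendsto (fun ε : ℝ => cS Φ M * (gcE f₀ ε (fun n X => (activity ε)⁻¹ *
      ∑ i, B ε n X i) + ∑ P ∈ GIVStep383.trees K, midI Φ f₀ ε T' s P)) (𝓝[>] 0) (𝓝 0) := by
    have h2 : Tendsto (fun ε : ℝ => gcE f₀ ε (fun n X => (activity ε)⁻¹ *
        ∑ i, B ε n X i) + ∑ P ∈ GIVStep383.trees K, midI Φ f₀ ε T' s P) (𝓝[>] 0)
        (𝓝 (0 + ∑ _P ∈ GIVStep383.trees K, 0)) :=
      hB0.add (tendsto_finsetSum _ fun P _ => tendsto_midI hΦ hf hγ hb T' s P)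
    rw [Finset.sum_const_zero, add_zero] at h2
    have h3 := ENNReal.Tendsto.const_mul (a := cS Φ M) h2 (Or.inr (cS_ne_top M))
    rwa [mul_zero] at h3
  refine tendsto_of_tendsto_of_tendsto_of_le_of_le' tendsto_const_nhds hlim
    (Eventually.of_forall fun _ => bot_le) ?_
  filter_upwards [Ioo_mem_nhdsGT he0] with ε hε
  exact notGood_le hΦ hf h1 hε.1 hs.1 (hs.2.trans hte) K M (hBm ε) fun n X hX i hK =>
    hB ε hε.1 hε.2 n X hX i s hs hK

/-- **Integrated version** (input `NGq` of `GoodBad_167`). -/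
theorem ngq_of (hΦ : AdmissiblePotential Φ) (hf : Measurable f₀)
    (h1 : ∫⁻ z, ENNReal.ofReal (f₀ z) ≤ 1) {γ : ℝ} (hγ : 0 < γ)
    (hb : HasSummableGaussianBound γ (fun x v => f₀ (x, v))) {T' t : ℝ}
    (htT : t ≤ T') (hNG : ∀ K, NGin Φ f₀ T' t K) (K : ℕ) (M : ℝ≥0) {d : ℝ} (hd : 0 < d) :
    ∃ e0 > 0, ∀ ε, 0 < ε → ε < e0 → ∫⁻ s in Ioo 0 t, (activity ε)⁻¹ *
      gcE f₀ ε (fun _ Z => ∑ i,
        Hit167.ind ((bc Φ ε Z s i).ncard ≤ K ∧ ¬ RealTree674.Good Φ ε s Z i) *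
          Hit167.spdW Φ ε M Z i s) ≤ ENNReal.ofReal d := by
  obtain ⟨B, hBm, -, hB0, e0, he0, hB⟩ := hNG K
  have hlim : Tendsto (fun ε : ℝ => cS Φ M * (ENNReal.ofReal t * gcE f₀ ε (fun n X =>
      (activity ε)⁻¹ * ∑ i, B ε n X i) + ∑ P ∈ GIVStep383.trees K,
        ∫⁻ s in Ioo 0 t, midI Φ f₀ ε T' s P)) (𝓝[>] 0) (𝓝 0) := by
    have h2 : Tendsto (fun ε : ℝ => ENNReal.ofReal t * gcE f₀ ε (fun n X => (activity ε)⁻¹ *
        ∑ i, B ε n X i) + ∑ P ∈ GIVStep383.trees K, ∫⁻ s in Ioo 0 t, midI Φ f₀ ε T' s P) (𝓝[>] 0)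
        (𝓝 (ENNReal.ofReal t * 0 + ∑ _P ∈ GIVStep383.trees K, 0)) :=
      (ENNReal.Tendsto.const_mul hB0 (Or.inr ENNReal.ofReal_ne_top)).add
        (tendsto_finsetSum _ fun P _ => tendsto_lintegral_midI hΦ hf hγ hb T' t P)
    rw [Finset.sum_const_zero, mul_zero, add_zero] at h2
    have h3 := ENNReal.Tendsto.const_mul (a := cS Φ M) h2 (Or.inr (cS_ne_top M))
    rwa [mul_zero] at h3
  have hev := hlim.eventually (ge_mem_nhds (ENNReal.ofReal_pos.2 hd))
  have hev2 : ∀ᶠ ε in 𝓝[>] (0 : ℝ), 0 < ε ∧ ε < e0 ∧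
      cS Φ M * (ENNReal.ofReal t * gcE f₀ ε (fun n X =>
        (activity ε)⁻¹ * ∑ i, B ε n X i) + ∑ P ∈ GIVStep383.trees K,
          ∫⁻ s in Ioo 0 t, midI Φ f₀ ε T' s P) ≤ ENNReal.ofReal d := by
    filter_upwards [Ioo_mem_nhdsGT he0, hev] with ε h2 h3
    exact ⟨h2.1, h2.2, h3⟩
  rw [eventually_nhdsWithin_iff, Metric.eventually_nhds_iff] at hev2
  obtain ⟨r, hr, hr2⟩ := hev2
  refine ⟨r, hr, fun ε hε hεr => ?_⟩
  obtain ⟨-, h3, h4⟩ := hr2 (y := ε) (by rw [Real.dist_eq, sub_zero, abs_of_pos hε]; exact hεr) hε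
  refine le_trans ?_ h4
  have hmid : ∀ P : CTree, Measurable fun s => midI Φ f₀ ε T' s P := fun P =>
    measurable_midI hΦ hf ε T' P
  calc ∫⁻ s in Ioo 0 t, (activity ε)⁻¹ * gcE f₀ ε (fun _ Z => ∑ i,
        Hit167.ind ((bc Φ ε Z s i).ncard ≤ K ∧ ¬ RealTree674.Good Φ ε s Z i) *
          Hit167.spdW Φ ε M Z i s)
      ≤ ∫⁻ s in Ioo 0 t, cS Φ M * (gcE f₀ ε (fun n X => (activity ε)⁻¹ * ∑ i, B ε n X i) +
          ∑ P ∈ GIVStep383.trees K, midI Φ f₀ ε T' s P) := by
        refine setLIntegral_mono' measurableSet_Ioo fun s hs => ?_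
        exact notGood_le hΦ hf h1 hε hs.1.le (hs.2.le.trans htT) K M (hBm ε)
          fun n X hX i hK => hB ε hε h3 n X hX i s ⟨hs.1.le, hs.2.le⟩ hK
    _ = cS Φ M * ∫⁻ s in Ioo 0 t, (gcE f₀ ε (fun n X => (activity ε)⁻¹ * ∑ i, B ε n X i) +
          ∑ P ∈ GIVStep383.trees K, midI Φ f₀ ε T' s P) :=
        lintegral_const_mul' _ _ (cS_ne_top M)
    _ = _ := by
        rw [lintegral_add_left measurable_const, setLIntegral_const, Real.volume_Ioo, sub_zero,
          lintegral_finsetSum _ fun P _ => hmid P, mul_comm (gcE f₀ ε _)]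

end Crest.Agent.R122.Mid317
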