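import Crest.Agent.R122.ChainFam_726

/-!
# Consequences of the volume bounds of the bad configurations (row 122, helper317)

* `ngq_of_badVol` : the integrated form `NGq` (input of `badSmall_of`, helper167);
* `tendsto_notGood_of_badVol` : at a fixed time, the mass of the real clusters of bounded size which
  are not trees tends to zero.
-/

set_option autoImplicit false

open MeasureTheory Set Filter
open scoped Classical ENNReal NNReal Topology
open Crest.AnalysisR.Kinetic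

noncomputable section

namespace Crest.Agent.R122.Mid317

open GC311 Master566 Chain726 NG416

variable {Φ : Space3 → ℝ} {f₀ : PhasePoint → ℝ} {ε : ℝ}

/-- **`NGq` from the volume bounds.** -/
theorem ngq_of_badVol (hΦ : AdmissiblePotential Φ) (hf : Measurable f₀)
    (h1 : ∫⁻ z, ENNReal.ofReal (f₀ z) ≤ 1) {γ γ₀ : ℝ} (hγ : γ < γ₀) (hγ₀ : 0 < γ₀)
    (hb : HasSummableGaussianBound γ₀ (fun x v => f₀ (x, v))) {T' t : ℝ} (ht : t < T')
    (hvol : ∀ K, BadVol γ K (badFam Φ T' t)) (K : ℕ) (M : ℝ≥0) (d : ℝ) (hd : 0 < d) :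
    ∃ e0 > 0, ∀ ε, 0 < ε → ε < e0 → ∫⁻ s in Ioo 0 t, (activity ε)⁻¹ *
      gcE f₀ ε (fun _ Z => ∑ i,
        Hit167.ind ((bc Φ ε Z s i).ncard ≤ K ∧ ¬ RealTree674.Good Φ ε s Z i) *
          Hit167.spdW Φ ε M Z i s) ≤ ENNReal.ofReal d :=
  ngq_of hΦ hf h1 hγ₀ hb ht.le
    (fun K => Chain726.ngin_of_badVol hΦ ht hγ (hvol K) hf h1 hb) K M hd

/-- **Fixed time**: real clusters of bounded size are trees, up to vanishing mass. -/
theorem tendsto_notGood_of_badVol (hΦ : AdmissiblePotential Φ) (hf : Measurable f₀)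
    (h1 : ∫⁻ z, ENNReal.ofReal (f₀ z) ≤ 1) {γ γ₀ : ℝ} (hγ : γ < γ₀) (hγ₀ : 0 < γ₀)
    (hb : HasSummableGaussianBound γ₀ (fun x v => f₀ (x, v))) {T' te : ℝ} (hte : te < T') {K : ℕ}
    (hvol : BadVol γ K (badFam Φ T' te)) {s : ℝ} (hs : s ∈ Icc 0 te) (M : ℝ≥0) :
    Tendsto (fun ε => (activity ε)⁻¹ * gcE f₀ ε (fun _ Z => ∑ i,
      Hit167.ind ((bc Φ ε Z s i).ncard ≤ K ∧ ¬ RealTree674.Good Φ ε s Z i) *
        Hit167.spdW Φ ε M Z i s)) (𝓝[>] 0) (𝓝 0) :=
  tendsto_notGood hΦ hf h1 hγ₀ hb hte.le (Chain726.ngin_of_badVol hΦ hte hγ hvol hf h1 hb) hs M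

end Crest.Agent.R122.Mid317
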