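import Crest.Agent.R122.IStep3_317

/-!
# Assembly of the flux step (row 122, helper317)

* `FluxLim` : (I2), the flux limit for one tree shape (owners 818, 491);
* `fluxStep_of` : `BadSmall`, `ErrSmall` and `FluxLim` imply `FluxStep`.
-/

set_option autoImplicit false

open MeasureTheory Set Filter
open scoped Classical ENNReal Topology NNReal
open Crest.AnalysisR.Kinetic

noncomputable section

namespace Crest.Agent.R122.IStep317

open Kin796 Kin796.CTree Tree674 Flow671 Loc45 Causal291 PathFlow968 Hit167 GC311 GIV566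
  TreeHit317 Relabel674

variable {Φ : Space3 → ℝ} {f₀ : PhasePoint → ℝ} {ε : ℝ} {ι : Type} {S : Tubes ι} {T tw t : ℝ}

/-- **(I2)** the flux limit for one tree shape. -/
def FluxLim (Φ : Space3 → ℝ) (f₀ : PhasePoint → ℝ) (T tw t : ℝ) : Prop :=
  ∀ (ι : Type) [Fintype ι] (Sk : ℕ → Tubes ι) (S : Tubes ι) (εk : ℕ → ℝ),
    (∀ k, 0 < εk k) → Tendsto εk atTop (𝓝 0) → TubeConv T Sk S → Generic T S →
    ∀ (P : CTree) (R : ℝ),
      (∀ᶠ k in atTop, AEMeasurable (fun x => adiff (Hgh Φ f₀ (εk k) P ((Sk k).shift x) tw t)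
        (GIVStep383.gain Φ f₀ (εk k) tw t (Sk k) S P x))
        (volume.restrict (Metric.closedBall (0 : Space3) R))) ∧
      Tendsto (fun k => ∫⁻ x in Metric.closedBall (0 : Space3) R,
        adiff (Hgh Φ f₀ (εk k) P ((Sk k).shift x) tw t)
          (GIVStep383.gain Φ f₀ (εk k) tw t (Sk k) S P x)) atTop (𝓝 0)

/-- **(I2)** in majorant form (818's literal form). -/
def FluxLimM (Φ : Space3 → ℝ) (f₀ : PhasePoint → ℝ) (T tw t : ℝ) : Prop :=
  ∀ (ι : Type) [Fintype ι] (Sk : ℕ → Tubes ι) (S : Tubes ι) (εk : ℕ → ℝ),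
    (∀ k, 0 < εk k) → Tendsto εk atTop (𝓝 0) → TubeConv T Sk S → Generic T S →
    ∀ (P : CTree) (R δ : ℝ), 0 < δ → ∀ᶠ k in atTop, ∃ m : Space3 → ℝ≥0∞, Measurable m ∧
      (∀ x, adiff (Hgh Φ f₀ (εk k) P ((Sk k).shift x) tw t)
        (GIVStep383.gain Φ f₀ (εk k) tw t (Sk k) S P x) ≤ m x) ∧
      ∫⁻ x in Metric.closedBall (0 : Space3) R, m x ≤ ENNReal.ofReal δ

/-- The measurable form implies the majorant form. -/
theorem FluxLim.maj (h : FluxLim Φ f₀ T tw t) : FluxLimM Φ f₀ T tw t := by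
  intro ι _ Sk S εk hεk hlim hc hg P R δ hδ
  obtain ⟨h1, h2⟩ := h ι Sk S εk hεk hlim hc hg P R
  have h3 := h2.eventually_lt_const (show (0 : ℝ≥0∞) < ENNReal.ofReal (δ / 2) by
    simpa using (by positivity : 0 < δ / 2))
  filter_upwards [h1, h3] with k hk1 hk2
  set F : Space3 → ℝ≥0∞ := fun x => adiff (Hgh Φ f₀ (εk k) P ((Sk k).shift x) tw t)
    (GIVStep383.gain Φ f₀ (εk k) tw t (Sk k) S P x) with hF
  -- a measurable function above `F` everywhere, equal a.e. on the ball
  obtain ⟨g, hg1, hg2⟩ := hk1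
  obtain ⟨N, hN1, hN2, hN3⟩ := exists_measurable_superset_of_null
    (show (volume.restrict (Metric.closedBall (0 : Space3) R)) {x | ¬ F x = g x} = 0 from hg2)
  refine ⟨fun x => (N ∪ (Metric.closedBall (0 : Space3) R)ᶜ).indicator (fun _ => ∞) x + g x,
    (measurable_const.indicator (hN2.union measurableSet_closedBall.compl)).add hg1,
    fun x => ?_, ?_⟩
  · show F x ≤ (N ∪ (Metric.closedBall (0 : Space3) R)ᶜ).indicator (fun _ => (∞ : ℝ≥0∞)) x + g x
    by_cases hx : x ∈ N ∪ (Metric.closedBall (0 : Space3) R)ᶜ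
    · rw [indicator_of_mem hx, top_add]; exact le_top
    · rw [indicator_of_notMem hx, zero_add]
      have hx' : x ∉ {x | ¬ F x = g x} := fun h => hx (Or.inl (hN1 h))
      simp only [mem_ofPred_eq, not_not] at hx'
      exact hx'.le
  · rw [lintegral_add_left (measurable_const.indicator
      (hN2.union measurableSet_closedBall.compl)), lintegral_indicator
      (hN2.union measurableSet_closedBall.compl), lintegral_const]
    have h4 : (volume.restrict (Metric.closedBall (0 : Space3) R)).restrict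
        (N ∪ (Metric.closedBall (0 : Space3) R)ᶜ) univ = 0 := by
      rw [Measure.restrict_apply_univ]
      refine le_antisymm ((measure_union_le _ _).trans ?_) bot_le
      rw [hN3, zero_add, Measure.restrict_apply measurableSet_closedBall.compl,
        compl_inter_self, measure_empty]
    rw [h4, mul_zero, zero_add]
    calc ∫⁻ x in Metric.closedBall (0 : Space3) R, g x
        = ∫⁻ x in Metric.closedBall (0 : Space3) R, F x := (lintegral_congr_ae hg2).symm
      _ ≤ ENNReal.ofReal (δ / 2) := hk2.le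
      _ ≤ ENNReal.ofReal δ := ENNReal.ofReal_le_ofReal (by linarith)

theorem adiff_add_le (a b c d : ℝ≥0∞) : adiff (a + b) (c + d) ≤ adiff a c + adiff b d := by
  refine (adiff_triangle _ (c + b) _).trans (add_le_add (adiff_add_right_le _ _ _) ?_)
  exact adiff_add_left_le _ _ _

theorem adiff_sum_le {α : Type*} (s : Finset α) (g h : α → ℝ≥0∞) :
    adiff (∑ a ∈ s, g a) (∑ a ∈ s, h a) ≤ ∑ a ∈ s, adiff (g a) (h a) := by
  induction s using Finset.induction_on with
  | empty => simp [adiff]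
  | insert a s ha ih =>
    rw [Finset.sum_insert ha, Finset.sum_insert ha, Finset.sum_insert ha]
    exact (adiff_add_le _ _ _ _).trans (add_le_add le_rfl ih)

/-- **The flux step from its three inputs.** -/
theorem fluxStep_of (hΦ : AdmissiblePotential Φ) (hf : Measurable f₀)
    (h1 : ∫⁻ z, ENNReal.ofReal (f₀ z) ≤ 1) {Q : ℝ≥0∞} (hQ : Q ≠ ∞)
    (hQb : ∀ x : Space3, ∫⁻ v : Space3, ENNReal.ofReal (f₀ (x, v)) ≤ Q)
    {t' : ℝ} (htw : 0 ≤ tw) (htT : t' ≤ T)
    (hB : ∀ t ∈ Icc tw t', BadSmall Φ f₀ T tw t) (hE : ∀ t ∈ Icc tw t', ErrSmall Φ f₀ T tw t)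
    (hF : ∀ t ∈ Icc tw t', FluxLimM Φ f₀ T tw t) : GIVStep383.FluxStep Φ f₀ T tw t' := by
  intro ι _ Sk S εk hεk hlim hc hg t ht R δ hδ
  obtain ⟨K₀, hK₀⟩ := first_hit_maj hΦ hf h1 hQ hQb htw ht.1 (ht.2.trans htT) (hB t ht) (hE t ht)
    ι hεk hlim hc hg R (δ := δ / 2) (by positivity)
  refine ⟨K₀, fun K hK => ?_⟩
  set N : ℝ := ((GIVStep383.trees K).card : ℝ) + 1 with hN
  have hN0 : 0 < N := by positivity
  have hev : ∀ᶠ k in atTop, ∀ P ∈ GIVStep383.trees K, ∃ m : Space3 → ℝ≥0∞, Measurable m ∧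
      (∀ x, adiff (Hgh Φ f₀ (εk k) P ((Sk k).shift x) tw t)
        (GIVStep383.gain Φ f₀ (εk k) tw t (Sk k) S P x) ≤ m x) ∧
      ∫⁻ x in Metric.closedBall (0 : Space3) R, m x ≤ ENNReal.ofReal (δ / (2 * N)) := by
    rw [Finset.eventually_all]
    intro P _
    exact hF t ht ι Sk S εk hεk hlim hc hg P R _ (by positivity)
  refine limsup_le_of_le (by isBoundedDefault) ?_
  filter_upwards [hK₀ K hK, hev] with k hk1 hk2
  obtain ⟨maj, hm, hm1, hm2⟩ := hk1
  choose! m hmm hml hmi using hk2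
  calc ∫⁻ x in Metric.closedBall (0 : Space3) R,
        adiff (uG Φ f₀ (εk k) ((Sk k).shift x) t +
          ∑ P ∈ GIVStep383.trees K, GIVStep383.gain Φ f₀ (εk k) tw t (Sk k) S P x)
          (uG Φ f₀ (εk k) ((Sk k).shift x) tw)
      ≤ ∫⁻ x in Metric.closedBall (0 : Space3) R,
          (maj x + ∑ P ∈ GIVStep383.trees K, m P x) := by
        refine lintegral_mono fun x => ?_
        refine (adiff_triangle _ (uG Φ f₀ (εk k) ((Sk k).shift x) t +
          ∑ P ∈ GIVStep383.trees K, Hgh Φ f₀ (εk k) P ((Sk k).shift x) tw t) _).trans ?_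
        rw [add_comm (maj x)]
        refine add_le_add ((adiff_add_left_le _ _ _).trans ?_) (hm1 x)
        refine (adiff_sum_le _ _ _).trans (Finset.sum_le_sum fun P hP => ?_)
        rw [adiff_comm]
        exact hml P hP x
    _ = (∫⁻ x in Metric.closedBall (0 : Space3) R, maj x) + ∑ P ∈ GIVStep383.trees K,
          ∫⁻ x in Metric.closedBall (0 : Space3) R, m P x := by
        rw [lintegral_add_left hm, lintegral_finsetSum _ hmm]
    _ ≤ ENNReal.ofReal (δ / 2) + ∑ _P ∈ GIVStep383.trees K, ENNReal.ofReal (δ / (2 * N)) :=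
        add_le_add hm2 (Finset.sum_le_sum hmi)
    _ ≤ ENNReal.ofReal (δ / 2) + ENNReal.ofReal (δ / 2) := by
        refine add_le_add le_rfl ?_
        rw [Finset.sum_const, nsmul_eq_mul, ← ENNReal.ofReal_natCast,
          ← ENNReal.ofReal_mul (Nat.cast_nonneg _)]
        refine ENNReal.ofReal_le_ofReal ?_
        rw [mul_div_assoc', div_le_div_iff₀ (by positivity) (by positivity)]
        have : ((GIVStep383.trees K).card : ℝ) ≤ N := by rw [hN]; linarith
        nlinarith
    _ = ENNReal.ofReal δ := by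
        rw [← ENNReal.ofReal_add (by positivity) (by positivity), add_halves]

end Crest.Agent.R122.IStep317
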