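import Crest.Agent.R122.FluxDCT2_491
import Mathlib.MeasureTheory.Constructions.Polish.Basic

/-!
Row 122, block F (helper491): measurability in the translation of the mass of the first good hits
and of the gain term (for `FluxLim` of helper317).

* `measurable_gain` : `x ↦ gain Φ f₀ ε tw t Sk S P x`;
* `measurable_Hgh_shift` : `x ↦ Hgh Φ f₀ ε P (S.shift x) tw t`.
-/

set_option autoImplicit false
set_option maxHeartbeats 400000

open MeasureTheory Set Filter
open scoped ENNReal Topology Classical RealInnerProductSpace NNReal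
open Crest.AnalysisR.Kinetic

noncomputable section

namespace Crest.Agent.R122.FluxDCT491

open Kin796 Kin796.CTree Disc416 Tree674 TreeEps399 Hid424 Generic491 GIV566 GIVStep383 IStep317
  TubeChild491 Tube818 TreeDom974 TreeLim974
open Crest.Agent.R122.Quench815 (absd absd_comm absd_self le_add_absd le_add_absd' absd_le_add
  absd_le_iff absd_triangle absd_mul_le measurable_absd absd_lintegral_le)

variable {Φ : Space3 → ℝ} {f₀ : PhasePoint → ℝ} {ι : Type} {P : CTree}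

/-- the parameters form a standard Borel space -/
theorem standardBorelPar : ∀ P : CTree, StandardBorelSpace (Par P)
  | leaf => inferInstanceAs (StandardBorelSpace Unit)
  | node l r => by
      have := standardBorelPar l
      have := standardBorelPar r
      exact inferInstanceAs (StandardBorelSpace (NodeP × Par l × Par r))

/-! ### The gain term -/

theorem measurable_wgt_uG [Countable ι] (hΦ : AdmissiblePotential Φ) (hf : Measurable f₀) {ε : ℝ}
    (hε : 0 < ε) {T : ℝ} (hT : 0 ≤ T) {tw t : ℝ} (htw : 0 ≤ tw) (htT : t ≤ T) {Sk S : Tubes ι}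
    (hSk : ∀ i, ContinuousOn (Sk.c i) (Icc 0 T)) (i : ι) (hS : ContinuousOn (S.c i) (Icc 0 T))
    (P : CTree) :
    Measurable fun q : Space3 × HPar P => wgt Φ f₀ tw t S i q.2 q.1 *
      uG Φ f₀ ε ((childT Φ ε Sk S i q.2).shift q.1) q.2.1 := by
  obtain ⟨h, hm, h2, he⟩ := exists_hL ε hT S i (hSk i) P
  have h1 := measurable_wgt (P := P) (i := i) hΦ hf hT htw htT hS
  have h3 : Measurable fun q : Space3 × HPar P =>
      uTM Φ f₀ ε T Sk P ((q.2.1, (h q.2, q.2.2.2.2)), q.1) := by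
    refine (measurable_uTM hf hΦ hε hT hSk).comp ?_
    exact (measurable_snd.fst.prodMk ((hm.comp measurable_snd).prodMk
      measurable_snd.snd.snd.snd)).prodMk measurable_fst
  have e : (fun q : Space3 × HPar P => wgt Φ f₀ tw t S i q.2 q.1 *
      uG Φ f₀ ε ((childT Φ ε Sk S i q.2).shift q.1) q.2.1) =
      fun q : Space3 × HPar P => wgt Φ f₀ tw t S i q.2 q.1 *
        uTM Φ f₀ ε T Sk P ((q.2.1, (h q.2, q.2.2.2.2)), q.1) := by
    funext q
    by_cases hG : HGood Φ tw t S i q.2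
    · obtain ⟨a1, a2, a3, a4⟩ := hG
      have hI : q.2.1 ∈ Icc 0 T := ⟨htw.trans a1.1.le, a1.2.trans htT⟩
      have e1 := uTM_eq (Φ := Φ) (f₀ := f₀) (ε := ε) (P := P) (S := Sk) (T := T)
        (z := (h q.2, q.2.2.2.2)) hI.2 (by rw [h2]; exact a4.1) q.1
      rw [e1, he _ hI]
      rfl
    · have e0 : wgt Φ f₀ tw t S i q.2 q.1 = 0 := by
        unfold wgt
        rw [if_neg hG]
      rw [e0, zero_mul, zero_mul]
  rw [e]
  exact h1.mul h3

/-- **Measurability of the gain term in the translation.** -/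
theorem measurable_gain [Fintype ι] (hΦ : AdmissiblePotential Φ) (hf : Measurable f₀) {ε : ℝ}
    (hε : 0 < ε) {T : ℝ} (hT : 0 ≤ T) {tw t : ℝ} (htw : 0 ≤ tw) (htT : t ≤ T) {Sk S : Tubes ι}
    (hSk : ∀ i, ContinuousOn (Sk.c i) (Icc 0 T)) (hS : ∀ i, ContinuousOn (S.c i) (Icc 0 T))
    (P : CTree) : Measurable fun x : Space3 => gain Φ f₀ ε tw t Sk S P x := by
  unfold gain
  refine Finset.measurable_sum _ fun i _ => ?_
  exact (measurable_wgt_uG hΦ hf hε hT htw htT hSk i (hS i) P).lintegral_prod_right'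

/-! ### The mass of the first good hits -/

/-- the set of the trees with a first good hit in the time set `B` -/
theorem measurableSet_hit_in [Countable ι] (hΦ : AdmissiblePotential Φ) {ε : ℝ} (hε : 0 < ε)
    {T : ℝ} (hT : 0 ≤ T) {S : Tubes ι} (hS : ∀ i, ContinuousOn (S.c i) (Icc 0 T)) (P : CTree)
    {B : Set ℝ} (hB : MeasurableSet B) :
    MeasurableSet {z : PhasePoint × Par P | ∃ σ ∈ B, (0 < σ ∧ σ ≤ T) ∧ FirstAt Φ ε P S z σ} := by
  have := standardBorelPar P
  have hE := measurableSet_firstAt (P := P) hΦ hε hT hS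
  have e : {z : PhasePoint × Par P | ∃ σ ∈ B, (0 < σ ∧ σ ≤ T) ∧ FirstAt Φ ε P S z σ} =
      Prod.snd '' ((Prod.fst ⁻¹' B) ∩ {q : ℝ × (PhasePoint × Par P) |
        (0 < q.1 ∧ q.1 ≤ T) ∧ FirstAt Φ ε P S q.2 q.1}) := by
    ext z
    constructor
    · rintro ⟨σ, hσ, h⟩
      exact ⟨(σ, z), ⟨hσ, h⟩, rfl⟩
    · rintro ⟨q, ⟨h1, h2⟩, rfl⟩
      exact ⟨q.1, h1, h2⟩
  rw [e]
  refine MeasurableSet.image_of_measurable_injOn ((measurable_fst hB).inter hE) measurable_snd ?_
  rintro ⟨σ, z⟩ ⟨-, h1, h2⟩ ⟨σ', z'⟩ ⟨-, h3, h4⟩ hz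
  simp only at hz h1 h2 h3 h4
  subst hz
  rw [FirstAt.unique hε h1.1.le h3.1.le h2 h4]

/-- the condition of the first good hits in terms of `FirstAt` -/
theorem hit_iff {ε : ℝ} (hε : 0 < ε) {T tw t : ℝ} (htT : t ≤ T) {S : Tubes ι}
    {z : PhasePoint × Par P} :
    (sigHit Φ ε P S z ∈ Ico tw t ∧ 0 < sigHit Φ ε P S z ∧
      FirstAt Φ ε P S z (sigHit Φ ε P S z)) ↔
    ∃ σ ∈ Ico tw t, (0 < σ ∧ σ ≤ T) ∧ FirstAt Φ ε P S z σ := by
  constructor
  · rintro ⟨h1, h2, h3⟩
    exact ⟨_, h1, ⟨h2, (h1.2.trans_le htT).le⟩, h3⟩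
  · rintro ⟨σ, h1, h2, h3⟩
    rw [h3.sigHit_eq hε h2.1.le]
    exact ⟨h1, h2.1, h3⟩

/-- measurable version of the hitting time -/
def sigM (Φ : Space3 → ℝ) (ε : ℝ) (P : CTree) (S : Tubes ι) (T : ℝ) (z : PhasePoint × Par P) : ℝ :=
  if ∃ σ ∈ (univ : Set ℝ), (0 < σ ∧ σ ≤ T) ∧ FirstAt Φ ε P S z σ then sigHit Φ ε P S z else 0

theorem measurable_sigM [Countable ι] (hΦ : AdmissiblePotential Φ) {ε : ℝ} (hε : 0 < ε)
    {T : ℝ} (hT : 0 ≤ T) {S : Tubes ι} (hS : ∀ i, ContinuousOn (S.c i) (Icc 0 T)) (P : CTree) :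
    Measurable (sigM Φ ε P S T) := by
  intro B hB
  have h1 := measurableSet_hit_in hΦ hε hT hS P hB
  have h2 := measurableSet_hit_in hΦ hε hT hS P MeasurableSet.univ
  have e : sigM Φ ε P S T ⁻¹' B =
      {z : PhasePoint × Par P | ∃ σ ∈ B, (0 < σ ∧ σ ≤ T) ∧ FirstAt Φ ε P S z σ} ∪
      ({z : PhasePoint × Par P | ∃ σ ∈ (univ : Set ℝ), (0 < σ ∧ σ ≤ T) ∧
        FirstAt Φ ε P S z σ}ᶜ ∩ {_z | (0 : ℝ) ∈ B}) := by
    ext z
    simp only [mem_preimage, mem_union, mem_inter_iff, mem_compl_iff]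
    by_cases h : ∃ σ ∈ (univ : Set ℝ), (0 < σ ∧ σ ≤ T) ∧ FirstAt Φ ε P S z σ
    · have e1 : sigM Φ ε P S T z = sigHit Φ ε P S z := if_pos h
      obtain ⟨σ, -, h3, h4⟩ := h
      have e2 := h4.sigHit_eq hε h3.1.le
      rw [e1, e2]
      constructor
      · intro hσ
        exact Or.inl ⟨σ, hσ, h3, h4⟩
      · rintro (⟨σ', hσ', h5, h6⟩ | ⟨h5, -⟩)
        · rwa [FirstAt.unique hε h3.1.le h5.1.le h4 h6]
        · exact absurd ⟨σ, mem_univ _, h3, h4⟩ h5
    · have e1 : sigM Φ ε P S T z = 0 := if_neg h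
      rw [e1]
      constructor
      · intro h0
        exact Or.inr ⟨h, h0⟩
      · rintro (⟨σ', hσ', h5, h6⟩ | ⟨-, h5⟩)
        · exact absurd ⟨σ', mem_univ _, h5, h6⟩ h
        · exact h5
  rw [e]
  exact h1.union (h2.compl.inter (MeasurableSet.const _))

/-- **Measurability of the mass of the first good hits in the translation.** -/
theorem measurable_Hgh_shift [Countable ι] (hΦ : AdmissiblePotential Φ) (hf : Measurable f₀)
    {ε : ℝ} (hε : 0 < ε) {T : ℝ} (hT : 0 ≤ T) {tw t : ℝ} (htT : t ≤ T) {S : Tubes ι}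
    (hS : ∀ i, ContinuousOn (S.c i) (Icc 0 T)) (P : CTree) :
    Measurable fun x : Space3 => Hgh Φ f₀ ε P (S.shift x) tw t := by
  have hD := measurableSet_hit_in hΦ hε hT hS P (B := Ico tw t) measurableSet_Ico
  set D : Set (PhasePoint × Par P) :=
    {z | ∃ σ ∈ Ico tw t, (0 < σ ∧ σ ≤ T) ∧ FirstAt Φ ε P S z σ} with hDdef
  have hσ := measurable_sigM hΦ hε hT hS P
  have hl : Measurable fun q : Space3 × (PhasePoint × Par P) => linesM Φ ε P q.2.1 q.2.2 :=
    (measurable_linesM hΦ ε P).comp measurable_snd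
  have hint : Measurable fun q : Space3 × (PhasePoint × Par P) =>
      wtM Φ P q.2.1.2 q.2.2 * ((∏ j, ENNReal.ofReal (f₀ ((linesM Φ ε P q.2.1 q.2.2 j).1 + q.1,
        (linesM Φ ε P q.2.1 q.2.2 j).2))) *
        uTM Φ f₀ ε T S P ((sigM Φ ε P S T q.2, q.2), q.1)) := by
    refine Measurable.mul ?_ (Measurable.mul ?_ ?_)
    · exact (measurable_wtM hΦ P).comp (measurable_snd.fst.snd.prodMk measurable_snd.snd)
    · refine Finset.measurable_prod _ fun j _ => hf.ennreal_ofReal.comp ?_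
      have hj := (measurable_pi_apply j).comp hl
      exact (hj.fst.add measurable_fst).prodMk hj.snd
    · exact (measurable_uTM hf hΦ hε hT hS).comp
        (((hσ.comp measurable_snd).prodMk measurable_snd).prodMk measurable_fst)
  have e : (fun x : Space3 => Hgh Φ f₀ ε P (S.shift x) tw t) = fun x : Space3 =>
      activity ε * ∫⁻ z : PhasePoint × Par P, (Prod.snd ⁻¹' D).indicator
        (fun q : Space3 × (PhasePoint × Par P) => wtM Φ P q.2.1.2 q.2.2 *
          ((∏ j, ENNReal.ofReal (f₀ ((linesM Φ ε P q.2.1 q.2.2 j).1 + q.1,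
          (linesM Φ ε P q.2.1 q.2.2 j).2))) *
          uTM Φ f₀ ε T S P ((sigM Φ ε P S T q.2, q.2), q.1))) (x, z) := by
    funext x
    rw [Hgh_eq hΦ hε]
    congr 1
    refine lintegral_congr fun z => ?_
    by_cases hz : z ∈ D
    · rw [if_pos ((hit_iff hε htT).2 hz),
        indicator_of_mem (show ((x, z) : Space3 × (PhasePoint × Par P)) ∈ Prod.snd ⁻¹' D from hz)]
      obtain ⟨σ, h1, h2, h3⟩ := hz
      have hadm := h3.valid.1
      have es : sigM Φ ε P S T z = sigHit Φ ε P S z := if_pos ⟨σ, mem_univ _, h2, h3⟩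
      have es2 := h3.sigHit_eq hε h2.1.le
      have eu := uTM_eq (Φ := Φ) (f₀ := f₀) (ε := ε) (P := P) (S := S) (T := T) (z := z)
        (σ := sigHit Φ ε P S z) (by rw [es2]; exact h2.2) hadm x
      simp only [es]
      rw [wtM_of_adm hadm, linesM_of_adm ε hadm, eu]
    · rw [if_neg (fun h => hz ((hit_iff hε htT).1 h)), indicator_of_notMem
        (show ((x, z) : Space3 × (PhasePoint × Par P)) ∉ Prod.snd ⁻¹' D from hz)]
  rw [e]
  refine Measurable.const_mul ?_ _
  exact (hint.indicator (measurable_snd hD)).lintegral_prod_right'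

/-- The measurability half of `FluxLim`. -/
theorem aemeasurable_fluxLim [Fintype ι] (hΦ : AdmissiblePotential Φ) (hf : Measurable f₀)
    {T : ℝ} (hT : 0 ≤ T) {tw t : ℝ} (htw : 0 ≤ tw) (htT : t ≤ T) {εk : ℕ → ℝ}
    (hε0 : ∀ n, 0 < εk n) {Sk : ℕ → Tubes ι} {S : Tubes ι} (hconv : TubeConv T Sk S) (P : CTree)
    (μ : Measure Space3) :
    ∀ᶠ k in atTop, AEMeasurable (fun x => adiff (Hgh Φ f₀ (εk k) P ((Sk k).shift x) tw t)
      (gain Φ f₀ (εk k) tw t (Sk k) S P x)) μ := by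
  obtain ⟨M, hlipk, hlip⟩ := hconv.lip
  filter_upwards [hlipk] with k hk
  have h1 := measurable_Hgh_shift (tw := tw) hΦ hf (hε0 k) hT htT (fun i => (hk i).continuousOn) P
  have h2 := measurable_gain hΦ hf (hε0 k) hT htw htT (Sk := Sk k) (S := S)
    (fun i => (hk i).continuousOn) (fun i => (hlip i).continuousOn) P
  exact (measurable_absd h1 h2).aemeasurable

end Crest.Agent.R122.FluxDCT491

end
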