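import Crest.Agent.R122.Tube9_818
import Crest.Agent.R122.FluxMeas_491
import Crest.Agent.R122.FluxAsm_317

/-!
Row 122, block FT (helper818): the flux limit in the literal forms of helper317.
-/

set_option autoImplicit false
set_option maxHeartbeats 400000

open MeasureTheory Set Filter
open Crest.AnalysisR.Kinetic
open scoped ENNReal Classical Topology NNReal

noncomputable section

namespace Crest.Agent.R122.Tube818

variable {Φ : Space3 → ℝ} {f₀ : PhasePoint → ℝ} {f : ℝ → PhasePoint → ℝ} {β T tw t : ℝ}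

/-- **(I2)**, majorant form. -/
theorem fluxLimM (hD : Master566.KData Φ β T f₀ f) (htw : 0 ≤ tw) (htwt : tw ≤ t) (htT : t ≤ T) :
    IStep317.FluxLimM Φ f₀ T tw t := by
  intro ι _ Sk S εk hε0 hlim hconv hgen P R δ hδ
  exact flux_majorant hD hε0 hlim hconv hgen htw htwt htT P R hδ

/-- **(I2)**, measurable form. -/
theorem fluxLim (hD : Master566.KData Φ β T f₀ f) (htw : 0 ≤ tw) (htwt : tw ≤ t) (htT : t ≤ T) :
    IStep317.FluxLim Φ f₀ T tw t := by
  intro ι _ Sk S εk hε0 hlim hconv hgen P R
  exact ⟨FluxDCT491.aemeasurable_fluxLim hD.adm hD.contDiff.continuous.measurable hD.T_pos.le htw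
    htT hε0 hconv P _, flux_limit hD hε0 hlim hconv hgen htw htwt htT P R⟩

end Crest.Agent.R122.Tube818
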