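import Crest.Agent.R122.TopR_602
import Crest.Agent.R122.FluxAsm_317
import Crest.Agent.R122.TubeLim_818

/-!
# Row 122: the top skeleton, inputs of section F (helper602)

* `InL T Q` : `Q γ ρ` for all admissible line parameters with `g0 ≤ g1`, `r1 ≤ ρ`.
* `InW T Q` : `Q tw te` for all windows of length at most `h`, for some `h > 0`.
* `FluxIn`, `BadIn`, `ErrIn`, `FluxLimIn`, `GIVStepIn` : inputs of section F.
* `fIn_of_flux`, `fluxIn_of` : assembly.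
-/

set_option autoImplicit false

open MeasureTheory Set Filter Topology
open scoped ENNReal
open Crest.AnalysisR.Kinetic
open Crest.Agent.R122.Master566 Crest.Agent.R122.EDefs602 Crest.Agent.R122.GIV566

namespace Crest.Agent.R122.Top602

noncomputable section

/-- For all line parameters which are small and close to one enough. -/
def InL (T : ℝ) (Q : (ℝ → ℝ) → ℝ≥0∞ → Prop) : Prop :=
  ∃ g1 : ℝ, 0 < g1 ∧ ∃ r1 : ℝ≥0∞, r1 < 1 ∧ ∀ (γ : ℝ → ℝ) (ρ : ℝ≥0∞), LinePar g1 r1 T γ ρ → Q γ ρ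

theorem InL.of_forall {T : ℝ} {Q : (ℝ → ℝ) → ℝ≥0∞ → Prop} (h : ∀ γ ρ, Q γ ρ) : InL T Q :=
  ⟨1, one_pos, 0, zero_lt_one, fun γ ρ _ => h γ ρ⟩

theorem InL.and {T : ℝ} {Q Q' : (ℝ → ℝ) → ℝ≥0∞ → Prop} (h : InL T Q) (h' : InL T Q') :
    InL T fun γ ρ => Q γ ρ ∧ Q' γ ρ := by
  obtain ⟨g1, hg1, r1, hr1, h⟩ := h
  obtain ⟨g2, hg2, r2, hr2, h'⟩ := h'
  exact ⟨min g1 g2, lt_min hg1 hg2, max r1 r2, max_lt hr1 hr2, fun γ ρ hl =>
    ⟨h γ ρ (hl.mono (min_le_left _ _) (le_max_left _ _)),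
      h' γ ρ (hl.mono (min_le_right _ _) (le_max_right _ _))⟩⟩

theorem InL.mono {T : ℝ} {Q Q' : (ℝ → ℝ) → ℝ≥0∞ → Prop} (h : InL T Q)
    (hq : ∀ γ ρ, (∃ g1 r1, LinePar g1 r1 T γ ρ) → Q γ ρ → Q' γ ρ) : InL T Q' := by
  obtain ⟨g1, hg1, r1, hr1, h⟩ := h
  exact ⟨g1, hg1, r1, hr1, fun γ ρ hl => hq γ ρ ⟨g1, r1, hl⟩ (h γ ρ hl)⟩

/-- For all windows which are short enough. -/
def InW (T : ℝ) (Q : ℝ → ℝ → Prop) : Prop :=
  ∃ h : ℝ, 0 < h ∧ ∀ tw te : ℝ, Win h T tw te → Q tw te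

theorem Win.mono {h h' T tw te : ℝ} (hw : Win h T tw te) (hh : h ≤ h') : Win h' T tw te :=
  ⟨hw.nonneg, hw.le, hw.le_T, hw.short.trans (by linarith)⟩

theorem InW.of_forall {T : ℝ} {Q : ℝ → ℝ → Prop}
    (h : ∀ tw te : ℝ, 0 ≤ tw → tw ≤ te → te ≤ T → Q tw te) : InW T Q :=
  ⟨1, one_pos, fun tw te hw => h tw te hw.nonneg hw.le hw.le_T⟩

theorem InW.and {T : ℝ} {Q Q' : ℝ → ℝ → Prop} (h : InW T Q) (h' : InW T Q') :
    InW T fun tw te => Q tw te ∧ Q' tw te := by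
  obtain ⟨a, ha, h⟩ := h
  obtain ⟨b, hb, h'⟩ := h'
  exact ⟨min a b, lt_min ha hb, fun tw te hw =>
    ⟨h tw te (hw.mono (min_le_left _ _)), h' tw te (hw.mono (min_le_right _ _))⟩⟩

theorem InW.mono {T : ℝ} {Q Q' : ℝ → ℝ → Prop} (h : InW T Q)
    (hq : ∀ tw te : ℝ, 0 ≤ tw → tw ≤ te → te ≤ T → Q tw te → Q' tw te) : InW T Q' := by
  obtain ⟨a, ha, h⟩ := h
  exact ⟨a, ha, fun tw te hw => hq tw te hw.nonneg hw.le hw.le_T (h tw te hw)⟩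

/-- The information available in section F on the window `(tw, te]`: the induction hypothesis at
`tw` and the conclusions of section E at `te`. -/
structure FHyp (Φ : Space3 → ℝ) (f₀ : PhasePoint → ℝ) (f : ℝ → PhasePoint → ℝ) (T : ℝ) (γ : ℝ → ℝ)
    (ρ : ℝ≥0∞) (tw te : ℝ) : Prop where
  ih : IH Φ f₀ f T γ ρ tw
  je : JSup Φ f₀ te
  tn : TN Φ f₀ γ ρ te

/-- Flux step, for all short windows. -/
def FluxIn (Φ : Space3 → ℝ) (f₀ : PhasePoint → ℝ) (f : ℝ → PhasePoint → ℝ) (T : ℝ) : Prop :=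
  InL T fun γ ρ => InW T fun tw te => FHyp Φ f₀ f T γ ρ tw te →
    GIVStep383.FluxStep Φ f₀ T tw te

/-- (A) bad first hits are rare. -/
def BadIn (Φ : Space3 → ℝ) (f₀ : PhasePoint → ℝ) (f : ℝ → PhasePoint → ℝ) (T : ℝ) : Prop :=
  InL T fun γ ρ => InW T fun tw te => FHyp Φ f₀ f T γ ρ tw te →
    ∀ t ∈ Icc tw te, IStep317.BadSmall Φ f₀ T tw t

/-- (B) real and ghost avoidance probabilities agree at the first hits. -/
def ErrIn (Φ : Space3 → ℝ) (f₀ : PhasePoint → ℝ) (f : ℝ → PhasePoint → ℝ) (T : ℝ) : Prop :=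
  InL T fun γ ρ => InW T fun tw te => FHyp Φ f₀ f T γ ρ tw te →
    ∀ t ∈ Icc tw te, IStep317.ErrSmall Φ f₀ T tw t

/-- (C) the limit of the flux of trees. -/
def FluxLimIn (Φ : Space3 → ℝ) (f₀ : PhasePoint → ℝ) (T : ℝ) : Prop :=
  ∀ tw t : ℝ, 0 ≤ tw → tw ≤ t → t ≤ T → IStep317.FluxLimM Φ f₀ T tw t

/-- The window step of the ghost avoidance identification from the flux step. -/
def GIVStepIn (Φ : Space3 → ℝ) (f₀ : PhasePoint → ℝ) (f : ℝ → PhasePoint → ℝ) (T : ℝ) : Prop :=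
  InW T fun tw te => GIV Φ f₀ f T tw → GIVStep383.FluxStep Φ f₀ T tw te → GIV Φ f₀ f T te

variable {Φ : Space3 → ℝ} {β T : ℝ} {f₀ : PhasePoint → ℝ} {f : ℝ → PhasePoint → ℝ}

theorem fIn_of_flux (hG : GIVStepIn Φ f₀ f T) (hF : FluxIn Φ f₀ f T) : FIn Φ f₀ f T := by
  refine InL.mono hF fun γ ρ _ h => ?_
  obtain ⟨a, ha, h⟩ := h.and hG
  exact ⟨a, ha, fun tw te hw hI hJ hT => (h tw te hw).2 hI.giv ((h tw te hw).1 ⟨hI, hJ, hT⟩)⟩

/-- (C) is proved (818, 491). -/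
theorem fluxLimIn_of (hD : KData Φ β T f₀ f) : FluxLimIn Φ f₀ T :=
  fun _ _ h0 hle hT => Tube818.fluxLimM hD h0 hle hT

theorem fluxIn_of (hD : KData Φ β T f₀ f) (hB : BadIn Φ f₀ f T) (hE : ErrIn Φ f₀ f T) :
    FluxIn Φ f₀ f T := by
  have hC := fluxLimIn_of hD
  obtain ⟨Q, hQ0, hQ⟩ := GC311.exists_position_density_bound hD.beta_pos hD.gaussian
  refine InL.mono (hB.and hE) fun γ ρ _ h => ?_
  refine InW.mono (h.1.and h.2) fun tw te h0 hle hT hh hyp => ?_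
  have hmass : ∫⁻ z, ENNReal.ofReal (f₀ z) ≤ 1 :=
    (FM167.lintegral_density_eq_one hD.nonneg hD.integrable hD.mass).le
  exact IStep317.fluxStep_of hD.adm hD.contDiff.continuous.measurable hmass
    hQ0 hQ h0 hT (hh.1 hyp) (hh.2 hyp)
    fun t ht => hC tw t h0 ht.1 (ht.2.trans hT)

end

end Crest.Agent.R122.Top602
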