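import Crest.Agent.R122.GoodBad2_167
import Crest.Agent.R122.Mid2_317
import Crest.Agent.R122.NGBind_317
import Crest.Agent.R122.TopF_602

/-!
# `BadIn` of the top skeleton from the input of D5 (row 122, helper167)

* `ngq_of_ngin` : `NGin` (bounded clusters are trees or have small mass) implies `NGq`.
* `badIn_of` : `NGin` at a horizon `T' ≥ T` implies `Top602.BadIn`.
* `badIn_of_badVol` : the volume bounds of D5 imply `Top602.BadIn`.
-/

set_option autoImplicit false

open Set Filter Topology MeasureTheory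
open scoped Classical ENNReal NNReal
open Crest.AnalysisR.Kinetic

namespace Crest.Agent.R122.Hit167

open Master566 Mid317

variable {Φ : Space3 → ℝ} {f₀ : PhasePoint → ℝ}

theorem ngq_of_ngin (hΦ : AdmissiblePotential Φ) (hf : Measurable f₀)
    (h1 : ∫⁻ z, ENNReal.ofReal (f₀ z) ≤ 1) {γ : ℝ} (hγ : 0 < γ)
    (hb : HasSummableGaussianBound γ (fun x v => f₀ (x, v))) {T' t : ℝ}
    (htT : t ≤ T') (hNG : ∀ K, NGin Φ f₀ T' t K) : NGq Φ f₀ t := by
  intro K M d hd
  obtain ⟨e0, he0, h⟩ := ngq_of hΦ hf h1 hγ hb htT hNG K M hd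
  exact ⟨e0, he0, h⟩

/-- **The input (A) of section F.** -/
theorem badIn_of {β T : ℝ} {f : ℝ → PhasePoint → ℝ} (hD : KData Φ β T f₀ f) {T' : ℝ}
    (hTT : T ≤ T') (hNG : ∀ K, NGin Φ f₀ T' T K) : Top602.BadIn Φ f₀ f T := by
  have hf : Measurable f₀ := hD.contDiff.continuous.measurable
  have hmass : ∫⁻ z, ENNReal.ofReal (f₀ z) ≤ 1 :=
    (FM167.lintegral_density_eq_one hD.nonneg hD.integrable hD.mass).le
  have hβ : 0 < 2 * β := by have := hD.beta_pos; linarith
  have hG : NGq Φ f₀ T := ngq_of_ngin hD.adm hf hmass hβ hD.gaussian hTT hNG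
  refine Top602.InL.of_forall fun γ ρ => Top602.InW.of_forall fun tw te h0 hle hT hyp t ht => ?_
  exact badSmall_of_esc hf hmass hD.adm h0 ht.1 (ht.2.trans hT)
    ((escU_of_jSup hD.adm hyp.je).mono ht.2) (NGq_mono hG (ht.2.trans hT))

/-- **The input (A) of section F, from the volume bounds of D5.** -/
theorem badIn_of_badVol {β T : ℝ} {f : ℝ → PhasePoint → ℝ} (hD : KData Φ β T f₀ f) {T' γ : ℝ}
    (hTT : T < T') (hγ : γ < 2 * β)
    (hvol : ∀ K, NG416.BadVol γ K (Chain726.badFam Φ T' T)) : Top602.BadIn Φ f₀ f T :=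
  badIn_of hD hTT.le fun K => Chain726.ngin_of_badVol hD.adm hTT hγ (hvol K)
    hD.contDiff.continuous.measurable
    (FM167.lintegral_density_eq_one hD.nonneg hD.integrable hD.mass).le hD.gaussian

end Crest.Agent.R122.Hit167
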