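import Crest.Agent.R122.NGgas_416

/-!
# Row 122 (helper416): bad hits of a structure, abstract part

`P V t x` : possible positions `x` of the root of the cluster `V` at time `t` (all environments),
translation covariant and Lipschitz in time.  From pinned majorants at every time (`hM`) the majorant
`HH` of the hits of a Lipschitz curve, measurable in the curve, with its mass.
-/

set_option autoImplicit false
set_option linter.unusedSectionVars false

open MeasureTheory Set Filter Topology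
open Crest.AnalysisR.Kinetic
open Crest.Agent.R122.Loc45 Crest.Agent.R122.Vol365 Crest.Agent.R122.GC311
open Crest.Agent.R122.Flow671 Crest.Agent.R122.NG416
open scoped ENNReal NNReal Classical

noncomputable section

namespace Crest.Agent.R122.HitAbs416

/-- speed scale -/
def vD (D : ℝ) {k : ℕ} (V : Config k) : ℝ := Real.sqrt (2 * (kin V + D))

theorem vD_nonneg (D : ℝ) {k : ℕ} (V : Config k) : 0 ≤ vD D V := Real.sqrt_nonneg _

theorem measurable_vD (D : ℝ) {k : ℕ} : Measurable (vD D : Config k → ℝ) :=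
  ((measurable_kinc.add_const _).const_mul _).sqrt

/-- number of grid intervals -/
def gN (T r : ℝ) (n p : ℕ) : ℕ := ⌈T * ((1 + p) * (1 + n)) / r⌉₊ + 1

/-- grid times -/
def gT (T r : ℝ) (n p m : ℕ) : ℝ := m * (T / gN T r n p)

theorem gN_pos (T r : ℝ) (n p : ℕ) : (0 : ℝ) < gN T r n p := by
  unfold gN
  positivity

theorem gN_le {T R ε : ℝ} (hT : 0 ≤ T) (hR : 1 ≤ R) (hε : 0 < ε) (hε1 : ε ≤ 1) (n p : ℕ) :
    ((gN T (R * ε) n p + 1 : ℕ) : ℝ) ≤ (T + 3) / ε * ((1 + p) * (1 + n)) := by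
  have h1 : (⌈T * ((1 + p) * (1 + n)) / (R * ε)⌉₊ : ℝ) ≤ T * ((1 + p) * (1 + n)) / (R * ε) + 1 :=
    (Nat.ceil_lt_add_one (by positivity)).le
  have h2 : T * ((1 + p) * (1 + n)) / (R * ε) ≤ T * ((1 + p) * (1 + n)) / ε := by
    apply div_le_div_of_nonneg_left (by positivity) hε
    nlinarith
  have h3 : (1 : ℝ) ≤ ((1 + p) * (1 + n)) / ε := by
    rw [le_div_iff₀ hε]
    have hp : (0 : ℝ) ≤ p := Nat.cast_nonneg p
    have hn : (0 : ℝ) ≤ n := Nat.cast_nonneg n
    nlinarith [mul_nonneg hp hn]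
  unfold gN
  push_cast
  calc (⌈T * ((1 + p) * (1 + n)) / (R * ε)⌉₊ : ℝ) + 1 + 1
      ≤ T * ((1 + p) * (1 + n)) / ε + 3 * (((1 + p) * (1 + n)) / ε) := by linarith
    _ = (T + 3) / ε * ((1 + p) * (1 + n)) := by ring

/-- every time is close to a grid time -/
theorem exists_grid {T r : ℝ} (hT : 0 ≤ T) (hr : 0 < r) (n p : ℕ) {t : ℝ} (ht : t ∈ Icc 0 T) :
    ∃ m ∈ Finset.range (gN T r n p + 1), gT T r n p m ∈ Icc 0 T ∧
      |t - gT T r n p m| * ((1 + p) * (1 + n)) ≤ r := by
  have hN := gN_pos T r n p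
  rcases eq_or_lt_of_le hT with hT0 | hTpos
  · refine ⟨0, Finset.mem_range.2 (Nat.succ_pos _), ?_, ?_⟩
    · unfold gT; simp [hT]
    · have : t = 0 := le_antisymm (ht.2.trans hT0.ge) ht.1
      unfold gT
      simp [this, hr.le]
  set N : ℕ := gN T r n p with hNd
  have hNge : T * ((1 + p) * (1 + n)) / r ≤ N := by
    rw [hNd]; unfold gN; push_cast
    have := Nat.le_ceil (T * ((1 + (p : ℝ)) * (1 + n)) / r)
    linarith
  set m : ℕ := ⌊t * N / T⌋₊ with hm
  have hq : 0 ≤ t * N / T := by have := ht.1; positivity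
  have hm1 : (m : ℝ) ≤ t * N / T := Nat.floor_le hq
  have hm2 : t * N / T < m + 1 := Nat.lt_floor_add_one _
  have hmN : m ≤ N := by
    have : (m : ℝ) ≤ N := by
      refine hm1.trans ?_
      rw [div_le_iff₀ hTpos, mul_comm (N : ℝ) T]
      exact mul_le_mul_of_nonneg_right ht.2 hN.le
    exact_mod_cast this
  have ht1 : m * (T / N) ≤ t := by
    have := mul_le_mul_of_nonneg_right hm1 (show 0 ≤ T / N by positivity)
    refine this.trans (le_of_eq ?_)
    field_simp
  have ht2 : t ≤ m * (T / N) + T / N := by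
    have := mul_le_mul_of_nonneg_right hm2.le (show 0 ≤ T / N by positivity)
    have e : t * N / T * (T / N) = t := by field_simp
    rw [e] at this
    linarith
  have ht0 : 0 ≤ m * (T / N) := by positivity
  refine ⟨m, Finset.mem_range.2 (Nat.lt_succ_of_le hmN), ⟨ht0, ht1.trans ht.2⟩, ?_⟩
  have h3 : |t - gT T r n p m| ≤ T / N := by
    have e : gT T r n p m = m * (T / N) := rfl
    rw [e, abs_of_nonneg (by linarith)]
    linarith
  have hp : (0 : ℝ) ≤ p := Nat.cast_nonneg p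
  have hn : (0 : ℝ) ≤ n := Nat.cast_nonneg n
  calc |t - gT T r n p m| * ((1 + p) * (1 + n)) ≤ T / N * ((1 + p) * (1 + n)) :=
        mul_le_mul_of_nonneg_right h3 (by positivity)
    _ ≤ r := by
        rw [div_mul_eq_mul_div, div_le_iff₀ hN]
        rw [div_le_iff₀ hr] at hNge
        linarith

section

variable {k : ℕ}

/-- The majorant of the hits: `M t` are the pinned majorants, `y` the curve, `p` its Lipschitz
constant. -/
def HH (T r D : ℝ) (M : ℝ → Config k → ℝ≥0∞) (p : ℕ) (y : ℝ → Space3) (V : Config k) : ℝ≥0∞ :=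
  ∑' n : ℕ, (if ⌈vD D V⌉₊ = n then 1 else 0) *
    ∑ m ∈ Finset.range (gN T r n p + 1), M (gT T r n p m) (shiftX (-(y (gT T r n p m))) V)

theorem measurable_HH {T r D : ℝ} {M : ℝ → Config k → ℝ≥0∞} (hM : ∀ t, Measurable (M t))
    {X : Type*} [MeasurableSpace X] {p : X → ℕ} (hp : Measurable p) {y : X → ℝ → Space3}
    (hy : ∀ t, Measurable fun x => y x t) {V : X → Config k} (hV : Measurable V) :
    Measurable fun x => HH T r D M (p x) (y x) (V x) := by
  have h1 : ∀ q : ℕ, Measurable fun x => HH T r D M q (y x) (V x) := by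
    intro q
    unfold HH
    refine Measurable.tsum fun n => Measurable.mul ?_ ?_
    · refine Measurable.ite ?_ measurable_const measurable_const
      have h2 : Measurable fun x => ⌈vD D (V x)⌉₊ :=
        Nat.measurable_ceil.comp ((measurable_vD D).comp hV)
      exact h2 (measurableSet_singleton n)
    · refine Finset.measurable_sum _ fun m _ => ?_
      exact (hM _).comp (measurable_shiftX2.comp ((hy _).neg.prodMk hV))
  have h2 : ∀ x, HH T r D M (p x) (y x) (V x) =
      ∑' q : ℕ, (if p x = q then 1 else 0) * HH T r D M q (y x) (V x) := by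
    intro x
    rw [tsum_eq_single (p x)]
    · simp
    · intro q hq
      rw [if_neg (fun h => hq h.symm), zero_mul]
  simp_rw [h2]
  refine Measurable.tsum fun q => Measurable.mul ?_ (h1 q)
  exact Measurable.ite (hp (measurableSet_singleton q)) measurable_const measurable_const

theorem HH_shift (T r D : ℝ) (M : ℝ → Config k → ℝ≥0∞) (p : ℕ) (y : ℝ → Space3) (a : Space3)
    (V : Config k) : HH T r D M p (fun t => y t + a) (shiftX a V) = HH T r D M p y V := by
  unfold HH
  have e1 : vD D (shiftX a V) = vD D V := rfl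
  rw [e1]
  refine tsum_congr fun n => ?_
  congr 1
  refine Finset.sum_congr rfl fun m _ => ?_
  congr 1
  rw [shiftX_shiftX]
  congr 1
  change a + -(y (gT T r n p m) + a) = _
  rw [neg_add_rev, ← add_assoc, add_neg_cancel, zero_add]

/-- Every hit is counted. -/
theorem one_le_HH {T R ε D : ℝ} (hT : 0 ≤ T) (hR : 0 < R) (hε : 0 < ε)
    {P : Config k → ℝ → Space3 → Prop}
    (cov : ∀ V t x a, P V t x → P (shiftX a V) t (x + a))
    (move : ∀ V ∈ PairExcluded ε k, ∀ t x, P V t x → ∀ t', ∃ x', P V t' x' ∧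
      dist x x' ≤ vD D V * |t - t'|)
    {M : ℝ → Config k → ℝ≥0∞}
    (hM : ∀ t, ∀ V ∈ PairExcluded ε k, ∀ x, P V t x →
      (Metric.closedBall (0 : Space3) (3 * (R * ε))).indicator (fun _ => 1) x ≤ M t V)
    {y : ℝ → Space3} {p : ℕ}
    (hy : ∀ s ∈ Icc 0 T, ∀ s' ∈ Icc 0 T, dist (y s) (y s') ≤ p * |s - s'|)
    {V : Config k} (hV : V ∈ PairExcluded ε k) {t : ℝ} (ht : t ∈ Icc 0 T) {x : Space3}
    (hx : P V t x) (hd : dist x (y t) ≤ R * ε) : 1 ≤ HH T (R * ε) D M p y V := by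
  have hr : 0 < R * ε := mul_pos hR hε
  set n : ℕ := ⌈vD D V⌉₊ with hn
  have hvn : vD D V ≤ n := Nat.le_ceil _
  obtain ⟨m, hm, hmT, hmt⟩ := exists_grid (r := R * ε) hT hr n p ht
  set τ := gT T (R * ε) n p m with hτ
  obtain ⟨x', hx', hxx⟩ := move V hV t x hx τ
  have hp0 : (0 : ℝ) ≤ p := Nat.cast_nonneg p
  have hn0 : (0 : ℝ) ≤ n := Nat.cast_nonneg n
  have ha := abs_nonneg (t - τ)
  have h1 : dist (y t) (y τ) ≤ R * ε := by
    refine (hy t ht τ hmT).trans (le_trans ?_ hmt)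
    rw [mul_comm]
    refine mul_le_mul_of_nonneg_left ?_ ha
    nlinarith [mul_nonneg hp0 hn0]
  have h2 : dist x x' ≤ R * ε := by
    refine hxx.trans (le_trans ?_ hmt)
    rw [mul_comm]
    refine mul_le_mul_of_nonneg_left ?_ ha
    nlinarith [mul_nonneg hp0 hn0]
  have h3 : dist x' (y τ) ≤ 3 * (R * ε) := by
    calc dist x' (y τ) ≤ dist x' x + dist x (y t) + dist (y t) (y τ) := dist_triangle4 _ _ _ _
      _ ≤ R * ε + R * ε + R * ε := by
          rw [dist_comm x' x]
          exact add_le_add (add_le_add h2 hd) h1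
      _ = _ := by ring
  have hV' : shiftX (-(y τ)) V ∈ PairExcluded ε k := (pairExcluded_shiftX _ V).2 hV
  have h4 := hM τ _ hV' _ (cov V τ x' (-(y τ)) hx')
  have h5 : x' + -(y τ) ∈ Metric.closedBall (0 : Space3) (3 * (R * ε)) := by
    rw [Metric.mem_closedBall, dist_zero_right, ← sub_eq_add_neg, ← dist_eq_norm]
    exact h3
  rw [indicator_of_mem h5] at h4
  unfold HH
  refine le_trans ?_ (ENNReal.le_tsum n)
  rw [if_pos rfl, one_mul]
  refine h4.trans ?_
  exact Finset.single_le_sum (f := fun m => M (gT T (R * ε) n p m)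
    (shiftX (-(y (gT T (R * ε) n p m))) V)) (fun _ _ => bot_le) hm

/-- Gaussian tail of the speed scale. -/
theorem gwc_level_le {γ D : ℝ} (hγ : 0 < γ) (hD : 0 ≤ D) (V : Config k) (n : ℕ) :
    (if ⌈vD D V⌉₊ = n then (1 : ℝ≥0∞) else 0) * gwc γ V ≤
      ENNReal.ofReal (Real.exp (γ * (2 + D)) * Real.exp (-γ) ^ n) * gwc (γ / 2) V := by
  by_cases h : ⌈vD D V⌉₊ = n
  swap
  · rw [if_neg h, zero_mul]; exact bot_le
  rw [if_pos h, one_mul, gwc_eq_exp, gwc_eq_exp, ← ENNReal.ofReal_mul (by positivity),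
    ← Real.exp_nat_mul, ← Real.exp_add, ← Real.exp_add]
  refine ENNReal.ofReal_le_ofReal (Real.exp_le_exp.2 ?_)
  have hkin := kin_nonneg V
  have h1 : (n : ℝ) - 2 - D ≤ kin V := by
    rcases Nat.eq_zero_or_pos n with h0 | h0
    · rw [h0]; push_cast; linarith
    · have h2 : ((n : ℝ) - 1) < vD D V := by
        have h3 : n - 1 < ⌈vD D V⌉₊ := by omega
        have h4 := Nat.lt_ceil.1 h3
        have h5 : ((n - 1 : ℕ) : ℝ) = (n : ℝ) - 1 := by
          rw [Nat.cast_sub h0]; simp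
        rwa [h5] at h4
      have h3 : (1 : ℝ) ≤ n := by exact_mod_cast h0
      have h4 : ((n : ℝ) - 1) ^ 2 ≤ 2 * (kin V + D) := by
        have h5 : vD D V ^ 2 = 2 * (kin V + D) := by
          unfold vD
          rw [Real.sq_sqrt (by positivity)]
        rw [← h5]
        exact pow_le_pow_left₀ (by linarith) h2.le 2
      nlinarith [sq_nonneg ((n : ℝ) - 2)]
  nlinarith [mul_le_mul_of_nonneg_left h1 hγ.le]

/-- the constant of the level sum -/
def SC (γ D : ℝ) : ℝ≥0∞ :=
  ∑' n : ℕ, ENNReal.ofReal (Real.exp (γ * (2 + D)) * Real.exp (-γ) ^ n) *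
    ENNReal.ofReal (1 + n)

theorem SC_ne_top {γ D : ℝ} (hγ : 0 < γ) : SC γ D ≠ ∞ := by
  unfold SC
  have h1 : Summable fun n : ℕ => Real.exp (γ * (2 + D)) * Real.exp (-γ) ^ n * (1 + n) := by
    have hr : ‖Real.exp (-γ)‖ < 1 := by
      rw [Real.norm_eq_abs, abs_of_pos (Real.exp_pos _), Real.exp_lt_one_iff]
      linarith
    have h2 := summable_pow_mul_geometric_of_norm_lt_one 1 hr
    have h3 := summable_geometric_of_norm_lt_one hr
    have h4 := (h2.add h3).mul_left (Real.exp (γ * (2 + D)))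
    refine h4.congr fun n => ?_
    ring
  have h2 : ∀ n : ℕ, ENNReal.ofReal (Real.exp (γ * (2 + D)) * Real.exp (-γ) ^ n) *
      ENNReal.ofReal (1 + n) =
      ENNReal.ofReal (Real.exp (γ * (2 + D)) * Real.exp (-γ) ^ n * (1 + n)) := fun n => by
    rw [ENNReal.ofReal_mul (p := Real.exp (γ * (2 + D)) * Real.exp (-γ) ^ n) (by positivity)]
  simp_rw [h2]
  exact h1.tsum_ofReal_ne_top

/-- Mass of the hits. -/
theorem lintegral_HH_le {T R ε D γ : ℝ} (hT : 0 ≤ T) (hR : 1 ≤ R) (hε : 0 < ε) (hε1 : ε ≤ 1)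
    (hγ : 0 < γ) (hD : 0 ≤ D) {M : ℝ → Config k → ℝ≥0∞} (hM : ∀ t, Measurable (M t))
    {b : ℝ≥0∞} (hb : ∀ t, ∫⁻ V, gwc (γ / 2) V * M t V ≤ b) (p : ℕ) (y : ℝ → Space3) :
    ∫⁻ V, gwc γ V * HH T (R * ε) D M p y V ≤
      SC γ D * ENNReal.ofReal ((T + 3) / ε) * ENNReal.ofReal (1 + p) * b := by
  have hsh : ∀ t : ℝ, ∀ a : Space3, ∫⁻ V, gwc (γ / 2) V * M t (shiftX a V) ≤ b := by
    intro t a
    refine le_trans (le_of_eq ?_) (hb t)
    rw [← lintegral_shiftX a fun V => gwc (γ / 2) V * M t V]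
    rfl
  have hMm : ∀ t : ℝ, ∀ a : Space3, Measurable fun V : Config k =>
      gwc (γ / 2) V * M t (shiftX a V) := fun t a =>
    (measurable_gwc _).mul ((hM t).comp (measurable_shiftX a))
  have h1 : ∀ V : Config k, gwc γ V * HH T (R * ε) D M p y V ≤
      ∑' n : ℕ, ENNReal.ofReal (Real.exp (γ * (2 + D)) * Real.exp (-γ) ^ n) *
        ∑ m ∈ Finset.range (gN T (R * ε) n p + 1), gwc (γ / 2) V *
          M (gT T (R * ε) n p m) (shiftX (-(y (gT T (R * ε) n p m))) V) := by
    intro V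
    unfold HH
    rw [← ENNReal.tsum_mul_left]
    refine ENNReal.tsum_le_tsum fun n => ?_
    calc gwc γ V * ((if ⌈vD D V⌉₊ = n then 1 else 0) *
          ∑ m ∈ Finset.range (gN T (R * ε) n p + 1),
            M (gT T (R * ε) n p m) (shiftX (-(y (gT T (R * ε) n p m))) V))
        = ((if ⌈vD D V⌉₊ = n then 1 else 0) * gwc γ V) *
          ∑ m ∈ Finset.range (gN T (R * ε) n p + 1),
            M (gT T (R * ε) n p m) (shiftX (-(y (gT T (R * ε) n p m))) V) := by ring
      _ ≤ (ENNReal.ofReal (Real.exp (γ * (2 + D)) * Real.exp (-γ) ^ n) * gwc (γ / 2) V) *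
          ∑ m ∈ Finset.range (gN T (R * ε) n p + 1),
            M (gT T (R * ε) n p m) (shiftX (-(y (gT T (R * ε) n p m))) V) :=
          mul_le_mul_left (gwc_level_le hγ hD V n) _
      _ = _ := by rw [mul_assoc, Finset.mul_sum]
  refine (lintegral_mono h1).trans ?_
  rw [lintegral_tsum fun n => (Measurable.const_mul (Finset.measurable_sum _ fun m _ =>
    hMm _ _) _).aemeasurable]
  have h2 : ∀ n : ℕ, ∫⁻ V, ENNReal.ofReal (Real.exp (γ * (2 + D)) * Real.exp (-γ) ^ n) *
        ∑ m ∈ Finset.range (gN T (R * ε) n p + 1), gwc (γ / 2) V *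
          M (gT T (R * ε) n p m) (shiftX (-(y (gT T (R * ε) n p m))) V) ≤
      ENNReal.ofReal (Real.exp (γ * (2 + D)) * Real.exp (-γ) ^ n) * ENNReal.ofReal (1 + n) *
        (ENNReal.ofReal ((T + 3) / ε) * ENNReal.ofReal (1 + p) * b) := by
    intro n
    rw [lintegral_const_mul _ (Finset.measurable_sum _ fun m _ => hMm _ _), mul_assoc]
    refine mul_le_mul_right ?_ _
    rw [lintegral_finsetSum _ fun m _ => hMm _ _]
    calc ∑ m ∈ Finset.range (gN T (R * ε) n p + 1), ∫⁻ V, gwc (γ / 2) V *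
          M (gT T (R * ε) n p m) (shiftX (-(y (gT T (R * ε) n p m))) V)
        ≤ ∑ _m ∈ Finset.range (gN T (R * ε) n p + 1), b := Finset.sum_le_sum fun m _ => hsh _ _
      _ = ENNReal.ofReal ((gN T (R * ε) n p + 1 : ℕ) : ℝ) * b := by
          rw [Finset.sum_const, nsmul_eq_mul, Finset.card_range, ENNReal.ofReal_natCast]
      _ ≤ ENNReal.ofReal ((T + 3) / ε * ((1 + p) * (1 + n))) * b :=
          mul_le_mul_left (ENNReal.ofReal_le_ofReal (gN_le hT hR hε hε1 n p)) _
      _ = _ := by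
          rw [ENNReal.ofReal_mul (by positivity), ENNReal.ofReal_mul (by positivity)]
          ring
  refine (ENNReal.tsum_le_tsum h2).trans (le_of_eq ?_)
  rw [ENNReal.tsum_mul_right]
  unfold SC
  ring

end

end Crest.Agent.R122.HitAbs416

end
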