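import Crest.Agent.R122.VolGauss_365

/-!
Row 122, helper365: board D4, statement of the tapered crude bound (multi-root, every environment).
-/

set_option autoImplicit false

open MeasureTheory Set
open Crest.AnalysisR.Kinetic
open Crest.Agent.R122.Flow671 Crest.Agent.R122.Loc45 Crest.Agent.R122.Causal291
open scoped ENNReal Classical

noncomputable section

namespace Crest.Agent.R122.Vol365

/-- Particles active at time `s` (protected family) for the roots `R` seen at time `t` in the world
`Z`: the union of the pasts of the roots. -/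
def Act (Φ : Space3 → ℝ) (ε : ℝ) {ρ κ : Type} [Fintype κ] (Z : κ → PhasePoint) (t : ℝ)
    (R : ρ → κ) (s : ℝ) : Set κ :=
  {k | ∃ r, Past (Ct (pth Φ ε Z) ε) t (R r) s k}

/-- `V` is, inside some finite world `Z` (admissible initial data), exactly the union of the
backward clusters of the roots `e r` seen at time `t`, and the states of the roots at time `t` in the
real world `Z` are `y`. -/
def TapIn (Φ : Space3 → ℝ) (ε t : ℝ) {ρ ι : Type} (e : ρ → ι) (V : ι → PhasePoint)
    (y : ρ → PhasePoint) : Prop :=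
  ∃ (κ : Type) (_ : Fintype κ) (Z : κ → PhasePoint) (a : ι → κ), Function.Injective a ∧
    Z ∈ Dom Φ κ ∧ (∀ i, Z (a i) = V i) ∧
    (Act Φ ε Z t (fun r => a (e r)) 0 = range a) ∧
    ∀ r, flow Φ ε t Z (a (e r)) = y r

/-- **D4** (tapered crude bound).  Energy weight `e^{-γ H(V)}` on the cluster, all environments at
once (supremum inside), any number of distinct roots; on the right the weight `e^{-(γ/2) H(y)}` of the
root states (invariant under their isolated flow, and `≤ C ∏ gw (γ/4) (y r)`). -/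
def D4Statement (Φ : Space3 → ℝ) : Prop :=
  ∀ γ : ℝ, 0 < γ → ∀ (T : ℝ) (k : ℕ), ∃ C : ℝ≥0∞, C ≠ ∞ ∧
    ∀ ε : ℝ, 0 < ε → ε ≤ 1 → ∀ (ρ ι : Type) [Fintype ρ] [Fintype ι], Fintype.card ι = k →
    ∀ e : ρ → ι, Function.Injective e → ∀ t : ℝ, 0 ≤ t → t ≤ T →
    ∀ F : (ρ → PhasePoint) → ℝ≥0∞, Measurable F →
      ∫⁻ V : ι → PhasePoint, ENNReal.ofReal (Real.exp (-(γ * energy Φ ε V))) *
          ⨆ (y : ρ → PhasePoint) (_ : TapIn Φ ε t e V y), F y ≤
        C * ENNReal.ofReal ε ^ (2 * (Fintype.card ι - Fintype.card ρ)) *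
          ∫⁻ y : ρ → PhasePoint, ENNReal.ofReal (Real.exp (-(γ / 2 * energy Φ ε y))) * F y

end Crest.Agent.R122.Vol365

end
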