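import Crest.Agent.R122.VolTaper_365
import Crest.Agent.R122.VolTaperDefs_365

/-!
Row 122, helper365: real histories (multi-root) of the Newton flow are tapered histories.
-/

set_option autoImplicit false

open MeasureTheory Set
open Crest.AnalysisR.Kinetic
open Crest.Agent.R122.Flow671 Crest.Agent.R122.Loc45
open Crest.Agent.R122.Causal291 (Past Ct pth BC isClosed_past isClosed_ct_pth continuous_pth
  exists_isolated)
open scoped ENNReal Classical Topology

noncomputable section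

namespace Crest.Agent.R122.Vol365

/-! ### Union of pasts -/

section past

variable {κ ρ : Type} {C : ℝ → κ → κ → Prop} {t : ℝ} {R : ρ → κ}

/-- Union of the pasts of the roots. -/
def MAct (C : ℝ → κ → κ → Prop) (t : ℝ) (R : ρ → κ) (s : ℝ) : Set κ := {k | ∃ r, Past C t (R r) s k}

theorem mact_mono {s s' : ℝ} (h : s ≤ s') : MAct C t R s' ⊆ MAct C t R s :=
  fun _ ⟨r, hr⟩ => ⟨r, hr.mono h⟩

theorem mact_root {s : ℝ} (h : s ≤ t) (r : ρ) : R r ∈ MAct C t R s := ⟨r, .root h⟩

theorem mact_contact {s : ℝ} {j k : κ} (hj : j ∈ MAct C t R s) (hc : C s j k) :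
    k ∈ MAct C t R s := by
  obtain ⟨r, hr⟩ := hj
  exact ⟨r, hr.contact hc⟩

theorem mact_le {s : ℝ} {k : κ} (h : k ∈ MAct C t R s) : s ≤ t := by
  obtain ⟨r, hr⟩ := h
  exact hr.le

theorem mact_exit {σ : ℝ} (hσ : σ ≤ t) {s : ℝ} {k : κ} (h : k ∈ MAct C t R s) (hs : s < σ)
    (hk : k ∉ MAct C t R σ) :
    ∃ s' j k', s ≤ s' ∧ s' < σ ∧ j ∈ MAct C t R σ ∧ k' ∉ MAct C t R σ ∧ C s' j k' ∧
      k' ∈ MAct C t R s' := by
  obtain ⟨r, h⟩ := h
  induction h with
  | @root s h => exact absurd (mact_root hσ r) hk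
  | @step s s' j k h hc hss' ih =>
    have hk' : s' < σ := by
      by_contra hle
      push Not at hle
      exact hk ⟨r, (Past.contact h hc).mono hle⟩
    by_cases hj : j ∈ MAct C t R σ
    · exact ⟨s', j, k, hss', hk', hj, hk, hc, ⟨r, Past.contact h hc⟩⟩
    · obtain ⟨s'', j', k', h1, h2, h3, h4, h5, h6⟩ := ih hk' hj
      exact ⟨s'', j', k', hss'.trans h1, h2, h3, h4, h5, h6⟩

theorem mact_chain {σ : ℝ} {s₀ : ℝ} {N : κ → κ → Prop}
    (hN : ∀ s' ∈ Icc s₀ σ, ∀ j k, j ∈ MAct C t R s₀ → k ∈ MAct C t R s₀ → C s' j k → N j k)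
    {s : ℝ} {k : κ} (h : k ∈ MAct C t R s) (hs₀ : s₀ ≤ s) (hs : s ≤ σ) (hσ : σ ≤ t) :
    ∃ a ∈ MAct C t R σ, Relation.ReflTransGen N a k := by
  obtain ⟨r, h⟩ := h
  induction h with
  | @root s h => exact ⟨R r, mact_root hσ r, .refl⟩
  | @step s s' j k h hc hss' ih =>
    rcases le_or_gt s' σ with h1 | h1
    · obtain ⟨a, ha, hja⟩ := ih (hs₀.trans hss') h1
      exact ⟨a, ha, hja.tail (hN s' ⟨hs₀.trans hss', h1⟩ j k
        ⟨r, h.mono (hs₀.trans hss')⟩ ⟨r, (Past.contact h hc).mono (hs₀.trans hss')⟩ hc)⟩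
    · exact ⟨k, ⟨r, (Past.contact h hc).mono h1.le⟩, .refl⟩

theorem mact_final {N : κ → κ → Prop}
    (hN : ∀ j k, j ∈ MAct C t R t → k ∈ MAct C t R t → C t j k → N j k)
    {k : κ} (h : k ∈ MAct C t R t) : ∃ r, Relation.ReflTransGen N (R r) k := by
  obtain ⟨r, h⟩ := h
  refine ⟨r, ?_⟩
  have key : ∀ (s : ℝ) (k : κ), Past C t (R r) s k → t ≤ s → Relation.ReflTransGen N (R r) k := by
    intro s k h
    induction h with
    | @root s h => intro _; exact .refl
    | @step s s' j k h hc hss' ih =>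
      intro hts
      have h1 : s' = t := le_antisymm h.le (hts.trans hss')
      subst h1
      exact (ih le_rfl).tail (hN j k ⟨r, h⟩ ⟨r, Past.contact h hc⟩ hc)
  exact key t k h le_rfl

/-- The family of active sets is closed in time. -/
theorem isClosed_mact [Finite κ] [Finite ρ] (hC : ∀ j k, IsClosed {s | C s j k}) (G : Set κ) :
    IsClosed {s | G ⊆ MAct C t R s} := by
  have : {s | G ⊆ MAct C t R s} = ⋂ k ∈ G, ⋃ r, {s | Past C t (R r) s k} := by
    ext s
    simp only [mem_ofPred_eq, mem_iInter, mem_iUnion, MAct, Set.subset_def]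
  rw [this]
  exact isClosed_biInter fun k _ => isClosed_iUnion_of_finite fun r => isClosed_past hC k

end past

/-! ### Chains -/

theorem dist_le_of_rtg {ι : Type} [Fintype ι] {x : ι → Space3} {ε : ℝ} (hε : 0 ≤ ε) {i j : ι}
    (h : Relation.ReflTransGen (fun i j => dist (x i) (x j) ≤ ε) i j) :
    dist (x i) (x j) ≤ Fintype.card ι * ε := by
  let G : SimpleGraph ι := SimpleGraph.fromRel (fun i j => dist (x i) (x j) ≤ ε)
  have hadj : ∀ a b, G.Adj a b → dist (x a) (x b) ≤ ε := by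
    intro a b hab
    rw [SimpleGraph.fromRel_adj] at hab
    rcases hab.2 with h | h
    · exact h
    · rw [dist_comm]; exact h
  have hreach : ∀ a b, Relation.ReflTransGen (fun i j => dist (x i) (x j) ≤ ε) a b → G.Reachable a b := by
    intro a b hab
    induction hab with
    | refl => exact SimpleGraph.Reachable.refl _
    | @tail c d h1 h2 ih =>
      by_cases hcd : c = d
      · rw [← hcd]; exact ih
      · exact ih.trans (SimpleGraph.Adj.reachable ((SimpleGraph.fromRel_adj _ _ _).2 ⟨hcd, Or.inl h2⟩))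
  have hwalk : ∀ a b (w : G.Walk a b), dist (x a) (x b) ≤ w.length * ε := by
    intro a b w
    induction w with
    | nil => simp
    | @cons a b c hab w ih =>
      calc dist (x a) (x c) ≤ dist (x a) (x b) + dist (x b) (x c) := dist_triangle _ _ _
        _ ≤ ε + w.length * ε := add_le_add (hadj _ _ hab) ih
        _ = _ := by rw [SimpleGraph.Walk.length_cons]; push_cast; ring
  obtain ⟨w, hw⟩ := (hreach i j h).exists_isPath
  calc dist (x i) (x j) ≤ w.length * ε := hwalk i j w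
    _ ≤ Fintype.card ι * ε := by
      refine mul_le_mul_of_nonneg_right ?_ hε
      exact_mod_cast hw.length_lt.le

/-- Pull back a chain inside the range of an injection. -/
theorem rtg_pull {ι κ : Type} {a : ι → κ} {S : Set κ} (hS : range a = S) {P : κ → κ → Prop} {b c : κ}
    (hb : b ∈ S) (h : Relation.ReflTransGen (fun j k => j ∈ S ∧ k ∈ S ∧ P j k) b c) :
    ∃ i j, a i = b ∧ a j = c ∧ Relation.ReflTransGen (fun i j => P (a i) (a j)) i j := by
  subst hS
  obtain ⟨i, rfl⟩ := hb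
  have key : ∃ j, a j = c ∧ Relation.ReflTransGen (fun i j => P (a i) (a j)) i j := by
    induction h with
    | refl => exact ⟨i, rfl, .refl⟩
    | @tail c d h1 h2 ih =>
      obtain ⟨j, rfl, hj⟩ := ih
      obtain ⟨-, ⟨k, rfl⟩, hP⟩ := h2
      exact ⟨k, rfl, hj.tail hP⟩
  obtain ⟨j, hj, hr⟩ := key
  exact ⟨i, j, rfl, hj, hr⟩

/-! ### Uniform isolation -/

theorem exists_uniform_isolation {Φ : Space3 → ℝ} (hΦ : AdmissiblePotential Φ) {ε : ℝ} (hε : 0 < ε)
    {κ ρ : Type} [Fintype κ] [Finite ρ] (Z : κ → PhasePoint) {t : ℝ} (R : ρ → κ) :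
    ∃ η > 0, ∀ s ∈ Icc 0 t, ∀ u ∈ Icc s (s + η), ∀ j ∈ MAct (Ct (pth Φ ε Z) ε) t R s,
      ∀ k ∉ MAct (Ct (pth Φ ε Z) ε) t R s, ε < dist (flow Φ ε u Z j).1 (flow Φ ε u Z k).1 := by
  set A : ℝ → Set κ := MAct (Ct (pth Φ ε Z) ε) t R with hA
  have hfar : ∀ s, ∀ j ∈ A s, ∀ k ∉ A s, ε < dist (flow Φ ε s Z j).1 (flow Φ ε s Z k).1 := by
    intro s j hj k hk
    by_contra h
    exact hk (mact_contact hj (not_lt.1 h))
  have hG : ∀ G : Set κ, ∃ η > 0, ∀ s ∈ Icc 0 t, A s = G → ∀ u ∈ Icc s (s + η), ∀ j ∈ G, ∀ k ∉ G,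
      ε < dist (flow Φ ε u Z j).1 (flow Φ ε u Z k).1 := by
    intro G
    by_cases hex : ∃ s ∈ Icc 0 t, A s = G
    swap
    · exact ⟨1, one_pos, fun s hs h => absurd ⟨s, hs, h⟩ hex⟩
    obtain ⟨s₀, hs₀, hs₀'⟩ := hex
    set T : Set ℝ := Icc 0 t ∩ {s | G ⊆ A s} with hT
    have hTc : IsClosed T := isClosed_Icc.inter (isClosed_mact (fun j k => isClosed_ct_pth hΦ hε Z j k) G)
    have hTb : BddAbove T := ⟨t, fun s hs => hs.1.2⟩
    have hTn : T.Nonempty := ⟨s₀, hs₀, hs₀'.symm.subset⟩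
    obtain ⟨hτ1, hτ2⟩ := hTc.csSup_mem hTn hTb
    set τ := sSup T with hτ
    have hle : ∀ s ∈ Icc 0 t, A s = G → s ≤ τ := fun s hs h => le_csSup hTb ⟨hs, h.symm.subset⟩
    have hAτ : A τ = G := Subset.antisymm ((mact_mono (hle s₀ hs₀ hs₀')).trans hs₀'.subset) hτ2
    have hcont : ∀ j, ContinuousOn (fun s => pth Φ ε Z s j) (Icc 0 (τ + 1)) := fun j =>
      (continuous_pth hΦ hε Z j).continuousOn
    obtain ⟨η, hη, -, h⟩ := exists_isolated (ε := ε) hcont (s := τ) ⟨hτ1.1, by linarith⟩ G Gᶜ (by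
      intro k hk j hj
      have := hfar τ k (hAτ.symm ▸ hk) j (hAτ.symm ▸ hj)
      exact this)
    refine ⟨η, hη, fun s hs hsG u hu j hj k hk => ?_⟩
    rcases le_or_gt u τ with h1 | h1
    · have h2 : A u = G := Subset.antisymm ((mact_mono hu.1).trans hsG.subset)
        (hAτ.symm.subset.trans (mact_mono h1))
      exact hfar u j (h2.symm ▸ hj) k (h2.symm ▸ hk)
    · exact h u ⟨h1.le, hu.2.trans (by linarith [hle s hs hsG])⟩ j hj k hk
  choose η hη hηG using hG
  obtain ⟨m, hm, hm'⟩ : ∃ m > 0, ∀ G, m ≤ η G := by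
    by_cases hne : Nonempty (Set κ)
    · obtain ⟨G₀, hG₀⟩ := Finite.exists_min η
      exact ⟨η G₀, hη G₀, hG₀⟩
    · exact absurd ⟨∅⟩ hne
  refine ⟨m, hm, fun s hs u hu j hj k hk => ?_⟩
  exact hηG (A s) s hs rfl u ⟨hu.1, hu.2.trans (by linarith [hm' (A s)])⟩ j hj k hk

/-! ### Real histories are tapered -/

section main

variable {Φ : Space3 → ℝ} {ε : ℝ}

theorem newton_flow (hΦ : AdmissiblePotential Φ) (hε : 0 < ε) (ι : Type) [Fintype ι] (t : ℝ)
    (z : ι → PhasePoint) : (newton hΦ hε).flow ι t z = flow Φ ε t z := by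
  show nflow Φ ε ι t z = _
  rw [nflow_eq]

theorem newton_energy (hΦ : AdmissiblePotential Φ) (hε : 0 < ε) (ι : Type) [Fintype ι]
    (z : ι → PhasePoint) : (newton hΦ hε).energy ι z = energy Φ ε z := by
  show nenergy Φ ε ι z = _
  rw [nenergy_eq]

theorem phi_ge (hΦ : AdmissiblePotential Φ) (hε : 0 < ε) {ι : Type} [Fintype ι]
    {Z : ι → PhasePoint} (hZ : Z ∈ Dom Φ ι) {i j : ι} (hij : i ≠ j) :
    -(2 * stabB Φ) ≤ Φ ((1 / ε) • ((Z i).1 - (Z j).1)) := by
  let e : Bool ↪ ι := ⟨fun b => if b then i else j, by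
    intro a b h
    cases a <;> cases b <;> simp_all [hij.symm]⟩
  have h1 := neg_le_pot hΦ hε (Dom_comp e hZ)
  unfold pot at h1
  simp only [Fintype.sum_bool, Fintype.card_bool, Function.Embedding.coeFn_mk, e, if_true,
    Bool.false_eq_true, if_false, sub_self, smul_zero] at h1
  have h2 : Φ ((1 / ε) • ((Z j).1 - (Z i).1)) = Φ ((1 / ε) • ((Z i).1 - (Z j).1)) := by
    apply hΦ.radial
    rw [← neg_sub (Z i).1 (Z j).1, smul_neg, norm_neg]
  rw [h2] at h1
  push_cast at h1
  linarith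

theorem energy_comp_le (hΦ : AdmissiblePotential Φ) (hε : 0 < ε) {ρ ι : Type} [Fintype ρ]
    [Fintype ι] (e : ρ ↪ ι) {Z : ι → PhasePoint} (hZ : Z ∈ Dom Φ ι) :
    energy Φ ε (fun r => Z (e r)) ≤ energy Φ ε Z + stabB Φ * Fintype.card ι * Fintype.card ι := by
  have hB := stabB_nonneg Φ
  rw [energy_eq_kin_add_pot, energy_eq_kin_add_pot]
  have h1 := kin_comp_le e Z
  have h2 : pot Φ ε (fun r => Z (e r)) ≤ pot Φ ε Z + stabB Φ * Fintype.card ι * Fintype.card ι := by
    rw [pot_eq_offDiag, pot_eq_offDiag]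
    have e1 : ∑ p ∈ (Finset.univ : Finset ρ).offDiag, Φ (rel ε (fun r => Z (e r)) p.1 p.2) =
        ∑ p ∈ ((Finset.univ : Finset ρ).offDiag).map (e.prodMap e), Φ (rel ε Z p.1 p.2) := by
      rw [Finset.sum_map]; rfl
    have hsub : ((Finset.univ : Finset ρ).offDiag).map (e.prodMap e) ⊆
        (Finset.univ : Finset ι).offDiag := by
      intro p hp
      rw [Finset.mem_map] at hp
      obtain ⟨q, hq, rfl⟩ := hp
      rw [Finset.mem_offDiag] at hq ⊢
      exact ⟨Finset.mem_univ _, Finset.mem_univ _, fun h => hq.2.2 (e.injective h)⟩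
    rw [e1]
    have h3 : ∑ p ∈ ((Finset.univ : Finset ρ).offDiag).map (e.prodMap e),
          (Φ (rel ε Z p.1 p.2) + 2 * stabB Φ) ≤
        ∑ p ∈ (Finset.univ : Finset ι).offDiag, (Φ (rel ε Z p.1 p.2) + 2 * stabB Φ) := by
      refine Finset.sum_le_sum_of_subset_of_nonneg hsub fun p hp _ => ?_
      rw [Finset.mem_offDiag] at hp
      have := phi_ge hΦ hε hZ hp.2.2
      have h4 : rel ε Z p.1 p.2 = (1 / ε) • ((Z p.1).1 - (Z p.2).1) := rfl
      rw [h4]; linarith
    rw [Finset.sum_add_distrib, Finset.sum_add_distrib, Finset.sum_const, Finset.sum_const] at h3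
    have h5 : ((Finset.univ : Finset ι).offDiag.card : ℝ) ≤ Fintype.card ι * Fintype.card ι := by
      rw [Finset.offDiag_card]
      have : (Finset.univ : Finset ι).card * (Finset.univ : Finset ι).card -
        (Finset.univ : Finset ι).card ≤ Fintype.card ι * Fintype.card ι := by
          rw [Finset.card_univ]; omega
      exact_mod_cast this
    rw [nsmul_eq_mul, nsmul_eq_mul] at h3
    have h6 : 0 ≤ ((((Finset.univ : Finset ρ).offDiag).map (e.prodMap e)).card : ℝ) * (2 * stabB Φ) := by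
      positivity
    have h7 : ((Finset.univ : Finset ι).offDiag.card : ℝ) * (2 * stabB Φ) ≤
        Fintype.card ι * Fintype.card ι * (2 * stabB Φ) :=
      mul_le_mul_of_nonneg_right h5 (by positivity)
    linarith
  linarith
theorem tap_of_group (hΦ : AdmissiblePotential Φ) (hε : 0 < ε) {κ ρ : Type} [Fintype κ]
    {Z : κ → PhasePoint} (hZ : Z ∈ Dom Φ κ) {t : ℝ} {R : ρ → κ} {δ η : ℝ} (hδ : 0 ≤ δ)
    (hδη : δ ≤ η)
    (hiso : ∀ s ∈ Icc 0 t, ∀ u ∈ Icc s (s + η), ∀ j ∈ MAct (Ct (pth Φ ε Z) ε) t R s,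
      ∀ k ∉ MAct (Ct (pth Φ ε Z) ε) t R s, ε < dist (flow Φ ε u Z j).1 (flow Φ ε u Z k).1)
    {K : ℕ} {E V L : ℝ} (hV : 0 ≤ V) (hVE : 2 * (E + stabB Φ * K * K + stabB Φ * K) ≤ V ^ 2)
    (hL : 2 * K ≤ L) (hδV : 2 * V * δ ≤ ε) {Y : Set (ρ → PhasePoint)}
    [Fintype ρ] (hR : Function.Injective R)
    (hY : (fun r => flow Φ ε t Z (R r)) ∈ Y) (n : ℕ) :
    ∀ s : ℝ, 0 ≤ s → s + n * δ = t → ∀ (ι : Type) [Fintype ι] (a : ι → κ) (e : ρ → ι),
      Function.Injective a → range a = MAct (Ct (pth Φ ε Z) ε) t R s → (∀ r, a (e r) = R r) →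
      Fintype.card ι ≤ K →
      energy Φ ε (fun i => flow Φ ε s Z (a i)) + stabB Φ * K * Fintype.card ι ≤
        E + stabB Φ * K * K →
      Tap (newton hΦ hε) Y V L δ n ι e (fun i => flow Φ ε s Z (a i)) ∧
        energy Φ ε (fun r => flow Φ ε t Z (R r)) ≤ E + 2 * (stabB Φ * K * K) := by
  have hB := stabB_nonneg Φ
  set C := Ct (pth Φ ε Z) ε with hC
  have hCt : ∀ s j k, C s j k ↔ dist (flow Φ ε s Z j).1 (flow Φ ε s Z k).1 ≤ ε := fun s j k => Iff.rfl
  have hfar : ∀ s, ∀ j ∈ MAct C t R s, ∀ k ∉ MAct C t R s,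
      ε < dist (flow Φ ε s Z j).1 (flow Φ ε s Z k).1 := by
    intro s j hj k hk
    by_contra h
    exact hk (mact_contact hj ((hCt _ _ _).2 (not_lt.1 h)))
  have hvel : ∀ (ι : Type) [Fintype ι] (a : ι → κ) (s : ℝ), Function.Injective a →
      Fintype.card ι ≤ K →
      energy Φ ε (fun i => flow Φ ε s Z (a i)) + stabB Φ * K * Fintype.card ι ≤
        E + stabB Φ * K * K →
      2 * (energy Φ ε (fun i => flow Φ ε s Z (a i)) + stabB Φ * Fintype.card ι) ≤ V ^ 2 := by
    intro ι _ a s ha hK hE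
    have hK' : (Fintype.card ι : ℝ) ≤ K := by exact_mod_cast hK
    have h1 : 0 ≤ stabB Φ * K * Fintype.card ι := by positivity
    have h2 : stabB Φ * Fintype.card ι ≤ stabB Φ * K := mul_le_mul_of_nonneg_left hK' hB
    linarith
  induction n with
  | zero =>
    intro s hs hst ι _ a e ha hra hae hK hE
    have hst' : s = t := by simpa using hst
    subst hst'
    have hzd : (fun i => flow Φ ε s Z (a i)) ∈ Dom Φ ι :=
      Dom_comp ⟨a, ha⟩ (flow_mem hΦ hε hZ s)
    refine ⟨⟨?_, ?_, ?_⟩, ?_⟩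
    · simpa only [hae] using hY
    · intro k
      have hk : a k ∈ MAct C s R s := hra ▸ mem_range_self k
      obtain ⟨r, hr⟩ := mact_final (N := fun j k => j ∈ MAct C s R s ∧ k ∈ MAct C s R s ∧ C s j k)
        (fun j k hj hk hc => ⟨hj, hk, hc⟩) hk
      obtain ⟨i, j, hi, hj, hij⟩ := rtg_pull hra (mact_root le_rfl r) hr
      refine ⟨r, ?_⟩
      have h1 : i = e r := ha (by rw [hi, hae])
      have h2 : j = k := ha hj
      subst h1 h2
      have h3 := dist_le_of_rtg (x := fun i => (flow Φ ε s Z (a i)).1) hε.le hij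
      rw [dist_comm] at h3
      refine h3.trans ?_
      have hK' : (Fintype.card ι : ℝ) ≤ K := by exact_mod_cast hK
      have hK0 : (0 : ℝ) ≤ K := by positivity
      exact mul_le_mul_of_nonneg_right (by linarith) hε.le
    · intro k
      have h1 := (newton hΦ hε).vel_le ι _ hzd k
      rw [newton_energy] at h1
      have h2 := hvel ι a s ha hK hE
      exact abs_le_of_sq_le_sq' (h1.trans h2) hV |>.2
    · have he : Function.Injective e := fun r r' h => hR (by rw [← hae, ← hae, h])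
      have h1 := energy_comp_le hΦ hε ⟨e, he⟩ hzd
      simp only [Function.Embedding.coeFn_mk, hae] at h1
      have hK' : (Fintype.card ι : ℝ) ≤ K := by exact_mod_cast hK
      have h2 : stabB Φ * Fintype.card ι * Fintype.card ι ≤ stabB Φ * K * K := by gcongr
      have h3 : 0 ≤ stabB Φ * K * Fintype.card ι := by positivity
      linarith
  | succ n ih =>
    intro s hs hst ι _ a e ha hra hae hK hE
    set σ := s + δ with hσ
    have hst' : σ + n * δ = t := by rw [← hst, hσ]; push_cast; ring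
    have hσt : σ ≤ t := by
      have : 0 ≤ (n : ℝ) * δ := by positivity
      linarith
    have hs_t : s ≤ t := by linarith
    have hsσ : s ≤ σ := by linarith
    set z : ι → PhasePoint := fun i => flow Φ ε s Z (a i) with hz
    have hzd : z ∈ Dom Φ ι := Dom_comp ⟨a, ha⟩ (flow_mem hΦ hε hZ s)
    -- isolated evolution
    have hloc : ∀ u ∈ Icc s σ, (fun i => flow Φ ε u Z (a i)) = flow Φ ε (u - s) z := by
      intro u hu
      refine flow_comp hΦ hε ⟨a, ha⟩ hZ (a := s) (b := σ) ⟨le_rfl, hsσ⟩ ?_ hu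
      intro u' hu' i j hj
      refine (hiso s ⟨hs, hs_t⟩ u' ⟨hu'.1, hu'.2.trans (by linarith)⟩ (a i) (hra ▸ mem_range_self i)
        j ?_).le
      rw [← hra]; exact hj
    have hflow : (newton hΦ hε).flow ι δ z = fun i => flow Φ ε σ Z (a i) := by
      rw [newton_flow, hloc σ ⟨hsσ, le_rfl⟩, hσ, add_sub_cancel_left]
    set z' : ι → PhasePoint := fun i => flow Φ ε σ Z (a i) with hz'
    have hz'd : z' ∈ Dom Φ ι := Dom_comp ⟨a, ha⟩ (flow_mem hΦ hε hZ σ)
    have hEz : energy Φ ε z' = energy Φ ε z := by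
      rw [← hflow, newton_flow, energy_flow hΦ hε]
    have hlip : ∀ u ∈ Icc s σ, ∀ i, dist (flow Φ ε u Z (a i)).1 (flow Φ ε σ Z (a i)).1 ≤
        V * (σ - u) := by
      intro u hu i
      have h1 := congrFun (hloc u hu) i
      have h2 := congrFun (hloc σ ⟨hsσ, le_rfl⟩) i
      rw [show flow Φ ε u Z (a i) = _ from h1, show flow Φ ε σ Z (a i) = _ from h2]
      have h3 := (newton hΦ hε).lip ι z hzd i (u - s) (σ - s) V hV (by
        rw [newton_energy]; exact hvel ι a s ha hK hE)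
      simp only [newton_flow] at h3
      refine h3.trans (le_of_eq ?_)
      rw [show u - s - (σ - s) = -(σ - u) by ring, abs_neg, abs_of_nonneg (by linarith [hu.2])]
    -- closeness at `σ`
    have hclose : ∀ u ∈ Icc s σ, ∀ j k, j ∈ MAct C t R s → k ∈ MAct C t R s → C u j k →
        dist (flow Φ ε σ Z j).1 (flow Φ ε σ Z k).1 ≤ ε + 2 * V * δ := by
      intro u hu j k hj hk hc
      rw [← hra] at hj hk
      obtain ⟨i, rfl⟩ := hj
      obtain ⟨i', rfl⟩ := hk
      have h1 := hlip u hu i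
      have h2 := hlip u hu i'
      have h3 : V * (σ - u) ≤ V * δ := mul_le_mul_of_nonneg_left (by linarith [hu.1]) hV
      calc dist (flow Φ ε σ Z (a i)).1 (flow Φ ε σ Z (a i')).1
          ≤ dist (flow Φ ε σ Z (a i)).1 (flow Φ ε u Z (a i)).1 +
            dist (flow Φ ε u Z (a i)).1 (flow Φ ε u Z (a i')).1 +
            dist (flow Φ ε u Z (a i')).1 (flow Φ ε σ Z (a i')).1 := dist_triangle4 _ _ _ _
        _ ≤ V * δ + ε + V * δ := by
            rw [dist_comm] at h1
            exact add_le_add (add_le_add (h1.trans h3) hc) (h2.trans h3)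
        _ = _ := by ring
    unfold Tap
    rw [hflow]
    by_cases hAA : MAct C t R s ⊆ MAct C t R σ
    · have h := ih σ (hs.trans hsσ) hst' ι a e ha ?_ hae hK ?_
      · exact ⟨Or.inl h.1, h.2⟩
      · rw [hra]; exact Subset.antisymm hAA (mact_mono hsσ)
      · show energy Φ ε z' + _ ≤ _
        rw [hEz]; exact hE
    · obtain ⟨q, hq, hq'⟩ := not_subset.1 hAA
      have hlt : s < σ := by
        rcases hsσ.lt_or_eq with h | h
        · exact h
        · exact absurd (h ▸ hq) hq'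
      have key : ∀ (p : ι → Prop), (∀ i, p i ↔ a i ∈ MAct C t R σ) → ∀ h : ∀ r, p (e r),
            Tap (newton hΦ hε) Y V L δ n {i // p i} (fun r => ⟨e r, h r⟩) (res p z') ∧
              energy Φ ε (fun r => flow Φ ε t Z (R r)) ≤ E + 2 * (stabB Φ * K * K) := by
        intro p hp h
        refine ih σ (hs.trans hsσ) hst' {i // p i} (fun i => a i.1) (fun r => ⟨e r, h r⟩) ?_ ?_
          hae ((Fintype.card_subtype_le _).trans hK) ?_
        · intro i j hij; exact Subtype.ext (ha hij)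
        · ext k
          constructor
          · rintro ⟨i, rfl⟩; exact (hp _).1 i.2
          · intro hk
            have hk' : k ∈ range a := by rw [hra]; exact mact_mono hsσ hk
            obtain ⟨i, rfl⟩ := hk'
            exact ⟨⟨i, (hp _).2 hk⟩, rfl⟩
        · have h1 := energy_sub_le hΦ hε p hz'd (fun i j hi hj =>
            hfar σ (a i) ((hp _).1 hi) (a j) (fun hc => hj ((hp _).2 hc)))
          have hqr : q ∈ range a := by rw [hra]; exact hq
          obtain ⟨iq, rfl⟩ := hqr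
          have h2 : Fintype.card {i // p i} < Fintype.card ι :=
            Fintype.card_subtype_lt (x := iq) (fun hc => hq' ((hp _).1 hc))
          have h3 : (Fintype.card {i // p i} : ℝ) + 1 ≤ Fintype.card ι := by exact_mod_cast h2
          have hK' : (Fintype.card ι : ℝ) ≤ K := by exact_mod_cast hK
          have h4 : stabB Φ * Fintype.card ι ≤ stabB Φ * K := mul_le_mul_of_nonneg_left hK' hB
          have h5 : stabB Φ * K * ((Fintype.card {i // p i} : ℝ) + 1) ≤
              stabB Φ * K * Fintype.card ι := mul_le_mul_of_nonneg_left h3 (by positivity)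
          rw [hEz] at h1
          have h6 : energy Φ ε (fun i : {i // p i} => flow Φ ε σ Z (a i.1)) ≤
              energy Φ ε z + stabB Φ * Fintype.card ι := h1
          linarith
      have hroot : ∀ r, (fun i => a i ∈ MAct C t R σ) (e r) := by
        intro r
        show a (e r) ∈ _
        rw [hae]; exact mact_root hσt r
      refine ⟨Or.inr ⟨fun i => a i ∈ MAct C t R σ, hroot, ⟨?_, ?_, ?_⟩,
        (key _ (fun i => Iff.rfl) hroot).1⟩, (key _ (fun i => Iff.rfl) hroot).2⟩
      · obtain ⟨s', j, k', h1, h2, h3, h4, h5, h6⟩ := mact_exit hσt hq hlt hq'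
        have hj : j ∈ MAct C t R s := mact_mono hsσ h3
        have hk : k' ∈ MAct C t R s := mact_mono h1 h6
        have hj' := hj
        have hk' := hk
        rw [← hra] at hj hk
        obtain ⟨i, rfl⟩ := hj
        obtain ⟨i', rfl⟩ := hk
        refine ⟨i', i, h4, h3, ?_, ?_⟩
        · have := hfar σ (a i) h3 (a i') h4
          rwa [dist_comm] at this
        · have := hclose s' ⟨h1, h2.le⟩ (a i) (a i') hj' hk' h5
          rwa [dist_comm] at this
      · intro i hi
        have hai : a i ∈ MAct C t R s := hra ▸ mem_range_self i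
        obtain ⟨b, hb, hchain⟩ := mact_chain (C := C) (t := t) (R := R) (σ := σ) (s₀ := s)
          (N := fun j k => j ∈ MAct C t R s ∧ k ∈ MAct C t R s ∧
            dist (flow Φ ε σ Z j).1 (flow Φ ε σ Z k).1 ≤ ε + 2 * V * δ)
          (fun s' hs' j k hj hk hc => ⟨hj, hk, hclose s' hs' j k hj hk hc⟩) hai le_rfl hsσ hσt
        obtain ⟨i₁, i₂, hi₁, hi₂, hr⟩ := rtg_pull hra (mact_mono hsσ hb) hchain
        have h2 : i₂ = i := ha hi₂
        subst h2
        refine ⟨i₁, by show a i₁ ∈ _; rw [hi₁]; exact hb, ?_⟩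
        have h3 := dist_le_of_rtg (x := fun i => (flow Φ ε σ Z (a i)).1)
          (ε := ε + 2 * V * δ) (by positivity) hr
        rw [dist_comm] at h3
        refine h3.trans ?_
        have hK' : (Fintype.card ι : ℝ) ≤ K := by exact_mod_cast hK
        have hK0 : (0 : ℝ) ≤ K := by positivity
        calc (Fintype.card ι : ℝ) * (ε + 2 * V * δ) ≤ K * (ε + ε) := by
              refine mul_le_mul hK' (by linarith) (by positivity) hK0
          _ = 2 * K * ε := by ring
          _ ≤ L * ε := mul_le_mul_of_nonneg_right hL hε.le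
      · intro i _
        have h1 := (newton hΦ hε).vel_le ι _ hz'd i
        rw [newton_energy] at h1
        have h2 : 2 * (energy Φ ε z' + stabB Φ * Fintype.card ι) ≤ V ^ 2 := by
          rw [hEz]; exact hvel ι a s ha hK hE
        exact abs_le_of_sq_le_sq' (h1.trans h2) hV |>.2

end main

end Crest.Agent.R122.Vol365

end
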