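import Crest.Agent.R122.BadPos_416
import Crest.Agent.R122.HitAbs_416
import Crest.Agent.R122.VolTaperDyn_365

/-!
# Row 122 (helper416): the real root position of a bad cluster moves with bounded speed
-/

set_option autoImplicit false
set_option linter.unusedSectionVars false

open MeasureTheory Set Filter Topology
open Crest.AnalysisR.Kinetic
open Crest.Agent.R122.Loc45 Crest.Agent.R122.Vol365 Crest.Agent.R122.GC311
open Crest.Agent.R122.Flow671 Crest.Agent.R122.NG416 Crest.Agent.R122.HitAbs416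
open Crest.Agent.R122.BadPos416 Crest.Agent.R122.Chain726
open scoped ENNReal NNReal Classical

noncomputable section

namespace Crest.Agent.R122.BadMove416

variable {Φ : Space3 → ℝ} {ε T te : ℝ}

theorem step_energy (hΦ : AdmissiblePotential Φ) (hε : 0 < ε) {ι : Type} {s : ℝ}
    {A A' : Finset ι} {W : A → PhasePoint} {W' : A' → PhasePoint} (h : Step Φ ε s W W') :
    energy Φ ε W' ≤ energy Φ ε W + stabB Φ * A.card * A.card := by
  have e1 : energy Φ ε W' = energy Φ ε (rs h.sub (flow Φ ε s W)) := by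
    have := congrArg (energy Φ ε) h.state
    rw [this, energy_flow hΦ hε]
  have h1 := energy_comp_le hΦ hε (emb h.sub) (flow_mem hΦ hε h.dom s)
  rw [energy_flow hΦ hε, Fintype.card_coe] at h1
  rw [e1]
  exact h1

theorem chain_energy (hΦ : AdmissiblePotential Φ) (hε : 0 < ε) {ι : Type} (n : ℕ)
    {A A' : Finset ι} {W : A → PhasePoint} {W' : A' → PhasePoint} (h : Chain Φ ε T A W A' W')
    (hA : A.card ≤ n) :
    energy Φ ε W' + stabB Φ * n * n * A'.card ≤ energy Φ ε W + stabB Φ * n * n * A.card := by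
  have hB := stabB_nonneg Φ
  induction h with
  | refl _ _ => exact le_rfl
  | @step A A₁ A₂ W W₁ W₂ s hs h hc ih =>
    have h1 := step_energy hΦ hε h
    have h2 := h.card_lt
    have h3 := ih (by omega)
    have h4 : (A₁.card : ℝ) + 1 ≤ A.card := by exact_mod_cast h2
    have h5 : (A.card : ℝ) ≤ n := by exact_mod_cast hA
    have h6 : stabB Φ * A.card * A.card ≤ stabB Φ * n * n := by
      have h0 : (0 : ℝ) ≤ A.card := Nat.cast_nonneg _
      have : (A.card : ℝ) * A.card ≤ n * n := mul_le_mul h5 h5 h0 (h0.trans h5)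
      nlinarith
    have h7 : 0 ≤ stabB Φ * n * n := by positivity
    nlinarith

/-- the constant of the speed bound -/
def DK (Φ : Space3 → ℝ) (k : ℕ) : ℝ := stabB Φ * k * k * k + stabB Φ * k

theorem DK_nonneg (Φ : Space3 → ℝ) (k : ℕ) : 0 ≤ DK Φ k := by
  have hB := stabB_nonneg Φ
  unfold DK
  positivity

theorem DK_mono (Φ : Space3 → ℝ) {k K : ℕ} (h : k ≤ K) : DK Φ k ≤ DK Φ K := by
  have hB := stabB_nonneg Φ
  have h1 : (k : ℝ) ≤ K := by exact_mod_cast h
  have h0 : (0 : ℝ) ≤ k := Nat.cast_nonneg _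
  unfold DK
  gcongr

theorem grp_univ_dom {k : ℕ} (hε : 0 < ε) {V : Config k} (hV : V ∈ PairExcluded ε k) :
    grp Finset.univ V ∈ Dom Φ (Finset.univ : Finset (Fin k)) := by
  have h1 := pairExcluded_subset_Dom (Φ := Φ) hε k hV
  exact Dom_comp (e := Function.Embedding.subtype fun i => i ∈ (Finset.univ : Finset (Fin k))) h1

theorem grp_univ_energy (hΦ : AdmissiblePotential Φ) {k : ℕ} (hε : 0 < ε) {V : Config k}
    (hV : V ∈ PairExcluded ε k) : energy Φ ε (grp Finset.univ V) = kin V := by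
  rw [← energy_pairExcluded hΦ hε hV]
  exact energy_equiv Φ ε (Equiv.subtypeUnivEquiv (fun x : Fin k => Finset.mem_univ x)) V

/-- speed of a member of a group reached by a chain -/
theorem dist_group (hΦ : AdmissiblePotential Φ) (hε : 0 < ε) {k : ℕ} {V : Config k}
    (hV : V ∈ PairExcluded ε k) {A : Finset (Fin k)} {W : A → PhasePoint}
    (h : Chain Φ ε T Finset.univ (grp Finset.univ V) A W) (i : A) (t t' : ℝ) :
    dist (flow Φ ε t W i).1 (flow Φ ε t' W i).1 ≤ vD (DK Φ k) V * |t - t'| := by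
  have hB := stabB_nonneg Φ
  have hdom : W ∈ Dom Φ A := h.dom' hΦ hε (grp_univ_dom hε hV)
  have h1 := dist_pos_flow_le hΦ hε hdom t' t i
  refine h1.trans (mul_le_mul_of_nonneg_right ?_ (abs_nonneg _))
  unfold vD
  refine Real.sqrt_le_sqrt ?_
  have h2 := chain_energy hΦ hε k h (by rw [Finset.card_univ, Fintype.card_fin])
  rw [grp_univ_energy hΦ hε hV, Finset.card_univ, Fintype.card_fin] at h2
  rw [Fintype.card_coe]
  have h3 : A.card ≤ k := by
    have := Finset.card_le_univ A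
    rwa [Fintype.card_fin] at this
  have h4 : (A.card : ℝ) ≤ k := by exact_mod_cast h3
  have h5 : stabB Φ * A.card ≤ stabB Φ * k := mul_le_mul_of_nonneg_left h4 hB
  have h6 : 0 ≤ stabB Φ * k * k * A.card := by positivity
  unfold DK
  linarith

theorem badPos_move (hΦ : AdmissiblePotential Φ) (hε : 0 < ε) {k : ℕ} {V : Config k}
    (hV : V ∈ PairExcluded ε k) {i : Fin k} {t : ℝ} {x : Space3}
    (h : BadPos Φ ε T te V i t x) (t' : ℝ) :
    ∃ x', BadPos Φ ε T te V i t' x' ∧ dist x x' ≤ vD (DK Φ k) V * |t - t'| := by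
  obtain ⟨A', W', hc, h⟩ := h
  rcases h with ⟨s, hs, A₂, W₂, h1, h2, i', hi', rfl⟩ | ⟨h1, h2, i', hi', rfl⟩ |
    ⟨h2, i', hi', rfl⟩
  · exact ⟨(flow Φ ε t' W₂ i').1, ⟨A', W', hc, Or.inl ⟨s, hs, A₂, W₂, h1, h2, i', hi', rfl⟩⟩,
      dist_group hΦ hε hV (hc.trans (Chain.single hs h1)) i' t t'⟩
  · exact ⟨(flow Φ ε t' W' i').1, ⟨A', W', hc, Or.inr (Or.inl ⟨h1, h2, i', hi', rfl⟩)⟩,
      dist_group hΦ hε hV hc i' t t'⟩
  · exact ⟨(flow Φ ε t' W' i').1, ⟨A', W', hc, Or.inr (Or.inr ⟨h2, i', hi', rfl⟩)⟩,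
      dist_group hΦ hε hV hc i' t t'⟩

theorem vD_mono {D D' : ℝ} (h : D ≤ D') {k : ℕ} (V : Config k) : vD D V ≤ vD D' V := by
  unfold vD
  exact Real.sqrt_le_sqrt (by linarith)

end Crest.Agent.R122.BadMove416

end
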