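import Crest.Agent.R122.Cherry6_796

/-!
# Row 122 (helper796), D5 (b): the flux integral of the bad grafts
-/

set_option autoImplicit false
set_option synthInstance.maxSize 1024
set_option linter.unusedSectionVars false
set_option maxHeartbeats 1000000

open MeasureTheory Set Filter Topology
open Crest.AnalysisR.Kinetic
open scoped ENNReal Classical

noncomputable section

namespace Crest.Agent.R122.Cherry796

open Kin796 Kin796.CTree Disc416 Tree674 TreeEps399 TreeDom974 TreeLim974 Flow671 Graft968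

variable {Φ : Space3 → ℝ} {κ : Type*} [Fintype κ]

/-- the functional: energy weight (`Y` at time `0`), localisation of `i0`, bad set -/
def GY (Φ : Space3 → ℝ) (ε T b : ℝ) (m i0 : κ) (Ψ : Space3 → ℝ≥0∞) (s : ℝ) (Y : κ → PhasePoint)
    (z : PhasePoint) : ℝ≥0∞ :=
  (ENNReal.ofReal (Real.exp (-b * (∑ x, ‖(Y x).2‖ ^ 2 + ‖z.2‖ ^ 2))) * Ψ (Y i0).1) *
    (badY Φ ε T m).indicator (1 : ℝ × ((κ → PhasePoint) × PhasePoint) → ℝ≥0∞) (s, (Y, z))

theorem measurable_GY (hΦ : AdmissiblePotential Φ) {ε : ℝ} (hε : 0 < ε) (T b : ℝ) (m i0 : κ)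
    {Ψ : Space3 → ℝ≥0∞} (hΨ : Measurable Ψ) :
    Measurable fun p : ℝ × (κ → PhasePoint) × PhasePoint =>
      GY Φ ε T b m i0 Ψ p.1 p.2.1 p.2.2 := by
  unfold GY
  have hv : ∀ x : κ, Measurable fun z : ℝ × (κ → PhasePoint) × PhasePoint => (z.2.1 x).2 :=
    fun x => ((measurable_pi_apply x).comp measurable_snd.fst).snd
  have hx : Measurable fun z : ℝ × (κ → PhasePoint) × PhasePoint => (z.2.1 i0).1 :=
    ((measurable_pi_apply i0).comp measurable_snd.fst).fst
  have hw : Measurable fun z : ℝ × (κ → PhasePoint) × PhasePoint => z.2.2.2 :=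
    measurable_snd.snd.snd
  refine (Measurable.mul ?_ (hΨ.comp hx)).mul ?_
  · refine (Real.measurable_exp.comp ((?_ : Measurable _).const_mul (-b))).ennreal_ofReal
    exact (Finset.measurable_sum _ fun x _ => (hv x).norm.pow_const 2).add (hw.norm.pow_const 2)
  · exact (measurable_one.indicator (measurableSet_badY hΦ hε m)).comp
      (measurable_fst.prodMk (measurable_snd.fst.prodMk measurable_snd.snd))

/-- the integral over the partner, for the whole bad set -/
def Kg (Φ : Space3 → ℝ) (ε T b : ℝ) (m i0 : κ) (Ψ : Space3 → ℝ≥0∞) (s : ℝ)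
    (Y : κ → PhasePoint) : ℝ≥0∞ :=
  ∫⁻ c : Space3 × Plane, kerW b i0 Ψ (flow Φ ε s Y m).2 Y c *
    (CW Φ ε T m).indicator (1 : ℝ × ((κ → PhasePoint) × (Space3 × Plane)) → ℝ≥0∞) (s, (Y, c))

theorem kerW_relab (b : ℝ) {ι : Type*} [Fintype ι] (e : ι ≃ κ) (i0 : κ) (Ψ : Space3 → ℝ≥0∞)
    (u : Space3) (Y : κ → PhasePoint) (c : Space3 × Plane) :
    kerW b (e.symm i0) Ψ u (fun x => Y (e x)) c = kerW b i0 Ψ u Y c := by
  unfold kerW
  simp only [Equiv.apply_symm_apply]
  rw [Equiv.sum_comp e fun x => ‖(Y x).2‖ ^ 2]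

theorem Kc_relab (hΦ : AdmissiblePotential Φ) {ε : ℝ} (hε : 0 < ε) (T b : ℝ) (m i0 : κ)
    (Ψ : Space3 → ℝ≥0∞) (s : ℝ) {P : CTree} (e : Idx P ≃ κ) (Y : κ → PhasePoint) :
    Kc Φ ε T b (e.symm m) (e.symm i0) (gEq P (e.symm m)) Ψ s (fun x => Y (e x)) =
      ∫⁻ c : Space3 × Plane, kerW b i0 Ψ (flow Φ ε s Y m).2 Y c *
        (CW1 Φ ε T (gEq P (e.symm m))).indicator
          (1 : ℝ × ((Idx P → PhasePoint) × (Space3 × Plane)) → ℝ≥0∞)
          (s, ((fun x => Y (e x)), c)) := by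
  unfold Kc
  refine lintegral_congr fun c => ?_
  rw [kerW_relab, Loc45.flow_equiv hΦ hε e s Y]
  simp only [Equiv.apply_symm_apply]

theorem ind_CW_le (ε T : ℝ) (m : κ) (c : ℝ × ((κ → PhasePoint) × (Space3 × Plane))) :
    (CW Φ ε T m).indicator (1 : ℝ × ((κ → PhasePoint) × (Space3 × Plane)) → ℝ≥0∞) c ≤
      ∑ P ∈ CTree.lt (Fintype.card κ), ∑ e : Idx P ≃ κ,
        (CW1 Φ ε T (gEq P (e.symm m))).indicator
          (1 : ℝ × ((Idx P → PhasePoint) × (Space3 × Plane)) → ℝ≥0∞)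
          (c.1, ((fun x => c.2.1 (e x)), c.2.2)) := by
  by_cases hc : c ∈ CW Φ ε T m
  · rw [indicator_of_mem hc]
    obtain ⟨P, e, h⟩ := hc
    have hP : P ∈ CTree.lt (Fintype.card κ) := by
      rw [CTree.mem_lt]
      have h1 := CTree.leaves_eq P
      have h2 := CTree.height_le_size P
      have h3 : P.leaves = Fintype.card κ := by
        rw [← card_idx P]
        exact Fintype.card_congr e
      omega
    refine le_trans ?_ (Finset.single_le_sum (f := fun P : CTree => ∑ e : Idx P ≃ κ,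
        (CW1 Φ ε T (gEq P (e.symm m))).indicator
          (1 : ℝ × ((Idx P → PhasePoint) × (Space3 × Plane)) → ℝ≥0∞)
          (c.1, ((fun x => c.2.1 (e x)), c.2.2))) (fun _ _ => bot_le) hP)
    refine le_trans ?_ (Finset.single_le_sum (f := fun e : Idx P ≃ κ =>
        (CW1 Φ ε T (gEq P (e.symm m))).indicator
          (1 : ℝ × ((Idx P → PhasePoint) × (Space3 × Plane)) → ℝ≥0∞)
          (c.1, ((fun x => c.2.1 (e x)), c.2.2))) (fun _ _ => bot_le) (Finset.mem_univ e))
    show _ ≤ (CW1 Φ ε T (gEq P (e.symm m))).indicator _ _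
    rw [indicator_of_mem h]
    exact le_rfl
  · rw [indicator_of_notMem hc]
    exact bot_le

theorem measurable_term (hΦ : AdmissiblePotential Φ) {ε : ℝ} (hε : 0 < ε) (T b : ℝ) (m i0 : κ)
    {Ψ : Space3 → ℝ≥0∞} (hΨ : Measurable Ψ) (s : ℝ) (Y : κ → PhasePoint) {P : CTree}
    (e : Idx P ≃ κ) :
    Measurable fun c : Space3 × Plane => kerW b i0 Ψ (flow Φ ε s Y m).2 Y c *
        (CW1 Φ ε T (gEq P (e.symm m))).indicator
          (1 : ℝ × ((Idx P → PhasePoint) × (Space3 × Plane)) → ℝ≥0∞)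
          (s, ((fun x => Y (e x)), c)) := by
  have h1 : Measurable fun c : Space3 × Plane => kerW b i0 Ψ (flow Φ ε s Y m).2 Y c :=
    Measurable.comp (g := fun z : Space3 × ((κ → PhasePoint) × (Space3 × Plane)) =>
      kerW b i0 Ψ z.1 z.2.1 z.2.2) (f := fun c : Space3 × Plane => ((flow Φ ε s Y m).2, (Y, c)))
      (measurable_kerW b i0 hΨ) (measurable_const.prodMk (measurable_const.prodMk measurable_id))
  refine h1.mul ?_
  exact (measurable_one.indicator (measurableSet_CW1 hΦ hε (gEq P (e.symm m)))).comp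
    (measurable_const.prodMk (measurable_const.prodMk measurable_id) :
      Measurable fun c : Space3 × Plane => (s, ((fun x => Y (e x)), c)))

theorem Kg_le (hΦ : AdmissiblePotential Φ) {ε : ℝ} (hε : 0 < ε) (T b : ℝ) (m i0 : κ)
    {Ψ : Space3 → ℝ≥0∞} (hΨ : Measurable Ψ) (s : ℝ) (Y : κ → PhasePoint) :
    Kg Φ ε T b m i0 Ψ s Y ≤ ∑ P ∈ CTree.lt (Fintype.card κ), ∑ e : Idx P ≃ κ,
      Kc Φ ε T b (e.symm m) (e.symm i0) (gEq P (e.symm m)) Ψ s (fun x => Y (e x)) := by
  have h0 : ∀ c : Space3 × Plane, kerW b i0 Ψ (flow Φ ε s Y m).2 Y c *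
      (CW Φ ε T m).indicator (1 : ℝ × ((κ → PhasePoint) × (Space3 × Plane)) → ℝ≥0∞) (s, (Y, c)) ≤
      ∑ P ∈ CTree.lt (Fintype.card κ), ∑ e : Idx P ≃ κ,
        kerW b i0 Ψ (flow Φ ε s Y m).2 Y c * (CW1 Φ ε T (gEq P (e.symm m))).indicator
          (1 : ℝ × ((Idx P → PhasePoint) × (Space3 × Plane)) → ℝ≥0∞)
          (s, ((fun x => Y (e x)), c)) := by
    intro c
    refine (mul_le_mul' le_rfl (ind_CW_le ε T m (s, (Y, c)))).trans (le_of_eq ?_)
    rw [Finset.mul_sum]
    refine Finset.sum_congr rfl fun P _ => ?_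
    rw [Finset.mul_sum]
  unfold Kg
  refine (lintegral_mono h0).trans (le_of_eq ?_)
  rw [lintegral_finsetSum' _ fun P _ => (Finset.measurable_sum _ fun e _ =>
    measurable_term hΦ hε T b m i0 hΨ s Y e).aemeasurable]
  refine Finset.sum_congr rfl fun P _ => ?_
  rw [lintegral_finsetSum' _ fun e _ => (measurable_term hΦ hε T b m i0 hΨ s Y e).aemeasurable]
  refine Finset.sum_congr rfl fun e _ => ?_
  rw [Kc_relab hΦ hε]

/-- the two forms of the integral over the partner -/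
theorem inner_eq (hΦ : AdmissiblePotential Φ) {ε : ℝ} (hε : 0 < ε) (T b : ℝ) (m i0 : κ)
    {Ψ : Space3 → ℝ≥0∞} (hΨ : Measurable Ψ) (s : ℝ) (Y : κ → PhasePoint) :
    ∫⁻ w : Space3, ∫⁻ y in Metric.ball (0 : Plane) 1,
      ENNReal.ofReal ‖(flow Φ ε s Y m).2 - w‖ * GY Φ ε T b m i0 Ψ s Y
        ((flow Φ ε s Y m).1 + ε • entrancePoint (frameMap ((flow Φ ε s Y m).2 - w) y)
          ((flow Φ ε s Y m).2 - w), w) = Kg Φ ε T b m i0 Ψ s Y := by
  have h1 : Measurable fun c : Space3 × Plane => kerW b i0 Ψ (flow Φ ε s Y m).2 Y c *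
      (CW Φ ε T m).indicator (1 : ℝ × ((κ → PhasePoint) × (Space3 × Plane)) → ℝ≥0∞)
        (s, (Y, c)) := by
    have h1 : Measurable fun c : Space3 × Plane => kerW b i0 Ψ (flow Φ ε s Y m).2 Y c :=
      Measurable.comp (g := fun z : Space3 × ((κ → PhasePoint) × (Space3 × Plane)) =>
        kerW b i0 Ψ z.1 z.2.1 z.2.2) (f := fun c : Space3 × Plane => ((flow Φ ε s Y m).2, (Y, c)))
        (measurable_kerW b i0 hΨ) (measurable_const.prodMk (measurable_const.prodMk measurable_id))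
    exact h1.mul ((measurable_one.indicator (measurableSet_CW hΦ hε m)).comp
      (measurable_const.prodMk (measurable_const.prodMk measurable_id)))
  have hvol : (volume : Measure (Space3 × Plane)) =
      (volume : Measure Space3).prod (volume : Measure Plane) := rfl
  unfold Kg
  rw [hvol, lintegral_prod _ h1.aemeasurable]
  refine lintegral_congr fun w => ?_
  rw [← lintegral_indicator measurableSet_ball]
  refine lintegral_congr fun y => ?_
  by_cases hy : y ∈ Metric.ball (0 : Plane) 1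
  swap
  · rw [indicator_of_notMem hy]
    unfold kerW
    rw [indicator_of_notMem hy]
    simp
  rw [indicator_of_mem hy]
  by_cases hw : (flow Φ ε s Y m).2 = w
  · have e0 : ENNReal.ofReal ‖(flow Φ ε s Y m).2 - w‖ = 0 := by rw [hw]; simp
    unfold kerW
    simp only [e0, zero_mul]
  · unfold GY kerW
    have e1 : (badY Φ ε T m).indicator (1 : ℝ × ((κ → PhasePoint) × PhasePoint) → ℝ≥0∞)
        (s, (Y, ((flow Φ ε s Y m).1 + ε • entrancePoint (frameMap ((flow Φ ε s Y m).2 - w) y)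
          ((flow Φ ε s Y m).2 - w), w))) =
        (CW Φ ε T m).indicator (1 : ℝ × ((κ → PhasePoint) × (Space3 × Plane)) → ℝ≥0∞)
          (s, (Y, (w, y))) := by
      by_cases hc : (s, (Y, (w, y))) ∈ CW Φ ε T m
      · rw [indicator_of_mem hc, indicator_of_mem ((mem_badY_iff hε hw).2 hc)]
        rfl
      · rw [indicator_of_notMem hc, indicator_of_notMem fun h => hc ((mem_badY_iff hε hw).1 h)]
    rw [e1, indicator_of_mem hy]
    simp only [Pi.one_apply]
    ring

/-- **D5 (b): the flux integral of the bad grafts is `o(ε ^ (2 (card κ - 1)))`.** -/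
theorem cherry (hΦ : AdmissiblePotential Φ) (m i0 : κ) {b : ℝ} (hb : 0 < b) (T : ℝ) :
    ∃ q : ℝ → ℝ≥0∞, Tendsto q (𝓝[>] 0) (𝓝 0) ∧ ∀ (ε : ℝ) (Ψ : Space3 → ℝ≥0∞), 0 < ε →
      Measurable Ψ →
      ∫⁻ s in Icc 0 T, ∫⁻ Y : κ → PhasePoint, ∫⁻ w : Space3, ∫⁻ y in Metric.ball (0 : Plane) 1,
        ENNReal.ofReal ‖(flow Φ ε s Y m).2 - w‖ * GY Φ ε T b m i0 Ψ s Y
          ((flow Φ ε s Y m).1 + ε • entrancePoint (frameMap ((flow Φ ε s Y m).2 - w) y)
            ((flow Φ ε s Y m).2 - w), w) ≤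
        ENNReal.ofReal (ε ^ 2) ^ (Fintype.card κ - 1) * ((∫⁻ x, Ψ x) * q ε) := by
  choose q hq1 hq2 using fun (P : CTree) (e : Idx P ≃ κ) =>
    step hΦ hb T (isGraft (Φ := Φ) P (e.symm m)) (e.symm i0)
  refine ⟨fun ε => ∑ P ∈ CTree.lt (Fintype.card κ), ∑ e : Idx P ≃ κ, q P e ε, ?_,
    fun ε Ψ hε hΨ => ?_⟩
  · have h : Tendsto (fun ε => ∑ P ∈ CTree.lt (Fintype.card κ), ∑ e : Idx P ≃ κ, q P e ε)
        (𝓝[>] 0) (𝓝 (∑ P ∈ CTree.lt (Fintype.card κ), ∑ _e : Idx P ≃ κ, 0)) :=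
      tendsto_finsetSum _ fun P _ => tendsto_finsetSum _ fun e _ => hq1 P e
    simpa using h
  · have hae : (volume : Measure ℝ).restrict (Icc 0 T) = volume.restrict (Ioo 0 T) :=
      (Measure.restrict_congr_set Ioo_ae_eq_Icc).symm
    simp only [inner_eq hΦ hε T b m i0 hΨ]
    rw [hae]
    -- measurability of the terms
    have hm : ∀ (P : CTree) (e : Idx P ≃ κ), Measurable fun z : ℝ × (κ → PhasePoint) =>
        Kc Φ ε T b (e.symm m) (e.symm i0) (gEq P (e.symm m)) Ψ z.1 (fun x => z.2 (e x)) := by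
      intro P e
      have h1 : Measurable fun z : ℝ × (κ → PhasePoint) => (z.1, fun x : Idx P => z.2 (e x)) :=
        measurable_fst.prodMk (measurable_pi_iff.2 fun x =>
          (measurable_pi_apply (e x)).comp measurable_snd)
      exact Measurable.comp (g := fun z : ℝ × (Idx P → PhasePoint) =>
        Kc Φ ε T b (e.symm m) (e.symm i0) (gEq P (e.symm m)) Ψ z.1 z.2)
        (f := fun z : ℝ × (κ → PhasePoint) => (z.1, fun x : Idx P => z.2 (e x)))
        (measurable_Kc hΦ hε T b (e.symm m) (e.symm i0) (gEq P (e.symm m)) hΨ) h1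
    have hms : ∀ (P : CTree) (e : Idx P ≃ κ) (s : ℝ), Measurable fun Y : κ → PhasePoint =>
        Kc Φ ε T b (e.symm m) (e.symm i0) (gEq P (e.symm m)) Ψ s (fun x => Y (e x)) := by
      intro P e s
      exact Measurable.comp (g := fun z : ℝ × (κ → PhasePoint) =>
        Kc Φ ε T b (e.symm m) (e.symm i0) (gEq P (e.symm m)) Ψ z.1 (fun x => z.2 (e x)))
        (f := fun Y : κ → PhasePoint => (s, Y)) (hm P e) measurable_prodMk_left
    have hmi : ∀ (P : CTree) (e : Idx P ≃ κ), Measurable fun s : ℝ => ∫⁻ Y : κ → PhasePoint,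
        Kc Φ ε T b (e.symm m) (e.symm i0) (gEq P (e.symm m)) Ψ s (fun x => Y (e x)) := by
      intro P e
      exact Measurable.lintegral_prod_right' (f := fun z : ℝ × (κ → PhasePoint) =>
        Kc Φ ε T b (e.symm m) (e.symm i0) (gEq P (e.symm m)) Ψ z.1 (fun x => z.2 (e x))) (hm P e)
    have h1 : ∀ s : ℝ, ∫⁻ Y : κ → PhasePoint, Kg Φ ε T b m i0 Ψ s Y ≤
        ∑ P ∈ CTree.lt (Fintype.card κ), ∑ e : Idx P ≃ κ, ∫⁻ Y : κ → PhasePoint,
          Kc Φ ε T b (e.symm m) (e.symm i0) (gEq P (e.symm m)) Ψ s (fun x => Y (e x)) := by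
      intro s
      refine (lintegral_mono fun Y => Kg_le hΦ hε T b m i0 hΨ s Y).trans (le_of_eq ?_)
      rw [lintegral_finsetSum' _ fun P _ => (Finset.measurable_sum _ fun e _ =>
        hms P e s).aemeasurable]
      refine Finset.sum_congr rfl fun P _ => ?_
      rw [lintegral_finsetSum' _ fun e _ => (hms P e s).aemeasurable]
    refine (lintegral_mono h1).trans ?_
    rw [lintegral_finsetSum' _ fun P _ => (Finset.measurable_sum _ fun e _ =>
        hmi P e).aemeasurable, Finset.mul_sum, Finset.mul_sum]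
    refine Finset.sum_le_sum fun P _ => ?_
    rw [lintegral_finsetSum' _ fun e _ => (hmi P e).aemeasurable, Finset.mul_sum, Finset.mul_sum]
    refine Finset.sum_le_sum fun e _ => ?_
    have hcard : P.size = Fintype.card κ - 1 := by
      have h1 := CTree.leaves_eq P
      have h3 : P.leaves = Fintype.card κ := by
        rw [← card_idx P]
        exact Fintype.card_congr e
      omega
    rw [← hcard]
    refine le_trans (le_of_eq ?_) (hq2 P e ε Ψ hε hΨ)
    refine lintegral_congr fun s => ?_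
    exact (measurePreserving_relabel e).lintegral_comp
      (measurable_Kcs hΦ hε T b (e.symm m) (e.symm i0) (gEq P (e.symm m)) hΨ s)

end Crest.Agent.R122.Cherry796

end
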