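import Crest.Agent.R122.BadOne_350
import Crest.Agent.R122.Cherry7_796

/-!
Row 122, helper350: the bad release steps of one particle (second alternative of 726's `BadStep`)
have measure `o(ε^(2(k-1)))` (D5, case (B2)).
-/

set_option autoImplicit false
set_option linter.unusedSectionVars false

open MeasureTheory Set Filter Topology
open Crest.AnalysisR.Kinetic
open Crest.Agent.R122.Flow671 Crest.Agent.R122.Loc45 Crest.Agent.R122.Causal291
open Crest.Agent.R122.Omega969 Crest.Agent.R122.Disc416 Crest.Agent.R122.Chain726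
open Crest.Agent.R122.Cherry796
open scoped Classical ENNReal

noncomputable section

namespace Crest.Agent.R122.Flux350

variable {Φ : Space3 → ℝ} {ε : ℝ} {ι κ : Type*} [Fintype κ]

/-- on the bad set the energy is kinetic -/
lemma energy_badY (hΦ : AdmissiblePotential Φ) (hε : 0 < ε) {T : ℝ} (hT : 0 ≤ T) {m : κ} {s : ℝ}
    {Y : κ → PhasePoint} {z : PhasePoint} (h : (s, (Y, z)) ∈ badY Φ ε T m) :
    energy Φ ε Y = (∑ x, ‖(Y x).2‖ ^ 2) / 2 := by
  obtain ⟨P, e, h1⟩ := h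
  have h2 := h1.1.1
  have h3 := h1.1.2.1
  simp only at h2 h3
  have h4 := (Crest.Agent.R122.Tree674.lines_inv hΦ hε h2).2
  have h5 := energy_lines hΦ hε hT h3
  rw [h4, energy_equiv] at h5
  rw [h5]
  have h6 : ∀ i, Crest.Agent.R122.Tree674.vels Φ P (Crest.Agent.R122.Tree674.inv Φ ε P T (fun x => Y (e x))).1.2
      (Crest.Agent.R122.Tree674.inv Φ ε P T (fun x => Y (e x))).2 i = (Y (e i)).2 := by
    intro i
    have h7 := Hid424.lines_vel (Φ := Φ) ε P (Crest.Agent.R122.Tree674.inv Φ ε P T (fun x => Y (e x))).1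
      (Crest.Agent.R122.Tree674.inv Φ ε P T (fun x => Y (e x))).2 i
    rw [h4] at h7
    exact h7.symm
  simp only [h6]
  rw [Equiv.sum_comp e (fun x => ‖(Y x).2‖ ^ 2)]
  ring

/-- the weight of 796's functional is the energy weight -/
lemma weight_eq (hΦ : AdmissiblePotential Φ) (hε : 0 < ε) {T : ℝ} (hT : 0 ≤ T) (γ : ℝ) (m i : κ)
    (Ψ : Space3 → ℝ≥0∞) (s : ℝ) (W : κ → PhasePoint) (z : PhasePoint) (N : ℝ≥0∞) :
    ENNReal.ofReal (Real.exp (-(γ * (energy Φ ε W + ‖z.2‖ ^ 2 / 2)))) *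
      (N * (Ψ (W i).1 * (badY Φ ε T m).indicator 1 (s, (W, z)))) =
    N * GY Φ ε T (γ / 2) m i Ψ s W z := by
  unfold GY
  by_cases hb : (s, (W, z)) ∈ badY Φ ε T m
  · rw [energy_badY hΦ hε hT hb]
    rw [show -(γ * ((∑ x, ‖(W x).2‖ ^ 2) / 2 + ‖z.2‖ ^ 2 / 2)) =
      -(γ / 2) * (∑ x, ‖(W x).2‖ ^ 2 + ‖z.2‖ ^ 2) by ring]
    ring
  · rw [indicator_of_notMem hb]
    simp

/-- **D5, case (B2): bad one-particle release steps.** -/
theorem bad_one {ι : Type} [Fintype ι] (hΦ : AdmissiblePotential Φ) {γ : ℝ} (hγ : 0 < γ) (T : ℝ) :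
    ∃ q : ℝ → ℝ≥0∞, Tendsto q (𝓝[>] 0) (𝓝 0) ∧ ∀ ε : ℝ, 0 < ε → ε ≤ 1 →
      ∀ (A A' : Finset ι), A'.card + 1 = A.card → ∀ (i : ι) (Ψ : Space3 → ℝ≥0∞), Measurable Ψ →
      ∃ M : (A → PhasePoint) → ℝ≥0∞, Measurable M ∧
        (∀ (W : A → PhasePoint) (s : ℝ) (W' : A' → PhasePoint), s ∈ Icc 0 T → Step Φ ε s W W' →
          ∀ (j : A) (m i' : A'), (i' : ι) = i → (j : ι) ∉ A' →
            dist (flow Φ ε s W j).1 (flow Φ ε s W' m).1 = ε →
            (inner ℝ ((flow Φ ε s W j).1 - (flow Φ ε s W' m).1)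
                ((flow Φ ε s W j).2 - (flow Φ ε s W' m).2) = 0 ∨
              0 < inner ℝ ((flow Φ ε s W j).1 - (flow Φ ε s W' m).1)
                ((flow Φ ε s W j).2 - (flow Φ ε s W' m).2) ∧
              BadGraft Φ ε T i' s W' m (flow Φ ε s W j)) →
            Ψ (W' i').1 ≤ M W) ∧
        ∫⁻ W, ENNReal.ofReal (Real.exp (-(γ * energy Φ ε W))) * M W ≤
          q ε * ENNReal.ofReal (ε ^ (2 * (A.card - 1))) * ∫⁻ x, Ψ x := by
  choose q hq1 hq2 using fun (A' : Finset ι) (i m : A') =>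
    cherry (κ := A') hΦ m i (half_pos hγ) T
  refine ⟨fun ε => ∑ A' : Finset ι, ∑ i : A', ∑ m : A', q A' i m ε, ?_, ?_⟩
  · have h : Tendsto (fun ε => ∑ A' : Finset ι, ∑ i : A', ∑ m : A', q A' i m ε) (𝓝[>] 0)
        (𝓝 (∑ A' : Finset ι, ∑ _i : A', ∑ _m : A', 0)) :=
      tendsto_finsetSum _ fun A' _ => tendsto_finsetSum _ fun i _ => tendsto_finsetSum _ fun m _ =>
        hq1 A' i m
    simpa using h
  intro ε hε _ A A' hc i Ψ hΨ
  by_cases hgood : 0 ≤ T ∧ A' ⊆ A ∧ i ∈ A'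
  swap
  · refine ⟨fun _ => 0, measurable_const, ?_, ?_⟩
    · intro W s W' hs hS j m i' hi' hj hd hbad
      exact absurd ⟨hs.1.trans hs.2, hS.sub, hi' ▸ i'.2⟩ hgood
    · simp
  obtain ⟨hT, hsub, hi⟩ := hgood
  set i0 : A' := ⟨i, hi⟩ with hi0
  have hB : ∀ m : A', ∫⁻ s in Icc 0 T, ∫⁻ W : A' → PhasePoint, ∫⁻ w : Space3,
      ∫⁻ y in Metric.ball (0 : Plane) 1,
        ENNReal.ofReal (Real.exp (-(γ * (energy Φ ε W + ‖w‖ ^ 2 / 2)))) *
        (ENNReal.ofReal ‖(flow Φ ε s W m).2 - w‖ * (Ψ (W i0).1 * (badY Φ ε T m).indicator 1 (s, (W,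
          ((flow Φ ε s W m).1 + ε • entrancePoint (frameMap ((flow Φ ε s W m).2 - w) y)
            ((flow Φ ε s W m).2 - w), w))))) ≤
      ENNReal.ofReal (ε ^ 2) ^ (Fintype.card A' - 1) * ((∫⁻ x, Ψ x) * q A' i0 m ε) := by
    intro m
    refine le_trans (le_of_eq ?_) (hq2 A' i0 m ε Ψ hε hΨ)
    refine lintegral_congr fun s => lintegral_congr fun W => lintegral_congr fun w =>
      lintegral_congr fun y => ?_
    exact weight_eq hΦ hε hT γ m i0 Ψ s W
      ((flow Φ ε s W m).1 + ε • entrancePoint (frameMap ((flow Φ ε s W m).2 - w) y)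
        ((flow Φ ε s W m).2 - w), w) (ENNReal.ofReal ‖(flow Φ ε s W m).2 - w‖)
  obtain ⟨M, hM, hM1, hM2⟩ := bad_one_of hΦ hε hT hsub hc i0 hΨ
    (C := fun m => badY Φ ε T m) (fun m => measurableSet_badY hΦ hε m) γ hB
  refine ⟨M, hM, ?_, hM2.trans ?_⟩
  · intro W s W' hs hS j m i' hi' hj hd hbad
    have hii : i' = i0 := Subtype.ext hi'
    subst hii
    refine hM1 W W' s hs hS j m hj hd ?_
    rcases hbad with hb | ⟨-, hb⟩
    · exact Or.inl hb
    · exact Or.inr (mem_badY hΦ hε hb)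
  · have hcard : Fintype.card A' = A'.card := Fintype.card_coe A'
    have hpos : 1 ≤ A'.card := Finset.card_pos.2 ⟨i, hi⟩
    have h1 : ENNReal.ofReal (ε ^ 2) * ENNReal.ofReal (ε ^ 2) ^ (Fintype.card A' - 1) =
        ENNReal.ofReal (ε ^ (2 * (A.card - 1))) := by
      rw [← pow_succ', hcard, ← ENNReal.ofReal_pow (sq_nonneg ε), ← pow_mul]
      congr 3
      omega
    rw [← Finset.mul_sum, ← Finset.mul_sum, ← mul_assoc, h1]
    have h2 : ∑ m : A', q A' i0 m ε ≤ ∑ A' : Finset ι, ∑ i : A', ∑ m : A', q A' i m ε := by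
      refine le_trans ?_ (Finset.single_le_sum (f := fun A' : Finset ι =>
        ∑ i : A', ∑ m : A', q A' i m ε) (fun _ _ => zero_le) (Finset.mem_univ A'))
      exact Finset.single_le_sum (f := fun i : A' => ∑ m : A', q A' i m ε)
        (fun _ _ => zero_le) (Finset.mem_univ i0)
    calc ENNReal.ofReal (ε ^ (2 * (A.card - 1))) * ((∫⁻ x, Ψ x) * ∑ m : A', q A' i0 m ε)
        ≤ ENNReal.ofReal (ε ^ (2 * (A.card - 1))) * ((∫⁻ x, Ψ x) *
          ∑ A' : Finset ι, ∑ i : A', ∑ m : A', q A' i m ε) :=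
          mul_le_mul_right (mul_le_mul_right h2 _) _
      _ = _ := by ring

end Crest.Agent.R122.Flux350

end
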