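import Crest.Agent.R122.VolFlux5_350

/-!
Row 122, helper350: the bad release steps of one particle have small measure (case (B2) of
`BadStep`), from the flux step and a measurable set `C m` of bad data `(s, W', u)` (time, kept
group, state of the released particle).
-/

set_option autoImplicit false
set_option linter.unusedSectionVars false

open MeasureTheory Set Filter Topology
open Crest.AnalysisR.Kinetic
open Crest.Agent.R122.Flow671 Crest.Agent.R122.Loc45 Crest.Agent.R122.Causal291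
open Crest.Agent.R122.Omega969 Crest.Agent.R122.Disc416 Crest.Agent.R122.Chain726
open scoped Classical ENNReal

noncomputable section

namespace Crest.Agent.R122.Flux350

variable {Φ : Space3 → ℝ} {ε : ℝ} {ι : Type*}

/-- a grazing partner does not appear in impact parameter coordinates -/
lemma inner_entrance_pos (hε : 0 < ε) {g : Space3} (hg : g ≠ 0) {y : Plane} (hy : ‖y‖ < 1) :
    inner ℝ (ε • entrancePoint (frameMap g y) g) (-g) ≠ 0 := by
  have h1 : inner ℝ g (entrancePoint (frameMap g y) g) = -(‖g‖ * Real.sqrt (1 - ‖y‖ ^ 2)) := by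
    rw [← entrance_eq hg, inner_cyl hg]
    unfold hgt
    rw [one_pow]; ring
  have h2 : 0 < Real.sqrt (1 - ‖y‖ ^ 2) := Real.sqrt_pos.2 (by nlinarith [norm_nonneg y])
  have h3 : 0 < ‖g‖ := norm_pos_iff.2 hg
  rw [inner_neg_right, real_inner_smul_left, real_inner_comm, h1]
  have : 0 < ε * (‖g‖ * Real.sqrt (1 - ‖y‖ ^ 2)) := by positivity
  intro h
  linarith

/-- **Bad one-particle releases.** -/
theorem bad_one_of (hΦ : AdmissiblePotential Φ) (hε : 0 < ε) {T : ℝ} (hT : 0 ≤ T)
    {A A' : Finset ι} (h : A' ⊆ A) (hc : A'.card + 1 = A.card) (i : A')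
    {Ψ : Space3 → ℝ≥0∞} (hΨ : Measurable Ψ)
    {C : A' → Set (ℝ × ((A' → PhasePoint) × PhasePoint))} (hC : ∀ m, MeasurableSet (C m))
    (γ : ℝ) {B : A' → ℝ≥0∞}
    (hB : ∀ m, ∫⁻ s in Icc 0 T, ∫⁻ W : A' → PhasePoint, ∫⁻ w : Space3,
      ∫⁻ y in Metric.ball (0 : Plane) 1,
        ENNReal.ofReal (Real.exp (-(γ * (energy Φ ε W + ‖w‖ ^ 2 / 2)))) *
        (ENNReal.ofReal ‖(flow Φ ε s W m).2 - w‖ * (Ψ (W i).1 * (C m).indicator 1 (s, (W,
          ((flow Φ ε s W m).1 + ε • entrancePoint (frameMap ((flow Φ ε s W m).2 - w) y)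
            ((flow Φ ε s W m).2 - w), w))))) ≤ B m) :
    ∃ M : (A → PhasePoint) → ℝ≥0∞, Measurable M ∧
      (∀ (W : A → PhasePoint) (W' : A' → PhasePoint) (s : ℝ), s ∈ Icc 0 T → Step Φ ε s W W' →
        ∀ (j : A) (m : A'), (j : ι) ∉ A' → dist (flow Φ ε s W j).1 (flow Φ ε s W' m).1 = ε →
          (inner ℝ ((flow Φ ε s W j).1 - (flow Φ ε s W' m).1)
            ((flow Φ ε s W j).2 - (flow Φ ε s W' m).2) = 0 ∨
            (s, (W', flow Φ ε s W j)) ∈ C m) → Ψ (W' i).1 ≤ M W) ∧
      ∫⁻ W, ENNReal.ofReal (Real.exp (-(γ * energy Φ ε W))) * M W ≤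
        ENNReal.ofReal (ε ^ 2) * ∑ m : A', B m := by
  -- the released particle
  obtain ⟨j0, hj0, hj0'⟩ : ∃ j : ι, j ∈ A ∧ j ∉ A' := by
    by_contra hcon
    push Not at hcon
    have := Finset.card_le_card (show A ⊆ A' from hcon)
    omega
  have huniq : ∀ j : A, (j : ι) ∉ A' → j = ⟨j0, hj0⟩ := by
    intro j hj
    by_contra hne
    have hne' : (j : ι) ≠ j0 := fun he => hne (Subtype.ext he)
    have h1 : insert (j : ι) (insert j0 A') ⊆ A := by
      intro x hx
      rw [Finset.mem_insert, Finset.mem_insert] at hx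
      rcases hx with rfl | rfl | hx
      · exact j.2
      · exact hj0
      · exact h hx
    have h2 := Finset.card_le_card h1
    rw [Finset.card_insert_of_notMem (by
      rw [Finset.mem_insert]; push Not; exact ⟨hne', hj⟩), Finset.card_insert_of_notMem hj0'] at h2
    omega
  -- the functional
  set G : ℝ → (A' → PhasePoint) → A' → PhasePoint → ℝ≥0∞ := fun s W' m u =>
    Ψ (W' i).1 * ((C m).indicator 1 (s, (W', u)) +
      {q : ℝ × ((A' → PhasePoint) × PhasePoint) | inner ℝ (q.2.2.1 - (flow Φ ε q.1 q.2.1 m).1)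
        (q.2.2.2 - (flow Φ ε q.1 q.2.1 m).2) = 0}.indicator (fun _ => ∞) (s, (W', u))) with hGd
  have hgr : ∀ m : A', MeasurableSet {q : ℝ × ((A' → PhasePoint) × PhasePoint) |
      inner ℝ (q.2.2.1 - (flow Φ ε q.1 q.2.1 m).1) (q.2.2.2 - (flow Φ ε q.1 q.2.1 m).2) = 0} := by
    intro m
    have h1 : Measurable (fun q : ℝ × ((A' → PhasePoint) × PhasePoint) => flow Φ ε q.1 q.2.1 m) := by
      have h := (measurable_flow_apply (κ := A') hΦ hε m).comp
        (measurable_fst.prodMk (measurable_fst.comp measurable_snd) :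
          Measurable fun q : ℝ × ((A' → PhasePoint) × PhasePoint) => (q.1, q.2.1))
      exact h
    have h2 : Measurable (fun q : ℝ × ((A' → PhasePoint) × PhasePoint) => q.2.2) :=
      measurable_snd.comp measurable_snd
    have h3 : Measurable (fun q : Space3 × Space3 => inner ℝ q.1 q.2) :=
      Continuous.measurable (by fun_prop)
    have h4 := h3.comp ((h2.fst.sub h1.fst).prodMk (h2.snd.sub h1.snd))
    exact measurableSet_eq_fun h4 measurable_const
  have hG : ∀ m, Measurable fun p : ℝ × (A' → PhasePoint) × PhasePoint => G p.1 p.2.1 m p.2.2 := by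
    intro m
    have h1 : Measurable (fun p : ℝ × (A' → PhasePoint) × PhasePoint => Ψ (p.2.1 i).1) :=
      hΨ.comp (((measurable_pi_apply i).comp (measurable_fst.comp measurable_snd)).fst)
    have h2 : Measurable (fun p : ℝ × (A' → PhasePoint) × PhasePoint =>
        (C m).indicator (1 : ℝ × ((A' → PhasePoint) × PhasePoint) → ℝ≥0∞) (p.1, (p.2.1, p.2.2))) :=
      measurable_one.indicator (hC m)
    have h3 : Measurable (fun p : ℝ × (A' → PhasePoint) × PhasePoint =>
        {q : ℝ × ((A' → PhasePoint) × PhasePoint) | inner ℝ (q.2.2.1 - (flow Φ ε q.1 q.2.1 m).1)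
        (q.2.2.2 - (flow Φ ε q.1 q.2.1 m).2) = 0}.indicator (fun _ => (∞ : ℝ≥0∞))
          (p.1, (p.2.1, p.2.2))) :=
      measurable_const.indicator (hgr m)
    exact h1.mul (h2.add h3)
  obtain ⟨M, hM, hM1, hM2⟩ := FS1fin hΦ hε hT h hc ⟨j0, hj0⟩ hj0' hG γ
  refine ⟨M, hM, ?_, hM2.trans ?_⟩
  · intro W W' s hs hS j m hj hd hbad
    have hjj := huniq j hj
    have hfl : flow Φ ε s W' m = flow Φ ε s W ⟨m, h m.2⟩ := by
      have := congrFun (hS.flow_eq hΦ hε) m
      exact this
    have h1 := hM1 W W' s hs hS m (by rw [← hjj, ← hfl]; exact hd)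
    rw [← hjj] at h1
    refine le_trans ?_ h1
    rw [hGd]
    simp only
    rcases hbad with hb | hb
    · have : (s, (W', flow Φ ε s W j)) ∈ {q : ℝ × ((A' → PhasePoint) × PhasePoint) |
        inner ℝ (q.2.2.1 - (flow Φ ε q.1 q.2.1 m).1) (q.2.2.2 - (flow Φ ε q.1 q.2.1 m).2) = 0} := hb
      rw [indicator_of_mem this, add_top]
      by_cases h0 : Ψ (W' i).1 = 0
      · rw [h0]; exact zero_le
      · rw [ENNReal.mul_top h0]; exact le_top
    · rw [indicator_of_mem hb]
      calc Ψ (W' i).1 = Ψ (W' i).1 * 1 := (mul_one _).symm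
        _ ≤ _ := mul_le_mul_right (le_trans (le_of_eq rfl) le_self_add) _
  · refine mul_le_mul_right (Finset.sum_le_sum fun m _ => ?_) _
    refine le_trans (le_of_eq ?_) (hB m)
    refine lintegral_congr fun s => ?_
    rw [← lintegral_flow (κ := A') hΦ hε s (fun Z : A' → PhasePoint => ∫⁻ w : Space3,
      ∫⁻ y in Metric.ball (0 : Plane) 1,
        ENNReal.ofReal (Real.exp (-(γ * (energy Φ ε Z + ‖w‖ ^ 2 / 2)))) *
          (ENNReal.ofReal ‖(Z m).2 - w‖ * G s (flow Φ ε (-s) Z) m
            ((Z m).1 + ε • entrancePoint (frameMap ((Z m).2 - w) y) ((Z m).2 - w), w)))]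
    refine lintegral_congr fun W => lintegral_congr fun w => ?_
    refine setLIntegral_congr_fun measurableSet_ball fun y hy => ?_
    have hy1 : ‖y‖ < 1 := by simpa using hy
    simp only [flow_neg_flow hΦ hε, energy_flow hΦ hε]
    congr 1
    by_cases hg : (flow Φ ε s W m).2 - w = 0
    · rw [hg, norm_zero, ENNReal.ofReal_zero, zero_mul, zero_mul]
    · congr 1
      rw [hGd]
      simp only
      have hni : (s, (W, ((flow Φ ε s W m).1 + ε • entrancePoint (frameMap ((flow Φ ε s W m).2 - w) y)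
            ((flow Φ ε s W m).2 - w), w))) ∉ {q : ℝ × ((A' → PhasePoint) × PhasePoint) |
        inner ℝ (q.2.2.1 - (flow Φ ε q.1 q.2.1 m).1) (q.2.2.2 - (flow Φ ε q.1 q.2.1 m).2) = 0} := by
        intro hcon
        have h1 : inner ℝ ((flow Φ ε s W m).1 + ε • entrancePoint
          (frameMap ((flow Φ ε s W m).2 - w) y) ((flow Φ ε s W m).2 - w) - (flow Φ ε s W m).1)
          (w - (flow Φ ε s W m).2) = 0 := hcon
        rw [add_sub_cancel_left, ← neg_sub (flow Φ ε s W m).2 w] at h1
        exact inner_entrance_pos hε hg hy1 h1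
      rw [indicator_of_notMem hni, add_zero]

end Crest.Agent.R122.Flux350

end
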