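import Crest.Agent.R122.BadDefs_726
import Crest.Agent.R122.Hid_424

/-!
# Release chains (row 122, D5, helper726): translation covariance

`Step.shift`, `Chain.shift`, `BadGraft.shift`, `TermBad.shift`.
-/

set_option autoImplicit false
set_option linter.unusedSectionVars false

open Set Filter Topology
open Crest.AnalysisR.Kinetic
open scoped Classical

noncomputable section

namespace Crest.Agent.R122.Chain726

open Kin796 Kin796.CTree Disc416 Tree674 Flow671 Loc45 Causal291 PathFlow968 Surj968 Graft968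

variable {Φ : Space3 → ℝ} {ε T te s : ℝ} {ι : Type*}

theorem dst_shiftX {κ : Type*} (a : Space3) (Z : κ → PhasePoint) (j k : κ) :
    dst (shiftX a Z) j k = dst Z j k := by
  show dist ((Z j).1 + a) ((Z k).1 + a) = dist (Z j).1 (Z k).1
  rw [dist_add_right]

theorem dst_flow_shiftX (hΦ : AdmissiblePotential Φ) (hε : 0 < ε) {κ : Type*} [Fintype κ]
    (a : Space3) (Z : κ → PhasePoint) (s : ℝ) (j k : κ) :
    dst (flow Φ ε s (shiftX a Z)) j k = dst (flow Φ ε s Z) j k := by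
  rw [flow_shiftX hΦ hε, dst_shiftX]

theorem Step.shift (hΦ : AdmissiblePotential Φ) (hε : 0 < ε) (a : Space3) {A A' : Finset ι}
    {W : A → PhasePoint} {W' : A' → PhasePoint} (h : Step Φ ε s W W') :
    Step Φ ε s (shiftX a W) (shiftX a W') := by
  refine ⟨(Dom_shiftX a).2 h.dom, h.sub, ?_, ?_, ?_⟩
  · obtain ⟨j, hj, ⟨m, hm, hjm⟩, hc⟩ := h.touch
    refine ⟨j, hj, ⟨m, hm, ?_⟩, fun k hk => ?_⟩
    · rw [dst_flow_shiftX hΦ hε]
      exact hjm
    · refine Relation.ReflTransGen.mono (fun a' b hab => ?_) _ _ (hc k hk)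
      rw [dst_flow_shiftX hΦ hε]
      exact hab
  · obtain ⟨δ, hδ, hsep⟩ := h.sep
    refine ⟨δ, hδ, fun u hu j k hj hk => ?_⟩
    rw [dst_flow_shiftX hΦ hε]
    exact hsep u hu j k hj hk
  · refine (congrArg (shiftX a) h.state).trans ?_
    rw [← flow_shiftX hΦ hε, flow_shiftX hΦ hε a s W]
    rfl

theorem Chain.shift (hΦ : AdmissiblePotential Φ) (hε : 0 < ε) (a : Space3) {A A' : Finset ι}
    {W : A → PhasePoint} {W' : A' → PhasePoint} (h : Chain Φ ε T A W A' W') :
    Chain Φ ε T A (shiftX a W) A' (shiftX a W') := by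
  induction h with
  | refl _ _ => exact .refl _ _
  | step hs h _ ih => exact .step hs (h.shift hΦ hε a) ih

theorem BadGraft.shift (hΦ : AdmissiblePotential Φ) (hε : 0 < ε) (a : Space3) {κ : Type*}
    [Fintype κ] {i : κ} {W : κ → PhasePoint} {m : κ} {z : PhasePoint}
    (h : BadGraft Φ ε T i s W m z) : BadGraft Φ ε T i s (shiftX a W) m (z.1 + a, z.2) := by
  obtain ⟨P, e, ℓ, p, y, h1, h2, h3, h4, h5, h6, h7, h8, h9⟩ := h
  obtain ⟨X, v⟩ := ℓ
  have hsep : ∀ (P : CTree) (p : Par P), Sep Φ ε P T (X + a, v) p ↔ Sep Φ ε P T (X, v) p :=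
    fun P p => (Hid424.sep_shift _).trans (Hid424.sep_shift _).symm
  have hv : (flow Φ ε s (shiftX a W) m).2 = (flow Φ ε s W m).2 := by
    rw [flow_shiftX hΦ hε]
    rfl
  have hx : (flow Φ ε s (shiftX a W) m).1 = (flow Φ ε s W m).1 + a := by
    rw [flow_shiftX hΦ hε]
    rfl
  refine ⟨P, e, (X + a, v), p, y, h1, (hsep _ _).2 h2, h3, fun x => ?_, h5, h6, ?_, ?_, ?_⟩
  · rw [Hid424.lines_shift]
    have h10 := h4 x
    rw [Hid424.lines_shift] at h10
    show ((W (e x)).1 + a, (W (e x)).2) = _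
    rw [h10]
    simp only [Prod.mk.injEq, and_true]
    abel
  · rw [hv]
    exact h7
  · rw [hv, hx]
    show z.1 + a = _
    rw [h8]
    abel
  · rintro ⟨h10, h11, h12⟩
    exact h9 ⟨h10, h11, (hsep _ _).1 h12⟩

theorem TermBad.shift (hΦ : AdmissiblePotential Φ) (hε : 0 < ε) (a : Space3) {i : ι}
    {A : Finset ι} {W : A → PhasePoint} (h : TermBad Φ ε T te i W) :
    TermBad Φ ε T te i (shiftX a W) := by
  obtain ⟨i', hi', h⟩ := h
  refine ⟨i', hi', h.imp ?_ ?_⟩
  · rintro ⟨hc, u, hu, hch⟩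
    refine ⟨hc, u, hu, fun k => Relation.ReflTransGen.mono (fun a' b hab => ?_) _ _ (hch k)⟩
    rw [dst_flow_shiftX hΦ hε]
    exact hab
  · rintro ⟨hc, j, hj, hd⟩
    refine ⟨hc, j, hj, ?_⟩
    rw [dst_flow_shiftX hΦ hε]
    exact hd

end Crest.Agent.R122.Chain726

end
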