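import Crest.Agent.R122.BadOne2_350
import Crest.Agent.R122.ChainShift_726
import Crest.Agent.R122.NGmaj_416

/-!
# Row 122 (helper416), D5: the bad one-particle releases with an arbitrary covariant pin

`badY_shift` : the bad set of 796 is translation invariant; `cherry_pin` : 796's `cherry` with the
localisation at an arbitrary covariant point of the remaining group (change of pin under the
integral); `bad_one_pin` : 350's `bad_one` with the position of the root at an arbitrary time `t`.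
-/

set_option autoImplicit false
set_option synthInstance.maxSize 1024
set_option linter.unusedSectionVars false
set_option maxHeartbeats 800000

open MeasureTheory Set Filter Topology
open Crest.AnalysisR.Kinetic
open scoped ENNReal Classical

noncomputable section

namespace Crest.Agent.R122.BadPin416

open Kin796 Kin796.CTree Disc416 Tree674 TreeEps399 TreeDom974 TreeLim974 Flow671 Graft968
open Loc45 Cherry796 NG416 Flux350 Chain726 Causal291 Omega969

variable {Φ : Space3 → ℝ} {κ : Type*} [Fintype κ]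

/-! ## Translation invariance of the bad sets -/

theorem cw1_shift (hΦ : AdmissiblePotential Φ) {ε T : ℝ} (hε : 0 < ε) {P P' : CTree}
    {g : NodeP × Par P ≃ᵐ Par P'} {s : ℝ} {W : Idx P → PhasePoint} {c : Space3 × Plane}
    (a : Space3) (h : (s, (W, c)) ∈ CW1 Φ ε T g) : (s, (shiftX a W, c)) ∈ CW1 Φ ε T g := by
  obtain ⟨⟨h1, h2, h3⟩, h4⟩ := h
  simp only at h1 h2 h3 h4
  have h5 := (lines_inv hΦ hε h1).2
  rcases hq : Tree674.inv Φ ε P T W with ⟨⟨X, v⟩, p⟩
  rw [hq] at h2 h3 h4 h5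
  have hsep : ∀ (Q : CTree) (p : Par Q), Sep Φ ε Q T (X + a, v) p ↔ Sep Φ ε Q T (X, v) p :=
    fun Q p => (Hid424.sep_shift _).trans (Hid424.sep_shift _).symm
  have h6 : shiftX a W = lines Φ ε P (X + a, v) p := by
    funext i
    have e1 : W i = lines Φ ε P (X, v) p i := (congrFun h5 i).symm
    rw [Hid424.lines_shift] at e1 ⊢
    show ((W i).1 + a, (W i).2) = _
    rw [e1]
    simp only [Prod.mk.injEq, and_true]
    abel
  rw [h6]
  refine mem_CW1 hΦ hε ⟨h2.1, (hsep _ _).2 h2.2⟩ h3 ?_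
  rintro ⟨h7, h8⟩
  exact h4 ⟨h7, h8.1, (hsep _ _).1 h8.2⟩

theorem cw_shift (hΦ : AdmissiblePotential Φ) {ε T : ℝ} (hε : 0 < ε) {m : κ} {s : ℝ}
    {Y : κ → PhasePoint} {c : Space3 × Plane} (a : Space3) (h : (s, (Y, c)) ∈ CW Φ ε T m) :
    (s, (shiftX a Y, c)) ∈ CW Φ ε T m := by
  obtain ⟨P, e, h⟩ := h
  exact ⟨P, e, cw1_shift hΦ hε a h⟩

theorem badY_shift (hΦ : AdmissiblePotential Φ) {ε T : ℝ} (hε : 0 < ε) {m : κ} {s : ℝ}
    {Y : κ → PhasePoint} {z : PhasePoint} (a : Space3) (h : (s, (Y, z)) ∈ badY Φ ε T m) :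
    (s, (shiftX a Y, (z.1 + a, z.2))) ∈ badY Φ ε T m := by
  have h1 := cw_shift hΦ hε a h
  show (s, (shiftX a Y, (z.2, Flux350.cpl ((flow Φ ε s (shiftX a Y) m).2 - z.2)
    ((1 / ε) • (z.1 + a - (flow Φ ε s (shiftX a Y) m).1))))) ∈ CW Φ ε T m
  rw [flow_shiftX hΦ hε]
  have e1 : z.1 + a - (shiftX a (flow Φ ε s Y) m).1 = z.1 - (flow Φ ε s Y m).1 := by
    show z.1 + a - ((flow Φ ε s Y m).1 + a) = _
    abel
  rw [e1]
  exact h1

theorem badY_shift_iff (hΦ : AdmissiblePotential Φ) {ε T : ℝ} (hε : 0 < ε) {m : κ} {s : ℝ}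
    {Y : κ → PhasePoint} {z : PhasePoint} (a : Space3) :
    (s, (shiftX a Y, (z.1 + a, z.2))) ∈ badY Φ ε T m ↔ (s, (Y, z)) ∈ badY Φ ε T m := by
  refine ⟨fun h => ?_, badY_shift hΦ hε a⟩
  have h1 := badY_shift hΦ hε (-a) h
  have e1 : shiftX (-a) (shiftX a Y) = Y := by
    have := shiftX_neg (-a) Y
    rwa [neg_neg] at this
  rw [e1] at h1
  simpa using h1

/-! ## Change of pin in `cherry` -/

/-- integrand of `HY` -/
def hyI (Φ : Space3 → ℝ) (ε T b : ℝ) (m : κ) (s : ℝ) (Y : κ → PhasePoint) (w : Space3)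
    (y : Plane) : ℝ≥0∞ :=
  ENNReal.ofReal ‖(flow Φ ε s Y m).2 - w‖ *
    (ENNReal.ofReal (Real.exp (-b * (∑ x, ‖(Y x).2‖ ^ 2 + ‖w‖ ^ 2))) *
      (badY Φ ε T m).indicator (1 : ℝ × ((κ → PhasePoint) × PhasePoint) → ℝ≥0∞)
        (s, (Y, ((flow Φ ε s Y m).1 + ε • entrancePoint (frameMap ((flow Φ ε s Y m).2 - w) y)
          ((flow Φ ε s Y m).2 - w), w))))

/-- translation invariant part of 796's functional -/
def HY (Φ : Space3 → ℝ) (ε T b : ℝ) (m : κ) (s : ℝ) (Y : κ → PhasePoint) : ℝ≥0∞ :=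
  ∫⁻ w : Space3, ∫⁻ y in Metric.ball (0 : Plane) 1, hyI Φ ε T b m s Y w y

theorem HY_shift (hΦ : AdmissiblePotential Φ) {ε : ℝ} (hε : 0 < ε) (T b : ℝ) (m : κ) (s : ℝ)
    (a : Space3) (Y : κ → PhasePoint) : HY Φ ε T b m s (shiftX a Y) = HY Φ ε T b m s Y := by
  unfold HY
  refine lintegral_congr fun w => lintegral_congr fun y => ?_
  unfold hyI
  rw [flow_shiftX hΦ hε]
  have e0 : ∀ x, (shiftX a Y x).2 = (Y x).2 := fun _ => rfl
  have e1 : (shiftX a (flow Φ ε s Y) m).2 = (flow Φ ε s Y m).2 := rfl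
  have e2 : (shiftX a (flow Φ ε s Y) m).1 = (flow Φ ε s Y m).1 + a := rfl
  simp only [e0, e1, e2]
  congr 2
  have e3 : (flow Φ ε s Y m).1 + a + ε • entrancePoint (frameMap ((flow Φ ε s Y m).2 - w) y)
      ((flow Φ ε s Y m).2 - w) = ((flow Φ ε s Y m).1 + ε • entrancePoint
        (frameMap ((flow Φ ε s Y m).2 - w) y) ((flow Φ ε s Y m).2 - w)) + a := by abel
  rw [e3]
  by_cases h : (s, (Y, ((flow Φ ε s Y m).1 + ε • entrancePoint
      (frameMap ((flow Φ ε s Y m).2 - w) y) ((flow Φ ε s Y m).2 - w), w))) ∈ badY Φ ε T m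
  · rw [indicator_of_mem h, indicator_of_mem ((badY_shift_iff hΦ hε a (z := ((flow Φ ε s Y m).1 +
      ε • entrancePoint (frameMap ((flow Φ ε s Y m).2 - w) y) ((flow Φ ε s Y m).2 - w), w))).2 h)]
    rfl
  · rw [indicator_of_notMem h, indicator_of_notMem fun hc => h ((badY_shift_iff hΦ hε a
      (z := ((flow Φ ε s Y m).1 + ε • entrancePoint (frameMap ((flow Φ ε s Y m).2 - w) y)
        ((flow Φ ε s Y m).2 - w), w))).1 hc)]

theorem measurable_flow_time (hΦ : AdmissiblePotential Φ) {ε : ℝ} (hε : 0 < ε) (s : ℝ) (m : κ) :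
    Measurable fun Y : κ → PhasePoint => flow Φ ε s Y m :=
  (measurable_pi_apply m).comp (measurable_flow hΦ hε s)

theorem measurable_HYint (hΦ : AdmissiblePotential Φ) {ε : ℝ} (hε : 0 < ε) (T b : ℝ) (m : κ)
    (s : ℝ) : Measurable fun q : ((κ → PhasePoint) × Space3) × Plane =>
      hyI Φ ε T b m s q.1.1 q.1.2 q.2 := by
  unfold hyI
  have hf : Measurable fun q : ((κ → PhasePoint) × Space3) × Plane => flow Φ ε s q.1.1 m :=
    (measurable_flow_time hΦ hε s m).comp measurable_fst.fst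
  have hw : Measurable fun q : ((κ → PhasePoint) × Space3) × Plane => q.1.2 := measurable_fst.snd
  have hg : Measurable fun q : ((κ → PhasePoint) × Space3) × Plane =>
      (flow Φ ε s q.1.1 m).2 - q.1.2 := hf.snd.sub hw
  have hv : ∀ x : κ, Measurable fun q : ((κ → PhasePoint) × Space3) × Plane => (q.1.1 x).2 :=
    fun x => ((measurable_pi_apply x).comp measurable_fst.fst).snd
  have hE : Measurable fun q : ((κ → PhasePoint) × Space3) × Plane =>
      entrancePoint (frameMap ((flow Φ ε s q.1.1 m).2 - q.1.2) q.2)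
        ((flow Φ ε s q.1.1 m).2 - q.1.2) := by
    exact Scat818.measurable_entrancePoint.comp
      ((measurable_frameMap.comp (hg.prodMk measurable_snd)).prodMk hg)
  refine hg.norm.ennreal_ofReal.mul (Measurable.mul ?_ ?_)
  · refine (Real.measurable_exp.comp ((?_ : Measurable _).const_mul (-b))).ennreal_ofReal
    exact (Finset.measurable_sum _ fun x _ => (hv x).norm.pow_const 2).add (hw.norm.pow_const 2)
  · refine (measurable_one.indicator (measurableSet_badY hΦ hε m)).comp ?_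
    exact measurable_const.prodMk (measurable_fst.fst.prodMk
      ((hf.fst.add (hE.const_smul ε)).prodMk hw))

/-- 796's functional with a pin `p`. -/
def GYp (Φ : Space3 → ℝ) (ε T b : ℝ) (m : κ) (p : (κ → PhasePoint) → Space3)
    (Ψ : Space3 → ℝ≥0∞) (s : ℝ) (Y : κ → PhasePoint) (z : PhasePoint) : ℝ≥0∞ :=
  (ENNReal.ofReal (Real.exp (-b * (∑ x, ‖(Y x).2‖ ^ 2 + ‖z.2‖ ^ 2))) * Ψ (p Y)) *
    (badY Φ ε T m).indicator (1 : ℝ × ((κ → PhasePoint) × PhasePoint) → ℝ≥0∞) (s, (Y, z))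

theorem measurable_HY (hΦ : AdmissiblePotential Φ) {ε : ℝ} (hε : 0 < ε) (T b : ℝ) (m : κ)
    (s : ℝ) : Measurable (HY Φ ε T b m s) := by
  have h1 := (measurable_HYint hΦ hε T b m s).lintegral_prod_right'
    (ν := (volume : Measure Plane).restrict (Metric.ball 0 1))
  exact h1.lintegral_prod_right' (ν := (volume : Measure Space3))

theorem lint2_const_mul {F : Space3 × Plane → ℝ≥0∞} (hF : Measurable F) (c : ℝ≥0∞) :
    ∫⁻ w : Space3, ∫⁻ y in Metric.ball (0 : Plane) 1, c * F (w, y) =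
      c * ∫⁻ w : Space3, ∫⁻ y in Metric.ball (0 : Plane) 1, F (w, y) := by
  have e1 : ∀ w : Space3, ∫⁻ y in Metric.ball (0 : Plane) 1, c * F (w, y) =
      c * ∫⁻ y in Metric.ball (0 : Plane) 1, F (w, y) := fun w =>
    lintegral_const_mul _ (hF.comp (measurable_const.prodMk measurable_id))
  simp_rw [e1]
  exact lintegral_const_mul _ (hF.lintegral_prod_right')

theorem GYp_eq (Φ : Space3 → ℝ) (ε T b : ℝ) (m : κ) (p : (κ → PhasePoint) → Space3)
    (Ψ : Space3 → ℝ≥0∞) (s : ℝ) (Y : κ → PhasePoint) (w : Space3) (y : Plane) :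
    ENNReal.ofReal ‖(flow Φ ε s Y m).2 - w‖ * GYp Φ ε T b m p Ψ s Y
        ((flow Φ ε s Y m).1 + ε • entrancePoint (frameMap ((flow Φ ε s Y m).2 - w) y)
          ((flow Φ ε s Y m).2 - w), w) = Ψ (p Y) * hyI Φ ε T b m s Y w y := by
  unfold GYp hyI
  generalize ENNReal.ofReal ‖(flow Φ ε s Y m).2 - w‖ = A
  generalize (badY Φ ε T m).indicator (1 : ℝ × ((κ → PhasePoint) × PhasePoint) → ℝ≥0∞)
    (s, (Y, ((flow Φ ε s Y m).1 + ε • entrancePoint (frameMap ((flow Φ ε s Y m).2 - w) y)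
      ((flow Φ ε s Y m).2 - w), w))) = B
  generalize Ψ (p Y) = C
  simp only
  ring

theorem lintegral_GYp (hΦ : AdmissiblePotential Φ) {ε : ℝ} (hε : 0 < ε) (T b : ℝ) (m : κ)
    (p : (κ → PhasePoint) → Space3) (Ψ : Space3 → ℝ≥0∞) (s : ℝ) (Y : κ → PhasePoint) :
    ∫⁻ w : Space3, ∫⁻ y in Metric.ball (0 : Plane) 1,
      ENNReal.ofReal ‖(flow Φ ε s Y m).2 - w‖ * GYp Φ ε T b m p Ψ s Y
        ((flow Φ ε s Y m).1 + ε • entrancePoint (frameMap ((flow Φ ε s Y m).2 - w) y)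
          ((flow Φ ε s Y m).2 - w), w) = Ψ (p Y) * HY Φ ε T b m s Y := by
  have hm1 : Measurable fun q : Space3 × Plane => ((Y, q.1), q.2) :=
    (measurable_const.prodMk measurable_fst).prodMk measurable_snd
  have hm2 : Measurable fun q : Space3 × Plane => hyI Φ ε T b m s Y q.1 q.2 :=
    Measurable.comp (g := fun q : ((κ → PhasePoint) × Space3) × Plane =>
      hyI Φ ε T b m s q.1.1 q.1.2 q.2) (f := fun q : Space3 × Plane => ((Y, q.1), q.2))
      (measurable_HYint (κ := κ) hΦ hε T b m s) hm1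
  simp only [GYp_eq]
  exact lint2_const_mul hm2 (Ψ (p Y))

theorem GYp_apply (Φ : Space3 → ℝ) (ε T b : ℝ) (m i0 : κ) (Ψ : Space3 → ℝ≥0∞) :
    GYp Φ ε T b m (fun Y => (Y i0).1) Ψ = GY Φ ε T b m i0 Ψ := rfl

/-- **796's bound with an arbitrary covariant pin** (the same gain `q`). -/
theorem cherry_pin (hΦ : AdmissiblePotential Φ) (m : κ) {b : ℝ} (hb : 0 < b) (T : ℝ) :
    ∃ q : ℝ → ℝ≥0∞, Tendsto q (𝓝[>] 0) (𝓝 0) ∧ ∀ (ε : ℝ) (p : (κ → PhasePoint) → Space3)
      (Ψ : Space3 → ℝ≥0∞), 0 < ε → Pin p → Measurable Ψ →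
      ∫⁻ s in Icc 0 T, ∫⁻ Y : κ → PhasePoint, ∫⁻ w : Space3, ∫⁻ y in Metric.ball (0 : Plane) 1,
        ENNReal.ofReal ‖(flow Φ ε s Y m).2 - w‖ * GYp Φ ε T b m p Ψ s Y
          ((flow Φ ε s Y m).1 + ε • entrancePoint (frameMap ((flow Φ ε s Y m).2 - w) y)
            ((flow Φ ε s Y m).2 - w), w) ≤
        ENNReal.ofReal (ε ^ 2) ^ (Fintype.card κ - 1) * ((∫⁻ x, Ψ x) * q ε) := by
  obtain ⟨q, hq1, hq2⟩ := cherry hΦ m m hb T
  refine ⟨q, hq1, fun ε p Ψ hε hp hΨ => ?_⟩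
  refine le_trans (le_of_eq ?_) (hq2 ε Ψ hε hΨ)
  refine lintegral_congr fun s => ?_
  rw [← GYp_apply]
  simp only [lintegral_GYp hΦ hε]
  have hT : TInv (HY Φ ε T b m s) := ⟨measurable_HY hΦ hε T b m s, fun a Y => HY_shift hΦ hε T b m s a Y⟩
  rw [lintegral_pin hp (pin_apply m) hT hΨ measurable_hb lintegral_hb,
    lintegral_pin (pin_apply m) (pin_apply m) hT hΨ measurable_hb lintegral_hb]

/-! ## The majorant -/

section one

variable {ε : ℝ} {ι : Type*}

/-- **Bad one-particle releases**, arbitrary function of the remaining group (proof of 350). -/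
theorem bad_one_ofG (hΦ : AdmissiblePotential Φ) (hε : 0 < ε) {T : ℝ} (hT : 0 ≤ T)
    {A A' : Finset ι} (h : A' ⊆ A) (hc : A'.card + 1 = A.card) 
    {G0 : (A' → PhasePoint) → ℝ≥0∞} (hG0 : Measurable G0)
    {C : A' → Set (ℝ × ((A' → PhasePoint) × PhasePoint))} (hC : ∀ m, MeasurableSet (C m))
    (γ : ℝ) {B : A' → ℝ≥0∞}
    (hB : ∀ m, ∫⁻ s in Icc 0 T, ∫⁻ W : A' → PhasePoint, ∫⁻ w : Space3,
      ∫⁻ y in Metric.ball (0 : Plane) 1,
        ENNReal.ofReal (Real.exp (-(γ * (energy Φ ε W + ‖w‖ ^ 2 / 2)))) *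
        (ENNReal.ofReal ‖(flow Φ ε s W m).2 - w‖ * (G0 W * (C m).indicator 1 (s, (W,
          ((flow Φ ε s W m).1 + ε • entrancePoint (frameMap ((flow Φ ε s W m).2 - w) y)
            ((flow Φ ε s W m).2 - w), w))))) ≤ B m) :
    ∃ M : (A → PhasePoint) → ℝ≥0∞, Measurable M ∧
      (∀ (W : A → PhasePoint) (W' : A' → PhasePoint) (s : ℝ), s ∈ Icc 0 T → Step Φ ε s W W' →
        ∀ (j : A) (m : A'), (j : ι) ∉ A' → dist (flow Φ ε s W j).1 (flow Φ ε s W' m).1 = ε →
          (inner ℝ ((flow Φ ε s W j).1 - (flow Φ ε s W' m).1)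
            ((flow Φ ε s W j).2 - (flow Φ ε s W' m).2) = 0 ∨
            (s, (W', flow Φ ε s W j)) ∈ C m) → G0 W' ≤ M W) ∧
      ∫⁻ W, ENNReal.ofReal (Real.exp (-(γ * energy Φ ε W))) * M W ≤
        ENNReal.ofReal (ε ^ 2) * ∑ m : A', B m := by
  -- the released particle
  obtain ⟨j0, hj0, hj0'⟩ : ∃ j : ι, j ∈ A ∧ j ∉ A' := by
    by_contra hcon
    push Not at hcon
    have := Finset.card_le_card (show A ⊆ A' from hcon)
    omega
  have huniq : ∀ j : A, (j : ι) ∉ A' → j = ⟨j0, hj0⟩ := by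
    intro j hj
    by_contra hne
    have hne' : (j : ι) ≠ j0 := fun he => hne (Subtype.ext he)
    have h1 : insert (j : ι) (insert j0 A') ⊆ A := by
      intro x hx
      rw [Finset.mem_insert, Finset.mem_insert] at hx
      rcases hx with rfl | rfl | hx
      · exact j.2
      · exact hj0
      · exact h hx
    have h2 := Finset.card_le_card h1
    rw [Finset.card_insert_of_notMem (by
      rw [Finset.mem_insert]; push Not; exact ⟨hne', hj⟩), Finset.card_insert_of_notMem hj0'] at h2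
    omega
  -- the functional
  set G : ℝ → (A' → PhasePoint) → A' → PhasePoint → ℝ≥0∞ := fun s W' m u =>
    G0 W' * ((C m).indicator 1 (s, (W', u)) +
      {q : ℝ × ((A' → PhasePoint) × PhasePoint) | inner ℝ (q.2.2.1 - (flow Φ ε q.1 q.2.1 m).1)
        (q.2.2.2 - (flow Φ ε q.1 q.2.1 m).2) = 0}.indicator (fun _ => ∞) (s, (W', u))) with hGd
  have hgr : ∀ m : A', MeasurableSet {q : ℝ × ((A' → PhasePoint) × PhasePoint) |
      inner ℝ (q.2.2.1 - (flow Φ ε q.1 q.2.1 m).1) (q.2.2.2 - (flow Φ ε q.1 q.2.1 m).2) = 0} := by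
    intro m
    have h1 : Measurable (fun q : ℝ × ((A' → PhasePoint) × PhasePoint) => flow Φ ε q.1 q.2.1 m) := by
      have h := (measurable_flow_apply (κ := A') hΦ hε m).comp
        (measurable_fst.prodMk (measurable_fst.comp measurable_snd) :
          Measurable fun q : ℝ × ((A' → PhasePoint) × PhasePoint) => (q.1, q.2.1))
      exact h
    have h2 : Measurable (fun q : ℝ × ((A' → PhasePoint) × PhasePoint) => q.2.2) :=
      measurable_snd.comp measurable_snd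
    have h3 : Measurable (fun q : Space3 × Space3 => inner ℝ q.1 q.2) :=
      Continuous.measurable (by fun_prop)
    have h4 := h3.comp ((h2.fst.sub h1.fst).prodMk (h2.snd.sub h1.snd))
    exact measurableSet_eq_fun h4 measurable_const
  have hG : ∀ m, Measurable fun p : ℝ × (A' → PhasePoint) × PhasePoint => G p.1 p.2.1 m p.2.2 := by
    intro m
    have h1 : Measurable (fun p : ℝ × (A' → PhasePoint) × PhasePoint => G0 p.2.1) :=
      hG0.comp (measurable_fst.comp measurable_snd)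
    have h2 : Measurable (fun p : ℝ × (A' → PhasePoint) × PhasePoint =>
        (C m).indicator (1 : ℝ × ((A' → PhasePoint) × PhasePoint) → ℝ≥0∞) (p.1, (p.2.1, p.2.2))) :=
      measurable_one.indicator (hC m)
    have h3 : Measurable (fun p : ℝ × (A' → PhasePoint) × PhasePoint =>
        {q : ℝ × ((A' → PhasePoint) × PhasePoint) | inner ℝ (q.2.2.1 - (flow Φ ε q.1 q.2.1 m).1)
        (q.2.2.2 - (flow Φ ε q.1 q.2.1 m).2) = 0}.indicator (fun _ => (∞ : ℝ≥0∞))
          (p.1, (p.2.1, p.2.2))) :=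
      measurable_const.indicator (hgr m)
    exact h1.mul (h2.add h3)
  obtain ⟨M, hM, hM1, hM2⟩ := FS1fin hΦ hε hT h hc ⟨j0, hj0⟩ hj0' hG γ
  refine ⟨M, hM, ?_, hM2.trans ?_⟩
  · intro W W' s hs hS j m hj hd hbad
    have hjj := huniq j hj
    have hfl : flow Φ ε s W' m = flow Φ ε s W ⟨m, h m.2⟩ := by
      have := congrFun (hS.flow_eq hΦ hε) m
      exact this
    have h1 := hM1 W W' s hs hS m (by rw [← hjj, ← hfl]; exact hd)
    rw [← hjj] at h1
    refine le_trans ?_ h1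
    rw [hGd]
    simp only
    rcases hbad with hb | hb
    · have : (s, (W', flow Φ ε s W j)) ∈ {q : ℝ × ((A' → PhasePoint) × PhasePoint) |
        inner ℝ (q.2.2.1 - (flow Φ ε q.1 q.2.1 m).1) (q.2.2.2 - (flow Φ ε q.1 q.2.1 m).2) = 0} := hb
      rw [indicator_of_mem this, add_top]
      by_cases h0 : G0 W' = 0
      · rw [h0]; exact zero_le
      · rw [ENNReal.mul_top h0]; exact le_top
    · rw [indicator_of_mem hb]
      calc G0 W' = G0 W' * 1 := (mul_one _).symm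
        _ ≤ _ := mul_le_mul_right (le_trans (le_of_eq rfl) le_self_add) _
  · refine mul_le_mul_right (Finset.sum_le_sum fun m _ => ?_) _
    refine le_trans (le_of_eq ?_) (hB m)
    refine lintegral_congr fun s => ?_
    rw [← lintegral_flow (κ := A') hΦ hε s (fun Z : A' → PhasePoint => ∫⁻ w : Space3,
      ∫⁻ y in Metric.ball (0 : Plane) 1,
        ENNReal.ofReal (Real.exp (-(γ * (energy Φ ε Z + ‖w‖ ^ 2 / 2)))) *
          (ENNReal.ofReal ‖(Z m).2 - w‖ * G s (flow Φ ε (-s) Z) m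
            ((Z m).1 + ε • entrancePoint (frameMap ((Z m).2 - w) y) ((Z m).2 - w), w)))]
    refine lintegral_congr fun W => lintegral_congr fun w => ?_
    refine setLIntegral_congr_fun measurableSet_ball fun y hy => ?_
    have hy1 : ‖y‖ < 1 := by simpa using hy
    simp only [flow_neg_flow hΦ hε, energy_flow hΦ hε]
    congr 1
    by_cases hg : (flow Φ ε s W m).2 - w = 0
    · rw [hg, norm_zero, ENNReal.ofReal_zero, zero_mul, zero_mul]
    · congr 1
      rw [hGd]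
      simp only
      have hni : (s, (W, ((flow Φ ε s W m).1 + ε • entrancePoint (frameMap ((flow Φ ε s W m).2 - w) y)
            ((flow Φ ε s W m).2 - w), w))) ∉ {q : ℝ × ((A' → PhasePoint) × PhasePoint) |
        inner ℝ (q.2.2.1 - (flow Φ ε q.1 q.2.1 m).1) (q.2.2.2 - (flow Φ ε q.1 q.2.1 m).2) = 0} := by
        intro hcon
        have h1 : inner ℝ ((flow Φ ε s W m).1 + ε • entrancePoint
          (frameMap ((flow Φ ε s W m).2 - w) y) ((flow Φ ε s W m).2 - w) - (flow Φ ε s W m).1)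
          (w - (flow Φ ε s W m).2) = 0 := hcon
        rw [add_sub_cancel_left, ← neg_sub (flow Φ ε s W m).2 w] at h1
        exact inner_entrance_pos hε hg hy1 h1
      rw [indicator_of_notMem hni, add_zero]

end one

/-- the weight of the pinned functional is the energy weight -/
theorem weight_eq_pin (hΦ : AdmissiblePotential Φ) {ε : ℝ} (hε : 0 < ε) {T : ℝ} (hT : 0 ≤ T)
    (γ : ℝ) (m : κ) (p : (κ → PhasePoint) → Space3) (Ψ : Space3 → ℝ≥0∞) (s : ℝ)
    (W : κ → PhasePoint) (z : PhasePoint) (N : ℝ≥0∞) :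
    ENNReal.ofReal (Real.exp (-(γ * (energy Φ ε W + ‖z.2‖ ^ 2 / 2)))) *
      (N * (Ψ (p W) * (badY Φ ε T m).indicator 1 (s, (W, z)))) =
    N * GYp Φ ε T (γ / 2) m p Ψ s W z := by
  unfold GYp
  by_cases hb : (s, (W, z)) ∈ badY Φ ε T m
  · rw [energy_badY hΦ hε hT hb]
    rw [show -(γ * ((∑ x, ‖(W x).2‖ ^ 2) / 2 + ‖z.2‖ ^ 2 / 2)) =
      -(γ / 2) * (∑ x, ‖(W x).2‖ ^ 2 + ‖z.2‖ ^ 2) by ring]
    ring
  · rw [indicator_of_notMem hb]
    simp

/-- **Bad one-particle release steps, localised at an arbitrary covariant point of the remaining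
group** (350's `bad_one` with the pin `p`). -/
theorem bad_one_pin {ι : Type} [Fintype ι] (hΦ : AdmissiblePotential Φ) {γ : ℝ} (hγ : 0 < γ)
    (T : ℝ) :
    ∃ q : ℝ → ℝ≥0∞, Tendsto q (𝓝[>] 0) (𝓝 0) ∧ ∀ ε : ℝ, 0 < ε →
      ∀ (A A' : Finset ι), A'.card + 1 = A.card → ∀ (p : (A' → PhasePoint) → Space3), Pin p →
      ∀ (Ψ : Space3 → ℝ≥0∞), Measurable Ψ →
      ∃ M : (A → PhasePoint) → ℝ≥0∞, Measurable M ∧
        (∀ (W : A → PhasePoint) (s : ℝ) (W' : A' → PhasePoint), s ∈ Icc 0 T → Step Φ ε s W W' →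
          ∀ (j : A) (m i' : A'), (j : ι) ∉ A' →
            dist (flow Φ ε s W j).1 (flow Φ ε s W' m).1 = ε →
            (inner ℝ ((flow Φ ε s W j).1 - (flow Φ ε s W' m).1)
                ((flow Φ ε s W j).2 - (flow Φ ε s W' m).2) = 0 ∨
              0 < inner ℝ ((flow Φ ε s W j).1 - (flow Φ ε s W' m).1)
                ((flow Φ ε s W j).2 - (flow Φ ε s W' m).2) ∧
              BadGraft Φ ε T i' s W' m (flow Φ ε s W j)) →
            Ψ (p W') ≤ M W) ∧
        ∫⁻ W, ENNReal.ofReal (Real.exp (-(γ * energy Φ ε W))) * M W ≤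
          q ε * ENNReal.ofReal (ε ^ (2 * (A.card - 1))) * ∫⁻ x, Ψ x := by
  choose q hq1 hq2 using fun (A' : Finset ι) (m : A') =>
    cherry_pin (κ := A') hΦ m (half_pos hγ) T
  refine ⟨fun ε => ∑ A' : Finset ι, ∑ m : A', q A' m ε, ?_, ?_⟩
  · have h : Tendsto (fun ε => ∑ A' : Finset ι, ∑ m : A', q A' m ε) (𝓝[>] 0)
        (𝓝 (∑ A' : Finset ι, ∑ _m : A', 0)) :=
      tendsto_finsetSum _ fun A' _ => tendsto_finsetSum _ fun m _ => hq1 A' m
    simpa using h
  intro ε hε A A' hc p hp Ψ hΨ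
  by_cases hgood : 0 ≤ T ∧ A' ⊆ A ∧ A'.Nonempty
  swap
  · refine ⟨fun _ => 0, measurable_const, ?_, ?_⟩
    · intro W s W' hs hS j m i' hj hd hbad
      exact absurd ⟨hs.1.trans hs.2, hS.sub, ⟨i', i'.2⟩⟩ hgood
    · simp
  obtain ⟨hT, hsub, hne⟩ := hgood
  have hB : ∀ m : A', ∫⁻ s in Icc 0 T, ∫⁻ W : A' → PhasePoint, ∫⁻ w : Space3,
      ∫⁻ y in Metric.ball (0 : Plane) 1,
        ENNReal.ofReal (Real.exp (-(γ * (energy Φ ε W + ‖w‖ ^ 2 / 2)))) *
        (ENNReal.ofReal ‖(flow Φ ε s W m).2 - w‖ * (Ψ (p W) * (badY Φ ε T m).indicator 1 (s, (W,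
          ((flow Φ ε s W m).1 + ε • entrancePoint (frameMap ((flow Φ ε s W m).2 - w) y)
            ((flow Φ ε s W m).2 - w), w))))) ≤
      ENNReal.ofReal (ε ^ 2) ^ (Fintype.card A' - 1) * ((∫⁻ x, Ψ x) * q A' m ε) := by
    intro m
    refine le_trans (le_of_eq ?_) (hq2 A' m ε p Ψ hε hp hΨ)
    refine lintegral_congr fun s => lintegral_congr fun W => lintegral_congr fun w =>
      lintegral_congr fun y => ?_
    exact weight_eq_pin hΦ hε hT γ m p Ψ s W
      ((flow Φ ε s W m).1 + ε • entrancePoint (frameMap ((flow Φ ε s W m).2 - w) y)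
        ((flow Φ ε s W m).2 - w), w) (ENNReal.ofReal ‖(flow Φ ε s W m).2 - w‖)
  obtain ⟨M, hM, hM1, hM2⟩ := bad_one_ofG hΦ hε hT hsub hc (G0 := fun W => Ψ (p W))
    (hΨ.comp hp.1) (C := fun m => badY Φ ε T m) (fun m => measurableSet_badY hΦ hε m) γ hB
  refine ⟨M, hM, ?_, hM2.trans ?_⟩
  · intro W s W' hs hS j m i' hj hd hbad
    refine hM1 W W' s hs hS j m hj hd ?_
    rcases hbad with hb | ⟨-, hb⟩
    · exact Or.inl hb
    · exact Or.inr (mem_badY hΦ hε hb)
  · have hcard : Fintype.card A' = A'.card := Fintype.card_coe A'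
    have hpos : 1 ≤ A'.card := Finset.card_pos.2 hne
    have h1 : ENNReal.ofReal (ε ^ 2) * ENNReal.ofReal (ε ^ 2) ^ (Fintype.card A' - 1) =
        ENNReal.ofReal (ε ^ (2 * (A.card - 1))) := by
      rw [← pow_succ', hcard, ← ENNReal.ofReal_pow (sq_nonneg ε), ← pow_mul]
      congr 3
      omega
    rw [← Finset.mul_sum, ← Finset.mul_sum, ← mul_assoc, h1]
    have h2 : ∑ m : A', q A' m ε ≤ ∑ A' : Finset ι, ∑ m : A', q A' m ε :=
      Finset.single_le_sum (f := fun A' : Finset ι => ∑ m : A', q A' m ε)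
        (fun _ _ => zero_le) (Finset.mem_univ A')
    calc ENNReal.ofReal (ε ^ (2 * (A.card - 1))) * ((∫⁻ x, Ψ x) * ∑ m : A', q A' m ε)
        ≤ ENNReal.ofReal (ε ^ (2 * (A.card - 1))) * ((∫⁻ x, Ψ x) *
          ∑ A' : Finset ι, ∑ m : A', q A' m ε) :=
          mul_le_mul_right (mul_le_mul_right h2 _) _
      _ = _ := by ring

end Crest.Agent.R122.BadPin416

end
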