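import Mathlib

/-!
Row 122 (helper399): product transfer identities on `Fin n`-indexed dependent products.
-/

set_option autoImplicit false

open MeasureTheory Set Filter Topology
open scoped Classical ENNReal

noncomputable section

namespace Crest.Agent.R122.PiTrans399

universe u

/-! ### Tonelli for `Fin (n+1)` -/

/-- Tonelli on a dependent product over `Fin (n+1)`. -/
theorem lintegral_fin_cons {n : ℕ} {X : Fin (n + 1) → Type*} [∀ i, MeasurableSpace (X i)]
    (μ : ∀ i, Measure (X i)) [∀ i, SigmaFinite (μ i)] {H : (∀ i, X i) → ℝ≥0∞}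
    (hH : Measurable H) :
    ∫⁻ x, H x ∂(Measure.pi μ) =
      ∫⁻ x0, ∫⁻ x' : (∀ i : Fin n, X i.succ), H (Fin.cons x0 x')
        ∂(Measure.pi fun i : Fin n => μ i.succ) ∂(μ 0) := by
  have h := (measurePreserving_piFinSuccAbove μ 0).symm
  rw [← h.lintegral_comp_emb (MeasurableEquiv.measurableEmbedding _)]
  rw [lintegral_prod _ (by
    refine Measurable.aemeasurable ?_
    exact hH.comp (MeasurableEquiv.measurable _))]
  refine lintegral_congr fun x0 => lintegral_congr fun x' => ?_
  congr 1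
  funext i
  refine Fin.cases ?_ (fun j => ?_) i
  · rfl
  · rfl

theorem measurable_cons {n : ℕ} {X : Fin (n + 1) → Type*} [∀ i, MeasurableSpace (X i)] :
    Measurable fun z : X 0 × (∀ i : Fin n, X i.succ) => (Fin.cons z.1 z.2 : ∀ i, X i) := by
  refine measurable_pi_lambda _ fun i => ?_
  refine Fin.cases ?_ (fun j => ?_) i
  · exact measurable_fst
  · exact (measurable_pi_apply j).comp measurable_snd

/-- **Product of transfer identities.** -/
theorem pi_transfer : ∀ {n : ℕ} {X Y Z : Fin n → Type u} [∀ i, MeasurableSpace (X i)]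
    [∀ i, MeasurableSpace (Y i)] [∀ i, MeasurableSpace (Z i)]
    (μ : ∀ i, Measure (X i)) [∀ i, SigmaFinite (μ i)]
    (ν : ∀ i, Measure (Y i)) [∀ i, SigmaFinite (ν i)]
    {w : ∀ i, X i → ℝ≥0∞} {ρ : ∀ i, Y i → ℝ≥0∞} (_ : ∀ i, Measurable (w i))
    (_ : ∀ i, Measurable (ρ i)) {f : ∀ i, X i → Z i} {g : ∀ i, Y i → Z i}
    (_ : ∀ i, Measurable (f i)) (_ : ∀ i, Measurable (g i))
    (_ : ∀ i, ∀ G : Z i → ℝ≥0∞, Measurable G →
      ∫⁻ x, w i x * G (f i x) ∂(μ i) = ∫⁻ y, ρ i y * G (g i y) ∂(ν i))
    {H : (∀ i, Z i) → ℝ≥0∞} (_ : Measurable H),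
    ∫⁻ x : ∀ i, X i, (∏ i, w i (x i)) * H (fun i => f i (x i)) ∂(Measure.pi μ) =
      ∫⁻ y : ∀ i, Y i, (∏ i, ρ i (y i)) * H (fun i => g i (y i)) ∂(Measure.pi ν) := by
  intro n
  induction n with
  | zero =>
    intro X Y Z _ _ _ μ _ ν _ w ρ hw hρ f g hf hg h H hH
    have e : ∀ (A B : Fin 0 → Type u) [∀ i, MeasurableSpace (A i)] (m : ∀ i, Measure (A i))
        [∀ i, SigmaFinite (m i)] (F : (∀ i, A i) → ℝ≥0∞),
        ∫⁻ x, F x ∂(Measure.pi m) = F (fun i => i.elim0) := by
      intro A B _ m _ F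
      rw [Measure.pi_of_empty m (fun i => i.elim0), lintegral_dirac]
    rw [e X X μ, e Y Y ν]
    simp only [Finset.univ_eq_empty, Finset.prod_empty, one_mul]
    congr 1
    funext i
    exact i.elim0
  | succ n ih =>
    intro X Y Z _ _ _ μ _ ν _ w ρ hw hρ f g hf hg h H hH
    have hm : ∀ {A : Fin (n + 1) → Type u} [∀ i, MeasurableSpace (A i)] {a : ∀ i, A i → ℝ≥0∞}
        {k : ∀ i, A i → Z i}, (∀ i, Measurable (a i)) → (∀ i, Measurable (k i)) →
        Measurable fun x : ∀ i, A i => (∏ i, a i (x i)) * H (fun i => k i (x i)) := by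
      intro A _ a k ha hk
      refine Measurable.mul (Finset.measurable_prod _ fun i _ => (ha i).comp (measurable_pi_apply i))
        (hH.comp (measurable_pi_lambda _ fun i => (hk i).comp (measurable_pi_apply i)))
    rw [lintegral_fin_cons μ (hm hw hf), lintegral_fin_cons ν (hm hρ hg)]
    have hcons : ∀ {A : Fin (n + 1) → Type u} (k : ∀ i, A i → Z i) (x0 : A 0)
        (x' : ∀ i : Fin n, A i.succ),
        (fun i => k i ((Fin.cons x0 x' : ∀ i, A i) i)) =
          (Fin.cons (k 0 x0) (fun i => k i.succ (x' i)) : ∀ i, Z i) := by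
      intro A k x0 x'
      funext i
      refine Fin.cases ?_ (fun j => ?_) i
      · simp
      · simp
    have hprod : ∀ {A : Fin (n + 1) → Type u} (a : ∀ i, A i → ℝ≥0∞) (x0 : A 0)
        (x' : ∀ i : Fin n, A i.succ),
        (∏ i, a i ((Fin.cons x0 x' : ∀ i, A i) i)) = a 0 x0 * ∏ i : Fin n, a i.succ (x' i) := by
      intro A a x0 x'
      rw [Fin.prod_univ_succ]
      simp
    -- step 1 : transfer of the tail
    have step1 : ∀ x0 : X 0, ∫⁻ x' : (∀ i : Fin n, X i.succ),
          (∏ i, w i ((Fin.cons x0 x' : ∀ i, X i) i)) *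
            H (fun i => f i ((Fin.cons x0 x' : ∀ i, X i) i)) ∂(Measure.pi fun i : Fin n => μ i.succ)
        = ∫⁻ y' : (∀ i : Fin n, Y i.succ), (∏ i : Fin n, ρ i.succ (y' i)) *
            (w 0 x0 * H (Fin.cons (f 0 x0) fun i => g i.succ (y' i)))
              ∂(Measure.pi fun i : Fin n => ν i.succ) := by
      intro x0
      have := ih (fun i : Fin n => μ i.succ) (fun i : Fin n => ν i.succ)
        (fun i => hw i.succ) (fun i => hρ i.succ) (fun i => hf i.succ) (fun i => hg i.succ)
        (fun i => h i.succ) (H := fun z' => w 0 x0 * H (Fin.cons (f 0 x0) z'))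
        (measurable_const.mul (hH.comp (measurable_cons.comp (measurable_const.prodMk measurable_id))))
      rw [← this]
      refine lintegral_congr fun x' => ?_
      rw [hcons, hprod]
      ring
    simp_rw [step1]
    -- step 2 : Tonelli
    have hjoint : Measurable fun z : X 0 × (∀ i : Fin n, Y i.succ) =>
        (∏ i : Fin n, ρ i.succ (z.2 i)) *
            (w 0 z.1 * H (Fin.cons (f 0 z.1) fun i => g i.succ (z.2 i))) := by
      refine Measurable.mul (Finset.measurable_prod _ fun i _ =>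
        (hρ i.succ).comp ((measurable_pi_apply i).comp measurable_snd)) ?_
      refine Measurable.mul ((hw 0).comp measurable_fst) (hH.comp ?_)
      exact measurable_cons.comp (((hf 0).comp measurable_fst).prodMk
        (measurable_pi_lambda _ fun i => (hg i.succ).comp
          ((measurable_pi_apply i).comp measurable_snd)))
    rw [lintegral_lintegral_swap (f := fun x0 (y' : ∀ i : Fin n, Y i.succ) =>
        (∏ i : Fin n, ρ i.succ (y' i)) *
            (w 0 x0 * H (Fin.cons (f 0 x0) fun i => g i.succ (y' i)))) hjoint.aemeasurable]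
    have hjoint2 : Measurable fun z : Y 0 × (∀ i : Fin n, Y i.succ) =>
        (∏ i : Fin n, ρ i.succ (z.2 i)) *
            (ρ 0 z.1 * H (Fin.cons (g 0 z.1) fun i => g i.succ (z.2 i))) := by
      refine Measurable.mul (Finset.measurable_prod _ fun i _ =>
        (hρ i.succ).comp ((measurable_pi_apply i).comp measurable_snd)) ?_
      refine Measurable.mul ((hρ 0).comp measurable_fst) (hH.comp ?_)
      exact measurable_cons.comp (((hg 0).comp measurable_fst).prodMk
        (measurable_pi_lambda _ fun i => (hg i.succ).comp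
          ((measurable_pi_apply i).comp measurable_snd)))
    have step3 : ∀ y' : (∀ i : Fin n, Y i.succ),
        ∫⁻ x0, (∏ i : Fin n, ρ i.succ (y' i)) *
            (w 0 x0 * H (Fin.cons (f 0 x0) fun i => g i.succ (y' i))) ∂(μ 0) =
        ∫⁻ y0, (∏ i : Fin n, ρ i.succ (y' i)) *
            (ρ 0 y0 * H (Fin.cons (g 0 y0) fun i => g i.succ (y' i))) ∂(ν 0) := by
      intro y'
      have hG : Measurable fun z0 : Z 0 => H (Fin.cons z0 fun i : Fin n => g i.succ (y' i)) :=
        hH.comp (measurable_cons.comp (measurable_id.prodMk measurable_const))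
      have e1 := lintegral_const_mul (μ := μ 0) (∏ i : Fin n, ρ i.succ (y' i))
        (f := fun x0 => w 0 x0 * H (Fin.cons (f 0 x0) fun i => g i.succ (y' i)))
        ((hw 0).mul (hG.comp (hf 0)))
      have e2 := lintegral_const_mul (μ := ν 0) (∏ i : Fin n, ρ i.succ (y' i))
        (f := fun y0 => ρ 0 y0 * H (Fin.cons (g 0 y0) fun i => g i.succ (y' i)))
        ((hρ 0).mul (hG.comp (hg 0)))
      rw [e1, e2, h 0 (fun z0 => H (Fin.cons z0 fun i : Fin n => g i.succ (y' i))) hG]
    simp_rw [step3]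
    rw [← lintegral_lintegral_swap (f := fun y0 (y' : ∀ i : Fin n, Y i.succ) =>
        (∏ i : Fin n, ρ i.succ (y' i)) *
            (ρ 0 y0 * H (Fin.cons (g 0 y0) fun i => g i.succ (y' i)))) hjoint2.aemeasurable]
    refine lintegral_congr fun y0 => lintegral_congr fun y' => ?_
    rw [hcons, hprod]
    ring

/-- **Product formula**. -/
theorem lintegral_pi_prod {n : ℕ} {X : Fin n → Type u} [∀ i, MeasurableSpace (X i)]
    (μ : ∀ i, Measure (X i)) [∀ i, SigmaFinite (μ i)] {w : ∀ i, X i → ℝ≥0∞}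
    (hw : ∀ i, Measurable (w i)) :
    ∫⁻ x : ∀ i, X i, ∏ i, w i (x i) ∂(Measure.pi μ) = ∏ i, ∫⁻ x, w i x ∂(μ i) := by
  have h := pi_transfer (X := X) (Y := fun _ => PUnit.{u+1}) (Z := fun _ => PUnit.{u+1}) μ
    (fun _ => Measure.dirac PUnit.unit) (w := w) (ρ := fun i _ => ∫⁻ x, w i x ∂(μ i)) hw
    (fun _ => measurable_const) (f := fun _ _ => PUnit.unit) (g := fun _ _ => PUnit.unit)
    (fun _ => measurable_const) (fun _ => measurable_const) (fun i G _ => by
      rw [lintegral_mul_const _ (hw i), lintegral_dirac]) (H := fun _ => 1) measurable_const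
  simp only [mul_one] at h
  rw [h, lintegral_const]
  rw [Measure.pi_univ]
  simp

/-! ### Null sets in one coordinate -/

theorem pi_null_of_update {ι : Type*} [Fintype ι] [DecidableEq ι] {X : ι → Type*}
    [∀ i, MeasurableSpace (X i)] (μ : ∀ i, Measure (X i)) [∀ i, SigmaFinite (μ i)]
    {B : Set (∀ i, X i)} (hB : MeasurableSet B) (i : ι)
    (h : ∀ x : (∀ i, X i), μ i {y | Function.update x i y ∈ B} = 0) : Measure.pi μ B = 0 := by
  have hf : Measurable (B.indicator (1 : (∀ i, X i) → ℝ≥0∞)) := measurable_one.indicator hB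
  by_cases hne : Nonempty (∀ i, X i)
  · obtain ⟨x0⟩ := hne
    have h1 : Measure.pi μ B = (∫⋯∫⁻_Finset.univ, B.indicator 1 ∂μ) x0 := by
      rw [← lintegral_eq_lmarginal_univ x0, lintegral_indicator_one hB]
    have h2 : (∫⋯∫⁻_Finset.univ, B.indicator 1 ∂μ) =
        ∫⋯∫⁻_(Finset.univ.erase i), (fun x => ∫⁻ y, B.indicator 1 (Function.update x i y) ∂(μ i)) ∂μ :=
      lmarginal_erase' _ hf (Finset.mem_univ i)
    have h3 : (fun x => ∫⁻ y, B.indicator (1 : (∀ i, X i) → ℝ≥0∞) (Function.update x i y) ∂(μ i)) =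
        fun _ => 0 := by
      funext x
      have h4 : (fun y => B.indicator (1 : (∀ i, X i) → ℝ≥0∞) (Function.update x i y)) =
          ({y | Function.update x i y ∈ B}).indicator 1 := by
        funext y
        simp only [indicator, mem_ofPred_eq, Pi.one_apply]
      have h5 : MeasurableSet {y | Function.update x i y ∈ B} := hB.preimage (measurable_update x)
      rw [h4, lintegral_indicator_one h5, h x]
    rw [h1, h2, h3]
    simp [lmarginal]
  · have : B = ∅ := by
      ext x
      exact absurd ⟨x⟩ hne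
    rw [this, measure_empty]

/-- An a.e. statement about two coordinates. -/
theorem ae_pi_two {ι : Type*} [Fintype ι] [DecidableEq ι] {X : ι → Type*}
    [∀ i, MeasurableSpace (X i)] (μ : ∀ i, Measure (X i)) [∀ i, SigmaFinite (μ i)]
    {i j : ι} (hij : i ≠ j) {p : X i → X j → Prop} (hp : MeasurableSet {z : X i × X j | p z.1 z.2})
    (h : ∀ y : X j, ∀ᵐ x ∂(μ i), p x y) : ∀ᵐ x ∂(Measure.pi μ), p (x i) (x j) := by
  rw [ae_iff]
  refine pi_null_of_update μ ?_ i ?_
  · have : {x : ∀ i, X i | ¬ p (x i) (x j)} =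
        (fun x : ∀ i, X i => (x i, x j)) ⁻¹' {z : X i × X j | p z.1 z.2}ᶜ := rfl
    rw [this]
    exact hp.compl.preimage ((measurable_pi_apply i).prodMk (measurable_pi_apply j))
  · intro x
    have h1 := h (x j)
    rw [ae_iff] at h1
    convert h1 using 2
    ext y
    simp [Function.update_of_ne hij.symm]

end Crest.Agent.R122.PiTrans399

end
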