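import Crest.Agent.R122.VolFlux5_350
import Crest.Agent.R122.BadDefs_726
import Crest.Agent.R122.VolTaperDyn_365
import Crest.Agent.R122.PartProd_973
import Crest.Agent.R122.GCBounds_311

/-!
# Bad terminal groups have small measure (row 122, D5, cases (t0) and (t1), helper818)
-/

set_option autoImplicit false
set_option linter.unusedSectionVars false

open MeasureTheory Set Filter Topology
open Crest.AnalysisR.Kinetic
open Crest.Agent.R122.Flow671 Crest.Agent.R122.Loc45 Crest.Agent.R122.Chain726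
open Crest.Agent.R122.Flux350
open scoped Classical ENNReal

noncomputable section

namespace Crest.Agent.R122.BadTerm818

variable {Φ : Space3 → ℝ} {ε : ℝ} {κ : Type} [Fintype κ]

/-! ### A static product bound -/

/-- integral over a configuration with one particle singled out -/
lemma lintegral_root (i : κ) {f : PhasePoint → ℝ≥0∞} (hf : Measurable f)
    {g : PhasePoint → PhasePoint → ℝ≥0∞} (hg : Measurable (Function.uncurry g)) {c : ℝ≥0∞}
    (hc : ∀ z, ∫⁻ y, g z y ≤ c) :
    ∫⁻ W : κ → PhasePoint, f (W i) * ∏ a : {a : κ // ¬ a = i}, g (W i) (W a) ≤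
      (∫⁻ z, f z) * c ^ (Fintype.card κ - 1) := by
  have hsf : ∀ p : κ → Prop, SFinite (volume : Measure ({a : κ // p a} → PhasePoint)) := by
    intro p
    have := PartProd973.sf_pi {a : κ // p a}
    infer_instance
  have h1 := volume_preserving_piEquivPiSubtypeProd (fun _ : κ => PhasePoint) (fun a => a = i)
  let F : (({a : κ // a = i} → PhasePoint) × ({a : κ // ¬ a = i} → PhasePoint)) → ℝ≥0∞ :=
    fun q => f (q.1 ⟨i, rfl⟩) * ∏ a : {a : κ // ¬ a = i}, g (q.1 ⟨i, rfl⟩) (q.2 a)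
  have hF : Measurable F := by
    have hi : Measurable (fun q : ({a : κ // a = i} → PhasePoint) ×
        ({a : κ // ¬ a = i} → PhasePoint) => q.1 ⟨i, rfl⟩) :=
      (measurable_pi_apply _).comp measurable_fst
    refine (hf.comp hi).mul (Finset.measurable_prod _ fun a _ => ?_)
    have ha : Measurable (fun q : ({a : κ // a = i} → PhasePoint) ×
        ({a : κ // ¬ a = i} → PhasePoint) => q.2 a) :=
      (measurable_pi_apply a).comp measurable_snd
    exact hg.comp (hi.prodMk ha)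
  have h2 : ∫⁻ W : κ → PhasePoint, f (W i) * ∏ a : {a : κ // ¬ a = i}, g (W i) (W a) =
      ∫⁻ q, F q ∂((volume : Measure ({a : κ // a = i} → PhasePoint)).prod
        (volume : Measure ({a : κ // ¬ a = i} → PhasePoint))) := by
    rw [← Measure.volume_eq_prod]
    have h2' := h1.lintegral_comp hF
    refine Eq.trans ?_ (h2'.trans ?_)
    · rfl
    · congr!
  have hF' : AEMeasurable F ((volume : Measure ({a : κ // a = i} → PhasePoint)).prod
      (volume : Measure ({a : κ // ¬ a = i} → PhasePoint))) := hF.aemeasurable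
  rw [h2, lintegral_prod _ hF']
  have h3 : ∀ U : {a : κ // a = i} → PhasePoint,
      ∫⁻ V : {a : κ // ¬ a = i} → PhasePoint, F (U, V) ≤
        f (U ⟨i, rfl⟩) * c ^ (Fintype.card κ - 1) := by
    intro U
    have hm : ∀ a : {a : κ // ¬ a = i}, Measurable (fun y => g (U ⟨i, rfl⟩) y) := fun a =>
      hg.comp (measurable_const.prodMk measurable_id)
    have h4 : ∫⁻ V : {a : κ // ¬ a = i} → PhasePoint, F (U, V) =
        f (U ⟨i, rfl⟩) * ∫⁻ V : {a : κ // ¬ a = i} → PhasePoint, ∏ a, g (U ⟨i, rfl⟩) (V a) := by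
      show ∫⁻ V : {a : κ // ¬ a = i} → PhasePoint, f (U ⟨i, rfl⟩) * _ = _
      rw [lintegral_const_mul]
      exact Finset.measurable_prod _ fun a _ => (hm a).comp (measurable_pi_apply a)
    rw [h4, PartProd973.lintegral_pi_prod' (X := fun _ : {a : κ // ¬ a = i} => PhasePoint)
      (w := fun _ y => g (U ⟨i, rfl⟩) y) hm]
    refine mul_le_mul_right ?_ _
    calc ∏ _a : {a : κ // ¬ a = i}, ∫⁻ y, g (U ⟨i, rfl⟩) y ≤ ∏ _a : {a : κ // ¬ a = i}, c :=
          Finset.prod_le_prod' fun a _ => hc _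
      _ = c ^ (Fintype.card κ - 1) := by
          rw [Finset.prod_const, Finset.card_univ]
          congr 1
          rw [Fintype.card_subtype_compl, Fintype.card_subtype_eq]
  refine (lintegral_mono h3).trans ?_
  have h5 : ∫⁻ U : {a : κ // a = i} → PhasePoint, f (U ⟨i, rfl⟩) * c ^ (Fintype.card κ - 1) =
      ∫⁻ z, f z * c ^ (Fintype.card κ - 1) := by
    have h6 := lintegral_one_particle (υ := {a : κ // a = i})
      (fun z => f z * c ^ (Fintype.card κ - 1))
    exact h6
  rw [h5, lintegral_mul_const _ hf]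

/-! ### Gaussian factors -/

/-- scaled Gaussian integral over positions -/
lemma lintegral_gauss_scaled {δ : ℝ} (hδ : 0 < δ) (hε : 0 < ε) (x₀ : Space3) :
    ∫⁻ x : Space3, ENNReal.ofReal (Real.exp (-(δ * (dist x x₀ / ε) ^ 2))) =
      ENNReal.ofReal (ε ^ 3) * ∫⁻ x : Space3, ENNReal.ofReal (Real.exp (-(δ * ‖x‖ ^ 2))) := by
  set G : Space3 → ℝ≥0∞ := fun x => ENNReal.ofReal (Real.exp (-(δ * ‖x‖ ^ 2))) with hG
  have hGm : Measurable G := by
    refine ENNReal.measurable_ofReal.comp (Continuous.measurable ?_)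
    fun_prop
  have h1 : ∀ x : Space3, ENNReal.ofReal (Real.exp (-(δ * (dist x x₀ / ε) ^ 2))) =
      G (ε⁻¹ • (x - x₀)) := by
    intro x
    rw [hG]
    simp only
    rw [norm_smul, Real.norm_eq_abs, abs_of_pos (inv_pos.2 hε), dist_eq_norm, div_eq_inv_mul]
  simp only [h1]
  rw [lintegral_sub_right_eq_self (fun x => G (ε⁻¹ • x)) x₀]
  have h2 : (volume : Measure Space3).map (fun x => ε⁻¹ • x) =
      ENNReal.ofReal (ε ^ 3) • volume := by
    have := Measure.map_addHaar_smul (volume : Measure Space3) (inv_ne_zero hε.ne')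
    rw [this]
    congr 1
    rw [finrank_euclideanSpace, Fintype.card_fin, inv_pow, inv_inv,
      abs_of_pos (pow_pos hε 3)]
  rw [← lintegral_map hGm (measurable_const_smul _), h2, lintegral_smul_measure, smul_eq_mul]

/-- speed bound of a configuration -/
def spd (Φ : Space3 → ℝ) (ε : ℝ) (W : κ → PhasePoint) : ℝ :=
  Real.sqrt (2 * (energy Φ ε W + stabB Φ * Fintype.card κ))

/-- everybody near the root -/
def NearS (Φ : Space3 → ℝ) (ε : ℝ) (i : κ) : Set (κ → PhasePoint) :=
  {W | W ∈ Dom Φ κ ∧ ∀ a, dist (W a).1 (W i).1 ≤ (Fintype.card κ + 2 * spd Φ ε W) * ε}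

lemma measurable_spd (hΦ : AdmissiblePotential Φ) : Measurable (spd (κ := κ) Φ ε) :=
  ((((measurable_energy hΦ ε).add_const _).const_mul 2)).sqrt

lemma measurableSet_NearS (hΦ : AdmissiblePotential Φ) (i : κ) :
    MeasurableSet (NearS Φ ε i) := by
  have h1 : NearS Φ ε i = Dom Φ κ ∩ ⋂ a : κ, {W | dist (W a).1 (W i).1 ≤
      (Fintype.card κ + 2 * spd Φ ε W) * ε} := by
    ext W
    simp [NearS]
  rw [h1]
  refine (measurableSet_Dom Φ).inter (MeasurableSet.iInter fun a => ?_)
  exact measurableSet_le ((measurable_pi_apply a).fst.dist (measurable_pi_apply i).fst)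
    (((measurable_spd hΦ).const_mul 2).const_add _ |>.mul_const _)

lemma NearS_shift (a : Space3) (i : κ) (W : κ → PhasePoint) :
    shiftX a W ∈ NearS Φ ε i ↔ W ∈ NearS Φ ε i := by
  have h1 : spd Φ ε (shiftX a W) = spd Φ ε W := by
    unfold spd
    rw [energy_shiftX]
  have h2 : ∀ b : κ, dist (shiftX a W b).1 (shiftX a W i).1 = dist (W b).1 (W i).1 := by
    intro b
    simp [shiftX]
  simp only [NearS, mem_setOf_eq, Dom_shiftX, h1, h2]

/-- the constant of the static bound -/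
def Cs (Φ : Space3 → ℝ) (γ : ℝ) (n : ℕ) : ℝ≥0∞ :=
  ENNReal.ofReal (Real.exp (γ * (stabB Φ * n) + γ * n ^ 2 / 16)) *
    ((∫⁻ v : Space3, ENNReal.ofReal (Real.exp (-(γ / 4 * ‖v‖ ^ 2)))) *
      ((∫⁻ x : Space3, ENNReal.ofReal (Real.exp (-(γ / (32 * n) * ‖x‖ ^ 2)))) *
        ∫⁻ v : Space3, ENNReal.ofReal (Real.exp (-(γ / 4 * ‖v‖ ^ 2)))) ^ (n - 1))

lemma Cs_ne_top {γ : ℝ} (hγ : 0 < γ) {n : ℕ} (hn : 0 < n) : Cs Φ γ n ≠ ∞ := by
  have hn' : (0 : ℝ) < n := by exact_mod_cast hn
  have h1 := (GC311.lintegral_gaussian_lt_top (γ := γ / 4) (by positivity)).ne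
  have h2 := (GC311.lintegral_gaussian_lt_top (γ := γ / (32 * n)) (by positivity)).ne
  exact ENNReal.mul_ne_top ENNReal.ofReal_ne_top (ENNReal.mul_ne_top h1
    (ENNReal.pow_ne_top (ENNReal.mul_ne_top h2 h1)))

/-- pointwise domination on the near set -/
lemma near_dom (hΦ : AdmissiblePotential Φ) (hε : 0 < ε) {γ : ℝ} (hγ : 0 < γ) (i : κ)
    {W : κ → PhasePoint} (hW : W ∈ NearS Φ ε i) :
    -(γ * energy Φ ε W) ≤ (γ * (stabB Φ * Fintype.card κ) + γ * (Fintype.card κ : ℝ) ^ 2 / 16) +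
      (-(γ / 4 * ‖(W i).2‖ ^ 2) + ∑ a : {a : κ // ¬ a = i},
        (-(γ / (32 * Fintype.card κ) * (dist (W a).1 (W i).1 / ε) ^ 2) +
          -(γ / 4 * ‖(W a).2‖ ^ 2))) := by
  set n : ℝ := (Fintype.card κ : ℝ) with hn
  have hn0 : 1 ≤ n := by
    rw [hn]
    exact_mod_cast Fintype.card_pos_iff.2 ⟨i⟩
  set H : ℝ := energy Φ ε W + stabB Φ * n with hH
  have hk := kin_le hΦ hε hW.1
  have hk0 := kin_nonneg W
  have hH0 : 0 ≤ H := by rw [hH]; linarith
  have hV : spd Φ ε W ^ 2 = 2 * H := by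
    unfold spd
    rw [Real.sq_sqrt (by rw [← hn]; linarith)]
  have hV0 : 0 ≤ spd Φ ε W := Real.sqrt_nonneg _
  -- distances
  have hd : ∀ a : {a : κ // ¬ a = i}, (dist (W a).1 (W i).1 / ε) ^ 2 ≤ 2 * n ^ 2 + 16 * H := by
    intro a
    have h1 : dist (W a).1 (W i).1 / ε ≤ n + 2 * spd Φ ε W := by
      rw [div_le_iff₀ hε]
      exact hW.2 a
    have h2 : (dist (W a).1 (W i).1 / ε) ^ 2 ≤ (n + 2 * spd Φ ε W) ^ 2 :=
      pow_le_pow_left₀ (by positivity) h1 2
    nlinarith [sq_nonneg (n - 2 * spd Φ ε W)]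
  have hcard : ((Fintype.card {a : κ // ¬ a = i} : ℕ) : ℝ) ≤ n := by
    rw [hn]
    exact_mod_cast Fintype.card_subtype_le _
  have hs1 : ∑ a : {a : κ // ¬ a = i}, γ / (32 * n) * (dist (W a).1 (W i).1 / ε) ^ 2 ≤
      γ / 32 * (2 * n ^ 2 + 16 * H) := by
    calc ∑ a : {a : κ // ¬ a = i}, γ / (32 * n) * (dist (W a).1 (W i).1 / ε) ^ 2
        ≤ ∑ _a : {a : κ // ¬ a = i}, γ / (32 * n) * (2 * n ^ 2 + 16 * H) :=
          Finset.sum_le_sum fun a _ => mul_le_mul_of_nonneg_left (hd a) (by positivity)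
      _ = (Fintype.card {a : κ // ¬ a = i} : ℝ) * (γ / (32 * n) * (2 * n ^ 2 + 16 * H)) := by
          rw [Finset.sum_const, Finset.card_univ, nsmul_eq_mul]
      _ ≤ n * (γ / (32 * n) * (2 * n ^ 2 + 16 * H)) :=
          mul_le_mul_of_nonneg_right hcard (by positivity)
      _ = γ / 32 * (2 * n ^ 2 + 16 * H) := by
          field_simp
  -- kinetic energy
  have hkin : kin W = 1 / 2 * (‖(W i).2‖ ^ 2 + ∑ a : {a : κ // ¬ a = i}, ‖(W a).2‖ ^ 2) := by
    unfold kin
    congr 1
    rw [← Finset.sum_erase_add (s := Finset.univ) (f := fun a => ‖(W a).2‖ ^ 2)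
      (Finset.mem_univ i), add_comm]
    congr 1
    refine Finset.sum_subtype _ (fun a => ?_) _
    simp
  have hs2 : ∑ a : {a : κ // ¬ a = i}, (-(γ / (32 * n) * (dist (W a).1 (W i).1 / ε) ^ 2) +
          -(γ / 4 * ‖(W a).2‖ ^ 2)) =
      -(∑ a : {a : κ // ¬ a = i}, γ / (32 * n) * (dist (W a).1 (W i).1 / ε) ^ 2) +
        -(γ / 4 * ∑ a : {a : κ // ¬ a = i}, ‖(W a).2‖ ^ 2) := by
    rw [Finset.sum_add_distrib, Finset.sum_neg_distrib, Finset.sum_neg_distrib, ← Finset.mul_sum,
      ← Finset.mul_sum]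
  rw [hs2]
  have h5 : γ * (kin W) ≤ γ * H := mul_le_mul_of_nonneg_left (by rw [hH]; exact hk) hγ.le
  have h6 : γ * energy Φ ε W = γ * H - γ * (stabB Φ * n) := by rw [hH]; ring
  rw [hkin] at h5
  nlinarith

/-- **Static bound.** -/
lemma static_le (hΦ : AdmissiblePotential Φ) (hε : 0 < ε) {γ : ℝ} (hγ : 0 < γ) (i : κ) :
    ∫⁻ W : κ → PhasePoint, kw (W i).1 * (ENNReal.ofReal (Real.exp (-(γ * energy Φ ε W))) *
      (NearS Φ ε i).indicator 1 W) ≤
      Cs Φ γ (Fintype.card κ) * ENNReal.ofReal (ε ^ 3) ^ (Fintype.card κ - 1) := by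
  set n : ℕ := Fintype.card κ with hn
  have hn0 : 0 < n := Fintype.card_pos_iff.2 ⟨i⟩
  have hn' : (0 : ℝ) < n := by exact_mod_cast hn0
  set f : PhasePoint → ℝ≥0∞ := fun z => kw z.1 * ENNReal.ofReal (Real.exp (-(γ / 4 * ‖z.2‖ ^ 2)))
    with hf
  set g : PhasePoint → PhasePoint → ℝ≥0∞ := fun z y =>
    ENNReal.ofReal (Real.exp (-(γ / (32 * n) * (dist y.1 z.1 / ε) ^ 2))) *
      ENNReal.ofReal (Real.exp (-(γ / 4 * ‖y.2‖ ^ 2))) with hg
  have hkm : Measurable kw := measurable_kw
  have hfm : Measurable f := by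
    have h1 : Measurable (fun z : PhasePoint => ENNReal.ofReal (Real.exp (-(γ / 4 * ‖z.2‖ ^ 2)))) :=
      ENNReal.measurable_ofReal.comp (Continuous.measurable (by fun_prop))
    exact (hkm.comp measurable_fst).mul h1
  have hgm : Measurable (Function.uncurry g) := by
    have h1 : Measurable (fun q : PhasePoint × PhasePoint =>
        ENNReal.ofReal (Real.exp (-(γ / (32 * n) * (dist q.2.1 q.1.1 / ε) ^ 2)))) :=
      ENNReal.measurable_ofReal.comp (Continuous.measurable (by fun_prop))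
    have h2 : Measurable (fun q : PhasePoint × PhasePoint =>
        ENNReal.ofReal (Real.exp (-(γ / 4 * ‖q.2.2‖ ^ 2)))) :=
      ENNReal.measurable_ofReal.comp (Continuous.measurable (by fun_prop))
    exact h1.mul h2
  set Gv : ℝ≥0∞ := ∫⁻ v : Space3, ENNReal.ofReal (Real.exp (-(γ / 4 * ‖v‖ ^ 2))) with hGv
  set Gx : ℝ≥0∞ := ∫⁻ x : Space3, ENNReal.ofReal (Real.exp (-(γ / (32 * n) * ‖x‖ ^ 2))) with hGx
  have hgc : ∀ z, ∫⁻ y, g z y ≤ ENNReal.ofReal (ε ^ 3) * (Gx * Gv) := by
    intro z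
    have h1 : ∫⁻ y : PhasePoint, g z y =
        (∫⁻ x : Space3, ENNReal.ofReal (Real.exp (-(γ / (32 * n) * (dist x z.1 / ε) ^ 2)))) * Gv := by
      rw [hg]
      simp only
      rw [Measure.volume_eq_prod]
      refine lintegral_prod_mul (f := fun x : Space3 =>
        ENNReal.ofReal (Real.exp (-(γ / (32 * n) * (dist x z.1 / ε) ^ 2))))
        (g := fun v : Space3 => ENNReal.ofReal (Real.exp (-(γ / 4 * ‖v‖ ^ 2)))) ?_ ?_
      · exact (ENNReal.measurable_ofReal.comp (Continuous.measurable (by fun_prop))).aemeasurable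
      · exact (ENNReal.measurable_ofReal.comp (Continuous.measurable (by fun_prop))).aemeasurable
    rw [h1, lintegral_gauss_scaled (by positivity) hε, mul_assoc]
  have hfi : ∫⁻ z, f z = Gv := by
    rw [hf]
    simp only
    rw [Measure.volume_eq_prod]
    refine (lintegral_prod_mul (f := kw)
        (g := fun v : Space3 => ENNReal.ofReal (Real.exp (-(γ / 4 * ‖v‖ ^ 2))))
          hkm.aemeasurable ?_).trans ?_
    · exact (ENNReal.measurable_ofReal.comp (Continuous.measurable (by fun_prop))).aemeasurable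
    · rw [lintegral_kw, one_mul]
  have hmain := lintegral_root i hfm hgm hgc
  rw [hfi, ← hn] at hmain
  set c0 : ℝ≥0∞ := ENNReal.ofReal (Real.exp (γ * (stabB Φ * n) + γ * (n : ℝ) ^ 2 / 16)) with hc0
  have hpt : ∀ W : κ → PhasePoint, kw (W i).1 * (ENNReal.ofReal (Real.exp (-(γ * energy Φ ε W))) *
      (NearS Φ ε i).indicator 1 W) ≤
      c0 * (f (W i) * ∏ a : {a : κ // ¬ a = i}, g (W i) (W a)) := by
    intro W
    by_cases hW : W ∈ NearS Φ ε i
    · rw [indicator_of_mem hW, Pi.one_apply, mul_one]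
      have h1 := near_dom hΦ hε hγ i hW
      rw [← hn] at h1
      have h2 : ENNReal.ofReal (Real.exp (-(γ * energy Φ ε W))) ≤
          c0 * (ENNReal.ofReal (Real.exp (-(γ / 4 * ‖(W i).2‖ ^ 2))) *
            ∏ a : {a : κ // ¬ a = i}, g (W i) (W a)) := by
        refine (ENNReal.ofReal_le_ofReal (Real.exp_le_exp.2 h1)).trans (le_of_eq ?_)
        rw [Real.exp_add (γ * (stabB Φ * n) + γ * (n : ℝ) ^ 2 / 16),
          Real.exp_add (-(γ / 4 * ‖(W i).2‖ ^ 2)), Real.exp_sum,
          ENNReal.ofReal_mul (Real.exp_pos _).le,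
          ENNReal.ofReal_mul (Real.exp_pos _).le,
          ENNReal.ofReal_prod_of_nonneg (fun _ _ => (Real.exp_pos _).le)]
        congr 2
        refine Finset.prod_congr rfl fun a _ => ?_
        rw [Real.exp_add, ENNReal.ofReal_mul (Real.exp_pos _).le]
      calc kw (W i).1 * ENNReal.ofReal (Real.exp (-(γ * energy Φ ε W)))
          ≤ kw (W i).1 * (c0 * (ENNReal.ofReal (Real.exp (-(γ / 4 * ‖(W i).2‖ ^ 2))) *
            ∏ a : {a : κ // ¬ a = i}, g (W i) (W a))) := mul_le_mul_right h2 _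
        _ = _ := by rw [hf]; ring
    · rw [indicator_of_notMem hW, mul_zero, mul_zero]
      exact zero_le
  refine (lintegral_mono hpt).trans ?_
  rw [lintegral_const_mul']
  · refine (mul_le_mul_right hmain _).trans (le_of_eq ?_)
    unfold Cs
    rw [mul_pow]
    ring
  · rw [hc0]; exact ENNReal.ofReal_ne_top

lemma spd_flow (hΦ : AdmissiblePotential Φ) (hε : 0 < ε) (t : ℝ) (W : κ → PhasePoint) :
    spd Φ ε (flow Φ ε t W) = spd Φ ε W := by
  unfold spd
  rw [energy_flow hΦ hε]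

/-- **The near set at a given time.** -/
lemma flow_near_le (hΦ : AdmissiblePotential Φ) (hε : 0 < ε) {γ : ℝ} (hγ : 0 < γ) (i : κ) (t : ℝ)
    {Ψ : Space3 → ℝ≥0∞} (hΨ : Measurable Ψ) :
    ∫⁻ W : κ → PhasePoint, ENNReal.ofReal (Real.exp (-(γ * energy Φ ε W))) *
      (Ψ (W i).1 * (NearS Φ ε i).indicator 1 (flow Φ ε t W)) ≤
      (∫⁻ x, Ψ x) * (Cs Φ γ (Fintype.card κ) * ENNReal.ofReal (ε ^ 3) ^ (Fintype.card κ - 1)) := by
  have hE : Measurable (fun W : κ → PhasePoint =>
      ENNReal.ofReal (Real.exp (-(γ * energy Φ ε W)))) :=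
    ENNReal.measurable_ofReal.comp (Real.measurable_exp.comp
      ((measurable_energy hΦ ε).const_mul γ).neg)
  have hI : Measurable ((NearS (κ := κ) Φ ε i).indicator (1 : (κ → PhasePoint) → ℝ≥0∞)) :=
    measurable_one.indicator (measurableSet_NearS hΦ i)
  have hp : Measurable (fun U : κ → PhasePoint => (U i).1) := (measurable_pi_apply i).fst
  have hm : Measurable (fun W : κ → PhasePoint => ENNReal.ofReal (Real.exp (-(γ * energy Φ ε W))) *
      (Ψ (W i).1 * (NearS Φ ε i).indicator 1 (flow Φ ε t W))) :=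
    hE.mul ((hΨ.comp hp).mul (hI.comp (measurable_flow hΦ hε t)))
  rw [lintegral_avg hp (fun a U => rfl) hm]
  have hind : ∀ (a : Space3) (U : κ → PhasePoint),
      (NearS Φ ε i).indicator (1 : (κ → PhasePoint) → ℝ≥0∞) (shiftX a U) =
        (NearS Φ ε i).indicator 1 U := by
    intro a U
    by_cases h : U ∈ NearS Φ ε i
    · rw [indicator_of_mem h, indicator_of_mem ((NearS_shift a i U).2 h)]
      rfl
    · rw [indicator_of_notMem h, indicator_of_notMem (fun h' => h ((NearS_shift a i U).1 h'))]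
  set K : (κ → PhasePoint) → ℝ≥0∞ := fun V => ENNReal.ofReal (Real.exp (-(γ * energy Φ ε V))) *
    (NearS Φ ε i).indicator 1 V with hK
  have hKm : Measurable K := hE.mul hI
  have hKt : ∀ a U, K (shiftX a U) = K U := by
    intro a U
    rw [hK]
    simp only
    rw [energy_shiftX, hind]
  have h1 : ∀ U : κ → PhasePoint, kw (U i).1 * ∫⁻ a,
      ENNReal.ofReal (Real.exp (-(γ * energy Φ ε (shiftX a U)))) *
      (Ψ (shiftX a U i).1 * (NearS Φ ε i).indicator 1 (flow Φ ε t (shiftX a U))) =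
      (kw (U i).1 * K (flow Φ ε t U)) * ∫⁻ x, Ψ x := by
    intro U
    have h2 : ∀ a : Space3, ENNReal.ofReal (Real.exp (-(γ * energy Φ ε (shiftX a U)))) *
      (Ψ (shiftX a U i).1 * (NearS Φ ε i).indicator 1 (flow Φ ε t (shiftX a U))) =
        K (flow Φ ε t U) * Ψ ((U i).1 + a) := by
      intro a
      rw [energy_shiftX, flow_shiftX hΦ hε, hind, hK]
      simp only
      rw [energy_flow hΦ hε]
      have : (shiftX a U i).1 = (U i).1 + a := rfl
      rw [this]
      ring
    simp only [h2]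
    have h3 : Measurable (fun a : Space3 => Ψ ((U i).1 + a)) := hΨ.comp (measurable_const_add _)
    rw [lintegral_const_mul _ h3, lintegral_add_left_eq_self Ψ (U i).1]
    exact (mul_assoc _ _ _).symm
  simp only [h1]
  have hkK : Measurable (fun U : κ → PhasePoint => kw (U i).1 * K (flow Φ ε t U)) :=
    (measurable_kw.comp hp).mul (hKm.comp (measurable_flow hΦ hε t))
  rw [lintegral_mul_const _ hkK, lintegral_kw_flow hΦ hε i t hKm hKt, mul_comm]
  exact mul_le_mul_right (static_le hΦ hε hγ i) _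

/-- connected at a nearby time -/
lemma mem_near (hΦ : AdmissiblePotential Φ) (hε : 0 < ε) {W : κ → PhasePoint} (hW : W ∈ Dom Φ κ)
    {i : κ} {u t : ℝ} (hut : |u - t| ≤ ε)
    (h : ∀ k, Relation.ReflTransGen (fun a b => dst (flow Φ ε u W) a b ≤ ε) i k) :
    flow Φ ε t W ∈ NearS Φ ε i := by
  refine ⟨flow_mem hΦ hε hW t, fun a => ?_⟩
  rw [spd_flow hΦ hε]
  have h1 : dist (flow Φ ε u W i).1 (flow Φ ε u W a).1 ≤ Fintype.card κ * ε :=
    Vol365.dist_le_of_rtg (x := fun k => (flow Φ ε u W k).1) hε.le (h a)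
  have h0 : 0 ≤ spd Φ ε W := Real.sqrt_nonneg _
  have h2 : ∀ b : κ, dist (flow Φ ε u W b).1 (flow Φ ε t W b).1 ≤ spd Φ ε W * ε := fun b =>
    (dist_pos_flow_le hΦ hε hW t u b).trans (mul_le_mul_of_nonneg_left hut h0)
  have h3 := dist_triangle4 (flow Φ ε t W a).1 (flow Φ ε u W a).1 (flow Φ ε u W i).1
    (flow Φ ε t W i).1
  have h4 := h2 a
  have h5 := h2 i
  rw [dist_comm] at h4
  rw [dist_comm] at h1
  nlinarith

/-- **Bad terminal groups**, cases (t0) and (t1) of D5. -/
theorem term_bad {ι : Type} [Fintype ι] (hΦ : AdmissiblePotential Φ) {γ : ℝ} (hγ : 0 < γ)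
    (te T : ℝ) : ∃ q : ℝ → ℝ≥0∞, Tendsto q (𝓝[>] 0) (𝓝 0) ∧ ∀ ε : ℝ, 0 < ε → ε ≤ 1 →
      ∀ (A : Finset ι) (i : ι) (Ψ : Space3 → ℝ≥0∞), Measurable Ψ →
      ∃ M : (A → PhasePoint) → ℝ≥0∞, Measurable M ∧
        (∀ W ∈ Dom Φ A, ∀ i' : A, (i' : ι) = i → TermBad Φ ε T te i W → Ψ (W i').1 ≤ M W) ∧
        ∫⁻ W, ENNReal.ofReal (Real.exp (-(γ * energy Φ ε W))) * M W ≤
          q ε * ENNReal.ofReal (ε ^ (2 * (A.card - 1))) * ∫⁻ x, Ψ x := by
  set S : ℝ≥0∞ := ∑ n ∈ Finset.range (Fintype.card ι + 1), if n = 0 then 0 else Cs Φ γ n with hS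
  have hSt : S ≠ ∞ := by
    rw [hS]
    refine ENNReal.sum_ne_top.2 fun n _ => ?_
    split_ifs with h
    · exact ENNReal.zero_ne_top
    · exact Cs_ne_top hγ (Nat.pos_of_ne_zero h)
  set c0 : ℝ := max te 0 + 1 with hc0
  have hc01 : 1 ≤ c0 := by rw [hc0]; linarith [le_max_right te 0]
  refine ⟨fun ε => ENNReal.ofReal ε * (S * ENNReal.ofReal c0), ?_, ?_⟩
  · have h1 : Tendsto (fun ε : ℝ => ENNReal.ofReal ε) (𝓝[>] 0) (𝓝 0) := by
      have := (ENNReal.continuous_ofReal.tendsto 0).mono_left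
        (nhdsWithin_le_nhds (s := Ioi (0 : ℝ)))
      rwa [ENNReal.ofReal_zero] at this
    have h2 := ENNReal.Tendsto.mul_const (b := S * ENNReal.ofReal c0) h1
      (Or.inr (ENNReal.mul_ne_top hSt ENNReal.ofReal_ne_top))
    rwa [zero_mul] at h2
  intro ε hε hε1 A i Ψ hΨ
  by_cases hi : i ∈ A
  swap
  · refine ⟨fun _ => 0, measurable_const, ?_, ?_⟩
    · intro W _ i' hi'
      exact absurd (hi' ▸ i'.2) hi
    · simp
  set i0 : A := ⟨i, hi⟩ with hi0
  set n : ℕ := A.card with hn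
  have hcard : Fintype.card A = n := Fintype.card_coe A
  have hn0 : 0 < n := Finset.card_pos.2 ⟨i, hi⟩
  have hnS : Cs Φ γ n ≤ S := by
    have h1 : n ∈ Finset.range (Fintype.card ι + 1) :=
      Finset.mem_range.2 (Nat.lt_succ_of_le (Finset.card_le_univ A))
    have h2 := Finset.single_le_sum (f := fun n => if n = 0 then (0 : ℝ≥0∞) else Cs Φ γ n)
      (fun _ _ => zero_le) h1
    simp only [if_neg hn0.ne'] at h2
    exact h2
  set N : ℕ := ⌊max te 0 / ε⌋₊ + 1 with hN
  have hI : Measurable ((NearS (κ := A) Φ ε i0).indicator (1 : (A → PhasePoint) → ℝ≥0∞)) :=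
    measurable_one.indicator (measurableSet_NearS hΦ i0)
  have hIf : ∀ t : ℝ, Measurable (fun W : A → PhasePoint =>
      (NearS (κ := A) Φ ε i0).indicator (1 : (A → PhasePoint) → ℝ≥0∞) (flow Φ ε t W)) :=
    fun t => hI.comp (measurable_flow hΦ hε t)
  have hΨm : Measurable (fun W : A → PhasePoint => Ψ (W i0).1) :=
    hΨ.comp ((measurable_pi_apply i0).fst)
  have hE : Measurable (fun W : A → PhasePoint =>
      ENNReal.ofReal (Real.exp (-(γ * energy Φ ε W)))) :=
    ENNReal.measurable_ofReal.comp (Real.measurable_exp.comp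
      ((measurable_energy hΦ ε).const_mul γ).neg)
  by_cases h3 : 3 ≤ n
  · -- (t0)
    refine ⟨fun W => ∑ j ∈ Finset.range N, Ψ (W i0).1 *
      (NearS Φ ε i0).indicator 1 (flow Φ ε (j * ε) W), ?_, ?_, ?_⟩
    · exact Finset.measurable_sum _ fun j _ => hΨm.mul (hIf _)
    · intro W hW i' hi' hbad
      have hii : i' = i0 := Subtype.ext hi'
      rw [hii]
      obtain ⟨i'', hi'', hb⟩ := hbad
      have hii'' : i'' = i0 := Subtype.ext hi''
      rw [hii''] at hb
      rcases hb with ⟨-, u, hu, hk⟩ | ⟨h2, -⟩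
      · set j : ℕ := ⌊u / ε⌋₊ with hj
        have hjN : j ∈ Finset.range N := by
          rw [Finset.mem_range, hN, hj]
          refine Nat.lt_succ_of_le (Nat.floor_le_floor ?_)
          exact div_le_div_of_nonneg_right (hu.2.trans (le_max_left _ _)) hε.le
        have hj1 : (j : ℝ) * ε ≤ u := by
          have := Nat.floor_le (div_nonneg hu.1 hε.le)
          rwa [le_div_iff₀ hε] at this
        have hj2 : u ≤ (j : ℝ) * ε + ε := by
          have := (Nat.lt_floor_add_one (u / ε)).le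
          rw [div_le_iff₀ hε] at this
          linarith
        have hmem : flow Φ ε ((j : ℝ) * ε) W ∈ NearS Φ ε i0 := by
          refine mem_near hΦ hε hW (u := u) ?_ hk
          rw [abs_le]
          constructor <;> linarith
        have h4 : Ψ (W i0).1 = Ψ (W i0).1 *
            (NearS Φ ε i0).indicator (1 : (A → PhasePoint) → ℝ≥0∞) (flow Φ ε ((j : ℝ) * ε) W) := by
          rw [indicator_of_mem hmem]
          simp
        rw [h4]
        exact Finset.single_le_sum (f := fun j : ℕ => Ψ (W i0).1 *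
          (NearS Φ ε i0).indicator (1 : (A → PhasePoint) → ℝ≥0∞) (flow Φ ε (j * ε) W))
          (fun _ _ => zero_le) hjN
      · omega
    · have h5 : ∀ W : A → PhasePoint, ENNReal.ofReal (Real.exp (-(γ * energy Φ ε W))) *
          ∑ j ∈ Finset.range N, Ψ (W i0).1 *
            (NearS Φ ε i0).indicator 1 (flow Φ ε (j * ε) W) =
          ∑ j ∈ Finset.range N, ENNReal.ofReal (Real.exp (-(γ * energy Φ ε W))) *
            (Ψ (W i0).1 * (NearS Φ ε i0).indicator 1 (flow Φ ε (j * ε) W)) := fun W =>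
        Finset.mul_sum _ _ _
      simp only [h5]
      have hmj : ∀ j ∈ Finset.range N, Measurable (fun W : A → PhasePoint =>
          ENNReal.ofReal (Real.exp (-(γ * energy Φ ε W))) *
            (Ψ (W i0).1 * (NearS Φ ε i0).indicator 1 (flow Φ ε (j * ε) W))) :=
        fun j _ => hE.mul (hΨm.mul (hIf _))
      rw [lintegral_finsetSum _ hmj]
      refine (Finset.sum_le_sum (s := Finset.range N) fun (j : ℕ) _ =>
        flow_near_le hΦ hε hγ i0 ((j : ℝ) * ε) hΨ).trans ?_
      rw [Finset.sum_const, Finset.card_range, nsmul_eq_mul, hcard]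
      have h6 : (N : ℝ≥0∞) * ENNReal.ofReal (ε ^ 3) ^ (n - 1) ≤
          ENNReal.ofReal ε * ENNReal.ofReal c0 * ENNReal.ofReal (ε ^ (2 * (n - 1))) := by
        rw [← ENNReal.ofReal_pow (by positivity), ← ENNReal.ofReal_natCast,
          ← ENNReal.ofReal_mul (by positivity), ← ENNReal.ofReal_mul hε.le,
          ← ENNReal.ofReal_mul (by positivity)]
        refine ENNReal.ofReal_le_ofReal ?_
        have h7 : (N : ℝ) * ε ≤ c0 := by
          rw [hN, hc0]
          push_cast
          have := Nat.floor_le (div_nonneg (le_max_right te 0) hε.le)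
          rw [le_div_iff₀ hε] at this
          nlinarith
        obtain ⟨m, hm⟩ : ∃ m, n = m + 3 := ⟨n - 3, by omega⟩
        rw [hm]
        have e1 : m + 3 - 1 = m + 2 := by omega
        rw [e1]
        have h8 : (ε ^ 3) ^ (m + 2) = ε * (ε * ε ^ (2 * (m + 2))) * ε ^ m := by ring
        rw [h8]
        have h9 : ε ^ m ≤ 1 := pow_le_one₀ hε.le hε1
        calc (N : ℝ) * (ε * (ε * ε ^ (2 * (m + 2))) * ε ^ m)
            = ((N : ℝ) * ε) * (ε * ε ^ (2 * (m + 2))) * ε ^ m := by ring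
          _ ≤ c0 * (ε * ε ^ (2 * (m + 2))) * 1 :=
              mul_le_mul (mul_le_mul_of_nonneg_right h7 (by positivity)) h9 (by positivity)
                (by positivity)
          _ = ε * c0 * ε ^ (2 * (m + 2)) := by ring
      calc (N : ℝ≥0∞) * ((∫⁻ x, Ψ x) * (Cs Φ γ n * ENNReal.ofReal (ε ^ 3) ^ (n - 1)))
          = ((N : ℝ≥0∞) * ENNReal.ofReal (ε ^ 3) ^ (n - 1)) * (Cs Φ γ n * ∫⁻ x, Ψ x) := by ring
        _ ≤ (ENNReal.ofReal ε * ENNReal.ofReal c0 * ENNReal.ofReal (ε ^ (2 * (n - 1)))) *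
            (S * ∫⁻ x, Ψ x) := mul_le_mul' h6 (mul_le_mul_left hnS _)
        _ = _ := by ring
  · by_cases h2 : n = 2
    · -- (t1)
      refine ⟨fun W => Ψ (W i0).1 * (NearS Φ ε i0).indicator 1 (flow Φ ε T W),
        hΨm.mul (hIf _), ?_, ?_⟩
      · intro W hW i' hi' hbad
        have hii : i' = i0 := Subtype.ext hi'
        rw [hii]
        obtain ⟨i'', hi'', hb⟩ := hbad
        have hii'' : i'' = i0 := Subtype.ext hi''
        rw [hii''] at hb
        rcases hb with ⟨h3', -⟩ | ⟨-, j, hj, hd⟩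
        · exact absurd h3' h3
        · have hmem : flow Φ ε T W ∈ NearS Φ ε i0 := by
            refine mem_near hΦ hε hW (u := T) (by simp [hε.le]) ?_
            intro k
            have hk : k = i0 ∨ k = j := by
              by_contra hcon
              push Not at hcon
              have h4 : ({i0, j, k} : Finset A).card = 3 := by
                rw [Finset.card_insert_of_notMem, Finset.card_insert_of_notMem,
                  Finset.card_singleton]
                · simpa using hcon.2.symm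
                · simp only [Finset.mem_insert, Finset.mem_singleton]
                  push Not
                  exact ⟨hj.symm, hcon.1.symm⟩
              have h5 := Finset.card_le_univ ({i0, j, k} : Finset A)
              rw [h4, hcard, h2] at h5
              omega
            rcases hk with rfl | rfl
            · exact .refl
            · exact .single hd
          simp only
          rw [indicator_of_mem hmem]
          simp
      · refine (flow_near_le hΦ hε hγ i0 T hΨ).trans ?_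
        rw [hcard, h2]
        have h6 : ENNReal.ofReal (ε ^ 3) ^ (2 - 1) ≤
            ENNReal.ofReal ε * ENNReal.ofReal c0 * ENNReal.ofReal (ε ^ (2 * (2 - 1))) := by
          rw [← ENNReal.ofReal_pow (by positivity), ← ENNReal.ofReal_mul hε.le,
            ← ENNReal.ofReal_mul (by positivity)]
          refine ENNReal.ofReal_le_ofReal ?_
          have : (ε ^ 3) ^ (2 - 1) = ε * 1 * ε ^ (2 * (2 - 1)) := by
            norm_num
            ring
          rw [this]
          exact mul_le_mul_of_nonneg_right (mul_le_mul_of_nonneg_left hc01 hε.le) (by positivity)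
        calc (∫⁻ x, Ψ x) * (Cs Φ γ 2 * ENNReal.ofReal (ε ^ 3) ^ (2 - 1))
            = ENNReal.ofReal (ε ^ 3) ^ (2 - 1) * (Cs Φ γ 2 * ∫⁻ x, Ψ x) := by ring
          _ ≤ (ENNReal.ofReal ε * ENNReal.ofReal c0 * ENNReal.ofReal (ε ^ (2 * (2 - 1)))) *
              (S * ∫⁻ x, Ψ x) := by
              rw [h2] at hnS
              exact mul_le_mul' h6 (mul_le_mul_left hnS _)
          _ = _ := by ring
    · refine ⟨fun _ => 0, measurable_const, ?_, by simp⟩
      intro W hW i' hi' hbad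
      obtain ⟨i'', hi'', hb⟩ := hbad
      rcases hb with ⟨h3', -⟩ | ⟨h2', -⟩
      · exact absurd h3' h3
      · exact absurd h2' h2

end Crest.Agent.R122.BadTerm818

end
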