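import Crest.Agent.R122.BadDefs_726

/-!
# Release chains (row 122, D5, helper726): `BadCh` does not depend on the labelling

`BadCh_equiv` : for a bijection `f : ι ≃ ι'` of the labels, `BadCh` of `V ∘ f` with root `i` is
`BadCh` of `V` with root `f i`.
-/

set_option autoImplicit false
set_option linter.unusedSectionVars false

open Set Filter Topology
open Crest.AnalysisR.Kinetic
open scoped Classical

noncomputable section

namespace Crest.Agent.R122.Chain726

open Kin796 Kin796.CTree Disc416 Tree674 Flow671 Loc45 Causal291 PathFlow968 Surj968 Graft968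

variable {Φ : Space3 → ℝ} {ε T te s : ℝ} {ι ι' : Type*} {f : ι ≃ ι'}

/-- `V` is the relabelling of `W`. -/
structure Mv (f : ι ≃ ι') {A : Finset ι} {B : Finset ι'} (W : A → PhasePoint)
    (V : B → PhasePoint) : Prop where
  mem : ∀ k, k ∈ A ↔ f k ∈ B
  val : ∀ (k : A) (k' : B), (k' : ι') = f k → V k' = W k

/-- the bijection of the labels -/
def Mv.eqv {A : Finset ι} {B : Finset ι'} {W : A → PhasePoint} {V : B → PhasePoint}
    (h : Mv f W V) : A ≃ B where
  toFun k := ⟨f k, (h.mem k).1 k.2⟩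
  invFun k := ⟨f.symm k, (h.mem _).2 (by rw [Equiv.apply_symm_apply]; exact k.2)⟩
  left_inv k := Subtype.ext (by simp)
  right_inv k := Subtype.ext (by simp)

section mv

variable {A : Finset ι} {B : Finset ι'} {W : A → PhasePoint} {V : B → PhasePoint}

theorem Mv.coe_eqv (h : Mv f W V) (k : A) : (h.eqv k : ι') = f k := rfl

theorem Mv.val_eqv (h : Mv f W V) (k : A) : V (h.eqv k) = W k := h.val k _ rfl

theorem Mv.eq (h : Mv f W V) : W = fun k => V (h.eqv k) := funext fun k => (h.val_eqv k).symm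

theorem Mv.flw (hΦ : AdmissiblePotential Φ) (hε : 0 < ε) (h : Mv f W V) (s : ℝ) :
    Mv f (flow Φ ε s W) (flow Φ ε s V) where
  mem := h.mem
  val k k' hk := by
    have h1 : k' = h.eqv k := Subtype.ext hk
    have h2 := congrFun (flow_equiv hΦ hε h.eqv s V) k
    rw [← h.eq] at h2
    rw [h1, h2]

theorem Mv.card (h : Mv f W V) : B.card = A.card := by
  have := Fintype.card_congr h.eqv
  rw [Fintype.card_coe, Fintype.card_coe] at this
  exact this.symm

theorem Mv.dom (h : Mv f W V) (hW : W ∈ Dom Φ A) : V ∈ Dom Φ B := by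
  have h1 := Dom_comp h.eqv.symm.toEmbedding hW
  have h2 : (fun i => W (h.eqv.symm.toEmbedding i)) = V := by
    funext k
    have h3 := h.val_eqv (h.eqv.symm k)
    rw [Equiv.apply_symm_apply] at h3
    exact h3.symm
  rwa [h2] at h1

theorem Mv.dst_eq (h : Mv f W V) (a b : A) : dst V (h.eqv a) (h.eqv b) = dst W a b := by
  show dist (V (h.eqv a)).1 (V (h.eqv b)).1 = dist (W a).1 (W b).1
  rw [h.val_eqv, h.val_eqv]

theorem Mv.mk' (f : ι ≃ ι') (A : Finset ι) (W : A → PhasePoint) :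
    ∃ V : ↥(A.map f.toEmbedding) → PhasePoint, Mv f W V := by
  refine ⟨fun k => W ⟨f.symm k, ?_⟩, fun k => by simp, fun k k' hk => ?_⟩
  · obtain ⟨a, ha, hak⟩ := Finset.mem_map.1 k.2
    have : f a = k := hak
    rw [← this, Equiv.symm_apply_apply]
    exact ha
  · have h1 : (⟨f.symm k', by
        obtain ⟨a, ha, hak⟩ := Finset.mem_map.1 k'.2
        have : f a = k' := hak
        rw [← this, Equiv.symm_apply_apply]
        exact ha⟩ : A) = k := Subtype.ext (by
          show f.symm k' = k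
          rw [hk, Equiv.symm_apply_apply])
    exact congrArg W h1

theorem Mv.step (hΦ : AdmissiblePotential Φ) (hε : 0 < ε) {A' : Finset ι} {B' : Finset ι'}
    {W' : A' → PhasePoint} {V' : B' → PhasePoint} (h : Mv f W V) (h' : Mv f W' V')
    (hst : Step Φ ε s W W') : Step Φ ε s V V' := by
  have hsub : B' ⊆ B := by
    intro k hk
    have h1 : f.symm k ∈ A := hst.sub ((h'.mem _).2 (by rw [Equiv.apply_symm_apply]; exact hk))
    have h2 := (h.mem _).1 h1
    rwa [Equiv.apply_symm_apply] at h2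
  have hmem : ∀ a : A, (h.eqv a : ι') ∈ B' ↔ (a : ι) ∈ A' := fun a => (h'.mem a).symm
  have hfl := h.flw hΦ hε s
  have hd : ∀ a b : A, dst (flow Φ ε s V) (h.eqv a) (h.eqv b) =
      dst (flow Φ ε s W) a b := fun a b => hfl.dst_eq a b
  refine ⟨h.dom hst.dom, hsub, ?_, ?_, ?_⟩
  · obtain ⟨j, hj, ⟨m, hm, hjm⟩, hch⟩ := hst.touch
    refine ⟨h.eqv j, fun h1 => hj ((hmem j).1 h1), ⟨h.eqv m, (hmem m).2 hm, ?_⟩, ?_⟩
    · rw [hd]
      exact hjm
    · intro k hk
      obtain ⟨k, rfl⟩ := h.eqv.surjective k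
      have h1 := hch k fun h2 => hk ((hmem k).2 h2)
      refine Relation.ReflTransGen.lift h.eqv (fun a b hab => ?_) _ _ h1
      exact ⟨fun h2 => hab.1 ((hmem b).1 h2), by rw [hd]; exact hab.2⟩
  · obtain ⟨δ, hδ, hsep⟩ := hst.sep
    refine ⟨δ, hδ, fun u hu j k hj hk => ?_⟩
    obtain ⟨j, rfl⟩ := h.eqv.surjective j
    obtain ⟨k, rfl⟩ := h.eqv.surjective k
    have h1 : dst (flow Φ ε u V) (h.eqv j) (h.eqv k) =
      dst (flow Φ ε u W) j k := (h.flw hΦ hε u).dst_eq j k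
    rw [h1]
    exact hsep u hu j k (fun h2 => hj ((hmem j).2 h2)) ((hmem k).1 hk)
  · have h1 : Mv f (rs hst.sub (flow Φ ε s W)) (rs hsub (flow Φ ε s V)) :=
      ⟨h'.mem, fun k k' hk => hfl.val ⟨k, hst.sub k.2⟩ ⟨k', hsub k'.2⟩ hk⟩
    have h2 := h1.flw hΦ hε (-s)
    funext k
    obtain ⟨k, rfl⟩ := h'.eqv.surjective k
    refine (h'.val_eqv k).trans ((congrFun hst.state k).trans ?_)
    exact (h2.val k (h'.eqv k) rfl).symm

/-- Relabelling of chains. -/
theorem Mv.chain (hΦ : AdmissiblePotential Φ) (hε : 0 < ε) {A' : Finset ι}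
    {W' : A' → PhasePoint} (hc : Chain Φ ε T A W A' W') :
    ∀ {B : Finset ι'} {V : B → PhasePoint}, Mv f W V → ∀ B' : Finset ι',
      (∀ k, k ∈ A' ↔ f k ∈ B') → ∃ V' : B' → PhasePoint, Mv f W' V' ∧ Chain Φ ε T B V B' V' := by
  induction hc with
  | refl A W =>
    intro B V h B' hB'
    have hBB : B = B' := by
      ext k
      obtain ⟨k, rfl⟩ := f.surjective k
      rw [← h.mem, hB']
    subst hBB
    exact ⟨V, h, .refl _ _⟩
  | @step A₀ A₁ A₂ W₀ W₁ W₂ s hs hst _ ih =>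
    intro B V h B' hB'
    obtain ⟨V₁, h₁⟩ := Mv.mk' f A₁ W₁
    obtain ⟨V', h', hc'⟩ := ih h₁ B' hB'
    exact ⟨V', h', .step hs (h.step hΦ hε h₁ hst) hc'⟩

end mv

theorem BadGraft.map {κ κ' : Type*} [Fintype κ] [Fintype κ'] (hΦ : AdmissiblePotential Φ)
    (hε : 0 < ε) (g : κ ≃ κ') {i : κ} {W : κ' → PhasePoint} {m : κ} {z : PhasePoint}
    (h : BadGraft Φ ε T i s (fun k => W (g k)) m z) : BadGraft Φ ε T (g i) s W (g m) z := by
  obtain ⟨P, e, ℓ, p, y, h1, h2, h3, h4, h5, h6, h7, h8, h9⟩ := h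
  have hfl := congrFun (flow_equiv hΦ hε g s W) m
  rw [hfl] at h7 h8
  refine ⟨P, e.trans g, ℓ, p, y, h1, h2, ?_, fun x => h4 x, h5, h6, h7, h8, ?_⟩
  · rw [Equiv.trans_apply, h3]
  · have hm : (e.trans g).symm (g m) = e.symm m := by simp
    rw [hm]
    exact h9

section bad

variable {A : Finset ι} {B : Finset ι'} {W : A → PhasePoint} {V : B → PhasePoint} {i : ι}

theorem BadStep.map (hΦ : AdmissiblePotential Φ) (hε : 0 < ε) (h : Mv f W V)
    (hb : BadStep Φ ε T i W) : BadStep Φ ε T (f i) V := by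
  obtain ⟨s, hs, A', W', hst, hb⟩ := hb
  obtain ⟨V', h'⟩ := Mv.mk' f A' W'
  refine ⟨s, hs, _, V', h.step hΦ hε h' hst, ?_⟩
  rcases hb with ⟨hc, W'', hch⟩ | ⟨hc, j, m, i', hi', hj, hd, hb⟩
  · left
    refine ⟨by rw [h.card, h'.card]; exact hc, ?_⟩
    obtain ⟨V'', -, hc'⟩ := Mv.chain hΦ hε hch h' {f i} fun k => by
      rw [Finset.mem_singleton, Finset.mem_singleton, f.injective.eq_iff]
    exact ⟨V'', hc'⟩
  · right
    have hflj := (h.flw hΦ hε s).val_eqv j
    have hflm := (h'.flw hΦ hε s).val_eqv m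
    have hflj' : flow Φ ε s V (h.eqv j) = flow Φ ε s W j := hflj
    have hflm' : flow Φ ε s V' (h'.eqv m) = flow Φ ε s W' m := hflm
    refine ⟨by rw [h.card, h'.card]; exact hc, h.eqv j, h'.eqv m, h'.eqv i', congrArg f hi',
      fun h1 => hj ((h'.mem _).2 h1), ?_, ?_⟩
    · rw [hflj', hflm']
      exact hd
    · rw [hflj', hflm']
      refine hb.imp id fun hb => ⟨hb.1, ?_⟩
      have h2 := hb.2
      rw [h'.eq] at h2
      exact h2.map hΦ hε h'.eqv

theorem TermBad.map (hΦ : AdmissiblePotential Φ) (hε : 0 < ε) (h : Mv f W V)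
    (hb : TermBad Φ ε T te i W) : TermBad Φ ε T te (f i) V := by
  obtain ⟨i', hi', hb⟩ := hb
  have hd : ∀ s (a b : A), dst (flow Φ ε s V) (h.eqv a) (h.eqv b) =
      dst (flow Φ ε s W) a b := fun s a b => (h.flw hΦ hε s).dst_eq a b
  refine ⟨h.eqv i', congrArg f hi', ?_⟩
  rw [h.card]
  refine hb.imp ?_ ?_
  · rintro ⟨hc, u, hu, hch⟩
    refine ⟨hc, u, hu, fun k => ?_⟩
    obtain ⟨k, rfl⟩ := h.eqv.surjective k
    refine Relation.ReflTransGen.lift h.eqv (fun a b hab => ?_) _ _ (hch k)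
    show dst (flow Φ ε u V) (h.eqv a) (h.eqv b) ≤ ε
    rw [hd]
    exact hab
  · rintro ⟨hc, j, hj, hd'⟩
    refine ⟨hc, h.eqv j, fun h1 => hj (h.eqv.injective h1), ?_⟩
    rw [hd]
    exact hd'

theorem BadGrp.map (hΦ : AdmissiblePotential Φ) (hε : 0 < ε) (h : Mv f W V)
    (hb : BadGrp Φ ε T te i A W) : BadGrp Φ ε T te (f i) B V := by
  obtain ⟨A', W', hc, hb⟩ := hb
  obtain ⟨V', h', hc'⟩ := Mv.chain hΦ hε hc h (A'.map f.toEmbedding) fun k => by simp
  exact ⟨_, V', hc', hb.imp (fun hb => hb.map hΦ hε h') fun hb => hb.map hΦ hε h'⟩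

/-- **Relabelling.** -/
theorem BadCh_equiv [Fintype ι] [Fintype ι'] (hΦ : AdmissiblePotential Φ) (hε : 0 < ε)
    (f : ι ≃ ι') {V : ι' → PhasePoint} {i : ι} :
    BadCh Φ ε T te (fun k => V (f k)) i ↔ BadCh Φ ε T te V (f i) := by
  constructor
  · intro h
    refine BadGrp.map (f := f) hΦ hε ⟨fun k => by simp, fun k k' hk => ?_⟩ h
    show V k' = V (f k)
    rw [hk]
  · intro h
    have h1 : BadGrp Φ ε T te (f.symm (f i)) Finset.univ (grp Finset.univ fun k => V (f k)) := by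
      refine BadGrp.map (f := f.symm) hΦ hε ⟨fun k => by simp, fun k k' hk => ?_⟩ h
      show V (f k') = V k
      rw [hk, Equiv.apply_symm_apply]
    rw [Equiv.symm_apply_apply] at h1
    exact h1

end bad

end Crest.Agent.R122.Chain726

end
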