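import Crest.Agent.R122.ChainFinal_726
import Crest.Agent.R122.ChainPerm_726
import Crest.Agent.R122.NGin_416
import Crest.Agent.R122.Mid2_317

/-!
# Release chains (row 122, D5, helper726): the bad family and the input `NGin`

* `badFam Φ T te` : `BadCh` as a `BadFam` of helper416; `permCov_badFam`.
* `det_fin`, `det_fin_pre` : the real history in the Newton world of a gas is a tree, or the cluster,
  enumerated in any way, is in `badFam`.
* `ngin_of_badVol` : `BadVol` of `badFam` gives the input `NGin` of helper317.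
-/

set_option autoImplicit false
set_option linter.unusedSectionVars false

open MeasureTheory Set Filter Topology
open Crest.AnalysisR.Kinetic
open scoped Classical ENNReal

noncomputable section

namespace Crest.Agent.R122.Chain726

open Kin796 Kin796.CTree Disc416 Tree674 Flow671 Loc45 Causal291 PathFlow968 Surj968 Graft968
open NG416 GC311 EDefs602 Master566

variable {Φ : Space3 → ℝ} {ε T te u : ℝ}

/-- **The bad family**: `BadCh` at positive `ε`. -/
def badFam (Φ : Space3 → ℝ) (T te : ℝ) : BadFam := fun ε _ V j => 0 < ε ∧ BadCh Φ ε T te V j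

theorem permCov_badFam (hΦ : AdmissiblePotential Φ) (T te : ℝ) : PermCov (badFam Φ T te) :=
  fun _ _ σ _ _ h => ⟨h.1, (BadCh_equiv hΦ h.1 σ).2 h.2⟩

/-- Every finite set is the range of an enumeration. -/
theorem exists_enum {n : ℕ} (S : Set (Fin n)) :
    ∃ (k : ℕ) (e : Fin k ↪ Fin n), k = S.ncard ∧ ∀ x, x ∈ S ↔ x ∈ range e := by
  classical
  refine ⟨S.toFinset.card, (S.toFinset.orderEmbOfFin rfl).toEmbedding, ?_, fun x => ?_⟩
  · rw [Set.ncard_eq_toFinset_card']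
  · have h := Finset.range_orderEmbOfFin S.toFinset rfl
    rw [show range (S.toFinset.orderEmbOfFin rfl).toEmbedding =
      range (S.toFinset.orderEmbOfFin rfl) from rfl, h]
    simp

/-- **Closed past in the Newton world of a gas.** -/
theorem det_fin (hΦ : AdmissiblePotential Φ) (hε : 0 < ε) {n : ℕ} {Z : Config n}
    (hZ : Z ∈ PairExcluded ε n) (hu : u ∈ Icc 0 te) (hteT : te < T) (i : Fin n) :
    (∃ P ℓ p e, InEq2.HTreeC Φ ε T u Z i P ℓ p e) ∨
    ∃ (k : ℕ) (e : Fin k ↪ Fin n) (j : Fin k), k = (bc Φ ε Z u i).ncard ∧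
      (∀ x, x ∈ bc Φ ε Z u i ↔ x ∈ range e) ∧ e j = i ∧ badFam Φ T te ε k (fun x => Z (e x)) j := by
  have hdom : Z ∈ Dom Φ (Fin n) := Or.inr fun a b hab h => by
    have h1 := hZ a b hab
    rw [h, dist_self] at h1
    linarith
  obtain ⟨k, e, hk, he⟩ := exists_enum (bc Φ ε Z u i)
  have hi : i ∈ bc Φ ε Z u i := Past.root hu.1
  obtain ⟨j, rfl⟩ := (he i).1 hi
  rcases det_pth hΦ hε hdom hu hteT he with ⟨Q, f, ℓ, p, h⟩ | h
  · exact Or.inl ⟨Q, ℓ, p, _, h⟩
  · exact Or.inr ⟨k, e, j, hk, he, rfl, hε, h⟩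

/-- **Past at `u⁻` in the Newton world of a gas.** -/
theorem det_fin_pre (hΦ : AdmissiblePotential Φ) (hε : 0 < ε) {n : ℕ} {Z : Config n}
    (hZ : Z ∈ PairExcluded ε n) (hu : u ∈ Ioc 0 te) (hteT : te < T) (i : Fin n) :
    (∃ P ℓ p e, InEq2.HTreeP Φ ε T u Z i P ℓ p e) ∨
    ∃ (k : ℕ) (e : Fin k ↪ Fin n) (j : Fin k),
      k = (Inf879.pre (Ct (pth Φ ε Z) ε) i u 0).ncard ∧
      (∀ x, x ∈ Inf879.pre (Ct (pth Φ ε Z) ε) i u 0 ↔ x ∈ range e) ∧ e j = i ∧
      badFam Φ T te ε k (fun x => Z (e x)) j := by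
  have hdom : Z ∈ Dom Φ (Fin n) := Or.inr fun a b hab h => by
    have h1 := hZ a b hab
    rw [h, dist_self] at h1
    linarith
  obtain ⟨k, e, hk, he⟩ := exists_enum (Inf879.pre (Ct (pth Φ ε Z) ε) i u 0)
  have hi : i ∈ Inf879.pre (Ct (pth Φ ε Z) ε) i u 0 := by
    obtain ⟨r, hr1, hr2⟩ := exists_between hu.1
    exact ⟨r, ⟨hr1.le, hr2⟩, .root hr1.le⟩
  obtain ⟨j, rfl⟩ := (he i).1 hi
  rcases det_pth_pre hΦ hε hdom hu hteT he with ⟨Q, f, ℓ, p, h⟩ | h
  · exact Or.inl ⟨Q, ℓ, p, _, h⟩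
  · exact Or.inr ⟨k, e, j, hk, he, rfl, hε, h⟩

/-- **The input `NGin` of helper317** from the volume statement of D5. -/
theorem ngin_of_badVol (hΦ : AdmissiblePotential Φ) (hteT : te < T) {γ γ₀ : ℝ} (hγ : γ < γ₀)
    {K : ℕ} (hvol : BadVol γ K (badFam Φ T te)) {f₀ : PhasePoint → ℝ} (hf : Measurable f₀)
    (h1 : ∫⁻ z, ENNReal.ofReal (f₀ z) ≤ 1)
    (hg : HasSummableGaussianBound γ₀ (fun x v => f₀ (x, v))) :
    Mid317.NGin Φ f₀ T te K := by
  obtain ⟨B, hB1, hB2, hB3, hB4⟩ := ngin (permCov_badFam hΦ T te) hγ hvol hf h1 hg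
  refine ⟨B, hB1, hB2, hB3, 1, one_pos, fun ε hε _ n X hX i u hu hK => ?_⟩
  rcases det_fin hΦ hε hX hu hteT i with h | ⟨k, e, j, hk, he, rfl, hb⟩
  · exact Or.inl h
  · right
    have h2 := hB4 ε hε n X hX k (hk.trans_le hK) e j hb
    have h3 : (bc Φ ε X u (e j)).toFinset = Finset.univ.map e := by
      ext x
      rw [Set.mem_toFinset, he]
      simp
    rw [h3]
    exact h2

end Crest.Agent.R122.Chain726

end
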