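import Crest.Agent.R122.CausalNewton_291
import Crest.Agent.R122.LocFlow_45

/-!
# Release chains (row 122, D5, helper726): definitions

The state of an active group `A : Finset ι` is stored as its time-`0` pull-back
`W : A → PhasePoint`: at time `s` the group is in the state `flow Φ ε s W` (the isolated flow of
the group).  A release step at time `s` removes a contact-connected family `J = A \ A'` which touches
the remaining group `A'` and separates from it.
-/

set_option autoImplicit false

open Set Filter Topology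
open Crest.AnalysisR.Kinetic
open scoped Classical

noncomputable section

namespace Crest.Agent.R122.Chain726

open Flow671 Loc45 Causal291

variable {ι : Type*}

/-- Restriction to a sub-family. -/
def rs {A A' : Finset ι} (h : A' ⊆ A) (Z : A → PhasePoint) : A' → PhasePoint :=
  fun k => Z ⟨k, h k.2⟩

@[simp] theorem rs_apply {A A' : Finset ι} (h : A' ⊆ A) (Z : A → PhasePoint) (k : A') :
    rs h Z k = Z ⟨k, h k.2⟩ := rfl

/-- distance of two particles of a configuration -/
def dst {κ : Type*} (Z : κ → PhasePoint) (j k : κ) : ℝ := dist (Z j).1 (Z k).1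

theorem dst_comm {κ : Type*} (Z : κ → PhasePoint) (j k : κ) : dst Z j k = dst Z k j :=
  dist_comm _ _

/-- **Release step** at time `s`: the group `A` (time-`0` pull-back `W`) releases `A \ A'`, the
group `A'` goes on with pull-back `W'`. -/
structure Step (Φ : Space3 → ℝ) (ε s : ℝ) {A A' : Finset ι} (W : A → PhasePoint)
    (W' : A' → PhasePoint) : Prop where
  dom : W ∈ Dom Φ A
  sub : A' ⊆ A
  /-- one released particle touches a remaining one, the released ones are contact-connected -/
  touch : ∃ j : A, (j : ι) ∉ A' ∧ (∃ m : A, (m : ι) ∈ A' ∧ dst (flow Φ ε s W) j m = ε) ∧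
    ∀ k : A, (k : ι) ∉ A' → Relation.ReflTransGen
      (fun a b : A => (b : ι) ∉ A' ∧ dst (flow Φ ε s W) a b ≤ ε) j k
  /-- right after `s` the released particles are separated from the remaining ones -/
  sep : ∃ h > 0, ∀ u ∈ Ioo s (s + h), ∀ j k : A, (j : ι) ∉ A' → (k : ι) ∈ A' →
    ε < dst (flow Φ ε u W) j k
  /-- the state of the remaining group at time `s` -/
  state : W' = flow Φ ε (-s) (rs sub (flow Φ ε s W))

/-- Chains of release steps at times in `[0, T]` (not necessarily ordered). -/
inductive Chain (Φ : Space3 → ℝ) (ε T : ℝ) : (A : Finset ι) → (A → PhasePoint) →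
    (A' : Finset ι) → (A' → PhasePoint) → Prop
  | refl (A : Finset ι) (W : A → PhasePoint) : Chain Φ ε T A W A W
  | step {A A' A'' : Finset ι} {W : A → PhasePoint} {W' : A' → PhasePoint}
      {W'' : A'' → PhasePoint} {s : ℝ} (hs : s ∈ Icc 0 T) (h : Step Φ ε s W W')
      (hc : Chain Φ ε T A' W' A'' W'') : Chain Φ ε T A W A'' W''

variable {Φ : Space3 → ℝ} {ε T s : ℝ}

theorem Chain.trans {A A' A'' : Finset ι} {W : A → PhasePoint} {W' : A' → PhasePoint}
    {W'' : A'' → PhasePoint} (h : Chain Φ ε T A W A' W') (h' : Chain Φ ε T A' W' A'' W'') :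
    Chain Φ ε T A W A'' W'' := by
  induction h with
  | refl _ _ => exact h'
  | step hs h _ ih => exact .step hs h (ih h')

theorem Chain.single {A A' : Finset ι} {W : A → PhasePoint} {W' : A' → PhasePoint}
    (hs : s ∈ Icc 0 T) (h : Step Φ ε s W W') : Chain Φ ε T A W A' W' :=
  .step hs h (.refl _ _)

theorem Chain.mono {T' : ℝ} (hT : T ≤ T') {A A' : Finset ι} {W : A → PhasePoint}
    {W' : A' → PhasePoint} (h : Chain Φ ε T A W A' W') : Chain Φ ε T' A W A' W' := by
  induction h with
  | refl _ _ => exact .refl _ _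
  | step hs h _ ih => exact .step ⟨hs.1, hs.2.trans hT⟩ h ih

theorem Chain.subset {A A' : Finset ι} {W : A → PhasePoint} {W' : A' → PhasePoint}
    (h : Chain Φ ε T A W A' W') : A' ⊆ A := by
  induction h with
  | refl _ _ => exact Finset.Subset.refl _
  | step _ h _ ih => exact ih.trans h.sub

theorem Step.ssubset {A A' : Finset ι} {W : A → PhasePoint} {W' : A' → PhasePoint}
    (h : Step Φ ε s W W') : A' ⊂ A := by
  obtain ⟨j, hj, -⟩ := h.touch
  exact ⟨h.sub, fun hs => hj (hs j.2)⟩

theorem Step.card_lt {A A' : Finset ι} {W : A → PhasePoint} {W' : A' → PhasePoint}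
    (h : Step Φ ε s W W') : A'.card < A.card := Finset.card_lt_card h.ssubset

theorem Step.flow_eq (hΦ : AdmissiblePotential Φ) (hε : 0 < ε) {A A' : Finset ι}
    {W : A → PhasePoint} {W' : A' → PhasePoint} (h : Step Φ ε s W W') :
    flow Φ ε s W' = rs h.sub (flow Φ ε s W) :=
  (congrArg (flow Φ ε s) h.state).trans (flow_flow_neg hΦ hε s _)

theorem Dom_rs {A A' : Finset ι} (h : A' ⊆ A) {Z : A → PhasePoint} (hZ : Z ∈ Dom Φ A) :
    rs h Z ∈ Dom Φ A' := by
  exact Dom_comp (e := ⟨fun k : A' => (⟨k, h k.2⟩ : A), fun a b hab => by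
    have := congrArg Subtype.val hab
    exact Subtype.ext this⟩) hZ

theorem Step.dom' (hΦ : AdmissiblePotential Φ) (hε : 0 < ε) {A A' : Finset ι}
    {W : A → PhasePoint} {W' : A' → PhasePoint} (h : Step Φ ε s W W') : W' ∈ Dom Φ A' := by
  rw [h.state, flow_mem_iff hΦ hε]
  exact Dom_rs h.sub (flow_mem hΦ hε h.dom s)

theorem Chain.dom' (hΦ : AdmissiblePotential Φ) (hε : 0 < ε) {A A' : Finset ι}
    {W : A → PhasePoint} {W' : A' → PhasePoint} (h : Chain Φ ε T A W A' W')
    (hW : W ∈ Dom Φ A) : W' ∈ Dom Φ A' := by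
  induction h with
  | refl _ _ => exact hW
  | step _ h _ ih => exact ih (h.dom' hΦ hε)

end Crest.Agent.R122.Chain726

end
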