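import Crest.Agent.R122.VolStep_365
import Crest.Agent.R122.ChainDefs_726

/-!
Row 122, helper365: majorants along release chains (Finset form of helper726).
-/

set_option autoImplicit false

open MeasureTheory Set Filter
open Crest.AnalysisR.Kinetic
open Crest.Agent.R122.Flow671 Crest.Agent.R122.Loc45 Crest.Agent.R122.Chain726
open scoped ENNReal Classical Topology

noncomputable section

namespace Crest.Agent.R122.Vol365

variable {Φ : Space3 → ℝ} {ε : ℝ}

/-- Energy weighted integral over the configurations of a finite type. -/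
def eint (Φ : Space3 → ℝ) (ε γ : ℝ) {κ : Type} [Fintype κ] (F : (κ → PhasePoint) → ℝ≥0∞) : ℝ≥0∞ :=
  ∫⁻ W : κ → PhasePoint, ENNReal.ofReal (Real.exp (-(γ * energy Φ ε W))) * F W

theorem eint_equiv {γ : ℝ} {κ κ' : Type} [Fintype κ] [Fintype κ'] (σ : κ ≃ κ')
    {F : (κ → PhasePoint) → ℝ≥0∞} (hF : Measurable F)
    (hem : Measurable fun W : κ → PhasePoint => energy Φ ε W) :
    eint Φ ε γ (fun W' : κ' → PhasePoint => F (fun k => W' (σ k))) = eint Φ ε γ F := by
  unfold eint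
  have hmp := volume_measurePreserving_piCongrLeft (fun _ : κ' => PhasePoint) σ
  have h1 := hmp.symm
  have e1 : ∀ W' : κ' → PhasePoint, ENNReal.ofReal (Real.exp (-(γ * energy Φ ε W'))) *
      F (fun k => W' (σ k)) = (fun W : κ → PhasePoint =>
        ENNReal.ofReal (Real.exp (-(γ * energy Φ ε W))) * F W)
        ((MeasurableEquiv.piCongrLeft (fun _ : κ' => PhasePoint) σ).symm W') := by
    intro W'
    have e2 : (MeasurableEquiv.piCongrLeft (fun _ : κ' => PhasePoint) σ).symm W' =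
        fun k => W' (σ k) := rfl
    rw [e2]
    simp only [energy_equiv Φ ε σ W']
  simp_rw [e1]
  exact h1.lintegral_comp ((by fun_prop : Measurable fun W : κ → PhasePoint =>
    ENNReal.ofReal (Real.exp (-(γ * energy Φ ε W)))).mul hF)

theorem eint_mono_gamma (hΦ : AdmissiblePotential Φ) (hε : 0 < ε) {γ₁ γ₂ : ℝ} (hγ : γ₁ ≤ γ₂)
    {K : ℕ} {κ : Type} [Fintype κ] (hK : Fintype.card κ ≤ K)
    (F : (κ → PhasePoint) → ℝ≥0∞) (hF : Measurable F) :
    eint Φ ε γ₂ F ≤ ENNReal.ofReal (Real.exp ((γ₂ - γ₁) * (stabB Φ * K))) * eint Φ ε γ₁ F := by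
  have hem := measurable_energy' hΦ hε κ
  unfold eint
  have hmeas : Measurable fun W : κ → PhasePoint =>
      ENNReal.ofReal (Real.exp (-(γ₁ * energy Φ ε W))) * F W :=
    (by fun_prop : Measurable fun W : κ → PhasePoint =>
      ENNReal.ofReal (Real.exp (-(γ₁ * energy Φ ε W)))).mul hF
  have e0 : ∫⁻ W : κ → PhasePoint, ENNReal.ofReal (Real.exp ((γ₂ - γ₁) * (stabB Φ * K))) *
      (ENNReal.ofReal (Real.exp (-(γ₁ * energy Φ ε W))) * F W) =
      ENNReal.ofReal (Real.exp ((γ₂ - γ₁) * (stabB Φ * K))) *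
      ∫⁻ W : κ → PhasePoint, ENNReal.ofReal (Real.exp (-(γ₁ * energy Φ ε W))) * F W :=
    lintegral_const_mul _ hmeas
  rw [← e0]
  refine lintegral_mono_ae ?_
  filter_upwards [ae_mem_Dom (ι := κ) Φ] with W hW
  rw [← mul_assoc]
  refine mul_le_mul_left ?_ _
  rw [← ENNReal.ofReal_mul (by positivity), ← Real.exp_add]
  refine ENNReal.ofReal_le_ofReal (Real.exp_le_exp.2 ?_)
  have h1 := kin_le hΦ hε hW
  have h2 := kin_nonneg W
  have h3 : (Fintype.card κ : ℝ) ≤ K := by exact_mod_cast hK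
  have h4 : stabB Φ * Fintype.card κ ≤ stabB Φ * K :=
    mul_le_mul_of_nonneg_left h3 (stabB_nonneg Φ)
  have h5 : 0 ≤ (γ₂ - γ₁) * (energy Φ ε W + stabB Φ * K) :=
    mul_nonneg (by linarith) (by linarith)
  nlinarith

/-- Translation of a Finset step. -/
theorem gstep_of_step (hΦ : AdmissiblePotential Φ) (hε : 0 < ε) {ι : Type} {A A' : Finset ι}
    {s : ℝ} {W : A → PhasePoint} {W' : A' → PhasePoint} (h : Step Φ ε s W W')
    (σ : A' ≃ {i : A // (i : ι) ∈ A'}) (hσ : ∀ k, ((σ k).1 : ι) = k) :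
    GStep Φ ε s (fun i : A => (i : ι) ∈ A') W (fun i => W' (σ.symm i)) := by
  refine ⟨h.dom, ?_, ?_, ?_⟩
  · obtain ⟨j, hj, ⟨m, hm, hjm⟩, hc⟩ := h.touch
    refine ⟨j, hj, ⟨m, hm, hjm⟩, fun k hk => ?_⟩
    have h0 := hc k hk
    clear hk
    induction h0 with
    | refl => exact .refl
    | tail _ h4 ih => exact ih.tail h4.2
  · exact h.sep
  · have e1 : rs h.sub (flow Φ ε s W) =
        fun k => (res (fun i : A => (i : ι) ∈ A') (flow Φ ε s W)) (σ k) := by
      funext k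
      show flow Φ ε s W ⟨k, _⟩ = flow Φ ε s W (σ k).1
      congr 1
      exact Subtype.ext (hσ k).symm
    have e2 := h.state
    rw [e1, flow_equiv hΦ hε σ (-s)] at e2
    funext i
    have e3 : W' (σ.symm i) = _ := congrFun e2 (σ.symm i)
    refine e3.trans ?_
    rw [Equiv.apply_symm_apply]
    exact congrArg (fun inst : Fintype {i : A // (i : ι) ∈ A'} =>
      @flow _ inst Φ ε (-s) (res (fun i : A => (i : ι) ∈ A') (flow Φ ε s W)) i)
      (Subsingleton.elim _ _)

theorem measurable_of_equiv {κ κ' : Type} (σ : κ ≃ κ') {F : (κ → PhasePoint) → ℝ≥0∞}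
    (hF : Measurable F) : Measurable fun W' : κ' → PhasePoint => F (fun k => W' (σ k)) :=
  hF.comp (measurable_pi_lambda _ fun k => measurable_pi_apply (σ k))

theorem step_majorant' (hΦ : AdmissiblePotential Φ) {γ' γ : ℝ} (h0 : 0 < γ') (hγ : γ' < γ)
    {T : ℝ} (hT : 0 ≤ T) (K : ℕ) : ∃ C : ℝ≥0∞, C ≠ ∞ ∧ ∀ ε : ℝ, 0 < ε →
    ∀ (κ : Type) [Fintype κ], Fintype.card κ ≤ K → ∀ (p : κ → Prop)
    (F : ({i // p i} → PhasePoint) → ℝ≥0∞), Measurable F →
    ∃ M : (κ → PhasePoint) → ℝ≥0∞, Measurable M ∧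
      (∀ s ∈ Icc 0 T, ∀ W W', GStep Φ ε s p W W' → F W' ≤ M W) ∧
      eint Φ ε γ M ≤ C * ENNReal.ofReal ε ^ (2 + 3 * (Fintype.card {i // ¬ p i} - 1)) *
        eint Φ ε γ' F := by
  obtain ⟨C, hC, h⟩ := step_majorant hΦ h0 hγ hT K
  exact ⟨C, hC, fun ε hε κ _ hK p F hF => h ε hε κ hK p F hF⟩

/-- **Majorant for one release step**, Finset form. -/
theorem fstep_majorant (hΦ : AdmissiblePotential Φ) {γ' γ : ℝ} (h0 : 0 < γ') (hγ : γ' < γ)
    {T : ℝ} (hT : 0 ≤ T) (K : ℕ) : ∃ C : ℝ≥0∞, C ≠ ∞ ∧ ∀ ε : ℝ, 0 < ε →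
    ∀ (ι : Type) (A A' : Finset ι), A.card ≤ K → A' ⊆ A →
    ∀ F : (A' → PhasePoint) → ℝ≥0∞, Measurable F →
    ∃ M : (A → PhasePoint) → ℝ≥0∞, Measurable M ∧
      (∀ s ∈ Icc 0 T, ∀ (W : A → PhasePoint) (W' : A' → PhasePoint), Step Φ ε s W W' →
        F W' ≤ M W) ∧
      eint Φ ε γ M ≤ C * ENNReal.ofReal ε ^ (2 + 3 * (A.card - A'.card - 1)) * eint Φ ε γ' F := by
  obtain ⟨C, hC, h⟩ := step_majorant' hΦ h0 hγ hT K
  refine ⟨C, hC, ?_⟩
  intro ε hε ι A A' hAK sub F hF
  let σ : A' ≃ {i : A // (i : ι) ∈ A'} :=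
    ⟨fun k => ⟨⟨k, sub k.2⟩, k.2⟩, fun i => ⟨i.1, i.2⟩, fun _ => rfl, fun _ => rfl⟩
  have hσ : ∀ k, ((σ k).1 : ι) = k := fun _ => rfl
  obtain ⟨M, hM, h1, h2⟩ := h ε hε A (by rwa [Fintype.card_coe]) (fun i : A => (i : ι) ∈ A')
    (fun x => F (fun k => x (σ k))) (measurable_of_equiv σ hF)
  refine ⟨M, hM, ?_, ?_⟩
  · intro s hs W W' hst
    have h3 := h1 s hs W _ (gstep_of_step hΦ hε hst σ hσ)
    simpa only [Equiv.symm_apply_apply] using h3
  · refine (show eint Φ ε γ M ≤ _ from h2).trans ?_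
    have hc1 : Fintype.card {i : A // (i : ι) ∈ A'} = A'.card := by
      rw [← Fintype.card_congr σ, Fintype.card_coe]
    have hc2 : Fintype.card {i : A // ¬ (i : ι) ∈ A'} = A.card - A'.card := by
      rw [Fintype.card_subtype_compl, hc1, Fintype.card_coe]
    have hc3 : ∀ inst : Fintype {i : A // ¬ (i : ι) ∈ A'}, @Fintype.card _ inst =
        A.card - A'.card := by
      intro inst
      rw [← hc2]
      exact congrArg (fun i => @Fintype.card _ i) (Subsingleton.elim _ _)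
    rw [hc3]
    refine mul_le_mul_right (le_of_eq ?_) _
    have h5 := fun inst => @eint_equiv Φ ε γ' _ _ _ inst σ F hF (measurable_energy' hΦ hε _)
    exact h5 _

/-- **Majorants along chains.** -/
theorem chain_majorant (hΦ : AdmissiblePotential Φ) {T : ℝ} (hT : 0 ≤ T) (n : ℕ) :
    ∀ γ₁ γ₂ : ℝ, 0 < γ₁ → γ₁ < γ₂ → ∃ C : ℝ≥0∞, C ≠ ∞ ∧ ∀ ε : ℝ, 0 < ε → ε ≤ 1 →
    ∀ (ι : Type) (A A' : Finset ι), A.card ≤ n →
    ∀ F : (A' → PhasePoint) → ℝ≥0∞, Measurable F →
    ∃ M : (A → PhasePoint) → ℝ≥0∞, Measurable M ∧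
      (∀ (W : A → PhasePoint) (W' : A' → PhasePoint), Chain Φ ε T A W A' W' → F W' ≤ M W) ∧
      eint Φ ε γ₂ M ≤ C * ENNReal.ofReal ε ^ (2 * (A.card - A'.card)) * eint Φ ε γ₁ F := by
  induction n with
  | zero =>
    intro γ₁ γ₂ h1 h12
    refine ⟨1, ENNReal.one_ne_top, ?_⟩
    intro ε hε hε1 ι A A' hA F hF
    have hA0 : A = ∅ := Finset.card_eq_zero.1 (Nat.le_zero.1 hA)
    by_cases hAA : A = A'
    · subst hAA
      refine ⟨F, hF, ?_, ?_⟩
      · intro W W' h
        cases h with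
        | refl => exact le_rfl
        | step hs h _ => exact absurd (h.card_lt) (by rw [hA0]; simp)
      · have h3 := eint_mono_gamma hΦ hε h12.le (K := 0) (by rw [Fintype.card_coe, hA0]; simp) F hF
        simpa [hA0] using h3
    · refine ⟨fun _ => 0, measurable_const, ?_, by simp [eint]⟩
      intro W W' h
      cases h with
      | refl => exact absurd rfl hAA
      | step hs h _ => exact absurd (h.card_lt) (by rw [hA0]; simp)
  | succ n ih =>
    intro γ₁ γ₂ h1 h12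
    obtain ⟨C₁, hC₁, hI⟩ := ih γ₁ ((γ₁ + γ₂) / 2) h1 (by linarith)
    obtain ⟨C₂, hC₂, hS⟩ := fstep_majorant hΦ (γ' := (γ₁ + γ₂) / 2) (γ := γ₂) (by linarith)
      (by linarith) hT (n + 1)
    refine ⟨ENNReal.ofReal (Real.exp ((γ₂ - γ₁) * (stabB Φ * (n + 1 : ℕ)))) + 2 ^ (n + 1) * (C₂ * C₁),
      ENNReal.add_ne_top.2 ⟨ENNReal.ofReal_ne_top, ENNReal.mul_ne_top (by simp)
        (ENNReal.mul_ne_top hC₂ hC₁)⟩, ?_⟩
    intro ε hε hε1 ι A A' hA F hF
    -- majorants through the first step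
    have hex : ∀ A'' : Finset ι, ∃ M : (A → PhasePoint) → ℝ≥0∞, Measurable M ∧
        (∀ s ∈ Icc 0 T, ∀ (W : A → PhasePoint) (W₁ : A'' → PhasePoint) (W' : A' → PhasePoint),
          Step Φ ε s W W₁ → Chain Φ ε T A'' W₁ A' W' → F W' ≤ M W) ∧
        eint Φ ε γ₂ M ≤ C₂ * C₁ * ENNReal.ofReal ε ^ (2 * (A.card - A'.card)) *
          eint Φ ε γ₁ F := by
      intro A''
      by_cases hsub : A'' ⊂ A
      swap
      · refine ⟨fun _ => 0, measurable_const, ?_, by simp [eint]⟩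
        intro s _ W W₁ W' hst _
        exact absurd hst.ssubset hsub
      have hlt := Finset.card_lt_card hsub
      obtain ⟨N, hN, hN1, hN2⟩ := hI ε hε hε1 ι A'' A' (by omega) F hF
      obtain ⟨M, hM, hM1, hM2⟩ := hS ε hε ι A A'' hA hsub.1 N hN
      refine ⟨M, hM, fun s hs W W₁ W' hst hch => (hN1 W₁ W' hch).trans (hM1 s hs W W₁ hst), ?_⟩
      refine hM2.trans ((mul_le_mul_right hN2 _).trans ?_)
      have hpow : ENNReal.ofReal ε ^ (2 + 3 * (A.card - A''.card - 1)) *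
          ENNReal.ofReal ε ^ (2 * (A''.card - A'.card)) ≤
          ENNReal.ofReal ε ^ (2 * (A.card - A'.card)) := by
        rw [← pow_add]
        refine pow_le_pow_right_of_le_one' ?_ (by omega)
        rw [← ENNReal.ofReal_one]; exact ENNReal.ofReal_le_ofReal hε1
      calc C₂ * ENNReal.ofReal ε ^ (2 + 3 * (A.card - A''.card - 1)) *
            (C₁ * ENNReal.ofReal ε ^ (2 * (A''.card - A'.card)) * eint Φ ε γ₁ F)
          = C₂ * C₁ * (ENNReal.ofReal ε ^ (2 + 3 * (A.card - A''.card - 1)) *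
            ENNReal.ofReal ε ^ (2 * (A''.card - A'.card))) * eint Φ ε γ₁ F := by ring
        _ ≤ C₂ * C₁ * ENNReal.ofReal ε ^ (2 * (A.card - A'.card)) * eint Φ ε γ₁ F := by gcongr
    choose M hM hM1 hM2 using hex
    have hsum : eint Φ ε γ₂ (fun W => ∑ A'' ∈ A.powerset, M A'' W) ≤
        2 ^ (n + 1) * (C₂ * C₁) * ENNReal.ofReal ε ^ (2 * (A.card - A'.card)) *
          eint Φ ε γ₁ F := by
      have hem := measurable_energy' hΦ hε A
      have e1 : eint Φ ε γ₂ (fun W => ∑ A'' ∈ A.powerset, M A'' W) =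
          ∑ A'' ∈ A.powerset, eint Φ ε γ₂ (M A'') := by
        unfold eint
        simp_rw [Finset.mul_sum]
        exact lintegral_finsetSum _ fun A'' _ => (by fun_prop :
          Measurable fun W : A → PhasePoint =>
            ENNReal.ofReal (Real.exp (-(γ₂ * energy Φ ε W)))).mul (hM A'')
      rw [e1]
      refine (Finset.sum_le_card_nsmul _ _ _ fun A'' _ => hM2 A'').trans ?_
      rw [nsmul_eq_mul, Finset.card_powerset]
      have h3 : ((2 ^ A.card : ℕ) : ℝ≥0∞) ≤ 2 ^ (n + 1) := by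
        push_cast
        exact pow_le_pow_right₀ (by norm_num) hA
      calc ((2 ^ A.card : ℕ) : ℝ≥0∞) * (C₂ * C₁ * ENNReal.ofReal ε ^ (2 * (A.card - A'.card)) *
            eint Φ ε γ₁ F)
          ≤ 2 ^ (n + 1) * (C₂ * C₁ * ENNReal.ofReal ε ^ (2 * (A.card - A'.card)) *
            eint Φ ε γ₁ F) := mul_le_mul_left h3 _
        _ = _ := by ring
    by_cases hAA : A = A'
    · subst hAA
      refine ⟨fun W => F W + ∑ A'' ∈ A.powerset, M A'' W,
        hF.add (Finset.measurable_sum _ fun A'' _ => hM A''), ?_, ?_⟩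
      · intro W W' h
        cases h with
        | refl => exact le_self_add
        | @step _ A'' _ _ W₁ _ s hs h hc =>
          refine le_add_left ((hM1 A'' s hs W W₁ W' h hc).trans ?_)
          exact Finset.single_le_sum (f := fun A'' => M A'' W) (fun _ _ => bot_le)
            (Finset.mem_powerset.2 h.sub)
      · have e2 : eint Φ ε γ₂ (fun W => F W + ∑ A'' ∈ A.powerset, M A'' W) =
            eint Φ ε γ₂ F + eint Φ ε γ₂ (fun W => ∑ A'' ∈ A.powerset, M A'' W) := by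
          have hem := measurable_energy' hΦ hε A
          unfold eint
          simp_rw [mul_add]
          exact lintegral_add_left ((by fun_prop : Measurable fun W : A → PhasePoint =>
            ENNReal.ofReal (Real.exp (-(γ₂ * energy Φ ε W)))).mul hF) _
        rw [e2, add_mul, add_mul]
        refine add_le_add ?_ hsum
        have h3 := eint_mono_gamma hΦ hε h12.le (K := n + 1) (by rwa [Fintype.card_coe]) F hF
        simpa using h3
    · refine ⟨fun W => ∑ A'' ∈ A.powerset, M A'' W,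
        Finset.measurable_sum _ fun A'' _ => hM A'', ?_, ?_⟩
      · intro W W' h
        cases h with
        | refl => exact absurd rfl hAA
        | @step _ A'' _ _ W₁ _ s hs h hc =>
          refine (hM1 A'' s hs W W₁ W' h hc).trans ?_
          exact Finset.single_le_sum (f := fun A'' => M A'' W) (fun _ _ => bot_le)
            (Finset.mem_powerset.2 h.sub)
      · refine hsum.trans ?_
        rw [add_mul, add_mul]
        exact le_add_self

end Crest.Agent.R122.Vol365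

end
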