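import Crest.Agent.R122.ChainShift_726
import Crest.Agent.R122.ChainFam_726
import Crest.Agent.R122.VolChain_365
import Crest.Agent.R122.BadOne2_350

/-!
# Row 122, D5 (helper726): the volume statement `BadVol` for the bad family

Assembly of the majorants along release chains (helper365), of the bad steps of one particle
(helper350, helper796), of the steps with at least two released particles (helper365) and of the
terminal groups (hypothesis `TermVol`).
-/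

set_option autoImplicit false
set_option linter.unusedSectionVars false

open MeasureTheory Set Filter Topology
open Crest.AnalysisR.Kinetic
open scoped Classical ENNReal

noncomputable section

namespace Crest.Agent.R122.Chain726

open Kin796 Kin796.CTree Disc416 Tree674 Flow671 Loc45 Causal291 PathFlow968 Surj968 Graft968
open Vol365 NG416

variable {Φ : Space3 → ℝ} {ε T te : ℝ}

/-- Bad terminal groups have small measure (hypothesis, helper818). -/
def TermVol (Φ : Space3 → ℝ) (T te : ℝ) : Prop :=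
  ∀ (ι : Type) [Fintype ι] (γ : ℝ), 0 < γ → ∃ q : ℝ → ℝ≥0∞, Tendsto q (𝓝[>] 0) (𝓝 0) ∧
    ∀ ε : ℝ, 0 < ε → ε ≤ 1 → ∀ (A : Finset ι) (i : ι) (Ψ : Space3 → ℝ≥0∞), Measurable Ψ →
      ∃ M : (A → PhasePoint) → ℝ≥0∞, Measurable M ∧
        (∀ W ∈ Dom Φ A, ∀ i' : A, (i' : ι) = i → TermBad Φ ε T te i W → Ψ (W i').1 ≤ M W) ∧
        ∫⁻ W, ENNReal.ofReal (Real.exp (-(γ * energy Φ ε W))) * M W ≤
          q ε * ENNReal.ofReal (ε ^ (2 * (A.card - 1))) * ∫⁻ x, Ψ x

/-! ### One particle -/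

/-- Gaussian integral. -/
def gE (μ : ℝ) : ℝ≥0∞ := ∫⁻ v : Space3, ENNReal.ofReal (Real.exp (-(μ / 2 * ‖v‖ ^ 2)))

theorem gE_ne_top {μ : ℝ} (hμ : 0 < μ) : gE μ ≠ ∞ :=
  (GC311.lintegral_gaussian_lt_top (by linarith)).ne

theorem energy_unique {κ : Type*} [Fintype κ] [Unique κ] (Φ : Space3 → ℝ) (ε : ℝ)
    (W : κ → PhasePoint) : energy Φ ε W = ‖(W default).2‖ ^ 2 / 2 := by
  rw [energy_eq_kin_add_pot]
  unfold kin pot
  rw [Fintype.sum_unique, Fintype.sum_unique, Fintype.sum_unique]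
  simp
  ring

theorem eint_unique {κ : Type} [inst : Fintype κ] [Unique κ] (Φ : Space3 → ℝ) (ε μ : ℝ)
    {Ψ : Space3 → ℝ≥0∞} (hΨ : Measurable Ψ) :
    eint Φ ε μ (fun W : κ → PhasePoint => Ψ (W default).1) = (∫⁻ x, Ψ x) * gE μ := by
  obtain rfl : inst = Unique.fintype := Subsingleton.elim _ _
  unfold eint gE
  have hmp := volume_preserving_funUnique κ PhasePoint
  set G : PhasePoint → ℝ≥0∞ := fun z => Ψ z.1 *
    ENNReal.ofReal (Real.exp (-(μ / 2 * ‖z.2‖ ^ 2))) with hG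
  have hm : Measurable fun v : Space3 => ENNReal.ofReal (Real.exp (-(μ / 2 * ‖v‖ ^ 2))) := by
    fun_prop
  have hGm : Measurable G := (hΨ.comp measurable_fst).mul (hm.comp measurable_snd)
  have h1 : ∀ W : κ → PhasePoint, ENNReal.ofReal (Real.exp (-(μ * energy Φ ε W))) *
      Ψ (W default).1 = G (MeasurableEquiv.funUnique κ PhasePoint W) := by
    intro W
    rw [energy_unique]
    show _ = Ψ (W default).1 * ENNReal.ofReal (Real.exp (-(μ / 2 * ‖(W default).2‖ ^ 2)))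
    rw [mul_comm, show μ * (‖(W default).2‖ ^ 2 / 2) = μ / 2 * ‖(W default).2‖ ^ 2 by ring]
  rw [lintegral_congr h1, hmp.lintegral_comp hGm]
  show ∫⁻ z : Space3 × Space3, Ψ z.1 * ENNReal.ofReal (Real.exp (-(μ / 2 * ‖z.2‖ ^ 2)))
    ∂(volume.prod volume) = _
  exact lintegral_prod_mul hΨ.aemeasurable hm.aemeasurable

/-! ### Simultaneous releases -/

instance uniqueSingle {ι : Type*} (i : ι) : Unique (({i} : Finset ι) : Type _) where
  default := ⟨i, Finset.mem_singleton_self i⟩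
  uniq a := Subtype.ext (Finset.mem_singleton.1 a.2)

/-- **Releases of at least two particles.** -/
theorem multi_bad (hΦ : AdmissiblePotential Φ) {μ : ℝ} (hμ : 0 < μ) (hT : 0 ≤ T) (n : ℕ) :
    ∃ C : ℝ≥0∞, C ≠ ∞ ∧ ∀ ε : ℝ, 0 < ε → ε ≤ 1 → ∀ (ι : Type) (A A' : Finset ι) (i : ι),
      A.card ≤ n → A'.card + 2 ≤ A.card → ∀ Ψ : Space3 → ℝ≥0∞, Measurable Ψ →
      ∃ M : (A → PhasePoint) → ℝ≥0∞, Measurable M ∧
        (∀ (W : A → PhasePoint) (s : ℝ) (W' : A' → PhasePoint)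
          (W'' : ({i} : Finset ι) → PhasePoint), s ∈ Icc 0 T → Step Φ ε s W W' →
          Chain Φ ε T A' W' {i} W'' → Ψ (W'' default).1 ≤ M W) ∧
        eint Φ ε μ M ≤ C * ENNReal.ofReal ε ^ (2 * (A.card - 1) + 1) * ∫⁻ x, Ψ x := by
  obtain ⟨C₁, hC₁, h₁⟩ := chain_majorant hΦ hT n (μ / 4) (μ / 2) (by linarith) (by linarith)
  obtain ⟨C₂, hC₂, h₂⟩ := fstep_majorant hΦ (γ' := μ / 2) (γ := μ) (by linarith) (by linarith)
    hT n
  refine ⟨C₂ * C₁ * gE (μ / 4), ENNReal.mul_ne_top (ENNReal.mul_ne_top hC₂ hC₁)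
    (gE_ne_top (by linarith)), ?_⟩
  intro ε hε hε1 ι A A' i hA hcard Ψ hΨ
  by_cases hgood : A' ⊆ A ∧ i ∈ A'
  swap
  · refine ⟨fun _ => 0, measurable_const, ?_, by simp [eint]⟩
    intro W s W' W'' _ hst hch
    exact absurd ⟨hst.sub, hch.subset (Finset.mem_singleton_self i)⟩ hgood
  obtain ⟨hsub, hi⟩ := hgood
  have hF : Measurable fun W : ({i} : Finset ι) → PhasePoint => Ψ (W default).1 :=
    hΨ.comp (measurable_pi_apply _).fst
  obtain ⟨N, hN, hN1, hN2⟩ := h₁ ε hε hε1 ι A' {i} (by omega)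
    (fun W : ({i} : Finset ι) → PhasePoint => Ψ (W default).1) hF
  obtain ⟨M, hM, hM1, hM2⟩ := h₂ ε hε ι A A' hA hsub N hN
  refine ⟨M, hM, fun W s W' W'' hs hst hch => (hN1 W' W'' hch).trans (hM1 s hs W W' hst), ?_⟩
  rw [eint_unique Φ ε (μ / 4) hΨ, Finset.card_singleton] at hN2
  refine hM2.trans ((mul_le_mul_right hN2 _).trans ?_)
  have hpos : 1 ≤ A'.card := Finset.card_pos.2 ⟨i, hi⟩
  have hpow : ENNReal.ofReal ε ^ (2 + 3 * (A.card - A'.card - 1)) *
      ENNReal.ofReal ε ^ (2 * (A'.card - 1)) ≤ ENNReal.ofReal ε ^ (2 * (A.card - 1) + 1) := by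
    rw [← pow_add]
    refine pow_le_pow_right_of_le_one' ?_ (by omega)
    rw [← ENNReal.ofReal_one]
    exact ENNReal.ofReal_le_ofReal hε1
  calc C₂ * ENNReal.ofReal ε ^ (2 + 3 * (A.card - A'.card - 1)) *
        (C₁ * ENNReal.ofReal ε ^ (2 * (A'.card - 1)) * ((∫⁻ x, Ψ x) * gE (μ / 4)))
      = C₂ * C₁ * gE (μ / 4) * (ENNReal.ofReal ε ^ (2 + 3 * (A.card - A'.card - 1)) *
        ENNReal.ofReal ε ^ (2 * (A'.card - 1))) * ∫⁻ x, Ψ x := by ring
    _ ≤ C₂ * C₁ * gE (μ / 4) * ENNReal.ofReal ε ^ (2 * (A.card - 1) + 1) * ∫⁻ x, Ψ x := by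
        gcongr

/-! ### The bad event of the last group, with a pin -/

/-- The group `A` (pull-back `W`) is bad; `p` is the position of the root in the last group. -/
def BadPin (Φ : Space3 → ℝ) (ε T te : ℝ) {ι : Type} (i : ι) {A : Finset ι} (W : A → PhasePoint)
    (p : Space3) : Prop :=
  (∃ s ∈ Icc 0 T, ∃ (A' : Finset ι) (W' : A' → PhasePoint), Step Φ ε s W W' ∧
    A'.card + 2 ≤ A.card ∧ ∃ W'' : ({i} : Finset ι) → PhasePoint,
      Chain Φ ε T A' W' {i} W'' ∧ p = (W'' default).1) ∨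
  (∃ s ∈ Icc 0 T, ∃ (A' : Finset ι) (W' : A' → PhasePoint), Step Φ ε s W W' ∧
    A'.card + 1 = A.card ∧ ∃ (j : A) (m : A') (i' : A'), (i' : ι) = i ∧ (j : ι) ∉ A' ∧
        dist (flow Φ ε s W j).1 (flow Φ ε s W' m).1 = ε ∧
        (inner ℝ ((flow Φ ε s W j).1 - (flow Φ ε s W' m).1)
            ((flow Φ ε s W j).2 - (flow Φ ε s W' m).2) = 0 ∨
          0 < inner ℝ ((flow Φ ε s W j).1 - (flow Φ ε s W' m).1)
            ((flow Φ ε s W j).2 - (flow Φ ε s W' m).2) ∧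
          BadGraft Φ ε T i' s W' m (flow Φ ε s W j)) ∧ p = (W' i').1) ∨
  ∃ i' : A, (i' : ι) = i ∧ TermBad Φ ε T te i W ∧ p = (W i').1

theorem exists_badPin {ι : Type} {i : ι} {A : Finset ι} {W : A → PhasePoint}
    (h : BadStep Φ ε T i W ∨ TermBad Φ ε T te i W) : ∃ p, BadPin Φ ε T te i W p := by
  rcases h with ⟨s, hs, A', W', hst, h⟩ | h
  · rcases h with ⟨hc, W'', hch⟩ | ⟨hc, j, m, i', h1, h2, h3, h4⟩
    · exact ⟨_, Or.inl ⟨s, hs, A', W', hst, hc, W'', hch, rfl⟩⟩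
    · exact ⟨_, Or.inr (Or.inl ⟨s, hs, A', W', hst, hc, j, m, i', h1, h2, h3, h4, rfl⟩)⟩
  · obtain ⟨i', hi', -⟩ := id h
    exact ⟨_, Or.inr (Or.inr ⟨i', hi', h, rfl⟩)⟩

theorem BadPin.shift (hΦ : AdmissiblePotential Φ) (hε : 0 < ε) (a : Space3) {ι : Type} {i : ι}
    {A : Finset ι} {W : A → PhasePoint} {p : Space3} (h : BadPin Φ ε T te i W p) :
    BadPin Φ ε T te i (shiftX a W) (p + a) := by
  rcases h with ⟨s, hs, A', W', hst, hc, W'', hch, rfl⟩ |
    ⟨s, hs, A', W', hst, hc, j, m, i', h1, h2, h3, h4, rfl⟩ | ⟨i', hi', h, rfl⟩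
  · exact Or.inl ⟨s, hs, A', _, hst.shift hΦ hε a, hc, _, hch.shift hΦ hε a, rfl⟩
  · refine Or.inr (Or.inl ⟨s, hs, A', _, hst.shift hΦ hε a, hc, j, m, i', h1, h2, ?_, ?_, rfl⟩)
    · rw [flow_shiftX hΦ hε, flow_shiftX hΦ hε]
      show dist ((flow Φ ε s W j).1 + a) ((flow Φ ε s W' m).1 + a) = ε
      rw [dist_add_right]
      exact h3
    · have e1 : (flow Φ ε s (shiftX a W) j).1 - (flow Φ ε s (shiftX a W') m).1 =
          (flow Φ ε s W j).1 - (flow Φ ε s W' m).1 := by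
        rw [flow_shiftX hΦ hε, flow_shiftX hΦ hε]
        show ((flow Φ ε s W j).1 + a) - ((flow Φ ε s W' m).1 + a) = _
        abel
      have e2 : (flow Φ ε s (shiftX a W) j).2 - (flow Φ ε s (shiftX a W') m).2 =
          (flow Φ ε s W j).2 - (flow Φ ε s W' m).2 := by
        rw [flow_shiftX hΦ hε, flow_shiftX hΦ hε]
        rfl
      rw [e1, e2]
      refine h4.imp id fun h4 => ⟨h4.1, ?_⟩
      have h5 := h4.2.shift hΦ hε a
      have e3 : flow Φ ε s (shiftX a W) j = ((flow Φ ε s W j).1 + a, (flow Φ ε s W j).2) := by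
        rw [flow_shiftX hΦ hε]
        rfl
      rw [e3]
      exact h5
  · exact Or.inr (Or.inr ⟨i', hi', h.shift hΦ hε a, rfl⟩)

/-! ### Sums -/

theorem measurable_wexp (hΦ : AdmissiblePotential Φ) (hε : 0 < ε) (μ : ℝ) (κ : Type) [Fintype κ] :
    Measurable fun W : κ → PhasePoint => ENNReal.ofReal (Real.exp (-(μ * energy Φ ε W))) := by
  have hem := measurable_energy' hΦ hε κ
  fun_prop

theorem eint_add (hΦ : AdmissiblePotential Φ) (hε : 0 < ε) (μ : ℝ) {κ : Type} [Fintype κ]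
    {F : (κ → PhasePoint) → ℝ≥0∞} (hF : Measurable F) (G : (κ → PhasePoint) → ℝ≥0∞) :
    eint Φ ε μ (fun W => F W + G W) = eint Φ ε μ F + eint Φ ε μ G := by
  unfold eint
  simp_rw [mul_add]
  exact lintegral_add_left ((measurable_wexp hΦ hε μ κ).mul hF) _

theorem eint_sum (hΦ : AdmissiblePotential Φ) (hε : 0 < ε) (μ : ℝ) {κ : Type} [Fintype κ]
    {β : Type} (S : Finset β) {F : β → (κ → PhasePoint) → ℝ≥0∞} (hF : ∀ b, Measurable (F b)) :
    eint Φ ε μ (fun W => ∑ b ∈ S, F b W) = ∑ b ∈ S, eint Φ ε μ (F b) := by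
  unfold eint
  simp_rw [Finset.mul_sum]
  exact lintegral_finsetSum _ fun b _ => (measurable_wexp hΦ hε μ κ).mul (hF b)

/-- **Majorant of the bad event of one group.** -/
theorem pin_majorant (hΦ : AdmissiblePotential Φ) {μ : ℝ} (hμ : 0 < μ) (hT : 0 ≤ T)
    (hterm : TermVol Φ T te) {ι : Type} [Fintype ι] (i : ι) {Ψ : Space3 → ℝ≥0∞}
    (hΨ : Measurable Ψ) (hΨ1 : ∫⁻ x, Ψ x = 1) :
    ∃ q : ℝ → ℝ≥0∞, Tendsto q (𝓝[>] 0) (𝓝 0) ∧ ∀ ε : ℝ, 0 < ε → ε ≤ 1 → ∀ A : Finset ι,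
      ∃ M : (A → PhasePoint) → ℝ≥0∞, Measurable M ∧
        (∀ W ∈ Dom Φ A, ∀ p, BadPin Φ ε T te i W p → Ψ p ≤ M W) ∧
        eint Φ ε μ M ≤ q ε * ENNReal.ofReal ε ^ (2 * (A.card - 1)) := by
  obtain ⟨C₁, hC₁, h₁⟩ := multi_bad (T := T) hΦ hμ hT (Fintype.card ι)
  obtain ⟨q₂, hq₂, h₂⟩ := Flux350.bad_one (ι := ι) hΦ hμ T
  obtain ⟨q₃, hq₃, h₃⟩ := hterm ι μ hμ
  set N : ℝ≥0∞ := (Fintype.card (Finset ι) : ℝ≥0∞) with hN
  have hNt : N ≠ ∞ := ENNReal.natCast_ne_top _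
  refine ⟨fun ε => N * (C₁ * ENNReal.ofReal ε) + N * q₂ ε + q₃ ε, ?_, ?_⟩
  · have e0 : Tendsto (fun ε : ℝ => ENNReal.ofReal ε) (𝓝[>] 0) (𝓝 0) := by
      have h := (ENNReal.continuous_ofReal.tendsto (0 : ℝ)).mono_left
        (nhdsWithin_le_nhds : 𝓝[>] (0 : ℝ) ≤ 𝓝 0)
      rwa [ENNReal.ofReal_zero] at h
    have e1 := ENNReal.Tendsto.const_mul (a := N)
      (ENNReal.Tendsto.const_mul (a := C₁) e0 (Or.inr hC₁)) (Or.inr hNt)
    have e2 := ENNReal.Tendsto.const_mul (a := N) hq₂ (Or.inr hNt)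
    simpa using (e1.add e2).add hq₃
  intro ε hε hε1 A
  have hofε : ∀ m : ℕ, ENNReal.ofReal (ε ^ m) = ENNReal.ofReal ε ^ m := fun m =>
    ENNReal.ofReal_pow hε.le m
  have hex₁ : ∀ A' : Finset ι, ∃ M : (A → PhasePoint) → ℝ≥0∞, Measurable M ∧
      (A'.card + 2 ≤ A.card → ∀ (W : A → PhasePoint) (s : ℝ) (W' : A' → PhasePoint)
          (W'' : ({i} : Finset ι) → PhasePoint), s ∈ Icc 0 T → Step Φ ε s W W' →
          Chain Φ ε T A' W' {i} W'' → Ψ (W'' default).1 ≤ M W) ∧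
      eint Φ ε μ M ≤ C₁ * ENNReal.ofReal ε * ENNReal.ofReal ε ^ (2 * (A.card - 1)) := by
    intro A'
    by_cases hc : A'.card + 2 ≤ A.card
    · obtain ⟨M, hM, hM1, hM2⟩ := h₁ ε hε hε1 ι A A' i (Finset.card_le_univ A) hc Ψ hΨ
      refine ⟨M, hM, fun _ => hM1, hM2.trans (le_of_eq ?_)⟩
      rw [hΨ1]
      ring
    · exact ⟨fun _ => 0, measurable_const, fun h => absurd h hc, by simp [eint]⟩
  have hex₂ : ∀ A' : Finset ι, ∃ M : (A → PhasePoint) → ℝ≥0∞, Measurable M ∧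
      (A'.card + 1 = A.card → ∀ (W : A → PhasePoint) (s : ℝ) (W' : A' → PhasePoint),
          s ∈ Icc 0 T → Step Φ ε s W W' →
          ∀ (j : A) (m i' : A'), (i' : ι) = i → (j : ι) ∉ A' →
            dist (flow Φ ε s W j).1 (flow Φ ε s W' m).1 = ε →
            (inner ℝ ((flow Φ ε s W j).1 - (flow Φ ε s W' m).1)
                ((flow Φ ε s W j).2 - (flow Φ ε s W' m).2) = 0 ∨
              0 < inner ℝ ((flow Φ ε s W j).1 - (flow Φ ε s W' m).1)
                ((flow Φ ε s W j).2 - (flow Φ ε s W' m).2) ∧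
              BadGraft Φ ε T i' s W' m (flow Φ ε s W j)) →
            Ψ (W' i').1 ≤ M W) ∧
      eint Φ ε μ M ≤ q₂ ε * ENNReal.ofReal ε ^ (2 * (A.card - 1)) := by
    intro A'
    by_cases hc : A'.card + 1 = A.card
    · obtain ⟨M, hM, hM1, hM2⟩ := h₂ ε hε hε1 A A' hc i Ψ hΨ
      refine ⟨M, hM, fun _ => hM1, (show eint Φ ε μ M ≤ _ from hM2).trans (le_of_eq ?_)⟩
      rw [hΨ1, mul_one, hofε]
    · exact ⟨fun _ => 0, measurable_const, fun h => absurd h hc, by simp [eint]⟩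
  obtain ⟨M₃, hM₃, hM₃1, hM₃2⟩ := h₃ ε hε hε1 A i Ψ hΨ
  choose M₁ hM₁ hM₁1 hM₁2 using hex₁
  choose M₂ hM₂ hM₂1 hM₂2 using hex₂
  have hs₁ : Measurable fun W => ∑ A' : Finset ι, M₁ A' W :=
    Finset.measurable_sum _ fun A' _ => hM₁ A'
  have hs₂ : Measurable fun W => ∑ A' : Finset ι, M₂ A' W :=
    Finset.measurable_sum _ fun A' _ => hM₂ A'
  refine ⟨fun W => (∑ A' : Finset ι, M₁ A' W) + (∑ A' : Finset ι, M₂ A' W) + M₃ W,
    (hs₁.add hs₂).add hM₃, ?_, ?_⟩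
  · intro W hW p hp
    rcases hp with ⟨s, hs, A', W', hst, hc, W'', hch, rfl⟩ |
      ⟨s, hs, A', W', hst, hc, j, m, i', h1, h2, h3, h4, rfl⟩ | ⟨i', hi', h, rfl⟩
    · refine (hM₁1 A' hc W s W' W'' hs hst hch).trans ?_
      refine le_trans (Finset.single_le_sum (f := fun A' => M₁ A' W) (fun _ _ => bot_le)
        (Finset.mem_univ A')) ?_
      exact le_self_add.trans le_self_add
    · refine (hM₂1 A' hc W s W' hs hst j m i' h1 h2 h3 h4).trans ?_
      refine le_trans (Finset.single_le_sum (f := fun A' => M₂ A' W) (fun _ _ => bot_le)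
        (Finset.mem_univ A')) ?_
      exact le_add_self.trans le_self_add
    · exact (hM₃1 W hW i' hi' h).trans le_add_self
  · have h12 : Measurable fun W => (∑ A' : Finset ι, M₁ A' W) + (∑ A' : Finset ι, M₂ A' W) :=
      hs₁.add hs₂
    have e1 : eint Φ ε μ (fun W => (∑ A' : Finset ι, M₁ A' W) + (∑ A' : Finset ι, M₂ A' W) +
        M₃ W) = (∑ A' : Finset ι, eint Φ ε μ (M₁ A')) + (∑ A' : Finset ι, eint Φ ε μ (M₂ A')) +
        eint Φ ε μ M₃ := by
      rw [← eint_sum hΦ hε μ _ hM₁, ← eint_sum hΦ hε μ _ hM₂, ← eint_add hΦ hε μ hs₁]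
      exact eint_add hΦ hε μ h12 M₃
    rw [e1]
    show _ ≤ (N * (C₁ * ENNReal.ofReal ε) + N * q₂ ε + q₃ ε) * _
    rw [add_mul, add_mul]
    refine add_le_add (add_le_add ?_ ?_) ?_
    · refine (Finset.sum_le_card_nsmul _ _ _ fun A' _ => hM₁2 A').trans (le_of_eq ?_)
      rw [nsmul_eq_mul, hN, Finset.card_univ]
      ring
    · refine (Finset.sum_le_card_nsmul _ _ _ fun A' _ => hM₂2 A').trans (le_of_eq ?_)
      rw [nsmul_eq_mul, hN, Finset.card_univ]
      ring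
    · refine (show eint Φ ε μ M₃ ≤ _ from hM₃2).trans (le_of_eq ?_)
      rw [hΨ1, mul_one, hofε]

/-- **The volume statement of D5 for the bad family.** -/
theorem badVol_of_term (hΦ : AdmissiblePotential Φ) (hT : 0 ≤ T) (hterm : TermVol Φ T te) {γ : ℝ}
    (hγ : 0 < γ) (K : ℕ) : BadVol γ K (badFam Φ T te) := by
  intro k _ j δ hδ
  obtain ⟨q, hq, hpin⟩ := pin_majorant hΦ hγ hT hterm j measurable_hb lintegral_hb
  obtain ⟨C, hC, hchain⟩ := chain_majorant hΦ hT k γ (2 * γ) hγ (by linarith)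
  set N : ℝ≥0∞ := (Fintype.card (Finset (Fin k)) : ℝ≥0∞) with hN
  have hNt : N ≠ ∞ := ENNReal.natCast_ne_top _
  have hlim : Tendsto (fun ε => N * (C * q ε)) (𝓝[>] 0) (𝓝 0) := by
    have h := ENNReal.Tendsto.const_mul (a := N)
      (ENNReal.Tendsto.const_mul (a := C) hq (Or.inr hC)) (Or.inr hNt)
    simpa using h
  have hev := (ENNReal.tendsto_nhds_zero.1 hlim) _ (ENNReal.ofReal_pos.2 hδ)
  obtain ⟨b, hb0, hbsub⟩ := (mem_nhdsGT_iff_exists_Ioo_subset).1 hev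
  have hb0' : (0 : ℝ) < b := hb0
  refine ⟨min b 1, lt_min hb0' one_pos, fun ε hε hε₀ => ?_⟩
  have hε1 : ε ≤ 1 := hε₀.le.trans (min_le_right _ _)
  have hsmall : N * (C * q ε) ≤ ENNReal.ofReal δ :=
    hbsub ⟨hε, hε₀.trans_le (min_le_left _ _)⟩
  choose M hM hM1 hM2 using hpin ε hε hε1
  have hex : ∀ A : Finset (Fin k), ∃ G : (↥(Finset.univ : Finset (Fin k)) → PhasePoint) → ℝ≥0∞,
      Measurable G ∧ (∀ (W : ↥(Finset.univ : Finset (Fin k)) → PhasePoint) (W' : A → PhasePoint),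
        Chain Φ ε T Finset.univ W A W' → M A W' ≤ G W) ∧
      eint Φ ε (2 * γ) G ≤ C * ENNReal.ofReal ε ^ (2 * (k - A.card)) * eint Φ ε γ (M A) := by
    intro A
    obtain ⟨G, hG, hG1, hG2⟩ := hchain ε hε hε1 (Fin k) Finset.univ A (by simp) (M A) (hM A)
    refine ⟨G, hG, hG1, ?_⟩
    rwa [Finset.card_univ, Fintype.card_fin] at hG2
  choose G hG hG1 hG2 using hex
  have hGs : Measurable fun W => ∑ A : Finset (Fin k), G A W :=
    Finset.measurable_sum _ fun A _ => hG A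
  set σ : (Finset.univ : Finset (Fin k)) ≃ Fin k :=
    Equiv.subtypeUnivEquiv fun x => Finset.mem_univ x with hσ
  have hGσ : Measurable fun V : Config k => ∑ A : Finset (Fin k), G A (fun x => V (σ x)) :=
    measurable_of_equiv σ hGs
  refine ⟨hb, (PairExcluded ε k).indicator fun V => ∑ A : Finset (Fin k), G A (fun x => V (σ x)),
    measurable_hb, hGσ.indicator (GC311.measurableSet_pairExcluded ε k), lintegral_hb.ge, ?_, ?_⟩
  · rintro V hV ⟨-, A, W, hch, hbad⟩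
    obtain ⟨p, hp⟩ := exists_badPin hbad
    refine ⟨p, fun a => ?_⟩
    have hx : shiftX a V ∈ PairExcluded ε k := by
      intro i i' hii
      have := hV i i' hii
      change ε < dist ((V i).1 + a) ((V i').1 + a)
      rwa [dist_add_right]
    rw [indicator_of_mem hx]
    have hch' := hch.shift hΦ hε a
    have hdom : shiftX a (grp Finset.univ V) ∈ Dom Φ (Finset.univ : Finset (Fin k)) := by
      refine Or.inr fun x y hxy h => ?_
      have h1 := hx x y fun h' => hxy (Subtype.ext h')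
      have h2 : (shiftX a V x).1 = (shiftX a V y).1 := h
      rw [h2, dist_self] at h1
      linarith
    refine (hM1 A _ (hch'.dom' hΦ hε hdom) _ (hp.shift hΦ hε a)).trans ?_
    refine (hG1 A _ _ hch').trans ?_
    exact Finset.single_le_sum (f := fun A => G A fun x => shiftX a V (σ x)) (fun _ _ => bot_le)
      (Finset.mem_univ A)
  · have h1 : ∫⁻ V : Config k, gwc γ V * (PairExcluded ε k).indicator
        (fun V => ∑ A : Finset (Fin k), G A (fun x => V (σ x))) V ≤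
        eint Φ ε (2 * γ) fun V : Config k => ∑ A : Finset (Fin k), G A (fun x => V (σ x)) := by
      unfold eint
      refine lintegral_mono fun V => ?_
      by_cases hV : V ∈ PairExcluded ε k
      · rw [indicator_of_mem hV, gwc_eq_exp, energy_pairExcluded hΦ hε hV]
      · rw [indicator_of_notMem hV, mul_zero]
        exact bot_le
    refine h1.trans ?_
    have h2 : eint Φ ε (2 * γ) (fun V : Config k => ∑ A : Finset (Fin k), G A (fun x => V (σ x))) =
        eint Φ ε (2 * γ) fun W => ∑ A : Finset (Fin k), G A W :=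
      eint_equiv σ hGs (measurable_energy' hΦ hε _)
    rw [h2, eint_sum hΦ hε _ _ hG]
    have h3 : ∀ A : Finset (Fin k), eint Φ ε (2 * γ) (G A) ≤
        C * q ε * ENNReal.ofReal ε ^ (2 * (k - 1)) := by
      intro A
      refine (hG2 A).trans ((mul_le_mul_right (hM2 A) _).trans ?_)
      have hpow : ENNReal.ofReal ε ^ (2 * (k - A.card)) * ENNReal.ofReal ε ^ (2 * (A.card - 1)) ≤
          ENNReal.ofReal ε ^ (2 * (k - 1)) := by
        rw [← pow_add]
        refine pow_le_pow_right_of_le_one' ?_ ?_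
        · rw [← ENNReal.ofReal_one]
          exact ENNReal.ofReal_le_ofReal hε1
        · have := Finset.card_le_univ A
          rw [Fintype.card_fin] at this
          omega
      calc C * ENNReal.ofReal ε ^ (2 * (k - A.card)) *
            (q ε * ENNReal.ofReal ε ^ (2 * (A.card - 1)))
          = C * q ε * (ENNReal.ofReal ε ^ (2 * (k - A.card)) *
            ENNReal.ofReal ε ^ (2 * (A.card - 1))) := by ring
        _ ≤ _ := mul_le_mul_right hpow _
    refine (Finset.sum_le_card_nsmul _ _ _ fun A _ => h3 A).trans ?_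
    rw [nsmul_eq_mul, Finset.card_univ, ENNReal.ofReal_mul hδ.le, ENNReal.ofReal_pow hε.le,
      ← mul_assoc]
    refine mul_le_mul_left ?_ _
    rw [← hN]
    exact hsmall

end Crest.Agent.R122.Chain726

end
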