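import Crest.Agent.R122.VolTerm_365
import Crest.Agent.R122.BadPin_416
import Crest.Agent.R122.BadTerm_818
import Crest.Agent.R122.BadVolMain_726

/-!
Row 122, helper350: majorants of bad events localised at a moving position (`PosMaj`): calculus
and change of pin.
-/

set_option autoImplicit false
set_option linter.unusedSectionVars false

open MeasureTheory Set Filter Topology
open Crest.AnalysisR.Kinetic
open Crest.Agent.R122.Flow671 Crest.Agent.R122.Loc45 Crest.Agent.R122.Causal291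
open Crest.Agent.R122.Omega969 Crest.Agent.R122.Disc416 Crest.Agent.R122.Chain726
open Crest.Agent.R122.Cherry796
open Crest.Agent.R122.Vol365 (PinMaj eint)
open scoped Classical ENNReal

noncomputable section

namespace Crest.Agent.R122.Flux350

variable {Φ : Space3 → ℝ} {ε : ℝ}

/-- **Localised majorant**: `Bad W x` = the configuration `W` is bad and `x` is the position used
for the localisation. -/
def PosMaj (Φ : Space3 → ℝ) (ε γ : ℝ) {κ : Type} [Fintype κ]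
    (Bad : (κ → PhasePoint) → Space3 → Prop) (δ : ℝ≥0∞) : Prop :=
  ∀ Ψ : Space3 → ℝ≥0∞, Measurable Ψ → ∃ M : (κ → PhasePoint) → ℝ≥0∞, Measurable M ∧
    (∀ W ∈ Dom Φ κ, ∀ x, Bad W x → Ψ x ≤ M W) ∧ eint Φ ε γ M ≤ δ * ∫⁻ x, Ψ x

theorem PosMaj.mono {γ : ℝ} {κ : Type} [Fintype κ] {Bad Bad' : (κ → PhasePoint) → Space3 → Prop}
    {δ δ' : ℝ≥0∞} (h : PosMaj Φ ε γ Bad δ) (hB : ∀ W ∈ Dom Φ κ, ∀ x, Bad' W x → Bad W x)
    (hδ : δ ≤ δ') : PosMaj Φ ε γ Bad' δ' := by
  intro f hf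
  obtain ⟨M, hM, h1, h2⟩ := h f hf
  exact ⟨M, hM, fun W hW x hb => h1 W hW x (hB W hW x hb), h2.trans (mul_le_mul_left hδ _)⟩

theorem PosMaj.false {γ : ℝ} {κ : Type} [Fintype κ] {Bad : (κ → PhasePoint) → Space3 → Prop}
    (h : ∀ W ∈ Dom Φ κ, ∀ x, ¬ Bad W x) : PosMaj Φ ε γ Bad 0 :=
  fun _ _ => ⟨fun _ => 0, measurable_const, fun W hW x hb => absurd hb (h W hW x),
    by simp [Vol365.eint]⟩

/-- null bad sets -/
theorem PosMaj.null {γ : ℝ} {κ : Type} [Fintype κ] {Bad : (κ → PhasePoint) → Space3 → Prop}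
    {N : Set (κ → PhasePoint)} (hN : volume N = 0) (h : ∀ W ∈ Dom Φ κ, ∀ x, Bad W x → W ∈ N) :
    PosMaj Φ ε γ Bad 0 := by
  intro f _
  refine ⟨(toMeasurable volume N).indicator fun _ => ∞,
    measurable_const.indicator (measurableSet_toMeasurable _ _), ?_, ?_⟩
  · intro W hW x hb
    rw [indicator_of_mem (subset_toMeasurable _ _ (h W hW x hb))]
    exact le_top
  · unfold Vol365.eint
    rw [zero_mul, nonpos_iff_eq_zero, lintegral_eq_zero_iff' ?_]
    · have h0 : volume (toMeasurable volume N) = 0 := by rw [measure_toMeasurable, hN]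
      filter_upwards [measure_eq_zero_iff_ae_notMem.1 h0] with W hW
      rw [indicator_of_notMem hW, mul_zero]
      rfl
    · have h0 : volume (toMeasurable volume N) = 0 := by rw [measure_toMeasurable, hN]
      refine (aemeasurable_const (b := (0 : ℝ≥0∞))).congr ?_
      filter_upwards [measure_eq_zero_iff_ae_notMem.1 h0] with W hW
      rw [indicator_of_notMem hW, mul_zero]

theorem PosMaj.or (hΦ : AdmissiblePotential Φ) (hε : 0 < ε) {γ : ℝ} {κ : Type} [Fintype κ]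
    {Bad Bad' : (κ → PhasePoint) → Space3 → Prop} {δ δ' : ℝ≥0∞} (h : PosMaj Φ ε γ Bad δ)
    (h' : PosMaj Φ ε γ Bad' δ') : PosMaj Φ ε γ (fun W x => Bad W x ∨ Bad' W x) (δ + δ') := by
  intro f hf
  obtain ⟨M, hM, h1, h2⟩ := h f hf
  obtain ⟨M', hM', h1', h2'⟩ := h' f hf
  refine ⟨fun W => M W + M' W, hM.add hM', ?_, ?_⟩
  · rintro W hW x (hb | hb)
    · exact (h1 W hW x hb).trans le_self_add
    · exact (h1' W hW x hb).trans le_add_self
  · rw [Vol365.eint_add hΦ hε hM, add_mul]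
    exact add_le_add h2 h2'

theorem PosMaj.finset (hΦ : AdmissiblePotential Φ) (hε : 0 < ε) {γ : ℝ} {κ : Type} [Fintype κ]
    {α : Type*} (s : Finset α) {Bad : α → (κ → PhasePoint) → Space3 → Prop} {δ : α → ℝ≥0∞}
    (h : ∀ y ∈ s, PosMaj Φ ε γ (Bad y) (δ y)) :
    PosMaj Φ ε γ (fun W x => ∃ y ∈ s, Bad y W x) (∑ y ∈ s, δ y) := by
  intro f hf
  have h0 : ∀ y, ∃ M : (κ → PhasePoint) → ℝ≥0∞, y ∈ s → Measurable M ∧
      (∀ W ∈ Dom Φ κ, ∀ x, Bad y W x → f x ≤ M W) ∧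
      eint Φ ε γ M ≤ δ y * ∫⁻ z, f z := by
    intro y
    by_cases hy : y ∈ s
    · obtain ⟨M, hM⟩ := h y hy f hf
      exact ⟨M, fun _ => hM⟩
    · exact ⟨fun _ => 0, fun h => absurd h hy⟩
  choose M hM using h0
  refine ⟨fun W => ∑ y ∈ s, M y W, Finset.measurable_sum _ fun y hy => (hM y hy).1, ?_, ?_⟩
  · rintro W hW x ⟨y, hy, hb⟩
    exact ((hM y hy).2.1 W hW x hb).trans
      (Finset.single_le_sum (f := fun y => M y W) (fun _ _ => bot_le) hy)
  · rw [Vol365.eint_sum hΦ hε s fun y hy => (hM y hy).1, Finset.sum_mul]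
    exact Finset.sum_le_sum fun y hy => (hM y hy).2.2

/-- **Localised majorants pull back along chains.** -/
theorem exists_posMaj_chain (hΦ : AdmissiblePotential Φ) {T : ℝ} (hT : 0 ≤ T) (n : ℕ) {γ₁ γ₂ : ℝ}
    (h1 : 0 < γ₁) (h12 : γ₁ < γ₂) : ∃ C : ℝ≥0∞, C ≠ ∞ ∧ ∀ ε : ℝ, 0 < ε → ε ≤ 1 →
    ∀ (ι : Type) (A A' : Finset ι), A.card ≤ n →
    ∀ (Bad : (A' → PhasePoint) → Space3 → Prop) (δ : ℝ≥0∞), PosMaj Φ ε γ₁ Bad δ →
    PosMaj Φ ε γ₂ (fun (W : A → PhasePoint) x => ∃ W' : A' → PhasePoint,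
      Chain Φ ε T A W A' W' ∧ Bad W' x)
      (C * ENNReal.ofReal ε ^ (2 * (A.card - A'.card)) * δ) := by
  obtain ⟨C, hC, h⟩ := Vol365.chain_majorant hΦ hT n γ₁ γ₂ h1 h12
  refine ⟨C, hC, fun ε hε hε1 ι A A' hA Bad δ hB f hf => ?_⟩
  obtain ⟨M', hM', h3, h4⟩ := hB f hf
  obtain ⟨M, hM, h5, h6⟩ := h ε hε hε1 ι A A' hA M' hM'
  refine ⟨M, hM, ?_, ?_⟩
  · rintro W hW x ⟨W', hc, hb⟩
    exact (h3 W' (hc.dom' hΦ hε hW) x hb).trans (h5 _ _ hc)
  · refine h6.trans ((mul_le_mul_right h4 _).trans (le_of_eq (by ring)))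

/-- **Localised majorants pull back along one step.** -/
theorem exists_posMaj_step (hΦ : AdmissiblePotential Φ) {T : ℝ} (hT : 0 ≤ T) (K : ℕ) {γ₁ γ₂ : ℝ}
    (h1 : 0 < γ₁) (h12 : γ₁ < γ₂) : ∃ C : ℝ≥0∞, C ≠ ∞ ∧ ∀ ε : ℝ, 0 < ε →
    ∀ (ι : Type) (A A' : Finset ι), A.card ≤ K →
    ∀ (Bad : (A' → PhasePoint) → Space3 → Prop) (δ : ℝ≥0∞), PosMaj Φ ε γ₁ Bad δ →
    PosMaj Φ ε γ₂ (fun (W : A → PhasePoint) x => ∃ s ∈ Icc 0 T, ∃ W' : A' → PhasePoint,
      Step Φ ε s W W' ∧ Bad W' x)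
      (C * ENNReal.ofReal ε ^ (2 + 3 * (A.card - A'.card - 1)) * δ) := by
  obtain ⟨C, hC, h⟩ := Vol365.fstep_majorant hΦ h1 h12 hT K
  refine ⟨C, hC, fun ε hε ι A A' hA Bad δ hB => ?_⟩
  by_cases hsub : A' ⊆ A
  swap
  · refine (PosMaj.false (Bad := fun (W : A → PhasePoint) x => ∃ s ∈ Icc 0 T,
      ∃ W' : A' → PhasePoint, Step Φ ε s W W' ∧ Bad W' x) ?_).mono (fun W _ x h => h) bot_le
    rintro W - x ⟨s, _, W', hst, _⟩
    exact hsub hst.sub
  intro f hf
  obtain ⟨M', hM', h3, h4⟩ := hB f hf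
  obtain ⟨M, hM, h5, h6⟩ := h ε hε ι A A' hA hsub M' hM'
  refine ⟨M, hM, ?_, ?_⟩
  · rintro W hW x ⟨s, hs, W', hst, hb⟩
    exact (h3 W' (hst.dom' hΦ hε) x hb).trans (h5 s hs _ _ hst)
  · refine h6.trans ((mul_le_mul_right h4 _).trans (le_of_eq (by ring)))

/-! ### Change of pin -/

/-- measurability of the translational average -/
lemma measurable_avgX {κ : Type*} [Fintype κ] {M : (κ → PhasePoint) → ℝ≥0∞} (hM : Measurable M) :
    Measurable fun W : κ → PhasePoint => ∫⁻ a, M (shiftX a W) := by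
  have h : Measurable (fun q : (κ → PhasePoint) × Space3 => M (shiftX q.2 q.1)) := by
    have h := hM.comp (measurable_shiftX.comp
      (measurable_snd.prodMk measurable_fst : Measurable fun q : (κ → PhasePoint) × Space3 => (q.2, q.1)))
    exact h
  exact h.lintegral_prod_right' (f := fun q : (κ → PhasePoint) × Space3 => M (shiftX q.2 q.1))

lemma avgX_shift {κ : Type*} [Fintype κ] (M : (κ → PhasePoint) → ℝ≥0∞) (b : Space3) (W : κ → PhasePoint) :
    ∫⁻ a, M (shiftX a (shiftX b W)) = ∫⁻ a, M (shiftX a W) := by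
  simp only [shiftX_shiftX]
  exact lintegral_add_right_eq_self (fun a => M (shiftX a W)) b

/-- **Change of pin**, from the majorant of one profile. -/
theorem posMaj_of_one (hΦ : AdmissiblePotential Φ) {γ : ℝ} {κ : Type} [Fintype κ]
    {Bad : (κ → PhasePoint) → Prop} {δ : ℝ≥0∞} {M : (κ → PhasePoint) → ℝ≥0∞} (hM : Measurable M)
    (h1 : ∀ W ∈ Dom Φ κ, Bad W → ∃ q : Space3, ∀ a, kw (q + a) ≤ M (shiftX a W))
    (h2 : eint Φ ε γ M ≤ δ)
    {p : (κ → PhasePoint) → Space3} (hp : Measurable p) (hpt : ∀ a W, p (shiftX a W) = p W + a) :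
    PosMaj Φ ε γ (fun W x => Bad W ∧ x = p W) δ := by
  intro Ψ hΨ
  have hN := measurable_avgX hM
  refine ⟨fun W => Ψ (p W) * ∫⁻ a, M (shiftX a W), (hΨ.comp hp).mul hN, ?_, ?_⟩
  · rintro W hW x ⟨hb, rfl⟩
    obtain ⟨q, hq⟩ := h1 W hW hb
    calc Ψ (p W) = Ψ (p W) * ∫⁻ a, kw (q + a) := by rw [lintegral_kw_add, mul_one]
      _ ≤ _ := mul_le_mul_right (lintegral_mono hq) _
  · have hE : Measurable (fun W : κ → PhasePoint =>
        ENNReal.ofReal (Real.exp (-(γ * energy Φ ε W)))) :=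
      ENNReal.measurable_ofReal.comp (Real.measurable_exp.comp
        ((measurable_energy hΦ ε).const_mul γ).neg)
    unfold Vol365.eint at h2 ⊢
    rw [lintegral_avg hp hpt (m := fun W => ENNReal.ofReal (Real.exp (-(γ * energy Φ ε W))) *
      (Ψ (p W) * ∫⁻ a, M (shiftX a W))) (hE.mul ((hΨ.comp hp).mul hN))]
    rw [lintegral_avg hp hpt (m := fun W => ENNReal.ofReal (Real.exp (-(γ * energy Φ ε W))) *
      M W) (hE.mul hM)] at h2
    have e1 : ∀ W : κ → PhasePoint, kw (p W) * ∫⁻ b, ENNReal.ofReal (Real.exp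
        (-(γ * energy Φ ε (shiftX b W)))) * (Ψ (p (shiftX b W)) *
          ∫⁻ a, M (shiftX a (shiftX b W))) =
        (kw (p W) * ∫⁻ b, ENNReal.ofReal (Real.exp (-(γ * energy Φ ε (shiftX b W)))) *
          M (shiftX b W)) * ∫⁻ x, Ψ x := by
      intro W
      simp only [energy_shiftX, avgX_shift, hpt]
      have hΨp : Measurable fun b : Space3 => Ψ (p W + b) := hΨ.comp (measurable_const_add _)
      have hMb : Measurable fun b : Space3 => M (shiftX b W) :=
        hM.comp (measurable_shiftX.comp (measurable_id.prodMk measurable_const))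
      rw [lintegral_const_mul _ (hΨp.mul_const _), lintegral_mul_const _ hΨp,
        lintegral_add_left_eq_self (fun x => Ψ x) (p W), lintegral_const_mul _ hMb]
      ring
    simp only [e1]
    rw [lintegral_mul_const]
    · exact mul_le_mul_left h2 _
    · refine (measurable_kw.comp hp).mul ?_
      have h := measurable_avgX (M := fun W => ENNReal.ofReal (Real.exp (-(γ * energy Φ ε W))) *
        M W) (hE.mul hM)
      exact h

/-- **Change of pin.** -/
theorem posMaj_of_pin (hΦ : AdmissiblePotential Φ) {γ : ℝ} {κ : Type} [Fintype κ]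
    {Bad : (κ → PhasePoint) → Prop} {δ : ℝ≥0∞} (h : PinMaj Φ ε γ Bad δ)
    {p : (κ → PhasePoint) → Space3} (hp : Measurable p) (hpt : ∀ a W, p (shiftX a W) = p W + a) :
    PosMaj Φ ε γ (fun W x => Bad W ∧ x = p W) δ := by
  obtain ⟨M, hM, h1, h2⟩ := h kw measurable_kw
  rw [lintegral_kw, mul_one] at h2
  exact posMaj_of_one hΦ hM h1 h2 hp hpt

/-- position of a particle at time `t` as a pin -/
lemma measurable_posT (hΦ : AdmissiblePotential Φ) (hε : 0 < ε) {κ : Type*} [Fintype κ] (t : ℝ)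
    (i : κ) : Measurable fun W : κ → PhasePoint => (flow Φ ε t W i).1 :=
  ((measurable_pi_apply i).comp (measurable_flow hΦ hε t)).fst

lemma posT_shift (hΦ : AdmissiblePotential Φ) (hε : 0 < ε) {κ : Type*} [Fintype κ] (t : ℝ)
    (i : κ) (a : Space3) (W : κ → PhasePoint) :
    (flow Φ ε t (shiftX a W) i).1 = (flow Φ ε t W i).1 + a := by
  rw [flow_shiftX hΦ hε]
  rfl

end Crest.Agent.R122.Flux350

end
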