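import Crest.Agent.R122.Forest_399

/-!
Row 122, block C (helper399): integrals over tree and forest parameters (`ε = 0`).
-/

set_option autoImplicit false

open MeasureTheory Set Filter Topology ProbabilityTheory Crest.AnalysisR.Kinetic
open scoped Classical ENNReal

noncomputable section

namespace Crest.Agent.R122.Forest399

open Kin796 Kin796.CTree Kin416 Disc416 Tree674 TreeEps399 PiTrans399 TreeF399

variable {Φ : Space3 → ℝ} {s : ℕ} {D : ℝ → ℝ → Space3 → Space3 → ℝ≥0∞}
  {f0 : Space3 → Space3 → ℝ≥0∞}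

/-- the free flight at time `t` preserves the volume -/
theorem measurePreserving_onLine (t : ℝ) :
    MeasurePreserving (fun ℓ : PhasePoint => onLine ℓ t) volume volume := by
  have h1 : MeasurePreserving (fun z : Space3 × Space3 => (z.1, z.2 + t • z.1))
      ((volume : Measure Space3).prod volume) ((volume : Measure Space3).prod volume) := by
    refine MeasurePreserving.skew_product (f := id) (MeasurePreserving.id _)
      (g := fun v x => x + t • v) (by fun_prop) ?_
    exact Filter.Eventually.of_forall fun v => (measurePreserving_add_right _ _).map_eq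
  have h2 := (Measure.measurePreserving_swap (μ := (volume : Measure Space3))
    (ν := (volume : Measure Space3)))
  exact (h2.comp h1).comp h2

/-- density of a tree with parameters -/
def tdens (Φ : Space3 → ℝ) (D : ℝ → ℝ → Space3 → Space3 → ℝ≥0∞) (f0 : Space3 → Space3 → ℝ≥0∞)
    (P : CTree) (t : ℝ) (z : PhasePoint × Par P) : ℝ≥0∞ :=
  {z : PhasePoint × Par P | Valid Φ 0 P t z.1.2 z.2}.indicator
    (fun z => wt Φ P z.1.2 z.2 * dens Φ D f0 P t z.1 z.2) z

theorem tdens_eq (P : CTree) (t : ℝ) (z : PhasePoint × Par P) :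
    tdens Φ D f0 P t z = Wt Φ D f0 P t (onLine z.1 t).1 z.1.2 z.2 := by
  rw [← weight_eq]
  have e : (onLine z.1 t).1 - t • z.1.2 = z.1.1 := by simp [onLine]
  rw [e]
  rfl

theorem measurable_tdens (hΦ : AdmissiblePotential Φ) (hD : Meas4 D)
    (hf : Measurable fun p : Space3 × Space3 => f0 p.1 p.2) (P : CTree) (t : ℝ) :
    Measurable (tdens Φ D f0 P t) := by
  have h : tdens Φ D f0 P t = fun z : PhasePoint × Par P =>
      Wt Φ D f0 P t (onLine z.1 t).1 z.1.2 z.2 := funext fun z => tdens_eq P t z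
  rw [h]
  exact (measurable_Wt hΦ hD hf P).comp (f := fun z : PhasePoint × Par P =>
    (((t, (onLine z.1 t).1, z.1.2), z.2) : (ℝ × Space3 × Space3) × Par P))
    (by
      have h1 : Measurable fun z : PhasePoint × Par P => (onLine z.1 t).1 := by
        have := (measurePreserving_onLine t).measurable
        exact (measurable_fst.comp this).comp measurable_fst
      exact (measurable_const.prodMk (h1.prodMk (measurable_snd.comp measurable_fst))).prodMk
        measurable_snd)

/-- **Integral over the parameters of a tree.** -/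
theorem lintegral_tdens (hΦ : AdmissiblePotential Φ) (κ : Kernel Space3 (Space3 × Space3))
    [IsSFiniteKernel κ]
    (hκ : ∀ (v : Space3) (H : Space3 × Space3 → ℝ≥0∞), Measurable H → ∫⁻ p, H p ∂(κ v) =
      ∫⁻ w, ENNReal.ofReal ‖v - w‖ * ∫⁻ b in impactDisc (v - w), H (postVelocities Φ b v w) ∂μHE[2])
    (hD : Meas4 D) (hf : Measurable fun p : Space3 × Space3 => f0 p.1 p.2) (P : CTree) {t : ℝ}
    (ht : 0 ≤ t) {φ : PhasePoint → ℝ≥0∞} (hφ : Measurable φ) :
    ∫⁻ z : PhasePoint × Par P, tdens Φ D f0 P t z * φ (onLine z.1 t) =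
      ∫⁻ z : PhasePoint, F κ D f0 P t z.1 z.2 * φ z := by
  have hm : Measurable fun z : PhasePoint × Par P => tdens Φ D f0 P t z * φ (onLine z.1 t) :=
    (measurable_tdens hΦ hD hf P t).mul
      (hφ.comp ((measurePreserving_onLine t).measurable.comp measurable_fst))
  have hvol : (volume : Measure (PhasePoint × Par P)) =
      (volume : Measure PhasePoint).prod (volume : Measure (Par P)) := rfl
  rw [hvol, lintegral_prod _ hm.aemeasurable]
  have h1 : ∀ ℓ : PhasePoint, ∫⁻ p : Par P, tdens Φ D f0 P t (ℓ, p) * φ (onLine ℓ t) =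
      F κ D f0 P t (onLine ℓ t).1 (onLine ℓ t).2 * φ (onLine ℓ t) := by
    intro ℓ
    have hsl : Measurable fun p : Par P => tdens Φ D f0 P t (ℓ, p) :=
      (measurable_tdens hΦ hD hf P t).comp (measurable_const.prodMk measurable_id)
    rw [lintegral_mul_const _ hsl]
    congr 1
    rw [stmt_F Φ hΦ κ hκ D hD f0 hf P t (onLine ℓ t).1 (onLine ℓ t).2 ht]
    refine lintegral_congr fun p => ?_
    have e : (onLine ℓ t).1 - t • (onLine ℓ t).2 = ℓ.1 := by simp [onLine]
    rw [e]
    rfl
  simp only [h1]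
  have hF : Measurable fun z : PhasePoint => F κ D f0 P t z.1 z.2 * φ z :=
    ((meas_F κ hD hf P).comp (f := fun z : PhasePoint => (t, z.1, z.2)) (by fun_prop)).mul hφ
  exact (measurePreserving_onLine t).lintegral_comp hF

/-- **Integral over the parameters of a forest.** -/
theorem lintegral_forest (hΦ : AdmissiblePotential Φ) (κ : Kernel Space3 (Space3 × Space3))
    [IsSFiniteKernel κ]
    (hκ : ∀ (v : Space3) (H : Space3 × Space3 → ℝ≥0∞), Measurable H → ∫⁻ p, H p ∂(κ v) =
      ∫⁻ w, ENNReal.ofReal ‖v - w‖ * ∫⁻ b in impactDisc (v - w), H (postVelocities Φ b v w) ∂μHE[2])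
    (hD : Meas4 D) (hf : Measurable fun p : Space3 × Space3 => f0 p.1 p.2) (Ps : Fin s → CTree)
    {t : ℝ} (ht : 0 ≤ t) {φ : (Fin s → PhasePoint) → ℝ≥0∞} (hφ : Measurable φ) :
    ∫⁻ q : FPar Ps, (∏ i, tdens Φ D f0 (Ps i) t (q i)) * φ (fun i => onLine (q i).1 t) =
      ∫⁻ Z : Fin s → PhasePoint, (∏ i, F κ D f0 (Ps i) t (Z i).1 (Z i).2) * φ Z := by
  have h := pi_transfer (X := fun i : Fin s => PhasePoint × Par (Ps i))
    (Y := fun _ : Fin s => PhasePoint) (Z := fun _ : Fin s => PhasePoint)
    (fun _ => volume) (fun _ => volume) (w := fun i => tdens Φ D f0 (Ps i) t)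
    (ρ := fun i z => F κ D f0 (Ps i) t z.1 z.2)
    (fun i => measurable_tdens hΦ hD hf (Ps i) t)
    (fun i => (meas_F κ hD hf (Ps i)).comp (f := fun z : PhasePoint => (t, z.1, z.2)) (by fun_prop))
    (f := fun i x => onLine x.1 t) (g := fun _ y => y)
    (fun i => (measurePreserving_onLine t).measurable.comp measurable_fst)
    (fun _ => measurable_id)
    (fun i G hG => lintegral_tdens hΦ κ hκ hD hf (Ps i) ht hG) hφ
  exact h

end Crest.Agent.R122.Forest399

end
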