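import Crest.Agent.R122.GIVDefs_566

/-!
# Row 122 (helper424): consumer form of `GIV`

* `ConvE l T' Sk S` : convergence of tube families along an arbitrary filter, every clause only
  eventually and only on `[0, T']` (activity times `≤ T'`).
* `GIV.use` : the conclusion of `GIV` under `ConvE`.
* `ConvE.sum`, `generic_sum`, `Lam_sum`, `dampG_sum`.
-/

set_option autoImplicit false
open MeasureTheory Set Filter
open scoped Classical ENNReal Topology NNReal
open Crest.AnalysisR.Kinetic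
open Crest.Agent.R122.GC311 Crest.Agent.R122.Causal291 Crest.Agent.R122.Boltz814
open Crest.Agent.R122.GIV566

noncomputable section

namespace Crest.Agent.R122.GIVUse424

variable {ι κ : Type} {K : Type*}

/-! ### Congruence -/

section congr

variable {Φ : Space3 → ℝ} {f₀ : PhasePoint → ℝ} {f : ℝ → PhasePoint → ℝ} {ε T t : ℝ}

theorem unhit_congr {S S' : Tubes ι} {κ' : Type*} [Fintype κ'] {w : κ' → PhasePoint}
    (hb : S.b = S'.b) (hc : ∀ i, ∀ s ∈ Icc 0 (min (S.b i) t), S.c i s = S'.c i s) :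
    unhit Φ ε S t w ↔ unhit Φ ε S' t w := by
  unfold unhit
  refine forall_congr' fun i => forall_congr' fun j => forall_congr' fun s => ?_
  rw [← hb]
  exact forall_congr' fun hs => by rw [hc i s hs]

theorem uG_congr {S S' : Tubes ι}
    (hb : S.b = S'.b) (hc : ∀ i, ∀ s ∈ Icc 0 (min (S.b i) t), S.c i s = S'.c i s) :
    uG Φ f₀ ε S t = uG Φ f₀ ε S' t := by
  unfold uG unhitInd
  simp only [unhit_congr hb hc]

theorem lam_congr [Fintype ι] {S S' : Tubes ι} {s : ℝ}
    (hb : S.b = S'.b) (hc : ∀ i, s < S.b i → S.c i =ᶠ[𝓝 s] S'.c i) :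
    lam T f S s = lam T f S' s := by
  unfold lam
  refine Finset.sum_congr rfl fun i _ => ?_
  rw [← hb]
  split_ifs with h
  · rw [(hc i h).eq_of_nhds, (hc i h).deriv_eq]
  · rfl

theorem Lam_congr [Fintype ι] {S S' : Tubes ι} (hb : S.b = S'.b)
    (hc : ∀ i, ∀ s ∈ Ioc 0 t, s < S.b i → S.c i =ᶠ[𝓝 s] S'.c i) :
    Lam T f S t = Lam T f S' t := by
  unfold Lam
  exact setLIntegral_congr_fun measurableSet_Ioc fun s hs => lam_congr hb fun i h => hc i s hs h

theorem dampG_congr [Fintype ι] {S S' : Tubes ι} (hb : S.b = S'.b)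
    (hc : ∀ i, ∀ s ∈ Ioc 0 t, s < S.b i → S.c i =ᶠ[𝓝 s] S'.c i) :
    dampG T f S t = dampG T f S' t := by
  unfold dampG
  rw [Lam_congr hb hc]

end congr

/-! ### Frozen curves -/

/-- curves frozen after time `T'` -/
def freeze (T' : ℝ) (S : Tubes ι) : Tubes ι := ⟨fun i s => S.c i (min s T'), S.b⟩

section freeze

variable {Φ : Space3 → ℝ} {f₀ : PhasePoint → ℝ} {f : ℝ → PhasePoint → ℝ} {ε T t T' : ℝ}

theorem uG_freeze {S : Tubes ι} (hb : ∀ i, S.b i ≤ T') (x : Space3) :
    uG Φ f₀ ε ((freeze T' S).shift x) t = uG Φ f₀ ε (S.shift x) t := by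
  refine uG_congr rfl fun i s hs => ?_
  have h : s ≤ T' := hs.2.trans ((min_le_left _ _).trans (hb i))
  show S.c i (min s T') + x = S.c i s + x
  rw [min_eq_left h]

theorem freeze_eventually {S : Tubes ι} {s : ℝ} (hs : s < T') (i : ι) :
    (freeze T' S).c i =ᶠ[𝓝 s] S.c i := by
  filter_upwards [Iio_mem_nhds hs] with u hu
  show S.c i (min u T') = S.c i u
  rw [min_eq_left (le_of_lt hu)]

theorem dampG_freeze [Fintype ι] {S : Tubes ι} (hb : ∀ i, S.b i ≤ T') (x : Space3) :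
    dampG T f ((freeze T' S).shift x) t = dampG T f (S.shift x) t := by
  refine dampG_congr rfl fun i s _ hs => ?_
  have h1 : s < T' := lt_of_lt_of_le hs (hb i)
  filter_upwards [freeze_eventually (S := S) h1 i] with u hu
  show (freeze T' S).c i u + x = S.c i u + x
  rw [hu]

theorem lip_freeze {S : Tubes ι} {M : ℝ≥0} {i : ι} (hT' : 0 ≤ T')
    (h : LipschitzOnWith M (S.c i) (Icc 0 T')) :
    LipschitzOnWith M ((freeze T' S).c i) (Icc 0 T) := by
  have hm : ∀ s ∈ Icc (0 : ℝ) T, min s T' ∈ Icc (0 : ℝ) T' := fun s hs =>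
    ⟨le_min hs.1 hT', min_le_right _ _⟩
  refine LipschitzOnWith.of_dist_le_mul fun s hs u hu => ?_
  refine (h.dist_le_mul _ (hm s hs) _ (hm u hu)).trans ?_
  refine mul_le_mul_of_nonneg_left ?_ M.2
  have := (LipschitzWith.id.min_const T').dist_le_mul s u
  simpa using this

end freeze

/-! ### Convergence -/

/-- Convergence of tube families on `[0, T']`, along a filter, all clauses eventually. -/
structure ConvE (l : Filter K) (T' : ℝ) (Sk : K → Tubes ι) (S : Tubes ι) : Prop where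
  lip : ∃ M : ℝ≥0, ∀ᶠ k in l, ∀ i, LipschitzOnWith M ((Sk k).c i) (Icc 0 T')
  curves : ∀ i, TendstoUniformlyOn (fun k s => (Sk k).c i s) (S.c i) l (Icc 0 T')
  active : ∀ i, Tendsto (fun k => (Sk k).b i) l (𝓝 (S.b i))
  vel : ∃ B : Set ℝ, B.Finite ∧ ∀ s ∈ Ioo 0 T', s ∉ B → ∀ i, s < S.b i →
    ∃ v : Space3, ∃ U ∈ 𝓝 s, (∀ u ∈ U, HasDerivAt (S.c i) v u) ∧
      ∀ᶠ k in l, ∀ u ∈ U, HasDerivAt ((Sk k).c i) v u
  le : ∀ᶠ k in l, ∀ i, (Sk k).b i ≤ T'

theorem ConvE.comp {K' : Type*} {l : Filter K} {l' : Filter K'} {u : K' → K}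
    (hu : Tendsto u l' l) {T' : ℝ} {Sk : K → Tubes ι} {S : Tubes ι} (h : ConvE l T' Sk S) :
    ConvE l' T' (fun n => Sk (u n)) S where
  lip := by
    obtain ⟨M, hM⟩ := h.lip
    exact ⟨M, hu.eventually hM⟩
  curves i := by
    intro V hV
    exact hu.eventually (h.curves i V hV)
  active i := (h.active i).comp hu
  vel := by
    obtain ⟨B, hB, hv⟩ := h.vel
    refine ⟨B, hB, fun s hs hsB i hi => ?_⟩
    obtain ⟨v, U, hU, h1, h2⟩ := hv s hs hsB i hi
    exact ⟨v, U, hU, h1, hu.eventually h2⟩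
  le := hu.eventually h.le

theorem ConvE.lim_le {l : Filter K} [l.NeBot] {T' : ℝ} {Sk : K → Tubes ι} {S : Tubes ι}
    (h : ConvE l T' Sk S) (i : ι) : S.b i ≤ T' :=
  le_of_tendsto (h.active i) (h.le.mono fun _ hk => hk i)

/-- the limit is Lipschitz with the same constant -/
theorem lip_limit {l : Filter K} [l.NeBot] {T' : ℝ} {Sk : K → Tubes ι} {S : Tubes ι}
    {M : ℝ≥0} (hM : ∀ᶠ k in l, ∀ i, LipschitzOnWith M ((Sk k).c i) (Icc 0 T'))
    (hc : ∀ i, TendstoUniformlyOn (fun k s => (Sk k).c i s) (S.c i) l (Icc 0 T')) (i : ι) :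
    LipschitzOnWith M (S.c i) (Icc 0 T') := by
  refine LipschitzOnWith.of_dist_le_mul fun s hs u hu => ?_
  have h1 : Tendsto (fun k => dist ((Sk k).c i s) ((Sk k).c i u)) l
      (𝓝 (dist (S.c i s) (S.c i u))) :=
    ((hc i).tendsto_at hs).dist ((hc i).tendsto_at hu)
  exact le_of_tendsto h1 (hM.mono fun k hk => (hk i).dist_le_mul s hs u hu)

theorem tubeConv_freeze {T T' : ℝ} (hT' : 0 ≤ T') {Sn : ℕ → Tubes ι} {S : Tubes ι}
    (h : ConvE atTop T' Sn S) :
    ∃ n0, TubeConv T (fun n => if n0 ≤ n then freeze T' (Sn n) else freeze T' S)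
      (freeze T' S) := by
  obtain ⟨M, hM⟩ := h.lip
  obtain ⟨n0, hn0⟩ := eventually_atTop.1 hM
  have hS : ∀ i, LipschitzOnWith M (S.c i) (Icc 0 T') := lip_limit hM h.curves
  have hev : ∀ᶠ n in atTop, (if n0 ≤ n then freeze T' (Sn n) else freeze T' S) =
      freeze T' (Sn n) := by
    filter_upwards [eventually_ge_atTop n0] with n hn
    rw [if_pos hn]
  have hm : ∀ s ∈ Icc (0 : ℝ) T, min s T' ∈ Icc (0 : ℝ) T' := fun s hs =>
    ⟨le_min hs.1 hT', min_le_right _ _⟩
  refine ⟨n0, ⟨⟨M, Eventually.of_forall fun n i => ?_, fun i => lip_freeze hT' (hS i)⟩,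
    fun i => ?_, fun i => ?_, ?_⟩⟩
  · by_cases hn : n0 ≤ n
    · simp only [if_pos hn]
      exact lip_freeze hT' (hn0 n hn i)
    · simp only [if_neg hn]
      exact lip_freeze hT' (hS i)
  · rw [Metric.tendstoUniformlyOn_iff]
    intro η hη
    filter_upwards [hev, Metric.tendstoUniformlyOn_iff.1 (h.curves i) η hη] with n h1 h2 s hs
    rw [h1]
    exact h2 _ (hm s hs)
  · refine (h.active i).congr' ?_
    filter_upwards [hev] with n h1
    rw [h1]
    rfl
  · obtain ⟨B, hB, hv⟩ := h.vel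
    refine ⟨B, hB, fun s hs hsB i hi => ?_⟩
    have hlt : s < T' := lt_of_lt_of_le hi (h.lim_le i)
    obtain ⟨v, U, hU, h1, h2⟩ := hv s ⟨hs.1, hlt⟩ hsB i hi
    refine ⟨v, U ∩ Iio T', inter_mem hU (Iio_mem_nhds hlt), fun u hu => ?_, ?_⟩
    · exact (h1 u hu.1).congr_of_eventuallyEq (freeze_eventually hu.2 i)
    · filter_upwards [hev, h2] with n h3 h4 u hu
      rw [h3]
      exact (h4 u hu.1).congr_of_eventuallyEq (freeze_eventually hu.2 i)

/-- **Consumer form of `GIV`.** -/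
theorem GIV.use {Φ : Space3 → ℝ} {f₀ : PhasePoint → ℝ} {f : ℝ → PhasePoint → ℝ} {T t : ℝ}
    (hG : GIV Φ f₀ f T t) [Fintype ι] {l : Filter K} [l.IsCountablyGenerated] {T' : ℝ}
    (hT' : 0 ≤ T') {εk : K → ℝ} (hε : Tendsto εk l (𝓝[>] 0))
    {Sk : K → Tubes ι} {S : Tubes ι} (hc : ConvE l T' Sk S) (hg : Generic T' S) (R : ℝ) :
    Tendsto (fun k => ∫⁻ x in Metric.closedBall (0 : Space3) R,
      adiff (uG Φ f₀ (εk k) ((Sk k).shift x) t) (dampG T f (S.shift x) t)) l (𝓝 0) := by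
  refine tendsto_of_seq_tendsto fun u hu => ?_
  have hcu := hc.comp hu
  have hεu : Tendsto (fun n => εk (u n)) atTop (𝓝[>] 0) := hε.comp hu
  obtain ⟨n0, hconv⟩ := tubeConv_freeze (T := T) hT' hcu
  have hpos : ∀ᶠ n in atTop, 0 < εk (u n) := by
    have := hεu.eventually (self_mem_nhdsWithin (a := (0 : ℝ)) (s := Ioi 0))
    exact this
  have hgen : Generic T (freeze T' S) := by
    intro i j hij
    refine (hg i j hij).subset ?_
    rintro s ⟨hs, he⟩
    have h1 : s ≤ T' := hs.2.trans ((min_le_right _ _).trans ((min_le_left _ _).trans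
      (hcu.lim_le i)))
    refine ⟨⟨hs.1, le_min h1 (hs.2.trans (min_le_right _ _))⟩, ?_⟩
    have he' : S.c i (min s T') = S.c j (min s T') := he
    rwa [min_eq_left h1] at he'
  have key := hG ι (fun n => if n0 ≤ n then freeze T' (Sk (u n)) else freeze T' S)
    (freeze T' S) (fun n => if 0 < εk (u n) then εk (u n) else 1)
    (fun n => by
      show 0 < (if 0 < εk (u n) then εk (u n) else 1)
      split_ifs with h
      · exact h
      · exact one_pos)
    (by
      refine ((tendsto_nhdsWithin_iff.1 hεu).1).congr' ?_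
      filter_upwards [hpos] with n hn
      rw [if_pos hn])
    hconv hgen R
  refine key.congr' ?_
  filter_upwards [hpos, eventually_ge_atTop n0, hcu.le] with n h1 h2 h3
  refine lintegral_congr fun x => ?_
  rw [if_pos h1, if_pos h2, uG_freeze h3, dampG_freeze (fun i => hcu.lim_le i)]

/-! ### Unions -/

theorem ConvE.sum {l : Filter K} {T' : ℝ} {Sk : K → Tubes ι} {S : Tubes ι}
    {Sk' : K → Tubes κ} {S' : Tubes κ} (h : ConvE l T' Sk S) (h' : ConvE l T' Sk' S') :
    ConvE l T' (fun k => (Sk k).sum (Sk' k)) (S.sum S') where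
  lip := by
    obtain ⟨M, hM⟩ := h.lip
    obtain ⟨M', hM'⟩ := h'.lip
    refine ⟨max M M', ?_⟩
    filter_upwards [hM, hM'] with k h1 h2 i
    rcases i with i | i
    · exact (h1 i).weaken (le_max_left _ _)
    · exact (h2 i).weaken (le_max_right _ _)
  curves i := by
    rcases i with i | i
    · exact h.curves i
    · exact h'.curves i
  active i := by
    rcases i with i | i
    · exact h.active i
    · exact h'.active i
  vel := by
    obtain ⟨B, hB, hv⟩ := h.vel
    obtain ⟨B', hB', hv'⟩ := h'.vel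
    refine ⟨B ∪ B', hB.union hB', fun s hs hsB i hi => ?_⟩
    rcases i with i | i
    · exact hv s hs (fun h => hsB (Or.inl h)) i hi
    · exact hv' s hs (fun h => hsB (Or.inr h)) i hi
  le := by
    filter_upwards [h.le, h'.le] with k h1 h2 i
    rcases i with i | i
    · exact h1 i
    · exact h2 i

/-- genericity of a union -/
theorem generic_sum {T' : ℝ} {S : Tubes ι} {S' : Tubes κ} (h : Generic T' S) (h' : Generic T' S')
    (hx : ∀ i j, {s | s ∈ Icc 0 (min T' (min (S.b i) (S'.b j))) ∧ S.c i s = S'.c j s}.Finite) :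
    Generic T' (S.sum S') := by
  intro i j hij
  rcases i with i | i <;> rcases j with j | j
  · exact h i j fun e => hij (by rw [e])
  · exact hx i j
  · refine (hx j i).subset ?_
    rintro s ⟨hs, he⟩
    refine ⟨⟨hs.1, ?_⟩, he.symm⟩
    have := hs.2
    rw [min_comm (S.b j)]
    exact this
  · exact h' i j fun e => hij (by rw [e])

section sum

variable {f : ℝ → PhasePoint → ℝ} {T t : ℝ}

/-- the rate of one tube is measurable in time (curves continuous while active) -/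
theorem measurable_lam_one {β : ℝ} {Φ : Space3 → ℝ} {f₀ : PhasePoint → ℝ}
    (hf : IsRegularKineticSolution Φ β T f₀ f) {c : ℝ → Space3} {b : ℝ}
    (hc : ContinuousOn c (Icc 0 b)) :
    Measurable fun s : ℝ => if 0 < s ∧ s < b then nuF T f s (c s) (deriv c s) else 0 := by
  have hd : Measurable (deriv c) := measurable_deriv c
  have hcm : Measurable ((Ioo 0 b).piecewise c (fun _ => 0)) :=
    (hc.mono Ioo_subset_Icc_self).measurable_piecewise continuousOn_const measurableSet_Ioo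
  have h0 : Measurable fun s : ℝ => ((s, (Ioo 0 b).piecewise c (fun _ => 0) s, deriv c s) :
      ℝ × Space3 × Space3) := measurable_id.prodMk (hcm.prodMk hd)
  have h1 : Measurable fun s : ℝ => nuF T f s ((Ioo 0 b).piecewise c (fun _ => 0) s)
      (deriv c s) := by
    have h3 := Measurable.comp (measurable_nuF hf) h0
    exact h3
  have h2 : (fun s : ℝ => if 0 < s ∧ s < b then nuF T f s (c s) (deriv c s) else 0) =
      (Ioo 0 b).indicator fun s : ℝ => nuF T f s ((Ioo 0 b).piecewise c (fun _ => 0) s)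
      (deriv c s) := by
    funext s
    by_cases hs : s ∈ Ioo 0 b
    · rw [if_pos (show 0 < s ∧ s < b from hs), indicator_of_mem hs, piecewise_eq_of_mem _ _ _ hs]
    · rw [if_neg (show ¬ (0 < s ∧ s < b) from hs), indicator_of_notMem hs]
  rw [h2]
  exact h1.indicator measurableSet_Ioo

/-- the integrated rate as a sum over the tubes -/
theorem Lam_eq_sum {β : ℝ} {Φ : Space3 → ℝ} {f₀ : PhasePoint → ℝ} [Fintype ι]
    (hf : IsRegularKineticSolution Φ β T f₀ f) {S : Tubes ι}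
    (hc : ∀ i, ContinuousOn (S.c i) (Icc 0 (S.b i))) :
    Lam T f S t = ∑ i, ∫⁻ s in Ioc 0 (min (S.b i) t), nuF T f s (S.c i s) (deriv (S.c i) s) := by
  unfold Lam lam
  have h1 : ∀ s ∈ Ioc (0 : ℝ) t, (∑ i, if s < S.b i then
        nuF T f s (S.c i s) (deriv (S.c i) s) else 0) =
      ∑ i, if 0 < s ∧ s < S.b i then nuF T f s (S.c i s) (deriv (S.c i) s) else 0 := by
    intro s hs
    refine Finset.sum_congr rfl fun i _ => ?_
    simp only [hs.1, true_and]
  rw [setLIntegral_congr_fun measurableSet_Ioc h1,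
    lintegral_finsetSum _ fun i _ => measurable_lam_one hf (hc i)]
  refine Finset.sum_congr rfl fun i _ => ?_
  rw [← lintegral_indicator measurableSet_Ioc, ← lintegral_indicator measurableSet_Ioc]
  refine lintegral_congr_ae ?_
  have h3 : ∀ᵐ s : ℝ, s ≠ S.b i := by
    rw [ae_iff]
    simp
  filter_upwards [h3] with s hs
  by_cases h4 : s ∈ Ioc 0 t
  · rw [indicator_of_mem h4]
    by_cases h5 : s < S.b i
    · rw [if_pos ⟨h4.1, h5⟩, indicator_of_mem (show s ∈ Ioc 0 (min (S.b i) t) from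
        ⟨h4.1, le_min h5.le h4.2⟩)]
    · rw [if_neg fun h => h5 h.2, indicator_of_notMem]
      intro h
      exact h5 (lt_of_le_of_ne (h.2.trans (min_le_left _ _)) hs)
  · rw [indicator_of_notMem h4, indicator_of_notMem]
    intro h
    exact h4 ⟨h.1, h.2.trans (min_le_right _ _)⟩

theorem Lam_add {β : ℝ} {Φ : Space3 → ℝ} {f₀ : PhasePoint → ℝ} [Fintype ι] [Fintype κ]
    (hf : IsRegularKineticSolution Φ β T f₀ f) {S : Tubes ι} {S' : Tubes κ}
    (hc : ∀ i, ContinuousOn (S.c i) (Icc 0 (S.b i)))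
    (hc' : ∀ i, ContinuousOn (S'.c i) (Icc 0 (S'.b i))) :
    Lam T f (S.sum S') t = Lam T f S t + Lam T f S' t := by
  rw [Lam_eq_sum hf hc, Lam_eq_sum hf hc', Lam_eq_sum hf (S := S.sum S') (by
    rintro (i | i)
    · exact hc i
    · exact hc' i), Fintype.sum_sum_type]
  rfl

/-- the integrated rate is finite (Lipschitz curves) -/
theorem Lam_ne_top {β : ℝ} {Φ : Space3 → ℝ} {f₀ : PhasePoint → ℝ} [Fintype ι]
    (hβ : 0 < β) (hT : 0 < T) (hf : IsRegularKineticSolution Φ β T f₀ f) {S : Tubes ι}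
    {M : ℝ≥0} {T' : ℝ} (hl : ∀ i, LipschitzOnWith M (S.c i) (Icc 0 T')) (hb : ∀ i, S.b i ≤ T') :
    Lam T f S t ≠ ∞ := by
  obtain ⟨L, hL, h⟩ := exists_nuF_le hβ hT hf
  have hc : ∀ i, ContinuousOn (S.c i) (Icc 0 (S.b i)) := fun i =>
    (hl i).continuousOn.mono (Icc_subset_Icc_right (hb i))
  rw [Lam_eq_sum hf hc]
  refine ENNReal.sum_ne_top.2 fun i _ => ?_
  have hd : ∀ s ∈ Ioo 0 (S.b i), ‖deriv (S.c i) s‖ ≤ M := by
    intro s hs
    have hsT : s ∈ Ioo 0 T' := ⟨hs.1, lt_of_lt_of_le hs.2 (hb i)⟩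
    exact norm_deriv_le_of_lipschitzOn (Icc_mem_nhds hsT.1 hsT.2) (hl i)
  have hle : ∫⁻ s in Ioc 0 (min (S.b i) t), nuF T f s (S.c i s) (deriv (S.c i) s) ≤
      ∫⁻ _s in Ioc 0 (min (S.b i) t), ENNReal.ofReal (L * (1 + M)) := by
    rw [← restrict_Ioo_eq_restrict_Ioc]
    refine setLIntegral_mono measurable_const fun s hs => ?_
    refine (h s _ _).trans (ENNReal.ofReal_le_ofReal ?_)
    have := hd s ⟨hs.1, lt_of_lt_of_le hs.2 (min_le_left _ _)⟩
    exact mul_le_mul_of_nonneg_left (by linarith) hL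
  refine ne_top_of_le_ne_top ?_ hle
  rw [setLIntegral_const]
  exact ENNReal.mul_ne_top ENNReal.ofReal_ne_top (by simp)

theorem dampG_add {β : ℝ} {Φ : Space3 → ℝ} {f₀ : PhasePoint → ℝ} [Fintype ι] [Fintype κ]
    (hβ : 0 < β) (hT : 0 < T) (hf : IsRegularKineticSolution Φ β T f₀ f) {S : Tubes ι}
    {S' : Tubes κ} {M : ℝ≥0} {T' : ℝ} (hl : ∀ i, LipschitzOnWith M (S.c i) (Icc 0 T'))
    (hb : ∀ i, S.b i ≤ T') (hl' : ∀ i, LipschitzOnWith M (S'.c i) (Icc 0 T'))
    (hb' : ∀ i, S'.b i ≤ T') :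
    dampG T f (S.sum S') t = dampG T f S t * dampG T f S' t := by
  unfold dampG
  rw [Lam_add hf (fun i => (hl i).continuousOn.mono (Icc_subset_Icc_right (hb i)))
    (fun i => (hl' i).continuousOn.mono (Icc_subset_Icc_right (hb' i))),
    ENNReal.toReal_add (Lam_ne_top hβ hT hf hl hb) (Lam_ne_top hβ hT hf hl' hb'), neg_add,
    Real.exp_add, ENNReal.ofReal_mul (Real.exp_nonneg _)]

end sum

end Crest.Agent.R122.GIVUse424
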