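import Crest.Agent.R122.TreeLim_974
import Crest.Agent.R122.GIVUse_424
import Crest.Agent.R122.HidLam2_424
import Crest.Agent.R122.ForestInt_399

/-!
# Row 122 (helper974), F7 part 1: protected tubes of a tree

* `PT Φ ε P t ℓ p` : the protected tubes of the tree (positions of `path`, end times `prot`).
* `conv_PT` : `GIV` at time `t` gives the convergence of the avoidance probability of the protected
  tubes, in `L¹_loc` of the root position, for every generic valid tree.
* `dampG_PT` : the kinetic avoidance probability is `exp (-LamP)`.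
* `tree_limit_F` : the limit of the tree integrals is the term of the collision tree series.
-/

set_option autoImplicit false

open MeasureTheory Set Filter
open scoped ENNReal Topology Classical NNReal
open Crest.AnalysisR.Kinetic Crest.Agent.R122.Kin796 Crest.Agent.R122.Disc416
  Crest.Agent.R122.Tree674 Crest.Agent.R122.TreeEps399 Crest.Agent.R122.TreeDom974
  Crest.Agent.R122.TreeLim974 Crest.Agent.R122.GIV566 Crest.Agent.R122.GIVUse424
  Crest.Agent.R122.Hid424 Crest.Agent.R122.Boltz814 Crest.Agent.R122.Kin416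
open Crest.Agent.R122.Quench815 (absd)

noncomputable section

namespace Crest.Agent.R122.Band974

open CTree

variable {Φ : Space3 → ℝ} {f₀ : PhasePoint → ℝ} {f : ℝ → PhasePoint → ℝ} {T t : ℝ}

/-- protected tubes of a tree -/
def PT (Φ : Space3 → ℝ) (ε : ℝ) (P : CTree) (t : ℝ) (ℓ : PhasePoint) (p : Par P) : Tubes (Idx P) :=
  ⟨fun i s => (path Φ ε P ℓ p s i).1, prot P t p⟩

/-- protected tubes of a tree, isolated Newton curves -/
def PTc (Φ : Space3 → ℝ) (ε : ℝ) (P : CTree) (t : ℝ) (ℓ : PhasePoint) (p : Par P) :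
    Tubes (Idx P) := ⟨curve Φ ε P ℓ p, prot P t p⟩

theorem PT_shift (ε : ℝ) (P : CTree) (t : ℝ) (x v : Space3) (p : Par P) :
    PT Φ ε P t (x, v) p = (PT Φ ε P t (0, v) p).shift x := by
  unfold PT Tubes.shift
  congr 1
  funext i s
  rw [path_shift ε P x v p s i]

theorem PTc_shift (hΦ : AdmissiblePotential Φ) {ε : ℝ} (hε : 0 < ε) (P : CTree) (t : ℝ)
    (x v : Space3) (p : Par P) : PTc Φ ε P t (x, v) p = (PTc Φ ε P t (0, v) p).shift x := by
  unfold PTc Tubes.shift
  congr 1
  funext i s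
  exact curve_shift hΦ hε P x v p i s

theorem uG_PT_eq (hΦ : AdmissiblePotential Φ) {ε : ℝ} (hε : 0 < ε) {P : CTree} {t : ℝ}
    {ℓ : PhasePoint} {p : Par P} (hV : Valid Φ ε P t ℓ.2 p) (hS : Sep Φ ε P t ℓ p) :
    uG Φ f₀ ε (PT Φ ε P t ℓ p) t = uG Φ f₀ ε (PTc Φ ε P t ℓ p) t := by
  refine uG_congr rfl fun i s hs => ?_
  obtain ⟨X, v⟩ := ℓ
  exact (curve_eq_path hΦ hε hV hS ⟨hs.1, hs.2.trans (min_le_right _ _)⟩ i).symm

/-- convergence of the protected tubes -/
theorem convE_PTc (hΦ : AdmissiblePotential Φ) {P : CTree} {v : Space3} {p : Par P}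
    (ht : 0 ≤ t) (hV : Valid Φ 0 P t v p) (hG : Gen Φ P (0, v) p) :
    ConvE L t (fun ε => PTc Φ ε P t (0, v) p) (PT Φ 0 P t (0, v) p) where
  lip := by
    obtain ⟨M, hM, h⟩ := curve_lip hΦ ht hV hG
    refine ⟨⟨M, hM⟩, ?_⟩
    filter_upwards [h] with ε hε i
    refine LipschitzOnWith.of_dist_le_mul fun s _ u _ => ?_
    have := hε 0 u s i
    rw [← Real.dist_eq] at this
    exact this
  curves i := by
    rw [Metric.tendstoUniformlyOn_iff]
    intro η hη
    filter_upwards [curve_close hΦ hV hG hη] with ε hε s hs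
    rw [dist_comm]
    exact hε 0 s hs i
  active i := tendsto_const_nhds
  vel := by
    refine ⟨{u | ¬ NotTime P p u}, finite_times P p, fun s hs hsB i _ => ?_⟩
    have hN : NotTime P p s := by
      by_contra h
      exact hsB h
    obtain ⟨w, δ, hδ, hsub, h0, hev⟩ := curve_local hΦ hV hG hs hN
    refine ⟨w i, Ioo (s - δ) (s + δ), Ioo_mem_nhds (by linarith) (by linarith), fun u hu => ?_, ?_⟩
    · have h1 : HasDerivAt (fun r : ℝ => (path Φ 0 P (0, v) p s i).1 + (r - s) • w i) (w i) u := by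
        have := (((hasDerivAt_id u).sub_const s).smul_const (w i)).const_add
          (path Φ 0 P (0, v) p s i).1
        simpa using this
      refine h1.congr_of_eventuallyEq ?_
      filter_upwards [Ioo_mem_nhds hu.1 hu.2] with r hr
      exact h0 0 r hr i
    · filter_upwards [hev] with ε hε u hu
      have h1 : HasDerivAt (fun r : ℝ => curve Φ ε P (0, v) p i s + (r - s) • w i) (w i) u := by
        have := (((hasDerivAt_id u).sub_const s).smul_const (w i)).const_add
          (curve Φ ε P (0, v) p i s)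
        simpa using this
      refine h1.congr_of_eventuallyEq ?_
      filter_upwards [Ioo_mem_nhds hu.1 hu.2] with r hr
      exact hε 0 r hr i
  le := Eventually.of_forall fun ε i => PathFlow968.prot_le le_rfl P t v p hV.2 i

theorem generic_PT {P : CTree} {v : Space3} {p : Par P} (hG : Gen Φ P (0, v) p) (T' : ℝ) :
    Generic T' (PT Φ 0 P t (0, v) p) := by
  intro i j hij
  refine (finite_meet hG hij).subset ?_
  rintro s ⟨hs, he⟩
  exact ⟨hs.1, he⟩

/-- **`GIV` for the protected tubes of a generic tree.** -/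
theorem conv_PT (hΦ : AdmissiblePotential Φ) (hGIV : GIV Φ f₀ f T t) (ht : 0 ≤ t)
    {P : CTree} {v : Space3} {p : Par P} (hV : Valid Φ 0 P t v p) (hG : Gen Φ P (0, v) p) (R : ℝ) :
    Tendsto (fun ε => ∫⁻ x in Metric.closedBall (0 : Space3) R,
      absd (uG Φ f₀ ε (PT Φ ε P t (x, v) p) t) (dampG T f (PT Φ 0 P t (x, v) p) t)) L (𝓝 0) := by
  have h := GIV.use hGIV ht (l := L) tendsto_id (convE_PTc hΦ ht hV hG) (generic_PT hG t) R
  refine h.congr' ?_
  filter_upwards [eventually_good hΦ hV hG] with ε hε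
  refine lintegral_congr fun x => ?_
  rw [uG_PT_eq hΦ hε.1 (ℓ := (x, v)) hε.2.1 (hε.2.2 x), PTc_shift hΦ hε.1 P t x v p,
    PT_shift 0 P t x v p]
  rfl

/-! ### Damping -/

theorem hasDerivAt_path0 {P : CTree} {v : Space3} {p : Par P} {s : ℝ} (hs : NotTime P p s)
    (X : Space3) (i : Idx P) :
    HasDerivAt (fun u => (path Φ 0 P (X, v) p u i).1) (path Φ 0 P (X, v) p s i).2 s := by
  obtain ⟨w, δ, hδ, h0, -⟩ := path_local (Φ := Φ) P v p s hs
  have e : (path Φ 0 P (X, v) p s i).2 = w i := by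
    have := h0 X s (by simpa using hδ) i
    rw [this]
  rw [e]
  have h1 : HasDerivAt (fun r : ℝ => (path Φ 0 P (X, v) p s i).1 + (r - s) • w i) (w i) s := by
    have := (((hasDerivAt_id s).sub_const s).smul_const (w i)).const_add
      (path Φ 0 P (X, v) p s i).1
    simpa using this
  refine h1.congr_of_eventuallyEq ?_
  have h2 : Ioo (s - δ) (s + δ) ∈ 𝓝 s := Ioo_mem_nhds (by linarith) (by linarith)
  filter_upwards [h2] with r hr
  rw [h0 X r (abs_lt.2 ⟨by linarith [hr.1], by linarith [hr.2]⟩) i]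

theorem Lam_PT {β : ℝ} (hf : IsRegularKineticSolution Φ β T f₀ f) {P : CTree} {ℓ : PhasePoint}
    {p : Par P} (hV : Valid Φ 0 P t ℓ.2 p) :
    Lam T f (PT Φ 0 P t ℓ p) t = LamP Φ (nuF T f) t P t ℓ p := by
  obtain ⟨X, v⟩ := ℓ
  rw [Lam_eq_sum hf fun i => (Hid424.continuous_path0 hV X i).continuousOn]
  unfold LamP legR
  refine Finset.sum_congr rfl fun i _ => ?_
  refine setLIntegral_congr_fun_ae measurableSet_Ioc ?_
  have h0 : ∀ᵐ s : ℝ, NotTime P p s := by
    have := (finite_times P p).measure_zero (volume : Measure ℝ)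
    rw [ae_iff]
    exact this
  filter_upwards [h0] with s hs _
  show nuF T f s (path Φ 0 P (X, v) p s i).1 (deriv (fun u => (path Φ 0 P (X, v) p u i).1) s) = _
  rw [(hasDerivAt_path0 hs X i).deriv]

theorem dampG_PT {β : ℝ} (hf : IsRegularKineticSolution Φ β T f₀ f) {P : CTree} {ℓ : PhasePoint}
    {p : Par P} (hV : Valid Φ 0 P t ℓ.2 p) :
    dampG T f (PT Φ 0 P t ℓ p) t = eexp (LamP Φ (nuF T f) t P t ℓ p) := by
  unfold dampG eexp
  rw [Lam_PT hf hV]

/-! ### Identification of the limit -/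

/-- the straight-line integrand is the damped density of the tree -/
theorem g0_eq_tdens {β : ℝ} (hβ : 0 < β) (hT : 0 < T)
    (hf : IsRegularKineticSolution Φ β T f₀ f) (ht : 0 ≤ t) (P : CTree)
    (k : PhasePoint → ℝ≥0∞) (φ : PhasePoint → ℝ≥0∞) (z : PhasePoint × Par P) :
    g0 Φ k P t φ (fun z => dampG T f (PT Φ 0 P t z.1 z.2) t) z =
      Forest399.tdens Φ (Hid424.Dwin (nuF T f) t) (fun x v => k (x, v)) P t z *
        φ (onLine z.1 t) := by
  unfold g0 Forest399.tdens
  by_cases hz : z ∈ good0 Φ P t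
  · have hz' : Valid Φ 0 P t z.1.2 z.2 := hz
    rw [indicator_of_mem hz, indicator_of_mem (show z ∈ {z : PhasePoint × Par P |
      Valid Φ 0 P t z.1.2 z.2} from hz)]
    show tA Φ k 0 P z * (φ (onLine z.1 t) * dampG T f (PT Φ 0 P t z.1 z.2) t) = _
    rw [dampG_PT hf hz',
      dens_eq (finRate_nuF hβ hT hf) ht (fun x v => k (x, v)) ht hz'.2]
    unfold tA
    ring
  · rw [indicator_of_notMem hz, indicator_of_notMem (show z ∉ {z : PhasePoint × Par P |
      Valid Φ 0 P t z.1.2 z.2} from hz), zero_mul]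

theorem F_congr_window (κ : ProbabilityTheory.Kernel Space3 (Space3 × Space3))
    {D D' : ℝ → ℝ → Space3 → Space3 → ℝ≥0∞} {f0 : Space3 → Space3 → ℝ≥0∞} {tw : ℝ}
    (h : ∀ s t, 0 ≤ s → s ≤ t → t ≤ tw → ∀ x v, D s t x v = D' s t x v) (P : CTree) {t : ℝ}
    (ht : t ∈ Icc 0 tw) (x v : Space3) : F κ D f0 P t x v = F κ D' f0 P t x v := by
  induction P generalizing t x v with
  | leaf =>
    show D 0 t x v * _ = D' 0 t x v * _
    rw [h 0 t le_rfl ht.1 ht.2]
  | node l r hl hr =>
    show (∫⁻ s in Ioc 0 t, D s t x v *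
      Q κ (F κ D f0 l s (x - (t - s) • v)) (F κ D f0 r s (x - (t - s) • v)) v) =
      ∫⁻ s in Ioc 0 t, D' s t x v *
      Q κ (F κ D' f0 l s (x - (t - s) • v)) (F κ D' f0 r s (x - (t - s) • v)) v
    refine setLIntegral_congr_fun measurableSet_Ioc fun s hs => ?_
    have hs' : s ∈ Icc 0 tw := ⟨hs.1.le, hs.2.trans ht.2⟩
    have h1 : F κ D f0 l s (x - (t - s) • v) = F κ D' f0 l s (x - (t - s) • v) :=
      funext fun u => hl hs' _ u
    have h2 : F κ D f0 r s (x - (t - s) • v) = F κ D' f0 r s (x - (t - s) • v) :=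
      funext fun u => hr hs' _ u
    show D s t x v * _ = D' s t x v * _
    rw [h s t hs.1.le hs.2 ht.2, h1, h2]

theorem meas4_Dwin_nuF {β : ℝ} (hf : IsRegularKineticSolution Φ β T f₀ f) (tw : ℝ) :
    Meas4 (Hid424.Dwin (nuF T f) tw) := by
  rw [← Dwin_814' tw]
  exact Seg814.meas4_Dwin (meas4_damp hf) tw

theorem lintegral_g0_eq {β : ℝ} (hΦ : AdmissiblePotential Φ) (hβ : 0 < β) (hT : 0 < T)
    (hf : IsRegularKineticSolution Φ β T f₀ f) (ht : t ∈ Icc 0 T) (P : CTree)
    {k : PhasePoint → ℝ≥0∞} (hk : ∀ z, k z = fE T f 0 z.1 z.2)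
    {φ : PhasePoint → ℝ≥0∞} (hφ : Measurable φ) :
    ∫⁻ z, g0 Φ k P t φ (fun z => dampG T f (PT Φ 0 P t z.1 z.2) t) z =
      ∫⁻ z : PhasePoint, TF Φ T f P t z.1 z.2 * φ z := by
  have hk' : (fun x v => k (x, v)) = fE T f 0 := by
    funext x v
    exact hk (x, v)
  have e1 : ∀ z, g0 Φ k P t φ (fun z => dampG T f (PT Φ 0 P t z.1 z.2) t) z =
      Forest399.tdens Φ (Hid424.Dwin (nuF T f) t) (fE T f 0) P t z * φ (onLine z.1 t) := by
    intro z
    rw [g0_eq_tdens hβ hT hf ht.1 P k φ z, hk']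
  simp only [e1]
  have hS := Scat818.scatFacts hΦ
  rw [Forest399.lintegral_tdens hΦ (kapQ Φ) ?_ (meas4_Dwin_nuF hf t) (meas_fE_zero hf) P ht.1 hφ]
  · refine lintegral_congr fun z => ?_
    congr 1
    rw [← Dwin_814' t]
    exact F_congr_window (kapQ Φ) (tw := t) (fun s u _ h1 h2 x v => Seg814.Dwin_eq h1 h2 x v) P
      ⟨ht.1, le_rfl⟩ z.1 z.2
  · intro v H hH
    exact lintegral_kapQ hS v hH

/-! ### Measurability -/

theorem measurable_pathM' (hΦ : AdmissiblePotential Φ) (ε : ℝ) (P : CTree) (i : Idx P) :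
    Measurable fun w : (PhasePoint × Par P) × ℝ => pathM Φ ε P w.2 w.1.1 w.1.2 i := by
  have h := (measurable_pi_apply i).comp (measurable_pathM hΦ ε P)
  exact h.comp (measurable_snd.prodMk measurable_fst)

theorem measurable_dampG_PT {β : ℝ} (hΦ : AdmissiblePotential Φ)
    (hf : IsRegularKineticSolution Φ β T f₀ f) (P : CTree) (t : ℝ) :
    Measurable ((good0 Φ P t).indicator fun z => dampG T f (PT Φ 0 P t z.1 z.2) t) := by
  have hnu : Measurable fun p : ℝ × Space3 × Space3 => nuF T f p.1 p.2.1 p.2.2 := measurable_nuF hf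
  set LM : PhasePoint × Par P → ℝ≥0∞ := fun z => ∑ i : Idx P,
    ∫⁻ s : ℝ, (if 0 < s ∧ s ≤ min (prot P t z.2 i) t then
      nuF T f s (pathM Φ 0 P s z.1 z.2 i).1 (pathM Φ 0 P s z.1 z.2 i).2 else 0) with hLM
  have hLMm : Measurable LM := by
    refine Finset.measurable_sum _ fun i _ => ?_
    have h1 := measurable_pathM' hΦ 0 P i
    have h2 : Measurable fun w : (PhasePoint × Par P) × ℝ =>
        nuF T f w.2 (pathM Φ 0 P w.2 w.1.1 w.1.2 i).1 (pathM Φ 0 P w.2 w.1.1 w.1.2 i).2 :=
      hnu.comp (f := fun w : (PhasePoint × Par P) × ℝ =>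
        (w.2, (pathM Φ 0 P w.2 w.1.1 w.1.2 i).1, (pathM Φ 0 P w.2 w.1.1 w.1.2 i).2))
        (measurable_snd.prodMk (h1.fst.prodMk h1.snd))
    have hb : Measurable fun w : (PhasePoint × Par P) × ℝ => min (prot P t w.1.2 i) t :=
      ((measurable_prot P i).comp (f := fun w : (PhasePoint × Par P) × ℝ => (t, w.1.2))
        (measurable_const.prodMk (measurable_snd.comp measurable_fst))).min measurable_const
    have h3 : Measurable fun w : (PhasePoint × Par P) × ℝ =>
        if 0 < w.2 ∧ w.2 ≤ min (prot P t w.1.2 i) t then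
          nuF T f w.2 (pathM Φ 0 P w.2 w.1.1 w.1.2 i).1 (pathM Φ 0 P w.2 w.1.1 w.1.2 i).2
        else 0 := by
      refine Measurable.ite ?_ h2 measurable_const
      exact (measurableSet_lt measurable_const measurable_snd).inter
        (measurableSet_le measurable_snd hb)
    exact h3.lintegral_prod_right'
  have hee : Measurable fun x : ℝ≥0∞ => eexp x := by
    unfold eexp
    fun_prop
  have h4 : ((good0 Φ P t).indicator fun z => dampG T f (PT Φ 0 P t z.1 z.2) t) =
      (good0 Φ P t).indicator fun z => eexp (LM z) := by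
    funext z
    by_cases hz : z ∈ good0 Φ P t
    · have hz' : Valid Φ 0 P t z.1.2 z.2 := hz
      rw [indicator_of_mem hz, indicator_of_mem hz, dampG_PT hf hz']
      congr 1
      unfold LamP legR
      refine Finset.sum_congr rfl fun i _ => ?_
      rw [← lintegral_indicator measurableSet_Ioc]
      refine lintegral_congr fun s => ?_
      rw [pathM_of_adm hΦ 0 s hz'.1]
      by_cases hs : s ∈ Ioc 0 (min (prot P t z.2 i) t)
      · rw [indicator_of_mem hs, if_pos (show 0 < s ∧ s ≤ _ from hs)]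
      · rw [indicator_of_notMem hs, if_neg (show ¬ (0 < s ∧ s ≤ _) from hs)]
    · rw [indicator_of_notMem hz, indicator_of_notMem hz]
  rw [h4]
  exact (hee.comp hLMm).indicator (measurableSet_good0 hΦ P t)

theorem measurable_uG_PT (hΦ : AdmissiblePotential Φ) (hfm : Measurable f₀) {ε : ℝ} (hε : 0 < ε)
    (P : CTree) (ht : 0 ≤ t) :
    Measurable ((goodS Φ ε P t).indicator fun z => uG Φ f₀ ε (PT Φ ε P t z.1 z.2) t) := by
  have hgm := measurableSet_goodS hΦ hε P t
  set S : PhasePoint × Par P → Tubes (Idx P) := fun z =>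
    ⟨fun i s => if z ∈ goodS Φ ε P t then (pathM Φ ε P s z.1 z.2 i).1 else 0,
      prot P t z.2⟩ with hS
  have hm : Measurable fun z => uG Φ f₀ ε (S z) t := by
    refine measurable_uG hfm hΦ hε (T := t) ht (S := S) (fun z i => ?_) (fun i s => ?_)
      (fun i => ?_) measurable_const fun _ => le_rfl
    · by_cases hz : z ∈ goodS Φ ε P t
      · have e : (S z).c i = fun s => (path Φ ε P z.1 z.2 s i).1 := by
          funext s
          simp only [hS, if_pos hz]
          rw [pathM_of_adm hΦ ε s hz.1.1]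
        rw [e]
        have h := Tree674.continuous_path hΦ hε hz.1
        exact (continuous_fst.comp ((continuous_apply i).comp h)).continuousOn
      · have e : (S z).c i = fun _ => 0 := by
          funext s
          simp only [hS, if_neg hz]
        rw [e]
        exact continuousOn_const
    · refine Measurable.ite hgm ?_ measurable_const
      exact ((measurable_pathM' hΦ ε P i).comp (measurable_id.prodMk measurable_const)).fst
    · exact (measurable_prot P i).comp (f := fun z : PhasePoint × Par P => (t, z.2))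
        (measurable_const.prodMk measurable_snd)
  have h4 : ((goodS Φ ε P t).indicator fun z => uG Φ f₀ ε (PT Φ ε P t z.1 z.2) t) =
      (goodS Φ ε P t).indicator fun z => uG Φ f₀ ε (S z) t := by
    funext z
    by_cases hz : z ∈ goodS Φ ε P t
    · rw [indicator_of_mem hz, indicator_of_mem hz]
      congr 1
      simp only [hS, if_pos hz, PT]
      congr 1
      funext i s
      rw [pathM_of_adm hΦ ε s hz.1.1]
    · rw [indicator_of_notMem hz, indicator_of_notMem hz]
  rw [h4]
  exact hm.indicator hgm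

/-! ### The limit theorem for protected tubes -/

/-- initial density with values in `ℝ≥0∞` -/
def kF (f₀ : PhasePoint → ℝ) (z : PhasePoint) : ℝ≥0∞ := ENNReal.ofReal (f₀ z)

/-- the tree integral at `ε` -/
def J (Φ : Space3 → ℝ) (f₀ : PhasePoint → ℝ) (ε : ℝ) (P : CTree) (t : ℝ)
    (φ : PhasePoint → ℝ≥0∞) : ℝ≥0∞ :=
  ∫⁻ z, gE Φ (kF f₀) ε P t φ (fun z => uG Φ f₀ ε (PT Φ ε P t z.1 z.2) t) z

/-- **The limit of the tree integrals is the term of the collision tree series.** -/
theorem tendsto_J {β : ℝ} (hD : Master566.KData Φ β T f₀ f) (hGIV : GIV Φ f₀ f T t)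
    (ht : t ∈ Icc 0 T) (P : CTree) {φ : PhasePoint → ℝ≥0∞} {M : ℝ≥0∞} {R : ℝ}
    (hφ : TestF φ M R) :
    Tendsto (fun ε => J Φ f₀ ε P t φ) L (𝓝 (∫⁻ z : PhasePoint, TF Φ T f P t z.1 z.2 * φ z)) := by
  have hf := hD.sol
  have hfm : Measurable f₀ := hD.contDiff.continuous.measurable
  have h1 : ∫⁻ z, ENNReal.ofReal (f₀ z) ≤ 1 :=
    (FM167.lintegral_density_eq_one hD.nonneg hD.integrable hD.mass).le
  have hkc : Continuous (kF f₀) := ENNReal.continuous_ofReal.comp hD.contDiff.continuous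
  obtain ⟨C, hC, hCb⟩ : ∃ C : ℝ, 0 ≤ C ∧ ∀ z, kF f₀ z ≤
      ENNReal.ofReal (C * Real.exp (-(2 * β) * ‖z.2‖ ^ 2)) := by
    obtain ⟨C, hC, h⟩ := exists_gauss_bound hD.T_pos hf
    refine ⟨C, hC, fun z => ENNReal.ofReal_le_ofReal ?_⟩
    have := h 0 ⟨le_rfl, hD.T_pos.le⟩ z.1 z.2
    rw [hf.initial] at this
    exact this
  have hk0 : ∀ z, kF f₀ z = fE T f 0 z.1 z.2 := by
    intro z
    rw [fE_of_mem ⟨le_rfl, hD.T_pos.le⟩, hf.initial]
    rfl
  rw [← lintegral_g0_eq hD.adm hD.beta_pos hD.T_pos hf ht P hk0 hφ.meas]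
  refine tree_limit' hD.adm (F := L) (e := fun ε => ε) tendsto_id hC
    (by have := hD.beta_pos; positivity) hkc hCb P t hφ
    (fun ε z => uG_le_one hfm h1) (fun z => dampG_le_one _) ?_ ?_ ?_
  · filter_upwards [eventually_pos] with ε hε
    exact measurable_uG_PT hD.adm hfm hε P ht.1
  · exact measurable_dampG_PT hD.adm hf P t
  · exact Eventually.of_forall fun q hV hG R' => conv_PT hD.adm hGIV ht.1 hV hG R'

end Crest.Agent.R122.Band974
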