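import Crest.Agent.R122.BoltzInv_814

/-!
Row 122, Boltzmann side (helper814): weighted `L¹` tails of the tree series, velocity tails,
`L¹` continuity in time, and tightness in position, all uniform on `[0,T]`.
-/

set_option autoImplicit false

open MeasureTheory ProbabilityTheory Set
open Crest.AnalysisR.Kinetic
open Crest.Agent.R122.Kin416 Crest.Agent.R122.Kin796
open scoped ENNReal

noncomputable section

namespace Crest.Agent.R122.Boltz814

variable {Φ : Space3 → ℝ} {β T : ℝ} {f₀ : PhasePoint → ℝ} {f : ℝ → PhasePoint → ℝ}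

/-- **(M4)** Geometric decay of the tails of the tree series in `L¹` with exponential velocity
weight, uniformly on `[0,T]`. -/
theorem exists_TR_L1 (hβ : 0 < β) (hT : 0 < T) (hΦ : AdmissiblePotential Φ)
    (hf : IsRegularKineticSolution Φ β T f₀ f)
    (H : HasSummableGaussianBound (2 * β) (fun x v => f₀ (x, v))) :
    ∃ r C : ℝ, 0 < r ∧ r < 1 ∧ 0 ≤ C ∧ ∀ K : ℕ, ∀ t ∈ Icc 0 T,
      ∫⁻ z : Space3 × Space3, gau (-(β / 4)) z.2 * TR Φ T f K t z.1 z.2 ≤
        ENNReal.ofReal (r ^ K * C) := by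
  obtain ⟨lam, C, hlam, hC0, h⟩ := exists_L1_moment hβ hT hΦ hf H
  refine ⟨lam⁻¹, C, by positivity, inv_lt_one_of_one_lt₀ hlam, hC0, fun K t ht => ?_⟩
  have hpt : ∀ z : Space3 × Space3, TR Φ T f K t z.1 z.2 ≤ ENNReal.ofReal (lam⁻¹ ^ K) *
      ∑' τ : CTree, ENNReal.ofReal lam ^ τ.size * TF Φ T f τ t z.1 z.2 := fun z =>
    RK_le_of_moment hlam le_rfl K
  calc ∫⁻ z : Space3 × Space3, gau (-(β / 4)) z.2 * TR Φ T f K t z.1 z.2
      ≤ ∫⁻ z : Space3 × Space3, ENNReal.ofReal (lam⁻¹ ^ K) * (gau (-(β / 4)) z.2 *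
        ∑' τ : CTree, ENNReal.ofReal lam ^ τ.size * TF Φ T f τ t z.1 z.2) := by
        refine lintegral_mono fun z => ?_
        calc gau (-(β / 4)) z.2 * TR Φ T f K t z.1 z.2 ≤ gau (-(β / 4)) z.2 *
              (ENNReal.ofReal (lam⁻¹ ^ K) *
              ∑' τ : CTree, ENNReal.ofReal lam ^ τ.size * TF Φ T f τ t z.1 z.2) :=
              mul_le_mul' le_rfl (hpt z)
          _ = _ := by ring
    _ = ENNReal.ofReal (lam⁻¹ ^ K) * ∫⁻ z : Space3 × Space3, (gau (-(β / 4)) z.2 *
        ∑' τ : CTree, ENNReal.ofReal lam ^ τ.size * TF Φ T f τ t z.1 z.2) :=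
        lintegral_const_mul' _ _ ENNReal.ofReal_ne_top
    _ ≤ ENNReal.ofReal (lam⁻¹ ^ K) * ENNReal.ofReal C := mul_le_mul' le_rfl (h t ht)
    _ = _ := by rw [ENNReal.ofReal_mul (by positivity)]

/-- Velocity tails of the solution with polynomial weights, uniformly in time. -/
theorem exists_velocity_tail (hβ : 0 < β) (hT : 0 < T) (hΦ : AdmissiblePotential Φ)
    (hf : IsRegularKineticSolution Φ β T f₀ f)
    (H : HasSummableGaussianBound (2 * β) (fun x v => f₀ (x, v))) (k : ℕ) :
    ∃ C : ℝ, 0 ≤ C ∧ ∀ R : ℝ, 0 ≤ R → ∀ t,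
      phI (fun x v => {v : Space3 | R ≤ ‖v‖}.indicator
        (fun v => ENNReal.ofReal ((1 + ‖v‖) ^ k)) v * fE T f t x v) ≤
        ENNReal.ofReal (C * Real.exp (-(β / 8) * R ^ 2)) := by
  obtain ⟨C, hC0, hC⟩ := exists_L1_moment_sol hβ hT hΦ hf H
  obtain ⟨C1, hC10, hC1⟩ := exists_poly_le_gau (γ := β / 8) (by positivity) k
  refine ⟨C1 * C, by positivity, fun R hR t => ?_⟩
  have hm : Measurable (Function.uncurry fun x v : Space3 => gau (-(β / 4)) v * fE T f t x v) :=
    ((measurable_gau _).comp measurable_snd).mul (meas3_uncurry (meas3_fE hf) t)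
  calc phI (fun x v => {v : Space3 | R ≤ ‖v‖}.indicator
        (fun v => ENNReal.ofReal ((1 + ‖v‖) ^ k)) v * fE T f t x v)
      ≤ phI (fun x v => (ENNReal.ofReal C1 * ENNReal.ofReal (Real.exp (-(β / 8) * R ^ 2))) *
        (gau (-(β / 4)) v * fE T f t x v)) := by
        refine phI_mono fun x v => ?_
        rw [← mul_assoc]
        refine mul_le_mul' ?_ le_rfl
        by_cases hv : v ∈ {v : Space3 | R ≤ ‖v‖}
        · rw [indicator_of_mem hv]
          refine (hC1 v).trans ?_
          rw [mul_assoc]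
          refine mul_le_mul' le_rfl ?_
          unfold gau
          rw [← ENNReal.ofReal_mul (Real.exp_nonneg _), ← Real.exp_add]
          refine ENNReal.ofReal_le_ofReal (Real.exp_le_exp.2 ?_)
          have h2 : R ^ 2 ≤ ‖v‖ ^ 2 := pow_le_pow_left₀ hR hv 2
          nlinarith
        · rw [indicator_of_notMem hv]; exact bot_le
    _ = (ENNReal.ofReal C1 * ENNReal.ofReal (Real.exp (-(β / 8) * R ^ 2))) *
        phI (fun x v => gau (-(β / 4)) v * fE T f t x v) := phI_const_mul hm _
    _ ≤ (ENNReal.ofReal C1 * ENNReal.ofReal (Real.exp (-(β / 8) * R ^ 2))) *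
        ENNReal.ofReal C := mul_le_mul' le_rfl (hC t)
    _ = _ := by
        rw [← ENNReal.ofReal_mul hC10, ← ENNReal.ofReal_mul (by positivity)]
        congr 1; ring

/-- **(M5)** `L¹` continuity in time (Scheffé). -/
theorem tendsto_L1 (hf : IsRegularKineticSolution Φ β T f₀ f) {t : ℝ} (ht : t ∈ Icc 0 T) :
    Filter.Tendsto (fun s => ∫⁻ z : PhasePoint, ENNReal.ofReal |f s z - f t z|)
      (nhdsWithin t (Icc 0 T)) (nhds 0) := by
  have hmass : ∀ s ∈ Icc 0 T, ∫⁻ z : PhasePoint, ENNReal.ofReal (f s z) = 1 := by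
    intro s hs
    rw [← ofReal_integral_eq_lintegral_ofReal (hf.density s hs).1
      (Filter.Eventually.of_forall fun z => hf.nonneg s hs z), (hf.density s hs).2,
      ENNReal.ofReal_one]
  have hm : ∀ s ∈ Icc 0 T, Measurable (f s) := fun s hs => (continuous_slice hf hs).measurable
  -- algebraic identity
  have hid : ∀ s ∈ Icc 0 T, ∫⁻ z : PhasePoint, ENNReal.ofReal |f s z - f t z| =
      2 - 2 * ∫⁻ z : PhasePoint, ENNReal.ofReal (min (f s z) (f t z)) := by
    intro s hs
    have h1 : ∀ z : PhasePoint, ENNReal.ofReal |f s z - f t z| +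
        2 * ENNReal.ofReal (min (f s z) (f t z)) =
        ENNReal.ofReal (f s z) + ENNReal.ofReal (f t z) := by
      intro z
      have hs0 := hf.nonneg s hs z
      have ht0 := hf.nonneg t ht z
      rw [show (2 : ℝ≥0∞) = ENNReal.ofReal 2 by simp, ← ENNReal.ofReal_mul (by norm_num),
        ← ENNReal.ofReal_add (abs_nonneg _) (by positivity), ← ENNReal.ofReal_add hs0 ht0]
      congr 1
      rcases le_total (f s z) (f t z) with h | h
      · rw [min_eq_left h, abs_of_nonpos (by linarith)]; ring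
      · rw [min_eq_right h, abs_of_nonneg (by linarith)]; ring
    have hmm : Measurable fun z : PhasePoint => ENNReal.ofReal |f s z - f t z| := by
      have h1 := hm s hs
      have h2 := hm t ht
      exact ENNReal.measurable_ofReal.comp ((h1.sub h2).norm)
    have h2 : (∫⁻ z : PhasePoint, ENNReal.ofReal |f s z - f t z|) +
        2 * ∫⁻ z : PhasePoint, ENNReal.ofReal (min (f s z) (f t z)) = 2 := by
      rw [← lintegral_const_mul' _ _ (by norm_num), ← lintegral_add_left hmm]
      simp_rw [h1]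
      have hms : Measurable fun z : PhasePoint => ENNReal.ofReal (f s z) :=
        ENNReal.measurable_ofReal.comp (hm s hs)
      rw [lintegral_add_left hms, hmass s hs, hmass t ht]
      norm_num
    have hfin : 2 * ∫⁻ z : PhasePoint, ENNReal.ofReal (min (f s z) (f t z)) ≠ ∞ := by
      exact ne_top_of_le_ne_top (b := 2) (by norm_num) (le_trans le_add_self h2.le)
    exact ENNReal.eq_sub_of_add_eq hfin h2
  have hmin : Filter.Tendsto (fun s => ∫⁻ z : PhasePoint, ENNReal.ofReal (min (f s z) (f t z)))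
      (nhdsWithin t (Icc 0 T)) (nhds (∫⁻ z : PhasePoint, ENNReal.ofReal (f t z))) := by
    refine tendsto_lintegral_filter_of_dominated_convergence
      (fun z => ENNReal.ofReal (f t z)) ?_ ?_ ?_ ?_
    · filter_upwards [self_mem_nhdsWithin] with s hs
      exact ENNReal.measurable_ofReal.comp ((hm s hs).min (hm t ht))
    · filter_upwards [self_mem_nhdsWithin] with s hs
      exact Filter.Eventually.of_forall fun z => ENNReal.ofReal_le_ofReal (min_le_right _ _)
    · rw [hmass t ht]; norm_num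
    · refine Filter.Eventually.of_forall fun z => ?_
      have h1 : ContinuousOn (fun s => f s z) (Icc 0 T) :=
        hf.continuous.comp (f := fun s => (s, z)) (by fun_prop) (fun s hs => ⟨hs, mem_univ _⟩)
      have h2 : Filter.Tendsto (fun s => min (f s z) (f t z)) (nhdsWithin t (Icc 0 T))
          (nhds (min (f t z) (f t z))) := (h1 t ht).min tendsto_const_nhds
      rw [min_self] at h2
      exact (ENNReal.continuous_ofReal.tendsto _).comp h2
  rw [hmass t ht] at hmin
  have h3 : Filter.Tendsto (fun s => 2 - 2 * ∫⁻ z : PhasePoint,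
      ENNReal.ofReal (min (f s z) (f t z))) (nhdsWithin t (Icc 0 T)) (nhds (2 - 2 * 1)) := by
    refine ENNReal.Tendsto.sub tendsto_const_nhds ?_ (Or.inl (by norm_num))
    exact ENNReal.Tendsto.const_mul hmin (Or.inr (by norm_num))
  rw [mul_one, tsub_self] at h3
  refine h3.congr' ?_
  filter_upwards [self_mem_nhdsWithin] with s hs
  exact (hid s hs).symm

/-- Uniform tightness along any decreasing family of measurable sets with empty intersection. -/
theorem exists_tight (hf : IsRegularKineticSolution Φ β T f₀ f) {S : ℕ → Set PhasePoint}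
    (hSm : ∀ n, MeasurableSet (S n)) (hS : Antitone S) (hSe : ⋂ n, S n = ∅) {δ : ℝ≥0∞}
    (hδ : 0 < δ) : ∃ N, ∀ n, N ≤ n → ∀ t ∈ Icc 0 T,
      ∫⁻ z in S n, ENNReal.ofReal (f t z) ≤ δ := by
  have hmass : ∀ s ∈ Icc 0 T, ∫⁻ z : PhasePoint, ENNReal.ofReal (f s z) = 1 := by
    intro s hs
    rw [← ofReal_integral_eq_lintegral_ofReal (hf.density s hs).1
      (Filter.Eventually.of_forall fun z => hf.nonneg s hs z), (hf.density s hs).2,
      ENNReal.ofReal_one]
  by_contra hcon
  push Not at hcon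
  have h1 : ∀ n, ∃ t ∈ Icc 0 T, δ < ∫⁻ z in S n, ENNReal.ofReal (f t z) := by
    intro n
    obtain ⟨m, hm, t, ht, h⟩ := hcon n
    exact ⟨t, ht, h.trans_le (lintegral_mono_set (hS hm))⟩
  choose t ht hlt using h1
  obtain ⟨t', ht', φ, hφ, hlim⟩ := isCompact_Icc.tendsto_subseq ht
  have hL1 := (tendsto_L1 hf ht').comp (tendsto_nhdsWithin_iff.2 ⟨hlim,
    Filter.Eventually.of_forall fun n => ht (φ n)⟩)
  have hz : Filter.Tendsto (fun n => ∫⁻ z in S (φ n), ENNReal.ofReal (f t' z)) Filter.atTop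
      (nhds 0) := by
    have h2 : Filter.Tendsto (fun n => (volume.withDensity fun z => ENNReal.ofReal (f t' z)) (S n))
        Filter.atTop (nhds ((volume.withDensity fun z => ENNReal.ofReal (f t' z)) (⋂ n, S n))) := by
      refine tendsto_measure_iInter_atTop (fun n => (hSm n).nullMeasurableSet) hS ⟨0, ?_⟩
      rw [withDensity_apply _ (hSm 0)]
      refine ne_top_of_le_ne_top (b := 1) (by norm_num) ?_
      rw [← hmass t' ht']
      exact setLIntegral_le_lintegral _ _
    rw [hSe, measure_empty] at h2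
    refine (h2.comp hφ.tendsto_atTop).congr fun n => ?_
    simp only [Function.comp_apply]
    rw [withDensity_apply _ (hSm _)]
  have hsum := hz.add hL1
  rw [add_zero] at hsum
  have hle : ∀ n, δ ≤ (∫⁻ z in S (φ n), ENNReal.ofReal (f t' z)) +
      ((fun s => ∫⁻ z : PhasePoint, ENNReal.ofReal |f s z - f t' z|) ∘ (t ∘ φ)) n := by
    intro n
    refine (hlt (φ n)).le.trans ?_
    have hm' : Measurable fun z => ENNReal.ofReal (f t' z) :=
      ENNReal.measurable_ofReal.comp (continuous_slice hf ht').measurable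
    calc ∫⁻ z in S (φ n), ENNReal.ofReal (f (t (φ n)) z)
        ≤ ∫⁻ z in S (φ n), (ENNReal.ofReal (f t' z) +
          ENNReal.ofReal |f (t (φ n)) z - f t' z|) := by
          refine lintegral_mono fun z => ?_
          rw [← ENNReal.ofReal_add (hf.nonneg t' ht' z) (abs_nonneg _)]
          refine ENNReal.ofReal_le_ofReal ?_
          linarith [le_abs_self (f (t (φ n)) z - f t' z)]
      _ = (∫⁻ z in S (φ n), ENNReal.ofReal (f t' z)) +
          ∫⁻ z in S (φ n), ENNReal.ofReal |f (t (φ n)) z - f t' z| := lintegral_add_left hm' _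
      _ ≤ _ := add_le_add le_rfl (setLIntegral_le_lintegral _ _)
  have := ge_of_tendsto' hsum hle
  exact absurd this (not_le.2 hδ)

/-- Uniform tightness in position and velocity. -/
theorem exists_ball_tight (hf : IsRegularKineticSolution Φ β T f₀ f) {δ : ℝ≥0∞} (hδ : 0 < δ) :
    ∃ R : ℝ, 0 < R ∧ ∀ t ∈ Icc 0 T,
      ∫⁻ z in {z : PhasePoint | R ≤ ‖z‖}, ENNReal.ofReal (f t z) ≤ δ := by
  obtain ⟨N, hN⟩ := exists_tight hf (S := fun n : ℕ => {z : PhasePoint | (n : ℝ) + 1 ≤ ‖z‖})
    (fun n => measurableSet_le measurable_const measurable_norm)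
    (fun n m h z (hz : (m : ℝ) + 1 ≤ ‖z‖) => by
      have : (n : ℝ) ≤ m := by exact_mod_cast h
      show (n : ℝ) + 1 ≤ ‖z‖
      linarith)
    (by
      ext z
      simp only [mem_iInter, mem_setOf_eq, mem_empty_iff_false, iff_false, not_forall, not_le]
      obtain ⟨n, hn⟩ := exists_nat_gt ‖z‖
      exact ⟨n, by linarith⟩) hδ
  exact ⟨(N : ℝ) + 1, by positivity, fun t ht => hN N le_rfl t ht⟩

end Crest.Agent.R122.Boltz814

end
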