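import Crest.Agent.R122.Band1_974
import Crest.Agent.R122.Tight_974
import Crest.Agent.R122.NEK_370
import Crest.Agent.R122.BoltzTight_814

/-!
# Row 122 (helper974), F7 part 2: the band bound

* `psiR R` : indicator of `‖x‖ ≤ R`.
* `BandUp Φ f₀ t` : the upper bound of the mass of particles with `K₁ < |bc| ≤ K` by the tree
  integrals `J ε P t`, up to a null error (output of the real side: Mecke, NG, RtG).
* `band_of_up` : `GIV t` and `BandUp t` imply `NEK370.Band` with a geometric tail.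
* `nek_of_up` : together with `NE t` they imply `NEK t`.
-/

set_option autoImplicit false

open MeasureTheory Set Filter
open scoped ENNReal Topology Classical NNReal
open Crest.AnalysisR.Kinetic Crest.Agent.R122.Kin796 Crest.Agent.R122.Disc416
  Crest.Agent.R122.Tree674 Crest.Agent.R122.TreeEps399 Crest.Agent.R122.TreeLim974
  Crest.Agent.R122.GIV566 Crest.Agent.R122.Boltz814 Crest.Agent.R122.Kin416
  Crest.Agent.R122.GC311 Crest.Agent.R122.Causal291 Crest.Agent.R122.Master566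
  Crest.Agent.R122.NEK370 Crest.Agent.R122.EW370

noncomputable section

namespace Crest.Agent.R122.Band974

open CTree

variable {Φ : Space3 → ℝ} {f₀ : PhasePoint → ℝ} {f : ℝ → PhasePoint → ℝ} {β T t : ℝ}

/-- indicator of `‖x‖ ≤ R` -/
def psiR (R : ℝ) (z : PhasePoint) : ℝ≥0∞ := if ‖z.1‖ ≤ R then 1 else 0

theorem measurable_psiR (R : ℝ) : Measurable (psiR R) :=
  Measurable.ite (measurableSet_le measurable_fst.norm measurable_const) measurable_const
    measurable_const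

theorem testF_psiR (R : ℝ) : TestF (psiR R) 1 R where
  meas := measurable_psiR R
  M_fin := ENNReal.one_ne_top
  le z := by unfold psiR; split_ifs <;> simp
  supp z hz := by unfold psiR; rw [if_neg (not_le.2 hz)]

/-- trees with `K₁ < leaves ≤ K` -/
def bandT (K₁ K : ℕ) : Finset CTree := (CTree.lt K).filter fun P => K₁ < P.leaves ∧ P.leaves ≤ K

theorem mem_bandT {K₁ K : ℕ} {P : CTree} : P ∈ bandT K₁ K ↔ K₁ < P.leaves ∧ P.leaves ≤ K := by
  unfold bandT
  rw [Finset.mem_filter, CTree.mem_lt]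
  constructor
  · exact fun h => h.2
  · intro h
    refine ⟨?_, h⟩
    have h1 := CTree.height_le_size P
    have h2 := CTree.leaves_eq P
    omega

theorem sum_bandT_le (K₁ K : ℕ) (g : CTree → ℝ≥0∞) :
    ∑ P ∈ bandT K₁ K, g P ≤ ∑' P : CTree, if K₁ ≤ P.size then g P else 0 := by
  calc ∑ P ∈ bandT K₁ K, g P = ∑ P ∈ bandT K₁ K, (if K₁ ≤ P.size then g P else 0) := by
        refine Finset.sum_congr rfl fun P hP => ?_
        have h1 := mem_bandT.1 hP
        have h2 := CTree.leaves_eq P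
        rw [if_pos (by omega)]
    _ ≤ _ := ENNReal.sum_le_tsum _

/-- **Output of the real side** (Mecke, NG, RtG, change of variables). -/
def BandUp (Φ : Space3 → ℝ) (f₀ : PhasePoint → ℝ) (t : ℝ) : Prop :=
  ∀ (K₁ K : ℕ) (R δ : ℝ), 0 < δ → ∃ ε₀ : ℝ, 0 < ε₀ ∧ ∀ ε : ℝ, 0 < ε → ε < ε₀ →
    gcE f₀ ε (fun n Z => (activity ε)⁻¹ * ∑ i : Fin n,
      (if (bc Φ ε Z t i).ncard ∈ Ioc K₁ K then 1 else 0) * psiR R (pth Φ ε Z t i)) ≤
      ∑ P ∈ bandT K₁ K, J Φ f₀ ε P t (psiR R) + ENNReal.ofReal δ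

/-- Limit of the main term. -/
theorem limsup_main (hD : KData Φ β T f₀ f) {r C : ℝ} (hC0 : 0 ≤ C) (hr : 0 ≤ r)
    (hrC : ∀ K : ℕ, ∀ t ∈ Icc 0 T,
      ∫⁻ z : Space3 × Space3, gau (-(β / 4)) z.2 * TR Φ T f K t z.1 z.2 ≤
        ENNReal.ofReal (r ^ K * C))
    (ht : t ∈ Icc 0 T) (hG : GIV Φ f₀ f T t) (K₁ K : ℕ) (R : ℝ) {δ : ℝ} (hδ : 0 < δ) :
    ∃ ε₀ : ℝ, 0 < ε₀ ∧ ∀ ε : ℝ, 0 < ε → ε < ε₀ →
      ∑ P ∈ bandT K₁ K, J Φ f₀ ε P t (psiR R) ≤ ENNReal.ofReal (r ^ K₁ * C + δ) := by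
  have hlim : Tendsto (fun ε => ∑ P ∈ bandT K₁ K, J Φ f₀ ε P t (psiR R)) L
      (𝓝 (∑ P ∈ bandT K₁ K, ∫⁻ z : PhasePoint, TF Φ T f P t z.1 z.2 * psiR R z)) :=
    tendsto_finsetSum _ fun P _ => tendsto_J hD hG ht P (testF_psiR R)
  have hmF : ∀ P : CTree, Measurable fun z : PhasePoint => TF Φ T f P t z.1 z.2 := fun P =>
    (meas_TF hD.sol P).comp (f := fun z : PhasePoint => (t, z.1, z.2)) (by fun_prop)
  have hle : ∑ P ∈ bandT K₁ K, ∫⁻ z : PhasePoint, TF Φ T f P t z.1 z.2 * psiR R z ≤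
      ENNReal.ofReal (r ^ K₁ * C) := by
    refine le_trans ?_ (hrC K₁ t ht)
    have hmm : ∀ P ∈ bandT K₁ K, Measurable fun z : PhasePoint =>
        TF Φ T f P t z.1 z.2 * psiR R z := fun P _ => (hmF P).mul (measurable_psiR R)
    rw [← lintegral_finsetSum _ hmm]
    refine lintegral_mono fun z => ?_
    have h1 : ∀ P, TF Φ T f P t z.1 z.2 * psiR R z ≤ TF Φ T f P t z.1 z.2 := by
      intro P
      calc _ ≤ TF Φ T f P t z.1 z.2 * 1 := by gcongr; exact (testF_psiR R).le z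
        _ = _ := mul_one _
    have h2 : (1 : ℝ≥0∞) ≤ gau (-(β / 4)) z.2 := by
      have hb := hD.beta_pos
      unfold gau
      rw [← ENNReal.ofReal_one]
      refine ENNReal.ofReal_le_ofReal (Real.one_le_exp ?_)
      have : 0 ≤ ‖z.2‖ ^ 2 := by positivity
      nlinarith
    calc ∑ P ∈ bandT K₁ K, TF Φ T f P t z.1 z.2 * psiR R z
        ≤ ∑ P ∈ bandT K₁ K, TF Φ T f P t z.1 z.2 := Finset.sum_le_sum fun P _ => h1 P
      _ ≤ ∑' P : CTree, (if K₁ ≤ P.size then TF Φ T f P t z.1 z.2 else 0) :=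
          sum_bandT_le K₁ K _
      _ = TR Φ T f K₁ t z.1 z.2 := rfl
      _ ≤ _ := by
          calc TR Φ T f K₁ t z.1 z.2 = 1 * TR Φ T f K₁ t z.1 z.2 := (one_mul _).symm
            _ ≤ _ := by gcongr
  have hlt : ∑ P ∈ bandT K₁ K, ∫⁻ z : PhasePoint, TF Φ T f P t z.1 z.2 * psiR R z <
      ENNReal.ofReal (r ^ K₁ * C + δ) := by
    refine lt_of_le_of_lt hle ?_
    rw [ENNReal.ofReal_lt_ofReal_iff (by positivity)]
    linarith
  have hev := hlim.eventually (gt_mem_nhds hlt)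
  obtain ⟨ε₀, hε₀, h⟩ := mem_nhdsGT_iff_exists_Ioo_subset.1 hev
  exact ⟨ε₀, hε₀, fun ε hε hlt => (h ⟨hε, hlt⟩ : _ < _).le⟩

/-- **The band bound from the real side and `GIV`.** -/
theorem band_of_up (hD : KData Φ β T f₀ f) {r C : ℝ} (hC0 : 0 ≤ C) (hr : 0 ≤ r)
    (hrC : ∀ K : ℕ, ∀ t ∈ Icc 0 T,
      ∫⁻ z : Space3 × Space3, gau (-(β / 4)) z.2 * TR Φ T f K t z.1 z.2 ≤
        ENNReal.ofReal (r ^ K * C))
    (ht : t ∈ Icc 0 T) (hG : GIV Φ f₀ f T t) (hU : BandUp Φ f₀ t) :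
    Band Φ f₀ t fun K => r ^ K * C := by
  intro K₁ K δ hδ
  have hfm : Measurable f₀ := hD.contDiff.continuous.measurable
  have h1 : ∫⁻ z, ENNReal.ofReal (f₀ z) ≤ 1 :=
    (FM167.lintegral_density_eq_one hD.nonneg hD.integrable hD.mass).le
  obtain ⟨R, hR, hfar⟩ := Tight974.exists_far_le hD.adm hfm h1
    (by have := hD.beta_pos; positivity : 0 < 2 * β) hD.gaussian T
    (δ := ENNReal.ofReal (δ / 3)) (ENNReal.ofReal_pos.2 (by positivity))
  obtain ⟨ε₁, hε₁, hup⟩ := hU K₁ K R (δ / 3) (by positivity)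
  obtain ⟨ε₂, hε₂, hmain⟩ := limsup_main hD hC0 hr hrC ht hG K₁ K R (δ := δ / 3) (by positivity)
  refine ⟨min ε₁ ε₂, lt_min hε₁ hε₂, fun ε hε hlt => ?_⟩
  have a1 := hup ε hε (hlt.trans_le (min_le_left _ _))
  have a2 := hmain ε hε (hlt.trans_le (min_le_right _ _))
  have a3 := hfar ε hε t ht
  have hm1 : ∀ n, Measurable fun Z : Config n => (activity ε)⁻¹ * ∑ i : Fin n,
      (if (bc Φ ε Z t i).ncard ∈ Ioc K₁ K then (1 : ℝ≥0∞) else 0) * psiR R (pth Φ ε Z t i) := by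
    intro n
    refine (Finset.measurable_fun_sum _ fun i _ => ?_).const_mul _
    refine Measurable.mul ?_ ((measurable_psiR R).comp (measurable_pth hD.adm hε t i))
    exact Measurable.ite (measurable_ncard_bc hD.adm hε t i (Set.to_countable _).measurableSet)
      measurable_const measurable_const
  calc bandMass Φ f₀ ε K₁ K t
      ≤ gcE f₀ ε (fun n Z => (activity ε)⁻¹ * (∑ i : Fin n,
          (if (bc Φ ε Z t i).ncard ∈ Ioc K₁ K then 1 else 0) * psiR R (pth Φ ε Z t i)) +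
          (activity ε)⁻¹ * ∑ i : Fin n, if R < ‖(Flow671.flow Φ ε t Z i).1‖ then 1 else 0) := by
        unfold bandMass sizeMass
        refine gcE_mono f₀ ε fun n Z _ => ?_
        rw [← mul_add, ← Finset.sum_add_distrib, cnt_eq]
        refine mul_le_mul_right (Finset.sum_le_sum fun i _ => ?_) _
        by_cases hk : (bc Φ ε Z t i).ncard ∈ Ioc K₁ K
        · rw [indicator_of_mem hk, if_pos hk, one_mul]
          by_cases hx : ‖(pth Φ ε Z t i).1‖ ≤ R
          · unfold psiR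
            rw [if_pos hx]
            exact le_self_add
          · have hx' : R < ‖(Flow671.flow Φ ε t Z i).1‖ := not_le.1 hx
            rw [if_pos hx']
            exact le_add_self
        · rw [indicator_of_notMem hk]
          exact bot_le
    _ = gcE f₀ ε (fun n Z => (activity ε)⁻¹ * (∑ i : Fin n,
          (if (bc Φ ε Z t i).ncard ∈ Ioc K₁ K then 1 else 0) * psiR R (pth Φ ε Z t i))) +
        gcE f₀ ε (fun n Z => (activity ε)⁻¹ * ∑ i : Fin n,
          if R < ‖(Flow671.flow Φ ε t Z i).1‖ then 1 else 0) :=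
        gcE_add hfm ε (F := fun n Z => (activity ε)⁻¹ * ∑ i : Fin n,
          (if (bc Φ ε Z t i).ncard ∈ Ioc K₁ K then (1 : ℝ≥0∞) else 0) *
            psiR R (pth Φ ε Z t i)) hm1
    _ ≤ (∑ P ∈ bandT K₁ K, J Φ f₀ ε P t (psiR R) + ENNReal.ofReal (δ / 3)) +
        ENNReal.ofReal (δ / 3) := add_le_add a1 a3
    _ ≤ (ENNReal.ofReal (r ^ K₁ * C + δ / 3) + ENNReal.ofReal (δ / 3)) +
        ENNReal.ofReal (δ / 3) := by gcongr
    _ = ENNReal.ofReal (r ^ K₁ * C + δ) := by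
        rw [← ENNReal.ofReal_add (by positivity) (by positivity),
          ← ENNReal.ofReal_add (by positivity) (by positivity)]
        congr 1
        ring

/-- **F7**: geometric band bound, uniform constants. -/
theorem exists_band (hD : KData Φ β T f₀ f) :
    ∃ r C : ℝ, 0 ≤ r ∧ r < 1 ∧ 0 ≤ C ∧ ∀ t ∈ Icc 0 T, GIV Φ f₀ f T t → BandUp Φ f₀ t →
      Band Φ f₀ t fun K => r ^ K * C := by
  obtain ⟨r, C, h0, h1, hC, h⟩ := exists_TR_L1 hD.beta_pos hD.T_pos hD.adm hD.sol hD.gaussian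
  exact ⟨r, C, h0.le, h1, hC, fun t ht hG hU => band_of_up hD hC h0.le h ht hG hU⟩

/-- `NE`, `GIV` and the real side give the first-moment form `NEK`. -/
theorem nek_of_up (hD : KData Φ β T f₀ f) (ht : t ∈ Icc 0 T) (hN : NE Φ f₀ t)
    (hG : GIV Φ f₀ f T t) (hU : BandUp Φ f₀ t) : NEK Φ f₀ t := by
  obtain ⟨r, C, h0, h1, hC, h⟩ := exists_band hD
  exact NEK_of_geometric hD.adm hD.contDiff.continuous.measurable hN h0 h1 hC (h t ht hG hU)

end Crest.Agent.R122.Band974
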