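import Crest.Agent.R122.BoltzL1_814

/-!
Row 122, Boltzmann side (helper814): `L¹` exponential moments (in the velocity and in the number
of collisions) of the damped tree series, uniformly on `[0,T]`.
-/

set_option autoImplicit false

open MeasureTheory ProbabilityTheory Set
open Crest.AnalysisR.Kinetic
open Crest.Agent.R122.Kin416 Crest.Agent.R122.Kin796
open scoped ENNReal

noncomputable section

namespace Crest.Agent.R122.Boltz814

variable {Φ : Space3 → ℝ} {β T : ℝ} {f₀ : PhasePoint → ℝ} {f : ℝ → PhasePoint → ℝ}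

/-! ### Initial datum -/

/-- every point is within distance one of a lattice point -/
lemma exists_lattice (x : Space3) : ∃ k : Fin 3 → ℤ, dist x (latticePoint k) ≤ 1 := by
  refine ⟨fun i => round (x i), ?_⟩
  rw [EuclideanSpace.dist_eq]
  have hi : ∀ i : Fin 3, dist (x i) (latticePoint (fun i => round (x i)) i) ^ 2 ≤ 1 / 4 := by
    intro i
    have h1 : |x i - round (x i)| ≤ 1 / 2 := abs_sub_round (x i)
    have h2 : dist (x i) (latticePoint (fun i => round (x i)) i) = |x i - round (x i)| := by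
      simp [latticePoint, Real.dist_eq]
    rw [h2]
    nlinarith [abs_nonneg (x i - round (x i))]
  calc Real.sqrt (∑ i, dist (x i) (latticePoint (fun i => round (x i)) i) ^ 2)
      ≤ Real.sqrt (∑ _i : Fin 3, (1 / 4 : ℝ)) := by
        apply Real.sqrt_le_sqrt
        exact Finset.sum_le_sum fun i _ => hi i
    _ ≤ Real.sqrt 1 := by
        apply Real.sqrt_le_sqrt
        norm_num
    _ = 1 := Real.sqrt_one

/-- **(M1)** The marginal velocity density of the initial datum is Gaussian bounded. -/
theorem exists_velocity_marginal {γ : ℝ} (H : HasSummableGaussianBound γ (fun x v => f₀ (x, v))) :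
    ∃ C : ℝ, 0 ≤ C ∧ ∀ v : Space3, ∫⁻ x : Space3, ENNReal.ofReal (f₀ (x, v)) ≤
      ENNReal.ofReal C * gau γ v := by
  obtain ⟨M, hM, hb⟩ := H
  have hM0 : ∀ k, 0 ≤ M k := by
    intro k
    refine le_trans ?_ (hb k (latticePoint k) 0 (by simp))
    positivity
  set c : ℝ≥0∞ := volume (Metric.closedBall (0 : Space3) 1) with hc
  have hct : c ≠ ∞ := (measure_closedBall_lt_top).ne
  refine ⟨(∑' k, M k) * c.toReal, mul_nonneg (tsum_nonneg hM0) ENNReal.toReal_nonneg,
    fun v => ?_⟩
  have hpt : ∀ x : Space3, ENNReal.ofReal (f₀ (x, v)) ≤ ∑' k : Fin 3 → ℤ,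
      (Metric.closedBall (latticePoint k) 1).indicator
        (fun _ => ENNReal.ofReal (M k) * gau γ v) x := by
    intro x
    obtain ⟨k, hk⟩ := exists_lattice x
    refine le_trans ?_ (ENNReal.le_tsum k)
    rw [indicator_of_mem (by simpa using hk)]
    unfold gau
    rw [← ENNReal.ofReal_mul (hM0 k)]
    refine ENNReal.ofReal_le_ofReal ?_
    have h1 := hb k x v hk
    have h2 : Real.exp (γ * ‖v‖ ^ 2) * Real.exp (-γ * ‖v‖ ^ 2) = 1 := by
      rw [← Real.exp_add]; simp
    calc f₀ (x, v) ≤ ‖f₀ (x, v)‖ := le_abs_self _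
      _ = (Real.exp (γ * ‖v‖ ^ 2) * Real.exp (-γ * ‖v‖ ^ 2)) * ‖f₀ (x, v)‖ := by
          rw [h2, one_mul]
      _ = (Real.exp (γ * ‖v‖ ^ 2) * ‖f₀ (x, v)‖) * Real.exp (-γ * ‖v‖ ^ 2) := by ring
      _ ≤ M k * Real.exp (-γ * ‖v‖ ^ 2) := by gcongr
  calc ∫⁻ x : Space3, ENNReal.ofReal (f₀ (x, v))
      ≤ ∫⁻ x : Space3, ∑' k : Fin 3 → ℤ, (Metric.closedBall (latticePoint k) 1).indicator
        (fun _ => ENNReal.ofReal (M k) * gau γ v) x := lintegral_mono hpt
    _ = ∑' k : Fin 3 → ℤ, ∫⁻ x : Space3, (Metric.closedBall (latticePoint k) 1).indicator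
        (fun _ => ENNReal.ofReal (M k) * gau γ v) x :=
        lintegral_tsum fun k => (measurable_const.indicator
          Metric.isClosed_closedBall.measurableSet).aemeasurable
    _ = ∑' k : Fin 3 → ℤ, ENNReal.ofReal (M k) * gau γ v * c := by
        refine tsum_congr fun k => ?_
        rw [lintegral_indicator Metric.isClosed_closedBall.measurableSet, lintegral_const,
          Measure.restrict_apply_univ, hc, Measure.addHaar_closedBall_center]
    _ = (∑' k : Fin 3 → ℤ, ENNReal.ofReal (M k)) * (gau γ v * c) := by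
        rw [← ENNReal.tsum_mul_right]
        refine tsum_congr fun k => ?_
        rw [mul_assoc]
    _ = ENNReal.ofReal ((∑' k, M k) * c.toReal) * gau γ v := by
        rw [← ENNReal.ofReal_tsum_of_nonneg hM0 hM, ENNReal.ofReal_mul (tsum_nonneg hM0),
          ENNReal.ofReal_toReal hct]
        ring

/-! ### Phase space integrals -/

/-- phase space integral -/
def phI (G : Space3 → Space3 → ℝ≥0∞) : ℝ≥0∞ := ∫⁻ x, ∫⁻ v, G x v

lemma phI_eq_prod {G : Space3 → Space3 → ℝ≥0∞} (hG : Measurable (Function.uncurry G)) :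
    phI G = ∫⁻ z : Space3 × Space3, G z.1 z.2 := by
  have h := lintegral_prod (μ := (volume : Measure Space3)) (ν := (volume : Measure Space3))
    (Function.uncurry G) hG.aemeasurable
  exact h.symm

lemma phI_mono {G H : Space3 → Space3 → ℝ≥0∞} (h : ∀ x v, G x v ≤ H x v) : phI G ≤ phI H :=
  lintegral_mono fun x => lintegral_mono fun v => h x v

lemma phI_add {G H : Space3 → Space3 → ℝ≥0∞} (hG : Measurable (Function.uncurry G)) :
    phI (fun x v => G x v + H x v) = phI G + phI H := by
  unfold phI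
  have h1 : ∀ x : Space3, ∫⁻ v, (G x v + H x v) = (∫⁻ v, G x v) + ∫⁻ v, H x v := fun x =>
    lintegral_add_left (hG.comp measurable_prodMk_left) _
  simp_rw [h1]
  exact lintegral_add_left hG.lintegral_prod_right' _

lemma phI_const_mul {G : Space3 → Space3 → ℝ≥0∞} (hG : Measurable (Function.uncurry G))
    (c : ℝ≥0∞) : phI (fun x v => c * G x v) = c * phI G := by
  unfold phI
  have h1 : ∀ x : Space3, ∫⁻ v, c * G x v = c * ∫⁻ v, G x v := fun x =>
    lintegral_const_mul _ (hG.comp measurable_prodMk_left)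
  simp_rw [h1]
  exact lintegral_const_mul _ hG.lintegral_prod_right'

/-- invariance of phase space integrals under free transport -/
lemma phI_transport {G : Space3 → Space3 → ℝ≥0∞} (hG : Measurable (Function.uncurry G)) (c : ℝ) :
    phI (fun x v => G (x - c • v) v) = phI G := by
  have hG2 : Measurable (Function.uncurry fun x v : Space3 => G (x - c • v) v) := by
    have hm : Measurable fun p : Space3 × Space3 => (p.1 - c • p.2, p.2) := by fun_prop
    exact hG.comp hm
  unfold phI
  rw [lintegral_lintegral_swap hG2.aemeasurable, lintegral_lintegral_swap hG.aemeasurable]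
  refine lintegral_congr fun v => ?_
  exact lintegral_sub_right_eq_self (fun x => G x v) (c • v)

/-- Tonelli with an additional time integral -/
lemma phI_time {a : ℝ → Space3 → Space3 → ℝ≥0∞} (S : Set ℝ)
    (ha : Measurable fun p : ℝ × Space3 × Space3 => a p.1 p.2.1 p.2.2) :
    phI (fun x v => ∫⁻ s in S, a s x v) = ∫⁻ s in S, phI (a s) := by
  unfold phI
  have h1 : ∀ x : Space3, ∫⁻ v, ∫⁻ s in S, a s x v = ∫⁻ s in S, ∫⁻ v, a s x v := by
    intro x
    refine lintegral_lintegral_swap (f := fun v s => a s x v) ?_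
    have hm : Measurable fun p : Space3 × ℝ => (p.2, x, p.1) := by fun_prop
    have h2 := Measurable.comp ha hm
    exact h2.aemeasurable
  simp_rw [h1]
  refine lintegral_lintegral_swap (f := fun x s => ∫⁻ v, a s x v) ?_
  have hm : Measurable fun p : (Space3 × ℝ) × Space3 => (p.1.2, p.1.1, p.2) := by fun_prop
  have h2 : Measurable fun p : (Space3 × ℝ) × Space3 => a p.1.2 p.1.1 p.2 :=
    Measurable.comp ha hm
  exact h2.lintegral_prod_right'.aemeasurable

/-! ### The `L¹` exponential moment -/

/-- slices of jointly measurable functions -/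
lemma meas3_uncurry {g : ℝ → Space3 → Space3 → ℝ≥0∞} (hg : Meas3 g) (t : ℝ) :
    Measurable (Function.uncurry (g t)) := by
  have hm : Measurable fun p : Space3 × Space3 => (t, p.1, p.2) := by fun_prop
  have h2 := Measurable.comp hg hm
  exact h2

/-- monotonicity of the Picard iterates in the index -/
lemma P_mono_index (hf : IsRegularKineticSolution Φ β T f₀ f) (lam : ℝ≥0∞) {n m : ℕ}
    (h : n ≤ m) (t : ℝ) (x v : Space3) :
    P (kapQ Φ) (damp T f) (fE T f 0) lam n t x v ≤
      P (kapQ Φ) (damp T f) (fE T f 0) lam m t x v := by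
  rw [P_eq_sum _ (meas4_damp hf) (meas_fE_zero hf), P_eq_sum _ (meas4_damp hf) (meas_fE_zero hf)]
  exact Finset.sum_le_sum_of_subset (CTree.lt_mono h)

/-- one Picard step in weighted `L¹` -/
lemma phI_P_succ_le (hΦ : AdmissiblePotential Φ) (hf : IsRegularKineticSolution Φ β T f₀ f)
    (lam : ℝ≥0∞) (n : ℕ) (t : ℝ) {w : Space3 → ℝ≥0∞} (hw : Measurable w) :
    phI (fun x v => w v * P (kapQ Φ) (damp T f) (fE T f 0) lam (n + 1) t x v) ≤
      phI (fun x v => w v * fE T f 0 x v) +
      ∫⁻ s in Ioc 0 t, lam * phI (fun x v => w v *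
        Qp Φ (P (kapQ Φ) (damp T f) (fE T f 0) lam n s x)
          (P (kapQ Φ) (damp T f) (fE T f 0) lam n s x) v) := by
  set Pn := P (kapQ Φ) (damp T f) (fE T f 0) lam n with hPn
  have hPm : Meas3 Pn := meas_P (kapQ Φ) (meas4_damp hf) (meas_fE_zero hf) lam n
  have hS := Scat818.scatFacts hΦ
  have hQm : Meas3 (fun s x v => Qp Φ (Pn s x) (Pn s x) v) := by
    have h1 : (fun s x v => Qp Φ (Pn s x) (Pn s x) v) =
        fun s x v => Q (kapQ Φ) (Pn s x) (Pn s x) v := by
      funext s x v
      rw [Q_kapQ hS (meas_slice (meas4_damp hf) (meas_fE_zero hf) hPm s x)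
        (meas_slice (meas4_damp hf) (meas_fE_zero hf) hPm s x)]
    rw [h1]
    exact meas_Q _ hPm hPm
  have hpt : ∀ x v, w v * P (kapQ Φ) (damp T f) (fE T f 0) lam (n + 1) t x v ≤
      w v * fE T f 0 (x - t • v) v +
        ∫⁻ s in Ioc 0 t, lam * (w v * Qp Φ (Pn s (x - (t - s) • v)) (Pn s (x - (t - s) • v)) v) := by
    intro x v
    have hstep : P (kapQ Φ) (damp T f) (fE T f 0) lam (n + 1) t x v =
        damp T f 0 t x v * fE T f 0 (x - t • v) v + ∫⁻ s in Ioc 0 t, damp T f s t x v *
          (lam * Q (kapQ Φ) (Pn s (x - (t - s) • v)) (Pn s (x - (t - s) • v)) v) := rfl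
    rw [hstep, mul_add]
    refine add_le_add (mul_le_mul' le_rfl ?_) ?_
    · calc damp T f 0 t x v * fE T f 0 (x - t • v) v ≤ 1 * fE T f 0 (x - t • v) v :=
            mul_le_mul' (damp_le_one _ _ _ _) le_rfl
        _ = _ := one_mul _
    · have hm1 : Measurable fun s => damp T f s t x v *
          (lam * Q (kapQ Φ) (Pn s (x - (t - s) • v)) (Pn s (x - (t - s) • v)) v) :=
        meas_integrand (meas4_damp hf) (meas_fE_zero hf)
          (q := fun s y u => lam * Q (kapQ Φ) (Pn s y) (Pn s y) u)
          (meas_mul3 measurable_const (meas_Q _ hPm hPm)) t x v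
      rw [← lintegral_const_mul _ hm1]
      refine lintegral_mono fun s => ?_
      rw [Q_kapQ hS (meas_slice (meas4_damp hf) (meas_fE_zero hf) hPm s _)
        (meas_slice (meas4_damp hf) (meas_fE_zero hf) hPm s _)]
      calc w v * (damp T f s t x v * (lam * Qp Φ (Pn s (x - (t - s) • v))
            (Pn s (x - (t - s) • v)) v))
          ≤ w v * (1 * (lam * Qp Φ (Pn s (x - (t - s) • v)) (Pn s (x - (t - s) • v)) v)) :=
            mul_le_mul' le_rfl (mul_le_mul' (damp_le_one _ _ _ _) le_rfl)
        _ = _ := by ring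
  refine (phI_mono hpt).trans ?_
  have hf0m : Measurable (Function.uncurry fun x v : Space3 => w v * fE T f 0 x v) :=
    (hw.comp measurable_snd).mul (meas_fE_zero hf)
  have hf0m' : Measurable (Function.uncurry fun x v : Space3 =>
      w v * fE T f 0 (x - t • v) v) := by
    have hm : Measurable fun p : Space3 × Space3 => (p.1 - t • p.2, p.2) := by fun_prop
    exact hf0m.comp hm
  rw [phI_add hf0m', phI_transport (G := fun x v => w v * fE T f 0 x v) hf0m]
  refine add_le_add le_rfl ?_
  have ha : Measurable fun p : ℝ × Space3 × Space3 => lam * (w p.2.2 *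
      Qp Φ (Pn p.1 (p.2.1 - (t - p.1) • p.2.2)) (Pn p.1 (p.2.1 - (t - p.1) • p.2.2)) p.2.2) := by
    refine Measurable.const_mul (Measurable.mul (hw.comp (by fun_prop)) ?_) _
    have hm : Measurable fun p : ℝ × Space3 × Space3 =>
      (p.1, p.2.1 - (t - p.1) • p.2.2, p.2.2) := by fun_prop
    have h2 := Measurable.comp hQm hm
    exact h2
  rw [phI_time (a := fun s x v => lam * (w v * Qp Φ (Pn s (x - (t - s) • v))
    (Pn s (x - (t - s) • v)) v)) _ ha]
  refine lintegral_mono fun s => ?_
  have hG : Measurable (Function.uncurry fun x v : Space3 => w v * Qp Φ (Pn s x) (Pn s x) v) := by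
    refine (hw.comp measurable_snd).mul ?_
    exact meas3_uncurry hQm s
  have h3 : phI (fun x v => lam * (w v * Qp Φ (Pn s (x - (t - s) • v))
      (Pn s (x - (t - s) • v)) v)) =
      phI (fun x v => lam * (w v * Qp Φ (Pn s x) (Pn s x) v)) := by
    refine phI_transport (G := fun x v => lam * (w v * Qp Φ (Pn s x) (Pn s x) v)) ?_ (t - s)
    exact hG.const_mul lam
  show phI (fun x v => lam * (w v * Qp Φ (Pn s (x - (t - s) • v))
      (Pn s (x - (t - s) • v)) v)) ≤ _
  rw [h3, phI_const_mul hG]

end Crest.Agent.R122.Boltz814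

end
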