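import Crest.Agent.R122.TreeLim_974
import Crest.Agent.R122.BoltzL1b_814

/-!
# Row 122 (helper974): limit of integrals over tree parameters, no cut-off in position

Version of `TreeLim_974` for initial densities `k (x, v) ≤ m x * exp (-b ‖v‖²)` with integrable and
bounded `m`: the integral over ALL root positions converges.

* `KB k m C b` : the class of initial densities; `exists_kb` : the initial datum, with an
  exponential energy weight, is in this class.
* `gX`, `gX0` : the integrands.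
* `tree_limitX`, `tree_limitX'` : the limit theorem.
-/

set_option autoImplicit false

open MeasureTheory Set Filter
open scoped ENNReal Topology Classical
open Crest.AnalysisR.Kinetic Crest.Agent.R122.Kin796 Crest.Agent.R122.Disc416
  Crest.Agent.R122.Tree674 Crest.Agent.R122.TreeEps399 Crest.Agent.R122.TreeDom974
  Crest.Agent.R122.TreeLim974
open Crest.Agent.R122.Quench815 (absd absd_comm absd_self le_add_absd le_add_absd' absd_le_add
  absd_le_iff absd_triangle absd_mul_le measurable_absd absd_lintegral_le)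

noncomputable section

namespace Crest.Agent.R122.TreeLimX974

open CTree

variable {Φ : Space3 → ℝ}

/-! ### Initial densities -/

/-- `k (x, v) ≤ m x * exp (-b ‖v‖²)`, `m` bounded by `C` and integrable -/
structure KB (k : PhasePoint → ℝ≥0∞) (m : Space3 → ℝ≥0∞) (C b : ℝ) : Prop where
  C0 : 0 ≤ C
  b0 : 0 < b
  meas : Measurable m
  fin : ∫⁻ x, m x ≠ ∞
  le : ∀ x, m x ≤ ENNReal.ofReal C
  bd : ∀ z : PhasePoint, k z ≤ m z.1 * ENNReal.ofReal (Real.exp (-b * ‖z.2‖ ^ 2))

variable {k : PhasePoint → ℝ≥0∞} {m : Space3 → ℝ≥0∞} {C b : ℝ}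

theorem exp_le_one' {b : ℝ} (hb : 0 < b) (v : Space3) :
    ENNReal.ofReal (Real.exp (-b * ‖v‖ ^ 2)) ≤ 1 := by
  rw [← ENNReal.ofReal_one]
  refine ENNReal.ofReal_le_ofReal (Real.exp_le_one_iff.2 ?_)
  have : 0 ≤ b * ‖v‖ ^ 2 := by positivity
  linarith

theorem KB.gauss (h : KB k m C b) (z : PhasePoint) :
    k z ≤ ENNReal.ofReal (C * Real.exp (-b * ‖z.2‖ ^ 2)) := by
  rw [ENNReal.ofReal_mul h.C0]
  exact (h.bd z).trans (mul_le_mul' (h.le _) le_rfl)

theorem KB.const (h : KB k m C b) (z : PhasePoint) : k z ≤ ENNReal.ofReal C :=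
  (h.bd z).trans (by
    calc m z.1 * ENNReal.ofReal (Real.exp (-b * ‖z.2‖ ^ 2)) ≤ ENNReal.ofReal C * 1 :=
          mul_le_mul' (h.le _) (exp_le_one' h.b0 _)
      _ = _ := mul_one _)

theorem KB.m_le (h : KB k m C b) (z : PhasePoint) : k z ≤ m z.1 :=
  (h.bd z).trans (by
    calc m z.1 * ENNReal.ofReal (Real.exp (-b * ‖z.2‖ ^ 2)) ≤ m z.1 * 1 :=
          mul_le_mul' le_rfl (exp_le_one' h.b0 _)
      _ = _ := mul_one _)

/-- The initial datum with an energy weight. -/
def kE (f₀ : PhasePoint → ℝ) (κ : ℝ) (z : PhasePoint) : ℝ≥0∞ :=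
  ENNReal.ofReal (Real.exp (κ * ‖z.2‖ ^ 2)) * ENNReal.ofReal (f₀ z)

theorem continuous_kE {f₀ : PhasePoint → ℝ} (hf : Continuous f₀) (κ : ℝ) :
    Continuous (kE f₀ κ) := by
  have h : kE f₀ κ = fun z => ENNReal.ofReal (Real.exp (κ * ‖z.2‖ ^ 2) * f₀ z) := by
    funext z
    unfold kE
    rw [ENNReal.ofReal_mul (Real.exp_nonneg _)]
  rw [h]
  exact ENNReal.continuous_ofReal.comp (by fun_prop)

theorem exists_kb {f₀ : PhasePoint → ℝ} {γ κ : ℝ} (hκ : κ < γ)
    (H : HasSummableGaussianBound γ (fun x v => f₀ (x, v))) :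
    ∃ (m : Space3 → ℝ≥0∞) (C : ℝ), KB (kE f₀ κ) m C (γ - κ) := by
  obtain ⟨M, hM, hb⟩ := H
  have hM0 : ∀ k, 0 ≤ M k := by
    intro k
    refine le_trans ?_ (hb k (latticePoint k) 0 (by simp))
    positivity
  set c : ℝ≥0∞ := volume (Metric.closedBall (0 : Space3) 1) with hc
  have hct : c ≠ ∞ := (measure_closedBall_lt_top).ne
  set m0 : Space3 → ℝ≥0∞ := fun x => ∑' k : Fin 3 → ℤ,
    (Metric.closedBall (latticePoint k) 1).indicator (fun _ => ENNReal.ofReal (M k)) x with hm0
  have hm0m : Measurable m0 := Measurable.tsum fun k =>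
    measurable_const.indicator Metric.isClosed_closedBall.measurableSet
  have hm0i : ∫⁻ x, m0 x ≠ ∞ := by
    have h1 : ∫⁻ x, m0 x = ∑' k : Fin 3 → ℤ, ENNReal.ofReal (M k) * c := by
      rw [hm0, lintegral_tsum fun k => (measurable_const.indicator
          Metric.isClosed_closedBall.measurableSet).aemeasurable]
      refine tsum_congr fun k => ?_
      rw [lintegral_indicator Metric.isClosed_closedBall.measurableSet, lintegral_const,
          Measure.restrict_apply_univ, hc, Measure.addHaar_closedBall_center]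
    rw [h1, ENNReal.tsum_mul_right, ← ENNReal.ofReal_tsum_of_nonneg hM0 hM]
    exact ENNReal.mul_ne_top ENNReal.ofReal_ne_top hct
  -- uniform bound
  set C : ℝ := ∑' k, M k with hC
  have hMC : ∀ k, M k ≤ C := fun k => hM.le_tsum k fun j _ => hM0 j
  refine ⟨fun x => min (m0 x) (ENNReal.ofReal C), C, ⟨tsum_nonneg hM0, sub_pos.2 hκ,
    hm0m.min measurable_const, ne_top_of_le_ne_top hm0i (lintegral_mono fun x => min_le_left _ _),
    fun x => min_le_right _ _, ?_⟩⟩
  rintro ⟨x, v⟩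
  obtain ⟨k, hk⟩ := Boltz814.exists_lattice x
  have h1 := hb k x v hk
  have h2 : Real.exp (κ * ‖v‖ ^ 2) = Real.exp (-(γ - κ) * ‖v‖ ^ 2) * Real.exp (γ * ‖v‖ ^ 2) := by
    rw [← Real.exp_add]; congr 1; ring
  have h3 : kE f₀ κ (x, v) ≤ ENNReal.ofReal (M k) *
      ENNReal.ofReal (Real.exp (-(γ - κ) * ‖v‖ ^ 2)) := by
    unfold kE
    rw [← ENNReal.ofReal_mul (Real.exp_nonneg _), ← ENNReal.ofReal_mul (hM0 k)]
    refine ENNReal.ofReal_le_ofReal ?_
    show Real.exp (κ * ‖v‖ ^ 2) * f₀ (x, v) ≤ _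
    calc Real.exp (κ * ‖v‖ ^ 2) * f₀ (x, v) ≤ Real.exp (κ * ‖v‖ ^ 2) * ‖f₀ (x, v)‖ := by
          gcongr; exact le_abs_self _
      _ = Real.exp (-(γ - κ) * ‖v‖ ^ 2) * (Real.exp (γ * ‖v‖ ^ 2) * ‖f₀ (x, v)‖) := by
          rw [h2]; ring
      _ ≤ Real.exp (-(γ - κ) * ‖v‖ ^ 2) * M k := by gcongr
      _ = _ := mul_comm _ _
  refine h3.trans (mul_le_mul' ?_ le_rfl)
  refine le_min ?_ (ENNReal.ofReal_le_ofReal (hMC k))
  refine le_trans ?_ (ENNReal.le_tsum k)
  rw [indicator_of_mem (by simpa using hk)]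

/-! ### Translation of the root -/

theorem lines_root_pos (ε : ℝ) (P : CTree) (x v : Space3) (p : Par P) (i : Idx P) :
    (lines Φ ε P (x, v) p i).1 = x + (lines Φ ε P (0, v) p i).1 := by
  rw [Hid424.lines_shift ε P x v p i]
  exact add_comm _ _

/-- product of the initial densities of a tree: crude bound -/
theorem prod_le_m (h : KB k m C b) (ε : ℝ) (P : CTree) (x v : Space3) (p : Par P) :
    ∏ i, k (lines Φ ε P (x, v) p i) ≤
      m (x + (lines Φ ε P (0, v) p (root P)).1) * ENNReal.ofReal C ^ (Fintype.card (Idx P) - 1) := by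
  rw [← Finset.mul_prod_erase Finset.univ _ (Finset.mem_univ (root P))]
  refine mul_le_mul' ?_ ?_
  · rw [← lines_root_pos ε P x v p (root P)]
    exact h.m_le _
  · calc ∏ i ∈ Finset.univ.erase (root P), k (lines Φ ε P (x, v) p i)
        ≤ ∏ _i ∈ Finset.univ.erase (root P), ENNReal.ofReal C :=
          Finset.prod_le_prod' fun i _ => h.const _
      _ = _ := by
          rw [Finset.prod_const, Finset.card_erase_of_mem (Finset.mem_univ _), Finset.card_univ]

/-- product of the initial densities of a tree: bound with the energy -/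
theorem prod_le_mE (hΦ : AdmissiblePotential Φ) (h : KB k m C b) (ε : ℝ) {P : CTree}
    {v : Space3} {p : Par P} (hA : Adm Φ P v p) (x : Space3) :
    ∏ i, k (lines Φ ε P (x, v) p i) ≤
      m (x + (lines Φ ε P (0, v) p (root P)).1) *
        (ENNReal.ofReal C ^ (Fintype.card (Idx P) - 1) *
          ENNReal.ofReal (Real.exp (-b * (‖v‖ ^ 2 + nodeE P p)))) := by
  have e1 : ENNReal.ofReal (Real.exp (-b * (‖v‖ ^ 2 + nodeE P p))) =
      ∏ i, ENNReal.ofReal (Real.exp (-b * ‖vels Φ P v p i‖ ^ 2)) := by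
    rw [← sum_vels_sq hΦ hA, Finset.mul_sum, Real.exp_sum,
      ENNReal.ofReal_prod_of_nonneg fun i _ => Real.exp_nonneg _]
  rw [e1, ← Finset.mul_prod_erase Finset.univ (fun i => k (lines Φ ε P (x, v) p i))
    (Finset.mem_univ (root P)), ← Finset.mul_prod_erase Finset.univ
      (fun i => ENNReal.ofReal (Real.exp (-b * ‖vels Φ P v p i‖ ^ 2))) (Finset.mem_univ (root P))]
  have h1 : k (lines Φ ε P (x, v) p (root P)) ≤
      m (x + (lines Φ ε P (0, v) p (root P)).1) *
        ENNReal.ofReal (Real.exp (-b * ‖vels Φ P v p (root P)‖ ^ 2)) := by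
    rw [← lines_root_pos ε P x v p (root P), ← Hid424.lines_vel ε P (x, v) p (root P)]
    exact h.bd _
  have h2 : ∏ i ∈ Finset.univ.erase (root P), k (lines Φ ε P (x, v) p i) ≤
      ENNReal.ofReal C ^ (Fintype.card (Idx P) - 1) *
        ∏ i ∈ Finset.univ.erase (root P), ENNReal.ofReal (Real.exp (-b * ‖vels Φ P v p i‖ ^ 2)) := by
    calc ∏ i ∈ Finset.univ.erase (root P), k (lines Φ ε P (x, v) p i)
        ≤ ∏ i ∈ Finset.univ.erase (root P), (ENNReal.ofReal C *
            ENNReal.ofReal (Real.exp (-b * ‖vels Φ P v p i‖ ^ 2))) := by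
          refine Finset.prod_le_prod' fun i _ => ?_
          rw [← Hid424.lines_vel ε P (x, v) p i]
          exact (h.bd _).trans (mul_le_mul' (h.le _) le_rfl)
      _ = _ := by
          rw [Finset.prod_mul_distrib, Finset.prod_const,
            Finset.card_erase_of_mem (Finset.mem_univ _), Finset.card_univ]
  calc _ ≤ (m (x + (lines Φ ε P (0, v) p (root P)).1) *
        ENNReal.ofReal (Real.exp (-b * ‖vels Φ P v p (root P)‖ ^ 2))) *
        (ENNReal.ofReal C ^ (Fintype.card (Idx P) - 1) *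
          ∏ i ∈ Finset.univ.erase (root P),
            ENNReal.ofReal (Real.exp (-b * ‖vels Φ P v p i‖ ^ 2))) := mul_le_mul' h1 h2
    _ = _ := by ring

theorem lintegral_shift_m (y : Space3) :
    ∫⁻ x, m (x + y) = ∫⁻ x, m x := lintegral_add_right_eq_self (μ := (volume : Measure Space3)) m y

/-- tails of `m` -/
def tail (m : Space3 → ℝ≥0∞) (r : ℝ) : ℝ≥0∞ := ∫⁻ x in {x : Space3 | r < ‖x‖}, m x

theorem tail_anti (m : Space3 → ℝ≥0∞) {r r' : ℝ} (h : r ≤ r') : tail m r' ≤ tail m r :=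
  lintegral_mono_set fun _ hx => lt_of_le_of_lt h hx

theorem measurableSet_far (r : ℝ) : MeasurableSet {x : Space3 | r < ‖x‖} :=
  measurableSet_lt measurable_const measurable_norm

theorem tendsto_tail (hm : Measurable m) (hfin : ∫⁻ x, m x ≠ ∞) :
    Tendsto (fun n : ℕ => tail m n) atTop (𝓝 0) := by
  have h0 : (0 : ℝ≥0∞) = ∫⁻ _x : Space3, (0 : ℝ≥0∞) := by simp
  unfold tail
  rw [h0]
  have e : ∀ n : ℕ, ∫⁻ x in {x : Space3 | (n : ℝ) < ‖x‖}, m x =
      ∫⁻ x, {x : Space3 | (n : ℝ) < ‖x‖}.indicator m x := fun n =>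
    (lintegral_indicator (measurableSet_far _) _).symm
  simp only [e]
  refine tendsto_lintegral_of_dominated_convergence m
    (fun n => hm.indicator (measurableSet_far _))
    (fun n => Eventually.of_forall fun x => indicator_le_self _ _ _) hfin
    (Eventually.of_forall fun x => ?_)
  obtain ⟨n0, hn0⟩ := exists_nat_ge ‖x‖
  refine Tendsto.congr' ?_ tendsto_const_nhds
  filter_upwards [eventually_ge_atTop n0] with n hn
  rw [indicator_of_notMem]
  show ¬ ((n : ℝ) < ‖x‖)
  have : (n0 : ℝ) ≤ n := by exact_mod_cast hn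
  linarith

theorem tail_shift (r : ℝ) (y : Space3) :
    ∫⁻ x in {x : Space3 | r < ‖x‖}, m (x + y) ≤ tail m (r - ‖y‖) := by
  unfold tail
  rw [← lintegral_indicator (measurableSet_far _), ← lintegral_indicator (measurableSet_far _)]
  have h1 : ∫⁻ x, {x : Space3 | r - ‖y‖ < ‖x‖}.indicator m x =
      ∫⁻ x, {x : Space3 | r - ‖y‖ < ‖x‖}.indicator m (x + y) :=
    (lintegral_add_right_eq_self (μ := (volume : Measure Space3)) _ y).symm
  rw [h1]
  refine lintegral_mono fun x => ?_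
  by_cases hx : r < ‖x‖
  · rw [indicator_of_mem (show x ∈ {x : Space3 | r < ‖x‖} from hx), indicator_of_mem]
    show r - ‖y‖ < ‖x + y‖
    have := norm_sub_le (x + y) y
    rw [add_sub_cancel_right] at this
    linarith
  · rw [indicator_of_notMem (show x ∉ {x : Space3 | r < ‖x‖} from hx)]
    exact bot_le

theorem compl_closedBall (R : ℝ) :
    (Metric.closedBall (0 : Space3) R)ᶜ = {x : Space3 | R < ‖x‖} := by
  ext x
  simp

/-! ### Convergence of the product of initial densities in `L¹` of the root position -/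

theorem measurable_prod_shift (hk : Measurable k) (ε : ℝ) (P : CTree) (v : Space3) (p : Par P) :
    Measurable fun x : Space3 => ∏ i, k (lines Φ ε P (x, v) p i) := by
  refine Finset.measurable_prod _ fun i _ => hk.comp ?_
  have : (fun x : Space3 => lines Φ ε P (x, v) p i) = fun x =>
      ((lines Φ ε P (0, v) p i).1 + x, (lines Φ ε P (0, v) p i).2) := by
    funext x
    exact Hid424.lines_shift ε P x v p i
  rw [this]
  fun_prop

/-- the offset of the root line is bounded as `ε → 0` -/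
theorem eventually_offset {α : Type*} {F : Filter α} {e : α → ℝ} (he : Tendsto e F L)
    (P : CTree) (v : Space3) (p : Par P) :
    ∀ᶠ a in F, ‖(lines Φ (e a) P (0, v) p (root P)).1‖ ≤
      ‖(lines Φ 0 P (0, v) p (root P)).1‖ + 1 := by
  obtain ⟨h2, -⟩ := lines_close (Φ := Φ) P v p (fun _ => (0 : Space3)) 0 tendsto_const_nhds (root P)
  have h3 := (h2.norm).eventually (gt_mem_nhds (show ‖(lines Φ 0 P (0, v) p (root P)).1‖ <
    ‖(lines Φ 0 P (0, v) p (root P)).1‖ + 1 by linarith))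
  filter_upwards [he.eventually h3] with a ha
  exact ha.le

theorem lintegral_far_prod_le (h : KB k m C b) (ε : ℝ) (P : CTree) (v : Space3) (p : Par P) (R : ℝ) :
    ∫⁻ x in {x : Space3 | R < ‖x‖}, ∏ i, k (lines Φ ε P (x, v) p i) ≤
      ENNReal.ofReal C ^ (Fintype.card (Idx P) - 1) *
        tail m (R - ‖(lines Φ ε P (0, v) p (root P)).1‖) := by
  calc ∫⁻ x in {x : Space3 | R < ‖x‖}, ∏ i, k (lines Φ ε P (x, v) p i)
      ≤ ∫⁻ x in {x : Space3 | R < ‖x‖}, m (x + (lines Φ ε P (0, v) p (root P)).1) *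
          ENNReal.ofReal C ^ (Fintype.card (Idx P) - 1) :=
        lintegral_mono fun x => prod_le_m h ε P x v p
    _ = (∫⁻ x in {x : Space3 | R < ‖x‖}, m (x + (lines Φ ε P (0, v) p (root P)).1)) *
          ENNReal.ofReal C ^ (Fintype.card (Idx P) - 1) :=
        lintegral_mul_const _ (h.meas.comp (measurable_id.add_const _))
    _ ≤ tail m (R - ‖(lines Φ ε P (0, v) p (root P)).1‖) *
          ENNReal.ofReal C ^ (Fintype.card (Idx P) - 1) := by
        gcongr
        exact tail_shift _ _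
    _ = _ := mul_comm _ _

/-- an `ε/δ` criterion for convergence to `0` in `ℝ≥0∞` -/
theorem tendsto_zero_of_forall_le {α : Type*} {F : Filter α} {g : α → ℝ≥0∞}
    (h : ∀ η : ℝ≥0∞, 0 < η → ∀ᶠ a in F, g a ≤ η) : Tendsto g F (𝓝 0) := by
  rw [ENNReal.tendsto_nhds_zero]
  exact h

theorem tendsto_prodX {α : Type*} {F : Filter α} [F.IsCountablyGenerated] {e : α → ℝ}
    (he : Tendsto e F L) (hkc : Continuous k) (h : KB k m C b) (P : CTree) (v : Space3)
    (p : Par P) :
    Tendsto (fun a => ∫⁻ x, absd (∏ i, k (lines Φ (e a) P (x, v) p i))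
      (∏ i, k (lines Φ 0 P (x, v) p i))) F (𝓝 0) := by
  set y0 : ℝ := ‖(lines Φ 0 P (0, v) p (root P)).1‖ + 1 with hy0
  set c : ℝ≥0∞ := ENNReal.ofReal C ^ (Fintype.card (Idx P) - 1) with hc
  have hcfin : c ≠ ∞ := ENNReal.pow_ne_top ENNReal.ofReal_ne_top
  refine tendsto_zero_of_forall_le fun η hη => ?_
  -- choose the radius
  have hη3 : 0 < η / 2 := ENNReal.half_pos hη.ne'
  have htl : Tendsto (fun n : ℕ => 2 * (c * tail m n)) atTop (𝓝 0) := by
    have h1 := ENNReal.Tendsto.const_mul (a := c) (tendsto_tail h.meas h.fin) (Or.inr hcfin)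
    have h2 := ENNReal.Tendsto.const_mul (a := 2) h1 (Or.inr (by simp))
    simpa using h2
  obtain ⟨n, hn⟩ := ((ENNReal.tendsto_nhds_zero.1 htl) (η / 2) hη3).exists
  set R : ℝ := n + y0 with hR
  have hloc := tendsto_lintegral_absd_prod (Φ := Φ) he hkc (C := ENNReal.ofReal C)
      ENNReal.ofReal_ne_top h.const P v p (B := Metric.closedBall (0 : Space3) R)
      (isCompact_closedBall _ _).measure_lt_top.ne
  filter_upwards [(ENNReal.tendsto_nhds_zero.1 hloc) (η / 2) hη3, eventually_offset he P v p]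
    with a h1 h2
  have hm1 := measurable_prod_shift (Φ := Φ) hkc.measurable (e a) P v p
  have hm0 := measurable_prod_shift (Φ := Φ) hkc.measurable 0 P v p
  rw [← lintegral_add_compl _ (Metric.isClosed_closedBall.measurableSet :
    MeasurableSet (Metric.closedBall (0 : Space3) R)), compl_closedBall]
  have h3 : ∫⁻ x in {x : Space3 | R < ‖x‖}, absd (∏ i, k (lines Φ (e a) P (x, v) p i))
      (∏ i, k (lines Φ 0 P (x, v) p i)) ≤ η / 2 := by
    calc _ ≤ ∫⁻ x in {x : Space3 | R < ‖x‖}, ((∏ i, k (lines Φ (e a) P (x, v) p i)) +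
          ∏ i, k (lines Φ 0 P (x, v) p i)) := lintegral_mono fun x => absd_le_add _ _
      _ = (∫⁻ x in {x : Space3 | R < ‖x‖}, ∏ i, k (lines Φ (e a) P (x, v) p i)) +
          ∫⁻ x in {x : Space3 | R < ‖x‖}, ∏ i, k (lines Φ 0 P (x, v) p i) :=
          lintegral_add_left hm1 _
      _ ≤ c * tail m n + c * tail m n := by
          refine add_le_add ?_ ?_
          · refine (lintegral_far_prod_le h (e a) P v p R).trans ?_
            gcongr
            refine tail_anti m ?_
            rw [hR]; linarith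
          · refine (lintegral_far_prod_le h 0 P v p R).trans ?_
            gcongr
            refine tail_anti m ?_
            rw [hR, hy0]; linarith
      _ = 2 * (c * tail m n) := (two_mul _).symm
      _ ≤ η / 2 := hn
  calc _ ≤ η / 2 + η / 2 := add_le_add h1 h3
    _ = η := ENNReal.add_halves η

/-- convergence of the avoidance factor against the product of initial densities -/
theorem tendsto_UX {α : Type*} {F : Filter α} (hkm : Measurable k)
    (h : KB k m C b) (P : CTree) (v : Space3) (p : Par P) {U : α → Space3 → ℝ≥0∞}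
    {U0 : Space3 → ℝ≥0∞} (hU : ∀ a x, U a x ≤ 1) (hU0 : ∀ x, U0 x ≤ 1)
    (hconv : ∀ R' : ℝ, Tendsto (fun a => ∫⁻ x in Metric.closedBall (0 : Space3) R',
        absd (U a x) (U0 x)) F (𝓝 0)) :
    Tendsto (fun a => ∫⁻ x, (∏ i, k (lines Φ 0 P (x, v) p i)) * absd (U a x) (U0 x)) F
      (𝓝 0) := by
  set y0 : ℝ := ‖(lines Φ 0 P (0, v) p (root P)).1‖ with hy0
  set c : ℝ≥0∞ := ENNReal.ofReal C ^ (Fintype.card (Idx P) - 1) with hc
  set c' : ℝ≥0∞ := ENNReal.ofReal C ^ (Fintype.card (Idx P)) with hc'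
  have hcfin : c ≠ ∞ := ENNReal.pow_ne_top ENNReal.ofReal_ne_top
  have hcfin' : c' ≠ ∞ := ENNReal.pow_ne_top ENNReal.ofReal_ne_top
  refine tendsto_zero_of_forall_le fun η hη => ?_
  have hη3 : 0 < η / 2 := ENNReal.half_pos hη.ne'
  have htl : Tendsto (fun n : ℕ => 2 * (c * tail m n)) atTop (𝓝 0) := by
    have h1 := ENNReal.Tendsto.const_mul (a := c) (tendsto_tail h.meas h.fin) (Or.inr hcfin)
    have h2 := ENNReal.Tendsto.const_mul (a := 2) h1 (Or.inr (by simp))
    simpa using h2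
  obtain ⟨n, hn⟩ := ((ENNReal.tendsto_nhds_zero.1 htl) (η / 2) hη3).exists
  set R : ℝ := n + y0 with hR
  have hloc : Tendsto (fun a => c' * ∫⁻ x in Metric.closedBall (0 : Space3) R,
      absd (U a x) (U0 x)) F (𝓝 0) := by
    have := ENNReal.Tendsto.const_mul (a := c') (hconv R) (Or.inr hcfin')
    rwa [mul_zero] at this
  filter_upwards [(ENNReal.tendsto_nhds_zero.1 hloc) (η / 2) hη3] with a h1
  have hm0 := measurable_prod_shift (Φ := Φ) hkm 0 P v p
  rw [← lintegral_add_compl _ (Metric.isClosed_closedBall.measurableSet :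
    MeasurableSet (Metric.closedBall (0 : Space3) R)), compl_closedBall]
  have h2 : ∫⁻ x in Metric.closedBall (0 : Space3) R,
      (∏ i, k (lines Φ 0 P (x, v) p i)) * absd (U a x) (U0 x) ≤ η / 2 := by
    refine le_trans ?_ h1
    rw [← lintegral_const_mul' _ _ hcfin']
    refine lintegral_mono fun x => ?_
    gcongr
    exact prod_le_pow h.const 0 P _ _
  have h3 : ∫⁻ x in {x : Space3 | R < ‖x‖},
      (∏ i, k (lines Φ 0 P (x, v) p i)) * absd (U a x) (U0 x) ≤ η / 2 := by
    calc _ ≤ ∫⁻ x in {x : Space3 | R < ‖x‖}, (∏ i, k (lines Φ 0 P (x, v) p i)) * 2 := by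
          refine lintegral_mono fun x => ?_
          gcongr
          calc absd (U a x) (U0 x) ≤ U a x + U0 x := absd_le_add _ _
            _ ≤ 1 + 1 := add_le_add (hU a x) (hU0 x)
            _ = 2 := one_add_one_eq_two
      _ = (∫⁻ x in {x : Space3 | R < ‖x‖}, ∏ i, k (lines Φ 0 P (x, v) p i)) * 2 :=
          lintegral_mul_const _ hm0
      _ ≤ (c * tail m n) * 2 := by
          gcongr
          refine (lintegral_far_prod_le h 0 P v p R).trans ?_
          gcongr
          refine tail_anti m ?_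
          rw [hR, hy0]; linarith
      _ = 2 * (c * tail m n) := mul_comm _ _
      _ ≤ η / 2 := hn
  calc _ ≤ η / 2 + η / 2 := add_le_add h2 h3
    _ = η := ENNReal.add_halves η

/-! ### The limit theorem -/

/-- integrand at `ε`, no test function -/
def gX (Φ : Space3 → ℝ) (k : PhasePoint → ℝ≥0∞) (ε : ℝ) (P : CTree) (T : ℝ)
    (U : PhasePoint × Par P → ℝ≥0∞) : PhasePoint × Par P → ℝ≥0∞ :=
  (goodS Φ ε P T).indicator fun z => tA Φ k ε P z * U z

/-- integrand at `0`, no test function -/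
def gX0 (Φ : Space3 → ℝ) (k : PhasePoint → ℝ≥0∞) (P : CTree) (T : ℝ)
    (U : PhasePoint × Par P → ℝ≥0∞) : PhasePoint × Par P → ℝ≥0∞ :=
  (good0 Φ P T).indicator fun z => tA Φ k 0 P z * U z

theorem measurable_gX (hΦ : AdmissiblePotential Φ) (hk : Measurable k)
    (ε : ℝ) (P : CTree) (T : ℝ)
    {U : PhasePoint × Par P → ℝ≥0∞} (hU : Measurable ((goodS Φ ε P T).indicator U)) :
    Measurable (gX Φ k ε P T U) :=
  measurable_ind_tA hΦ hk ε P (fun _ hz => hz.1.1) hU

theorem measurable_gX0 (hΦ : AdmissiblePotential Φ) (hk : Measurable k)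
    (P : CTree) (T : ℝ)
    {U : PhasePoint × Par P → ℝ≥0∞} (hU : Measurable ((good0 Φ P T).indicator U)) :
    Measurable (gX0 Φ k P T U) :=
  measurable_ind_tA hΦ hk 0 P (fun _ hz => hz.1) hU

/-- the majorant, integrated over the root position -/
theorem lintegral_gX_le (hΦ : AdmissiblePotential Φ) (h : KB k m C b) (P : CTree) (T : ℝ) :
    ∃ C' : ℝ, 0 ≤ C' ∧ ∀ (ε : ℝ), 0 ≤ ε → ∀ (q : Space3 × Par P), Valid Φ ε P T q.1 q.2 →
      ∫⁻ x : Space3, tA Φ k ε P ((x, q.1), q.2) ≤
        domG C' (b / 2) T P q.1 q.2 * ∫⁻ x, m x := by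
  obtain ⟨C1, hC1, hdom⟩ := le_domG hΦ (C := 1) (b := b) (b' := b / 2) zero_le_one
    (half_lt_self h.b0) (k := fun z => ENNReal.ofReal (1 * Real.exp (-b * ‖z.2‖ ^ 2)))
    (fun z => le_rfl) P
  have hC0 := h.C0
  refine ⟨C ^ (Fintype.card (Idx P) - 1) * C1, by positivity, fun ε hε q hV => ?_⟩
  have e0 : ∏ i, ENNReal.ofReal (1 * Real.exp (-b * ‖(lines Φ ε P ((0 : Space3), q.1) q.2 i).2‖ ^ 2))
      = ENNReal.ofReal (Real.exp (-b * (‖q.1‖ ^ 2 + nodeE P q.2))) := by
    rw [← sum_vels_sq hΦ hV.1, Finset.mul_sum, Real.exp_sum,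
      ENNReal.ofReal_prod_of_nonneg fun i _ => Real.exp_nonneg _]
    refine Finset.prod_congr rfl fun i _ => ?_
    rw [one_mul, Hid424.lines_vel ε P ((0 : Space3), q.1) q.2 i]
  have h1 := hdom ε T T ((0 : Space3), q.1) q.2 hε le_rfl hV
  simp only at h1
  rw [e0] at h1
  have hpt : ∀ x : Space3, tA Φ k ε P ((x, q.1), q.2) ≤
      domG (C ^ (Fintype.card (Idx P) - 1) * C1) (b / 2) T P q.1 q.2 *
        m (x + (lines Φ ε P (0, q.1) q.2 (root P)).1) := by
    intro x
    have h2 := prod_le_mE hΦ h ε hV.1 x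
    have e2 : domG (C ^ (Fintype.card (Idx P) - 1) * C1) (b / 2) T P q.1 q.2 =
        ENNReal.ofReal C ^ (Fintype.card (Idx P) - 1) * domG C1 (b / 2) T P q.1 q.2 := by
      unfold domG
      rw [mul_assoc, ENNReal.ofReal_mul (by positivity), ENNReal.ofReal_pow hC0]
      ring
    unfold tA
    calc wt Φ P q.1 q.2 * ∏ i, k (lines Φ ε P (x, q.1) q.2 i)
        ≤ wt Φ P q.1 q.2 * (m (x + (lines Φ ε P (0, q.1) q.2 (root P)).1) *
          (ENNReal.ofReal C ^ (Fintype.card (Idx P) - 1) *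
            ENNReal.ofReal (Real.exp (-b * (‖q.1‖ ^ 2 + nodeE P q.2))))) := by gcongr
      _ = (ENNReal.ofReal C ^ (Fintype.card (Idx P) - 1) *
            (wt Φ P q.1 q.2 * ENNReal.ofReal (Real.exp (-b * (‖q.1‖ ^ 2 + nodeE P q.2))))) *
              m (x + (lines Φ ε P (0, q.1) q.2 (root P)).1) := by ring
      _ ≤ (ENNReal.ofReal C ^ (Fintype.card (Idx P) - 1) * domG C1 (b / 2) T P q.1 q.2) *
              m (x + (lines Φ ε P (0, q.1) q.2 (root P)).1) := by gcongr
      _ = _ := by rw [e2]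
  calc ∫⁻ x : Space3, tA Φ k ε P ((x, q.1), q.2)
      ≤ ∫⁻ x : Space3, domG (C ^ (Fintype.card (Idx P) - 1) * C1) (b / 2) T P q.1 q.2 *
        m (x + (lines Φ ε P (0, q.1) q.2 (root P)).1) := lintegral_mono hpt
    _ = domG (C ^ (Fintype.card (Idx P) - 1) * C1) (b / 2) T P q.1 q.2 *
        ∫⁻ x : Space3, m (x + (lines Φ ε P (0, q.1) q.2 (root P)).1) :=
        lintegral_const_mul _ (h.meas.comp (measurable_id.add_const _))
    _ = _ := by rw [lintegral_shift_m]

/-- **Limit of the integrals over tree parameters** (in `L¹`, all root positions). -/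
theorem tree_limitX (hΦ : AdmissiblePotential Φ) {α : Type*} {F : Filter α}
    [F.IsCountablyGenerated] {e : α → ℝ} (he : Tendsto e F L)
    (hkc : Continuous k) (hkb : KB k m C b) (P : CTree) (T : ℝ)
    {U : α → PhasePoint × Par P → ℝ≥0∞} {U0 : PhasePoint × Par P → ℝ≥0∞}
    (hU : ∀ a z, U a z ≤ 1) (hU0 : ∀ z, U0 z ≤ 1)
    (hUm : ∀ᶠ a in F, Measurable ((goodS Φ (e a) P T).indicator (U a)))
    (hU0m : Measurable ((good0 Φ P T).indicator U0))
    (hconv : ∀ᵐ q : Space3 × Par P, Valid Φ 0 P T q.1 q.2 → Gen Φ P (0, q.1) q.2 →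
      ∀ R' : ℝ, Tendsto (fun a => ∫⁻ x in Metric.closedBall (0 : Space3) R',
        absd (U a ((x, q.1), q.2)) (U0 ((x, q.1), q.2))) F (𝓝 0)) :
    Tendsto (fun a => ∫⁻ z, absd (gX Φ k (e a) P T (U a) z) (gX0 Φ k P T U0 z)) F (𝓝 0) := by
  obtain ⟨C', hC', hdom⟩ := lintegral_gX_le hΦ hkb P T
  have hkm := hkc.measurable
  have hpos : ∀ᶠ a in F, 0 < e a := he.eventually eventually_pos
  have hmeasE : ∀ᶠ a in F, Measurable (gX Φ k (e a) P T (U a)) := by
    filter_upwards [hUm] with a ha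
    exact measurable_gX hΦ hkm _ P T ha
  have hmeas0 : Measurable (gX0 Φ k P T U0) := measurable_gX0 hΦ hkm P T hU0m
  have hmeas : ∀ᶠ a in F, Measurable fun z =>
      absd (gX Φ k (e a) P T (U a) z) (gX0 Φ k P T U0 z) := by
    filter_upwards [hmeasE] with a ha
    exact measurable_absd ha hmeas0
  have hsplit : ∀ᶠ a in F, ∫⁻ q : Space3 × Par P, ∫⁻ x : Space3,
      absd (gX Φ k (e a) P T (U a) ((x, q.1), q.2)) (gX0 Φ k P T U0 ((x, q.1), q.2)) =
      ∫⁻ z, absd (gX Φ k (e a) P T (U a) z) (gX0 Φ k P T U0 z) := by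
    filter_upwards [hmeas] with a ha
    exact (lintegral_split P ha).symm
  refine Tendsto.congr' hsplit ?_
  have h0 : (0 : ℝ≥0∞) = ∫⁻ _q : Space3 × Par P, (0 : ℝ≥0∞) := by simp
  rw [h0]
  -- bound of one term
  have hone : ∀ ε : ℝ, 0 ≤ ε → ∀ q : Space3 × Par P, ∀ W : Space3 → ℝ≥0∞, (∀ x, W x ≤ 1) →
      ∀ S : Set Space3, (∀ x ∈ S, Valid Φ ε P T q.1 q.2) →
      ∫⁻ x : Space3, S.indicator (fun x => tA Φ k ε P ((x, q.1), q.2) * W x) x ≤
        domG C' (b / 2) T P q.1 q.2 * ∫⁻ x, m x := by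
    intro ε hε q W hW S hS
    by_cases hV : Valid Φ ε P T q.1 q.2
    · refine le_trans (lintegral_mono fun x => ?_) (hdom ε hε q hV)
      refine (indicator_le_self _ _ _).trans ?_
      calc tA Φ k ε P ((x, q.1), q.2) * W x ≤ tA Φ k ε P ((x, q.1), q.2) * 1 := by
            gcongr; exact hW x
        _ = _ := mul_one _
    · have hSe : S = ∅ := by
        ext x
        simp only [mem_empty_iff_false, iff_false]
        exact fun hx => hV (hS x hx)
      rw [hSe]
      simp
  refine tendsto_lintegral_filter_of_dominated_convergence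
    (fun q => 2 * (domG C' (b / 2) T P q.1 q.2 * ∫⁻ x, m x)) ?_ ?_ ?_ ?_
  · filter_upwards [hmeas] with a ha
    have : Measurable (Function.uncurry fun (q : Space3 × Par P) (x : Space3) =>
        absd (gX Φ k (e a) P T (U a) ((x, q.1), q.2)) (gX0 Φ k P T U0 ((x, q.1), q.2))) :=
      ha.comp (by fun_prop : Measurable fun y : (Space3 × Par P) × Space3 =>
        (((y.2, y.1.1), y.1.2) : PhasePoint × Par P))
    exact this.lintegral_prod_right'
  · filter_upwards [hpos, hmeasE] with a ha hma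
    refine Eventually.of_forall fun q => ?_
    have hm1 : Measurable fun x : Space3 => gX Φ k (e a) P T (U a) ((x, q.1), q.2) :=
      hma.comp (by fun_prop)
    calc ∫⁻ x : Space3, absd (gX Φ k (e a) P T (U a) ((x, q.1), q.2))
          (gX0 Φ k P T U0 ((x, q.1), q.2))
        ≤ ∫⁻ x : Space3, (gX Φ k (e a) P T (U a) ((x, q.1), q.2) +
          gX0 Φ k P T U0 ((x, q.1), q.2)) := lintegral_mono fun x => absd_le_add _ _
      _ = (∫⁻ x : Space3, gX Φ k (e a) P T (U a) ((x, q.1), q.2)) +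
          ∫⁻ x : Space3, gX0 Φ k P T U0 ((x, q.1), q.2) := lintegral_add_left hm1 _
      _ ≤ domG C' (b / 2) T P q.1 q.2 * (∫⁻ x, m x) +
          domG C' (b / 2) T P q.1 q.2 * ∫⁻ x, m x := by
          refine add_le_add ?_ ?_
          · exact hone (e a) ha.le q (fun x => U a ((x, q.1), q.2)) (fun x => hU a _)
              {x | ((x, q.1), q.2) ∈ goodS Φ (e a) P T} fun x hx => hx.1
          · exact hone 0 le_rfl q (fun x => U0 ((x, q.1), q.2)) (fun x => hU0 _)
              {x | ((x, q.1), q.2) ∈ good0 Φ P T} fun x hx => hx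
      _ = _ := (two_mul _).symm
  · have hmd := measurable_domG hC' (b / 2) T P
    have e1 : ∀ q : Space3 × Par P, 2 * (domG C' (b / 2) T P q.1 q.2 * ∫⁻ x, m x) =
        domG C' (b / 2) T P q.1 q.2 * (2 * ∫⁻ x, m x) := by
      intro q; ring
    simp only [e1]
    rw [lintegral_mul_const _ hmd]
    exact ENNReal.mul_ne_top (lintegral_domG_ne_top hC' (half_pos hkb.b0) T P)
      (ENNReal.mul_ne_top (by simp) hkb.fin)
  · -- pointwise limit
    have hgen := gen_ae_q hΦ P T
    filter_upwards [hconv, hgen] with q hq1 hq2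
    by_cases hV : Valid Φ 0 P T q.1 q.2
    swap
    · refine Tendsto.congr' ?_ tendsto_const_nhds
      filter_upwards [hpos] with a ha
      refine (lintegral_eq_zero_of_ae_eq_zero ?_).symm
      refine Eventually.of_forall fun x => ?_
      have h1 : gX Φ k (e a) P T (U a) ((x, q.1), q.2) = 0 :=
        indicator_of_notMem (fun h => hV (valid_zero ha.le h.1)) _
      have h2 : gX0 Φ k P T U0 ((x, q.1), q.2) = 0 :=
        indicator_of_notMem (show ((x, q.1), q.2) ∉ good0 Φ P T from hV) _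
      simp only [h1, h2, absd_self, Pi.zero_apply]
    have hG := hq2 hV
    have hc := hq1 hV hG
    set c : ℝ≥0∞ := wt Φ P q.1 q.2 with hcdef
    have hcfin : c ≠ ∞ := wt_ne_top P _ _
    have hlim1 := tendsto_prodX (Φ := Φ) he hkc hkb P q.1 q.2
    have hlim2 := tendsto_UX (Φ := Φ) (F := F) hkm hkb P q.1 q.2
      (U := fun a x => U a ((x, q.1), q.2)) (U0 := fun x => U0 ((x, q.1), q.2))
      (fun a x => hU a _) (fun x => hU0 _) hc
    have hlim : Tendsto (fun a => c * ((∫⁻ x, absd (∏ i, k (lines Φ (e a) P (x, q.1) q.2 i))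
        (∏ i, k (lines Φ 0 P (x, q.1) q.2 i))) + ∫⁻ x, (∏ i, k (lines Φ 0 P (x, q.1) q.2 i)) *
          absd (U a ((x, q.1), q.2)) (U0 ((x, q.1), q.2)))) F (𝓝 0) := by
      have h2 := hlim1.add hlim2
      rw [add_zero] at h2
      have h3 := ENNReal.Tendsto.const_mul (a := c) h2 (Or.inr hcfin)
      rwa [mul_zero] at h3
    refine tendsto_of_tendsto_of_tendsto_of_le_of_le' tendsto_const_nhds hlim
      (Eventually.of_forall fun a => bot_le) ?_
    have hgood := he.eventually (Hid424.eventually_good hΦ hV hG)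
    filter_upwards [hgood] with a ha
    obtain ⟨ha0, haV, haS⟩ := ha
    have hpt : ∀ x : Space3, absd (gX Φ k (e a) P T (U a) ((x, q.1), q.2))
        (gX0 Φ k P T U0 ((x, q.1), q.2)) ≤
        c * (absd (∏ i, k (lines Φ (e a) P (x, q.1) q.2 i))
          (∏ i, k (lines Φ 0 P (x, q.1) q.2 i)) + (∏ i, k (lines Φ 0 P (x, q.1) q.2 i)) *
            absd (U a ((x, q.1), q.2)) (U0 ((x, q.1), q.2))) := by
      intro x
      have e1 : gX Φ k (e a) P T (U a) ((x, q.1), q.2) = c *
          ((∏ i, k (lines Φ (e a) P (x, q.1) q.2 i)) * U a ((x, q.1), q.2)) := by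
        unfold gX
        rw [indicator_of_mem (show ((x, q.1), q.2) ∈ goodS Φ (e a) P T from ⟨haV, haS x⟩)]
        unfold tA
        ring
      have e2 : gX0 Φ k P T U0 ((x, q.1), q.2) = c *
          ((∏ i, k (lines Φ 0 P (x, q.1) q.2 i)) * U0 ((x, q.1), q.2)) := by
        unfold gX0
        rw [indicator_of_mem (show ((x, q.1), q.2) ∈ good0 Φ P T from hV)]
        unfold tA
        ring
      rw [e1, e2]
      refine (absd_mul_le _ _ _).trans ?_
      gcongr
      refine (absd_triangle _ ((∏ i, k (lines Φ 0 P (x, q.1) q.2 i)) * U a ((x, q.1), q.2))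
          _).trans (add_le_add ?_ ?_)
      · refine (absd_mul_left _ _ _).trans ?_
        calc _ ≤ absd (∏ i, k (lines Φ (e a) P (x, q.1) q.2 i))
              (∏ i, k (lines Φ 0 P (x, q.1) q.2 i)) * 1 := by gcongr; exact hU _ _
          _ = _ := mul_one _
      · exact absd_mul_le _ _ _
    calc ∫⁻ x : Space3, absd (gX Φ k (e a) P T (U a) ((x, q.1), q.2))
          (gX0 Φ k P T U0 ((x, q.1), q.2))
        ≤ ∫⁻ x : Space3, c * (absd (∏ i, k (lines Φ (e a) P (x, q.1) q.2 i))
          (∏ i, k (lines Φ 0 P (x, q.1) q.2 i)) + (∏ i, k (lines Φ 0 P (x, q.1) q.2 i)) *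
            absd (U a ((x, q.1), q.2)) (U0 ((x, q.1), q.2))) := lintegral_mono hpt
      _ = _ := by
          rw [lintegral_const_mul' _ _ hcfin, lintegral_add_left]
          exact measurable_absd (measurable_prod_shift hkm _ _ _ _)
            (measurable_prod_shift hkm _ _ _ _)

/-- the limit integral is finite -/
theorem lintegral_gX0_ne_top (hΦ : AdmissiblePotential Φ) (hkm : Measurable k)
    (hkb : KB k m C b) (P : CTree) (T : ℝ)
    {U0 : PhasePoint × Par P → ℝ≥0∞} (hU0 : ∀ z, U0 z ≤ 1)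
    (hU0m : Measurable ((good0 Φ P T).indicator U0)) :
    ∫⁻ z, gX0 Φ k P T U0 z ≠ ∞ := by
  obtain ⟨C', hC', hdom⟩ := lintegral_gX_le hΦ hkb P T
  rw [lintegral_split P (measurable_gX0 hΦ hkm P T hU0m)]
  have hle : ∀ q : Space3 × Par P, ∫⁻ x : Space3, gX0 Φ k P T U0 ((x, q.1), q.2) ≤
      domG C' (b / 2) T P q.1 q.2 * ∫⁻ x, m x := by
    intro q
    by_cases hV : Valid Φ 0 P T q.1 q.2
    · refine le_trans (lintegral_mono fun x => ?_) (hdom 0 le_rfl q hV)
      unfold gX0
      refine (indicator_le_self _ _ _).trans ?_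
      calc tA Φ k 0 P ((x, q.1), q.2) * U0 ((x, q.1), q.2)
          ≤ tA Φ k 0 P ((x, q.1), q.2) * 1 := by gcongr; exact hU0 _
        _ = _ := mul_one _
    · have : ∀ x : Space3, gX0 Φ k P T U0 ((x, q.1), q.2) = 0 := fun x =>
        indicator_of_notMem (show ((x, q.1), q.2) ∉ good0 Φ P T from hV) _
      simp only [this, lintegral_zero]
      exact bot_le
  refine ne_top_of_le_ne_top ?_ (lintegral_mono hle)
  rw [lintegral_mul_const _ (measurable_domG hC' (b / 2) T P)]
  exact ENNReal.mul_ne_top (lintegral_domG_ne_top hC' (half_pos hkb.b0) T P) hkb.fin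

/-- **Limit of the integrals over tree parameters, all root positions.** -/
theorem tree_limitX' (hΦ : AdmissiblePotential Φ) {α : Type*} {F : Filter α}
    [F.IsCountablyGenerated] {e : α → ℝ} (he : Tendsto e F L)
    (hkc : Continuous k) (hkb : KB k m C b) (P : CTree) (T : ℝ)
    {U : α → PhasePoint × Par P → ℝ≥0∞} {U0 : PhasePoint × Par P → ℝ≥0∞}
    (hU : ∀ a z, U a z ≤ 1) (hU0 : ∀ z, U0 z ≤ 1)
    (hUm : ∀ᶠ a in F, Measurable ((goodS Φ (e a) P T).indicator (U a)))
    (hU0m : Measurable ((good0 Φ P T).indicator U0))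
    (hconv : ∀ᵐ q : Space3 × Par P, Valid Φ 0 P T q.1 q.2 → Gen Φ P (0, q.1) q.2 →
      ∀ R' : ℝ, Tendsto (fun a => ∫⁻ x in Metric.closedBall (0 : Space3) R',
        absd (U a ((x, q.1), q.2)) (U0 ((x, q.1), q.2))) F (𝓝 0)) :
    Tendsto (fun a => ∫⁻ z, gX Φ k (e a) P T (U a) z) F (𝓝 (∫⁻ z, gX0 Φ k P T U0 z)) := by
  have h := tree_limitX hΦ he hkc hkb P T hU hU0 hUm hU0m hconv
  have hfin := lintegral_gX0_ne_top hΦ hkc.measurable hkb P T hU0 hU0m
  set I0 := ∫⁻ z, gX0 Φ k P T U0 z with hI0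
  have hbd : ∀ᶠ a in F, absd (∫⁻ z, gX Φ k (e a) P T (U a) z) I0 ≤
      ∫⁻ z, absd (gX Φ k (e a) P T (U a) z) (gX0 Φ k P T U0 z) := by
    filter_upwards [hUm] with a ha
    exact absd_lintegral_le volume (measurable_gX hΦ hkc.measurable _ P T ha)
      (measurable_gX0 hΦ hkc.measurable P T hU0m)
  rw [ENNReal.tendsto_nhds hfin]
  intro η hη
  have h2 := (ENNReal.tendsto_nhds ENNReal.zero_ne_top).1 h η hη
  filter_upwards [hbd, h2] with a h3 h4
  have h5 : absd (∫⁻ z, gX Φ k (e a) P T (U a) z) I0 ≤ η := by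
    refine h3.trans ?_
    simpa using h4.2
  rw [absd_le_iff] at h5
  exact ⟨tsub_le_iff_right.2 h5.2, h5.1⟩

end Crest.Agent.R122.TreeLimX974
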