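import Crest.Agent.R122.HTree_674
import Crest.Agent.R122.TreeLimX_974
import Crest.Agent.R122.Band2_974

/-!
Row 122, F7 (helper674): the error mass of `BandUp_674`.

* `winMass` : particles whose history is a tree on the horizon `T'` and whose top collision is not
  finished at `t`; `tendsto_winMass`.
* `ngMass` : particles with cluster size `≤ K` whose history is not a tree on the horizon `T'`.
* `rtMass` : particles whose history is a tree, whose protected tubes are hit by the rest alone.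
* `badMass_le`, `bandUp_of` : `BandUp` from `ngMass → 0` and `rtMass → 0`.
-/

set_option autoImplicit false
set_option synthInstance.maxSize 1024

open MeasureTheory Set Filter Topology
open Crest.AnalysisR.Kinetic
open scoped ENNReal Classical

noncomputable section

namespace Crest.Agent.R122.BandUp674

open Kin796 Kin796.CTree Disc416 Scat818 Flow671 Flux663 Tree674 Final973 Causal291 GC311
  Relabel674 Master566 GIV566 RealTree674 Band974 TreeLim974 TreeLimX974 InEq2 HTree674 TreeEps399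

variable {Φ : Space3 → ℝ} {ε t T' : ℝ} {f₀ : PhasePoint → ℝ}

/-! ### The window term -/

/-- `t` is in the window of the top collision -/
def uWin (Φ : Space3 → ℝ) (ε t : ℝ) (P : CTree) (z : PhasePoint × Par P) : ℝ≥0∞ :=
  if P ≠ leaf ∧ topInM Φ ε P z.1.2 z.2 ≤ t ∧ t ≤ topOut P z.2 then 1 else 0

theorem measurable_uWin (hΦ : AdmissiblePotential Φ) (ε t : ℝ) (P : CTree) :
    Measurable (uWin Φ ε t P) := by
  unfold uWin
  refine Measurable.ite ?_ measurable_const measurable_const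
  by_cases hP : P = leaf
  · simp only [hP, ne_eq, not_true_eq_false, false_and]
    exact MeasurableSet.const False
  · simp only [ne_eq, hP, not_false_eq_true, true_and]
    exact (measurableSet_le ((measurable_topInM hΦ P).comp
      (f := fun z : PhasePoint × Par P => (z.1.2, z.2)) (measurable_fst.snd.prodMk measurable_snd))
      measurable_const).inter
      (measurableSet_le measurable_const ((measurable_topOut P).comp measurable_snd))

theorem uWin_le_one (P : CTree) (z : PhasePoint × Par P) : uWin Φ ε t P z ≤ 1 := by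
  unfold uWin; split_ifs <;> simp

theorem ae_topOut_ne (P : CTree) (hP : P ≠ leaf) (t : ℝ) :
    ∀ᵐ q : Space3 × Par P, topOut P q.2 ≠ t := by
  cases P with
  | leaf => exact absurd rfl hP
  | node l r =>
    have e0 : ∀ᵐ s : ℝ, s ≠ t := compl_mem_ae_iff.2 (measure_singleton t)
    have e1 : ∀ᵐ a : NodeP, a.1 ≠ t :=
      (Measure.quasiMeasurePreserving_fst (μ := (volume : Measure ℝ))
        (ν := (volume : Measure (Space3 × Plane)))).ae e0
    have e2 : ∀ᵐ p : Par (node l r), p.1.1 ≠ t :=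
      (Measure.quasiMeasurePreserving_fst (μ := (volume : Measure NodeP))
        (ν := (volume : Measure (Par l × Par r)))).ae e1
    exact (Measure.quasiMeasurePreserving_snd (μ := (volume : Measure Space3))
      (ν := (volume : Measure (Par (node l r))))).ae e2

/-- **The window term is null.** -/
theorem tendsto_win (hΦ : AdmissiblePotential Φ) (hfc : Continuous f₀) {γ : ℝ} (hγ : 0 < γ)
    (H : HasSummableGaussianBound γ (fun x v => f₀ (x, v))) (P : CTree) (t T' : ℝ) :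
    Tendsto (fun ε => ∫⁻ z, gX Φ (kF f₀) ε P T' (uWin Φ ε t P) z) L (𝓝 0) := by
  obtain ⟨m, C, hkb⟩ := exists_kb (κ := 0) hγ H
  have ek : kE f₀ 0 = kF f₀ := by
    funext z
    unfold kE kF
    simp
  rw [ek] at hkb
  have h := tree_limitX' hΦ (F := L) tendsto_id
    (ENNReal.continuous_ofReal.comp hfc : Continuous (kF f₀)) hkb P T'
    (U := fun ε => uWin Φ ε t P) (U0 := fun _ => 0) (fun ε z => uWin_le_one P z)
    (fun _ => zero_le) ?_ ?_ ?_
  · have e0 : ∫⁻ z, gX0 Φ (kF f₀) P T' (fun _ => 0) z = 0 := by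
      have e1 : ∀ z, gX0 Φ (kF f₀) P T' (fun _ => 0) z = 0 := by
        intro z
        unfold gX0
        by_cases hz : z ∈ good0 Φ P T'
        · rw [indicator_of_mem hz, mul_zero]
        · rw [indicator_of_notMem hz]
      rw [lintegral_congr e1, lintegral_zero]
    rw [← e0]
    exact h
  · filter_upwards [eventually_pos] with ε hε
    exact (measurable_uWin hΦ ε t P).indicator (measurableSet_goodS hΦ hε P T')
  · exact measurable_const.indicator (measurableSet_good0 hΦ P T')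
  · by_cases hP : P = leaf
    · refine Eventually.of_forall fun q _ _ R' => ?_
      have : ∀ (ε : ℝ) (x : Space3), Quench815.absd (uWin Φ ε t P ((x, q.1), q.2)) 0 = 0 := by
        intro ε x
        unfold uWin
        rw [if_neg fun h => h.1 hP, Quench815.absd_self]
      simp only [this, lintegral_zero]
      exact tendsto_const_nhds
    · filter_upwards [ae_topOut_ne P hP t] with q hq hV _ R'
      have hev : ∀ᶠ ε in L, ∀ x : Space3, uWin Φ ε t P ((x, q.1), q.2) = 0 := by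
        rcases lt_or_gt_of_ne hq with h1 | h1
        · refine Eventually.of_forall fun ε x => ?_
          unfold uWin
          rw [if_neg fun h => absurd h.2.2 (not_le.2 h1)]
        · have hlim : Tendsto (fun ε : ℝ => topInM Φ ε P q.1 q.2) L (𝓝 (topOut P q.2)) := by
            have e1 : ∀ ε, topInM Φ ε P q.1 q.2 = topIn Φ ε P q.1 q.2 := fun ε =>
              topInM_of_adm hV.1
            simp only [e1]
            cases P with
            | leaf => exact absurd rfl hP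
            | node l r =>
              have : Tendsto (fun ε : ℝ => q.2.1.1 - ε * Tree674.tau Φ (nb q.1 q.2.1) (ng q.1 q.2.1))
                  L (𝓝 (q.2.1.1 - 0 * Tree674.tau Φ (nb q.1 q.2.1) (ng q.1 q.2.1))) :=
                Tendsto.sub tendsto_const_nhds
                  ((tendsto_id.mono_left nhdsWithin_le_nhds).mul_const _)
              rw [zero_mul, sub_zero] at this
              exact this
          filter_upwards [hlim.eventually (lt_mem_nhds h1)] with ε hε x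
          unfold uWin
          rw [if_neg fun h => absurd h.2.1 (not_le.2 hε)]
      refine Tendsto.congr' (f₁ := fun _ => (0 : ℝ≥0∞)) ?_ tendsto_const_nhds
      filter_upwards [hev] with ε hε
      simp only [hε, Quench815.absd_self, lintegral_zero]

/-! ### Masses of events -/

/-- mass of the particles with cluster size in `S` and an event `E` -/
def evMass (Φ : Space3 → ℝ) (f₀ : PhasePoint → ℝ) (ε t : ℝ) (S : Set ℕ)
    (E : (n : ℕ) → Config n → Fin n → Prop) (φ : PhasePoint → ℝ≥0∞) : ℝ≥0∞ :=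
  (activity ε)⁻¹ * gcE f₀ ε fun n Z => ∑ i, if (bc Φ ε Z t i).ncard ∈ S ∧ E n Z i then
    φ (pth Φ ε Z t i) else 0

theorem badMass_eq (S : Set ℕ) (φ : PhasePoint → ℝ≥0∞) : badMass Φ f₀ ε t S φ =
    evMass Φ f₀ ε t S (fun _ Z i => ¬ Clean Φ ε t Z i) φ := by
  unfold badMass evMass
  refine congrArg _ (gcE_congr f₀ ε fun n Z _ => Finset.sum_congr rfl fun i _ => ?_)
  by_cases h : (bc Φ ε Z t i).ncard ∈ S ∧ ¬ Clean Φ ε t Z i
  · rw [if_pos h, if_pos h]
  · rw [if_neg h, if_neg h]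

theorem evMass_mono {S S' : Set ℕ} {E E' : (n : ℕ) → Config n → Fin n → Prop}
    {φ φ' : PhasePoint → ℝ≥0∞} (hS : S ⊆ S') (hφ : ∀ z, φ z ≤ φ' z)
    (hE : ∀ n, ∀ Z ∈ PairExcluded ε n, ∀ i, E n Z i → E' n Z i) :
    evMass Φ f₀ ε t S E φ ≤ evMass Φ f₀ ε t S' E' φ' := by
  refine mul_le_mul_right (gcE_mono f₀ ε fun n Z hZ => Finset.sum_le_sum fun i _ => ?_) _
  by_cases h : (bc Φ ε Z t i).ncard ∈ S ∧ E n Z i
  · rw [if_pos h, if_pos ⟨hS h.1, hE n Z hZ i h.2⟩]; exact hφ _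
  · rw [if_neg h]; exact zero_le

/-- measurable events -/
def MeasEv (ε : ℝ) (E : (n : ℕ) → Config n → Fin n → Prop) : Prop :=
  ∀ n i, MeasurableSet {Z : Config n | Z ∈ PairExcluded ε n ∧ E n Z i}

theorem measurableSet_ncard (hΦ : AdmissiblePotential Φ) (hε : 0 < ε) (S : Set ℕ) {n : ℕ}
    (i : Fin n) : MeasurableSet {Z : Config n | (bc Φ ε Z t i).ncard ∈ S} := by
  have h : {Z : Config n | (bc Φ ε Z t i).ncard ∈ S} = ⋃ B : Finset (Fin n), ⋃ _ : B.card ∈ S,
      {Z : Config n | (bc Φ ε Z t i).toFinset = B} := by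
    ext Z
    simp only [mem_ofPred_eq, mem_iUnion, exists_prop]
    constructor
    · intro h
      exact ⟨_, by rwa [ncard_bc] at h, rfl⟩
    · rintro ⟨B, hB, h⟩
      rw [ncard_bc, h]; exact hB
  rw [h]
  exact MeasurableSet.iUnion fun B => MeasurableSet.iUnion fun _ =>
    measurableSet_bc_eq hΦ hε i B

theorem measurable_evTerm (hΦ : AdmissiblePotential Φ) (hε : 0 < ε) (S : Set ℕ)
    {E : (n : ℕ) → Config n → Fin n → Prop} (hE : ∀ n i, MeasurableSet {Z : Config n | E n Z i})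
    {φ : PhasePoint → ℝ≥0∞} (hφ : Measurable φ) (n : ℕ) : Measurable fun Z : Config n => ∑ i,
      if (bc Φ ε Z t i).ncard ∈ S ∧ E n Z i then φ (pth Φ ε Z t i) else 0 := by
  refine Finset.measurable_sum _ fun i _ => Measurable.ite ?_
    (hφ.comp (measurable_pth' hΦ hε i)) measurable_const
  exact (measurableSet_ncard hΦ hε S i).inter (hE n i)

theorem evMass_excl (S : Set ℕ) (E : (n : ℕ) → Config n → Fin n → Prop)
    (φ : PhasePoint → ℝ≥0∞) : evMass Φ f₀ ε t S E φ =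
      evMass Φ f₀ ε t S (fun n Z i => Z ∈ PairExcluded ε n ∧ E n Z i) φ :=
  le_antisymm (evMass_mono Subset.rfl (fun _ => le_rfl) fun _ _ hZ _ h => ⟨hZ, h⟩)
    (evMass_mono Subset.rfl (fun _ => le_rfl) fun _ _ _ _ h => h.2)

theorem evMass_add_le0 (hf : Measurable f₀) (hΦ : AdmissiblePotential Φ) (hε : 0 < ε) (S : Set ℕ)
    {E E₁ E₂ : (n : ℕ) → Config n → Fin n → Prop}
    (hE₁ : ∀ n i, MeasurableSet {Z : Config n | E₁ n Z i})
    {φ : PhasePoint → ℝ≥0∞} (hφ : Measurable φ)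
    (h : ∀ n, ∀ Z ∈ PairExcluded ε n, ∀ i, E n Z i → E₁ n Z i ∨ E₂ n Z i) :
    evMass Φ f₀ ε t S E φ ≤ evMass Φ f₀ ε t S E₁ φ + evMass Φ f₀ ε t S E₂ φ := by
  unfold evMass
  rw [← mul_add, ← gcE_add hf ε fun n => measurable_evTerm (t := t) hΦ hε S hE₁ hφ n]
  refine mul_le_mul_right (gcE_mono f₀ ε fun n Z hZ => ?_) _
  rw [← Finset.sum_add_distrib]
  refine Finset.sum_le_sum fun i _ => ?_
  by_cases hb : (bc Φ ε Z t i).ncard ∈ S ∧ E n Z i
  · rw [if_pos hb]
    rcases h n Z hZ i hb.2 with h1 | h1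
    · rw [if_pos (c := (bc Φ ε Z t i).ncard ∈ S ∧ E₁ n Z i) ⟨hb.1, h1⟩]; exact le_self_add
    · rw [if_pos (c := (bc Φ ε Z t i).ncard ∈ S ∧ E₂ n Z i) ⟨hb.1, h1⟩]; exact le_add_self
  · rw [if_neg hb]; exact zero_le

/-- Union bound. -/
theorem evMass_add_le (hf : Measurable f₀) (hΦ : AdmissiblePotential Φ) (hε : 0 < ε) (S : Set ℕ)
    {E E₁ E₂ : (n : ℕ) → Config n → Fin n → Prop} (hE₁ : MeasEv ε E₁)
    {φ : PhasePoint → ℝ≥0∞} (hφ : Measurable φ)
    (h : ∀ n, ∀ Z ∈ PairExcluded ε n, ∀ i, E n Z i → E₁ n Z i ∨ E₂ n Z i) :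
    evMass Φ f₀ ε t S E φ ≤ evMass Φ f₀ ε t S E₁ φ + evMass Φ f₀ ε t S E₂ φ := by
  rw [evMass_excl S E₁ φ]
  refine evMass_add_le0 hf hΦ hε S hE₁ hφ fun n Z hZ i hb => ?_
  rcases h n Z hZ i hb with h1 | h1
  · exact Or.inl ⟨hZ, h1⟩
  · exact Or.inr h1

/-- Bounded test functions. -/
theorem evMass_const {M : ℝ≥0∞} (hM : M ≠ ∞) (S : Set ℕ)
    (E : (n : ℕ) → Config n → Fin n → Prop) : evMass Φ f₀ ε t S E (fun _ => M) =
      M * evMass Φ f₀ ε t S E (fun _ => 1) := by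
  unfold evMass
  have h : ∀ (n : ℕ) (Z : Config n), (∑ i, if (bc Φ ε Z t i).ncard ∈ S ∧ E n Z i then M else 0) =
      M * ∑ i, if (bc Φ ε Z t i).ncard ∈ S ∧ E n Z i then (1 : ℝ≥0∞) else 0 := by
    intro n Z
    rw [Finset.mul_sum]
    refine Finset.sum_congr rfl fun i _ => ?_
    rw [mul_ite, mul_one, mul_zero]
  simp only [h]
  rw [gcE_const_mul f₀ ε hM]
  ring

/-! ### Events given by the history on a fixed horizon -/

/-- The labelling of the block. -/
theorem label_append {k m : ℕ} {j : Fin k} {P : CTree} {e₀ : Idx P → Fin (k + m)}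
    (hinj : Function.Injective e₀) (hroot : e₀ (Tree674.root P) = Fin.castAdd m j)
    (hr : ∀ a, a ∈ range e₀ ↔ a ∈ block k m) :
    ∃ e : Idx P ≃ Fin k, e (Tree674.root P) = j ∧ (fun x => Fin.castAdd m (e x)) = e₀ := by
  have h1 : ∀ x, ∃ j : Fin k, Fin.castAdd m j = e₀ x := fun x =>
    mem_block.1 ((hr _).1 (mem_range_self x))
  choose e1 he1 using h1
  have hinj' : Function.Injective e1 := by
    intro x y hxy
    apply hinj
    rw [← he1 x, ← he1 y, hxy]
  have hsurj : Function.Surjective e1 := by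
    intro j'
    obtain ⟨x, hx⟩ := (hr (Fin.castAdd m j')).2 (castAdd_mem_block j')
    refine ⟨x, Fin.castAdd_injective k m ?_⟩
    rw [he1 x, hx]
  refine ⟨Equiv.ofBijective e1 ⟨hinj', hsurj⟩, ?_, funext he1⟩
  apply Fin.castAdd_injective k m
  show Fin.castAdd m (e1 (Tree674.root P)) = _
  rw [he1, hroot]

/-- the history of `(i, t)` is a tree on the horizon `T'` with parameters in `A` -/
def HEv (Φ : Space3 → ℝ) (ε T' t : ℝ) (A : (P : CTree) → Set (PhasePoint × Par P)) (n : ℕ)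
    (Z : Config n) (i : Fin n) : Prop :=
  ∃ (P : CTree) (ℓ : PhasePoint) (p : Par P) (e : Idx P → Fin n),
    HTreeC Φ ε T' t Z i P ℓ p e ∧ (ℓ, p) ∈ A P

theorem measurableSet_hEv (hΦ : AdmissiblePotential Φ) (hε : 0 < ε) (ht : 0 ≤ t) (htT : t ≤ T')
    {A : (P : CTree) → Set (PhasePoint × Par P)} (hA : ∀ P, MeasurableSet (A P)) {n : ℕ}
    (i : Fin n) : MeasurableSet {Z : Config n | Z ∈ Dom Φ (Fin n) ∧ HEv Φ ε T' t A n Z i} := by
  have h : {Z : Config n | Z ∈ Dom Φ (Fin n) ∧ HEv Φ ε T' t A n Z i} =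
      ⋃ P : CTree, ⋃ e : Idx P → Fin n, (fun Z : Config n => (t, Z)) ⁻¹'
      {q : ℝ × (Fin n → PhasePoint) | (0 ≤ q.1 ∧ q.1 ≤ T' ∧ q.2 ∈ Dom Φ (Fin n)) ∧
      ∃ (ℓ : PhasePoint) (p : Par P), HTreeC Φ ε T' q.1 q.2 i P ℓ p e ∧
        (q.1, ((ℓ, p), q.2)) ∈ {r : ℝ × ((PhasePoint × Par P) × (Fin n → PhasePoint)) |
          r.2.1 ∈ A P}} := by
    ext Z
    simp only [mem_ofPred_eq, mem_iUnion, mem_preimage]
    constructor
    · rintro ⟨h0, P, ℓ, p, e, h, h1⟩
      exact ⟨P, e, ⟨ht, htT, h0⟩, ℓ, p, h, h1⟩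
    · rintro ⟨P, e, ⟨_, _, h0⟩, ℓ, p, h, h1⟩
      exact ⟨h0, P, ℓ, p, e, h, h1⟩
  rw [h]
  exact MeasurableSet.iUnion fun P => MeasurableSet.iUnion fun e =>
    measurable_prodMk_left (measurableSet_hTreeC hΦ hε i P e T' (measurable_snd.fst (hA P)))

theorem hEv_equiv (hΦ : AdmissiblePotential Φ) (hε : 0 < ε)
    {A : (P : CTree) → Set (PhasePoint × Par P)} {n : ℕ} (σ : Equiv.Perm (Fin n)) (Z : Config n)
    (i : Fin n) : HEv Φ ε T' t A n (fun j => Z (σ j)) i ↔ HEv Φ ε T' t A n Z (σ i) := by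
  constructor
  · rintro ⟨P, ℓ, p, e, h, h1⟩
    exact ⟨P, ℓ, p, _, (hTreeC_equiv hΦ hε σ Z i e).1 h, h1⟩
  · rintro ⟨P, ℓ, p, e, h, h1⟩
    have he : (fun k => σ ((fun k => σ.symm (e k)) k)) = e := by
      funext k; exact σ.apply_symm_apply _
    refine ⟨P, ℓ, p, fun k => σ.symm (e k), (hTreeC_equiv hΦ hε σ Z i _).2 ?_, h1⟩
    rw [he]; exact h

/-- **Mass of an event given by the history, in tree coordinates.** -/
theorem evMass_hEv_le (hf : Measurable f₀) (hΦ : AdmissiblePotential Φ) (hε : 0 < ε) (ht : 0 ≤ t)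
    (htT : t ≤ T') (S : Set ℕ) (h1 : ∫⁻ z, ENNReal.ofReal (f₀ z) ≤ 1)
    {A : (P : CTree) → Set (PhasePoint × Par P)} (hA : ∀ P, MeasurableSet (A P)) :
    evMass Φ f₀ ε t S (HEv Φ ε T' t A) (fun _ => 1) ≤
      ∑' P : CTree, if P.leaves ∈ S then
        ∫⁻ z, gX Φ (kF f₀) ε P T' ((A P).indicator fun _ => 1) z else 0 := by
  have hM1 := bc_mecke hf hΦ hε ht
    (F := fun n i B Z => if (Z ∈ Dom Φ (Fin n) ∧ HEv Φ ε T' t A n Z i) ∧ B.card ∈ S then
      (1 : ℝ≥0∞) else 0)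
    (fun n σ i B Z hZ => by
      have h1 : Z ∈ Dom Φ (Fin n) := pairExcluded_subset_Dom hε n hZ
      have h2 : (fun i => Z (σ i)) ∈ Dom Φ (Fin n) :=
        pairExcluded_subset_Dom hε n ((pairExcluded_comp_iff σ Z).2 hZ)
      simp only [Finset.card_map, h1, h2, true_and, hEv_equiv hΦ hε σ Z i])
    (fun n i B => by
      refine Measurable.ite ?_ measurable_const measurable_const
      by_cases hB : B.card ∈ S
      · simp only [hB, and_true]; exact measurableSet_hEv hΦ hε ht htT hA i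
      · simp only [hB, and_false]; exact MeasurableSet.const False)
  have hT := ToTree335.to_tree (f₀ := f₀) hΦ hf hε (Measure.dirac ()) (T := T')
    (H := fun P z _ _ _ => if P.leaves ∈ S then
      (goodS Φ ε P T' ∩ A P).indicator (fun _ => (1 : ℝ≥0∞)) z else 0)
    (fun P m => by
      by_cases hS : P.leaves ∈ S
      · simp only [if_pos hS]
        exact (measurable_const.indicator ((measurableSet_goodS hΦ hε P T').inter (hA P))).comp
          measurable_fst
      · simp only [if_neg hS]; exact measurable_const)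
    (F := fun k m V w j _ =>
      if (bc Φ ε (Fin.append V w) t (Fin.castAdd m j)).toFinset = block k m then
        (if ((Fin.append V w : Config (k + m)) ∈ Dom Φ (Fin (k + m)) ∧
          HEv Φ ε T' t A (k + m) (Fin.append V w) (Fin.castAdd m j)) ∧
          (block k m).card ∈ S then (1 : ℝ≥0∞) else 0) else 0)
    (B := fun _ _ _ _ _ _ => 0) (fun _ _ _ => measurable_const)
    (fun k m V w j _ hV hw hp => by
      by_cases hb : (bc Φ ε (Fin.append V w) t (Fin.castAdd m j)).toFinset = block k m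
      swap
      · simp only [if_neg hb]; exact zero_le
      simp only [if_pos hb]
      by_cases hc : ((Fin.append V w : Config (k + m)) ∈ Dom Φ (Fin (k + m)) ∧
          HEv Φ ε T' t A (k + m) (Fin.append V w) (Fin.castAdd m j)) ∧ (block k m).card ∈ S
      swap
      · rw [if_neg hc]; exact zero_le
      rw [if_pos hc]
      obtain ⟨⟨hD, P, ℓ, p, e₀, h, hAp⟩, hB⟩ := hc
      have hr : ∀ a, a ∈ range e₀ ↔ a ∈ block k m := by
        intro a
        rw [h.range_eq hε (ht.trans htT) ht, ← hb, Set.mem_toFinset]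
        rfl
      obtain ⟨e, he, he₀⟩ := label_append h.inj h.root hr
      subst he₀
      have hk : P.leaves = k := by
        have := Fintype.card_congr e
        rwa [card_idx, Fintype.card_fin] at this
      have hkS : P.leaves ∈ S := by rw [hk]; rwa [card_block] at hB
      rw [add_zero]
      refine le_trans ?_ (TreeBound335.le_ways hΦ hε
        (G := fun P z => if P.leaves ∈ S then
          (goodS Φ ε P T' ∩ A P).indicator (fun _ => (1 : ℝ≥0∞)) z else 0) he h.valid fun x => ?_)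
      · show _ ≤ (if P.leaves ∈ S then
          (goodS Φ ε P T' ∩ A P).indicator (fun _ => (1 : ℝ≥0∞)) (ℓ, p) else 0)
        rw [if_pos hkS, indicator_of_mem (show (ℓ, p) ∈ goodS Φ ε P T' ∩ A P from
          ⟨⟨h.valid, h.sep⟩, hAp⟩)]
      · have h1 := h.lines_eq hΦ hε (ht.trans htT) ht x
        rw [Fin.append_left] at h1
        exact h1)
  simp only [lintegral_dirac, Finset.sum_const_zero, mul_zero, gcE_zero, lintegral_zero,
    tsum_zero, add_zero] at hT
  have e1 : gcE f₀ ε (fun n Z => ∑ i, if (bc Φ ε Z t i).ncard ∈ S ∧ HEv Φ ε T' t A n Z i then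
      (1 : ℝ≥0∞) else 0) = gcE f₀ ε (fun n Z => ∑ i : Fin n,
        if (Z ∈ Dom Φ (Fin n) ∧ HEv Φ ε T' t A n Z i) ∧ (bc Φ ε Z t i).toFinset.card ∈ S then
          (1 : ℝ≥0∞) else 0) := by
    refine gcE_congr f₀ ε fun n Z hZ => Finset.sum_congr rfl fun i _ => ?_
    have h1 : Z ∈ Dom Φ (Fin n) := pairExcluded_subset_Dom hε n hZ
    rw [ncard_bc]
    simp only [h1, true_and, and_comm]
  have ha := FM167.activity_ne_zero hε
  have ha' := FM167.activity_ne_top ε
  unfold evMass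
  rw [e1, hM1]
  refine (mul_le_mul_right hT _).trans ?_
  rw [← mul_assoc, ENNReal.inv_mul_cancel ha ha', one_mul]
  refine ENNReal.tsum_le_tsum fun P => ?_
  by_cases hS : P.leaves ∈ S
  · simp only [if_pos hS]
    refine lintegral_mono fun z => ?_
    by_cases hz : z ∈ {z : PhasePoint × Par P | Valid Φ ε P T' z.1.2 z.2}
    · rw [indicator_of_mem hz]
      by_cases hz' : z ∈ goodS Φ ε P T' ∩ A P
      · unfold gX tA
        simp only [indicator_of_mem hz', indicator_of_mem hz'.1, indicator_of_mem hz'.2]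
        rw [gcE_const f₀ ε hf h1 ENNReal.one_ne_top, mul_one, mul_one]
        exact le_rfl
      · simp only [indicator_of_notMem hz']
        rw [gcE_zero, mul_zero, mul_zero]
        exact zero_le
    · rw [indicator_of_notMem hz]; exact zero_le
  · simp only [if_neg hS]
    rw [nonpos_iff_eq_zero]
    refine (lintegral_congr fun z => ?_).trans lintegral_zero
    by_cases hz : z ∈ {z : PhasePoint × Par P | Valid Φ ε P T' z.1.2 z.2}
    · rw [indicator_of_mem hz, gcE_zero, mul_zero, mul_zero]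
    · rw [indicator_of_notMem hz]

/-! ### The error mass -/

theorem measEv_hEv (hΦ : AdmissiblePotential Φ) (hε : 0 < ε) (ht : 0 ≤ t) (htT : t ≤ T')
    {A : (P : CTree) → Set (PhasePoint × Par P)} (hA : ∀ P, MeasurableSet (A P)) :
    MeasEv ε (HEv Φ ε T' t A) := by
  intro n i
  have h : {Z : Config n | Z ∈ PairExcluded ε n ∧ HEv Φ ε T' t A n Z i} =
      PairExcluded ε n ∩ {Z : Config n | Z ∈ Dom Φ (Fin n) ∧ HEv Φ ε T' t A n Z i} := by
    ext Z
    exact ⟨fun h => ⟨h.1, pairExcluded_subset_Dom hε n h.1, h.2⟩, fun h => ⟨h.1, h.2.2⟩⟩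
  rw [h]
  exact (measurableSet_pairExcluded ε n).inter (measurableSet_hEv hΦ hε ht htT hA i)

theorem MeasEv.not {E : (n : ℕ) → Config n → Fin n → Prop} (h : MeasEv ε E) :
    MeasEv ε fun n Z i => ¬ E n Z i := by
  intro n i
  have e : {Z : Config n | Z ∈ PairExcluded ε n ∧ ¬ E n Z i} =
      PairExcluded ε n \ {Z : Config n | Z ∈ PairExcluded ε n ∧ E n Z i} := by
    ext Z
    simp only [mem_ofPred_eq, Set.mem_sdiff, not_and]
    exact ⟨fun h => ⟨h.1, fun _ => h.2⟩, fun h => ⟨h.1, h.2 h.1⟩⟩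
  rw [e]
  exact (measurableSet_pairExcluded ε n).diff (h n i)

theorem measEv_good (hΦ : AdmissiblePotential Φ) (hε : 0 < ε) (ht : 0 ≤ t) :
    MeasEv ε fun _ Z i => Good Φ ε t Z i := by
  intro n i
  have h2 := (measurable_prodMk_left (x := t) (β := Config n))
    (measurableSet_good (κ := Fin n) hΦ hε i t)
  have h : {Z : Config n | Z ∈ PairExcluded ε n ∧ Good Φ ε t Z i} =
      PairExcluded ε n ∩ (fun Z : Config n => (t, Z)) ⁻¹' {q : ℝ × (Fin n → PhasePoint) |
        (0 ≤ q.1 ∧ q.1 ≤ t ∧ q.2 ∈ Dom Φ (Fin n)) ∧ Good Φ ε q.1 q.2 i} := by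
    ext Z
    exact ⟨fun h => ⟨h.1, ⟨ht, le_rfl, pairExcluded_subset_Dom hε n h.1⟩, h.2⟩,
      fun h => ⟨h.1, h.2.2⟩⟩
  rw [h]
  exact (measurableSet_pairExcluded ε n).inter h2

/-- mass of the particles whose history is not a tree on the horizon `T'` -/
def ngMass (Φ : Space3 → ℝ) (f₀ : PhasePoint → ℝ) (ε T' t : ℝ) (K : ℕ) : ℝ≥0∞ :=
  evMass Φ f₀ ε t (Iic K) (fun _ Z i => ¬ ∃ (P : CTree) (ℓ : PhasePoint) (p : Par P)
    (e : Idx P → Fin _), HTreeC Φ ε T' t Z i P ℓ p e) fun _ => 1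

/-- mass of the particles whose history is a tree, whose protected tubes are hit by the rest
alone -/
def rtMass (Φ : Space3 → ℝ) (f₀ : PhasePoint → ℝ) (ε t : ℝ) (K : ℕ)
    (φ : PhasePoint → ℝ≥0∞) : ℝ≥0∞ :=
  evMass Φ f₀ ε t (Iic K) (fun _ Z i => Good Φ ε t Z i ∧ ¬ Clean Φ ε t Z i) φ

/-- top collision not finished -/
def AWin (Φ : Space3 → ℝ) (ε t : ℝ) (P : CTree) : Set (PhasePoint × Par P) :=
  {z | P ≠ leaf ∧ topInM Φ ε P z.1.2 z.2 ≤ t ∧ t ≤ topOut P z.2}

theorem uWin_eq (P : CTree) : uWin Φ ε t P = (AWin Φ ε t P).indicator fun _ => 1 := by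
  funext z
  unfold uWin
  by_cases h : P ≠ leaf ∧ topInM Φ ε P z.1.2 z.2 ≤ t ∧ t ≤ topOut P z.2
  · rw [if_pos h, indicator_of_mem (show z ∈ AWin Φ ε t P from h)]
  · rw [if_neg h, indicator_of_notMem (show z ∉ AWin Φ ε t P from h)]

theorem measurableSet_AWin (hΦ : AdmissiblePotential Φ) (ε t : ℝ) (P : CTree) :
    MeasurableSet (AWin Φ ε t P) := by
  have h := measurable_uWin hΦ ε t P (measurableSet_singleton (1 : ℝ≥0∞))
  convert h using 1
  ext z
  rw [mem_preimage, mem_singleton_iff, uWin_eq]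
  by_cases hz : z ∈ AWin Φ ε t P
  · simp [hz]
  · simp [hz]

/-- **The error mass, split.** -/
theorem badMass_le (hf : Measurable f₀) (hΦ : AdmissiblePotential Φ)
    (h1 : ∫⁻ z, ENNReal.ofReal (f₀ z) ≤ 1) (hε : 0 < ε) (ht : 0 ≤ t) (htT : t ≤ T')
    (K : ℕ) {φ : PhasePoint → ℝ≥0∞} (hφ : Measurable φ) {M : ℝ≥0∞} (hM : M ≠ ∞)
    (hφM : ∀ z, φ z ≤ M) :
    badMass Φ f₀ ε t (Iic K) φ ≤ rtMass Φ f₀ ε t K φ + M * (ngMass Φ f₀ ε T' t K +
      ∑ P ∈ bandT 0 K, ∫⁻ z, gX Φ (kF f₀) ε P T' (uWin Φ ε t P) z) := by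
  have hgood := measEv_good hΦ hε ht (t := t)
  rw [badMass_eq]
  have a1 : evMass Φ f₀ ε t (Iic K) (fun _ Z i => ¬ Clean Φ ε t Z i) φ ≤
      evMass Φ f₀ ε t (Iic K) (fun _ Z i => ¬ Good Φ ε t Z i) φ + rtMass Φ f₀ ε t K φ := by
    refine evMass_add_le hf hΦ hε (Iic K) hgood.not hφ fun n Z _ i h => ?_
    by_cases hg : Good Φ ε t Z i
    · exact Or.inr ⟨hg, h⟩
    · exact Or.inl hg
  have a2 : evMass Φ f₀ ε t (Iic K) (fun _ Z i => ¬ Good Φ ε t Z i) φ ≤
      M * evMass Φ f₀ ε t (Iic K) (fun _ Z i => ¬ Good Φ ε t Z i) fun _ => 1 := by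
    rw [← evMass_const hM]
    exact evMass_mono Subset.rfl hφM fun _ _ _ _ h => h
  have a3 : evMass Φ f₀ ε t (Iic K) (fun _ Z i => ¬ Good Φ ε t Z i) (fun _ => 1) ≤
      evMass Φ f₀ ε t (Iic K) (HEv Φ ε T' t (AWin Φ ε t)) (fun _ => 1) +
      ngMass Φ f₀ ε T' t K := by
    refine evMass_add_le hf hΦ hε (Iic K)
      (measEv_hEv hΦ hε ht htT (measurableSet_AWin hΦ ε t)) measurable_const
      fun n Z _ i h => ?_
    by_cases hT : ∃ (P : CTree) (ℓ : PhasePoint) (p : Par P) (e : Idx P → Fin n),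
        HTreeC Φ ε T' t Z i P ℓ p e
    · left
      obtain ⟨P, ℓ, p, e, hT⟩ := hT
      obtain ⟨b1, b2, b3⟩ := window_of_not_good hT hε htT h
      refine ⟨P, ℓ, p, e, hT, b3, ?_, b2⟩
      show topInM Φ ε P ℓ.2 p ≤ t
      rw [topInM_of_adm hT.valid.1]
      exact b1
    · exact Or.inr hT
  have a4 := evMass_hEv_le (T' := T') hf hΦ hε ht htT (Iic K) h1 (measurableSet_AWin hΦ ε t)
  have a5 : evMass Φ f₀ ε t (Iic K) (HEv Φ ε T' t (AWin Φ ε t)) (fun _ => 1) ≤
      ∑ P ∈ bandT 0 K, ∫⁻ z, gX Φ (kF f₀) ε P T' (uWin Φ ε t P) z := by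
    refine a4.trans (le_of_eq ?_)
    rw [tsum_eq_sum (s := bandT 0 K)]
    · refine Finset.sum_congr rfl fun P hP => ?_
      rw [if_pos (show P.leaves ∈ Iic K from (mem_bandT.1 hP).2), uWin_eq]
    · intro P hP
      rw [if_neg]
      intro h2
      refine hP (mem_bandT.2 ⟨?_, h2⟩)
      have := CTree.leaves_eq P
      omega
  calc _ ≤ _ := a1
    _ ≤ M * (evMass Φ f₀ ε t (Iic K) (HEv Φ ε T' t (AWin Φ ε t)) (fun _ => 1) +
      ngMass Φ f₀ ε T' t K) + rtMass Φ f₀ ε t K φ := by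
        gcongr
        exact a2.trans (by gcongr)
    _ ≤ M * ((∑ P ∈ bandT 0 K, ∫⁻ z, gX Φ (kF f₀) ε P T' (uWin Φ ε t P) z) +
      ngMass Φ f₀ ε T' t K) + rtMass Φ f₀ ε t K φ := by
        gcongr
    _ = _ := by rw [add_comm, add_comm (ngMass Φ f₀ ε T' t K)]

theorem tendsto_badMass (hf : Continuous f₀) (hΦ : AdmissiblePotential Φ)
    (h1 : ∫⁻ z, ENNReal.ofReal (f₀ z) ≤ 1) {γ : ℝ} (hγ : 0 < γ)
    (H : HasSummableGaussianBound γ (fun x v => f₀ (x, v))) (ht : 0 ≤ t) (htT : t ≤ T') (K : ℕ)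
    {φ : PhasePoint → ℝ≥0∞} (hφ : Measurable φ) {M : ℝ≥0∞} (hM : M ≠ ∞) (hφM : ∀ z, φ z ≤ M)
    (hR : Tendsto (fun ε => rtMass Φ f₀ ε t K φ) L (𝓝 0))
    (hN : Tendsto (fun ε => ngMass Φ f₀ ε T' t K) L (𝓝 0)) :
    Tendsto (fun ε => badMass Φ f₀ ε t (Iic K) φ) L (𝓝 0) := by
  have hw : Tendsto (fun ε => ∑ P ∈ bandT 0 K, ∫⁻ z, gX Φ (kF f₀) ε P T' (uWin Φ ε t P) z) L
      (𝓝 (∑ P ∈ bandT 0 K, (0 : ℝ≥0∞))) :=
    tendsto_finsetSum _ fun P _ => tendsto_win hΦ hf hγ H P t T'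
  rw [Finset.sum_const_zero] at hw
  have h2 : Tendsto (fun ε => rtMass Φ f₀ ε t K φ + M * (ngMass Φ f₀ ε T' t K +
      ∑ P ∈ bandT 0 K, ∫⁻ z, gX Φ (kF f₀) ε P T' (uWin Φ ε t P) z)) L (𝓝 0) := by
    have h3 := hR.add (ENNReal.Tendsto.const_mul (a := M) (hN.add hw) (Or.inr hM))
    simpa using h3
  refine tendsto_of_tendsto_of_tendsto_of_le_of_le' tendsto_const_nhds h2
    (Eventually.of_forall fun _ => bot_le) ?_
  filter_upwards [eventually_pos] with ε hε
  exact badMass_le hf.measurable hΦ h1 hε ht htT K hφ hM hφM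

/-- **F7, real side**: `BandUp` from the two null inputs at the fixed time `t`. -/
theorem bandUp_of {f : ℝ → PhasePoint → ℝ} {β T : ℝ} (hD : KData Φ β T f₀ f) (ht : 0 ≤ t)
    (htT : t ≤ T')
    (hR : ∀ (K : ℕ) (R : ℝ), Tendsto (fun ε => rtMass Φ f₀ ε t K (psiR R)) L (𝓝 0))
    (hN : ∀ K : ℕ, Tendsto (fun ε => ngMass Φ f₀ ε T' t K) L (𝓝 0)) :
    BandUp Φ f₀ t := by
  intro K₁ K R δ hδ
  have hfm : Measurable f₀ := hD.contDiff.continuous.measurable
  have h1 : ∫⁻ z, ENNReal.ofReal (f₀ z) ≤ 1 :=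
    (FM167.lintegral_density_eq_one hD.nonneg hD.integrable hD.mass).le
  have hβ := hD.beta_pos
  have hbad := tendsto_badMass (t := t) (T' := T') hD.contDiff.continuous hD.adm h1
    (by positivity : 0 < 2 * β) hD.gaussian ht htT K (measurable_psiR R) ENNReal.one_ne_top
    (testF_psiR R).le (hR K R) (hN K)
  have hev := hbad.eventually (gt_mem_nhds (show (0 : ℝ≥0∞) < ENNReal.ofReal δ from
    ENNReal.ofReal_pos.2 hδ))
  obtain ⟨ε₀, hε₀, h⟩ := mem_nhdsGT_iff_exists_Ioo_subset.1 hev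
  refine ⟨ε₀, hε₀, fun ε hε hlt => ?_⟩
  have hb : badMass Φ f₀ ε t (Iic K) (psiR R) < ENNReal.ofReal δ := h ⟨hε, hlt⟩
  have hs := sizeMass_le hfm hD.adm hε ht (Ioc K₁ K) (measurable_psiR R)
    (fun z => ne_top_of_le_ne_top ENNReal.one_ne_top ((testF_psiR R).le z)) (f₀ := f₀)
  have e1 : gcE f₀ ε (fun n Z => (activity ε)⁻¹ * ∑ i : Fin n,
      (if (bc Φ ε Z t i).ncard ∈ Ioc K₁ K then 1 else 0) * psiR R (pth Φ ε Z t i)) =
      sizeMass Φ f₀ ε t (Ioc K₁ K) (psiR R) := by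
    unfold sizeMass
    rw [← gcE_const_mul f₀ ε (ENNReal.inv_ne_top.2 (FM167.activity_ne_zero hε))]
    refine gcE_congr f₀ ε fun n Z _ => ?_
    refine congrArg _ (Finset.sum_congr rfl fun i _ => ?_)
    by_cases h : (bc Φ ε Z t i).ncard ∈ Ioc K₁ K
    · rw [if_pos h, if_pos h, one_mul]
    · rw [if_neg h, if_neg h, zero_mul]
  rw [e1]
  refine hs.trans (add_le_add (le_of_eq ?_) (le_trans ?_ hb.le))
  · rw [tsum_eq_sum (s := bandT K₁ K)]
    · refine Finset.sum_congr rfl fun P hP => ?_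
      rw [if_pos (show P.leaves ∈ Ioc K₁ K from mem_bandT.1 hP)]
    · intro P hP
      rw [if_neg]
      exact fun h2 => hP (mem_bandT.2 h2)
  · rw [badMass_eq, badMass_eq]
    exact evMass_mono (fun k hk => hk.2) (fun _ => le_rfl) fun _ _ _ _ h => h

end Crest.Agent.R122.BandUp674

end
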