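import Crest.Agent.R122.NGmaj_416
import Crest.Agent.R122.MeasEvo_416

/-!
# Row 122, D5g (helper416), part 2: gas level of D5 (mass, local volume, tube)

For `E : BadSet γ K Bad` (`NGmaj_416`):

* `BadSet.mass` (m1), Mecke'd form, weight `exp (2 (γ₀ - γ) kin V)`, `f₀ ≤ env · exp (-γ₀ |v|²)`;
* `clF`, `le_clF`, `gcE_clF_le` : sums over all sub-clusters of the gas (measurable, equivariant);
  `BadSet.gas` : (m1) gas form;
* `BadSet.point` (m2) : at a covariant point;
* `BadSet.tube` (m3) : the marked particle comes within `ρ` of a Lipschitz curve.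
-/

set_option autoImplicit false
set_option linter.unusedSectionVars false

open MeasureTheory Set Filter Topology
open Crest.AnalysisR.Kinetic
open Crest.Agent.R122.Loc45 Crest.Agent.R122.Vol365 Crest.Agent.R122.GC311
open Crest.Agent.R122.Flow671 Crest.Agent.R122.MeasE416
open scoped ENNReal NNReal Classical

noncomputable section

namespace Crest.Agent.R122.NG416

theorem measurable_kinc {ι : Type*} [Fintype ι] : Measurable (kin : (ι → PhasePoint) → ℝ) := by
  unfold kin
  refine Measurable.const_mul (Finset.measurable_sum _ fun i _ => ?_) _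
  exact ((measurable_pi_apply i).snd.norm).pow_const 2

/-! ## Envelope of the initial density -/

/-- Integrable bounded envelope of the initial density, Gaussian rate `γ₀`. -/
structure EnvG (γ₀ : ℝ) (f₀ : PhasePoint → ℝ) (env : Space3 → ℝ≥0∞) (A : ℝ≥0∞) : Prop where
  meas : Measurable env
  A_ne : A ≠ ∞
  int_ne : ∫⁻ x, env x ≠ ∞
  le_A : ∀ x, env x ≤ A
  bound : ∀ z : PhasePoint, ENNReal.ofReal (f₀ z) ≤ env z.1 * gw γ₀ z

theorem exists_envG {γ₀ : ℝ} {f₀ : PhasePoint → ℝ}
    (H : HasSummableGaussianBound γ₀ (fun x v => f₀ (x, v))) :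
    ∃ (env : Space3 → ℝ≥0∞) (A : ℝ≥0∞), EnvG γ₀ f₀ env A := by
  obtain ⟨M, hM, hb⟩ := H
  have hM0 : ∀ k, 0 ≤ M k := by
    intro k
    refine le_trans ?_ (hb k (latticePoint k) 0 (by simp))
    positivity
  have hA : ∑' k, ENNReal.ofReal (M k) ≠ ∞ := by
    rw [← ENNReal.ofReal_tsum_of_nonneg hM0 hM]
    exact ENNReal.ofReal_ne_top
  have hmk : ∀ k : Fin 3 → ℤ, Measurable
      ((Metric.closedBall (latticePoint k) 1).indicator fun _ : Space3 => ENNReal.ofReal (M k)) :=
    fun k => measurable_const.indicator Metric.isClosed_closedBall.measurableSet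
  refine ⟨fun x => ∑' k : Fin 3 → ℤ,
    (Metric.closedBall (latticePoint k) 1).indicator (fun _ => ENNReal.ofReal (M k)) x,
    ∑' k, ENNReal.ofReal (M k), Measurable.tsum hmk, hA, ?_, ?_, ?_⟩
  · rw [lintegral_tsum fun k => (hmk k).aemeasurable]
    have e : ∀ k : Fin 3 → ℤ, ∫⁻ x : Space3,
        (Metric.closedBall (latticePoint k) 1).indicator (fun _ => ENNReal.ofReal (M k)) x =
        ENNReal.ofReal (M k) * volume (Metric.closedBall (0 : Space3) 1) := by
      intro k
      rw [lintegral_indicator Metric.isClosed_closedBall.measurableSet, lintegral_const,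
          Measure.restrict_apply_univ, Measure.addHaar_closedBall_center]
    simp_rw [e]
    rw [ENNReal.tsum_mul_right]
    exact ENNReal.mul_ne_top hA measure_closedBall_lt_top.ne
  · intro x
    exact ENNReal.tsum_le_tsum fun k => indicator_le_self' (fun _ _ => bot_le) x
  · rintro ⟨x, v⟩
    obtain ⟨k, hk⟩ := exists_lattice_near x
    have h1 : ENNReal.ofReal (f₀ (x, v)) ≤ ENNReal.ofReal (M k) * gw γ₀ (x, v) := by
      unfold gw
      rw [← ENNReal.ofReal_mul (hM0 k)]
      refine ENNReal.ofReal_le_ofReal ?_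
      have h2 := hb k x v hk
      have h3 : f₀ (x, v) ≤ ‖f₀ (x, v)‖ := le_abs_self _
      have hpos := Real.exp_pos (γ₀ * ‖v‖ ^ 2)
      calc f₀ (x, v) ≤ ‖f₀ (x, v)‖ := h3
        _ = (Real.exp (γ₀ * ‖v‖ ^ 2) * ‖f₀ (x, v)‖) * Real.exp (-(γ₀ * ‖v‖ ^ 2)) := by
            rw [mul_comm (Real.exp (γ₀ * ‖v‖ ^ 2)), mul_assoc, ← Real.exp_add, add_neg_cancel,
              Real.exp_zero, mul_one]
        _ ≤ M k * Real.exp (-(γ₀ * ‖v‖ ^ 2)) :=
            mul_le_mul_of_nonneg_right h2 (Real.exp_pos _).le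
    refine h1.trans (mul_le_mul_left ?_ _)
    have h4 : ENNReal.ofReal (M k) =
        (Metric.closedBall (latticePoint k) 1).indicator (fun _ => ENNReal.ofReal (M k)) x := by
      rw [indicator_of_mem]
      exact hk
    change _ ≤ ∑' k : Fin 3 → ℤ,
      (Metric.closedBall (latticePoint k) 1).indicator (fun _ => ENNReal.ofReal (M k)) x
    exact h4.le.trans (ENNReal.le_tsum k)

section

variable {γ₀ γ : ℝ} {f₀ : PhasePoint → ℝ} {env : Space3 → ℝ≥0∞} {A : ℝ≥0∞}

theorem gwc_mul_exp (γ γ₀ : ℝ) {k : ℕ} (V : Config k) :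
    gwc γ₀ V * ENNReal.ofReal (Real.exp (2 * (γ₀ - γ) * kin V)) = gwc γ V := by
  rw [gwc_eq_exp, gwc_eq_exp, ← ENNReal.ofReal_mul (Real.exp_pos _).le, ← Real.exp_add]
  congr 2
  ring

theorem gcWeight_le_env (h : EnvG γ₀ f₀ env A) (ε : ℝ) {k : ℕ} (V : Config k) (j : Fin k) :
    gcWeight f₀ ε k V ≤ (PairExcluded ε k).indicator
      (fun V => env (V j).1 * A ^ (k - 1) * gwc γ₀ V) V := by
  unfold gcWeight
  by_cases hV : V ∈ PairExcluded ε k
  · rw [indicator_of_mem hV, indicator_of_mem hV]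
    calc ∏ i, ENNReal.ofReal (f₀ (V i)) ≤ ∏ i, (env (V i).1 * gw γ₀ (V i)) :=
          Finset.prod_le_prod' fun i _ => h.bound (V i)
      _ = (∏ i, env (V i).1) * gwc γ₀ V := Finset.prod_mul_distrib
      _ ≤ env (V j).1 * A ^ (k - 1) * gwc γ₀ V := by
          refine mul_le_mul_left ?_ _
          rw [← Finset.mul_prod_erase _ _ (Finset.mem_univ j)]
          refine mul_le_mul_right ?_ _
          have h1 := Finset.prod_le_pow_card (Finset.univ.erase j) (fun i => env (V i).1) A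
            fun i _ => h.le_A _
          rwa [Finset.card_erase_of_mem (Finset.mem_univ j), Finset.card_univ,
            Fintype.card_fin] at h1
  · rw [indicator_of_notMem hV, indicator_of_notMem hV]

theorem gcWeight_exp_le_env (h : EnvG γ₀ f₀ env A) (γ ε : ℝ) {k : ℕ} (V : Config k) (j : Fin k) :
    gcWeight f₀ ε k V * ENNReal.ofReal (Real.exp (2 * (γ₀ - γ) * kin V)) ≤
      (PairExcluded ε k).indicator (fun V => env (V j).1 * A ^ (k - 1) * gwc γ V) V := by
  refine (mul_le_mul_left (gcWeight_le_env h ε V j) _).trans (le_of_eq ?_)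
  by_cases hV : V ∈ PairExcluded ε k
  · rw [indicator_of_mem hV, indicator_of_mem hV, mul_assoc, gwc_mul_exp]
  · rw [indicator_of_notMem hV, indicator_of_notMem hV, zero_mul]

end

theorem activity_pow_mul' {ε : ℝ} (hε : 0 < ε) (k : ℕ) (hk : 1 ≤ k) :
    (activity ε)⁻¹ * activity ε ^ k = (ENNReal.ofReal (ε ^ (2 * (k - 1))))⁻¹ := by
  obtain ⟨m, rfl⟩ := Nat.exists_eq_add_of_le' hk
  have h2 : m + 1 - 1 = m := by omega
  rw [h2, pow_succ', ← mul_assoc, ENNReal.inv_mul_cancel (activity_ne_zero hε) (activity_ne_top ε),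
    one_mul]
  unfold activity
  rw [← ENNReal.ofReal_pow (by positivity), ← ENNReal.ofReal_inv_of_pos (by positivity)]
  congr 1
  rw [inv_pow, ← pow_mul]

/-! ## (m1) mass -/

namespace BadSet

variable {γ : ℝ} {K : ℕ} {Bad : BadFam}

/-- indicator of the enlarged bad set -/
def ind (E : BadSet γ K Bad) (ε : ℝ) (k : ℕ) (V : Config k) (j : Fin k) : ℝ≥0∞ :=
  (E.B ε k j).indicator (fun _ => 1) V

theorem measurable_ind (E : BadSet γ K Bad) (ε : ℝ) (k : ℕ) (j : Fin k) :
    Measurable fun V : Config k => E.ind ε k V j :=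
  measurable_const.indicator (E.meas ε k j)

theorem tinv_ind (E : BadSet γ K Bad) (ε : ℝ) (k : ℕ) (j : Fin k) :
    TInv fun V : Config k => E.ind ε k V j :=
  TInv.ind (E.meas ε k j) (E.shift ε k j)

theorem ind_perm (E : BadSet γ K Bad) (ε : ℝ) (k : ℕ) (σ : Equiv.Perm (Fin k)) (V : Config k)
    (j : Fin k) : E.ind ε k (fun i => V (σ i)) j = E.ind ε k V (σ j) := by
  unfold ind
  by_cases h : V ∈ E.B ε k (σ j)
  · rw [indicator_of_mem h, indicator_of_mem ((E.perm ε k σ j V).2 h)]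
  · rw [indicator_of_notMem h, indicator_of_notMem fun hc => h ((E.perm ε k σ j V).1 hc)]

theorem one_le_ind (E : BadSet γ K Bad) {ε : ℝ} (hε : 0 < ε) {k : ℕ} (hk : k ≤ K) {V : Config k}
    (hV : V ∈ PairExcluded ε k) {j : Fin k} (h : Bad ε k V j) : 1 ≤ E.ind ε k V j := by
  unfold ind
  rw [indicator_of_mem (E.bad ε hε k hk V hV j h)]

theorem ind_le_one (E : BadSet γ K Bad) (ε : ℝ) (k : ℕ) (V : Config k) (j : Fin k) :
    E.ind ε k V j ≤ 1 := indicator_le_self' (fun _ _ => bot_le) V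

/-- Pinned mass with an arbitrary pin and an arbitrary profile. -/
theorem point (E : BadSet γ K Bad) (ε : ℝ) (k : ℕ) (j : Fin k) {p : Config k → Space3}
    (hp : Pin p) {h : Space3 → ℝ≥0∞} (hh : Measurable h) :
    ∫⁻ V : Config k, h (p V) * (gwc γ V * E.ind ε k V j) =
      (∫⁻ x, h x) * pm γ (E.B ε k j) j :=
  lintegral_pin hp (pin_apply j) ((tinv_gwc γ).mul (E.tinv_ind ε k j)) hh measurable_hb lintegral_hb

/-- The one-size, one-root bound behind (m1). -/
theorem mass_le (E : BadSet γ K Bad) {γ₀ : ℝ} {f₀ : PhasePoint → ℝ} {env : Space3 → ℝ≥0∞}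
    {A : ℝ≥0∞} (h : EnvG γ₀ f₀ env A) (ε : ℝ) (k : ℕ) (j : Fin k) :
    ∫⁻ V : Config k, gcWeight f₀ ε k V * (ENNReal.ofReal (Real.exp (2 * (γ₀ - γ) * kin V)) *
        E.ind ε k V j) ≤
      (∫⁻ x, env x) * A ^ (k - 1) * pm γ (E.B ε k j) j := by
  calc ∫⁻ V : Config k, gcWeight f₀ ε k V * (ENNReal.ofReal (Real.exp (2 * (γ₀ - γ) * kin V)) *
        E.ind ε k V j)
      ≤ ∫⁻ V : Config k, (env (V j).1 * A ^ (k - 1)) * (gwc γ V * E.ind ε k V j) := by
        refine lintegral_mono fun V => ?_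
        rw [← mul_assoc, ← mul_assoc (env (V j).1 * A ^ (k - 1))]
        refine mul_le_mul_left ?_ _
        exact (gcWeight_exp_le_env h γ ε V j).trans (indicator_le_self' (fun _ _ => bot_le) V)
    _ = (∫⁻ x, env x * A ^ (k - 1)) * pm γ (E.B ε k j) j :=
        E.point ε k j (pin_apply j) (h := fun x => env x * A ^ (k - 1)) (h.meas.mul_const _)
    _ = _ := by rw [lintegral_mul_const _ h.meas]

/-- **(m1), Mecke'd form.** -/
theorem mass (E : BadSet γ K Bad) {γ₀ : ℝ} {f₀ : PhasePoint → ℝ} {env : Space3 → ℝ≥0∞}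
    {A : ℝ≥0∞} (hf : Measurable f₀) (h : EnvG γ₀ f₀ env A) :
    Tendsto (fun ε : ℝ => (activity ε)⁻¹ * ∑ k ∈ Finset.range (K + 1),
      activity ε ^ k / (k.factorial : ℝ≥0∞) * ∫⁻ V : Config k, gcWeight f₀ ε k V *
        ∑ j : Fin k, ENNReal.ofReal (Real.exp (2 * (γ₀ - γ) * kin V)) * E.ind ε k V j)
      (𝓝[>] 0) (𝓝 0) := by
  -- upper bound
  have hup : ∀ᶠ ε : ℝ in 𝓝[>] 0, (activity ε)⁻¹ * ∑ k ∈ Finset.range (K + 1),
      activity ε ^ k / (k.factorial : ℝ≥0∞) * ∫⁻ V : Config k, gcWeight f₀ ε k V *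
        ∑ j : Fin k, ENNReal.ofReal (Real.exp (2 * (γ₀ - γ) * kin V)) * E.ind ε k V j ≤
      ∑ k ∈ Finset.range (K + 1), ∑ j : Fin k, ((∫⁻ x, env x) * A ^ (k - 1)) *
        ((ENNReal.ofReal (ε ^ (2 * (k - 1))))⁻¹ * pm γ (E.B ε k j) j) := by
    filter_upwards [self_mem_nhdsWithin] with ε hε
    have hε0 : (0 : ℝ) < ε := hε
    rw [Finset.mul_sum]
    refine Finset.sum_le_sum fun k _ => ?_
    have hkin : Measurable (kin : Config k → ℝ) := measurable_kinc
    have hsum : ∫⁻ V : Config k, gcWeight f₀ ε k V *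
        ∑ j : Fin k, ENNReal.ofReal (Real.exp (2 * (γ₀ - γ) * kin V)) * E.ind ε k V j =
        ∑ j : Fin k, ∫⁻ V : Config k, gcWeight f₀ ε k V *
          (ENNReal.ofReal (Real.exp (2 * (γ₀ - γ) * kin V)) * E.ind ε k V j) := by
      simp_rw [Finset.mul_sum]
      refine lintegral_finsetSum _ fun j _ => ?_
      exact (measurable_gcWeight hf ε k).mul
        ((((hkin.const_mul _).exp).ennreal_ofReal).mul (E.measurable_ind ε k j))
    rw [hsum, Finset.mul_sum, Finset.mul_sum]
    refine Finset.sum_le_sum fun j _ => ?_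
    have hk1 : 1 ≤ k := by
      have := j.isLt
      omega
    calc (activity ε)⁻¹ * (activity ε ^ k / (k.factorial : ℝ≥0∞) * ∫⁻ V : Config k,
          gcWeight f₀ ε k V * (ENNReal.ofReal (Real.exp (2 * (γ₀ - γ) * kin V)) * E.ind ε k V j))
        ≤ (activity ε)⁻¹ * (activity ε ^ k *
            ((∫⁻ x, env x) * A ^ (k - 1) * pm γ (E.B ε k j) j)) := by
          refine mul_le_mul_right (mul_le_mul' ?_ (E.mass_le h ε k j)) _
          refine ENNReal.div_le_of_le_mul ?_
          exact le_mul_of_one_le_right bot_le (by exact_mod_cast Nat.factorial_pos k)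
      _ = ((∫⁻ x, env x) * A ^ (k - 1)) *
            (((activity ε)⁻¹ * activity ε ^ k) * pm γ (E.B ε k j) j) := by ring
      _ = _ := by rw [activity_pow_mul' hε0 k hk1]
  have hlim : Tendsto (fun ε : ℝ => ∑ k ∈ Finset.range (K + 1), ∑ j : Fin k,
      ((∫⁻ x, env x) * A ^ (k - 1)) *
        ((ENNReal.ofReal (ε ^ (2 * (k - 1))))⁻¹ * pm γ (E.B ε k j) j)) (𝓝[>] 0) (𝓝 0) := by
    have h0 : (0 : ℝ≥0∞) = ∑ k ∈ Finset.range (K + 1), ∑ _j : Fin k, (0 : ℝ≥0∞) := by simp
    rw [h0]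
    refine tendsto_finsetSum _ fun k hk => tendsto_finsetSum _ fun j _ => ?_
    have hk' : k ≤ K := by
      have := Finset.mem_range.1 hk
      omega
    have := ENNReal.Tendsto.const_mul (a := (∫⁻ x, env x) * A ^ (k - 1)) (E.small k hk' j)
      (Or.inr (ENNReal.mul_ne_top h.int_ne (ENNReal.pow_ne_top h.A_ne)))
    simpa using this
  exact tendsto_of_tendsto_of_tendsto_of_le_of_le' tendsto_const_nhds hlim
    (Eventually.of_forall fun _ => bot_le) hup

end BadSet

/-! ## Sums over sub-clusters -/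

/-- Sum of `G` over all sub-configurations of at most `K` particles of `X` with marked particle `i`
(every subset counted once when `G` is equivariant). -/
def clF (G : (k : ℕ) → Config k → Fin k → ℝ≥0∞) (K n : ℕ) (X : Config n) (i : Fin n) : ℝ≥0∞ :=
  ∑ k ∈ Finset.range (K + 1), (k.factorial : ℝ≥0∞)⁻¹ *
    ∑ e : Fin k ↪ Fin n, ∑ j, if e j = i then G k (fun x => X (e x)) j else 0

section clF

variable {G : (k : ℕ) → Config k → Fin k → ℝ≥0∞} {K n : ℕ}

theorem measurable_clF (hG : ∀ k j, Measurable fun V => G k V j) (i : Fin n) :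
    Measurable fun X : Config n => clF G K n X i := by
  unfold clF
  refine Finset.measurable_sum _ fun k _ => Measurable.const_mul ?_ _
  refine Finset.measurable_sum _ fun e _ => Finset.measurable_sum _ fun j _ => ?_
  by_cases h : e j = i
  · simp only [if_pos h]
    exact (hG k j).comp (measurable_pi_iff.2 fun x => measurable_pi_apply (e x))
  · simp only [if_neg h]
    exact measurable_const

theorem clF_perm (σ : Equiv.Perm (Fin n)) (X : Config n) (i : Fin n) :
    clF G K n (fun x => X (σ x)) i = clF G K n X (σ i) := by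
  unfold clF
  refine Finset.sum_congr rfl fun k _ => ?_
  congr 1
  rw [← Equiv.sum_comp (Equiv.embeddingCongr (Equiv.refl (Fin k)) σ)
    (fun e : Fin k ↪ Fin n => ∑ j, if e j = σ i then G k (fun x => X (e x)) j else 0)]
  refine Finset.sum_congr rfl fun e _ => Finset.sum_congr rfl fun j _ => ?_
  have h1 : ∀ x, (Equiv.embeddingCongr (Equiv.refl (Fin k)) σ) e x = σ (e x) := fun x => by
    simp [Equiv.embeddingCongr]
  simp only [h1, σ.injective.eq_iff]

/-- Every sub-configuration is counted. -/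
theorem le_clF (hG : ∀ k (σ : Equiv.Perm (Fin k)) (V : Config k) j,
      G k (fun x => V (σ x)) j = G k V (σ j)) (X : Config n) {k : ℕ} (hk : k ≤ K)
    (e : Fin k ↪ Fin n) (j : Fin k) :
    G k (fun x => X (e x)) j ≤ clF G K n X (e j) := by
  unfold clF
  refine le_trans ?_ (Finset.single_le_sum (f := fun k => (k.factorial : ℝ≥0∞)⁻¹ *
    ∑ e' : Fin k ↪ Fin n, ∑ j', if e' j' = e j then G k (fun x => X (e' x)) j' else 0)
    (fun _ _ => bot_le) (Finset.mem_range.2 (Nat.lt_succ_of_le hk)))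
  have hfac0 : (k.factorial : ℝ≥0∞) ≠ 0 := by exact_mod_cast (Nat.factorial_pos k).ne'
  have hfact : (k.factorial : ℝ≥0∞) ≠ ∞ := ENNReal.natCast_ne_top _
  -- the k! relabelled embeddings
  have h1 : ∑ σ : Equiv.Perm (Fin k), G k (fun x => X (e x)) j ≤
      ∑ e' : Fin k ↪ Fin n, ∑ j', if e' j' = e j then G k (fun x => X (e' x)) j' else 0 := by
    have hinj : Function.Injective fun σ : Equiv.Perm (Fin k) => σ.toEmbedding.trans e := by
      intro σ τ h
      ext x
      have := congrArg (fun f : Fin k ↪ Fin n => f x) h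
      exact congrArg Fin.val (e.injective this)
    calc ∑ σ : Equiv.Perm (Fin k), G k (fun x => X (e x)) j
        ≤ ∑ σ : Equiv.Perm (Fin k), ∑ j', (if (σ.toEmbedding.trans e) j' = e j then
            G k (fun x => X ((σ.toEmbedding.trans e) x)) j' else 0) := by
          refine Finset.sum_le_sum fun σ _ => ?_
          refine le_trans ?_ (Finset.single_le_sum (f := fun j' =>
            if (σ.toEmbedding.trans e) j' = e j then
              G k (fun x => X ((σ.toEmbedding.trans e) x)) j' else 0)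
            (fun _ _ => bot_le) (Finset.mem_univ (σ.symm j)))
          have h2 : (σ.toEmbedding.trans e) (σ.symm j) = e j := by simp
          simp only [if_pos h2]
          have h3 := hG k σ (fun x => X (e x)) (σ.symm j)
          rw [Equiv.apply_symm_apply] at h3
          exact h3.ge
      _ = ∑ e' ∈ Finset.univ.image (fun σ : Equiv.Perm (Fin k) => σ.toEmbedding.trans e),
            ∑ j', (if e' j' = e j then G k (fun x => X (e' x)) j' else 0) := by
          rw [Finset.sum_image fun σ _ τ _ h => hinj h]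
      _ ≤ _ := Finset.sum_le_sum_of_subset (Finset.subset_univ _)
  have h2 : ∑ _σ : Equiv.Perm (Fin k), G k (fun x => X (e x)) j =
      (k.factorial : ℝ≥0∞) * G k (fun x => X (e x)) j := by
    rw [Finset.sum_const, nsmul_eq_mul, Finset.card_univ, Fintype.card_perm, Fintype.card_fin]
  rw [h2] at h1
  calc G k (fun x => X (e x)) j
      = (k.factorial : ℝ≥0∞)⁻¹ * ((k.factorial : ℝ≥0∞) * G k (fun x => X (e x)) j) := by
        rw [← mul_assoc, ENNReal.inv_mul_cancel hfac0 hfact, one_mul]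
    _ ≤ _ := mul_le_mul_right h1 _

/-- Expectation of the sum over sub-clusters. -/
theorem gcE_clF_le {f₀ : PhasePoint → ℝ} (hf : Measurable f₀)
    (h1 : ∫⁻ z, ENNReal.ofReal (f₀ z) ≤ 1) (ε : ℝ) (hG : ∀ k j, Measurable fun V => G k V j) :
    gcE f₀ ε (fun n X => ∑ i, clF G K n X i) ≤ ∑ k ∈ Finset.range (K + 1),
      activity ε ^ k / (k.factorial : ℝ≥0∞) *
        ∫⁻ V : Config k, gcWeight f₀ ε k V * ∑ j, G k V j := by
  have hGs : ∀ k, Measurable fun V : Config k => ∑ j, G k V j := fun k =>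
    Finset.measurable_sum _ fun j _ => hG k j
  have e1 : ∀ (n : ℕ) (X : Config n), ∑ i, clF G K n X i =
      ∑ k ∈ Finset.range (K + 1), (k.factorial : ℝ≥0∞)⁻¹ *
        ∑ e : Fin k ↪ Fin n, ∑ j, G k (fun x => X (e x)) j := by
    intro n X
    unfold clF
    rw [Finset.sum_comm]
    refine Finset.sum_congr rfl fun k _ => ?_
    rw [← Finset.mul_sum]
    congr 1
    rw [Finset.sum_comm]
    refine Finset.sum_congr rfl fun e _ => ?_
    rw [Finset.sum_comm]
    refine Finset.sum_congr rfl fun j _ => ?_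
    rw [Finset.sum_ite_eq]
    simp
  have e2 : gcE f₀ ε (fun n X => ∑ i, clF G K n X i) =
      gcE f₀ ε (fun n X => ∑ k ∈ Finset.range (K + 1), (k.factorial : ℝ≥0∞)⁻¹ *
        ∑ e : Fin k ↪ Fin n, ∑ j, G k (fun x => X (e x)) j) :=
    gcE_congr f₀ ε fun n X _ => e1 n X
  have hms : ∀ (k n : ℕ), Measurable fun X : Config n => (k.factorial : ℝ≥0∞)⁻¹ *
      ∑ e : Fin k ↪ Fin n, ∑ j, G k (fun x => X (e x)) j := by
    intro k n
    refine Measurable.const_mul (Finset.measurable_sum _ fun e _ => ?_) _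
    have hc : Measurable fun X : Config n => (fun x => X (e x) : Config k) :=
      measurable_pi_iff.2 fun x => measurable_pi_apply (e x)
    exact (hGs k).comp hc
  have e3 := gcE_finset_sum hf ε (Finset.range (K + 1)) (F := fun k n X =>
    (k.factorial : ℝ≥0∞)⁻¹ * ∑ e : Fin k ↪ Fin n, ∑ j, G k (fun x => X (e x)) j)
    (fun k _ n => hms k n)
  rw [e2, e3]
  refine Finset.sum_le_sum fun k _ => ?_
  have hfac : ((k.factorial : ℝ≥0∞)⁻¹) ≠ ∞ :=
    ENNReal.inv_ne_top.2 (by exact_mod_cast (Nat.factorial_pos k).ne')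
  rw [gcE_const_mul f₀ ε hfac]
  refine (mul_le_mul_right (gcE_sum_emb_le hf h1 ε (fun V : Config k => ∑ j, G k V j)
    (hGs k)) _).trans (le_of_eq ?_)
  rw [ENNReal.div_eq_inv_mul, mul_assoc]

end clF

namespace BadSet

variable {γ : ℝ} {K : ℕ} {Bad : BadFam}

/-- The weighted bad functional of the gas: sum over all sub-clusters of at most `K` particles with
marked particle `i` in the enlarged bad set, with weight `exp (a kin)`. -/
def nBad (E : BadSet γ K Bad) (a ε : ℝ) (n : ℕ) (X : Config n) (i : Fin n) : ℝ≥0∞ :=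
  clF (fun k V j => ENNReal.ofReal (Real.exp (a * kin V)) * E.ind ε k V j) K n X i

theorem measurable_wInd (E : BadSet γ K Bad) (a ε : ℝ) (k : ℕ) (j : Fin k) :
    Measurable fun V : Config k => ENNReal.ofReal (Real.exp (a * kin V)) * E.ind ε k V j := by
  have hkin : Measurable (kin : Config k → ℝ) := measurable_kinc
  exact (((hkin.const_mul _).exp).ennreal_ofReal).mul (E.measurable_ind ε k j)

theorem measurable_nBad (E : BadSet γ K Bad) (a ε : ℝ) (n : ℕ) (i : Fin n) :
    Measurable fun X : Config n => E.nBad a ε n X i :=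
  measurable_clF (fun k j => E.measurable_wInd a ε k j) i

theorem nBad_perm (E : BadSet γ K Bad) (a ε : ℝ) (n : ℕ) (σ : Equiv.Perm (Fin n)) (X : Config n)
    (i : Fin n) : E.nBad a ε n (fun x => X (σ x)) i = E.nBad a ε n X (σ i) :=
  clF_perm σ X i

/-- Every bad sub-cluster is counted with its weight. -/
theorem le_nBad (E : BadSet γ K Bad) (a : ℝ) {ε : ℝ} (hε : 0 < ε) {n : ℕ} {X : Config n}
    {k : ℕ} (hk : k ≤ K) (e : Fin k ↪ Fin n) (j : Fin k)
    (hV : (fun x => X (e x)) ∈ PairExcluded ε k) (hb : Bad ε k (fun x => X (e x)) j) :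
    ENNReal.ofReal (Real.exp (a * kin fun x => X (e x))) ≤ E.nBad a ε n X (e j) := by
  have h := le_clF (G := fun k V j => ENNReal.ofReal (Real.exp (a * kin V)) * E.ind ε k V j)
    (K := K) (fun k σ V j => by
      change ENNReal.ofReal (Real.exp (a * kin fun i => V (σ i))) * E.ind ε k (fun i => V (σ i)) j =
        ENNReal.ofReal (Real.exp (a * kin V)) * E.ind ε k V (σ j)
      rw [kin_equiv σ V, E.ind_perm]) X hk e j
  refine le_trans ?_ h
  exact le_mul_of_one_le_right bot_le (E.one_le_ind hε hk hV hb)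

/-- **(m1), gas form.** -/
theorem gas (E : BadSet γ K Bad) {γ₀ : ℝ} {f₀ : PhasePoint → ℝ} {env : Space3 → ℝ≥0∞}
    {A : ℝ≥0∞} (hf : Measurable f₀) (h1 : ∫⁻ z, ENNReal.ofReal (f₀ z) ≤ 1)
    (h : EnvG γ₀ f₀ env A) :
    Tendsto (fun ε : ℝ => (activity ε)⁻¹ *
      gcE f₀ ε (fun n X => ∑ i, E.nBad (2 * (γ₀ - γ)) ε n X i)) (𝓝[>] 0) (𝓝 0) := by
  refine tendsto_of_tendsto_of_tendsto_of_le_of_le tendsto_const_nhds (E.mass hf h)
    (fun _ => bot_le) fun ε => ?_
  exact mul_le_mul_right (gcE_clF_le hf h1 ε fun k j => E.measurable_wInd _ ε k j) _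

end BadSet

/-! ## (m3) tubes -/

/-- volume of the tube of translations -/
theorem volume_tube_le {T ρ L : ℝ} (hT : 0 ≤ T) (hρ : 0 < ρ) (hL : 0 ≤ L) {d : ℝ → Space3}
    (hd : ∀ s ∈ Icc 0 T, ∀ s' ∈ Icc 0 T, dist (d s) (d s') ≤ L * |s - s'|) :
    volume {a : Space3 | ∃ s ∈ Icc 0 T, dist a (d s) ≤ ρ} ≤
      ENNReal.ofReal (16 * ρ ^ 3 + 8 * (T * L * ρ ^ 2)) *
        volume (Metric.closedBall (0 : Space3) 1) := by
  set N : ℕ := ⌊T * L / ρ⌋₊ + 1 with hN
  have hNpos : (0 : ℝ) < N := by rw [hN]; positivity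
  have hNge : T * L / ρ ≤ N := by
    rw [hN]; push_cast
    exact (Nat.lt_floor_add_one _).le
  have hNle : (N : ℝ) ≤ T * L / ρ + 1 := by
    rw [hN]; push_cast
    have := Nat.floor_le (show 0 ≤ T * L / ρ by positivity)
    linarith
  have hsub : {a : Space3 | ∃ s ∈ Icc 0 T, dist a (d s) ≤ ρ} ⊆
      ⋃ m ∈ Finset.range (N + 1), Metric.closedBall (d (m * (T / N))) (2 * ρ) := by
    rintro a ⟨s, hs, ha⟩
    rcases eq_or_lt_of_le hT with hT0 | hTpos
    · -- `T = 0`
      have hs0 : s = 0 := le_antisymm (hs.2.trans hT0.ge) hs.1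
      refine mem_iUnion₂.2 ⟨0, Finset.mem_range.2 (Nat.succ_pos _), ?_⟩
      rw [Metric.mem_closedBall]
      simp only [Nat.cast_zero, zero_mul]
      rw [hs0] at ha
      linarith
    · set m : ℕ := ⌊s * N / T⌋₊ with hm
      have hq : 0 ≤ s * N / T := by have := hs.1; positivity
      have hm1 : (m : ℝ) ≤ s * N / T := Nat.floor_le hq
      have hm2 : s * N / T < m + 1 := Nat.lt_floor_add_one _
      have hmN : m ≤ N := by
        have : (m : ℝ) ≤ N := by
          refine hm1.trans ?_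
          rw [div_le_iff₀ hTpos, mul_comm (N : ℝ) T]
          exact mul_le_mul_of_nonneg_right hs.2 hNpos.le
        exact_mod_cast this
      have ht1 : m * (T / N) ≤ s := by
        have := mul_le_mul_of_nonneg_right hm1 (show 0 ≤ T / N by positivity)
        refine this.trans (le_of_eq ?_)
        field_simp
      have ht2 : s ≤ m * (T / N) + T / N := by
        have := mul_le_mul_of_nonneg_right hm2.le (show 0 ≤ T / N by positivity)
        have e : s * N / T * (T / N) = s := by field_simp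
        rw [e] at this
        linarith
      have ht0 : 0 ≤ m * (T / N) := by positivity
      refine mem_iUnion₂.2 ⟨m, Finset.mem_range.2 (Nat.lt_succ_of_le hmN), ?_⟩
      rw [Metric.mem_closedBall]
      have h1 := hd s hs (m * (T / N)) ⟨ht0, ht1.trans hs.2⟩
      have h2 : |s - m * (T / N)| ≤ T / N := by
        rw [abs_of_nonneg (by linarith)]
        linarith
      have h3 : L * |s - m * (T / N)| ≤ ρ := by
        refine (mul_le_mul_of_nonneg_left h2 hL).trans ?_
        rw [← mul_div_assoc, div_le_iff₀ hNpos]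
        rw [div_le_iff₀ hρ] at hNge
        linarith
      calc dist a (d (m * (T / N))) ≤ dist a (d s) + dist (d s) (d (m * (T / N))) :=
            dist_triangle _ _ _
        _ ≤ ρ + ρ := add_le_add ha (h1.trans h3)
        _ = 2 * ρ := by ring
  have hball : ∀ x : Space3, volume (Metric.closedBall x (2 * ρ)) =
      ENNReal.ofReal (8 * ρ ^ 3) * volume (Metric.closedBall (0 : Space3) 1) := by
    intro x
    rw [EuclideanSpace.volume_closedBall_fin_three, EuclideanSpace.volume_closedBall_fin_three,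
      ENNReal.ofReal_one, one_pow, one_mul, ← ENNReal.ofReal_pow (by positivity)]
    congr 2
    ring
  calc volume {a : Space3 | ∃ s ∈ Icc 0 T, dist a (d s) ≤ ρ}
      ≤ volume (⋃ m ∈ Finset.range (N + 1), Metric.closedBall (d (m * (T / N))) (2 * ρ)) :=
        measure_mono hsub
    _ ≤ ∑ m ∈ Finset.range (N + 1), volume (Metric.closedBall (d (m * (T / N))) (2 * ρ)) :=
        measure_biUnion_finset_le _ _
    _ = ((N + 1 : ℕ) : ℝ≥0∞) * (ENNReal.ofReal (8 * ρ ^ 3) *
          volume (Metric.closedBall (0 : Space3) 1)) := by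
        simp_rw [hball]
        rw [Finset.sum_const, nsmul_eq_mul, Finset.card_range]
    _ ≤ _ := by
        rw [← mul_assoc]
        refine mul_le_mul_left ?_ _
        rw [← ENNReal.ofReal_natCast, ← ENNReal.ofReal_mul (by positivity)]
        refine ENNReal.ofReal_le_ofReal ?_
        push_cast
        calc ((N : ℝ) + 1) * (8 * ρ ^ 3) ≤ (T * L / ρ + 1 + 1) * (8 * ρ ^ 3) :=
              mul_le_mul_of_nonneg_right (by linarith) (by positivity)
          _ = 16 * ρ ^ 3 + 8 * (T * L * ρ ^ 2) := by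
              field_simp
              ring

/-- The marked particle of the isolated configuration comes within `ρ` of the curve `c`. -/
def tubeE (Φ : Space3 → ℝ) (ε T ρ : ℝ) (c : ℝ → Space3) {k : ℕ} (j : Fin k) : Set (Config k) :=
  {V | ∃ s ∈ Icc 0 T, dist (flow Φ ε s V j).1 (c s) ≤ ρ}

theorem measurableSet_tubeE {Φ : Space3 → ℝ} (hΦ : AdmissiblePotential Φ) {ε : ℝ} (hε : 0 < ε)
    {T : ℝ} (hT : 0 ≤ T) (ρ : ℝ) {c : ℝ → Space3} (hc : ContinuousOn c (Icc 0 T)) {k : ℕ}
    (j : Fin k) : MeasurableSet (tubeE Φ ε T ρ c j) := by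
  set c' : ℝ → Space3 := IccExtend hT ((Icc 0 T).domRestrict c) with hc'
  have hcc : Continuous c' := (continuousOn_iff_continuous_domRestrict.1 hc).Icc_extend'
  have he : ∀ s ∈ Icc 0 T, c' s = c s := fun s hs => by
    rw [hc', IccExtend_of_mem _ _ hs]
    rfl
  have h1 : RCE fun (V : Config k) s => dist (flow Φ ε s V j).1 (c' s) ≤ ρ :=
    RCE.of_le (CF0.dist_flow_path hΦ hε measurable_id j (c := fun _ => c') (fun _ => hcc)
      fun s => measurable_const) ρ
  have h2 := h1.existsIcc (α := fun _ => (0 : ℝ)) (β := fun _ => T) measurable_const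
    measurable_const
  have h3 : tubeE Φ ε T ρ c j = {V : Config k | ∃ s ∈ Icc ((fun _ : Config k => (0 : ℝ)) V)
      ((fun _ : Config k => T) V), dist (flow Φ ε s V j).1 (c' s) ≤ ρ} := by
    ext V
    constructor
    · rintro ⟨s, hs, h⟩
      exact ⟨s, hs, by rwa [he s hs]⟩
    · rintro ⟨s, hs, h⟩
      exact ⟨s, hs, by rwa [he s hs] at h⟩
  rw [h3]
  exact h2

/-- speed scale of an isolated group -/
def spd (Φ : Space3 → ℝ) {k : ℕ} (V : Config k) : ℝ := Real.sqrt (2 * (kin V + stabB Φ * k))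

theorem spd_nonneg (Φ : Space3 → ℝ) {k : ℕ} (V : Config k) : 0 ≤ spd Φ V := Real.sqrt_nonneg _

theorem measurable_spd (Φ : Space3 → ℝ) {k : ℕ} : Measurable (spd Φ : Config k → ℝ) :=
  ((measurable_kinc.add_const _).const_mul _).sqrt

theorem spd_mul_gwc_le (Φ : Space3 → ℝ) {γ γ' : ℝ} (hγ : γ < γ') (K : ℕ) : ∃ C : ℝ≥0∞, C ≠ ∞ ∧
    ∀ k ≤ K, ∀ V : Config k, ENNReal.ofReal (1 + spd Φ V) * gwc γ' V ≤ C * gwc γ V := by
  refine ⟨ENNReal.ofReal (2 + 2 * stabB Φ * K + 1 / (γ' - γ)), ENNReal.ofReal_ne_top, ?_⟩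
  intro k hk V
  have hB := stabB_nonneg Φ
  have hkin := kin_nonneg V
  have hk' : (k : ℝ) ≤ K := by exact_mod_cast hk
  have hg : 0 < γ' - γ := by linarith
  rw [gwc_eq_exp, gwc_eq_exp, ← ENNReal.ofReal_mul (by have := spd_nonneg Φ V; linarith),
    ← ENNReal.ofReal_mul (by positivity)]
  refine ENNReal.ofReal_le_ofReal ?_
  have h1 : spd Φ V ≤ 1 + 2 * (kin V + stabB Φ * k) := by
    unfold spd
    rw [Real.sqrt_le_left (by positivity)]
    nlinarith [mul_nonneg hB (Nat.cast_nonneg (α := ℝ) k)]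
  have h2 : 2 * kin V ≤ (1 / (γ' - γ)) * Real.exp (2 * (γ' - γ) * kin V) := by
    rw [one_div, ← div_eq_inv_mul, le_div_iff₀ hg]
    have := Real.add_one_le_exp (2 * (γ' - γ) * kin V)
    linarith
  have h3 : (1 : ℝ) ≤ Real.exp (2 * (γ' - γ) * kin V) := by
    rw [Real.one_le_exp_iff]
    positivity
  have h4 : 1 + spd Φ V ≤ (2 + 2 * stabB Φ * K + 1 / (γ' - γ)) *
      Real.exp (2 * (γ' - γ) * kin V) := by
    have h5 : stabB Φ * k ≤ stabB Φ * K := mul_le_mul_of_nonneg_left hk' hB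
    have h6 : (2 + 2 * stabB Φ * K) * 1 ≤ (2 + 2 * stabB Φ * K) *
        Real.exp (2 * (γ' - γ) * kin V) :=
      mul_le_mul_of_nonneg_left h3 (by positivity)
    linarith
  calc (1 + spd Φ V) * Real.exp (-(2 * γ' * kin V))
      ≤ ((2 + 2 * stabB Φ * K + 1 / (γ' - γ)) * Real.exp (2 * (γ' - γ) * kin V)) *
          Real.exp (-(2 * γ' * kin V)) := mul_le_mul_of_nonneg_right h4 (Real.exp_pos _).le
    _ = (2 + 2 * stabB Φ * K + 1 / (γ' - γ)) * Real.exp (-(2 * γ * kin V)) := by
        rw [mul_assoc, ← Real.exp_add]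
        congr 2
        ring

theorem dist_flow_le_spd {Φ : Space3 → ℝ} (hΦ : AdmissiblePotential Φ) {ε : ℝ} (hε : 0 < ε)
    {k : ℕ} {V : Config k} (hV : V ∈ PairExcluded ε k) (j : Fin k) (s t : ℝ) :
    dist (flow Φ ε t V j).1 (flow Φ ε s V j).1 ≤ spd Φ V * |t - s| := by
  have h := dist_pos_flow_le hΦ hε (pairExcluded_subset_Dom (Φ := Φ) hε k hV) s t j
  rwa [energy_pairExcluded hΦ hε hV, Fintype.card_fin] at h

theorem pairExcluded_shiftX {ε : ℝ} {k : ℕ} (a : Space3) (V : Config k) :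
    shiftX a V ∈ PairExcluded ε k ↔ V ∈ PairExcluded ε k := by
  have h : ∀ i i', dist (shiftX a V i).1 (shiftX a V i').1 = dist (V i).1 (V i').1 := fun i i' =>
    dist_add_right _ _ _
  constructor
  · intro hV i i' hii
    have := hV i i' hii
    rwa [h] at this
  · intro hV i i' hii
    have := hV i i' hii
    rwa [← h] at this

/-- Translational average of the tube event. -/
theorem avg_tubeE_le {Φ : Space3 → ℝ} (hΦ : AdmissiblePotential Φ) {ε : ℝ} (hε : 0 < ε)
    {T ρ Λ : ℝ} (hT : 0 ≤ T) (hρ : 0 < ρ) (hΛ : 0 ≤ Λ) {c : ℝ → Space3}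
    (hc : ∀ s ∈ Icc 0 T, ∀ s' ∈ Icc 0 T, dist (c s) (c s') ≤ Λ * |s - s'|) {k : ℕ} (j : Fin k)
    {V : Config k} (hV : V ∈ PairExcluded ε k) :
    avg ((tubeE Φ ε T ρ c j).indicator fun _ => 1) V ≤
      ENNReal.ofReal (16 * ρ ^ 3 + 8 * (T * (spd Φ V + Λ) * ρ ^ 2)) *
        volume (Metric.closedBall (0 : Space3) 1) := by
  have hcc : ContinuousOn c (Icc 0 T) := by
    have : LipschitzOnWith (Real.toNNReal Λ) c (Icc 0 T) := by
      refine LipschitzOnWith.of_dist_le_mul fun s hs s' hs' => ?_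
      rw [Real.coe_toNNReal Λ hΛ, Real.dist_eq]
      exact hc s hs s' hs'
    exact this.continuousOn
  have hm := measurableSet_tubeE hΦ hε hT ρ hcc j
  have hset : ∀ a : Space3, shiftX a V ∈ tubeE Φ ε T ρ c j ↔
      a ∈ {a : Space3 | ∃ s ∈ Icc 0 T, dist a (c s - (flow Φ ε s V j).1) ≤ ρ} := by
    intro a
    unfold tubeE
    simp only [mem_ofPred_eq]
    refine exists_congr fun s => and_congr_right fun _ => ?_
    rw [flow_shiftX hΦ hε]
    have : dist ((shiftX a (flow Φ ε s V)) j).1 (c s) = dist a (c s - (flow Φ ε s V j).1) := by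
      change dist ((flow Φ ε s V j).1 + a) (c s) = _
      rw [dist_eq_norm, dist_eq_norm]
      congr 1
      abel
    rw [this]
  have hd : ∀ s ∈ Icc 0 T, ∀ s' ∈ Icc 0 T,
      dist (c s - (flow Φ ε s V j).1) (c s' - (flow Φ ε s' V j).1) ≤
        (spd Φ V + Λ) * |s - s'| := by
    intro s hs s' hs'
    have h1 := dist_flow_le_spd hΦ hε hV j s' s
    have h2 := hc s hs s' hs'
    calc dist (c s - (flow Φ ε s V j).1) (c s' - (flow Φ ε s' V j).1)
        ≤ dist (c s) (c s') + dist (flow Φ ε s V j).1 (flow Φ ε s' V j).1 := by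
          rw [dist_eq_norm, dist_eq_norm, dist_eq_norm]
          have : c s - (flow Φ ε s V j).1 - (c s' - (flow Φ ε s' V j).1) =
              (c s - c s') - ((flow Φ ε s V j).1 - (flow Φ ε s' V j).1) := by abel
          rw [this]
          exact norm_sub_le _ _
      _ ≤ Λ * |s - s'| + spd Φ V * |s - s'| := add_le_add h2 h1
      _ = _ := by ring
  have hv := volume_tube_le (d := fun s => c s - (flow Φ ε s V j).1) hT hρ
    (show 0 ≤ spd Φ V + Λ from add_nonneg (spd_nonneg Φ V) hΛ) hd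
  refine le_trans (le_of_eq ?_) hv
  unfold avg
  have hms : MeasurableSet {a : Space3 | ∃ s ∈ Icc 0 T, dist a (c s - (flow Φ ε s V j).1) ≤ ρ} := by
    have : {a : Space3 | ∃ s ∈ Icc 0 T, dist a (c s - (flow Φ ε s V j).1) ≤ ρ} =
        (fun a : Space3 => shiftX a V) ⁻¹' tubeE Φ ε T ρ c j := by
      ext a
      exact (hset a).symm
    rw [this]
    exact (measurable_shiftX2.comp (measurable_id.prodMk measurable_const)) hm
  rw [← lintegral_indicator_one hms]
  refine lintegral_congr fun a => ?_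
  by_cases h : shiftX a V ∈ tubeE Φ ε T ρ c j
  · rw [indicator_of_mem h, indicator_of_mem ((hset a).1 h)]
    rfl
  · rw [indicator_of_notMem h, indicator_of_notMem fun hc => h ((hset a).2 hc)]

namespace BadSet

variable {γ : ℝ} {K : ℕ} {Bad : BadFam}

/-- **(m3) tube bound.** -/
theorem tube {Φ : Space3 → ℝ} (hΦ : AdmissiblePotential Φ) {γ' : ℝ} (hγ : γ < γ') {T : ℝ}
    (hT : 0 ≤ T) (K : ℕ) : ∃ C : ℝ≥0∞, C ≠ ∞ ∧ ∀ (Bad : BadFam) (E : BadSet γ K Bad),
      ∀ ε : ℝ, 0 < ε → ∀ k ≤ K, ∀ (j : Fin k) (ρ Λ : ℝ), 0 < ρ → 0 ≤ Λ → ∀ c : ℝ → Space3,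
      (∀ s ∈ Icc 0 T, ∀ s' ∈ Icc 0 T, dist (c s) (c s') ≤ Λ * |s - s'|) →
      ∫⁻ V : Config k, (tubeE Φ ε T ρ c j).indicator (fun _ => 1) V *
          ((PairExcluded ε k).indicator (fun _ => 1) V * (gwc γ' V * E.ind ε k V j)) ≤
        C * ENNReal.ofReal (ρ ^ 3 + (1 + Λ) * ρ ^ 2) * pm γ (E.B ε k j) j := by
  obtain ⟨C, hC, hsp⟩ := spd_mul_gwc_le Φ hγ K
  refine ⟨ENNReal.ofReal (16 + 8 * T) * volume (Metric.closedBall (0 : Space3) 1) * C,
    ENNReal.mul_ne_top (ENNReal.mul_ne_top ENNReal.ofReal_ne_top volume_ball_lt_top) hC, ?_⟩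
  intro Bad E ε hε k hk j ρ Λ hρ hΛ c hc
  have hcc : ContinuousOn c (Icc 0 T) := by
    have : LipschitzOnWith (Real.toNNReal Λ) c (Icc 0 T) := by
      refine LipschitzOnWith.of_dist_le_mul fun s hs s' hs' => ?_
      rw [Real.coe_toNNReal Λ hΛ, Real.dist_eq]
      exact hc s hs s' hs'
    exact this.continuousOn
  have hm := measurableSet_tubeE hΦ hε hT ρ hcc j
  have hPE : TInv ((PairExcluded ε k).indicator fun _ => (1 : ℝ≥0∞)) :=
    TInv.ind (measurableSet_pairExcluded ε k) fun a V => pairExcluded_shiftX a V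
  have hG : TInv fun V : Config k =>
      (PairExcluded ε k).indicator (fun _ => (1 : ℝ≥0∞)) V * (gwc γ' V * E.ind ε k V j) :=
    hPE.mul ((tinv_gwc γ').mul (E.tinv_ind ε k j))
  rw [lintegral_unpin (pin_apply j) hG (measurable_const.indicator hm) measurable_hb lintegral_hb]
  have hpt : ∀ V : Config k, hb (V j).1 * (((PairExcluded ε k).indicator (fun _ => (1 : ℝ≥0∞)) V *
      (gwc γ' V * E.ind ε k V j)) * avg ((tubeE Φ ε T ρ c j).indicator fun _ => 1) V) ≤
      (ENNReal.ofReal (16 + 8 * T) * volume (Metric.closedBall (0 : Space3) 1) * C *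
        ENNReal.ofReal (ρ ^ 3 + (1 + Λ) * ρ ^ 2)) * (hb (V j).1 * (gwc γ V * E.ind ε k V j)) := by
    intro V
    by_cases hV : V ∈ PairExcluded ε k
    swap
    · rw [indicator_of_notMem hV]
      simp
    rw [indicator_of_mem hV, one_mul]
    have h1 := avg_tubeE_le hΦ hε hT hρ hΛ hc j hV
    have hs0 := spd_nonneg Φ V
    have h2 : ENNReal.ofReal (16 * ρ ^ 3 + 8 * (T * (spd Φ V + Λ) * ρ ^ 2)) ≤
        ENNReal.ofReal (16 + 8 * T) * ENNReal.ofReal (ρ ^ 3 + (1 + Λ) * ρ ^ 2) *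
          ENNReal.ofReal (1 + spd Φ V) := by
      rw [← ENNReal.ofReal_mul (by positivity), ← ENNReal.ofReal_mul (by positivity)]
      refine ENNReal.ofReal_le_ofReal ?_
      have h3 : spd Φ V + Λ ≤ (1 + Λ) * (1 + spd Φ V) := by nlinarith
      have h4 : T * (spd Φ V + Λ) * ρ ^ 2 ≤ T * ((1 + Λ) * (1 + spd Φ V)) * ρ ^ 2 :=
        mul_le_mul_of_nonneg_right (mul_le_mul_of_nonneg_left h3 hT) (by positivity)
      have h5 : 0 ≤ T * (ρ ^ 3) * (1 + spd Φ V) := by positivity
      have h6 : 0 ≤ (1 + Λ) * ρ ^ 2 * (1 + spd Φ V) := by positivity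
      have h7 : 0 ≤ ρ ^ 3 * spd Φ V := by positivity
      nlinarith
    calc hb (V j).1 * ((gwc γ' V * E.ind ε k V j) *
          avg ((tubeE Φ ε T ρ c j).indicator fun _ => 1) V)
        ≤ hb (V j).1 * ((gwc γ' V * E.ind ε k V j) *
            ((ENNReal.ofReal (16 + 8 * T) * ENNReal.ofReal (ρ ^ 3 + (1 + Λ) * ρ ^ 2) *
              ENNReal.ofReal (1 + spd Φ V)) * volume (Metric.closedBall (0 : Space3) 1))) :=
          mul_le_mul_right (mul_le_mul_right (h1.trans (mul_le_mul_left h2 _)) _) _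
      _ = (ENNReal.ofReal (16 + 8 * T) * volume (Metric.closedBall (0 : Space3) 1) *
            ENNReal.ofReal (ρ ^ 3 + (1 + Λ) * ρ ^ 2)) *
            (hb (V j).1 * ((ENNReal.ofReal (1 + spd Φ V) * gwc γ' V) * E.ind ε k V j)) := by ring
      _ ≤ (ENNReal.ofReal (16 + 8 * T) * volume (Metric.closedBall (0 : Space3) 1) *
            ENNReal.ofReal (ρ ^ 3 + (1 + Λ) * ρ ^ 2)) *
            (hb (V j).1 * ((C * gwc γ V) * E.ind ε k V j)) :=
          mul_le_mul_right (mul_le_mul_right (mul_le_mul_left (hsp k hk V) _) _) _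
      _ = _ := by ring
  refine (lintegral_mono hpt).trans (le_of_eq ?_)
  have hmm : Measurable fun V : Config k => hb (V j).1 * (gwc γ V * E.ind ε k V j) :=
    (measurable_hb.comp (measurable_pi_apply j).fst).mul
      ((measurable_gwc γ).mul (E.measurable_ind ε k j))
  rw [lintegral_const_mul _ hmm]
  rfl

end BadSet

/-! ## (m2), (m3) with the gas weight -/

theorem pin_flow {Φ : Space3 → ℝ} (hΦ : AdmissiblePotential Φ) {ε : ℝ} (hε : 0 < ε) {k : ℕ}
    (r : ℝ) (i : Fin k) : Pin fun V : Config k => (flow Φ ε r V i).1 := by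
  refine ⟨?_, fun a V => ?_⟩
  · exact ((measurable_pi_apply i).comp (measurable_flow hΦ hε r)).fst
  · change (flow Φ ε r (shiftX a V) i).1 = _
    rw [flow_shiftX hΦ hε]
    rfl

namespace BadSet

variable {γ : ℝ} {K : ℕ} {Bad : BadFam}

/-- **(m2)**: bad clusters with some member in a given ball at a given time. -/
theorem point_gc (E : BadSet γ K Bad) {Φ : Space3 → ℝ} (hΦ : AdmissiblePotential Φ) {γ₀ : ℝ}
    {f₀ : PhasePoint → ℝ} {env : Space3 → ℝ≥0∞} {A : ℝ≥0∞} (h : EnvG γ₀ f₀ env A) {ε : ℝ}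
    (hε : 0 < ε) (k : ℕ) (j i : Fin k) (r : ℝ) (a : Space3) (ρ : ℝ) :
    ∫⁻ V : Config k, gcWeight f₀ ε k V * (ENNReal.ofReal (Real.exp (2 * (γ₀ - γ) * kin V)) *
        (E.ind ε k V j * (if dist (flow Φ ε r V i).1 a ≤ ρ then 1 else 0))) ≤
      A ^ k * volume (Metric.closedBall a ρ) * pm γ (E.B ε k j) j := by
  have hk : 1 ≤ k := by
    have := j.isLt
    omega
  have hmi : Measurable ((Metric.closedBall a ρ).indicator fun _ : Space3 => (1 : ℝ≥0∞)) :=
    measurable_const.indicator Metric.isClosed_closedBall.measurableSet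
  calc ∫⁻ V : Config k, gcWeight f₀ ε k V * (ENNReal.ofReal (Real.exp (2 * (γ₀ - γ) * kin V)) *
        (E.ind ε k V j * (if dist (flow Φ ε r V i).1 a ≤ ρ then 1 else 0)))
      ≤ ∫⁻ V : Config k, (A ^ k * (Metric.closedBall a ρ).indicator (fun _ => 1)
          (flow Φ ε r V i).1) * (gwc γ V * E.ind ε k V j) := by
        refine lintegral_mono fun V => ?_
        have h1 : gcWeight f₀ ε k V * ENNReal.ofReal (Real.exp (2 * (γ₀ - γ) * kin V)) ≤
            A ^ k * gwc γ V := by
          refine (gcWeight_exp_le_env h γ ε V j).trans ((indicator_le_self'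
            (fun _ _ => bot_le) V).trans (mul_le_mul_left ?_ _))
          obtain ⟨m, rfl⟩ := Nat.exists_eq_add_of_le' hk
          rw [Nat.add_sub_cancel, pow_succ']
          exact mul_le_mul_left (h.le_A _) _
        have h2 : (if dist (flow Φ ε r V i).1 a ≤ ρ then (1 : ℝ≥0∞) else 0) =
            (Metric.closedBall a ρ).indicator (fun _ => 1) (flow Φ ε r V i).1 := by
          by_cases hd : dist (flow Φ ε r V i).1 a ≤ ρ
          · rw [if_pos hd, indicator_of_mem (Metric.mem_closedBall.2 hd)]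
          · rw [if_neg hd, indicator_of_notMem fun hc => hd (Metric.mem_closedBall.1 hc)]
        rw [h2, ← mul_assoc]
        calc gcWeight f₀ ε k V * ENNReal.ofReal (Real.exp (2 * (γ₀ - γ) * kin V)) *
              (E.ind ε k V j * (Metric.closedBall a ρ).indicator (fun _ => 1) (flow Φ ε r V i).1)
            ≤ (A ^ k * gwc γ V) *
              (E.ind ε k V j * (Metric.closedBall a ρ).indicator (fun _ => 1)
                (flow Φ ε r V i).1) := mul_le_mul_left h1 _
          _ = _ := by ring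
    _ = (∫⁻ x, A ^ k * (Metric.closedBall a ρ).indicator (fun _ => 1) x) *
          pm γ (E.B ε k j) j :=
        E.point ε k j (pin_flow hΦ hε r i)
          (h := fun x => A ^ k * (Metric.closedBall a ρ).indicator (fun _ => 1) x)
          (hmi.const_mul _)
    _ = _ := by
        rw [lintegral_const_mul _ hmi,
          lintegral_indicator Metric.isClosed_closedBall.measurableSet, lintegral_const,
          Measure.restrict_apply_univ, one_mul]

/-- **(m3)** with the gas weight, exponential moments, exact order `o(ε^(2(k-1)))`. -/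
theorem tube_gc {Φ : Space3 → ℝ} (hΦ : AdmissiblePotential Φ) {γ' γ₀ : ℝ} (hγ : γ < γ')
    {f₀ : PhasePoint → ℝ} {env : Space3 → ℝ≥0∞} {A : ℝ≥0∞} (h : EnvG γ₀ f₀ env A) {T : ℝ}
    (hT : 0 ≤ T) (K : ℕ) : ∃ C : ℝ≥0∞, C ≠ ∞ ∧ ∀ (Bad : BadFam) (E : BadSet γ K Bad),
      ∀ ε : ℝ, 0 < ε → ∀ k ≤ K, ∀ (j : Fin k) (ρ Λ : ℝ), 0 < ρ → 0 ≤ Λ → ∀ c : ℝ → Space3,
      (∀ s ∈ Icc 0 T, ∀ s' ∈ Icc 0 T, dist (c s) (c s') ≤ Λ * |s - s'|) →
      ∫⁻ V : Config k, gcWeight f₀ ε k V * (ENNReal.ofReal (Real.exp (2 * (γ₀ - γ') * kin V)) *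
          (E.ind ε k V j * (tubeE Φ ε T ρ c j).indicator (fun _ => 1) V)) ≤
        C * ENNReal.ofReal (ρ ^ 3 + (1 + Λ) * ρ ^ 2) * pm γ (E.B ε k j) j := by
  obtain ⟨C, hC, hb⟩ := tube hΦ hγ hT K
  refine ⟨(∑ k ∈ Finset.range (K + 1), A ^ k) * C, ENNReal.mul_ne_top
    (ENNReal.sum_ne_top.2 fun k _ => ENNReal.pow_ne_top h.A_ne) hC, ?_⟩
  intro Bad E ε hε k hk j ρ Λ hρ hΛ c hc
  have hk1 : 1 ≤ k := by
    have := j.isLt
    omega
  have hAk : A ^ k ≤ ∑ k ∈ Finset.range (K + 1), A ^ k :=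
    Finset.single_le_sum (f := fun k => A ^ k) (fun _ _ => bot_le)
      (Finset.mem_range.2 (Nat.lt_succ_of_le hk))
  have hfin : A ^ k ≠ ∞ := ENNReal.pow_ne_top h.A_ne
  calc ∫⁻ V : Config k, gcWeight f₀ ε k V * (ENNReal.ofReal (Real.exp (2 * (γ₀ - γ') * kin V)) *
          (E.ind ε k V j * (tubeE Φ ε T ρ c j).indicator (fun _ => 1) V))
      ≤ ∫⁻ V : Config k, A ^ k * ((tubeE Φ ε T ρ c j).indicator (fun _ => 1) V *
          ((PairExcluded ε k).indicator (fun _ => 1) V * (gwc γ' V * E.ind ε k V j))) := by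
        refine lintegral_mono fun V => ?_
        have h1 : gcWeight f₀ ε k V * ENNReal.ofReal (Real.exp (2 * (γ₀ - γ') * kin V)) ≤
            A ^ k * ((PairExcluded ε k).indicator (fun _ => 1) V * gwc γ' V) := by
          refine (gcWeight_exp_le_env h γ' ε V j).trans ?_
          by_cases hV : V ∈ PairExcluded ε k
          · rw [indicator_of_mem hV, indicator_of_mem hV, one_mul]
            refine mul_le_mul_left ?_ _
            obtain ⟨m, rfl⟩ := Nat.exists_eq_add_of_le' hk1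
            rw [Nat.add_sub_cancel, pow_succ']
            exact mul_le_mul_left (h.le_A _) _
          · rw [indicator_of_notMem hV]
            exact bot_le
        rw [← mul_assoc]
        calc gcWeight f₀ ε k V * ENNReal.ofReal (Real.exp (2 * (γ₀ - γ') * kin V)) *
              (E.ind ε k V j * (tubeE Φ ε T ρ c j).indicator (fun _ => 1) V)
            ≤ (A ^ k * ((PairExcluded ε k).indicator (fun _ => 1) V * gwc γ' V)) *
              (E.ind ε k V j * (tubeE Φ ε T ρ c j).indicator (fun _ => 1) V) :=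
              mul_le_mul_left h1 _
          _ = _ := by ring
    _ = A ^ k * ∫⁻ V : Config k, (tubeE Φ ε T ρ c j).indicator (fun _ => 1) V *
          ((PairExcluded ε k).indicator (fun _ => 1) V * (gwc γ' V * E.ind ε k V j)) :=
        lintegral_const_mul' _ _ hfin
    _ ≤ (∑ k ∈ Finset.range (K + 1), A ^ k) *
          (C * ENNReal.ofReal (ρ ^ 3 + (1 + Λ) * ρ ^ 2) * pm γ (E.B ε k j) j) :=
        mul_le_mul' hAk (hb Bad E ε hε k hk j ρ Λ hρ hΛ c hc)
    _ = _ := by ring

end BadSet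

end Crest.Agent.R122.NG416

end
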