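import Crest.Agent.R122.BandIn_674
import Crest.Agent.R122.NGgas_416

/-!
Row 122, F7 (helper674): the null inputs of `BandIn_674` in Mecke'd form.

* `evMass_mecke` : Mecke formula for the mass of a measurable covariant event.
* `evMass_le_config` : pointwise majorant in the world `V ++ w`.
* `tendsto_ngMass` : `ngMass → 0` from a `BadSet` (D5 gas level of helper416) and the deterministic
  part of D5.
* `rtMass_le` : `rtMass` from a pointwise majorant.
-/

set_option autoImplicit false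
set_option synthInstance.maxSize 1024

open MeasureTheory Set Filter Topology
open Crest.AnalysisR.Kinetic
open scoped ENNReal Classical

noncomputable section

namespace Crest.Agent.R122.BandUp674

open Kin796 Kin796.CTree Disc416 Scat818 Flow671 Flux663 Tree674 Final973 Causal291 GC311
  Relabel674 Master566 GIV566 RealTree674 Band974 TreeLim974 TreeLimX974 InEq2 HTree674 TreeEps399

variable {Φ : Space3 → ℝ} {ε t T' : ℝ} {f₀ : PhasePoint → ℝ}

/-- relabelling covariance of an event -/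
def CovEv (ε : ℝ) (E : (n : ℕ) → Config n → Fin n → Prop) : Prop :=
  ∀ (n : ℕ) (σ : Equiv.Perm (Fin n)) (Z : Config n) (i : Fin n), Z ∈ PairExcluded ε n →
    (E n (fun j => Z (σ j)) i ↔ E n Z (σ i))

/-- **Mecke formula for the mass of an event.** -/
theorem evMass_mecke (hf : Measurable f₀) (hΦ : AdmissiblePotential Φ) (hε : 0 < ε) (ht : 0 ≤ t)
    (S : Set ℕ) {E : (n : ℕ) → Config n → Fin n → Prop} (hE : MeasEv ε E) (hC : CovEv ε E)
    {φ : PhasePoint → ℝ≥0∞} (hφ : Measurable φ) :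
    evMass Φ f₀ ε t S E φ = (activity ε)⁻¹ * ∑' k : ℕ, activity ε ^ k / (k.factorial : ℝ≥0∞) *
      ∫⁻ V : Config k, gcWeight f₀ ε k V * gcE f₀ ε (fun m w => perpInd ε V w * ∑ j : Fin k,
        if (bc Φ ε (Fin.append V w) t (Fin.castAdd m j)).toFinset = block k m then
          (if ((Fin.append V w : Config (k + m)) ∈ PairExcluded ε (k + m) ∧
            E (k + m) (Fin.append V w) (Fin.castAdd m j)) ∧ (block k m).card ∈ S then
            φ (pth Φ ε (Fin.append V w) t (Fin.castAdd m j)) else 0) else 0) := by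
  have hM := bc_mecke hf hΦ hε ht
    (F := fun n i B Z => if (Z ∈ PairExcluded ε n ∧ E n Z i) ∧ B.card ∈ S then
      φ (pth Φ ε Z t i) else 0)
    (fun n σ i B Z hZ => by
      have h2 : (fun i => Z (σ i)) ∈ PairExcluded ε n := (pairExcluded_comp_iff σ Z).2 hZ
      simp only [Finset.card_map, hZ, h2, true_and, hC n σ Z i hZ, pth_perm hΦ hε])
    (fun n i B => by
      refine Measurable.ite ?_ (hφ.comp (measurable_pth' hΦ hε i)) measurable_const
      by_cases hB : B.card ∈ S
      · simp only [hB, and_true]; exact hE n i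
      · simp only [hB, and_false]; exact MeasurableSet.const False)
  unfold evMass
  rw [← hM]
  refine congrArg _ (gcE_congr f₀ ε fun n Z hZ => Finset.sum_congr rfl fun i _ => ?_)
  rw [ncard_bc]
  by_cases h : (bc Φ ε Z t i).toFinset.card ∈ S ∧ E n Z i
  · rw [if_pos h, if_pos (⟨⟨hZ, h.2⟩, h.1⟩ : (Z ∈ PairExcluded ε n ∧ E n Z i) ∧
      (bc Φ ε Z t i).toFinset.card ∈ S)]
  · rw [if_neg h, if_neg fun h' => h ⟨h'.2, h'.1.2⟩]

/-- **Pointwise majorants in the world `V ++ w`.** -/
theorem evMass_le_config (hf : Measurable f₀) (hΦ : AdmissiblePotential Φ) (hε : 0 < ε)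
    (ht : 0 ≤ t) (S : Set ℕ) {E : (n : ℕ) → Config n → Fin n → Prop} (hE : MeasEv ε E)
    (hC : CovEv ε E) {φ : PhasePoint → ℝ≥0∞} (hφ : Measurable φ)
    (N : (k m : ℕ) → Config k → Config m → Fin k → ℝ≥0∞)
    (hN : ∀ (k m : ℕ) (V : Config k) (w : Config m) (j : Fin k), V ∈ PairExcluded ε k →
      w ∈ PairExcluded ε m → Perp ε V w → k ∈ S →
      (bc Φ ε (Fin.append V w) t (Fin.castAdd m j)).toFinset = block k m →
      E (k + m) (Fin.append V w) (Fin.castAdd m j) →
      φ (pth Φ ε (Fin.append V w) t (Fin.castAdd m j)) ≤ N k m V w j) :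
    evMass Φ f₀ ε t S E φ ≤ (activity ε)⁻¹ * ∑' k : ℕ, if k ∈ S then
      activity ε ^ k / (k.factorial : ℝ≥0∞) * ∫⁻ V : Config k, gcWeight f₀ ε k V *
        gcE f₀ ε (fun m w => perpInd ε V w * ∑ j : Fin k, N k m V w j) else 0 := by
  rw [evMass_mecke hf hΦ hε ht S hE hC hφ]
  refine mul_le_mul_right (ENNReal.tsum_le_tsum fun k => ?_) _
  by_cases hk : k ∈ S
  · rw [if_pos hk]
    refine mul_le_mul_right (lintegral_mono fun V => ?_) _
    by_cases hV : V ∈ PairExcluded ε k
    swap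
    · have h0 : gcWeight f₀ ε k V = 0 := by simp [gcWeight, Set.indicator_of_notMem hV]
      simp only [h0, zero_mul]
      exact le_rfl
    refine mul_le_mul_right (gcE_mono f₀ ε fun m w hw => ?_) _
    by_cases hp : Perp ε V w
    swap
    · have h0 : perpInd ε V w = 0 := if_neg hp
      rw [h0, zero_mul, zero_mul]
    refine mul_le_mul_right (Finset.sum_le_sum fun j _ => ?_) _
    by_cases hb : (bc Φ ε (Fin.append V w) t (Fin.castAdd m j)).toFinset = block k m
    · rw [if_pos hb]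
      by_cases hc : ((Fin.append V w : Config (k + m)) ∈ PairExcluded ε (k + m) ∧
            E (k + m) (Fin.append V w) (Fin.castAdd m j)) ∧ (block k m).card ∈ S
      · rw [if_pos hc]
        exact hN k m V w j hV hw hp hk hb hc.1.2
      · rw [if_neg hc]; exact zero_le
    · rw [if_neg hb]; exact zero_le
  · rw [if_neg hk]
    have h0 : ∀ V : Config k, gcWeight f₀ ε k V * gcE f₀ ε (fun m w => perpInd ε V w *
        ∑ j : Fin k, if (bc Φ ε (Fin.append V w) t (Fin.castAdd m j)).toFinset = block k m then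
          (if ((Fin.append V w : Config (k + m)) ∈ PairExcluded ε (k + m) ∧
            E (k + m) (Fin.append V w) (Fin.castAdd m j)) ∧ (block k m).card ∈ S then
            φ (pth Φ ε (Fin.append V w) t (Fin.castAdd m j)) else 0) else 0) = 0 := by
      intro V
      have h1 : gcE f₀ ε (fun m w => perpInd ε V w *
        ∑ j : Fin k, if (bc Φ ε (Fin.append V w) t (Fin.castAdd m j)).toFinset = block k m then
          (if ((Fin.append V w : Config (k + m)) ∈ PairExcluded ε (k + m) ∧
            E (k + m) (Fin.append V w) (Fin.castAdd m j)) ∧ (block k m).card ∈ S then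
            φ (pth Φ ε (Fin.append V w) t (Fin.castAdd m j)) else 0) else 0) = 
          gcE f₀ ε (fun _ _ => 0) := by
        refine gcE_congr f₀ ε fun m w _ => ?_
        have h2 : ∀ j : Fin k,
            (if (bc Φ ε (Fin.append V w) t (Fin.castAdd m j)).toFinset = block k m then
            (if ((Fin.append V w : Config (k + m)) ∈ PairExcluded ε (k + m) ∧
            E (k + m) (Fin.append V w) (Fin.castAdd m j)) ∧ (block k m).card ∈ S then
            φ (pth Φ ε (Fin.append V w) t (Fin.castAdd m j)) else 0) else (0 : ℝ≥0∞)) = 0 := by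
          intro j
          by_cases hb : (bc Φ ε (Fin.append V w) t (Fin.castAdd m j)).toFinset = block k m
          · rw [if_pos hb, if_neg fun h => hk (by have := h.2; rwa [card_block] at this)]
          · rw [if_neg hb]
        simp only [h2, Finset.sum_const_zero, mul_zero]
      rw [h1, gcE_zero, mul_zero]
    simp only [h0, lintegral_zero, mul_zero]
    exact le_rfl

/-! ### NG -/

theorem covEv_hist (hΦ : AdmissiblePotential Φ) (hε : 0 < ε) :
    CovEv ε fun n (Z : Config n) i => ¬ ∃ (P : CTree) (ℓ : PhasePoint) (p : Par P)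
      (e : Idx P → Fin n), HTreeC Φ ε T' t Z i P ℓ p e := by
  intro n σ Z i _
  rw [not_iff_not]
  constructor
  · rintro ⟨P, ℓ, p, e, h⟩
    exact ⟨P, ℓ, p, _, (hTreeC_equiv hΦ hε σ Z i e).1 h⟩
  · rintro ⟨P, ℓ, p, e, h⟩
    have he : (fun k => σ ((fun k => σ.symm (e k)) k)) = e := by
      funext k; exact σ.apply_symm_apply _
    refine ⟨P, ℓ, p, fun k => σ.symm (e k), (hTreeC_equiv hΦ hε σ Z i _).2 ?_⟩
    rw [he]; exact h

theorem measEv_hist (hΦ : AdmissiblePotential Φ) (hε : 0 < ε) (ht : 0 ≤ t) (htT : t ≤ T') :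
    MeasEv ε fun n (Z : Config n) i => ¬ ∃ (P : CTree) (ℓ : PhasePoint) (p : Par P)
      (e : Idx P → Fin n), HTreeC Φ ε T' t Z i P ℓ p e := by
  have h := (measEv_hEv hΦ hε ht htT (A := fun _ => univ) fun _ => MeasurableSet.univ).not
  intro n i
  convert h n i using 1
  ext Z
  simp only [mem_ofPred_eq, HEv, mem_univ, and_true]

/-- **D5 at a fixed time**: `ngMass → 0` from the gas level `BadSet` and the deterministic part. -/
theorem tendsto_ngMass (hf : Measurable f₀) (h1 : ∫⁻ z, ENNReal.ofReal (f₀ z) ≤ 1)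
    (hΦ : AdmissiblePotential Φ) (ht : 0 ≤ t) (htT : t ≤ T') {γ γ₀ : ℝ} (hγ : γ ≤ γ₀) {K : ℕ}
    {Bad : NG416.BadFam} (E : NG416.BadSet γ K Bad) {env : Space3 → ℝ≥0∞} {A : ℝ≥0∞}
    (hE : NG416.EnvG γ₀ f₀ env A)
    (hdet : ∀ ε, 0 < ε → ∀ (k m : ℕ) (V : Config k) (w : Config m) (j : Fin k), k ≤ K →
      (Fin.append V w : Config (k + m)) ∈ PairExcluded ε (k + m) →
      (bc Φ ε (Fin.append V w) t (Fin.castAdd m j)).toFinset = block k m →
      (¬ ∃ (P : CTree) (ℓ : PhasePoint) (p : Par P) (e : Idx P → Fin (k + m)),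
        HTreeC Φ ε T' t (Fin.append V w : Config (k + m)) (Fin.castAdd m j) P ℓ p e) →
      Bad ε k V j) :
    Tendsto (fun ε => ngMass Φ f₀ ε T' t K) L (𝓝 0) := by
  have hm := E.mass hf hE
  refine tendsto_of_tendsto_of_tendsto_of_le_of_le' tendsto_const_nhds hm
    (Eventually.of_forall fun _ => bot_le) ?_
  filter_upwards [eventually_pos] with ε hε
  refine (evMass_le_config hf hΦ hε ht (Iic K) (measEv_hist hΦ hε ht htT) (covEv_hist hΦ hε)
    measurable_const (fun k m V w j => ENNReal.ofReal (Real.exp (2 * (γ₀ - γ) * Loc45.kin V)) *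
      E.ind ε k V j) ?_).trans ?_
  · intro k m V w j hV hw hp hk hb hng
    have hbad : Bad ε k V j := hdet ε hε k m V w j hk
      ((append_mem_pairExcluded_iff V w).2 ⟨hV, hw, hp⟩) hb hng
    have h2 : (1 : ℝ≥0∞) ≤ ENNReal.ofReal (Real.exp (2 * (γ₀ - γ) * Loc45.kin V)) := by
      rw [← ENNReal.ofReal_one]
      refine ENNReal.ofReal_le_ofReal (Real.one_le_exp ?_)
      have : 0 ≤ Loc45.kin V := by
        unfold Loc45.kin
        positivity
      have h3 : 0 ≤ γ₀ - γ := sub_nonneg.2 hγ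
      positivity
    calc (1 : ℝ≥0∞) = 1 * 1 := (one_mul 1).symm
      _ ≤ _ := mul_le_mul' h2 (E.one_le_ind hε hk hV hbad)
  · refine mul_le_mul_right ?_ _
    rw [tsum_eq_sum (s := Finset.range (K + 1))]
    · refine Finset.sum_le_sum fun k hk => ?_
      rw [if_pos (show k ∈ Iic K from Nat.lt_succ_iff.1 (Finset.mem_range.1 hk))]
      refine mul_le_mul_right (lintegral_mono fun V => mul_le_mul_right ?_ _) _
      set c : ℝ≥0∞ := ∑ j : Fin k,
        ENNReal.ofReal (Real.exp (2 * (γ₀ - γ) * Loc45.kin V)) * E.ind ε k V j with hc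
      have hcf : c ≠ ∞ := by
        rw [hc]
        refine ENNReal.sum_ne_top.2 fun j _ => ENNReal.mul_ne_top ENNReal.ofReal_ne_top ?_
        exact ne_top_of_le_ne_top ENNReal.one_ne_top (E.ind_le_one ε k V j)
      calc gcE f₀ ε (fun m w => perpInd ε V w * c) ≤ gcE f₀ ε (fun _ _ => c) := by
            refine gcE_mono f₀ ε fun m w _ => ?_
            have : perpInd ε V w ≤ 1 := by unfold perpInd; split_ifs <;> simp
            calc perpInd ε V w * c ≤ 1 * c := mul_le_mul_left this _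
              _ = c := one_mul c
        _ = c := gcE_const f₀ ε hf h1 hcf
    · intro k hk
      rw [if_neg]
      intro h2
      exact hk (Finset.mem_range.2 (Nat.lt_succ_of_le h2))

/-! ### RtG -/

theorem measEv_clean (hΦ : AdmissiblePotential Φ) (hε : 0 < ε) (ht : 0 ≤ t) :
    MeasEv ε fun _ Z i => Clean Φ ε t Z i := by
  intro n i
  have h2 := (measurable_prodMk_left (x := t) (β := Config n))
    (measurableSet_clean (κ := Fin n) hΦ hε i t)
  have h : {Z : Config n | Z ∈ PairExcluded ε n ∧ Clean Φ ε t Z i} =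
      PairExcluded ε n ∩ (fun Z : Config n => (t, Z)) ⁻¹' {q : ℝ × (Fin n → PhasePoint) |
        (0 ≤ q.1 ∧ q.1 ≤ t ∧ q.2 ∈ Dom Φ (Fin n)) ∧ Clean Φ ε q.1 q.2 i} := by
    ext Z
    exact ⟨fun h => ⟨h.1, ⟨ht, le_rfl, pairExcluded_subset_Dom hε n h.1⟩, h.2⟩,
      fun h => ⟨h.1, h.2.2⟩⟩
  rw [h]
  exact (measurableSet_pairExcluded ε n).inter h2

/-- **RtG at a fixed time**: `rtMass` from a pointwise majorant in the world `V ++ w`. -/
theorem rtMass_le (hf : Measurable f₀) (hΦ : AdmissiblePotential Φ) (hε : 0 < ε) (ht : 0 ≤ t)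
    (K : ℕ) {φ : PhasePoint → ℝ≥0∞} (hφ : Measurable φ)
    (N : (k m : ℕ) → Config k → Config m → Fin k → ℝ≥0∞)
    (hN : ∀ (k m : ℕ) (V : Config k) (w : Config m) (j : Fin k), V ∈ PairExcluded ε k →
      w ∈ PairExcluded ε m → Perp ε V w → k ≤ K →
      ∀ (P : CTree) (e : Idx P ≃ Fin k) (ℓ : PhasePoint) (p : Par P),
      e (Tree674.root P) = j →
      RealTree Φ ε t (Fin.append V w : Config (k + m)) (Fin.castAdd m j) P ℓ p
        (fun x => Fin.castAdd m (e x)) → ¬ unhit Φ ε (PT Φ ε P t ℓ p) t w →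
      φ (onLine ℓ t) ≤ N k m V w j) :
    rtMass Φ f₀ ε t K φ ≤ (activity ε)⁻¹ * ∑ k ∈ Finset.range (K + 1),
      activity ε ^ k / (k.factorial : ℝ≥0∞) * ∫⁻ V : Config k, gcWeight f₀ ε k V *
        gcE f₀ ε (fun m w => perpInd ε V w * ∑ j : Fin k, N k m V w j) := by
  refine (evMass_le_config hf hΦ hε ht (Iic K) (fun n i => ?_) (fun n σ Z i _ => ?_) hφ N
    ?_).trans (mul_le_mul_right (le_of_eq ?_) _)
  · have h1 := measEv_good hΦ hε ht (t := t) n i
    have h2 := (measEv_clean hΦ hε ht (t := t)).not n i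
    have h3 : {Z : Config n | Z ∈ PairExcluded ε n ∧ Good Φ ε t Z i ∧ ¬ Clean Φ ε t Z i} =
        {Z : Config n | Z ∈ PairExcluded ε n ∧ Good Φ ε t Z i} ∩
        {Z : Config n | Z ∈ PairExcluded ε n ∧ ¬ Clean Φ ε t Z i} := by
      ext Z
      exact ⟨fun h => ⟨⟨h.1, h.2.1⟩, h.1, h.2.2⟩, fun h => ⟨h.1.1, h.1.2, h.2.2⟩⟩
    rw [h3]
    exact h1.inter h2
  · rw [good_equiv hΦ hε σ Z i, clean_equiv hΦ hε σ Z i]
  · intro k m V w j hV hw hp hk hb hE
    obtain ⟨⟨P, ℓ, p, e₀, h⟩, hc⟩ := hE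
    obtain ⟨e, he, he₀⟩ := real_append hε ht hb h
    subst he₀
    have hu : ¬ unhit Φ ε (PT Φ ε P t ℓ p) t w := by
      intro hu
      exact hc ⟨P, ℓ, p, _, h, (outUnhit_append hΦ hε V w e _).2 hu⟩
    rw [h.state hε ht]
    exact hN k m V w j hV hw hp hk P e ℓ p he h hu
  · rw [tsum_eq_sum (s := Finset.range (K + 1))]
    · refine Finset.sum_congr rfl fun k hk => ?_
      rw [if_pos (show k ∈ Iic K from Nat.lt_succ_iff.1 (Finset.mem_range.1 hk))]
    · intro k hk
      rw [if_neg]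
      intro h2
      exact hk (Finset.mem_range.2 (Nat.lt_succ_of_le h2))

end Crest.Agent.R122.BandUp674

end
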