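import Crest.Agent.R122.RealMeas_674
import Crest.Agent.R122.ToTree_335

/-!
Row 122, F7 (helper674): **upper bound for the mass of the clusters of given sizes** by the
integrals over tree parameters, damped by the avoidance probability of the protected tubes.
-/

set_option autoImplicit false
set_option synthInstance.maxSize 1024

open MeasureTheory Set Filter Topology
open Crest.AnalysisR.Kinetic
open scoped ENNReal Classical

noncomputable section

namespace Crest.Agent.R122.BandUp674

open Kin796 Kin796.CTree Disc416 Scat818 Flow671 Flux663 Tree674 Final973 Causal291 GC311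
  Relabel674 Master566 GIV566 RealTree674 Band974 TreeLim974

variable {Φ : Space3 → ℝ} {ε t : ℝ} {f₀ : PhasePoint → ℝ}

/-! ### The cluster and the rest -/

/-- In the world `V ++ w`: if the cluster of the root is `V` and its history is a tree, the
labelling is a labelling of `V`. -/
theorem real_append {k m : ℕ} {V : Config k} {w : Config m} {j : Fin k}
    (hε : 0 < ε) (ht : 0 ≤ t)
    (hb : (bc Φ ε (Fin.append V w) t (Fin.castAdd m j)).toFinset = block k m)
    {P : CTree} {ℓ : PhasePoint} {p : Par P} {e₀ : Idx P → Fin (k + m)}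
    (h : RealTree Φ ε t (Fin.append V w) (Fin.castAdd m j) P ℓ p e₀) :
    ∃ e : Idx P ≃ Fin k, e (Tree674.root P) = j ∧ (fun x => Fin.castAdd m (e x)) = e₀ := by
  have hr : ∀ a : Fin (k + m), a ∈ range e₀ ↔ ∃ j : Fin k, Fin.castAdd m j = a := by
    intro a
    rw [← h.bc_eq hε ht, ← mem_block, ← hb, Set.mem_toFinset]
  have h1 : ∀ x, ∃ j : Fin k, Fin.castAdd m j = e₀ x := fun x => (hr _).1 (mem_range_self x)
  choose e1 he1 using h1
  have hinj : Function.Injective e1 := by
    intro x y hxy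
    apply h.inj
    rw [← he1 x, ← he1 y, hxy]
  have hsurj : Function.Surjective e1 := by
    intro j'
    obtain ⟨x, hx⟩ := (hr (Fin.castAdd m j')).2 ⟨j', rfl⟩
    refine ⟨x, Fin.castAdd_injective k m ?_⟩
    rw [he1 x, hx]
  refine ⟨Equiv.ofBijective e1 ⟨hinj, hsurj⟩, ?_, funext he1⟩
  apply Fin.castAdd_injective k m
  show Fin.castAdd m (e1 (Tree674.root P)) = _
  rw [he1, h.root]

theorem outUnhit_append (hΦ : AdmissiblePotential Φ) (hε : 0 < ε) {ι : Type} {k m : ℕ}
    (V : Config k) (w : Config m) {P : CTree} (e : Idx P ≃ Fin k) (S : Tubes ι) :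
    OutUnhit Φ ε t (Fin.append V w : Config (k + m)) (fun x => Fin.castAdd m (e x)) S ↔
      unhit Φ ε S t w := by
  have hn : ∀ a : Fin m, Fin.natAdd k a ∉ range fun x : Idx P => Fin.castAdd m (e x) := by
    rintro a ⟨x, hx⟩
    have := congrArg Fin.val hx
    simp only [Fin.val_castAdd, Fin.val_natAdd] at this
    have h2 := (e x).2
    omega
  let τ : Fin m ≃ {j : Fin (k + m) // j ∉ range fun x : Idx P => Fin.castAdd m (e x)} :=
    Equiv.ofBijective (fun a => ⟨Fin.natAdd k a, hn a⟩) ⟨fun a b hab => by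
      have := congrArg Subtype.val hab
      exact Fin.natAdd_injective m k this, by
      rintro ⟨b, hb⟩
      induction b using Fin.addCases with
      | left b => exact absurd ⟨e.symm b, by simp⟩ hb
      | right b => exact ⟨b, rfl⟩⟩
  exact outUnhit_of_equiv hΦ hε _ _ S τ fun a => Fin.append_right V w a

theorem clean_append (hΦ : AdmissiblePotential Φ) (hε : 0 < ε) (ht : 0 ≤ t) {k m : ℕ}
    {V : Config k} {w : Config m} {j : Fin k}
    (hb : (bc Φ ε (Fin.append V w) t (Fin.castAdd m j)).toFinset = block k m)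
    (hc : Clean Φ ε t (Fin.append V w) (Fin.castAdd m j)) :
    ∃ (P : CTree) (e : Idx P ≃ Fin k) (ℓ : PhasePoint) (p : Par P),
      e (Tree674.root P) = j ∧ RealTree Φ ε t (Fin.append V w) (Fin.castAdd m j) P ℓ p
        (fun x => Fin.castAdd m (e x)) ∧ unhit Φ ε (PT Φ ε P t ℓ p) t w := by
  obtain ⟨P, ℓ, p, e₀, h, hu⟩ := hc
  obtain ⟨e, he, he₀⟩ := real_append hε ht hb h
  subst he₀
  have hu' := (outUnhit_append hΦ hε V w e (PT Φ ε P t ℓ p)).1 hu
  exact ⟨P, e, ℓ, p, he, h, hu'⟩

/-! ### Masses -/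

/-- mass of the particles with cluster size in `S`, test function `φ` -/
def sizeMass (Φ : Space3 → ℝ) (f₀ : PhasePoint → ℝ) (ε t : ℝ) (S : Set ℕ)
    (φ : PhasePoint → ℝ≥0∞) : ℝ≥0∞ :=
  (activity ε)⁻¹ * gcE f₀ ε fun _ Z => ∑ i, if (bc Φ ε Z t i).ncard ∈ S then
    φ (pth Φ ε Z t i) else 0

/-- mass of the particles with cluster size in `S` whose history is not a clean tree -/
def badMass (Φ : Space3 → ℝ) (f₀ : PhasePoint → ℝ) (ε t : ℝ) (S : Set ℕ)
    (φ : PhasePoint → ℝ≥0∞) : ℝ≥0∞ :=
  (activity ε)⁻¹ * gcE f₀ ε fun _ Z => ∑ i, if (bc Φ ε Z t i).ncard ∈ S ∧ ¬ Clean Φ ε t Z i then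
    φ (pth Φ ε Z t i) else 0

theorem ncard_bc {n : ℕ} (Z : Config n) (i : Fin n) :
    (bc Φ ε Z t i).ncard = (bc Φ ε Z t i).toFinset.card := Set.ncard_eq_toFinset_card' _

theorem pth_perm (hΦ : AdmissiblePotential Φ) (hε : 0 < ε) {n : ℕ} (σ : Equiv.Perm (Fin n))
    (Z : Config n) (u : ℝ) (i : Fin n) : pth Φ ε (fun j => Z (σ j)) u i = pth Φ ε Z u (σ i) :=
  congrFun (Loc45.flow_equiv hΦ hε σ u Z) i

theorem measurable_pth' (hΦ : AdmissiblePotential Φ) (hε : 0 < ε) {n : ℕ} (i : Fin n) :
    Measurable fun Z : Config n => pth Φ ε Z t i :=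
  Causal291.measurable_pth hΦ hε t i

theorem measurableSet_notClean (hΦ : AdmissiblePotential Φ) (hε : 0 < ε) (ht : 0 ≤ t) {n : ℕ}
    (i : Fin n) : MeasurableSet {Z : Config n | Z ∈ Dom Φ (Fin n) ∧ ¬ Clean Φ ε t Z i} := by
  have h1 : MeasurableSet {Z : Config n | Z ∈ Dom Φ (Fin n) ∧ Clean Φ ε t Z i} := by
    have h2 := (measurable_prodMk_left (x := t) (β := Config n))
      (measurableSet_clean (κ := Fin n) hΦ hε i t)
    convert h2 using 1
    ext Z
    constructor
    · rintro ⟨h3, h4⟩; exact ⟨⟨ht, le_rfl, h3⟩, h4⟩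
    · rintro ⟨⟨_, _, h3⟩, h4⟩; exact ⟨h3, h4⟩
  have h3 : {Z : Config n | Z ∈ Dom Φ (Fin n) ∧ ¬ Clean Φ ε t Z i} =
      Dom Φ (Fin n) \ {Z : Config n | Z ∈ Dom Φ (Fin n) ∧ Clean Φ ε t Z i} := by
    ext Z
    simp only [mem_ofPred_eq, Set.mem_sdiff, not_and]
    exact ⟨fun h => ⟨h.1, fun _ => h.2⟩, fun h => ⟨h.1, h.2 h.1⟩⟩
  rw [h3]
  exact (measurableSet_Dom Φ (Fin n)).diff h1

theorem measurableSet_bc_eq (hΦ : AdmissiblePotential Φ) (hε : 0 < ε) {n : ℕ}
    (i : Fin n) (B : Finset (Fin n)) :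
    MeasurableSet {Z : Config n | (bc Φ ε Z t i).toFinset = B} := by
  have h1 := (measurable_prodMk_left (x := t) (β := Config n))
    (measurableSet_BC_eq_pth (ι := Fin n) hΦ hε i (B : Set (Fin n)))
  convert h1 using 1
  ext Z
  show (bc Φ ε Z t i).toFinset = B ↔ bc Φ ε Z t i = B
  constructor
  · intro h
    rw [← h, Set.coe_toFinset]
  · intro h
    ext x
    rw [Set.mem_toFinset, h, Finset.mem_coe]

/-! ### The tree term -/

/-- the functional of the tree coordinates and the rest -/
def HB (Φ : Space3 → ℝ) (ε t : ℝ) (S : Set ℕ) (φ : PhasePoint → ℝ≥0∞) (P : CTree)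
    (z : PhasePoint × Par P) (m : ℕ) (w : Config m) : ℝ≥0∞ :=
  if (z ∈ goodS Φ ε P t ∧ P.leaves ∈ S) ∧ unhit Φ ε (PTm Φ ε P t z.1 z.2) t w then
    φ (onLine z.1 t) else 0

theorem measurable_HB (hΦ : AdmissiblePotential Φ) (hε : 0 < ε) (S : Set ℕ)
    {φ : PhasePoint → ℝ≥0∞} (hφ : Measurable φ) (P : CTree) (m : ℕ) :
    Measurable fun q : (PhasePoint × Par P) × (Config m × Unit) =>
      HB Φ ε t S φ P q.1 m q.2.1 := by
  unfold HB
  refine Measurable.ite ?_ (hφ.comp ((measurable_onLineT t).comp measurable_fst.fst))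
    measurable_const
  have h1 : MeasurableSet {q : (PhasePoint × Par P) × (Config m × Unit) |
      q.1 ∈ goodS Φ ε P t ∧ P.leaves ∈ S} := by
    by_cases hS : P.leaves ∈ S
    · simp only [hS, and_true]
      exact measurable_fst (measurableSet_goodS hΦ hε P t)
    · simp only [hS, and_false]
      exact MeasurableSet.const False
  exact h1.inter (measurableSet_unhit_PTm hΦ hε
    (Ω := (PhasePoint × Par P) × (Config m × Unit)) (w := fun q => q.2.1)
    measurable_snd.fst P (z := fun q => q.1) measurable_fst (t := fun _ => t) measurable_const)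

theorem gcE_HB (hΦ : AdmissiblePotential Φ) (hε : 0 < ε) (S : Set ℕ)
    {φ : PhasePoint → ℝ≥0∞} (hφ1 : ∀ z, φ z ≠ ∞) (P : CTree) (z : PhasePoint × Par P) :
    gcE f₀ ε (fun m w => HB Φ ε t S φ P z m w) =
      if z ∈ goodS Φ ε P t ∧ P.leaves ∈ S then
        φ (onLine z.1 t) * uG Φ f₀ ε (PT Φ ε P t z.1 z.2) t else 0 := by
  by_cases h : z ∈ goodS Φ ε P t ∧ P.leaves ∈ S
  · rw [if_pos h]
    unfold uG
    rw [← gcE_const_mul f₀ ε (hφ1 _)]
    refine gcE_congr f₀ ε fun m w _ => ?_
    unfold HB unhitInd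
    have h2 := unhit_PT_iff hΦ hε h.1.1 h.1.2 w
    by_cases hu : unhit Φ ε (PT Φ ε P t z.1 z.2) t w
    · rw [if_pos ⟨h, h2.1 hu⟩, if_pos hu, mul_one]
    · rw [if_neg fun h' => hu (h2.2 h'.2), if_neg hu, mul_zero]
  · rw [if_neg h]
    have e : (fun (m : ℕ) (w : Config m) => HB Φ ε t S φ P z m w) = fun _ _ => 0 := by
      funext m w
      unfold HB
      exact if_neg fun h' => h h'.1
    rw [e, gcE_zero]

theorem lintegral_HB (hΦ : AdmissiblePotential Φ) (hε : 0 < ε) (S : Set ℕ)
    {φ : PhasePoint → ℝ≥0∞} (hφ1 : ∀ z, φ z ≠ ∞) (P : CTree) :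
    ∫⁻ z : PhasePoint × Par P,
        {z : PhasePoint × Par P | Valid Φ ε P t z.1.2 z.2}.indicator
          (fun z => wt Φ P z.1.2 z.2 * (ToTree335.pf Φ f₀ ε P z *
            gcE f₀ ε (fun m w => HB Φ ε t S φ P z m w))) z =
      if P.leaves ∈ S then J Φ f₀ ε P t φ else 0 := by
  by_cases hS : P.leaves ∈ S
  · rw [if_pos hS]
    unfold J gE tA
    refine lintegral_congr fun z => ?_
    by_cases hz : z ∈ goodS Φ ε P t
    · have hz' : z ∈ {z : PhasePoint × Par P | Valid Φ ε P t z.1.2 z.2} := hz.1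
      rw [indicator_of_mem hz, indicator_of_mem hz', gcE_HB hΦ hε S hφ1 P z, if_pos ⟨hz, hS⟩,
        mul_assoc]
      rfl
    · rw [indicator_of_notMem hz]
      by_cases hz' : z ∈ {z : PhasePoint × Par P | Valid Φ ε P t z.1.2 z.2}
      · rw [indicator_of_mem hz', gcE_HB hΦ hε S hφ1 P z, if_neg fun h => hz h.1, mul_zero,
          mul_zero]
      · rw [indicator_of_notMem hz']
  · rw [if_neg hS]
    have : ∀ z : PhasePoint × Par P,
        {z : PhasePoint × Par P | Valid Φ ε P t z.1.2 z.2}.indicator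
          (fun z => wt Φ P z.1.2 z.2 * (ToTree335.pf Φ f₀ ε P z *
            gcE f₀ ε (fun m w => HB Φ ε t S φ P z m w))) z = 0 := by
      intro z
      by_cases hz' : z ∈ {z : PhasePoint × Par P | Valid Φ ε P t z.1.2 z.2}
      · rw [indicator_of_mem hz', gcE_HB hΦ hε S hφ1 P z, if_neg fun h => hS h.2, mul_zero,
          mul_zero]
      · rw [indicator_of_notMem hz']
    simp only [this, lintegral_zero]

/-! ### The inequality -/

/-- **F7, upper bound**: the mass of the particles with cluster size in `S` is at most the sum of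
the tree integrals plus the mass of the particles whose history is not a clean tree. -/
theorem sizeMass_le (hf : Measurable f₀) (hΦ : AdmissiblePotential Φ) (hε : 0 < ε) (ht : 0 ≤ t)
    (S : Set ℕ) {φ : PhasePoint → ℝ≥0∞} (hφ : Measurable φ) (hφ1 : ∀ z, φ z ≠ ∞) :
    sizeMass Φ f₀ ε t S φ ≤
      (∑' P : CTree, if P.leaves ∈ S then J Φ f₀ ε P t φ else 0) + badMass Φ f₀ ε t S φ := by
  -- Mecke for the mass
  have hM1 := bc_mecke hf hΦ hε ht
    (F := fun n i B Z => if B.card ∈ S then φ (pth Φ ε Z t i) else 0)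
    (fun n σ i B Z _ => by rw [Finset.card_map, pth_perm hΦ hε])
    (fun n i B => by
      by_cases hB : B.card ∈ S
      · simp only [if_pos hB]; exact hφ.comp (measurable_pth' hΦ hε i)
      · simp only [if_neg hB]; exact measurable_const)
  -- Mecke for the error
  have hM2 := bc_mecke hf hΦ hε ht
    (F := fun n i B Z => if (Z ∈ Dom Φ (Fin n) ∧ ¬ Clean Φ ε t Z i) ∧ B.card ∈ S then
      φ (pth Φ ε Z t i) else 0)
    (fun n σ i B Z hZ => by
      have h1 : Z ∈ Dom Φ (Fin n) := pairExcluded_subset_Dom hε n hZ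
      have h2 : (fun i => Z (σ i)) ∈ Dom Φ (Fin n) :=
        pairExcluded_subset_Dom hε n ((pairExcluded_comp_iff σ Z).2 hZ)
      simp only [Finset.card_map, pth_perm hΦ hε, h1, h2, true_and, clean_equiv hΦ hε σ Z i])
    (fun n i B => by
      refine Measurable.ite ?_ (hφ.comp (measurable_pth' hΦ hε i)) measurable_const
      by_cases hB : B.card ∈ S
      · simp only [hB, and_true]; exact measurableSet_notClean hΦ hε ht i
      · simp only [hB, and_false]; exact MeasurableSet.const False)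
  -- reduction to tree coordinates
  have hT := ToTree335.to_tree (f₀ := f₀) hΦ hf hε (Measure.dirac ()) (T := t)
    (H := fun P z m w _ => HB Φ ε t S φ P z m w)
    (fun P m => measurable_HB hΦ hε S hφ P m)
    (F := fun k m V w j _ =>
      if (bc Φ ε (Fin.append V w) t (Fin.castAdd m j)).toFinset = block k m then
        (if (block k m).card ∈ S then φ (pth Φ ε (Fin.append V w) t (Fin.castAdd m j)) else 0)
      else 0)
    (B := fun k m V w j _ =>
      if (bc Φ ε (Fin.append V w) t (Fin.castAdd m j)).toFinset = block k m then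
        (if ((Fin.append V w : Config (k + m)) ∈ Dom Φ (Fin (k + m)) ∧
          ¬ Clean Φ ε t (Fin.append V w : Config (k + m)) (Fin.castAdd m j)) ∧
          (block k m).card ∈ S then φ (pth Φ ε (Fin.append V w) t (Fin.castAdd m j)) else 0)
      else 0)
    (fun k m j => by
      have ha : Measurable fun q : Config k × (Config m × Unit) =>
          (Fin.append q.1 q.2.1 : Config (k + m)) :=
        measurable_append.comp (measurable_fst.prodMk measurable_snd.fst)
      refine Measurable.ite (ha (measurableSet_bc_eq hΦ hε (Fin.castAdd m j) (block k m))) ?_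
        measurable_const
      refine Measurable.ite ?_ ((hφ.comp (measurable_pth' hΦ hε (Fin.castAdd m j))).comp ha)
        measurable_const
      by_cases hB : (block k m).card ∈ S
      · simp only [hB, and_true]
        exact ha (measurableSet_notClean hΦ hε ht (Fin.castAdd m j))
      · simp only [hB, and_false]; exact MeasurableSet.const False)
    (fun k m V w j _ hV hw hp => by
      by_cases hb : (bc Φ ε (Fin.append V w) t (Fin.castAdd m j)).toFinset = block k m
      swap
      · simp only [if_neg hb]; exact zero_le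
      simp only [if_pos hb]
      by_cases hB : (block k m).card ∈ S
      swap
      · rw [if_neg hB]; exact zero_le
      rw [if_pos hB]
      have hD : (Fin.append V w : Config (k + m)) ∈ Dom Φ (Fin (k + m)) :=
        pairExcluded_subset_Dom hε _ ((append_mem_pairExcluded_iff V w).2 ⟨hV, hw, hp⟩)
      by_cases hc : Clean Φ ε t (Fin.append V w : Config (k + m)) (Fin.castAdd m j)
      swap
      · rw [if_pos ⟨⟨hD, hc⟩, hB⟩]; exact le_add_self
      obtain ⟨P, e, ℓ, p, he, h, hu⟩ := clean_append hΦ hε ht hb hc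
      have hk : P.leaves = k := by
        have := Fintype.card_congr e
        rwa [card_idx, Fintype.card_fin] at this
      have hkS : P.leaves ∈ S := by rw [hk]; rwa [card_block] at hB
      refine le_trans ?_ (le_add_right (TreeBound335.le_ways hΦ hε
        (G := fun P z => HB Φ ε t S φ P z m w) he h.valid fun x => ?_))
      · show _ ≤ HB Φ ε t S φ P (ℓ, p) m w
        unfold HB
        rw [if_pos ⟨⟨⟨h.valid, h.sep⟩, hkS⟩, (unhit_PT_iff hΦ hε h.valid h.sep w).1 hu⟩,
          h.state hε ht]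
      · have h1 := h.lines_eq hΦ hε ht x
        rw [Fin.append_left] at h1
        exact h1)
  simp only [lintegral_dirac] at hT
  simp only [lintegral_HB hΦ hε S hφ1] at hT
  -- assembly
  have e1 : gcE f₀ ε (fun _ Z => ∑ i, if (bc Φ ε Z t i).ncard ∈ S then
      φ (pth Φ ε Z t i) else 0) ≤
      activity ε * (∑' P : CTree, if P.leaves ∈ S then J Φ f₀ ε P t φ else 0) +
      gcE f₀ ε (fun _ Z => ∑ i, if (bc Φ ε Z t i).ncard ∈ S ∧ ¬ Clean Φ ε t Z i then
        φ (pth Φ ε Z t i) else 0) := by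
    have e2 : gcE f₀ ε (fun _ Z => ∑ i, if (bc Φ ε Z t i).ncard ∈ S ∧ ¬ Clean Φ ε t Z i then
        φ (pth Φ ε Z t i) else 0) = gcE f₀ ε (fun n Z => ∑ i : Fin n,
        if (Z ∈ Dom Φ (Fin n) ∧ ¬ Clean Φ ε t Z i) ∧ (bc Φ ε Z t i).toFinset.card ∈ S then
          φ (pth Φ ε Z t i) else 0) := by
      refine gcE_congr f₀ ε fun n Z hZ => Finset.sum_congr rfl fun i _ => ?_
      have h1 : Z ∈ Dom Φ (Fin n) := pairExcluded_subset_Dom hε n hZ
      rw [ncard_bc]
      by_cases hc : Clean Φ ε t Z i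
      · rw [if_neg fun h => h.2 hc, if_neg fun h => h.1.2 hc]
      · by_cases hB : (bc Φ ε Z t i).toFinset.card ∈ S
        · rw [if_pos ⟨hB, hc⟩, if_pos ⟨⟨h1, hc⟩, hB⟩]
        · rw [if_neg fun h => hB h.1, if_neg fun h => hB h.2]
    rw [e2, hM2]
    simp only [ncard_bc]
    rw [hM1]
    exact hT
  have ha := FM167.activity_ne_zero hε
  have ha' := FM167.activity_ne_top ε
  unfold sizeMass badMass
  refine (mul_le_mul_right e1 _).trans_eq ?_
  rw [mul_add, ← mul_assoc, ENNReal.inv_mul_cancel ha ha', one_mul]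

end Crest.Agent.R122.BandUp674

end
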