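import Crest.Agent.R122.PairReal_998
import Crest.Agent.R122.LN2Touch_473

/-!
# Structures of the continued pair laws (row 122, block H4), helper998

Structure data `SD Θ κ` (measure, births, time-`0` states, action of the translations, pair of lines).
`SD.step` : one contact of the second line with a fresh Gaussian particle. `SD.iter` : `j` steps, over
`Th Θ j = Θ × Fr × ... × Fr`, labels `Ka κ j = κ ⊕ Unit ⊕ ... ⊕ Unit`.

* `SD.Ok` : measurability, invariance, equivariance; `SD.Ok.step`, `SD.Ok.iter`.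
* `SD.Real ν S` : `∫ F dν = ∫ F (pr θ) dm`; `Real.step`, `Real.iter` (`bindN ν (K3 ..) j`).
* `SD.dom_step`, `SD.dom_iter` : `Dom γ ρ ε 1 ∅ (c₀ cq^j) ..`.
-/

set_option autoImplicit false
set_option linter.unusedSectionVars false
set_option maxHeartbeats 400000

open MeasureTheory ProbabilityTheory Set Filter
open scoped ENNReal Classical Topology
open Crest.AnalysisR.Kinetic
open Crest.Agent.R122.Kin796 Crest.Agent.R122.GC311
open Crest.Agent.R122.EDefs602
open Crest.Agent.R122.Boost969 (LSt posAt SprL)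
open Crest.Agent.R122.Kin416 (gau measurable_gau)
open Crest.Agent.R122.Pair292 hiding ML
open Crest.Agent.R122.PairD292
open Crest.Agent.R122.LN2
open Crest.Agent.R122.PairReal998

noncomputable section

namespace Crest.Agent.R122.StrN998

variable {Φ : Space3 → ℝ} {ε te b₀ : ℝ} {q : ℕ → ℝ≥0∞}

/-! ## Fresh data -/

/-- discrete σ-algebra on the outcomes -/
instance instMSOB : MeasurableSpace (Option Bool) := ⊤

instance : DiscreteMeasurableSpace (Option Bool) := ⟨fun _ => trivial⟩

/-- Fresh data of one step: particle, mark, outcome. -/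
abbrev Fr : Type := PhasePoint × (ℕ × Option Bool)

/-- Law of the fresh data. -/
def frM (b₀ : ℝ) (q : ℕ → ℝ≥0∞) : Measure Fr :=
  ((volume : Measure PhasePoint).withDensity fun y => gau b₀ y.2).prod
    (((Measure.count : Measure ℕ).withDensity q).prod (Measure.count : Measure (Option Bool)))

instance : SFinite (frM b₀ q) := by unfold frM; infer_instance

theorem measurable_mark (q : ℕ → ℝ≥0∞) : Measurable q := measurable_of_countable q

theorem lintegral_frM {F : Fr → ℝ≥0∞} (hF : Measurable F) :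
    ∫⁻ r, F r ∂frM b₀ q = ∑ k : Option Bool, ∑' m, q m *
      ∫⁻ c : PhasePoint, gau b₀ c.2 * F (c, (m, k)) := by
  unfold frM
  have hg : Measurable fun y : PhasePoint => gau b₀ y.2 := (measurable_gau b₀).comp measurable_snd
  rw [lintegral_prod_symm _ hF.aemeasurable]
  have h1 : Measurable fun x : ℕ × Option Bool => ∫⁻ c, F (c, x)
      ∂((volume : Measure PhasePoint).withDensity fun y => gau b₀ y.2) :=
    hF.lintegral_prod_left'
  rw [lintegral_prod_symm _ h1.aemeasurable, lintegral_count, tsum_fintype]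
  refine Finset.sum_congr rfl fun k _ => ?_
  have h2 : Measurable fun m : ℕ => ∫⁻ c, F (c, (m, k))
      ∂((volume : Measure PhasePoint).withDensity fun y => gau b₀ y.2) :=
    measurable_of_countable _
  rw [lintegral_withDensity_eq_lintegral_mul _ (measurable_mark q) h2, lintegral_count]
  refine tsum_congr fun m => ?_
  rw [Pi.mul_apply]
  congr 1
  rw [lintegral_withDensity_eq_lintegral_mul _ hg (g := fun c : PhasePoint => F (c, (m, k)))
    (hF.comp (measurable_id.prodMk measurable_const))]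
  rfl

/-- Translation of fresh data. -/
def shF (a : Space3) (r : Fr) : Fr := ((r.1.1 + a, r.1.2), r.2)

theorem measurable_shF : Measurable fun p : Space3 × Fr => shF p.1 p.2 := by
  unfold shF
  exact ((measurable_snd.fst.fst.add measurable_fst).prodMk measurable_snd.fst.snd).prodMk
    measurable_snd.snd

theorem frM_map (b₀ : ℝ) (q : ℕ → ℝ≥0∞) (a : Space3) : (frM b₀ q).map (shF a) = frM b₀ q := by
  have hm : Measurable (shF a) := measurable_shF.comp (measurable_const.prodMk measurable_id)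
  refine Measure.ext_of_lintegral _ fun F hF => ?_
  rw [lintegral_map hF hm, lintegral_frM hF, lintegral_frM (F := fun r => F (shF a r)) (hF.comp hm)]
  refine Finset.sum_congr rfl fun k _ => tsum_congr fun m => ?_
  congr 1
  have hg : Measurable fun y : PhasePoint => gau b₀ y.2 * F (y, (m, k)) :=
    ((measurable_gau b₀).comp measurable_snd).mul (hF.comp (measurable_id.prodMk measurable_const))
  have h1 : Measurable fun y : PhasePoint => gau b₀ y.2 * F (shF a (y, (m, k))) :=
    ((measurable_gau b₀).comp measurable_snd).mul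
      ((hF.comp hm).comp (measurable_id.prodMk measurable_const))
  rw [lintegral_phase h1, lintegral_phase hg]
  refine lintegral_congr fun u => ?_
  exact lintegral_add_right_eq_self (fun x : Space3 => gau b₀ u * F ((x, u), (m, k))) a

/-- Invariance of the contact set. -/
theorem relL_sh (a : Space3) (c : PhasePoint) (z : LSt) :
    OneC423.relL (c.1 + a, c.2) (shL a z) = OneC423.relL c z := by
  unfold OneC423.relL back shL
  refine Prod.ext ?_ rfl
  simp only
  abel

theorem mem_hitS_sh {a : Space3} {c : PhasePoint} {z : LSt} :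
    (((c.1 + a, c.2) : PhasePoint), shL a z) ∈ hitS ε te ↔ (c, z) ∈ hitS ε te := by
  show ((OneC423.relL (c.1 + a, c.2) (shL a z)).2 ≠ 0 ∧
    ‖Flux663.bline (OneC423.relL (c.1 + a, c.2) (shL a z))‖ ≤ ε ∧
    (shL a z).1 < OC663.entT ε (OneC423.relL (c.1 + a, c.2) (shL a z)) ∧
    OC663.entT ε (OneC423.relL (c.1 + a, c.2) (shL a z)) ≤ te ∧
    0 < OC663.entT ε (OneC423.relL (c.1 + a, c.2) (shL a z))) ↔ _
  rw [relL_sh]
  rfl

theorem hitO_sh {out : ℝ → Space3 → OCout796.CD → LSt} (h : OutMap out) (ε : ℝ) (a : Space3)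
    (c : PhasePoint) (z : LSt) :
    hitO out ε (c.1 + a, c.2) (shL a z) = shL a (hitO out ε c z) := by
  have e1 : OneC285.cT (P := CTree.leaf) ε ((c.1 + a, c.2), ()) (shL a z, 0) =
      OneC285.cT (P := CTree.leaf) ε (c, ()) (z, 0) := by
    unfold OneC285.cT
    simp only
    rw [relL_sh]
  have e2 : OneC285.cX (P := CTree.leaf) ε ((c.1 + a, c.2), ()) (shL a z, 0) =
      OneC285.cX (P := CTree.leaf) ε (c, ()) (z, 0) + a := by
    unfold OneC285.cX
    rw [e1]
    simp only
    abel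
  have e3 : OneC285.cD (P := CTree.leaf) ε ((c.1 + a, c.2), ()) (shL a z, 0) =
      OneC285.cD (P := CTree.leaf) ε (c, ()) (z, 0) := by
    unfold OneC285.cD OneC285.cB
    simp only
    rw [relL_sh]
    rfl
  unfold hitO
  rw [e1, e2, e3, h.tr]

/-! ## Structure data -/

/-- Structure data: measure, births, time-`0` states, translations, pair of lines with label. -/
structure SD (Θ κ : Type) [MeasurableSpace Θ] where
  m : Measure Θ
  b : Θ → κ → ℝ
  z : Θ → κ → PhasePoint
  Tr : Space3 → Θ → Θ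
  pr : Θ → Lab × LSt

variable {Θ κ : Type} [MeasurableSpace Θ] [Fintype κ] {S : SD Θ κ}

/-- Admissible structure data. -/
structure SD.Ok (S : SD Θ κ) : Prop where
  sf : SFinite S.m
  mb : Measurable S.b
  mz : Measurable S.z
  mT : Measurable fun p : Space3 × Θ => S.Tr p.1 p.2
  mpr : Measurable S.pr
  inv : ∀ a, S.m.map (S.Tr a) = S.m
  b_tr : ∀ a θ, S.b (S.Tr a θ) = S.b θ
  z_tr : ∀ a θ, S.z (S.Tr a θ) = shX a (S.z θ)
  pr_tr : ∀ a θ, S.pr (S.Tr a θ) = shP a (S.pr θ)

/-- `TInvS` of the first line. -/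
theorem SD.Ok.tinv_d (h : S.Ok) : TInvS S.m S.Tr S.b S.z fun θ => (dL (S.pr θ)).1 where
  mT := h.mT
  inv := h.inv
  mb := h.mb
  mz := h.mz
  md := (measurable_dL.comp h.mpr).fst
  b_tr := h.b_tr
  z_tr := h.z_tr
  d_tr a θ := by rw [h.pr_tr]; rfl

/-- `TInvS` of the second line. -/
theorem SD.Ok.tinv_e (h : S.Ok) : TInvS S.m S.Tr S.b S.z fun θ => (eL (S.pr θ)).1 where
  mT := h.mT
  inv := h.inv
  mb := h.mb
  mz := h.mz
  md := (measurable_eL.comp h.mpr).fst
  b_tr := h.b_tr
  z_tr := h.z_tr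
  d_tr a θ := by rw [h.pr_tr]; rfl

/-- Contact set of one step. -/
def SD.hit (S : SD Θ κ) (ε te : ℝ) : Set (Θ × Fr) := {x | (x.2.1, (S.pr x.1).2) ∈ hitS ε te}

/-- **One step.** -/
def SD.step (S : SD Θ κ) (Φ : Space3 → ℝ) (ε b₀ te : ℝ) (q : ℕ → ℝ≥0∞) :
    SD (Θ × Fr) (κ ⊕ Unit) where
  m := (activity ε • (S.m.prod (frM b₀ q))).restrict (S.hit ε te)
  b := fun x => Sum.elim (S.b x.1) fun _ => 0
  z := fun x => Sum.elim (S.z x.1) fun _ => x.2.1
  Tr := fun a x => (S.Tr a x.1, shF a x.2)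
  pr := fun x => (incM (fK x.2.2.2) x.2.2.1 (S.pr x.1).1,
    hitO (outK Φ ε x.2.2.2) ε x.2.1 (S.pr x.1).2)

theorem measurable_sumElim' {κ' : Type} {α β : Type} [MeasurableSpace α] [MeasurableSpace β]
    {f : α → κ → β} {g : α → κ' → β} (hf : Measurable f) (hg : Measurable g) :
    Measurable fun x => (Sum.elim (f x) (g x) : κ ⊕ κ' → β) := by
  refine measurable_pi_iff.2 fun i => ?_
  rcases i with i | i
  · exact (measurable_pi_apply i).comp hf
  · exact (measurable_pi_apply i).comp hg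

theorem measurable_hit (hΦ : AdmissiblePotential Φ) (h : Measurable S.pr) (ε te : ℝ) :
    MeasurableSet (S.hit ε te) := by
  have h1 : Measurable fun x : Θ × Fr => ((x.2.1, (S.pr x.1).2) : PhasePoint × LSt) :=
    measurable_snd.fst.prodMk (h.comp measurable_fst).snd
  exact h1 (measurableSet_hitS hΦ ε te)

/-- Joint measurability of a family indexed by marks and outcomes. -/
theorem measurable_fr {α β : Type} [MeasurableSpace α] [MeasurableSpace β]
    {G : (ℕ × Option Bool) → α × PhasePoint → β} (h : ∀ x, Measurable (G x)) :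
    Measurable fun p : α × Fr => G p.2.2 (p.1, p.2.1) := by
  have h1 : Measurable fun p : (α × PhasePoint) × (ℕ × Option Bool) => G p.2 p.1 :=
    measurable_from_prod_countable_left fun y => h y
  exact h1.comp (f := fun p : α × Fr => ((p.1, p.2.1), p.2.2))
    ((measurable_fst.prodMk measurable_snd.fst).prodMk measurable_snd.snd)

theorem measurable_stepPr (hΦ : AdmissiblePotential Φ) (h : Measurable S.pr) :
    Measurable (S.step Φ ε b₀ te q).pr := by
  refine measurable_fr (α := Θ) (G := fun x p => (incM (fK x.2) x.1 (S.pr p.1).1,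
    hitO (outK Φ ε x.2) ε p.2 (S.pr p.1).2)) fun x => ?_
  refine ((measurable_incM _ _).comp (h.comp measurable_fst).fst).prodMk ?_
  exact (measurable_hitO (outMap_outK hΦ ε x.2) ε).comp
    (f := fun p : Θ × PhasePoint => ((p.2, (S.pr p.1).2) : PhasePoint × LSt))
    (measurable_snd.prodMk (h.comp measurable_fst).snd)

instance (S : SD Θ κ) [SFinite S.m] : SFinite (S.step Φ ε b₀ te q).m := by
  have h1 : SFinite (activity ε • (S.m.prod (frM b₀ q))) := inferInstance
  exact inferInstanceAs (SFinite ((activity ε • (S.m.prod (frM b₀ q))).restrict (S.hit ε te)))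

/-- Integrals against the step measure. -/
theorem lintegral_step [SFinite S.m] (hΦ : AdmissiblePotential Φ) (h : Measurable S.pr)
    {F : Θ × Fr → ℝ≥0∞} (hF : Measurable F) :
    ∫⁻ x, F x ∂(S.step Φ ε b₀ te q).m = activity ε * ∫⁻ θ, ∫⁻ r,
      (S.hit ε te).indicator F (θ, r) ∂frM b₀ q ∂S.m := by
  have hs := measurable_hit (S := S) hΦ h ε te
  show ∫⁻ x, F x ∂((activity ε • (S.m.prod (frM b₀ q))).restrict (S.hit ε te)) = _
  rw [← lintegral_indicator hs, lintegral_smul_measure, smul_eq_mul,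
    lintegral_prod _ (hF.indicator hs).aemeasurable]

theorem SD.Ok.step (h : S.Ok) (hΦ : AdmissiblePotential Φ) : (S.step Φ ε b₀ te q).Ok where
  sf := by
    have := h.sf
    infer_instance
  mb := measurable_sumElim' (h.mb.comp measurable_fst) measurable_const
  mz := measurable_sumElim' (h.mz.comp measurable_fst)
    (measurable_pi_iff.2 fun _ => measurable_snd.fst)
  mT := (h.mT.comp (f := fun p : Space3 × (Θ × Fr) => (p.1, p.2.1))
      (measurable_fst.prodMk measurable_snd.fst)).prodMk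
    (measurable_shF.comp (f := fun p : Space3 × (Θ × Fr) => (p.1, p.2.2))
      (measurable_fst.prodMk measurable_snd.snd))
  mpr := measurable_stepPr hΦ h.mpr
  inv a := by
    have := h.sf
    have hTa : Measurable (S.Tr a) := h.mT.comp (measurable_const.prodMk measurable_id)
    have hFa : Measurable (shF a) := measurable_shF.comp (measurable_const.prodMk measurable_id)
    have hTm : Measurable fun x : Θ × Fr => ((S.Tr a x.1, shF a x.2) : Θ × Fr) :=
      (hTa.comp measurable_fst).prodMk (hFa.comp measurable_snd)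
    refine Measure.ext_of_lintegral _ fun F hF => ?_
    have hTe : (S.step Φ ε b₀ te q).Tr a = fun x => (S.Tr a x.1, shF a x.2) := rfl
    rw [hTe, lintegral_map hF hTm, lintegral_step hΦ h.mpr hF,
      lintegral_step (F := fun x => F (S.Tr a x.1, shF a x.2)) hΦ h.mpr (hF.comp hTm)]
    congr 1
    have hs := measurable_hit (S := S) hΦ h.mpr ε te
    have hFi := hF.indicator hs
    have hin : Measurable fun θ => ∫⁻ r, (S.hit ε te).indicator F (θ, r) ∂frM b₀ q :=
      hFi.lintegral_prod_right'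
    conv_rhs => rw [← h.inv a]
    rw [lintegral_map hin hTa]
    refine lintegral_congr fun θ => ?_
    conv_rhs => rw [← frM_map b₀ q a]
    rw [lintegral_map (f := fun r => (S.hit ε te).indicator F (S.Tr a θ, r))
      (hFi.comp (measurable_const.prodMk measurable_id)) hFa]
    refine lintegral_congr fun r => ?_
    have hiff : ((S.Tr a θ, shF a r) : Θ × Fr) ∈ S.hit ε te ↔ ((θ, r) : Θ × Fr) ∈ S.hit ε te := by
      unfold SD.hit
      simp only [mem_ofPred_eq]
      rw [h.pr_tr]
      exact mem_hitS_sh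
    by_cases hx : ((θ, r) : Θ × Fr) ∈ S.hit ε te
    · rw [indicator_of_mem hx, indicator_of_mem (hiff.2 hx)]
    · rw [indicator_of_notMem hx, indicator_of_notMem fun hc => hx (hiff.1 hc)]
  b_tr a x := by
    show (Sum.elim (S.b (S.Tr a x.1)) fun _ => 0 : κ ⊕ Unit → ℝ) = _
    rw [h.b_tr]
    rfl
  z_tr a x := by
    show (Sum.elim (S.z (S.Tr a x.1)) fun _ => (shF a x.2).1 : κ ⊕ Unit → PhasePoint) = _
    rw [h.z_tr]
    funext i
    rcases i with i | i
    · rfl
    · show ((x.2.1.1 + a, x.2.1.2) : PhasePoint) = x.2.1 + ((a, 0) : PhasePoint)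
      ext1 <;> simp
  pr_tr a x := by
    show (incM (fK x.2.2.2) x.2.2.1 (S.pr (S.Tr a x.1)).1,
      hitO (outK Φ ε x.2.2.2) ε (x.2.1.1 + a, x.2.1.2) (S.pr (S.Tr a x.1)).2) = _
    rw [h.pr_tr]
    show (incM (fK x.2.2.2) x.2.2.1 (shP a (S.pr x.1)).1,
      hitO (outK Φ ε x.2.2.2) ε (x.2.1.1 + a, x.2.1.2) (shL a (S.pr x.1).2)) = _
    rw [hitO_sh (outMap_outK hΦ ε x.2.2.2)]
    rfl

/-! ## Realisation -/

/-- The law of the pair is `ν`. -/
def SD.Real (S : SD Θ κ) (ν : Measure (Lab × LSt)) : Prop :=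
  ∀ F : Lab × LSt → ℝ≥0∞, Measurable F → ∫⁻ p, F p ∂ν = ∫⁻ θ, F (S.pr θ) ∂S.m

theorem SD.real_map (h : Measurable S.pr) : S.Real (S.m.map S.pr) := fun F hF => by
  rw [lintegral_map hF h]

theorem isSFiniteKernel_stO (hq : ∀ m, q m ≠ ∞) (out : ℝ → Space3 → OCout796.CD → LSt)
    (f : ℕ → ℕ → ℕ) : IsSFiniteKernel (stO ε b₀ te out f q) := by
  have := isSFiniteKernel_incK f hq
  unfold stO mkK Boost969.liftK
  infer_instance

theorem isSFiniteKernel_K3 (hq : ∀ m, q m ≠ ∞) : IsSFiniteKernel (K3 Φ ε b₀ te q) := by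
  have h1 := isSFiniteKernel_stO (ε := ε) (b₀ := b₀) (te := te) hq (outK Φ ε (some false))
    (fK (some false))
  have h2 := isSFiniteKernel_stO (ε := ε) (b₀ := b₀) (te := te) hq (outK Φ ε (some true))
    (fK (some true))
  have h3 := isSFiniteKernel_stO (ε := ε) (b₀ := b₀) (te := te) hq (outK Φ ε none) (fK none)
  unfold K3
  infer_instance

/-- **One step realises the continuation kernel.** -/
theorem SD.Real.step [SFinite S.m] {ν : Measure (Lab × LSt)} (h : S.Real ν)
    (hΦ : AdmissiblePotential Φ) (hε : 0 < ε) (hq : ∀ m, q m ≠ ∞) (hpr : Measurable S.pr) :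
    (S.step Φ ε b₀ te q).Real (ν.bind (K3 Φ ε b₀ te q)) := by
  intro F hF
  have := isSFiniteKernel_K3 (Φ := Φ) (ε := ε) (b₀ := b₀) (te := te) hq
  rw [Measure.lintegral_bind (Kernel.aemeasurable _) hF.aemeasurable, h _ hF.lintegral_kernel]
  have hFp : Measurable fun x => F ((S.step Φ ε b₀ te q).pr x) :=
    hF.comp (measurable_stepPr hΦ hpr)
  rw [lintegral_step hΦ hpr hFp]
  have hs := measurable_hit (S := S) hΦ hpr ε te
  have hFi := hFp.indicator hs
  have hin : Measurable fun θ => ∫⁻ r, (S.hit ε te).indicator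
      (fun x => F ((S.step Φ ε b₀ te q).pr x)) (θ, r) ∂frM b₀ q := hFi.lintegral_prod_right'
  rw [← lintegral_const_mul _ hin]
  refine lintegral_congr fun θ => ?_
  rw [lintegral_K3_hit hΦ hε hq (S.pr θ) hF,
    lintegral_frM (F := fun r => (S.hit ε te).indicator
      (fun x => F ((S.step Φ ε b₀ te q).pr x)) (θ, r))
      (hFi.comp (measurable_const.prodMk measurable_id))]
  congr 1
  refine Finset.sum_congr rfl fun k _ => tsum_congr fun m => ?_
  congr 1
  refine lintegral_congr fun c => ?_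
  by_cases hc : (c, (S.pr θ).2) ∈ hitS ε te
  · rw [indicator_of_mem hc,
      indicator_of_mem (show ((θ, (c, (m, k))) : Θ × Fr) ∈ S.hit ε te from hc)]
    rfl
  · rw [indicator_of_notMem hc,
      indicator_of_notMem (show ((θ, (c, (m, k))) : Θ × Fr) ∉ S.hit ε te from hc), mul_zero]

/-! ## Domination -/

theorem gau_le {b γ : ℝ} (h : γ ≤ b) (v : Space3) : gau b v ≤ wG γ v := by
  unfold gau
  unfold wG
  refine ENNReal.ofReal_le_ofReal (Real.exp_le_exp.2 ?_)
  have := mul_le_mul_of_nonneg_right h (sq_nonneg ‖v‖)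
  linarith

/-- The fresh particle is dominated. -/
theorem dom_fr {γ : ℝ} {ρ : Space3 → ℝ≥0∞} (hb : γ ≤ b₀) (ε : ℝ) :
    Dom γ ρ ε 1 (∅ : Finset Unit) (3 * ∑' m, q m) (Measure.dirac fun _ : Unit => (0 : ℝ))
      (frM b₀ q) (fun _ _ => 0) (fun r _ => r.1) where
  mb := measurable_const
  mz := measurable_pi_iff.2 fun _ => measurable_fst
  le F hF := by
    have h0 := (dom_free (γ := γ) (ρ := ρ) (g := fun v => gau b₀ v) (c := 1) (measurable_gau b₀)
      (fun v => by rw [one_mul]; exact gau_le hb v) ENNReal.one_ne_top ε).le F hF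
    have hm : Measurable fun y : PhasePoint =>
        F ((fun _ => 0 : Unit → ℝ), (fun _ => y : Unit → PhasePoint)) :=
      hF.comp (measurable_const.prodMk (measurable_pi_iff.2 fun _ => measurable_id))
    have h1 : ∫⁻ r, F ((fun _ => 0 : Unit → ℝ), (fun _ => r.1 : Unit → PhasePoint)) ∂frM b₀ q =
        (3 * ∑' m, q m) * ∫⁻ y : PhasePoint, F ((fun _ => 0 : Unit → ℝ), (fun _ => y))
          ∂((volume : Measure PhasePoint).withDensity fun y => gau b₀ y.2) := by
      have hg : Measurable fun y : PhasePoint => gau b₀ y.2 :=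
        (measurable_gau b₀).comp measurable_snd
      rw [lintegral_frM (F := fun r => F ((fun _ => 0 : Unit → ℝ), (fun _ => r.1)))
        (hm.comp measurable_fst), lintegral_withDensity_eq_lintegral_mul _ hg
        (g := fun y : PhasePoint => F ((fun _ => 0 : Unit → ℝ), (fun _ => y))) hm]
      simp only [ENNReal.tsum_mul_right, Finset.sum_const, Finset.card_univ, Fintype.card_option,
        Fintype.card_bool, nsmul_eq_mul, Pi.mul_apply]
      rw [mul_assoc]
      norm_num
    have e0 : Fintype.card Unit - 1 = 0 := rfl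
    rw [e0, pow_zero, one_mul] at h0 ⊢
    rw [h1]
    calc _ ≤ (3 * ∑' m, q m) * (1 * ∫⁻ b, (∫⁻ z, wgtA γ ρ ∅ z * F (b, z))
          ∂(Measure.dirac fun _ : Unit => (0 : ℝ))) := mul_le_mul_right h0 _
      _ = _ := by rw [one_mul]

theorem SD.dom_step {γ : ℝ} {ρ : Space3 → ℝ≥0∞} {s : ℕ} {A₀ : Finset κ} {c : ℝ≥0∞}
    {Λ : Measure (κ → ℝ)} [SFinite Λ] [SFinite S.m] (hρ : Measurable ρ) (hb : γ ≤ b₀) (hε : 0 < ε)
    (hs : s ≤ Fintype.card κ) (h : Dom γ ρ ε s A₀ c Λ S.m S.b S.z) :
    Dom γ ρ ε s (A₀.disjSum ∅) (c * (3 * ∑' m, q m)) (prodΛ Λ (Measure.dirac fun _ => (0 : ℝ)))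
      (S.step Φ ε b₀ te q).m (S.step Φ ε b₀ te q).b (S.step Φ ε b₀ te q).z := by
  have h1 := h.prod hρ (dom_fr (q := q) (γ := γ) (ρ := ρ) hb ε) hs (by simp)
  have h2 := h1.smul_act hε (by rw [Fintype.card_sum]; simpa using hs)
  exact h2.restrict (S.hit ε te)

/-! ## Iteration -/

/-- Structure space after `j` steps. -/
def Th (Θ : Type) : ℕ → Type
  | 0 => Θ
  | j + 1 => Th Θ j × Fr

instance instMSTh (Θ : Type) [MeasurableSpace Θ] : ∀ j, MeasurableSpace (Th Θ j)
  | 0 => inferInstanceAs (MeasurableSpace Θ)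
  | j + 1 => @Prod.instMeasurableSpace _ _ (instMSTh Θ j) _

/-- Labels after `j` steps. -/
def Ka (κ : Type) : ℕ → Type
  | 0 => κ
  | j + 1 => Ka κ j ⊕ Unit

instance instFinKa (κ : Type) [Fintype κ] : ∀ j, Fintype (Ka κ j)
  | 0 => inferInstanceAs (Fintype κ)
  | j + 1 => @instFintypeSum _ _ (instFinKa κ j) _

instance instNonKa (κ : Type) [Nonempty κ] : ∀ j, Nonempty (Ka κ j)
  | 0 => inferInstanceAs (Nonempty κ)
  | j + 1 => ⟨Sum.inl (instNonKa κ j).some⟩

/-- **Structure data after `j` steps.** -/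
def SD.iter (S : SD Θ κ) (Φ : Space3 → ℝ) (ε b₀ te : ℝ) (q : ℕ → ℝ≥0∞) :
    (j : ℕ) → SD (Th Θ j) (Ka κ j)
  | 0 => S
  | j + 1 => (S.iter Φ ε b₀ te q j).step Φ ε b₀ te q

theorem SD.iter_zero : S.iter Φ ε b₀ te q 0 = S := rfl

theorem SD.iter_succ (j : ℕ) : S.iter Φ ε b₀ te q (j + 1) =
    (S.iter Φ ε b₀ te q j).step Φ ε b₀ te q := rfl

theorem SD.Ok.iter (h : S.Ok) (hΦ : AdmissiblePotential Φ) (j : ℕ) :
    (S.iter Φ ε b₀ te q j).Ok := by
  induction j with
  | zero => exact h
  | succ j ih => exact ih.step hΦ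

/-- **Realisation of the continued pair laws.** -/
theorem SD.Real.iter {ν : Measure (Lab × LSt)} (h : S.Real ν) (hS : S.Ok)
    (hΦ : AdmissiblePotential Φ) (hε : 0 < ε) (hq : ∀ m, q m ≠ ∞) (j : ℕ) :
    (S.iter Φ ε b₀ te q j).Real (bindN ν (K3 Φ ε b₀ te q) j) := by
  induction j with
  | zero => exact h
  | succ j ih =>
    have := (hS.iter (ε := ε) (b₀ := b₀) (te := te) (q := q) hΦ j).sf
    exact ih.step hΦ hε hq (hS.iter hΦ j).mpr

/-- Births after `j` steps. -/
def LaN (Λ : Measure (κ → ℝ)) : (j : ℕ) → Measure (Ka κ j → ℝ)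
  | 0 => Λ
  | j + 1 => prodΛ (LaN Λ j) (Measure.dirac fun _ => (0 : ℝ))

instance instFinLaN (Λ : Measure (κ → ℝ)) [IsFiniteMeasure Λ] : ∀ j, IsFiniteMeasure (LaN Λ j)
  | 0 => inferInstanceAs (IsFiniteMeasure Λ)
  | j + 1 => by
      have := instFinLaN Λ j
      exact inferInstanceAs (IsFiniteMeasure (prodΛ (LaN Λ j) (Measure.dirac fun _ => (0 : ℝ))))

/-- Anchors after `j` steps. -/
def AnN (A₀ : Finset κ) : (j : ℕ) → Finset (Ka κ j)
  | 0 => A₀
  | j + 1 => (AnN A₀ j).disjSum ∅

theorem anN_empty (j : ℕ) : AnN (∅ : Finset κ) j = ∅ := by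
  induction j with
  | zero => rfl
  | succ j ih =>
    show (AnN (∅ : Finset κ) j).disjSum ∅ = ∅
    rw [ih]
    rfl

theorem card_Ka (j : ℕ) : Fintype.card (Ka κ j) = Fintype.card κ + j := by
  induction j with
  | zero => rfl
  | succ j ih =>
    show Fintype.card (Ka κ j ⊕ Unit) = _
    rw [Fintype.card_sum, ih]
    rfl

/-- **Domination after `j` steps.** -/
theorem SD.dom_iter {γ : ℝ} {ρ : Space3 → ℝ≥0∞} {s : ℕ} {A₀ : Finset κ} {c : ℝ≥0∞}
    {Λ : Measure (κ → ℝ)} [IsFiniteMeasure Λ] (hS : S.Ok) (hΦ : AdmissiblePotential Φ)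
    (hρ : Measurable ρ) (hb : γ ≤ b₀) (hε : 0 < ε)
    (hs : s ≤ Fintype.card κ) (h : Dom γ ρ ε s A₀ c Λ S.m S.b S.z) (j : ℕ) :
    Dom γ ρ ε s (AnN A₀ j) (c * (3 * ∑' m, q m) ^ j) (LaN Λ j) (S.iter Φ ε b₀ te q j).m
      (S.iter Φ ε b₀ te q j).b (S.iter Φ ε b₀ te q j).z := by
  induction j with
  | zero =>
    rw [pow_zero, mul_one]
    exact h
  | succ j ih =>
    have h1 := (hS.iter (ε := ε) (b₀ := b₀) (te := te) (q := q) hΦ j).sf
    have h2 := SD.dom_step (Φ := Φ) (te := te) (q := q) hρ hb hε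
      (hs.trans (by rw [card_Ka]; exact Nat.le_add_right _ _)) ih
    rw [pow_succ, ← mul_assoc]
    exact h2

end Crest.Agent.R122.StrN998

end
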