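import Crest.Agent.R122.NuL_735
import Crest.Agent.R122.StrN_998
import Crest.Agent.R122.LN2Inst2_473

/-!
# Row 122 (helper735), the base pair law as structure data

* `baseSD` : helper998's structure data of the base law, shape `(P, x, y)`; `baseSD_ok`,
  `baseSD_real`.
* `dom_base` : domination, one group, no anchors.
-/

set_option autoImplicit false
set_option maxHeartbeats 400000
set_option linter.unusedSectionVars false

open MeasureTheory Set Filter
open scoped ENNReal Classical Topology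
open Crest.AnalysisR.Kinetic
open Crest.Agent.R122.Kin796 Crest.Agent.R122.Kin796.CTree Crest.Agent.R122.Tree674
open Crest.Agent.R122.GC311 Crest.Agent.R122.EDefs602 Crest.Agent.R122.TreeLines335
open Crest.Agent.R122.OneC285 Crest.Agent.R122.Disc416
open Crest.Agent.R122.Boost969 (LSt)
open Crest.Agent.R122.Pair292 (Lab shL shM shP)
open Crest.Agent.R122.Nu0566 (oneLsM oneLsM_of_adm measurable_oneLsM strD measurable_strD strM)
open Crest.Agent.R122.LN2 Crest.Agent.R122.StrN998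

noncomputable section

namespace Crest.Agent.R122.NuL735

variable {Φ : Space3 → ℝ} {f₀ : PhasePoint → ℝ} {ε : ℝ} {K : ℕ} {P : CTree}

/-- **Structure data of the base law**, shape `(P, x, y)`. -/
def baseSD (Φ : Space3 → ℝ) (ε : ℝ) (K : ℕ) (N : NPar) (P : CTree) (x y : Idx P ⊕ Bool) :
    SD (NuL735.Th P) (Idx P ⊕ Unit) where
  m := mP Φ ε K N P x y
  b := fun _ _ => 0
  z := zE Φ ε
  Tr := TrS
  pr := thE Φ ε (N.σ P x y) x y

theorem baseSD_ok (hΦ : AdmissiblePotential Φ) (N : NPar) (x y : Idx P ⊕ Bool) :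
    (baseSD Φ ε K N P x y).Ok where
  sf := inferInstanceAs (SFinite (mP Φ ε K N P x y))
  mb := measurable_const
  mz := measurable_zE hΦ ε
  mT := measurable_TrS
  mpr := measurable_thE hΦ ε _ x y
  inv := mP_tr hΦ N x y
  b_tr _ _ := rfl
  z_tr := zE_tr ε
  pr_tr := thE_tr ε _ x y

theorem baseSD_real (hΦ : AdmissiblePotential Φ) (N : NPar) (x y : Idx P ⊕ Bool) :
    (baseSD Φ ε K N P x y).Real (nuP Φ ε K N P x y) :=
  SD.real_map (S := baseSD Φ ε K N P x y) (measurable_thE hΦ ε _ x y)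

/-! ### Domination -/

theorem ofReal_gP_le {Cf b γ : ℝ} (hγ : γ ≤ b) (z : PhasePoint) :
    ENNReal.ofReal (gP Cf b z) ≤ ENNReal.ofReal Cf * wG γ z.2 := by
  unfold gP
  rw [ENNReal.ofReal_mul' (Real.exp_pos _).le]
  refine mul_le_mul_right ?_ _
  unfold wG
  refine ENNReal.ofReal_le_ofReal (Real.exp_le_exp.2 ?_)
  have := mul_le_mul_of_nonneg_right hγ (sq_nonneg ‖z.2‖)
  linarith

theorem wgtA_empty {J : Type} [Fintype J] (γ : ℝ) (ρ : Space3 → ℝ≥0∞) (Z : J → PhasePoint) :
    wgtA γ ρ ∅ Z = ∏ j, wG γ (Z j).2 := by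
  unfold wgtA
  rw [Finset.prod_empty, one_mul]

theorem measurable_wgtE {J : Type} [Fintype J] (γ : ℝ) (ρ : Space3 → ℝ≥0∞) :
    Measurable (wgtA γ ρ (∅ : Finset J)) := by
  have h : (wgtA γ ρ (∅ : Finset J)) = fun Z => ∏ j, wG γ (Z j).2 := by
    funext Z
    exact wgtA_empty γ ρ Z
  rw [h]
  refine Finset.measurable_prod _ fun j _ => ?_
  have h1 : Measurable fun Z : J → PhasePoint => (Z j).2 := (measurable_pi_apply j).snd
  unfold wG
  fun_prop

/-- The law of a tree with Gaussian weights, without anchors. -/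
theorem dom_treeG (hΦ : AdmissiblePotential Φ) {Cf b γ : ℝ} (hγ : γ ≤ b)
    (ρ : Space3 → ℝ≥0∞) (hε : 0 < ε) (P : CTree) (T : ℝ) :
    Dom γ ρ ε 1 ∅ (ENNReal.ofReal Cf ^ Fintype.card (Idx P))
      (Measure.dirac fun _ : Idx P => (0 : ℝ)) (treeM Φ (gP Cf b) ε P T) (fun _ _ => 0)
      (fun z => linesM Φ ε P z.1 z.2) where
  mb := measurable_const
  mz := measurable_linesM hΦ ε P
  le F hF := by
    have hf := measurable_gP Cf b
    set b0 : Idx P → ℝ := fun _ => 0 with hb0
    have hF0 : Measurable fun z : Idx P → PhasePoint => F (b0, z) :=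
      hF.comp (measurable_const.prodMk measurable_id)
    have hH : Measurable fun q : (PhasePoint × Par P) × (Idx P → PhasePoint) =>
        (∏ i, ENNReal.ofReal (gP Cf b (q.2 i))) * F (b0, q.2) := by
      refine Measurable.mul ?_ (hF0.comp measurable_snd)
      exact Finset.measurable_prod _ fun i _ =>
        (hf.comp ((measurable_pi_apply i).comp measurable_snd)).ennreal_ofReal
    have hout : Measurable fun b : Idx P → ℝ => ∫⁻ z, wgtA γ ρ ∅ z * F (b, z) := by
      have h1 : Measurable fun p : (Idx P → ℝ) × (Idx P → PhasePoint) =>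
          wgtA γ ρ ∅ p.2 * F p := ((measurable_wgtE γ ρ).comp measurable_snd).mul hF
      exact h1.lintegral_prod_right'
    rw [lintegral_dirac' _ hout, ← size_eq, lintegral_treeM hΦ hf ε P T
      (G := fun z => F (b0, linesM Φ ε P z.1 z.2)) (hF0.comp (measurable_linesM hΦ ε P))]
    have e1 : ∀ z : PhasePoint × Par P,
        {z : PhasePoint × Par P | Valid Φ ε P T z.1.2 z.2}.indicator
          (fun z => wt Φ P z.1.2 z.2 * (ToTree335.pf Φ (gP Cf b) ε P z *
            F (b0, linesM Φ ε P z.1 z.2))) z =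
        {z : PhasePoint × Par P | Valid Φ ε P T z.1.2 z.2}.indicator
          (fun z => wt Φ P z.1.2 z.2 * (fun q : (PhasePoint × Par P) × (Idx P → PhasePoint) =>
            (∏ i, ENNReal.ofReal (gP Cf b (q.2 i))) * F (b0, q.2)) (z, lines Φ ε P z.1 z.2)) z := by
      intro z
      by_cases hz : Valid Φ ε P T z.1.2 z.2
      · have hz' : z ∈ {z : PhasePoint × Par P | Valid Φ ε P T z.1.2 z.2} := hz
        rw [indicator_of_mem hz', indicator_of_mem hz', linesM_of_adm ε hz.1]
        rfl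
      · have hz' : z ∉ {z : PhasePoint × Par P | Valid Φ ε P T z.1.2 z.2} := hz
        rw [indicator_of_notMem hz', indicator_of_notMem hz']
    rw [lintegral_congr e1, treeMeasure hΦ hε P T hH]
    calc ∫⁻ V : Idx P → PhasePoint, (Skel Φ ε P T).indicator
          (fun V => (∏ i, ENNReal.ofReal (gP Cf b (V i))) * F (b0, V)) V
        ≤ ∫⁻ V : Idx P → PhasePoint, ENNReal.ofReal Cf ^ Fintype.card (Idx P) *
            (wgtA γ ρ ∅ V * F (b0, V)) := by
          refine lintegral_mono fun V => ?_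
          refine (indicator_le_self _ _ _).trans ?_
          rw [← mul_assoc]
          refine mul_le_mul_left ?_ _
          calc ∏ i, ENNReal.ofReal (gP Cf b (V i)) ≤ ∏ i, ENNReal.ofReal Cf * wG γ (V i).2 :=
                Finset.prod_le_prod' fun i _ => ofReal_gP_le hγ (V i)
            _ = ENNReal.ofReal Cf ^ Fintype.card (Idx P) * wgtA γ ρ ∅ V := by
                rw [wgtA_empty, Finset.prod_mul_distrib, Finset.prod_const, Finset.card_univ]
      _ = ENNReal.ofReal Cf ^ Fintype.card (Idx P) * ∫⁻ V, wgtA γ ρ ∅ V * F (b0, V) := by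
          rw [lintegral_const_mul' _ _ (ENNReal.pow_ne_top ENNReal.ofReal_ne_top)]

/-- Sum of the mark weights. -/
def mkC (ρ : ℝ≥0∞) (K : ℕ) : ℝ≥0∞ := ∑' n : ℕ, markW ρ K n

theorem mkC_ne_top {ρ : ℝ≥0∞} (hρ : ρ ≠ ∞) (K : ℕ) : mkC ρ K ≠ ∞ := by
  unfold mkC
  have h1 : ∑' n : ℕ, markW ρ K n = ∑ n ∈ Finset.range (K + 1), markW ρ K n := by
    refine tsum_eq_sum fun n hn => ?_
    unfold markW
    rw [if_neg]
    intro h
    exact hn (Finset.mem_range.2 (Nat.lt_succ_of_le h.2))
  rw [h1]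
  refine ENNReal.sum_ne_top.2 fun n _ => ?_
  unfold markW
  split_ifs
  · exact ENNReal.pow_ne_top hρ
  · exact ENNReal.zero_ne_top

/-- Law of the test line. -/
def lnM (γe : ℝ) (ρ : ℝ≥0∞) (K : ℕ) : Measure (PhasePoint × ℕ) :=
  ((volume : Measure PhasePoint).prod Measure.count).withDensity
    fun r => lineD (fun _ => γe) ρ K (lnO r)

theorem measurable_lnD (γe : ℝ) (ρ : ℝ≥0∞) (K : ℕ) :
    Measurable fun r : PhasePoint × ℕ => lineD (fun _ => γe) ρ K (lnO r) :=
  (MeasE416.measurable_lineD measurable_const ρ K).comp measurable_lnO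

instance instSFiniteLnM (γe : ℝ) (ρ : ℝ≥0∞) (K : ℕ) : SFinite (lnM γe ρ K) := by
  unfold lnM; infer_instance

theorem lintegral_lnM (γe : ℝ) (ρ : ℝ≥0∞) (K : ℕ) {F : PhasePoint → ℝ≥0∞} (hF : Measurable F) :
    ∫⁻ r, F r.1 ∂(lnM γe ρ K) = mkC ρ K * ∫⁻ y : PhasePoint, wG γe y.2 * F y := by
  unfold lnM
  rw [lintegral_withDensity_eq_lintegral_mul _ (measurable_lnD γe ρ K)
    (g := fun r : PhasePoint × ℕ => F r.1) (hF.comp measurable_fst)]
  have hw : Measurable fun y : PhasePoint => wG γe y.2 * F y := by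
    refine Measurable.mul ?_ hF
    unfold wG
    fun_prop
  have e : ∀ r : PhasePoint × ℕ, ((fun r => lineD (fun _ => γe) ρ K (lnO r)) *
      fun r : PhasePoint × ℕ => F r.1) r = markW ρ K r.2 * (wG γe r.1.2 * F r.1) := by
    intro r
    show wG γe r.1.2 * markW ρ K r.2 * F r.1 = _
    ring
  have hm : Measurable fun r : PhasePoint × ℕ => markW ρ K r.2 * (wG γe r.1.2 * F r.1) :=
    ((measurable_of_countable (markW ρ K)).comp measurable_snd).mul (hw.comp measurable_fst)
  have e2 : ∀ n : ℕ, ∫⁻ y : PhasePoint, markW ρ K n * (wG γe y.2 * F y) =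
      markW ρ K n * ∫⁻ y : PhasePoint, wG γe y.2 * F y := fun n => lintegral_const_mul _ hw
  rw [lintegral_congr e, lintegral_prod_symm _ hm.aemeasurable, lintegral_count]
  simp only [e2]
  rw [ENNReal.tsum_mul_right]
  rfl

/-- The test line is dominated. -/
theorem dom_lnM {γe γ : ℝ} (hγ : γ ≤ γe) (ρm : ℝ≥0∞) (K : ℕ) (ρ : Space3 → ℝ≥0∞) (ε : ℝ) :
    Dom γ ρ ε 1 (∅ : Finset Unit) (mkC ρm K) (Measure.dirac fun _ : Unit => (0 : ℝ))
      (lnM γe ρm K) (fun _ _ => 0) (fun r _ => r.1) where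
  mb := measurable_const
  mz := measurable_pi_iff.2 fun _ => measurable_fst
  le F hF := by
    have hF0 : Measurable fun z : Unit → PhasePoint => F ((fun _ => (0 : ℝ)), z) :=
      hF.comp (measurable_const.prodMk measurable_id)
    have hc' : Measurable fun (y : PhasePoint) (_ : Unit) => y :=
      measurable_pi_iff.2 fun _ => measurable_id
    have hFy : Measurable fun y : PhasePoint => F ((fun _ => (0 : ℝ)), fun _ : Unit => y) :=
      hF0.comp hc'
    have h2 : Measurable fun z : Unit → PhasePoint =>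
        wgtA γ ρ (∅ : Finset Unit) z * F ((fun _ => (0 : ℝ)), z) := measurable_wgtA_empty.mul hF0
    have hout : Measurable fun b : Unit → ℝ =>
        ∫⁻ z : Unit → PhasePoint, wgtA γ ρ (∅ : Finset Unit) z * F (b, z) :=
      Measurable.lintegral_prod_right' (f := fun q : (Unit → ℝ) × (Unit → PhasePoint) =>
        wgtA γ ρ (∅ : Finset Unit) q.2 * F q) ((measurable_wgtA_empty.comp measurable_snd).mul hF)
    rw [show Fintype.card Unit - 1 = 0 from rfl, pow_zero, one_mul,
      lintegral_lnM γe ρm K (F := fun y => F ((fun _ => (0 : ℝ)), fun _ : Unit => y)) hFy,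
      lintegral_dirac' _ hout, lintegral_unit _ h2]
    refine mul_le_mul_right (lintegral_mono fun y => ?_) _
    simp only
    rw [wgtA_unit]
    refine mul_le_mul_left ?_ _
    exact LN2.wG_anti hγ y.2

theorem dS_le (N : NPar) (q : NuL735.Th P) : dS Φ ε K N P q ≤
    treeD Φ (gP N.Cf N.b) ε P N.T' q.1 * lineD (fun _ => N.γe) N.ρ K (lnO q.2) := by
  unfold dS strD
  by_cases h : (q.1, lnO q.2) ∈ Nu0566.goodS Φ ε N.te N.T' K P
  · rw [indicator_of_mem h]
    have hv : Valid Φ ε P N.T' q.1.1.2 q.1.2 := h.1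
    unfold treeD
    rw [indicator_of_mem (show q.1 ∈ {z : PhasePoint × Par P | Valid Φ ε P N.T' z.1.2 z.2} from hv)]
    simp only
    rw [wtM_of_adm hv.1, ToTree335.pfM_of_adm hv.1]
    rw [mul_assoc]
  · rw [indicator_of_notMem h]
    exact zero_le

/-- The structure measure is below the product of the laws of the tree and of the line. -/
theorem mS_le (hΦ : AdmissiblePotential Φ) (N : NPar) : mS Φ ε K N P ≤
    activity ε • ((treeM Φ (gP N.Cf N.b) ε P N.T').prod (lnM N.γe N.ρ K)) := by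
  have h1 := prod_withDensity (μ := (volume : Measure (PhasePoint × Par P)))
    (ν := (volume : Measure PhasePoint).prod Measure.count)
    (measurable_treeD hΦ (measurable_gP N.Cf N.b) ε P N.T') (measurable_lnD N.γe N.ρ K)
  unfold mS treeM lnM
  rw [h1]
  have h2 : (refM P).withDensity (dS Φ ε K N P) ≤ ((volume : Measure (PhasePoint × Par P)).prod
      ((volume : Measure PhasePoint).prod Measure.count)).withDensity
      (fun q => treeD Φ (gP N.Cf N.b) ε P N.T' q.1 * lineD (fun _ => N.γe) N.ρ K (lnO q.2)) :=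
    withDensity_mono (Eventually.of_forall fun q => dS_le N q)
  gcongr

/-- Almost every structure is admissible. -/
theorem ae_goodS (hΦ : AdmissiblePotential Φ) (N : NPar) (x y : Idx P ⊕ Bool) :
    ∀ᵐ q ∂(mP Φ ε K N P x y), (q.1, lnO q.2) ∈ Nu0566.goodS Φ ε N.te N.T' K P := by
  have h1 : ∀ᵐ q ∂((refM P).withDensity (dS Φ ε K N P)),
      (q.1, lnO q.2) ∈ Nu0566.goodS Φ ε N.te N.T' K P := by
    rw [ae_withDensity_iff (measurable_dS hΦ ε K N P)]
    refine Eventually.of_forall fun q hq => ?_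
    by_contra h
    refine hq ?_
    unfold dS strD
    exact indicator_of_notMem h _
  exact ae_restrict_of_ae (Measure.ae_smul_measure h1 _)

theorem ae_bdE (hΦ : AdmissiblePotential Φ) (N : NPar) (x y : Idx P ⊕ Bool) :
    ∀ᵐ q ∂(mP Φ ε K N P x y), q ∈ bdE Φ ε N.te x y := by
  have h : ∀ᵐ q ∂(mP Φ ε K N P x y), q ∈ bdE Φ ε N.te x y ∩ sepE Φ ε N.T' P :=
    ae_restrict_mem ((measurableSet_bdE hΦ ε N.te x y).inter (measurableSet_sepE hΦ ε N.T' P))
  exact h.mono fun q hq => hq.1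

/-- The trees are separated. -/
theorem ae_sepE (hΦ : AdmissiblePotential Φ) (hε : 0 < ε) (N : NPar) (x y : Idx P ⊕ Bool) :
    ∀ᵐ q ∂(mP Φ ε K N P x y), Sep Φ ε P N.T' q.1.1 q.1.2 := by
  have h : ∀ᵐ q ∂(mP Φ ε K N P x y), q ∈ bdE Φ ε N.te x y ∩ sepE Φ ε N.T' P :=
    ae_restrict_mem ((measurableSet_bdE hΦ ε N.te x y).inter (measurableSet_sepE hΦ ε N.T' P))
  exact h.mono fun q hq => (hq.2 hε).2

/-- **The base structures are dominated**: one group, no anchors, births `0`. -/
theorem dom_base (hΦ : AdmissiblePotential Φ) (N : NPar) {γ : ℝ} (hb : γ ≤ N.b) (he : γ ≤ N.γe)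
    {ρ : Space3 → ℝ≥0∞} (hρ : Measurable ρ) (hε : 0 < ε) (x y : Idx P ⊕ Bool) :
    Dom γ ρ ε 1 ∅ (ENNReal.ofReal N.Cf ^ Fintype.card (Idx P) * mkC N.ρ K)
      (prodΛ (Measure.dirac fun _ : Idx P => (0 : ℝ)) (Measure.dirac fun _ : Unit => (0 : ℝ)))
      (baseSD Φ ε K N P x y).m (baseSD Φ ε K N P x y).b (baseSD Φ ε K N P x y).z := by
  have hc : 1 ≤ Fintype.card (Idx P) := Fintype.card_pos_iff.2 ⟨root P⟩
  have h1 := (dom_treeG hΦ (Cf := N.Cf) hb ρ hε P N.T').prod hρ (dom_lnM he N.ρ K ρ ε) hc (by simp)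
  have h2 := (h1.smul_act hε (by rw [Fintype.card_sum]; simpa using hc)).restrict
    (bdE Φ ε N.te x y ∩ sepE Φ ε N.T' P)
  refine ⟨measurable_const, measurable_zE hΦ ε, fun F hF => ?_⟩
  have h3 := h2.le F hF
  have he0 : (∅ : Finset (Idx P)).disjSum (∅ : Finset Unit) = ∅ := by simp
  rw [he0] at h3
  refine le_trans (mul_le_mul_right ?_ _) h3
  have hm : Measurable fun q : NuL735.Th P => F ((fun _ => 0 : Idx P ⊕ Unit → ℝ), zE Φ ε q) :=
    hF.comp (measurable_const.prodMk (measurable_zE hΦ ε))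
  have hv : ∀ᵐ q ∂(mP Φ ε K N P x y), F ((fun _ => 0 : Idx P ⊕ Unit → ℝ), zE Φ ε q) =
      F (Sum.elim (fun _ => 0) (fun _ => 0), Sum.elim (linesM Φ ε P q.1.1 q.1.2) fun _ => q.2.1) := by
    filter_upwards [ae_goodS hΦ N x y] with q hq
    have hv : Valid Φ ε P N.T' q.1.1.2 q.1.2 := hq.1
    congr 1
    refine Prod.ext ?_ ?_
    · funext i
      rcases i with i | i <;> rfl
    · funext i
      rcases i with i | i
      · show linesE Φ ε q.1 i = linesM Φ ε P q.1.1 q.1.2 i
        rw [linesE_of_adm hv.1, linesM_of_adm ε hv.1]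
      · rfl
  show ∫⁻ q, F ((fun _ => 0 : Idx P ⊕ Unit → ℝ), zE Φ ε q) ∂(mP Φ ε K N P x y) ≤ _
  rw [lintegral_congr_ae hv]
  exact lintegral_mono' (Measure.restrict_mono le_rfl (mS_le hΦ N)) le_rfl

end Crest.Agent.R122.NuL735

end
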