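import Crest.Agent.R122.PairB_307

/-!
# Base pair laws (row 122, block H7b), helper307: forward steps

* `fk` : a fresh partner of a followed line = forward collision kernel of 969.
* `lintegral_mk1` : mark kernel with one mark.
* `AuxF.bind` : almost sure facts after a forward step.
-/

set_option autoImplicit false
set_option maxHeartbeats 400000
set_option linter.unusedSectionVars false

open MeasureTheory ProbabilityTheory Set Filter
open scoped ENNReal Topology Classical
open Crest.AnalysisR.Kinetic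
open Crest.Agent.R122.Kin796 Crest.Agent.R122.Kin796.CTree Crest.Agent.R122.Tree674
open Crest.Agent.R122.Disc416 Crest.Agent.R122.EDefs602
open Crest.Agent.R122.Boost969 Crest.Agent.R122.Kin416
open Crest.Agent.R122.Pair292 hiding ML
open Crest.Agent.R122.CollLeg969 (WPack CLeg EC collM domK)
open Crest.Agent.R122.PairSrc969

noncomputable section

namespace Crest.Agent.R122.Mark307

variable {Φ : Space3 → ℝ}

theorem gE_eq_gau (b : ℝ) (v : Space3) : gE b v = gau b v := rfl

/-- forward indicator: collision after the birth, impact parameter in the disc -/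
def fwI (s : ℝ) (a : NodeP) : ℝ≥0∞ := if s < a.1 ∧ ‖a.2.2‖ < 1 then 1 else 0

theorem measurable_fwI : Measurable fun q : ℝ × NodeP => fwI q.1 q.2 := by
  unfold fwI
  refine Measurable.ite ?_ measurable_const measurable_const
  have h1 : MeasurableSet {q : ℝ × NodeP | q.1 < q.2.1} :=
    measurableSet_lt measurable_fst measurable_snd.fst
  have h2 : MeasurableSet {q : ℝ × NodeP | ‖q.2.2.2‖ < 1} :=
    measurableSet_lt (measurable_snd.snd.snd.norm) measurable_const
  exact h1.inter h2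

/-- **A fresh partner of a followed line = forward kernel.** -/
theorem fk (L : Leg EC) (b₀ : ℝ) (z : LSt) {F : LSt → ℝ≥0∞} (hF : Measurable F) :
    ∫⁻ a : NodeP, fwI z.1 a * ((ENNReal.ofReal ‖z.2.2 - a.2.1‖ * gE b₀ a.2.1) *
      F (L.out (z, (a.1, (z.2.2 - a.2.1, -a.2.2))))) =
      ∫⁻ z', F z' ∂fwdK collM L CollLeg969.gE 1 b₀ z := by
  unfold fwdK
  rw [lintegral_stepK L (measurable_Nf 1 b₀ CollLeg969.measurable_gE)
    (Nf_ne_top 1 b₀ CollLeg969.gE) hF]
  -- the common integrand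
  set G : ℝ × (Space3 × Plane) → ℝ≥0∞ := fun q =>
    Nf 1 b₀ CollLeg969.gE z q * F (L.out (z, q)) with hG
  have hGm : Measurable G := by
    have h1 : Measurable fun q : ℝ × EC => Nf 1 b₀ CollLeg969.gE z q :=
      (measurable_Nf 1 b₀ CollLeg969.measurable_gE).comp (measurable_const.prodMk measurable_id)
    have h2 : Measurable fun q : ℝ × EC => F (L.out (z, q)) :=
      hF.comp (L.measurable_out.comp (measurable_const.prodMk measurable_id))
    exact h1.mul h2
  -- right side
  have hR : ∫⁻ q, G q ∂((volume : Measure ℝ).prod collM) =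
      ∫⁻ s : ℝ, ∫⁻ g : Space3, ENNReal.ofReal ‖g‖ *
        ∫⁻ y in Metric.ball (0 : Plane) 1, G (s, (g, y)) := by
    rw [lintegral_prod _ hGm.aemeasurable]
    refine lintegral_congr fun s => ?_
    exact CollLeg969.lintegral_collM (F := fun e => G (s, e))
      (hGm.comp (measurable_const.prodMk measurable_id))
  -- left side
  set H : ℝ × (Space3 × Plane) → ℝ≥0∞ := fun q =>
    ENNReal.ofReal ‖q.2.1‖ * (Metric.ball (0 : Plane) 1).indicator (fun y => G (q.1, (q.2.1, y)))
      q.2.2 with hH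
  have hHm : Measurable H := by
    have h1 : Measurable fun q : ℝ × (Space3 × Plane) => ENNReal.ofReal ‖q.2.1‖ := by fun_prop
    have h2 : (fun q : ℝ × (Space3 × Plane) => (Metric.ball (0 : Plane) 1).indicator
        (fun y => G (q.1, (q.2.1, y))) q.2.2) =
        {q : ℝ × (Space3 × Plane) | q.2.2 ∈ Metric.ball (0 : Plane) 1}.indicator G := by
      funext q
      by_cases hq : q.2.2 ∈ Metric.ball (0 : Plane) 1
      · rw [indicator_of_mem hq, indicator_of_mem (show q ∈ {q : ℝ × (Space3 × Plane) |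
          q.2.2 ∈ Metric.ball (0 : Plane) 1} from hq)]
      · rw [indicator_of_notMem hq, indicator_of_notMem (show q ∉ {q : ℝ × (Space3 × Plane) |
          q.2.2 ∈ Metric.ball (0 : Plane) 1} from hq)]
    refine h1.mul ?_
    rw [h2]
    exact hGm.indicator (measurable_snd.snd measurableSet_ball)
  have e1 : ∀ a : NodeP, fwI z.1 a * ((ENNReal.ofReal ‖z.2.2 - a.2.1‖ * gE b₀ a.2.1) *
      F (L.out (z, (a.1, (z.2.2 - a.2.1, -a.2.2))))) =
      H (a.1, (z.2.2 - a.2.1, -a.2.2)) := by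
    intro a
    rw [hH]
    simp only
    by_cases h2 : ‖a.2.2‖ < 1
    · have hm : -a.2.2 ∈ Metric.ball (0 : Plane) 1 := by
        rw [mem_ball_zero_iff, norm_neg]; exact h2
      rw [indicator_of_mem hm, hG]
      simp only
      unfold Nf fwI
      by_cases h1 : z.1 < a.1
      · rw [if_pos ⟨h1, h2⟩, if_pos h1, one_mul, ENNReal.ofReal_one, one_mul]
        have e2 : z.2.2 - CollLeg969.gE (z.2.2 - a.2.1, -a.2.2) = a.2.1 := by
          unfold CollLeg969.gE
          simp
        rw [e2, gE_eq_gau]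
        ring
      · rw [if_neg (fun h => h1 h.1), if_neg h1, zero_mul, zero_mul, mul_zero]
    · have hm : -a.2.2 ∉ Metric.ball (0 : Plane) 1 := by
        rw [mem_ball_zero_iff, norm_neg]; exact h2
      rw [indicator_of_notMem hm, mul_zero]
      unfold fwI
      rw [if_neg (fun h => h2 h.2), zero_mul]
  simp only [e1]
  rw [show ((volume : Measure NodeP)) = (volume : Measure ℝ).prod
    ((volume : Measure Space3).prod (volume : Measure Plane)) from rfl]
  have hm1 : Measurable fun a : NodeP => H (a.1, (z.2.2 - a.2.1, -a.2.2)) :=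
    hHm.comp (measurable_fst.prodMk
      ((measurable_const.sub measurable_snd.fst).prodMk measurable_snd.snd.neg))
  rw [lintegral_prod _ hm1.aemeasurable]
  refine Eq.trans (lintegral_congr fun s => ?_) hR.symm
  have hm2 : Measurable fun a : Space3 × Plane => H (s, (z.2.2 - a.1, -a.2)) :=
    hHm.comp (measurable_const.prodMk
      ((measurable_const.sub measurable_fst).prodMk measurable_snd.neg))
  rw [lintegral_prod _ hm2.aemeasurable]
  have e3 : ∀ w : Space3, ∫⁻ y : Plane, H (s, (z.2.2 - w, -y)) =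
      ∫⁻ y : Plane, H (s, (z.2.2 - w, y)) := fun w =>
    lintegral_neg_eq_self (μ := (volume : Measure Plane)) fun y => H (s, (z.2.2 - w, y))
  calc ∫⁻ w : Space3, ∫⁻ y : Plane, H (s, (z.2.2 - w, -y))
      = ∫⁻ w : Space3, ∫⁻ y : Plane, H (s, (z.2.2 - w, y)) := lintegral_congr e3
    _ = ∫⁻ g : Space3, ∫⁻ y : Plane, H (s, (g, y)) :=
        lintegral_sub_left_eq_self (fun g => ∫⁻ y : Plane, H (s, (g, y))) z.2.2
    _ = _ := by
        refine lintegral_congr fun g => ?_
        have hm3 : Measurable fun y : Plane => G (s, (g, y)) :=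
          hGm.comp (measurable_const.prodMk (measurable_const.prodMk measurable_id))
        rw [hH]
        simp only
        rw [lintegral_const_mul _ (hm3.indicator measurableSet_ball),
          lintegral_indicator measurableSet_ball]

/-! ### Mark kernel with one mark -/

/-- one mark -/
def q1 (k : ℕ) (n : ℕ) : ℝ≥0∞ := if n = k then 1 else 0

theorem q1_ne_top (k n : ℕ) : q1 k n ≠ ∞ := by
  unfold q1
  split_ifs
  · exact ENNReal.one_ne_top
  · exact ENNReal.zero_ne_top

/-- additive mark rule -/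
def fadd (m n : ℕ) : ℕ := n + m

theorem tsum_q1 (k : ℕ) (f : ℕ → ℝ≥0∞) : ∑' n, q1 k n * f n = f k := by
  rw [tsum_eq_single k]
  · unfold q1; rw [if_pos rfl, one_mul]
  · intro n hn
    unfold q1
    rw [if_neg hn, zero_mul]

theorem tsum_q1' (k : ℕ) (f : ℕ → ℝ≥0∞) : ∑' n, f n * q1 k n = f k := by
  rw [← tsum_q1 k f]
  exact tsum_congr fun n => mul_comm _ _

theorem lintegral_mk1 (k : ℕ) (κ : Kernel LSt LSt) [IsSFiniteKernel κ] (p : Lab × LSt)
    {F : Lab × LSt → ℝ≥0∞} (hF : Measurable F) :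
    ∫⁻ p', F p' ∂mkK fadd (q1 k) κ p = ∫⁻ z', F ((p.1.1, (p.1.2.1, p.1.2.2 + k)), z') ∂κ p.2 := by
  rw [lintegral_mkK fadd (q1_ne_top k) κ p hF, tsum_q1]
  rfl

/-! ### Almost sure facts after a step -/

/-- general almost sure statement after a mark step -/
theorem ae_bind_mkK {ν : Measure (Lab × LSt)} {κ : Kernel LSt LSt} [IsSFiniteKernel κ]
    {f : ℕ → ℕ → ℕ} {q : ℕ → ℝ≥0∞} (hq : ∀ m, q m ≠ ∞) {S S' : Lab × LSt → Prop}
    (hS' : MeasurableSet {p | S' p}) (hS : ∀ᵐ p ∂ν, S p)
    (h : ∀ p, S p → ∀ m, ∀ᵐ z' ∂κ p.2, S' (incM f m p.1, z')) :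
    ∀ᵐ p ∂ν.bind (mkK f q κ), S' p := by
  have hSm : MeasurableSet {p : Lab × LSt | ¬ S' p} := hS'.compl
  have hF : Measurable ({p : Lab × LSt | ¬ S' p}.indicator (1 : Lab × LSt → ℝ≥0∞)) :=
    measurable_one.indicator hSm
  rw [ae_iff, ← lintegral_indicator_one hSm, Measure.lintegral_bind
    (Kernel.aemeasurable _) hF.aemeasurable]
  refine (lintegral_congr_ae ?_).trans lintegral_zero
  filter_upwards [hS] with p hp
  rw [lintegral_mkK f hq κ p hF]
  refine ENNReal.tsum_eq_zero.2 fun m => ?_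
  rw [mul_eq_zero]
  right
  refine (lintegral_congr_ae ?_).trans lintegral_zero
  filter_upwards [h p hp m] with z' hz'
  have h2 : (incM f m p.1, z') ∉ {p : Lab × LSt | ¬ S' p} := fun hc => hc hz'
  exact indicator_of_notMem h2 _

/-- births strictly increase along the forward kernels -/
theorem ae_fwd_lt {L : Leg EC} (hL : CLeg L) (b₀ : ℝ) (z : LSt) :
    ∀ᵐ z' ∂fwdK collM L CollLeg969.gE 1 b₀ z, z.1 < z'.1 := by
  have hS : MeasurableSet {z' : LSt | ¬ z.1 < z'.1} :=
    (measurableSet_lt measurable_const measurable_fst).compl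
  have hF : Measurable ({z' : LSt | ¬ z.1 < z'.1}.indicator (1 : LSt → ℝ≥0∞)) :=
    measurable_one.indicator hS
  rw [ae_iff, ← lintegral_indicator_one hS]
  unfold fwdK
  rw [lintegral_stepK L (measurable_Nf 1 b₀ CollLeg969.measurable_gE)
    (Nf_ne_top 1 b₀ CollLeg969.gE) hF]
  refine (lintegral_congr fun q => ?_).trans lintegral_zero
  by_cases h : z.1 < q.1
  · rw [indicator_of_notMem, mul_zero]
    intro h1
    refine h1 ?_
    have h2 := hL.dt0 q.2
    change z.1 < q.1 + L.dt q.2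
    linarith
  · unfold Nf
    rw [if_neg h, zero_mul]

theorem measurableSet_auxS : MeasurableSet {θ : Lab × LSt |
    0 ≤ θ.1.2.1 ∧ θ.1.2.1 = θ.1.1.1.1 ∧ θ.1.1.1.1 < θ.2.1} := by
  have h1 : MeasurableSet {θ : Lab × LSt | 0 ≤ θ.1.2.1} :=
    measurableSet_le measurable_const measurable_fst.snd.fst
  have h2 : MeasurableSet {θ : Lab × LSt | θ.1.2.1 = θ.1.1.1.1} :=
    measurableSet_eq_fun measurable_fst.snd.fst measurable_fst.fst.fst.fst
  have h3 : MeasurableSet {θ : Lab × LSt | θ.1.1.1.1 < θ.2.1} :=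
    measurableSet_lt measurable_fst.fst.fst.fst measurable_snd.fst
  exact h1.inter (h2.inter h3)

/-- **Almost sure facts after a forward step.** -/
theorem AuxF.bind {ε : ℝ} {ν : Measure (Lab × LSt)} (h : AuxF ε ν) {L : Leg EC} (hL : CLeg L)
    (b₀ : ℝ) {f : ℕ → ℕ → ℕ} {q : ℕ → ℝ≥0∞} (hq : ∀ m, q m ≠ ∞) :
    AuxF ε (ν.bind (mkK f q (fwdK collM L CollLeg969.gE 1 b₀))) := by
  have h1 : ∀ᵐ θ ∂ν.bind (mkK f q (fwdK collM L CollLeg969.gE 1 b₀)),
      0 ≤ θ.1.2.1 ∧ θ.1.2.1 = θ.1.1.1.1 ∧ θ.1.1.1.1 < θ.2.1 := by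
    refine ae_bind_mkK hq (S := fun θ => 0 ≤ θ.1.2.1 ∧ θ.1.2.1 = θ.1.1.1.1 ∧ θ.1.1.1.1 ≤ θ.2.1)
      (S' := fun θ => 0 ≤ θ.1.2.1 ∧ θ.1.2.1 = θ.1.1.1.1 ∧ θ.1.1.1.1 < θ.2.1)
      measurableSet_auxS h.sg fun p hp m => ?_
    filter_upwards [ae_fwd_lt hL b₀ p.2] with z' hz'
    exact ⟨hp.1, hp.2.1, hp.2.2.trans_lt hz'⟩
  refine ⟨?_, ?_⟩
  · filter_upwards [h1] with θ hθ
    exact ⟨hθ.1, hθ.2.1, hθ.2.2.le⟩
  · filter_upwards [h1] with θ hθ h2
    exact absurd h2 hθ.2.2.ne

end Crest.Agent.R122.Mark307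

end
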