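import Crest.Agent.R122.PairBC_307
import Crest.Agent.R122.Mark10_307

/-!
# Base pair laws (row 122, block H7b), helper350: the last contact

* `SwapLeg`, `swap_C`, `swap_L'`, `swap_C'` : lines of a contact seen from the followed line.
* `contact_le` : contact integral of the followed line with its fresh partner, below the forward
  kernel.
* `domC` : `DomC` at `inl (root P)`, `inr false`, `inr true`, from `DomR`.
-/

set_option autoImplicit false
set_option maxHeartbeats 400000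
set_option linter.unusedSectionVars false
set_option linter.unusedVariables false

open MeasureTheory ProbabilityTheory Set Filter
open scoped ENNReal Topology Classical
open Crest.AnalysisR.Kinetic
open Crest.Agent.R122.Kin796 Crest.Agent.R122.Kin796.CTree Crest.Agent.R122.Tree674
open Crest.Agent.R122.Disc416 Crest.Agent.R122.EDefs602
open Crest.Agent.R122.Boost969 Crest.Agent.R122.Kin416
open Crest.Agent.R122.Pair292 hiding ML
open Crest.Agent.R122.CollLeg969 (WPack CLeg EC collM domK)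
open Crest.Agent.R122.PairSrc969 Crest.Agent.R122.Scat818
open Crest.Agent.R122.Nu0566 (fluxI oneD)
open Crest.Agent.R122.Mark307

noncomputable section

namespace Crest.Agent.R122.MarkC350

variable {Φ : Space3 → ℝ}

/-! ### The disc seen from the other particle -/

lemma impactDisc_neg (g : Space3) : impactDisc (-g) = impactDisc g := by
  ext b
  unfold impactDisc
  show (inner ℝ b (-g) = 0 ∧ ‖b‖ < 1) ↔ (inner ℝ b g = 0 ∧ ‖b‖ < 1)
  rw [inner_neg_right, neg_eq_zero]

lemma flux_disc (u v : Space3) (Ψ : Space3 → ℝ≥0∞) :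
    ENNReal.ofReal ‖v - u‖ * ∫⁻ b in impactDisc (v - u), Ψ b ∂μHE[2] =
      ENNReal.ofReal ‖u - v‖ * ∫⁻ y in Metric.ball (0 : Plane) 1, Ψ (-frameMap (u - v) y) := by
  have h1 : v - u = -(u - v) := by abel
  rw [h1, norm_neg, impactDisc_neg, norm_mul_lintegral_impactDisc]
  congr 1
  rw [← lintegral_indicator measurableSet_ball, ← lintegral_indicator measurableSet_ball,
    ← lintegral_neg_eq_self (μ := (volume : Measure Plane))]
  refine lintegral_congr fun y => ?_
  by_cases hy : y ∈ Metric.ball (0 : Plane) 1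
  · have hy' : -y ∈ Metric.ball (0 : Plane) 1 := by
      rw [mem_ball_zero_iff, norm_neg]; exact mem_ball_zero_iff.1 hy
    rw [indicator_of_mem hy, indicator_of_mem hy', frameMap_neg]
  · have hy' : -y ∉ Metric.ball (0 : Plane) 1 := by
      rw [mem_ball_zero_iff, norm_neg]; exact fun h => hy (mem_ball_zero_iff.2 h)
    rw [indicator_of_notMem hy, indicator_of_notMem hy']

/-! ### Lines of a contact seen from the followed line -/

/-- `line` is the leg `L` of the followed line of a contact. -/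
def SwapLeg (line : ℝ → Space3 → OCout796.CD → LSt) (L : Leg EC) : Prop :=
  ∀ (z : LSt) (s : ℝ) (g : Space3) (y : Plane),
    line s (posAt s z) (z.2.2 - g, z.2.2, -frameMap g y) = L.out (z, (s, (g, y)))

lemma relB_swap (u g b : Space3) : OCout796.relB (u - g, u, -b) = -(b, g) := by
  unfold OCout796.relB
  refine Prod.ext rfl ?_
  simp only [Prod.snd_neg]
  abel

theorem swap_C (hΦ : AdmissiblePotential Φ) (ε : ℝ) :
    SwapLeg (OCout796.lineC Φ ε) (CollLeg969.legL hΦ ε) := by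
  intro z s g y
  have hr := relB_swap z.2.2 g (frameMap g y)
  unfold OCout796.lineC OCout796.outT
  rw [hr, tauM_neg hΦ]
  have hτ : ε * tauM Φ (frameMap g y, g) = CollLeg969.dtE Φ ε (g, y) := rfl
  simp only [hτ]
  unfold Leg.out CollLeg969.legL posAt
  simp only
  refine Prod.ext rfl (Prod.ext ?_ ?_)
  · simp only; module
  · simp only; module

theorem swap_L' (hΦ : AdmissiblePotential Φ) (ε : ℝ) :
    SwapLeg (OCout796.lineL' Φ ε) (CollLeg969.legC' hΦ ε) := by
  intro z s g y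
  have hr := relB_swap z.2.2 g (frameMap g y)
  unfold OCout796.lineL' OCout796.outCM OCout796.outT OCout796.cmvel
  rw [hr, tauM_neg hΦ, exitM_neg hΦ]
  have hτ : ε * tauM Φ (frameMap g y, g) = CollLeg969.dtE Φ ε (g, y) := rfl
  have hx : Scat818.exitM Φ (frameMap g y, g) = CollLeg969.exE Φ (g, y) := rfl
  have he : entrancePoint (-(frameMap g y, g)).1 (-(frameMap g y, g)).2 =
      -CollLeg969.entE (g, y) := entrancePoint_neg _ _
  simp only [hτ, hx, he]
  unfold Leg.out CollLeg969.legC' posAt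
  simp only [Prod.fst_neg, Prod.snd_neg]
  refine Prod.ext rfl (Prod.ext ?_ ?_)
  · simp only; module
  · simp only; module

theorem swap_C' (hΦ : AdmissiblePotential Φ) (ε : ℝ) :
    SwapLeg (OCout796.lineC' Φ ε) (CollLeg969.legL' hΦ ε) := by
  intro z s g y
  have hr := relB_swap z.2.2 g (frameMap g y)
  unfold OCout796.lineC' OCout796.outCM OCout796.outT OCout796.cmvel
  rw [hr, tauM_neg hΦ, exitM_neg hΦ]
  have hτ : ε * tauM Φ (frameMap g y, g) = CollLeg969.dtE Φ ε (g, y) := rfl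
  have hx : Scat818.exitM Φ (frameMap g y, g) = CollLeg969.exE Φ (g, y) := rfl
  have he : entrancePoint (-(frameMap g y, g)).1 (-(frameMap g y, g)).2 =
      -CollLeg969.entE (g, y) := entrancePoint_neg _ _
  simp only [hτ, hx, he]
  unfold Leg.out CollLeg969.legL' posAt
  simp only [Prod.fst_neg, Prod.snd_neg]
  refine Prod.ext rfl (Prod.ext ?_ ?_)
  · simp only; module
  · simp only; module

/-! ### Contact integral of the followed line -/

/-- integrand of the forward kernel in relative coordinates -/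
lemma measurable_fwJ (L : Leg EC) (b₀ : ℝ) (z : LSt) {F : LSt → ℝ≥0∞} (hF : Measurable F) :
    Measurable fun q : ℝ × EC => Nf 1 b₀ CollLeg969.gE z q * F (L.out (z, q)) := by
  have h1 : Measurable fun q : ℝ × EC => Nf 1 b₀ CollLeg969.gE z q :=
    (measurable_Nf 1 b₀ CollLeg969.measurable_gE).comp (measurable_const.prodMk measurable_id)
  have h2 : Measurable fun q : ℝ × EC => F (L.out (z, q)) :=
    hF.comp (L.measurable_out.comp (measurable_const.prodMk measurable_id))
  exact h1.mul h2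

/-- **Contact integral at a fixed time.** -/
lemma contact_le {line : ℝ → Space3 → OCout796.CD → LSt} {L : Leg EC} (h : SwapLeg line L)
    {b₀ g : ℝ} (hg : b₀ ≤ g) (z : LSt) {s : ℝ} (hs : z.1 < s) {F : LSt → ℝ≥0∞}
    (hF : Measurable F) :
    ∫⁻ v : Space3, ENNReal.ofReal ‖v - z.2.2‖ * (wG g v *
      ∫⁻ b in impactDisc (v - z.2.2), F (line s (posAt s z) (v, z.2.2, b)) ∂μHE[2]) ≤
    ∫⁻ e, Nf 1 b₀ CollLeg969.gE z (s, e) * F (L.out (z, (s, e))) ∂collM := by
  have hm : Measurable fun e : EC => Nf 1 b₀ CollLeg969.gE z (s, e) * F (L.out (z, (s, e))) :=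
    (measurable_fwJ L b₀ z hF).comp (measurable_const.prodMk measurable_id)
  rw [CollLeg969.lintegral_collM hm, ← lintegral_sub_left_eq_self (fun v : Space3 =>
    ENNReal.ofReal ‖v - z.2.2‖ * (wG g v *
      ∫⁻ b in impactDisc (v - z.2.2), F (line s (posAt s z) (v, z.2.2, b)) ∂μHE[2])) z.2.2]
  refine lintegral_mono fun w => ?_
  have e1 : ENNReal.ofReal ‖(z.2.2 - w) - z.2.2‖ * (wG g (z.2.2 - w) *
      ∫⁻ b in impactDisc ((z.2.2 - w) - z.2.2),
        F (line s (posAt s z) (z.2.2 - w, z.2.2, b)) ∂μHE[2]) =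
      ENNReal.ofReal ‖w‖ * (wG g (z.2.2 - w) *
        ∫⁻ y in Metric.ball (0 : Plane) 1, F (L.out (z, (s, (w, y))))) := by
    have e2 := flux_disc z.2.2 (z.2.2 - w)
      (fun b => F (line s (posAt s z) (z.2.2 - w, z.2.2, b)))
    have e3 : z.2.2 - (z.2.2 - w) = w := by abel
    rw [e3] at e2
    have e4 : ∀ y : Plane, F (line s (posAt s z) (z.2.2 - w, z.2.2, -frameMap w y)) =
        F (L.out (z, (s, (w, y)))) := fun y => by rw [h z s w y]
    simp only [e4] at e2
    calc _ = wG g (z.2.2 - w) * (ENNReal.ofReal ‖(z.2.2 - w) - z.2.2‖ *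
        ∫⁻ b in impactDisc ((z.2.2 - w) - z.2.2),
          F (line s (posAt s z) (z.2.2 - w, z.2.2, b)) ∂μHE[2]) := by ring
      _ = _ := by rw [e2]; ring
  rw [e1]
  refine mul_le_mul' le_rfl ?_
  have hm2 : Measurable fun y : Plane => F (L.out (z, (s, (w, y)))) :=
    hF.comp (L.measurable_out.comp (measurable_const.prodMk
      (measurable_const.prodMk (measurable_const.prodMk measurable_id))))
  rw [← lintegral_const_mul _ hm2]
  refine lintegral_mono fun y => mul_le_mul' ?_ le_rfl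
  unfold Nf
  rw [if_pos hs, ENNReal.ofReal_one, one_mul]
  have e5 : z.2.2 - CollLeg969.gE (s, (w, y)).2 = z.2.2 - w := rfl
  have e6 : wG g (z.2.2 - w) = gE g (z.2.2 - w) := by
    unfold wG Mark307.gE
    rw [neg_mul]
  rw [e5, e6]
  exact gE_mono hg (z.2.2 - w)

/-- **The flux integral of the followed line is below the marked forward kernel.** -/
lemma flux_le {line : ℝ → Space3 → OCout796.CD → LSt} {L : Leg EC} (h : SwapLeg line L)
    {b₀ g : ℝ} (hg : b₀ ≤ g) (p : Lab × LSt) (f : ℕ → ℕ → ℕ) {q : ℕ → ℝ≥0∞}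
    (hq : ∀ n, q n ≠ ∞) {J : Set ℝ} {te : ℝ} (hJ : ∀ s ∈ Ioc 0 te, s ∈ J → p.2.1 < s)
    {w : ℕ → ℝ≥0∞} (hw : ∀ n, w n ≤ q n) {F : Lab × LSt → ℝ≥0∞} (hF : Measurable F) :
    ∫⁻ s in Ioc 0 te, J.indicator (fun s => ∑' n, w n *
      ∫⁻ v : Space3, ENNReal.ofReal ‖v - p.2.2.2‖ * (wG g v *
        ∫⁻ b in impactDisc (v - p.2.2.2),
          F (incM f n p.1, line s (posAt s p.2) (v, p.2.2.2, b)) ∂μHE[2])) s ≤
      ∫⁻ p', F p' ∂mkK f q (fwdK collM L CollLeg969.gE 1 b₀) p := by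
  have : IsSFiniteKernel (fwdK collM L CollLeg969.gE 1 b₀) :=
    isSFiniteKernel_stepK L (Nf_ne_top 1 b₀ CollLeg969.gE)
  have hFn : ∀ n, Measurable fun x : LSt => F (incM f n p.1, x) := fun n =>
    hF.comp (measurable_const.prodMk measurable_id)
  rw [lintegral_mkK f hq _ p hF]
  have e1 : ∀ n, ∫⁻ z', F (incM f n p.1, z') ∂fwdK collM L CollLeg969.gE 1 b₀ p.2 =
      ∫⁻ s : ℝ, ∫⁻ e, Nf 1 b₀ CollLeg969.gE p.2 (s, e) *
        F (incM f n p.1, L.out (p.2, (s, e))) ∂collM := by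
    intro n
    unfold fwdK
    rw [lintegral_stepK L (measurable_Nf 1 b₀ CollLeg969.measurable_gE)
      (Nf_ne_top 1 b₀ CollLeg969.gE) (hFn n),
      lintegral_prod _ (measurable_fwJ L b₀ p.2 (hFn n)).aemeasurable]
  simp only [e1]
  have hms : ∀ n, Measurable fun s : ℝ => ∫⁻ e, Nf 1 b₀ CollLeg969.gE p.2 (s, e) *
        F (incM f n p.1, L.out (p.2, (s, e))) ∂collM := fun n =>
    (measurable_fwJ L b₀ p.2 (hFn n)).lintegral_prod_right'
  have e2 : ∀ n, q n * ∫⁻ s : ℝ, ∫⁻ e, Nf 1 b₀ CollLeg969.gE p.2 (s, e) *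
        F (incM f n p.1, L.out (p.2, (s, e))) ∂collM =
      ∫⁻ s : ℝ, q n * ∫⁻ e, Nf 1 b₀ CollLeg969.gE p.2 (s, e) *
        F (incM f n p.1, L.out (p.2, (s, e))) ∂collM := fun n =>
    (lintegral_const_mul _ (hms n)).symm
  simp only [e2]
  rw [← lintegral_tsum fun n => ((hms n).const_mul _).aemeasurable]
  refine (lintegral_mono_ae ?_).trans (setLIntegral_le_lintegral (Ioc 0 te) _)
  refine (ae_restrict_iff' measurableSet_Ioc).2 (Eventually.of_forall fun s hs => ?_)
  by_cases hsJ : s ∈ J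
  · rw [indicator_of_mem hsJ]
    refine ENNReal.tsum_le_tsum fun n => mul_le_mul' (hw n) ?_
    exact contact_le h hg p.2 (hJ s hs hsJ) (hFn n)
  · rw [indicator_of_notMem hsJ]
    exact zero_le

/-! ### Lines of the structure at the last contact -/

lemma topT_lt_of_valid {ε : ℝ} {P : CTree} {z : PhasePoint × Par P} {s : ℝ} (h0 : 0 < s)
    (h : Valid Φ ε P s z.1.2 z.2) : (rootB P z).1 < s := by
  cases P with
  | leaf => exact h0
  | node l r => exact h.2.1

lemma posAt_rootB (P : CTree) (z : PhasePoint × Par P) (s : ℝ) :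
    posAt s (rootB P z) = z.1.1 + s • z.1.2 := by
  unfold posAt rootB onLine
  simp only
  module

lemma oneD_exit {ε : ℝ} {P : CTree} (m : Mk P) {z : PhasePoint × Par P} {s : ℝ}
    (h : Adm Φ P z.1.2 z.2) (c : OCout796.CD) (n : ℕ) :
    oneD Φ ε P z s c n (Sum.inl (exIdx m)) = (exM Φ ε m z, mkN m) := by
  simp only [oneD, if_neg (exIdx_ne_root m)]
  rw [lineML_exIdx, exM_eq m h]

/-- **Domination at the last contact**, abstract form: the line `y` is a leg of the root. -/
theorem domC_of {B : BPar} (hB : B.Ok) (hρ : B.ρ * B.lam₁ < 1) {b : ℝ} {P : CTree} {m : Mk P}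
    (hR : DomR Φ B b P m) (y : Idx P ⊕ Bool) (line : ℝ → ℝ → Space3 → OCout796.CD → LSt)
    (L : ℝ → Leg EC) (hL : ∀ ε, 0 < ε → CLeg (L ε)) (hs : ∀ ε, SwapLeg (line ε) (L ε))
    (f : ℕ → ℕ → ℕ) (hf : ∀ m n, f m n ≤ n + m)
    (hy : ∀ (ε : ℝ) (z : PhasePoint × Par P) (s : ℝ) (c : OCout796.CD) (n : ℕ),
      oneD Φ ε P z s c n y = (line ε s (z.1.1 + s • z.1.2) c, f n P.leaves)) :
    DomC Φ B b P m y := by
  obtain ⟨c, hc, hR⟩ := hR
  have hq : ∀ n : ℕ, B.ρ ^ n ≠ ∞ := fun n =>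
    ENNReal.pow_ne_top (ne_top_of_le_ne_top ENNReal.one_ne_top hB.ρ1)
  refine ⟨(B.lam * ∑' n, B.lam₁ ^ n * B.ρ ^ n) * c, ?_, ?_⟩
  · refine ENNReal.mul_ne_top (ENNReal.mul_ne_top hB.lamt ?_) hc
    have h1 : ∀ n : ℕ, B.lam₁ ^ n * B.ρ ^ n = (B.ρ * B.lam₁) ^ n := fun n => by
      rw [mul_pow, mul_comm]
    simp only [h1]
    rw [ENNReal.tsum_geometric]
    exact ENNReal.inv_ne_top.2 (tsub_pos_of_lt hρ).ne'
  intro ε T' te hε hε1 hte hteT hT K hK Pp hPp g hg
  obtain ⟨Ξ, ν, hX, hA, hdom⟩ := hR ε T' te hε hε1 hte hteT hT K hK Pp hPp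
  have hst : StepK Pp (mkK f (fun n => B.ρ ^ n) (fwdK collM (L ε) CollLeg969.gE 1 B.b₀))
      (mkK f (fun n => B.ρ ^ n) (domK (L ε) B.b₀))
      (B.lam * ∑' n, Pp.lam₁ ^ n * B.ρ ^ n) :=
    stepK_fwd hB.wp hPp.w hB.b0.le (hL ε hε) hf hq
  have hX2 := hX.bind hst
  rw [hPp.l] at hX2
  refine ⟨_, _, hX2, hA.bind (hL ε hε) B.b₀ hq, ?_⟩
  intro F hF hF0
  have hsf := hst.sf
  set κ := mkK f (fun n => B.ρ ^ n) (fwdK collM (L ε) CollLeg969.gE 1 B.b₀) with hκ
  have hF' : Measurable fun p : Lab × LSt => ∫⁻ p', F p' ∂κ p := hF.lintegral_kernel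
  have : IsSFiniteKernel (fwdK collM (L ε) CollLeg969.gE 1 B.b₀) :=
    isSFiniteKernel_stepK (L ε) (Nf_ne_top 1 B.b₀ CollLeg969.gE)
  have h0 := hdom (fun p => ∫⁻ p', F p' ∂κ p) hF' (by
    intro p hp
    show ∫⁻ p', F p' ∂κ p = 0
    rw [hκ, lintegral_mkK f hq _ p hF]
    refine ENNReal.tsum_eq_zero.2 fun n => ?_
    rw [mul_eq_zero]
    right
    refine (lintegral_congr fun z' => ?_).trans lintegral_zero
    exact hF0 _ fun h => hp h.1)
  rw [Measure.lintegral_bind (Kernel.aemeasurable _) hF.aemeasurable]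
  refine le_trans (lintegral_mono fun z => ?_) h0
  refine mul_le_mul' le_rfl (mul_le_mul' le_rfl ?_)
  refine le_trans ?_ (flux_le (hs ε) hg
    (((exM Φ ε m z, mkN m), ((exM Φ ε m z).1, P.leaves)), rootB P z) f hq
    (J := {s | s ≤ te ∧ Valid Φ ε P s z.1.2 z.2}) (te := te)
    (fun s h1 h2 => topT_lt_of_valid h1.1 h2.2)
    (w := fun n => markW B.ρ K n * (if n + P.leaves ≤ K then 1 else 0)) (fun n => ?_) hF)
  · refine lintegral_mono fun s => ?_
    by_cases hsJ : s ∈ {s | s ≤ te ∧ Valid Φ ε P s z.1.2 z.2}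
    swap
    · rw [indicator_of_notMem hsJ]
      exact zero_le
    rw [indicator_of_mem hsJ, indicator_of_mem hsJ]
    unfold fluxI
    refine le_of_eq (tsum_congr fun n => ?_)
    congr 1
    refine lintegral_congr fun v => ?_
    congr 2
    refine lintegral_congr fun b => ?_
    have e1 := oneD_exit (ε := ε) (s := s) m hsJ.2.1 (v, z.1.2, b) n
    have e2 := hy ε z s (v, z.1.2, b) n
    unfold pairC
    show F ((oneD Φ ε P z s (v, z.1.2, b) n (Sum.inl (exIdx m)),
        ((oneD Φ ε P z s (v, z.1.2, b) n (Sum.inl (exIdx m))).1.1,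
          (oneD Φ ε P z s (v, z.1.2, b) n y).2)), (oneD Φ ε P z s (v, z.1.2, b) n y).1) =
      F (incM f n ((exM Φ ε m z, mkN m), ((exM Φ ε m z).1, P.leaves)),
        line ε s (posAt s (rootB P z)) (v, z.1.2, b))
    rw [e1, e2, posAt_rootB]
    rfl
  · unfold markW
    split_ifs
    · rw [mul_one]
    · rw [mul_zero]; exact zero_le
    · rw [zero_mul]; exact zero_le
    · rw [zero_mul]; exact zero_le

/-- **The undeflected root at the last contact.** -/
theorem domC_root (hΦ : AdmissiblePotential Φ) {B : BPar} (hB : B.Ok) (hρ : B.ρ * B.lam₁ < 1)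
    {b : ℝ} {P : CTree} {m : Mk P} (hR : DomR Φ B b P m) :
    DomC Φ B b P m (Sum.inl (root P)) := by
  refine domC_of hB hρ hR _ (fun ε => OCout796.lineC Φ ε) (CollLeg969.legL hΦ)
    (fun ε hε => CLeg.legL hΦ hε.le) (swap_C hΦ) (fun _ n => n) (fun m n => Nat.le_add_right _ _)
    fun ε z s c n => ?_
  simp only [oneD, if_true]

/-- **The deflected fresh line at the last contact.** -/
theorem domC_L' (hΦ : AdmissiblePotential Φ) {B : BPar} (hB : B.Ok) (hρ : B.ρ * B.lam₁ < 1)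
    {b : ℝ} {P : CTree} {m : Mk P} (hR : DomR Φ B b P m) :
    DomC Φ B b P m (Sum.inr false) :=
  domC_of hB hρ hR _ (fun ε => OCout796.lineL' Φ ε) (CollLeg969.legC' hΦ)
    (fun ε hε => CLeg.legC' hΦ hε.le) (swap_L' hΦ) (fun m n => m + n)
    (fun m n => (Nat.add_comm _ _).le) fun ε z s c n => rfl

/-- **The deflected root at the last contact.** -/
theorem domC_C' (hΦ : AdmissiblePotential Φ) {B : BPar} (hB : B.Ok) (hρ : B.ρ * B.lam₁ < 1)
    {b : ℝ} {P : CTree} {m : Mk P} (hR : DomR Φ B b P m) :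
    DomC Φ B b P m (Sum.inr true) :=
  domC_of hB hρ hR _ (fun ε => OCout796.lineC' Φ ε) (CollLeg969.legL' hΦ)
    (fun ε hε => CLeg.legL' hΦ hε.le) (swap_C' hΦ) (fun m n => m + n)
    (fun m n => (Nat.add_comm _ _).le) fun ε z s c n => rfl

/-- **The three new lines at the last contact.** -/
theorem domC (hΦ : AdmissiblePotential Φ) {B : BPar} (hB : B.Ok) (hρ : B.ρ * B.lam₁ < 1)
    {b : ℝ} {P : CTree} {m : Mk P} (hR : DomR Φ B b P m) {y : Idx P ⊕ Bool}
    (hy : y = Sum.inl (root P) ∨ ∃ a, y = Sum.inr a) : DomC Φ B b P m y := by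
  rcases hy with rfl | ⟨a, rfl⟩
  · exact domC_root hΦ hB hρ hR
  · cases a
    · exact domC_L' hΦ hB hρ hR
    · exact domC_C' hΦ hB hρ hR

end Crest.Agent.R122.MarkC350

end
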