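import Crest.Agent.R122.PairOff3_969

/-!
Row 122, block H7, helper969: exits OFF the forward path of the first marked particle, part 4:
**domination of the pairs of exits**.

`domP_off : OffP m m' → DomP Φ T b PP P m m'` : the second exit `m'` is not on the forward path of the
first exit `m` (that is, `m'` is not an ancestor of `m`).
-/

set_option autoImplicit false
set_option synthInstance.maxSize 1024

open MeasureTheory ProbabilityTheory Set
open Crest.AnalysisR.Kinetic
open Crest.Agent.R122.Boost969 Crest.Agent.R122.Kin416 Crest.Agent.R122.Pair292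
open Crest.Agent.R122.CollLeg969 (EC WPack)
open Crest.Agent.R122.PairSrc969 Crest.Agent.R122.Omega969
open Crest.Agent.R122.Kin796 Crest.Agent.R122.Kin796.CTree Crest.Agent.R122.Tree674
open Crest.Agent.R122.Mark307 Crest.Agent.R122.TreeDom974 Crest.Agent.R122.Disc416
open Crest.Agent.R122.Scat818 Crest.Agent.R122.Flow671 Crest.Agent.R122.Flux663
open Crest.Agent.R122.EDefs602 (lineM markW)
open Crest.Agent.R122.TreeLines335
open scoped ENNReal

noncomputable section

namespace Crest.Agent.R122.PairOff969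

variable {Φ : Space3 → ℝ}

/-! ### The crude bound with the Gaussian tree weight -/

lemma prod_gE_lines (hΦ : AdmissiblePotential Φ) (b ε : ℝ) {P : CTree} {z : PhasePoint × Par P}
    (hA : Adm Φ P z.1.2 z.2) : ∏ i, gE b (lines Φ ε P z.1 z.2 i).2 = gw b P z := by
  unfold gw
  rw [← sum_vels_sq hΦ hA, Finset.mul_sum, Real.exp_sum,
    ENNReal.ofReal_prod_of_nonneg fun i _ => (Real.exp_pos _).le]
  refine Finset.prod_congr rfl fun i _ => ?_
  rw [← Hid424.lines_vel ε P z.1 z.2 i]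
  rfl

theorem crude_gw (hΦ : AdmissiblePotential Φ) {b b' : ℝ} (hb' : 0 < b') (hb : b' < b) (P : CTree)
    (T : ℝ) : ∃ C : ℝ≥0∞, C ≠ ∞ ∧ ∀ (ε T' : ℝ), 0 < ε → T' ≤ T → ∀ (m : Mk P) (φ : BLine → ℝ≥0∞),
      Measurable φ →
      ∫⁻ z : PhasePoint × Par P, vw Φ ε P T' z * (gw b P z * φ (exM Φ ε m z)) ≤
        C * ∫⁻ d : BLine, (Ioo 0 T').indicator 1 d.1 * gE b' d.2.2 * φ d := by
  obtain ⟨C, hC, H⟩ := crude_exit hΦ (C := 1) zero_le_one hb' hb
    (k := fun z : PhasePoint => gE b z.2) ((measurable_gE b).comp measurable_snd)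
    (fun z => by rw [one_mul]; exact le_rfl) P T
  refine ⟨C, hC, fun ε T' hε hT m φ hφ => le_trans (le_of_eq ?_) (H ε T' hε hT m φ hφ)⟩
  refine lintegral_congr fun z => ?_
  by_cases hz : vw Φ ε P T' z = 0
  · rw [hz, zero_mul, zero_mul]
  · have hV := valid_of_vw hz
    rw [prod_gE_lines hΦ b ε hV.1, exM_eq m hV.1]

/-! ### The common part -/

theorem domP_of_side (hΦ : AdmissiblePotential Φ) {B₀ : BPar} (hB : B₀.Ok)
    {b : ℝ} (hb : B₀.bs < b) {P Q B : CTree} {m m' : Mk P} {mt : Mk B} {m2 : Mk Q}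
    (hfw : fwd m m' = false)
    (w : ℝ → ℝ → PhasePoint × Par B → ℝ≥0∞) (Λ : ℝ → PhasePoint × Par B → PhasePoint)
    (hw : ∀ ε T', Measurable (w ε T')) (hΛ : ∀ ε, Measurable (Λ ε))
    (hws : ∀ ε T' x z, w ε T' (shZ x z) = w ε T' z)
    (hv : ∀ ε T' z, w ε T' z ≠ 0 → Valid Φ ε B T' z.1.2 z.2)
    (hΛs : ∀ ε T' x z, w ε T' z ≠ 0 → Λ ε (shZ x z) = shx x (Λ ε z))
    (hg : ∀ b' ε T' z, b' ≤ b → w ε T' z * gE b' (Λ ε z).2 ≤ vw Φ ε B T' z * gw b' B z)
    (hdom : ∀ (b' ε T' : ℝ) (C : ℝ≥0∞) (κ : Kernel PhasePoint (ℝ × Space3)), 0 < ε →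
      PosK Φ ε T' b b' C m2 κ → ∀ F : BLine × BLine → ℝ≥0∞, Measurable F →
      ∫⁻ z : PhasePoint × Par P, vw Φ ε P T' z * (gw b P z * F (exM Φ ε m z, exM Φ ε m' z)) ≤
        ∫⁻ z, w ε T' z * ∫⁻ q, (∫⁻ v, gE b' v * F (exM Φ ε mt z, (q.1, (q.2, v)))) ∂κ (Λ ε z)) :
    DomP Φ B₀ b P m m' := by
  set b' : ℝ := (b + B₀.bs) / 2 with hb'
  have h1 : B₀.bs < b' := by rw [hb']; linarith
  have h2 : b' < b := by rw [hb']; linarith
  have hb'0 : 0 < b' := hB.bs0.trans h1
  obtain ⟨C, hCt, H⟩ := exists_pos hΦ B₀.T m2 hb'0 h2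
  obtain ⟨C₁, hC₁, H₁⟩ := crude_gw hΦ hB.bs0 h1 B B₀.T
  refine ⟨cstO b' B₀.η B₀.lam₁ B₀.ρ C C₁ B₀.A (mkN m') P.leaves,
    cstO_ne_top hB h1.le hCt hC₁ _ _, fun ε T' te hε hε1 hte hte1 hT K hK Pp hPp => ?_⟩
  obtain ⟨κ, hκ⟩ := H ε T' hε hT
  have hsf := hκ.sf
  have hD := measurable_exM hΦ ε mt
  set μ : Measure (PhasePoint × Par B) := volume.withDensity (w ε T') with hμ
  have hsh : BaseCov μ (exM Φ ε mt) (Λ ε) (fun x => shZ x) := by
    refine ⟨fun x => measurable_shZ x, fun x => ?_, fun x => ?_⟩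
    · refine Measure.ext_of_lintegral _ fun F hF => ?_
      have hFs : Measurable fun z : PhasePoint × Par B => F (shZ x z) := hF.comp (measurable_shZ x)
      rw [lintegral_map hF (measurable_shZ x), hμ]
      refine (lintegral_withDensity_eq_lintegral_mul _ (hw ε T') hFs).trans ?_
      refine Eq.trans ?_ (lintegral_withDensity_eq_lintegral_mul _ (hw ε T') hF).symm
      rw [← (mp_shZ x B).lintegral_comp ((hw ε T').mul hF)]
      refine lintegral_congr fun z => ?_
      simp only [Pi.mul_apply]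
      rw [hws]
    · rw [hμ, ae_withDensity_iff (hw ε T')]
      refine Filter.Eventually.of_forall fun z hz => ⟨?_, hΛs ε T' x z hz⟩
      exact exM_sh x mt (hv ε T' z hz).1
  have hcr : ∀ φ : BLine → ℝ≥0∞, Measurable φ → ∫⁻ z, gE b' (Λ ε z).2 * φ (exM Φ ε mt z) ∂μ ≤
      C₁ * ∫⁻ d : BLine, (Ioo 0 T').indicator 1 d.1 * gE B₀.bs d.2.2 * φ d := by
    intro φ hφ
    have hm : Measurable fun z : PhasePoint × Par B => gE b' (Λ ε z).2 * φ (exM Φ ε mt z) :=
      ((measurable_gE b').comp (measurable_snd.comp (hΛ ε))).mul (hφ.comp hD)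
    rw [hμ]
    refine (le_of_eq (lintegral_withDensity_eq_lintegral_mul _ (hw ε T') hm)).trans ?_
    refine le_trans (lintegral_mono fun z => ?_) (H₁ ε T' hε hT mt φ hφ)
    simp only [Pi.mul_apply]
    rw [← mul_assoc, ← mul_assoc]
    exact mul_le_mul_left (hg b' ε T' z h2.le) _
  have hmk : mkN m ≤ P.leaves := by rw [← mk_exIdx]; exact mk_le P _
  have hmk1 : 1 ≤ mkN m := by rw [← mk_exIdx]; exact one_le_mk P _
  obtain ⟨Ξ, hΞ⟩ := px_offN (μ := μ) (D := exM Φ ε mt) (Λ := Λ ε) (hΛ := hΛ ε) (κ := κ)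
    (n := mkN m) (n' := mkN m') (te := te) hB hPp hD hsh h1.le hte1 hT hκ.mass hκ.trans hcr
    hmk1 (hmk.trans hK) hmk
  refine ⟨Ξ, _, hΞ, aux_offN hD hκ.mass hκ.na, fun F hF hF0 => ?_⟩
  have hF' : Measurable fun q : BLine × BLine =>
      F (((q.1, mkN m), (q.2.1, mkN m')), q.2) := hF.comp (by fun_prop)
  have e0 : ∀ z : PhasePoint × Par P, pairT Φ ε m m' z =
      (((exM Φ ε m z, mkN m), ((exM Φ ε m' z).1, mkN m')), exM Φ ε m' z) := by
    intro z
    unfold pairT sgT
    rw [hfw]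
    rfl
  simp only [e0]
  refine (hdom b' ε T' C κ hε hκ _ hF').trans ?_
  refine le_trans (le_of_eq ?_) (offDom hD hκ.mass hF hF0)
  have hI : Measurable fun z : PhasePoint × Par B => ∫⁻ q, (∫⁻ v, gE b' v *
      F (((exM Φ ε mt z, mkN m), (q.1, mkN m')), (q.1, (q.2, v)))) ∂κ (Λ ε z) := by
    have h3 : Measurable fun p : ((PhasePoint × Par B) × (ℝ × Space3)) × Space3 =>
        gE b' p.2 * F (((exM Φ ε mt p.1.1, mkN m), (p.1.2.1, mkN m')),
          (p.1.2.1, (p.1.2.2, p.2))) := by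
      have h4 : Measurable fun p : ((PhasePoint × Par B) × (ℝ × Space3)) × Space3 =>
        exM Φ ε mt p.1.1 := hD.comp measurable_fst.fst
      refine ((measurable_gE b').comp measurable_snd).mul (hF.comp ?_)
      exact ((h4.prodMk measurable_const).prodMk (by fun_prop)).prodMk (by fun_prop)
    have h5 : Measurable fun p : (PhasePoint × Par B) × (ℝ × Space3) => ∫⁻ v, gE b' v *
        F (((exM Φ ε mt p.1, mkN m), (p.2.1, mkN m')), (p.2.1, (p.2.2, v))) :=
      h3.lintegral_prod_right'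
    exact Measurable.lintegral_kernel_prod_right' (κ := κ.comap (Λ ε) (hΛ ε)) h5
  rw [hμ]
  exact (lintegral_withDensity_eq_lintegral_mul _ (hw ε T') hI).symm

/-! ### The second exit in the second branch -/

/-- the leaf parameter -/
def lf : Par leaf := ()

/-- weight of the base tree: the first branch is kept -/
def wR (Φ : Space3 → ℝ) (b : ℝ) (l : CTree) (ε T' : ℝ) (z : PhasePoint × Par (node l leaf)) :
    ℝ≥0∞ :=
  vw Φ ε (node l leaf) T' z * gw b l ((inM Φ ε (z.1, z.2.1)).1, z.2.2.1)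

/-- weight of the base tree: the second branch is kept -/
def wL (Φ : Space3 → ℝ) (b : ℝ) (r : CTree) (ε T' : ℝ) (z : PhasePoint × Par (node leaf r)) :
    ℝ≥0∞ :=
  vw Φ ε (node leaf r) T' z * gw b r ((inM Φ ε (z.1, z.2.1)).2, z.2.2.2)

lemma topI_leaf (s : ℝ) (p : Par leaf) : topI leaf (s, p) = 1 := by
  unfold topI
  rw [indicator_of_mem (show (s, p) ∈ {q : ℝ × Par leaf | TopLt leaf q.1 q.2} from trivial)]
  rfl

lemma vw_leaf (ε T' : ℝ) (z : PhasePoint × Par leaf) : vw Φ ε leaf T' z = 1 :=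
  vw_of_valid (z := z) valid_leaf

lemma gw_leaf (b : ℝ) (z : PhasePoint × Par leaf) : gw b leaf z = gE b z.1.2 := by
  unfold gw gE nodeE
  rw [add_zero]

lemma wR_node {ε : ℝ} (hε : 0 < ε) (b T' : ℝ) (l : CTree) (ℓ : PhasePoint) (a : NodeP)
    (pl : Par l) (pr : Par leaf) :
    wR Φ b l ε T' (ℓ, ((a, (pl, pr)) : Par (node l leaf))) =
      (vI Φ ε T' (ℓ, a) * ENNReal.ofReal ‖ℓ.2 - a.2.1‖) *
        br Φ ε T' b l (sinM Φ ε (ℓ, a)) ((inM Φ ε (ℓ, a)).1, pl) := by
  have h := vw_node hε (Φ := Φ) (T := T') (r := leaf) ℓ a pl pr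
  unfold wR
  have h' : vw Φ ε (node l leaf) T' (ℓ, ((a, (pl, pr)) : Par (node l leaf))) = _ := h
  rw [h', topI_leaf, vw_leaf]
  unfold br
  simp only
  ring

lemma wL_node {ε : ℝ} (hε : 0 < ε) (b T' : ℝ) (r : CTree) (ℓ : PhasePoint) (a : NodeP)
    (pl : Par leaf) (pr : Par r) :
    wL Φ b r ε T' (ℓ, ((a, (pl, pr)) : Par (node leaf r))) =
      (vI Φ ε T' (ℓ, a) * ENNReal.ofReal ‖ℓ.2 - a.2.1‖) *
        br Φ ε T' b r (sinM Φ ε (ℓ, a)) ((inM Φ ε (ℓ, a)).2, pr) := by
  have h := vw_node hε (Φ := Φ) (T := T') (l := leaf) ℓ a pl pr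
  unfold wL
  have h' : vw Φ ε (node leaf r) T' (ℓ, ((a, (pl, pr)) : Par (node leaf r))) = _ := h
  rw [h', topI_leaf, vw_leaf]
  unfold br
  simp only
  ring

lemma measurable_wR (hΦ : AdmissiblePotential Φ) (b : ℝ) (l : CTree) (ε T' : ℝ) :
    Measurable (wR Φ b l ε T') :=
  (measurable_vw hΦ ε (node l leaf) T').mul ((measurable_gw b l).comp
    ((measurable_inD hΦ l leaf).fst.prodMk ((measurable_parL l leaf).comp measurable_snd)))

lemma measurable_wL (hΦ : AdmissiblePotential Φ) (b : ℝ) (r : CTree) (ε T' : ℝ) :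
    Measurable (wL Φ b r ε T') :=
  (measurable_vw hΦ ε (node leaf r) T').mul ((measurable_gw b r).comp
    ((measurable_inD hΦ leaf r).snd.prodMk ((measurable_parR leaf r).comp measurable_snd)))

lemma adm1_of_vw {ε T' : ℝ} {l r : CTree} {z : PhasePoint × Par (node l r)}
    (h : vw Φ ε (node l r) T' z ≠ 0) : Adm1 Φ z.1.2 z.2.1 := (valid_of_vw h).1.1

/-- the truncated tree, first branch kept -/
def trR (l r : CTree) (p : Par (node l r)) : Par (node l leaf) := (p.1, (p.2.1, lf))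

/-- the truncated tree, second branch kept -/
def trL (l r : CTree) (p : Par (node l r)) : Par (node leaf r) := (p.1, (lf, p.2.2))

theorem domP_R (hΦ : AdmissiblePotential Φ) {B : BPar} (hB : B.Ok)
    {b : ℝ} (hb : B.bs < b) {l r : CTree} (m : Mk (node l r)) (m2 : Mk r) (mt : Mk (node l leaf))
    (hfw : fwd m (Mk.inr l m2) = false)
    (hm : ∀ (ε : ℝ) (z : PhasePoint × Par (node l r)),
      exM Φ ε m z = exM Φ ε mt (z.1, trR l r z.2)) :
    DomP Φ B b (node l r) m (Mk.inr l m2) := by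
  refine domP_of_side hΦ hB hb (mt := mt) (m2 := m2) hfw (wR Φ b l)
    (fun ε z => (inM Φ ε (z.1, z.2.1)).2) (fun ε T' => measurable_wR hΦ b l ε T')
    (fun ε => (measurable_inD hΦ l leaf).snd) ?_ ?_ ?_ ?_ ?_
  · intro ε T' x z
    by_cases hz : vw Φ ε (node l leaf) T' z = 0
    · unfold wR
      rw [vw_sh, hz, zero_mul, zero_mul]
    · have hA := adm1_of_vw hz
      unfold wR
      rw [vw_sh]
      have h1 : inM Φ ε ((shZ x z).1, (shZ x z).2.1) =
          (shx x (inM Φ ε (z.1, z.2.1)).1, shx x (inM Φ ε (z.1, z.2.1)).2) := inM_sh x hA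
      rw [h1]
      rfl
  · intro ε T' z hz
    refine valid_of_vw (fun h => hz ?_)
    unfold wR
    rw [h, zero_mul]
  · intro ε T' x z hz
    have hv : vw Φ ε (node l leaf) T' z ≠ 0 := fun h => hz (by unfold wR; rw [h, zero_mul])
    have h1 : inM Φ ε ((shZ x z).1, (shZ x z).2.1) =
          (shx x (inM Φ ε (z.1, z.2.1)).1, shx x (inM Φ ε (z.1, z.2.1)).2) :=
      inM_sh x (adm1_of_vw hv)
    simp only [h1]
  · intro b' ε T' z hb'
    by_cases hz : vw Φ ε (node l leaf) T' z = 0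
    · unfold wR
      rw [hz, zero_mul, zero_mul, zero_mul]
    · have hA := adm1_of_vw hz
      have h1 : gw b' (node l leaf) z = gw b' l ((inM Φ ε (z.1, z.2.1)).1, z.2.2.1) *
          gw b' leaf ((inM Φ ε (z.1, z.2.1)).2, z.2.2.2) := by
        rw [inM_of_adm (z := (z.1, z.2.1)) hA]
        exact gw_node hΦ (l := l) (r := leaf) (o := (z.1, z.2.1)) hA rfl b' z.2.2.1 z.2.2.2
      unfold wR
      rw [h1, gw_leaf, mul_assoc]
      exact mul_le_mul_right (mul_le_mul_left (gw_mono hb' l _) _) _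
  · intro b' ε T' C κ hε hκ F hF
    have hsf := hκ.sf
    have hF1 : Measurable fun z : PhasePoint × Par (node l r) =>
        F (exM Φ ε m z, exM Φ ε (Mk.inr l m2) z) :=
      hF.comp ((measurable_exM hΦ ε m).prodMk (measurable_exM hΦ ε (Mk.inr l m2)))
    have hL : Measurable fun z : PhasePoint × Par (node l r) => vw Φ ε (node l r) T' z *
        (gw b (node l r) z * F (exM Φ ε m z, exM Φ ε (Mk.inr l m2) z)) :=
      (measurable_vw hΦ ε (node l r) T').mul ((measurable_gw b (node l r)).mul hF1)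
    -- the right side
    set G : PhasePoint × Par (node l leaf) → ℝ≥0∞ := fun z =>
      ∫⁻ q, (∫⁻ v, gE b' v * F (exM Φ ε mt z, (q.1, (q.2, v)))) ∂κ (inM Φ ε (z.1, z.2.1)).2 with hG
    have hGm : Measurable G := by
      have h3 : Measurable fun p : ((PhasePoint × Par (node l leaf)) × (ℝ × Space3)) × Space3 =>
          gE b' p.2 * F (exM Φ ε mt p.1.1, (p.1.2.1, (p.1.2.2, p.2))) := by
        have h4 : Measurable fun p : ((PhasePoint × Par (node l leaf)) × (ℝ × Space3)) × Space3 =>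
          exM Φ ε mt p.1.1 := (measurable_exM hΦ ε mt).comp measurable_fst.fst
        exact ((measurable_gE b').comp measurable_snd).mul (hF.comp (h4.prodMk (by fun_prop)))
      have h5 : Measurable fun p : (PhasePoint × Par (node l leaf)) × (ℝ × Space3) =>
          ∫⁻ v, gE b' v * F (exM Φ ε mt p.1, (p.2.1, (p.2.2, v))) := h3.lintegral_prod_right'
      exact Measurable.lintegral_kernel_prod_right'
        (κ := κ.comap (fun z : PhasePoint × Par (node l leaf) => (inM Φ ε (z.1, z.2.1)).2)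
          (measurable_inD hΦ l leaf).snd) h5
    have hR : Measurable fun z : PhasePoint × Par (node l leaf) => wR Φ b l ε T' z * G z :=
      (measurable_wR hΦ b l ε T').mul hGm
    rw [Tree674.lintegral_pair hL, Tree674.lintegral_pair hR]
    refine lintegral_mono fun ℓ => ?_
    have hH : Measurable fun p : Par (node l r) => F (exM Φ ε m (ℓ, p),
        exM Φ ε (Mk.inr l m2) (ℓ, p)) := hF1.comp (measurable_const.prodMk measurable_id)
    have hRℓ : Measurable fun p : Par (node l leaf) => wR Φ b l ε T' (ℓ, p) * G (ℓ, p) :=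
      hR.comp (measurable_const.prodMk measurable_id)
    simp only
    rw [node_fix hΦ hε T' b l r ℓ hH, lintegral_par_node l leaf hRℓ]
    refine lintegral_mono fun a => ?_
    have hRa : Measurable fun y : Par l × Par leaf => wR Φ b l ε T' (ℓ, ((a, y) :
        Par (node l leaf))) * G (ℓ, ((a, y) : Par (node l leaf))) :=
      hRℓ.comp ((measurable_parMk l leaf).comp (measurable_const.prodMk measurable_id))
    rw [Tree674.lintegral_pair hRa]
    have e1 : ∀ pl : Par l, ∫⁻ y : Par leaf, wR Φ b l ε T' (ℓ, ((a, (pl, y)) :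
        Par (node l leaf))) * G (ℓ, ((a, (pl, y)) : Par (node l leaf))) =
        wR Φ b l ε T' (ℓ, ((a, (pl, lf)) : Par (node l leaf))) *
          G (ℓ, ((a, (pl, lf)) : Par (node l leaf))) := fun pl => lintegral_par_leaf _
    simp only [e1]
    have hbl : Measurable fun pl : Par l =>
        br Φ ε T' b l (sinM Φ ε (ℓ, a)) ((inM Φ ε (ℓ, a)).1, pl) :=
      (measurable_br hΦ ε T' b l).comp (measurable_const.prodMk
        (measurable_const.prodMk measurable_id))
    have hGa : Measurable fun pl : Par l => G (ℓ, ((a, (pl, lf)) : Par (node l leaf))) :=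
      hGm.comp (measurable_const.prodMk ((measurable_parMk l leaf).comp
        (measurable_const.prodMk (measurable_id.prodMk measurable_const))))
    have hbG : Measurable fun pl : Par l =>
        br Φ ε T' b l (sinM Φ ε (ℓ, a)) ((inM Φ ε (ℓ, a)).1, pl) *
          G (ℓ, ((a, (pl, lf)) : Par (node l leaf))) := hbl.mul hGa
    have e2 : ∀ pl : Par l, wR Φ b l ε T' (ℓ, ((a, (pl, lf)) : Par (node l leaf))) *
          G (ℓ, ((a, (pl, lf)) : Par (node l leaf))) =
        (vI Φ ε T' (ℓ, a) * ENNReal.ofReal ‖ℓ.2 - a.2.1‖) *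
          (br Φ ε T' b l (sinM Φ ε (ℓ, a)) ((inM Φ ε (ℓ, a)).1, pl) *
            G (ℓ, ((a, (pl, lf)) : Par (node l leaf)))) := by
      intro pl
      have h := wR_node (Φ := Φ) hε b T' l ℓ a pl lf
      rw [h]
      ring
    simp only [e2]
    rw [lintegral_const_mul _ hbG]
    refine mul_le_mul_right (lintegral_mono fun pl => mul_le_mul_right ?_ _) _
    -- the fresh branch
    have hFp : Measurable fun x : BLine =>
        F (exM Φ ε mt (ℓ, ((a, (pl, lf)) : Par (node l leaf))), x) :=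
      hF.comp (measurable_const.prodMk measurable_id)
    refine le_trans (lintegral_mono fun pr => ?_) (hκ.dom _ hFp (inM Φ ε (ℓ, a)).2)
    have h1 := hm ε (ℓ, ((a, (pl, pr)) : Par (node l r)))
    have h2 : exM Φ ε m (ℓ, ((a, (pl, pr)) : Par (node l r))) =
        exM Φ ε mt (ℓ, ((a, (pl, lf)) : Par (node l leaf))) := h1
    rw [h2, ← mul_assoc]
    exact mul_le_mul_left (br_le _ _ _ _ _ _) _

theorem domP_L (hΦ : AdmissiblePotential Φ) {B : BPar} (hB : B.Ok)
    {b : ℝ} (hb : B.bs < b) {l r : CTree} (m : Mk (node l r)) (m2 : Mk l) (mt : Mk (node leaf r))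
    (hfw : fwd m (Mk.inl m2 r) = false)
    (hm : ∀ (ε : ℝ) (z : PhasePoint × Par (node l r)),
      exM Φ ε m z = exM Φ ε mt (z.1, trL l r z.2)) :
    DomP Φ B b (node l r) m (Mk.inl m2 r) := by
  refine domP_of_side hΦ hB hb (mt := mt) (m2 := m2) hfw (wL Φ b r)
    (fun ε z => (inM Φ ε (z.1, z.2.1)).1) (fun ε T' => measurable_wL hΦ b r ε T')
    (fun ε => (measurable_inD hΦ leaf r).fst) ?_ ?_ ?_ ?_ ?_
  · intro ε T' x z
    by_cases hz : vw Φ ε (node leaf r) T' z = 0
    · unfold wL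
      rw [vw_sh, hz, zero_mul, zero_mul]
    · have hA := adm1_of_vw hz
      unfold wL
      rw [vw_sh]
      have h1 : inM Φ ε ((shZ x z).1, (shZ x z).2.1) =
          (shx x (inM Φ ε (z.1, z.2.1)).1, shx x (inM Φ ε (z.1, z.2.1)).2) := inM_sh x hA
      rw [h1]
      rfl
  · intro ε T' z hz
    refine valid_of_vw (fun h => hz ?_)
    unfold wL
    rw [h, zero_mul]
  · intro ε T' x z hz
    have hv : vw Φ ε (node leaf r) T' z ≠ 0 := fun h => hz (by unfold wL; rw [h, zero_mul])
    have h1 : inM Φ ε ((shZ x z).1, (shZ x z).2.1) =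
          (shx x (inM Φ ε (z.1, z.2.1)).1, shx x (inM Φ ε (z.1, z.2.1)).2) :=
      inM_sh x (adm1_of_vw hv)
    simp only [h1]
  · intro b' ε T' z hb'
    by_cases hz : vw Φ ε (node leaf r) T' z = 0
    · unfold wL
      rw [hz, zero_mul, zero_mul, zero_mul]
    · have hA := adm1_of_vw hz
      have h1 : gw b' (node leaf r) z = gw b' leaf ((inM Φ ε (z.1, z.2.1)).1, z.2.2.1) *
          gw b' r ((inM Φ ε (z.1, z.2.1)).2, z.2.2.2) := by
        rw [inM_of_adm (z := (z.1, z.2.1)) hA]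
        exact gw_node hΦ (l := leaf) (r := r) (o := (z.1, z.2.1)) hA rfl b' z.2.2.1 z.2.2.2
      unfold wL
      rw [h1, gw_leaf, mul_assoc, mul_comm (gE b' _)]
      exact mul_le_mul_right (mul_le_mul_left (gw_mono hb' r _) _) _
  · intro b' ε T' C κ hε hκ F hF
    have hsf := hκ.sf
    have hF1 : Measurable fun z : PhasePoint × Par (node l r) =>
        F (exM Φ ε m z, exM Φ ε (Mk.inl m2 r) z) :=
      hF.comp ((measurable_exM hΦ ε m).prodMk (measurable_exM hΦ ε (Mk.inl m2 r)))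
    have hL : Measurable fun z : PhasePoint × Par (node l r) => vw Φ ε (node l r) T' z *
        (gw b (node l r) z * F (exM Φ ε m z, exM Φ ε (Mk.inl m2 r) z)) :=
      (measurable_vw hΦ ε (node l r) T').mul ((measurable_gw b (node l r)).mul hF1)
    -- the right side
    set G : PhasePoint × Par (node leaf r) → ℝ≥0∞ := fun z =>
      ∫⁻ q, (∫⁻ v, gE b' v * F (exM Φ ε mt z, (q.1, (q.2, v)))) ∂κ (inM Φ ε (z.1, z.2.1)).1 with hG
    have hGm : Measurable G := by
      have h3 : Measurable fun p : ((PhasePoint × Par (node leaf r)) × (ℝ × Space3)) × Space3 =>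
          gE b' p.2 * F (exM Φ ε mt p.1.1, (p.1.2.1, (p.1.2.2, p.2))) := by
        have h4 : Measurable fun p : ((PhasePoint × Par (node leaf r)) × (ℝ × Space3)) × Space3 =>
          exM Φ ε mt p.1.1 := (measurable_exM hΦ ε mt).comp measurable_fst.fst
        exact ((measurable_gE b').comp measurable_snd).mul (hF.comp (h4.prodMk (by fun_prop)))
      have h5 : Measurable fun p : (PhasePoint × Par (node leaf r)) × (ℝ × Space3) =>
          ∫⁻ v, gE b' v * F (exM Φ ε mt p.1, (p.2.1, (p.2.2, v))) := h3.lintegral_prod_right'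
      exact Measurable.lintegral_kernel_prod_right'
        (κ := κ.comap (fun z : PhasePoint × Par (node leaf r) => (inM Φ ε (z.1, z.2.1)).1)
          (measurable_inD hΦ leaf r).fst) h5
    have hR : Measurable fun z : PhasePoint × Par (node leaf r) => wL Φ b r ε T' z * G z :=
      (measurable_wL hΦ b r ε T').mul hGm
    rw [Tree674.lintegral_pair hL, Tree674.lintegral_pair hR]
    refine lintegral_mono fun ℓ => ?_
    have hH : Measurable fun p : Par (node l r) => F (exM Φ ε m (ℓ, p),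
        exM Φ ε (Mk.inl m2 r) (ℓ, p)) := hF1.comp (measurable_const.prodMk measurable_id)
    have hRℓ : Measurable fun p : Par (node leaf r) => wL Φ b r ε T' (ℓ, p) * G (ℓ, p) :=
      hR.comp (measurable_const.prodMk measurable_id)
    simp only
    rw [node_fix hΦ hε T' b l r ℓ hH, lintegral_par_node leaf r hRℓ]
    refine lintegral_mono fun a => ?_
    have hRa : Measurable fun y : Par leaf × Par r => wL Φ b r ε T' (ℓ, ((a, y) :
        Par (node leaf r))) * G (ℓ, ((a, y) : Par (node leaf r))) :=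
      hRℓ.comp ((measurable_parMk leaf r).comp (measurable_const.prodMk measurable_id))
    rw [Tree674.lintegral_pair hRa, lintegral_par_leaf]
    have hbr : Measurable fun pr : Par r =>
        br Φ ε T' b r (sinM Φ ε (ℓ, a)) ((inM Φ ε (ℓ, a)).2, pr) :=
      (measurable_br hΦ ε T' b r).comp (measurable_const.prodMk
        (measurable_const.prodMk measurable_id))
    have hbl : Measurable fun pl : Par l =>
        br Φ ε T' b l (sinM Φ ε (ℓ, a)) ((inM Φ ε (ℓ, a)).1, pl) :=
      (measurable_br hΦ ε T' b l).comp (measurable_const.prodMk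
        (measurable_const.prodMk measurable_id))
    have hGa : Measurable fun pr : Par r => G (ℓ, ((a, (lf, pr)) : Par (node leaf r))) :=
      hGm.comp (measurable_const.prodMk ((measurable_parMk leaf r).comp
        (measurable_const.prodMk (measurable_const.prodMk measurable_id))))
    have hbG : Measurable fun pr : Par r =>
        br Φ ε T' b r (sinM Φ ε (ℓ, a)) ((inM Φ ε (ℓ, a)).2, pr) *
          G (ℓ, ((a, (lf, pr)) : Par (node leaf r))) := hbr.mul hGa
    have e2 : ∀ pr : Par r, wL Φ b r ε T' (ℓ, ((a, (lf, pr)) : Par (node leaf r))) *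
          G (ℓ, ((a, (lf, pr)) : Par (node leaf r))) =
        (vI Φ ε T' (ℓ, a) * ENNReal.ofReal ‖ℓ.2 - a.2.1‖) *
          (br Φ ε T' b r (sinM Φ ε (ℓ, a)) ((inM Φ ε (ℓ, a)).2, pr) *
            G (ℓ, ((a, (lf, pr)) : Par (node leaf r)))) := by
      intro pr
      have h := wL_node (Φ := Φ) hε b T' r ℓ a lf pr
      rw [h]
      ring
    have e3 : ∫⁻ pr : Par r, wL Φ b r ε T' (ℓ, ((a, ((), pr)) : Par (node leaf r))) *
          G (ℓ, ((a, ((), pr)) : Par (node leaf r))) =
        (vI Φ ε T' (ℓ, a) * ENNReal.ofReal ‖ℓ.2 - a.2.1‖) * ∫⁻ pr : Par r,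
          (br Φ ε T' b r (sinM Φ ε (ℓ, a)) ((inM Φ ε (ℓ, a)).2, pr) *
            G (ℓ, ((a, (lf, pr)) : Par (node leaf r)))) :=
      (lintegral_congr e2).trans (lintegral_const_mul _ hbG)
    rw [e3]
    refine mul_le_mul_right ?_ _
    -- exchange of the branches
    set F2 : Par l × Par r → ℝ≥0∞ := fun y =>
      br Φ ε T' b l (sinM Φ ε (ℓ, a)) ((inM Φ ε (ℓ, a)).1, y.1) *
        (br Φ ε T' b r (sinM Φ ε (ℓ, a)) ((inM Φ ε (ℓ, a)).2, y.2) *
          F (exM Φ ε m (ℓ, ((a, y) : Par (node l r))),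
            exM Φ ε (Mk.inl m2 r) (ℓ, ((a, y) : Par (node l r))))) with hF2
    have hFy : Measurable fun y : Par l × Par r =>
        F (exM Φ ε m (ℓ, ((a, y) : Par (node l r))),
            exM Φ ε (Mk.inl m2 r) (ℓ, ((a, y) : Par (node l r)))) :=
      hF1.comp (measurable_const.prodMk ((measurable_parMk l r).comp
        (measurable_const.prodMk measurable_id)))
    have hF2m : Measurable F2 :=
      (hbl.comp measurable_fst).mul ((hbr.comp measurable_snd).mul hFy)
    have e4 : ∫⁻ pl : Par l, br Φ ε T' b l (sinM Φ ε (ℓ, a)) ((inM Φ ε (ℓ, a)).1, pl) *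
        ∫⁻ pr : Par r, br Φ ε T' b r (sinM Φ ε (ℓ, a)) ((inM Φ ε (ℓ, a)).2, pr) *
          F (exM Φ ε m (ℓ, ((a, (pl, pr)) : Par (node l r))),
            exM Φ ε (Mk.inl m2 r) (ℓ, ((a, (pl, pr)) : Par (node l r)))) =
        ∫⁻ pr : Par r, ∫⁻ pl : Par l, F2 (pl, pr) := by
      rw [← lintegral_lintegral_swap (f := fun (pl : Par l) (pr : Par r) => F2 (pl, pr))
        hF2m.aemeasurable]
      refine lintegral_congr fun pl => ?_
      have hin : Measurable fun pr : Par r =>
          br Φ ε T' b r (sinM Φ ε (ℓ, a)) ((inM Φ ε (ℓ, a)).2, pr) *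
          F (exM Φ ε m (ℓ, ((a, (pl, pr)) : Par (node l r))),
            exM Φ ε (Mk.inl m2 r) (ℓ, ((a, (pl, pr)) : Par (node l r)))) :=
        hbr.mul (hFy.comp (measurable_const.prodMk measurable_id))
      exact (lintegral_const_mul (μ := (volume : Measure (Par r))) _ hin).symm
    rw [e4]
    refine lintegral_mono fun pr => ?_
    -- the fresh branch
    have hFp : Measurable fun x : BLine =>
        F (exM Φ ε mt (ℓ, ((a, (lf, pr)) : Par (node leaf r))), x) :=
      hF.comp (measurable_const.prodMk measurable_id)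
    have hq : Measurable fun pl : Par l => br Φ ε T' b l (sinM Φ ε (ℓ, a))
        ((inM Φ ε (ℓ, a)).1, pl) * F (exM Φ ε mt (ℓ, ((a, (lf, pr)) : Par (node leaf r))),
          exM Φ ε m2 ((inM Φ ε (ℓ, a)).1, pl)) :=
      hbl.mul (hFp.comp ((measurable_exM hΦ ε m2).comp (measurable_const.prodMk measurable_id)))
    have e5 : ∫⁻ pl : Par l, F2 (pl, pr) =
        br Φ ε T' b r (sinM Φ ε (ℓ, a)) ((inM Φ ε (ℓ, a)).2, pr) * ∫⁻ pl : Par l,
          br Φ ε T' b l (sinM Φ ε (ℓ, a)) ((inM Φ ε (ℓ, a)).1, pl) *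
          F (exM Φ ε mt (ℓ, ((a, (lf, pr)) : Par (node leaf r))),
            exM Φ ε m2 ((inM Φ ε (ℓ, a)).1, pl)) := by
      rw [← lintegral_const_mul _ hq]
      refine lintegral_congr fun pl => ?_
      have h1 := hm ε (ℓ, ((a, (pl, pr)) : Par (node l r)))
      have h2 : exM Φ ε m (ℓ, ((a, (pl, pr)) : Par (node l r))) =
          exM Φ ε mt (ℓ, ((a, (lf, pr)) : Par (node leaf r))) := h1
      simp only [hF2]
      rw [h2]
      have h3 : exM Φ ε (Mk.inl m2 r) (ℓ, ((a, (pl, pr)) : Par (node l r))) =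
        exM Φ ε m2 ((inM Φ ε (ℓ, a)).1, pl) := rfl
      rw [h3]
      ring
    rw [e5]
    refine mul_le_mul_right ?_ _
    refine le_trans (lintegral_mono fun pl => ?_) (hκ.dom _ hFp (inM Φ ε (ℓ, a)).1)
    rw [← mul_assoc]
    exact mul_le_mul_left (br_le _ _ _ _ _ _) _

/-! ### All pairs off the forward path -/

/-- `m'` is not on the forward path of `m` (it is not an ancestor of `m`), `m' ≠ m` -/
def OffP : {P : CTree} → Mk P → Mk P → Prop
  | _, .top _ _, .top _ _ => False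
  | _, .top _ _, .inl _ _ => True
  | _, .top _ _, .inr _ _ => True
  | _, .inl _ _, .top _ _ => False
  | _, .inl m _, .inl m' _ => OffP m m'
  | _, .inl _ _, .inr _ _ => True
  | _, .inr _ _, .top _ _ => False
  | _, .inr _ _, .inl _ _ => True
  | _, .inr _ m, .inr _ m' => OffP m m'

theorem measurable_pairT (hΦ : AdmissiblePotential Φ) (ε : ℝ) {P : CTree} (m m' : Mk P) :
    Measurable (pairT Φ ε m m') := by
  have h1 := measurable_exM hΦ ε m
  have h2 := measurable_exM hΦ ε m'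
  have h3 : Measurable (sgT Φ ε m m') := by
    unfold sgT
    by_cases h : fwd m m' = true
    · simp only [h, if_true]
      exact h1.fst
    · simp only [h]
      exact h2.fst
  exact ((h1.prodMk measurable_const).prodMk (h3.prodMk measurable_const)).prodMk h2

/-- reduction to the first branch -/
theorem domP_subL (hΦ : AdmissiblePotential Φ) {B : BPar} (hB : B.Ok)
    {l : CTree} {m m' : Mk l} (r : CTree)
    (h : ∀ b : ℝ, B.bs < b → DomP Φ B b l m m') {b : ℝ} (hb : B.bs < b) :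
    DomP Φ B b (node l r) (Mk.inl m r) (Mk.inl m' r) := by
  set b' : ℝ := (b + B.bs) / 2 with hb'
  have h1 : B.bs < b' := by rw [hb']; linarith
  have h2 : b' < b := by rw [hb']; linarith
  obtain ⟨c, hc, H⟩ := h b' h1
  obtain ⟨C, hC, HC⟩ := subL hΦ (hB.bs0.trans h1) h2 B.T l r
  refine ⟨C * c, ENNReal.mul_ne_top hC hc, fun ε T' te hε hε1 hte hte1 hT K hK Pp hPp => ?_⟩
  have hlK : l.leaves ≤ K := le_trans (by simp only [leaves]; omega) hK
  obtain ⟨Ξ, ν, hP, hA, hF⟩ := H ε T' te hε hε1 hte hte1 hT K hlK Pp hPp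
  refine ⟨C • Ξ, C • ν, PX.smul hP C, hA.smul C, fun F hFm hF0 => ?_⟩
  have hm : Measurable fun z : PhasePoint × Par l => F (pairT Φ ε m m' z) :=
    hFm.comp (measurable_pairT hΦ ε m m')
  rw [lintegral_smul_measure, smul_eq_mul]
  exact (HC ε T' hε hT _ hm).trans (mul_le_mul_right (hF F hFm hF0) _)

/-- reduction to the second branch -/
theorem domP_subR (hΦ : AdmissiblePotential Φ) {B : BPar} (hB : B.Ok)
    (l : CTree) {r : CTree} {m m' : Mk r}
    (h : ∀ b : ℝ, B.bs < b → DomP Φ B b r m m') {b : ℝ} (hb : B.bs < b) :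
    DomP Φ B b (node l r) (Mk.inr l m) (Mk.inr l m') := by
  set b' : ℝ := (b + B.bs) / 2 with hb'
  have h1 : B.bs < b' := by rw [hb']; linarith
  have h2 : b' < b := by rw [hb']; linarith
  obtain ⟨c, hc, H⟩ := h b' h1
  obtain ⟨C, hC, HC⟩ := subR hΦ (hB.bs0.trans h1) h2 B.T l r
  refine ⟨C * c, ENNReal.mul_ne_top hC hc, fun ε T' te hε hε1 hte hte1 hT K hK Pp hPp => ?_⟩
  have hrK : r.leaves ≤ K := le_trans (by simp only [leaves]; omega) hK
  obtain ⟨Ξ, ν, hP, hA, hF⟩ := H ε T' te hε hε1 hte hte1 hT K hrK Pp hPp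
  refine ⟨C • Ξ, C • ν, PX.smul hP C, hA.smul C, fun F hFm hF0 => ?_⟩
  have hm : Measurable fun z : PhasePoint × Par r => F (pairT Φ ε m m' z) :=
    hFm.comp (measurable_pairT hΦ ε m m')
  rw [lintegral_smul_measure, smul_eq_mul]
  exact (HC ε T' hε hT _ hm).trans (mul_le_mul_right (hF F hFm hF0) _)

theorem fwd_of_offP : {P : CTree} → (m m' : Mk P) → OffP m m' → fwd m m' = false
  | _, .top _ _, .top _ _, h => absurd h (by simp [OffP])
  | _, .top _ _, .inl _ _, _ => rfl
  | _, .top _ _, .inr _ _, _ => rfl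
  | _, .inl _ _, .top _ _, h => absurd h (by simp [OffP])
  | _, .inl m _, .inl m' _, h => fwd_of_offP m m' h
  | _, .inl _ _, .inr _ _, _ => rfl
  | _, .inr _ _, .top _ _, h => absurd h (by simp [OffP])
  | _, .inr _ _, .inl _ _, _ => rfl
  | _, .inr _ m, .inr _ m', h => fwd_of_offP m m' h

theorem offP_of_fwd : {P : CTree} → (m m' : Mk P) → m ≠ m' → fwd m m' = false → OffP m m'
  | _, .top _ _, .top _ _, h, _ => absurd rfl h
  | _, .top _ _, .inl _ _, _, _ => trivial
  | _, .top _ _, .inr _ _, _, _ => trivial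
  | _, .inl _ _, .top _ _, _, h => absurd h (by simp [fwd])
  | _, .inl m _, .inl m' _, h, h' => offP_of_fwd m m' (fun e => h (by rw [e])) h'
  | _, .inl _ _, .inr _ _, _, _ => trivial
  | _, .inr _ _, .top _ _, _, h => absurd h (by simp [fwd])
  | _, .inr _ _, .inl _ _, _, _ => trivial
  | _, .inr _ m, .inr _ m', h, h' => offP_of_fwd m m' (fun e => h (by rw [e])) h'

/-- **Domination of the pairs of exits whose second exit is off the forward path of the first.** -/
theorem domP_off (hΦ : AdmissiblePotential Φ) {B : BPar} (hB : B.Ok) :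
    {P : CTree} → (m m' : Mk P) → OffP m m' → ∀ {b : ℝ}, B.bs < b → DomP Φ B b P m m'
  | _, .top l r, .top _ _, h => absurd h (by simp [OffP])
  | _, .top l r, .inl m' _, _ => fun hb =>
      domP_L hΦ hB hb (Mk.top l r) m' (Mk.top leaf r) rfl fun ε z => rfl
  | _, .top l r, .inr _ m', _ => fun hb =>
      domP_R hΦ hB hb (Mk.top l r) m' (Mk.top l leaf) rfl fun ε z => rfl
  | _, .inl m r, .top _ _, h => absurd h (by simp [OffP])
  | _, .inl m r, .inl m' _, h => fun hb =>
      domP_subL hΦ hB r (fun b hb => domP_off hΦ hB m m' h hb) hb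
  | _, .inl m r, .inr _ m', _ => fun hb =>
      domP_R hΦ hB hb (Mk.inl m r) m' (Mk.inl m leaf) rfl fun ε z => rfl
  | _, .inr l m, .top _ _, h => absurd h (by simp [OffP])
  | _, .inr l m, .inl m' _, _ => fun hb =>
      domP_L hΦ hB hb (Mk.inr l m) m' (Mk.inr leaf m) rfl fun ε z => rfl
  | _, .inr l m, .inr _ m', h => fun hb =>
      domP_subR hΦ hB l (fun b hb => domP_off hΦ hB m m' h hb) hb

end Crest.Agent.R122.PairOff969

end
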