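import Crest.Agent.R122.BaseDom_307
import Crest.Agent.R122.PairOff4_969
import Crest.Agent.R122.MarkC_350

/-!
# Base pair laws (row 122, block H7b), helper350: domination of all pairs of a structure

`base_dom` : `DomS Φ B b Cf P x y` for every exit `x` and every line `y ≠ x`, unconditional
(307's `base_dom_of`, `domR`, `domP_fwd`; 969's `domP_off`; 350's `domC`).
-/

set_option autoImplicit false

open MeasureTheory ProbabilityTheory Set Filter
open scoped ENNReal Topology Classical
open Crest.AnalysisR.Kinetic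
open Crest.Agent.R122.Kin796 Crest.Agent.R122.Kin796.CTree Crest.Agent.R122.Tree674
open Crest.Agent.R122.OneC285 (exS)
open Crest.Agent.R122.Mark307

noncomputable section

namespace Crest.Agent.R122.BaseAll350

variable {Φ : Space3 → ℝ}

/-- **Domination of all ordered pairs of exits of a tree.** -/
theorem domP_all (hΦ : AdmissiblePotential Φ) {B : BPar} (hB : B.Ok) {P : CTree} {m m' : Mk P}
    (hm : m ≠ m') {b : ℝ} (hb : B.bs < b) : DomP Φ B b P m m' := by
  by_cases hf : fwd m m' = true
  · exact domP_fwd hΦ hB m m' hf hb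
  · exact PairOff969.domP_off hΦ hB m m'
      (PairOff969.offP_of_fwd m m' hm (by simpa using hf)) hb

/-- The parameters allow all marks. -/
theorem rho_lt_one {B : BPar} (hB : B.Ok) (hρ : B.ρ * B.lam₁ < 1) : B.ρ < 1 :=
  lt_of_le_of_lt (le_mul_of_one_le_right' hB.l1) hρ

/-- **Domination of the labelled law of all pairs (exit, other line) of a structure.** -/
theorem base_dom (hΦ : AdmissiblePotential Φ) {B : BPar} (hB : B.Ok) (hρ : B.ρ * B.lam₁ < 1)
    {b : ℝ} (hb : B.bs < b) (Cf : ℝ) {P : CTree} {x y : Idx P ⊕ Bool} (hx : x ∈ exS P)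
    (hy : y ≠ x) : DomS Φ B b Cf P x y :=
  base_dom_of hΦ hB (rho_lt_one hB hρ) hb Cf
    (fun _ _ hm _ _ hb' => domP_all hΦ hB hm hb')
    (fun m _ hy => MarkC350.domC hΦ hB hρ (domR hΦ hB hb m) hy) hx hy

end Crest.Agent.R122.BaseAll350

end
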