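import Crest.Agent.R122.Nu0B_566

/-!
# Image formulas for the pair measure `nu0` (row 122, H1/H4), part C

* `lintegral_nu0_oneLs` : integrals against `nu0` in structure coordinates `(z, l)`.
* `lintegral_nu0_flux` : the same in flux coordinates (contact time, velocity, impact parameter).
-/

set_option autoImplicit false
set_option maxHeartbeats 400000
set_option linter.unusedSectionVars false

open MeasureTheory Set Filter
open scoped ENNReal Classical Topology
open Crest.AnalysisR.Kinetic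
open Crest.Agent.R122.Kin796 Crest.Agent.R122.Kin796.CTree Crest.Agent.R122.Tree674
open Crest.Agent.R122.GC311 Crest.Agent.R122.EDefs602 Crest.Agent.R122.TreeLines335
open Crest.Agent.R122.OneC285 Crest.Agent.R122.Disc416

noncomputable section

namespace Crest.Agent.R122.Nu0566

variable {Φ : Space3 → ℝ} {f₀ : PhasePoint → ℝ} {ε : ℝ} {K : ℕ} {P : CTree}

/-- Integrals against the law of a pair of lines, structure coordinates. -/
theorem lintegral_nuP_oneLs (hΦ : AdmissiblePotential Φ) (hf : Measurable f₀) {γ : ℝ → ℝ}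
    (hγ : Measurable γ) (ρ : ℝ≥0∞) (te T' : ℝ) (κ : Measure ℝ) [SFinite κ] (x y : Idx P ⊕ Bool)
    {F : ML × ML → ℝ≥0∞} (hF : Measurable F) :
    ∫⁻ p, F p ∂(nuP Φ f₀ ε K γ ρ te T' κ P x y) =
      ∫⁻ z : PhasePoint × Par P, {z : PhasePoint × Par P | Valid Φ ε P T' z.1.2 z.2}.indicator
        (fun z => wt Φ P z.1.2 z.2 * (ToTree335.pf Φ f₀ ε P z *
          ∫⁻ l, {l : ML | (z, l.1) ∈ OneC423.ctSet Φ ε te P}.indicator
            (fun l => lineD γ ρ K l * (smI K P l *
              F (oneLs Φ ε P z l x, oneLs Φ ε P z l y))) l ∂(OneC423.baseM κ))) z := by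
  rw [lintegral_nuP hΦ γ ρ te T' κ x y hF, lintegral_strM hΦ hf hγ ρ te T' κ
    (G := fun q => F (oneLsM Φ ε P q.1 q.2 x, oneLsM Φ ε P q.1 q.2 y))
    (hF.comp (measurable_pair hΦ ε P x y))]
  refine lintegral_congr fun z => ?_
  by_cases hz : Valid Φ ε P T' z.1.2 z.2
  · rw [indicator_of_mem (show z ∈ {z : PhasePoint × Par P | Valid Φ ε P T' z.1.2 z.2} from hz),
      indicator_of_mem (show z ∈ {z : PhasePoint × Par P | Valid Φ ε P T' z.1.2 z.2} from hz)]
    simp only [oneLsM_of_adm hz.1]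
  · rw [indicator_of_notMem (show z ∉ {z : PhasePoint × Par P | Valid Φ ε P T' z.1.2 z.2}
      from hz), indicator_of_notMem (show z ∉ {z : PhasePoint × Par P |
        Valid Φ ε P T' z.1.2 z.2} from hz)]

/-- **Integrals against `nu0`**, structure coordinates. -/
theorem lintegral_nu0_oneLs (hΦ : AdmissiblePotential Φ) (hf : Measurable f₀) (Q : EPar) (T' : ℝ)
    (m₀ : ℕ) {F : ML × ML → ℝ≥0∞} (hF : Measurable F) :
    ∫⁻ p, F p ∂(nu0 Φ f₀ ε K Q T' m₀) = activity ε * ∑' P : CTree,
      if P.leaves ≤ m₀ then ∑ x ∈ exS P, ∑ y ∈ Finset.univ.erase x,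
        ∫⁻ z : PhasePoint × Par P, {z : PhasePoint × Par P | Valid Φ ε P T' z.1.2 z.2}.indicator
          (fun z => wt Φ P z.1.2 z.2 * (ToTree335.pf Φ f₀ ε P z *
            ∫⁻ l, {l : ML | (z, l.1) ∈ OneC423.ctSet Φ ε Q.te P}.indicator
              (fun l => lineD (fun _ => Q.γ Q.te) Q.ρ K l * (smI K P l *
                F (oneLs Φ ε P z l x, oneLs Φ ε P z l y))) l
                  ∂(OneC423.baseM (Measure.dirac 0)))) z
      else 0 := by
  rw [lintegral_nu0]
  congr 1
  refine tsum_congr fun P => ?_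
  split_ifs
  · refine Finset.sum_congr rfl fun x _ => Finset.sum_congr rfl fun y _ => ?_
    exact lintegral_nuP_oneLs hΦ hf measurable_const Q.ρ Q.te T' (Measure.dirac 0) x y hF
  · rfl

/-- Contact integral over `(n, v, b)` at time `s` in terms of the contact data. -/
def fluxI (Φ : Space3 → ℝ) (ε : ℝ) (K : ℕ) (g : ℝ) (ρ : ℝ≥0∞) (P : CTree)
    (z : PhasePoint × Par P) (s : ℝ) (F : (Idx P ⊕ Bool → ML) → ℝ≥0∞) : ℝ≥0∞ :=
  ∑' n : ℕ, markW ρ K n * (if n + P.leaves ≤ K then 1 else 0) *
    ∫⁻ v : Space3, ENNReal.ofReal ‖v - z.1.2‖ * (wG g v *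
      ∫⁻ b in impactDisc (v - z.1.2), F (oneD Φ ε P z s (v, z.1.2, b) n) ∂μHE[2])

/-- Line integral in flux coordinates, test line born at time `τ`, constant Gaussian rate `g`. -/
theorem lintegral_line_flux (hΦ : AdmissiblePotential Φ) (hε : 0 < ε) (g : ℝ) (ρ : ℝ≥0∞)
    (te τ : ℝ) (z : PhasePoint × Par P) {F : (Idx P ⊕ Bool → ML) → ℝ≥0∞}
    (hF : Measurable fun l : ML => F (oneLs Φ ε P z l)) :
    ∫⁻ l, {l : ML | (z, l.1) ∈ OneC423.ctSet Φ ε te P}.indicator
      (fun l => lineD (fun _ => g) ρ K l * (smI K P l * F (oneLs Φ ε P z l))) l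
        ∂(OneC423.baseM (Measure.dirac τ)) =
      ENNReal.ofReal (ε ^ 2) * ∫⁻ s in Ioc τ te,
        {s | s ≤ te ∧ Valid Φ ε P s z.1.2 z.2}.indicator
          (fun s => fluxI Φ ε K g ρ P z s F) s := by
  have hsm : Measurable fun l : ML => smI K P l := by
    unfold smI
    refine Measurable.ite ?_ measurable_const measurable_const
    exact measurable_snd (measurableSet_le (measurable_of_countable _)
      measurable_const : MeasurableSet {n : ℕ | n + P.leaves ≤ K})
  rw [OneC423.lintegral_ct hΦ hε z (Measure.dirac τ)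
    (H := fun l => lineD (fun _ => g) ρ K l * (smI K P l * F (oneLs Φ ε P z l)))
    ((MeasE416.measurable_lineD measurable_const ρ K).mul (hsm.mul hF)), lintegral_dirac]
  congr 1
  refine lintegral_congr fun s => ?_
  by_cases hs : s ∈ {s | s ≤ te ∧ Valid Φ ε P s z.1.2 z.2}
  swap
  · rw [indicator_of_notMem hs, indicator_of_notMem hs]
  rw [indicator_of_mem hs, indicator_of_mem hs]
  unfold OneC423.ctInt fluxI
  refine tsum_congr fun n => ?_
  by_cases hc : markW ρ K n * (if n + P.leaves ≤ K then (1 : ℝ≥0∞) else 0) = 0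
  · rw [hc, zero_mul]
    refine (lintegral_congr fun v => ?_).trans lintegral_zero
    have h0 : ∀ b : Space3, lineD (fun _ => g) ρ K (OneC423.lineAt ε s z.1 τ v b n) *
        (smI K P (OneC423.lineAt ε s z.1 τ v b n) *
          F (oneLs Φ ε P z (OneC423.lineAt ε s z.1 τ v b n))) = 0 := by
      intro b
      have e1 : lineD (fun _ => g) ρ K (OneC423.lineAt ε s z.1 τ v b n) =
          wG g v * markW ρ K n := rfl
      have e2 : smI K P (OneC423.lineAt ε s z.1 τ v b n) =
          if n + P.leaves ≤ K then 1 else 0 := rfl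
      rw [e1, e2]
      calc wG g v * markW ρ K n * ((if n + P.leaves ≤ K then 1 else 0) * _)
          = (markW ρ K n * (if n + P.leaves ≤ K then (1 : ℝ≥0∞) else 0)) * (wG g v *
            F (oneLs Φ ε P z (OneC423.lineAt ε s z.1 τ v b n))) := by ring
        _ = 0 := by rw [hc, zero_mul]
    simp only [h0, lintegral_zero, mul_zero]
  have hct : markW ρ K n * (if n + P.leaves ≤ K then (1 : ℝ≥0∞) else 0) ≠ ∞ ∨
      markW ρ K n * (if n + P.leaves ≤ K then (1 : ℝ≥0∞) else 0) = ∞ := by tauto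
  -- pull the constants out
  have h1 : ∀ v : Space3, ENNReal.ofReal ‖v - z.1.2‖ * ∫⁻ b in impactDisc (v - z.1.2),
      (lineD (fun _ => g) ρ K (OneC423.lineAt ε s z.1 τ v b n) *
        (smI K P (OneC423.lineAt ε s z.1 τ v b n) *
          F (oneLs Φ ε P z (OneC423.lineAt ε s z.1 τ v b n)))) ∂μHE[2] =
      markW ρ K n * (if n + P.leaves ≤ K then 1 else 0) *
        (ENNReal.ofReal ‖v - z.1.2‖ * (wG g v *
          ∫⁻ b in impactDisc (v - z.1.2), F (oneD Φ ε P z s (v, z.1.2, b) n) ∂μHE[2])) := by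
    intro v
    by_cases hv : v - z.1.2 = 0
    · rw [hv]
      simp
    have hmb : Measurable fun b : Space3 =>
        F (oneLs Φ ε P z (OneC423.lineAt ε s z.1 τ v b n)) := by
      refine hF.comp ?_
      exact (OneC423.measurable_lineAt ε n).comp
        (f := fun b : Space3 => ((s, z.1, τ), (v, b)))
        (measurable_const.prodMk (measurable_const.prodMk measurable_id))
    have e1 : ∫⁻ b in impactDisc (v - z.1.2),
        (lineD (fun _ => g) ρ K (OneC423.lineAt ε s z.1 τ v b n) *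
          (smI K P (OneC423.lineAt ε s z.1 τ v b n) *
            F (oneLs Φ ε P z (OneC423.lineAt ε s z.1 τ v b n)))) ∂μHE[2] =
        (wG g v * (markW ρ K n * (if n + P.leaves ≤ K then 1 else 0))) *
          ∫⁻ b in impactDisc (v - z.1.2),
            F (oneLs Φ ε P z (OneC423.lineAt ε s z.1 τ v b n)) ∂μHE[2] := by
      rw [← lintegral_const_mul _ hmb]
      refine lintegral_congr fun b => ?_
      show wG g v * markW ρ K n * ((if n + P.leaves ≤ K then 1 else 0) * _) = _
      ring
    have e2 : ∫⁻ b in impactDisc (v - z.1.2),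
        F (oneLs Φ ε P z (OneC423.lineAt ε s z.1 τ v b n)) ∂μHE[2] =
        ∫⁻ b in impactDisc (v - z.1.2), F (oneD Φ ε P z s (v, z.1.2, b) n) ∂μHE[2] := by
      refine setLIntegral_congr_fun (Boltz814.measurableSet_impactDisc _) fun b hb => ?_
      have e3 : oneLs Φ ε P z (OneC423.lineAt ε s z.1 τ v b n) =
          oneD Φ ε P z s (v, z.1.2, b) n := by
        funext x
        exact oneLs_lineAt hε z s τ n hb hv x
      show F (oneLs Φ ε P z (OneC423.lineAt ε s z.1 τ v b n)) = _
      rw [e3]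
    rw [e1, e2]
    ring
  simp only [h1]
  refine lintegral_const_mul _ ?_
  -- measurability in the velocity
  have hm : Measurable fun v : Space3 => ENNReal.ofReal ‖v - z.1.2‖ *
      ∫⁻ b in impactDisc (v - z.1.2),
        F (oneLs Φ ε P z (OneC423.lineAt ε s z.1 τ v b n)) ∂μHE[2] := by
    refine OC663.measurable_flux_disc (α := Space3) (γ := fun v => v - z.1.2)
      (measurable_id.sub measurable_const)
      (f := fun v b => F (oneLs Φ ε P z (OneC423.lineAt ε s z.1 τ v b n))) ?_
    refine hF.comp ?_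
    exact (OneC423.measurable_lineAt ε n).comp
      (f := fun q : Space3 × Space3 => ((s, z.1, τ), (q.1, q.2)))
      (measurable_const.prodMk (measurable_fst.prodMk measurable_snd))
  have hw : Measurable fun v : Space3 => wG g v := by
    unfold wG
    fun_prop
  have e4 : (fun v : Space3 => ENNReal.ofReal ‖v - z.1.2‖ * (wG g v *
      ∫⁻ b in impactDisc (v - z.1.2), F (oneD Φ ε P z s (v, z.1.2, b) n) ∂μHE[2])) =
      fun v => wG g v * (ENNReal.ofReal ‖v - z.1.2‖ *
        ∫⁻ b in impactDisc (v - z.1.2),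
          F (oneLs Φ ε P z (OneC423.lineAt ε s z.1 τ v b n)) ∂μHE[2]) := by
    funext v
    by_cases hv : v - z.1.2 = 0
    · rw [hv]
      simp
    have e2 : ∫⁻ b in impactDisc (v - z.1.2),
        F (oneLs Φ ε P z (OneC423.lineAt ε s z.1 τ v b n)) ∂μHE[2] =
        ∫⁻ b in impactDisc (v - z.1.2), F (oneD Φ ε P z s (v, z.1.2, b) n) ∂μHE[2] := by
      refine setLIntegral_congr_fun (Boltz814.measurableSet_impactDisc _) fun b hb => ?_
      have e3 : oneLs Φ ε P z (OneC423.lineAt ε s z.1 τ v b n) =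
          oneD Φ ε P z s (v, z.1.2, b) n := by
        funext x
        exact oneLs_lineAt hε z s τ n hb hv x
      show F (oneLs Φ ε P z (OneC423.lineAt ε s z.1 τ v b n)) = _
      rw [e3]
    rw [e2]
    ring
  rw [e4]
  exact hw.mul hm

/-- **Integrals against `nu0`**, flux coordinates. -/
theorem lintegral_nu0_flux (hΦ : AdmissiblePotential Φ) (hf : Measurable f₀) (hε : 0 < ε)
    (Q : EPar) (T' : ℝ) (m₀ : ℕ) {F : ML × ML → ℝ≥0∞} (hF : Measurable F) :
    ∫⁻ p, F p ∂(nu0 Φ f₀ ε K Q T' m₀) = activity ε * ∑' P : CTree,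
      if P.leaves ≤ m₀ then ∑ x ∈ exS P, ∑ y ∈ Finset.univ.erase x,
        ∫⁻ z : PhasePoint × Par P, {z : PhasePoint × Par P | Valid Φ ε P T' z.1.2 z.2}.indicator
          (fun z => wt Φ P z.1.2 z.2 * (ToTree335.pf Φ f₀ ε P z *
            (ENNReal.ofReal (ε ^ 2) * ∫⁻ s in Ioc 0 Q.te,
              {s | s ≤ Q.te ∧ Valid Φ ε P s z.1.2 z.2}.indicator
                (fun s => fluxI Φ ε K (Q.γ Q.te) Q.ρ P z s fun L => F (L x, L y)) s))) z
      else 0 := by
  rw [lintegral_nu0_oneLs hΦ hf Q T' m₀ hF]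
  congr 1
  refine tsum_congr fun P => ?_
  split_ifs
  swap
  · rfl
  refine Finset.sum_congr rfl fun x _ => Finset.sum_congr rfl fun y _ => ?_
  refine lintegral_congr fun z => ?_
  by_cases hz : Valid Φ ε P T' z.1.2 z.2
  · rw [indicator_of_mem (show z ∈ {z : PhasePoint × Par P | Valid Φ ε P T' z.1.2 z.2} from hz),
      indicator_of_mem (show z ∈ {z : PhasePoint × Par P | Valid Φ ε P T' z.1.2 z.2} from hz)]
    rw [lintegral_line_flux (P := P) (K := K) hΦ hε (Q.γ Q.te) Q.ρ Q.te 0 z
      (F := fun L => F (L x, L y))]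
    have h1 : (fun l : ML => F (oneLs Φ ε P z l x, oneLs Φ ε P z l y)) =
        fun l => F (oneLsM Φ ε P z l x, oneLsM Φ ε P z l y) := by
      funext l
      rw [oneLsM_of_adm hz.1, oneLsM_of_adm hz.1]
    rw [h1]
    exact hF.comp ((measurable_pair hΦ ε P x y).comp (f := fun l : ML => (z, l))
      (measurable_const.prodMk measurable_id))
  · rw [indicator_of_notMem (show z ∉ {z : PhasePoint × Par P | Valid Φ ε P T' z.1.2 z.2}
      from hz), indicator_of_notMem (show z ∉ {z : PhasePoint × Par P |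
        Valid Φ ε P T' z.1.2 z.2} from hz)]

end Crest.Agent.R122.Nu0566

end
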