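import Crest.Agent.R122.PairB_307
import Crest.Agent.R122.Nu0C_566

/-!
# Base pair laws (row 122, block H7b), helper307: definition of the last contact

* `DomC` : the labelled law of (exit `m` of the tree, line `y` of the contact with the fresh line)
  is dominated by a spread pair law (`y = inl (root P)` : `lineC`, `inr false` : `lineL'`,
  `inr true` : `lineC'`), in 566's flux coordinates (`fluxI`, `lintegral_nu0_flux`).
-/

set_option autoImplicit false
set_option maxHeartbeats 400000
set_option linter.unusedSectionVars false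

open MeasureTheory ProbabilityTheory Set Filter
open scoped ENNReal Topology Classical
open Crest.AnalysisR.Kinetic
open Crest.Agent.R122.Kin796 Crest.Agent.R122.Kin796.CTree Crest.Agent.R122.Tree674
open Crest.Agent.R122.Disc416 Crest.Agent.R122.EDefs602
open Crest.Agent.R122.Boost969 Crest.Agent.R122.Kin416
open Crest.Agent.R122.Pair292 hiding ML
open Crest.Agent.R122.Nu0566 (fluxI oneD)

noncomputable section

namespace Crest.Agent.R122.Mark307

/-- label and second line of (exit `m`, line `y` of the structure `L`); turning time = birth of the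
exit -/
def pairC {P : CTree} (m : Mk P) (y : Idx P ⊕ Bool) (L : Idx P ⊕ Bool → ML) : Lab × LSt :=
  ((L (Sum.inl (exIdx m)), ((L (Sum.inl (exIdx m))).1.1, (L y).2)), (L y).1)

/-- **Domination of the labelled law (exit, line of the last contact)**, fresh Gaussian line of rate
`g ≥ b₀`, in flux coordinates. -/
def DomC (Φ : Space3 → ℝ) (B : BPar) (b : ℝ) (P : CTree) (m : Mk P) (y : Idx P ⊕ Bool) : Prop :=
  ∃ c : ℝ≥0∞, c ≠ ∞ ∧ ∀ ε T' te : ℝ, 0 < ε → ε ≤ 1 → 0 < te → te ≤ T' → T' ≤ B.T →
    ∀ K : ℕ, P.leaves ≤ K → ∀ Pp : PPar, IsPP B te K Pp → ∀ g : ℝ, B.b₀ ≤ g →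
    ∃ Ξ ν : Measure (Lab × LSt), PX Pp Ξ ν c ∧ AuxF ε ν ∧
      ∀ F : Lab × LSt → ℝ≥0∞, Measurable F →
        (∀ p, ¬ (p.1.1.1.1 ≤ te ∧ p.2.1 ≤ te) → F p = 0) →
        ∫⁻ z : PhasePoint × Par P, vw Φ ε P T' z * (gw b P z *
          ∫⁻ s in Ioc 0 te, {s | s ≤ te ∧ Valid Φ ε P s z.1.2 z.2}.indicator
            (fun s => fluxI Φ ε K g B.ρ P z s fun L => F (pairC m y L)) s) ≤
        ∫⁻ p, F p ∂ν

end Crest.Agent.R122.Mark307

end
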