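import Crest.Agent.R122.Mark13_307
import Crest.Agent.R122.PairBC_307

/-!
# Base pair laws (row 122, block H7b), helper307: domination of the structure law

* `sigB`, `thL` : turning time flag, label map of a structure.
* `pf_le` : the density of the tree is bounded by the Gaussian weight.
* `flux_exit` : flux of the test line for functions of the exits.
* `base_dom_ex`, `base_dom_ct` : pairs (exit, exit), (exit, line of the last contact).
-/

set_option autoImplicit false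
set_option maxHeartbeats 400000
set_option linter.unusedSectionVars false

open MeasureTheory ProbabilityTheory Set Filter
open scoped ENNReal Topology Classical
open Crest.AnalysisR.Kinetic
open Crest.Agent.R122.Kin796 Crest.Agent.R122.Kin796.CTree Crest.Agent.R122.Tree674
open Crest.Agent.R122.Disc416 Crest.Agent.R122.EDefs602 Crest.Agent.R122.TreeDom974
open Crest.Agent.R122.Boost969 Crest.Agent.R122.Kin416
open Crest.Agent.R122.Pair292 hiding ML
open Crest.Agent.R122.Nu0566 (fluxI oneD oneLsM)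
open Crest.Agent.R122.OneC285 (oneLs exS smI)
open Crest.Agent.R122.TreeLines335

noncomputable section

namespace Crest.Agent.R122.Mark307

variable {Φ : Space3 → ℝ}

/-! ### Label map -/

/-- turning time at the birth of the first line (`true`) or of the second line (`false`) -/
def sigB (P : CTree) (x y : Idx P ⊕ Bool) : Bool :=
  decide (∀ m m' : Mk P, x = Sum.inl (exIdx m) → y = Sum.inl (exIdx m') → fwd m m' = true)

theorem sigB_ex {P : CTree} (m m' : Mk P) :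
    sigB P (Sum.inl (exIdx m)) (Sum.inl (exIdx m')) = fwd m m' := by
  unfold sigB
  by_cases h : fwd m m' = true
  · rw [h]
    refine decide_eq_true fun m1 m2 h1 h2 => ?_
    rw [← exIdx_injective (Sum.inl_injective h1), ← exIdx_injective (Sum.inl_injective h2)]
    exact h
  · rw [Bool.not_eq_true] at h
    rw [h]
    refine decide_eq_false fun hc => ?_
    have := hc m m' rfl rfl
    rw [h] at this
    exact absurd this (by decide)

theorem sigB_root {P : CTree} (x : Idx P ⊕ Bool) : sigB P x (Sum.inl (root P)) = true := by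
  unfold sigB
  refine decide_eq_true fun m1 m2 _ h2 => ?_
  exact absurd (Sum.inl_injective h2).symm (exIdx_ne_root m2)

theorem sigB_inr {P : CTree} (x : Idx P ⊕ Bool) (b : Bool) : sigB P x (Sum.inr b) = true := by
  unfold sigB
  refine decide_eq_true fun m1 m2 _ h2 => ?_
  exact absurd h2 (by simp)

/-- label and second line of the pair `(x, y)` of lines of a structure -/
def thL (P : CTree) (x y : Idx P ⊕ Bool) (L : Idx P ⊕ Bool → ML) : Lab × LSt :=
  ((L x, ((if sigB P x y then (L x).1.1 else (L y).1.1), (L y).2)), (L y).1)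

theorem thL_ct {P : CTree} (m : Mk P) {y : Idx P ⊕ Bool} (hy : sigB P (Sum.inl (exIdx m)) y = true)
    (L : Idx P ⊕ Bool → ML) : thL P (Sum.inl (exIdx m)) y L = pairC m y L := by
  unfold thL pairC
  rw [if_pos hy]

theorem oneD_ex {ε : ℝ} {P : CTree} {z : PhasePoint × Par P} (hz : Adm Φ P z.1.2 z.2) (s : ℝ)
    (c : OCout796.CD) (n : ℕ) (m : Mk P) :
    oneD Φ ε P z s c n (Sum.inl (exIdx m)) = (exM Φ ε m z, mkN m) := by
  show (if exIdx m = root P then _ else lineML Φ ε P z (exIdx m)) = _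
  rw [if_neg (exIdx_ne_root m), lineML_exIdx, exM_eq m hz]

theorem thL_ex {ε : ℝ} {P : CTree} {z : PhasePoint × Par P} (hz : Adm Φ P z.1.2 z.2) (s : ℝ)
    (c : OCout796.CD) (n : ℕ) (m m' : Mk P) :
    thL P (Sum.inl (exIdx m)) (Sum.inl (exIdx m')) (oneD Φ ε P z s c n) = pairT Φ ε m m' z := by
  unfold thL
  rw [oneD_ex hz, oneD_ex hz, sigB_ex]
  rfl

/-! ### The density of the tree -/

theorem pf_le (hΦ : AdmissiblePotential Φ) {f₀ : PhasePoint → ℝ} {Cf b : ℝ}
    (hf : ∀ z, f₀ z ≤ Cf * Real.exp (-(b * ‖z.2‖ ^ 2))) {ε : ℝ} {P : CTree}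
    {z : PhasePoint × Par P} (hz : Adm Φ P z.1.2 z.2) :
    ToTree335.pf Φ f₀ ε P z ≤ ENNReal.ofReal Cf ^ Fintype.card (Idx P) * gw b P z := by
  unfold ToTree335.pf
  calc ∏ i, ENNReal.ofReal (f₀ (lines Φ ε P z.1 z.2 i))
      ≤ ∏ i, (ENNReal.ofReal Cf *
        ENNReal.ofReal (Real.exp (-(b * ‖(lines Φ ε P z.1 z.2 i).2‖ ^ 2)))) := by
        refine Finset.prod_le_prod' fun i _ => ?_
        rw [← ENNReal.ofReal_mul' (Real.exp_pos _).le]
        exact ENNReal.ofReal_le_ofReal (hf _)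
    _ = ENNReal.ofReal Cf ^ Fintype.card (Idx P) *
        ENNReal.ofReal (Real.exp (∑ i, -(b * ‖(lines Φ ε P z.1 z.2 i).2‖ ^ 2))) := by
        rw [Finset.prod_mul_distrib, Finset.prod_const, Finset.card_univ, Real.exp_sum,
          ENNReal.ofReal_prod_of_nonneg (fun i _ => (Real.exp_pos _).le)]
    _ = _ := by
        have e : ∑ i, -(b * ‖(lines Φ ε P z.1 z.2 i).2‖ ^ 2) =
            -b * (‖z.1.2‖ ^ 2 + nodeE P z.2) := by
          rw [← sum_vels_sq hΦ hz]
          simp only [Hid424.lines_vel]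
          rw [Finset.sum_neg_distrib, ← Finset.mul_sum, neg_mul]
        unfold gw
        rw [e]

/-! ### Flux of the test line -/

theorem vel_flux {b : ℝ} (hb : 0 < b) : ∃ C : ℝ≥0∞, C ≠ ∞ ∧ ∀ u : Space3,
    ∫⁻ v : Space3, ENNReal.ofReal ‖v - u‖ * gE b v ≤ C * ENNReal.ofReal (1 + ‖u‖) := by
  obtain ⟨C, hC, h⟩ := one_add_gE (b := b) (b' := b / 2) (by linarith)
  refine ⟨C * ∫⁻ v, gE (b / 2) v, ENNReal.mul_ne_top hC (lintegral_gE_ne_top (by linarith)),
    fun u => ?_⟩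
  calc ∫⁻ v : Space3, ENNReal.ofReal ‖v - u‖ * gE b v
      ≤ ∫⁻ v : Space3, (C * ENNReal.ofReal (1 + ‖u‖)) * gE (b / 2) v := by
        refine lintegral_mono fun v => ?_
        calc ENNReal.ofReal ‖v - u‖ * gE b v
            ≤ (ENNReal.ofReal (1 + ‖v‖) * ENNReal.ofReal (1 + ‖u‖)) * gE b v :=
              mul_le_mul_left (norm_sub_le_mul v u) _
          _ = ENNReal.ofReal (1 + ‖u‖) * (ENNReal.ofReal (1 + ‖v‖) * gE b v) := by ring
          _ ≤ ENNReal.ofReal (1 + ‖u‖) * (C * gE (b / 2) v) := mul_le_mul_right (h v) _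
          _ = _ := by ring
    _ = _ := by rw [lintegral_const_mul _ (measurable_gE _)]; ring

/-- area of the impact disc -/
theorem disc_le (g : Space3) (c : ℝ≥0∞) : ENNReal.ofReal ‖g‖ * ∫⁻ _b in impactDisc g, c ∂μHE[2] ≤
    ENNReal.ofReal ‖g‖ * (volume (Metric.ball (0 : Plane) 1) * c) := by
  by_cases hg : g = 0
  · rw [hg]
    simp
  · refine mul_le_mul_right (le_of_eq ?_) _
    rw [Disc416.lintegral_impactDisc hg (fun _ => c), lintegral_const, Measure.restrict_apply_univ,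
      mul_comm]

theorem fluxI_le {b₀ : ℝ} (hb : 0 < b₀) {ρ : ℝ≥0∞} (hρ : ρ < 1) : ∃ C : ℝ≥0∞, C ≠ ∞ ∧
    ∀ (ε : ℝ) (K : ℕ) (g : ℝ), b₀ ≤ g → ∀ (P : CTree) (z : PhasePoint × Par P) (s : ℝ)
      (F : (Idx P ⊕ Bool → ML) → ℝ≥0∞) (c : ℝ≥0∞),
      (∀ (d : OCout796.CD) (n : ℕ), F (oneD Φ ε P z s d n) ≤ c) →
      fluxI Φ ε K g ρ P z s F ≤ C * (ENNReal.ofReal (1 + ‖z.1.2‖) * c) := by
  obtain ⟨C, hC, h⟩ := vel_flux hb
  have hV : volume (Metric.ball (0 : Plane) 1) ≠ ∞ := measure_ball_lt_top.ne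
  refine ⟨(1 - ρ)⁻¹ * (volume (Metric.ball (0 : Plane) 1) * C), ENNReal.mul_ne_top
    (ENNReal.inv_ne_top.2 (tsub_pos_of_lt hρ).ne') (ENNReal.mul_ne_top hV hC), ?_⟩
  intro ε K g hg P z s F c hc
  unfold Nu0566.fluxI
  have h1 : ∀ v : Space3, ENNReal.ofReal ‖v - z.1.2‖ * (wG g v *
      ∫⁻ b in impactDisc (v - z.1.2), c ∂μHE[2]) ≤
      (volume (Metric.ball (0 : Plane) 1) * c) * (ENNReal.ofReal ‖v - z.1.2‖ * gE b₀ v) := by
    intro v
    have h2 : wG g v ≤ gE b₀ v := by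
      rw [← gE_eq_wG]; exact gE_mono hg v
    calc ENNReal.ofReal ‖v - z.1.2‖ * (wG g v * ∫⁻ b in impactDisc (v - z.1.2), c ∂μHE[2])
        = wG g v * (ENNReal.ofReal ‖v - z.1.2‖ * ∫⁻ b in impactDisc (v - z.1.2), c ∂μHE[2]) := by
          ring
      _ ≤ gE b₀ v * (ENNReal.ofReal ‖v - z.1.2‖ * (volume (Metric.ball (0 : Plane) 1) * c)) :=
          mul_le_mul' h2 (disc_le _ _)
      _ = _ := by ring
  calc ∑' n : ℕ, markW ρ K n * (if n + P.leaves ≤ K then 1 else 0) *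
        ∫⁻ v : Space3, ENNReal.ofReal ‖v - z.1.2‖ * (wG g v *
          ∫⁻ b in impactDisc (v - z.1.2), F (oneD Φ ε P z s (v, z.1.2, b) n) ∂μHE[2])
      ≤ ∑' n : ℕ, markW ρ K n * ((volume (Metric.ball (0 : Plane) 1) * c) *
          (C * ENNReal.ofReal (1 + ‖z.1.2‖))) := by
        refine ENNReal.tsum_le_tsum fun n => ?_
        have h3 : markW ρ K n * (if n + P.leaves ≤ K then (1 : ℝ≥0∞) else 0) ≤ markW ρ K n := by
          refine mul_le_of_le_one_right' ?_
          split_ifs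
          · exact le_rfl
          · exact zero_le_one
        refine mul_le_mul' h3 ?_
        calc ∫⁻ v : Space3, ENNReal.ofReal ‖v - z.1.2‖ * (wG g v *
              ∫⁻ b in impactDisc (v - z.1.2), F (oneD Φ ε P z s (v, z.1.2, b) n) ∂μHE[2])
            ≤ ∫⁻ v : Space3, (volume (Metric.ball (0 : Plane) 1) * c) *
                (ENNReal.ofReal ‖v - z.1.2‖ * gE b₀ v) := by
              refine lintegral_mono fun v => le_trans ?_ (h1 v)
              exact mul_le_mul_right (mul_le_mul_right (lintegral_mono fun b => hc _ _) _) _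
          _ = (volume (Metric.ball (0 : Plane) 1) * c) *
                ∫⁻ v : Space3, ENNReal.ofReal ‖v - z.1.2‖ * gE b₀ v := by
              refine lintegral_const_mul _ ?_
              have h5 : Measurable fun v : Space3 => ENNReal.ofReal ‖v - z.1.2‖ := by fun_prop
              exact h5.mul (measurable_gE b₀)
          _ ≤ _ := mul_le_mul_right (h _) _
    _ = (∑' n : ℕ, markW ρ K n) * ((volume (Metric.ball (0 : Plane) 1) * c) *
          (C * ENNReal.ofReal (1 + ‖z.1.2‖))) := ENNReal.tsum_mul_right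
    _ ≤ (1 - ρ)⁻¹ * ((volume (Metric.ball (0 : Plane) 1) * c) *
          (C * ENNReal.ofReal (1 + ‖z.1.2‖))) :=
        mul_le_mul_left (EBasic602.tsum_markW_le K) _
    _ = _ := by ring

/-! ### Reduction of the structure integral -/

/-- structure integral of a function of the lines (test line born at `0`, rate `g`) -/
def strI (Φ : Space3 → ℝ) (f₀ : PhasePoint → ℝ) (ε : ℝ) (K : ℕ) (g : ℝ) (ρ : ℝ≥0∞) (te T' : ℝ)
    (P : CTree) (G : (Idx P ⊕ Bool → ML) → ℝ≥0∞) : ℝ≥0∞ :=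
  activity ε * ∫⁻ z : PhasePoint × Par P,
    {z : PhasePoint × Par P | Valid Φ ε P T' z.1.2 z.2}.indicator
      (fun z => wt Φ P z.1.2 z.2 * (ToTree335.pf Φ f₀ ε P z *
        ∫⁻ l, {l : ML | (z, l.1) ∈ OneC423.ctSet Φ ε te P}.indicator
          (fun l => lineD (fun _ => g) ρ K l * (smI K P l * G (oneLs Φ ε P z l))) l
            ∂(OneC423.baseM (Measure.dirac 0)))) z

/-- flux integral over the contact time -/
def fluxT (Φ : Space3 → ℝ) (ε : ℝ) (K : ℕ) (g : ℝ) (ρ : ℝ≥0∞) (te : ℝ) (P : CTree)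
    (z : PhasePoint × Par P) (G : (Idx P ⊕ Bool → ML) → ℝ≥0∞) : ℝ≥0∞ :=
  ∫⁻ s in Ioc 0 te, {s | s ≤ te ∧ Valid Φ ε P s z.1.2 z.2}.indicator
    (fun s => fluxI Φ ε K g ρ P z s G) s

theorem activity_mul {ε : ℝ} (hε : 0 < ε) : activity ε * ENNReal.ofReal (ε ^ 2) = 1 := by
  unfold activity
  rw [← ENNReal.ofReal_mul (by positivity), inv_mul_cancel₀ (by positivity), ENNReal.ofReal_one]

theorem measurable_thL {P : CTree} {α : Type*} [MeasurableSpace α] (x y : Idx P ⊕ Bool)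
    {L : α → Idx P ⊕ Bool → ML} (hx : Measurable fun a => L a x) (hy : Measurable fun a => L a y) :
    Measurable fun a => thL P x y (L a) := by
  unfold thL
  refine (hx.prodMk (Measurable.prodMk ?_ hy.snd)).prodMk hy.fst
  split_ifs
  · exact hx.fst.fst
  · exact hy.fst.fst

theorem measurable_oneLsM_l (hΦ : AdmissiblePotential Φ) (ε : ℝ) {P : CTree}
    (z : PhasePoint × Par P) (x : Idx P ⊕ Bool) : Measurable fun l : ML => oneLsM Φ ε P z l x := by
  have h1 := Nu0566.measurable_oneLsM hΦ ε P x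
  have h2 : Measurable fun l : ML => ((z, l) : (PhasePoint × Par P) × ML) :=
    measurable_const.prodMk measurable_id
  exact Measurable.comp (g := fun q : (PhasePoint × Par P) × ML => oneLsM Φ ε P q.1 q.2 x)
    (f := fun l : ML => ((z, l) : (PhasePoint × Par P) × ML)) h1 h2

theorem measurable_lineF (hΦ : AdmissiblePotential Φ) {ε : ℝ} {P : CTree}
    {z : PhasePoint × Par P} (hz : Adm Φ P z.1.2 z.2) (x y : Idx P ⊕ Bool)
    {F : Lab × LSt → ℝ≥0∞} (hF : Measurable F) :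
    Measurable fun l : ML => F (thL P x y (oneLs Φ ε P z l)) := by
  have e : (fun l : ML => F (thL P x y (oneLs Φ ε P z l))) =
      fun l => F (thL P x y (oneLsM Φ ε P z l)) := by
    funext l
    congr 1
    unfold thL
    rw [Nu0566.oneLsM_of_adm hz, Nu0566.oneLsM_of_adm hz]
  rw [e]
  exact hF.comp (measurable_thL x y (measurable_oneLsM_l hΦ ε z x) (measurable_oneLsM_l hΦ ε z y))

theorem strI_le (hΦ : AdmissiblePotential Φ) {ε : ℝ} (hε : 0 < ε) {f₀ : PhasePoint → ℝ} {Cf b : ℝ}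
    (hf : ∀ z, f₀ z ≤ Cf * Real.exp (-(b * ‖z.2‖ ^ 2))) (K : ℕ) (g : ℝ) (ρ : ℝ≥0∞) (te T' : ℝ)
    (P : CTree) (x y : Idx P ⊕ Bool) {F : Lab × LSt → ℝ≥0∞} (hF : Measurable F) :
    strI Φ f₀ ε K g ρ te T' P (fun L => F (thL P x y L)) ≤
      ENNReal.ofReal Cf ^ Fintype.card (Idx P) * ∫⁻ z : PhasePoint × Par P, vw Φ ε P T' z *
        (gw b P z * fluxT Φ ε K g ρ te P z fun L => F (thL P x y L)) := by
  unfold strI
  have hC : ENNReal.ofReal Cf ^ Fintype.card (Idx P) ≠ ∞ := ENNReal.pow_ne_top ENNReal.ofReal_ne_top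
  have h1 : ∀ z : PhasePoint × Par P, {z : PhasePoint × Par P | Valid Φ ε P T' z.1.2 z.2}.indicator
      (fun z => wt Φ P z.1.2 z.2 * (ToTree335.pf Φ f₀ ε P z *
        ∫⁻ l, {l : ML | (z, l.1) ∈ OneC423.ctSet Φ ε te P}.indicator
          (fun l => lineD (fun _ => g) ρ K l * (smI K P l * F (thL P x y (oneLs Φ ε P z l)))) l
            ∂(OneC423.baseM (Measure.dirac 0)))) z ≤
      (ENNReal.ofReal (ε ^ 2) * ENNReal.ofReal Cf ^ Fintype.card (Idx P)) * (vw Φ ε P T' z *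
        (gw b P z * fluxT Φ ε K g ρ te P z fun L => F (thL P x y L))) := by
    intro z
    by_cases hz : Valid Φ ε P T' z.1.2 z.2
    · rw [indicator_of_mem (show z ∈ {z : PhasePoint × Par P | Valid Φ ε P T' z.1.2 z.2} from hz),
        vw_of_valid hz]
      have hm : Measurable fun l : ML => F (thL P x y (oneLs Φ ε P z l)) :=
        measurable_lineF hΦ hz.1 x y hF
      rw [Nu0566.lintegral_line_flux (P := P) (K := K) hΦ hε g ρ te 0 z
        (F := fun L => F (thL P x y L)) hm]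
      calc wt Φ P z.1.2 z.2 * (ToTree335.pf Φ f₀ ε P z * (ENNReal.ofReal (ε ^ 2) *
            fluxT Φ ε K g ρ te P z fun L => F (thL P x y L)))
          ≤ wt Φ P z.1.2 z.2 * ((ENNReal.ofReal Cf ^ Fintype.card (Idx P) * gw b P z) *
            (ENNReal.ofReal (ε ^ 2) * fluxT Φ ε K g ρ te P z fun L => F (thL P x y L))) :=
            mul_le_mul_right (mul_le_mul_left (pf_le hΦ hf hz.1) _) _
        _ = _ := by ring
    · rw [indicator_of_notMem (show z ∉ {z : PhasePoint × Par P | Valid Φ ε P T' z.1.2 z.2}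
        from hz)]
      exact bot_le
  calc _ ≤ activity ε * ∫⁻ z : PhasePoint × Par P,
        (ENNReal.ofReal (ε ^ 2) * ENNReal.ofReal Cf ^ Fintype.card (Idx P)) * (vw Φ ε P T' z *
        (gw b P z * fluxT Φ ε K g ρ te P z fun L => F (thL P x y L))) :=
        mul_le_mul_right (lintegral_mono h1) _
    _ = (activity ε * ENNReal.ofReal (ε ^ 2)) * (ENNReal.ofReal Cf ^ Fintype.card (Idx P) *
        ∫⁻ z : PhasePoint × Par P, vw Φ ε P T' z *
          (gw b P z * fluxT Φ ε K g ρ te P z fun L => F (thL P x y L))) := by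
        rw [lintegral_const_mul' _ _ (ENNReal.mul_ne_top ENNReal.ofReal_ne_top hC)]
        ring
    _ = _ := by rw [activity_mul hε, one_mul]

/-! ### The domination -/

/-- Domination of the labelled law of the lines `(x, y)` of a structure. -/
def DomS (Φ : Space3 → ℝ) (B : BPar) (b Cf : ℝ) (P : CTree) (x y : Idx P ⊕ Bool) : Prop :=
  ∃ c : ℝ≥0∞, c ≠ ∞ ∧ ∀ ε T' te : ℝ, 0 < ε → ε ≤ 1 → 0 < te → te ≤ T' → T' ≤ B.T →
    ∀ K : ℕ, P.leaves ≤ K → ∀ Pp : PPar, IsPP B te K Pp → ∀ g : ℝ, B.b₀ ≤ g →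
    ∀ f₀ : PhasePoint → ℝ, (∀ z, f₀ z ≤ Cf * Real.exp (-(b * ‖z.2‖ ^ 2))) →
    ∃ Ξ ν : Measure (Lab × LSt), PX Pp Ξ ν c ∧ Aux ε ν ∧
      ∀ F : Lab × LSt → ℝ≥0∞, Measurable F →
        (∀ p, ¬ (p.1.1.1.1 ≤ te ∧ p.2.1 ≤ te) → F p = 0) →
        strI Φ f₀ ε K g B.ρ te T' P (fun L => F (thL P x y L)) ≤ ∫⁻ p, F p ∂ν

/-- pairs of exits -/
theorem domS_ex (hΦ : AdmissiblePotential Φ) {B : BPar} (hB : B.Ok) (hρ : B.ρ < 1) {b b' Cf : ℝ}
    (hbb : b' < b) {P : CTree} {m m' : Mk P} (h : DomP Φ B b' P m m') :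
    DomS Φ B b Cf P (Sum.inl (exIdx m)) (Sum.inl (exIdx m')) := by
  obtain ⟨c, hc, h⟩ := h
  obtain ⟨C1, hC1, h1⟩ := fluxI_le hB.b0 hρ
  obtain ⟨C2, hC2, h2⟩ := one_add_gw hbb
  set k : ℝ≥0∞ := ENNReal.ofReal Cf ^ Fintype.card (Idx P) * (ENNReal.ofReal B.T * (C1 * C2))
    with hk
  have hCf : ENNReal.ofReal Cf ^ Fintype.card (Idx P) ≠ ∞ :=
    ENNReal.pow_ne_top ENNReal.ofReal_ne_top
  have hk' : ENNReal.ofReal B.T * (C1 * C2) ≠ ∞ :=
    ENNReal.mul_ne_top ENNReal.ofReal_ne_top (ENNReal.mul_ne_top hC1 hC2)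
  have hkt : k ≠ ∞ := ENNReal.mul_ne_top hCf hk'
  refine ⟨k * c, ENNReal.mul_ne_top hkt hc, ?_⟩
  intro ε T' te hε hε1 hte hteT hT K hK Pp hPp g hg f₀ hf
  obtain ⟨Ξ, ν, hPX, hA, hdom⟩ := h ε T' te hε hε1 hte hteT hT K hK Pp hPp
  refine ⟨_, _, PairSrc969.PX.smul hPX k, hA.smul k, fun F hF hF0 => ?_⟩
  refine (strI_le hΦ hε hf K g B.ρ te T' P _ _ hF).trans ?_
  have h3 : ∀ z : PhasePoint × Par P, vw Φ ε P T' z * (gw b P z *
      fluxT Φ ε K g B.ρ te P z fun L => F (thL P (Sum.inl (exIdx m)) (Sum.inl (exIdx m')) L)) ≤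
      (ENNReal.ofReal B.T * (C1 * C2)) * (vw Φ ε P T' z * (gw b' P z *
        F (pairT Φ ε m m' z))) := by
    intro z
    by_cases hz : vw Φ ε P T' z = 0
    · rw [hz, zero_mul]; exact bot_le
    have hA := (valid_of_vw hz).1
    have h4 : fluxT Φ ε K g B.ρ te P z
        (fun L => F (thL P (Sum.inl (exIdx m)) (Sum.inl (exIdx m')) L)) ≤
        ENNReal.ofReal B.T * (C1 * (ENNReal.ofReal (1 + ‖z.1.2‖) * F (pairT Φ ε m m' z))) := by
      unfold fluxT
      calc _ ≤ ∫⁻ _s in Ioc 0 te, C1 * (ENNReal.ofReal (1 + ‖z.1.2‖) * F (pairT Φ ε m m' z)) := by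
            refine lintegral_mono fun s => ?_
            refine (Set.indicator_le_self _ _ s).trans ?_
            exact h1 ε K g hg P z s _ _ fun d n => by rw [thL_ex hA]
        _ = C1 * (ENNReal.ofReal (1 + ‖z.1.2‖) * F (pairT Φ ε m m' z)) *
            ENNReal.ofReal te := by
            rw [setLIntegral_const, Real.volume_Ioc, sub_zero]
        _ ≤ C1 * (ENNReal.ofReal (1 + ‖z.1.2‖) * F (pairT Φ ε m m' z)) *
            ENNReal.ofReal B.T := mul_le_mul_right (ENNReal.ofReal_le_ofReal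
              (hteT.trans hT)) _
        _ = _ := by ring
    calc vw Φ ε P T' z * (gw b P z * fluxT Φ ε K g B.ρ te P z
          fun L => F (thL P (Sum.inl (exIdx m)) (Sum.inl (exIdx m')) L))
        ≤ vw Φ ε P T' z * (gw b P z * (ENNReal.ofReal B.T * (C1 *
          (ENNReal.ofReal (1 + ‖z.1.2‖) * F (pairT Φ ε m m' z))))) :=
          mul_le_mul_right (mul_le_mul_right h4 _) _
      _ = vw Φ ε P T' z * (ENNReal.ofReal B.T * C1 *
          ((ENNReal.ofReal (1 + ‖z.1.2‖) * gw b P z) * F (pairT Φ ε m m' z))) := by ring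
      _ ≤ vw Φ ε P T' z * (ENNReal.ofReal B.T * C1 *
          ((C2 * gw b' P z) * F (pairT Φ ε m m' z))) :=
          mul_le_mul_right (mul_le_mul_right (mul_le_mul_left (h2 P z) _) _) _
      _ = _ := by ring
  calc ENNReal.ofReal Cf ^ Fintype.card (Idx P) * ∫⁻ z : PhasePoint × Par P, vw Φ ε P T' z *
        (gw b P z * fluxT Φ ε K g B.ρ te P z
          fun L => F (thL P (Sum.inl (exIdx m)) (Sum.inl (exIdx m')) L))
      ≤ ENNReal.ofReal Cf ^ Fintype.card (Idx P) * ∫⁻ z : PhasePoint × Par P,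
        (ENNReal.ofReal B.T * (C1 * C2)) * (vw Φ ε P T' z * (gw b' P z *
        F (pairT Φ ε m m' z))) := mul_le_mul_right (lintegral_mono h3) _
    _ = k * ∫⁻ z : PhasePoint × Par P, vw Φ ε P T' z * (gw b' P z *
        F (pairT Φ ε m m' z)) := by
        rw [lintegral_const_mul' _ _ hk', hk]
        ring
    _ ≤ k * ∫⁻ p, F p ∂ν := mul_le_mul_right (hdom F hF hF0) _
    _ = ∫⁻ p, F p ∂(k • ν) := by rw [lintegral_smul_measure, smul_eq_mul]

/-- pairs (exit, line of the last contact) -/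
theorem domS_ct (hΦ : AdmissiblePotential Φ) {B : BPar} {b Cf : ℝ} {P : CTree} {m : Mk P}
    {y : Idx P ⊕ Bool} (hy : sigB P (Sum.inl (exIdx m)) y = true) (h : DomC Φ B b P m y) :
    DomS Φ B b Cf P (Sum.inl (exIdx m)) y := by
  obtain ⟨c, hc, h⟩ := h
  set k : ℝ≥0∞ := ENNReal.ofReal Cf ^ Fintype.card (Idx P) with hk
  have hkt : k ≠ ∞ := ENNReal.pow_ne_top ENNReal.ofReal_ne_top
  refine ⟨k * c, ENNReal.mul_ne_top hkt hc, ?_⟩
  intro ε T' te hε hε1 hte hteT hT K hK Pp hPp g hg f₀ hf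
  obtain ⟨Ξ, ν, hPX, hA, hdom⟩ := h ε T' te hε hε1 hte hteT hT K hK Pp hPp g hg
  refine ⟨_, _, PairSrc969.PX.smul hPX k, hA.aux.smul k, fun F hF hF0 => ?_⟩
  refine (strI_le hΦ hε hf K g B.ρ te T' P _ _ hF).trans ?_
  calc ENNReal.ofReal Cf ^ Fintype.card (Idx P) * ∫⁻ z : PhasePoint × Par P, vw Φ ε P T' z *
        (gw b P z * fluxT Φ ε K g B.ρ te P z fun L => F (thL P (Sum.inl (exIdx m)) y L))
      = k * ∫⁻ z : PhasePoint × Par P, vw Φ ε P T' z * (gw b P z *
          ∫⁻ s in Ioc 0 te, {s | s ≤ te ∧ Valid Φ ε P s z.1.2 z.2}.indicator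
            (fun s => fluxI Φ ε K g B.ρ P z s fun L => F (pairC m y L)) s) := by
        simp only [thL_ct m hy]
        rfl
    _ ≤ k * ∫⁻ p, F p ∂ν := mul_le_mul_right (hdom F hF hF0) _
    _ = ∫⁻ p, F p ∂(k • ν) := by rw [lintegral_smul_measure, smul_eq_mul]

/-- **Domination of all pairs** from `DomP` and `DomC`. -/
theorem base_dom_of (hΦ : AdmissiblePotential Φ) {B : BPar} (hB : B.Ok)
    (hρ : B.ρ < 1) {b : ℝ} (hb : B.bs < b) (Cf : ℝ) {P : CTree}
    (hP : ∀ m m' : Mk P, m ≠ m' → fwd m m' = false → ∀ b' : ℝ, B.bs < b' → DomP Φ B b' P m m')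
    (hC : ∀ (m : Mk P) (y : Idx P ⊕ Bool), (y = Sum.inl (root P) ∨ ∃ β : Bool, y = Sum.inr β) →
      DomC Φ B b P m y)
    {x y : Idx P ⊕ Bool} (hx : x ∈ exS P) (hy : y ≠ x) : DomS Φ B b Cf P x y := by
  obtain ⟨i, hi, rfl⟩ := Finset.mem_map.1 hx
  have hi' : i ≠ root P := (Finset.mem_filter.1 hi).2
  obtain ⟨m, rfl⟩ := exIdx_surj P i hi'
  rcases y with j | β
  · by_cases hj : j = root P
    · rw [hj]
      exact domS_ct hΦ (sigB_root _) (hC m _ (Or.inl rfl))
    · obtain ⟨m', rfl⟩ := exIdx_surj P j hj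
      have hmm : m ≠ m' := fun h => hy (by rw [h]; rfl)
      have hb1 : B.bs < (B.bs + b) / 2 := by linarith
      have hb2 : (B.bs + b) / 2 < b := by linarith
      refine domS_ex hΦ hB hρ hb2 ?_
      by_cases hf : fwd m m' = true
      · exact domP_fwd hΦ hB m m' hf hb1
      · exact hP m m' hmm (by simpa using hf) _ hb1
  · exact domS_ct hΦ (sigB_inr _ β) (hC m _ (Or.inr ⟨β, rfl⟩))

end Crest.Agent.R122.Mark307

end
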