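import Crest.Agent.R122.PartsNet_564
import Crest.Agent.R122.OneC_423
import Crest.Agent.R122.OneCDefs_285

/-!
# Row 122, LN1 (helper564): contact data of the contact set

* `Proper ε z l` : the contact is not grazing; `cdok_cD` : then the contact data are proper.
* `state_l`, `state_r` : states of the line and of the root line at the contact time.
* `ae_proper_root` : the contact of a given line with a tree is proper for a.e. tree.
* `enc_ct` : the encounter data of `PartsNet_564` from the contact set.
-/

set_option autoImplicit false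
set_option linter.unusedSectionVars false

open MeasureTheory Set Filter Topology
open scoped ENNReal
open Crest.AnalysisR.Kinetic
open Crest.Agent.R122.VL581 Crest.Agent.R122.VL581.VSys Crest.Agent.R122.VLInst442
open Crest.Agent.R122.LNg410 Crest.Agent.R122.LN304 Crest.Agent.R122.Ins45
open Crest.Agent.R122.Kin796 Crest.Agent.R122.Kin796.CTree Crest.Agent.R122.Tree674
open Crest.Agent.R122.Disc416 Crest.Agent.R122.Flux663
open Crest.Agent.R122.LNTree410 Crest.Agent.R122.TreeLines335
open Crest.Agent.R122.OCout796 Crest.Agent.R122.Scat818 Crest.Agent.R122.EDefs602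
open Crest.Agent.R122.LNGraft410 Crest.Agent.R122.PWInst442
open Crest.Agent.R122.OneC285 (cT cB cD cX)
open scoped Classical

noncomputable section

namespace Crest.Agent.R122.PN564

section contact

variable {Φ : Space3 → ℝ} {ε te : ℝ} {P : CTree} {z : PhasePoint × Par P} {l : ML}

/-- The contact of the line `l` with the root line of `z` is proper: positive relative velocity, not
grazing. -/
def Proper (ε : ℝ) (z : PhasePoint × Par P) (l : ML) : Prop :=
  (OneC423.relL z.1 l.1).2 ≠ 0 ∧ ‖bline (OneC423.relL z.1 l.1)‖ < ε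

theorem cdok_cD (hε : 0 < ε) (h : Proper ε z l) : CDok (cD ε z l) := by
  have h1 : (relB (cD ε z l)).2 = (OneC423.relL z.1 l.1).2 := rfl
  have h2 : (relB (cD ε z l)).1 = ε⁻¹ • bline (OneC423.relL z.1 l.1) := rfl
  refine ⟨⟨?_, ?_⟩, h.1⟩
  · rw [h1, h2, inner_smul_left, inner_bline h.1, mul_zero]
  · rw [h2, norm_smul, norm_inv, Real.norm_eq_abs, abs_of_pos hε, inv_mul_lt_iff₀ hε, mul_one]
    exact h.2

/-- State of the line at the contact. -/
theorem state_l (hε : 0 < ε) (z : PhasePoint × Par P) (l : ML) :
    lineAt l.1.1 l.1.2 (cT ε z l) =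
    (cX ε z l + ε • entrancePoint (relB (cD ε z l)).1 (relB (cD ε z l)).2, (cD ε z l).1) := by
  have h1 := OC663.ent_pos hε (OneC423.relL z.1 l.1)
  have h0 : ((OneC423.relL z.1 l.1).1 : Space3) = l.1.2.1 - l.1.1 • l.1.2.2 - z.1.1 := rfl
  have h0' : ((OneC423.relL z.1 l.1).2 : Space3) = l.1.2.2 - z.1.2 := rfl
  have h2 : OC663.entT ε (OneC423.relL z.1 l.1) = cT ε z l := rfl
  have h3 : OC663.entB ε (OneC423.relL z.1 l.1) = cB ε z l := rfl
  rw [h0, h0', h2, h3] at h1
  refine Prod.ext ?_ rfl
  change l.1.2.1 + (cT ε z l - l.1.1) • l.1.2.2 = z.1.1 + cT ε z l • z.1.2 +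
    ε • entrancePoint (cB ε z l) (l.1.2.2 - z.1.2)
  rw [← h1]
  module

/-- State of the root line at the contact. -/
theorem state_r (z : PhasePoint × Par P) (l : ML) :
    onLine z.1 (cT ε z l) = (cX ε z l, (cD ε z l).2.1) := rfl

theorem relL_rootAt (ε s : ℝ) (e : ℝ × PhasePoint) (u b : Space3) :
    OneC423.relL (OneC423.rootAt ε s e u b) e =
      (ε • entrancePoint b (e.2.2 - u) - s • (e.2.2 - u), e.2.2 - u) := by
  unfold OneC423.relL OneC423.rootAt back
  refine Prod.ext ?_ rfl
  simp only
  module

/-- Grazing contacts are exceptional (line fixed). -/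
theorem ae_proper_root (hΦ : AdmissiblePotential Φ) (hε : 0 < ε) (te : ℝ) (P : CTree) (l : ML) :
    ∀ᵐ z : PhasePoint × Par P, (z, l.1) ∈ OneC423.ctSet Φ ε te P → Proper ε z l := by
  set B : Set (PhasePoint × Par P) := {z | ¬ ‖bline (OneC423.relL z.1 l.1)‖ < ε} with hB
  have hr : Measurable fun z : PhasePoint × Par P => OneC423.relL z.1 l.1 :=
    OneC423.measurable_relL.comp (f := fun z : PhasePoint × Par P => (z.1, l.1))
      (measurable_fst.prodMk measurable_const)
  have hBm : MeasurableSet B :=
    (measurableSet_lt (measurable_bline.comp hr).norm measurable_const).compl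
  have hms : MeasurableSet {z : PhasePoint × Par P | (z, l.1) ∈ OneC423.ctSet Φ ε te P} :=
    (measurable_id.prodMk (measurable_const (a := l.1))) (OneC423.measurableSet_ctSet hΦ ε te P)
  have h0 : ∫⁻ z : PhasePoint × Par P, {z | (z, l.1) ∈ OneC423.ctSet Φ ε te P}.indicator
      (B.indicator fun _ => (1 : ℝ≥0∞)) z = 0 := by
    rw [OneC423.lintegral_ct_root hΦ hε l.1 (measurable_const.indicator hBm)]
    refine mul_eq_zero.2 (Or.inr ?_)
    refine (lintegral_congr fun s => ?_).trans lintegral_zero
    refine (lintegral_congr fun u => ?_).trans lintegral_zero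
    by_cases hg : l.1.2.2 - u = 0
    · rw [hg, norm_zero, ENNReal.ofReal_zero, zero_mul]
    refine mul_eq_zero.2 (Or.inr ?_)
    refine (setLIntegral_congr_fun (measurableSet_impactDisc _) fun b hb => ?_).trans
      lintegral_zero
    refine (lintegral_congr fun p => ?_).trans lintegral_zero
    have hnb : ((OneC423.rootAt ε s l.1 u b, p) : PhasePoint × Par P) ∉ B := by
      rw [hB]
      refine fun h => h ?_
      rw [relL_rootAt]
      have h1 := (OneNS423.ent_inv hε hg hb s).2
      have h2 := OC663.norm_entB hε (ε • entrancePoint b (l.1.2.2 - u) - s • (l.1.2.2 - u),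
        l.1.2.2 - u)
      rw [h1, eq_div_iff hε.ne'] at h2
      rw [← h2]
      have := hb.2
      nlinarith
    by_cases hv : p ∈ {p | Valid Φ ε P s u p}
    · rw [indicator_of_mem hv]
      exact indicator_of_notMem hnb _
    · exact indicator_of_notMem hv _
  have h1 := (lintegral_eq_zero_iff ((measurable_const.indicator hBm).indicator hms)).1 h0
  filter_upwards [h1] with z hz hct
  refine ⟨hct.1, ?_⟩
  by_contra hcon
  rw [indicator_of_mem (show z ∈ {z : PhasePoint × Par P | (z, l.1) ∈ OneC423.ctSet Φ ε te P}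
    from hct), indicator_of_mem (show z ∈ B from hcon)] at hz
  exact one_ne_zero hz

end contact

/-! ### Encounter data -/

section enc

variable {J κ : Type} [Fintype J] {M : VSys J κ} {Z : J → PhasePoint} {C ℓ ς : ℝ}
  {π : Finset J} {cl : J → Finset J} {bD : J → ℝ}

/-- **Encounter data from the contact set**: the label `y` of the net follows the line `e`, the label
`c` of a class `S` follows the root line `z.1` at the contact time. -/
theorem enc_ct (hΦ : AdmissiblePotential M.Φ) (hε : 0 < M.ε) (N : Net M C Z π cl bD) {y : J}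
    (hy : y ∈ π) {e : ML} (hE : Exl M Z cl bD y e.1) {S : Finset J} {c : J} {P : CTree}
    {z : PhasePoint × Par P} (hp : Proper M.ε z e) (he : e.1.1 < cT M.ε z e)
    (hc : bD c < cT M.ε z e) (hT : cT M.ε z e < M.T)
    (hS : M.st S (cT M.ε z e) Z c = onLine z.1 (cT M.ε z e)) :
    Enc M Z (cl y) S bD y c (cT M.ε z e) (cX M.ε z e) (cD M.ε z e) where
  lta := hE.le.trans_lt he
  ltc := hc
  cd := cdok_cD hε hp
  state_a := by
    rw [N.st_line hΦ hε hy hE (he.trans hT).le (hE.le.trans he.le) hT.le, state_l hε]
  state_c := hS.trans (state_r z e)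
  lt_T := hT

end enc

end Crest.Agent.R122.PN564

end
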