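import Crest.Agent.R122.BasePair_45
import Crest.Agent.R122.PartsCt_564
import Crest.Agent.R122.NuL_735
import Crest.Agent.R122.VLClass2_973

/-!
# The pairs of lines of the base structures (row 122, S^(0), helper45)

Structures `q : Th P` of helper735 (`NuL_735`): a tree `q.1` and a test line `lnO q.2` born at time
`0`; labels `Idx P ⊕ Unit`, all births `0`, states `zE Φ ε q`.

* `base1` : `Base1` for the isolated system `vsys Φ T ε (fun _ => 0)` of the labels.
* `conn0` : the structure is connected.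
* `pass0` : in a tree-like structure the encounter ends.
* `pair0` : the pair `x`, `y` (`x` an exit) of lines of the structure, in a tree-like structure.
-/

set_option autoImplicit false
set_option linter.unusedSectionVars false

open MeasureTheory Set Filter Topology
open scoped NNReal ENNReal
open Crest.AnalysisR.Kinetic
open Crest.Agent.R122.Flow671 hiding rel
open Crest.Agent.R122.Loc45 Crest.Agent.R122.Ins45
open Crest.Agent.R122.VL581 Crest.Agent.R122.VL581.VSys Crest.Agent.R122.VLInst442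
open Crest.Agent.R122.LNInst491 Crest.Agent.R122.LN304 Crest.Agent.R122.LNg410
open Crest.Agent.R122.Kin796 Crest.Agent.R122.Kin796.CTree Crest.Agent.R122.Tree674
open Crest.Agent.R122.PathFlow968 Crest.Agent.R122.TreeLines335 Crest.Agent.R122.EDefs602
open Crest.Agent.R122.LNTree410 Crest.Agent.R122.PWGlue491 Crest.Agent.R122.Inf879
open Crest.Agent.R122.LNGraft410 Crest.Agent.R122.LNEv968
open Crest.Agent.R122.PWInst442 (LineIn oLab exists_bE)
open Crest.Agent.R122.StrG491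
open Crest.Agent.R122.OCout796 Crest.Agent.R122.Scat818
open Crest.Agent.R122.OneC285 (cT cB cD cX oneLs exS)
open Crest.Agent.R122.VLMeas973 (vsys)
open Crest.Agent.R122.NuL735 (lnO zE oneE oneE_of_adm linesE_of_adm)
open scoped Classical

noncomputable section

namespace Crest.Agent.R122.BasePair45

/-- Labels of the tree. -/
def eB (P : CTree) : Idx P ↪ Idx P ⊕ Unit := ⟨Sum.inl, Sum.inl_injective⟩

@[simp] theorem eB_apply (P : CTree) (i : Idx P) : eB P i = Sum.inl i := rfl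

/-- Label of the test line. -/
def aB (P : CTree) : Idx P ⊕ Unit := Sum.inr ()

/-- Label of the line `y` of the structure. -/
abbrev lB (P : CTree) (y : Idx P ⊕ Bool) : Idx P ⊕ Unit := oLab (eB P) (aB P) y

theorem union_eB (P : CTree) (inst : DecidableEq (Idx P ⊕ Unit)) :
    ({aB P} ∪ part (eB P) : Finset (Idx P ⊕ Unit)) = Finset.univ := by
  ext j
  rw [Finset.mem_union, Finset.mem_singleton, mem_part]
  refine iff_of_true ?_ (Finset.mem_univ j)
  rcases j with j | j
  · exact Or.inr ⟨j, rfl⟩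
  · exact Or.inl rfl

variable {Φ : Space3 → ℝ} {ε T te ℓ ς c : ℝ} {P : CTree} {q : NuL735.Th P}

/-- The isolated system of the structure. -/
abbrev sys0 (Φ : Space3 → ℝ) (T ε : ℝ) (P : CTree) : VSys (Idx P ⊕ Unit) Unit :=
  vsys Φ T ε fun _ => 0

/-- **The base structure**: the line `lnO q.2` meets the root line of the tree `q.1`. -/
theorem base1 (hct : (q.1, (lnO q.2).1) ∈ OneC423.ctSet Φ ε te P) (hte : te < T)
    (hsep : Sep Φ ε P T q.1.1 q.1.2) (hcd : CDok (cD ε q.1 (lnO q.2))) :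
    Base1 (sys0 Φ T ε P) (zE Φ ε q) te P q.1 (eB P) (aB P) (lnO q.2) := by
  have hadm : Adm Φ P q.1.1.2 q.1.2 := hct.2.2.2.2.1
  have hord : Ord Φ ε P (cT ε q.1 (lnO q.2)) q.1.1.2 q.1.2 := hct.2.2.2.2.2
  have hle : cT ε q.1 (lnO q.2) ≤ T := hct.2.2.2.1.trans hte.le
  refine ⟨⟨fun _ => le_rfl, fun i => ?_, fun i h => ?_, ?_, hsep⟩, ⟨fun h => ?_, ?_, ?_⟩,
    fun x h => ?_, hct, hte, hcd⟩
  · exact linesE_of_adm hadm i
  · cases h
  · exact LNTree410.valid_mono hle ⟨hadm, hord⟩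
  · cases h
  · exact max_self (0 : ℝ)
  · refine Prod.ext ?_ rfl
    change q.2.1.1 = q.2.1.1 - (0 : ℝ) • q.2.1.2
    rw [zero_smul, sub_zero]
  · cases h

section
variable (hC : 1 ≤ c) (hΦ : AdmissiblePotential Φ) (hε : 0 < ε)
  (hct : (q.1, (lnO q.2).1) ∈ OneC423.ctSet Φ ε te P) (hte : te < T)
  (hsep : Sep Φ ε P T q.1.1 q.1.2) (hcd : CDok (cD ε q.1 (lnO q.2)))
include hC hΦ hε hct hte hsep hcd

/-- **The base structure is connected.** -/
theorem conn0 : (sys0 Φ T ε P).Conn c Finset.univ (zE Φ ε q) := by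
  have h := base1 hct hte hsep hcd
  obtain ⟨bD, hb⟩ := h.exists_bd
  have h1 := (h.enc hC hΦ hε hb).conn hC hε
  rwa [union_eB] at h1

variable (hT : TL (sys0 Φ T ε P) c ℓ ς Finset.univ (zE Φ ε q)) (hℓς : 2 * ℓ ≤ ς)
  (hlT : te + 2 * ℓ < T)
include hT hℓς hlT

/-- In a tree-like structure the encounter ends. -/
theorem pass0 : CDpass Φ (cD ε q.1 (lnO q.2)) ∧ outT Φ ε (cD ε q.1 (lnO q.2)) ≤ 2 * ℓ := by
  have h := base1 hct hte hsep hcd
  obtain ⟨bD, hb⟩ := h.exists_bd
  have hle : cT ε q.1 (lnO q.2) ≤ te := hct.2.2.2.1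
  have hlt : cT ε q.1 (lnO q.2) + 2 * ℓ < T := by linarith
  have h1 := (h.enc hC hΦ hε hb).pass_of (ℓ := ℓ) (ς := ς) hC hΦ hε
    (by rw [union_eB]; exact hT) hℓς hlt
  exact h1

/-- **The pair of the lines `x` (an exit) and `y`** of a tree-like base structure. -/
theorem pair0 {x y : Idx P ⊕ Bool} (hx : x ∈ exS P) (hy : y ≠ x) :
    ∃ (R : ℝ → Idx P ⊕ Unit → Idx P ⊕ Unit → Prop)
      (cl : Idx P ⊕ Unit → Finset (Idx P ⊕ Unit)) (bD : Idx P ⊕ Unit → ℝ),
      Pair (sys0 Φ T ε P) c (zE Φ ε q) R Finset.univ cl bD (lB P x) (lB P y)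
        (oneE Φ ε q x).1 (oneE Φ ε q y).1 := by
  have h := base1 hct hte hsep hcd
  have hadm : Adm Φ P q.1.1.2 q.1.2 := hct.2.2.2.2.1
  obtain ⟨hp, hout⟩ := pass0 hC hΦ hε hct hte hsep hcd hT hℓς hlT
  have hle : cT ε q.1 (lnO q.2) + outT Φ ε (cD ε q.1 (lnO q.2)) ≤ T := by
    have h1 : cT ε q.1 (lnO q.2) ≤ te := hct.2.2.2.1
    linarith
  rcases x with i | b
  · have hi : i ≠ root P := mem_exS.1 hx
    obtain ⟨R, cl, bD, h1⟩ := h.pair hC hΦ hε (ℓ := ℓ) (ς := ς) (by rw [union_eB]; exact hT)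
      hℓς hp hle hi hy
    rw [union_eB] at h1
    refine ⟨R, cl, bD, ?_⟩
    rw [oneE_of_adm hadm, oneE_of_adm hadm]
    exact h1
  · exact absurd hx inr_not_mem_exS

end

end Crest.Agent.R122.BasePair45

end
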