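import Crest.Agent.R122.LNvs2_410

/-!
# Row 122, LN1, graph part on `VSys` (helper410): the same statements from `TLg` only

`TLg P (vc M C P Z) ℓ ς` is the second half of 304's `TL` (and follows from `TreeLike`, `TLP`,
`TLW`): no separation from births, from `0`, from `T`.  For `hT : LN304.TL M c ℓ ς P Z` use `hT.2`.

* `tl_eq_of_link`, `tl_link`, `tl_outer`, `tl_mem_of_family`, `tl_extra`, `tl_two_times`,
  `tl_between`, `tl_pair_eq_of_near`, `tl_two_exits`, `tl_ret_member`.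
* `tl_sub` : restriction to a connected subset (contacts through sub-worlds of the subset).
-/

set_option autoImplicit false
set_option linter.unusedSectionVars false

open MeasureTheory Set Filter Topology
open scoped ENNReal NNReal
open Crest.AnalysisR.Kinetic
open Crest.Agent.R122.GIV566 Crest.Agent.R122.VL581

namespace Crest.Agent.R122.LNg410

variable {J κ : Type} [Fintype J] [DecidableEq J] {M : VSys J κ} {C ℓ ς : ℝ} {P Q : Finset J}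
  {Z : J → PhasePoint}

/-- Cut form. -/
theorem tl_cut (hT : TLg P (vc M C P Z) ℓ ς) (hc : M.Conn C P Z) :
    CutAcyclic P fun i j => ∃ t, vc M C P Z i j t :=
  hT.cut (conn_iff.1 hc)

/-- Restriction to a connected subset. -/
theorem tl_sub (hT : TLg P (vc M C P Z) ℓ ς) (hc : M.Conn C P Z) (hQP : Q ⊆ P)
    (hQ : M.Conn C Q Z) : TLg Q (vc M C Q Z) ℓ ς :=
  (hT.sub (conn_iff.1 hc) hQP (cutConn_mono hQP hQ)).mono fun _ _ _ _ _ _ h => vc_mono hQP h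

/-- A connected part `S` and a group `Y` connected by contacts which are not inside `S` have at most
one common member. -/
theorem tl_eq_of_link {S Y : Finset J} (hT : TLg P (vc M C P Z) ℓ ς) (hc : M.Conn C P Z)
    (hSP : S ⊆ P) (hYP : Y ⊆ P) (hS : M.Conn C S Z) (hY : CutConn Y (outR M C P Z S)) {p q : J}
    (hpS : p ∈ S) (hpY : p ∈ Y) (hqS : q ∈ S) (hqY : q ∈ Y) : p = q := by
  have h1 := tl_cut hT hc
  have h2 : CutConn S fun i j => (i ∈ S ∧ j ∈ S) ∧ ∃ t, vc M C P Z i j t :=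
    (cutConn_mono hSP hS).mono fun i hi j hj _ h => Or.inl ⟨⟨hi, hj⟩, h⟩
  refine h1.inter_subsingleton hSP hYP h2 hY (fun i _ j _ _ h => Or.inl h.2)
    (fun i _ j _ _ h => Or.inl h.2) (fun i hi _ j hj _ _ _ h => ?_) hpS hpY hqS hqY
  rcases h with h | h
  · exact h.1.elim (fun h' => h' hi) (fun h' => h' hj)
  · exact h.1.elim (fun h' => h' hj) (fun h' => h' hi)

/-- **LINK**. -/
theorem tl_link {S Y : Finset J} (hS : M.Conn C S Z)
    (hY : CutConn Y (outR M C (S ∪ Y) Z S)) {p q : J} (hpS : p ∈ S)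
    (hpY : p ∈ Y) (hqS : q ∈ S) (hqY : q ∈ Y) (hpq : p ≠ q) :
    M.Conn C (S ∪ Y) Z ∧ ¬ TLg (S ∪ Y) (vc M C (S ∪ Y) Z) ℓ ς := by
  have h1 := union_conn hS hY hpS hpY
  exact ⟨h1, fun hT => hpq (tl_eq_of_link hT h1 Finset.subset_union_left
    Finset.subset_union_right hS hY hpS hpY hqS hqY)⟩

/-- **(G4)**. -/
theorem tl_outer {S Y : Finset J} (hT : TLg P (vc M C P Z) ℓ ς) (hc : M.Conn C P Z)
    (hSP : S ⊆ P) (hYP : Y ⊆ P) (hS : M.Conn C S Z) (hY : M.Conn C Y Z)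
    (hd : Disjoint S Y) {p q x y : J} (hp : p ∈ S) (hq : q ∈ S) (hx : x ∈ Y)
    (hy : y ∈ Y) {t t' : ℝ} (ht : t ∈ Icc 0 M.T) (hpx : M.VCt C P p x t Z)
    (ht' : t' ∈ Icc 0 M.T) (hqy : M.VCt C P q y t' Z) : p = q := by
  by_contra hpq
  exact hT.not_outer_path (conn_iff.1 hc) hSP
    hYP hd (cutConn_mono hSP hS)
    (cutConn_mono hYP hY) hp hq hpq hx hy ⟨t, Or.inl ⟨ht, hpx⟩⟩
    ⟨t', Or.inl ⟨ht', hqy⟩⟩

/-- If a family `F` of contacts connects `P`, every contact pair is in `F`. -/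
theorem tl_mem_of_family (hT : TLg P (vc M C P Z) ℓ ς) {F : J → J → Prop} (hF : CutConn P F)
    (hFc : ∀ i ∈ P, ∀ j ∈ P, i ≠ j → F i j → ∃ t ∈ Icc 0 M.T, M.VCt C P i j t Z)
    {j k : J} (hj : j ∈ P) (hk : k ∈ P) (hjk : j ≠ k) {t : ℝ} (ht : t ∈ Icc 0 M.T)
    (h : M.VCt C P j k t Z) : F j k ∨ F k j :=
  hT.mem_of_cutConn hF (fun i hi j hj hij h => by
    obtain ⟨t, ht, h⟩ := hFc i hi j hj hij h
    exact ⟨t, Or.inl ⟨ht, h⟩⟩) hj hk hjk ⟨ht, h⟩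

/-- **One contact too many**. -/
theorem tl_extra {F : J → J → Prop} (hF : CutConn P F)
    (hFc : ∀ i ∈ P, ∀ j ∈ P, i ≠ j → F i j → ∃ t ∈ Icc 0 M.T, M.VCt C P i j t Z)
    {j k : J} (hj : j ∈ P) (hk : k ∈ P) (hjk : j ≠ k) {t : ℝ} (ht : t ∈ Icc 0 M.T)
    (h : M.VCt C P j k t Z) (hn : ¬ F j k) (hn' : ¬ F k j) :
    M.Conn C P Z ∧ ¬ TLg P (vc M C P Z) ℓ ς :=
  ⟨conn_of_cut hF hFc, fun hT => (tl_mem_of_family hT hF hFc hj hk hjk ht h).elim hn hn'⟩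

theorem tl_two_times (hT : TLg P (vc M C P Z) ℓ ς) (hc : M.Conn C P Z) {i j : J} (hi : i ∈ P)
    (hj : j ∈ P) (hij : i ≠ j)
    {t t' : ℝ} (ht : t ∈ Icc 0 M.T) (h : M.VCt C P i j t Z) (ht' : t' ∈ Icc 0 M.T)
    (h' : M.VCt C P i j t' Z) : |t - t'| ≤ 2 * ℓ :=
  hT.two_times hi hj hij (conn_iff.1 hc) ⟨ht, h⟩ ⟨ht', h'⟩

/-- A contact of another pair between two contacts of one pair. -/
theorem tl_between (hT : TLg P (vc M C P Z) ℓ ς) (hc : M.Conn C P Z) (hℓς : 2 * ℓ ≤ ς)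
    {i j k l : J}
    (hi : i ∈ P) (hj : j ∈ P) (hij : i ≠ j) (hk : k ∈ P) (hl : l ∈ P) (hkl : k ≠ l)
    {t t' t'' : ℝ} (ht : t ∈ Icc 0 M.T) (h : M.VCt C P i j t Z) (ht' : t' ∈ Icc 0 M.T)
    (h' : M.VCt C P i j t' Z) (ht'' : t'' ∈ Icc 0 M.T) (h'' : M.VCt C P k l t'' Z)
    (htt : t ≤ t'') (htt' : t'' ≤ t') : (i = k ∧ j = l) ∨ (i = l ∧ j = k) :=
  hT.sep (conn_iff.1 hc) hℓς hi hj hij hk hl hkl ⟨ht, h⟩ ⟨ht', h'⟩ ⟨ht'', h''⟩
    htt htt'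

/-- Times of different pairs are more than `ς - 2 ℓ` apart. -/
theorem tl_pair_eq_of_near (hT : TLg P (vc M C P Z) ℓ ς) {i j k l : J}
    (hi : i ∈ P) (hj : j ∈ P) (hij : i ≠ j) (hk : k ∈ P) (hl : l ∈ P) (hkl : k ≠ l)
    {t t' : ℝ} (ht : t ∈ Icc 0 M.T) (h : M.VCt C P i j t Z) (ht' : t' ∈ Icc 0 M.T)
    (h' : M.VCt C P k l t' Z) (htt : |t - t'| ≤ ς - 2 * ℓ) :
    (i = k ∧ j = l) ∨ (i = l ∧ j = k) :=
  hT.two_windows hi hj hij hk hl hkl ⟨ht, h⟩ ⟨ht', h'⟩ htt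

/-- **Two exits of one part** (`S` connected). -/
theorem tl_two_exits {S Y₁ Y₂ : Finset J} (hT : TLg P (vc M C P Z) ℓ ς) (hc : M.Conn C P Z)
    (hSP : S ⊆ P) (hYP₁ : Y₁ ⊆ P) (hYP₂ : Y₂ ⊆ P) (hS : M.Conn C S Z)
    (hY₁ : CutConn Y₁ (outR M C P Z S)) (hY₂ : CutConn Y₂ (outR M C P Z S)) {p q : J}
    (hpS : p ∈ S) (hpY : p ∈ Y₁) (hqS : q ∈ S) (hqY : q ∈ Y₂) (hpq : p ≠ q) :
    Disjoint Y₁ Y₂ ∧ ∀ x ∈ Y₁, ∀ y ∈ Y₂, ∀ t ∈ Icc 0 M.T, M.VCt C P x y t Z → x = p ∧ y = q := by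
  have h1 : ∀ x ∈ Y₁, x ∈ S → x = p := fun x hx hxS =>
    tl_eq_of_link hT hc hSP hYP₁ hS hY₁ hxS hx hpS hpY
  have h2 : ∀ x ∈ Y₂, x ∈ S → x = q := fun x hx hxS =>
    tl_eq_of_link hT hc hSP hYP₂ hS hY₂ hxS hx hqS hqY
  constructor
  · rw [Finset.disjoint_left]
    intro x hx hx'
    have h3 : CutConn (Y₁ ∪ Y₂) (outR M C P Z S) :=
      hY₁.union hY₂ ⟨x, Finset.mem_inter.2 ⟨hx, hx'⟩⟩
    exact hpq (tl_eq_of_link hT hc hSP (Finset.union_subset hYP₁ hYP₂) hS h3 hpS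
      (Finset.mem_union_left _ hpY) hqS (Finset.mem_union_right _ hqY))
  · intro x hx y hy t ht h
    by_cases hxy : x ∈ S ∧ y ∈ S
    · exact ⟨h1 x hx hxy.1, h2 y hy hxy.2⟩
    · exfalso
      have h3 : CutConn (Y₁ ∪ Y₂) (outR M C P Z S) :=
        hY₁.union_of_edge hY₂ hx hy (Or.inl ⟨by tauto, t, ht, h⟩)
      exact hpq (tl_eq_of_link hT hc hSP (Finset.union_subset hYP₁ hYP₂) hS h3 hpS
        (Finset.mem_union_left _ hpY) hqS (Finset.mem_union_right _ hqY))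

/-- **Return to another member of the part**: a contact of a member `x` of the group `Y` of the exit
`p` with a member `k ≠ p` of `S` is a contact of `p` and `k`. -/
theorem tl_ret_member {S Y : Finset J} (hT : TLg P (vc M C P Z) ℓ ς) (hc : M.Conn C P Z)
    (hSP : S ⊆ P) (hYP : Y ⊆ P) (hS : M.Conn C S Z)
    (hY : CutConn Y (outR M C P Z S)) {p k x : J}
    (hpS : p ∈ S) (hpY : p ∈ Y) (hk : k ∈ S) (hkp : k ≠ p) (hx : x ∈ Y) {t : ℝ}
    (ht : t ∈ Icc 0 M.T) (h : M.VCt C P x k t Z) : x = p := by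
  by_contra hxp
  have hxS : x ∉ S := fun h' => hxp (tl_eq_of_link hT hc hSP hYP hS hY h' hx hpS hpY)
  have h3 : CutConn (Y ∪ {k}) (outR M C P Z S) :=
    hY.union_of_edge (cutConn_singleton k _) hx (Finset.mem_singleton_self k)
      (Or.inl ⟨Or.inl hxS, t, ht, h⟩)
  exact hkp (tl_eq_of_link hT hc hSP (Finset.union_subset hYP (by
    rw [Finset.singleton_subset_iff]; exact hSP hk)) hS h3 hk
      (Finset.mem_union_right _ (Finset.mem_singleton_self k)) hpS (Finset.mem_union_left _ hpY))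

end Crest.Agent.R122.LNg410
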