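import Crest.Agent.R122.LNTreeB_410
import Crest.Agent.R122.LNvs3_410
import Crest.Agent.R122.LNInst1_491
import Crest.Agent.R122.LNWRW_291
import Crest.Agent.R122.HitPair_45
import Crest.Agent.R122.LN1Defs_304

/-!
# Row 122, LN1 (helper410): classes with exit data, and the graft of two classes by an encounter

* `Cls M Z S bD` : the labels `S` form a class of the structure: isolated world, exits at the times
  `bD`, each of them a birth or a contact with a partner, no contact after it, real connectedness.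
* `Cls.single`, `Cls.of_tree` : one label, a tree.
* `Cls.line` : after its exit a member flies freely.
* `GraftH` : a member `a` of the class `S₁` and a member `c` of the class `S₂` meet at the time `s`
  after their exits, with entrance data `q` (`HitPair_45`).
* `GraftH.cls` : if `S₁ ∪ S₂` is tree-like, it is a class, the exit times of `a` and `c` are
  `s + outT`; `GraftH.st₁`, `GraftH.st₂`, `GraftH.st_a`, `GraftH.st_c` : paths of the union.
-/

set_option autoImplicit false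
set_option linter.unusedSectionVars false

open MeasureTheory Set Filter Topology
open Crest.AnalysisR.Kinetic
open Crest.Agent.R122.Flow671 hiding rel
open Crest.Agent.R122.Loc45 Crest.Agent.R122.Ins45
open Crest.Agent.R122.Kin796 Crest.Agent.R122.Kin796.CTree Crest.Agent.R122.Tree674
open Crest.Agent.R122.PathFlow968 Crest.Agent.R122.TreeLines335
open Crest.Agent.R122.VL581 Crest.Agent.R122.VL581.VSys Crest.Agent.R122.VLInst442
open Crest.Agent.R122.LNInst491 Crest.Agent.R122.LN304 Crest.Agent.R122.LNg410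
open Crest.Agent.R122.LNTree410 Crest.Agent.R122.OCout796 Crest.Agent.R122.Scat818
open scoped Classical

noncomputable section

namespace Crest.Agent.R122.LNGraft410

variable {J κ : Type} [Fintype J] {M : VSys J κ} {Z : J → PhasePoint}

/-- Real contact of two members of the isolated class `S`. -/
def RCt (M : VSys J κ) (Z : J → PhasePoint) (S : Finset J) (i j : J) : Prop :=
  ∃ r ∈ Icc 0 M.T, M.bb i ≤ r ∧ M.bb j ≤ r ∧ dist (M.st S r Z i).1 (M.st S r Z j).1 ≤ M.ε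

/-- A class of the structure with exit data. -/
structure Cls (M : VSys J κ) (Z : J → PhasePoint) (S : Finset J) (bD : J → ℝ) : Prop where
  obs : ∀ i ∈ S, M.o ≠ some i
  ok : M.ok S M.T Z
  bb_le : ∀ i ∈ S, M.bb i ≤ bD i
  exit : ∀ i ∈ S, ∀ t, bD i < t → t ≤ M.T → ∀ k ∈ S, k ≠ i → M.bb k ≤ t →
    M.ε < dist (M.st S t Z i).1 (M.st S t Z k).1
  last : ∀ i ∈ S, bD i ≤ M.T → bD i = M.bb i ∨
    ∃ k ∈ S, k ≠ i ∧ M.bb k ≤ bD i ∧ dist (M.st S (bD i) Z i).1 (M.st S (bD i) Z k).1 ≤ M.ε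
  conn : CutConn S (RCt M Z S)

/-- Contacts of members of ok sub-worlds are virtual contacts. -/
theorem vct_st [Nonempty κ] {C : ℝ} (hC : 1 ≤ C) (hε : 0 < M.ε) {A B P : Finset J} (hA : A ⊆ P)
    (hB : B ⊆ P) {i j : J} (hi : i ∈ A) (hj : j ∈ B) {t : ℝ} (hokA : M.ok A t Z)
    (hokB : M.ok B t Z) (hoi : M.o ≠ some i) (hoj : M.o ≠ some j)
    (hd : dist (M.st A t Z i).1 (M.st B t Z j).1 ≤ M.ε) : M.VCt C P i j t Z := by
  refine ⟨A, hA, B, hB, Classical.arbitrary κ, Classical.arbitrary κ, hi, hj, hokA, hokB,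
    fun h => absurd h hoi, fun h => absurd h hoj, ?_⟩
  unfold VSys.pos
  rw [if_neg hoi, if_neg hoj]
  nlinarith

namespace Cls

variable {S : Finset J} {bD : J → ℝ}

theorem congr (h : Cls M Z S bD) {bD' : J → ℝ} (he : ∀ i ∈ S, bD' i = bD i) :
    Cls M Z S bD' where
  obs := h.obs
  ok := h.ok
  bb_le i hi := by rw [he i hi]; exact h.bb_le i hi
  exit i hi t ht := h.exit i hi t (by rw [← he i hi]; exact ht)
  last i hi ht := by rw [he i hi]; exact h.last i hi (by rw [← he i hi]; exact ht)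
  conn := h.conn

/-- A single label. -/
theorem single {l : J} (ho : M.o ≠ some l) {bD : J → ℝ} (hb : bD l = M.bb l) :
    Cls M Z {l} bD where
  obs i hi := by
    rw [Finset.mem_singleton] at hi
    rw [hi]; exact ho
  ok i hi _ _ j hj _ hji := by
    rw [Finset.mem_singleton] at hi hj
    exact absurd (hj.trans hi.symm) hji
  bb_le i hi := by
    rw [Finset.mem_singleton] at hi
    rw [hi, hb]
  exit i hi t _ _ k hk hki := by
    rw [Finset.mem_singleton] at hi hk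
    exact absurd (hk.trans hi.symm) hki
  last i hi _ := by
    rw [Finset.mem_singleton] at hi
    left; rw [hi, hb]
  conn := cutConn_singleton l _

/-- A tree. -/
theorem of_tree (hΦ : AdmissiblePotential M.Φ) (hε : 0 < M.ε) (hT : 0 < M.T) {P : CTree}
    {ℓ : PhasePoint} {p : Par P} {e : Idx P ↪ J} (h : TreeIn M Z M.T P ℓ p e) {bD : J → ℝ}
    (hb : ∀ i, bD (e i) = rel P p i) : Cls M Z (part e) bD where
  obs i hi := by
    obtain ⟨i, rfl⟩ := mem_part.1 hi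
    exact h.o i
  ok := h.ok_tree hΦ hε hT.le _
  bb_le i hi := by
    obtain ⟨i, rfl⟩ := mem_part.1 hi
    rw [hb, h.bb]
    exact rel_nonneg hε.le h.valid.2 i
  exit i hi t ht htT k hk hki _ := by
    obtain ⟨i, rfl⟩ := mem_part.1 hi
    exact h.exit_tree hΦ hε hk hki (by rw [← hb]; exact ht) htT
  last i hi _ := by
    obtain ⟨i, rfl⟩ := mem_part.1 hi
    rw [hb]
    exact h.last_tree hΦ hε hT i
  conn := h.conn_tree hΦ hε

theorem bb_nonneg' (h : Cls M Z S bD) {i : J} (hi : i ∈ S) : 0 ≤ bD i :=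
  (bb_nonneg M i).trans (h.bb_le i hi)

section

variable (hΦ : AdmissiblePotential M.Φ) (hε : 0 < M.ε)
include hΦ hε

/-- The isolated class is a local world. -/
theorem lworld (h : Cls M Z S bD) (a : ℝ) :
    LWorld M.Φ M.ε (fun k : S => M.bb k) a M.T (fun s k => M.st S s Z k) :=
  st_lworld_sub hΦ hε h.ok subset_rfl h.obs fun _ _ _ _ _ hl hl' => absurd hl hl'

/-- After its exit a member of the isolated class flies freely. -/
theorem line (h : Cls M Z S bD) {i : J} (hi : i ∈ S) {u t : ℝ} (hu : bD i ≤ u) (hut : u ≤ t)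
    (htT : t ≤ M.T) : M.st S t Z i = lineAt u (M.st S u Z i) t := by
  have hcont : ∀ k (hk : k ∈ S) (r : ℝ), r < M.T →
      ContinuousWithinAt (fun s => (M.st S s Z k).1) (Icc r M.T) r := by
    intro k hk r hr
    have h1 : ContinuousOn (fun s => M.st S s Z k) (Icc r M.T) :=
      (h.lworld hΦ hε r).cont_apply (⟨k, hk⟩ : S)
    exact (h1 r ⟨le_rfl, hr.le⟩).fst
  have h0 : ∀ r, u ≤ r → r < t → ∀ j ∈ S, j ≠ i → M.bb j ≤ r →
      M.ε ≤ dist (M.st S r Z i).1 (M.st S r Z j).1 := by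
    intro r hur hrt j hj hji hbj
    rcases lt_or_ge (bD i) r with hlt | hge
    · exact (h.exit i hi r hlt (hrt.le.trans htT) j hj hji hbj).le
    · -- at the exit time, by continuity from the right
      have hrT : r < M.T := hrt.trans_le htT
      refine le_dist_of_frequently hrT (x := fun s => (M.st S s Z i).1)
        (y := fun s => (M.st S s Z j).1) (hcont i hi r hrT) (hcont j hj r hrT)
        (Eventually.frequently ?_)
      filter_upwards [Ioo_mem_nhdsGT hrT] with s hs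
      exact (h.exit i hi s ((hu.trans hur).trans_lt hs.1) hs.2.le j hj hji
        (hbj.trans hs.1.le)).le
  have h1 := LNW291.free_of_iso (ι := S) (X := fun s k => M.st S s Z k)
    (b := fun k : S => M.bb k) hΦ hε (h.lworld hΦ hε u) (s := u) (t := t) le_rfl htT
    (i := ⟨i, hi⟩) (fun r hr j hj _ hbj => h0 r hr.1 hr.2 j j.2
      (fun h' => hj (Subtype.ext h')) hbj)
  exact h1 t ⟨hut, le_rfl⟩

/-- The class is connected through virtual contacts. -/
theorem Conn [Nonempty κ] (h : Cls M Z S bD) {C : ℝ} (hC : 1 ≤ C) : M.Conn C S Z :=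
  conn_of_cut h.conn fun i hi j hj _ hr => by
    obtain ⟨r, hr, _, _, hd⟩ := hr
    exact ⟨r, hr, vct_st hC hε subset_rfl subset_rfl hi hj (ok_anti hr.2 h.ok)
      (ok_anti hr.2 h.ok) (h.obs i hi) (h.obs j hj) hd⟩

end

end Cls

/-- Data of the graft: `a ∈ S₁` and `c ∈ S₂` meet at time `s`, after their exits. -/
structure GraftH (M : VSys J κ) (Z : J → PhasePoint) (S₁ S₂ : Finset J) (bD : J → ℝ) (a c : J)
    (s : ℝ) (y : Space3) (q : CD) : Prop where
  cls₁ : Cls M Z S₁ bD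
  cls₂ : Cls M Z S₂ bD
  disj : Disjoint S₁ S₂
  ha : a ∈ S₁
  hc : c ∈ S₂
  lta : bD a < s
  ltc : bD c < s
  cd : CDok q
  state_a : M.st S₁ s Z a = (y + M.ε • entrancePoint (relB q).1 (relB q).2, q.1)
  state_c : M.st S₂ s Z c = (y, q.2.1)
  lt_T : s < M.T

/-- Exit times of the union. -/
def grafted (Φ : Space3 → ℝ) (ε : ℝ) (bD : J → ℝ) (a c : J) (s : ℝ) (q : CD) (i : J) : ℝ :=
  if i = a ∨ i = c then s + outT Φ ε q else bD i

/-- Distances of the free lines before the entrance. -/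
theorem lt_dist_before {ε : ℝ} (hε : 0 < ε) {q : CD} (hq : CDok q) {s u : ℝ}
    (hu : u < s) (y : Space3) :
    ε < dist (y + ε • entrancePoint (relB q).1 (relB q).2 + (u - s) • q.1)
      (y + (u - s) • q.2.1) := by
  have h1 : (y + ε • entrancePoint (relB q).1 (relB q).2 + (u - s) • q.1) -
      (y + (u - s) • q.2.1) = ε • entrancePoint (relB q).1 (relB q).2 + (u - s) • (relB q).2 := by
    unfold relB
    module
  rw [dist_eq_norm, h1]
  have h2 : ‖ε • entrancePoint (relB q).1 (relB q).2‖ = ε := by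
    rw [norm_smul, norm_entrance hq.1 hq.2, mul_one, Real.norm_eq_abs, abs_of_pos hε]
  have h3 : ‖ε • entrancePoint (relB q).1 (relB q).2 + (u - s) • (relB q).2‖ ^ 2 =
      ε ^ 2 + 2 * (ε * ((u - s) * inner ℝ (entrancePoint (relB q).1 (relB q).2) (relB q).2)) +
        ((u - s) * ‖(relB q).2‖) ^ 2 := by
    rw [norm_add_sq_real, h2, inner_smul_left, inner_smul_right, norm_smul, mul_pow, mul_pow,
      Real.norm_eq_abs, sq_abs]
    simp
  have h4 := inner_entrance_neg hq.1 hq.2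
  have h5 : 0 < (u - s) * inner ℝ (entrancePoint (relB q).1 (relB q).2) (relB q).2 :=
    mul_pos_of_neg_of_neg (by linarith) h4
  have h6 := mul_pos hε h5
  by_contra hcon
  rw [not_lt] at hcon
  have h7 := norm_nonneg (ε • entrancePoint (relB q).1 (relB q).2 + (u - s) • (relB q).2)
  have h8 := sq_nonneg ((u - s) * ‖(relB q).2‖)
  nlinarith

namespace GraftH

variable {S₁ S₂ : Finset J} {bD : J → ℝ} {a c : J} {s : ℝ} {y : Space3} {q : CD}
  {C ℓ ς : ℝ}

/-- The family of known contacts. -/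
def Fam (M : VSys J κ) (Z : J → PhasePoint) (S₁ S₂ : Finset J) (a c : J) (x z : J) : Prop :=
  (x ∈ S₁ ∧ z ∈ S₁ ∧ RCt M Z S₁ x z) ∨ (x ∈ S₂ ∧ z ∈ S₂ ∧ RCt M Z S₂ x z) ∨ (x = a ∧ z = c)

variable (h : GraftH M Z S₁ S₂ bD a c s y q)
include h

theorem symm_ne : a ≠ c := fun h' => Finset.disjoint_left.1 h.disj h.ha (h' ▸ h.hc)

theorem not₁ {x : J} (hx : x ∈ S₂) : x ∉ S₁ := fun h' => Finset.disjoint_left.1 h.disj h' hx

theorem not₂ {x : J} (hx : x ∈ S₁) : x ∉ S₂ := fun h' => Finset.disjoint_left.1 h.disj hx h'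

theorem s_pos : 0 < s := (h.cls₁.bb_nonneg' h.ha).trans_lt h.lta

theorem obs {x : J} (hx : x ∈ S₁ ∪ S₂) : M.o ≠ some x :=
  (Finset.mem_union.1 hx).elim (h.cls₁.obs x) (h.cls₂.obs x)

theorem bba : M.bb a < s := (h.cls₁.bb_le a h.ha).trans_lt h.lta

theorem bbc : M.bb c < s := (h.cls₂.bb_le c h.hc).trans_lt h.ltc

theorem mem_s : s ∈ Icc 0 M.T := ⟨h.s_pos.le, h.lt_T.le⟩

theorem fam_conn : CutConn (S₁ ∪ S₂) (Fam M Z S₁ S₂ a c) :=
  (h.cls₁.conn.mono fun _ hi _ hj _ hr => Or.inl (Or.inl ⟨hi, hj, hr⟩)).union_of_edge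
    (h.cls₂.conn.mono fun _ hi _ hj _ hr => Or.inl (Or.inr (Or.inl ⟨hi, hj, hr⟩))) h.ha h.hc
    (Or.inl (Or.inr (Or.inr ⟨rfl, rfl⟩)))

variable (hε : 0 < M.ε)
include hε

variable [Nonempty κ] (hC : 1 ≤ C)
include hC

/-- Contacts in `S₁`. -/
theorem vct₁ {x z : J} (hx : x ∈ S₁) (hz : z ∈ S₁) {t : ℝ} (ht : t ≤ M.T)
    (hd : dist (M.st S₁ t Z x).1 (M.st S₁ t Z z).1 ≤ M.ε) : M.VCt C (S₁ ∪ S₂) x z t Z :=
  vct_st hC hε Finset.subset_union_left Finset.subset_union_left hx hz (ok_anti ht h.cls₁.ok)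
    (ok_anti ht h.cls₁.ok) (h.cls₁.obs x hx) (h.cls₁.obs z hz) hd

theorem vct₂ {x z : J} (hx : x ∈ S₂) (hz : z ∈ S₂) {t : ℝ} (ht : t ≤ M.T)
    (hd : dist (M.st S₂ t Z x).1 (M.st S₂ t Z z).1 ≤ M.ε) : M.VCt C (S₁ ∪ S₂) x z t Z :=
  vct_st hC hε Finset.subset_union_right Finset.subset_union_right hx hz (ok_anti ht h.cls₂.ok)
    (ok_anti ht h.cls₂.ok) (h.cls₂.obs x hx) (h.cls₂.obs z hz) hd

theorem vct₁₂ {x z : J} (hx : x ∈ S₁) (hz : z ∈ S₂) {t : ℝ} (ht : t ≤ M.T)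
    (hd : dist (M.st S₁ t Z x).1 (M.st S₂ t Z z).1 ≤ M.ε) : M.VCt C (S₁ ∪ S₂) x z t Z :=
  vct_st hC hε Finset.subset_union_left Finset.subset_union_right hx hz (ok_anti ht h.cls₁.ok)
    (ok_anti ht h.cls₂.ok) (h.cls₁.obs x hx) (h.cls₂.obs z hz) hd

omit [Nonempty κ] hC in
theorem dist_s : dist (M.st S₁ s Z a).1 (M.st S₂ s Z c).1 = M.ε := by
  rw [h.state_a, h.state_c, dist_eq_norm]
  simp only [add_sub_cancel_left]
  rw [norm_smul, norm_entrance h.cd.1 h.cd.2, mul_one, Real.norm_eq_abs,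
    abs_of_pos hε]

/-- The encounter is a virtual contact. -/
theorem vct_ac : M.VCt C (S₁ ∪ S₂) a c s Z :=
  h.vct₁₂ hε hC h.ha h.hc h.lt_T.le (h.dist_s hε).le

theorem fam_vct {x z : J} (hF : Fam M Z S₁ S₂ a c x z) :
    ∃ t ∈ Icc 0 M.T, M.VCt C (S₁ ∪ S₂) x z t Z := by
  rcases hF with ⟨hx, hz, r, hr, _, _, hd⟩ | ⟨hx, hz, r, hr, _, _, hd⟩ | ⟨rfl, rfl⟩
  · exact ⟨r, hr, h.vct₁ hε hC hx hz hr.2 hd⟩
  · exact ⟨r, hr, h.vct₂ hε hC hx hz hr.2 hd⟩
  · exact ⟨s, h.mem_s, h.vct_ac hε hC⟩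

/-- The union is connected. -/
theorem Conn : M.Conn C (S₁ ∪ S₂) Z :=
  conn_of_cut h.fam_conn fun _ _ _ _ _ hF => h.fam_vct hε hC hF

/-- From a bigger connected tree-like set. -/
theorem tl_of_sub {π : Finset J} (hπ : M.Conn C π Z) (hT : TL M C ℓ ς π Z) (hS : S₁ ∪ S₂ ⊆ π) :
    TL M C ℓ ς (S₁ ∪ S₂) Z :=
  ⟨fun A hA => hT.1 A (hA.trans hS), tl_sub hT.2 hπ hS (h.Conn hε hC)⟩

variable (hT : TL M C ℓ ς (S₁ ∪ S₂) Z) (hℓς : 2 * ℓ ≤ ς)
include hT

/-- Every virtual contact is along the known family. -/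
theorem key {x z : J} (hx : x ∈ S₁ ∪ S₂) (hz : z ∈ S₁ ∪ S₂) (hxz : x ≠ z) {t : ℝ}
    (ht : t ∈ Icc 0 M.T) (hv : M.VCt C (S₁ ∪ S₂) x z t Z) :
    Fam M Z S₁ S₂ a c x z ∨ Fam M Z S₁ S₂ a c z x :=
  tl_mem_of_family hT.2 h.fam_conn (fun _ _ _ _ _ hF => h.fam_vct hε hC hF) hx hz hxz ht hv

include hℓς

/-- No contact of `a` with another member of `S₁` at or after the encounter. -/
theorem late_a {z : J} (hz : z ∈ S₁) (hza : z ≠ a) (hR : RCt M Z S₁ a z ∨ RCt M Z S₁ z a) {t : ℝ}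
    (hst : s ≤ t) (htT : t ≤ M.T) (hv : M.VCt C (S₁ ∪ S₂) a z t Z) : False := by
  have hR' : RCt M Z S₁ a z := by
    rcases hR with hR | ⟨r, hr, h1, h2, hd⟩
    · exact hR
    · exact ⟨r, hr, h2, h1, by rw [dist_comm]; exact hd⟩
  obtain ⟨r, hr, hba, hbz, hd⟩ := hR'
  have h1 : r ≤ bD a := by
    by_contra hcon
    exact absurd (h.cls₁.exit a h.ha r (not_le.1 hcon) hr.2 z hz hza hbz) (not_lt.2 hd)
  have h2 := tl_between hT.2 (h.Conn hε hC) hℓς (Finset.mem_union_left _ h.ha)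
    (Finset.mem_union_left _ hz) hza.symm (Finset.mem_union_left _ h.ha)
    (Finset.mem_union_right _ h.hc) h.symm_ne hr (h.vct₁ hε hC h.ha hz hr.2 hd)
    ⟨h.s_pos.le.trans hst, htT⟩ hv h.mem_s (h.vct_ac hε hC) (h1.trans h.lta.le) hst
  rcases h2 with h2 | h2
  · exact h.not₂ hz (h2.2 ▸ h.hc)
  · exact h.symm_ne h2.1

theorem late_c {z : J} (hz : z ∈ S₂) (hzc : z ≠ c) (hR : RCt M Z S₂ c z ∨ RCt M Z S₂ z c) {t : ℝ}
    (hst : s ≤ t) (htT : t ≤ M.T) (hv : M.VCt C (S₁ ∪ S₂) c z t Z) : False := by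
  have hR' : RCt M Z S₂ c z := by
    rcases hR with hR | ⟨r, hr, h1, h2, hd⟩
    · exact hR
    · exact ⟨r, hr, h2, h1, by rw [dist_comm]; exact hd⟩
  obtain ⟨r, hr, hba, hbz, hd⟩ := hR'
  have h1 : r ≤ bD c := by
    by_contra hcon
    exact absurd (h.cls₂.exit c h.hc r (not_le.1 hcon) hr.2 z hz hzc hbz) (not_lt.2 hd)
  have h2 := tl_between hT.2 (h.Conn hε hC) hℓς (Finset.mem_union_right _ h.hc)
    (Finset.mem_union_right _ hz) hzc.symm (Finset.mem_union_left _ h.ha)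
    (Finset.mem_union_right _ h.hc) h.symm_ne hr (h.vct₂ hε hC h.hc hz hr.2 hd)
    ⟨h.s_pos.le.trans hst, htT⟩ hv h.mem_s (h.vct_ac hε hC) (h1.trans h.ltc.le) hst
  rcases h2 with h2 | h2
  · exact h.symm_ne h2.1.symm
  · exact h.not₁ hz (h2.2 ▸ h.ha)

/-- **Contacts at or after the encounter** stay inside the three classes `{a, c}`, `S₁ \ a`,
`S₂ \ c`. -/
theorem late {x z : J} (hx : x ∈ S₁ ∪ S₂) (hz : z ∈ S₁ ∪ S₂) (hxz : x ≠ z) {t : ℝ} (hst : s ≤ t)
    (htT : t ≤ M.T) (hv : M.VCt C (S₁ ∪ S₂) x z t Z) :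
    (x = a ∧ z = c) ∨ (x = c ∧ z = a) ∨ ((x ∈ S₁ ∧ x ≠ a) ∧ (z ∈ S₁ ∧ z ≠ a)) ∨
      ((x ∈ S₂ ∧ x ≠ c) ∧ (z ∈ S₂ ∧ z ≠ c)) := by
  have ht : t ∈ Icc 0 M.T := ⟨h.s_pos.le.trans hst, htT⟩
  have h1 := h.key hε hC hT hx hz hxz ht hv
  have hcase : (x = a ∧ z = c) ∨ (x = c ∧ z = a) ∨
      ((x ∈ S₁ ∧ z ∈ S₁) ∧ (RCt M Z S₁ x z ∨ RCt M Z S₁ z x)) ∨
      ((x ∈ S₂ ∧ z ∈ S₂) ∧ (RCt M Z S₂ x z ∨ RCt M Z S₂ z x)) := by
    rcases h1 with (⟨h1, h2, h3⟩ | ⟨h1, h2, h3⟩ | h1) | (⟨h1, h2, h3⟩ | ⟨h1, h2, h3⟩ | h1)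
    · exact Or.inr (Or.inr (Or.inl ⟨⟨h1, h2⟩, Or.inl h3⟩))
    · exact Or.inr (Or.inr (Or.inr ⟨⟨h1, h2⟩, Or.inl h3⟩))
    · exact Or.inl h1
    · exact Or.inr (Or.inr (Or.inl ⟨⟨h2, h1⟩, Or.inr h3⟩))
    · exact Or.inr (Or.inr (Or.inr ⟨⟨h2, h1⟩, Or.inr h3⟩))
    · exact Or.inr (Or.inl ⟨h1.2, h1.1⟩)
  rcases hcase with g1 | g1 | ⟨⟨g1, g2⟩, g3⟩ | ⟨⟨g1, g2⟩, g3⟩
  · exact Or.inl g1
  · exact Or.inr (Or.inl g1)
  · refine Or.inr (Or.inr (Or.inl ⟨⟨g1, ?_⟩, ⟨g2, ?_⟩⟩))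
    · rintro rfl
      exact h.late_a hε hC hT hℓς g2 hxz.symm g3 hst htT hv
    · rintro rfl
      exact h.late_a hε hC hT hℓς g1 hxz g3.symm hst htT (vct_symm hv)
  · refine Or.inr (Or.inr (Or.inr ⟨⟨g1, ?_⟩, ⟨g2, ?_⟩⟩))
    · rintro rfl
      exact h.late_c hε hC hT hℓς g2 hxz.symm g3 hst htT hv
    · rintro rfl
      exact h.late_c hε hC hT hℓς g1 hxz g3.symm hst htT (vct_symm hv)

variable (hΦ : AdmissiblePotential M.Φ)
include hΦ

/-- **No contact across before the encounter.** -/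
theorem early {u : ℝ} (hu : u ∈ Ico 0 s) {i j : J} (hi : i ∈ S₁) (hj : j ∈ S₂) (hbi : M.bb i ≤ u)
    (hbj : M.bb j ≤ u) : M.ε < dist (M.st S₁ u Z i).1 (M.st S₂ u Z j).1 := by
  by_contra hcon
  have hd := not_lt.1 hcon
  have huT : u ∈ Icc 0 M.T := ⟨hu.1, hu.2.le.trans h.lt_T.le⟩
  have hv := h.vct₁₂ hε hC hi hj huT.2 hd
  have hij : i ≠ j := fun h' => h.not₂ hi (h' ▸ hj)
  have h1 : i = a ∧ j = c := by
    rcases h.key hε hC hT (Finset.mem_union_left _ hi) (Finset.mem_union_right _ hj) hij huT hv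
      with (⟨_, h2, _⟩ | ⟨h1, _, _⟩ | h1) | (⟨h1, _, _⟩ | ⟨_, h2, _⟩ | h1)
    · exact absurd h2 (h.not₁ hj)
    · exact absurd h1 (h.not₂ hi)
    · exact h1
    · exact absurd h1 (h.not₁ hj)
    · exact absurd h2 (h.not₂ hi)
    · exact absurd (h1.1 ▸ hj) (h.not₂ h.ha)
  obtain ⟨rfl, rfl⟩ := h1
  have hT' := h.lt_T.le
  rcases lt_or_ge u (bD i) with hlt | hge
  · rcases h.cls₁.last i hi (h.lta.le.trans hT') with h2 | ⟨k, hk, hki, hbk, hdk⟩
    · exact absurd hbi (not_le.2 (h2 ▸ hlt))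
    · have h3 := tl_between hT.2 (h.Conn hε hC) hℓς (Finset.mem_union_left _ hi)
        (Finset.mem_union_right _ hj) hij (Finset.mem_union_left _ hi)
        (Finset.mem_union_left _ hk) hki.symm huT hv h.mem_s (h.vct_ac hε hC)
        ⟨h.cls₁.bb_nonneg' hi, h.lta.le.trans hT'⟩
        (h.vct₁ hε hC hi hk (h.lta.le.trans hT') hdk) hlt.le h.lta.le
      rcases h3 with h3 | h3
      · exact h.not₂ hk (h3.2 ▸ hj)
      · exact hki h3.1.symm
  rcases lt_or_ge u (bD j) with hlt' | hge'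
  · rcases h.cls₂.last j hj (h.ltc.le.trans hT') with h2 | ⟨k, hk, hkj, hbk, hdk⟩
    · exact absurd hbj (not_le.2 (h2 ▸ hlt'))
    · have h3 := tl_between hT.2 (h.Conn hε hC) hℓς (Finset.mem_union_left _ hi)
        (Finset.mem_union_right _ hj) hij (Finset.mem_union_right _ hj)
        (Finset.mem_union_right _ hk) hkj.symm huT hv h.mem_s (h.vct_ac hε hC)
        ⟨h.cls₂.bb_nonneg' hj, h.ltc.le.trans hT'⟩
        (h.vct₂ hε hC hj hk (h.ltc.le.trans hT') hdk) hlt'.le h.ltc.le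
      rcases h3 with h3 | h3
      · exact hij h3.1
      · exact h.not₂ hi (h3.1 ▸ hk)
  -- both are on their lines
  have ha := h.cls₁.line hΦ hε hi hge hu.2.le hT'
  have hc := h.cls₂.line hΦ hε hj hge' hu.2.le hT'
  rw [h.state_a] at ha
  rw [h.state_c] at hc
  unfold lineAt at ha hc
  have ha1 := congrArg Prod.fst ha
  have ha2 := congrArg Prod.snd ha
  have hc1 := congrArg Prod.fst hc
  have hc2 := congrArg Prod.snd hc
  simp only at ha1 ha2 hc1 hc2
  have ha3 : (M.st S₁ u Z i).1 = y + M.ε • entrancePoint (relB q).1 (relB q).2 +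
      (u - s) • q.1 := by
    rw [ha1, ← ha2]
    module
  have hc3 : (M.st S₂ u Z j).1 = y + (u - s) • q.2.1 := by
    rw [hc1, ← hc2]
    module
  rw [ha3, hc3] at hd
  exact absurd hd (not_le.2 (lt_dist_before hε h.cd hu.2 y))

/-- Paths of the union before the encounter. -/
theorem st_early {u : ℝ} (hu : u ≤ s) : (∀ i ∈ S₁, M.st (S₁ ∪ S₂) u Z i = M.st S₁ u Z i) ∧
    ∀ j ∈ S₂, M.st (S₁ ∪ S₂) u Z j = M.st S₂ u Z j :=
  st_union hΦ hε h.disj (ok_anti h.lt_T.le h.cls₁.ok)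
    (ok_anti h.lt_T.le h.cls₂.ok) (fun r hr i hi j hj _ _ hbi hbj =>
      (h.early hε hC hT hℓς hΦ hr hi hj hbi hbj).le) u hu

/-- Contacts in the union at or after the encounter. -/
theorem late_st {x z : J} (hx : x ∈ S₁ ∪ S₂) (hz : z ∈ S₁ ∪ S₂) (hxz : x ≠ z) {t : ℝ}
    (hst : s ≤ t) (htT : t ≤ M.T)
    (hd : dist (M.st (S₁ ∪ S₂) t Z x).1 (M.st (S₁ ∪ S₂) t Z z).1 ≤ M.ε) :
    (x = a ∧ z = c) ∨ (x = c ∧ z = a) ∨ ((x ∈ S₁ ∧ x ≠ a) ∧ (z ∈ S₁ ∧ z ≠ a)) ∨
      ((x ∈ S₂ ∧ x ≠ c) ∧ (z ∈ S₂ ∧ z ≠ c)) :=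
  h.late hε hC hT hℓς hx hz hxz hst htT (vct_st hC hε subset_rfl subset_rfl hx hz
    (ok_anti htT (hT.1 _ subset_rfl)) (ok_anti htT (hT.1 _ subset_rfl)) (h.obs hx) (h.obs hz) hd)

/-- **Paths of the union**: members of `S₁` other than `a`. -/
theorem st₁ {x : J} (hx : x ∈ S₁) (hxa : x ≠ a) {t : ℝ} (ht : t ≤ M.T) :
    M.st (S₁ ∪ S₂) t Z x = M.st S₁ t Z x := by
  rcases le_total t s with hts | hts
  · exact (h.st_early hε hC hT hℓς hΦ hts).1 x hx
  have hG : ∀ k ∈ S₁.erase a, k ∈ S₁ ∧ k ≠ a := fun k hk =>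
    ⟨Finset.mem_of_mem_erase hk, Finset.ne_of_mem_erase hk⟩
  have h1 : LWorld M.Φ M.ε (fun k : (S₁.erase a : Finset J) => M.bb k) s M.T
      (fun r k => M.st (S₁ ∪ S₂) r Z k) := by
    refine st_lworld_sub hΦ hε (hT.1 _ subset_rfl)
      ((Finset.erase_subset _ _).trans Finset.subset_union_left)
      (fun k hk => h.cls₁.obs k (hG k hk).1) fun r hr k hk l hl hlG hol _ => ?_
    by_contra hcon
    have hkG := hG k hk
    have hkl : k ≠ l := fun h' => hlG (h' ▸ hk)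
    rcases h.late_st hε hC hT hℓς hΦ (Finset.mem_union_left _ hkG.1) hl hkl hr.1 hr.2
      (not_lt.1 hcon) with h2 | h2 | h2 | h2
    · exact hkG.2 h2.1
    · exact h.not₂ hkG.1 (h2.1 ▸ h.hc)
    · exact hlG (Finset.mem_erase.2 ⟨h2.2.2, h2.2.1⟩)
    · exact h.not₂ hkG.1 h2.1.1
  have h2 : LWorld M.Φ M.ε (fun k : (S₁.erase a : Finset J) => M.bb k) s M.T
      (fun r k => M.st S₁ r Z k) := by
    refine st_lworld_sub hΦ hε h.cls₁.ok (Finset.erase_subset _ _)
      (fun k hk => h.cls₁.obs k (hG k hk).1) fun r hr k hk l hl hlG hol hal => ?_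
    have hla : l = a := by
      by_contra hne
      exact hlG (Finset.mem_erase.2 ⟨hne, hl⟩)
    subst hla
    rw [dist_comm]
    exact h.cls₁.exit l hl r (h.lta.trans_le hr.1) hr.2 k (hG k hk).1 (hG k hk).2 hal.1
  have h3 := h1.unique hΦ hε h2 (funext fun k =>
    (h.st_early hε hC hT hℓς hΦ le_rfl).1 k (hG k k.2).1) (t := t) ⟨hts, ht⟩
  exact congrFun h3 ⟨x, Finset.mem_erase.2 ⟨hxa, hx⟩⟩

/-- **Paths of the union**: members of `S₂` other than `c`. -/
theorem st₂ {x : J} (hx : x ∈ S₂) (hxc : x ≠ c) {t : ℝ} (ht : t ≤ M.T) :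
    M.st (S₁ ∪ S₂) t Z x = M.st S₂ t Z x := by
  rcases le_total t s with hts | hts
  · exact (h.st_early hε hC hT hℓς hΦ hts).2 x hx
  have hG : ∀ k ∈ S₂.erase c, k ∈ S₂ ∧ k ≠ c := fun k hk =>
    ⟨Finset.mem_of_mem_erase hk, Finset.ne_of_mem_erase hk⟩
  have h1 : LWorld M.Φ M.ε (fun k : (S₂.erase c : Finset J) => M.bb k) s M.T
      (fun r k => M.st (S₁ ∪ S₂) r Z k) := by
    refine st_lworld_sub hΦ hε (hT.1 _ subset_rfl)
      ((Finset.erase_subset _ _).trans Finset.subset_union_right)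
      (fun k hk => h.cls₂.obs k (hG k hk).1) fun r hr k hk l hl hlG hol _ => ?_
    by_contra hcon
    have hkG := hG k hk
    have hkl : k ≠ l := fun h' => hlG (h' ▸ hk)
    rcases h.late_st hε hC hT hℓς hΦ (Finset.mem_union_right _ hkG.1) hl hkl hr.1 hr.2
      (not_lt.1 hcon) with h2 | h2 | h2 | h2
    · exact h.not₁ hkG.1 (h2.1 ▸ h.ha)
    · exact hkG.2 h2.1
    · exact h.not₁ hkG.1 h2.1.1
    · exact hlG (Finset.mem_erase.2 ⟨h2.2.2, h2.2.1⟩)
  have h2 : LWorld M.Φ M.ε (fun k : (S₂.erase c : Finset J) => M.bb k) s M.T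
      (fun r k => M.st S₂ r Z k) := by
    refine st_lworld_sub hΦ hε h.cls₂.ok (Finset.erase_subset _ _)
      (fun k hk => h.cls₂.obs k (hG k hk).1) fun r hr k hk l hl hlG hol hal => ?_
    have hla : l = c := by
      by_contra hne
      exact hlG (Finset.mem_erase.2 ⟨hne, hl⟩)
    subst hla
    rw [dist_comm]
    exact h.cls₂.exit l hl r (h.ltc.trans_le hr.1) hr.2 k (hG k hk).1 (hG k hk).2 hal.1
  have h3 := h1.unique hΦ hε h2 (funext fun k =>
    (h.st_early hε hC hT hℓς hΦ le_rfl).2 k (hG k k.2).1) (t := t) ⟨hts, ht⟩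
  exact congrFun h3 ⟨x, Finset.mem_erase.2 ⟨hxc, hx⟩⟩

/-- **Paths of the union**: the pair `(a, c)` after the encounter time. -/
theorem st_pair {t : ℝ} (hst : s ≤ t) (htT : t ≤ M.T) :
    M.st (S₁ ∪ S₂) t Z a = encPL M.Φ M.ε s y q t ∧
      M.st (S₁ ∪ S₂) t Z c = encPC M.Φ M.ε s y q t := by
  have hG : ∀ k ∈ ({a, c} : Finset J), k = a ∨ k = c := fun k hk => by
    simpa using hk
  have haG : a ∈ ({a, c} : Finset J) := by simp
  have hcG : c ∈ ({a, c} : Finset J) := by simp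
  have hsub : ({a, c} : Finset J) ⊆ S₁ ∪ S₂ := fun k hk => by
    rcases hG k hk with rfl | rfl
    · exact Finset.mem_union_left _ h.ha
    · exact Finset.mem_union_right _ h.hc
  have h1 : LWorld M.Φ M.ε (fun k : ({a, c} : Finset J) => M.bb k) s M.T
      (fun r k => M.st (S₁ ∪ S₂) r Z k) := by
    refine st_lworld_sub hΦ hε (hT.1 _ subset_rfl) hsub
      (fun k hk => h.obs (hsub hk)) fun r hr k hk l hl hlG hol _ => ?_
    by_contra hcon
    have hkl : k ≠ l := fun h' => hlG (h' ▸ hk)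
    rcases h.late_st hε hC hT hℓς hΦ (hsub hk) hl hkl hr.1 hr.2
      (not_lt.1 hcon) with h2 | h2 | h2 | h2
    · exact hlG (h2.2 ▸ hcG)
    · exact hlG (h2.2 ▸ haG)
    · rcases hG k hk with rfl | rfl
      · exact h2.1.2 rfl
      · exact h.not₁ h.hc h2.1.1
    · rcases hG k hk with rfl | rfl
      · exact h.not₂ h.ha h2.1.1
      · exact h2.1.2 rfl
  have h2 : LWorld M.Φ M.ε (fun _ : Fin 2 => s) s M.T
      (fun t => pr2 (encPL M.Φ M.ε s y q t, encPC M.Φ M.ε s y q t)) :=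
    LWorld.of_bworld (World.bworld (world_encP hΦ hε h.cd) fun _ => le_rfl)
  let f : ({a, c} : Finset J) ↪ Fin 2 :=
    ⟨fun k => if (k : J) = a then 0 else 1, fun k l hkl => by
      apply Subtype.ext
      have hkl' : (if (k : J) = a then (0 : Fin 2) else 1) = if (l : J) = a then 0 else 1 := hkl
      by_cases hka : (k : J) = a <;> by_cases hla : (l : J) = a
      · rw [hka, hla]
      · rw [if_pos hka, if_neg hla] at hkl'
        exact absurd hkl' (by decide)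
      · rw [if_neg hka, if_pos hla] at hkl'
        exact absurd hkl' (by decide)
      · rw [(hG k k.2).resolve_left hka, (hG l l.2).resolve_left hla]⟩
  have hfa : f ⟨a, haG⟩ = 0 := if_pos rfl
  have hfc : f ⟨c, hcG⟩ = 1 := if_neg (fun h' : c = a => h.symm_ne h'.symm)
  have hsurj : ∀ j : Fin 2, ∃ k, f k = j := by
    intro j
    fin_cases j
    · exact ⟨⟨a, haG⟩, hfa⟩
    · exact ⟨⟨c, hcG⟩, hfc⟩
  have h3 := (h2.restrict hΦ hε f fun r _ _ _ j hj => by
    obtain ⟨k, hk⟩ := hsurj j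
    exact absurd hk (hj k))
  have h4 : LWorld M.Φ M.ε (fun k : ({a, c} : Finset J) => M.bb k) s M.T
      (fun t k => pr2 (encPL M.Φ M.ε s y q t, encPC M.Φ M.ε s y q t) (f k)) := by
    refine h3.congr_births fun k t ht => ⟨fun _ => ?_, fun _ => ht.1⟩
    rcases hG k k.2 with hk | hk
    · rw [hk]; exact h.bba.le.trans ht.1
    · rw [hk]; exact h.bbc.le.trans ht.1
  have h5 := h1.unique hΦ hε h4 (funext fun k => by
    rcases hG k k.2 with hk | hk
    · have hk' : k = ⟨a, haG⟩ := Subtype.ext hk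
      subst hk'
      rw [hfa]
      change M.st (S₁ ∪ S₂) s Z a = encPL M.Φ M.ε s y q s
      rw [(h.st_early hε hC hT hℓς hΦ le_rfl).1 a h.ha, h.state_a, encPL_self hΦ hε h.cd]
    · have hk' : k = ⟨c, hcG⟩ := Subtype.ext hk
      subst hk'
      rw [hfc]
      change M.st (S₁ ∪ S₂) s Z c = encPC M.Φ M.ε s y q s
      rw [(h.st_early hε hC hT hℓς hΦ le_rfl).2 c h.hc, h.state_c, encPC_self hΦ hε h.cd])
    (t := t) ⟨hst, htT⟩
  have h6 := congrFun h5 ⟨a, haG⟩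
  have h7 := congrFun h5 ⟨c, hcG⟩
  rw [hfa] at h6
  rw [hfc] at h7
  exact ⟨h6, h7⟩

/-- Contact of the pair during the encounter. -/
theorem vct_pair {t : ℝ} (hst : s ≤ t) (htT : t ≤ M.T)
    (hd : dist (encPL M.Φ M.ε s y q t).1 (encPC M.Φ M.ε s y q t).1 ≤ M.ε) :
    M.VCt C (S₁ ∪ S₂) a c t Z := by
  obtain ⟨e1, e2⟩ := h.st_pair hε hC hT hℓς hΦ hst htT
  refine vct_st hC hε subset_rfl subset_rfl (Finset.mem_union_left _ h.ha)
    (Finset.mem_union_right _ h.hc) (ok_anti htT (hT.1 _ subset_rfl))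
    (ok_anti htT (hT.1 _ subset_rfl)) (h.cls₁.obs a h.ha) (h.cls₂.obs c h.hc) ?_
  rw [e1, e2]
  exact hd

/-- **The encounter ends.** -/
theorem pass_of (hlT : s + 2 * ℓ < M.T) : CDpass M.Φ q ∧ outT M.Φ M.ε q ≤ 2 * ℓ := by
  have hTpos : 0 ≤ M.T := h.s_pos.le.trans h.lt_T.le
  have hreg : Reg M.Φ (inc (relB q).1 (relB q).2).1 := reg_entrance M.Φ h.cd.1 h.cd.2
  have hc0 : 0 < (M.T - s) / M.ε := div_pos (by linarith [h.lt_T]) hε
  have htw : ∀ t : ℝ, s ≤ t → t ≤ M.T →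
      dist (encPL M.Φ M.ε s y q t).1 (encPC M.Φ M.ε s y q t).1 ≤ M.ε → t - s ≤ 2 * ℓ := by
    intro t hst htT hd
    have h1 := tl_two_times hT.2 (h.Conn hε hC) (Finset.mem_union_left _ h.ha)
      (Finset.mem_union_right _ h.hc) h.symm_ne ⟨h.s_pos.le.trans hst, htT⟩
      (h.vct_pair hε hC hT hℓς hΦ hst htT hd) h.mem_s (h.vct_ac hε hC)
    exact (le_abs_self _).trans h1
  rcases lt_or_ge ‖(encR M.Φ M.ε s q M.T).1‖ 1 with hlt | hge
  · exfalso
    have h1 := htw M.T h.lt_T.le le_rfl (by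
      rw [dist_encP hε.le]
      nlinarith)
    linarith
  · obtain ⟨τ, hτ, hex⟩ := exists_exit_le hΦ hreg (enters_inc hΦ h.cd.1 h.cd.2) hc0 hge
    have hp : CDpass M.Φ q := ⟨h.cd, τ, hex⟩
    have h1 : tauM M.Φ (relB q) = τ := hp.hasExit.unique hex
    have h2 : s + outT M.Φ M.ε q ≤ M.T := by
      unfold outT
      rw [h1]
      have h3 := (le_div_iff₀ hε).1 hτ
      linarith [mul_comm τ M.ε]
    refine ⟨hp, ?_⟩
    have h4 := htw (s + outT M.Φ M.ε q) (by linarith [hp.outT_pos hε]) h2 (hp.dist_exit hε).le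
    linarith

variable (hp : CDpass M.Φ q) (hle : s + outT M.Φ M.ε q ≤ M.T)
include hp hle

/-- **The graft**: the union is a class; the exit times of `a` and `c` are the exit time of the
encounter. -/
theorem cls : Cls M Z (S₁ ∪ S₂) (grafted M.Φ M.ε bD a c s q) where
  obs _ hi := h.obs hi
  ok := hT.1 _ subset_rfl
  bb_le i hi := by
    unfold grafted
    split_ifs with hi'
    · rcases hi' with rfl | rfl
      · exact (h.bba.trans (lt_add_of_pos_right s (hp.outT_pos hε))).le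
      · exact (h.bbc.trans (lt_add_of_pos_right s (hp.outT_pos hε))).le
    · exact (Finset.mem_union.1 hi).elim (h.cls₁.bb_le i) (h.cls₂.bb_le i)
  exit i hi t hit htT k hk hki hbk := by
    by_contra hcon
    have hd := not_lt.1 hcon
    rcases lt_or_ge t s with hts | hts
    · -- before the encounter
      have hne : ¬ (i = a ∨ i = c) := fun h' => by
        unfold grafted at hit
        rw [if_pos h'] at hit
        have := lt_add_of_pos_right s (hp.outT_pos hε)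
        linarith
      unfold grafted at hit
      rw [if_neg hne] at hit
      have h0 : 0 ≤ t := by
        rcases Finset.mem_union.1 hi with h' | h'
        · exact (h.cls₁.bb_nonneg' h').trans hit.le
        · exact (h.cls₂.bb_nonneg' h').trans hit.le
      obtain ⟨e1, e2⟩ := h.st_early hε hC hT hℓς hΦ hts.le
      rcases Finset.mem_union.1 hi with hi' | hi' <;> rcases Finset.mem_union.1 hk with hk' | hk'
      · rw [e1 i hi', e1 k hk'] at hd
        exact absurd (h.cls₁.exit i hi' t hit htT k hk' hki hbk) (not_lt.2 hd)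
      · rw [e1 i hi', e2 k hk'] at hd
        exact absurd (h.early hε hC hT hℓς hΦ ⟨h0, hts⟩ hi' hk'
          ((h.cls₁.bb_le i hi').trans hit.le) hbk) (not_lt.2 hd)
      · rw [e2 i hi', e1 k hk', dist_comm] at hd
        exact absurd (h.early hε hC hT hℓς hΦ ⟨h0, hts⟩ hk' hi' hbk
          ((h.cls₂.bb_le i hi').trans hit.le)) (not_lt.2 hd)
      · rw [e2 i hi', e2 k hk'] at hd
        exact absurd (h.cls₂.exit i hi' t hit htT k hk' hki hbk) (not_lt.2 hd)
    · -- after the encounter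
      rcases h.late_st hε hC hT hℓς hΦ hi hk hki.symm hts htT hd with
        ⟨h1, h2⟩ | ⟨h1, h2⟩ | ⟨h1, h2⟩ | ⟨h1, h2⟩
      · unfold grafted at hit
        rw [if_pos (Or.inl h1)] at hit
        obtain ⟨e1, e2⟩ := h.st_pair hε hC hT hℓς hΦ hts htT
        rw [h1, h2, e1, e2] at hd
        exact absurd (hp.lt_dist hΦ hε hit) (not_lt.2 hd)
      · unfold grafted at hit
        rw [if_pos (Or.inr h1)] at hit
        obtain ⟨e1, e2⟩ := h.st_pair hε hC hT hℓς hΦ hts htT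
        rw [h1, h2, e1, e2, dist_comm] at hd
        exact absurd (hp.lt_dist hΦ hε hit) (not_lt.2 hd)
      · unfold grafted at hit
        rw [if_neg (fun h' => h'.elim h1.2 fun h'' => h.not₂ h1.1 (h'' ▸ h.hc))] at hit
        rw [h.st₁ hε hC hT hℓς hΦ h1.1 h1.2 htT, h.st₁ hε hC hT hℓς hΦ h2.1 h2.2 htT] at hd
        exact absurd (h.cls₁.exit i h1.1 t hit htT k h2.1 hki hbk) (not_lt.2 hd)
      · unfold grafted at hit
        rw [if_neg (fun h' => h'.elim (fun h'' => h.not₁ h1.1 (h'' ▸ h.ha)) h1.2)] at hit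
        rw [h.st₂ hε hC hT hℓς hΦ h1.1 h1.2 htT, h.st₂ hε hC hT hℓς hΦ h2.1 h2.2 htT] at hd
        exact absurd (h.cls₂.exit i h1.1 t hit htT k h2.1 hki hbk) (not_lt.2 hd)
  last i hi hiT := by
    have hac : s ≤ s + outT M.Φ M.ε q := (lt_add_of_pos_right s (hp.outT_pos hε)).le
    obtain ⟨e1, e2⟩ := h.st_pair hε hC hT hℓς hΦ hac hle
    by_cases hia : i = a
    · subst hia
      have hg : grafted M.Φ M.ε bD i c s q i = s + outT M.Φ M.ε q := if_pos (Or.inl rfl)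
      rw [hg]
      exact Or.inr ⟨c, Finset.mem_union_right _ h.hc, h.symm_ne.symm, h.bbc.le.trans hac, by
        rw [e1, e2, hp.dist_exit hε]⟩
    by_cases hic : i = c
    · subst hic
      have hg : grafted M.Φ M.ε bD a i s q i = s + outT M.Φ M.ε q := if_pos (Or.inr rfl)
      rw [hg]
      exact Or.inr ⟨a, Finset.mem_union_left _ h.ha, h.symm_ne, h.bba.le.trans hac, by
        rw [e1, e2, dist_comm, hp.dist_exit hε]⟩
    have hg : grafted M.Φ M.ε bD a c s q i = bD i :=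
      if_neg fun h' => h'.elim hia hic
    rw [hg] at hiT ⊢
    rcases Finset.mem_union.1 hi with hi' | hi'
    · rcases h.cls₁.last i hi' hiT with h1 | ⟨k, hk, hki, hbk, hd⟩
      · exact Or.inl h1
      · refine Or.inr ⟨k, Finset.mem_union_left _ hk, hki, hbk, ?_⟩
        rw [h.st₁ hε hC hT hℓς hΦ hi' hia hiT]
        rcases le_or_gt (bD i) s with hs | hs
        · rw [(h.st_early hε hC hT hℓς hΦ hs).1 k hk]
          exact hd
        · have hka : k ≠ a := by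
            rintro rfl
            rw [dist_comm] at hd
            exact absurd (h.cls₁.exit k hk (bD i) (h.lta.trans hs) hiT i hi' hia
              (h.cls₁.bb_le i hi')) (not_lt.2 hd)
          rw [h.st₁ hε hC hT hℓς hΦ hk hka hiT]
          exact hd
    · rcases h.cls₂.last i hi' hiT with h1 | ⟨k, hk, hki, hbk, hd⟩
      · exact Or.inl h1
      · refine Or.inr ⟨k, Finset.mem_union_right _ hk, hki, hbk, ?_⟩
        rw [h.st₂ hε hC hT hℓς hΦ hi' hic hiT]
        rcases le_or_gt (bD i) s with hs | hs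
        · rw [(h.st_early hε hC hT hℓς hΦ hs).2 k hk]
          exact hd
        · have hkc : k ≠ c := by
            rintro rfl
            rw [dist_comm] at hd
            exact absurd (h.cls₂.exit k hk (bD i) (h.ltc.trans hs) hiT i hi' hic
              (h.cls₂.bb_le i hi')) (not_lt.2 hd)
          rw [h.st₂ hε hC hT hℓς hΦ hk hkc hiT]
          exact hd
  conn := by
    refine (h.cls₁.conn.mono fun i hi j hj hij hr => Or.inl ?_).union_of_edge
      (h.cls₂.conn.mono fun i hi j hj hij hr => Or.inl ?_) h.ha h.hc (Or.inl ?_)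
    · obtain ⟨r, hr, hbi, hbj, hd⟩ := hr
      refine ⟨r, hr, hbi, hbj, ?_⟩
      rcases le_or_gt r s with hs | hs
      · obtain ⟨e1, _⟩ := h.st_early hε hC hT hℓς hΦ hs
        rw [e1 i hi, e1 j hj]
        exact hd
      · have hia : i ≠ a := by
          rintro rfl
          exact absurd (h.cls₁.exit i hi r (h.lta.trans hs) hr.2 j hj hij.symm hbj)
            (not_lt.2 hd)
        have hja : j ≠ a := by
          rintro rfl
          rw [dist_comm] at hd
          exact absurd (h.cls₁.exit j hj r (h.lta.trans hs) hr.2 i hi hij hbi)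
            (not_lt.2 hd)
        rw [h.st₁ hε hC hT hℓς hΦ hi hia hr.2, h.st₁ hε hC hT hℓς hΦ hj hja hr.2]
        exact hd
    · obtain ⟨r, hr, hbi, hbj, hd⟩ := hr
      refine ⟨r, hr, hbi, hbj, ?_⟩
      rcases le_or_gt r s with hs | hs
      · obtain ⟨_, e1⟩ := h.st_early hε hC hT hℓς hΦ hs
        rw [e1 i hi, e1 j hj]
        exact hd
      · have hia : i ≠ c := by
          rintro rfl
          exact absurd (h.cls₂.exit i hi r (h.ltc.trans hs) hr.2 j hj hij.symm hbj)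
            (not_lt.2 hd)
        have hja : j ≠ c := by
          rintro rfl
          rw [dist_comm] at hd
          exact absurd (h.cls₂.exit j hj r (h.ltc.trans hs) hr.2 i hi hij hbi)
            (not_lt.2 hd)
        rw [h.st₂ hε hC hT hℓς hΦ hi hia hr.2, h.st₂ hε hC hT hℓς hΦ hj hja hr.2]
        exact hd
    · obtain ⟨e1, e2⟩ := h.st_early hε hC hT hℓς hΦ le_rfl
      refine ⟨s, h.mem_s, h.bba.le, h.bbc.le, ?_⟩
      rw [e1 a h.ha, e2 c h.hc, h.dist_s hε]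

/-- The exit line of `a`. -/
theorem line_a {t : ℝ} (ht : s + outT M.Φ M.ε q ≤ t) (htT : t ≤ M.T) :
    M.st (S₁ ∪ S₂) t Z a = lineAt (s + outT M.Φ M.ε q) (lineL' M.Φ M.ε s y q).2 t := by
  have hac : s ≤ s + outT M.Φ M.ε q := (lt_add_of_pos_right s (hp.outT_pos hε)).le
  rw [(h.cls hε hC hT hℓς hΦ hp hle).line hΦ hε (Finset.mem_union_left _ h.ha)
    (u := s + outT M.Φ M.ε q) (if_pos (Or.inl rfl)).le ht htT,
    (h.st_pair hε hC hT hℓς hΦ hac hle).1, encPL_exit hε.ne']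

/-- The exit line of `c`. -/
theorem line_c {t : ℝ} (ht : s + outT M.Φ M.ε q ≤ t) (htT : t ≤ M.T) :
    M.st (S₁ ∪ S₂) t Z c = lineAt (s + outT M.Φ M.ε q) (lineC' M.Φ M.ε s y q).2 t := by
  have hac : s ≤ s + outT M.Φ M.ε q := (lt_add_of_pos_right s (hp.outT_pos hε)).le
  rw [(h.cls hε hC hT hℓς hΦ hp hle).line hΦ hε (Finset.mem_union_right _ h.hc)
    (u := s + outT M.Φ M.ε q) (if_pos (Or.inr rfl)).le ht htT,
    (h.st_pair hε hC hT hℓς hΦ hac hle).2, encPC_exit hε.ne']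

end GraftH

end Crest.Agent.R122.LNGraft410

end
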