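import Mathlib
import Crest.Prelude.Def_KineticLimit
import Crest.Agent.R122.PWInst2_442

/-!
# Row 122, LN1 (helper442): literal instances of the glued world

Labels `J = Fin n ⊕ σ` (gas, structure).  `Base M w V cl` : the virtual system `M` over the gas
configuration `w` and the structure `V : σ → PhasePoint`, with classes `cl` which contain only
structure labels.

* `Base.gd0`, `Base.gd1`, `Base.gd2` : `GD` for the base worlds `cfg w`, `(cfg w).ins a`,
  `((cfg w).ins d).ins a`; `Base.rw0`, `Base.rw1`, `Base.rw2` : the real worlds.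
* `TreeBase` : structure = one tree (`σ = Idx P`), `ForBase` : structure = a forest
  (`σ = Σ a, Idx (Ps a)`).
-/

set_option autoImplicit false
set_option linter.unusedSectionVars false

open MeasureTheory Set Filter Topology
open scoped NNReal ENNReal
open Crest.AnalysisR.Kinetic
open Crest.Agent.R122.Flow671 Crest.Agent.R122.Loc45 Crest.Agent.R122.Ins45
open Crest.Agent.R122.VL581 Crest.Agent.R122.VL581.VSys Crest.Agent.R122.VLInst442
open Crest.Agent.R122.LNInst491 Crest.Agent.R122.LN304 Crest.Agent.R122.LNg410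
open Crest.Agent.R122.Kin796 Crest.Agent.R122.Kin796.CTree Crest.Agent.R122.Tree674
open Crest.Agent.R122.PathFlow968 Crest.Agent.R122.TreeLines335 Crest.Agent.R122.EDefs602
open Crest.Agent.R122.LNTree410 Crest.Agent.R122.PWGlue491 Crest.Agent.R122.Inf879
open scoped Classical

noncomputable section

namespace Crest.Agent.R122.PWInst442

variable {κ σ α : Type} [Fintype σ] {n : ℕ}

/-- The gas labels. -/
def gasE (n : ℕ) (σ : Type) : Fin n ↪ Fin n ⊕ σ := ⟨Sum.inl, Sum.inl_injective⟩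

@[simp] theorem gasE_apply (i : Fin n) : gasE n σ i = Sum.inl i := rfl

/-- The structure labels. -/
def strE (n : ℕ) (σ : Type) : σ ↪ Fin n ⊕ σ := ⟨Sum.inr, Sum.inr_injective⟩

@[simp] theorem strE_apply (x : σ) : strE n σ x = Sum.inr x := rfl

theorem gasE_ne (x : σ) (i : Fin n) : gasE n σ i ≠ Sum.inr x := Sum.inl_ne_inr

/-- Labels of `(cfg w).ins a`. -/
def lab1 (n : ℕ) {σ : Type} [Fintype σ] (a : σ) : Fin n ⊕ Unit ↪ Fin n ⊕ σ := insF (gasE n σ) (Sum.inr a)
  (gasE_ne a)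

theorem lab1_ne {d a : σ} (h : d ≠ a) (i : Fin n ⊕ Unit) : lab1 n d i ≠ Sum.inr a := by
  rcases i with i | i
  · exact Sum.inl_ne_inr
  · exact fun h' => h (Sum.inr_injective h')

/-- Labels of `((cfg w).ins d).ins a`. -/
def lab2 (n : ℕ) {σ : Type} [Fintype σ] (d a : σ) (h : d ≠ a) : (Fin n ⊕ Unit) ⊕ Unit ↪ Fin n ⊕ σ :=
  insF (lab1 n d) (Sum.inr a) (lab1_ne h)

@[simp] theorem lab1_inl (a : σ) (i : Fin n) : lab1 n a (Sum.inl i) = Sum.inl i := rfl
@[simp] theorem lab1_inr (a : σ) (u : Unit) : lab1 n a (Sum.inr u) = Sum.inr a := rfl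
@[simp] theorem lab2_inl (d a : σ) (h : d ≠ a) (i : Fin n ⊕ Unit) :
    lab2 n d a h (Sum.inl i) = lab1 n d i := rfl
@[simp] theorem lab2_inr (d a : σ) (h : d ≠ a) (u : Unit) :
    lab2 n d a h (Sum.inr u) = Sum.inr a := rfl

/-- The virtual system `M` over the gas `w` and the structure `V`. -/
structure Base (M : VSys (Fin n ⊕ σ) κ) (w : Config n) (V : σ → PhasePoint)
    (cl : Fin n ⊕ σ → Finset (Fin n ⊕ σ)) : Prop where
  gas_b : ∀ i, M.b (Sum.inl i) ≤ 0
  gas_o : ∀ i, M.o ≠ some (Sum.inl i)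
  gas_cl : ∀ i, cl (Sum.inl i) = ∅
  cover : Cover M (Sum.elim w V) cl

namespace Base

variable {M : VSys (Fin n ⊕ σ) κ} {w : Config n} {V : σ → PhasePoint}
  {cl : Fin n ⊕ σ → Finset (Fin n ⊕ σ)} (H : Base M w V cl)
include H

theorem lab_gas (i : Fin n) : Lab M (Sum.elim w V) cl (gasE n σ i) ((MW.cfg w).b i)
    ((MW.cfg w).z i) :=
  lab_cfg H.gas_cl H.gas_o H.gas_b (fun _ => rfl) i

theorem lab1_lab {a : σ} {l : ML} (hl : Lab M (Sum.elim w V) cl (Sum.inr a) l.1.1 (back l.1))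
    (i : Fin n ⊕ Unit) : Lab M (Sum.elim w V) cl (lab1 n a i) (((MW.cfg w).ins l).b i)
      (((MW.cfg w).ins l).z i) :=
  lab_ins H.lab_gas (gasE_ne a) hl i

theorem lab2_lab {d a : σ} (hda : d ≠ a) {ld la : ML}
    (hd : Lab M (Sum.elim w V) cl (Sum.inr d) ld.1.1 (back ld.1))
    (ha : Lab M (Sum.elim w V) cl (Sum.inr a) la.1.1 (back la.1)) (i : (Fin n ⊕ Unit) ⊕ Unit) :
    Lab M (Sum.elim w V) cl (lab2 n d a hda i) ((((MW.cfg w).ins ld).ins la).b i)
      ((((MW.cfg w).ins ld).ins la).z i) :=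
  lab_ins (H.lab1_lab hd) (lab1_ne hda) ha i

variable (hΦ : AdmissiblePotential M.Φ) (hε : 0 < M.ε)
include hΦ hε

/-- The base world `cfg w`. -/
theorem gd0 (hW : (MW.cfg w).Ok M.Φ M.ε) :
    GD M (Sum.elim w V) cl (bD (MW.cfg w) (gasE n σ)) (labs (gasE n σ))
      (XD (MW.cfg w) (gasE n σ) M.Φ M.ε) :=
  gd_of_lab hΦ hε H.cover hW H.lab_gas

/-- The world `(cfg w).ins l`, the line `l` has the label `a`. -/
theorem gd1 {a : σ} {l : ML} (hl : Lab M (Sum.elim w V) cl (Sum.inr a) l.1.1 (back l.1))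
    (hW : ((MW.cfg w).ins l).Ok M.Φ M.ε) :
    GD M (Sum.elim w V) cl (bD ((MW.cfg w).ins l) (lab1 n a)) (labs (lab1 n a))
      (XD ((MW.cfg w).ins l) (lab1 n a) M.Φ M.ε) :=
  gd_of_lab hΦ hε H.cover hW (H.lab1_lab hl)

/-- The world `((cfg w).ins ld).ins la`, the lines have the labels `d`, `a`. -/
theorem gd2 {d a : σ} (hda : d ≠ a) {ld la : ML}
    (hd : Lab M (Sum.elim w V) cl (Sum.inr d) ld.1.1 (back ld.1))
    (ha : Lab M (Sum.elim w V) cl (Sum.inr a) la.1.1 (back la.1))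
    (hW : (((MW.cfg w).ins ld).ins la).Ok M.Φ M.ε) :
    GD M (Sum.elim w V) cl (bD (((MW.cfg w).ins ld).ins la) (lab2 n d a hda))
      (labs (lab2 n d a hda)) (XD (((MW.cfg w).ins ld).ins la) (lab2 n d a hda) M.Φ M.ε) :=
  gd_of_lab hΦ hε H.cover hW (H.lab2_lab hda hd ha)

theorem rw0 (hT : 0 ≤ M.T) (hW : (MW.cfg w).Ok M.Φ M.ε) :
    RW M (Sum.elim w V)
      (PWGlue491.XG M (Sum.elim w V) cl (bD (MW.cfg w) (gasE n σ)) (labs (gasE n σ))
        (XD (MW.cfg w) (gasE n σ) M.Φ M.ε))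
      (CG M (Sum.elim w V) cl (bD (MW.cfg w) (gasE n σ)) (labs (gasE n σ))
        (XD (MW.cfg w) (gasE n σ) M.Φ M.ε)) :=
  (H.gd0 hΦ hε hW).rw hΦ hε hT

theorem rw1 (hT : 0 ≤ M.T) {a : σ} {l : ML}
    (hl : Lab M (Sum.elim w V) cl (Sum.inr a) l.1.1 (back l.1))
    (hW : ((MW.cfg w).ins l).Ok M.Φ M.ε) :
    RW M (Sum.elim w V)
      (PWGlue491.XG M (Sum.elim w V) cl (bD ((MW.cfg w).ins l) (lab1 n a)) (labs (lab1 n a))
        (XD ((MW.cfg w).ins l) (lab1 n a) M.Φ M.ε))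
      (CG M (Sum.elim w V) cl (bD ((MW.cfg w).ins l) (lab1 n a)) (labs (lab1 n a))
        (XD ((MW.cfg w).ins l) (lab1 n a) M.Φ M.ε)) :=
  (H.gd1 hΦ hε hl hW).rw hΦ hε hT

theorem rw2 (hT : 0 ≤ M.T) {d a : σ} (hda : d ≠ a) {ld la : ML}
    (hd : Lab M (Sum.elim w V) cl (Sum.inr d) ld.1.1 (back ld.1))
    (ha : Lab M (Sum.elim w V) cl (Sum.inr a) la.1.1 (back la.1))
    (hW : (((MW.cfg w).ins ld).ins la).Ok M.Φ M.ε) :
    RW M (Sum.elim w V)
      (PWGlue491.XG M (Sum.elim w V) cl (bD (((MW.cfg w).ins ld).ins la) (lab2 n d a hda))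
        (labs (lab2 n d a hda)) (XD (((MW.cfg w).ins ld).ins la) (lab2 n d a hda) M.Φ M.ε))
      (CG M (Sum.elim w V) cl (bD (((MW.cfg w).ins ld).ins la) (lab2 n d a hda))
        (labs (lab2 n d a hda)) (XD (((MW.cfg w).ins ld).ins la) (lab2 n d a hda) M.Φ M.ε)) :=
  (H.gd2 hΦ hε hda hd ha hW).rw hΦ hε hT

end Base

/-! ### Classes of a structure -/

/-- The family of classes given by a partition `c : σ → α` of the structure labels into classes,
`none` = independent lines and ghosts which are never exits. -/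
def clOf (n : ℕ) {σ : Type} [Fintype σ] {α : Type} (c : σ → Option α) :
    Fin n ⊕ σ → Finset (Fin n ⊕ σ) :=
  Sum.elim (fun _ => ∅) fun x => if c x = none then ∅ else
    (Finset.univ.filter fun y => c y = c x).map (strE n σ)

@[simp] theorem clOf_inl {c : σ → Option α} (i : Fin n) : clOf n c (Sum.inl i) = ∅ := rfl

theorem clOf_none {c : σ → Option α} {x : σ} (h : c x = none) : clOf n c (Sum.inr x) = ∅ := by
  simp [clOf, h]

theorem mem_clOf {c : σ → Option α} {x : σ} {j : Fin n ⊕ σ} :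
    j ∈ clOf n c (Sum.inr x) ↔ c x ≠ none ∧ ∃ y, j = Sum.inr y ∧ c y = c x := by
  unfold clOf
  by_cases h : c x = none
  · simp [h]
  · simp only [Sum.elim_inr, if_neg h, Finset.mem_map, Finset.mem_filter, Finset.mem_univ,
      true_and, strE_apply]
    constructor
    · rintro ⟨y, hy, rfl⟩
      exact ⟨h, y, rfl, hy⟩
    · rintro ⟨_, y, rfl, hy⟩
      exact ⟨y, hy, rfl⟩

theorem mem_clOf_self {c : σ → Option α} {x : σ} (h : c x ≠ none) :
    (Sum.inr x : Fin n ⊕ σ) ∈ clOf n c (Sum.inr x) := mem_clOf.2 ⟨h, x, rfl, rfl⟩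

theorem cover_clOf {M : VSys (Fin n ⊕ σ) κ} {Z : Fin n ⊕ σ → PhasePoint} {c : σ → Option α}
    (ho : ∀ x, c x ≠ none → M.o ≠ some (Sum.inr x))
    (hok : ∀ x, c x ≠ none → M.ok (clOf n c (Sum.inr x)) M.T Z) : Cover M Z (clOf n c) where
  mem j h := by
    rcases j with i | x
    · exact absurd h (by simp)
    · obtain ⟨k, hk⟩ := h
      exact mem_clOf_self (mem_clOf.1 hk).1
  eq j k h := by
    rcases j with i | x
    · exact absurd h (Finset.notMem_empty _)
    · obtain ⟨h1, y, rfl, h2⟩ := mem_clOf.1 h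
      ext j
      rw [mem_clOf, mem_clOf, h2]
  obs j k h := by
    rcases j with i | x
    · exact absurd h (Finset.notMem_empty _)
    · obtain ⟨h1, y, rfl, h2⟩ := mem_clOf.1 h
      exact ho y (by rw [h2]; exact h1)
  ok j := by
    rcases j with i | x
    · intro k hk
      exact absurd hk (Finset.notMem_empty _)
    · by_cases h : c x = none
      · rw [clOf_none h]
        intro k hk
        exact absurd hk (Finset.notMem_empty _)
      · exact hok x h

/-- Everything is gas but the structure. -/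
theorem base_clOf {M : VSys (Fin n ⊕ σ) κ} {w : Config n} {V : σ → PhasePoint}
    {c : σ → Option α} (hb : ∀ i, M.b (Sum.inl i) ≤ 0) (hg : ∀ i, M.o ≠ some (Sum.inl i))
    (ho : ∀ x, c x ≠ none → M.o ≠ some (Sum.inr x))
    (hok : ∀ x, c x ≠ none → M.ok (clOf n c (Sum.inr x)) M.T (Sum.elim w V)) :
    Base M w V (clOf n c) :=
  ⟨hb, hg, fun _ => rfl, cover_clOf ho hok⟩

/-! ### One tree -/

section tree

variable {P : CTree} {z : PhasePoint × Par P} {M : VSys (Fin n ⊕ Idx P) κ} {w : Config n}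

/-- The structure is one tree, valid and separated on `[0, M.T]`. -/
theorem treeIn_base (hb : ∀ x, M.b (Sum.inr x) ≤ 0) (ho : ∀ x, M.o ≠ some (Sum.inr x))
    (hv : Valid M.Φ M.ε P M.T z.1.2 z.2) (hs : Sep M.Φ M.ε P M.T z.1 z.2) :
    TreeIn M (Sum.elim w (lines M.Φ M.ε P z.1 z.2)) M.T P z.1 z.2 (strE n (Idx P)) where
  b := hb
  Z _ := rfl
  o := ho
  valid := hv
  sep := hs

theorem part_strE : part (strE n (Idx P)) = Finset.univ.map (strE n (Idx P)) := rfl

/-- All structure labels form one class. -/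
abbrev cl1 (n : ℕ) (σ : Type) [Fintype σ] : Fin n ⊕ σ → Finset (Fin n ⊕ σ) :=
  clOf n fun _ : σ => some ()

theorem cl1_inr (x : σ) : cl1 n σ (Sum.inr x) = Finset.univ.map (strE n σ) := by
  ext j
  rw [mem_clOf, Finset.mem_map]
  simp only [ne_eq, reduceCtorEq, not_false_eq_true, true_and, and_true, Finset.mem_univ,
    strE_apply]
  exact ⟨fun ⟨y, h⟩ => ⟨y, h.symm⟩, fun ⟨y, h⟩ => ⟨y, h.symm⟩⟩

variable (hΦ : AdmissiblePotential M.Φ) (hε : 0 < M.ε) (hT : 0 < M.T)
  (hb : ∀ i, M.b i ≤ 0) (ho : ∀ i, M.o ≠ some i)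
  (hv : Valid M.Φ M.ε P M.T z.1.2 z.2) (hs : Sep M.Φ M.ε P M.T z.1 z.2)
include hΦ hε hT hb ho hv hs

/-- The base of the tree instance. -/
theorem base_tree : Base M w (lines M.Φ M.ε P z.1 z.2) (cl1 n (Idx P)) := by
  refine base_clOf (fun i => hb _) (fun i => ho _) (fun x _ => ho _) fun x _ => ?_
  have hcl : clOf n (fun _ : Idx P => some ()) (Sum.inr x) = Finset.univ.map (strE n (Idx P)) :=
    cl1_inr x
  rw [hcl]
  exact (treeIn_base (w := w) (fun x => hb _) (fun x => ho _) hv hs).ok_tree hΦ hε hT.le M.T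

/-- **Every particle of the tree (the root, too) is an admissible label** with its marked line
`lineML`. -/
theorem lab_lineML1 (x : Idx P) :
    Lab M (Sum.elim w (lines M.Φ M.ε P z.1 z.2)) (cl1 n (Idx P)) (Sum.inr x)
      (lineML M.Φ M.ε P z x).1.1 (back (lineML M.Φ M.ε P z x).1) := by
  have h := treeIn_base (w := w) (fun x => hb _) (fun x => ho _) hv hs
  have hcl : cl1 n (Idx P) (Sum.inr x) = part (strE n (Idx P)) := cl1_inr x
  rw [back_lineML]
  refine Or.inr ⟨⟨?_, ?_, ?_, ?_⟩, ?_⟩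
  · rw [hcl]
    exact mem_part_self x
  · have h1 := h.bb x
    rw [strE_apply] at h1
    rw [h1]
    exact rel_nonneg hε.le hv.2 x
  · intro hb'
    rw [hcl]
    exact (h.line_tree hΦ hε x le_rfl hb').symm
  · intro t ht htT k hk hkx _
    rw [hcl] at hk ⊢
    exact h.exit_tree hΦ hε hk hkx ht htT
  · intro _
    rw [hcl]
    exact h.last_tree hΦ hε hT x

end tree

/-! ### A forest -/

section forest

variable {s : Type} [Fintype s] {Ps : s → CTree} {z : (a : s) → PhasePoint × Par (Ps a)}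
  {M : VSys (Fin n ⊕ Σ a, Idx (Ps a)) κ} {w : Config n}

/-- The labels of the tree `a`. -/
def forE (n : ℕ) {s : Type} (Ps : s → CTree) (a : s) : Idx (Ps a) ↪ Fin n ⊕ Σ a, Idx (Ps a) where
  toFun x := Sum.inr ⟨a, x⟩
  inj' x y h := by
    have h1 := Sum.inr_injective h
    exact eq_of_heq (Sigma.mk.inj h1).2

@[simp] theorem forE_apply (a : s) (x : Idx (Ps a)) : forE n Ps a x = Sum.inr ⟨a, x⟩ := rfl

/-- The structure of a forest. -/
def forV (Φ : Space3 → ℝ) (ε : ℝ) (Ps : s → CTree) (z : (a : s) → PhasePoint × Par (Ps a)) :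
    (Σ a, Idx (Ps a)) → PhasePoint := fun x => lines Φ ε (Ps x.1) (z x.1).1 (z x.1).2 x.2

/-- Every tree is its own class. -/
abbrev clF (n : ℕ) {s : Type} [Fintype s] (Ps : s → CTree) :
    (Fin n ⊕ Σ a, Idx (Ps a)) → Finset (Fin n ⊕ Σ a, Idx (Ps a)) :=
  clOf n fun x : (Σ a, Idx (Ps a)) => some x.1

theorem clF_inr (a : s) (x : Idx (Ps a)) :
    clF n Ps (Sum.inr ⟨a, x⟩) = part (forE n Ps a) := by
  ext j
  rw [mem_clOf, mem_part]
  constructor
  · rintro ⟨_, ⟨a', y⟩, rfl, h⟩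
    have h' : a' = a := Option.some.inj h
    subst h'
    exact ⟨y, rfl⟩
  · rintro ⟨y, rfl⟩
    exact ⟨by simp, ⟨a, y⟩, rfl, rfl⟩

variable (hΦ : AdmissiblePotential M.Φ) (hε : 0 < M.ε) (hT : 0 < M.T)
  (hb : ∀ i, M.b i ≤ 0) (ho : ∀ i, M.o ≠ some i)
  (hv : ∀ a, Valid M.Φ M.ε (Ps a) M.T (z a).1.2 (z a).2)
  (hs : ∀ a, Sep M.Φ M.ε (Ps a) M.T (z a).1 (z a).2)

include hb ho hv hs in
theorem treeIn_for (a : s) :
    TreeIn M (Sum.elim w (forV M.Φ M.ε Ps z)) M.T (Ps a) (z a).1 (z a).2 (forE n Ps a) where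
  b _ := hb _
  Z _ := rfl
  o _ := ho _
  valid := hv a
  sep := hs a

include hb ho hv hs in
theorem forest_for :
    Forest M (Sum.elim w (forV M.Φ M.ε Ps z)) Ps z (forE n Ps) where
  tree a := treeIn_for hb ho hv hs a
  disj a a' h x y h' := by
    rw [forE_apply, forE_apply] at h'
    exact h (Sigma.mk.inj (Sum.inr_injective h')).1

include hΦ hε hT hb ho hv hs

/-- The base of the forest instance. -/
theorem base_forest : Base M w (forV M.Φ M.ε Ps z) (clF n Ps) := by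
  refine base_clOf (fun i => hb _) (fun i => ho _) (fun x _ => ho _) fun x _ => ?_
  obtain ⟨a, x⟩ := x
  have hcl : clOf n (fun x : (Σ a, Idx (Ps a)) => some x.1) (Sum.inr ⟨a, x⟩) =
      part (forE n Ps a) := clF_inr a x
  rw [hcl]
  exact (treeIn_for (w := w) hb ho hv hs a).ok_tree hΦ hε hT.le M.T

/-- **Every particle of the forest is an admissible label.** -/
theorem lab_lineMLF (a : s) (x : Idx (Ps a)) :
    Lab M (Sum.elim w (forV M.Φ M.ε Ps z)) (clF n Ps) (Sum.inr ⟨a, x⟩)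
      (lineML M.Φ M.ε (Ps a) (z a) x).1.1 (back (lineML M.Φ M.ε (Ps a) (z a) x).1) := by
  have h := treeIn_for (w := w) hb ho hv hs a
  have hcl := clF_inr (n := n) a x
  rw [back_lineML]
  refine Or.inr ⟨⟨?_, ?_, ?_, ?_⟩, ?_⟩
  · rw [hcl]
    exact mem_part_self x
  · have h1 := h.bb x
    rw [forE_apply] at h1
    rw [h1]
    exact rel_nonneg hε.le (hv a).2 x
  · intro hb'
    rw [hcl]
    exact (h.line_tree hΦ hε x le_rfl hb').symm
  · intro t ht htT k hk hkx _
    rw [hcl] at hk ⊢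
    exact h.exit_tree hΦ hε hk hkx ht htT
  · intro _
    rw [hcl]
    exact h.last_tree hΦ hε hT x

end forest

/-! ### Parts -/

section parts

variable {M : VSys (Fin n ⊕ σ) κ} {w : Config n} {V : σ → PhasePoint}

/-- The parts condition for one part which contains all structure labels. -/
theorem parts_one [Nonempty κ] {c : ℝ} (hb : ∀ i, M.b (Sum.inl i) ≤ 0)
    (ho : ∀ i, M.o ≠ some (Sum.inl i)) (hw : w ∈ PairExcluded M.ε n)
    (hc : M.Conn c (Finset.univ.map (strE n σ)) (Sum.elim w V)) :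
    Parts M c (Sum.elim w V) {Finset.univ.map (strE n σ)} := by
  have hgas : ∀ j : Fin n ⊕ σ, (∀ π ∈ ({Finset.univ.map (strE n σ)} : Finset (Finset _)), j ∉ π) →
      ∃ i, j = Sum.inl i := by
    intro j hj
    rcases j with i | x
    · exact ⟨i, rfl⟩
    · exact absurd (Finset.mem_map.2 ⟨x, Finset.mem_univ _, rfl⟩)
        (hj _ (Finset.mem_singleton_self _))
  refine ⟨fun π hπ => ?_, fun j hj => ?_, fun j hj => ?_, fun i j hi hj hij => ?_⟩
  · rw [Finset.mem_singleton.1 hπ]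
    exact hc
  · obtain ⟨i, rfl⟩ := hgas j hj
    exact ho i
  · obtain ⟨i, rfl⟩ := hgas j hj
    exact hb i
  · obtain ⟨i, rfl⟩ := hgas i hi
    obtain ⟨j, rfl⟩ := hgas j hj
    exact hw i j fun h => hij (by rw [h])

end parts

end Crest.Agent.R122.PWInst442

end
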