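import Mathlib
import Crest.Prelude.Def_KineticLimit
import Crest.Agent.R122.PWInst3_442
import Crest.Agent.R122.LNGraft_410
import Crest.Agent.R122.OneCDefs_285
import Crest.Agent.R122.Good4One_45

/-!
# Row 122, LN1 (helper442): classes with exit data are families of admissible labels; the encounter

* `exit0_of_cls`, `last_of_cls`, `lab_of_cls` : the members of a class of helper410's `Cls` are
  admissible labels (`Exit0`, `Last`, `Lab`).
* `GraftH.lab_a`, `lab_c`, `lab₁`, `lab₂` : labels after the graft.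
* `LineIn`, `graftH_tree` : test line `l` on the contact set with the root of the tree `(P, z)`.
* `oLab`, `lab_one` : the labels of the one-contact family `oneLs` (exits, `l'`, `c'`), and
  `Base` for both classes over `J = Fin n ⊕ (Idx P ⊕ Unit)`.
-/

set_option autoImplicit false
set_option linter.unusedSectionVars false

open MeasureTheory Set Filter Topology
open scoped NNReal ENNReal
open Crest.AnalysisR.Kinetic
open Crest.Agent.R122.Flow671 Crest.Agent.R122.Loc45 Crest.Agent.R122.Ins45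
open Crest.Agent.R122.VL581 Crest.Agent.R122.VL581.VSys Crest.Agent.R122.VLInst442
open Crest.Agent.R122.LNInst491 Crest.Agent.R122.LN304 Crest.Agent.R122.LNg410
open Crest.Agent.R122.Kin796 Crest.Agent.R122.Kin796.CTree Crest.Agent.R122.Tree674
open Crest.Agent.R122.PathFlow968 Crest.Agent.R122.TreeLines335 Crest.Agent.R122.EDefs602
open Crest.Agent.R122.LNTree410 Crest.Agent.R122.PWGlue491 Crest.Agent.R122.Inf879
open Crest.Agent.R122.LNGraft410 Crest.Agent.R122.OneC285 Crest.Agent.R122.OCout796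
open scoped Classical

noncomputable section

namespace Crest.Agent.R122.PWInst442

theorem onLine_back (l : ℝ × PhasePoint) (t : ℝ) : onLine (back l) t = lineAt l.1 l.2 t := by
  unfold onLine back lineAt
  ext1
  · simp only [sub_smul]
    abel
  · rfl

theorem onLine_back_self (l : ℝ × PhasePoint) : onLine (back l) l.1 = l.2 := by
  rw [onLine_back, lineAt_self]

variable {J κ : Type} [Fintype J] {M : VSys J κ} {Z : J → PhasePoint}

/-! ### Classes -/

section cls

variable {S : Finset J} {bE : J → ℝ} {cl : J → Finset J} {i : J} {b : ℝ} {z : PhasePoint}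

/-- A member of a class, on its line from the time `b ≥ bE i` on. -/
theorem exit0_of_cls (h : Cls M Z S bE) (hi : i ∈ S) (hcl : cl i = S) (hb : bE i ≤ b)
    (hz : b ≤ M.T → onLine z b = M.st S b Z i) : Exit0 M Z cl i b z where
  mem := by rw [hcl]; exact hi
  bb_le := (h.bb_le i hi).trans hb
  hand hbT := by rw [hcl]; exact hz hbT
  exit t ht htT k hk hki hbk := by
    rw [hcl] at hk ⊢
    exact h.exit i hi t (hb.trans_lt ht) htT k hk hki hbk

theorem last_of_cls (h : Cls M Z S bE) (hi : i ∈ S) (hcl : cl i = S) (hb : b = bE i) :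
    Last M Z cl i b := by
  subst hb
  intro hbT
  rw [hcl]
  exact h.last i hi hbT

/-- **A member of a class is an admissible label.** -/
theorem lab_of_cls (h : Cls M Z S bE) (hi : i ∈ S) (hcl : cl i = S) (hb : b = bE i)
    (hz : b ≤ M.T → onLine z b = M.st S b Z i) : Lab M Z cl i b z :=
  Or.inr ⟨exit0_of_cls h hi hcl hb.ge hz, last_of_cls h hi hcl hb⟩

/-- Form with the line `l = (birth, state at birth)`. -/
theorem lab_of_cls_line (h : Cls M Z S bE) (hi : i ∈ S) (hcl : cl i = S) {l : ℝ × PhasePoint}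
    (hb : l.1 = bE i) (hz : l.1 ≤ M.T → M.st S l.1 Z i = l.2) : Lab M Z cl i l.1 (back l) :=
  lab_of_cls h hi hcl hb fun hT => by rw [onLine_back_self, hz hT]

theorem exit0_of_cls_line (h : Cls M Z S bE) (hi : i ∈ S) (hcl : cl i = S) {l : ℝ × PhasePoint}
    (hb : bE i ≤ l.1) (hz : l.1 ≤ M.T → M.st S l.1 Z i = l.2) : Exit0 M Z cl i l.1 (back l) :=
  exit0_of_cls h hi hcl hb fun hT => by rw [onLine_back_self, hz hT]

end cls

/-! ### Labels of the graft -/

section graft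

variable {S₁ S₂ : Finset J} {bE : J → ℝ} {a c : J} {s : ℝ} {y : Space3} {q : CD} {C ℓ ς : ℝ}
  {cl : J → Finset J}

variable (h : GraftH M Z S₁ S₂ bE a c s y q) (hε : 0 < M.ε) [Nonempty κ] (hC : 1 ≤ C)
  (hT : TL M C ℓ ς (S₁ ∪ S₂) Z) (hℓς : 2 * ℓ ≤ ς) (hΦ : AdmissiblePotential M.Φ)
  (hp : CDpass M.Φ q) (hle : s + outT M.Φ M.ε q ≤ M.T)
include h hε hC hT hℓς hΦ hp hle

/-- The deflected line `l'`. -/
theorem lab_graft_a (hcl : cl a = S₁ ∪ S₂) :
    Lab M Z cl a (lineL' M.Φ M.ε s y q).1 (back (lineL' M.Φ M.ε s y q)) := by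
  refine lab_of_cls_line (h.cls hε hC hT hℓς hΦ hp hle) (Finset.mem_union_left _ h.ha) hcl
    (if_pos (Or.inl rfl)).symm fun hT' => ?_
  have h1 := h.line_a hε hC hT hℓς hΦ hp hle le_rfl hle
  rw [lineAt_self] at h1
  exact h1

/-- The deflected root `c'`. -/
theorem lab_graft_c (hcl : cl c = S₁ ∪ S₂) :
    Lab M Z cl c (lineC' M.Φ M.ε s y q).1 (back (lineC' M.Φ M.ε s y q)) := by
  refine lab_of_cls_line (h.cls hε hC hT hℓς hΦ hp hle) (Finset.mem_union_right _ h.hc) hcl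
    (if_pos (Or.inr rfl)).symm fun hT' => ?_
  have h1 := h.line_c hε hC hT hℓς hΦ hp hle le_rfl hle
  rw [lineAt_self] at h1
  exact h1

/-- The other exits of the first class. -/
theorem lab_graft₁ {x : J} (hx : x ∈ S₁) (hxa : x ≠ a) (hcl : cl x = S₁ ∪ S₂) {b : ℝ}
    {z : PhasePoint} (hb : b = bE x) (hz : b ≤ M.T → onLine z b = M.st S₁ b Z x) :
    Lab M Z cl x b z := by
  refine lab_of_cls (h.cls hε hC hT hℓς hΦ hp hle) (Finset.mem_union_left _ hx) hcl ?_
    fun hT' => ?_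
  · rw [grafted, if_neg fun h' => h'.elim hxa fun h'' => h.not₂ hx (h'' ▸ h.hc)]
    exact hb
  · rw [h.st₁ hε hC hT hℓς hΦ hx hxa hT']
    exact hz hT'

/-- The other exits of the second class. -/
theorem lab_graft₂ {x : J} (hx : x ∈ S₂) (hxc : x ≠ c) (hcl : cl x = S₁ ∪ S₂) {b : ℝ}
    {z : PhasePoint} (hb : b = bE x) (hz : b ≤ M.T → onLine z b = M.st S₂ b Z x) :
    Lab M Z cl x b z := by
  refine lab_of_cls (h.cls hε hC hT hℓς hΦ hp hle) (Finset.mem_union_right _ hx) hcl ?_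
    fun hT' => ?_
  · rw [grafted, if_neg fun h' => h'.elim (fun h'' => h.not₁ hx (h'' ▸ h.ha)) hxc]
    exact hb
  · rw [h.st₂ hε hC hT hℓς hΦ hx hxc hT']
    exact hz hT'

end graft

/-! ### Test line and tree -/

/-- The label `a` carries the test line `l` (born with its line, interacting). -/
structure LineIn (M : VSys J κ) (Z : J → PhasePoint) (a : J) (l : ℝ × PhasePoint) : Prop where
  o : M.o ≠ some a
  b : M.bb a = l.1
  Z : Z a = back l

theorem LineIn.st {a : J} {l : ℝ × PhasePoint} (h : LineIn M Z a l)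
    (hΦ : AdmissiblePotential M.Φ) (hε : 0 < M.ε) {t : ℝ} (ht : l.1 ≤ t) (htT : t ≤ M.T) :
    M.st {a} t Z a = lineAt l.1 l.2 t := by
  have h1 := (Cls.single (M := M) (Z := Z) h.o (bD := M.bb) rfl).line hΦ hε
    (Finset.mem_singleton_self a) (u := l.1) (t := t) h.b.le ht htT
  rw [h1, st_unborn M h.b.ge, h.Z, show fl l.1 (back l) = l.2 from onLine_back_self l]

section tree

variable {P : CTree} {z : PhasePoint × Par P} {e : Idx P ↪ J} {a : J} {l : ML} {te : ℝ}
  {bE : J → ℝ}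

/-- **The graft of the test line on the tree.** -/
theorem graftH_tree (hΦ : AdmissiblePotential M.Φ) (hε : 0 < M.ε)
    (ht : TreeIn M Z M.T P z.1 z.2 e) (ha : ∀ x, e x ≠ a) (hl : LineIn M Z a l.1)
    (hct : (z, l.1) ∈ OneC423.ctSet M.Φ M.ε te P) (hte : te < M.T) (hcd : CDok (cD M.ε z l))
    (hbe : ∀ x, bE (e x) = rel P z.2 x) (hba : bE a = l.1.1) :
    GraftH M Z {a} (part e) bE a (e (root P)) (cT M.ε z l) (cX M.ε z l) (cD M.ε z l) := by
  have hl0 : 0 ≤ l.1.1 := by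
    rw [← hl.b]
    exact bb_nonneg M a
  have hlt : l.1.1 < cT M.ε z l := hct.2.2.1
  have hs0 : 0 < cT M.ε z l := hl0.trans_lt hlt
  have hsT : cT M.ε z l < M.T := hct.2.2.2.1.trans_lt hte
  have hrel : rel P z.2 (root P) < cT M.ε z l := rel_lt hε.le hs0 hct.2.2.2.2.2 (root P)
  refine ⟨Cls.single hl.o (hba.trans hl.b.symm), Cls.of_tree hΦ hε (hs0.trans hsT) ht hbe, ?_,
    Finset.mem_singleton_self a, mem_part_self _, ?_, ?_, hcd, ?_, ?_, hsT⟩
  · rw [Finset.disjoint_singleton_left]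
    intro h'
    obtain ⟨x, hx⟩ := mem_part.1 h'
    exact ha x hx
  · rw [hba]
    exact hlt
  · rw [hbe]
    exact hrel
  · rw [hl.st hΦ hε hlt.le hsT.le]
    have h1 := OC663.ent_pos hε (OneC423.relL z.1 l.1)
    refine Prod.ext ?_ rfl
    rw [← lpos_eq]
    have h2 : (OneC423.relL z.1 l.1).1 = (back l.1).1 - z.1.1 := rfl
    have h3 : (OneC423.relL z.1 l.1).2 = l.1.2.2 - z.1.2 := rfl
    rw [h2, h3] at h1
    change (back l.1).1 + cT M.ε z l • l.1.2.2 = z.1.1 + cT M.ε z l • z.1.2 +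
      M.ε • entrancePoint (cB M.ε z l) (l.1.2.2 - z.1.2)
    rw [show entrancePoint (cB M.ε z l) (l.1.2.2 - z.1.2) =
      entrancePoint (OC663.entB M.ε (OneC423.relL z.1 l.1)) (l.1.2.2 - z.1.2) from rfl, ← h1]
    change (back l.1).1 + cT M.ε z l • l.1.2.2 = z.1.1 + cT M.ε z l • z.1.2 +
      ((back l.1).1 - z.1.1 + cT M.ε z l • (l.1.2.2 - z.1.2))
    rw [smul_sub]
    abel
  · rw [ht.line_tree hΦ hε (root P) hrel.le hsT.le, fin_root]
    rfl

/-- Labels of the family `oneLs` (without the undeflected root). -/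
def oLab {J : Type} {P : CTree} (e : Idx P ↪ J) (a : J) : Idx P ⊕ Bool → J
  | Sum.inl i => e i
  | Sum.inr false => a
  | Sum.inr true => e (root P)

@[simp] theorem oLab_inl (e : Idx P ↪ J) (a : J) (i : Idx P) : oLab e a (Sum.inl i) = e i := rfl
@[simp] theorem oLab_false (e : Idx P ↪ J) (a : J) : oLab e a (Sum.inr false) = a := rfl
@[simp] theorem oLab_true (e : Idx P ↪ J) (a : J) : oLab e a (Sum.inr true) = e (root P) := rfl

theorem oLab_inj (ha : ∀ x, e x ≠ a) {x y : Idx P ⊕ Bool} (hx : x ≠ Sum.inl (root P))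
    (hy : y ≠ Sum.inl (root P)) (h : oLab e a x = oLab e a y) : x = y := by
  rcases x with x | x <;> rcases y with y | y
  · rw [oLab_inl, oLab_inl] at h
    rw [e.injective h]
  · cases y
    · exact absurd h (ha x)
    · rw [oLab_inl, oLab_true] at h
      exact absurd (congrArg Sum.inl (e.injective h)) hx
  · cases x
    · exact absurd h.symm (ha y)
    · rw [oLab_inl, oLab_true] at h
      exact absurd (congrArg Sum.inl (e.injective h)).symm hy
  · cases x <;> cases y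
    · rfl
    · exact absurd h.symm (ha _)
    · exact absurd h (ha _)
    · rfl

variable [Nonempty κ] {C ℓ ς : ℝ} {cl : J → Finset J}

theorem exists_bE (ha : ∀ x, e x ≠ a) (r : Idx P → ℝ) (b : ℝ) :
    ∃ bE : J → ℝ, (∀ x, bE (e x) = r x) ∧ bE a = b := by
  refine ⟨fun j => if j = a then b else if h : ∃ x, e x = j then r h.choose else 0,
    fun x => ?_, if_pos rfl⟩
  have h1 : ∃ y, e y = e x := ⟨x, rfl⟩
  simp only [if_neg (ha x), dif_pos h1]
  rw [e.injective h1.choose_spec]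

/-- **The labels of the one-contact family**: exits, `l'`, `c'`. -/
theorem lab_one (hΦ : AdmissiblePotential M.Φ) (hε : 0 < M.ε)
    (ht : TreeIn M Z M.T P z.1 z.2 e) (ha : ∀ x, e x ≠ a) (hl : LineIn M Z a l.1)
    (hct : (z, l.1) ∈ OneC423.ctSet M.Φ M.ε te P) (hte : te < M.T) (hC : 1 ≤ C)
    (hT : TL M C ℓ ς ({a} ∪ part e) Z) (hℓς : 2 * ℓ ≤ ς) (hp : CDpass M.Φ (cD M.ε z l))
    (hle : cT M.ε z l + outT M.Φ M.ε (cD M.ε z l) ≤ M.T)
    (hcl : ∀ x ∈ ({a} ∪ part e : Finset J), cl x = {a} ∪ part e) {x : Idx P ⊕ Bool}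
    (hx : x ≠ Sum.inl (root P)) :
    Lab M Z cl (oLab e a x) (oneLs M.Φ M.ε P z l x).1.1 (back (oneLs M.Φ M.ε P z l x).1) := by
  obtain ⟨bE, hbe, hba⟩ := exists_bE ha (rel P z.2) l.1.1
  have h := graftH_tree hΦ hε ht ha hl hct hte hp.ok hbe hba
  rcases x with i | x
  · have hi : i ≠ root P := fun h' => hx (by rw [h'])
    rw [oneLs_exit hi, oLab_inl, back_lineML]
    refine lab_graft₂ h hε hC hT hℓς hΦ hp hle (mem_part_self i) (fun h' => hi (e.injective h'))
      (hcl _ (Finset.mem_union_right _ (mem_part_self i))) (hbe i).symm fun hT' => ?_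
    exact (ht.line_tree hΦ hε i le_rfl hT').symm
  · cases x
    · exact lab_graft_a h hε hC hT hℓς hΦ hp hle (hcl _ (Finset.mem_union_left _ h.ha))
    · exact lab_graft_c h hε hC hT hℓς hΦ hp hle (hcl _ (Finset.mem_union_right _ h.hc))

/-- The encounter ends. -/
theorem pass_one (hΦ : AdmissiblePotential M.Φ) (hε : 0 < M.ε)
    (ht : TreeIn M Z M.T P z.1 z.2 e) (ha : ∀ x, e x ≠ a) (hl : LineIn M Z a l.1)
    (hct : (z, l.1) ∈ OneC423.ctSet M.Φ M.ε te P) (hte : te < M.T) (hC : 1 ≤ C)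
    (hT : TL M C ℓ ς ({a} ∪ part e) Z) (hℓς : 2 * ℓ ≤ ς) (hcd : CDok (cD M.ε z l))
    (hlT : cT M.ε z l + 2 * ℓ < M.T) :
    CDpass M.Φ (cD M.ε z l) ∧ outT M.Φ M.ε (cD M.ε z l) ≤ 2 * ℓ := by
  obtain ⟨bE, hbe, hba⟩ := exists_bE ha (rel P z.2) l.1.1
  exact (graftH_tree hΦ hε ht ha hl hct hte hcd hbe hba).pass_of hε hC hT hℓς hΦ hlT

/-- The structure "tree and test line" is connected. -/
theorem conn_one (hΦ : AdmissiblePotential M.Φ) (hε : 0 < M.ε)
    (ht : TreeIn M Z M.T P z.1 z.2 e) (ha : ∀ x, e x ≠ a) (hl : LineIn M Z a l.1)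
    (hct : (z, l.1) ∈ OneC423.ctSet M.Φ M.ε te P) (hte : te < M.T) (hC : 1 ≤ C)
    (hcd : CDok (cD M.ε z l)) : M.Conn C ({a} ∪ part e) Z := by
  obtain ⟨bE, hbe, hba⟩ := exists_bE ha (rel P z.2) l.1.1
  exact (graftH_tree hΦ hε ht ha hl hct hte hcd hbe hba).Conn hε hC

end tree

/-! ### The instance `J = Fin n ⊕ (Idx P ⊕ Unit)` -/

section os

variable {n : ℕ} {P : CTree} {z : PhasePoint × Par P} {l : ML} {te : ℝ}
  {M : VSys (Fin n ⊕ (Idx P ⊕ Unit)) κ} {w : Config n}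

/-- Labels of the tree. -/
def osE (n : ℕ) (P : CTree) : Idx P ↪ Fin n ⊕ (Idx P ⊕ Unit) :=
  ⟨fun x => Sum.inr (Sum.inl x), fun _ _ h => Sum.inl_injective (Sum.inr_injective h)⟩

@[simp] theorem osE_apply (x : Idx P) : osE n P x = Sum.inr (Sum.inl x) := rfl

/-- Label of the test line. -/
def osA (n : ℕ) (P : CTree) : Fin n ⊕ (Idx P ⊕ Unit) := Sum.inr (Sum.inr ())

theorem osE_ne (x : Idx P) : osE n P x ≠ osA n P := fun h => by
  have h1 := Sum.inr_injective h
  exact absurd h1 Sum.inl_ne_inr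

/-- Structure: lines of the tree, test line. -/
def osV (Φ : Space3 → ℝ) (ε : ℝ) (P : CTree) (z : PhasePoint × Par P) (l : ML) :
    Idx P ⊕ Unit → PhasePoint := Sum.elim (lines Φ ε P z.1 z.2) fun _ => back l.1

/-- The class of the tree (the test line is absent). -/
abbrev clT (n : ℕ) (P : CTree) : Fin n ⊕ (Idx P ⊕ Unit) → Finset (Fin n ⊕ (Idx P ⊕ Unit)) :=
  clOf n (Sum.elim (fun _ => some ()) fun _ => none)

theorem clT_inl (x : Idx P) : clT n P (Sum.inr (Sum.inl x)) = part (osE n P) := by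
  ext j
  rw [mem_clOf, mem_part]
  constructor
  · rintro ⟨_, y, rfl, h⟩
    rcases y with y | y
    · exact ⟨y, rfl⟩
    · exact absurd h (by simp)
  · rintro ⟨y, rfl⟩
    exact ⟨by simp, Sum.inl y, rfl, rfl⟩

theorem union_os (n : ℕ) (P : CTree) (inst : DecidableEq (Fin n ⊕ (Idx P ⊕ Unit))) :
    ({osA n P} ∪ part (osE n P) : Finset (Fin n ⊕ (Idx P ⊕ Unit))) =
      Finset.univ.map (strE n (Idx P ⊕ Unit)) := by
  ext j
  rw [Finset.mem_union, Finset.mem_singleton, mem_part, Finset.mem_map]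
  constructor
  · rintro (rfl | ⟨x, rfl⟩)
    · exact ⟨Sum.inr (), Finset.mem_univ _, rfl⟩
    · exact ⟨Sum.inl x, Finset.mem_univ _, rfl⟩
  · rintro ⟨x | x, _, rfl⟩
    · exact Or.inr ⟨x, rfl⟩
    · exact Or.inl rfl

/-- The hypotheses on the system. -/
structure OSys (M : VSys (Fin n ⊕ (Idx P ⊕ Unit)) κ) (z : PhasePoint × Par P) (l : ML) (te : ℝ) :
    Prop where
  gas_b : ∀ i, M.b (Sum.inl i) ≤ 0
  tree_b : ∀ x, M.b (Sum.inr (Sum.inl x)) ≤ 0
  line_b : M.b (Sum.inr (Sum.inr ())) = l.1.1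
  o : ∀ i, M.o ≠ some i
  birth : 0 ≤ l.1.1
  valid : Valid M.Φ M.ε P M.T z.1.2 z.2
  sep : Sep M.Φ M.ε P M.T z.1 z.2
  ct : (z, l.1) ∈ OneC423.ctSet M.Φ M.ε te P
  te_lt : te < M.T

namespace OSys

variable (H : OSys M z l te)
include H

theorem treeIn : TreeIn M (Sum.elim w (osV M.Φ M.ε P z l)) M.T P z.1 z.2 (osE n P) where
  b := H.tree_b
  Z _ := rfl
  o _ := H.o _
  valid := H.valid
  sep := H.sep

theorem lineIn : LineIn M (Sum.elim w (osV M.Φ M.ε P z l)) (osA n P) l.1 where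
  o := H.o _
  b := by
    unfold VSys.bb osA
    rw [H.line_b]
    exact max_eq_left H.birth
  Z := rfl

theorem te_pos : 0 < M.T := by
  have h1 : l.1.1 < cT M.ε z l := H.ct.2.2.1
  have h2 : cT M.ε z l ≤ te := H.ct.2.2.2.1
  have h3 := H.birth
  have h4 := H.te_lt
  linarith

variable (hΦ : AdmissiblePotential M.Φ) (hε : 0 < M.ε)
include hΦ hε

theorem baseT : Base M w (osV M.Φ M.ε P z l) (clT n P) := by
  refine base_clOf H.gas_b (fun i => H.o _) (fun x _ => H.o _) fun x hx => ?_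
  rcases x with x | x
  · have hcl : clOf n (Sum.elim (fun _ => some ()) fun _ => none) (Sum.inr (Sum.inl x)) =
      part (osE n P) := clT_inl x
    rw [hcl]
    exact H.treeIn.ok_tree hΦ hε H.te_pos.le M.T
  · exact absurd rfl hx

/-- **Class of the tree**: every particle (the root `c_rel`, too) on its marked line. -/
theorem labT (x : Idx P) : Lab M (Sum.elim w (osV M.Φ M.ε P z l)) (clT n P) (Sum.inr (Sum.inl x))
    (lineML M.Φ M.ε P z x).1.1 (back (lineML M.Φ M.ε P z x).1) := by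
  have h := H.treeIn (w := w)
  rw [back_lineML]
  refine lab_of_cls (S := part (osE n P)) (bE := fun j => Sum.elim (fun _ => (0 : ℝ))
    (Sum.elim (rel P z.2) fun _ => 0) j) (Cls.of_tree hΦ hε H.te_pos h fun _ => rfl)
    (mem_part_self x) (clT_inl x) rfl fun hT => ?_
  exact (h.line_tree hΦ hε x le_rfl hT).symm

variable [Nonempty κ] {C ℓ ς : ℝ} (hC : 1 ≤ C)
  (hT : TL M C ℓ ς (Finset.univ.map (strE n (Idx P ⊕ Unit))) (Sum.elim w (osV M.Φ M.ε P z l)))

include hC in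
theorem conn (hcd : CDok (cD M.ε z l)) :
    M.Conn C (Finset.univ.map (strE n (Idx P ⊕ Unit))) (Sum.elim w (osV M.Φ M.ε P z l)) := by
  rw [← union_os n P fun a b => Classical.propDecidable (a = b)]
  exact conn_one hΦ hε H.treeIn osE_ne H.lineIn H.ct H.te_lt hC hcd

include hT in
omit hC in
theorem baseA : Base M w (osV M.Φ M.ε P z l) (cl1 n (Idx P ⊕ Unit)) := by
  refine base_clOf H.gas_b (fun i => H.o _) (fun x _ => H.o _) fun x _ => ?_
  have hcl : clOf n (fun _ : Idx P ⊕ Unit => some ()) (Sum.inr x) =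
      Finset.univ.map (strE n (Idx P ⊕ Unit)) := cl1_inr x
  rw [hcl]
  exact hT.1 _ subset_rfl

include hC hT in
/-- **Class of tree and test line**: exits, `l'`, `c'`. -/
theorem labA (hℓς : 2 * ℓ ≤ ς) (hp : CDpass M.Φ (cD M.ε z l))
    (hle : cT M.ε z l + outT M.Φ M.ε (cD M.ε z l) ≤ M.T) {x : Idx P ⊕ Bool}
    (hx : x ≠ Sum.inl (root P)) :
    Lab M (Sum.elim w (osV M.Φ M.ε P z l)) (cl1 n (Idx P ⊕ Unit)) (oLab (osE n P) (osA n P) x)
      (oneLs M.Φ M.ε P z l x).1.1 (back (oneLs M.Φ M.ε P z l x).1) := by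
  refine lab_one hΦ hε H.treeIn osE_ne H.lineIn H.ct H.te_lt hC (by rw [union_os n P _]; exact hT) hℓς
    hp hle (fun y hy => ?_) hx
  rw [union_os n P _] at hy ⊢
  obtain ⟨y, _, rfl⟩ := Finset.mem_map.1 hy
  exact cl1_inr y

include hC hT in
/-- The encounter ends. -/
theorem pass (hℓς : 2 * ℓ ≤ ς) (hcd : CDok (cD M.ε z l)) (hlT : cT M.ε z l + 2 * ℓ < M.T) :
    CDpass M.Φ (cD M.ε z l) ∧ outT M.Φ M.ε (cD M.ε z l) ≤ 2 * ℓ :=
  pass_one hΦ hε H.treeIn osE_ne H.lineIn H.ct H.te_lt hC (by rw [union_os n P _]; exact hT) hℓς hcd hlT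

end OSys

end os

end Crest.Agent.R122.PWInst442

end
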