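import Crest.Agent.R122.E6Str_491
import Crest.Agent.R122.PWInst4_442

/-!
# The pairs of lines of a one-contact structure (row 122, S^(0), helper45)

* `Base1 M Z te P z eP a l` : the labels `eP` carry the tree `(P, z)`, the label `a` carries the line
  `l`; the line `l` meets the root line of the tree (contact set of helper423).
* `Base1.enc` : the encounter of helper491's structures `{a}` and `part eP`.
* `Base1.pair_ee`, `pair_er`, `pair_el`, `pair_ec` : the pairs (exit, exit), (exit, root reborn),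
  (exit, `l'`), (exit, `c'`).
* `Base1.pair` : the pairs `x`, `y` of lines of the family `oneLs`, `x` an exit.
-/

set_option autoImplicit false
set_option linter.unusedSectionVars false

open MeasureTheory Set Filter Topology
open scoped NNReal ENNReal
open Crest.AnalysisR.Kinetic
open Crest.Agent.R122.Flow671 hiding rel
open Crest.Agent.R122.Loc45 Crest.Agent.R122.Ins45
open Crest.Agent.R122.VL581 Crest.Agent.R122.VL581.VSys Crest.Agent.R122.VLInst442
open Crest.Agent.R122.LNInst491 Crest.Agent.R122.LN304 Crest.Agent.R122.LNg410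
open Crest.Agent.R122.Kin796 Crest.Agent.R122.Kin796.CTree Crest.Agent.R122.Tree674
open Crest.Agent.R122.PathFlow968 Crest.Agent.R122.TreeLines335 Crest.Agent.R122.EDefs602
open Crest.Agent.R122.LNTree410 Crest.Agent.R122.PWGlue491 Crest.Agent.R122.Inf879
open Crest.Agent.R122.LNGraft410 Crest.Agent.R122.LNEv968
open Crest.Agent.R122.PWInst442 (LineIn oLab exists_bE)
open Crest.Agent.R122.StrG491
open Crest.Agent.R122.OCout796 Crest.Agent.R122.Scat818
open Crest.Agent.R122.OneC285 (cT cB cD cX oneLs)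
open scoped Classical

noncomputable section

namespace Crest.Agent.R122.BasePair45

variable {J κ : Type} [Fintype J] {M : VSys J κ} {Z : J → PhasePoint}
variable {c : ℝ} {bD : J → ℝ} {ℓ ς te : ℝ} {P : CTree} {z : PhasePoint × Par P} {eP : Idx P ↪ J}
  {a : J} {l : ML}

/-- The line `l` (label `a`) meets the root line of the tree `(P, z)` (labels `eP`). -/
structure Base1 (M : VSys J κ) (Z : J → PhasePoint) (te : ℝ) (P : CTree)
    (z : PhasePoint × Par P) (eP : Idx P ↪ J) (a : J) (l : ML) : Prop where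
  tree : TreeIn M Z M.T P z.1 z.2 eP
  line : LineIn M Z a l.1
  ha : ∀ x, eP x ≠ a
  ct : (z, l.1) ∈ OneC423.ctSet M.Φ M.ε te P
  te_lt : te < M.T
  cd : CDok (cD M.ε z l)

namespace Base1

variable (h : Base1 M Z te P z eP a l)
include h

theorem birth : 0 ≤ l.1.1 := by
  rw [← h.line.b]
  exact bb_nonneg M a

theorem lt_cT : l.1.1 < cT M.ε z l := h.ct.2.2.1

theorem cT_pos : 0 < cT M.ε z l := h.birth.trans_lt h.lt_cT

theorem cT_lt : cT M.ε z l < M.T := h.ct.2.2.2.1.trans_lt h.te_lt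

theorem T_pos : 0 < M.T := h.cT_pos.trans h.cT_lt

theorem rel_lt (hε : 0 < M.ε) (i : Idx P) : rel P z.2 i < cT M.ε z l :=
  TreeLines335.rel_lt hε.le h.cT_pos h.ct.2.2.2.2.2 i

theorem dj : Disjoint ({a} : Finset J) (part eP) := by
  rw [Finset.disjoint_singleton_left]
  intro h'
  obtain ⟨x, hx⟩ := mem_part.1 h'
  exact h.ha x hx

/-- Exit times of the structure. -/
structure BD (z : PhasePoint × Par P) (eP : Idx P ↪ J) (a : J) (l : ML) (bD : J → ℝ) : Prop where
  tr : ∀ i, bD (eP i) = rel P z.2 i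
  ln : bD a = l.1.1

theorem exists_bd : ∃ bD : J → ℝ, BD z eP a l bD := by
  obtain ⟨bD, h1, h2⟩ := exists_bE h.ha (rel P z.2) l.1.1
  exact ⟨bD, h1, h2⟩

variable [Nonempty κ] (hC : 1 ≤ c) (hΦ : AdmissiblePotential M.Φ) (hε : 0 < M.ε)
  (hb : BD z eP a l bD)
include hC hΦ hε hb

/-- **The encounter.** -/
theorem enc : Enc M c Z (RC M Z {a}) (RC M Z (part eP)) {a} (part eP) (clOf {a})
    (clOf (part eP)) bD {a} (part eP) a (eP (root P)) (cT M.ε z l) (cX M.ε z l)
    (cD M.ε z l) where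
  s₁ := Str.single hC hε h.line.o (hb.ln.trans h.line.b.symm)
  s₂ := Str.tree hC hε hΦ h.T_pos h.tree hb.tr
  dj := h.dj
  hy := Finset.mem_singleton_self a
  ha := mem_part_self _
  lty := by
    rw [hb.ln]
    exact h.lt_cT
  lta := by
    rw [hb.tr]
    exact h.rel_lt hε _
  cd := h.cd
  sy := by
    rw [clOf_mem (Finset.mem_singleton_self a), h.line.st hΦ hε h.lt_cT.le h.cT_lt.le]
    exact One796.state_l hε z l
  sa := by
    rw [clOf_mem (mem_part_self (root P)), h.tree.line_tree hΦ hε (root P) (h.rel_lt hε _).le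
      h.cT_lt.le, fin_root]
    rfl
  lt_T := h.cT_lt

omit hC hb in
/-- State of a particle of the tree at its release time. -/
theorem st_rel (i : Idx P) :
    M.st (part eP) (lineML M.Φ M.ε P z i).1.1 Z (eP i) = (lineML M.Φ M.ε P z i).1.2 :=
  h.tree.line_tree hΦ hε i le_rfl ((h.rel_lt hε i).trans h.cT_lt).le

/-- **The pair (exit, exit)**; `j` may be the root, born at its release. -/
theorem pair_ee {i j : Idx P} (hij : i ≠ j) :
    Pair M c Z (joinR (RC M Z {a}) (RC M Z (part eP)) a (eP (root P)) (cT M.ε z l))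
      ({a} ∪ part eP) (clSep (clOf {a}) (clOf (part eP))) bD (eP i) (eP j)
      (lineML M.Φ M.ε P z i).1 (lineML M.Φ M.ε P z j).1 := by
  have hm := (h.enc hC hΦ hε hb).meet hε
  have hst : ∀ k : Idx P, M.st (clSep (clOf {a}) (clOf (part eP)) (eP k))
      (lineML M.Φ M.ε P z k).1.1 Z (eP k) = (lineML M.Φ M.ε P z k).1.2 := by
    intro k
    rw [hm.cl₂_of (mem_part_self k), clOf_mem (mem_part_self k)]
    exact h.st_rel hΦ hε k
  refine ⟨hm.join hC hε (fun k hk => ?_) fun h' => ?_, fun h' => hij (eP.injective h'),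
    (hb.tr i).symm, (hb.tr j).le, fun _ => hst i, fun _ => hst j⟩
  · rcases Finset.mem_insert.1 hk with rfl | hk
    · exact Finset.mem_union_right _ (mem_part_self i)
    · rw [Finset.mem_singleton.1 hk]
      exact Finset.mem_union_right _ (mem_part_self j)
  · rcases Finset.mem_insert.1 h'.1 with h1 | h1
    · exact h.ha i h1.symm
    · exact h.ha j (Finset.mem_singleton.1 h1).symm

/-- **The pair (exit, root reborn)**. -/
theorem pair_er {i : Idx P} (hi : i ≠ root P) (hp : CDpass M.Φ (cD M.ε z l)) :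
    Pair M c Z (joinR (RC M Z {a}) (RC M Z (part eP)) a (eP (root P)) (cT M.ε z l))
      ({a} ∪ part eP) (clSep (clOf {a}) (clOf (part eP))) bD (eP i) (eP (root P))
      (lineML M.Φ M.ε P z i).1 (lineC M.Φ M.ε (cT M.ε z l) (cX M.ε z l) (cD M.ε z l)) := by
  have h0 := h.pair_ee hC hΦ hε hb hi
  have hm := (h.enc hC hΦ hε hb).meet hε
  have hpos := hp.outT_pos hε
  refine ⟨h0.str, h0.ne, h0.bx, ?_, h0.lx, fun hT => ?_⟩
  · rw [hb.tr]
    exact ((h.rel_lt hε _).trans (lt_add_of_pos_right _ hpos)).le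
  · have h1 : cT M.ε z l ≤ cT M.ε z l + outT M.Φ M.ε (cD M.ε z l) :=
      (lt_add_of_pos_right _ hpos).le
    rw [hm.cl₂_of (mem_part_self (root P)), clOf_mem (mem_part_self (root P))]
    change M.st (part eP) (cT M.ε z l + outT M.Φ M.ε (cD M.ε z l)) Z (eP (root P)) =
      (cX M.ε z l + outT M.Φ M.ε (cD M.ε z l) • (cD M.ε z l).2.1, (cD M.ε z l).2.1)
    have hle : rel P z.2 (root P) ≤ cT M.ε z l + outT M.Φ M.ε (cD M.ε z l) :=
      (h.rel_lt hε _).le.trans h1
    rw [h.tree.line_tree hΦ hε (root P) hle hT, fin_root]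
    refine Prod.ext ?_ rfl
    change z.1.1 + (cT M.ε z l + outT M.Φ M.ε (cD M.ε z l)) • z.1.2 =
      z.1.1 + cT M.ε z l • z.1.2 + outT M.Φ M.ε (cD M.ε z l) • z.1.2
    rw [add_smul, add_assoc]

variable (hT : TL M c ℓ ς ({a} ∪ part eP) Z) (hℓς : 2 * ℓ ≤ ς) (hp : CDpass M.Φ (cD M.ε z l))
  (hle : cT M.ε z l + outT M.Φ M.ε (cD M.ε z l) ≤ M.T)
include hT hℓς hp hle

/-- The structure after the encounter. -/
theorem graft : Str M c Z (joinR (RC M Z {a}) (RC M Z (part eP)) a (eP (root P)) (cT M.ε z l))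
    ({a} ∪ part eP) (clMrg (clOf {a}) (clOf (part eP)) a (eP (root P)))
    (grafted M.Φ M.ε bD a (eP (root P)) (cT M.ε z l) (cD M.ε z l)) ({a} ∪ part eP) :=
  (h.enc hC hΦ hε hb).graft hC hΦ hε hT hℓς hp hle

/-- The exit in the structure after the encounter. -/
theorem st_exit {i : Idx P} (hi : i ≠ root P) (ht : (lineML M.Φ M.ε P z i).1.1 ≤ M.T) :
    M.st (clMrg (clOf {a}) (clOf (part eP)) a (eP (root P)) (eP i))
      (lineML M.Φ M.ε P z i).1.1 Z (eP i) = (lineML M.Φ M.ε P z i).1.2 := by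
  have hn : eP i ≠ eP (root P) := fun h' => hi (eP.injective h')
  rw [(h.enc hC hΦ hε hb).st₂ hC hΦ hε hT hℓς (mem_part_self i) hn ht, clOf_mem (mem_part_self i)]
  exact h.st_rel hΦ hε i

/-- The exit time of an exit after the encounter. -/
theorem bd_exit {i : Idx P} (hi : i ≠ root P) :
    grafted M.Φ M.ε bD a (eP (root P)) (cT M.ε z l) (cD M.ε z l) (eP i) = rel P z.2 i := by
  rw [Enc.grafted_of_ne (h.ha i) fun h' => hi (eP.injective h'), hb.tr]

/-- **The pair (exit, `l'`).** -/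
theorem pair_el {i : Idx P} (hi : i ≠ root P) :
    Pair M c Z (joinR (RC M Z {a}) (RC M Z (part eP)) a (eP (root P)) (cT M.ε z l))
      ({a} ∪ part eP) (clMrg (clOf {a}) (clOf (part eP)) a (eP (root P)))
      (grafted M.Φ M.ε bD a (eP (root P)) (cT M.ε z l) (cD M.ε z l)) (eP i) a
      (lineML M.Φ M.ε P z i).1 (lineL' M.Φ M.ε (cT M.ε z l) (cX M.ε z l) (cD M.ε z l)) where
  str := (h.graft hC hΦ hε hb hT hℓς hp hle).mono fun k hk => by
    rcases Finset.mem_insert.1 hk with rfl | hk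
    · exact Finset.mem_union_right _ (mem_part_self i)
    · rw [Finset.mem_singleton.1 hk]
      exact Finset.mem_union_left _ (Finset.mem_singleton_self a)
  ne := h.ha i
  bx := (h.bd_exit hC hΦ hε hb hT hℓς hp hle hi).symm
  bY := (if_pos (Or.inl rfl)).le
  lx ht := h.st_exit hC hΦ hε hb hT hℓς hp hle hi ht
  ly ht := by
    change M.st (clMrg (clOf {a}) (clOf (part eP)) a (eP (root P)) a)
      (cT M.ε z l + outT M.Φ M.ε (cD M.ε z l)) Z a = _
    rw [(h.enc hC hΦ hε hb).line_y hC hΦ hε hT hℓς hp hle le_rfl hle, lineAt_self]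

/-- **The pair (exit, `c'`).** -/
theorem pair_ec {i : Idx P} (hi : i ≠ root P) :
    Pair M c Z (joinR (RC M Z {a}) (RC M Z (part eP)) a (eP (root P)) (cT M.ε z l))
      ({a} ∪ part eP) (clMrg (clOf {a}) (clOf (part eP)) a (eP (root P)))
      (grafted M.Φ M.ε bD a (eP (root P)) (cT M.ε z l) (cD M.ε z l)) (eP i) (eP (root P))
      (lineML M.Φ M.ε P z i).1 (lineC' M.Φ M.ε (cT M.ε z l) (cX M.ε z l) (cD M.ε z l)) where
  str := (h.graft hC hΦ hε hb hT hℓς hp hle).mono fun k hk => by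
    rcases Finset.mem_insert.1 hk with rfl | hk
    · exact Finset.mem_union_right _ (mem_part_self i)
    · rw [Finset.mem_singleton.1 hk]
      exact Finset.mem_union_right _ (mem_part_self _)
  ne h' := hi (eP.injective h')
  bx := (h.bd_exit hC hΦ hε hb hT hℓς hp hle hi).symm
  bY := (if_pos (Or.inr rfl)).le
  lx ht := h.st_exit hC hΦ hε hb hT hℓς hp hle hi ht
  ly ht := by
    change M.st (clMrg (clOf {a}) (clOf (part eP)) a (eP (root P)) (eP (root P)))
      (cT M.ε z l + outT M.Φ M.ε (cD M.ε z l)) Z (eP (root P)) = _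
    rw [(h.enc hC hΦ hε hb).line_a hC hΦ hε hT hℓς hp hle le_rfl hle, lineAt_self]

omit hb in
/-- **The pairs of lines of a one-contact structure**: `x` an exit, `y` another line (exit, root
reborn, `l'`, `c'`). -/
theorem pair {i : Idx P} (hi : i ≠ root P) {y : Idx P ⊕ Bool} (hy : y ≠ Sum.inl i) :
    ∃ (R : ℝ → J → J → Prop) (cl : J → Finset J) (bD : J → ℝ),
      Pair M c Z R ({a} ∪ part eP) cl bD (eP i) (oLab eP a y)
        (oneLs M.Φ M.ε P z l (Sum.inl i)).1 (oneLs M.Φ M.ε P z l y).1 := by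
  obtain ⟨bD, hb⟩ := h.exists_bd
  rw [oneLs_exit hi]
  rcases y with j | (_ | _)
  · have hij : i ≠ j := fun h' => hy (by rw [h'])
    by_cases hj : j = root P
    · subst hj
      rw [oneLs_root]
      exact ⟨_, _, _, h.pair_er hC hΦ hε hb hi hp⟩
    · rw [oneLs_exit hj]
      exact ⟨_, _, _, h.pair_ee hC hΦ hε hb hij⟩
  · exact ⟨_, _, _, h.pair_el hC hΦ hε hb hT hℓς hp hle hi⟩
  · exact ⟨_, _, _, h.pair_ec hC hΦ hε hb hT hℓς hp hle hi⟩

end Base1

end Crest.Agent.R122.BasePair45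

end
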