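import Crest.Agent.R122.BoltzGauss_814

/-!
Row 122, Boltzmann side (helper814): measurability and finiteness of the gain operator `Qp`, and
the honest gain/loss split of `collisionOperator` for Gaussian-bounded measurable `h`.
-/

set_option autoImplicit false

open MeasureTheory ProbabilityTheory
open Crest.AnalysisR.Kinetic
open scoped ENNReal Classical

noncomputable section

namespace Crest.Agent.R122.Boltz814

variable {Φ : Space3 → ℝ}

/-- exit velocity, cut off outside the incidence set -/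
def exitOn (Φ : Space3 → ℝ) (p : Space3 × Space3) : Space3 :=
  if p.1 ∈ impactDisc p.2 then exitVelocity Φ p.1 p.2 else p.2

lemma exitOn_of_mem {b g : Space3} (h : b ∈ impactDisc g) :
    exitOn Φ (b, g) = exitVelocity Φ b g := if_pos h

lemma measurable_exitOn (hS : ScatFacts Φ) : Measurable (exitOn Φ) := hS.measurable_exit

/-- post-collisional velocities through `exitOn` -/
def postOn (Φ : Space3 → ℝ) (b v w : Space3) : Space3 × Space3 :=
  ((1 / 2 : ℝ) • (v + w) + (1 / 2 : ℝ) • exitOn Φ (b, v - w),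
    (1 / 2 : ℝ) • (v + w) - (1 / 2 : ℝ) • exitOn Φ (b, v - w))

lemma postOn_of_mem {b v w : Space3} (h : b ∈ impactDisc (v - w)) :
    postOn Φ b v w = postVelocities Φ b v w := by
  unfold postOn postVelocities
  rw [exitOn_of_mem h]

lemma measurable_postOn (hS : ScatFacts Φ) :
    Measurable (fun p : (Space3 × Space3) × Space3 => postOn Φ p.2 p.1.1 p.1.2) := by
  have h1 : Measurable (fun p : (Space3 × Space3) × Space3 =>
      exitOn Φ (p.2, p.1.1 - p.1.2)) :=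
    (measurable_exitOn hS).comp (by fun_prop)
  unfold postOn
  exact ((by fun_prop : Measurable fun p : (Space3 × Space3) × Space3 =>
    (1 / 2 : ℝ) • (p.1.1 + p.1.2)).add (h1.const_smul (1 / 2 : ℝ))).prodMk
    ((by fun_prop : Measurable fun p : (Space3 × Space3) × Space3 =>
    (1 / 2 : ℝ) • (p.1.1 + p.1.2)).sub (h1.const_smul (1 / 2 : ℝ)))

/-- conservation of energy by `postVelocities` -/
lemma norm_sq_post (hS : ScatFacts Φ) {b v w : Space3} (hb : b ∈ impactDisc (v - w))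
    (hvw : v - w ≠ 0) :
    ‖(postVelocities Φ b v w).1‖ ^ 2 + ‖(postVelocities Φ b v w).2‖ ^ 2 =
      ‖v‖ ^ 2 + ‖w‖ ^ 2 := by
  have he := hS.norm_exit b (v - w) hb hvw
  set e := exitVelocity Φ b (v - w) with hedef
  have h1 : ‖(1 / 2 : ℝ) • (v + w) + (1 / 2 : ℝ) • e‖ ^ 2 +
      ‖(1 / 2 : ℝ) • (v + w) - (1 / 2 : ℝ) • e‖ ^ 2 =
      2 * (‖(1 / 2 : ℝ) • (v + w)‖ ^ 2 + ‖(1 / 2 : ℝ) • e‖ ^ 2) := by
    have := parallelogram_law_with_norm ℝ ((1 / 2 : ℝ) • (v + w)) ((1 / 2 : ℝ) • e)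
    nlinarith [this]
  have h2 : ‖v + w‖ ^ 2 + ‖v - w‖ ^ 2 = 2 * (‖v‖ ^ 2 + ‖w‖ ^ 2) := by
    have := parallelogram_law_with_norm ℝ v w
    nlinarith [this]
  show ‖(1 / 2 : ℝ) • (v + w) + (1 / 2 : ℝ) • e‖ ^ 2 +
      ‖(1 / 2 : ℝ) • (v + w) - (1 / 2 : ℝ) • e‖ ^ 2 = _
  rw [h1, norm_smul, norm_smul, mul_pow, mul_pow, he]
  norm_num
  linarith

/-- conservation of momentum by `postVelocities` -/
lemma add_post (Φ : Space3 → ℝ) (b v w : Space3) :
    (postVelocities Φ b v w).1 + (postVelocities Φ b v w).2 = v + w := by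
  unfold postVelocities
  simp only
  module

/-- The inner (disc) integral of the gain operator. -/
def gainInner (Φ : Space3 → ℝ) (h₁ h₂ : Space3 → ℝ≥0∞) (v w : Space3) : ℝ≥0∞ :=
  ∫⁻ b in impactDisc (v - w),
    h₁ (postVelocities Φ b v w).1 * h₂ (postVelocities Φ b v w).2 ∂μHE[2]

lemma Qp_eq (h₁ h₂ : Space3 → ℝ≥0∞) (v : Space3) :
    Qp Φ h₁ h₂ v = ∫⁻ w, ENNReal.ofReal ‖v - w‖ * gainInner Φ h₁ h₂ v w := rfl

lemma gainInner_eq_on (h₁ h₂ : Space3 → ℝ≥0∞) (v w : Space3) :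
    gainInner Φ h₁ h₂ v w = ∫⁻ b in impactDisc (v - w),
      h₁ (postOn Φ b v w).1 * h₂ (postOn Φ b v w).2 ∂μHE[2] := by
  refine setLIntegral_congr_fun (measurableSet_impactDisc _) fun b hb => ?_
  simp only [postOn_of_mem hb]

lemma gainInner_mono {h₁ h₂ k₁ k₂ : Space3 → ℝ≥0∞} (h1 : h₁ ≤ k₁) (h2 : h₂ ≤ k₂)
    (v w : Space3) : gainInner Φ h₁ h₂ v w ≤ gainInner Φ k₁ k₂ v w :=
  lintegral_mono fun _ => mul_le_mul' (h1 _) (h2 _)

lemma Qp_mono {h₁ h₂ k₁ k₂ : Space3 → ℝ≥0∞} (h1 : h₁ ≤ k₁) (h2 : h₂ ≤ k₂) (v : Space3) :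
    Qp Φ h₁ h₂ v ≤ Qp Φ k₁ k₂ v :=
  lintegral_mono fun w => mul_le_mul' le_rfl (gainInner_mono h1 h2 v w)

/-- Joint measurability (with parameters) of the weighted inner gain integral. -/
lemma measurable_gainInner_param (hS : ScatFacts Φ) {α : Type*} [MeasurableSpace α]
    {h₁ h₂ : α × Space3 → ℝ≥0∞} (m₁ : Measurable h₁) (m₂ : Measurable h₂) :
    Measurable (fun p : (α × Space3) × Space3 => ENNReal.ofReal ‖p.1.2 - p.2‖ *
      gainInner Φ (fun u => h₁ (p.1.1, u)) (fun u => h₂ (p.1.1, u)) p.1.2 p.2) := by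
  simp_rw [gainInner_eq_on]
  have hG : Measurable (fun p : (α × Space3) × Space3 => p.1.2 - p.2) := by fun_prop
  have hP : Measurable (fun q : ((α × Space3) × Space3) × Space3 =>
      postOn Φ q.2 q.1.1.2 q.1.2) :=
    (measurable_postOn hS).comp (f := fun q : ((α × Space3) × Space3) × Space3 =>
      ((q.1.1.2, q.1.2), q.2)) (by fun_prop)
  have hF : Measurable (fun q : ((α × Space3) × Space3) × Space3 =>
      h₁ (q.1.1.1, (postOn Φ q.2 q.1.1.2 q.1.2).1) *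
        h₂ (q.1.1.1, (postOn Φ q.2 q.1.1.2 q.1.2).2)) := by
    refine (m₁.comp ?_).mul (m₂.comp ?_)
    · exact (by fun_prop : Measurable fun q : ((α × Space3) × Space3) × Space3 =>
        q.1.1.1).prodMk hP.fst
    · exact (by fun_prop : Measurable fun q : ((α × Space3) × Space3) × Space3 =>
        q.1.1.1).prodMk hP.snd
  exact measurable_norm_mul_lintegral_impactDisc hG hF

/-- Measurability of `Qp` with parameters. -/
lemma measurable_Qp_param (hS : ScatFacts Φ) {α : Type*} [MeasurableSpace α]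
    {h₁ h₂ : α × Space3 → ℝ≥0∞} (m₁ : Measurable h₁) (m₂ : Measurable h₂) :
    Measurable (fun p : α × Space3 =>
      Qp Φ (fun u => h₁ (p.1, u)) (fun u => h₂ (p.1, u)) p.2) :=
  (measurable_gainInner_param hS m₁ m₂).lintegral_prod_right'

lemma measurable_Qp (hS : ScatFacts Φ) {h₁ h₂ : Space3 → ℝ≥0∞} (m₁ : Measurable h₁)
    (m₂ : Measurable h₂) : Measurable (Qp Φ h₁ h₂) := by
  have h : Measurable (fun p : Unit × Space3 => Qp Φ h₁ h₂ p.2) :=
    measurable_Qp_param hS (α := Unit) (h₁ := fun p => h₁ p.2) (h₂ := fun p => h₂ p.2)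
      (m₁.comp measurable_snd) (m₂.comp measurable_snd)
  have h2 : Measurable (fun v : Space3 => ((), v)) := measurable_const.prodMk measurable_id
  have h3 := Measurable.comp h h2
  exact h3

/-- measurability of `w ↦ ‖v - w‖ * gainInner v w` -/
lemma measurable_gainInner (hS : ScatFacts Φ) {h₁ h₂ : Space3 → ℝ≥0∞} (m₁ : Measurable h₁)
    (m₂ : Measurable h₂) (v : Space3) :
    Measurable (fun w => ENNReal.ofReal ‖v - w‖ * gainInner Φ h₁ h₂ v w) := by
  have h : Measurable (fun p : (Unit × Space3) × Space3 =>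
      ENNReal.ofReal ‖p.1.2 - p.2‖ * gainInner Φ h₁ h₂ p.1.2 p.2) :=
    measurable_gainInner_param hS (α := Unit) (h₁ := fun p => h₁ p.2)
      (h₂ := fun p => h₂ p.2) (m₁.comp measurable_snd) (m₂.comp measurable_snd)
  have h2 : Measurable (fun w : Space3 => (((), v), w)) := measurable_const.prodMk measurable_id
  have h3 := Measurable.comp h h2
  exact h3

/-- Gaussian bound for the inner gain integral. -/
lemma gainInner_le (hS : ScatFacts Φ) {h₁ h₂ : Space3 → ℝ≥0∞} {γ : ℝ} {A₁ A₂ : ℝ≥0∞}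
    (b₁ : ∀ u, h₁ u ≤ A₁ * ENNReal.ofReal (Real.exp (-γ * ‖u‖ ^ 2)))
    (b₂ : ∀ u, h₂ u ≤ A₂ * ENNReal.ofReal (Real.exp (-γ * ‖u‖ ^ 2))) {v w : Space3}
    (hvw : v - w ≠ 0) :
    gainInner Φ h₁ h₂ v w ≤ A₁ * A₂ * ENNReal.ofReal Real.pi *
      (ENNReal.ofReal (Real.exp (-γ * ‖v‖ ^ 2)) * ENNReal.ofReal (Real.exp (-γ * ‖w‖ ^ 2))) := by
  have h : ∀ b ∈ impactDisc (v - w),
      h₁ (postVelocities Φ b v w).1 * h₂ (postVelocities Φ b v w).2 ≤ A₁ * A₂ *
      (ENNReal.ofReal (Real.exp (-γ * ‖v‖ ^ 2)) *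
        ENNReal.ofReal (Real.exp (-γ * ‖w‖ ^ 2))) := by
    intro b hb
    have he := norm_sq_post hS hb hvw
    calc h₁ (postVelocities Φ b v w).1 * h₂ (postVelocities Φ b v w).2
        ≤ (A₁ * ENNReal.ofReal (Real.exp (-γ * ‖(postVelocities Φ b v w).1‖ ^ 2))) *
          (A₂ * ENNReal.ofReal (Real.exp (-γ * ‖(postVelocities Φ b v w).2‖ ^ 2))) :=
          mul_le_mul' (b₁ _) (b₂ _)
      _ = A₁ * A₂ * (ENNReal.ofReal (Real.exp (-γ * ‖(postVelocities Φ b v w).1‖ ^ 2)) *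
          ENNReal.ofReal (Real.exp (-γ * ‖(postVelocities Φ b v w).2‖ ^ 2))) := by ring
      _ = A₁ * A₂ * ENNReal.ofReal (Real.exp (-γ * (‖v‖ ^ 2 + ‖w‖ ^ 2))) := by
          rw [← ENNReal.ofReal_mul (Real.exp_nonneg _), ← Real.exp_add, ← mul_add, he]
      _ = _ := by
          rw [mul_add, Real.exp_add, ENNReal.ofReal_mul (Real.exp_nonneg _)]
  calc gainInner Φ h₁ h₂ v w
      ≤ ∫⁻ _b in impactDisc (v - w), A₁ * A₂ *
      (ENNReal.ofReal (Real.exp (-γ * ‖v‖ ^ 2)) *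
        ENNReal.ofReal (Real.exp (-γ * ‖w‖ ^ 2))) ∂μHE[2] :=
        setLIntegral_mono' (measurableSet_impactDisc _) h
    _ = _ := by
        rw [lintegral_const, Measure.restrict_apply_univ, hausdorff_impactDisc hvw]
        ring

/-- Gaussian bound for the gain operator. -/
lemma Qp_le_gauss (hS : ScatFacts Φ) {h₁ h₂ : Space3 → ℝ≥0∞} {γ : ℝ} (hγ : 0 < γ)
    {A₁ A₂ : ℝ≥0∞}
    (b₁ : ∀ u, h₁ u ≤ A₁ * ENNReal.ofReal (Real.exp (-γ * ‖u‖ ^ 2)))
    (b₂ : ∀ u, h₂ u ≤ A₂ * ENNReal.ofReal (Real.exp (-γ * ‖u‖ ^ 2))) (v : Space3) :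
    Qp Φ h₁ h₂ v ≤ A₁ * A₂ * ENNReal.ofReal Real.pi *
      (ENNReal.ofReal (Real.exp (-γ * ‖v‖ ^ 2)) *
        ENNReal.ofReal ((1 + ‖v‖) * gaussMoment γ 1)) := by
  calc Qp Φ h₁ h₂ v = ∫⁻ w, ENNReal.ofReal ‖v - w‖ * gainInner Φ h₁ h₂ v w := rfl
    _ ≤ ∫⁻ w, (A₁ * A₂ * ENNReal.ofReal Real.pi * ENNReal.ofReal (Real.exp (-γ * ‖v‖ ^ 2))) *
        (ENNReal.ofReal ‖v - w‖ * ENNReal.ofReal (Real.exp (-γ * ‖w‖ ^ 2))) := by
        refine lintegral_mono fun w => ?_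
        by_cases hvw : v - w = 0
        · simp [hvw]
        · calc ENNReal.ofReal ‖v - w‖ * gainInner Φ h₁ h₂ v w
              ≤ ENNReal.ofReal ‖v - w‖ * (A₁ * A₂ * ENNReal.ofReal Real.pi *
                (ENNReal.ofReal (Real.exp (-γ * ‖v‖ ^ 2)) *
                ENNReal.ofReal (Real.exp (-γ * ‖w‖ ^ 2)))) := by
                gcongr
                exact gainInner_le hS b₁ b₂ hvw
            _ = _ := by ring
    _ = (A₁ * A₂ * ENNReal.ofReal Real.pi * ENNReal.ofReal (Real.exp (-γ * ‖v‖ ^ 2))) *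
        ∫⁻ w, (ENNReal.ofReal ‖v - w‖ * ENNReal.ofReal (Real.exp (-γ * ‖w‖ ^ 2))) := by
        rw [lintegral_const_mul _ (by fun_prop)]
    _ ≤ (A₁ * A₂ * ENNReal.ofReal Real.pi * ENNReal.ofReal (Real.exp (-γ * ‖v‖ ^ 2))) *
        ENNReal.ofReal ((1 + ‖v‖) * gaussMoment γ 1) := by
        gcongr
        exact lintegral_norm_sub_mul_gauss_le hγ v
    _ = _ := by ring

end Crest.Agent.R122.Boltz814

end
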