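import Crest.Agent.R122.Hid_424
import Crest.Agent.R122.TreeMeas_674
import Crest.Agent.R122.BoltzSplit_814

/-!
# Row 122 (helper974): Gaussian domination of tree parameters

Uniform in `ε ≥ 0` and in the position of the root line.

* `nodeE P p` : sum of the squared outgoing velocities of the partners over the nodes.
* `sum_vels_sq` : conservation of energy along an admissible tree.
* `wt_le` : the weight of a tree is at most `(1 + energy) ^ size`.
* `domG` : the explicit Gaussian majorant, `le_domG`, `lintegral_domG_ne_top`.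
* `Valid.zero` : a valid tree at `ε ≥ 0` is valid at `ε = 0`.
-/

set_option autoImplicit false

open MeasureTheory Set Filter
open scoped ENNReal Topology Classical
open Crest.AnalysisR.Kinetic Crest.Agent.R122.Kin796 Crest.Agent.R122.Disc416
  Crest.Agent.R122.Tree674 Crest.Agent.R122.TreeEps399

noncomputable section

namespace Crest.Agent.R122.TreeDom974

open CTree

variable {Φ : Space3 → ℝ}

/-! ### Energy -/

/-- sum of the squared outgoing velocities of the partners -/
def nodeE : ∀ P : CTree, Par P → ℝ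
  | leaf => fun _ => 0
  | node l r => fun p => ‖p.1.2.1‖ ^ 2 + (nodeE l p.2.1 + nodeE r p.2.2)

theorem nodeE_nonneg : ∀ (P : CTree) (p : Par P), 0 ≤ nodeE P p
  | leaf, _ => le_rfl
  | node l r, p => by
      have h1 := nodeE_nonneg l p.2.1
      have h2 := nodeE_nonneg r p.2.2
      have h3 : 0 ≤ ‖p.1.2.1‖ ^ 2 := by positivity
      simp only [nodeE]
      linarith

theorem energy_node (hΦ : AdmissiblePotential Φ) {v : Space3} {a : NodeP} (h : Adm1 Φ v a) :
    ‖(preV Φ v a).1‖ ^ 2 + ‖(preV Φ v a).2‖ ^ 2 = ‖v‖ ^ 2 + ‖a.2.1‖ ^ 2 := by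
  obtain ⟨hb, hg⟩ := adm1_disc h
  exact Boltz814.norm_sq_post (Scat818.scatFacts hΦ) hb hg

/-- **(D1)** conservation of energy -/
theorem sum_vels_sq (hΦ : AdmissiblePotential Φ) : ∀ {P : CTree} {v : Space3} {p : Par P},
    Adm Φ P v p → ∑ i, ‖vels Φ P v p i‖ ^ 2 = ‖v‖ ^ 2 + nodeE P p
  | leaf, v, p, _ => by
      rw [Finset.sum_eq_single (root leaf)
        (fun b _ hb => absurd (Generic491.idx_leaf b (root leaf)) hb)
        (fun h => absurd (Finset.mem_univ _) h)]
      simp [vels, nodeE]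
  | node l r, v, p, h => by
      obtain ⟨h1, h2, h3⟩ := h
      have e1 := sum_vels_sq hΦ h2
      have e2 := sum_vels_sq hΦ h3
      have e3 := energy_node hΦ h1
      have e4 : ∑ i, ‖vels Φ (node l r) v p i‖ ^ 2 =
          ∑ i, ‖vels Φ l (preV Φ v p.1).1 p.2.1 i‖ ^ 2 +
            ∑ i, ‖vels Φ r (preV Φ v p.1).2 p.2.2 i‖ ^ 2 := Fintype.sum_sum_type _
      rw [e4, e1, e2]
      simp only [nodeE]
      linarith

theorem norm_sub_le_energy (v w : Space3) {E : ℝ} (h : ‖v‖ ^ 2 + ‖w‖ ^ 2 ≤ E) :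
    ‖v - w‖ ≤ 1 + E := by
  have h1 : ‖v - w‖ ≤ ‖v‖ + ‖w‖ := norm_sub_le v w
  nlinarith [sq_nonneg (‖v‖ - 1), sq_nonneg (‖w‖ - 1), sq_nonneg (‖v‖ - 1 / 2),
    sq_nonneg (‖w‖ - 1 / 2)]

/-- **(D2)** -/
theorem wt_le (hΦ : AdmissiblePotential Φ) : ∀ {P : CTree} {v : Space3} {p : Par P} {E : ℝ},
    Adm Φ P v p → ‖v‖ ^ 2 + nodeE P p ≤ E → wt Φ P v p ≤ ENNReal.ofReal ((1 + E) ^ P.size)
  | leaf, v, p, E, _, _ => by simp [wt, size]
  | node l r, v, p, E, h, hE => by
      obtain ⟨h1, h2, h3⟩ := h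
      have e3 := energy_node hΦ h1
      have n1 := nodeE_nonneg l p.2.1
      have n2 := nodeE_nonneg r p.2.2
      simp only [nodeE] at hE
      have p1 : 0 ≤ ‖(preV Φ v p.1).1‖ ^ 2 := by positivity
      have p2 : 0 ≤ ‖(preV Φ v p.1).2‖ ^ 2 := by positivity
      have e1 := wt_le hΦ (E := E) h2 (by linarith)
      have e2 := wt_le hΦ (E := E) h3 (by linarith)
      have hE0 : 0 ≤ E := by
        have : 0 ≤ ‖v‖ ^ 2 := by positivity
        have : 0 ≤ ‖p.1.2.1‖ ^ 2 := by positivity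
        linarith
      have e0 : ‖v - p.1.2.1‖ ≤ 1 + E := norm_sub_le_energy v p.1.2.1 (by linarith)
      calc wt Φ (node l r) v p = ENNReal.ofReal ‖v - p.1.2.1‖ *
            (wt Φ l (preV Φ v p.1).1 p.2.1 * wt Φ r (preV Φ v p.1).2 p.2.2) := rfl
        _ ≤ ENNReal.ofReal (1 + E) *
            (ENNReal.ofReal ((1 + E) ^ l.size) * ENNReal.ofReal ((1 + E) ^ r.size)) := by
          gcongr
        _ = ENNReal.ofReal ((1 + E) ^ (node l r).size) := by
          rw [← ENNReal.ofReal_mul (by positivity), ← ENNReal.ofReal_mul (by positivity)]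
          congr 1
          simp only [size]
          ring

/-! ### Box of the times and impact parameters -/

/-- indicator of `0 < s < T`, `‖y‖ < 1` at one node -/
def box1 (T : ℝ) (a : NodeP) : ℝ≥0∞ :=
  {a : NodeP | a.1 ∈ Ioo 0 T ∧ ‖a.2.2‖ < 1}.indicator 1 a

/-- indicator of `0 < s < T`, `‖y‖ < 1` at all nodes -/
def boxI (T : ℝ) : ∀ P : CTree, Par P → ℝ≥0∞
  | leaf => fun _ => 1
  | node l r => fun p => box1 T p.1 * (boxI T l p.2.1 * boxI T r p.2.2)

theorem box1_of {T : ℝ} {a : NodeP} (h1 : a.1 ∈ Ioo 0 T) (h2 : ‖a.2.2‖ < 1) : box1 T a = 1 := by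
  unfold box1
  rw [indicator_of_mem (show a ∈ {a : NodeP | a.1 ∈ Ioo 0 T ∧ ‖a.2.2‖ < 1} from ⟨h1, h2⟩)]
  rfl

theorem boxI_of_valid {ε T : ℝ} (hε : 0 ≤ ε) : ∀ {P : CTree} {T' : ℝ} {v : Space3} {p : Par P},
    Valid Φ ε P T' v p → T' ≤ T → boxI T P p = 1
  | leaf, _, _, _, _, _ => rfl
  | node l r, T', v, p, h, hT => by
      obtain ⟨⟨h1, h2, h3⟩, h4, h5, h6, h7⟩ := h
      have hs := TreeEps399.sin_le (Φ := Φ) hε v p.1
      have e1 := boxI_of_valid hε (T := T) ⟨h2, h6⟩ (hs.trans (h4.le.trans hT))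
      have e2 := boxI_of_valid hε (T := T) ⟨h3, h7⟩ (hs.trans (h4.le.trans hT))
      simp only [boxI]
      rw [e1, e2, box1_of ⟨lt_of_lt_of_le h5 hs, h4.trans_le hT⟩ h1.1, one_mul, one_mul]

/-- **(D4)** a valid tree is valid at `ε = 0`. -/
theorem ord_zero {ε : ℝ} (hε : 0 ≤ ε) : ∀ {P : CTree} {T T' : ℝ} {v : Space3} {p : Par P},
    Tree674.Ord Φ ε P T v p → T ≤ T' → Tree674.Ord Φ 0 P T' v p
  | leaf, _, _, _, _, _, _ => trivial
  | node l r, T, T', v, p, h, hT => by
      obtain ⟨h1, h2, h3, h4⟩ := h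
      have hs := TreeEps399.sin_le (Φ := Φ) hε v p.1
      refine ⟨h1.trans_le hT, ?_, ?_, ?_⟩
      · rw [sin_zero]; exact h2.trans_le hs
      · rw [sin_zero]; exact ord_zero hε h3 hs
      · rw [sin_zero]; exact ord_zero hε h4 hs

theorem valid_zero {ε : ℝ} (hε : 0 ≤ ε) {P : CTree} {T : ℝ} {v : Space3} {p : Par P}
    (h : Valid Φ ε P T v p) : Valid Φ 0 P T v p := ⟨h.1, ord_zero hε h.2 le_rfl⟩

/-! ### The majorant -/

/-- the Gaussian majorant -/
def domG (C b T : ℝ) (P : CTree) (v : Space3) (p : Par P) : ℝ≥0∞ :=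
  boxI T P p * ENNReal.ofReal (C * Real.exp (-b * (‖v‖ ^ 2 + nodeE P p)))

/-- majorant of the partner velocities only -/
def domP (b T : ℝ) : ∀ P : CTree, Par P → ℝ≥0∞
  | leaf => fun _ => 1
  | node l r => fun p => (box1 T p.1 * ENNReal.ofReal (Real.exp (-b * ‖p.1.2.1‖ ^ 2))) *
      (domP b T l p.2.1 * domP b T r p.2.2)

theorem domP_eq (b T : ℝ) : ∀ (P : CTree) (p : Par P),
    domP b T P p = boxI T P p * ENNReal.ofReal (Real.exp (-b * nodeE P p))
  | leaf, p => by simp [domP, boxI, nodeE]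
  | node l r, p => by
      simp only [domP, boxI, nodeE]
      rw [domP_eq b T l, domP_eq b T r]
      have e : Real.exp (-b * (‖p.1.2.1‖ ^ 2 + (nodeE l p.2.1 + nodeE r p.2.2))) =
          Real.exp (-b * ‖p.1.2.1‖ ^ 2) * (Real.exp (-b * nodeE l p.2.1) *
            Real.exp (-b * nodeE r p.2.2)) := by
        rw [← Real.exp_add, ← Real.exp_add]
        congr 1
        ring
      rw [e, ENNReal.ofReal_mul (Real.exp_nonneg _), ENNReal.ofReal_mul (Real.exp_nonneg _)]
      ring

theorem domG_eq {C : ℝ} (hC : 0 ≤ C) (b T : ℝ) (P : CTree) (v : Space3) (p : Par P) :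
    domG C b T P v p = ENNReal.ofReal (C * Real.exp (-b * ‖v‖ ^ 2)) * domP b T P p := by
  unfold domG
  rw [domP_eq]
  have e : C * Real.exp (-b * (‖v‖ ^ 2 + nodeE P p)) =
      C * Real.exp (-b * ‖v‖ ^ 2) * Real.exp (-b * nodeE P p) := by
    rw [mul_assoc, ← Real.exp_add]
    congr 2
    ring
  rw [e, ENNReal.ofReal_mul (by positivity)]
  ring

theorem measurable_box1 (T : ℝ) : Measurable (box1 T) := by
  refine measurable_one.indicator ?_
  have h1 : MeasurableSet {a : NodeP | a.1 ∈ Ioo 0 T} := measurable_fst measurableSet_Ioo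
  have h2 : MeasurableSet {a : NodeP | ‖a.2.2‖ < 1} :=
    measurableSet_lt (measurable_snd.comp measurable_snd).norm measurable_const
  exact h1.inter h2

theorem measurable_domP (b T : ℝ) : ∀ P : CTree, Measurable (domP b T P)
  | leaf => measurable_const
  | node l r => by
      have h1 : Measurable fun a : NodeP => ENNReal.ofReal (Real.exp (-b * ‖a.2.1‖ ^ 2)) := by
        fun_prop
      have h2 := ((measurable_box1 T).mul h1).comp (measurable_par1 l r)
      exact h2.mul (((measurable_domP b T l).comp (measurable_parL l r)).mul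
        ((measurable_domP b T r).comp (measurable_parR l r)))

theorem lintegral_box_ne_top {b : ℝ} (hb : 0 < b) (T : ℝ) :
    ∫⁻ a : NodeP, box1 T a * ENNReal.ofReal (Real.exp (-b * ‖a.2.1‖ ^ 2)) ≠ ∞ := by
  have e : ∀ a : NodeP, box1 T a * ENNReal.ofReal (Real.exp (-b * ‖a.2.1‖ ^ 2)) =
      (Ioo 0 T).indicator (1 : ℝ → ℝ≥0∞) a.1 *
        (ENNReal.ofReal (Real.exp (-b * ‖a.2.1‖ ^ 2)) *
          (Metric.ball (0 : Plane) 1).indicator (1 : Plane → ℝ≥0∞) a.2.2) := by
    intro a
    by_cases h1 : a.1 ∈ Ioo 0 T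
    · by_cases h2 : ‖a.2.2‖ < 1
      · rw [box1_of h1 h2, indicator_of_mem h1, indicator_of_mem (by simpa using h2)]
        simp
      · rw [indicator_of_notMem (show a.2.2 ∉ Metric.ball (0 : Plane) 1 by simpa using h2)]
        unfold box1
        rw [indicator_of_notMem (fun h => h2 h.2)]
        simp
    · rw [indicator_of_notMem h1]
      unfold box1
      rw [indicator_of_notMem (fun h => h1 h.1)]
      simp
  simp only [e]
  have hm : Measurable fun q : Space3 × Plane => ENNReal.ofReal (Real.exp (-b * ‖q.1‖ ^ 2)) *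
      (Metric.ball (0 : Plane) 1).indicator (1 : Plane → ℝ≥0∞) q.2 :=
    (by fun_prop : Measurable fun q : Space3 × Plane =>
      ENNReal.ofReal (Real.exp (-b * ‖q.1‖ ^ 2))).mul
      ((measurable_one.indicator measurableSet_ball).comp measurable_snd)
  have h1 : ∫⁻ a : NodeP, (Ioo 0 T).indicator (1 : ℝ → ℝ≥0∞) a.1 *
        (ENNReal.ofReal (Real.exp (-b * ‖a.2.1‖ ^ 2)) *
          (Metric.ball (0 : Plane) 1).indicator (1 : Plane → ℝ≥0∞) a.2.2) =
      (∫⁻ s : ℝ, (Ioo 0 T).indicator (1 : ℝ → ℝ≥0∞) s) *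
        ∫⁻ q : Space3 × Plane, ENNReal.ofReal (Real.exp (-b * ‖q.1‖ ^ 2)) *
          (Metric.ball (0 : Plane) 1).indicator (1 : Plane → ℝ≥0∞) q.2 :=
    lintegral_prod_mul (measurable_one.indicator measurableSet_Ioo).aemeasurable hm.aemeasurable
  have h2 : ∫⁻ q : Space3 × Plane, ENNReal.ofReal (Real.exp (-b * ‖q.1‖ ^ 2)) *
          (Metric.ball (0 : Plane) 1).indicator (1 : Plane → ℝ≥0∞) q.2 =
      (∫⁻ w : Space3, ENNReal.ofReal (Real.exp (-b * ‖w‖ ^ 2))) *
        ∫⁻ y : Plane, (Metric.ball (0 : Plane) 1).indicator (1 : Plane → ℝ≥0∞) y :=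
    lintegral_prod_mul (f := fun w : Space3 => ENNReal.ofReal (Real.exp (-b * ‖w‖ ^ 2)))
      (by fun_prop) (measurable_one.indicator measurableSet_ball).aemeasurable
  rw [h1, h2, lintegral_indicator_one measurableSet_Ioo,
    lintegral_indicator_one measurableSet_ball]
  refine ENNReal.mul_ne_top (by simp) (ENNReal.mul_ne_top ?_ measure_ball_lt_top.ne)
  exact (Boltz814.integrable_gauss hb).lintegral_lt_top.ne

theorem lintegral_domP_ne_top {b : ℝ} (hb : 0 < b) (T : ℝ) : ∀ P : CTree,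
    ∫⁻ p : Par P, domP b T P p ≠ ∞
  | leaf => by
      rw [lintegral_par_leaf]
      simp [domP]
  | node l r => by
      have hl := lintegral_domP_ne_top hb T l
      have hr := lintegral_domP_ne_top hb T r
      rw [lintegral_par_node l r (measurable_domP b T (node l r))]
      have e1 : ∀ a : NodeP, ∫⁻ y : Par l × Par r, domP b T (node l r) ((a, y) : Par (node l r)) =
          (box1 T a * ENNReal.ofReal (Real.exp (-b * ‖a.2.1‖ ^ 2))) *
            ((∫⁻ p : Par l, domP b T l p) * ∫⁻ p : Par r, domP b T r p) := by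
        intro a
        have h1 : ∀ y : Par l × Par r, domP b T (node l r) ((a, y) : Par (node l r)) =
            (box1 T a * ENNReal.ofReal (Real.exp (-b * ‖a.2.1‖ ^ 2))) *
              (domP b T l y.1 * domP b T r y.2) := fun y => rfl
        simp only [h1]
        have hm : Measurable fun y : Par l × Par r => domP b T l y.1 * domP b T r y.2 :=
          ((measurable_domP b T l).comp measurable_fst).mul
            ((measurable_domP b T r).comp measurable_snd)
        rw [lintegral_const_mul _ hm]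
        congr 1
        exact lintegral_prod_mul (measurable_domP b T l).aemeasurable
          (measurable_domP b T r).aemeasurable
      simp only [e1]
      have ha : Measurable fun a : NodeP =>
          box1 T a * ENNReal.ofReal (Real.exp (-b * ‖a.2.1‖ ^ 2)) :=
        (measurable_box1 T).mul (by fun_prop)
      rw [lintegral_mul_const _ ha]
      exact ENNReal.mul_ne_top (lintegral_box_ne_top hb T) (ENNReal.mul_ne_top hl hr)

theorem measurable_domG {C : ℝ} (hC : 0 ≤ C) (b T : ℝ) (P : CTree) :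
    Measurable fun z : Space3 × Par P => domG C b T P z.1 z.2 := by
  simp only [domG_eq hC]
  have h1 : Measurable fun v : Space3 => ENNReal.ofReal (C * Real.exp (-b * ‖v‖ ^ 2)) := by
    fun_prop
  exact (h1.comp measurable_fst).mul ((measurable_domP b T P).comp measurable_snd)

/-- **(D3)** integral over the parameters: Gaussian in the root velocity -/
theorem lintegral_domG {C : ℝ} (hC : 0 ≤ C) (b T : ℝ) (P : CTree) (v : Space3) :
    ∫⁻ p : Par P, domG C b T P v p =
      ENNReal.ofReal (C * Real.exp (-b * ‖v‖ ^ 2)) * ∫⁻ p : Par P, domP b T P p := by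
  simp only [domG_eq hC]
  exact lintegral_const_mul _ (measurable_domP b T P)

theorem lintegral_domG_ne_top {C b : ℝ} (hC : 0 ≤ C) (hb : 0 < b) (T : ℝ) (P : CTree) :
    ∫⁻ z : Space3 × Par P, domG C b T P z.1 z.2 ≠ ∞ := by
  have hvol : (volume : Measure (Space3 × Par P)) =
      (volume : Measure Space3).prod (volume : Measure (Par P)) := rfl
  rw [hvol, lintegral_prod _ (measurable_domG hC b T P).aemeasurable]
  simp only [lintegral_domG hC]
  have h1 : Measurable fun v : Space3 => ENNReal.ofReal (C * Real.exp (-b * ‖v‖ ^ 2)) := by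
    fun_prop
  rw [lintegral_mul_const _ h1]
  exact ENNReal.mul_ne_top
    ((Boltz814.integrable_gauss hb).const_mul C).lintegral_lt_top.ne
    (lintegral_domP_ne_top hb T P)

theorem one_add_pow_le {δ E : ℝ} (hδ : 0 < δ) (hE : 0 ≤ E) (k : ℕ) :
    (1 + E) ^ k ≤ (k.factorial / δ ^ k * Real.exp δ) * Real.exp (δ * E) := by
  have h1 := Real.pow_div_factorial_le_exp (δ * (1 + E)) (by positivity) k
  rw [div_le_iff₀ (by positivity), mul_pow] at h1
  have h2 : Real.exp (δ * (1 + E)) = Real.exp δ * Real.exp (δ * E) := by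
    rw [← Real.exp_add]; congr 1; ring
  rw [h2] at h1
  have h3 : 0 < δ ^ k := by positivity
  rw [div_mul_eq_mul_div, div_mul_eq_mul_div, le_div_iff₀ h3]
  nlinarith [h1]

/-- **(D3)** Gaussian majorant, uniform in `ε` and in the position of the root line. -/
theorem le_domG (hΦ : AdmissiblePotential Φ) {C b b' : ℝ} (hC : 0 ≤ C) (hb : b' < b)
    {k : PhasePoint → ℝ≥0∞} (hk : ∀ z, k z ≤ ENNReal.ofReal (C * Real.exp (-b * ‖z.2‖ ^ 2)))
    (P : CTree) :
    ∃ C' : ℝ, 0 ≤ C' ∧ ∀ (ε T T' : ℝ) (ℓ : PhasePoint) (p : Par P), 0 ≤ ε → T' ≤ T →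
      Valid Φ ε P T' ℓ.2 p →
      wt Φ P ℓ.2 p * ∏ i, k (lines Φ ε P ℓ p i) ≤ domG C' b' T P ℓ.2 p := by
  set δ := b - b' with hδdef
  have hδ : 0 < δ := sub_pos.2 hb
  refine ⟨(P.size.factorial / δ ^ P.size * Real.exp δ) * C ^ Fintype.card (Idx P),
    by positivity, fun ε T T' ℓ p hε hT hV => ?_⟩
  set E := ‖ℓ.2‖ ^ 2 + nodeE P p with hE
  have hE0 : 0 ≤ E := by
    have := nodeE_nonneg P p
    positivity
  have h1 := wt_le hΦ (E := E) hV.1 le_rfl
  have h2 : ∏ i, k (lines Φ ε P ℓ p i) ≤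
      ENNReal.ofReal (C ^ Fintype.card (Idx P) * Real.exp (-b * E)) := by
    calc ∏ i, k (lines Φ ε P ℓ p i)
        ≤ ∏ i, ENNReal.ofReal (C * Real.exp (-b * ‖vels Φ P ℓ.2 p i‖ ^ 2)) := by
          refine Finset.prod_le_prod' fun i _ => ?_
          rw [← Hid424.lines_vel ε P ℓ p i]
          exact hk _
      _ = ENNReal.ofReal (∏ i, (C * Real.exp (-b * ‖vels Φ P ℓ.2 p i‖ ^ 2))) := by
          rw [ENNReal.ofReal_prod_of_nonneg fun i _ => by positivity]
      _ = ENNReal.ofReal (C ^ Fintype.card (Idx P) * Real.exp (-b * E)) := by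
          rw [Finset.prod_mul_distrib, Finset.prod_const, Finset.card_univ, ← Real.exp_sum,
            ← Finset.mul_sum, sum_vels_sq hΦ hV.1]
  calc wt Φ P ℓ.2 p * ∏ i, k (lines Φ ε P ℓ p i)
      ≤ ENNReal.ofReal ((1 + E) ^ P.size) *
          ENNReal.ofReal (C ^ Fintype.card (Idx P) * Real.exp (-b * E)) := mul_le_mul' h1 h2
    _ = ENNReal.ofReal ((1 + E) ^ P.size * (C ^ Fintype.card (Idx P) * Real.exp (-b * E))) := by
        rw [← ENNReal.ofReal_mul (by positivity)]
    _ ≤ ENNReal.ofReal ((P.size.factorial / δ ^ P.size * Real.exp δ) *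
          C ^ Fintype.card (Idx P) * Real.exp (-b' * E)) := by
        refine ENNReal.ofReal_le_ofReal ?_
        have h3 := one_add_pow_le hδ hE0 P.size
        have h4 : Real.exp (-b' * E) = Real.exp (δ * E) * Real.exp (-b * E) := by
          rw [← Real.exp_add]; congr 1; rw [hδdef]; ring
        rw [h4]
        calc (1 + E) ^ P.size * (C ^ Fintype.card (Idx P) * Real.exp (-b * E))
            ≤ ((P.size.factorial / δ ^ P.size * Real.exp δ) * Real.exp (δ * E)) *
              (C ^ Fintype.card (Idx P) * Real.exp (-b * E)) := by gcongr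
          _ = _ := by ring
    _ = domG ((P.size.factorial / δ ^ P.size * Real.exp δ) * C ^ Fintype.card (Idx P)) b' T P
          ℓ.2 p := by
        unfold domG
        rw [boxI_of_valid hε hV hT, one_mul]

end Crest.Agent.R122.TreeDom974
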