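import Mathlib
import Crest.Agent.R122.Generic4_491

/-!
Row 122 (helper491), part 5: legs of a straight-line tree; legs of two trees glued at the same root
line are almost surely different lines, except legs attached to the root line by undeflected (or
exchange) nodes only.
-/

set_option autoImplicit false

open MeasureTheory Crest.AnalysisR.Kinetic Set
open scoped Classical ENNReal

noncomputable section

namespace Crest.Agent.R122.Generic491

open Kin796 Kin796.CTree Disc416 Tree674 Kin416 Boltz814

variable {Φ : Space3 → ℝ} {ε : ℝ} {l r : CTree}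

/-! ### Legs -/

/-- legs (straight segments) of a tree -/
def Seg : CTree → Type
  | leaf => Unit
  | node l r => Seg l ⊕ Seg r ⊕ Bool

instance instFintypeSeg : ∀ P : CTree, Fintype (Seg P)
  | leaf => inferInstanceAs (Fintype Unit)
  | node l r => @instFintypeSum _ _ (instFintypeSeg l)
      (@instFintypeSum _ _ (instFintypeSeg r) (inferInstanceAs (Fintype Bool)))

/-- leg of the left branch -/
def segL (l r : CTree) (k : Seg l) : Seg (node l r) := Sum.inl k
/-- leg of the right branch -/
def segR (l r : CTree) (k : Seg r) : Seg (node l r) := Sum.inr (Sum.inl k)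
/-- outgoing leg of the root -/
def segT (l r : CTree) : Seg (node l r) := Sum.inr (Sum.inr true)
/-- outgoing leg of the partner -/
def segF (l r : CTree) : Seg (node l r) := Sum.inr (Sum.inr false)

lemma seg_cases (k : Seg (node l r)) : (∃ k', k = segL l r k') ∨ (∃ k', k = segR l r k') ∨
    k = segT l r ∨ k = segF l r := by
  rcases k with k | k | k
  · exact Or.inl ⟨k, rfl⟩
  · exact Or.inr (Or.inl ⟨k, rfl⟩)
  · cases k with
    | true => exact Or.inr (Or.inr (Or.inl rfl))
    | false => exact Or.inr (Or.inr (Or.inr rfl))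

/-- line (phase point at time `0`) of a leg of the straight-line tree -/
def seg (Φ : Space3 → ℝ) : ∀ P : CTree, PhasePoint → Par P → Seg P → PhasePoint
  | leaf => fun ℓ _ _ => ℓ
  | node l r => fun ℓ p => Sum.elim (seg Φ l (inMap Φ 0 ℓ p.1).1 p.2.1)
      (Sum.elim (seg Φ r (inMap Φ 0 ℓ p.1).2 p.2.2)
        fun b : Bool => if b = true then ℓ else outLine 0 ℓ p.1)

/-- leg followed by the particle `i` at time `u` -/
def legOf : ∀ P : CTree, Par P → ℝ → Idx P → Seg P
  | leaf => fun _ _ _ => ()
  | node l r => fun p u => Sum.elim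
      (fun i => if u ≤ p.1.1 ∨ i ≠ root l then Sum.inl (legOf l p.2.1 u i)
        else Sum.inr (Sum.inr true))
      (fun i => if u ≤ p.1.1 ∨ i ≠ root r then Sum.inr (Sum.inl (legOf r p.2.2 u i))
        else Sum.inr (Sum.inr false))

/-- the leg is attached to the root line by undeflected / exchange nodes only (`v` = velocity of the
root line) -/
def Str (Φ : Space3 → ℝ) : ∀ P : CTree, Space3 → Par P → Seg P → Prop
  | leaf => fun _ _ _ => True
  | node l r => fun v p => Sum.elim
      (fun k => (preV Φ v p.1).1 = v ∧ Str Φ l (preV Φ v p.1).1 p.2.1 k)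
      (Sum.elim (fun k => (preV Φ v p.1).2 = v ∧ Str Φ r (preV Φ v p.1).2 p.2.2 k)
        fun b : Bool => b = true)

lemma seg_leaf (ℓ : PhasePoint) (p : Par leaf) (k : Seg leaf) : seg Φ leaf ℓ p k = ℓ := rfl
lemma seg_segL (ℓ : PhasePoint) (a : NodeP) (pl : Par l) (pr : Par r) (k : Seg l) :
    seg Φ (node l r) ℓ (mkP a pl pr) (segL l r k) = seg Φ l (inMap Φ 0 ℓ a).1 pl k := rfl
lemma seg_segR (ℓ : PhasePoint) (a : NodeP) (pl : Par l) (pr : Par r) (k : Seg r) :
    seg Φ (node l r) ℓ (mkP a pl pr) (segR l r k) = seg Φ r (inMap Φ 0 ℓ a).2 pr k := rfl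
lemma seg_segT (ℓ : PhasePoint) (a : NodeP) (pl : Par l) (pr : Par r) :
    seg Φ (node l r) ℓ (mkP a pl pr) (segT l r) = ℓ := by
  show (if true = true then ℓ else outLine 0 ℓ a) = ℓ
  simp
lemma seg_segF (ℓ : PhasePoint) (a : NodeP) (pl : Par l) (pr : Par r) :
    seg Φ (node l r) ℓ (mkP a pl pr) (segF l r) = outLine 0 ℓ a := by
  show (if false = true then ℓ else outLine 0 ℓ a) = _
  simp

lemma legOf_inl (a : NodeP) (pl : Par l) (pr : Par r) (u : ℝ) (i : Idx l) :
    legOf (node l r) (mkP a pl pr) u (inlI l r i) =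
      if u ≤ a.1 ∨ i ≠ root l then segL l r (legOf l pl u i) else segT l r := rfl
lemma legOf_inr (a : NodeP) (pl : Par l) (pr : Par r) (u : ℝ) (i : Idx r) :
    legOf (node l r) (mkP a pl pr) u (inrI l r i) =
      if u ≤ a.1 ∨ i ≠ root r then segR l r (legOf r pr u i) else segF l r := rfl

lemma str_leaf (v : Space3) (p : Par leaf) (k : Seg leaf) : Str Φ leaf v p k := trivial
lemma str_segL (v : Space3) (a : NodeP) (pl : Par l) (pr : Par r) (k : Seg l) :
    Str Φ (node l r) v (mkP a pl pr) (segL l r k) ↔
      (preV Φ v a).1 = v ∧ Str Φ l (preV Φ v a).1 pl k := Iff.rfl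
lemma str_segR (v : Space3) (a : NodeP) (pl : Par l) (pr : Par r) (k : Seg r) :
    Str Φ (node l r) v (mkP a pl pr) (segR l r k) ↔
      (preV Φ v a).2 = v ∧ Str Φ r (preV Φ v a).2 pr k := Iff.rfl
lemma str_segT (v : Space3) (a : NodeP) (pl : Par l) (pr : Par r) :
    Str Φ (node l r) v (mkP a pl pr) (segT l r) := by
  show true = true
  rfl
lemma str_segF (v : Space3) (a : NodeP) (pl : Par l) (pr : Par r) :
    ¬ Str Φ (node l r) v (mkP a pl pr) (segF l r) := by
  show ¬ (false = true)
  simp

/-- positions and velocities are those of the legs -/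
theorem path_eq_seg (P : CTree) (ℓ : PhasePoint) (p : Par P) (u : ℝ) (i : Idx P) :
    path Φ 0 P ℓ p u i = onLine (seg Φ P ℓ p (legOf P p u i)) u := by
  induction P generalizing ℓ with
  | leaf => rfl
  | node l r hl hr =>
    obtain ⟨a, pl, pr, rfl⟩ := exists_mkP p
    rcases idx_cases i with ⟨i, rfl⟩ | ⟨i, rfl⟩
    · rw [path_inl, legOf_inl, sin_zero']
      by_cases h : u ≤ a.1 ∨ i ≠ root l
      · rw [if_pos h, if_pos h, seg_segL]; exact hl _ _ _
      · rw [if_neg h, if_neg h, seg_segT]
        push Not at h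
        unfold colPath
        rw [if_pos h.1.le]
    · rw [path_inr, legOf_inr, sin_zero']
      by_cases h : u ≤ a.1 ∨ i ≠ root r
      · rw [if_pos h, if_pos h, seg_segR]; exact hr _ _ _
      · rw [if_neg h, if_neg h, seg_segF]
        push Not at h
        unfold colPath
        rw [if_pos h.1.le]

lemma inMap_zero_eq (ℓ : PhasePoint) (a : NodeP) :
    inMap Φ 0 ℓ a = ((ℓ.1 + a.1 • ℓ.2 - a.1 • (preV Φ ℓ.2 a).1, (preV Φ ℓ.2 a).1),
      (ℓ.1 + a.1 • ℓ.2 - a.1 • (preV Φ ℓ.2 a).2, (preV Φ ℓ.2 a).2)) := by
  unfold inMap xin cms sin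
  apply Prod.ext <;> apply Prod.ext <;> simp

/-- straight legs lie on the root line -/
theorem seg_of_str (P : CTree) (ℓ : PhasePoint) (p : Par P) (k : Seg P)
    (h : Str Φ P ℓ.2 p k) : seg Φ P ℓ p k = ℓ := by
  induction P generalizing ℓ with
  | leaf => rfl
  | node l r hl hr =>
    obtain ⟨a, pl, pr, rfl⟩ := exists_mkP p
    rcases seg_cases k with ⟨k, rfl⟩ | ⟨k, rfl⟩ | rfl | rfl
    · rw [str_segL] at h
      have h1 : (inMap Φ 0 ℓ a).1 = ℓ := by
        rw [inMap_zero_eq]
        apply Prod.ext
        · simp only [h.1]; abel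
        · exact h.1
      have h2 : Str Φ l (inMap Φ 0 ℓ a).1.2 pl k := h.2
      rw [seg_segL, hl _ _ _ h2, h1]
    · rw [str_segR] at h
      have h1 : (inMap Φ 0 ℓ a).2 = ℓ := by
        rw [inMap_zero_eq]
        apply Prod.ext
        · simp only [h.1]; abel
        · exact h.1
      have h2 : Str Φ r (inMap Φ 0 ℓ a).2.2 pr k := h.2
      rw [seg_segR, hr _ _ _ h2, h1]
    · rw [seg_segT]
    · exact absurd h (str_segF _ _ _ _)

/-! ### Covariance -/

theorem seg_boost (P : CTree) (A c : Space3) (ℓ : PhasePoint) (p : Par P) (k : Seg P) :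
    seg Φ P (shL A c ℓ) (boostP P c p) k = shL A c (seg Φ P ℓ p k) := by
  induction P generalizing ℓ with
  | leaf => rfl
  | node l r hl hr =>
    obtain ⟨a, pl, pr, rfl⟩ := exists_mkP p
    rw [boostP_mk]
    rcases seg_cases k with ⟨k, rfl⟩ | ⟨k, rfl⟩ | rfl | rfl
    · rw [seg_segL, seg_segL, inMap_boost_fst, hl]
    · rw [seg_segR, seg_segR, inMap_boost_snd, hr]
    · rw [seg_segT, seg_segT]
    · rw [seg_segF, seg_segF, outLine_boost]

theorem legOf_boost (P : CTree) (c : Space3) (p : Par P) (u : ℝ) (i : Idx P) :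
    legOf P (boostP P c p) u i = legOf P p u i := by
  induction P with
  | leaf => rfl
  | node l r hl hr =>
    obtain ⟨a, pl, pr, rfl⟩ := exists_mkP p
    rw [boostP_mk]
    rcases idx_cases i with ⟨i, rfl⟩ | ⟨i, rfl⟩
    · rw [legOf_inl, legOf_inl, hl]; rfl
    · rw [legOf_inr, legOf_inr, hr]; rfl

theorem str_boost (P : CTree) (c v : Space3) (p : Par P) (k : Seg P) :
    Str Φ P (v + c) (boostP P c p) k ↔ Str Φ P v p k := by
  induction P generalizing v with
  | leaf => exact Iff.rfl
  | node l r hl hr =>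
    obtain ⟨a, pl, pr, rfl⟩ := exists_mkP p
    rw [boostP_mk]
    rcases seg_cases k with ⟨k, rfl⟩ | ⟨k, rfl⟩ | rfl | rfl
    · rw [str_segL, str_segL, preV_boost_fst, hl, add_left_inj]
    · rw [str_segR, str_segR, preV_boost_snd, hr, add_left_inj]
    · exact iff_of_true (str_segT _ _ _ _) (str_segT _ _ _ _)
    · exact iff_of_false (str_segF _ _ _ _) (str_segF _ _ _ _)

theorem seg_rest (P : CTree) (ℓ : PhasePoint) (p : Par P) (k : Seg P) :
    seg Φ P ℓ p k = shL ℓ.1 ℓ.2 (seg Φ P 0 (boostP P (-ℓ.2) p) k) := by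
  have h := seg_boost (Φ := Φ) P ℓ.1 ℓ.2 0 (boostP P (-ℓ.2) p) k
  rwa [shL_self, boostP_neg_cancel] at h

theorem str_rest (P : CTree) (v : Space3) (p : Par P) (k : Seg P) :
    Str Φ P v p k ↔ Str Φ P 0 (boostP P (-v) p) k := by
  have h := str_boost (Φ := Φ) P v 0 (boostP P (-v) p) k
  rwa [zero_add, boostP_neg_cancel] at h

/-! ### Measurable versions (root at rest) -/

/-- measurable version of `seg Φ P 0` -/
def segM (Φ : Space3 → ℝ) : ∀ P : CTree, Par P → Seg P → PhasePoint
  | leaf => fun _ _ => 0
  | node l r => fun p => Sum.elim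
      (fun k => shL (-(p.1.1 • vM Φ p.1)) (vM Φ p.1) (segM Φ l (boostP l (-vM Φ p.1) p.2.1) k))
      (Sum.elim
        (fun k => shL (-(p.1.1 • wM Φ p.1)) (wM Φ p.1) (segM Φ r (boostP r (-wM Φ p.1) p.2.2) k))
        fun b : Bool => if b = true then 0 else (-(p.1.1 • p.1.2.1), p.1.2.1))

/-- measurable version of `Str Φ P 0` -/
def StrM (Φ : Space3 → ℝ) : ∀ P : CTree, Par P → Seg P → Prop
  | leaf => fun _ _ => True
  | node l r => fun p => Sum.elim
      (fun k => vM Φ p.1 = 0 ∧ StrM Φ l (boostP l (-vM Φ p.1) p.2.1) k)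
      (Sum.elim (fun k => wM Φ p.1 = 0 ∧ StrM Φ r (boostP r (-wM Φ p.1) p.2.2) k)
        fun b : Bool => b = true)

lemma segM_leaf (p : Par leaf) (k : Seg leaf) : segM Φ leaf p k = 0 := rfl
lemma segM_segL (a : NodeP) (pl : Par l) (pr : Par r) (k : Seg l) :
    segM Φ (node l r) (mkP a pl pr) (segL l r k) =
      shL (-(a.1 • vM Φ a)) (vM Φ a) (segM Φ l (boostP l (-vM Φ a) pl) k) := rfl
lemma segM_segR (a : NodeP) (pl : Par l) (pr : Par r) (k : Seg r) :
    segM Φ (node l r) (mkP a pl pr) (segR l r k) =
      shL (-(a.1 • wM Φ a)) (wM Φ a) (segM Φ r (boostP r (-wM Φ a) pr) k) := rfl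
lemma segM_segT (a : NodeP) (pl : Par l) (pr : Par r) :
    segM Φ (node l r) (mkP a pl pr) (segT l r) = 0 := by
  show (if true = true then (0 : PhasePoint) else (-(a.1 • a.2.1), a.2.1)) = 0
  simp
lemma segM_segF (a : NodeP) (pl : Par l) (pr : Par r) :
    segM Φ (node l r) (mkP a pl pr) (segF l r) = (-(a.1 • a.2.1), a.2.1) := by
  show (if false = true then (0 : PhasePoint) else (-(a.1 • a.2.1), a.2.1)) = _
  simp
lemma strM_segL (a : NodeP) (pl : Par l) (pr : Par r) (k : Seg l) :
    StrM Φ (node l r) (mkP a pl pr) (segL l r k) ↔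
      vM Φ a = 0 ∧ StrM Φ l (boostP l (-vM Φ a) pl) k := Iff.rfl
lemma strM_segR (a : NodeP) (pl : Par l) (pr : Par r) (k : Seg r) :
    StrM Φ (node l r) (mkP a pl pr) (segR l r k) ↔
      wM Φ a = 0 ∧ StrM Φ r (boostP r (-wM Φ a) pr) k := Iff.rfl
lemma strM_segT (a : NodeP) (pl : Par l) (pr : Par r) :
    StrM Φ (node l r) (mkP a pl pr) (segT l r) := by
  show true = true
  rfl
lemma strM_segF (a : NodeP) (pl : Par l) (pr : Par r) :
    ¬ StrM Φ (node l r) (mkP a pl pr) (segF l r) := by
  show ¬ (false = true)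
  simp

theorem segM_eq (P : CTree) (q : Par P) (h : Adm Φ P 0 q) (k : Seg P) :
    seg Φ P 0 q k = segM Φ P q k := by
  induction P with
  | leaf => rfl
  | node l r hl hr =>
    obtain ⟨a, pl, pr, rfl⟩ := exists_mkP q
    rw [adm_node] at h
    have ha := h.1
    rw [preV_zero ha] at h
    rcases seg_cases k with ⟨k, rfl⟩ | ⟨k, rfl⟩ | rfl | rfl
    · have hq1 : Adm Φ l 0 (boostP l (-vM Φ a) pl) := by
        have := (adm_boost (Φ := Φ) l (-vM Φ a) (vM Φ a) pl).2 h.2.1
        rwa [add_neg_cancel] at this
      rw [seg_segL, segM_segL, seg_rest, inMap_zero_fst, preV_zero ha]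
      simp only
      rw [hl _ hq1]
    · have hq1 : Adm Φ r 0 (boostP r (-wM Φ a) pr) := by
        have := (adm_boost (Φ := Φ) r (-wM Φ a) (wM Φ a) pr).2 h.2.2
        rwa [add_neg_cancel] at this
      rw [seg_segR, segM_segR, seg_rest, inMap_zero_snd, preV_zero ha]
      simp only
      rw [hr _ hq1]
    · rw [seg_segT, segM_segT]
    · rw [seg_segF, segM_segF]
      unfold outLine
      apply Prod.ext <;> simp

theorem strM_iff (P : CTree) (q : Par P) (h : Adm Φ P 0 q) (k : Seg P) :
    Str Φ P 0 q k ↔ StrM Φ P q k := by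
  induction P with
  | leaf => exact Iff.rfl
  | node l r hl hr =>
    obtain ⟨a, pl, pr, rfl⟩ := exists_mkP q
    rw [adm_node] at h
    have ha := h.1
    rw [preV_zero ha] at h
    rcases seg_cases k with ⟨k, rfl⟩ | ⟨k, rfl⟩ | rfl | rfl
    · have hq1 : Adm Φ l 0 (boostP l (-vM Φ a) pl) := by
        have := (adm_boost (Φ := Φ) l (-vM Φ a) (vM Φ a) pl).2 h.2.1
        rwa [add_neg_cancel] at this
      rw [str_segL, strM_segL, preV_zero ha, str_rest l (vM Φ a)]
      rw [hl _ hq1]
    · have hq1 : Adm Φ r 0 (boostP r (-wM Φ a) pr) := by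
        have := (adm_boost (Φ := Φ) r (-wM Φ a) (wM Φ a) pr).2 h.2.2
        rwa [add_neg_cancel] at this
      rw [str_segR, strM_segR, preV_zero ha, str_rest r (wM Φ a)]
      rw [hr _ hq1]
    · exact iff_of_true (str_segT _ _ _ _) (strM_segT _ _ _)
    · exact iff_of_false (str_segF _ _ _ _) (strM_segF _ _ _)

theorem segM_of_strM (P : CTree) (q : Par P) (k : Seg P) (h : StrM Φ P q k) :
    segM Φ P q k = 0 := by
  induction P with
  | leaf => rfl
  | node l r hl hr =>
    obtain ⟨a, pl, pr, rfl⟩ := exists_mkP q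
    rcases seg_cases k with ⟨k, rfl⟩ | ⟨k, rfl⟩ | rfl | rfl
    · rw [strM_segL] at h
      rw [segM_segL, hl _ _ h.2, h.1]
      simp
    · rw [strM_segR] at h
      rw [segM_segR, hr _ _ h.2, h.1]
      simp
    · rw [segM_segT]
    · exact absurd h (strM_segF _ _ _)

/-- `segM`, `StrM` in relative coordinates -/
lemma segM_relL (q : Par (node l r)) (k : Seg l) :
    segM Φ (node l r) q (segL l r k) =
      shL (-((relM Φ l r q).1.1 • vM Φ (relM Φ l r q).1)) (vM Φ (relM Φ l r q).1)
        (segM Φ l (relM Φ l r q).2.1 k) := rfl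
lemma segM_relR (q : Par (node l r)) (k : Seg r) :
    segM Φ (node l r) q (segR l r k) =
      shL (-((relM Φ l r q).1.1 • wM Φ (relM Φ l r q).1)) (wM Φ (relM Φ l r q).1)
        (segM Φ r (relM Φ l r q).2.2 k) := rfl

theorem measurable_segM (S : ScatFacts Φ) (P : CTree) (k : Seg P) :
    Measurable fun q : Par P => segM Φ P q k := by
  induction P with
  | leaf => exact measurable_const
  | node l r hl hr =>
    have hm := (measurePreserving_relM S l r).measurable
    have hfst : Measurable fun z : NodeP × (Par l × Par r) => z.1.1 :=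
      measurable_fst.comp measurable_fst
    have hw : Measurable fun z : NodeP × (Par l × Par r) => z.1.2.1 :=
      measurable_fst.comp (measurable_snd.comp measurable_fst)
    have hv1 : Measurable fun z : NodeP × (Par l × Par r) => vM Φ z.1 :=
      (measurable_vM S).comp measurable_fst
    have hw1 : Measurable fun z : NodeP × (Par l × Par r) => wM Φ z.1 :=
      (measurable_wM S).comp measurable_fst
    rcases seg_cases k with ⟨k, rfl⟩ | ⟨k, rfl⟩ | rfl | rfl
    · have h1 : Measurable fun z : NodeP × (Par l × Par r) => segM Φ l z.2.1 k :=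
        (hl k).comp (measurable_fst.comp measurable_snd)
      have h2 : Measurable fun z : NodeP × (Par l × Par r) =>
          shL (-(z.1.1 • vM Φ z.1)) (vM Φ z.1) (segM Φ l z.2.1 k) :=
        ((measurable_fst.comp h1).add (hfst.smul hv1).neg).prodMk
          ((measurable_snd.comp h1).add hv1)
      exact h2.comp hm
    · have h1 : Measurable fun z : NodeP × (Par l × Par r) => segM Φ r z.2.2 k :=
        (hr k).comp (measurable_snd.comp measurable_snd)
      have h2 : Measurable fun z : NodeP × (Par l × Par r) =>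
          shL (-(z.1.1 • wM Φ z.1)) (wM Φ z.1) (segM Φ r z.2.2 k) :=
        ((measurable_fst.comp h1).add (hfst.smul hw1).neg).prodMk
          ((measurable_snd.comp h1).add hw1)
      exact h2.comp hm
    · have : (fun q : Par (node l r) => segM Φ (node l r) q (segT l r)) = fun _ => 0 := by
        ext1 q
        obtain ⟨a, pl, pr, rfl⟩ := exists_mkP q
        exact segM_segT _ _ _
      rw [this]; exact measurable_const
    · have : (fun q : Par (node l r) => segM Φ (node l r) q (segF l r)) =
          fun q => (fun z : NodeP × (Par l × Par r) =>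
            ((-(z.1.1 • z.1.2.1), z.1.2.1) : PhasePoint)) (relM Φ l r q) := by
        ext1 q
        obtain ⟨a, pl, pr, rfl⟩ := exists_mkP q
        exact segM_segF _ _ _
      rw [this]
      exact ((hfst.smul hw).neg.prodMk hw).comp hm

theorem measurableSet_strM (S : ScatFacts Φ) (P : CTree) (k : Seg P) :
    MeasurableSet {q : Par P | StrM Φ P q k} := by
  induction P with
  | leaf =>
    have : {q : Par leaf | StrM Φ leaf q k} = univ := by
      ext q; simp only [mem_ofPred_eq, mem_univ, iff_true]; exact trivial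
    rw [this]; exact MeasurableSet.univ
  | node l r hl hr =>
    have hm := (measurePreserving_relM S l r).measurable
    have hv1 : Measurable fun z : NodeP × (Par l × Par r) => vM Φ z.1 :=
      (measurable_vM S).comp measurable_fst
    have hw1 : Measurable fun z : NodeP × (Par l × Par r) => wM Φ z.1 :=
      (measurable_wM S).comp measurable_fst
    rcases seg_cases k with ⟨k, rfl⟩ | ⟨k, rfl⟩ | rfl | rfl
    · have h1 : MeasurableSet {z : NodeP × (Par l × Par r) | vM Φ z.1 = 0 ∧ StrM Φ l z.2.1 k} :=
        (hv1 (measurableSet_singleton 0)).inter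
          ((measurable_fst.comp measurable_snd) (hl k))
      exact hm h1
    · have h1 : MeasurableSet {z : NodeP × (Par l × Par r) | wM Φ z.1 = 0 ∧ StrM Φ r z.2.2 k} :=
        (hw1 (measurableSet_singleton 0)).inter
          ((measurable_snd.comp measurable_snd) (hr k))
      exact hm h1
    · have : {q : Par (node l r) | StrM Φ (node l r) q (segT l r)} = univ := by
        ext q
        obtain ⟨a, pl, pr, rfl⟩ := exists_mkP q
        simp only [mem_ofPred_eq, mem_univ, iff_true]
        exact strM_segT _ _ _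
      rw [this]; exact MeasurableSet.univ
    · have : {q : Par (node l r) | StrM Φ (node l r) q (segF l r)} = ∅ := by
        ext q
        obtain ⟨a, pl, pr, rfl⟩ := exists_mkP q
        simp only [mem_ofPred_eq, mem_empty_iff_false, iff_false]
        exact strM_segF _ _ _
      rw [this]; exact MeasurableSet.empty

/-! ### Diffuse laws -/

/-- for almost all `(g, y)` (without restriction on `y`), `α g + β g_out` is `0` or not `c` -/
theorem ae_dl_ne (hΦ : AdmissiblePotential Φ) (S : ScatFacts Φ) (α β : ℝ) (c : Space3) :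
    ∀ᵐ p : Space3 × Plane, dl Φ α β p ≠ 0 → dl Φ α β p ≠ c := by
  have h1 := ae_dl hΦ S α β c 0
  have h2 : ∀ᵐ p : Space3 × Plane, p.1 ≠ 0 :=
    (Measure.quasiMeasurePreserving_fst (μ := (volume : Measure Space3))
      (ν := (volume : Measure Plane))).ae ae_ne_zero
  have h3 : ∀ᵐ p : Space3 × Plane, p.1 ≠ (α + β)⁻¹ • c :=
    (Measure.quasiMeasurePreserving_fst (μ := (volume : Measure Space3))
      (ν := (volume : Measure Plane))).ae
      (compl_mem_ae_iff.2 (MeasureTheory.measure_singleton ((α + β)⁻¹ • c)))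
  filter_upwards [h1, h2, h3] with p hp1 hp2 hp3 hne
  by_cases hy : ‖p.2‖ < 1
  · have := hp1 hy hne 0
    simpa using this
  · have hnot : frameMap p.1 p.2 ∉ impactDisc p.1 := by
      intro hmem
      have h4 : ‖frameMap p.1 p.2‖ < 1 := hmem.2
      rw [norm_frameMap hp2] at h4
      exact hy h4
    have hval : dl Φ α β p = (α + β) • p.1 := by
      unfold dl exitM
      rw [if_neg hnot, add_smul]
    intro h
    rw [hval] at h hne
    have hab : α + β ≠ 0 := by
      intro h0
      rw [h0, zero_smul] at hne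
      exact hne rfl
    apply hp3
    rw [← h, smul_smul, inv_mul_cancel₀ hab, one_smul]

lemma ae_gy {p : Space3 × Plane → Prop} (h : ∀ᵐ c : Space3 × Plane, p c) :
    ∀ᵐ a : NodeP, p (gy a) := by
  have hneg : MeasurePreserving (fun c : Space3 => 0 - c) (volume : Measure Space3) volume := by
    have := Measure.measurePreserving_neg (volume : Measure Space3)
    simpa only [zero_sub] using this
  have hqmp : MeasurePreserving (fun c : Space3 × Plane => (0 - c.1, c.2))
      (volume : Measure (Space3 × Plane)) volume :=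
    hneg.prod (MeasurePreserving.id _)
  have h1 := hqmp.quasiMeasurePreserving.ae h
  exact (Measure.quasiMeasurePreserving_snd (μ := (volume : Measure ℝ))
    (ν := (volume : Measure (Space3 × Plane)))).ae h1

theorem ae_vM (hΦ : AdmissiblePotential Φ) (S : ScatFacts Φ) (c : Space3) :
    ∀ᵐ a : NodeP, vM Φ a ≠ 0 → vM Φ a ≠ c := by
  filter_upwards [ae_gy (ae_dl_ne hΦ S (1 / 2) (-(1 / 2)) (-c))] with a ha h1 h2
  exact ha (fun h => h1 (by unfold vM; rw [h, neg_zero]))
    (by rw [← h2]; unfold vM; rw [neg_neg])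

theorem ae_wM (hΦ : AdmissiblePotential Φ) (S : ScatFacts Φ) (c : Space3) :
    ∀ᵐ a : NodeP, wM Φ a ≠ 0 → wM Φ a ≠ c := by
  filter_upwards [ae_gy (ae_dl_ne hΦ S (1 / 2) (1 / 2) (-c))] with a ha h1 h2
  exact ha (fun h => h1 (by unfold wM; rw [h, neg_zero]))
    (by rw [← h2]; unfold wM; rw [neg_neg])

/-- **The law of a leg line is diffuse, except for legs attached to the root line.** -/
theorem ae_segM_ne (hΦ : AdmissiblePotential Φ) (S : ScatFacts Φ) (P : CTree) (k : Seg P)
    (z : PhasePoint) : ∀ᵐ q : Par P, ¬ StrM Φ P q k → segM Φ P q k ≠ z := by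
  induction P generalizing z with
  | leaf => exact Filter.Eventually.of_forall fun q h => absurd trivial h
  | node l r hl hr =>
    have hmp := measurePreserving_relM S l r
    have hfst : Measurable fun z : NodeP × (Par l × Par r) => z.1.1 :=
      measurable_fst.comp measurable_fst
    have hw : Measurable fun z : NodeP × (Par l × Par r) => z.1.2.1 :=
      measurable_fst.comp (measurable_snd.comp measurable_fst)
    have hv1 : Measurable fun z : NodeP × (Par l × Par r) => vM Φ z.1 :=
      (measurable_vM S).comp measurable_fst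
    have hw1 : Measurable fun z : NodeP × (Par l × Par r) => wM Φ z.1 :=
      (measurable_wM S).comp measurable_fst
    rcases seg_cases k with ⟨k, rfl⟩ | ⟨k, rfl⟩ | rfl | rfl
    · -- left branch
      have hs : Measurable fun z : NodeP × (Par l × Par r) => segM Φ l z.2.1 k :=
        (measurable_segM S l k).comp (measurable_fst.comp measurable_snd)
      have h1 : ∀ᵐ b ∂((volume : Measure NodeP).prod
          ((volume : Measure (Par l)).prod (volume : Measure (Par r)))),
          ¬ StrM Φ l b.2.1 k →
            shL (-(b.1.1 • vM Φ b.1)) (vM Φ b.1) (segM Φ l b.2.1 k) ≠ z := by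
        refine ae_prod_of_left ?_ ?_
        · have m1 : MeasurableSet {b : NodeP × (Par l × Par r) | StrM Φ l b.2.1 k} :=
            (measurable_fst.comp measurable_snd) (measurableSet_strM S l k)
          have m2 : MeasurableSet {b : NodeP × (Par l × Par r) |
              shL (-(b.1.1 • vM Φ b.1)) (vM Φ b.1) (segM Φ l b.2.1 k) = z} :=
            (((measurable_fst.comp hs).add (hfst.smul hv1).neg).prodMk
              ((measurable_snd.comp hs).add hv1)) (measurableSet_singleton z)
          have hset : {b : NodeP × (Par l × Par r) | ¬ StrM Φ l b.2.1 k →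
              shL (-(b.1.1 • vM Φ b.1)) (vM Φ b.1) (segM Φ l b.2.1 k) ≠ z} =
              {b | StrM Φ l b.2.1 k} ∪
              {b | shL (-(b.1.1 • vM Φ b.1)) (vM Φ b.1) (segM Φ l b.2.1 k) = z}ᶜ := by
            ext b; simp only [mem_ofPred_eq, mem_union, mem_compl_iff]; tauto
          rw [hset]; exact m1.union m2.compl
        · intro a
          have h2 := (Measure.quasiMeasurePreserving_fst (μ := (volume : Measure (Par l)))
            (ν := (volume : Measure (Par r)))).ae (hl k (shL (a.1 • vM Φ a) (-vM Φ a) z))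
          filter_upwards [h2] with b hb hn h
          apply hb hn
          rw [← h]
          simp
      have h3 : ∀ᵐ b ∂((volume : Measure NodeP).prod
          ((volume : Measure (Par l)).prod (volume : Measure (Par r)))),
          vM Φ b.1 ≠ 0 → vM Φ b.1 ≠ z.2 :=
        (Measure.quasiMeasurePreserving_fst (μ := (volume : Measure NodeP))
          (ν := (volume : Measure (Par l)).prod (volume : Measure (Par r)))).ae
          (ae_vM hΦ S z.2)
      have h1' := hmp.quasiMeasurePreserving.ae h1
      have h3' := hmp.quasiMeasurePreserving.ae h3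
      filter_upwards [h1', h3'] with q f1 f3 hn
      obtain ⟨a, pl, pr, rfl⟩ := exists_mkP q
      rw [relM_mkP] at f1 f3
      rw [strM_segL] at hn
      rw [segM_segL]
      by_cases hk : StrM Φ l (boostP l (-vM Φ a) pl) k
      · have hv : vM Φ a ≠ 0 := fun h => hn ⟨h, hk⟩
        intro h
        apply f3 hv
        rw [segM_of_strM l _ k hk] at h
        rw [← h]; simp
      · exact f1 hk
    · -- right branch
      have hs : Measurable fun z : NodeP × (Par l × Par r) => segM Φ r z.2.2 k :=
        (measurable_segM S r k).comp (measurable_snd.comp measurable_snd)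
      have h1 : ∀ᵐ b ∂((volume : Measure NodeP).prod
          ((volume : Measure (Par l)).prod (volume : Measure (Par r)))),
          ¬ StrM Φ r b.2.2 k →
            shL (-(b.1.1 • wM Φ b.1)) (wM Φ b.1) (segM Φ r b.2.2 k) ≠ z := by
        refine ae_prod_of_left ?_ ?_
        · have m1 : MeasurableSet {b : NodeP × (Par l × Par r) | StrM Φ r b.2.2 k} :=
            (measurable_snd.comp measurable_snd) (measurableSet_strM S r k)
          have m2 : MeasurableSet {b : NodeP × (Par l × Par r) |
              shL (-(b.1.1 • wM Φ b.1)) (wM Φ b.1) (segM Φ r b.2.2 k) = z} :=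
            (((measurable_fst.comp hs).add (hfst.smul hw1).neg).prodMk
              ((measurable_snd.comp hs).add hw1)) (measurableSet_singleton z)
          have hset : {b : NodeP × (Par l × Par r) | ¬ StrM Φ r b.2.2 k →
              shL (-(b.1.1 • wM Φ b.1)) (wM Φ b.1) (segM Φ r b.2.2 k) ≠ z} =
              {b | StrM Φ r b.2.2 k} ∪
              {b | shL (-(b.1.1 • wM Φ b.1)) (wM Φ b.1) (segM Φ r b.2.2 k) = z}ᶜ := by
            ext b; simp only [mem_ofPred_eq, mem_union, mem_compl_iff]; tauto
          rw [hset]; exact m1.union m2.compl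
        · intro a
          have h2 := (Measure.quasiMeasurePreserving_snd (μ := (volume : Measure (Par l)))
            (ν := (volume : Measure (Par r)))).ae (hr k (shL (a.1 • wM Φ a) (-wM Φ a) z))
          filter_upwards [h2] with b hb hn h
          apply hb hn
          rw [← h]
          simp
      have h3 : ∀ᵐ b ∂((volume : Measure NodeP).prod
          ((volume : Measure (Par l)).prod (volume : Measure (Par r)))),
          wM Φ b.1 ≠ 0 → wM Φ b.1 ≠ z.2 :=
        (Measure.quasiMeasurePreserving_fst (μ := (volume : Measure NodeP))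
          (ν := (volume : Measure (Par l)).prod (volume : Measure (Par r)))).ae
          (ae_wM hΦ S z.2)
      have h1' := hmp.quasiMeasurePreserving.ae h1
      have h3' := hmp.quasiMeasurePreserving.ae h3
      filter_upwards [h1', h3'] with q f1 f3 hn
      obtain ⟨a, pl, pr, rfl⟩ := exists_mkP q
      rw [relM_mkP] at f1 f3
      rw [strM_segR] at hn
      rw [segM_segR]
      by_cases hk : StrM Φ r (boostP r (-wM Φ a) pr) k
      · have hv : wM Φ a ≠ 0 := fun h => hn ⟨h, hk⟩
        intro h
        apply f3 hv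
        rw [segM_of_strM r _ k hk] at h
        rw [← h]; simp
      · exact f1 hk
    · refine Filter.Eventually.of_forall fun q hn => absurd ?_ hn
      obtain ⟨a, pl, pr, rfl⟩ := exists_mkP q
      exact strM_segT _ _ _
    · have h2 : ∀ᵐ b ∂((volume : Measure NodeP).prod
          ((volume : Measure (Par l)).prod (volume : Measure (Par r)))), b.1.2.1 ≠ z.2 := by
        refine ae_prod_of_right (hw (measurableSet_singleton z.2).compl) ?_
        intro b
        refine ae_prod_of_left (p := fun a : ℝ × (Space3 × Plane) => a.2.1 ≠ z.2)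
          ((measurable_fst.comp measurable_snd) (measurableSet_singleton z.2).compl) ?_
        intro s
        exact (Measure.quasiMeasurePreserving_fst (μ := (volume : Measure Space3))
          (ν := (volume : Measure Plane))).ae
          (compl_mem_ae_iff.2 (MeasureTheory.measure_singleton z.2))
      filter_upwards [hmp.quasiMeasurePreserving.ae h2] with q hq _ h
      obtain ⟨a, pl, pr, rfl⟩ := exists_mkP q
      rw [relM_mkP] at hq
      rw [segM_segF] at h
      apply hq
      rw [← h]

/-! ### Two trees glued at the same root line -/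

/-- Glued pair in the rest frame. -/
theorem ae_glued_rest (hΦ : AdmissiblePotential Φ) (S : ScatFacts Φ) (P P' : CTree) :
    ∀ᵐ q : Par P × Par P', ∀ (k : Seg P) (k' : Seg P'),
      segM Φ P q.1 k = segM Φ P' q.2 k' → StrM Φ P q.1 k ∧ StrM Φ P' q.2 k' := by
  have : Countable (Seg P) := Finite.to_countable
  have : Countable (Seg P') := Finite.to_countable
  refine ae_all_iff.2 fun k => ae_all_iff.2 fun k' => ?_
  have m1 : MeasurableSet {q : Par P × Par P' | StrM Φ P q.1 k} :=
    measurable_fst (measurableSet_strM S P k)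
  have m2 : MeasurableSet {q : Par P × Par P' | StrM Φ P' q.2 k'} :=
    measurable_snd (measurableSet_strM S P' k')
  have m3 : MeasurableSet {q : Par P × Par P' | segM Φ P q.1 k = segM Φ P' q.2 k'} :=
    measurableSet_eq_fun ((measurable_segM S P k).comp measurable_fst)
      ((measurable_segM S P' k').comp measurable_snd)
  have h1 : ∀ᵐ q : Par P × Par P', ¬ StrM Φ P q.1 k → segM Φ P q.1 k ≠ segM Φ P' q.2 k' := by
    refine ae_prod_of_right ?_ fun b => ae_segM_ne hΦ S P k (segM Φ P' b k')
    have hset : {q : Par P × Par P' | ¬ StrM Φ P q.1 k → segM Φ P q.1 k ≠ segM Φ P' q.2 k'} =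
        {q | StrM Φ P q.1 k} ∪ {q | segM Φ P q.1 k = segM Φ P' q.2 k'}ᶜ := by
      ext b; simp only [mem_ofPred_eq, mem_union, mem_compl_iff]; tauto
    rw [hset]; exact m1.union m3.compl
  have h2 : ∀ᵐ q : Par P × Par P', ¬ StrM Φ P' q.2 k' → segM Φ P q.1 k ≠ segM Φ P' q.2 k' := by
    refine ae_prod_of_left ?_ fun a => ?_
    · have hset : {q : Par P × Par P' | ¬ StrM Φ P' q.2 k' → segM Φ P q.1 k ≠ segM Φ P' q.2 k'} =
          {q | StrM Φ P' q.2 k'} ∪ {q | segM Φ P q.1 k = segM Φ P' q.2 k'}ᶜ := by
        ext b; simp only [mem_ofPred_eq, mem_union, mem_compl_iff]; tauto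
      rw [hset]; exact m2.union m3.compl
    · filter_upwards [ae_segM_ne hΦ S P' k' (segM Φ P a k)] with b hb hn h
      exact hb hn h.symm
  filter_upwards [h1, h2] with q f1 f2 h
  constructor
  · by_contra hn; exact f1 hn h
  · by_contra hn; exact f2 hn h

/-- **Glued pair**: for almost all `(ℓ, p, p')`, two trees with the same root line `ℓ` have no common
leg line, except legs attached to `ℓ` by undeflected / exchange nodes in both trees. -/
theorem ae_glued (hΦ : AdmissiblePotential Φ) (S : ScatFacts Φ) (P P' : CTree) :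
    ∀ᵐ z : PhasePoint × (Par P × Par P'), Adm Φ P z.1.2 z.2.1 → Adm Φ P' z.1.2 z.2.2 →
      ∀ (k : Seg P) (k' : Seg P'), seg Φ P z.1 z.2.1 k = seg Φ P' z.1 z.2.2 k' →
        Str Φ P z.1.2 z.2.1 k ∧ Str Φ P' z.1.2 z.2.2 k' := by
  have hmp : MeasurePreserving (fun z : PhasePoint × (Par P × Par P') =>
      (z.1, (boostP P (-z.1.2) z.2.1, boostP P' (-z.1.2) z.2.2)))
      ((volume : Measure PhasePoint).prod (volume : Measure (Par P × Par P')))
      ((volume : Measure PhasePoint).prod (volume : Measure (Par P × Par P'))) := by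
    refine MeasurePreserving.skew_product (f := id) (MeasurePreserving.id _)
      (g := fun (ℓ : PhasePoint) (q : Par P × Par P') =>
        (boostP P (-ℓ.2) q.1, boostP P' (-ℓ.2) q.2)) ?_ ?_
    · refine Measurable.prodMk ?_ ?_
      · exact (measurable_boostP P).comp
          (f := fun z : PhasePoint × (Par P × Par P') => (-z.1.2, z.2.1))
          ((measurable_snd.comp measurable_fst).neg.prodMk (measurable_fst.comp measurable_snd))
      · exact (measurable_boostP P').comp
          (f := fun z : PhasePoint × (Par P × Par P') => (-z.1.2, z.2.2))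
          ((measurable_snd.comp measurable_fst).neg.prodMk (measurable_snd.comp measurable_snd))
    · exact Filter.Eventually.of_forall fun ℓ =>
        ((measurePreserving_boostP P _).prod (measurePreserving_boostP P' _)).map_eq
  have h1 := ((Measure.quasiMeasurePreserving_snd (μ := (volume : Measure PhasePoint))
    (ν := (volume : Measure (Par P × Par P')))).comp hmp.quasiMeasurePreserving).ae
    (ae_glued_rest hΦ S P P')
  have h2 : (volume : Measure (PhasePoint × (Par P × Par P'))) =
      (volume : Measure PhasePoint).prod (volume : Measure (Par P × Par P')) := rfl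
  rw [h2]
  filter_upwards [h1] with z hz hA hA' k k' h
  have hA1 : Adm Φ P 0 (boostP P (-z.1.2) z.2.1) := by
    have := (adm_boost (Φ := Φ) P (-z.1.2) z.1.2 z.2.1).2 hA
    rwa [add_neg_cancel] at this
  have hA1' : Adm Φ P' 0 (boostP P' (-z.1.2) z.2.2) := by
    have := (adm_boost (Φ := Φ) P' (-z.1.2) z.1.2 z.2.2).2 hA'
    rwa [add_neg_cancel] at this
  rw [seg_rest, seg_rest P'] at h
  have h3 : seg Φ P 0 (boostP P (-z.1.2) z.2.1) k = seg Φ P' 0 (boostP P' (-z.1.2) z.2.2) k' := by
    apply Prod.ext
    · have := congrArg Prod.fst h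
      simpa only [shL_fst, add_left_inj] using this
    · have := congrArg Prod.snd h
      simpa only [shL_snd, add_left_inj] using this
  rw [segM_eq P _ hA1, segM_eq P' _ hA1'] at h3
  have h4 := hz k k' h3
  rw [str_rest, str_rest P', strM_iff P _ hA1, strM_iff P' _ hA1']
  exact h4

/-! ### Meeting times of lines -/

lemma meet_subsingleton {L L' : PhasePoint} (h : L ≠ L') :
    Set.Subsingleton {u : ℝ | (onLine L u).1 = (onLine L' u).1} := by
  intro u hu u' hu'
  simp only [mem_ofPred_eq, onLine] at hu hu'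
  by_contra hne
  apply h
  have h1 : (u - u') • (L.2 - L'.2) = 0 := by
    have : (u - u') • (L.2 - L'.2) = ((L.1 + u • L.2) - (L'.1 + u • L'.2)) -
      ((L.1 + u' • L.2) - (L'.1 + u' • L'.2)) := by module
    rw [this, hu, hu']; simp
  have h2 : L.2 = L'.2 :=
    sub_eq_zero.1 ((smul_eq_zero.1 h1).resolve_left (sub_ne_zero.2 hne))
  apply Prod.ext _ h2
  rw [h2] at hu
  exact add_right_cancel hu

/-- **Finitely many meeting times**: for almost all glued pairs `(ℓ, p, p')`, outside of a finite set
of times a particle of the first tree and a particle of the second one are at the same place only if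
both are on (legs attached to) the root line. -/
theorem ae_glued_times (hΦ : AdmissiblePotential Φ) (S : ScatFacts Φ) (P P' : CTree) :
    ∀ᵐ z : PhasePoint × (Par P × Par P'), Adm Φ P z.1.2 z.2.1 → Adm Φ P' z.1.2 z.2.2 →
      ∃ N : Finset ℝ, ∀ u ∉ N, ∀ (i : Idx P) (j : Idx P'),
        (path Φ 0 P z.1 z.2.1 u i).1 = (path Φ 0 P' z.1 z.2.2 u j).1 →
        Str Φ P z.1.2 z.2.1 (legOf P z.2.1 u i) ∧ Str Φ P' z.1.2 z.2.2 (legOf P' z.2.2 u j) := by
  filter_upwards [ae_glued hΦ S P P'] with z hz hA hA'
  have hz' := hz hA hA'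
  have hfin : ∀ (k : Seg P) (k' : Seg P'), Set.Finite {u : ℝ |
      seg Φ P z.1 z.2.1 k ≠ seg Φ P' z.1 z.2.2 k' ∧
      (onLine (seg Φ P z.1 z.2.1 k) u).1 = (onLine (seg Φ P' z.1 z.2.2 k') u).1} := by
    intro k k'
    by_cases h : seg Φ P z.1 z.2.1 k = seg Φ P' z.1 z.2.2 k'
    · convert Set.finite_empty
      ext u
      simp [h]
    · exact (meet_subsingleton h).finite.subset fun u hu => hu.2
  have hU : Set.Finite (⋃ k : Seg P, ⋃ k' : Seg P', {u : ℝ |
      seg Φ P z.1 z.2.1 k ≠ seg Φ P' z.1 z.2.2 k' ∧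
      (onLine (seg Φ P z.1 z.2.1 k) u).1 = (onLine (seg Φ P' z.1 z.2.2 k') u).1}) :=
    Set.finite_iUnion fun k => Set.finite_iUnion fun k' => hfin k k'
  refine ⟨hU.toFinset, fun u hu i j h => ?_⟩
  rw [path_eq_seg, path_eq_seg] at h
  apply hz'
  by_contra hne
  apply hu
  rw [Set.Finite.mem_toFinset]
  exact mem_iUnion.2 ⟨legOf P z.2.1 u i, mem_iUnion.2 ⟨legOf P' z.2.2 u j, hne, h⟩⟩

end Crest.Agent.R122.Generic491

end
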