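import Mathlib
import Crest.Agent.R122.Generic5_491
import Crest.Agent.R122.Scat4_818

/-!
Row 122 (helper491): closed forms of Theorem C and of the glued-pair theorem.
-/

set_option autoImplicit false

open MeasureTheory Crest.AnalysisR.Kinetic Set
open scoped Classical ENNReal

noncomputable section

namespace Crest.Agent.R122.Generic491

open Kin796 Kin796.CTree Disc416 Tree674 Kin416 Boltz814

variable {Φ : Space3 → ℝ}

/-- **Theorem C** (`Stmt_Gen`). -/
theorem stmtGen : Stmt_Gen := stmt_Gen fun _ hΦ => Scat818.scatFacts hΦ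

/-- almost every valid straight-line tree is generic -/
theorem gen_ae' (hΦ : AdmissiblePotential Φ) (P : CTree) (T : ℝ) :
    ∀ᵐ z : PhasePoint × Par P, Valid Φ 0 P T z.1.2 z.2 → Gen Φ P z.1 z.2 :=
  gen_ae hΦ (Scat818.scatFacts hΦ) P T

/-- for every root line: almost every valid parameter is generic (no exceptional root line) -/
theorem gen_ae_line (hΦ : AdmissiblePotential Φ) (P : CTree) (T : ℝ) (ℓ : PhasePoint) :
    ∀ᵐ p : Par P, Valid Φ 0 P T ℓ.2 p → Gen Φ P ℓ p := by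
  have h := (measurePreserving_boostP P (-ℓ.2)).quasiMeasurePreserving.ae
    (gen_ae_rest hΦ (Scat818.scatFacts hΦ) P T)
  filter_upwards [h] with p hp hV
  rw [gen_rest]
  exact hp ((valid_rest P T ℓ.2 p).1 hV)

/-- **Glued pair** -/
theorem glued' (hΦ : AdmissiblePotential Φ) (P P' : CTree) :
    ∀ᵐ z : PhasePoint × (Par P × Par P'), Adm Φ P z.1.2 z.2.1 → Adm Φ P' z.1.2 z.2.2 →
      ∀ (k : Seg P) (k' : Seg P'), seg Φ P z.1 z.2.1 k = seg Φ P' z.1 z.2.2 k' →
        Str Φ P z.1.2 z.2.1 k ∧ Str Φ P' z.1.2 z.2.2 k' :=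
  ae_glued hΦ (Scat818.scatFacts hΦ) P P'

/-- **Glued pair for EVERY root line** -/
theorem glued_line (hΦ : AdmissiblePotential Φ) (P P' : CTree) (ℓ : PhasePoint) :
    ∀ᵐ z : Par P × Par P', Adm Φ P ℓ.2 z.1 → Adm Φ P' ℓ.2 z.2 →
      ∀ (k : Seg P) (k' : Seg P'), seg Φ P ℓ z.1 k = seg Φ P' ℓ z.2 k' →
        Str Φ P ℓ.2 z.1 k ∧ Str Φ P' ℓ.2 z.2 k' := by
  have hmp := (measurePreserving_boostP P (-ℓ.2)).prod (measurePreserving_boostP P' (-ℓ.2))
  have h1 : ∀ᵐ z : Par P × Par P', ∀ (k : Seg P) (k' : Seg P'),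
      segM Φ P (boostP P (-ℓ.2) z.1) k = segM Φ P' (boostP P' (-ℓ.2) z.2) k' →
        StrM Φ P (boostP P (-ℓ.2) z.1) k ∧ StrM Φ P' (boostP P' (-ℓ.2) z.2) k' :=
    hmp.quasiMeasurePreserving.ae (ae_glued_rest hΦ (Scat818.scatFacts hΦ) P P')
  filter_upwards [h1] with z hz hA hA' k k' h
  have hA1 : Adm Φ P 0 (boostP P (-ℓ.2) z.1) := by
    have := (adm_boost (Φ := Φ) P (-ℓ.2) ℓ.2 z.1).2 hA
    rwa [add_neg_cancel] at this
  have hA1' : Adm Φ P' 0 (boostP P' (-ℓ.2) z.2) := by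
    have := (adm_boost (Φ := Φ) P' (-ℓ.2) ℓ.2 z.2).2 hA'
    rwa [add_neg_cancel] at this
  rw [seg_rest, seg_rest P'] at h
  have h3 : seg Φ P 0 (boostP P (-ℓ.2) z.1) k = seg Φ P' 0 (boostP P' (-ℓ.2) z.2) k' := by
    apply Prod.ext
    · have := congrArg Prod.fst h
      simpa only [shL_fst, add_left_inj] using this
    · have := congrArg Prod.snd h
      simpa only [shL_snd, add_left_inj] using this
  rw [segM_eq P _ hA1, segM_eq P' _ hA1'] at h3
  have h4 := hz k k' h3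
  rw [str_rest, str_rest P', strM_iff P _ hA1, strM_iff P' _ hA1']
  exact h4

/-- leg lines avoid every fixed line, except legs attached to the root line -/
theorem seg_ne_line (hΦ : AdmissiblePotential Φ) (P : CTree) (ℓ z : PhasePoint) :
    ∀ᵐ p : Par P, Adm Φ P ℓ.2 p → ∀ k : Seg P, ¬ Str Φ P ℓ.2 p k → seg Φ P ℓ p k ≠ z := by
  have : Countable (Seg P) := Finite.to_countable
  have h0 : ∀ᵐ q : Par P, ∀ k : Seg P, ¬ StrM Φ P q k →
      segM Φ P q k ≠ shL (-ℓ.1) (-ℓ.2) z :=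
    ae_all_iff.2 fun k => ae_segM_ne hΦ (Scat818.scatFacts hΦ) P k _
  have h := (measurePreserving_boostP P (-ℓ.2)).quasiMeasurePreserving.ae h0
  filter_upwards [h] with p hp hA k hk hz
  have hA1 : Adm Φ P 0 (boostP P (-ℓ.2) p) := by
    have := (adm_boost (Φ := Φ) P (-ℓ.2) ℓ.2 p).2 hA
    rwa [add_neg_cancel] at this
  refine hp k ?_ ?_
  · rwa [← strM_iff P _ hA1, ← str_rest]
  · rw [← segM_eq P _ hA1, ← hz, seg_rest P ℓ p k]
    apply Prod.ext <;> simp

end Crest.Agent.R122.Generic491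

end
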