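import Mathlib

/-!
helper815, row 122: abstract quenched law of large numbers (second moment method on fibres).
-/

set_option autoImplicit false
open MeasureTheory Set Filter
open scoped ENNReal Topology

noncomputable section

namespace Crest.Agent.R122.LLN815

/-! ### Elementary `ℝ≥0∞` inequalities -/

theorem sq_tsub_add (a r : ℝ≥0∞) : (a - r + (r - a)) ^ 2 + 2 * a * r ≤ a ^ 2 + r ^ 2 := by
  rcases le_total a r with h | h
  · rcases eq_or_ne r ∞ with hr | hr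
    · subst hr; simp
    have ha : a ≠ ∞ := ne_top_of_le_ne_top hr h
    rw [tsub_eq_zero_of_le h, zero_add]
    lift a to NNReal using ha
    lift r to NNReal using hr
    have h' : a ≤ r := by exact_mod_cast h
    norm_cast
    obtain ⟨c, rfl⟩ := exists_add_of_le h'
    rw [add_tsub_cancel_left]
    have : c ^ 2 + 2 * a * (a + c) = a ^ 2 + (a + c) ^ 2 := by ring
    exact this.le
  · rcases eq_or_ne a ∞ with ha | ha
    · subst ha; simp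
    have hr : r ≠ ∞ := ne_top_of_le_ne_top ha h
    rw [tsub_eq_zero_of_le h, add_zero]
    lift a to NNReal using ha
    lift r to NNReal using hr
    have h' : r ≤ a := by exact_mod_cast h
    norm_cast
    obtain ⟨c, rfl⟩ := exists_add_of_le h'
    rw [add_tsub_cancel_left]
    have : c ^ 2 + 2 * (r + c) * r = (r + c) ^ 2 + r ^ 2 := by ring
    exact this.le

theorem le_add_sq_div (D : ℝ≥0∞) {δ : ℝ≥0∞} (hδ : δ ≠ 0) (hδ' : δ ≠ ∞) : D ≤ δ + δ⁻¹ * D ^ 2 := by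
  rcases le_total D δ with h | h
  · exact h.trans le_self_add
  · calc D = 1 * D := (one_mul D).symm
      _ = (δ⁻¹ * δ) * D := by rw [ENNReal.inv_mul_cancel hδ hδ']
      _ ≤ (δ⁻¹ * D) * D := by gcongr
      _ = δ⁻¹ * D ^ 2 := by ring
      _ ≤ _ := le_add_self

/-! ### Convergence in mean from first and second moments -/

section Core

variable {ι : Type*} {Ω : ι → Type*} [∀ i, MeasurableSpace (Ω i)] {P : ∀ i, Measure (Ω i)}
  [∀ i, IsProbabilityMeasure (P i)]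

/-- If `E a_i → r` and `E a_i² → r²` then `E |a_i - r| → 0`. -/
theorem core {l : Filter ι} {a : ∀ i, Ω i → ℝ≥0∞} (ha : ∀ i, Measurable (a i)) {r : ℝ≥0∞}
    (hr : r ≠ ∞) (h1 : Tendsto (fun i => ∫⁻ ω, a i ω ∂P i) l (𝓝 r))
    (h2 : Tendsto (fun i => ∫⁻ ω, a i ω ^ 2 ∂P i) l (𝓝 (r ^ 2))) :
    Tendsto (fun i => ∫⁻ ω, ((a i ω - r) + (r - a i ω)) ∂P i) l (𝓝 0) := by
  set D : ∀ i, Ω i → ℝ≥0∞ := fun i ω => (a i ω - r) + (r - a i ω) with hD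
  have hDm : ∀ i, Measurable (D i) := fun i =>
    ((ha i).sub measurable_const).add (measurable_const.sub (ha i))
  -- second moment inequality
  have hkey : ∀ i, (∫⁻ ω, D i ω ^ 2 ∂P i) + 2 * r * ∫⁻ ω, a i ω ∂P i ≤
      (∫⁻ ω, a i ω ^ 2 ∂P i) + r ^ 2 := by
    intro i
    have e1 : 2 * r * ∫⁻ ω, a i ω ∂P i = ∫⁻ ω, 2 * a i ω * r ∂P i := by
      rw [← lintegral_const_mul _ (ha i)]
      refine lintegral_congr fun ω => ?_
      ring
    have e2 : r ^ 2 = ∫⁻ _ω, r ^ 2 ∂P i := by simp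
    rw [e1, e2, ← lintegral_add_left ((hDm i).pow_const 2), ← lintegral_add_left ((ha i).pow_const 2)]
    exact lintegral_mono fun ω => sq_tsub_add (a i ω) r
  have hr2 : r ^ 2 ≠ ∞ := ENNReal.pow_ne_top hr
  have hlimsum : Tendsto (fun i => (∫⁻ ω, a i ω ^ 2 ∂P i) + r ^ 2) l (𝓝 (r ^ 2 + r ^ 2)) :=
    h2.add tendsto_const_nhds
  have hlimprod : Tendsto (fun i => 2 * r * ∫⁻ ω, a i ω ∂P i) l (𝓝 (2 * r * r)) :=
    ENNReal.Tendsto.const_mul h1 (Or.inr (ENNReal.mul_ne_top (by simp) hr))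
  have heq : r ^ 2 + r ^ 2 = 2 * r * r := by ring
  have hsub : Tendsto (fun i => ((∫⁻ ω, a i ω ^ 2 ∂P i) + r ^ 2) - 2 * r * ∫⁻ ω, a i ω ∂P i) l
      (𝓝 0) := by
    have := ENNReal.Tendsto.sub hlimsum hlimprod (Or.inl (by
      exact ENNReal.add_ne_top.2 ⟨hr2, hr2⟩))
    rwa [heq, tsub_self] at this
  have hfin : ∀ᶠ i in l, 2 * r * ∫⁻ ω, a i ω ∂P i ≠ ∞ := by
    have : (2 * r * r) < ∞ := lt_top_iff_ne_top.2 (ENNReal.mul_ne_top (ENNReal.mul_ne_top (by simp) hr) hr)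
    exact (hlimprod.eventually (gt_mem_nhds this)).mono fun i hi => hi.ne
  have hD2 : Tendsto (fun i => ∫⁻ ω, D i ω ^ 2 ∂P i) l (𝓝 0) := by
    refine tendsto_of_tendsto_of_tendsto_of_le_of_le' tendsto_const_nhds hsub
      (Eventually.of_forall fun _ => bot_le) ?_
    filter_upwards [hfin] with i hi
    exact ENNReal.le_sub_of_add_le_right hi (hkey i)
  -- conclusion
  rw [ENNReal.tendsto_nhds_zero]
  intro ε hε
  rcases eq_or_ne ε ∞ with rfl | hε'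
  · exact Eventually.of_forall fun _ => le_top
  set δ : ℝ≥0∞ := ε / 2 with hδ
  have hδ0 : δ ≠ 0 := (ENNReal.half_pos hε.ne').ne'
  have hδt : δ ≠ ∞ := (ENNReal.half_lt_self hε.ne' hε').ne_top
  have hD2' : Tendsto (fun i => δ⁻¹ * ∫⁻ ω, D i ω ^ 2 ∂P i) l (𝓝 (δ⁻¹ * 0)) :=
    ENNReal.Tendsto.const_mul hD2 (Or.inr (ENNReal.inv_ne_top.2 hδ0))
  rw [mul_zero] at hD2'
  have hev : ∀ᶠ i in l, δ⁻¹ * ∫⁻ ω, D i ω ^ 2 ∂P i ≤ δ :=
    (ENNReal.tendsto_nhds_zero.1 hD2') δ (pos_iff_ne_zero.2 hδ0)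
  filter_upwards [hev] with i hi
  calc ∫⁻ ω, ((a i ω - r) + (r - a i ω)) ∂P i ≤ ∫⁻ ω, (δ + δ⁻¹ * D i ω ^ 2) ∂P i :=
        lintegral_mono fun ω => le_add_sq_div (D i ω) hδ0 hδt
    _ = δ + δ⁻¹ * ∫⁻ ω, D i ω ^ 2 ∂P i := by
        rw [lintegral_add_left measurable_const, lintegral_const_mul _ ((hDm i).pow_const 2)]
        simp
    _ ≤ δ + δ := by gcongr
    _ = ε := ENNReal.add_halves ε

end Core

/-! ### Fibre and base versions -/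

section Main

variable {ι : Type*} {Ω : ι → Type*} [∀ i, MeasurableSpace (Ω i)] {P : ∀ i, Measure (Ω i)}
  [∀ i, IsProbabilityMeasure (P i)] {Y Z : Type*} [MeasurableSpace Y] [MeasurableSpace Z]

theorem lintegral_mul_le_of_sq {Ω : Type*} [MeasurableSpace Ω] (P : Measure Ω) {f g : Ω → ℝ≥0∞}
    (hf : AEMeasurable f P) (hg : AEMeasurable g P) {b c : ℝ≥0∞}
    (h1 : ∫⁻ ω, f ω ^ 2 ∂P ≤ b ^ 2) (h2 : ∫⁻ ω, g ω ^ 2 ∂P ≤ c ^ 2) :
    ∫⁻ ω, f ω * g ω ∂P ≤ b * c := by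
  have hcs := ENNReal.lintegral_mul_le_Lp_mul_Lq P (p := 2) (q := 2)
    (by constructor <;> norm_num) hf hg
  simp only [Pi.mul_apply] at hcs
  refine hcs.trans ?_
  have h3 : ∀ x : ℝ≥0∞, (x ^ 2) ^ ((1 : ℝ) / 2) = x := by
    intro x
    rw [← ENNReal.rpow_natCast, ← ENNReal.rpow_mul]
    norm_num
  have h1' : (∫⁻ ω, f ω ^ (2 : ℝ) ∂P) ^ ((1 : ℝ) / 2) ≤ b := by
    calc (∫⁻ ω, f ω ^ (2 : ℝ) ∂P) ^ ((1 : ℝ) / 2) ≤ (b ^ 2) ^ ((1 : ℝ) / 2) := by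
          gcongr
          simpa using h1
      _ = b := h3 b
  have h2' : (∫⁻ ω, g ω ^ (2 : ℝ) ∂P) ^ ((1 : ℝ) / 2) ≤ c := by
    calc (∫⁻ ω, g ω ^ (2 : ℝ) ∂P) ^ ((1 : ℝ) / 2) ≤ (c ^ 2) ^ ((1 : ℝ) / 2) := by
          gcongr
          simpa using h2
      _ = c := h3 c
  exact mul_le_mul' h1' h2'

/-- **Fibre law of large numbers.** First and second moments of `H i ω z` converge, with an `L²`
domination `b`; then `∫ H i ω z dζ(z)` converges to `∫ h dζ` in mean. -/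
theorem fibre {l : Filter ι} [l.IsCountablyGenerated] (ζ : Measure Z) [SFinite ζ]
    {b : Z → ℝ≥0∞} (hb : ∫⁻ z, b z ∂ζ ≠ ∞)
    {H : ∀ i, Ω i → Z → ℝ≥0∞} (hH : ∀ i, Measurable (Function.uncurry (H i)))
    (hHb : ∀ i z, ∫⁻ ω, H i ω z ^ 2 ∂P i ≤ b z ^ 2)
    (hbm : Measurable b) {h : Z → ℝ≥0∞} (hh : Measurable h)
    (h1 : ∀ᵐ z ∂ζ, Tendsto (fun i => ∫⁻ ω, H i ω z ∂P i) l (𝓝 (h z)))
    (h2 : ∀ᵐ z ∂ζ, ∀ᵐ z' ∂ζ, Tendsto (fun i => ∫⁻ ω, H i ω z * H i ω z' ∂P i) l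
      (𝓝 (h z * h z'))) :
    Tendsto (fun i => ∫⁻ ω, (((∫⁻ z, H i ω z ∂ζ) - ∫⁻ z, h z ∂ζ) +
      ((∫⁻ z, h z ∂ζ) - ∫⁻ z, H i ω z ∂ζ)) ∂P i) l (𝓝 0) := by
  rcases l.eq_or_neBot with rfl | hl
  · exact tendsto_bot
  have hHm : ∀ i z, Measurable fun ω => H i ω z := fun i z =>
    (hH i).comp (measurable_id.prodMk measurable_const)
  have hHmz : ∀ i ω, Measurable fun z => H i ω z := fun i ω =>
    (hH i).comp (measurable_const.prodMk measurable_id)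
  -- first moment bound
  have hE1 : ∀ i z, ∫⁻ ω, H i ω z ∂P i ≤ b z := by
    intro i z
    have := lintegral_mul_le_of_sq (P i) (hHm i z).aemeasurable
      (g := fun _ => (1 : ℝ≥0∞)) aemeasurable_const (hHb i z) (c := 1) (by simp)
    simpa using this
  have hE2 : ∀ i z z', ∫⁻ ω, H i ω z * H i ω z' ∂P i ≤ b z * b z' := fun i z z' =>
    lintegral_mul_le_of_sq (P i) (hHm i z).aemeasurable (hHm i z').aemeasurable (hHb i z) (hHb i z')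
  have hhb : ∀ᵐ z ∂ζ, h z ≤ b z := by
    filter_upwards [h1] with z hz
    exact le_of_tendsto hz (Eventually.of_forall fun i => hE1 i z)
  have hr : ∫⁻ z, h z ∂ζ ≠ ∞ := ne_top_of_le_ne_top hb (lintegral_mono_ae hhb)
  have hbfin : ∀ᵐ z ∂ζ, b z < ∞ := ae_lt_top hbm hb
  -- joint measurability of moments
  have hm1 : ∀ i, Measurable fun z => ∫⁻ ω, H i ω z ∂P i := fun i =>
    ((hH i).comp measurable_swap).lintegral_prod_right'
  have hHH : ∀ i, Measurable fun p : (Z × Z) × Ω i => H i p.2 p.1.1 * H i p.2 p.1.2 := fun i =>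
    ((hH i).comp (measurable_snd.prodMk (measurable_fst.comp measurable_fst))).mul
      ((hH i).comp (measurable_snd.prodMk (measurable_snd.comp measurable_fst)))
  have hm2 : ∀ i, Measurable fun p : Z × Z => ∫⁻ ω, H i ω p.1 * H i ω p.2 ∂P i := fun i =>
    (hHH i).lintegral_prod_right'
  have hT1 : Tendsto (fun i => ∫⁻ ω, (∫⁻ z, H i ω z ∂ζ) ∂P i) l (𝓝 (∫⁻ z, h z ∂ζ)) := by
    have e : ∀ i, ∫⁻ ω, (∫⁻ z, H i ω z ∂ζ) ∂P i = ∫⁻ z, (∫⁻ ω, H i ω z ∂P i) ∂ζ := fun i =>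
      lintegral_lintegral_swap (hH i).aemeasurable
    simp_rw [e]
    exact tendsto_lintegral_filter_of_dominated_convergence b (Eventually.of_forall hm1)
      (Eventually.of_forall fun i => Eventually.of_forall fun z => hE1 i z) hb h1
  have hT2 : Tendsto (fun i => ∫⁻ ω, (∫⁻ z, H i ω z ∂ζ) ^ 2 ∂P i) l (𝓝 ((∫⁻ z, h z ∂ζ) ^ 2)) := by
    have e : ∀ i, ∫⁻ ω, (∫⁻ z, H i ω z ∂ζ) ^ 2 ∂P i =
        ∫⁻ z, (∫⁻ z', (∫⁻ ω, H i ω z * H i ω z' ∂P i) ∂ζ) ∂ζ := by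
      intro i
      calc ∫⁻ ω, (∫⁻ z, H i ω z ∂ζ) ^ 2 ∂P i
          = ∫⁻ ω, (∫⁻ p : Z × Z, H i ω p.1 * H i ω p.2 ∂(ζ.prod ζ)) ∂P i := by
            refine lintegral_congr fun ω => ?_
            rw [sq, ← lintegral_prod_mul (hHmz i ω).aemeasurable (hHmz i ω).aemeasurable]
        _ = ∫⁻ p : Z × Z, (∫⁻ ω, H i ω p.1 * H i ω p.2 ∂P i) ∂(ζ.prod ζ) := by
            rw [lintegral_lintegral_swap]
            exact ((hHH i).comp measurable_swap).aemeasurable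
        _ = _ := lintegral_prod _ (hm2 i).aemeasurable
    have e' : (∫⁻ z, h z ∂ζ) ^ 2 = ∫⁻ z, (∫⁻ z', h z * h z' ∂ζ) ∂ζ := by
      simp_rw [lintegral_const_mul _ hh]
      rw [lintegral_mul_const _ hh, sq]
    simp_rw [e]
    rw [e']
    refine tendsto_lintegral_filter_of_dominated_convergence
      (fun z => b z * ∫⁻ z', b z' ∂ζ) (Eventually.of_forall fun i => ?_)
      (Eventually.of_forall fun i => Eventually.of_forall fun z => ?_) ?_ ?_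
    · exact (hm2 i).lintegral_prod_right'
    · rw [← lintegral_const_mul _ hbm]
      exact lintegral_mono fun z' => hE2 i z z'
    · rw [lintegral_mul_const _ hbm]
      exact ENNReal.mul_ne_top hb hb
    · filter_upwards [h2, hbfin] with z hz hbz
      refine tendsto_lintegral_filter_of_dominated_convergence
        (fun z' => b z * b z') (Eventually.of_forall fun i => ?_)
        (Eventually.of_forall fun i => Eventually.of_forall fun z' => hE2 i z z') ?_ hz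
      · exact (hm2 i).comp (measurable_const.prodMk measurable_id)
      · rw [lintegral_const_mul _ hbm]
        exact ENNReal.mul_ne_top hbz.ne hb
  exact core (fun i => (hH i).lintegral_prod_right') hr hT1 hT2

open ProbabilityTheory in
theorem measurable_fibre {Ω : Type*} [MeasurableSpace Ω] (κ : Kernel Y Z) [IsSFiniteKernel κ]
    {H : Ω → Y → Z → ℝ≥0∞} (hH : Measurable fun p : (Ω × Y) × Z => H p.1.1 p.1.2 p.2) :
    Measurable fun p : Ω × Y => ∫⁻ z, H p.1 p.2 z ∂κ p.2 := by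
  have := Measurable.lintegral_kernel_prod_right' (κ := Kernel.prodMkLeft Ω κ) hH
  simpa [Kernel.prodMkLeft_apply] using this

open ProbabilityTheory in
/-- **Quenched law of large numbers over a base.** `Y` is the base (projected variables, seen by the
adversary), `κ y` the fibre measure. -/
theorem base {l : Filter ι} [l.IsCountablyGenerated] (μY : Measure Y) [SFinite μY]
    (κ : Kernel Y Z) [IsSFiniteKernel κ]
    {b : Y → Z → ℝ≥0∞} (hbm : Measurable (Function.uncurry b))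
    (hb : ∫⁻ y, ∫⁻ z, b y z ∂κ y ∂μY ≠ ∞)
    {H : ∀ i, Ω i → Y → Z → ℝ≥0∞}
    (hH : ∀ i, Measurable fun p : (Ω i × Y) × Z => H i p.1.1 p.1.2 p.2)
    (hHb : ∀ i y z, ∫⁻ ω, H i ω y z ^ 2 ∂P i ≤ b y z ^ 2)
    {h : Y → Z → ℝ≥0∞} (hh : Measurable (Function.uncurry h))
    (h1 : ∀ᵐ y ∂μY, ∀ᵐ z ∂κ y, Tendsto (fun i => ∫⁻ ω, H i ω y z ∂P i) l (𝓝 (h y z)))
    (h2 : ∀ᵐ y ∂μY, ∀ᵐ z ∂κ y, ∀ᵐ z' ∂κ y,
      Tendsto (fun i => ∫⁻ ω, H i ω y z * H i ω y z' ∂P i) l (𝓝 (h y z * h y z'))) :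
    Tendsto (fun i => ∫⁻ ω, ∫⁻ y, (((∫⁻ z, H i ω y z ∂κ y) - ∫⁻ z, h y z ∂κ y) +
      ((∫⁻ z, h y z ∂κ y) - ∫⁻ z, H i ω y z ∂κ y)) ∂μY ∂P i) l (𝓝 0) := by
  rcases l.eq_or_neBot with rfl | hl
  · exact tendsto_bot
  have hby : ∀ y, Measurable (b y) := fun y => hbm.comp measurable_prodMk_left
  have hhy : ∀ y, Measurable (h y) := fun y => hh.comp measurable_prodMk_left
  have hρm : ∀ i, Measurable fun p : Ω i × Y => ∫⁻ z, H i p.1 p.2 z ∂κ p.2 := fun i =>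
    measurable_fibre κ (hH i)
  have hρ0 : Measurable fun y => ∫⁻ z, h y z ∂κ y :=
    Measurable.lintegral_kernel_prod_right' (κ := κ) hh
  have hB : Measurable fun y => ∫⁻ z, b y z ∂κ y :=
    Measurable.lintegral_kernel_prod_right' (κ := κ) hbm
  have hDm : ∀ i, Measurable fun p : Ω i × Y =>
      (((∫⁻ z, H i p.1 p.2 z ∂κ p.2) - ∫⁻ z, h p.2 z ∂κ p.2) +
      ((∫⁻ z, h p.2 z ∂κ p.2) - ∫⁻ z, H i p.1 p.2 z ∂κ p.2)) := fun i =>
    ((hρm i).sub (hρ0.comp measurable_snd)).add ((hρ0.comp measurable_snd).sub (hρm i))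
  have hHyz : ∀ i y, Measurable (Function.uncurry fun (ω : Ω i) (z : Z) => H i ω y z) := by
    intro i y
    exact (hH i).comp ((measurable_fst.prodMk measurable_const).prodMk measurable_snd)
  have hHm : ∀ i y z, Measurable fun ω => H i ω y z := fun i y z =>
    (hHyz i y).comp (measurable_id.prodMk measurable_const)
  have hE1 : ∀ i y z, ∫⁻ ω, H i ω y z ∂P i ≤ b y z := by
    intro i y z
    have := lintegral_mul_le_of_sq (P i) (hHm i y z).aemeasurable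
      (g := fun _ => (1 : ℝ≥0∞)) aemeasurable_const (hHb i y z) (c := 1) (by simp)
    simpa using this
  have hhb : ∀ᵐ y ∂μY, (∫⁻ z, h y z ∂κ y) ≤ ∫⁻ z, b y z ∂κ y := by
    filter_upwards [h1] with y hy
    refine lintegral_mono_ae ?_
    filter_upwards [hy] with z hz
    exact le_of_tendsto hz (Eventually.of_forall fun i => hE1 i y z)
  have hbfin : ∀ᵐ y ∂μY, ∫⁻ z, b y z ∂κ y < ∞ := ae_lt_top hB hb
  -- swap
  have e : ∀ i, ∫⁻ ω, ∫⁻ y, (((∫⁻ z, H i ω y z ∂κ y) - ∫⁻ z, h y z ∂κ y) +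
      ((∫⁻ z, h y z ∂κ y) - ∫⁻ z, H i ω y z ∂κ y)) ∂μY ∂P i =
      ∫⁻ y, ∫⁻ ω, (((∫⁻ z, H i ω y z ∂κ y) - ∫⁻ z, h y z ∂κ y) +
      ((∫⁻ z, h y z ∂κ y) - ∫⁻ z, H i ω y z ∂κ y)) ∂P i ∂μY := fun i =>
    lintegral_lintegral_swap (hDm i).aemeasurable
  simp_rw [e]
  have h0 : (0 : ℝ≥0∞) = ∫⁻ _y : Y, 0 ∂μY := by simp
  rw [h0]
  refine tendsto_lintegral_filter_of_dominated_convergence
    (fun y => 2 * ∫⁻ z, b y z ∂κ y) (Eventually.of_forall fun i => ?_)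
    (Eventually.of_forall fun i => ?_) ?_ ?_
  · exact ((hDm i).comp measurable_swap).lintegral_prod_right'
  · filter_upwards [hhb] with y hy
    calc ∫⁻ ω, (((∫⁻ z, H i ω y z ∂κ y) - ∫⁻ z, h y z ∂κ y) +
          ((∫⁻ z, h y z ∂κ y) - ∫⁻ z, H i ω y z ∂κ y)) ∂P i
        ≤ ∫⁻ ω, ((∫⁻ z, H i ω y z ∂κ y) + ∫⁻ z, h y z ∂κ y) ∂P i := by
          refine lintegral_mono fun ω => ?_
          exact add_le_add tsub_le_self tsub_le_self
      _ = (∫⁻ ω, (∫⁻ z, H i ω y z ∂κ y) ∂P i) + ∫⁻ z, h y z ∂κ y := by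
          rw [lintegral_add_right _ measurable_const]
          simp
      _ ≤ (∫⁻ z, b y z ∂κ y) + ∫⁻ z, b y z ∂κ y := by
          gcongr
          rw [lintegral_lintegral_swap (hHyz i y).aemeasurable]
          exact lintegral_mono fun z => hE1 i y z
      _ = 2 * ∫⁻ z, b y z ∂κ y := by ring
  · rw [lintegral_const_mul _ hB]
    exact ENNReal.mul_ne_top (by simp) hb
  · filter_upwards [h1, h2, hbfin] with y hy1 hy2 hyb
    exact fibre (κ y) hyb.ne (hHyz · y) (fun i z => hHb i y z) (hby y) (hhy y) hy1 hy2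

open ProbabilityTheory in
/-- **Adversary form.** Eventually, simultaneously for all adversaries `Θ ≤ 1` depending on the
environment `ω` and on the projected variable `y` only, the quenched fibre measure may be replaced
by the deterministic one up to `δ` (both directions). -/
theorem adversary {l : Filter ι} [l.IsCountablyGenerated] (μY : Measure Y) [SFinite μY]
    (κ : Kernel Y Z) [IsSFiniteKernel κ]
    {b : Y → Z → ℝ≥0∞} (hbm : Measurable (Function.uncurry b))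
    (hb : ∫⁻ y, ∫⁻ z, b y z ∂κ y ∂μY ≠ ∞)
    {H : ∀ i, Ω i → Y → Z → ℝ≥0∞}
    (hH : ∀ i, Measurable fun p : (Ω i × Y) × Z => H i p.1.1 p.1.2 p.2)
    (hHb : ∀ i y z, ∫⁻ ω, H i ω y z ^ 2 ∂P i ≤ b y z ^ 2)
    {h : Y → Z → ℝ≥0∞} (hh : Measurable (Function.uncurry h))
    (h1 : ∀ᵐ y ∂μY, ∀ᵐ z ∂κ y, Tendsto (fun i => ∫⁻ ω, H i ω y z ∂P i) l (𝓝 (h y z)))
    (h2 : ∀ᵐ y ∂μY, ∀ᵐ z ∂κ y, ∀ᵐ z' ∂κ y,
      Tendsto (fun i => ∫⁻ ω, H i ω y z * H i ω y z' ∂P i) l (𝓝 (h y z * h y z')))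
    {δ : ℝ≥0∞} (hδ : 0 < δ) :
    ∀ᶠ i in l, ∀ Θ : Ω i → Y → ℝ≥0∞, (∀ ω y, Θ ω y ≤ 1) →
      (∫⁻ ω, ∫⁻ y, Θ ω y * (∫⁻ z, H i ω y z ∂κ y) ∂μY ∂P i ≤
        (∫⁻ ω, ∫⁻ y, Θ ω y * (∫⁻ z, h y z ∂κ y) ∂μY ∂P i) + δ) ∧
      (∫⁻ ω, ∫⁻ y, Θ ω y * (∫⁻ z, h y z ∂κ y) ∂μY ∂P i ≤
        (∫⁻ ω, ∫⁻ y, Θ ω y * (∫⁻ z, H i ω y z ∂κ y) ∂μY ∂P i) + δ) := by
  have hlim := base μY κ hbm hb hH hHb hh h1 h2
  have hρm : ∀ i, Measurable fun p : Ω i × Y => ∫⁻ z, H i p.1 p.2 z ∂κ p.2 := fun i =>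
    measurable_fibre κ (hH i)
  have hρ0 : Measurable fun y => ∫⁻ z, h y z ∂κ y :=
    Measurable.lintegral_kernel_prod_right' (κ := κ) hh
  have hDm : ∀ i, Measurable fun p : Ω i × Y =>
      (((∫⁻ z, H i p.1 p.2 z ∂κ p.2) - ∫⁻ z, h p.2 z ∂κ p.2) +
      ((∫⁻ z, h p.2 z ∂κ p.2) - ∫⁻ z, H i p.1 p.2 z ∂κ p.2)) := fun i =>
    ((hρm i).sub (hρ0.comp measurable_snd)).add ((hρ0.comp measurable_snd).sub (hρm i))
  filter_upwards [(ENNReal.tendsto_nhds_zero.1 hlim) δ hδ] with i hi Θ hΘ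
  have hgen : ∀ A B : Ω i → Y → ℝ≥0∞, (∀ ω y, A ω y ≤ B ω y +
      (((∫⁻ z, H i ω y z ∂κ y) - ∫⁻ z, h y z ∂κ y) +
      ((∫⁻ z, h y z ∂κ y) - ∫⁻ z, H i ω y z ∂κ y))) →
      ∫⁻ ω, ∫⁻ y, Θ ω y * A ω y ∂μY ∂P i ≤ (∫⁻ ω, ∫⁻ y, Θ ω y * B ω y ∂μY ∂P i) + δ := by
    intro A B hAB
    calc ∫⁻ ω, ∫⁻ y, Θ ω y * A ω y ∂μY ∂P i
        ≤ ∫⁻ ω, ∫⁻ y, (Θ ω y * B ω y + (((∫⁻ z, H i ω y z ∂κ y) - ∫⁻ z, h y z ∂κ y) +
          ((∫⁻ z, h y z ∂κ y) - ∫⁻ z, H i ω y z ∂κ y))) ∂μY ∂P i := by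
          refine lintegral_mono fun ω => lintegral_mono fun y => ?_
          calc Θ ω y * A ω y ≤ Θ ω y * (B ω y + (((∫⁻ z, H i ω y z ∂κ y) - ∫⁻ z, h y z ∂κ y) +
                ((∫⁻ z, h y z ∂κ y) - ∫⁻ z, H i ω y z ∂κ y))) := by gcongr; exact hAB ω y
            _ = Θ ω y * B ω y + Θ ω y * (((∫⁻ z, H i ω y z ∂κ y) - ∫⁻ z, h y z ∂κ y) +
                ((∫⁻ z, h y z ∂κ y) - ∫⁻ z, H i ω y z ∂κ y)) := mul_add _ _ _
            _ ≤ Θ ω y * B ω y + 1 * (((∫⁻ z, H i ω y z ∂κ y) - ∫⁻ z, h y z ∂κ y) +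
                ((∫⁻ z, h y z ∂κ y) - ∫⁻ z, H i ω y z ∂κ y)) := by
                gcongr; exact hΘ ω y
            _ = _ := by rw [one_mul]
      _ = ∫⁻ ω, ((∫⁻ y, Θ ω y * B ω y ∂μY) +
            ∫⁻ y, (((∫⁻ z, H i ω y z ∂κ y) - ∫⁻ z, h y z ∂κ y) +
            ((∫⁻ z, h y z ∂κ y) - ∫⁻ z, H i ω y z ∂κ y)) ∂μY) ∂P i := by
          refine lintegral_congr fun ω => ?_
          exact lintegral_add_right _ ((hDm i).comp measurable_prodMk_left)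
      _ = (∫⁻ ω, ∫⁻ y, Θ ω y * B ω y ∂μY ∂P i) +
            ∫⁻ ω, ∫⁻ y, (((∫⁻ z, H i ω y z ∂κ y) - ∫⁻ z, h y z ∂κ y) +
            ((∫⁻ z, h y z ∂κ y) - ∫⁻ z, H i ω y z ∂κ y)) ∂μY ∂P i := by
          exact lintegral_add_right _ (hDm i).lintegral_prod_right'
      _ ≤ _ := by gcongr
  refine ⟨hgen _ _ fun ω y => ?_, hgen _ _ fun ω y => ?_⟩
  · calc (∫⁻ z, H i ω y z ∂κ y) ≤ (∫⁻ z, h y z ∂κ y) +
          ((∫⁻ z, H i ω y z ∂κ y) - ∫⁻ z, h y z ∂κ y) := le_add_tsub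
      _ ≤ _ := by gcongr; exact le_self_add
  · calc (∫⁻ z, h y z ∂κ y) ≤ (∫⁻ z, H i ω y z ∂κ y) +
          ((∫⁻ z, h y z ∂κ y) - ∫⁻ z, H i ω y z ∂κ y) := le_add_tsub
      _ ≤ _ := by gcongr; exact le_add_self

end Main

end Crest.Agent.R122.LLN815

end
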