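import Mathlib
import Crest.Agent.R122.LLN_815

/-!
helper815, row 122, block Q (quenched densities), part 0: law of large numbers when the one- and
two-point functions converge only in `L¹(dy)` of the base variable, for a.e. pair of fibre points.
-/

set_option autoImplicit false
open MeasureTheory Set Filter
open scoped ENNReal Topology

noncomputable section

namespace Crest.Agent.R122.Quench815

open Crest.Agent.R122.LLN815

/-- symmetric difference in `ℝ≥0∞` -/
def absd (a b : ℝ≥0∞) : ℝ≥0∞ := (a - b) + (b - a)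

theorem absd_comm (a b : ℝ≥0∞) : absd a b = absd b a := add_comm _ _

@[simp] theorem absd_self (a : ℝ≥0∞) : absd a a = 0 := by simp [absd]

theorem le_add_absd (a b : ℝ≥0∞) : a ≤ b + absd a b :=
  le_add_tsub.trans (add_le_add le_rfl le_self_add)

theorem le_add_absd' (a b : ℝ≥0∞) : b ≤ a + absd a b := by
  rw [absd_comm]; exact le_add_absd b a

theorem absd_le_add (a b : ℝ≥0∞) : absd a b ≤ a + b := add_le_add tsub_le_self tsub_le_self

theorem absd_le_iff {a b c : ℝ≥0∞} : absd a b ≤ c ↔ a ≤ b + c ∧ b ≤ a + c := by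
  constructor
  · intro h
    exact ⟨(le_add_absd a b).trans (by gcongr), (le_add_absd' a b).trans (by gcongr)⟩
  · rintro ⟨h1, h2⟩
    unfold absd
    rcases le_total a b with h | h
    · rw [tsub_eq_zero_of_le h, zero_add]
      exact tsub_le_iff_left.2 h2
    · rw [tsub_eq_zero_of_le h, add_zero]
      exact tsub_le_iff_left.2 h1

theorem absd_triangle (a b c : ℝ≥0∞) : absd a c ≤ absd a b + absd b c := by
  rw [absd_le_iff]
  constructor
  · calc a ≤ b + absd a b := le_add_absd a b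
      _ ≤ (c + absd b c) + absd a b := by gcongr; exact le_add_absd b c
      _ = _ := by ring
  · calc c ≤ b + absd b c := le_add_absd' b c
      _ ≤ (a + absd a b) + absd b c := by gcongr; exact le_add_absd' a b
      _ = _ := by ring

theorem absd_add_le (a b x y : ℝ≥0∞) : absd (a + x) (b + y) ≤ absd a b + (x + y) := by
  rw [absd_le_iff]
  constructor
  · calc a + x ≤ (b + absd a b) + x := by gcongr; exact le_add_absd a b
      _ ≤ (b + absd a b) + x + (y + y) := le_self_add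
      _ = b + y + (absd a b + (x + y)) := by ring
  · calc b + y ≤ (a + absd a b) + y := by gcongr; exact le_add_absd' a b
      _ ≤ (a + absd a b) + y + (x + x) := le_self_add
      _ = a + x + (absd a b + (x + y)) := by ring

theorem absd_mul_le (c a b : ℝ≥0∞) : absd (c * a) (c * b) ≤ c * absd a b := by
  rw [absd_le_iff]
  constructor
  · rw [← mul_add]; gcongr; exact le_add_absd a b
  · rw [← mul_add]; gcongr; exact le_add_absd' a b

theorem measurable_absd {α : Type*} [MeasurableSpace α] {f g : α → ℝ≥0∞} (hf : Measurable f)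
    (hg : Measurable g) : Measurable fun x => absd (f x) (g x) :=
  (hf.sub hg).add (hg.sub hf)

theorem absd_lintegral_le {α : Type*} [MeasurableSpace α] (μ : Measure α) {f g : α → ℝ≥0∞}
    (hf : Measurable f) (hg : Measurable g) :
    absd (∫⁻ x, f x ∂μ) (∫⁻ x, g x ∂μ) ≤ ∫⁻ x, absd (f x) (g x) ∂μ := by
  rw [absd_le_iff]
  constructor
  · rw [← lintegral_add_left hg]
    exact lintegral_mono fun x => le_add_absd _ _
  · rw [← lintegral_add_left hf]
    exact lintegral_mono fun x => le_add_absd' _ _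

section Fin

variable {ι : Type*} {Ω : ι → Type*} [∀ i, MeasurableSpace (Ω i)] {P : ∀ i, Measure (Ω i)}
  [∀ i, IsProbabilityMeasure (P i)] {Y Z : Type*} [MeasurableSpace Y] [MeasurableSpace Z]

/-- one world: variance bound. -/
theorem second_le {Ω : Type*} [MeasurableSpace Ω] (P : Measure Ω) [IsProbabilityMeasure P]
    (ζ : Measure Z) [SFinite ζ] {g : Z → ℝ≥0∞} (hg : Measurable g) (hgi : ∫⁻ z, g z ∂ζ ≠ ∞)
    {H : Ω → Z → ℝ≥0∞} (hH : Measurable (Function.uncurry H)) (hH1 : ∀ ω z, H ω z ≤ 1)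
    {h : Z → ℝ≥0∞} (hh : Measurable h) (hh1 : ∀ z, h z ≤ 1) :
    ∫⁻ ω, absd (∫⁻ z, g z * H ω z ∂ζ) (∫⁻ z, g z * h z ∂ζ) ^ 2 ∂P ≤
      ∫⁻ z, ∫⁻ z', g z * g z' * (absd (∫⁻ ω, H ω z * H ω z' ∂P) (h z * h z') +
        2 * absd (∫⁻ ω, H ω z ∂P) (h z)) ∂ζ ∂ζ := by
  set a : Ω → ℝ≥0∞ := fun ω => ∫⁻ z, g z * H ω z ∂ζ with ha
  set r : ℝ≥0∞ := ∫⁻ z, g z * h z ∂ζ with hr
  have hHz : ∀ ω, Measurable fun z => H ω z := fun ω => hH.comp (measurable_const.prodMk measurable_id)
  have hHω : ∀ z, Measurable fun ω => H ω z := fun z => hH.comp (measurable_id.prodMk measurable_const)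
  have ham : Measurable a := by
    have : Measurable (Function.uncurry fun (ω : Ω) (z : Z) => g z * H ω z) :=
      (hg.comp measurable_snd).mul hH
    exact this.lintegral_prod_right'
  have hrfin : r ≠ ∞ := ne_top_of_le_ne_top hgi (lintegral_mono fun z => by
    calc g z * h z ≤ g z * 1 := by gcongr; exact hh1 z
      _ = g z := mul_one _)
  have hale : ∀ ω, a ω ≤ ∫⁻ z, g z ∂ζ := fun ω => lintegral_mono fun z => by
    calc g z * H ω z ≤ g z * 1 := by gcongr; exact hH1 ω z
      _ = g z := mul_one _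
  have hEa : ∫⁻ ω, a ω ∂P ≠ ∞ := by
    refine ne_top_of_le_ne_top hgi ((lintegral_mono hale).trans ?_)
    simp
  -- basic inequality integrated
  have hkey : (∫⁻ ω, absd (a ω) r ^ 2 ∂P) + 2 * (r * ∫⁻ ω, a ω ∂P) ≤ (∫⁻ ω, a ω ^ 2 ∂P) + r ^ 2 := by
    have e1 : 2 * (r * ∫⁻ ω, a ω ∂P) = ∫⁻ ω, 2 * a ω * r ∂P := by
      rw [← mul_assoc, ← lintegral_const_mul _ ham]
      refine lintegral_congr fun ω => ?_
      ring
    have e2 : r ^ 2 = ∫⁻ _ω, r ^ 2 ∂P := by simp
    rw [e1, e2, ← lintegral_add_left ((measurable_absd ham measurable_const).pow_const 2),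
      ← lintegral_add_left (ham.pow_const 2)]
    exact lintegral_mono fun ω => sq_tsub_add (a ω) r
  have hm2 : Measurable fun p : Z × Z => ∫⁻ ω, H ω p.1 * H ω p.2 ∂P := by
    have : Measurable fun q : (Z × Z) × Ω => H q.2 q.1.1 * H q.2 q.1.2 :=
      (hH.comp (measurable_snd.prodMk (measurable_fst.comp measurable_fst))).mul
      (hH.comp (measurable_snd.prodMk (measurable_snd.comp measurable_fst)))
    exact this.lintegral_prod_right'
  have hm1 : Measurable fun z => ∫⁻ ω, H ω z ∂P := (hH.comp measurable_swap).lintegral_prod_right'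
  -- second moment of a
  have hA : ∫⁻ ω, a ω ^ 2 ∂P = ∫⁻ z, ∫⁻ z', g z * g z' * (∫⁻ ω, H ω z * H ω z' ∂P) ∂ζ ∂ζ := by
    calc ∫⁻ ω, a ω ^ 2 ∂P
        = ∫⁻ ω, (∫⁻ p : Z × Z, (g p.1 * H ω p.1) * (g p.2 * H ω p.2) ∂(ζ.prod ζ)) ∂P := by
          refine lintegral_congr fun ω => ?_
          have hm : Measurable fun z => g z * H ω z := hg.mul (hHz ω)
          rw [sq]
          exact (lintegral_prod_mul hm.aemeasurable hm.aemeasurable).symm
      _ = ∫⁻ p : Z × Z, (∫⁻ ω, (g p.1 * H ω p.1) * (g p.2 * H ω p.2) ∂P) ∂(ζ.prod ζ) := by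
          rw [lintegral_lintegral_swap]
          refine Measurable.aemeasurable ?_
          exact (((hg.comp (measurable_fst.comp measurable_snd)).mul
            (hH.comp (measurable_fst.prodMk (measurable_fst.comp measurable_snd)))).mul
            ((hg.comp (measurable_snd.comp measurable_snd)).mul
            (hH.comp (measurable_fst.prodMk (measurable_snd.comp measurable_snd)))))
      _ = ∫⁻ p : Z × Z, g p.1 * g p.2 * (∫⁻ ω, H ω p.1 * H ω p.2 ∂P) ∂(ζ.prod ζ) := by
          refine lintegral_congr fun p => ?_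
          have hm : Measurable fun ω => H ω p.1 * H ω p.2 := (hHω p.1).mul (hHω p.2)
          rw [← lintegral_const_mul _ hm]
          refine lintegral_congr fun ω => ?_
          ring
      _ = _ := by
          rw [lintegral_prod]
          exact (((hg.comp measurable_fst).mul (hg.comp measurable_snd)).mul hm2).aemeasurable
  have hR : r ^ 2 = ∫⁻ z, ∫⁻ z', g z * g z' * (h z * h z') ∂ζ ∂ζ := by
    have hm : Measurable fun z => g z * h z := hg.mul hh
    have : ∀ z z', g z * g z' * (h z * h z') = (g z * h z) * (g z' * h z') := fun z z' => by ring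
    simp_rw [this, lintegral_const_mul _ hm]
    rw [lintegral_mul_const _ hm, sq]
  have hC : r * ∫⁻ ω, a ω ∂P = ∫⁻ z, ∫⁻ z', g z * g z' * ((∫⁻ ω, H ω z ∂P) * h z') ∂ζ ∂ζ := by
    have e3 : ∫⁻ ω, a ω ∂P = ∫⁻ z, g z * (∫⁻ ω, H ω z ∂P) ∂ζ := by
      rw [ha, lintegral_lintegral_swap ((hg.comp measurable_snd).mul hH).aemeasurable]
      refine lintegral_congr fun z => ?_
      rw [lintegral_const_mul _ (hHω z)]
    have : ∀ z z', g z * g z' * ((∫⁻ ω, H ω z ∂P) * h z') =
        (g z * (∫⁻ ω, H ω z ∂P)) * (g z' * h z') := fun z z' => by ring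
    have hm : Measurable fun z => g z * h z := hg.mul hh
    have hm' : Measurable fun z => g z * (∫⁻ ω, H ω z ∂P) := hg.mul hm1
    simp_rw [this, lintegral_const_mul _ hm]
    rw [lintegral_mul_const _ hm', e3, mul_comm]
  -- error terms
  set e2 : ℝ≥0∞ := ∫⁻ z, ∫⁻ z', g z * g z' * absd (∫⁻ ω, H ω z * H ω z' ∂P) (h z * h z') ∂ζ ∂ζ with he2
  set e1 : ℝ≥0∞ := ∫⁻ z, ∫⁻ z', g z * g z' * absd (∫⁻ ω, H ω z ∂P) (h z) ∂ζ ∂ζ with he1
  have hgg : Measurable fun p : Z × Z => g p.1 * g p.2 :=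
    (hg.comp measurable_fst).mul (hg.comp measurable_snd)
  have hhh : Measurable fun p : Z × Z => h p.1 * h p.2 :=
    (hh.comp measurable_fst).mul (hh.comp measurable_snd)
  have hAle : ∫⁻ ω, a ω ^ 2 ∂P ≤ r ^ 2 + e2 := by
    have hmA : Measurable fun p : Z × Z => g p.1 * g p.2 * (h p.1 * h p.2) := hgg.mul hhh
    rw [hA, hR, he2, ← lintegral_add_left]
    · refine lintegral_mono fun z => ?_
      rw [← lintegral_add_left]
      · refine lintegral_mono fun z' => ?_
        rw [← mul_add]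
        gcongr
        exact le_add_absd _ _
      · exact hmA.comp measurable_prodMk_left
    · exact hmA.lintegral_prod_right'
  have hRle : r ^ 2 ≤ r * (∫⁻ ω, a ω ∂P) + e1 := by
    have hmA : Measurable fun p : Z × Z => g p.1 * g p.2 * ((∫⁻ ω, H ω p.1 ∂P) * h p.2) :=
      hgg.mul ((hm1.comp measurable_fst).mul (hh.comp measurable_snd))
    rw [hC, hR, he1, ← lintegral_add_left]
    · refine lintegral_mono fun z => ?_
      rw [← lintegral_add_left]
      · refine lintegral_mono fun z' => ?_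
        rw [← mul_add]
        gcongr
        calc h z * h z' ≤ ((∫⁻ ω, H ω z ∂P) + absd (∫⁻ ω, H ω z ∂P) (h z)) * h z' := by
              gcongr; exact le_add_absd' _ _
          _ = (∫⁻ ω, H ω z ∂P) * h z' + absd (∫⁻ ω, H ω z ∂P) (h z) * h z' := by ring
          _ ≤ (∫⁻ ω, H ω z ∂P) * h z' + absd (∫⁻ ω, H ω z ∂P) (h z) * 1 := by
              gcongr; exact hh1 z'
          _ = _ := by rw [mul_one]
      · exact hmA.comp measurable_prodMk_left
    · exact hmA.lintegral_prod_right'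
  have hCfin : 2 * (r * ∫⁻ ω, a ω ∂P) ≠ ∞ :=
    ENNReal.mul_ne_top (by simp) (ENNReal.mul_ne_top hrfin hEa)
  have hfinal : ∫⁻ ω, absd (a ω) r ^ 2 ∂P ≤ e2 + 2 * e1 := by
    have h1 : (∫⁻ ω, absd (a ω) r ^ 2 ∂P) + 2 * (r * ∫⁻ ω, a ω ∂P) ≤
        (e2 + 2 * e1) + 2 * (r * ∫⁻ ω, a ω ∂P) := by
      calc _ ≤ (∫⁻ ω, a ω ^ 2 ∂P) + r ^ 2 := hkey
        _ ≤ (r ^ 2 + e2) + r ^ 2 := by gcongr
        _ = 2 * r ^ 2 + e2 := by ring
        _ ≤ 2 * (r * (∫⁻ ω, a ω ∂P) + e1) + e2 := by gcongr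
        _ = _ := by ring
    exact (ENNReal.add_le_add_iff_right hCfin).1 h1
  refine hfinal.trans (le_of_eq ?_)
  have hme2 : Measurable fun p : Z × Z =>
      g p.1 * g p.2 * absd (∫⁻ ω, H ω p.1 * H ω p.2 ∂P) (h p.1 * h p.2) :=
    hgg.mul (measurable_absd hm2 hhh)
  have hme1 : Measurable fun p : Z × Z => g p.1 * g p.2 * absd (∫⁻ ω, H ω p.1 ∂P) (h p.1) :=
    hgg.mul (measurable_absd (hm1.comp measurable_fst) (hh.comp measurable_fst))
  rw [he2, he1, ← lintegral_const_mul _ hme1.lintegral_prod_right', ← lintegral_add_left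
    hme2.lintegral_prod_right']
  refine lintegral_congr fun z => ?_
  have hA1 : Measurable fun z' => g z * g z' * absd (∫⁻ ω, H ω z ∂P) (h z) :=
    hme1.comp measurable_prodMk_left
  have hA2 : Measurable fun z' =>
      g z * g z' * absd (∫⁻ ω, H ω z * H ω z' ∂P) (h z * h z') :=
    hme2.comp measurable_prodMk_left
  rw [← lintegral_const_mul _ hA1, ← lintegral_add_left hA2]
  refine lintegral_congr fun z' => ?_
  ring

/-- Finite measures, bounded weight. -/
theorem lln_fin {l : Filter ι} [l.IsCountablyGenerated] (μY : Measure Y) [IsFiniteMeasure μY]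
    (ζ : Measure Z) [IsFiniteMeasure ζ] {g : Y → Z → ℝ≥0∞} (hg : Measurable (Function.uncurry g))
    {M : ℝ≥0∞} (hM : M ≠ ∞) (hgM : ∀ y z, g y z ≤ M)
    {H : ∀ i, Ω i → Y → Z → ℝ≥0∞}
    (hH : ∀ i, Measurable fun p : (Ω i × Y) × Z => H i p.1.1 p.1.2 p.2)
    (hH1 : ∀ i ω y z, H i ω y z ≤ 1)
    {h : Y → Z → ℝ≥0∞} (hh : Measurable (Function.uncurry h)) (hh1 : ∀ y z, h y z ≤ 1)
    (A1 : ∀ᵐ z ∂ζ, Tendsto (fun i => ∫⁻ y, absd (∫⁻ ω, H i ω y z ∂P i) (h y z) ∂μY) l (𝓝 0))
    (A2 : ∀ᵐ z ∂ζ, ∀ᵐ z' ∂ζ, Tendsto (fun i => ∫⁻ y, absd (∫⁻ ω, H i ω y z * H i ω y z' ∂P i)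
      (h y z * h y z') ∂μY) l (𝓝 0)) :
    Tendsto (fun i => ∫⁻ ω, ∫⁻ y, absd (∫⁻ z, g y z * H i ω y z ∂ζ)
      (∫⁻ z, g y z * h y z ∂ζ) ∂μY ∂P i) l (𝓝 0) := by
  have hgy : ∀ y, Measurable (g y) := fun y => hg.comp measurable_prodMk_left
  have hhy : ∀ y, Measurable (h y) := fun y => hh.comp measurable_prodMk_left
  have hHyz : ∀ i y, Measurable (Function.uncurry fun (ω : Ω i) (z : Z) => H i ω y z) := by
    intro i y
    exact (hH i).comp ((measurable_fst.prodMk measurable_const).prodMk measurable_snd)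
  -- measurability of the two error functions
  have hE1 : ∀ i, Measurable fun p : Y × Z => ∫⁻ ω, H i ω p.1 p.2 ∂P i := by
    intro i
    have : Measurable fun q : (Y × Z) × Ω i => H i q.2 q.1.1 q.1.2 :=
      (hH i).comp ((measurable_snd.prodMk (measurable_fst.comp measurable_fst)).prodMk
        (measurable_snd.comp measurable_fst))
    exact this.lintegral_prod_right'
  have hE2 : ∀ i, Measurable fun p : (Z × Z) × Y =>
      ∫⁻ ω, H i ω p.2 p.1.1 * H i ω p.2 p.1.2 ∂P i := by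
    intro i
    have : Measurable fun q : ((Z × Z) × Y) × Ω i =>
        H i q.2 q.1.2 q.1.1.1 * H i q.2 q.1.2 q.1.1.2 := by
      refine Measurable.mul ?_ ?_
      · exact (hH i).comp ((measurable_snd.prodMk (measurable_snd.comp measurable_fst)).prodMk
          (measurable_fst.comp (measurable_fst.comp measurable_fst)))
      · exact (hH i).comp ((measurable_snd.prodMk (measurable_snd.comp measurable_fst)).prodMk
          (measurable_snd.comp (measurable_fst.comp measurable_fst)))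
    exact this.lintegral_prod_right'
  set err2 : ι → Z → Z → Y → ℝ≥0∞ := fun i z z' y =>
    absd (∫⁻ ω, H i ω y z * H i ω y z' ∂P i) (h y z * h y z') with herr2
  set err1 : ι → Z → Y → ℝ≥0∞ := fun i z y => absd (∫⁻ ω, H i ω y z ∂P i) (h y z) with herr1
  have hme2 : ∀ i, Measurable fun p : (Z × Z) × Y => err2 i p.1.1 p.1.2 p.2 := fun i =>
    measurable_absd (hE2 i) ((hh.comp (measurable_snd.prodMk (measurable_fst.comp measurable_fst))).mul
      (hh.comp (measurable_snd.prodMk (measurable_snd.comp measurable_fst))))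
  have hme1 : ∀ i, Measurable fun p : Z × Y => err1 i p.1 p.2 := fun i =>
    measurable_absd ((hE1 i).comp (measurable_snd.prodMk measurable_fst))
      (hh.comp (measurable_snd.prodMk measurable_fst))
  have hEle : ∀ i y z z', ∫⁻ ω, H i ω y z * H i ω y z' ∂P i ≤ 1 := by
    intro i y z z'
    calc ∫⁻ ω, H i ω y z * H i ω y z' ∂P i ≤ ∫⁻ _ω, 1 * 1 ∂P i :=
          lintegral_mono fun ω => mul_le_mul' (hH1 i ω y z) (hH1 i ω y z')
      _ = 1 := by simp
  have hEle1 : ∀ i y z, ∫⁻ ω, H i ω y z ∂P i ≤ 1 := by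
    intro i y z
    calc ∫⁻ ω, H i ω y z ∂P i ≤ ∫⁻ _ω, 1 ∂P i := lintegral_mono fun ω => hH1 i ω y z
      _ = 1 := by simp
  have h2le : ∀ i z z' y, err2 i z z' y ≤ 2 := by
    intro i z z' y
    calc err2 i z z' y ≤ _ := absd_le_add _ _
      _ ≤ 1 + 1 * 1 := add_le_add (hEle i y z z') (mul_le_mul' (hh1 y z) (hh1 y z'))
      _ = 2 := by norm_num
  have h1le : ∀ i z y, err1 i z y ≤ 2 := by
    intro i z y
    calc err1 i z y ≤ _ := absd_le_add _ _
      _ ≤ 1 + 1 := add_le_add (hEle1 i y z) (hh1 y z)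
      _ = 2 := by norm_num
  -- the variance
  set V : ι → ℝ≥0∞ := fun i => ∫⁻ y, ∫⁻ ω, absd (∫⁻ z, g y z * H i ω y z ∂ζ)
      (∫⁻ z, g y z * h y z ∂ζ) ^ 2 ∂P i ∂μY with hV
  set W : ι → ℝ≥0∞ := fun i => ∫⁻ z, ∫⁻ z', (∫⁻ y, (err2 i z z' y + 2 * err1 i z y) ∂μY) ∂ζ ∂ζ with hW
  have hVW : ∀ i, V i ≤ M ^ 2 * W i := by
    intro i
    have h3 : ∀ y, ∫⁻ ω, absd (∫⁻ z, g y z * H i ω y z ∂ζ) (∫⁻ z, g y z * h y z ∂ζ) ^ 2 ∂P i ≤
        M ^ 2 * ∫⁻ p : Z × Z, (err2 i p.1 p.2 y + 2 * err1 i p.1 y) ∂(ζ.prod ζ) := by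
      intro y
      have hgi : ∫⁻ z, g y z ∂ζ ≠ ∞ := by
        refine ne_top_of_le_ne_top ?_ (lintegral_mono (hgM y))
        rw [lintegral_const]
        exact ENNReal.mul_ne_top hM (measure_ne_top _ _)
      refine (second_le (P i) ζ (hgy y) hgi (hHyz i y) (fun ω z => hH1 i ω y z) (hhy y) (hh1 y)).trans ?_
      have hm5 : Measurable fun p : Z × Z => (err2 i p.1 p.2 y + 2 * err1 i p.1 y) :=
        ((hme2 i).comp (measurable_id.prodMk measurable_const)).add
          (((hme1 i).comp (measurable_fst.prodMk measurable_const)).const_mul 2)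
      rw [← lintegral_const_mul _ hm5, lintegral_prod _ (hm5.const_mul _).aemeasurable]
      refine lintegral_mono fun z => lintegral_mono fun z' => ?_
      rw [sq]
      gcongr
      · exact hgM y z
      · exact hgM y z'
    calc V i ≤ ∫⁻ y, M ^ 2 * ∫⁻ p : Z × Z, (err2 i p.1 p.2 y + 2 * err1 i p.1 y) ∂(ζ.prod ζ) ∂μY :=
          lintegral_mono h3
      _ = M ^ 2 * ∫⁻ y, ∫⁻ p : Z × Z, (err2 i p.1 p.2 y + 2 * err1 i p.1 y) ∂(ζ.prod ζ) ∂μY :=
          lintegral_const_mul' _ _ (ENNReal.pow_ne_top hM)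
      _ = M ^ 2 * ∫⁻ p : Z × Z, ∫⁻ y, (err2 i p.1 p.2 y + 2 * err1 i p.1 y) ∂μY ∂(ζ.prod ζ) := by
          congr 1
          rw [lintegral_lintegral_swap]
          refine Measurable.aemeasurable ?_
          exact ((hme2 i).comp measurable_swap).add
            (((hme1 i).comp ((measurable_fst.comp measurable_snd).prodMk measurable_fst)).const_mul 2)
      _ = M ^ 2 * W i := by
          congr 1
          rw [lintegral_prod]
          refine Measurable.aemeasurable ?_
          have : Measurable fun q : (Z × Z) × Y => err2 i q.1.1 q.1.2 q.2 + 2 * err1 i q.1.1 q.2 :=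
            (hme2 i).add (((hme1 i).comp ((measurable_fst.comp measurable_fst).prodMk
              measurable_snd)).const_mul 2)
          exact this.lintegral_prod_right'
  -- W → 0
  have hmq : ∀ i, Measurable fun q : (Z × Z) × Y => err2 i q.1.1 q.1.2 q.2 + 2 * err1 i q.1.1 q.2 :=
    fun i => (hme2 i).add (((hme1 i).comp ((measurable_fst.comp measurable_fst).prodMk
      measurable_snd)).const_mul 2)
  have hmW : ∀ i, Measurable fun p : Z × Z => ∫⁻ y, (err2 i p.1 p.2 y + 2 * err1 i p.1 y) ∂μY :=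
    fun i => (hmq i).lintegral_prod_right'
  have hbd : ∀ i z z', ∫⁻ y, (err2 i z z' y + 2 * err1 i z y) ∂μY ≤ 6 * μY univ := by
    intro i z z'
    calc ∫⁻ y, (err2 i z z' y + 2 * err1 i z y) ∂μY ≤ ∫⁻ _y, 6 ∂μY := by
          refine lintegral_mono fun y => ?_
          calc err2 i z z' y + 2 * err1 i z y ≤ 2 + 2 * 2 := by
                gcongr
                · exact h2le i z z' y
                · exact h1le i z y
            _ = 6 := by norm_num
      _ = 6 * μY univ := lintegral_const _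
  have hbt : 6 * μY univ ≠ ∞ := ENNReal.mul_ne_top (by simp) (measure_ne_top _ _)
  have hWlim : Tendsto W l (𝓝 0) := by
    have h0 : (0 : ℝ≥0∞) = ∫⁻ _z : Z, 0 ∂ζ := by simp
    rw [hW, h0]
    refine tendsto_lintegral_filter_of_dominated_convergence
      (fun _ => 6 * μY univ * ζ univ) (Eventually.of_forall fun i => (hmW i).lintegral_prod_right')
      (Eventually.of_forall fun i => Eventually.of_forall fun z => ?_) ?_ ?_
    · calc ∫⁻ z', (∫⁻ y, (err2 i z z' y + 2 * err1 i z y) ∂μY) ∂ζ ≤ ∫⁻ _z', 6 * μY univ ∂ζ :=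
            lintegral_mono fun z' => hbd i z z'
        _ = 6 * μY univ * ζ univ := lintegral_const _
    · rw [lintegral_const]
      exact ENNReal.mul_ne_top (ENNReal.mul_ne_top hbt (measure_ne_top _ _)) (measure_ne_top _ _)
    · filter_upwards [A1, A2] with z hz1 hz2
      have h0' : (0 : ℝ≥0∞) = ∫⁻ _z : Z, 0 ∂ζ := by simp
      rw [h0']
      refine tendsto_lintegral_filter_of_dominated_convergence
        (fun _ => 6 * μY univ) (Eventually.of_forall fun i => (hmW i).comp measurable_prodMk_left)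
        (Eventually.of_forall fun i => Eventually.of_forall fun z' => hbd i z z') ?_ ?_
      · rw [lintegral_const]
        exact ENNReal.mul_ne_top hbt (measure_ne_top _ _)
      · filter_upwards [hz2] with z' hz'
        have hsplit : ∀ i, ∫⁻ y, (err2 i z z' y + 2 * err1 i z y) ∂μY =
            (∫⁻ y, err2 i z z' y ∂μY) + 2 * ∫⁻ y, err1 i z y ∂μY := by
          intro i
          have hm6 : Measurable fun y => err2 i z z' y :=
            (hme2 i).comp (f := fun y : Y => (((z, z'), y) : (Z × Z) × Y))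
              (measurable_const.prodMk measurable_id)
          have hm7 : Measurable fun y => err1 i z y :=
            (hme1 i).comp (f := fun y : Y => ((z, y) : Z × Y)) (measurable_const.prodMk measurable_id)
          rw [lintegral_add_left hm6, lintegral_const_mul _ hm7]
        simp_rw [hsplit]
        have : Tendsto (fun i => (∫⁻ y, err2 i z z' y ∂μY) + 2 * ∫⁻ y, err1 i z y ∂μY) l
            (𝓝 (0 + 2 * 0)) :=
          hz'.add (ENNReal.Tendsto.const_mul hz1 (Or.inr (by simp)))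
        simpa using this
  have hVlim : Tendsto V l (𝓝 0) := by
    have : Tendsto (fun i => M ^ 2 * W i) l (𝓝 (M ^ 2 * 0)) :=
      ENNReal.Tendsto.const_mul hWlim (Or.inr (ENNReal.pow_ne_top hM))
    rw [mul_zero] at this
    exact tendsto_of_tendsto_of_tendsto_of_le_of_le tendsto_const_nhds this
      (fun _ => bot_le) hVW
  -- conclusion
  have hρm : ∀ i, Measurable fun p : Ω i × Y => ∫⁻ z, g p.2 z * H i p.1 p.2 z ∂ζ := by
    intro i
    have : Measurable fun q : (Ω i × Y) × Z => g q.1.2 q.2 * H i q.1.1 q.1.2 q.2 :=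
      (hg.comp ((measurable_snd.comp measurable_fst).prodMk measurable_snd)).mul (hH i)
    exact this.lintegral_prod_right'
  have hρ0 : Measurable fun y => ∫⁻ z, g y z * h y z ∂ζ := by
    have : Measurable fun q : Y × Z => g q.1 q.2 * h q.1 q.2 := hg.mul hh
    exact this.lintegral_prod_right'
  have hDm : ∀ i, Measurable fun p : Ω i × Y =>
      absd (∫⁻ z, g p.2 z * H i p.1 p.2 z ∂ζ) (∫⁻ z, g p.2 z * h p.2 z ∂ζ) := fun i =>
    measurable_absd (hρm i) (hρ0.comp measurable_snd)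
  rw [ENNReal.tendsto_nhds_zero]
  intro ε hε
  rcases eq_or_ne ε ∞ with rfl | hε'
  · exact Eventually.of_forall fun _ => le_top
  set δ : ℝ≥0∞ := ε / 2 / (μY univ + 1) with hδ
  have hμ1 : μY univ + 1 ≠ ∞ := ENNReal.add_ne_top.2 ⟨measure_ne_top _ _, ENNReal.one_ne_top⟩
  have hδ0 : δ ≠ 0 := (ENNReal.div_pos (ENNReal.half_pos hε.ne').ne' hμ1).ne'
  have hδt : δ ≠ ∞ := (ENNReal.div_lt_top (ENNReal.half_lt_self hε.ne' hε').ne_top (by simp)).ne
  have hV' : Tendsto (fun i => δ⁻¹ * V i) l (𝓝 (δ⁻¹ * 0)) :=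
    ENNReal.Tendsto.const_mul hVlim (Or.inr (ENNReal.inv_ne_top.2 hδ0))
  rw [mul_zero] at hV'
  filter_upwards [(ENNReal.tendsto_nhds_zero.1 hV') (ε / 2) (ENNReal.half_pos hε.ne')] with i hi
  calc ∫⁻ ω, ∫⁻ y, absd (∫⁻ z, g y z * H i ω y z ∂ζ) (∫⁻ z, g y z * h y z ∂ζ) ∂μY ∂P i
      = ∫⁻ y, ∫⁻ ω, absd (∫⁻ z, g y z * H i ω y z ∂ζ) (∫⁻ z, g y z * h y z ∂ζ) ∂P i ∂μY :=
        lintegral_lintegral_swap (hDm i).aemeasurable
    _ ≤ ∫⁻ y, ∫⁻ ω, (δ + δ⁻¹ * absd (∫⁻ z, g y z * H i ω y z ∂ζ)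
          (∫⁻ z, g y z * h y z ∂ζ) ^ 2) ∂P i ∂μY :=
        lintegral_mono fun y => lintegral_mono fun ω => le_add_sq_div _ hδ0 hδt
    _ = ∫⁻ y, (δ + δ⁻¹ * ∫⁻ ω, absd (∫⁻ z, g y z * H i ω y z ∂ζ)
          (∫⁻ z, g y z * h y z ∂ζ) ^ 2 ∂P i) ∂μY := by
        refine lintegral_congr fun y => ?_
        have hm8 : Measurable fun ω => absd (∫⁻ z, g y z * H i ω y z ∂ζ)
            (∫⁻ z, g y z * h y z ∂ζ) ^ 2 :=
          ((hDm i).comp (measurable_id.prodMk measurable_const)).pow_const 2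
        rw [lintegral_add_left measurable_const, lintegral_const_mul _ hm8]
        simp
    _ = δ * μY univ + δ⁻¹ * V i := by
        rw [lintegral_add_left measurable_const, lintegral_const,
          lintegral_const_mul' _ _ (ENNReal.inv_ne_top.2 hδ0)]
    _ ≤ ε / 2 + ε / 2 := by
        gcongr
        rw [hδ]
        calc ε / 2 / (μY univ + 1) * μY univ ≤ ε / 2 / (μY univ + 1) * (μY univ + 1) := by
              gcongr; exact le_self_add
          _ = ε / 2 := ENNReal.div_mul_cancel (by simp) hμ1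
    _ = ε := ENNReal.add_halves ε

end Fin

end Crest.Agent.R122.Quench815

end
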