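import Crest.Agent.R122.TreeDom_974
import Crest.Agent.R122.TreeMeas2_674
import Crest.Agent.R122.GenericMain_491
import Crest.Agent.R122.Quench1_815

/-!
# Row 122 (helper974): limit of integrals over tree parameters

Abstract limit theorem: the integral over the parameters of the valid and separated trees at
`ε → 0` of `wt * ∏ f₀(lines ε) * φ(root at time T) * U ε` converges (in `L¹`) to the same expression
at `ε = 0`, for bounded compactly supported `φ`, as soon as `U ε → U 0` in `L¹_loc` of the root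
position for almost every `(v, p)`.
-/

set_option autoImplicit false

open MeasureTheory Set Filter
open scoped ENNReal Topology Classical
open Crest.AnalysisR.Kinetic Crest.Agent.R122.Kin796 Crest.Agent.R122.Disc416
  Crest.Agent.R122.Tree674 Crest.Agent.R122.TreeEps399 Crest.Agent.R122.TreeDom974
open Crest.Agent.R122.Quench815 (absd absd_comm absd_self le_add_absd le_add_absd' absd_le_add
  absd_le_iff absd_triangle absd_mul_le measurable_absd absd_lintegral_le)

noncomputable section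

namespace Crest.Agent.R122.TreeLim974

open CTree

variable {Φ : Space3 → ℝ}

/-! ### Elementary facts on `absd` -/

theorem absd_mul_left (c a b : ℝ≥0∞) : absd (a * c) (b * c) ≤ absd a b * c := by
  rw [mul_comm a c, mul_comm b c, mul_comm (absd a b) c]
  exact absd_mul_le c a b

theorem tendsto_absd {α : Type*} {F : Filter α} {f : α → ℝ≥0∞} {b : ℝ≥0∞} (hb : b ≠ ∞)
    (hf : Tendsto f F (𝓝 b)) : Tendsto (fun a => absd (f a) b) F (𝓝 0) := by
  have h1 : Tendsto (fun a => f a - b) F (𝓝 (b - b)) :=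
    ENNReal.Tendsto.sub hf tendsto_const_nhds (Or.inr hb)
  have h2 : Tendsto (fun a => b - f a) F (𝓝 (b - b)) :=
    ENNReal.Tendsto.sub tendsto_const_nhds hf (Or.inl hb)
  rw [tsub_self] at h1 h2
  have := h1.add h2
  rw [add_zero] at this
  exact this

/-! ### Good sets and integrands -/

/-- valid and separated trees -/
def goodS (Φ : Space3 → ℝ) (ε : ℝ) (P : CTree) (T : ℝ) : Set (PhasePoint × Par P) :=
  {z | Valid Φ ε P T z.1.2 z.2 ∧ Sep Φ ε P T z.1 z.2}

/-- valid straight-line trees -/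
def good0 (Φ : Space3 → ℝ) (P : CTree) (T : ℝ) : Set (PhasePoint × Par P) :=
  {z | Valid Φ 0 P T z.1.2 z.2}

/-- weight times initial densities -/
def tA (Φ : Space3 → ℝ) (k : PhasePoint → ℝ≥0∞) (ε : ℝ) (P : CTree) (z : PhasePoint × Par P) :
    ℝ≥0∞ := wt Φ P z.1.2 z.2 * ∏ i, k (lines Φ ε P z.1 z.2 i)

theorem measurableSet_goodS (hΦ : AdmissiblePotential Φ) {ε : ℝ} (hε : 0 < ε) (P : CTree) (T : ℝ) :
    MeasurableSet (goodS Φ ε P T) := measurableSet_validSep hΦ hε P T

theorem measurableSet_good0 (hΦ : AdmissiblePotential Φ) (P : CTree) (T : ℝ) :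
    MeasurableSet (good0 Φ P T) := measurableSet_valid hΦ 0 P T

/-- measurable version of `tA` -/
def tAM (Φ : Space3 → ℝ) (k : PhasePoint → ℝ≥0∞) (ε : ℝ) (P : CTree) (z : PhasePoint × Par P) :
    ℝ≥0∞ := wtM Φ P z.1.2 z.2 * ∏ i, k (linesM Φ ε P z.1 z.2 i)

theorem measurable_tAM (hΦ : AdmissiblePotential Φ) {k : PhasePoint → ℝ≥0∞} (hk : Measurable k)
    (ε : ℝ) (P : CTree) : Measurable (tAM Φ k ε P) := by
  have h0 : Measurable fun z : PhasePoint × Par P => wtM Φ P z.1.2 z.2 :=
    (measurable_wtM hΦ P).comp (measurable_fst.snd.prodMk measurable_snd)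
  refine h0.mul (Finset.measurable_prod _ fun i _ => ?_)
  exact hk.comp ((measurable_pi_apply i).comp (measurable_linesM hΦ ε P))

theorem tAM_of_adm {k : PhasePoint → ℝ≥0∞} {ε : ℝ} {P : CTree} {z : PhasePoint × Par P}
    (h : Adm Φ P z.1.2 z.2) : tAM Φ k ε P z = tA Φ k ε P z := by
  unfold tAM tA
  rw [wtM_of_adm h, linesM_of_adm ε h]

theorem measurable_ind_tA (hΦ : AdmissiblePotential Φ) {k : PhasePoint → ℝ≥0∞} (hk : Measurable k)
    (ε : ℝ) (P : CTree) {S : Set (PhasePoint × Par P)}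
    (hSA : ∀ z ∈ S, Adm Φ P z.1.2 z.2) {G : PhasePoint × Par P → ℝ≥0∞}
    (hG : Measurable (S.indicator G)) :
    Measurable (S.indicator fun z => tA Φ k ε P z * G z) := by
  have h : (S.indicator fun z => tA Φ k ε P z * G z) =
      fun z => tAM Φ k ε P z * S.indicator G z := by
    funext z
    by_cases hz : z ∈ S
    · rw [indicator_of_mem hz, indicator_of_mem hz, tAM_of_adm (hSA z hz)]
    · rw [indicator_of_notMem hz, indicator_of_notMem hz, mul_zero]
  rw [h]
  exact (measurable_tAM hΦ hk ε P).mul hG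

/-! ### Convergence of the initial densities -/

theorem tendsto_prod_lines {α : Type*} {F : Filter α} {e : α → ℝ} (he : Tendsto e F L)
    {k : PhasePoint → ℝ≥0∞} (hk : Continuous k) (hk1 : ∀ z, k z ≠ ∞) (P : CTree) (X v : Space3)
    (p : Par P) :
    Tendsto (fun a => ∏ i, k (lines Φ (e a) P (X, v) p i)) F
      (𝓝 (∏ i, k (lines Φ 0 P (X, v) p i))) := by
  have h1 : ∀ i : Idx P, Tendsto (fun a => k (lines Φ (e a) P (X, v) p i)) F
      (𝓝 (k (lines Φ 0 P (X, v) p i))) := by
    intro i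
    obtain ⟨h2, h3⟩ := lines_close (Φ := Φ) P v p (fun _ => X) X tendsto_const_nhds i
    have h4 : Tendsto (fun ε => lines Φ ε P (X, v) p i) L (𝓝 (lines Φ 0 P (X, v) p i)) := by
      have e1 : (fun ε => lines Φ ε P (X, v) p i) = fun ε =>
          ((lines Φ ε P (X, v) p i).1, (lines Φ 0 P (X, v) p i).2) := by
        funext ε
        exact Prod.ext rfl (h3 ε)
      rw [e1]
      exact h2.prodMk_nhds tendsto_const_nhds
    exact ((hk.tendsto _).comp h4).comp he
  have h5 : ∀ s : Finset (Idx P), Tendsto (fun a => ∏ i ∈ s, k (lines Φ (e a) P (X, v) p i)) F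
      (𝓝 (∏ i ∈ s, k (lines Φ 0 P (X, v) p i))) := by
    intro s
    induction s using Finset.induction_on with
    | empty => simpa using tendsto_const_nhds
    | insert i s hi ih =>
      simp only [Finset.prod_insert hi]
      exact ENNReal.Tendsto.mul (h1 i) (Or.inr (ENNReal.prod_ne_top fun j _ => hk1 _)) ih
        (Or.inr (hk1 _))
  exact h5 Finset.univ

/-- local `L¹` convergence of the product of the initial densities, in the root position -/
theorem tendsto_lintegral_absd_prod {α : Type*} {F : Filter α} [F.IsCountablyGenerated]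
    {e : α → ℝ} (he : Tendsto e F L)
    {k : PhasePoint → ℝ≥0∞} (hk : Continuous k) {C : ℝ≥0∞} (hC : C ≠ ∞) (hkC : ∀ z, k z ≤ C)
    (P : CTree) (v : Space3) (p : Par P) {B : Set Space3} (hB : volume B ≠ ∞) :
    Tendsto (fun a => ∫⁻ x in B, absd (∏ i, k (lines Φ (e a) P (x, v) p i))
      (∏ i, k (lines Φ 0 P (x, v) p i))) F (𝓝 0) := by
  have hk1 : ∀ z, k z ≠ ∞ := fun z => ne_top_of_le_ne_top hC (hkC z)
  have hm : ∀ ε, Measurable fun x : Space3 => ∏ i, k (lines Φ ε P (x, v) p i) := by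
    intro ε
    refine Finset.measurable_prod _ fun i _ => hk.measurable.comp ?_
    have : (fun x : Space3 => lines Φ ε P (x, v) p i) = fun x =>
        ((lines Φ ε P (0, v) p i).1 + x, (lines Φ ε P (0, v) p i).2) := by
      funext x
      exact Hid424.lines_shift ε P x v p i
    rw [this]
    fun_prop
  have hb : ∀ ε x, ∏ i, k (lines Φ ε P (x, v) p i) ≤ C ^ Fintype.card (Idx P) := by
    intro ε x
    calc ∏ i, k (lines Φ ε P (x, v) p i) ≤ ∏ _i : Idx P, C := Finset.prod_le_prod' fun i _ => hkC _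
      _ = C ^ Fintype.card (Idx P) := by rw [Finset.prod_const, Finset.card_univ]
  have h0 : (0 : ℝ≥0∞) = ∫⁻ _x in B, (0 : ℝ≥0∞) := by simp
  rw [h0]
  refine tendsto_lintegral_filter_of_dominated_convergence
    (fun _ => C ^ Fintype.card (Idx P) + C ^ Fintype.card (Idx P)) ?_ ?_ ?_ ?_
  · exact Eventually.of_forall fun a => measurable_absd (hm _) (hm _)
  · exact Eventually.of_forall fun a => Eventually.of_forall fun x =>
      (absd_le_add _ _).trans (add_le_add (hb _ _) (hb _ _))
  · rw [lintegral_const, Measure.restrict_apply_univ]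
    exact ENNReal.mul_ne_top (ENNReal.add_ne_top.2 ⟨ENNReal.pow_ne_top hC, ENNReal.pow_ne_top hC⟩) hB
  · exact Eventually.of_forall fun x =>
      tendsto_absd (ENNReal.prod_ne_top fun j _ => hk1 _) (tendsto_prod_lines he hk hk1 P x v p)

/-! ### The limit theorem -/

/-- integrand at `ε` -/
def gE (Φ : Space3 → ℝ) (k : PhasePoint → ℝ≥0∞) (ε : ℝ) (P : CTree) (T : ℝ)
    (φ : PhasePoint → ℝ≥0∞) (U : PhasePoint × Par P → ℝ≥0∞) : PhasePoint × Par P → ℝ≥0∞ :=
  (goodS Φ ε P T).indicator fun z => tA Φ k ε P z * (φ (onLine z.1 T) * U z)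

/-- integrand at `0` -/
def g0 (Φ : Space3 → ℝ) (k : PhasePoint → ℝ≥0∞) (P : CTree) (T : ℝ)
    (φ : PhasePoint → ℝ≥0∞) (U : PhasePoint × Par P → ℝ≥0∞) : PhasePoint × Par P → ℝ≥0∞ :=
  (good0 Φ P T).indicator fun z => tA Φ k 0 P z * (φ (onLine z.1 T) * U z)

theorem measurable_onLineT (T : ℝ) : Measurable fun ℓ : PhasePoint => onLine ℓ T := by
  unfold onLine; fun_prop

theorem measurable_ind_mul {P : CTree} {S : Set (PhasePoint × Par P)}
    {φ : PhasePoint → ℝ≥0∞} (hφ : Measurable φ) (T : ℝ) {U : PhasePoint × Par P → ℝ≥0∞}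
    (hU : Measurable (S.indicator U)) :
    Measurable (S.indicator fun z => φ (onLine z.1 T) * U z) := by
  have h : (S.indicator fun z => φ (onLine z.1 T) * U z) =
      fun z => φ (onLine z.1 T) * S.indicator U z := by
    funext z
    by_cases hz : z ∈ S
    · rw [indicator_of_mem hz, indicator_of_mem hz]
    · rw [indicator_of_notMem hz, indicator_of_notMem hz, mul_zero]
  rw [h]
  exact (hφ.comp ((measurable_onLineT T).comp measurable_fst)).mul hU

theorem measurable_gE (hΦ : AdmissiblePotential Φ) {k : PhasePoint → ℝ≥0∞} (hk : Measurable k)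
    (ε : ℝ) (P : CTree) (T : ℝ) {φ : PhasePoint → ℝ≥0∞} (hφ : Measurable φ)
    {U : PhasePoint × Par P → ℝ≥0∞} (hU : Measurable ((goodS Φ ε P T).indicator U)) :
    Measurable (gE Φ k ε P T φ U) :=
  measurable_ind_tA hΦ hk ε P (fun _ hz => hz.1.1) (measurable_ind_mul hφ T hU)

theorem measurable_g0 (hΦ : AdmissiblePotential Φ) {k : PhasePoint → ℝ≥0∞} (hk : Measurable k)
    (P : CTree) (T : ℝ) {φ : PhasePoint → ℝ≥0∞} (hφ : Measurable φ)
    {U : PhasePoint × Par P → ℝ≥0∞} (hU : Measurable ((good0 Φ P T).indicator U)) :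
    Measurable (g0 Φ k P T φ U) :=
  measurable_ind_tA hΦ hk 0 P (fun _ hz => hz.1) (measurable_ind_mul hφ T hU)

/-- integral over the parameters, position of the root line inside -/
theorem lintegral_split (P : CTree) {G : PhasePoint × Par P → ℝ≥0∞} (hG : Measurable G) :
    ∫⁻ z, G z = ∫⁻ q : Space3 × Par P, ∫⁻ x : Space3, G ((x, q.1), q.2) := by
  have h1 : MeasurePreserving (MeasurableEquiv.prodAssoc (α := Space3) (β := Space3) (γ := Par P))
      (((volume : Measure Space3).prod (volume : Measure Space3)).prod (volume : Measure (Par P)))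
      ((volume : Measure Space3).prod ((volume : Measure Space3).prod
        (volume : Measure (Par P)))) := measurePreserving_prodAssoc _ _ _
  have h2 : ∫⁻ z : PhasePoint × Par P, G z =
      ∫⁻ y : Space3 × (Space3 × Par P), G ((y.1, y.2.1), y.2.2)
        ∂((volume : Measure Space3).prod ((volume : Measure Space3).prod
          (volume : Measure (Par P)))) := by
    have hG' : Measurable fun y : Space3 × (Space3 × Par P) => G ((y.1, y.2.1), y.2.2) :=
      hG.comp (by fun_prop)
    exact (h1.lintegral_comp hG').symm ▸ rfl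
  have hG' : Measurable fun y : Space3 × (Space3 × Par P) => G ((y.1, y.2.1), y.2.2) :=
    hG.comp (by fun_prop)
  rw [h2, lintegral_prod_symm (fun y : Space3 × (Space3 × Par P) => G ((y.1, y.2.1), y.2.2))
    hG'.aemeasurable]
  rfl

theorem prod_le_pow {k : PhasePoint → ℝ≥0∞} {C : ℝ≥0∞} (hkC : ∀ z, k z ≤ C) (ε : ℝ) (P : CTree)
    (ℓ : PhasePoint) (p : Par P) :
    ∏ i, k (lines Φ ε P ℓ p i) ≤ C ^ Fintype.card (Idx P) := by
  calc ∏ i, k (lines Φ ε P ℓ p i) ≤ ∏ _i : Idx P, C := Finset.prod_le_prod' fun i _ => hkC _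
    _ = C ^ Fintype.card (Idx P) := by rw [Finset.prod_const, Finset.card_univ]

theorem wt_ne_top (P : CTree) : ∀ (v : Space3) (p : Par P), wt Φ P v p ≠ ∞ := by
  induction P with
  | leaf => intro v p; simp [wt]
  | node l r hl hr =>
    intro v p
    simp only [wt]
    exact ENNReal.mul_ne_top ENNReal.ofReal_ne_top (ENNReal.mul_ne_top (hl _ _) (hr _ _))

/-- test functions: bounded, supported in `‖x‖ ≤ R` -/
structure TestF (φ : PhasePoint → ℝ≥0∞) (M : ℝ≥0∞) (R : ℝ) : Prop where
  meas : Measurable φ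
  M_fin : M ≠ ∞
  le : ∀ z, φ z ≤ M
  supp : ∀ z : PhasePoint, R < ‖z.1‖ → φ z = 0

theorem TestF.lintegral_le {φ : PhasePoint → ℝ≥0∞} {M : ℝ≥0∞} {R : ℝ} (h : TestF φ M R)
    (T : ℝ) (v : Space3) :
    ∫⁻ x : Space3, φ (onLine (x, v) T) ≤ M * volume (Metric.closedBall (0 : Space3) R) := by
  have h1 : ∫⁻ x : Space3, φ (onLine (x, v) T) = ∫⁻ x : Space3, φ (x, v) := by
    have := lintegral_add_right_eq_self (μ := (volume : Measure Space3))
      (fun x => φ (x, v)) (T • v)
    exact this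
  rw [h1]
  calc ∫⁻ x : Space3, φ (x, v)
      ≤ ∫⁻ x : Space3, (Metric.closedBall (0 : Space3) R).indicator (fun _ => M) x := by
        refine lintegral_mono fun x => ?_
        by_cases hx : x ∈ Metric.closedBall (0 : Space3) R
        · rw [indicator_of_mem hx]; exact h.le _
        · rw [h.supp (x, v) (by simpa using hx)]; exact bot_le
    _ = M * volume (Metric.closedBall (0 : Space3) R) := by
        rw [lintegral_indicator_const measurableSet_closedBall]

theorem absd_ind_le (hΦ : AdmissiblePotential Φ) {C b b' : ℝ} (hC : 0 ≤ C) (hb : b' < b)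
    {k : PhasePoint → ℝ≥0∞} (hk : ∀ z, k z ≤ ENNReal.ofReal (C * Real.exp (-b * ‖z.2‖ ^ 2)))
    (P : CTree) (T : ℝ) :
    ∃ C' : ℝ, 0 ≤ C' ∧ ∀ (ε : ℝ), 0 < ε → ∀ (φ : PhasePoint → ℝ≥0∞)
      (U U0 : PhasePoint × Par P → ℝ≥0∞), (∀ z, U z ≤ 1) → (∀ z, U0 z ≤ 1) →
      ∀ z : PhasePoint × Par P, absd (gE Φ k ε P T φ U z) (g0 Φ k P T φ U0 z) ≤
        2 * (domG C' b' T P z.1.2 z.2 * φ (onLine z.1 T)) := by
  obtain ⟨C', hC', h⟩ := le_domG hΦ hC hb hk P
  refine ⟨C', hC', fun ε hε φ U U0 hU hU0 z => ?_⟩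
  refine (absd_le_add _ _).trans ?_
  rw [two_mul]
  refine add_le_add ?_ ?_
  · unfold gE
    by_cases hz : z ∈ goodS Φ ε P T
    · rw [indicator_of_mem hz]
      calc tA Φ k ε P z * (φ (onLine z.1 T) * U z)
          ≤ domG C' b' T P z.1.2 z.2 * (φ (onLine z.1 T) * 1) := by
            gcongr
            · exact h ε T T z.1 z.2 hε.le le_rfl hz.1
            · exact hU z
        _ = _ := by rw [mul_one]
    · rw [indicator_of_notMem hz]; exact bot_le
  · unfold g0
    by_cases hz : z ∈ good0 Φ P T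
    · rw [indicator_of_mem hz]
      calc tA Φ k 0 P z * (φ (onLine z.1 T) * U0 z)
          ≤ domG C' b' T P z.1.2 z.2 * (φ (onLine z.1 T) * 1) := by
            gcongr
            · exact h 0 T T z.1 z.2 le_rfl le_rfl hz
            · exact hU0 z
        _ = _ := by rw [mul_one]
    · rw [indicator_of_notMem hz]; exact bot_le

/-- almost every `(v, p)` is generic -/
theorem gen_ae_q (hΦ : AdmissiblePotential Φ) (P : CTree) (T : ℝ) :
    ∀ᵐ q : Space3 × Par P, Valid Φ 0 P T q.1 q.2 → Gen Φ P (0, q.1) q.2 := by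
  have h1 : MeasurePreserving
      (MeasurableEquiv.prodAssoc (α := Space3) (β := Space3) (γ := Par P)).symm
      ((volume : Measure Space3).prod ((volume : Measure Space3).prod
        (volume : Measure (Par P))))
      (((volume : Measure Space3).prod (volume : Measure Space3)).prod (volume : Measure (Par P))) :=
    (measurePreserving_prodAssoc _ _ _).symm _
  have h2 := h1.quasiMeasurePreserving.ae (Generic491.gen_ae' hΦ P T)
  have h3 := Measure.ae_ae_of_ae_prod h2
  obtain ⟨x, hx⟩ := h3.exists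
  filter_upwards [hx] with q hq hV
  have h4 : Gen Φ P (x, q.1) q.2 := hq hV
  exact (Hid424.gen_shift x).1 h4

/-- **Limit of the integrals over tree parameters** (in `L¹`). -/
theorem tree_limit (hΦ : AdmissiblePotential Φ) {α : Type*} {F : Filter α}
    [F.IsCountablyGenerated] {e : α → ℝ} (he : Tendsto e F L)
    {C b : ℝ} (hC : 0 ≤ C) (hb : 0 < b) {k : PhasePoint → ℝ≥0∞} (hkc : Continuous k)
    (hk : ∀ z, k z ≤ ENNReal.ofReal (C * Real.exp (-b * ‖z.2‖ ^ 2)))
    (P : CTree) (T : ℝ) {φ : PhasePoint → ℝ≥0∞} {M : ℝ≥0∞} {R : ℝ} (hφ : TestF φ M R)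
    {U : α → PhasePoint × Par P → ℝ≥0∞} {U0 : PhasePoint × Par P → ℝ≥0∞}
    (hU : ∀ a z, U a z ≤ 1) (hU0 : ∀ z, U0 z ≤ 1)
    (hUm : ∀ᶠ a in F, Measurable ((goodS Φ (e a) P T).indicator (U a)))
    (hU0m : Measurable ((good0 Φ P T).indicator U0))
    (hconv : ∀ᵐ q : Space3 × Par P, Valid Φ 0 P T q.1 q.2 → Gen Φ P (0, q.1) q.2 →
      ∀ R' : ℝ, Tendsto (fun a => ∫⁻ x in Metric.closedBall (0 : Space3) R',
        absd (U a ((x, q.1), q.2)) (U0 ((x, q.1), q.2))) F (𝓝 0)) :
    Tendsto (fun a => ∫⁻ z, absd (gE Φ k (e a) P T φ (U a) z) (g0 Φ k P T φ U0 z)) F (𝓝 0) := by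
  have hkb : ∀ z, k z ≤ ENNReal.ofReal C := fun z => (hk z).trans (ENNReal.ofReal_le_ofReal (by
    have : Real.exp (-b * ‖z.2‖ ^ 2) ≤ 1 := Real.exp_le_one_iff.2 (by
      have : 0 ≤ b * ‖z.2‖ ^ 2 := by positivity
      linarith)
    nlinarith))
  obtain ⟨C', hC', hdom⟩ := absd_ind_le hΦ hC (half_lt_self hb) hk P T
  have hpos : ∀ᶠ a in F, 0 < e a := he.eventually eventually_pos
  have hmeas : ∀ᶠ a in F, Measurable fun z =>
      absd (gE Φ k (e a) P T φ (U a) z) (g0 Φ k P T φ U0 z) := by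
    filter_upwards [hUm] with a ha
    exact measurable_absd (measurable_gE hΦ hkc.measurable _ P T hφ.meas ha)
      (measurable_g0 hΦ hkc.measurable P T hφ.meas hU0m)
  have hsplit : ∀ᶠ a in F, ∫⁻ q : Space3 × Par P, ∫⁻ x : Space3,
      absd (gE Φ k (e a) P T φ (U a) ((x, q.1), q.2)) (g0 Φ k P T φ U0 ((x, q.1), q.2)) =
      ∫⁻ z, absd (gE Φ k (e a) P T φ (U a) z) (g0 Φ k P T φ U0 z) := by
    filter_upwards [hmeas] with a ha
    exact (lintegral_split P ha).symm
  refine Tendsto.congr' hsplit ?_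
  have h0 : (0 : ℝ≥0∞) = ∫⁻ _q : Space3 × Par P, (0 : ℝ≥0∞) := by simp
  rw [h0]
  refine tendsto_lintegral_filter_of_dominated_convergence
    (fun q => 2 * (domG C' (b / 2) T P q.1 q.2 *
      (M * volume (Metric.closedBall (0 : Space3) R)))) ?_ ?_ ?_ ?_
  · filter_upwards [hmeas] with a ha
    have : Measurable (Function.uncurry fun (q : Space3 × Par P) (x : Space3) =>
        absd (gE Φ k (e a) P T φ (U a) ((x, q.1), q.2)) (g0 Φ k P T φ U0 ((x, q.1), q.2))) :=
      ha.comp (by fun_prop : Measurable fun y : (Space3 × Par P) × Space3 =>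
        (((y.2, y.1.1), y.1.2) : PhasePoint × Par P))
    exact this.lintegral_prod_right'
  · filter_upwards [hpos] with a ha
    refine Eventually.of_forall fun q => ?_
    calc ∫⁻ x : Space3, absd (gE Φ k (e a) P T φ (U a) ((x, q.1), q.2))
          (g0 Φ k P T φ U0 ((x, q.1), q.2))
        ≤ ∫⁻ x : Space3, 2 * (domG C' (b / 2) T P q.1 q.2 * φ (onLine (x, q.1) T)) :=
          lintegral_mono fun x => hdom (e a) ha φ (U a) U0 (hU a) hU0 ((x, q.1), q.2)
      _ = 2 * (domG C' (b / 2) T P q.1 q.2 * ∫⁻ x : Space3, φ (onLine (x, q.1) T)) := by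
          have hm1 : Measurable fun x : Space3 => φ (onLine (x, q.1) T) :=
            hφ.meas.comp ((measurable_onLineT T).comp (by fun_prop))
          rw [lintegral_const_mul _ (hm1.const_mul _), lintegral_const_mul _ hm1]
      _ ≤ _ := by
          gcongr
          exact hφ.lintegral_le T q.1
  · have hmd := measurable_domG hC' (b / 2) T P
    have e1 : ∀ q : Space3 × Par P, 2 * (domG C' (b / 2) T P q.1 q.2 *
        (M * volume (Metric.closedBall (0 : Space3) R))) =
        domG C' (b / 2) T P q.1 q.2 * (2 * (M * volume (Metric.closedBall (0 : Space3) R))) := by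
      intro q; ring
    simp only [e1]
    rw [lintegral_mul_const _ hmd]
    exact ENNReal.mul_ne_top (lintegral_domG_ne_top hC' (half_pos hb) T P)
      (ENNReal.mul_ne_top (by simp) (ENNReal.mul_ne_top hφ.M_fin
        (isCompact_closedBall _ _).measure_lt_top.ne))
  · -- pointwise limit
    have hgen := gen_ae_q hΦ P T
    filter_upwards [hconv, hgen] with q hq1 hq2
    by_cases hV : Valid Φ 0 P T q.1 q.2
    swap
    · refine Tendsto.congr' ?_ tendsto_const_nhds
      filter_upwards [hpos] with a ha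
      refine (lintegral_eq_zero_of_ae_eq_zero ?_).symm
      refine Eventually.of_forall fun x => ?_
      have h1 : gE Φ k (e a) P T φ (U a) ((x, q.1), q.2) = 0 :=
        indicator_of_notMem (fun h => hV (valid_zero ha.le h.1)) _
      have h2 : g0 Φ k P T φ U0 ((x, q.1), q.2) = 0 :=
        indicator_of_notMem (show ((x, q.1), q.2) ∉ good0 Φ P T from hV) _
      simp only [h1, h2, absd_self, Pi.zero_apply]
    have hG := hq2 hV
    have hc := hq1 hV hG
    set R' : ℝ := R + ‖T • q.1‖ with hR'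
    set B : Set Space3 := Metric.closedBall (0 : Space3) R' with hB
    set c : ℝ≥0∞ := wt Φ P q.1 q.2 * M with hcdef
    have hcfin : c ≠ ∞ := ENNReal.mul_ne_top (wt_ne_top P _ _) hφ.M_fin
    set Cn : ℝ≥0∞ := ENNReal.ofReal C ^ Fintype.card (Idx P) with hCn
    have hCnfin : Cn ≠ ∞ := ENNReal.pow_ne_top ENNReal.ofReal_ne_top
    have hlim1 := tendsto_lintegral_absd_prod (Φ := Φ) he hkc (C := ENNReal.ofReal C)
      ENNReal.ofReal_ne_top hkb P q.1 q.2 (B := B) (isCompact_closedBall _ _).measure_lt_top.ne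
    have hlim2 := hc R'
    have hlim : Tendsto (fun a => c * ((∫⁻ x in B, absd (∏ i, k (lines Φ (e a) P (x, q.1) q.2 i))
        (∏ i, k (lines Φ 0 P (x, q.1) q.2 i))) + Cn * ∫⁻ x in B, absd (U a ((x, q.1), q.2))
          (U0 ((x, q.1), q.2)))) F (𝓝 0) := by
      have h1 := (ENNReal.Tendsto.const_mul (a := Cn) hlim2 (Or.inr hCnfin))
      rw [mul_zero] at h1
      have h2 := hlim1.add h1
      rw [add_zero] at h2
      have h3 := ENNReal.Tendsto.const_mul (a := c) h2 (Or.inr hcfin)
      rwa [mul_zero] at h3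
    refine tendsto_of_tendsto_of_tendsto_of_le_of_le' tendsto_const_nhds hlim
      (Eventually.of_forall fun a => bot_le) ?_
    have hgood := he.eventually (Hid424.eventually_good hΦ hV hG)
    filter_upwards [hgood] with a ha
    obtain ⟨ha0, haV, haS⟩ := ha
    have hpt : ∀ x : Space3, absd (gE Φ k (e a) P T φ (U a) ((x, q.1), q.2))
        (g0 Φ k P T φ U0 ((x, q.1), q.2)) ≤
        B.indicator (fun x => c * (absd (∏ i, k (lines Φ (e a) P (x, q.1) q.2 i))
          (∏ i, k (lines Φ 0 P (x, q.1) q.2 i)) + Cn * absd (U a ((x, q.1), q.2))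
          (U0 ((x, q.1), q.2)))) x := by
      intro x
      have e1 : gE Φ k (e a) P T φ (U a) ((x, q.1), q.2) = (wt Φ P q.1 q.2 *
          φ (onLine (x, q.1) T)) * ((∏ i, k (lines Φ (e a) P (x, q.1) q.2 i)) *
            U a ((x, q.1), q.2)) := by
        unfold gE
        rw [indicator_of_mem (show ((x, q.1), q.2) ∈ goodS Φ (e a) P T from ⟨haV, haS x⟩)]
        unfold tA
        ring
      have e2 : g0 Φ k P T φ U0 ((x, q.1), q.2) = (wt Φ P q.1 q.2 *
          φ (onLine (x, q.1) T)) * ((∏ i, k (lines Φ 0 P (x, q.1) q.2 i)) *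
            U0 ((x, q.1), q.2)) := by
        unfold g0
        rw [indicator_of_mem (show ((x, q.1), q.2) ∈ good0 Φ P T from hV)]
        unfold tA
        ring
      rw [e1, e2]
      refine (absd_mul_le _ _ _).trans ?_
      by_cases hx : x ∈ B
      · rw [indicator_of_mem hx]
        have h3 : wt Φ P q.1 q.2 * φ (onLine (x, q.1) T) ≤ c := by
          rw [hcdef]; gcongr; exact hφ.le _
        refine mul_le_mul' h3 ?_
        refine (absd_triangle _ ((∏ i, k (lines Φ 0 P (x, q.1) q.2 i)) * U a ((x, q.1), q.2))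
          _).trans (add_le_add ?_ ?_)
        · refine (absd_mul_left _ _ _).trans ?_
          calc _ ≤ absd (∏ i, k (lines Φ (e a) P (x, q.1) q.2 i))
                (∏ i, k (lines Φ 0 P (x, q.1) q.2 i)) * 1 := by gcongr; exact hU _ _
            _ = _ := mul_one _
        · refine (absd_mul_le _ _ _).trans ?_
          gcongr
          exact prod_le_pow hkb 0 P _ _
      · rw [indicator_of_notMem hx]
        have h4 : φ (onLine (x, q.1) T) = 0 := by
          refine hφ.supp _ ?_
          have h5 : R' < ‖x‖ := by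
            rw [hB, Metric.mem_closedBall, dist_zero_right, not_le] at hx
            exact hx
          show R < ‖x + T • q.1‖
          have h6 : ‖x‖ ≤ ‖x + T • q.1‖ + ‖T • q.1‖ := by
            have := norm_sub_le (x + T • q.1) (T • q.1)
            rwa [add_sub_cancel_right] at this
          linarith
        rw [h4, mul_zero, zero_mul]
    calc ∫⁻ x : Space3, absd (gE Φ k (e a) P T φ (U a) ((x, q.1), q.2))
          (g0 Φ k P T φ U0 ((x, q.1), q.2))
        ≤ ∫⁻ x : Space3, B.indicator (fun x => c * (absd (∏ i, k (lines Φ (e a) P (x, q.1) q.2 i))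
          (∏ i, k (lines Φ 0 P (x, q.1) q.2 i)) + Cn * absd (U a ((x, q.1), q.2))
          (U0 ((x, q.1), q.2)))) x := lintegral_mono hpt
      _ = ∫⁻ x in B, c * (absd (∏ i, k (lines Φ (e a) P (x, q.1) q.2 i))
          (∏ i, k (lines Φ 0 P (x, q.1) q.2 i)) + Cn * absd (U a ((x, q.1), q.2))
          (U0 ((x, q.1), q.2))) := lintegral_indicator Metric.isClosed_closedBall.measurableSet _
      _ = _ := by
          rw [lintegral_const_mul' _ _ hcfin, lintegral_add_left, lintegral_const_mul' _ _ hCnfin]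
          have hm : ∀ ε, Measurable fun x : Space3 => ∏ i, k (lines Φ ε P (x, q.1) q.2 i) := by
            intro ε
            refine Finset.measurable_prod _ fun i _ => hkc.measurable.comp ?_
            have : (fun x : Space3 => lines Φ ε P (x, q.1) q.2 i) = fun x =>
                ((lines Φ ε P (0, q.1) q.2 i).1 + x, (lines Φ ε P (0, q.1) q.2 i).2) := by
              funext x
              exact Hid424.lines_shift ε P x q.1 q.2 i
            rw [this]
            fun_prop
          exact measurable_absd (hm _) (hm _)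

/-- the limit integral is finite -/
theorem lintegral_g0_ne_top (hΦ : AdmissiblePotential Φ)
    {C b : ℝ} (hC : 0 ≤ C) (hb : 0 < b) {k : PhasePoint → ℝ≥0∞} (hkm : Measurable k)
    (hk : ∀ z, k z ≤ ENNReal.ofReal (C * Real.exp (-b * ‖z.2‖ ^ 2)))
    (P : CTree) (T : ℝ) {φ : PhasePoint → ℝ≥0∞} {M : ℝ≥0∞} {R : ℝ} (hφ : TestF φ M R)
    {U0 : PhasePoint × Par P → ℝ≥0∞} (hU0 : ∀ z, U0 z ≤ 1)
    (hU0m : Measurable ((good0 Φ P T).indicator U0)) :
    ∫⁻ z, g0 Φ k P T φ U0 z ≠ ∞ := by
  obtain ⟨C', hC', h⟩ := le_domG hΦ hC (half_lt_self hb) hk P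
  have hpt : ∀ z : PhasePoint × Par P, g0 Φ k P T φ U0 z ≤
      domG C' (b / 2) T P z.1.2 z.2 * φ (onLine z.1 T) := by
    intro z
    unfold g0
    by_cases hz : z ∈ good0 Φ P T
    · rw [indicator_of_mem hz]
      calc tA Φ k 0 P z * (φ (onLine z.1 T) * U0 z)
          ≤ domG C' (b / 2) T P z.1.2 z.2 * (φ (onLine z.1 T) * 1) := by
            gcongr
            · exact h 0 T T z.1 z.2 le_rfl le_rfl hz
            · exact hU0 z
        _ = _ := by rw [mul_one]
    · rw [indicator_of_notMem hz]; exact bot_le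
  rw [lintegral_split P (measurable_g0 hΦ hkm P T hφ.meas hU0m)]
  have hle : ∀ q : Space3 × Par P, ∫⁻ x : Space3, g0 Φ k P T φ U0 ((x, q.1), q.2) ≤
      domG C' (b / 2) T P q.1 q.2 * (M * volume (Metric.closedBall (0 : Space3) R)) := by
    intro q
    have hm1 : Measurable fun x : Space3 => φ (onLine (x, q.1) T) :=
      hφ.meas.comp ((measurable_onLineT T).comp (by fun_prop))
    calc ∫⁻ x : Space3, g0 Φ k P T φ U0 ((x, q.1), q.2)
        ≤ ∫⁻ x : Space3, domG C' (b / 2) T P q.1 q.2 * φ (onLine (x, q.1) T) :=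
          lintegral_mono fun x => hpt _
      _ = domG C' (b / 2) T P q.1 q.2 * ∫⁻ x : Space3, φ (onLine (x, q.1) T) :=
          lintegral_const_mul _ hm1
      _ ≤ _ := by
          gcongr
          exact hφ.lintegral_le T q.1
  refine ne_top_of_le_ne_top ?_ (lintegral_mono hle)
  rw [lintegral_mul_const _ (measurable_domG hC' (b / 2) T P)]
  exact ENNReal.mul_ne_top (lintegral_domG_ne_top hC' (half_pos hb) T P)
    (ENNReal.mul_ne_top hφ.M_fin (isCompact_closedBall _ _).measure_lt_top.ne)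

/-- **Limit of the integrals over tree parameters.** -/
theorem tree_limit' (hΦ : AdmissiblePotential Φ) {α : Type*} {F : Filter α}
    [F.IsCountablyGenerated] {e : α → ℝ} (he : Tendsto e F L)
    {C b : ℝ} (hC : 0 ≤ C) (hb : 0 < b) {k : PhasePoint → ℝ≥0∞} (hkc : Continuous k)
    (hk : ∀ z, k z ≤ ENNReal.ofReal (C * Real.exp (-b * ‖z.2‖ ^ 2)))
    (P : CTree) (T : ℝ) {φ : PhasePoint → ℝ≥0∞} {M : ℝ≥0∞} {R : ℝ} (hφ : TestF φ M R)
    {U : α → PhasePoint × Par P → ℝ≥0∞} {U0 : PhasePoint × Par P → ℝ≥0∞}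
    (hU : ∀ a z, U a z ≤ 1) (hU0 : ∀ z, U0 z ≤ 1)
    (hUm : ∀ᶠ a in F, Measurable ((goodS Φ (e a) P T).indicator (U a)))
    (hU0m : Measurable ((good0 Φ P T).indicator U0))
    (hconv : ∀ᵐ q : Space3 × Par P, Valid Φ 0 P T q.1 q.2 → Gen Φ P (0, q.1) q.2 →
      ∀ R' : ℝ, Tendsto (fun a => ∫⁻ x in Metric.closedBall (0 : Space3) R',
        absd (U a ((x, q.1), q.2)) (U0 ((x, q.1), q.2))) F (𝓝 0)) :
    Tendsto (fun a => ∫⁻ z, gE Φ k (e a) P T φ (U a) z) F (𝓝 (∫⁻ z, g0 Φ k P T φ U0 z)) := by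
  have h := tree_limit hΦ he hC hb hkc hk P T hφ hU hU0 hUm hU0m hconv
  have hfin := lintegral_g0_ne_top hΦ hC hb hkc.measurable hk P T hφ hU0 hU0m
  set I0 := ∫⁻ z, g0 Φ k P T φ U0 z with hI0
  have hbd : ∀ᶠ a in F, absd (∫⁻ z, gE Φ k (e a) P T φ (U a) z) I0 ≤
      ∫⁻ z, absd (gE Φ k (e a) P T φ (U a) z) (g0 Φ k P T φ U0 z) := by
    filter_upwards [hUm] with a ha
    exact absd_lintegral_le volume (measurable_gE hΦ hkc.measurable _ P T hφ.meas ha)
      (measurable_g0 hΦ hkc.measurable P T hφ.meas hU0m)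
  rw [ENNReal.tendsto_nhds hfin]
  intro η hη
  have h2 := (ENNReal.tendsto_nhds ENNReal.zero_ne_top).1 h η hη
  filter_upwards [hbd, h2] with a h3 h4
  have h5 : absd (∫⁻ z, gE Φ k (e a) P T φ (U a) z) I0 ≤ η := by
    refine h3.trans ?_
    simpa using h4.2
  rw [absd_le_iff] at h5
  exact ⟨tsub_le_iff_right.2 h5.2, h5.1⟩

end Crest.Agent.R122.TreeLim974
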