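import Crest.Agent.R122.ThirdOS_741
import Crest.Agent.R122.TreeLim_974
import Crest.Agent.R122.LineMeas_994

/-!
# Members of the tree near the encounter (row 122, helper796): (3V) of `StmtLink`

* `OS_tendsto` : structure integrals of functionals of the root velocity, the tree parameters, the
  contact time, the velocity and the impact parameter, bounded by `1` and converging to `0` almost
  everywhere, tend to `0`.
* `memS Φ K a ε : SF` : the root is (just after) its last window, `cT ≤ rel + a`, or an exit line is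
  `a (1 + |v| + |u|)`-close to the root line at some time of `[cT - a, cT + a]`.
* `one_le_memS`, `memS_lt_one` : what it contains. `measSF_memS`, `null_memS` : null for `a ε → 0`.
-/

set_option autoImplicit false
set_option linter.unusedSectionVars false

open MeasureTheory Set Filter
open scoped ENNReal Classical Topology
open Crest.AnalysisR.Kinetic
open Crest.Agent.R122.Kin796 Crest.Agent.R122.Kin796.CTree Crest.Agent.R122.Tree674
open Crest.Agent.R122.GC311 Crest.Agent.R122.EDefs602 Crest.Agent.R122.TreeLines335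
open Crest.Agent.R122.OneC285 Crest.Agent.R122.Disc416 Crest.Agent.R122.OneC423
open Crest.Agent.R122.TreeDom974 Crest.Agent.R122.Third741 Crest.Agent.R122.PathFlow968
open Crest.Agent.R122.Flux663 Crest.Agent.R122.OC663

noncomputable section

namespace Crest.Agent.R122.ThirdV796

variable {Φ : Space3 → ℝ} {f₀ : PhasePoint → ℝ}

/-! ### Functionals of the velocities and parameters -/

/-- Functionals of `ε`, the root velocity, the tree parameters, the contact time, the velocity and the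
impact parameter. -/
abbrev VF : Type := ℝ → (P : CTree) → Space3 × Par P → ℝ → Space3 → Space3 → ℝ≥0∞

/-- Joint measurability. -/
def MeasVF (G : VF) : Prop := ∀ (ε : ℝ), 0 < ε → ∀ P : CTree, Measurable
  fun x : (Space3 × Par P) × (ℝ × (Space3 × Space3)) => G ε P x.1 x.2.1 x.2.2.1 x.2.2.2

/-- The structure functional of the contact data. -/
def cfOf (G : VF) (ε : ℝ) : CF := fun P z _m _w s v b => G ε P (z.1.2, z.2) s v b

theorem measCF_cfOf' {G : VF} {ε : ℝ} (hG : ∀ P : CTree, Measurable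
    fun x : (Space3 × Par P) × (ℝ × (Space3 × Space3)) => G ε P x.1 x.2.1 x.2.2.1 x.2.2.2) :
    MeasCF (cfOf G ε) := by
  intro P m
  unfold cfOf
  have h : Measurable fun q : ((PhasePoint × Par P) × Config m) × (ℝ × (Space3 × Space3)) =>
      (((q.1.1.1.2, q.1.1.2), q.2) : (Space3 × Par P) × (ℝ × (Space3 × Space3))) :=
    ((measurable_snd.comp (measurable_fst.comp (measurable_fst.comp measurable_fst))).prodMk
      (measurable_snd.comp (measurable_fst.comp measurable_fst))).prodMk measurable_snd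
  exact Measurable.comp (g := fun x : (Space3 × Par P) × (ℝ × (Space3 × Space3)) =>
    G ε P x.1 x.2.1 x.2.2.1 x.2.2.2) (hG P) h

theorem measCF_cfOf {G : VF} (hG : MeasVF G) {ε : ℝ} (hε : 0 < ε) : MeasCF (cfOf G ε) :=
  measCF_cfOf' (hG ε hε)

/-- Velocity integral at fixed contact time. -/
def velI (g0 : ℝ) {P : CTree} (G : Space3 × Par P → ℝ → Space3 → Space3 → ℝ≥0∞)
    (q : Space3 × Par P) (s : ℝ) : ℝ≥0∞ :=
  ∫⁻ v : Space3, ENNReal.ofReal ‖v - q.1‖ *
    (wG g0 v * ∫⁻ b in impactDisc (v - q.1), G q s v b ∂μHE[2])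

/-- Flux of a functional of the velocities and parameters. -/
def fluxU (te g0 : ℝ) {P : CTree} (G : Space3 × Par P → ℝ → Space3 → Space3 → ℝ≥0∞)
    (q : Space3 × Par P) : ℝ≥0∞ := ∫⁻ s in Ioc 0 te, velI g0 G q s

theorem measurable_velI {g0 : ℝ} {P : CTree} {G : Space3 × Par P → ℝ → Space3 → Space3 → ℝ≥0∞}
    (hG : Measurable fun x : (Space3 × Par P) × (ℝ × (Space3 × Space3)) =>
      G x.1 x.2.1 x.2.2.1 x.2.2.2) :
    Measurable fun x : (Space3 × Par P) × ℝ => velI g0 G x.1 x.2 := by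
  unfold velI
  refine Measurable.lintegral_prod_right' (f := fun q : ((Space3 × Par P) × ℝ) × Space3 =>
    ENNReal.ofReal ‖q.2 - q.1.1.1‖ * (wG g0 q.2 *
      ∫⁻ b in impactDisc (q.2 - q.1.1.1), G q.1.1 q.1.2 q.2 b ∂μHE[2])) ?_
  have hu : Measurable fun q : ((Space3 × Par P) × ℝ) × Space3 => q.1.1.1 :=
    measurable_fst.comp (measurable_fst.comp measurable_fst)
  have h1 : Measurable fun q : ((Space3 × Par P) × ℝ) × Space3 =>
      ENNReal.ofReal ‖q.2 - q.1.1.1‖ * ∫⁻ b in impactDisc (q.2 - q.1.1.1),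
        G q.1.1 q.1.2 q.2 b ∂μHE[2] := by
    refine measurable_flux_disc (α := ((Space3 × Par P) × ℝ) × Space3)
      (γ := fun q => q.2 - q.1.1.1) (measurable_snd.sub hu)
      (f := fun q b => G q.1.1 q.1.2 q.2 b) ?_
    exact Measurable.comp (g := fun x : (Space3 × Par P) × (ℝ × (Space3 × Space3)) =>
      G x.1 x.2.1 x.2.2.1 x.2.2.2) (f := fun q : (((Space3 × Par P) × ℝ) × Space3) × Space3 =>
      (q.1.1.1, (q.1.1.2, (q.1.2, q.2)))) hG (by fun_prop)
  have h2 : (fun q : ((Space3 × Par P) × ℝ) × Space3 => ENNReal.ofReal ‖q.2 - q.1.1.1‖ *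
      (wG g0 q.2 * ∫⁻ b in impactDisc (q.2 - q.1.1.1), G q.1.1 q.1.2 q.2 b ∂μHE[2])) =
      fun q => wG g0 q.2 * (ENNReal.ofReal ‖q.2 - q.1.1.1‖ *
        ∫⁻ b in impactDisc (q.2 - q.1.1.1), G q.1.1 q.1.2 q.2 b ∂μHE[2]) := by
    funext q
    ring
  rw [h2]
  exact ((measurable_wG1 g0).comp measurable_snd).mul h1

theorem measurable_fluxU {te g0 : ℝ} {P : CTree}
    {G : Space3 × Par P → ℝ → Space3 → Space3 → ℝ≥0∞}
    (hG : Measurable fun x : (Space3 × Par P) × (ℝ × (Space3 × Space3)) =>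
      G x.1 x.2.1 x.2.2.1 x.2.2.2) : Measurable (fluxU te g0 G) :=
  (measurable_velI hG).lintegral_prod_right'

/-- The bound of the integrand. -/
theorem integrand_le {g0 : ℝ} {P : CTree} {G : Space3 × Par P → ℝ → Space3 → Space3 → ℝ≥0∞}
    (h1 : ∀ q s v b, G q s v b ≤ 1) (q : Space3 × Par P) (s : ℝ) (v : Space3) :
    ENNReal.ofReal ‖v - q.1‖ * (wG g0 v * ∫⁻ b in impactDisc (v - q.1), G q s v b ∂μHE[2]) ≤
      (ENNReal.ofReal Real.pi * ENNReal.ofReal (1 + ‖q.1‖)) *
        (wG g0 v * ENNReal.ofReal ((1 + ‖v‖) ^ 4)) := by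
  calc ENNReal.ofReal ‖v - q.1‖ * (wG g0 v * ∫⁻ b in impactDisc (v - q.1), G q s v b ∂μHE[2])
      ≤ ENNReal.ofReal ‖v - q.1‖ * (wG g0 v * ∫⁻ _b in impactDisc (v - q.1), 1 ∂μHE[2]) := by
        refine mul_le_mul' le_rfl (mul_le_mul' le_rfl (lintegral_mono fun b => h1 _ _ _ _))
    _ = ENNReal.ofReal Real.pi * (ENNReal.ofReal ‖v - q.1‖ * (wG g0 v * 1)) :=
        norm_mul_disc_const _ _ _
    _ ≤ ENNReal.ofReal Real.pi * ((ENNReal.ofReal (1 + ‖q.1‖) *
          ENNReal.ofReal ((1 + ‖v‖) ^ 4)) * (wG g0 v * 1)) := by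
        refine mul_le_mul' le_rfl (mul_le_mul' ?_ le_rfl)
        rw [← ENNReal.ofReal_mul (by positivity)]
        refine ENNReal.ofReal_le_ofReal ?_
        have h2 := Third741.norm_sub_le_mul v q.1
        have h3 : 1 + ‖v‖ ≤ (1 + ‖v‖) ^ 4 :=
          le_self_pow₀ (by linarith [norm_nonneg v]) (by norm_num)
        have h4 : 0 ≤ 1 + ‖q.1‖ := by positivity
        nlinarith
    _ = _ := by ring

theorem velI_le {g0 : ℝ} {P : CTree} {G : Space3 × Par P → ℝ → Space3 → Space3 → ℝ≥0∞}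
    (h1 : ∀ q s v b, G q s v b ≤ 1) (q : Space3 × Par P) (s : ℝ) :
    velI g0 G q s ≤ (ENNReal.ofReal Real.pi * mom4 (fun v => wG g0 v)) *
      ENNReal.ofReal (1 + ‖q.1‖) := by
  refine (lintegral_mono fun v => integrand_le h1 q s v).trans (le_of_eq ?_)
  rw [lintegral_const_mul' _ _ (ENNReal.mul_ne_top ENNReal.ofReal_ne_top ENNReal.ofReal_ne_top)]
  unfold mom4
  ring

theorem fluxU_le {te g0 : ℝ} {P : CTree} {G : Space3 × Par P → ℝ → Space3 → Space3 → ℝ≥0∞}
    (h1 : ∀ q s v b, G q s v b ≤ 1) (q : Space3 × Par P) :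
    fluxU te g0 G q ≤ (ENNReal.ofReal te * (ENNReal.ofReal Real.pi *
      mom4 (fun v => wG g0 v))) * ENNReal.ofReal (1 + ‖q.1‖) := by
  unfold fluxU
  refine (lintegral_mono fun s => velI_le h1 q s).trans (le_of_eq ?_)
  rw [lintegral_const, Measure.restrict_apply_univ, Real.volume_Ioc, sub_zero]
  ring

/-- Convergence at fixed tree and contact time. -/
theorem tendsto_velI {g0 : ℝ} (hg0 : 0 < g0) {P : CTree} {G : VF} (hG : MeasVF G)
    (h1 : ∀ ε P q s v b, G ε P q s v b ≤ 1) {q : Space3 × Par P} {s : ℝ}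
    (h0 : ∀ v b, Tendsto (fun ε => G ε P q s v b) (𝓝[>] 0) (𝓝 0)) :
    Tendsto (fun ε => velI g0 (G ε P) q s) (𝓝[>] 0) (𝓝 0) := by
  have hz : (0 : ℝ≥0∞) = ∫⁻ _v : Space3, (0 : ℝ≥0∞) := by simp
  rw [hz]
  unfold velI
  refine tendsto_lintegral_filter_of_dominated_convergence
    (fun v : Space3 => (ENNReal.ofReal Real.pi * ENNReal.ofReal (1 + ‖q.1‖)) *
        (wG g0 v * ENNReal.ofReal ((1 + ‖v‖) ^ 4))) ?_ ?_ ?_ ?_
  · filter_upwards [self_mem_nhdsWithin] with ε hε
    have hGm := hG ε hε P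
    have h2 : Measurable fun v : Space3 => ENNReal.ofReal ‖v - q.1‖ *
        ∫⁻ b in impactDisc (v - q.1), G ε P q s v b ∂μHE[2] := by
      refine measurable_flux_disc (α := Space3) (γ := fun v => v - q.1)
        (measurable_id.sub measurable_const) (f := fun v b => G ε P q s v b) ?_
      exact Measurable.comp (g := fun x : (Space3 × Par P) × (ℝ × (Space3 × Space3)) =>
        G ε P x.1 x.2.1 x.2.2.1 x.2.2.2) (f := fun x : Space3 × Space3 => (q, (s, (x.1, x.2))))
        hGm (by fun_prop)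
    have h3 : (fun v : Space3 => ENNReal.ofReal ‖v - q.1‖ *
        (wG g0 v * ∫⁻ b in impactDisc (v - q.1), G ε P q s v b ∂μHE[2])) =
        fun v => wG g0 v * (ENNReal.ofReal ‖v - q.1‖ *
          ∫⁻ b in impactDisc (v - q.1), G ε P q s v b ∂μHE[2]) := by
      funext v
      ring
    rw [h3]
    exact (measurable_wG1 g0).mul h2
  · exact Eventually.of_forall fun ε => Eventually.of_forall fun v =>
      integrand_le (h1 ε P) q s v
  · rw [lintegral_const_mul' _ _
      (ENNReal.mul_ne_top ENNReal.ofReal_ne_top ENNReal.ofReal_ne_top)]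
    exact ENNReal.mul_ne_top (ENNReal.mul_ne_top ENNReal.ofReal_ne_top ENNReal.ofReal_ne_top)
      (mom4_wG_ne_top hg0)
  · refine Eventually.of_forall fun v => ?_
    by_cases hv : v - q.1 = 0
    · simp only [hv, norm_zero, ENNReal.ofReal_zero, zero_mul]
      exact tendsto_const_nhds
    have h2 : Tendsto (fun ε => ∫⁻ b in impactDisc (v - q.1), G ε P q s v b ∂μHE[2]) (𝓝[>] 0)
        (𝓝 0) := by
      have hz' : (0 : ℝ≥0∞) = ∫⁻ _b in impactDisc (v - q.1), (0 : ℝ≥0∞) ∂μHE[2] := by simp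
      rw [hz']
      refine tendsto_lintegral_filter_of_dominated_convergence (fun _ => 1) ?_ ?_ ?_ ?_
      · filter_upwards [self_mem_nhdsWithin] with ε hε
        exact Measurable.comp (g := fun x : (Space3 × Par P) × (ℝ × (Space3 × Space3)) =>
          G ε P x.1 x.2.1 x.2.2.1 x.2.2.2) (f := fun b : Space3 => (q, (s, (v, b))))
          (hG ε hε P) (by fun_prop)
      · exact Eventually.of_forall fun ε => Eventually.of_forall fun b => h1 _ _ _ _ _ _
      · rw [setLIntegral_const, measure_impactDisc hv]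
        exact ENNReal.mul_ne_top ENNReal.one_ne_top ENNReal.ofReal_ne_top
      · exact Eventually.of_forall fun b => h0 v b
    have h3 : wG g0 v ≠ ∞ := by unfold wG; exact ENNReal.ofReal_ne_top
    have h4 := ENNReal.Tendsto.const_mul (a := wG g0 v) h2 (Or.inr h3)
    have h5 := ENNReal.Tendsto.const_mul (a := ENNReal.ofReal ‖v - q.1‖) h4
      (Or.inr ENNReal.ofReal_ne_top)
    simpa using h5

theorem tendsto_fluxU {te g0 : ℝ} (hg0 : 0 < g0) {P : CTree} {G : VF} (hG : MeasVF G)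
    (h1 : ∀ ε P q s v b, G ε P q s v b ≤ 1) {q : Space3 × Par P}
    (h0 : ∀ s ∈ Ioc 0 te, ∀ v b, Tendsto (fun ε => G ε P q s v b) (𝓝[>] 0) (𝓝 0)) :
    Tendsto (fun ε => fluxU te g0 (G ε P) q) (𝓝[>] 0) (𝓝 0) := by
  have hz : (0 : ℝ≥0∞) = ∫⁻ _s in Ioc 0 te, (0 : ℝ≥0∞) := by simp
  rw [hz]
  unfold fluxU
  refine tendsto_lintegral_filter_of_dominated_convergence
    (fun _ => (ENNReal.ofReal Real.pi * mom4 (fun v => wG g0 v)) *
      ENNReal.ofReal (1 + ‖q.1‖)) ?_ ?_ ?_ ?_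
  · filter_upwards [self_mem_nhdsWithin] with ε hε
    exact Measurable.comp (g := fun x : (Space3 × Par P) × ℝ => velI g0 (G ε P) x.1 x.2)
      (f := fun s : ℝ => (q, s)) (measurable_velI (hG ε hε P))
      (measurable_const.prodMk measurable_id)
  · exact Eventually.of_forall fun ε => Eventually.of_forall fun s => velI_le (h1 ε P) q s
  · rw [setLIntegral_const, Real.volume_Ioc]
    exact ENNReal.mul_ne_top (ENNReal.mul_ne_top (ENNReal.mul_ne_top ENNReal.ofReal_ne_top
      (mom4_wG_ne_top hg0)) ENNReal.ofReal_ne_top) ENNReal.ofReal_ne_top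
  · filter_upwards [ae_restrict_mem measurableSet_Ioc] with s hs
    exact tendsto_velI hg0 hG h1 (h0 s hs)

/-- **Structure integrals of bounded functionals which converge to `0` almost everywhere.** -/
theorem OS_tendsto (hΦ : AdmissiblePotential Φ) {A : Space3 → ℝ≥0∞} {C b g0 : ℝ}
    (hF : FOk f₀ A C b) {Q : EPar} (hQ : QOk Q g0) (K : ℕ) (T' : ℝ) {κ : Measure ℝ}
    [IsFiniteMeasure κ] (hκ : ∀ᵐ τ ∂κ, τ ∈ Ioc 0 Q.te) {G : VF} (hG : MeasVF G)
    (h1 : ∀ ε P q s v b, G ε P q s v b ≤ 1)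
    (h0 : ∀ P : CTree, ∀ᵐ q : Space3 × Par P, ∀ s ∈ Ioc 0 Q.te, ∀ v b,
      Tendsto (fun ε => G ε P q s v b) (𝓝[>] 0) (𝓝 0))
    {H : ℝ → SF} (hH : ∀ ε, 0 < ε → ∀ P z m w l, H ε P z m w l ≤ sfOf ε K (cfOf G ε) P z m w l) :
    Tendsto (fun ε => OS Φ f₀ ε K Q T' κ (H ε)) (𝓝[>] 0) (𝓝 0) := by
  have hb2 := half_pos hF.b_pos
  choose C' hC' using fun P : CTree => hF.maj.tree hΦ hb2 (half_lt_self hF.b_pos) P
  set S : ℝ≥0∞ := ∑' n : ℕ, markW Q.ρ K n with hS
  have hSt : S ≠ ∞ := tsum_markW_ne_top hQ.ρ_ne K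
  have hAt : ∫⁻ x, A x ≠ ∞ := hF.maj.fin
  -- the bound
  have hle : ∀ ε : ℝ, 0 < ε → OS Φ f₀ ε K Q T' κ (H ε) ≤ κ univ * S *
      ∑ P ∈ GIVStep383.trees K, (∫⁻ x, A x) * ∫⁻ q : Space3 × Par P,
        domG (C' P) (b / 2) T' P q.1 q.2 * fluxU Q.te g0 (G ε P) q := by
    intro ε hε
    refine (OS_le hΦ hε hQ.ρ_ne hQ.γ_meas hQ.γ_ge hκ (measCF_cfOf hG hε) (hH ε hε)).trans ?_
    refine mul_le_mul' le_rfl (Finset.sum_le_sum fun P _ => ?_)
    refine le_trans (lintegral_mono fun z => ?_) ((hC' P).lintegral_u hΦ hε.le T'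
      (F := fluxU Q.te g0 (G ε P)) (measurable_fluxU (hG ε hε P)))
    refine indicator_le_indicator (mul_le_mul' le_rfl (mul_le_mul' le_rfl ?_))
    have hne : fluxU Q.te g0 (G ε P) (z.1.2, z.2) ≠ ∞ := by
      refine ne_top_of_le_ne_top ?_ (fluxU_le (h1 ε P) (z.1.2, z.2))
      exact ENNReal.mul_ne_top (ENNReal.mul_ne_top ENNReal.ofReal_ne_top
        (ENNReal.mul_ne_top ENNReal.ofReal_ne_top (mom4_wG_ne_top hQ.g0_pos)))
        ENNReal.ofReal_ne_top
    exact le_of_eq (gcE_const f₀ ε hF.meas hF.mass hne)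
  -- the limit
  have hlim : ∀ P : CTree, Tendsto (fun ε => ∫⁻ q : Space3 × Par P,
      domG (C' P) (b / 2) T' P q.1 q.2 * fluxU Q.te g0 (G ε P) q) (𝓝[>] 0) (𝓝 0) := by
    intro P
    have hz : (0 : ℝ≥0∞) = ∫⁻ _q : Space3 × Par P, (0 : ℝ≥0∞) := by simp
    rw [hz]
    set c : ℝ≥0∞ := ENNReal.ofReal Q.te * (ENNReal.ofReal Real.pi *
      mom4 (fun v => wG g0 v)) with hc
    have hct : c ≠ ∞ := ENNReal.mul_ne_top ENNReal.ofReal_ne_top
      (ENNReal.mul_ne_top ENNReal.ofReal_ne_top (mom4_wG_ne_top hQ.g0_pos))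
    have hdt : ∀ q : Space3 × Par P, domG (C' P) (b / 2) T' P q.1 q.2 ≠ ∞ := by
      intro q
      unfold domG
      refine ENNReal.mul_ne_top ?_ ENNReal.ofReal_ne_top
      have : ∀ (R : CTree) (p : Par R), boxI T' R p ≠ ∞ := by
        intro R
        induction R with
        | leaf => intro p; exact ENNReal.one_ne_top
        | node l r hl hr =>
          intro p
          refine ENNReal.mul_ne_top ?_ (ENNReal.mul_ne_top (hl _) (hr _))
          unfold box1
          by_cases h : p.1 ∈ {a : NodeP | a.1 ∈ Ioo 0 T' ∧ ‖a.2.2‖ < 1}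
          · rw [indicator_of_mem h]; exact ENNReal.one_ne_top
          · rw [indicator_of_notMem h]; exact ENNReal.zero_ne_top
      exact this P q.2
    refine tendsto_lintegral_filter_of_dominated_convergence
      (fun q : Space3 × Par P => c * (domG (C' P) (b / 2) T' P q.1 q.2 *
        ENNReal.ofReal ((1 + ‖q.1‖) ^ 1))) ?_ ?_ ?_ ?_
    · filter_upwards [self_mem_nhdsWithin] with ε hε
      exact (measurable_domG (hC' P).C_nonneg (b / 2) T' P).mul (measurable_fluxU (hG ε hε P))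
    · refine Eventually.of_forall fun ε => Eventually.of_forall fun q => ?_
      refine (mul_le_mul' le_rfl (fluxU_le (h1 ε P) q)).trans (le_of_eq ?_)
      rw [pow_one, hc]
      ring
    · rw [lintegral_const_mul' _ _ hct]
      exact ENNReal.mul_ne_top hct
        (lintegral_domG_pow_ne_top (hC' P).C_nonneg hb2 T' P 1)
    · filter_upwards [h0 P] with q hq
      have h2 := ENNReal.Tendsto.const_mul (a := domG (C' P) (b / 2) T' P q.1 q.2)
        (tendsto_fluxU hQ.g0_pos hG h1 hq) (Or.inr (hdt q))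
      simpa using h2
  have hsum : Tendsto (fun ε => κ univ * S * ∑ P ∈ GIVStep383.trees K, (∫⁻ x, A x) *
      ∫⁻ q : Space3 × Par P, domG (C' P) (b / 2) T' P q.1 q.2 * fluxU Q.te g0 (G ε P) q)
      (𝓝[>] 0) (𝓝 0) := by
    have h2 : Tendsto (fun ε => ∑ P ∈ GIVStep383.trees K, (∫⁻ x, A x) *
        ∫⁻ q : Space3 × Par P, domG (C' P) (b / 2) T' P q.1 q.2 * fluxU Q.te g0 (G ε P) q)
        (𝓝[>] 0) (𝓝 (∑ P ∈ GIVStep383.trees K, (∫⁻ x, A x) * 0)) :=
      tendsto_finsetSum _ fun P _ => ENNReal.Tendsto.const_mul (hlim P) (Or.inr hAt)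
    simp only [mul_zero, Finset.sum_const_zero] at h2
    have h3 := ENNReal.Tendsto.const_mul (a := κ univ * S) h2
      (Or.inr (ENNReal.mul_ne_top (measure_ne_top _ _) hSt))
    simpa using h3
  refine tendsto_of_tendsto_of_tendsto_of_le_of_le' tendsto_const_nhds hsum
    (Eventually.of_forall fun _ => bot_le) ?_
  filter_upwards [self_mem_nhdsWithin] with ε hε
  exact hle ε hε

/-! ### Final lines -/

section node

variable (ε : ℝ) {l r : CTree} (ℓ : PhasePoint) (p : Par (node l r))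

theorem fin_inl_root : fin Φ ε (node l r) ℓ p (Sum.inl (root l)) = ℓ := by
  show Function.update (fin Φ ε l (inMap Φ ε ℓ p.1).1 p.2.1) (root l) ℓ (root l) = ℓ
  rw [Function.update_self]

theorem fin_inl_ne {i : Idx l} (hi : i ≠ root l) :
    fin Φ ε (node l r) ℓ p (Sum.inl i) = fin Φ ε l (inMap Φ ε ℓ p.1).1 p.2.1 i := by
  show Function.update (fin Φ ε l (inMap Φ ε ℓ p.1).1 p.2.1) (root l) ℓ i = _
  rw [Function.update_of_ne hi]

theorem fin_inr_root : fin Φ ε (node l r) ℓ p (Sum.inr (root r)) = outLine ε ℓ p.1 := by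
  show Function.update (fin Φ ε r (inMap Φ ε ℓ p.1).2 p.2.2) (root r) (outLine ε ℓ p.1)
    (root r) = _
  rw [Function.update_self]

theorem fin_inr_ne {i : Idx r} (hi : i ≠ root r) :
    fin Φ ε (node l r) ℓ p (Sum.inr i) = fin Φ ε r (inMap Φ ε ℓ p.1).2 p.2.2 i := by
  show Function.update (fin Φ ε r (inMap Φ ε ℓ p.1).2 p.2.2) (root r) (outLine ε ℓ p.1) i = _
  rw [Function.update_of_ne hi]

end node

theorem fin_shift (ε : ℝ) : ∀ (P : CTree) (X v : Space3) (p : Par P) (i : Idx P),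
    fin Φ ε P (X, v) p i = ((fin Φ ε P (0, v) p i).1 + X, (fin Φ ε P (0, v) p i).2)
  | leaf, X, v, _, _ => by
      show ((X, v) : PhasePoint) = ((0 : Space3) + X, v)
      rw [zero_add]
  | node l r, X, v, p, i => by
      have e1 : (inMap Φ ε (X, v) p.1).1 =
          ((inMap Φ ε (0, v) p.1).1.1 + X, (inMap Φ ε (0, v) p.1).1.2) := by
        rw [TreeEps399.inMap_eq, TreeEps399.inMap_eq]
        refine Prod.ext ?_ rfl
        simp only
        abel
      have e2 : (inMap Φ ε (X, v) p.1).2 =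
          ((inMap Φ ε (0, v) p.1).2.1 + X, (inMap Φ ε (0, v) p.1).2.2) := by
        rw [TreeEps399.inMap_eq, TreeEps399.inMap_eq]
        refine Prod.ext ?_ rfl
        simp only
        abel
      rcases i with i | i
      · by_cases hi : i = root l
        · subst hi
          rw [fin_inl_root, fin_inl_root, zero_add]
        · rw [fin_inl_ne ε _ p hi, fin_inl_ne ε _ p hi, e1, fin_shift ε l _ _ p.2.1 i]
          have h3 := fin_shift ε l (inMap Φ ε (0, v) p.1).1.1 (inMap Φ ε (0, v) p.1).1.2 p.2.1 i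
          have h4 : ((inMap Φ ε (0, v) p.1).1.1, (inMap Φ ε (0, v) p.1).1.2) =
            (inMap Φ ε (0, v) p.1).1 := rfl
          rw [h4] at h3
          rw [h3]
          refine Prod.ext ?_ rfl
          simp only
          abel
      · by_cases hi : i = root r
        · subst hi
          rw [fin_inr_root, fin_inr_root]
          unfold outLine
          refine Prod.ext ?_ rfl
          simp only
          abel
        · rw [fin_inr_ne ε _ p hi, fin_inr_ne ε _ p hi, e2, fin_shift ε r _ _ p.2.2 i]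
          have h3 := fin_shift ε r (inMap Φ ε (0, v) p.1).2.1 (inMap Φ ε (0, v) p.1).2.2 p.2.2 i
          have h4 : ((inMap Φ ε (0, v) p.1).2.1, (inMap Φ ε (0, v) p.1).2.2) =
            (inMap Φ ε (0, v) p.1).2 := rfl
          rw [h4] at h3
          rw [h3]
          refine Prod.ext ?_ rfl
          simp only
          abel

/-- The velocities of the final lines do not depend on `ε`. -/
theorem fin_vel (ε ε' : ℝ) : ∀ (P : CTree) (X X' v : Space3) (p : Par P) (i : Idx P),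
    (fin Φ ε P (X, v) p i).2 = (fin Φ ε' P (X', v) p i).2
  | leaf, X, X', v, _, _ => rfl
  | node l r, X, X', v, p, i => by
      rcases i with i | i
      · by_cases hi : i = root l
        · subst hi
          rw [fin_inl_root, fin_inl_root]
        · rw [fin_inl_ne ε _ p hi, fin_inl_ne ε' _ p hi]
          exact fin_vel ε ε' l _ _ _ p.2.1 i
      · by_cases hi : i = root r
        · subst hi
          rw [fin_inr_root, fin_inr_root]
          rfl
        · rw [fin_inr_ne ε _ p hi, fin_inr_ne ε' _ p hi]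
          exact fin_vel ε ε' r _ _ _ p.2.2 i

/-! ### Members of the tree near the encounter -/

/-- The tree is valid at the contact time `s`, and either the root has just left its last window, or an
exit line is close to the root line at time `s`. -/
def Mem (Φ : Space3 → ℝ) (te a ε : ℝ) (P : CTree) (q : Space3 × Par P) (s : ℝ) (v : Space3) :
    Prop :=
  (s ≤ te ∧ Valid Φ ε P s q.1 q.2) ∧ (s ≤ rel P q.2 (root P) + a ∨ ∃ i : Idx P, i ≠ root P ∧
    dist (onLine (LineMeas994.finM Φ ε P (0, q.1) q.2 i) s).1 (s • q.1) ≤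
      a * (1 + ‖v‖ + ‖q.1‖) + a * ‖(LineMeas994.finM Φ ε P (0, q.1) q.2 i).2 - q.1‖)

/-- Indicator of `Mem`. -/
def memF (Φ : Space3 → ℝ) (te a ε : ℝ) (P : CTree) (q : Space3 × Par P) (s : ℝ) (v _b : Space3) :
    ℝ≥0∞ := if Mem Φ te a ε P q s v then 1 else 0

/-- Structure functional: a member of the tree near the encounter. -/
def memS (Φ : Space3 → ℝ) (te : ℝ) (K : ℕ) (a ε : ℝ) : SF :=
  sfOf ε K (cfOf (fun ε => memF Φ te a ε) ε)

theorem measurableSet_mem (hΦ : AdmissiblePotential Φ) (te a ε : ℝ) (P : CTree) :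
    MeasurableSet {x : (Space3 × Par P) × (ℝ × (Space3 × Space3)) |
      Mem Φ te a ε P x.1 x.2.1 x.2.2.1} := by
  have hu : Measurable fun x : (Space3 × Par P) × (ℝ × (Space3 × Space3)) => x.1.1 :=
    measurable_fst.comp measurable_fst
  have hp : Measurable fun x : (Space3 × Par P) × (ℝ × (Space3 × Space3)) => x.1.2 :=
    measurable_snd.comp measurable_fst
  have hs : Measurable fun x : (Space3 × Par P) × (ℝ × (Space3 × Space3)) => x.2.1 :=
    measurable_fst.comp measurable_snd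
  have hv : Measurable fun x : (Space3 × Par P) × (ℝ × (Space3 × Space3)) => x.2.2.1 :=
    measurable_fst.comp (measurable_snd.comp measurable_snd)
  have hq : Measurable fun x : (Space3 × Par P) × (ℝ × (Space3 × Space3)) =>
      ((x.2.1, (((0 : Space3), x.1.1), x.1.2)) : ℝ × (PhasePoint × Par P)) :=
    hs.prodMk ((measurable_const.prodMk hu).prodMk hp)
  have h1 : MeasurableSet {x : (Space3 × Par P) × (ℝ × (Space3 × Space3)) |
      x.2.1 ≤ te ∧ Valid Φ ε P x.2.1 x.1.1 x.1.2} := hq (measurableSet_validJ hΦ ε te P)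
  have h2 : MeasurableSet {x : (Space3 × Par P) × (ℝ × (Space3 × Space3)) |
      x.2.1 ≤ rel P x.1.2 (root P) + a} :=
    measurableSet_le hs (((LineMeas994.measurable_rel P (root P)).comp hp).add_const a)
  have h3 : ∀ i : Idx P, MeasurableSet {x : (Space3 × Par P) × (ℝ × (Space3 × Space3)) |
      i ≠ root P ∧ dist (onLine (LineMeas994.finM Φ ε P (0, x.1.1) x.1.2 i) x.2.1).1
        (x.2.1 • x.1.1) ≤ a * (1 + ‖x.2.2.1‖ + ‖x.1.1‖) +
          a * ‖(LineMeas994.finM Φ ε P (0, x.1.1) x.1.2 i).2 - x.1.1‖} := by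
    intro i
    have hf : Measurable fun x : (Space3 × Par P) × (ℝ × (Space3 × Space3)) =>
        LineMeas994.finM Φ ε P (0, x.1.1) x.1.2 i :=
      Measurable.comp (g := fun z : PhasePoint × Par P => LineMeas994.finM Φ ε P z.1 z.2 i)
        (f := fun x : (Space3 × Par P) × (ℝ × (Space3 × Space3)) =>
          ((((0 : Space3), x.1.1), x.1.2) : PhasePoint × Par P))
        (LineMeas994.measurable_finM_apply hΦ ε P i) ((measurable_const.prodMk hu).prodMk hp)
    have hd : Measurable fun x : (Space3 × Par P) × (ℝ × (Space3 × Space3)) =>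
        (onLine (LineMeas994.finM Φ ε P (0, x.1.1) x.1.2 i) x.2.1).1 := by
      unfold onLine
      exact hf.fst.add (hs.smul hf.snd)
    by_cases hi : i = root P
    · have : {x : (Space3 × Par P) × (ℝ × (Space3 × Space3)) |
        i ≠ root P ∧ dist (onLine (LineMeas994.finM Φ ε P (0, x.1.1) x.1.2 i) x.2.1).1
          (x.2.1 • x.1.1) ≤ a * (1 + ‖x.2.2.1‖ + ‖x.1.1‖) +
            a * ‖(LineMeas994.finM Φ ε P (0, x.1.1) x.1.2 i).2 - x.1.1‖} = ∅ := by
        ext x
        simp [hi]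
      rw [this]
      exact MeasurableSet.empty
    · have : {x : (Space3 × Par P) × (ℝ × (Space3 × Space3)) |
        i ≠ root P ∧ dist (onLine (LineMeas994.finM Φ ε P (0, x.1.1) x.1.2 i) x.2.1).1
          (x.2.1 • x.1.1) ≤ a * (1 + ‖x.2.2.1‖ + ‖x.1.1‖) +
            a * ‖(LineMeas994.finM Φ ε P (0, x.1.1) x.1.2 i).2 - x.1.1‖} =
        {x : (Space3 × Par P) × (ℝ × (Space3 × Space3)) |
        dist (onLine (LineMeas994.finM Φ ε P (0, x.1.1) x.1.2 i) x.2.1).1
          (x.2.1 • x.1.1) ≤ a * (1 + ‖x.2.2.1‖ + ‖x.1.1‖) +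
            a * ‖(LineMeas994.finM Φ ε P (0, x.1.1) x.1.2 i).2 - x.1.1‖} := by
        ext x
        exact ⟨fun h => h.2, fun h => ⟨hi, h⟩⟩
      rw [this]
      refine measurableSet_le (hd.dist (hs.smul hu)) ?_
      exact (((hv.norm.const_add 1).add hu.norm).const_mul a).add
        ((hf.snd.sub hu).norm.const_mul a)
  have e : {x : (Space3 × Par P) × (ℝ × (Space3 × Space3)) | Mem Φ te a ε P x.1 x.2.1 x.2.2.1} =
      {x : (Space3 × Par P) × (ℝ × (Space3 × Space3)) |
        x.2.1 ≤ te ∧ Valid Φ ε P x.2.1 x.1.1 x.1.2} ∩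
      ({x : (Space3 × Par P) × (ℝ × (Space3 × Space3)) | x.2.1 ≤ rel P x.1.2 (root P) + a} ∪
      ⋃ i : Idx P, {x : (Space3 × Par P) × (ℝ × (Space3 × Space3)) |
      i ≠ root P ∧ dist (onLine (LineMeas994.finM Φ ε P (0, x.1.1) x.1.2 i) x.2.1).1
        (x.2.1 • x.1.1) ≤ a * (1 + ‖x.2.2.1‖ + ‖x.1.1‖) +
          a * ‖(LineMeas994.finM Φ ε P (0, x.1.1) x.1.2 i).2 - x.1.1‖}) := by
    ext x
    simp only [mem_inter_iff, mem_union, mem_iUnion]
    rfl
  rw [e]
  exact h1.inter (h2.union (MeasurableSet.iUnion h3))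

theorem measurable_memF (hΦ : AdmissiblePotential Φ) (te a ε : ℝ) (P : CTree) :
    Measurable fun x : (Space3 × Par P) × (ℝ × (Space3 × Space3)) =>
      memF Φ te a ε P x.1 x.2.1 x.2.2.1 x.2.2.2 :=
  Measurable.ite (measurableSet_mem hΦ te a ε P) measurable_const measurable_const

theorem measSF_memS (hΦ : AdmissiblePotential Φ) (te : ℝ) (K : ℕ) (a ε : ℝ) :
    MeasSF (memS Φ te K a ε) :=
  measSF_sfOf ε K (measCF_cfOf' (G := fun ε => memF Φ te a ε) fun P => measurable_memF hΦ te a ε P)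

/-- **Pointwise**: a member of the tree near the encounter. -/
theorem one_le_memS {te a ε : ℝ} {K : ℕ} {P : CTree}
    {z : PhasePoint × Par P} {m : ℕ} {w : Config m} {l : ML} (hP : P.leaves ≤ K)
    (hct : (z, l.1) ∈ ctSet Φ ε te P)
    (h : cT ε z l ≤ rel P z.2 (root P) + a ∨ ∃ i : Idx P, i ≠ root P ∧
      ∃ t : ℝ, |t - cT ε z l| ≤ a ∧ dist (onLine (fin Φ ε P z.1 z.2 i) t).1
        (z.1.1 + t • z.1.2) ≤ a * (1 + ‖l.1.2.2‖ + ‖z.1.2‖)) :
    1 ≤ memS Φ te K a ε P z m w l := by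
  obtain ⟨-, -, -, hte, hV⟩ := hct
  have hmem : Mem Φ te a ε P (z.1.2, z.2) (cT ε z l) l.1.2.2 := by
    refine ⟨⟨hte, hV⟩, ?_⟩
    rcases h with h | ⟨i, hi, t, ht, hd⟩
    · exact Or.inl h
    · refine Or.inr ⟨i, hi, ?_⟩
      set s : ℝ := cT ε z l with hs
      have hA : Adm Φ P z.1.2 z.2 := hV.1
      rw [LineMeas994.finM_of_adm ε (P := P) (ℓ := (0, z.1.2)) (p := z.2) hA]
      have hsh := fin_shift (Φ := Φ) ε P z.1.1 z.1.2 z.2 i
      have hz : ((z.1.1, z.1.2) : PhasePoint) = z.1 := rfl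
      rw [hz] at hsh
      set F := fin Φ ε P (0, z.1.2) z.2 i with hF
      rw [hsh] at hd
      have e1 : dist (onLine ((F.1 + z.1.1, F.2) : PhasePoint) t).1 (z.1.1 + t • z.1.2) =
          ‖F.1 + t • (F.2 - z.1.2)‖ := by
        rw [dist_eq_norm]
        congr 1
        simp only [onLine]
        module
      have e2 : dist (onLine F s).1 (s • z.1.2) = ‖F.1 + s • (F.2 - z.1.2)‖ := by
        rw [dist_eq_norm]
        congr 1
        simp only [onLine]
        module
      rw [e1] at hd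
      show dist (onLine F s).1 (s • z.1.2) ≤ _
      rw [e2]
      have e3 : F.1 + s • (F.2 - z.1.2) = (F.1 + t • (F.2 - z.1.2)) -
          (t - s) • (F.2 - z.1.2) := by module
      rw [e3]
      refine (norm_sub_le _ _).trans (add_le_add hd ?_)
      rw [norm_smul, Real.norm_eq_abs]
      exact mul_le_mul_of_nonneg_right ht (norm_nonneg _)
  unfold memS sfOf
  rw [if_pos hP]
  show (1 : ℝ≥0∞) ≤ if Mem Φ te a ε P (z.1.2, z.2) (cT ε z l) l.1.2.2 then 1 else 0
  rw [if_pos hmem]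

/-- Away from `memS` the encounter is isolated from the other members of the tree. -/
theorem of_memS_lt {te a ε : ℝ} {K : ℕ} {P : CTree}
    {z : PhasePoint × Par P} {m : ℕ} {w : Config m} {l : ML} (hP : P.leaves ≤ K)
    (hct : (z, l.1) ∈ ctSet Φ ε te P) (h : memS Φ te K a ε P z m w l < 1) :
    rel P z.2 (root P) + a < cT ε z l ∧ ∀ i : Idx P, i ≠ root P → ∀ t : ℝ,
      |t - cT ε z l| ≤ a → a * (1 + ‖l.1.2.2‖ + ‖z.1.2‖) <
        dist (lpos (lineML Φ ε P z i) t) (z.1.1 + t • z.1.2) := by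
  constructor
  · by_contra hc
    exact absurd (one_le_memS hP hct (Or.inl (not_lt.1 hc))) (not_le.2 h)
  · intro i hi t ht
    by_contra hc
    have e : lpos (lineML Φ ε P z i) t = (onLine (fin Φ ε P z.1 z.2 i) t).1 := by
      unfold lpos
      rw [back_lineML]
      rfl
    rw [e] at hc
    exact absurd (one_le_memS hP hct (Or.inr ⟨i, hi, t, ht, not_lt.1 hc⟩)) (not_le.2 h)

/-- Convergence at generic parameters. -/
theorem tendsto_memF (hΦ : AdmissiblePotential Φ) {te : ℝ} {a : ℝ → ℝ}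
    (ha : Tendsto a (𝓝[>] 0) (𝓝 0)) {P : CTree} {q : Space3 × Par P}
    (hq : Valid Φ 0 P te q.1 q.2 → Gen Φ P (0, q.1) q.2) {s : ℝ} (hs : s ∈ Ioc 0 te)
    (v b : Space3) : Tendsto (fun ε => memF Φ te (a ε) ε P q s v b) (𝓝[>] 0) (𝓝 0) := by
  by_cases hV : Valid Φ 0 P s q.1 q.2
  swap
  · refine tendsto_const_nhds.congr' ?_
    filter_upwards [self_mem_nhdsWithin] with ε hε
    unfold memF
    rw [if_neg]
    intro h
    exact hV (valid_zero (le_of_lt hε) h.1.2)
  have hVt : Valid Φ 0 P te q.1 q.2 := ((valid_iff_top hs.2).1 hV).1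
  have hG := hq hVt
  have hrel : rel P q.2 (root P) < s := (LineMeas994.valid_at hs.1 hs.2).1 hV |>.2
  -- the root is not in its last window
  have h1 : ∀ᶠ ε in 𝓝[>] (0 : ℝ), rel P q.2 (root P) + a ε < s := by
    have : Tendsto (fun ε => rel P q.2 (root P) + a ε) (𝓝[>] 0)
        (𝓝 (rel P q.2 (root P) + 0)) := tendsto_const_nhds.add ha
    rw [add_zero] at this
    exact this.eventually (gt_mem_nhds hrel)
  -- the exit lines
  have h2 : ∀ i : Idx P, i ≠ root P → ∀ᶠ ε in 𝓝[>] (0 : ℝ), Valid Φ ε P s q.1 q.2 →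
      a ε * (1 + ‖v‖ + ‖q.1‖) + a ε * ‖(fin Φ ε P (0, q.1) q.2 i).2 - q.1‖ <
        dist (onLine (fin Φ ε P (0, q.1) q.2 i) s).1 (s • q.1) := by
    intro i hi
    have hw1 : ¬ InWindow Φ 0 P q.1 q.2 i (root P) s := fun h =>
      absurd (TreeEps399.inWindow_lt hV.2 h) (lt_irrefl s)
    have hw2 : ¬ InWindow Φ 0 P q.1 q.2 (root P) i s := fun h =>
      absurd (TreeEps399.inWindow_lt hV.2 h) (lt_irrefl s)
    have hne := hG i (root P) hi s hs.1.le hw1 hw2
    set d := dist (path Φ 0 P (0, q.1) q.2 s i).1 (path Φ 0 P (0, q.1) q.2 s (root P)).1 with hd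
    have hd0 : 0 < d := dist_pos.2 hne
    have hcl := TreeEps399.path_close P q.1 q.2 s hV.1 hV.2 (fun _ => (0 : Space3)) 0
      tendsto_const_nhds (d / 4) (by positivity)
    set c : ℝ := (1 + ‖v‖ + ‖q.1‖) + ‖(fin Φ 0 P (0, q.1) q.2 i).2 - q.1‖ with hc
    have hac : ∀ᶠ ε in 𝓝[>] (0 : ℝ), a ε * c < d / 2 := by
      have : Tendsto (fun ε => a ε * c) (𝓝[>] 0) (𝓝 (0 * c)) := ha.mul_const c
      rw [zero_mul] at this
      exact this.eventually (gt_mem_nhds (by positivity))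
    filter_upwards [hcl, hac, self_mem_nhdsWithin] with ε h3 h4 hε hVε
    have hε0 : (0 : ℝ) ≤ ε := le_of_lt hε
    have h5 := h3 s i
    have h6 := h3 s (root P)
    have h7 := path_after hε0 P s (0, q.1) q.2 hVε.2 s le_rfl i
    have h8 := path_root_after hε0 (P := P) (ℓ := (0, q.1)) hVε.2 (le_refl s)
    have h9 : (onLine ((0, q.1) : PhasePoint) s).1 = s • q.1 := by
      simp [onLine]
    rw [← h7, ← h9, ← h8, fin_vel ε 0 P 0 0 q.1 q.2 i]
    have h10 := dist_triangle4 (path Φ 0 P (0, q.1) q.2 s i).1 (path Φ ε P (0, q.1) q.2 s i).1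
      (path Φ ε P (0, q.1) q.2 s (root P)).1 (path Φ 0 P (0, q.1) q.2 s (root P)).1
    rw [dist_comm (path Φ 0 P (0, q.1) q.2 s i).1 (path Φ ε P (0, q.1) q.2 s i).1] at h10
    have h11 : a ε * (1 + ‖v‖ + ‖q.1‖) + a ε * ‖(fin Φ 0 P (0, q.1) q.2 i).2 - q.1‖ =
        a ε * c := by rw [hc]; ring
    rw [h11]
    linarith
  have h3 : ∀ᶠ ε in 𝓝[>] (0 : ℝ), ∀ i : Idx P, i ≠ root P → Valid Φ ε P s q.1 q.2 →
      a ε * (1 + ‖v‖ + ‖q.1‖) + a ε * ‖(fin Φ ε P (0, q.1) q.2 i).2 - q.1‖ <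
        dist (onLine (fin Φ ε P (0, q.1) q.2 i) s).1 (s • q.1) := by
    rw [eventually_all]
    intro i
    by_cases hi : i = root P
    · exact Eventually.of_forall fun _ h => absurd hi h
    · filter_upwards [h2 i hi] with ε hε _
      exact hε
  refine tendsto_const_nhds.congr' ?_
  filter_upwards [h1, h3] with ε h4 h5
  unfold memF
  rw [if_neg]
  rintro ⟨⟨-, hVε⟩, h | ⟨i, hi, h⟩⟩
  · exact absurd h (not_le.2 h4)
  · rw [LineMeas994.finM_of_adm ε (P := P) (ℓ := (0, q.1)) (p := q.2) hVε.1] at h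
    exact absurd h (not_le.2 (h5 i hi hVε))

/-- **(3V)** The structure integral of `memS` tends to `0` when `a → 0`. -/
theorem tendsto_memS (hΦ : AdmissiblePotential Φ) {A : Space3 → ℝ≥0∞} {C b g0 : ℝ}
    (hF : FOk f₀ A C b) {Q : EPar} (hQ : QOk Q g0) (K : ℕ) (T' : ℝ) {κ : Measure ℝ}
    [IsFiniteMeasure κ] (hκ : ∀ᵐ τ ∂κ, τ ∈ Ioc 0 Q.te) {a : ℝ → ℝ}
    (ha : Tendsto a (𝓝[>] 0) (𝓝 0)) :
    Tendsto (fun ε => OS Φ f₀ ε K Q T' κ (memS Φ Q.te K (a ε) ε)) (𝓝[>] 0) (𝓝 0) := by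
  refine OS_tendsto hΦ hF hQ K T' hκ (G := fun ε => memF Φ Q.te (a ε) ε)
    (fun ε _ P => measurable_memF hΦ Q.te (a ε) ε P) ?_ ?_ (fun ε _ P z m w l => le_rfl)
  · intro ε P q s v b
    unfold memF
    split_ifs
    · exact le_rfl
    · exact bot_le
  · intro P
    filter_upwards [TreeLim974.gen_ae_q hΦ P Q.te] with q hq s hs v b
    exact tendsto_memF hΦ ha hq hs v b

/-- `Null` from convergence at every `K`. -/
theorem null_of_tendsto {q : ℕ → ℝ → ℝ≥0∞}
    (h : ∀ K, Tendsto (fun ε => q K ε) (𝓝[>] 0) (𝓝 0)) : Null q := by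
  intro K δ hδ
  have h1 := (h K).eventually (gt_mem_nhds (show (0 : ℝ≥0∞) < ENNReal.ofReal δ by
    simpa using hδ))
  obtain ⟨u, hu, hsub⟩ := mem_nhdsGT_iff_exists_Ioo_subset.1 h1
  exact ⟨u, hu, fun ε h0 h2 => (hsub ⟨h0, h2⟩).le⟩

/-- **(3V)**, test lines with all the birth times. -/
theorem null_memS (hΦ : AdmissiblePotential Φ) {A : Space3 → ℝ≥0∞} {C b g0 : ℝ}
    (hF : FOk f₀ A C b) {Q : EPar} (hQ : QOk Q g0) (T' : ℝ) {a : ℝ → ℝ}
    (ha : Tendsto a (𝓝[>] 0) (𝓝 0)) :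
    Null fun K ε => OS Φ f₀ ε K Q T' (volume.restrict (Ioc 0 Q.te))
      (memS Φ Q.te K (a ε) ε) :=
  null_of_tendsto fun K => tendsto_memS hΦ hF hQ K T' (ae_restrict_mem measurableSet_Ioc) ha

end Crest.Agent.R122.ThirdV796
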