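import Crest.Agent.R122.LN2Birth_473
import Crest.Agent.R122.LN2Ct_473
import Crest.Agent.R122.GateTree_522
import Crest.Agent.R122.ThirdV_796
import Crest.Agent.R122.OSTN_434
import Crest.Agent.R122.PWBirth_365

/-!
# Row 122: no particle of the gas near the births of the lines of the tree (helper255)

* `BT Φ R` : at the birth of the line of some particle of the tree a particle of the gas is within
  `R ε` of it.
* `gNull_birth_line` : null, for every particle of a tree, under the energy weighted law.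
* `tNull_bt` : `TNull Φ f₀ T' K (BT Φ R)`; `osNull_bt` : the same for contact structures.
* `noB_of_not_bt` : `PW365.NoB` for all lines of the tree.
-/

set_option autoImplicit false
set_option linter.unusedSectionVars false

open MeasureTheory Set Filter Topology
open scoped Classical ENNReal
open Crest.AnalysisR.Kinetic
open Crest.Agent.R122.GC311 Crest.Agent.R122.EDefs602
open Crest.Agent.R122.Kin796 Crest.Agent.R122.Kin796.CTree Crest.Agent.R122.Tree674
open Crest.Agent.R122.TreeLines335 Crest.Agent.R122.LineMeas994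
open Crest.Agent.R122.ToTree335 Crest.Agent.R122.InEq2 Crest.Agent.R122.LN2
open Crest.Agent.R122.Gate424 Crest.Agent.R122.GateT522

noncomputable section

namespace Crest.Agent.R122.BirthT255

variable {Φ : Space3 → ℝ} {f₀ : PhasePoint → ℝ} {ε T' : ℝ}

/-- Translation of the root. -/
def shT {P : CTree} (a : Space3) (z : PhasePoint × Par P) : PhasePoint × Par P :=
  ((z.1.1 + a, z.1.2), z.2)

/-- Position of the line of `i` at its birth, on valid trees. -/
def yT (Φ : Space3 → ℝ) (ε T' : ℝ) (P : CTree) (i : Idx P) (z : PhasePoint × Par P) : Space3 :=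
  if Valid Φ ε P T' z.1.2 z.2 then (lineMM Φ ε P z i).1.2.1 else z.1.1

theorem measurable_yT (hΦ : AdmissiblePotential Φ) (ε T' : ℝ) (P : CTree) (i : Idx P) :
    Measurable (yT Φ ε T' P i) := by
  unfold yT
  refine Measurable.ite (measurableSet_valid hΦ ε P T') ?_ measurable_fst.fst
  exact (measurable_lineMM hΦ ε P i).fst.snd.fst

theorem yT_of_valid {P : CTree} {i : Idx P} {z : PhasePoint × Par P}
    (h : Valid Φ ε P T' z.1.2 z.2) : yT Φ ε T' P i z = (lineML Φ ε P z i).1.2.1 := by
  unfold yT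
  rw [if_pos h, lineMM_of_adm ε h.1]

theorem yT_sh {P : CTree} {i : Idx P} (a : Space3) (z : PhasePoint × Par P) :
    yT Φ ε T' P i (shT a z) = yT Φ ε T' P i z + a := by
  by_cases h : Valid Φ ε P T' z.1.2 z.2
  · have h' : Valid Φ ε P T' (shT a z).1.2 (shT a z).2 := h
    rw [yT_of_valid h, yT_of_valid h']
    show (onLine (PathFlow968.fin Φ ε P (z.1.1 + a, z.1.2) z.2 i) (rel P z.2 i)).1 =
      (onLine (PathFlow968.fin Φ ε P z.1 z.2 i) (rel P z.2 i)).1 + a
    have h1 := ThirdV796.fin_shift (Φ := Φ) ε P (z.1.1 + a) z.1.2 z.2 i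
    have h2 := ThirdV796.fin_shift (Φ := Φ) ε P z.1.1 z.1.2 z.2 i
    have h3 : ((z.1.1, z.1.2) : PhasePoint) = z.1 := rfl
    rw [h3] at h2
    rw [h1, h2]
    unfold onLine
    simp only
    abel
  · have h' : ¬ Valid Φ ε P T' (shT a z).1.2 (shT a z).2 := h
    unfold yT
    rw [if_neg h, if_neg h']
    rfl

/-- **No particle of the gas near the birth of one line of the tree.** -/
theorem gNull_birth_line (hΦ : AdmissiblePotential Φ) (hf : Measurable f₀) {b : ℝ} (hb : 0 < b)
    (H : HasSummableGaussianBound b (fun x v => f₀ (x, v)))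
    (h1 : ∫⁻ z, ENNReal.ofReal (f₀ z) ≤ 1) (R : ℝ) (P : CTree) (T' : ℝ) (i : Idx P) :
    GNull f₀ (fun ε (_ : Unit) => treeQ Φ f₀ ε P T') (fun ε _ _ z w =>
      Valid Φ ε P T' z.1.2 z.2 ∧
        LN2.Birth Φ ε R w (lineML Φ ε P z i).1.1 (lineML Φ ε P z i).1.2.1) := by
  obtain ⟨ρ, C₀, he⟩ := LN2.exists_env (le_refl b) H
  set a : ℝ := b / 2 with ha
  have ha0 : 0 < a := by rw [ha]; linarith
  have hab : a < b := by rw [ha]; linarith
  obtain ⟨G, hG, hGi, hGle⟩ := LN2.exists_treeG hΦ he hab P T'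
  obtain ⟨χ, hχ, hχ1⟩ : ∃ χ : Space3 → ℝ≥0∞, Measurable χ ∧ ∫⁻ x, χ x = 1 := by
    refine ⟨(Metric.closedBall (0 : Space3) 1).indicator fun _ =>
      (volume (Metric.closedBall (0 : Space3) 1))⁻¹,
      measurable_const.indicator Metric.isClosed_closedBall.measurableSet, ?_⟩
    rw [lintegral_indicator Metric.isClosed_closedBall.measurableSet, setLIntegral_const,
      ENNReal.inv_mul_cancel]
    · exact (Metric.measure_closedBall_pos volume _ one_pos).ne'
    · exact measure_closedBall_lt_top.ne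
  have hG' : Measurable fun z : PhasePoint × Par P => G (z.1.2, z.2) :=
    hG.comp (measurable_fst.snd.prodMk measurable_snd)
  set m' : Measure (PhasePoint × Par P) :=
    (volume : Measure (PhasePoint × Par P)).withDensity fun z => G (z.1.2, z.2) with hm'
  have hsf : SFinite m' := by rw [hm']; infer_instance
  have hshm : ∀ a : Space3, Measurable (shT (P := P) a) := fun a => by
    unfold shT
    exact ((measurable_fst.fst.add measurable_const).prodMk measurable_fst.snd).prodMk
      measurable_snd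
  -- the mass
  have hGfin : ∫⁻ q : Space3 × Par P, G q ≠ ∞ := by
    refine ne_top_of_le_ne_top hGi (lintegral_mono fun q => ?_)
    refine le_mul_of_one_le_right bot_le ?_
    rw [← ENNReal.ofReal_one]
    exact ENNReal.ofReal_le_ofReal (by linarith [norm_nonneg q.1])
  -- integrals
  have hint : ∀ F : PhasePoint × Par P → ℝ≥0∞, Measurable F →
      ∫⁻ z, F z ∂m' = ∫⁻ z : PhasePoint × Par P, G (z.1.2, z.2) * F z := by
    intro F hF
    rw [hm', lintegral_withDensity_eq_lintegral_mul _ hG' hF]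
    rfl
  have hsplit : ∀ F : PhasePoint × Par P → ℝ≥0∞, Measurable F →
      ∫⁻ z : PhasePoint × Par P, F z = ∫⁻ q : Space3 × Par P, ∫⁻ x : Space3, F ((x, q.1), q.2) :=
    fun F hF => TreeLim974.lintegral_split P hF
  have hinv : ∀ a : Space3, m'.map (shT a) = m' := by
    intro a
    refine Measure.ext fun s hs => ?_
    rw [Measure.map_apply (hshm a) hs]
    have e1 : ∀ s : Set (PhasePoint × Par P), MeasurableSet s →
        m' s = ∫⁻ q : Space3 × Par P, ∫⁻ x : Space3,
          G (q.1, q.2) * s.indicator 1 (((x, q.1), q.2) : PhasePoint × Par P) := by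
      intro s hs
      have hsm : Measurable (s.indicator (1 : PhasePoint × Par P → ℝ≥0∞)) :=
        measurable_one.indicator hs
      rw [← lintegral_indicator_one hs, hint _ hsm]
      exact hsplit _ (hG'.mul hsm)
    rw [e1 _ hs, e1 _ ((hshm a) hs)]
    refine lintegral_congr fun q => ?_
    have hm1 : Measurable fun x : Space3 => s.indicator (1 : PhasePoint × Par P → ℝ≥0∞)
        (((x, q.1), q.2) : PhasePoint × Par P) :=
      (measurable_one.indicator hs).comp
        ((measurable_id.prodMk measurable_const).prodMk measurable_const)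
    rw [← lintegral_add_right_eq_self (fun x : Space3 => G (q.1, q.2) *
      s.indicator (1 : PhasePoint × Par P → ℝ≥0∞) (((x, q.1), q.2) : PhasePoint × Par P)) a]
    rfl
  have key := LN2.gNull_birth (f₀ := f₀) (Φ := Φ) (I := Unit)
    (m := fun ε _ => treeQ Φ f₀ ε P T') (m' := fun _ _ => m')
    (Tr := fun _ _ => shT) (s := fun _ _ z => rel P z.2 i)
    (y := fun ε _ z => yT Φ ε T' P i z) (pos := fun _ _ z => z.1.1)
    hΦ hf h1 R (c := (Fintype.card (Idx P) * ENNReal.ofReal (max 1 (1 / a))))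
    (M := ∫⁻ q : Space3 × Par P, G q) (card_mul_ne_top P) hGfin hχ hχ1 ?_ ?_ ?_
  · refine key.mono' fun ε _ n z w ⟨hV, hB⟩ => ?_
    rw [yT_of_valid hV]
    exact hB
  · intro ε _ hε F hF
    have hw : Measurable fun z : PhasePoint × Par P => wQ Φ ε P z * F z :=
      (measurable_wQ hΦ P).mul hF
    rw [lintegral_treeQ hΦ P T' hF, hint F hF]
    unfold LN2.treeM
    rw [lintegral_withDensity_eq_lintegral_mul _ (LN2.measurable_treeD hΦ hf ε P T') hw,
      ← lintegral_const_mul' _ _ (card_mul_ne_top P)]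
    refine lintegral_mono fun z => ?_
    have h2 := hGle ε T' z hε.le le_rfl
    have h3 := GateT522.wQ_le_expW (Φ := Φ) (ε := ε) ha0 P z
    calc (LN2.treeD Φ f₀ ε P T' * fun z => wQ Φ ε P z * F z) z
        = LN2.treeD Φ f₀ ε P T' z * wQ Φ ε P z * F z := by
          simp only [Pi.mul_apply]
          ring
      _ ≤ LN2.treeD Φ f₀ ε P T' z * ((Fintype.card (Idx P) * ENNReal.ofReal (max 1 (1 / a))) *
          expW a (linesM Φ ε P z.1 z.2)) * F z :=
          mul_le_mul_left (mul_le_mul_right h3 _) _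
      _ = (Fintype.card (Idx P) * ENNReal.ofReal (max 1 (1 / a))) * ((LN2.treeD Φ f₀ ε P T' z *
          expW a (linesM Φ ε P z.1 z.2)) * F z) := by ring
      _ ≤ _ := by
          refine mul_le_mul_right (mul_le_mul_left (h2.trans ?_) _) _
          exact mul_le_of_le_one_left bot_le (he.le_one _)
  · intro ε _ hε
    refine ⟨hsf, ?_, hinv, (measurable_rel P i).comp measurable_snd, measurable_yT hΦ ε T' P i,
      measurable_fst.fst, fun _ _ => rfl, fun a z => yT_sh a z, fun _ _ => rfl⟩
    unfold shT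
    exact ((measurable_snd.fst.fst.add measurable_fst).prodMk measurable_snd.fst.snd).prodMk
      measurable_snd.snd
  · intro ε _ hε
    have hχm : Measurable fun z : PhasePoint × Par P => χ z.1.1 := hχ.comp measurable_fst.fst
    rw [hint _ hχm]
    refine (hsplit _ (hG'.mul hχm)).le.trans (lintegral_mono fun q => ?_)
    show ∫⁻ x : Space3, G (q.1, q.2) * χ x ≤ G q
    rw [lintegral_const_mul _ hχ, hχ1, mul_one]

/-- **Births of the lines of the tree near the gas.** -/
def BT (Φ : Space3 → ℝ) (R : ℝ) : RtG302.TEv := fun ε P z _ w =>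
  ∃ i : Idx P, LN2.Birth Φ ε R w (lineML Φ ε P z i).1.1 (lineML Φ ε P z i).1.2.1

theorem gNull_bt (hΦ : AdmissiblePotential Φ) (hf : Measurable f₀) {b : ℝ} (hb : 0 < b)
    (H : HasSummableGaussianBound b (fun x v => f₀ (x, v)))
    (h1 : ∫⁻ z, ENNReal.ofReal (f₀ z) ≤ 1) (R : ℝ) (P : CTree) (T' : ℝ) :
    GNull f₀ (fun ε (_ : Unit) => treeQ Φ f₀ ε P T') (fun ε _ n z w =>
      Valid Φ ε P T' z.1.2 z.2 ∧ BT Φ R ε P z n w) :=
  (GNull.exists_fintype hf fun i => gNull_birth_line hΦ hf hb H h1 R P T' i).mono'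
    fun _ _ _ _ _ ⟨hV, i, hi⟩ => ⟨i, hV, hi⟩

/-- **Births of the lines of the tree near the gas are null**, energy weight included. -/
theorem tNull_bt (hΦ : AdmissiblePotential Φ) (hf : Measurable f₀) {b : ℝ} (hb : 0 < b)
    (H : HasSummableGaussianBound b (fun x v => f₀ (x, v)))
    (h1 : ∫⁻ z, ENNReal.ofReal (f₀ z) ≤ 1) (R T' : ℝ) (K : ℕ) :
    RtG302.TNull Φ f₀ T' K (BT Φ R) :=
  tNull_of_gNull hΦ hf fun P _ => (gNull_bt hΦ hf hb H h1 R P T').mono'
    fun _ _ _ _ _ ⟨hV, _, hB⟩ => ⟨hV, hB⟩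

/-- **Births of the lines of the tree near the gas are null for contact structures.** -/
theorem osNull_bt (hΦ : AdmissiblePotential Φ) (hf : Measurable f₀) {b : ℝ} (hb : 0 < b)
    (H : HasSummableGaussianBound b (fun x v => f₀ (x, v)))
    (h1 : ∫⁻ z, ENNReal.ofReal (f₀ z) ≤ 1) (R T' : ℝ) (K : ℕ) {Q : EPar}
    (hγm : Measurable Q.γ) (hρ : Q.ρ ≠ ∞) {g : ℝ} (hg0 : 0 < g)
    (hg : ∀ τ ∈ Ioc 0 Q.te, g ≤ Q.γ τ) :
    LinkAsm984.OSNull Φ f₀ K Q T' (fun ε P z m w _ => if BT Φ R ε P z m w then 1 else 0) :=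
  GateOS434.osNull_of_tNull hΦ hf K hγm hρ hg0 hg (tNull_bt hΦ hf hb H h1 R T' K)

/-- Outside the event no particle of the gas is near a birth. -/
theorem noB_of_not_bt {P : CTree} {z : PhasePoint × Par P} {n : ℕ} {w : Config n}
    (h : ¬ BT Φ 1 ε P z n w) (i : Idx P) : PW365.NoB Φ ε (MW.cfg w) (lineML Φ ε P z i) :=
  PW365.noB_cfg fun hB => h ⟨i, hB⟩

end Crest.Agent.R122.BirthT255
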