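import Crest.Agent.R122.BoltzHonest_814

/-!
Row 122, Boltzmann side (helper814): a regular kinetic solution along characteristics; Duhamel
(mild) form with damping, real version.
-/

set_option autoImplicit false

open MeasureTheory ProbabilityTheory Set
open Crest.AnalysisR.Kinetic
open scoped ENNReal Classical

noncomputable section

namespace Crest.Agent.R122.Boltz814

variable {Φ : Space3 → ℝ} {β T : ℝ} {f₀ : PhasePoint → ℝ} {f : ℝ → PhasePoint → ℝ}

/-- Gaussian bound in the form used below. -/
lemma exists_gauss_bound (hT : 0 < T) (hf : IsRegularKineticSolution Φ β T f₀ f) :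
    ∃ C : ℝ, 0 ≤ C ∧ ∀ t ∈ Icc 0 T, ∀ x v : Space3,
      f t (x, v) ≤ C * Real.exp (-(2 * β) * ‖v‖ ^ 2) := by
  obtain ⟨C, hC⟩ := hf.gaussian
  have h0 : (0 : ℝ) ∈ Icc 0 T := ⟨le_rfl, hT.le⟩
  refine ⟨C, ?_, fun t ht x v => ?_⟩
  · exact le_trans (mul_nonneg (Real.exp_nonneg _) (hf.nonneg 0 h0 (0, 0))) (hC 0 h0 0 0)
  · have h := hC t ht x v
    have hpos := Real.exp_pos (-(2 * β) * ‖v‖ ^ 2)
    have h1 : Real.exp (2 * β * ‖v‖ ^ 2) * Real.exp (-(2 * β) * ‖v‖ ^ 2) = 1 := by
      rw [← Real.exp_add]; simp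
    calc f t (x, v) = (Real.exp (2 * β * ‖v‖ ^ 2) * Real.exp (-(2 * β) * ‖v‖ ^ 2)) *
          f t (x, v) := by rw [h1, one_mul]
      _ = (Real.exp (2 * β * ‖v‖ ^ 2) * f t (x, v)) * Real.exp (-(2 * β) * ‖v‖ ^ 2) := by ring
      _ ≤ C * Real.exp (-(2 * β) * ‖v‖ ^ 2) := by gcongr

lemma continuous_slice (hf : IsRegularKineticSolution Φ β T f₀ f) {t : ℝ} (ht : t ∈ Icc 0 T) :
    Continuous (f t) := by
  have h := hf.continuous
  have h2 : ContinuousOn (fun z : PhasePoint => f t z) univ := by
    refine h.comp (f := fun z : PhasePoint => (t, z)) (by fun_prop) ?_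
    intro z _
    exact ⟨ht, mem_univ _⟩
  exact continuousOn_univ.1 h2

lemma continuousOn_char (hf : IsRegularKineticSolution Φ β T f₀ f) (x v w : Space3) :
    ContinuousOn (fun t => f t (x + t • v, w)) (Icc 0 T) := by
  refine hf.continuous.comp (f := fun t : ℝ => (t, (x + t • v, w))) (by fun_prop) ?_
  intro t ht
  exact ⟨ht, mem_univ _⟩

/-- Derivative along characteristics, and continuity of this derivative. -/
lemma char_deriv (hT : 0 < T) (hf : IsRegularKineticSolution Φ β T f₀ f) (x v : Space3) :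
    (∀ t ∈ Icc 0 T, HasDerivWithinAt (fun s => f s (x + s • v, v))
      (collisionOperator Φ (fun w => f t (x + t • v, w)) v) (Icc 0 T) t) ∧
    ContinuousOn (fun t => collisionOperator Φ (fun w => f t (x + t • v, w)) v) (Icc 0 T) := by
  set S : Set (ℝ × Space3) := Icc 0 T ×ˢ univ with hSdef
  set F : ℝ × Space3 → ℝ := fun p => f p.1 (p.2, v) with hF
  have hcd : ContDiffOn ℝ 1 F S := hf.contDiff v
  have hU : UniqueDiffOn ℝ S := (uniqueDiffOn_Icc hT).prod uniqueDiffOn_univ
  have hdiff : ∀ p ∈ S, HasFDerivWithinAt F (fderivWithin ℝ F S p) S p := fun p hp =>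
    ((hcd.differentiableOn (by norm_num)) p hp).hasFDerivWithinAt
  have hmem : ∀ t ∈ Icc 0 T, ∀ y : Space3, (t, y) ∈ S := fun t ht y => ⟨ht, mem_univ _⟩
  -- the directional derivative along the characteristic
  have hdir : ∀ t ∈ Icc 0 T, fderivWithin ℝ F S (t, x + t • v) (1, v) =
      collisionOperator Φ (fun w => f t (x + t • v, w)) v := by
    intro t ht
    set y := x + t • v with hy
    have hd := hdiff (t, y) (hmem t ht y)
    -- time derivative
    have h1 : HasDerivWithinAt (fun s => f s (y, v)) (fderivWithin ℝ F S (t, y) (1, 0))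
        (Icc 0 T) t := by
      have hc : HasDerivWithinAt (fun s : ℝ => (s, y)) ((1 : ℝ), (0 : Space3)) (Icc 0 T) t :=
        (hasDerivWithinAt_id t _).prodMk (hasDerivWithinAt_const t _ y)
      exact hd.comp_hasDerivWithinAt t hc (fun s hs => hmem s hs y)
    -- space derivative
    have h2 : HasFDerivAt (fun z => f t (z, v))
        ((fderivWithin ℝ F S (t, y)).comp (ContinuousLinearMap.inr ℝ ℝ Space3)) y := by
      have hc : HasFDerivWithinAt (fun z : Space3 => (t, z))
          (ContinuousLinearMap.inr ℝ ℝ Space3) univ y := by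
        have := (hasFDerivWithinAt_const t y (univ : Set Space3) (𝕜 := ℝ)).prodMk
          (hasFDerivWithinAt_id y univ)
        exact this
      have := hd.comp y hc (fun z _ => hmem t ht z)
      exact hasFDerivWithinAt_univ.1 this
    have hB := hf.boltzmann t ht y v
    rw [h1.derivWithin ((uniqueDiffOn_Icc hT) t ht), h2.fderiv] at hB
    rw [← hB]
    simp only [ContinuousLinearMap.comp_apply, ContinuousLinearMap.inr_apply]
    rw [← map_add]
    simp
  refine ⟨fun t ht => ?_, ?_⟩
  · have hc : HasDerivWithinAt (fun s : ℝ => (s, x + s • v)) ((1 : ℝ), v) (Icc 0 T) t := by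
      refine (hasDerivWithinAt_id t _).prodMk ?_
      have := ((hasDerivWithinAt_id t (Icc 0 T)).smul_const v).const_add x
      simpa using this
    have h := (hdiff (t, x + t • v) (hmem t ht _)).comp_hasDerivWithinAt t hc
      (fun s hs => hmem s hs _)
    rw [hdir t ht] at h
    exact h
  · have hcont : ContinuousOn (fderivWithin ℝ F S) S :=
      hcd.continuousOn_fderivWithin hU (by norm_num)
    have hcc : ContinuousOn (fun t : ℝ => fderivWithin ℝ F S (t, x + t • v)) (Icc 0 T) :=
      hcont.comp (f := fun t : ℝ => (t, x + t • v)) (by fun_prop) (fun t ht => hmem t ht _)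
    have := hcc.clm_apply (continuousOn_const (c := ((1 : ℝ), v)))
    exact this.congr fun t ht => (hdir t ht).symm

/-- continuity of the loss frequency along characteristics -/
lemma continuousOn_nu_char (hβ : 0 < β) (hT : 0 < T) (hf : IsRegularKineticSolution Φ β T f₀ f)
    (x v : Space3) :
    ContinuousOn (fun t => nu (fun w => f t (x + t • v, w)) v) (Icc 0 T) := by
  obtain ⟨C, hC0, hC⟩ := exists_gauss_bound hT hf
  unfold nu
  refine ContinuousOn.mul continuousOn_const ?_
  refine continuousOn_of_dominated (bound := fun w => C * (‖v - w‖ *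
    Real.exp (-(2 * β) * ‖w‖ ^ 2))) ?_ ?_ ?_ ?_
  · intro t ht
    have := continuous_slice hf ht
    have h2 : Continuous (fun w : Space3 => f t (x + t • v, w)) := this.comp (by fun_prop)
    exact (Continuous.mul (by fun_prop) h2).aestronglyMeasurable
  · intro t ht
    refine Filter.Eventually.of_forall fun w => ?_
    rw [Real.norm_eq_abs, abs_of_nonneg (mul_nonneg (norm_nonneg _) (hf.nonneg t ht _))]
    calc ‖v - w‖ * f t (x + t • v, w) ≤ ‖v - w‖ * (C * Real.exp (-(2 * β) * ‖w‖ ^ 2)) := by
          gcongr; exact hC t ht _ _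
      _ = _ := by ring
  · exact (integrable_norm_sub_mul_gauss (by positivity) v).const_mul C
  · refine Filter.Eventually.of_forall fun w => ?_
    exact continuousOn_const.mul (continuousOn_char hf x v w)

/-- gain along characteristics -/
def gainChar (Φ : Space3 → ℝ) (f : ℝ → PhasePoint → ℝ) (x v : Space3) (t : ℝ) : ℝ :=
  (Qp Φ (toE fun w => f t (x + t • v, w)) (toE fun w => f t (x + t • v, w)) v).toReal

/-- loss frequency along characteristics -/
def nuChar (f : ℝ → PhasePoint → ℝ) (x v : Space3) (t : ℝ) : ℝ :=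
  nu (fun w => f t (x + t • v, w)) v

lemma measurable_slice (hf : IsRegularKineticSolution Φ β T f₀ f) {t : ℝ} (ht : t ∈ Icc 0 T)
    (x : Space3) : Measurable (fun w : Space3 => f t (x, w)) :=
  ((continuous_slice hf ht).comp (by fun_prop : Continuous fun w : Space3 => (x, w))).measurable

lemma collision_char (hβ : 0 < β) (hT : 0 < T) (hS : ScatFacts Φ)
    (hf : IsRegularKineticSolution Φ β T f₀ f) (x v : Space3) {t : ℝ} (ht : t ∈ Icc 0 T) :
    collisionOperator Φ (fun w => f t (x + t • v, w)) v =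
      gainChar Φ f x v t - f t (x + t • v, v) * nuChar f x v t := by
  obtain ⟨C, hC0, hC⟩ := exists_gauss_bound hT hf
  exact collisionOperator_eq hS (measurable_slice hf ht _) (fun w => hf.nonneg t ht _)
    (γ := 2 * β) (by positivity) hC0 (fun w => hC t ht _ w) v

lemma continuousOn_gainChar (hβ : 0 < β) (hT : 0 < T) (hS : ScatFacts Φ)
    (hf : IsRegularKineticSolution Φ β T f₀ f) (x v : Space3) :
    ContinuousOn (gainChar Φ f x v) (Icc 0 T) := by
  have h1 := (char_deriv hT hf x v).2
  have h2 := (continuousOn_char hf x v v).mul (continuousOn_nu_char hβ hT hf x v)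
  refine (h1.add h2).congr fun t ht => ?_
  have h3 := collision_char hβ hT hS hf x v ht
  show gainChar Φ f x v t = collisionOperator Φ (fun w => f t (x + t • v, w)) v +
    f t (x + t • v, v) * nuChar f x v t
  rw [h3]
  ring

lemma hasDerivAt_primitive {g : ℝ → ℝ} (hg : ContinuousOn g (Icc 0 T)) {t : ℝ}
    (ht : t ∈ Ioo 0 T) : HasDerivAt (fun u => ∫ r in (0 : ℝ)..u, g r) (g t) t := by
  have hnhds : Icc 0 T ∈ nhds t := Icc_mem_nhds ht.1 ht.2
  have hint : IntervalIntegrable g volume 0 t := by
    refine (hg.mono ?_).intervalIntegrable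
    rw [uIcc_of_le ht.1.le]
    exact Icc_subset_Icc_right ht.2.le
  refine intervalIntegral.integral_hasDerivAt_right hint ?_ (hg.continuousAt hnhds)
  exact ⟨Icc 0 T, hnhds, hg.aestronglyMeasurable measurableSet_Icc⟩

lemma continuousOn_primitive' {g : ℝ → ℝ} (hT : 0 < T) (hg : ContinuousOn g (Icc 0 T)) :
    ContinuousOn (fun u => ∫ r in (0 : ℝ)..u, g r) (Icc 0 T) := by
  have hint : IntegrableOn g (uIcc 0 T) := by
    rw [uIcc_of_le hT.le]
    exact hg.integrableOn_Icc
  have := intervalIntegral.continuousOn_primitive_interval hint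
  rwa [uIcc_of_le hT.le] at this

/-- **Damped Duhamel formula** along a characteristic, real version. -/
theorem duhamel_char (hβ : 0 < β) (hT : 0 < T) (hS : ScatFacts Φ)
    (hf : IsRegularKineticSolution Φ β T f₀ f) (x v : Space3) {s t : ℝ} (hs : 0 ≤ s)
    (hst : s ≤ t) (htT : t ≤ T) :
    f t (x + t • v, v) = Real.exp (-∫ r in s..t, nuChar f x v r) * f s (x + s • v, v) +
      ∫ r in s..t, Real.exp (-∫ r' in r..t, nuChar f x v r') * gainChar Φ f x v r := by
  have hnu : ContinuousOn (nuChar f x v) (Icc 0 T) := continuousOn_nu_char hβ hT hf x v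
  have hG := continuousOn_gainChar hβ hT hS hf x v
  set N : ℝ → ℝ := fun u => ∫ r in (0 : ℝ)..u, nuChar f x v r with hN
  have hNc : ContinuousOn N (Icc 0 T) := continuousOn_primitive' hT hnu
  have hint : ∀ a ∈ Icc 0 T, ∀ b ∈ Icc 0 T, IntervalIntegrable (nuChar f x v) volume a b := by
    intro a ha b hb
    refine (hnu.mono ?_).intervalIntegrable
    exact ordConnected_Icc.uIcc_subset ha hb
  have hNsub : ∀ a ∈ Icc 0 T, ∀ b ∈ Icc 0 T, ∫ r in a..b, nuChar f x v r = N b - N a := by
    intro a ha b hb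
    have h0 : (0 : ℝ) ∈ Icc 0 T := ⟨le_rfl, hT.le⟩
    rw [hN]
    simp only
    rw [intervalIntegral.integral_interval_sub_left (hint 0 h0 b hb) (hint 0 h0 a ha)]
  have hsI : s ∈ Icc 0 T := ⟨hs, hst.trans htT⟩
  have htI : t ∈ Icc 0 T := ⟨hs.trans hst, htT⟩
  have hsub : Icc s t ⊆ Icc 0 T := Icc_subset_Icc hs htT
  -- FTC for `φ e^N`
  have hφc : ContinuousOn (fun u => f u (x + u • v, v)) (Icc 0 T) := continuousOn_char hf x v v
  have hderiv : ∀ u ∈ Ioo s t, HasDerivAt (fun u => f u (x + u • v, v) * Real.exp (N u))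
      (gainChar Φ f x v u * Real.exp (N u)) u := by
    intro u hu
    have huo : u ∈ Ioo 0 T := ⟨hs.trans_lt hu.1, hu.2.trans_le htT⟩
    have huI : u ∈ Icc 0 T := Ioo_subset_Icc_self huo
    have h1 := ((char_deriv hT hf x v).1 u huI).hasDerivAt (Icc_mem_nhds huo.1 huo.2)
    have h2 : HasDerivAt N (nuChar f x v u) u := hasDerivAt_primitive hnu huo
    have h3 := h1.mul h2.exp
    rw [collision_char hβ hT hS hf x v huI] at h3
    refine h3.congr_deriv ?_
    ring
  have hFTC : ∫ u in s..t, gainChar Φ f x v u * Real.exp (N u) =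
      f t (x + t • v, v) * Real.exp (N t) - f s (x + s • v, v) * Real.exp (N s) := by
    refine intervalIntegral.integral_eq_sub_of_hasDerivAt_of_le hst ?_ hderiv ?_
    · exact (hφc.mul (Real.continuous_exp.comp_continuousOn hNc)).mono hsub
    · refine ContinuousOn.intervalIntegrable ?_
      rw [uIcc_of_le hst]
      exact (hG.mul (Real.continuous_exp.comp_continuousOn hNc)).mono hsub
  have hI : ∫ r in s..t, Real.exp (-∫ r' in r..t, nuChar f x v r') * gainChar Φ f x v r =
      Real.exp (-(N t)) * ∫ u in s..t, gainChar Φ f x v u * Real.exp (N u) := by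
    rw [← intervalIntegral.integral_const_mul]
    refine intervalIntegral.integral_congr fun r hr => ?_
    rw [uIcc_of_le hst] at hr
    rw [hNsub r (hsub hr) t htI, show -(N t - N r) = -(N t) + N r by ring, Real.exp_add]
    ring
  rw [hI, hFTC, hNsub s hsI t htI, show -(N t - N s) = -(N t) + N s by ring, Real.exp_add]
  have h1 : Real.exp (-(N t)) * Real.exp (N t) = 1 := by rw [← Real.exp_add]; simp
  linear_combination (-(f t (x + t • v, v))) * h1

/-- **Undamped Duhamel formula** along a characteristic, real version. -/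
theorem duhamel_char_undamped (hβ : 0 < β) (hT : 0 < T) (hS : ScatFacts Φ)
    (hf : IsRegularKineticSolution Φ β T f₀ f) (x v : Space3) {s t : ℝ} (hs : 0 ≤ s)
    (hst : s ≤ t) (htT : t ≤ T) :
    f t (x + t • v, v) + ∫ r in s..t, f r (x + r • v, v) * nuChar f x v r =
      f s (x + s • v, v) + ∫ r in s..t, gainChar Φ f x v r := by
  have hnu : ContinuousOn (nuChar f x v) (Icc 0 T) := continuousOn_nu_char hβ hT hf x v
  have hG := continuousOn_gainChar hβ hT hS hf x v
  have hφc : ContinuousOn (fun u => f u (x + u • v, v)) (Icc 0 T) := continuousOn_char hf x v v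
  have hsub : Icc s t ⊆ Icc 0 T := Icc_subset_Icc hs htT
  have hLi : IntervalIntegrable (fun r => f r (x + r • v, v) * nuChar f x v r) volume s t := by
    refine ContinuousOn.intervalIntegrable ?_
    rw [uIcc_of_le hst]
    exact (hφc.mul hnu).mono hsub
  have hGi : IntervalIntegrable (gainChar Φ f x v) volume s t := by
    refine ContinuousOn.intervalIntegrable ?_
    rw [uIcc_of_le hst]
    exact hG.mono hsub
  have hderiv : ∀ u ∈ Ioo s t, HasDerivAt (fun u => f u (x + u • v, v))
      (gainChar Φ f x v u - f u (x + u • v, v) * nuChar f x v u) u := by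
    intro u hu
    have huo : u ∈ Ioo 0 T := ⟨hs.trans_lt hu.1, hu.2.trans_le htT⟩
    have huI : u ∈ Icc 0 T := Ioo_subset_Icc_self huo
    have h1 := ((char_deriv hT hf x v).1 u huI).hasDerivAt (Icc_mem_nhds huo.1 huo.2)
    rwa [collision_char hβ hT hS hf x v huI] at h1
  have hFTC := intervalIntegral.integral_eq_sub_of_hasDerivAt_of_le hst (hφc.mono hsub) hderiv
    (hGi.sub hLi)
  rw [intervalIntegral.integral_sub hGi hLi] at hFTC
  linarith

end Crest.Agent.R122.Boltz814

end
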