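import Crest.Agent.R122.BoltzSplit_814

/-!
Row 122, Boltzmann side (helper814): the honest gain/loss split of `collisionOperator` for
Gaussian-bounded measurable `h`, and the loss frequency.
-/

set_option autoImplicit false

open MeasureTheory ProbabilityTheory
open Crest.AnalysisR.Kinetic
open scoped ENNReal Classical

noncomputable section

namespace Crest.Agent.R122.Boltz814

variable {Φ : Space3 → ℝ}

/-- `ofReal` of a real function -/
def toE {α : Type*} (h : α → ℝ) : α → ℝ≥0∞ := fun u => ENNReal.ofReal (h u)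

lemma toE_gauss {h : Space3 → ℝ} {γ C : ℝ} (hC0 : 0 ≤ C)
    (hC : ∀ u, h u ≤ C * Real.exp (-γ * ‖u‖ ^ 2)) (u : Space3) :
    toE h u ≤ ENNReal.ofReal C * ENNReal.ofReal (Real.exp (-γ * ‖u‖ ^ 2)) := by
  rw [← ENNReal.ofReal_mul hC0]
  exact ENNReal.ofReal_le_ofReal (hC u)

lemma integrable_norm_sub_mul {h : Space3 → ℝ} (hm : Measurable h) (h0 : ∀ u, 0 ≤ h u)
    {γ C : ℝ} (hγ : 0 < γ) (hC : ∀ u, h u ≤ C * Real.exp (-γ * ‖u‖ ^ 2)) (v : Space3) :
    Integrable (fun w => ‖v - w‖ * h w) := by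
  refine ((integrable_norm_sub_mul_gauss hγ v).const_mul C).mono' (by fun_prop)
    (Filter.Eventually.of_forall fun w => ?_)
  rw [Real.norm_eq_abs, abs_of_nonneg (mul_nonneg (norm_nonneg _) (h0 w))]
  calc ‖v - w‖ * h w ≤ ‖v - w‖ * (C * Real.exp (-γ * ‖w‖ ^ 2)) := by
        gcongr; exact hC w
    _ = C * (‖v - w‖ * Real.exp (-γ * ‖w‖ ^ 2)) := by ring

lemma nu_nonneg {h : Space3 → ℝ} (h0 : ∀ u, 0 ≤ h u) (v : Space3) : 0 ≤ nu h v :=
  mul_nonneg Real.pi_pos.le (integral_nonneg fun w => mul_nonneg (norm_nonneg _) (h0 w))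

/-- real and extended loss frequencies agree -/
lemma ofReal_nu {h : Space3 → ℝ} (hm : Measurable h) (h0 : ∀ u, 0 ≤ h u)
    {γ C : ℝ} (hγ : 0 < γ) (hC : ∀ u, h u ≤ C * Real.exp (-γ * ‖u‖ ^ 2)) (v : Space3) :
    ENNReal.ofReal (nu h v) = nuE (toE h) v := by
  unfold nu nuE toE
  rw [ENNReal.ofReal_mul Real.pi_pos.le, ofReal_integral_eq_lintegral_ofReal
    (integrable_norm_sub_mul hm h0 hγ hC v)
    (Filter.Eventually.of_forall fun w => mul_nonneg (norm_nonneg _) (h0 w))]
  congr 1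
  refine lintegral_congr fun w => ?_
  rw [ENNReal.ofReal_mul (norm_nonneg _)]

/-- bound on the loss frequency -/
lemma nu_le {h : Space3 → ℝ} (hm : Measurable h) (h0 : ∀ u, 0 ≤ h u)
    {γ C : ℝ} (hγ : 0 < γ) (hC : ∀ u, h u ≤ C * Real.exp (-γ * ‖u‖ ^ 2))
    (v : Space3) : nu h v ≤ Real.pi * C * gaussMoment γ 1 * (1 + ‖v‖) := by
  unfold nu gaussMoment
  have h1 : ∫ w, ‖v - w‖ * h w ≤
      ∫ w : Space3, (1 + ‖v‖) * C * ((1 + ‖w‖) ^ 1 * Real.exp (-γ * ‖w‖ ^ 2)) := by
    refine integral_mono (integrable_norm_sub_mul hm h0 hγ hC v)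
      ((integrable_one_add_pow_mul_gauss hγ 1).const_mul _) fun w => ?_
    calc ‖v - w‖ * h w ≤ ((1 + ‖v‖) * (1 + ‖w‖)) * (C * Real.exp (-γ * ‖w‖ ^ 2)) :=
          mul_le_mul (norm_sub_le_mul v w) (hC w) (h0 w) (by positivity)
      _ = _ := by ring
  rw [integral_const_mul] at h1
  calc Real.pi * ∫ w, ‖v - w‖ * h w ≤ Real.pi * ((1 + ‖v‖) * C *
        ∫ w : Space3, (1 + ‖w‖) ^ 1 * Real.exp (-γ * ‖w‖ ^ 2)) := by gcongr
    _ = _ := by ring

lemma Qp_ne_top (hS : ScatFacts Φ) {h : Space3 → ℝ}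
    {γ C : ℝ} (hγ : 0 < γ) (hC0 : 0 ≤ C) (hC : ∀ u, h u ≤ C * Real.exp (-γ * ‖u‖ ^ 2))
    (v : Space3) : Qp Φ (toE h) (toE h) v ≠ ⊤ := by
  refine ne_top_of_le_ne_top ?_ (Qp_le_gauss hS hγ (toE_gauss hC0 hC) (toE_gauss hC0 hC) v)
  exact ENNReal.mul_ne_top (ENNReal.mul_ne_top (ENNReal.mul_ne_top ENNReal.ofReal_ne_top
    ENNReal.ofReal_ne_top) ENNReal.ofReal_ne_top)
    (ENNReal.mul_ne_top ENNReal.ofReal_ne_top ENNReal.ofReal_ne_top)

/-- the real inner gain integral -/
lemma inner_integral_eq (hS : ScatFacts Φ) {h : Space3 → ℝ} (hm : Measurable h)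
    (h0 : ∀ u, 0 ≤ h u) {γ C : ℝ} (hC0 : 0 ≤ C)
    (hC : ∀ u, h u ≤ C * Real.exp (-γ * ‖u‖ ^ 2)) {v w : Space3} (hvw : v - w ≠ 0) :
    ∫ b in impactDisc (v - w), (h (postVelocities Φ b v w).1 * h (postVelocities Φ b v w).2 -
      h v * h w) ∂μHE[2] =
      (gainInner Φ (toE h) (toE h) v w).toReal - Real.pi * (h v * h w) := by
  have hfin : IsFiniteMeasure ((μHE[2] : Measure Space3).restrict (impactDisc (v - w))) := by
    refine ⟨?_⟩
    rw [Measure.restrict_apply_univ, hausdorff_impactDisc hvw]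
    exact ENNReal.ofReal_lt_top
  -- measurability of the gain integrand
  have hpair : Measurable fun b : Space3 => ((v, w), b) := measurable_const.prodMk measurable_id
  have hpost : Measurable (fun b : Space3 => postOn Φ b v w) := by
    have h3 := Measurable.comp (measurable_postOn hS) hpair
    exact h3
  have hG' : Measurable (fun b : Space3 => h (postOn Φ b v w).1 * h (postOn Φ b v w).2) :=
    (hm.comp hpost.fst).mul (hm.comp hpost.snd)
  have hae : (fun b : Space3 => h (postOn Φ b v w).1 * h (postOn Φ b v w).2)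
      =ᵐ[(μHE[2] : Measure Space3).restrict (impactDisc (v - w))]
      fun b => h (postVelocities Φ b v w).1 * h (postVelocities Φ b v w).2 := by
    filter_upwards [ae_restrict_mem (measurableSet_impactDisc (v - w))] with b hb
    simp only [postOn_of_mem hb]
  have hG : AEStronglyMeasurable (fun b : Space3 =>
      h (postVelocities Φ b v w).1 * h (postVelocities Φ b v w).2)
      ((μHE[2] : Measure Space3).restrict (impactDisc (v - w))) :=
    hG'.aestronglyMeasurable.congr hae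
  have hGi : Integrable (fun b : Space3 =>
      h (postVelocities Φ b v w).1 * h (postVelocities Φ b v w).2)
      ((μHE[2] : Measure Space3).restrict (impactDisc (v - w))) := by
    refine Integrable.mono' (integrable_const (C ^ 2 * Real.exp (-γ * (‖v‖ ^ 2 + ‖w‖ ^ 2)))) hG ?_
    filter_upwards [ae_restrict_mem (measurableSet_impactDisc (v - w))] with b hb
    rw [Real.norm_eq_abs, abs_of_nonneg (mul_nonneg (h0 _) (h0 _))]
    calc h (postVelocities Φ b v w).1 * h (postVelocities Φ b v w).2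
        ≤ (C * Real.exp (-γ * ‖(postVelocities Φ b v w).1‖ ^ 2)) *
          (C * Real.exp (-γ * ‖(postVelocities Φ b v w).2‖ ^ 2)) :=
          mul_le_mul (hC _) (hC _) (h0 _) (by positivity)
      _ = C ^ 2 * Real.exp (-γ * (‖v‖ ^ 2 + ‖w‖ ^ 2)) := by
          rw [← norm_sq_post hS hb hvw, mul_add, Real.exp_add]; ring
  rw [integral_sub hGi (integrable_const _)]
  congr 1
  · rw [integral_eq_lintegral_of_nonneg_ae
      (Filter.Eventually.of_forall fun b => mul_nonneg (h0 _) (h0 _)) hG]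
    unfold gainInner toE
    congr 1
    refine lintegral_congr fun b => ?_
    rw [ENNReal.ofReal_mul (h0 _)]
  · rw [integral_const]
    simp only [MeasurableSet.univ, measureReal_restrict_apply, Set.univ_inter, smul_eq_mul]
    rw [Measure.real, hausdorff_impactDisc hvw, ENNReal.toReal_ofReal Real.pi_pos.le]

/-- **Honest gain/loss split** of the collision operator. -/
theorem collisionOperator_eq (hS : ScatFacts Φ) {h : Space3 → ℝ} (hm : Measurable h)
    (h0 : ∀ u, 0 ≤ h u) {γ C : ℝ} (hγ : 0 < γ) (hC0 : 0 ≤ C)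
    (hC : ∀ u, h u ≤ C * Real.exp (-γ * ‖u‖ ^ 2)) (v : Space3) :
    collisionOperator Φ h v = (Qp Φ (toE h) (toE h) v).toReal - h v * nu h v := by
  unfold collisionOperator
  have hmE : Measurable (toE h) := ENNReal.measurable_ofReal.comp hm
  have hgm := measurable_gainInner hS hmE hmE v
  have hgfin : ∀ w, ENNReal.ofReal ‖v - w‖ * gainInner Φ (toE h) (toE h) v w < ⊤ := by
    intro w
    by_cases hvw : v - w = 0
    · simp [hvw]
    · refine ENNReal.mul_lt_top ENNReal.ofReal_lt_top (lt_of_le_of_lt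
        (gainInner_le hS (toE_gauss hC0 hC) (toE_gauss hC0 hC) hvw) ?_)
      refine ENNReal.mul_lt_top (ENNReal.mul_lt_top (ENNReal.mul_lt_top ENNReal.ofReal_lt_top
        ENNReal.ofReal_lt_top) ENNReal.ofReal_lt_top)
        (ENNReal.mul_lt_top ENNReal.ofReal_lt_top ENNReal.ofReal_lt_top)
  have hQ := Qp_ne_top hS hγ hC0 hC v
  have hgi : Integrable (fun w => (ENNReal.ofReal ‖v - w‖ *
      gainInner Φ (toE h) (toE h) v w).toReal) :=
    integrable_toReal_of_lintegral_ne_top hgm.aemeasurable hQ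
  have hli := (integrable_norm_sub_mul hm h0 hγ hC v).const_mul (Real.pi * h v)
  have hcongr : (fun w => ‖v - w‖ * ∫ b in impactDisc (v - w),
      (h (postVelocities Φ b v w).1 * h (postVelocities Φ b v w).2 - h v * h w) ∂μHE[2]) =
      fun w => (ENNReal.ofReal ‖v - w‖ * gainInner Φ (toE h) (toE h) v w).toReal -
        (Real.pi * h v) * (‖v - w‖ * h w) := by
    funext w
    by_cases hvw : v - w = 0
    · simp [hvw]
    · rw [inner_integral_eq hS hm h0 hC0 hC hvw, ENNReal.toReal_mul,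
        ENNReal.toReal_ofReal (norm_nonneg _)]
      ring
  rw [hcongr, integral_sub hgi hli, integral_toReal hgm.aemeasurable
    (Filter.Eventually.of_forall hgfin), integral_const_mul]
  unfold nu
  rw [Qp_eq]
  ring

end Crest.Agent.R122.Boltz814

end
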