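import Crest.Agent.R122.BoltzL1c_814

/-!
Row 122, Boltzmann side (helper814): collision invariants and exact conservation laws of regular
solutions.
-/

set_option autoImplicit false

open MeasureTheory ProbabilityTheory Set
open Crest.AnalysisR.Kinetic
open Crest.Agent.R122.Kin416 Crest.Agent.R122.Kin796
open scoped ENNReal

noncomputable section

namespace Crest.Agent.R122.Boltz814

variable {Φ : Space3 → ℝ} {β T : ℝ} {f₀ : PhasePoint → ℝ} {f : ℝ → PhasePoint → ℝ}

lemma impactDisc_neg_right (g : Space3) : impactDisc (-g) = impactDisc g := by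
  ext b; simp [impactDisc]

lemma neg_mem_impactDisc {b g : Space3} : -b ∈ impactDisc g ↔ b ∈ impactDisc g := by
  simp [impactDisc]

/-- exchanging the two particles -/
lemma post_swap (hΦ : AdmissiblePotential Φ) {b v w : Space3} (hb : b ∈ impactDisc (v - w))
    (hvw : v - w ≠ 0) :
    postVelocities Φ b w v =
      ((postVelocities Φ (-b) v w).2, (postVelocities Φ (-b) v w).1) := by
  have h := Scat818.exitVelocity_isometry hΦ (LinearIsometryEquiv.neg ℝ (E := Space3))
    (neg_mem_impactDisc.2 hb) hvw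
  simp only [LinearIsometryEquiv.coe_neg, neg_neg, neg_sub] at h
  unfold postVelocities
  rw [h, add_comm w v]
  refine Prod.ext ?_ ?_
  · simp only; module
  · simp only; module

/-- invariance of the disc measure under `b ↦ -b` -/
lemma lintegral_disc_neg (g : Space3) (F : Space3 → ℝ≥0∞) :
    ∫⁻ b in impactDisc g, F (-b) ∂μHE[2] = ∫⁻ b in impactDisc g, F b ∂μHE[2] := by
  have h1 : MeasurePreserving (fun b : Space3 => -b) (μHE[2] : Measure Space3) μHE[2] :=
    ((LinearIsometryEquiv.neg ℝ (E := Space3)).toIsometryEquiv).measurePreserving_euclideanHausdorffMeasure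
      2
  have h2 : MeasurableEmbedding (fun b : Space3 => -b) :=
    (MeasurableEquiv.neg Space3).measurableEmbedding
  have h3 := h1.setLIntegral_comp_preimage_emb h2 F (impactDisc g)
  rw [← h3]
  congr 2
  ext b
  simp [neg_mem_impactDisc]

/-- Collision invariants. -/
structure CollInv (Φ : Space3 → ℝ) (φ : Space3 → ℝ≥0∞) : Prop where
  meas : Measurable φ
  inv : ∀ v w b : Space3, b ∈ impactDisc (v - w) → v - w ≠ 0 →
    φ (postVelocities Φ b v w).1 + φ (postVelocities Φ b v w).2 = φ v + φ w

lemma collInv_one : CollInv Φ (fun _ => 1) := ⟨measurable_const, fun _ _ _ _ _ => rfl⟩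

/-- `‖v + e‖²` is a collision invariant. -/
lemma collInv_sq (hΦ : AdmissiblePotential Φ) (e : Space3) :
    CollInv Φ (fun v => ENNReal.ofReal (‖v + e‖ ^ 2)) := by
  refine ⟨by fun_prop, fun v w b hb hvw => ?_⟩
  have h1 := norm_sq_post (Scat818.scatFacts hΦ) hb hvw
  have h2 := add_post Φ b v w
  rw [← ENNReal.ofReal_add (by positivity) (by positivity),
    ← ENNReal.ofReal_add (by positivity) (by positivity)]
  congr 1
  have e1 : ∀ u : Space3, ‖u + e‖ ^ 2 = ‖u‖ ^ 2 + 2 * inner ℝ u e + ‖e‖ ^ 2 := fun u =>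
    norm_add_sq_real u e
  rw [e1, e1, e1, e1]
  have h3 : inner ℝ (postVelocities Φ b v w).1 e + inner ℝ (postVelocities Φ b v w).2 e =
      inner ℝ v e + inner ℝ w e := by
    rw [← inner_add_left, ← inner_add_left, h2]
  linarith

/-- the integrand of the weak form, in jointly measurable form -/
lemma measurable_weak (hΦ : AdmissiblePotential Φ) {φ h k : Space3 → ℝ≥0∞} (hφ : Measurable φ)
    (hh : Measurable h) (hk : Measurable k) :
    Measurable (fun p : Space3 × Space3 => ENNReal.ofReal ‖p.1 - p.2‖ *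
      ∫⁻ b in impactDisc (p.1 - p.2),
        φ (postVelocities Φ b p.1 p.2).1 * (h p.1 * k p.2) ∂μHE[2]) := by
  have hpo := measurable_postOn (Scat818.scatFacts hΦ)
  have h1 : ∀ p : Space3 × Space3, ∫⁻ b in impactDisc (p.1 - p.2),
        φ (postVelocities Φ b p.1 p.2).1 * (h p.1 * k p.2) ∂μHE[2] =
      ∫⁻ b in impactDisc (p.1 - p.2),
        φ (postOn Φ b p.1 p.2).1 * (h p.1 * k p.2) ∂μHE[2] := by
    intro p
    refine setLIntegral_congr_fun (measurableSet_impactDisc _) fun b hb => ?_
    simp only [postOn_of_mem hb]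
  simp_rw [h1]
  refine measurable_norm_mul_lintegral_impactDisc (G := fun p : Space3 × Space3 => p.1 - p.2)
    (by fun_prop) (F := fun q : (Space3 × Space3) × Space3 =>
      φ (postOn Φ q.2 q.1.1 q.1.2).1 * (h q.1.1 * k q.1.2)) ?_
  refine (hφ.comp hpo.fst).mul ((hh.comp ?_).mul (hk.comp ?_)) <;> fun_prop

/-- weak form with the other outgoing velocity -/
lemma weak_swap (hΦ : AdmissiblePotential Φ) {φ h : Space3 → ℝ≥0∞} (hφ : Measurable φ)
    (hh : Measurable h) :
    ∫⁻ v, ∫⁻ w, ENNReal.ofReal ‖v - w‖ * ∫⁻ b in impactDisc (v - w),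
        φ (postVelocities Φ b v w).1 * (h v * h w) ∂μHE[2] =
    ∫⁻ v, ∫⁻ w, ENNReal.ofReal ‖v - w‖ * ∫⁻ b in impactDisc (v - w),
        φ (postVelocities Φ b v w).2 * (h v * h w) ∂μHE[2] := by
  have h1 := measurable_weak hΦ hφ hh hh
  rw [lintegral_lintegral_swap (f := fun v w => ENNReal.ofReal ‖v - w‖ *
      ∫⁻ b in impactDisc (v - w), φ (postVelocities Φ b v w).1 * (h v * h w) ∂μHE[2])
      h1.aemeasurable]
  refine lintegral_congr fun v => lintegral_congr fun w => ?_
  by_cases hvw : v - w = 0
  · have : w - v = 0 := by rw [← neg_sub, hvw, neg_zero]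
    simp [hvw, this]
  · have hn : ‖w - v‖ = ‖v - w‖ := norm_sub_rev w v
    have hd : impactDisc (w - v) = impactDisc (v - w) := by
      rw [← neg_sub v w, impactDisc_neg_right]
    rw [hn, hd]
    congr 1
    rw [← lintegral_disc_neg (v - w) (fun b => φ (postVelocities Φ b v w).2 * (h v * h w))]
    refine setLIntegral_congr_fun (measurableSet_impactDisc _) fun b hb => ?_
    show φ (postVelocities Φ b w v).1 * (h w * h v) = φ (postVelocities Φ (-b) v w).2 * (h v * h w)
    rw [post_swap hΦ hb hvw, mul_comm (h w) (h v)]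

/-- a collision invariant has the same gain and loss integrals -/
theorem CollInv.lintegral_mul_Qp (hΦ : AdmissiblePotential Φ) {φ : Space3 → ℝ≥0∞}
    (hφ : CollInv Φ φ) {h : Space3 → ℝ≥0∞} (hh : Measurable h) :
    ∫⁻ v, φ v * Qp Φ h h v = ∫⁻ v, φ v * (h v * nuE h v) := by
  have hφm := hφ.meas
  rw [Boltz814.lintegral_mul_Qp hΦ hφ.meas hh hh]
  set A := ∫⁻ v, ∫⁻ w, ENNReal.ofReal ‖v - w‖ * ∫⁻ b in impactDisc (v - w),
        φ (postVelocities Φ b v w).1 * (h v * h w) ∂μHE[2] with hA
  have hA2 : A = ∫⁻ v, ∫⁻ w, ENNReal.ofReal ‖v - w‖ * ∫⁻ b in impactDisc (v - w),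
        φ (postVelocities Φ b v w).2 * (h v * h w) ∂μHE[2] := weak_swap hΦ hφ.meas hh
  -- the loss side
  set B := ∫⁻ v, ∫⁻ w, ENNReal.ofReal Real.pi * (ENNReal.ofReal ‖v - w‖ *
        (φ v * (h v * h w))) with hB
  have hBeq : ∫⁻ v, φ v * (h v * nuE h v) = B := by
    refine lintegral_congr fun v => ?_
    unfold nuE
    rw [← mul_assoc, ← mul_assoc, mul_comm (φ v * h v) (ENNReal.ofReal Real.pi), mul_assoc,
      ← lintegral_const_mul _ (by fun_prop), ← lintegral_const_mul _ (by fun_prop)]
    refine lintegral_congr fun w => ?_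
    ring
  have hB2 : B = ∫⁻ v, ∫⁻ w, ENNReal.ofReal Real.pi * (ENNReal.ofReal ‖v - w‖ *
        (φ w * (h v * h w))) := by
    rw [hB, lintegral_lintegral_swap (by fun_prop)]
    refine lintegral_congr fun v => lintegral_congr fun w => ?_
    rw [norm_sub_rev w v, mul_comm (h w) (h v)]
  have hBm : Measurable (fun p : Space3 × Space3 => ENNReal.ofReal Real.pi *
      (ENNReal.ofReal ‖p.1 - p.2‖ * (φ p.1 * (h p.1 * h p.2)))) := by fun_prop
  have h1 := measurable_weak hΦ hφ.meas hh hh
  have hsum : A + A = B + B := by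
    calc A + A = A + ∫⁻ v, ∫⁻ w, ENNReal.ofReal ‖v - w‖ * ∫⁻ b in impactDisc (v - w),
        φ (postVelocities Φ b v w).2 * (h v * h w) ∂μHE[2] := by rw [← hA2]
      _ = ∫⁻ v, ((∫⁻ w, ENNReal.ofReal ‖v - w‖ * ∫⁻ b in impactDisc (v - w),
            φ (postVelocities Φ b v w).1 * (h v * h w) ∂μHE[2]) +
          ∫⁻ w, ENNReal.ofReal ‖v - w‖ * ∫⁻ b in impactDisc (v - w),
            φ (postVelocities Φ b v w).2 * (h v * h w) ∂μHE[2]) := by
          rw [lintegral_add_left h1.lintegral_prod_right']
      _ = ∫⁻ v, ∫⁻ w, (ENNReal.ofReal Real.pi * (ENNReal.ofReal ‖v - w‖ *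
            (φ v * (h v * h w))) + ENNReal.ofReal Real.pi * (ENNReal.ofReal ‖v - w‖ *
            (φ w * (h v * h w)))) := by
          refine lintegral_congr fun v => ?_
          have hmv : Measurable fun w : Space3 => ENNReal.ofReal ‖v - w‖ *
              ∫⁻ b in impactDisc (v - w),
              φ (postVelocities Φ b v w).1 * (h v * h w) ∂μHE[2] := by
            have h3 : Measurable (fun w : Space3 => (v, w)) :=
              measurable_const.prodMk measurable_id
            have h4 := Measurable.comp h1 h3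
            exact h4
          rw [← lintegral_add_left hmv]
          refine lintegral_congr fun w => ?_
          by_cases hvw : v - w = 0
          · simp [hvw]
          · rw [← mul_add]
            have hm1 : Measurable fun b : Space3 => φ (postOn Φ b v w).1 * (h v * h w) := by
              have hpair : Measurable fun b : Space3 => ((v, w), b) :=
                measurable_const.prodMk measurable_id
              have h3 := Measurable.comp (measurable_postOn (Scat818.scatFacts hΦ)) hpair
              have h4 : Measurable fun b : Space3 => (postOn Φ b v w).1 := h3.fst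
              exact (hφm.comp h4).mul_const _
            have h5 : (∫⁻ b in impactDisc (v - w),
                φ (postVelocities Φ b v w).1 * (h v * h w) ∂μHE[2]) +
                ∫⁻ b in impactDisc (v - w),
                φ (postVelocities Φ b v w).2 * (h v * h w) ∂μHE[2] =
                ∫⁻ _b in impactDisc (v - w), (φ v + φ w) * (h v * h w) ∂μHE[2] := by
              have h6 : ∫⁻ b in impactDisc (v - w),
                  φ (postVelocities Φ b v w).1 * (h v * h w) ∂μHE[2] =
                  ∫⁻ b in impactDisc (v - w),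
                  φ (postOn Φ b v w).1 * (h v * h w) ∂μHE[2] :=
                setLIntegral_congr_fun (measurableSet_impactDisc _) fun b hb => by
                  simp only [postOn_of_mem hb]
              rw [h6, ← lintegral_add_left hm1]
              refine setLIntegral_congr_fun (measurableSet_impactDisc _) fun b hb => ?_
              show φ (postOn Φ b v w).1 * (h v * h w) +
                φ (postVelocities Φ b v w).2 * (h v * h w) = (φ v + φ w) * (h v * h w)
              rw [postOn_of_mem hb, ← add_mul, hφ.inv v w b hb hvw]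
            rw [h5, lintegral_const, Measure.restrict_apply_univ, hausdorff_impactDisc hvw]
            ring
      _ = ∫⁻ v, ((∫⁻ w, ENNReal.ofReal Real.pi * (ENNReal.ofReal ‖v - w‖ *
            (φ v * (h v * h w)))) + ∫⁻ w, ENNReal.ofReal Real.pi * (ENNReal.ofReal ‖v - w‖ *
            (φ w * (h v * h w)))) := by
          refine lintegral_congr fun v => ?_
          have hBv : Measurable fun w : Space3 => ENNReal.ofReal Real.pi *
              (ENNReal.ofReal ‖v - w‖ * (φ v * (h v * h w))) := by
            have h3 : Measurable (fun w : Space3 => (v, w)) :=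
              measurable_const.prodMk measurable_id
            have h4 := Measurable.comp hBm h3
            exact h4
          exact lintegral_add_left hBv _
      _ = B + B := by
          rw [lintegral_add_left hBm.lintegral_prod_right', ← hB2]
  rw [hBeq]
  have h2 : (2 : ℝ≥0∞) * A = 2 * B := by rw [two_mul, two_mul, hsum]
  exact (ENNReal.mul_right_inj (by norm_num) (by norm_num)).1 h2

/-! ### Moments of the solution -/

/-- `L¹` exponential moment of the solution, uniformly on `[0,T]`. -/
theorem exists_L1_moment_sol (hβ : 0 < β) (hT : 0 < T) (hΦ : AdmissiblePotential Φ)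
    (hf : IsRegularKineticSolution Φ β T f₀ f)
    (H : HasSummableGaussianBound (2 * β) (fun x v => f₀ (x, v))) :
    ∃ C : ℝ, 0 ≤ C ∧ ∀ t, phI (fun x v => gau (-(β / 4)) v * fE T f t x v) ≤
      ENNReal.ofReal C := by
  obtain ⟨lam, C, hlam, hC0, h⟩ := exists_L1_moment hβ hT hΦ hf H
  refine ⟨C, hC0, fun t => ?_⟩
  have hm : Measurable (Function.uncurry fun x v : Space3 => gau (-(β / 4)) v * fE T f t x v) :=
    ((measurable_gau _).comp measurable_snd).mul (meas3_uncurry (meas3_fE hf) t)
  by_cases ht : t ∈ Icc 0 T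
  · rw [phI_eq_prod hm]
    refine le_trans (lintegral_mono fun z => ?_) (h t ht)
    refine mul_le_mul' le_rfl ?_
    rw [fE_of_mem ht, series_eq hβ hT hΦ hf ht]
    refine ENNReal.tsum_le_tsum fun τ => ?_
    calc TF Φ T f τ t z.1 z.2 = 1 * TF Φ T f τ t z.1 z.2 := (one_mul _).symm
      _ ≤ _ := mul_le_mul' (one_le_pow₀ (by
          rw [← ENNReal.ofReal_one]; exact ENNReal.ofReal_le_ofReal hlam.le)) le_rfl
  · have : phI (fun x v => gau (-(β / 4)) v * fE T f t x v) = 0 := by
      unfold phI fE
      simp [ht]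
    rw [this]; exact bot_le

/-- polynomial weights are bounded by exponential ones -/
lemma exists_poly_le_gau {γ : ℝ} (hγ : 0 < γ) (k : ℕ) :
    ∃ C : ℝ, 0 ≤ C ∧ ∀ v : Space3, ENNReal.ofReal ((1 + ‖v‖) ^ k) ≤
      ENNReal.ofReal C * gau (-γ) v := by
  refine ⟨Real.exp ((k : ℝ) ^ 2 / (2 * (2 * γ))), Real.exp_nonneg _, fun v => ?_⟩
  unfold gau
  rw [← ENNReal.ofReal_mul (Real.exp_nonneg _)]
  refine ENNReal.ofReal_le_ofReal ?_
  have h := one_add_pow_mul_exp_le (γ := 2 * γ) (by positivity) k (norm_nonneg v)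
  have h1 : Real.exp (-(2 * γ) * ‖v‖ ^ 2) * Real.exp (2 * γ * ‖v‖ ^ 2) = 1 := by
    rw [← Real.exp_add]; simp
  have h2 : Real.exp (-(2 * γ / 2) * ‖v‖ ^ 2) * Real.exp (2 * γ * ‖v‖ ^ 2) =
      Real.exp (- -γ * ‖v‖ ^ 2) := by
    rw [← Real.exp_add]; congr 1; ring
  calc (1 + ‖v‖) ^ k = ((1 + ‖v‖) ^ k * Real.exp (-(2 * γ) * ‖v‖ ^ 2)) *
        Real.exp (2 * γ * ‖v‖ ^ 2) := by rw [mul_assoc, h1, mul_one]
    _ ≤ (Real.exp ((k : ℝ) ^ 2 / (2 * (2 * γ))) * Real.exp (-(2 * γ / 2) * ‖v‖ ^ 2)) *
        Real.exp (2 * γ * ‖v‖ ^ 2) := by gcongr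
    _ = _ := by rw [mul_assoc, h2]

/-- **(M3)** Conservation law: `∫∫ φ f(t)` is constant on `[0,T]` for every collision invariant
`φ` of subexponential growth. -/
theorem conservation (hβ : 0 < β) (hT : 0 < T) (hΦ : AdmissiblePotential Φ)
    (hf : IsRegularKineticSolution Φ β T f₀ f)
    (H : HasSummableGaussianBound (2 * β) (fun x v => f₀ (x, v)))
    {φ : Space3 → ℝ≥0∞} (hφ : CollInv Φ φ) {A : ℝ≥0∞} (hA : A ≠ ∞)
    (hφA : ∀ v, φ v ≤ A * gau (-(β / 8)) v) {t : ℝ} (ht : t ∈ Icc 0 T) :
    phI (fun x v => φ v * fE T f t x v) = phI (fun x v => φ v * fE T f 0 x v) := by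
  have hφm := hφ.meas
  obtain ⟨C, hC0, hC⟩ := exists_L1_moment_sol hβ hT hΦ hf H
  obtain ⟨L, hL0, hL⟩ := exists_nuF_le hβ hT hf
  obtain ⟨C1, hC10, hC1⟩ := exists_poly_le_gau (γ := β / 8) (by positivity) 1
  have hfm := meas3_fE hf
  have hnm : Meas3 (nuF T f) := measurable_nuF hf
  have hgm : Meas3 (gainF Φ T f) := measurable_gainF (Scat818.scatFacts hΦ) hf
  have hφ3 : Meas3 (fun (_ : ℝ) (_ : Space3) (v : Space3) => φ v) := by
    unfold Meas3; exact hφm.comp (by fun_prop)
  -- the weighted loss integral is finite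
  have hloss : ∀ r, phI (fun x v => φ v * (fE T f r x v * nuF T f r x v)) ≤
      A * ENNReal.ofReal L * ENNReal.ofReal C1 * ENNReal.ofReal C := by
    intro r
    calc phI (fun x v => φ v * (fE T f r x v * nuF T f r x v))
        ≤ phI (fun x v => (A * ENNReal.ofReal L * ENNReal.ofReal C1) *
            (gau (-(β / 4)) v * fE T f r x v)) := by
          refine phI_mono fun x v => ?_
          have e1 : ENNReal.ofReal (L * (1 + ‖v‖)) ≤
              ENNReal.ofReal L * (ENNReal.ofReal C1 * gau (-(β / 8)) v) := by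
            rw [ENNReal.ofReal_mul hL0]
            refine mul_le_mul' le_rfl ?_
            simpa using hC1 v
          have e2 : gau (-(β / 8)) v * gau (-(β / 8)) v = gau (-(β / 4)) v := by
            rw [← gau_add]; congr 1; ring
          calc φ v * (fE T f r x v * nuF T f r x v)
              ≤ (A * gau (-(β / 8)) v) * (fE T f r x v *
                (ENNReal.ofReal L * (ENNReal.ofReal C1 * gau (-(β / 8)) v))) :=
                mul_le_mul' (hφA v) (mul_le_mul' le_rfl ((hL r x v).trans e1))
            _ = (A * ENNReal.ofReal L * ENNReal.ofReal C1) *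
                ((gau (-(β / 8)) v * gau (-(β / 8)) v) * fE T f r x v) := by ring
            _ = _ := by rw [e2]
      _ = (A * ENNReal.ofReal L * ENNReal.ofReal C1) *
            phI (fun x v => gau (-(β / 4)) v * fE T f r x v) := by
          refine phI_const_mul ?_ _
          exact ((measurable_gau _).comp measurable_snd).mul (meas3_uncurry hfm r)
      _ ≤ _ := mul_le_mul' le_rfl (hC r)
  -- weak form at each time
  have hweak : ∀ r, phI (fun x v => φ v * gainF Φ T f r x v) =
      phI (fun x v => φ v * (fE T f r x v * nuF T f r x v)) := by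
    intro r
    refine lintegral_congr fun x => ?_
    exact hφ.lintegral_mul_Qp hΦ (meas_slice (meas4_damp hf) (meas_fE_zero hf) hfm r x)
  -- weighted mild form
  have hmild : ∀ x v, φ v * fE T f t x v + ∫⁻ r in Ioc 0 t, φ v * (fE T f r (x - (t - r) • v) v *
        nuF T f r (x - (t - r) • v) v) =
      φ v * fE T f 0 (x - t • v) v +
        ∫⁻ r in Ioc 0 t, φ v * gainF Φ T f r (x - (t - r) • v) v := by
    intro x v
    have h1 := mild_undamped hβ hT (Scat818.scatFacts hΦ) hf (s := 0) (t := t) le_rfl ht.1 ht.2 x v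
    rw [sub_zero] at h1
    have m1 : Measurable fun r => fE T f r (x - (t - r) • v) v * nuF T f r (x - (t - r) • v) v := by
      have hm : Measurable fun r : ℝ => (r, x - (t - r) • v, v) := by fun_prop
      have h2 := Measurable.comp (meas_mul3 hfm hnm) hm
      exact h2
    have m2 : Measurable fun r => gainF Φ T f r (x - (t - r) • v) v := by
      have hm : Measurable fun r : ℝ => (r, x - (t - r) • v, v) := by fun_prop
      have h2 := Measurable.comp hgm hm
      exact h2
    rw [lintegral_const_mul _ m1, lintegral_const_mul _ m2, ← mul_add, ← mul_add, h1]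
  -- integrate
  have step : ∀ (q : ℝ → Space3 → Space3 → ℝ≥0∞), Meas3 q →
      phI (fun x v => ∫⁻ r in Ioc 0 t, φ v * q r (x - (t - r) • v) v) =
      ∫⁻ r in Ioc 0 t, phI (fun x v => φ v * q r x v) := by
    intro q hq
    have ha : Measurable fun p : ℝ × Space3 × Space3 =>
        φ p.2.2 * q p.1 (p.2.1 - (t - p.1) • p.2.2) p.2.2 := by
      refine Measurable.mul (hφm.comp (by fun_prop)) ?_
      have hm : Measurable fun p : ℝ × Space3 × Space3 =>
        (p.1, p.2.1 - (t - p.1) • p.2.2, p.2.2) := by fun_prop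
      have h2 := Measurable.comp hq hm
      exact h2
    rw [phI_time (a := fun r x v => φ v * q r (x - (t - r) • v) v) _ ha]
    refine lintegral_congr fun r => ?_
    refine phI_transport (G := fun x v => φ v * q r x v) ?_ (t - r)
    exact (hφm.comp measurable_snd).mul (meas3_uncurry hq r)
  have hL3 : Meas3 (fun r x v => fE T f r x v * nuF T f r x v) := meas_mul3 hfm hnm
  have e1 := step _ hL3
  have e2 := step _ hgm
  have hcongr : phI (fun x v => φ v * fE T f t x v + ∫⁻ r in Ioc 0 t,
      φ v * (fE T f r (x - (t - r) • v) v * nuF T f r (x - (t - r) • v) v)) =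
      phI (fun x v => φ v * fE T f 0 (x - t • v) v +
        ∫⁻ r in Ioc 0 t, φ v * gainF Φ T f r (x - (t - r) • v) v) := by
    unfold phI
    exact lintegral_congr fun x => lintegral_congr fun v => hmild x v
  have mt : Measurable (Function.uncurry fun x v : Space3 => φ v * fE T f t x v) :=
    (hφm.comp measurable_snd).mul (meas3_uncurry hfm t)
  have m0 : Measurable (Function.uncurry fun x v : Space3 => φ v * fE T f 0 x v) :=
    (hφm.comp measurable_snd).mul (meas3_uncurry hfm 0)
  have m0' : Measurable (Function.uncurry fun x v : Space3 => φ v * fE T f 0 (x - t • v) v) := by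
    have hm : Measurable fun p : Space3 × Space3 => (p.1 - t • p.2, p.2) := by fun_prop
    exact m0.comp hm
  rw [phI_add mt, phI_add m0', e1, e2,
    phI_transport (G := fun x v => φ v * fE T f 0 x v) m0] at hcongr
  simp_rw [hweak] at hcongr
  refine (ENNReal.add_left_inj (a := ∫⁻ r in Ioc 0 t,
    phI (fun x v => φ v * (fE T f r x v * nuF T f r x v))) ?_).1 hcongr
  refine ne_top_of_le_ne_top ?_ (lintegral_mono fun r => hloss r)
  rw [lintegral_const]
  refine ENNReal.mul_ne_top (ENNReal.mul_ne_top (ENNReal.mul_ne_top (ENNReal.mul_ne_top hA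
    ENNReal.ofReal_ne_top) ENNReal.ofReal_ne_top) ENNReal.ofReal_ne_top) ?_
  simp

/-- **Energy conservation.** -/
theorem energy_conservation (hβ : 0 < β) (hT : 0 < T) (hΦ : AdmissiblePotential Φ)
    (hf : IsRegularKineticSolution Φ β T f₀ f)
    (H : HasSummableGaussianBound (2 * β) (fun x v => f₀ (x, v))) {t : ℝ} (ht : t ∈ Icc 0 T) :
    phI (fun x v => ENNReal.ofReal (‖v‖ ^ 2) * fE T f t x v) =
      phI (fun x v => ENNReal.ofReal (‖v‖ ^ 2) * fE T f 0 x v) := by
  obtain ⟨C2, hC20, hC2⟩ := exists_poly_le_gau (γ := β / 8) (by positivity) 2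
  have h0 := collInv_sq hΦ 0
  simp only [add_zero] at h0
  refine conservation hβ hT hΦ hf H h0 (A := ENNReal.ofReal C2) ENNReal.ofReal_ne_top
    (fun v => ?_) ht
  refine le_trans (ENNReal.ofReal_le_ofReal ?_) (hC2 v)
  have : 0 ≤ ‖v‖ := norm_nonneg v
  nlinarith

end Crest.Agent.R122.Boltz814

end
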