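import Crest.Agent.R122.FluxScat_663

/-!
# Row 122, block F2 (S8), velocity form

`|v - w| dv dw dμHE[2](b)` is invariant under `(v, w, b) ↦ (v', w', b')`, exchange of incoming and
outgoing data, weak form and mass identity of the gain operator `Qp`.
-/

set_option autoImplicit false

open MeasureTheory Set Filter
open Crest.AnalysisR.Kinetic
open scoped ENNReal

noncomputable section

namespace Crest.Agent.R122.Flux663

open Disc416 Scat818 Boltz814

variable {Φ : Space3 → ℝ}

/-- Centre of mass and relative velocity: `(V, g) ↦ (V + g/2, V - g/2)`. -/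
def cm (p : Space3 × Space3) : Space3 × Space3 :=
  (p.1 + (1 / 2 : ℝ) • p.2, p.1 - (1 / 2 : ℝ) • p.2)

lemma measurable_cm : Measurable cm := by unfold cm; fun_prop

lemma measurePreserving_cm : MeasurePreserving cm (volume : Measure (Space3 × Space3)) volume := by
  -- (V, g) ↦ (V + g/2, g) ↦ (v, v - g)
  have h1 : MeasurePreserving (fun p : Space3 × Space3 => (p.1, p.2 + (1 / 2 : ℝ) • p.1))
      ((volume : Measure Space3).prod volume) ((volume : Measure Space3).prod volume) := by
    refine MeasurePreserving.skew_product (f := id) (g := fun g v => v + (1 / 2 : ℝ) • g)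
      (MeasurePreserving.id _) (by fun_prop) (Eventually.of_forall fun g => ?_)
    exact (measurePreserving_add_right volume ((1 / 2 : ℝ) • g)).map_eq
  have h2 : MeasurePreserving (fun p : Space3 × Space3 => (p.1, p.1 - p.2))
      ((volume : Measure Space3).prod volume) ((volume : Measure Space3).prod volume) := by
    refine MeasurePreserving.skew_product (f := id) (g := fun v g => v - g)
      (MeasurePreserving.id _) (by fun_prop) (Eventually.of_forall fun v => ?_)
    exact (Measure.measurePreserving_sub_left volume v).map_eq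
  have h3 : MeasurePreserving (Prod.swap : Space3 × Space3 → Space3 × Space3)
      ((volume : Measure Space3).prod volume) ((volume : Measure Space3).prod volume) :=
    Measure.measurePreserving_swap
  have h := h2.comp (h3.comp (h1.comp h3))
  have he : cm = (fun p : Space3 × Space3 => (p.1, p.1 - p.2)) ∘ (Prod.swap ∘
      ((fun p : Space3 × Space3 => (p.1, p.2 + (1 / 2 : ℝ) • p.1)) ∘ Prod.swap)) := by
    funext p
    refine Prod.ext rfl ?_
    show p.1 - (1 / 2 : ℝ) • p.2 = (p.1 + (1 / 2 : ℝ) • p.2) - p.2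
    rw [add_sub_assoc, sub_eq_add_neg]
    congr 1
    have : p.2 = (1 / 2 : ℝ) • p.2 + (1 / 2 : ℝ) • p.2 := by rw [← add_smul]; norm_num
    nth_rewrite 3 [this]
    abel
  rw [he]
  exact h

/-- Change of variables `(v, w) = (V + g/2, V - g/2)`. -/
theorem lintegral_cm {H : Space3 → Space3 → ℝ≥0∞} (hH : Measurable (Function.uncurry H)) :
    ∫⁻ v, ∫⁻ w, H v w =
      ∫⁻ V : Space3, ∫⁻ g : Space3, H (V + (1 / 2 : ℝ) • g) (V - (1 / 2 : ℝ) • g) := by
  have hH2 : Measurable (fun p : Space3 × Space3 => H p.1 p.2) := hH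
  have h1 : ∫⁻ v, ∫⁻ w, H v w = ∫⁻ p : Space3 × Space3, H p.1 p.2 := by
    rw [Measure.volume_eq_prod, lintegral_prod _ hH2.aemeasurable]
  have hH3 : Measurable (fun p : Space3 × Space3 => H (cm p).1 (cm p).2) := hH2.comp measurable_cm
  rw [h1, ← measurePreserving_cm.lintegral_comp hH2, Measure.volume_eq_prod,
    lintegral_prod _ hH3.aemeasurable]
  rfl

lemma cm_sub (V g : Space3) : (V + (1 / 2 : ℝ) • g) - (V - (1 / 2 : ℝ) • g) = g := by
  have : g = (1 / 2 : ℝ) • g + (1 / 2 : ℝ) • g := by rw [← add_smul]; norm_num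
  nth_rewrite 3 [this]
  abel

lemma cm_add (V g : Space3) :
    (1 / 2 : ℝ) • ((V + (1 / 2 : ℝ) • g) + (V - (1 / 2 : ℝ) • g)) = V := by
  have : (V + (1 / 2 : ℝ) • g) + (V - (1 / 2 : ℝ) • g) = V + V := by abel
  rw [this, smul_add, ← add_smul]
  norm_num

lemma post_cm (Φ : Space3 → ℝ) (b V g : Space3) :
    postVelocities Φ b (V + (1 / 2 : ℝ) • g) (V - (1 / 2 : ℝ) • g) =
      (V + (1 / 2 : ℝ) • exitVelocity Φ b g, V - (1 / 2 : ℝ) • exitVelocity Φ b g) := by
  unfold postVelocities
  rw [cm_sub, cm_add]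

/-- Integration over `(v, w, b)` in centre of mass coordinates. -/
theorem lintegral_vwb {F : Space3 → Space3 → Space3 → ℝ≥0∞}
    (hF : Measurable (fun p : Space3 × Space3 × Space3 => F p.1 p.2.1 p.2.2)) :
    ∫⁻ v, ∫⁻ w, ENNReal.ofReal ‖v - w‖ * ∫⁻ b in impactDisc (v - w), F v w b ∂μHE[2] =
      ∫⁻ V : Space3, ∫⁻ e, F (V + (1 / 2 : ℝ) • e.2) (V - (1 / 2 : ℝ) • e.2) e.1 ∂flux := by
  have h1 : Measurable (Function.uncurry fun v w : Space3 =>
      ENNReal.ofReal ‖v - w‖ * ∫⁻ b in impactDisc (v - w), F v w b ∂μHE[2]) := by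
    have := measurable_lintegral_disc (α := Space3 × Space3) (G := fun p => p.1 - p.2)
      (by fun_prop) (F := fun p b => F p.1 p.2 b)
      (hF.comp ((measurable_fst.comp measurable_fst).prodMk
        ((measurable_snd.comp measurable_fst).prodMk measurable_snd)))
    exact this
  rw [lintegral_cm h1]
  refine lintegral_congr fun V => ?_
  have h2 : Measurable (fun e : Space3 × Space3 =>
      F (V + (1 / 2 : ℝ) • e.2) (V - (1 / 2 : ℝ) • e.2) e.1) := by
    refine hF.comp (Measurable.prodMk ?_ (Measurable.prodMk ?_ measurable_fst))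
    · exact (measurable_snd.const_smul (1 / 2 : ℝ)).const_add V
    · exact (measurable_snd.const_smul (1 / 2 : ℝ)).const_sub V
  rw [lintegral_flux h2]
  refine lintegral_congr fun g => ?_
  rw [cm_sub]

/-- (S8) Exchange of incoming and outgoing data, full form. `F` is a function of
`(v, w, b; v', w', b')`. -/
theorem lintegral_exchange_vwb (hΦ : AdmissiblePotential Φ) (hm : Measurable (scatE Φ))
    {F : (Space3 × Space3 × Space3) × (Space3 × Space3 × Space3) → ℝ≥0∞} (hF : Measurable F) :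
    ∫⁻ v, ∫⁻ w, ENNReal.ofReal ‖v - w‖ * ∫⁻ b in impactDisc (v - w),
        F ((v, w, b), ((postVelocities Φ b v w).1, (postVelocities Φ b v w).2,
          exitImpact Φ b (v - w))) ∂μHE[2] =
      ∫⁻ v, ∫⁻ w, ENNReal.ofReal ‖v - w‖ * ∫⁻ b in impactDisc (v - w),
        F (((postVelocities Φ b v w).1, (postVelocities Φ b v w).2, -exitImpact Φ b (v - w)),
          (v, w, -b)) ∂μHE[2] := by
  -- replace by the everywhere measurable version
  set X : Space3 → Space3 × Space3 → Space3 × Space3 × Space3 :=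
    fun V e => (V + (1 / 2 : ℝ) • e.2, V - (1 / 2 : ℝ) • e.2, e.1) with hX
  have hXm : Measurable (fun p : Space3 × (Space3 × Space3) => X p.1 p.2) := by
    rw [hX]
    have h2 : Measurable (fun p : Space3 × (Space3 × Space3) => (1 / 2 : ℝ) • p.2.2) :=
      (measurable_snd.comp measurable_snd).const_smul (1 / 2 : ℝ)
    exact (measurable_fst.add h2).prodMk ((measurable_fst.sub h2).prodMk
      (measurable_fst.comp measurable_snd))
  have key : ∀ {G : (Space3 × Space3 × Space3) × (Space3 × Space3 × Space3) → ℝ≥0∞},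
      Measurable G →
      ∫⁻ v, ∫⁻ w, ENNReal.ofReal ‖v - w‖ * ∫⁻ b in impactDisc (v - w),
        G ((v, w, b), ((postVelocities Φ b v w).1, (postVelocities Φ b v w).2,
          exitImpact Φ b (v - w))) ∂μHE[2] =
      ∫⁻ V : Space3, ∫⁻ e, G (X V e, X V (scatE Φ e)) ∂flux := by
    intro G hG
    have hF1 : Measurable (fun p : Space3 × Space3 × Space3 =>
        G ((p.1, p.2.1, p.2.2), X ((1 / 2 : ℝ) • (p.1 + p.2.1)) (scatE Φ (p.2.2, p.1 - p.2.1)))) := by
      refine hG.comp (measurable_id.prodMk ?_)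
      refine hXm.comp (Measurable.prodMk ?_ (hm.comp (Measurable.prodMk ?_ ?_)))
      · exact (measurable_fst.add (measurable_fst.comp measurable_snd)).const_smul (1 / 2 : ℝ)
      · exact measurable_snd.comp measurable_snd
      · exact measurable_fst.sub (measurable_fst.comp measurable_snd)
    have h1 := lintegral_vwb (F := fun v w b =>
      G ((v, w, b), X ((1 / 2 : ℝ) • (v + w)) (scatE Φ (b, v - w)))) hF1
    have h2 : ∫⁻ v, ∫⁻ w, ENNReal.ofReal ‖v - w‖ * ∫⁻ b in impactDisc (v - w),
        G ((v, w, b), ((postVelocities Φ b v w).1, (postVelocities Φ b v w).2,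
          exitImpact Φ b (v - w))) ∂μHE[2] =
        ∫⁻ v, ∫⁻ w, ENNReal.ofReal ‖v - w‖ * ∫⁻ b in impactDisc (v - w),
        G ((v, w, b), X ((1 / 2 : ℝ) • (v + w)) (scatE Φ (b, v - w))) ∂μHE[2] := by
      refine lintegral_congr fun v => lintegral_congr fun w => ?_
      by_cases hg : v - w = 0
      · simp [hg]
      · congr 1
        refine setLIntegral_congr_fun (measurableSet_impactDisc _) fun b hb => ?_
        rw [scatE_of_mem (e := (b, v - w)) ⟨hg, hb⟩]
        rfl
    rw [h2, h1]
    refine lintegral_congr fun V => lintegral_congr fun e => ?_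
    simp only [cm_sub, cm_add, hX]
  rw [key hF]
  have hG2 : Measurable (fun q : (Space3 × Space3 × Space3) × (Space3 × Space3 × Space3) =>
      F ((q.2.1, q.2.2.1, -q.2.2.2), (q.1.1, q.1.2.1, -q.1.2.2))) := by
    refine hF.comp (Measurable.prodMk ?_ ?_)
    · fun_prop
    · fun_prop
  rw [key hG2]
  refine lintegral_congr fun V => ?_
  have hF3 : Measurable (fun q : (Space3 × Space3) × (Space3 × Space3) => F (X V q.1, X V q.2)) := by
    refine hF.comp (Measurable.prodMk ?_ ?_)
    · exact hXm.comp (measurable_const.prodMk measurable_fst)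
    · exact hXm.comp (measurable_const.prodMk measurable_snd)
  exact lintegral_exchange hΦ hm hF3

/-- (S8) Invariance of `|v - w| dv dw db` under `(v, w, b) ↦ (v', w', b')`. -/
theorem lintegral_invariant_vwb (hΦ : AdmissiblePotential Φ) (hm : Measurable (scatE Φ))
    {F : Space3 × Space3 × Space3 → ℝ≥0∞} (hF : Measurable F) :
    ∫⁻ v, ∫⁻ w, ENNReal.ofReal ‖v - w‖ * ∫⁻ b in impactDisc (v - w),
        F ((postVelocities Φ b v w).1, (postVelocities Φ b v w).2,
          exitImpact Φ b (v - w)) ∂μHE[2] =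
      ∫⁻ v, ∫⁻ w, ENNReal.ofReal ‖v - w‖ * ∫⁻ b in impactDisc (v - w), F (v, w, b) ∂μHE[2] := by
  have h1 := lintegral_exchange_vwb hΦ hm (F := fun q => F q.2) (hF.comp measurable_snd)
  simp only at h1
  rw [h1]
  have hF' : Measurable (fun p : Space3 × Space3 × Space3 => F (p.1, p.2.1, -p.2.2)) :=
    hF.comp (by fun_prop)
  have h2 := lintegral_vwb (F := fun v w b => F (v, w, -b)) hF'
  have h3 := lintegral_vwb (F := fun v w b => F (v, w, b)) hF
  rw [h2, h3]
  refine lintegral_congr fun V => ?_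
  have h4 : Measurable (fun e : Space3 × Space3 =>
      F (V + (1 / 2 : ℝ) • e.2, V - (1 / 2 : ℝ) • e.2, e.1)) := by
    refine hF.comp (Measurable.prodMk ?_ (Measurable.prodMk ?_ measurable_fst))
    · exact (measurable_snd.const_smul (1 / 2 : ℝ)).const_add V
    · exact (measurable_snd.const_smul (1 / 2 : ℝ)).const_sub V
  rw [← measurePreserving_par.lintegral_comp h4]
  rfl

/-- Exchange form for functions of the velocities only. -/
theorem lintegral_exchange_vw (hΦ : AdmissiblePotential Φ) (hm : Measurable (scatE Φ))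
    {F : (Space3 × Space3) × (Space3 × Space3) → ℝ≥0∞} (hF : Measurable F) :
    ∫⁻ v, ∫⁻ w, ENNReal.ofReal ‖v - w‖ * ∫⁻ b in impactDisc (v - w),
        F ((v, w), postVelocities Φ b v w) ∂μHE[2] =
      ∫⁻ v, ∫⁻ w, ENNReal.ofReal ‖v - w‖ * ∫⁻ b in impactDisc (v - w),
        F (postVelocities Φ b v w, (v, w)) ∂μHE[2] := by
  have hF' : Measurable (fun q : (Space3 × Space3 × Space3) × (Space3 × Space3 × Space3) =>
      F ((q.1.1, q.1.2.1), (q.2.1, q.2.2.1))) := hF.comp (by fun_prop)
  exact lintegral_exchange_vwb hΦ hm hF'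

/-- Weak form of the gain operator. -/
theorem lintegral_mul_Qp (hΦ : AdmissiblePotential Φ) (hm : Measurable (scatE Φ))
    {φ h₁ h₂ : Space3 → ℝ≥0∞} (hφ : Measurable φ) (h₁m : Measurable h₁) (h₂m : Measurable h₂) :
    ∫⁻ v, φ v * Qp Φ h₁ h₂ v =
      ∫⁻ v, ∫⁻ w, ENNReal.ofReal ‖v - w‖ * ∫⁻ b in impactDisc (v - w),
        φ (postVelocities Φ b v w).1 * (h₁ v * h₂ w) ∂μHE[2] := by
  have hF : Measurable (fun q : (Space3 × Space3) × (Space3 × Space3) =>
      φ q.1.1 * (h₁ q.2.1 * h₂ q.2.2)) := by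
    fun_prop
  have h := lintegral_exchange_vw hΦ hm hF
  simp only at h
  rw [← h]
  have hmix : ∀ v w : Space3, ENNReal.ofReal ‖v - w‖ * ∫⁻ b in impactDisc (v - w),
        φ v * (h₁ (postVelocities Φ b v w).1 * h₂ (postVelocities Φ b v w).2) ∂μHE[2] =
      φ v * (ENNReal.ofReal ‖v - w‖ * ∫⁻ b in impactDisc (v - w),
        h₁ (postVelocities Φ b v w).1 * h₂ (postVelocities Φ b v w).2 ∂μHE[2]) := by
    intro v w
    by_cases hg : v - w = 0
    · simp [hg]
    · have hmeas : Measurable (fun b : Space3 =>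
          h₁ ((1 / 2 : ℝ) • (v + w) + (1 / 2 : ℝ) • (scatE Φ (b, v - w)).2) *
            h₂ ((1 / 2 : ℝ) • (v + w) - (1 / 2 : ℝ) • (scatE Φ (b, v - w)).2)) := by
        have h5 : Measurable (fun b : Space3 => (1 / 2 : ℝ) • (scatE Φ (b, v - w)).2) :=
          ((measurable_snd.comp (hm.comp (measurable_id.prodMk measurable_const))).const_smul
            (1 / 2 : ℝ))
        exact (h₁m.comp (h5.const_add _)).mul (h₂m.comp (h5.const_sub _))
      have heq : ∀ b ∈ impactDisc (v - w),
          h₁ (postVelocities Φ b v w).1 * h₂ (postVelocities Φ b v w).2 =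
          h₁ ((1 / 2 : ℝ) • (v + w) + (1 / 2 : ℝ) • (scatE Φ (b, v - w)).2) *
            h₂ ((1 / 2 : ℝ) • (v + w) - (1 / 2 : ℝ) • (scatE Φ (b, v - w)).2) := by
        intro b hb
        rw [scatE_of_mem (e := (b, v - w)) ⟨hg, hb⟩]
        rfl
      have e1 : ∫⁻ b in impactDisc (v - w),
          h₁ (postVelocities Φ b v w).1 * h₂ (postVelocities Φ b v w).2 ∂μHE[2] =
          ∫⁻ b in impactDisc (v - w),
            h₁ ((1 / 2 : ℝ) • (v + w) + (1 / 2 : ℝ) • (scatE Φ (b, v - w)).2) *
            h₂ ((1 / 2 : ℝ) • (v + w) - (1 / 2 : ℝ) • (scatE Φ (b, v - w)).2) ∂μHE[2] :=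
        setLIntegral_congr_fun (measurableSet_impactDisc _) heq
      have e2 : ∫⁻ b in impactDisc (v - w),
          φ v * (h₁ (postVelocities Φ b v w).1 * h₂ (postVelocities Φ b v w).2) ∂μHE[2] =
          ∫⁻ b in impactDisc (v - w),
            φ v * (h₁ ((1 / 2 : ℝ) • (v + w) + (1 / 2 : ℝ) • (scatE Φ (b, v - w)).2) *
            h₂ ((1 / 2 : ℝ) • (v + w) - (1 / 2 : ℝ) • (scatE Φ (b, v - w)).2)) ∂μHE[2] :=
        setLIntegral_congr_fun (measurableSet_impactDisc _) fun b hb => by
          rw [heq b hb]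
      rw [e1, e2, lintegral_const_mul _ hmeas]
      ring
  have hmQ : ∀ v : Space3, Measurable (fun w : Space3 => ENNReal.ofReal ‖v - w‖ *
      ∫⁻ b in impactDisc (v - w),
        h₁ (postVelocities Φ b v w).1 * h₂ (postVelocities Φ b v w).2 ∂μHE[2]) := by
    intro v
    have h6 : (fun w : Space3 => ENNReal.ofReal ‖v - w‖ * ∫⁻ b in impactDisc (v - w),
        h₁ (postVelocities Φ b v w).1 * h₂ (postVelocities Φ b v w).2 ∂μHE[2]) =
        fun w : Space3 => ENNReal.ofReal ‖v - w‖ * ∫⁻ b in impactDisc (v - w),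
          h₁ ((1 / 2 : ℝ) • (v + w) + (1 / 2 : ℝ) • (scatE Φ (b, v - w)).2) *
            h₂ ((1 / 2 : ℝ) • (v + w) - (1 / 2 : ℝ) • (scatE Φ (b, v - w)).2) ∂μHE[2] := by
      funext w
      by_cases hg : v - w = 0
      · simp [hg]
      · congr 1
        refine setLIntegral_congr_fun (measurableSet_impactDisc _) fun b hb => ?_
        rw [scatE_of_mem (e := (b, v - w)) ⟨hg, hb⟩]
        rfl
    rw [h6]
    refine measurable_lintegral_disc (α := Space3) (G := fun w => v - w) (by fun_prop)
      (F := fun w b => h₁ ((1 / 2 : ℝ) • (v + w) + (1 / 2 : ℝ) • (scatE Φ (b, v - w)).2) *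
            h₂ ((1 / 2 : ℝ) • (v + w) - (1 / 2 : ℝ) • (scatE Φ (b, v - w)).2)) ?_
    have h7 : Measurable (fun p : Space3 × Space3 => (1 / 2 : ℝ) • (scatE Φ (p.2, v - p.1)).2) :=
      ((measurable_snd.comp (hm.comp (measurable_snd.prodMk
        (measurable_fst.const_sub v)))).const_smul (1 / 2 : ℝ))
    have h8 : Measurable (fun p : Space3 × Space3 => (1 / 2 : ℝ) • (v + p.1)) :=
      (measurable_fst.const_add v).const_smul (1 / 2 : ℝ)
    exact (h₁m.comp (h8.add h7)).mul (h₂m.comp (h8.sub h7))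
  refine lintegral_congr fun v => ?_
  unfold Qp
  rw [← lintegral_const_mul _ (hmQ v)]
  refine lintegral_congr fun w => ?_
  exact (hmix v w).symm

/-- Mass identity: the total gain equals the total loss. -/
theorem lintegral_Qp (hΦ : AdmissiblePotential Φ) (hm : Measurable (scatE Φ))
    {h₁ h₂ : Space3 → ℝ≥0∞} (h₁m : Measurable h₁) (h₂m : Measurable h₂) :
    ∫⁻ v, Qp Φ h₁ h₂ v = ∫⁻ v, h₁ v * nuE h₂ v := by
  have h := lintegral_mul_Qp hΦ hm (φ := fun _ => 1) measurable_const h₁m h₂m
  simp only [one_mul] at h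
  rw [h]
  refine lintegral_congr fun v => ?_
  unfold nuE
  rw [← lintegral_const_mul _ (by fun_prop), ← lintegral_const_mul _ (by fun_prop)]
  refine lintegral_congr fun w => ?_
  by_cases hg : v - w = 0
  · simp [hg]
  · rw [lintegral_const, Measure.restrict_apply_univ, measure_impactDisc hg]
    ring

end Crest.Agent.R122.Flux663
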