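import Crest.Agent.R122.KinMain_796
import Crest.Agent.R122.FluxQ_663
import Crest.Agent.R122.Scat5_818

/-!
Row 122, Boltzmann side (helper814): L¹ estimates for the Boltzmann solution, part 1:
measurability of the scattering map, the weighted L¹ bound of the gain operator, and the
singular Gronwall kernel.
-/

set_option autoImplicit false

open MeasureTheory ProbabilityTheory Set
open Crest.AnalysisR.Kinetic
open Crest.Agent.R122.Kin416 Crest.Agent.R122.Kin796
open scoped ENNReal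

noncomputable section

namespace Crest.Agent.R122.Boltz814

variable {Φ : Space3 → ℝ}

theorem measurable_scatE (hΦ : AdmissiblePotential Φ) : Measurable (Flux663.scatE Φ) := by
  have h : Flux663.scatE Φ = Scat818.scat Φ := by
    funext p
    by_cases hp : p ∈ Flux663.FS
    · rw [Flux663.scatE_of_mem hp, Scat818.scat_of_gincid hΦ ⟨hp.2, hp.1⟩]
    · rw [Flux663.scatE_of_not_mem hp, Scat818.scat_of_not]
      rintro ⟨h1, _⟩
      exact hp ⟨h1.2, h1.1⟩
  rw [h]
  exact Scat818.measurable_scat hΦ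

/-- mass identity of the gain operator, unconditional -/
theorem lintegral_Qp (hΦ : AdmissiblePotential Φ) {h₁ h₂ : Space3 → ℝ≥0∞}
    (h₁m : Measurable h₁) (h₂m : Measurable h₂) :
    ∫⁻ v, Qp Φ h₁ h₂ v = ∫⁻ v, h₁ v * nuE h₂ v :=
  Flux663.lintegral_Qp hΦ (measurable_scatE hΦ) h₁m h₂m

/-- weak form of the gain operator, unconditional -/
theorem lintegral_mul_Qp (hΦ : AdmissiblePotential Φ)
    {φ h₁ h₂ : Space3 → ℝ≥0∞} (hφ : Measurable φ) (h₁m : Measurable h₁) (h₂m : Measurable h₂) :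
    ∫⁻ v, φ v * Qp Φ h₁ h₂ v =
      ∫⁻ v, ∫⁻ w, ENNReal.ofReal ‖v - w‖ * ∫⁻ b in impactDisc (v - w),
        φ (postVelocities Φ b v w).1 * (h₁ v * h₂ w) ∂μHE[2] :=
  Flux663.lintegral_mul_Qp hΦ (measurable_scatE hΦ) hφ h₁m h₂m

lemma sub_ne_zero_of_ne' {v w : Space3} (h : ¬ v - w = 0) : v ≠ w := fun h' => h (by simp [h'])

/-- growing Gaussian weights are submultiplicative along collisions -/
lemma gau_neg_post_le (hΦ : AdmissiblePotential Φ) {γ : ℝ} (hγ : 0 ≤ γ) {b v w : Space3}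
    (hb : b ∈ impactDisc (v - w)) (hvw : v - w ≠ 0) :
    gau (-γ) (postVelocities Φ b v w).1 ≤ gau (-γ) v * gau (-γ) w := by
  have he := norm_sq_post (Scat818.scatFacts hΦ) hb hvw
  unfold gau
  rw [← ENNReal.ofReal_mul (Real.exp_nonneg _), ← Real.exp_add]
  refine ENNReal.ofReal_le_ofReal (Real.exp_le_exp.2 ?_)
  nlinarith [sq_nonneg ‖(postVelocities Φ b v w).2‖]

/-- weighted `L¹` bound of the gain operator -/
theorem lintegral_gau_mul_Qp_le (hΦ : AdmissiblePotential Φ) {γ : ℝ} (hγ0 : 0 ≤ γ)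
    {h k : Space3 → ℝ≥0∞} (hm : Measurable h) (km : Measurable k) :
    ∫⁻ v, gau (-γ) v * Qp Φ h k v ≤
      ∫⁻ v, (gau (-γ) v * h v) * nuE (fun w => gau (-γ) w * k w) v := by
  rw [lintegral_mul_Qp hΦ (measurable_gau _) hm km]
  refine lintegral_mono fun v => ?_
  unfold nuE
  rw [← mul_assoc, mul_comm (gau (-γ) v * h v) (ENNReal.ofReal Real.pi), mul_assoc,
    ← lintegral_const_mul _ (by have := measurable_gau (-γ); fun_prop),
    ← lintegral_const_mul _ (by have := measurable_gau (-γ); fun_prop)]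
  refine lintegral_mono fun w => ?_
  by_cases hvw : v - w = 0
  · simp [hvw]
  · have h1 : ∫⁻ b in impactDisc (v - w),
        gau (-γ) (postVelocities Φ b v w).1 * (h v * k w) ∂μHE[2] ≤
        ∫⁻ _b in impactDisc (v - w),
          (gau (-γ) v * gau (-γ) w) * (h v * k w) ∂μHE[2] := by
      refine setLIntegral_mono' (measurableSet_impactDisc _) fun b hb => ?_
      exact mul_le_mul' (gau_neg_post_le hΦ hγ0 hb hvw) le_rfl
    rw [lintegral_const, Measure.restrict_apply_univ, hausdorff_impactDisc hvw] at h1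
    calc ENNReal.ofReal ‖v - w‖ * ∫⁻ b in impactDisc (v - w),
        gau (-γ) (postVelocities Φ b v w).1 * (h v * k w) ∂μHE[2]
        ≤ ENNReal.ofReal ‖v - w‖ * ((gau (-γ) v * gau (-γ) w) * (h v * k w) *
          ENNReal.ofReal Real.pi) := mul_le_mul' le_rfl h1
      _ = _ := by ring

/-- weighted `L¹` bound of the gain operator for a Gaussian-bounded second argument -/
theorem lintegral_gau_mul_Qp_le' (hΦ : AdmissiblePotential Φ) {γ δ : ℝ} (hγ0 : 0 ≤ γ)
    {h k : Space3 → ℝ≥0∞} (hm : Measurable h) (km : Measurable k) {A : ℝ≥0∞}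
    (hk : ∀ w, k w ≤ A * gau (γ + δ) w) :
    ∫⁻ v, gau (-γ) v * Qp Φ h k v ≤
      ∫⁻ v, (A * CG δ * ENNReal.ofReal (1 + ‖v‖)) * (gau (-γ) v * h v) := by
  refine (lintegral_gau_mul_Qp_le hΦ hγ0 hm km).trans (lintegral_mono fun v => ?_)
  have h1 : nuE (fun w => gau (-γ) w * k w) v ≤ A * CG δ * ENNReal.ofReal (1 + ‖v‖) := by
    refine nuE_le_of_le_gau (fun w => ?_) v
    calc gau (-γ) w * k w ≤ gau (-γ) w * (A * gau (γ + δ) w) := mul_le_mul' le_rfl (hk w)
      _ = A * (gau (-γ) w * gau (γ + δ) w) := by ring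
      _ = A * gau δ w := by rw [← gau_add]; congr 2; ring
  calc (gau (-γ) v * h v) * nuE (fun w => gau (-γ) w * k w) v
      ≤ (gau (-γ) v * h v) * (A * CG δ * ENNReal.ofReal (1 + ‖v‖)) := mul_le_mul' le_rfl h1
    _ = _ := by ring

/-! ### The singular Gronwall kernel -/

/-- `(1 + r) e^{-λ u r²} ≤ 1 + 1/√(λ u)` -/
lemma one_add_mul_exp_le {lam u r : ℝ} (hlam : 0 < lam) (hu : 0 < u) :
    (1 + r) * Real.exp (-(lam * u) * r ^ 2) ≤ 1 + 1 / Real.sqrt (lam * u) := by
  set a : ℝ := Real.sqrt (lam * u) with ha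
  have ha0 : 0 < a := Real.sqrt_pos.2 (by positivity)
  have ha2 : a ^ 2 = lam * u := Real.sq_sqrt (by positivity)
  have h1 : Real.exp (-(lam * u) * r ^ 2) ≤ 1 := by
    rw [← Real.exp_zero]
    refine Real.exp_le_exp.2 ?_
    have : 0 ≤ lam * u * r ^ 2 := by positivity
    linarith
  have h2 : r * Real.exp (-(lam * u) * r ^ 2) ≤ 1 / a := by
    rw [le_div_iff₀ ha0]
    have h3 : (a * r) ≤ Real.exp ((a * r) ^ 2) := by
      have h4 := Real.add_one_le_exp ((a * r) ^ 2)
      nlinarith [sq_nonneg (a * r - 1)]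
    have h5 : Real.exp (-(lam * u) * r ^ 2) * Real.exp ((a * r) ^ 2) = 1 := by
      rw [← Real.exp_add, mul_pow, ha2]; simp
    calc r * Real.exp (-(lam * u) * r ^ 2) * a = Real.exp (-(lam * u) * r ^ 2) * (a * r) := by
          ring
      _ ≤ Real.exp (-(lam * u) * r ^ 2) * Real.exp ((a * r) ^ 2) := by gcongr
      _ = 1 := h5
  calc (1 + r) * Real.exp (-(lam * u) * r ^ 2) = Real.exp (-(lam * u) * r ^ 2) +
        r * Real.exp (-(lam * u) * r ^ 2) := by ring
    _ ≤ 1 + 1 / a := add_le_add h1 h2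

/-- the kernel `(1 + 1/√(λ u)) e^{-μ u}` has small integral for large `μ` -/
lemma exists_kernel_small {C lam : ℝ} (hC : 0 ≤ C) (hlam : 0 < lam) {ε : ℝ≥0∞} (hε : 0 < ε) :
    ∃ μ : ℝ, 0 < μ ∧ ∫⁻ u in Ioi (0 : ℝ), ENNReal.ofReal (C * (1 + 1 / Real.sqrt (lam * u)) *
      Real.exp (-μ * u)) ≤ ε := by
  have i1 : IntegrableOn (fun u : ℝ => u ^ (0 : ℝ) * Real.exp (-1 * u ^ (1 : ℝ))) (Ioi 0) :=
    integrableOn_rpow_mul_exp_neg_mul_rpow (by norm_num) (by norm_num) (by norm_num)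
  have i2 : IntegrableOn (fun u : ℝ => u ^ (-(1 / 2) : ℝ) * Real.exp (-1 * u ^ (1 : ℝ))) (Ioi 0) :=
    integrableOn_rpow_mul_exp_neg_mul_rpow (by norm_num) (by norm_num) (by norm_num)
  have i3 : IntegrableOn (fun u : ℝ => C * (1 + 1 / Real.sqrt (lam * u)) *
      Real.exp (-1 * u)) (Ioi 0) := by
    have i4 : IntegrableOn (fun u : ℝ => C * (u ^ (0 : ℝ) * Real.exp (-1 * u ^ (1 : ℝ))) +
        C / Real.sqrt lam * (u ^ (-(1 / 2) : ℝ) * Real.exp (-1 * u ^ (1 : ℝ)))) (Ioi 0) :=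
      (i1.const_mul C).add (i2.const_mul (C / Real.sqrt lam))
    refine i4.congr_fun ?_ measurableSet_Ioi
    intro u hu
    have hu' : (0 : ℝ) < u := hu
    have h1 : u ^ (-(1 / 2) : ℝ) = 1 / Real.sqrt u := by
      rw [Real.rpow_neg hu'.le, ← Real.sqrt_eq_rpow, one_div]
    simp only [Real.rpow_zero, Real.rpow_one, one_mul, h1]
    rw [Real.sqrt_mul hlam.le]
    have hl : 0 < Real.sqrt lam := Real.sqrt_pos.2 hlam
    have hs : 0 < Real.sqrt u := Real.sqrt_pos.2 hu'
    field_simp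
  have hmeas : ∀ n : ℕ, Measurable (fun u : ℝ => ENNReal.ofReal
      (C * (1 + 1 / Real.sqrt (lam * u)) * Real.exp (-((n : ℝ) + 1) * u))) := by
    intro n; fun_prop
  have hlim : Filter.Tendsto (fun n : ℕ => ∫⁻ u in Ioi (0 : ℝ), ENNReal.ofReal
      (C * (1 + 1 / Real.sqrt (lam * u)) * Real.exp (-((n : ℝ) + 1) * u))) Filter.atTop
      (nhds (∫⁻ _u in Ioi (0 : ℝ), (0 : ℝ≥0∞))) := by
    refine tendsto_lintegral_of_dominated_convergence
      (fun u => ENNReal.ofReal (C * (1 + 1 / Real.sqrt (lam * u)) * Real.exp (-1 * u)))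
      (fun n => hmeas n) ?_ ?_ ?_
    · intro n
      filter_upwards [ae_restrict_mem measurableSet_Ioi] with u hu
      refine ENNReal.ofReal_le_ofReal ?_
      have hu' : (0 : ℝ) < u := hu
      have h2 : (0 : ℝ) ≤ n * u := by positivity
      refine mul_le_mul_of_nonneg_left (Real.exp_le_exp.2 (by linarith)) ?_
      positivity
    · exact i3.lintegral_lt_top.ne
    · filter_upwards [ae_restrict_mem measurableSet_Ioi] with u hu
      have hu' : (0 : ℝ) < u := hu
      have h1 : Filter.Tendsto (fun n : ℕ => Real.exp (-((n : ℝ) + 1) * u)) Filter.atTop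
          (nhds 0) := by
        refine Real.tendsto_exp_atBot.comp ?_
        have h3 : Filter.Tendsto (fun n : ℕ => ((n : ℝ) + 1) * u) Filter.atTop Filter.atTop :=
          (Filter.tendsto_atTop_add_const_right _ _ tendsto_natCast_atTop_atTop).atTop_mul_const hu'
        have h4 := Filter.tendsto_neg_atTop_atBot.comp h3
        refine h4.congr fun n => ?_
        simp only [Function.comp_apply]; ring
      have h2 := h1.const_mul (C * (1 + 1 / Real.sqrt (lam * u)))
      rw [mul_zero] at h2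
      have h3 := (ENNReal.continuous_ofReal.tendsto 0).comp h2
      rwa [ENNReal.ofReal_zero] at h3
  rw [lintegral_zero] at hlim
  obtain ⟨n, hn⟩ := (hlim.eventually (gt_mem_nhds hε)).exists
  exact ⟨(n : ℝ) + 1, by positivity, hn.le⟩

/-- time convolution against the singular kernel -/
lemma lintegral_singular_le {C lam μ : ℝ} {ε : ℝ≥0∞}
    (h : ∫⁻ u in Ioi (0 : ℝ), ENNReal.ofReal (C * (1 + 1 / Real.sqrt (lam * u)) *
      Real.exp (-μ * u)) ≤ ε) (t : ℝ) :
    ∫⁻ s in Ioc 0 t, ENNReal.ofReal (C * (1 + 1 / Real.sqrt (lam * (t - s))) *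
      Real.exp (μ * s)) ≤ ENNReal.ofReal (Real.exp (μ * t)) * ε := by
  set F : ℝ → ℝ≥0∞ := fun u => ENNReal.ofReal (C * (1 + 1 / Real.sqrt (lam * u)) *
      Real.exp (-μ * u)) with hF
  have h1 : ∀ s : ℝ, ENNReal.ofReal (C * (1 + 1 / Real.sqrt (lam * (t - s))) *
      Real.exp (μ * s)) = ENNReal.ofReal (Real.exp (μ * t)) * F (t - s) := by
    intro s
    rw [hF]
    simp only
    rw [← ENNReal.ofReal_mul (Real.exp_nonneg _)]
    congr 1
    have : Real.exp (μ * s) = Real.exp (μ * t) * Real.exp (-μ * (t - s)) := by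
      rw [← Real.exp_add]; congr 1; ring
    rw [this]; ring
  simp_rw [h1]
  rw [lintegral_const_mul' _ _ ENNReal.ofReal_ne_top]
  refine mul_le_mul' le_rfl (le_trans ?_ h)
  have h2 : ∫⁻ s in Ioc 0 t, F (t - s) = ∫⁻ s, (Ico 0 t).indicator F (t - s) := by
    rw [← lintegral_indicator measurableSet_Ioc]
    refine lintegral_congr fun s => ?_
    by_cases hs : s ∈ Ioc 0 t
    · rw [indicator_of_mem hs, indicator_of_mem]
      exact ⟨by linarith [hs.2], by linarith [hs.1]⟩
    · rw [indicator_of_notMem hs, indicator_of_notMem]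
      intro h'
      exact hs ⟨by linarith [h'.2], by linarith [h'.1]⟩
  rw [h2, lintegral_sub_left_eq_self (fun u => (Ico 0 t).indicator F u) t,
    lintegral_indicator measurableSet_Ico]
  calc ∫⁻ u in Ico 0 t, F u ≤ ∫⁻ u in Ici 0, F u :=
        lintegral_mono_set Ico_subset_Ici_self
    _ = ∫⁻ u in Ioi 0, F u := setLIntegral_congr Ioi_ae_eq_Ici.symm

end Crest.Agent.R122.Boltz814

end
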