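import Crest.Agent.R122.BoltzL1b_814

/-!
Row 122, Boltzmann side (helper814): the `L¹` exponential moment theorem.
-/

set_option autoImplicit false

open MeasureTheory ProbabilityTheory Set
open Crest.AnalysisR.Kinetic
open Crest.Agent.R122.Kin416 Crest.Agent.R122.Kin796
open scoped ENNReal

noncomputable section

namespace Crest.Agent.R122.Boltz814

variable {Φ : Space3 → ℝ} {β T : ℝ} {f₀ : PhasePoint → ℝ} {f : ℝ → PhasePoint → ℝ}

/-- the time dependent rate -/
def gam (β T t : ℝ) : ℝ := β / 2 - β / (4 * T) * t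

lemma gam_mem (hβ : 0 < β) (hT : 0 < T) {t : ℝ} (ht : t ∈ Icc 0 T) :
    gam β T t ∈ Icc (β / 4) (β / 2) := by
  unfold gam
  constructor
  · have h1 : β / (4 * T) * t ≤ β / (4 * T) * T := by
      have : 0 ≤ β / (4 * T) := by positivity
      exact mul_le_mul_of_nonneg_left ht.2 this
    have h2 : β / (4 * T) * T = β / 4 := by field_simp
    linarith
  · have : 0 ≤ β / (4 * T) * t := mul_nonneg (by positivity) ht.1
    linarith

/-- finite initial exponential moment -/
lemma initial_moment (hβ : 0 < β)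
    (H : HasSummableGaussianBound (2 * β) (fun x v => f₀ (x, v)))
    (hT : 0 < T) (hf : IsRegularKineticSolution Φ β T f₀ f) {γ : ℝ} (hγ : γ ≤ β) :
    phI (fun x v => gau (-γ) v * fE T f 0 x v) < ∞ := by
  obtain ⟨C, hC0, hC⟩ := exists_velocity_marginal H
  have h0 : (0 : ℝ) ∈ Icc 0 T := ⟨le_rfl, hT.le⟩
  have hm : Measurable (Function.uncurry fun x v : Space3 => gau (-γ) v * fE T f 0 x v) :=
    ((measurable_gau _).comp measurable_snd).mul (meas_fE_zero hf)
  unfold phI
  rw [lintegral_lintegral_swap hm.aemeasurable]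
  have h1 : ∀ v : Space3, ∫⁻ x, gau (-γ) v * fE T f 0 x v ≤
      ENNReal.ofReal C * gau β v := by
    intro v
    have hm2 : Measurable fun x : Space3 => fE T f 0 x v :=
      (meas_fE_zero hf).comp (measurable_id.prodMk measurable_const)
    rw [lintegral_const_mul _ hm2]
    have h2 : ∫⁻ x, fE T f 0 x v ≤ ENNReal.ofReal C * gau (2 * β) v := by
      refine le_trans (le_of_eq ?_) (hC v)
      refine lintegral_congr fun x => ?_
      rw [fE_of_mem h0, hf.initial]
    calc gau (-γ) v * ∫⁻ x, fE T f 0 x v ≤ gau (-γ) v * (ENNReal.ofReal C * gau (2 * β) v) :=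
          mul_le_mul' le_rfl h2
      _ = ENNReal.ofReal C * (gau (-γ) v * gau (2 * β) v) := by ring
      _ = ENNReal.ofReal C * gau (-γ + 2 * β) v := by rw [gau_add]
      _ ≤ ENNReal.ofReal C * gau β v :=
          mul_le_mul' le_rfl (gau_antitone (by linarith) v)
  refine lt_of_le_of_lt (lintegral_mono h1) ?_
  rw [lintegral_const_mul _ (measurable_gau β)]
  exact ENNReal.mul_lt_top ENNReal.ofReal_lt_top (lintegral_gau_lt_top hβ)

/-- **(M2)** `L¹` exponential moment, in the velocity and in the number of collisions, of the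
Picard iterates, uniformly on `[0,T]`. -/
theorem exists_L1_moment_P (hβ : 0 < β) (hT : 0 < T) (hΦ : AdmissiblePotential Φ)
    (hf : IsRegularKineticSolution Φ β T f₀ f)
    (H : HasSummableGaussianBound (2 * β) (fun x v => f₀ (x, v))) :
    ∃ lam C : ℝ, 1 < lam ∧ 0 ≤ C ∧ ∀ n, ∀ t ∈ Icc 0 T,
      phI (fun x v => gau (-(β / 4)) v *
        P (kapQ Φ) (damp T f) (fE T f 0) (ENNReal.ofReal lam) n t x v) ≤ ENNReal.ofReal C := by
  obtain ⟨lam, A, hlam, hA0, hA⟩ := series_exp_moment hβ hT hΦ hf
  have hPb : ∀ n, ∀ t ∈ Icc 0 T, ∀ x v,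
      P (kapQ Φ) (damp T f) (fE T f 0) (ENNReal.ofReal lam) n t x v ≤
        ENNReal.ofReal A * gau β v := by
    intro n t ht x v
    have h1 := hA t ht x v
    unfold TF at h1
    rw [tsum_eq_iSup _ (meas4_damp hf) (meas_fE_zero hf), wG_eq_gau] at h1
    exact (le_iSup (fun n => P (kapQ Φ) (damp T f) (fE T f 0) (ENNReal.ofReal lam) n t x v) n).trans
      h1
  -- constants
  set CB : ℝ := lam * A * (CG (β / 2)).toReal with hCB
  have hlam0 : 0 < lam := by linarith
  have hCB0 : 0 ≤ CB := by positivity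
  set lb : ℝ := β / (4 * T) with hlb
  have hlb0 : 0 < lb := by positivity
  obtain ⟨μ, hμ, hker⟩ := exists_kernel_small hCB0 hlb0 (ε := ENNReal.ofReal (1 / 2))
    (by simp)
  set A0 : ℝ≥0∞ := phI (fun x v => gau (-(β / 2)) v * fE T f 0 x v) with hA0'
  have hA0t : A0 < ∞ := initial_moment hβ H hT hf (by linarith)
  -- the main induction
  have main : ∀ n, ∀ t ∈ Icc 0 T, phI (fun x v => gau (-(gam β T t)) v *
      P (kapQ Φ) (damp T f) (fE T f 0) (ENNReal.ofReal lam) n t x v) ≤
      ENNReal.ofReal (Real.exp (μ * t)) * (2 * A0) := by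
    intro n
    induction n with
    | zero =>
      intro t ht
      have : phI (fun x v => gau (-(gam β T t)) v *
        P (kapQ Φ) (damp T f) (fE T f 0) (ENNReal.ofReal lam) 0 t x v) = 0 := by
        unfold phI P; simp
      rw [this]; exact bot_le
    | succ n ih =>
      intro t ht
      set Pn := P (kapQ Φ) (damp T f) (fE T f 0) (ENNReal.ofReal lam) n with hPn
      have hPm : Meas3 Pn := meas_P (kapQ Φ) (meas4_damp hf) (meas_fE_zero hf) _ n
      have hgt := gam_mem hβ hT ht
      refine (phI_P_succ_le hΦ hf (ENNReal.ofReal lam) n t (measurable_gau _)).trans ?_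
      -- first term
      have h1 : phI (fun x v => gau (-(gam β T t)) v * fE T f 0 x v) ≤ A0 := by
        refine phI_mono fun x v => mul_le_mul' (gau_antitone ?_ v) le_rfl
        linarith [hgt.2]
      -- gain term
      have h2 : ∀ s ∈ Ioo 0 t, ENNReal.ofReal lam * phI (fun x v => gau (-(gam β T t)) v *
          Qp Φ (Pn s x) (Pn s x) v) ≤
          ENNReal.ofReal (CB * (1 + 1 / Real.sqrt (lb * (t - s))) * Real.exp (μ * s)) *
            (2 * A0) := by
        intro s hs
        have hsI : s ∈ Icc 0 T := ⟨hs.1.le, hs.2.le.trans ht.2⟩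
        have hts : 0 < t - s := by linarith [hs.2]
        have hgt0 : 0 ≤ gam β T t := le_trans (by positivity) hgt.1
        have h3 : ∀ x, ∫⁻ v, gau (-(gam β T t)) v * Qp Φ (Pn s x) (Pn s x) v ≤
            ∫⁻ v, (ENNReal.ofReal A * CG (β / 2) *
              ENNReal.ofReal (1 + 1 / Real.sqrt (lb * (t - s)))) *
                (gau (-(gam β T s)) v * Pn s x v) := by
          intro x
          have hslice := meas_slice (meas4_damp hf) (meas_fE_zero hf) hPm s x
          refine (lintegral_gau_mul_Qp_le' hΦ (δ := β / 2) hgt0 hslice hslice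
            (A := ENNReal.ofReal A) ?_).trans ?_
          · intro w
            refine (hPb n s hsI x w).trans (mul_le_mul' le_rfl (gau_antitone ?_ w))
            linarith [hgt.2]
          · refine lintegral_mono fun v => ?_
            have h4 : ENNReal.ofReal (1 + ‖v‖) * gau (-(gam β T t)) v ≤
                ENNReal.ofReal (1 + 1 / Real.sqrt (lb * (t - s))) * gau (-(gam β T s)) v := by
              have h5 : gau (-(gam β T t)) v = gau (lb * (t - s)) v * gau (-(gam β T s)) v := by
                rw [← gau_add]; congr 1; unfold gam; rw [hlb]; ring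
              rw [h5, ← mul_assoc]
              refine mul_le_mul' ?_ le_rfl
              unfold gau
              rw [← ENNReal.ofReal_mul (by positivity)]
              refine ENNReal.ofReal_le_ofReal ?_
              exact one_add_mul_exp_le hlb0 hts
            calc ENNReal.ofReal A * CG (β / 2) * ENNReal.ofReal (1 + ‖v‖) *
                  (gau (-(gam β T t)) v * Pn s x v)
                = ENNReal.ofReal A * CG (β / 2) * (ENNReal.ofReal (1 + ‖v‖) *
                  gau (-(gam β T t)) v) * Pn s x v := by ring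
              _ ≤ ENNReal.ofReal A * CG (β / 2) *
                  (ENNReal.ofReal (1 + 1 / Real.sqrt (lb * (t - s))) * gau (-(gam β T s)) v) *
                  Pn s x v := by gcongr
              _ = _ := by ring
        have h6 : phI (fun x v => gau (-(gam β T t)) v * Qp Φ (Pn s x) (Pn s x) v) ≤
            (ENNReal.ofReal A * CG (β / 2) *
              ENNReal.ofReal (1 + 1 / Real.sqrt (lb * (t - s)))) *
            phI (fun x v => gau (-(gam β T s)) v * Pn s x v) := by
          have hm : Measurable (Function.uncurry fun x v : Space3 =>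
              gau (-(gam β T s)) v * Pn s x v) :=
            ((measurable_gau _).comp measurable_snd).mul (meas3_uncurry hPm s)
          rw [← phI_const_mul hm]
          exact lintegral_mono h3
        have hCGt : CG (β / 2) = ENNReal.ofReal (CG (β / 2)).toReal :=
          (ENNReal.ofReal_toReal (CG_lt_top (by positivity)).ne).symm
        calc ENNReal.ofReal lam * phI (fun x v => gau (-(gam β T t)) v *
              Qp Φ (Pn s x) (Pn s x) v)
            ≤ ENNReal.ofReal lam * ((ENNReal.ofReal A * CG (β / 2) *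
              ENNReal.ofReal (1 + 1 / Real.sqrt (lb * (t - s)))) *
              (ENNReal.ofReal (Real.exp (μ * s)) * (2 * A0))) :=
              mul_le_mul' le_rfl (h6.trans (mul_le_mul' le_rfl (ih s hsI)))
          _ = (ENNReal.ofReal lam * ENNReal.ofReal A * CG (β / 2) *
              ENNReal.ofReal (1 + 1 / Real.sqrt (lb * (t - s))) *
              ENNReal.ofReal (Real.exp (μ * s))) * (2 * A0) := by ring
          _ = _ := by
              congr 1
              rw [hCGt, ← ENNReal.ofReal_mul hlam0.le, ← ENNReal.ofReal_mul (by positivity),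
                ← ENNReal.ofReal_mul (by positivity), ← ENNReal.ofReal_mul (by positivity)]
      have h7 : ∫⁻ s in Ioc 0 t, ENNReal.ofReal lam * phI (fun x v => gau (-(gam β T t)) v *
          Qp Φ (Pn s x) (Pn s x) v) ≤ ENNReal.ofReal (Real.exp (μ * t)) * A0 := by
        calc ∫⁻ s in Ioc 0 t, ENNReal.ofReal lam * phI (fun x v => gau (-(gam β T t)) v *
              Qp Φ (Pn s x) (Pn s x) v)
            = ∫⁻ s in Ioo 0 t, ENNReal.ofReal lam * phI (fun x v => gau (-(gam β T t)) v *
              Qp Φ (Pn s x) (Pn s x) v) := setLIntegral_congr Ioo_ae_eq_Ioc.symm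
          _ ≤ ∫⁻ s in Ioo 0 t, ENNReal.ofReal (CB * (1 + 1 / Real.sqrt (lb * (t - s))) *
              Real.exp (μ * s)) * (2 * A0) := setLIntegral_mono' measurableSet_Ioo h2
          _ ≤ ∫⁻ s in Ioc 0 t, ENNReal.ofReal (CB * (1 + 1 / Real.sqrt (lb * (t - s))) *
              Real.exp (μ * s)) * (2 * A0) := lintegral_mono_set Ioo_subset_Ioc_self
          _ = (∫⁻ s in Ioc 0 t, ENNReal.ofReal (CB * (1 + 1 / Real.sqrt (lb * (t - s))) *
              Real.exp (μ * s))) * (2 * A0) :=
              lintegral_mul_const' _ _ (ENNReal.mul_ne_top (by simp) hA0t.ne)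
          _ ≤ (ENNReal.ofReal (Real.exp (μ * t)) * ENNReal.ofReal (1 / 2)) * (2 * A0) :=
              mul_le_mul' (lintegral_singular_le hker t) le_rfl
          _ = ENNReal.ofReal (Real.exp (μ * t)) * (ENNReal.ofReal (1 / 2) * 2) * A0 := by ring
          _ = ENNReal.ofReal (Real.exp (μ * t)) * A0 := by
              have : ENNReal.ofReal (1 / 2) * 2 = 1 := by
                rw [show (2 : ℝ≥0∞) = ENNReal.ofReal 2 by simp, ← ENNReal.ofReal_mul (by norm_num)]
                norm_num
              rw [this, mul_one]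
      have h8 : (1 : ℝ≥0∞) ≤ ENNReal.ofReal (Real.exp (μ * t)) := by
        rw [← ENNReal.ofReal_one]
        exact ENNReal.ofReal_le_ofReal (Real.one_le_exp (mul_nonneg hμ.le ht.1))
      calc phI (fun x v => gau (-(gam β T t)) v * fE T f 0 x v) +
            ∫⁻ s in Ioc 0 t, ENNReal.ofReal lam * phI (fun x v => gau (-(gam β T t)) v *
              Qp Φ (Pn s x) (Pn s x) v)
          ≤ A0 + ENNReal.ofReal (Real.exp (μ * t)) * A0 := add_le_add h1 h7
        _ ≤ ENNReal.ofReal (Real.exp (μ * t)) * A0 + ENNReal.ofReal (Real.exp (μ * t)) * A0 := by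
            gcongr
            calc A0 = 1 * A0 := (one_mul _).symm
              _ ≤ _ := mul_le_mul' h8 le_rfl
        _ = _ := by ring
  refine ⟨lam, Real.exp (μ * T) * (2 * A0).toReal, hlam, by positivity, fun n t ht => ?_⟩
  have hgt := gam_mem hβ hT ht
  calc phI (fun x v => gau (-(β / 4)) v *
        P (kapQ Φ) (damp T f) (fE T f 0) (ENNReal.ofReal lam) n t x v)
      ≤ phI (fun x v => gau (-(gam β T t)) v *
        P (kapQ Φ) (damp T f) (fE T f 0) (ENNReal.ofReal lam) n t x v) := by
        refine phI_mono fun x v => mul_le_mul' (gau_antitone ?_ v) le_rfl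
        linarith [hgt.1]
    _ ≤ ENNReal.ofReal (Real.exp (μ * t)) * (2 * A0) := main n t ht
    _ ≤ ENNReal.ofReal (Real.exp (μ * T)) * (2 * A0) := by
        gcongr
        exact ht.2
    _ = _ := by
        rw [ENNReal.ofReal_mul (Real.exp_nonneg _), ENNReal.ofReal_toReal
          (ENNReal.mul_ne_top (by simp) hA0t.ne)]

/-- **(M2)** `L¹` exponential moment, in the velocity and in the number of collisions, of the
damped tree series, uniformly on `[0,T]`. -/
theorem exists_L1_moment (hβ : 0 < β) (hT : 0 < T) (hΦ : AdmissiblePotential Φ)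
    (hf : IsRegularKineticSolution Φ β T f₀ f)
    (H : HasSummableGaussianBound (2 * β) (fun x v => f₀ (x, v))) :
    ∃ lam C : ℝ, 1 < lam ∧ 0 ≤ C ∧ ∀ t ∈ Icc 0 T,
      ∫⁻ z : Space3 × Space3, gau (-(β / 4)) z.2 *
        ∑' τ : CTree, ENNReal.ofReal lam ^ τ.size * TF Φ T f τ t z.1 z.2 ≤ ENNReal.ofReal C := by
  obtain ⟨lam, C, hlam, hC0, h⟩ := exists_L1_moment_P hβ hT hΦ hf H
  refine ⟨lam, C, hlam, hC0, fun t ht => ?_⟩
  have hpt : ∀ z : Space3 × Space3, gau (-(β / 4)) z.2 *
      ∑' τ : CTree, ENNReal.ofReal lam ^ τ.size * TF Φ T f τ t z.1 z.2 =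
      ⨆ n, gau (-(β / 4)) z.2 *
        P (kapQ Φ) (damp T f) (fE T f 0) (ENNReal.ofReal lam) n t z.1 z.2 := by
    intro z
    unfold TF
    rw [tsum_eq_iSup _ (meas4_damp hf) (meas_fE_zero hf), ENNReal.mul_iSup]
  have hm : ∀ n, Measurable (Function.uncurry fun x v : Space3 => gau (-(β / 4)) v *
        P (kapQ Φ) (damp T f) (fE T f 0) (ENNReal.ofReal lam) n t x v) := fun n =>
    ((measurable_gau _).comp measurable_snd).mul (meas3_uncurry
      (meas_P (kapQ Φ) (meas4_damp hf) (meas_fE_zero hf) _ n) t)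
  have hm' : ∀ n, Measurable fun z : Space3 × Space3 => gau (-(β / 4)) z.2 *
        P (kapQ Φ) (damp T f) (fE T f 0) (ENNReal.ofReal lam) n t z.1 z.2 := hm
  simp_rw [hpt]
  rw [lintegral_iSup hm' (fun n m hnm z =>
    mul_le_mul' le_rfl (P_mono_index hf _ hnm t z.1 z.2))]
  refine iSup_le fun n => ?_
  rw [← phI_eq_prod (hm n)]
  exact h n t ht

end Crest.Agent.R122.Boltz814

end
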