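import Crest.Agent.R122.KinInst_796
import Crest.Agent.R122.BoltzMild_814
import Crest.Agent.R122.Scat4_818

/-!
The damped collision tree series of a regular kinetic solution (row 122, block F6, helper796).
-/

set_option autoImplicit false
open MeasureTheory ProbabilityTheory Set
open Crest.AnalysisR.Kinetic
open Crest.Agent.R122.Boltz814 Crest.Agent.R122.Kin416
open scoped ENNReal

noncomputable section

namespace Crest.Agent.R122.Kin796

variable {Φ : Space3 → ℝ} {β T : ℝ} {f₀ : PhasePoint → ℝ} {f : ℝ → PhasePoint → ℝ}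

/-- Weight of the collision tree `τ` at `(t, x, v)`, damped by the loss of the solution `f`. -/
def TF (Φ : Space3 → ℝ) (T : ℝ) (f : ℝ → PhasePoint → ℝ) : CTree → ℝ → Space3 → Space3 → ℝ≥0∞ :=
  F (kapQ Φ) (damp T f) (fE T f 0)

/-- trees with fewer than `K` collisions -/
def TS (Φ : Space3 → ℝ) (T : ℝ) (f : ℝ → PhasePoint → ℝ) (K : ℕ) :
    ℝ → Space3 → Space3 → ℝ≥0∞ := SK (kapQ Φ) (damp T f) (fE T f 0) K

/-- trees with at least `K` collisions -/
def TR (Φ : Space3 → ℝ) (T : ℝ) (f : ℝ → PhasePoint → ℝ) (K : ℕ) :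
    ℝ → Space3 → Space3 → ℝ≥0∞ := RK (kapQ Φ) (damp T f) (fE T f 0) K

theorem TF_leaf (t : ℝ) (x v : Space3) :
    TF Φ T f CTree.leaf t x v = damp T f 0 t x v * fE T f 0 (x - t • v) v := rfl

theorem meas4_damp (hf : IsRegularKineticSolution Φ β T f₀ f) : Meas4 (damp T f) :=
  measurable_damp hf

theorem meas3_fE (hf : IsRegularKineticSolution Φ β T f₀ f) : Meas3 (fE T f) :=
  measurable_fE hf

theorem meas_fE_zero (hf : IsRegularKineticSolution Φ β T f₀ f) :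
    Measurable fun p : Space3 × Space3 => fE T f 0 p.1 p.2 :=
  (meas3_fE hf).comp (f := fun p : Space3 × Space3 => ((0 : ℝ), p.1, p.2)) (by fun_prop)

theorem meas_TF (hf : IsRegularKineticSolution Φ β T f₀ f) (τ : CTree) : Meas3 (TF Φ T f τ) :=
  meas_F (kapQ Φ) (meas4_damp hf) (meas_fE_zero hf) τ

theorem meas_TS (hf : IsRegularKineticSolution Φ β T f₀ f) (K : ℕ) : Meas3 (TS Φ T f K) :=
  meas_SK (meas4_damp hf) (meas_fE_zero hf) K

theorem meas_TR (hf : IsRegularKineticSolution Φ β T f₀ f) (K : ℕ) : Meas3 (TR Φ T f K) :=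
  meas_RK (meas4_damp hf) (meas_fE_zero hf) K

/-- Recursion for nodes in terms of `Qp`. -/
theorem TF_node (hΦ : AdmissiblePotential Φ) (hf : IsRegularKineticSolution Φ β T f₀ f)
    (l r : CTree) (t : ℝ) (x v : Space3) :
    TF Φ T f (CTree.node l r) t x v = ∫⁻ s in Ioc 0 t, damp T f s t x v *
      Qp Φ (TF Φ T f l s (x - (t - s) • v)) (TF Φ T f r s (x - (t - s) • v)) v := by
  have h1 : TF Φ T f (CTree.node l r) t x v = ∫⁻ s in Ioc 0 t, damp T f s t x v *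
      Q (kapQ Φ) (TF Φ T f l s (x - (t - s) • v)) (TF Φ T f r s (x - (t - s) • v)) v := rfl
  rw [h1]
  refine lintegral_congr fun s => ?_
  rw [Q_kapQ (Scat818.scatFacts hΦ)
    (meas_slice (meas4_damp hf) (meas_fE_zero hf) (meas_TF hf l) s _)
    (meas_slice (meas4_damp hf) (meas_fE_zero hf) (meas_TF hf r) s _)]

theorem isMild (hβ : 0 < β) (hT : 0 < T) (hΦ : AdmissiblePotential Φ)
    (hf : IsRegularKineticSolution Φ β T f₀ f) :
    IsMild (kapQ Φ) (damp T f) T (fE T f) := by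
  intro t ht x v
  have hS := Scat818.scatFacts hΦ
  have h := mild_damped hβ hT hS hf (s := 0) (t := t) le_rfl ht.1 ht.2 x v
  rw [sub_zero] at h
  rw [h]
  congr 1
  refine lintegral_congr fun s => ?_
  rw [Q_kapQ hS (meas_slice (meas4_damp hf) (meas_fE_zero hf) (meas3_fE hf) s _)
    (meas_slice (meas4_damp hf) (meas_fE_zero hf) (meas3_fE hf) s _)]
  rfl

/-- Gaussian bound in the normalisation of the abstract theory. -/
theorem exists_bound (hT : 0 < T) (hf : IsRegularKineticSolution Φ β T f₀ f) :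
    ∃ C0 : ℝ, 0 ≤ C0 ∧ ∀ (t : ℝ) (x v : Space3),
      fE T f t x v ≤ ENNReal.ofReal C0 * wG (2 * β) v := by
  obtain ⟨C, hC0, hC⟩ := exists_gauss_bound hT hf
  refine ⟨C, hC0, fun t x v => ?_⟩
  have := fE_le hC0 hC t x v
  unfold wG
  rwa [← neg_mul]

/-- **T1.** A regular solution is the sum of its damped collision tree series, at every point. -/
theorem series_eq (hβ : 0 < β) (hT : 0 < T) (hΦ : AdmissiblePotential Φ)
    (hf : IsRegularKineticSolution Φ β T f₀ f) {t : ℝ} (ht : t ∈ Icc 0 T) (x v : Space3) :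
    ENNReal.ofReal (f t (x, v)) = ∑' τ : CTree, TF Φ T f τ t x v := by
  obtain ⟨C0, hC0, hb⟩ := exists_bound hT hf
  rw [← fE_of_mem ht]
  exact eq_tsum hβ hT hC0 (C1G_nonneg β) (kernelBound_kapQ (Scat818.scatFacts hΦ) hβ)
    damp_le_one (meas4_damp hf) (meas3_fE hf) (fun t _ x v => hb t x v) (isMild hβ hT hΦ hf) ht x v

theorem TS_add_TR (hβ : 0 < β) (hT : 0 < T) (hΦ : AdmissiblePotential Φ)
    (hf : IsRegularKineticSolution Φ β T f₀ f) (K : ℕ) {t : ℝ} (ht : t ∈ Icc 0 T)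
    (x v : Space3) : TS Φ T f K t x v + TR Φ T f K t x v = ENNReal.ofReal (f t (x, v)) := by
  rw [series_eq hβ hT hΦ hf ht]
  exact SK_add_RK _ _ _ _ _ _ _

theorem TS_le (hβ : 0 < β) (hT : 0 < T) (hΦ : AdmissiblePotential Φ)
    (hf : IsRegularKineticSolution Φ β T f₀ f) (K : ℕ) {t : ℝ} (ht : t ∈ Icc 0 T)
    (x v : Space3) : TS Φ T f K t x v ≤ ENNReal.ofReal (f t (x, v)) := by
  rw [← TS_add_TR hβ hT hΦ hf K ht]; exact le_self_add

/-- **T3.** Exponential moment of the number of collisions, uniformly on `[0,T]`. -/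
theorem series_exp_moment (hβ : 0 < β) (hT : 0 < T) (hΦ : AdmissiblePotential Φ)
    (hf : IsRegularKineticSolution Φ β T f₀ f) :
    ∃ lam C : ℝ, 1 < lam ∧ 0 ≤ C ∧ ∀ t ∈ Icc 0 T, ∀ x v,
      ∑' τ : CTree, ENNReal.ofReal lam ^ τ.size * TF Φ T f τ t x v ≤
        ENNReal.ofReal C * wG β v := by
  obtain ⟨C0, hC0, hb⟩ := exists_bound hT hf
  obtain ⟨lam, h1, h2⟩ := exp_moment hβ hT hC0 (C1G_nonneg β)
    (kernelBound_kapQ (Scat818.scatFacts hΦ) hβ) damp_le_one (meas4_damp hf) (meas3_fE hf)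
    (fun t _ x v => hb t x v) (isMild hβ hT hΦ hf)
  exact ⟨lam, C0 + 1, h1, by linarith, h2⟩

/-- Geometric tail of the series, uniformly on `[0,T]`. -/
theorem series_tail (hβ : 0 < β) (hT : 0 < T) (hΦ : AdmissiblePotential Φ)
    (hf : IsRegularKineticSolution Φ β T f₀ f) :
    ∃ r C : ℝ, 0 < r ∧ r < 1 ∧ 0 ≤ C ∧ ∀ K : ℕ, ∀ t ∈ Icc 0 T, ∀ x v,
      TR Φ T f K t x v ≤ ENNReal.ofReal (r ^ K * C) * wG β v := by
  obtain ⟨C0, hC0, hb⟩ := exists_bound hT hf
  obtain ⟨r, h0, h1, h2⟩ := tail_geometric hβ hT hC0 (C1G_nonneg β)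
    (kernelBound_kapQ (Scat818.scatFacts hΦ) hβ) damp_le_one (meas4_damp hf) (meas3_fE hf)
    (fun t _ x v => hb t x v) (isMild hβ hT hΦ hf)
  exact ⟨r, C0 + 1, h0, h1, by linarith, h2⟩

theorem fE_continuousOn (hf : IsRegularKineticSolution Φ β T f₀ f) (x v : Space3) :
    ContinuousOn (fun t => fE T f t x v) (Icc 0 T) := by
  have h1 : ContinuousOn (fun t => f t (x, v)) (Icc 0 T) :=
    hf.continuous.comp (f := fun t => (t, (x, v))) (by fun_prop) (fun t ht => ⟨ht, mem_univ _⟩)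
  have h2 : ContinuousOn (fun t => ENNReal.ofReal (f t (x, v))) (Icc 0 T) :=
    ENNReal.continuous_ofReal.comp_continuousOn h1
  exact h2.congr fun t ht => fE_of_mem ht x v

theorem mass_fE (hf : IsRegularKineticSolution Φ β T f₀ f) {t : ℝ} (ht : t ∈ Icc 0 T) :
    ∫⁻ z : Space3 × Space3, fE T f t z.1 z.2 = 1 := by
  have h1 : ∫⁻ z : Space3 × Space3, fE T f t z.1 z.2 = ∫⁻ z, ENNReal.ofReal (f t z) :=
    lintegral_congr fun z => fE_of_mem ht z.1 z.2
  rw [h1, ← ofReal_integral_eq_lintegral_ofReal (hf.density t ht).1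
    (Filter.Eventually.of_forall fun z => hf.nonneg t ht z), (hf.density t ht).2,
    ENNReal.ofReal_one]

/-- **T4.** Uniform mass tightness of the number of collisions. -/
theorem series_mass_tight (hβ : 0 < β) (hT : 0 < T) (hΦ : AdmissiblePotential Φ)
    (hf : IsRegularKineticSolution Φ β T f₀ f) {δ : ℝ≥0∞} (hδ : 0 < δ) :
    ∃ K : ℕ, ∀ L, K ≤ L → ∀ t ∈ Icc 0 T, ∫⁻ z : Space3 × Space3, TR Φ T f L t z.1 z.2 ≤ δ := by
  obtain ⟨C0, hC0, hb⟩ := exists_bound hT hf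
  obtain ⟨K, hK⟩ := mass_tight hβ hT hC0 (C1G_nonneg β)
    (kernelBound_kapQ (Scat818.scatFacts hΦ) hβ) damp_le_one (meas4_damp hf) (meas3_fE hf)
    (fun t _ x v => hb t x v) (isMild hβ hT hΦ hf) volume ENNReal.one_ne_top
    (fE_continuousOn hf) (fun t ht => mass_fE hf ht) hδ
  refine ⟨K, fun L hL t ht => le_trans (lintegral_mono fun z => ?_) (hK t ht)⟩
  exact RK_anti _ _ _ hL _ _ _

/-- Lower bound for the mass of the truncated series. -/
theorem mass_TS_ge (hβ : 0 < β) (hT : 0 < T) (hΦ : AdmissiblePotential Φ)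
    (hf : IsRegularKineticSolution Φ β T f₀ f) {δ : ℝ≥0∞} (hδ : 0 < δ) :
    ∃ K : ℕ, ∀ L, K ≤ L → ∀ t ∈ Icc 0 T,
      1 ≤ (∫⁻ z : Space3 × Space3, TS Φ T f L t z.1 z.2) + δ := by
  obtain ⟨K, hK⟩ := series_mass_tight hβ hT hΦ hf hδ
  refine ⟨K, fun L hL t ht => ?_⟩
  have hm : Measurable fun z : Space3 × Space3 => TS Φ T f L t z.1 z.2 :=
    (meas_TS hf L).comp (f := fun p : Space3 × Space3 => (t, p.1, p.2)) (by fun_prop)
  have h1 : (∫⁻ z : Space3 × Space3, TS Φ T f L t z.1 z.2) +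
      ∫⁻ z : Space3 × Space3, TR Φ T f L t z.1 z.2 = 1 := by
    rw [← lintegral_add_left hm, ← mass_fE hf ht]
    refine lintegral_congr fun z => ?_
    rw [TS_add_TR hβ hT hΦ hf L ht, fE_of_mem ht]
  rw [← h1]
  exact add_le_add le_rfl (hK L hL t ht)

/-- **Time shift**: a regular solution restarted at time `t₁`. -/
theorem shift (hf : IsRegularKineticSolution Φ β T f₀ f) {t₁ : ℝ} (h0 : 0 ≤ t₁) (h1 : t₁ < T) :
    IsRegularKineticSolution Φ β (T - t₁) (f t₁) (fun t => f (t₁ + t)) := by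
  have hmem : ∀ t ∈ Icc 0 (T - t₁), t₁ + t ∈ Icc 0 T := fun t ht =>
    ⟨by linarith [ht.1], by linarith [ht.2]⟩
  refine ⟨by simp, fun t ht z => hf.nonneg _ (hmem t ht) z, fun t ht => hf.density _ (hmem t ht),
    ?_, fun v => ?_, fun t ht x v => ?_, ?_⟩
  · exact hf.continuous.comp (f := fun p : ℝ × PhasePoint => (t₁ + p.1, p.2)) (by fun_prop)
      (fun p hp => ⟨hmem _ hp.1, mem_univ _⟩)
  · exact (hf.contDiff v).comp (f := fun p : ℝ × Space3 => (t₁ + p.1, p.2))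
      (by fun_prop) (fun p hp => ⟨hmem _ hp.1, mem_univ _⟩)
  · rw [← hf.boltzmann _ (hmem t ht) x v]
    congr 1
    have hd : DifferentiableWithinAt ℝ (fun s => f s (x, v)) (Icc 0 T) (t₁ + t) := by
      have h2 := (hf.contDiff v).differentiableOn one_ne_zero (t₁ + t, x) ⟨hmem t ht, mem_univ _⟩
      exact h2.comp (f := fun s : ℝ => (s, x)) (t₁ + t) (by fun_prop)
        (fun s hs => ⟨hs, mem_univ _⟩)
    have hu : UniqueDiffWithinAt ℝ (Icc 0 (T - t₁)) t :=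
      uniqueDiffOn_Icc (by linarith) t ht
    have h3 : HasDerivWithinAt (fun s => f s (x, v)) (derivWithin (fun s => f s (x, v))
      (Icc 0 T) (t₁ + t)) (Icc 0 T) (t₁ + t) := hd.hasDerivWithinAt
    have h4 : HasDerivWithinAt (fun s : ℝ => t₁ + s) 1 (Icc 0 (T - t₁)) t :=
      ((hasDerivAt_id t).const_add t₁).hasDerivWithinAt
    have h5 := h3.scomp t h4 (fun s hs => hmem s hs)
    simp only [one_smul] at h5
    exact h5.derivWithin hu
  · obtain ⟨C, hC⟩ := hf.gaussian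
    exact ⟨C, fun t ht x v => hC _ (hmem t ht) x v⟩

/-- **T5.** Short windows (Lanford): window length and bound do not depend on the starting time
`t₁` nor on the damping. -/
theorem window_bound (hβ : 0 < β) (hT : 0 < T) (hΦ : AdmissiblePotential Φ)
    (hf : IsRegularKineticSolution Φ β T f₀ f) {lam : ℝ} (hlam : 0 ≤ lam) :
    ∃ h₀ C : ℝ, 0 < h₀ ∧ 0 ≤ C ∧ ∀ t₁ ∈ Icc 0 T, ∀ h, 0 < h → h ≤ h₀ →
      ∀ {D : ℝ → ℝ → Space3 → Space3 → ℝ≥0∞}, (∀ s t x v, D s t x v ≤ 1) → Meas4 D →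
      ∀ t ∈ Icc 0 h, ∀ x v, ∑' τ : CTree, ENNReal.ofReal lam ^ τ.size *
        F (kapQ Φ) D (fE T f t₁) τ t x v ≤ ENNReal.ofReal C * wG β v := by
  obtain ⟨C0, hC0, hb⟩ := exists_bound hT hf
  obtain ⟨T0, hT0, H⟩ := exists_lanford hβ hC0 (C1G_nonneg β)
    (kernelBound_kapQ (Scat818.scatFacts hΦ) hβ) hlam
  refine ⟨T0, 6 * C0, hT0, by positivity, fun t₁ ht₁ h hh hle D hD1 hD t ht x v => ?_⟩
  refine H h hh hle hD1 hD ?_ (fun x v => hb t₁ x v) t ht x v
  exact (meas3_fE hf).comp (f := fun p : Space3 × Space3 => (t₁, p.1, p.2)) (by fun_prop)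

end Crest.Agent.R122.Kin796
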