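import Crest.Agent.R122.BoltzSeg_814
import Crest.Agent.R122.KinMain_796

/-!
Row 122 (helper814): kinetic bounds for the quenched densities (Q2).

* `window_moment` (K1): exponential moment of the tree series of the solution with the damping
  restricted to the times before `tw`, on `[0, tw + h₀]`, uniformly in `tw`.
* `straight_moment` (K2): the same for `FS` (no damping on the straight line of the root).
-/

set_option autoImplicit false
set_option linter.unusedSectionVars false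
open MeasureTheory ProbabilityTheory Set
open Crest.AnalysisR.Kinetic
open Crest.Agent.R122.Boltz814 Crest.Agent.R122.Kin416 Crest.Agent.R122.Kin796
  Crest.Agent.R122.Disc416
open scoped ENNReal

noncomputable section

namespace Crest.Agent.R122.Seg814

variable {Φ : Space3 → ℝ} {β T : ℝ} {f₀ : PhasePoint → ℝ} {f : ℝ → PhasePoint → ℝ}

/-! ### The kernel on the diagonals -/

/-- common computation -/
theorem lintegral_kapQ_le_of (S : ScatFacts Φ) {γ : ℝ} (v : Space3)
    {F : Space3 × Space3 → ℝ≥0∞} (hF : Measurable F)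
    (h : ∀ w b, v ≠ w → F (postVelocities Φ b v w) ≤ gau γ w) :
    ∫⁻ p, F p ∂(kapQ Φ v) ≤ CG γ * ENNReal.ofReal (1 + ‖v‖) := by
  rw [lintegral_kapQ S v hF]
  refine le_trans ?_ (nuE_gau_le γ v)
  unfold nuE
  rw [← lintegral_const_mul' _ _ ENNReal.ofReal_ne_top]
  refine lintegral_mono fun w => ?_
  show ENNReal.ofReal ‖v - w‖ * ∫⁻ b in impactDisc (v - w), F (postVelocities Φ b v w) ∂μHE[2] ≤
    ENNReal.ofReal Real.pi * (ENNReal.ofReal ‖v - w‖ * gau γ w)
  by_cases hvw : v = w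
  · rw [hvw, sub_self, norm_zero, ENNReal.ofReal_zero, zero_mul]
    exact bot_le
  · have hg : v - w ≠ 0 := sub_ne_zero.2 hvw
    calc ENNReal.ofReal ‖v - w‖ * ∫⁻ b in impactDisc (v - w), F (postVelocities Φ b v w) ∂μHE[2]
        ≤ ENNReal.ofReal ‖v - w‖ * ∫⁻ _ in impactDisc (v - w), gau γ w ∂μHE[2] :=
          mul_le_mul' le_rfl (lintegral_mono fun b => h w b hvw)
      _ = ENNReal.ofReal Real.pi * (ENNReal.ofReal ‖v - w‖ * gau γ w) := by
          rw [lintegral_const, Measure.restrict_apply_univ, measure_impactDisc hg]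
          ring

theorem kapQ_fst_le (S : ScatFacts Φ) (γ : ℝ) (v : Space3) :
    ∫⁻ p in {p : Space3 × Space3 | p.1 = v}, wG γ p.2 ∂(kapQ Φ v) ≤
      CG γ * ENNReal.ofReal (1 + ‖v‖) := by
  have hm1 : MeasurableSet {p : Space3 × Space3 | p.1 = v} :=
    measurableSet_eq_fun measurable_fst measurable_const
  have hw : Measurable fun p : Space3 × Space3 => wG γ p.2 := (meas_wG γ).comp measurable_snd
  rw [← lintegral_indicator hm1]
  refine lintegral_kapQ_le_of S v (hw.indicator hm1) fun w b _ => ?_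
  by_cases hp : postVelocities Φ b v w ∈ {p : Space3 × Space3 | p.1 = v}
  · rw [indicator_of_mem hp, wG_eq_gau]
    have h1 := momentum_post (Φ := Φ) b v w
    have h2 : (postVelocities Φ b v w).1 = v := hp
    rw [h2] at h1
    have h3 : (postVelocities Φ b v w).2 = w := add_left_cancel h1
    exact le_of_eq (by rw [h3])
  · rw [indicator_of_notMem hp]; exact bot_le

theorem kapQ_snd_le (S : ScatFacts Φ) (γ : ℝ) (v : Space3) :
    ∫⁻ p in {p : Space3 × Space3 | p.2 = v}, wG γ p.1 ∂(kapQ Φ v) ≤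
      CG γ * ENNReal.ofReal (1 + ‖v‖) := by
  have hm1 : MeasurableSet {p : Space3 × Space3 | p.2 = v} :=
    measurableSet_eq_fun measurable_snd measurable_const
  have hw : Measurable fun p : Space3 × Space3 => wG γ p.1 := (meas_wG γ).comp measurable_fst
  rw [← lintegral_indicator hm1]
  refine lintegral_kapQ_le_of S v (hw.indicator hm1) fun w b _ => ?_
  by_cases hp : postVelocities Φ b v w ∈ {p : Space3 × Space3 | p.2 = v}
  · rw [indicator_of_mem hp, wG_eq_gau]
    have h1 := momentum_post (Φ := Φ) b v w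
    have h2 : (postVelocities Φ b v w).2 = v := hp
    rw [h2, add_comm v w] at h1
    have h3 : (postVelocities Φ b v w).1 = w := add_right_cancel h1
    exact le_of_eq (by rw [h3])
  · rw [indicator_of_notMem hp]; exact bot_le

theorem kapQ_diag (S : ScatFacts Φ) (v : Space3) :
    kapQ Φ v {p : Space3 × Space3 | p.1 = v ∧ p.2 = v} = 0 := by
  have hm : MeasurableSet {p : Space3 × Space3 | p.1 = v ∧ p.2 = v} :=
    (measurableSet_eq_fun measurable_fst measurable_const).inter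
      (measurableSet_eq_fun measurable_snd measurable_const)
  rw [← lintegral_indicator_one hm, lintegral_kapQ S v (measurable_one.indicator hm)]
  have h0 : ∀ w : Space3, ENNReal.ofReal ‖v - w‖ * ∫⁻ b in impactDisc (v - w),
      {p : Space3 × Space3 | p.1 = v ∧ p.2 = v}.indicator 1 (postVelocities Φ b v w) ∂μHE[2] =
        0 := by
    intro w
    by_cases hvw : v = w
    · rw [hvw, sub_self, norm_zero, ENNReal.ofReal_zero, zero_mul]
    · have h1 : ∀ b : Space3, {p : Space3 × Space3 | p.1 = v ∧ p.2 = v}.indicator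
          (1 : Space3 × Space3 → ℝ≥0∞) (postVelocities Φ b v w) = 0 := by
        intro b
        refine indicator_of_notMem ?_ _
        rintro ⟨h1, h2⟩
        have h3 := momentum_post (Φ := Φ) b v w
        rw [h1, h2] at h3
        exact hvw (add_left_cancel h3)
      simp only [h1, lintegral_zero, mul_zero]
  simp only [h0, lintegral_zero]

/-! ### (K1) -/

/-- **(K1)** Exponential moment with the damping restricted to `[0, tw]`, on `[0, tw + h₀]`. -/
theorem window_moment (hβ : 0 < β) (hT : 0 < T) (hΦ : AdmissiblePotential Φ)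
    (hf : IsRegularKineticSolution Φ β T f₀ f) :
    ∃ h₀ lam C : ℝ, 0 < h₀ ∧ 1 < lam ∧ 0 ≤ C ∧ ∀ tw ∈ Icc 0 T, ∀ t ∈ Icc 0 (tw + h₀), ∀ x v,
      ∑' τ : CTree, ENNReal.ofReal lam ^ τ.size *
        F (kapQ Φ) (Dwin (damp T f) tw) (fE T f 0) τ t x v ≤ ENNReal.ofReal C * wG (β / 2) v := by
  have S := Scat818.scatFacts hΦ
  obtain ⟨lam, C, hlam, hC, H⟩ := series_exp_moment hβ hT hΦ hf
  have hβ2 : 0 < β / 2 := by positivity
  obtain ⟨h₀, hh₀, H2⟩ := exists_window_moment (κ := kapQ Φ) (β := β / 2) (C0 := C)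
    (C1 := C1G (β / 2)) hβ2 hC (C1G_nonneg _) (kernelBound_kapQ S hβ2) (lam := lam) (by linarith)
  refine ⟨h₀, lam, 6 * C, hh₀, hlam, by positivity, fun tw htw t ht x v => ?_⟩
  refine H2 damp_le_one (meas4_damp hf) (meas_fE_zero hf) (fun t ht x v => ?_) tw htw t ht x v
  rw [show 2 * (β / 2) = β by ring]
  exact H t ht x v

/-! ### (K2) -/

/-- Gaussian absorption of the exponential factor. -/
theorem absorb {γ M0 M a : ℝ} (hγ : 0 < γ) (hM0 : 0 ≤ M0) (hM : 0 ≤ M) (_ha : 0 ≤ a) {r : ℝ}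
    (hr : 0 ≤ r) : (M0 * Real.exp (-(γ * r ^ 2)) + M * ((1 + r) * Real.exp (-(γ * r ^ 2)))) *
      Real.exp (a * (1 + r)) ≤
      (M0 + M) * Real.exp (a + (1 + a) ^ 2 / (2 * γ)) * Real.exp (-(γ / 2 * r ^ 2)) := by
  have h1 : 1 + r ≤ Real.exp r := by linarith [Real.add_one_le_exp r]
  have h0 : 1 ≤ Real.exp r := Real.one_le_exp hr
  have he := Real.exp_pos (-(γ * r ^ 2))
  have h2 : M0 * Real.exp (-(γ * r ^ 2)) + M * ((1 + r) * Real.exp (-(γ * r ^ 2))) ≤
      (M0 + M) * (Real.exp r * Real.exp (-(γ * r ^ 2))) := by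
    have e1 : M0 * Real.exp (-(γ * r ^ 2)) ≤ M0 * (Real.exp r * Real.exp (-(γ * r ^ 2))) :=
      mul_le_mul_of_nonneg_left (le_mul_of_one_le_left he.le h0) hM0
    have e2 : M * ((1 + r) * Real.exp (-(γ * r ^ 2))) ≤
        M * (Real.exp r * Real.exp (-(γ * r ^ 2))) :=
      mul_le_mul_of_nonneg_left (mul_le_mul_of_nonneg_right h1 he.le) hM
    linarith
  refine (mul_le_mul_of_nonneg_right h2 (Real.exp_pos _).le).trans ?_
  rw [mul_assoc, mul_assoc, mul_assoc, ← Real.exp_add, ← Real.exp_add, ← Real.exp_add]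
  refine mul_le_mul_of_nonneg_left (Real.exp_le_exp.2 ?_) (by positivity)
  have h3 : (1 + a) * r ≤ γ / 2 * r ^ 2 + (1 + a) ^ 2 / (2 * γ) := by
    have h4 : 0 ≤ (γ * r - (1 + a)) ^ 2 / (2 * γ) := by positivity
    have h5 : (γ * r - (1 + a)) ^ 2 / (2 * γ) =
        γ / 2 * r ^ 2 + (1 + a) ^ 2 / (2 * γ) - (1 + a) * r := by
      field_simp; ring
    linarith
  nlinarith

/-- **(K2)** Exponential moment of the tree densities without damping on the straight line of the
root, damping of the other legs restricted to `[0, tw]`, on `[0, tw + h₀]`. -/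
theorem straight_moment (hβ : 0 < β) (hT : 0 < T) (hΦ : AdmissiblePotential Φ)
    (hf : IsRegularKineticSolution Φ β T f₀ f) :
    ∃ h₀ lam C : ℝ, 0 < h₀ ∧ 1 < lam ∧ 0 ≤ C ∧ ∀ tw ∈ Icc 0 T, ∀ t ∈ Icc 0 (tw + h₀), ∀ x v,
      ∑' τ : CTree, ENNReal.ofReal lam ^ τ.size *
        FS (kapQ Φ) (Dwin (damp T f) tw) (fE T f 0) τ t x v ≤ ENNReal.ofReal C * wG (β / 4) v := by
  have S := Scat818.scatFacts hΦ
  obtain ⟨h₀, lam, C, hh₀, hlam, hC, H⟩ := window_moment hβ hT hΦ hf
  obtain ⟨C0, hC0, hb⟩ := exists_bound hT hf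
  have hβ2 : 0 < β / 2 := by positivity
  have hlam0 : 0 ≤ lam := by linarith
  set C2 : ℝ := (CG (β / 2)).toReal with hC2
  have hC20 : 0 ≤ C2 := ENNReal.toReal_nonneg
  have hCG : CG (β / 2) = ENNReal.ofReal C2 := (ENNReal.ofReal_toReal (CG_lt_top hβ2).ne).symm
  set T' : ℝ := T + h₀ with hT'
  have hT'0 : 0 ≤ T' := by positivity
  set M : ℝ := T' * (lam * (C ^ 2 * C1G (β / 2))) with hM
  have hM0 : 0 ≤ M := by have := C1G_nonneg (β / 2); positivity
  set a : ℝ := 2 * lam * C * C2 * T' with ha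
  have ha0 : 0 ≤ a := by positivity
  refine ⟨h₀, lam, (C0 + M) * Real.exp (a + (1 + a) ^ 2 / (2 * (β / 2))), hh₀, hlam, by positivity,
    fun tw htw t ht x v => ?_⟩
  have ht' : t ∈ Icc 0 (tw + h₀) := ht
  have hsum : ∀ n : ℕ, ∑ τ ∈ CTree.lt n, ENNReal.ofReal lam ^ τ.size *
      FS (kapQ Φ) (Dwin (damp T f) tw) (fE T f 0) τ t x v ≤
      ENNReal.ofReal (sA (β / 2) C C0 (C1G (β / 2)) lam (tw + h₀) v *
        Real.exp (sa C C2 lam v * t)) := by
    intro n
    refine FS_sum_le (κ := kapQ Φ) (T := tw + h₀) hC hC0 (C1G_nonneg _) hC20 hlam0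
      (by linarith [htw.1]) ?_ ?_ ?_ (kapQ_diag S) (fun t ht x v => H tw htw t ht x v) ?_ n t ht' x v
    · exact fun v => kernelBound_kapQ S hβ2 (β / 2) ⟨le_rfl, by linarith⟩ v
    · intro v
      refine (kapQ_fst_le S (β / 2) v).trans (le_of_eq ?_)
      rw [hCG, ENNReal.ofReal_mul hC20]
    · intro v
      refine (kapQ_snd_le S (β / 2) v).trans (le_of_eq ?_)
      rw [hCG, ENNReal.ofReal_mul hC20]
    · intro x v
      exact (hb 0 x v).trans (mul_le_mul' le_rfl (wG_anti (by linarith) v))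
  rw [ENNReal.tsum_eq_iSup_sum' CTree.lt CTree.exists_subset_lt]
  refine iSup_le fun n => (hsum n).trans ?_
  unfold wG
  rw [← ENNReal.ofReal_mul (by positivity)]
  refine ENNReal.ofReal_le_ofReal ?_
  have hv := norm_nonneg v
  have h1 : sA (β / 2) C C0 (C1G (β / 2)) lam (tw + h₀) v ≤
      C0 * Real.exp (-(β / 2 * ‖v‖ ^ 2)) + M * ((1 + ‖v‖) * Real.exp (-(β / 2 * ‖v‖ ^ 2))) := by
    unfold sA
    have h2 : (tw + h₀) * (lam * (C ^ 2 * (C1G (β / 2) * ((1 + ‖v‖) *
        Real.exp (-(β / 2 * ‖v‖ ^ 2)))))) ≤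
        T' * (lam * (C ^ 2 * (C1G (β / 2) * ((1 + ‖v‖) * Real.exp (-(β / 2 * ‖v‖ ^ 2)))))) := by
      refine mul_le_mul_of_nonneg_right (by linarith [htw.2]) ?_
      have := C1G_nonneg (β / 2)
      positivity
    have h3 : T' * (lam * (C ^ 2 * (C1G (β / 2) * ((1 + ‖v‖) * Real.exp (-(β / 2 * ‖v‖ ^ 2)))))) =
        M * ((1 + ‖v‖) * Real.exp (-(β / 2 * ‖v‖ ^ 2))) := by rw [hM]; ring
    linarith
  have h4 : Real.exp (sa C C2 lam v * t) ≤ Real.exp (a * (1 + ‖v‖)) := by
    refine Real.exp_le_exp.2 ?_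
    have h5 : t ≤ T' := ht.2.trans (by linarith [htw.2])
    have h6 : sa C C2 lam v * t ≤ sa C C2 lam v * T' :=
      mul_le_mul_of_nonneg_left h5 (sa_nonneg hC hC20 hlam0 v)
    refine h6.trans (le_of_eq ?_)
    unfold sa
    rw [ha]; ring
  refine (mul_le_mul h1 h4 (Real.exp_pos _).le (by positivity)).trans ?_
  refine (absorb hβ2 hC0 hM0 ha0 hv).trans (le_of_eq ?_)
  rw [show β / 2 / 2 = β / 4 by ring]

/-- Tail form of (K2): trees with at least `m` collisions. -/
theorem straight_tail (hβ : 0 < β) (hT : 0 < T) (hΦ : AdmissiblePotential Φ)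
    (hf : IsRegularKineticSolution Φ β T f₀ f) :
    ∃ h₀ r C : ℝ, 0 < h₀ ∧ 0 < r ∧ r < 1 ∧ 0 ≤ C ∧ ∀ tw ∈ Icc 0 T, ∀ t ∈ Icc 0 (tw + h₀),
      ∀ x v, ∀ m : ℕ, ∑' τ : CTree, (if m ≤ τ.size then
        FS (kapQ Φ) (Dwin (damp T f) tw) (fE T f 0) τ t x v else 0) ≤
          ENNReal.ofReal (r ^ m * C) * wG (β / 4) v := by
  obtain ⟨h₀, lam, C, hh₀, hlam, hC, H⟩ := straight_moment hβ hT hΦ hf
  have hlam0 : 0 < lam := by linarith
  refine ⟨h₀, lam⁻¹, C, hh₀, by positivity, inv_lt_one_of_one_lt₀ hlam, hC,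
    fun tw htw t ht x v m => ?_⟩
  have h1 : ∀ τ : CTree, (if m ≤ τ.size then
      FS (kapQ Φ) (Dwin (damp T f) tw) (fE T f 0) τ t x v else 0) ≤
      ENNReal.ofReal (lam⁻¹ ^ m) * (ENNReal.ofReal lam ^ τ.size *
        FS (kapQ Φ) (Dwin (damp T f) tw) (fE T f 0) τ t x v) := by
    intro τ
    split_ifs with h
    · rw [← mul_assoc, ← ENNReal.ofReal_pow hlam0.le, ← ENNReal.ofReal_mul (by positivity)]
      refine le_mul_of_one_le_left bot_le ?_
      rw [← ENNReal.ofReal_one]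
      refine ENNReal.ofReal_le_ofReal ?_
      rw [inv_pow, inv_mul_eq_div, one_le_div (by positivity)]
      exact pow_le_pow_right₀ hlam.le h
    · exact bot_le
  refine (ENNReal.tsum_le_tsum h1).trans ?_
  rw [ENNReal.tsum_mul_left, ENNReal.ofReal_mul (by positivity), mul_assoc]
  exact mul_le_mul' le_rfl (H tw htw t ht x v)

end Crest.Agent.R122.Seg814
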