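import Crest.Agent.R122.KinC_796

/-!
Row 122 (helper814): window damping and undamped straight segments, abstract part.

* `Dwin D tw` : the damping `D` restricted to the times before `tw`.
* `exists_window_moment` : the exponential moment of the tree series damped by `Dwin D tw` stays
  bounded on `[0, tw + h₀]`, `h₀` uniform in `tw`.
* `FS` : tree weights with no damping on the straight line of the root (root leg and all legs
  attached to it through nodes where an incoming velocity is equal to the outgoing velocity `v`).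
* `FS_moment_le` : exponential moment of `FS`.
-/

set_option autoImplicit false
set_option linter.unusedSectionVars false
open MeasureTheory ProbabilityTheory Set
open scoped Classical ENNReal

noncomputable section

namespace Crest.Agent.R122.Seg814

open Kin796 Kin796.CTree

variable {E : Type*} [NormedAddCommGroup E] [NormedSpace ℝ E] [MeasurableSpace E] [BorelSpace E]
  [SecondCountableTopology E]

/-! ### Window damping -/

/-- The damping `D` restricted to the times before `tw`. -/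
def Dwin (D : ℝ → ℝ → E → E → ℝ≥0∞) (tw : ℝ) (s t : ℝ) (x v : E) : ℝ≥0∞ :=
  D (min s tw) (min t tw) (x - (t - min t tw) • v) v

theorem Dwin_le_one {D : ℝ → ℝ → E → E → ℝ≥0∞} (hD1 : ∀ s t x v, D s t x v ≤ 1) (tw s t : ℝ)
    (x v : E) : Dwin D tw s t x v ≤ 1 := hD1 _ _ _ _

theorem meas4_Dwin {D : ℝ → ℝ → E → E → ℝ≥0∞} (hD : Meas4 D) (tw : ℝ) : Meas4 (Dwin D tw) := by
  have h1 : Measurable fun p : ℝ × ℝ × E × E => ((min p.1 tw, min p.2.1 tw,
      p.2.2.1 - (p.2.1 - min p.2.1 tw) • p.2.2.2, p.2.2.2) : ℝ × ℝ × E × E) := by fun_prop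
  have h2 := Measurable.comp hD h1
  exact h2

theorem Dwin_eq {D : ℝ → ℝ → E → E → ℝ≥0∞} {tw s t : ℝ} (hs : s ≤ t) (ht : t ≤ tw) (x v : E) :
    Dwin D tw s t x v = D s t x v := by
  unfold Dwin
  rw [min_eq_left (hs.trans ht), min_eq_left ht, sub_self, zero_smul, sub_zero]

theorem Dwin_add {D : ℝ → ℝ → E → E → ℝ≥0∞} {tw s τ : ℝ} (hs : s ≤ tw) (hτ : 0 ≤ τ) (x v : E) :
    Dwin D tw s (tw + τ) x v = D s tw (x - τ • v) v := by
  unfold Dwin
  rw [min_eq_left hs, min_eq_right (by linarith : tw ≤ tw + τ)]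
  congr 2
  rw [add_sub_cancel_left]

theorem P_congr (κ : Kernel E (E × E)) {D D' : ℝ → ℝ → E → E → ℝ≥0∞} {f0 : E → E → ℝ≥0∞}
    {lam : ℝ≥0∞} {tw : ℝ}
    (h : ∀ s t, 0 ≤ s → s ≤ t → t ≤ tw → ∀ x v, D s t x v = D' s t x v) (n : ℕ) {t : ℝ}
    (ht : t ∈ Icc 0 tw) (x v : E) : P κ D f0 lam n t x v = P κ D' f0 lam n t x v := by
  induction n generalizing t x v with
  | zero => rfl
  | succ n ih =>
    show D 0 t x v * f0 (x - t • v) v + (∫⁻ s in Ioc 0 t, D s t x v *
      (lam * Q κ (P κ D f0 lam n s (x - (t - s) • v)) (P κ D f0 lam n s (x - (t - s) • v)) v)) =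
      D' 0 t x v * f0 (x - t • v) v + ∫⁻ s in Ioc 0 t, D' s t x v *
      (lam * Q κ (P κ D' f0 lam n s (x - (t - s) • v)) (P κ D' f0 lam n s (x - (t - s) • v)) v)
    rw [h 0 t le_rfl ht.1 ht.2]
    congr 1
    refine setLIntegral_congr_fun measurableSet_Ioc fun s hs => ?_
    have hs' : s ∈ Icc 0 tw := ⟨hs.1.le, hs.2.trans ht.2⟩
    have h1 : P κ D f0 lam n s (x - (t - s) • v) = P κ D' f0 lam n s (x - (t - s) • v) :=
      funext fun u => ih hs' _ u
    show D s t x v * _ = D' s t x v * _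
    rw [h s t hs.1.le hs.2 ht.2, h1]

theorem lintegral_Ioc_shift (g : ℝ → ℝ≥0∞) (a τ : ℝ) :
    ∫⁻ s in Ioc a (a + τ), g s = ∫⁻ s in Ioc 0 τ, g (a + s) := by
  rw [← lintegral_indicator measurableSet_Ioc, ← lintegral_indicator measurableSet_Ioc,
    ← lintegral_add_left_eq_self _ a]
  refine lintegral_congr fun s => ?_
  by_cases h : s ∈ Ioc 0 τ
  · rw [indicator_of_mem h, indicator_of_mem]
    exact ⟨by linarith [h.1], by linarith [h.2]⟩
  · rw [indicator_of_notMem h, indicator_of_notMem]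
    intro h'
    exact h ⟨by linarith [h'.1], by linarith [h'.2]⟩

/-- Restart of the Picard iteration at the beginning of the window. -/
theorem P_window_le (κ : Kernel E (E × E)) {D : ℝ → ℝ → E → E → ℝ≥0∞}
    (hD1 : ∀ s t x v, D s t x v ≤ 1) {f0 : E → E → ℝ≥0∞} {lam : ℝ≥0∞} {tw : ℝ} (htw : 0 ≤ tw)
    {G : E → E → ℝ≥0∞} (hG : ∀ n x v, P κ D f0 lam n tw x v ≤ G x v) (n : ℕ) {τ : ℝ}
    (hτ : 0 ≤ τ) (x v : E) :
    P κ (Dwin D tw) f0 lam n (tw + τ) x v ≤ P κ (fun _ _ _ _ => 1) G lam n τ x v := by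
  induction n generalizing τ x v with
  | zero => exact bot_le
  | succ n ih =>
    have hsplit : Ioc 0 (tw + τ) = Ioc 0 tw ∪ Ioc tw (tw + τ) :=
      (Ioc_union_Ioc_eq_Ioc htw (by linarith)).symm
    have hdisj : Disjoint (Ioc 0 tw) (Ioc tw (tw + τ)) := Ioc_disjoint_Ioc_of_le le_rfl
    show Dwin D tw 0 (tw + τ) x v * f0 (x - (tw + τ) • v) v + (∫⁻ s in Ioc 0 (tw + τ),
      Dwin D tw s (tw + τ) x v * (lam * Q κ (P κ (Dwin D tw) f0 lam n s (x - (tw + τ - s) • v))
        (P κ (Dwin D tw) f0 lam n s (x - (tw + τ - s) • v)) v)) ≤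
      1 * G (x - τ • v) v + ∫⁻ s in Ioc 0 τ, 1 * (lam *
        Q κ (P κ (fun _ _ _ _ => 1) G lam n s (x - (τ - s) • v))
          (P κ (fun _ _ _ _ => 1) G lam n s (x - (τ - s) • v)) v)
    rw [hsplit, lintegral_union measurableSet_Ioc hdisj, ← add_assoc]
    refine add_le_add ?_ ?_
    · rw [one_mul]
      refine le_trans (le_of_eq ?_) (hG (n + 1) (x - τ • v) v)
      show _ = D 0 tw (x - τ • v) v * f0 (x - τ • v - tw • v) v + ∫⁻ s in Ioc 0 tw,
        D s tw (x - τ • v) v * (lam * Q κ (P κ D f0 lam n s (x - τ • v - (tw - s) • v))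
          (P κ D f0 lam n s (x - τ • v - (tw - s) • v)) v)
      rw [Dwin_add htw hτ]
      congr 1
      · congr 2
        rw [add_smul]; abel
      · refine setLIntegral_congr_fun measurableSet_Ioc fun s hs => ?_
        have hx : x - (tw + τ - s) • v = x - τ • v - (tw - s) • v := by
          rw [sub_smul, sub_smul, add_smul]; abel
        have h1 : P κ (Dwin D tw) f0 lam n s (x - (tw + τ - s) • v) =
            P κ D f0 lam n s (x - τ • v - (tw - s) • v) := by
          rw [hx]
          exact funext fun u => P_congr κ (tw := tw) (fun s t _ h1 h2 x v => Dwin_eq h1 h2 x v) n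
            ⟨hs.1.le, hs.2⟩ _ u
        show Dwin D tw s (tw + τ) x v * _ = _
        rw [Dwin_add hs.2 hτ, h1]
    · rw [lintegral_Ioc_shift]
      refine setLIntegral_mono' measurableSet_Ioc fun s hs => ?_
      refine mul_le_mul' (Dwin_le_one hD1 _ _ _ _ _) (mul_le_mul' le_rfl ?_)
      have hx : x - (tw + τ - (tw + s)) • v = x - (τ - s) • v := by
        rw [add_sub_add_left_eq_sub]
      rw [hx]
      exact Q_mono κ (fun u => ih hs.1.le _ u) (fun u => ih hs.1.le _ u) v

/-- **Window moment.** -/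
theorem exists_window_moment {κ : Kernel E (E × E)} [IsSFiniteKernel κ] {β C0 C1 : ℝ}
    (hβ : 0 < β) (hC0 : 0 ≤ C0) (hC1 : 0 ≤ C1) (hκ : KernelBound κ β C1) {lam : ℝ}
    (hlam : 0 ≤ lam) : ∃ h₀ : ℝ, 0 < h₀ ∧ ∀ {T : ℝ} {D : ℝ → ℝ → E → E → ℝ≥0∞}
      {f0 : E → E → ℝ≥0∞}, (∀ s t x v, D s t x v ≤ 1) → Meas4 D →
      (Measurable fun p : E × E => f0 p.1 p.2) →
      (∀ t ∈ Icc 0 T, ∀ x v, ∑' τ : CTree, ENNReal.ofReal lam ^ τ.size * F κ D f0 τ t x v ≤
        ENNReal.ofReal C0 * wG (2 * β) v) →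
      ∀ tw ∈ Icc 0 T, ∀ t ∈ Icc 0 (tw + h₀), ∀ x v,
        ∑' τ : CTree, ENNReal.ofReal lam ^ τ.size * F κ (Dwin D tw) f0 τ t x v ≤
          ENNReal.ofReal (6 * C0) * wG β v := by
  obtain ⟨h₀, hh₀, H⟩ := exists_lanford (κ := κ) hβ hC0 hC1 hκ hlam
  refine ⟨h₀, hh₀, fun {T D f0} hD1 hD hf0 hb tw htw t ht x v => ?_⟩
  rw [tsum_eq_iSup κ (meas4_Dwin hD tw) hf0]
  rcases le_total t tw with h | h
  · -- before the window
    have h1 : (⨆ n, P κ (Dwin D tw) f0 (ENNReal.ofReal lam) n t x v) =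
        ⨆ n, P κ D f0 (ENNReal.ofReal lam) n t x v := by
      refine iSup_congr fun n => ?_
      exact P_congr κ (tw := tw) (fun s t _ h1 h2 x v => Dwin_eq h1 h2 x v) n ⟨ht.1, h⟩ x v
    rw [h1, ← tsum_eq_iSup κ hD hf0]
    refine (hb t ⟨ht.1, h.trans htw.2⟩ x v).trans (mul_le_mul' (ENNReal.ofReal_le_ofReal ?_)
      (wG_anti (by linarith) v))
    linarith
  · -- in the window
    set G : E → E → ℝ≥0∞ := fun x v => ⨆ n, P κ D f0 (ENNReal.ofReal lam) n tw x v with hG
    have hGm : Measurable fun p : E × E => G p.1 p.2 := by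
      refine Measurable.iSup fun n => ?_
      have h1 := meas_P κ hD hf0 (ENNReal.ofReal lam) n
      have h2 : Measurable fun p : E × E => ((tw, p.1, p.2) : ℝ × E × E) := by fun_prop
      exact h1.comp h2
    have hGb : ∀ x v, G x v ≤ ENNReal.ofReal C0 * wG (2 * β) v := by
      intro x v
      have := hb tw htw x v
      rwa [tsum_eq_iSup κ hD hf0] at this
    have hone : Meas4 (fun (_ _ : ℝ) (_ _ : E) => (1 : ℝ≥0∞)) := measurable_const
    have h2 := H h₀ hh₀ le_rfl (D := fun _ _ _ _ => 1) (f0 := G) (fun _ _ _ _ => le_rfl)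
      hone hGm hGb (t - tw) ⟨by linarith, by linarith [ht.2]⟩ x v
    rw [tsum_eq_iSup κ hone hGm] at h2
    refine le_trans (iSup_mono fun n => ?_) h2
    have h3 := P_window_le κ hD1 (f0 := f0) (lam := ENNReal.ofReal lam) htw.1 (G := G)
      (fun n x v => le_iSup (fun n => P κ D f0 (ENNReal.ofReal lam) n tw x v) n) n
      (τ := t - tw) (by linarith) x v
    rwa [show tw + (t - tw) = t by ring] at h3

/-! ### Undamped straight segments -/

/-- Tree weights without damping on the straight line of the root. -/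
def FS (κ : Kernel E (E × E)) (D : ℝ → ℝ → E → E → ℝ≥0∞) (f0 : E → E → ℝ≥0∞) :
    CTree → ℝ → E → E → ℝ≥0∞
  | leaf => fun t x v => f0 (x - t • v) v
  | node l r => fun t x v => ∫⁻ s in Ioc 0 t, ∫⁻ p : E × E,
      (if p.1 = v then FS κ D f0 l s (x - (t - s) • v) p.1
        else F κ D f0 l s (x - (t - s) • v) p.1) *
      (if p.2 = v then FS κ D f0 r s (x - (t - s) • v) p.2
        else F κ D f0 r s (x - (t - s) • v) p.2) ∂(κ v)

/-- time integral of an exponential -/
theorem lintegral_exp_Ioc {a t : ℝ} (ha : 0 ≤ a) (ht : 0 ≤ t) :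
    ∫⁻ s in Ioc 0 t, ENNReal.ofReal (a * Real.exp (a * s)) =
      ENNReal.ofReal (Real.exp (a * t) - 1) := by
  have h1 : ∫ s in (0 : ℝ)..t, a * Real.exp (a * s) = Real.exp (a * t) - 1 := by
    have h2 : ∀ s ∈ uIcc 0 t, HasDerivAt (fun s : ℝ => Real.exp (a * s)) (a * Real.exp (a * s)) s := by
      intro s _
      have h3 : HasDerivAt (fun s : ℝ => a * s) (a * 1) s := (hasDerivAt_id s).const_mul a
      have h4 := h3.exp
      rw [mul_one, mul_comm] at h4
      exact h4
    rw [intervalIntegral.integral_eq_sub_of_hasDerivAt h2]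
    · simp
    · exact (by fun_prop : Continuous fun s : ℝ => a * Real.exp (a * s)).intervalIntegrable _ _
  rw [← h1, intervalIntegral.integral_of_le ht, ofReal_integral_eq_lintegral_ofReal]
  · exact ((by fun_prop : Continuous fun s : ℝ => a * Real.exp (a * s)).intervalIntegrable 0 t).1
  · exact Filter.Eventually.of_forall fun s => by positivity

section straight

variable {κ : Kernel E (E × E)} {D : ℝ → ℝ → E → E → ℝ≥0∞} {f0 : E → E → ℝ≥0∞}
  {γ C C0 C1 C2 lam T : ℝ}

/-- source majorant -/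
def sA (γ C C0 C1 lam T : ℝ) (v : E) : ℝ :=
  C0 * Real.exp (-(γ * ‖v‖ ^ 2)) + T * (lam * (C ^ 2 * (C1 * ((1 + ‖v‖) *
    Real.exp (-(γ * ‖v‖ ^ 2))))))

/-- rate on the straight line -/
def sa (C C2 lam : ℝ) (v : E) : ℝ := 2 * lam * C * C2 * (1 + ‖v‖)

theorem sA_nonneg (hC0 : 0 ≤ C0) (hC1 : 0 ≤ C1) (hlam : 0 ≤ lam) (hT : 0 ≤ T) (v : E) :
    0 ≤ sA γ C C0 C1 lam T v := by unfold sA; positivity

theorem sa_nonneg (hC : 0 ≤ C) (hC2 : 0 ≤ C2) (hlam : 0 ≤ lam) (v : E) :
    0 ≤ sa C C2 lam v := by unfold sa; positivity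

/-- The finite sums of `FS` are bounded. -/
theorem FS_sum_le (hC : 0 ≤ C) (hC0 : 0 ≤ C0) (hC1 : 0 ≤ C1) (hC2 : 0 ≤ C2) (hlam : 0 ≤ lam)
    (hT : 0 ≤ T)
    (hQ : ∀ v, Q κ (wG γ) (wG γ) v ≤
      ENNReal.ofReal (C1 * ((1 + ‖v‖) * Real.exp (-(γ * ‖v‖ ^ 2)))))
    (hS1 : ∀ v, ∫⁻ p in {p : E × E | p.1 = v}, wG γ p.2 ∂(κ v) ≤ ENNReal.ofReal (C2 * (1 + ‖v‖)))
    (hS2 : ∀ v, ∫⁻ p in {p : E × E | p.2 = v}, wG γ p.1 ∂(κ v) ≤ ENNReal.ofReal (C2 * (1 + ‖v‖)))
    (hS3 : ∀ v, κ v {p : E × E | p.1 = v ∧ p.2 = v} = 0)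
    (hP : ∀ t ∈ Icc 0 T, ∀ x v, ∑' τ : CTree, ENNReal.ofReal lam ^ τ.size * F κ D f0 τ t x v ≤
      ENNReal.ofReal C * wG γ v)
    (hf0 : ∀ x v, f0 x v ≤ ENNReal.ofReal C0 * wG γ v) (n : ℕ) :
    ∀ t ∈ Icc 0 T, ∀ x v, ∑ τ ∈ CTree.lt n, ENNReal.ofReal lam ^ τ.size * FS κ D f0 τ t x v ≤
      ENNReal.ofReal (sA γ C C0 C1 lam T v * Real.exp (sa C C2 lam v * t)) := by
  induction n with
  | zero => intro t ht x v; simp [CTree.lt]
  | succ n ih =>
    intro t ht x v
    set L : ℝ≥0∞ := ENNReal.ofReal lam with hL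
    have hnot : leaf ∉ ((CTree.lt n ×ˢ CTree.lt n).image fun p => node p.1 p.2) := by simp
    have hinj : Set.InjOn (fun p : CTree × CTree => node p.1 p.2)
        (CTree.lt n ×ˢ CTree.lt n : Finset (CTree × CTree)) := by
      intro p _ q _ h
      simp only [node.injEq] at h
      exact Prod.ext h.1 h.2
    rw [CTree.lt, Finset.sum_insert hnot, Finset.sum_image hinj]
    -- the two factors
    set a : CTree → ℝ → E × E → ℝ≥0∞ := fun l s p =>
      if p.1 = v then FS κ D f0 l s (x - (t - s) • v) p.1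
        else F κ D f0 l s (x - (t - s) • v) p.1 with ha
    set b : CTree → ℝ → E × E → ℝ≥0∞ := fun r s p =>
      if p.2 = v then FS κ D f0 r s (x - (t - s) • v) p.2
        else F κ D f0 r s (x - (t - s) • v) p.2 with hb
    set B : ℝ → ℝ≥0∞ := fun s =>
      ENNReal.ofReal (sA γ C C0 C1 lam T v * Real.exp (sa C C2 lam v * s)) with hB
    have hasum : ∀ s ∈ Ioc 0 t, ∀ p : E × E, ∑ l ∈ CTree.lt n, L ^ l.size * a l s p ≤
        if p.1 = v then B s else ENNReal.ofReal C * wG γ p.1 := by
      intro s hs p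
      have hs' : s ∈ Icc 0 T := ⟨hs.1.le, hs.2.trans ht.2⟩
      by_cases h : p.1 = v
      · simp only [ha, h, if_true]
        exact ih s hs' _ v
      · simp only [ha, h, if_false]
        exact (ENNReal.sum_le_tsum _).trans (hP s hs' _ _)
    have hbsum : ∀ s ∈ Ioc 0 t, ∀ p : E × E, ∑ r ∈ CTree.lt n, L ^ r.size * b r s p ≤
        if p.2 = v then B s else ENNReal.ofReal C * wG γ p.2 := by
      intro s hs p
      have hs' : s ∈ Icc 0 T := ⟨hs.1.le, hs.2.trans ht.2⟩
      by_cases h : p.2 = v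
      · simp only [hb, h, if_true]
        exact ih s hs' _ v
      · simp only [hb, h, if_false]
        exact (ENNReal.sum_le_tsum _).trans (hP s hs' _ _)
    -- kernel integral of the product
    have hprod : ∀ s ∈ Ioc 0 t, ∫⁻ p, (∑ l ∈ CTree.lt n, L ^ l.size * a l s p) *
        (∑ r ∈ CTree.lt n, L ^ r.size * b r s p) ∂(κ v) ≤
        ENNReal.ofReal (C ^ 2 * (C1 * ((1 + ‖v‖) * Real.exp (-(γ * ‖v‖ ^ 2))))) +
          B s * ENNReal.ofReal (2 * C * C2 * (1 + ‖v‖)) := by
      intro s hs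
      have hae : ∀ᵐ p ∂(κ v), ¬ (p.1 = v ∧ p.2 = v) := by
        rw [ae_iff]
        simpa using hS3 v
      have hm1 : MeasurableSet {p : E × E | p.1 = v} :=
        measurableSet_eq_fun measurable_fst measurable_const
      have hm2 : MeasurableSet {p : E × E | p.2 = v} :=
        measurableSet_eq_fun measurable_snd measurable_const
      have hw1 : Measurable fun p : E × E => wG γ p.1 := (meas_wG γ).comp measurable_fst
      have hw2 : Measurable fun p : E × E => wG γ p.2 := (meas_wG γ).comp measurable_snd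
      calc ∫⁻ p, (∑ l ∈ CTree.lt n, L ^ l.size * a l s p) *
            (∑ r ∈ CTree.lt n, L ^ r.size * b r s p) ∂(κ v)
          ≤ ∫⁻ p, (ENNReal.ofReal C * ENNReal.ofReal C * (wG γ p.1 * wG γ p.2) +
              (B s * ENNReal.ofReal C * ({p : E × E | p.1 = v}.indicator (fun p => wG γ p.2) p) +
              B s * ENNReal.ofReal C * ({p : E × E | p.2 = v}.indicator (fun p => wG γ p.1) p)))
              ∂(κ v) := by
            refine lintegral_mono_ae ?_
            filter_upwards [hae] with p hp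
            refine (mul_le_mul' (hasum s hs p) (hbsum s hs p)).trans ?_
            by_cases h1 : p.1 = v
            · have h2 : ¬ p.2 = v := fun h => hp ⟨h1, h⟩
              rw [if_pos h1, if_neg h2, indicator_of_mem (show p ∈ {p : E × E | p.1 = v} from h1),
                indicator_of_notMem (show p ∉ {p : E × E | p.2 = v} from h2), mul_zero, add_zero,
                ← mul_assoc]
              exact le_add_self
            · rw [if_neg h1, indicator_of_notMem (show p ∉ {p : E × E | p.1 = v} from h1),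
                mul_zero, zero_add]
              by_cases h2 : p.2 = v
              · rw [if_pos h2, indicator_of_mem (show p ∈ {p : E × E | p.2 = v} from h2)]
                refine le_trans (le_of_eq ?_) le_add_self
                ring
              · rw [if_neg h2, indicator_of_notMem (show p ∉ {p : E × E | p.2 = v} from h2),
                  mul_zero, add_zero]
                exact le_of_eq (by ring)
        _ = ENNReal.ofReal C * ENNReal.ofReal C * Q κ (wG γ) (wG γ) v +
              (B s * ENNReal.ofReal C * ∫⁻ p in {p : E × E | p.1 = v}, wG γ p.2 ∂(κ v) +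
              B s * ENNReal.ofReal C * ∫⁻ p in {p : E × E | p.2 = v}, wG γ p.1 ∂(κ v)) := by
            have hw12 : Measurable fun p : E × E => wG γ p.1 * wG γ p.2 := hw1.mul hw2
            have hi1 : Measurable fun p : E × E =>
                {p : E × E | p.1 = v}.indicator (fun p => wG γ p.2) p := hw2.indicator hm1
            have hi2 : Measurable fun p : E × E =>
                {p : E × E | p.2 = v}.indicator (fun p => wG γ p.1) p := hw1.indicator hm2
            rw [lintegral_add_left (hw12.const_mul _), lintegral_add_left (hi1.const_mul _),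
              lintegral_const_mul _ hw12, lintegral_const_mul _ hi1, lintegral_const_mul _ hi2,
              lintegral_indicator hm1, lintegral_indicator hm2]
            rfl
        _ ≤ ENNReal.ofReal C * ENNReal.ofReal C *
              ENNReal.ofReal (C1 * ((1 + ‖v‖) * Real.exp (-(γ * ‖v‖ ^ 2)))) +
              (B s * ENNReal.ofReal C * ENNReal.ofReal (C2 * (1 + ‖v‖)) +
              B s * ENNReal.ofReal C * ENNReal.ofReal (C2 * (1 + ‖v‖))) := by
            gcongr
            · exact hQ v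
            · exact hS1 v
            · exact hS2 v
        _ = _ := by
            have hn : 0 ≤ 1 + ‖v‖ := by positivity
            rw [← ENNReal.ofReal_mul hC, ← ENNReal.ofReal_mul (mul_nonneg hC hC), mul_assoc (B s),
              ← mul_add, ← ENNReal.ofReal_mul hC, ← ENNReal.ofReal_add (by positivity)
              (by positivity)]
            congr 2
            · ring_nf
            · ring_nf
    have hv : 0 ≤ 1 + ‖v‖ := by positivity
    have hA := sA_nonneg (γ := γ) (C := C) (C1 := C1) hC0 hC1 hlam hT v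
    have hsa := sa_nonneg hC hC2 hlam v
    -- sum over the pairs of trees
    have hpairs : ∑ p ∈ CTree.lt n ×ˢ CTree.lt n, L ^ (node p.1 p.2).size *
        FS κ D f0 (node p.1 p.2) t x v ≤ ∫⁻ s in Ioc 0 t, L * ∫⁻ p,
          (∑ l ∈ CTree.lt n, L ^ l.size * a l s p) *
          (∑ r ∈ CTree.lt n, L ^ r.size * b r s p) ∂(κ v) := by
      have hterm : ∀ q : CTree × CTree, L ^ (node q.1 q.2).size *
          FS κ D f0 (node q.1 q.2) t x v ≤ ∫⁻ s in Ioc 0 t, L * ∫⁻ p,
            (L ^ q.1.size * a q.1 s p) * (L ^ q.2.size * b q.2 s p) ∂(κ v) := by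
        intro q
        have h1 : FS κ D f0 (node q.1 q.2) t x v =
            ∫⁻ s in Ioc 0 t, ∫⁻ p, a q.1 s p * b q.2 s p ∂(κ v) := rfl
        have hfin : L ^ (node q.1 q.2).size ≠ ∞ := ENNReal.pow_ne_top ENNReal.ofReal_ne_top
        rw [h1, ← lintegral_const_mul' _ _ hfin]
        refine lintegral_mono fun s => ?_
        show L ^ (node q.1 q.2).size * _ ≤ _
        rw [← lintegral_const_mul' _ _ hfin, ← lintegral_const_mul' _ _ ENNReal.ofReal_ne_top]
        refine lintegral_mono fun p => le_of_eq ?_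
        simp only [CTree.size, pow_add, pow_one]
        ring
      refine (Finset.sum_le_sum fun q _ => hterm q).trans ?_
      have hsup : ∀ (S : Finset (CTree × CTree)) (g : CTree × CTree → ℝ → ℝ≥0∞),
          ∑ q ∈ S, ∫⁻ s in Ioc 0 t, g q s ≤ ∫⁻ s in Ioc 0 t, ∑ q ∈ S, g q s := by
        intro S g
        induction S using Finset.induction_on with
        | empty => simp
        | insert q S hq ihS =>
          rw [Finset.sum_insert hq]
          refine (add_le_add le_rfl ihS).trans ?_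
          refine (le_lintegral_add _ _).trans (le_of_eq ?_)
          refine lintegral_congr fun s => ?_
          rw [Finset.sum_insert hq]
      have hsup2 : ∀ (S : Finset (CTree × CTree)) (g : CTree × CTree → E × E → ℝ≥0∞),
          ∑ q ∈ S, ∫⁻ p, g q p ∂(κ v) ≤ ∫⁻ p, ∑ q ∈ S, g q p ∂(κ v) := by
        intro S g
        induction S using Finset.induction_on with
        | empty => simp
        | insert q S hq ihS =>
          rw [Finset.sum_insert hq]
          refine (add_le_add le_rfl ihS).trans ?_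
          refine (le_lintegral_add _ _).trans (le_of_eq ?_)
          refine lintegral_congr fun s => ?_
          rw [Finset.sum_insert hq]
      refine (hsup _ _).trans (lintegral_mono fun s => ?_)
      show ∑ q ∈ CTree.lt n ×ˢ CTree.lt n, L * ∫⁻ p,
            (L ^ q.1.size * a q.1 s p) * (L ^ q.2.size * b q.2 s p) ∂(κ v) ≤ _
      rw [← Finset.mul_sum]
      refine mul_le_mul' le_rfl ((hsup2 _ _).trans (lintegral_mono fun p => le_of_eq ?_))
      rw [Finset.sum_mul_sum, Finset.sum_product]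
    have h0 : L ^ leaf.size * FS κ D f0 leaf t x v ≤
        ENNReal.ofReal (C0 * Real.exp (-(γ * ‖v‖ ^ 2))) := by
      have h1 : FS κ D f0 leaf t x v = f0 (x - t • v) v := rfl
      rw [h1]
      simp only [CTree.size, pow_zero, one_mul]
      refine (hf0 _ _).trans (le_of_eq ?_)
      unfold wG
      rw [ENNReal.ofReal_mul hC0]
    refine (add_le_add h0 hpairs).trans ?_
    -- time integral
    have h2 : ∫⁻ s in Ioc 0 t, L * ∫⁻ p, (∑ l ∈ CTree.lt n, L ^ l.size * a l s p) *
          (∑ r ∈ CTree.lt n, L ^ r.size * b r s p) ∂(κ v) ≤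
        ∫⁻ s in Ioc 0 t, (ENNReal.ofReal (lam * (C ^ 2 * (C1 * ((1 + ‖v‖) *
          Real.exp (-(γ * ‖v‖ ^ 2)))))) + ENNReal.ofReal (sA γ C C0 C1 lam T v) *
          ENNReal.ofReal (sa C C2 lam v * Real.exp (sa C C2 lam v * s))) := by
      refine setLIntegral_mono' measurableSet_Ioc fun s hs => ?_
      refine (mul_le_mul' le_rfl (hprod s hs)).trans (le_of_eq ?_)
      rw [mul_add, hL, hB, ← ENNReal.ofReal_mul hlam]
      congr 1
      rw [← ENNReal.ofReal_mul (mul_nonneg hA (Real.exp_pos _).le), ← ENNReal.ofReal_mul hlam,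
        ← ENNReal.ofReal_mul hA]
      congr 1
      unfold sa
      ring
    refine (add_le_add le_rfl h2).trans ?_
    rw [lintegral_add_left measurable_const, lintegral_const_mul' _ _ ENNReal.ofReal_ne_top,
      lintegral_exp_Ioc hsa ht.1, lintegral_const, Measure.restrict_apply_univ, Real.volume_Ioc,
      sub_zero, ← ENNReal.ofReal_mul (by positivity), ← ENNReal.ofReal_mul hA,
      ← ENNReal.ofReal_add (by have := ht.1; positivity) (mul_nonneg hA (by
        have := Real.one_le_exp (mul_nonneg hsa ht.1); linarith)),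
      ← ENNReal.ofReal_add (by positivity) (by
        have h3 := Real.one_le_exp (mul_nonneg hsa ht.1)
        have h4 : 0 ≤ Real.exp (sa C C2 lam v * t) - 1 := by linarith
        have := ht.1
        positivity)]
    refine ENNReal.ofReal_le_ofReal ?_
    have h5 : lam * (C ^ 2 * (C1 * ((1 + ‖v‖) * Real.exp (-(γ * ‖v‖ ^ 2))))) * t ≤
        T * (lam * (C ^ 2 * (C1 * ((1 + ‖v‖) * Real.exp (-(γ * ‖v‖ ^ 2)))))) := by
      rw [mul_comm]
      exact mul_le_mul_of_nonneg_right ht.2 (by positivity)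
    have h6 : C0 * Real.exp (-(γ * ‖v‖ ^ 2)) + lam * (C ^ 2 * (C1 * ((1 + ‖v‖) *
        Real.exp (-(γ * ‖v‖ ^ 2))))) * t ≤ sA γ C C0 C1 lam T v := by
      unfold sA; linarith
    linarith

end straight

end Crest.Agent.R122.Seg814
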