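import Crest.Agent.R122.KinQ_416

/-!
Row 122, block BO (boost lemma), helper969.

A tagged line in a background of partners of density `≤ M e^{-β|w|²}`: the property "for every `k`
the position reached after free flight of duration `r`, restricted to velocities within distance one
of `k`, has density `≤ a e^{-γ|k|²}`" is propagated by the gain-only collision step (either outgoing
leg may be the tagged one), with the factor `C (1+|k|)`.  Only `‖exit‖ = ‖g‖` and the invariance of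
the law of the exit velocity are used.
-/

set_option autoImplicit false

open MeasureTheory ProbabilityTheory Crest.AnalysisR.Kinetic
open Crest.Agent.R122.Boltz814 Crest.Agent.R122.Disc416 Crest.Agent.R122.Kin416
open scoped Classical ENNReal

noncomputable section

namespace Crest.Agent.R122.Boost969

variable {Φ : Space3 → ℝ}

/-- The law of the exit velocity, with flux weight, is that of the entrance velocity. -/
def FluxExit (Φ : Space3 → ℝ) : Prop :=
  ∀ ψ : Space3 → ℝ≥0∞, Measurable ψ →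
    ∫⁻ g, ENNReal.ofReal ‖g‖ * ∫⁻ b in impactDisc g, ψ (exitVelocity Φ b g) ∂μHE[2] =
      ENNReal.ofReal Real.pi * ∫⁻ g, ENNReal.ofReal ‖g‖ * ψ g

/-- exit velocity in planar coordinates -/
def ex (Φ : Space3 → ℝ) (c : Space3 × Plane) : Space3 := exitM Φ (frameMap c.1 c.2, c.1)

/-- change of velocity of the tagged particle, first leg -/
def D1 (Φ : Space3 → ℝ) (c : Space3 × Plane) : Space3 := (1 / 2 : ℝ) • (ex Φ c - c.1)

/-- change of velocity of the tagged particle, second leg -/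
def D2 (Φ : Space3 → ℝ) (c : Space3 × Plane) : Space3 := -((1 / 2 : ℝ) • (ex Φ c + c.1))

lemma measurable_ex (S : ScatFacts Φ) : Measurable (ex Φ) := by
  unfold ex
  exact (measurable_exitM S).comp (measurable_frameMap.prodMk measurable_fst)

lemma measurable_D1 (S : ScatFacts Φ) : Measurable (D1 Φ) := by
  unfold D1
  exact ((measurable_ex S).sub measurable_fst).const_smul (1 / 2 : ℝ)

lemma measurable_D2 (S : ScatFacts Φ) : Measurable (D2 Φ) := by
  unfold D2
  exact (((measurable_ex S).add measurable_fst).const_smul (1 / 2 : ℝ)).neg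

lemma norm_ex (S : ScatFacts Φ) {c : Space3 × Plane} (hc : c.1 ≠ 0) : ‖ex Φ c‖ = ‖c.1‖ :=
  norm_exitM S _ hc

lemma outV_rel (v : Space3) (c : Space3 × Plane) :
    outV Φ v (v - c.1, c.2) = (v + D1 Φ c, v + D2 Φ c) := by
  unfold outV D1 D2 ex
  simp only [sub_sub_cancel]
  ext1
  · module
  · module

/-! ### Velocity identities -/

lemma norm_sq_sub_half (k e g : Space3) (h : ‖e‖ = ‖g‖) :
    ‖k - (1 / 2 : ℝ) • (e - g) - g‖ ^ 2 + ‖k - (1 / 2 : ℝ) • (e - g)‖ ^ 2 =
      ‖k‖ ^ 2 + ‖k - e‖ ^ 2 := by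
  have e1 : k - (1 / 2 : ℝ) • (e - g) - g = (k - (1 / 2 : ℝ) • e) - (1 / 2 : ℝ) • g := by module
  have e2 : k - (1 / 2 : ℝ) • (e - g) = (k - (1 / 2 : ℝ) • e) + (1 / 2 : ℝ) • g := by module
  rw [e1, e2]
  have h1 := parallelogram_law_with_norm ℝ (k - (1 / 2 : ℝ) • e) ((1 / 2 : ℝ) • g)
  have h2 := parallelogram_law_with_norm ℝ (k - (1 / 2 : ℝ) • e) ((1 / 2 : ℝ) • e)
  have e3 : k - (1 / 2 : ℝ) • e + (1 / 2 : ℝ) • e = k := by module
  have e4 : k - (1 / 2 : ℝ) • e - (1 / 2 : ℝ) • e = k - e := by module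
  rw [e3, e4] at h2
  have h3 : ‖(1 / 2 : ℝ) • g‖ = ‖(1 / 2 : ℝ) • e‖ := by rw [norm_smul, norm_smul, h]
  rw [h3] at h1
  nlinarith [h1, h2]

lemma gau_D1 (S : ScatFacts Φ) (γ : ℝ) (k : Space3) {c : Space3 × Plane} (hc : c.1 ≠ 0) :
    gau γ (k - D1 Φ c - c.1) * gau γ (k - D1 Φ c) = gau γ k * gau γ (k - ex Φ c) := by
  unfold gau
  rw [← ENNReal.ofReal_mul (Real.exp_pos _).le, ← ENNReal.ofReal_mul (Real.exp_pos _).le,
    ← Real.exp_add, ← Real.exp_add]
  have h := norm_sq_sub_half k (ex Φ c) c.1 (norm_ex S hc)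
  have h' : -γ * ‖k - D1 Φ c - c.1‖ ^ 2 + -γ * ‖k - D1 Φ c‖ ^ 2 =
      -γ * ‖k‖ ^ 2 + -γ * ‖k - ex Φ c‖ ^ 2 := by
    unfold D1
    linear_combination (-γ) * h
  rw [h']

lemma gau_D2 (S : ScatFacts Φ) (γ : ℝ) (k : Space3) {c : Space3 × Plane} (hc : c.1 ≠ 0) :
    gau γ (k - D2 Φ c - c.1) * gau γ (k - D2 Φ c) = gau γ k * gau γ (k + ex Φ c) := by
  unfold gau
  rw [← ENNReal.ofReal_mul (Real.exp_pos _).le, ← ENNReal.ofReal_mul (Real.exp_pos _).le,
    ← Real.exp_add, ← Real.exp_add]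
  have h := norm_sq_sub_half k (-ex Φ c) c.1 (by rw [norm_neg]; exact norm_ex S hc)
  have h' : -γ * ‖k - D2 Φ c - c.1‖ ^ 2 + -γ * ‖k - D2 Φ c‖ ^ 2 =
      -γ * ‖k‖ ^ 2 + -γ * ‖k + ex Φ c‖ ^ 2 := by
    have e1 : k - D2 Φ c = k - (1 / 2 : ℝ) • (-ex Φ c - c.1) := by unfold D2; module
    have e2 : k + ex Φ c = k - -ex Φ c := by abel
    rw [e1, e2]
    linear_combination (-γ) * h
  rw [h']

/-- smearing of the Gaussian over a unit ball -/
lemma gau_smear {β γ : ℝ} (hβ : 0 ≤ β) (hγ : γ ≤ β / 2) {v V : Space3} (h : ‖v - V‖ < 1)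
    (g : Space3) : gau β (v - g) ≤ ENNReal.ofReal (Real.exp β) * gau γ (V - g) := by
  unfold gau
  rw [← ENNReal.ofReal_mul (Real.exp_pos _).le, ← Real.exp_add]
  refine ENNReal.ofReal_le_ofReal (Real.exp_le_exp.2 ?_)
  have h1 : ‖V - g‖ ≤ ‖v - g‖ + 1 := by
    have : V - g = (v - g) - (v - V) := by abel
    rw [this]
    exact (norm_sub_le _ _).trans (by linarith)
  have h2 : ‖V - g‖ ^ 2 ≤ 2 * ‖v - g‖ ^ 2 + 2 := by
    have h0 : 0 ≤ ‖V - g‖ := norm_nonneg _
    nlinarith [norm_nonneg (v - g), sq_nonneg (‖v - g‖ - 1)]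
  have h3 : γ * ‖V - g‖ ^ 2 ≤ β / 2 * ‖V - g‖ ^ 2 :=
    mul_le_mul_of_nonneg_right hγ (sq_nonneg _)
  nlinarith

/-! ### The collision step of a tagged line -/

/-- Gain-only collision operator of a tagged line, in a background of density `G` (dual form). -/
def Lg (Φ : Space3 → ℝ) (G : Space3 → ℝ≥0∞) (F : PhasePoint → ℝ≥0∞) (p : PhasePoint) : ℝ≥0∞ :=
  ∫⁻ w, ENNReal.ofReal ‖p.2 - w‖ * (G w * ∫⁻ b in impactDisc (p.2 - w),
    (F (p.1, (postVelocities Φ b p.2 w).1) + F (p.1, (postVelocities Φ b p.2 w).2)) ∂μHE[2])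

/-- planar form of `Lg` -/
lemma Lg_eq (S : ScatFacts Φ) {G : Space3 → ℝ≥0∞} (hG : Measurable G)
    {F : PhasePoint → ℝ≥0∞} (hF : Measurable F) (p : PhasePoint) :
    Lg Φ G F p = ∫⁻ c, ENNReal.ofReal ‖c.1‖ * (G (p.2 - c.1) *
      (F (p.1, p.2 + D1 Φ c) + F (p.1, p.2 + D2 Φ c))) ∂refM := by
  have hm1 : Measurable (fun c : Space3 × Plane => F (p.1, p.2 + D1 Φ c)) :=
    hF.comp (measurable_const.prodMk ((measurable_D1 S).const_add _))
  have hm2 : Measurable (fun c : Space3 × Plane => F (p.1, p.2 + D2 Φ c)) :=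
    hF.comp (measurable_const.prodMk ((measurable_D2 S).const_add _))
  have hG' : Measurable (fun c : Space3 × Plane => G (p.2 - c.1)) :=
    hG.comp (measurable_fst.const_sub _)
  have hm : Measurable (fun c : Space3 × Plane => ENNReal.ofReal ‖c.1‖ * (G (p.2 - c.1) *
      (F (p.1, p.2 + D1 Φ c) + F (p.1, p.2 + D2 Φ c)))) :=
    (measurable_fst.norm.ennreal_ofReal).mul (hG'.mul (hm1.add hm2))
  unfold Lg refM
  rw [lintegral_prod _ hm.aemeasurable]
  rw [← lintegral_sub_left_eq_self (fun w => ENNReal.ofReal ‖p.2 - w‖ *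
    (G w * ∫⁻ b in impactDisc (p.2 - w),
    (F (p.1, (postVelocities Φ b p.2 w).1) + F (p.1, (postVelocities Φ b p.2 w).2)) ∂μHE[2])) p.2]
  refine lintegral_congr fun g => ?_
  simp only [sub_sub_cancel]
  by_cases hg : g = 0
  · simp [hg]
  rw [lintegral_impactDisc hg]
  have h1 : ∀ y : Plane, Measurable fun _ : Unit => y := fun y => measurable_const
  have hmy : Measurable (fun y : Plane => F (p.1, p.2 + D1 Φ (g, y)) + F (p.1, p.2 + D2 Φ (g, y))) :=
    (hm1.comp (measurable_const.prodMk measurable_id)).add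
      (hm2.comp (measurable_const.prodMk measurable_id))
  rw [lintegral_const_mul _ (hmy.const_mul _), lintegral_const_mul _ hmy]
  congr 2
  refine setLIntegral_congr_fun measurableSet_ball fun y hy => ?_
  have h2 : p.2 ≠ p.2 - g := by
    intro h; exact hg (by simpa using h.symm)
  have h3 : postVelocities Φ (frameMap g y) p.2 (p.2 - g) = (p.2 + D1 Φ (g, y), p.2 + D2 Φ (g, y)) := by
    rw [← outV_rel p.2 (g, y), outV_eq h2 hy]
    simp
  simp only [h3]

/-- Position after free flight of duration `r`, restricted to velocities near `k`, has density at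
most `a e^{-γ|k|²}`. -/
def Bd (r : ℝ) (a : ℝ≥0∞) (γ : ℝ) (H : Measure PhasePoint) : Prop :=
  ∀ (k : Space3) (φ : Space3 → ℝ≥0∞), Measurable φ →
    ∫⁻ p, (if ‖p.2 - k‖ < 1 then φ (p.1 + r • p.2) else 0) ∂H ≤ a * gau γ k * ∫⁻ x, φ x

/-- the test function of `Bd` -/
def tf (r : ℝ) (k : Space3) (φ : Space3 → ℝ≥0∞) (p : PhasePoint) : ℝ≥0∞ :=
  if ‖p.2 - k‖ < 1 then φ (p.1 + r • p.2) else 0

lemma measurable_tf (r : ℝ) (k : Space3) {φ : Space3 → ℝ≥0∞} (hφ : Measurable φ) :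
    Measurable (tf r k φ) := by
  unfold tf
  refine Measurable.ite ?_ ?_ measurable_const
  · exact measurableSet_lt (by fun_prop) measurable_const
  · exact hφ.comp (by fun_prop)

/-- One leg of the collision step. -/
lemma leg_le {H : Measure PhasePoint} {r : ℝ} {a : ℝ≥0∞} {β γ : ℝ} (hβ : 0 ≤ β)
    (hγ : γ ≤ β / 2) {M : ℝ≥0∞} {G : Space3 → ℝ≥0∞} (hG : ∀ w, G w ≤ M * gau β w)
    (hH : Bd r a γ H) (k : Space3) {φ : Space3 → ℝ≥0∞} (hφ : Measurable φ) (g D : Space3) :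
    ∫⁻ p, G (p.2 - g) * tf r k φ (p.1, p.2 + D) ∂H ≤
      M * ENNReal.ofReal (Real.exp β) * a * (gau γ (k - D - g) * gau γ (k - D)) *
        ∫⁻ x, φ x := by
  have hpt : ∀ p : PhasePoint, G (p.2 - g) * tf r k φ (p.1, p.2 + D) ≤
      (M * ENNReal.ofReal (Real.exp β) * gau γ (k - D - g)) *
        (if ‖p.2 - (k - D)‖ < 1 then (fun x => φ (x + r • D)) (p.1 + r • p.2) else 0) := by
    intro p
    unfold tf
    have e1 : p.2 + D - k = p.2 - (k - D) := by abel
    simp only [e1]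
    split_ifs with h
    · have e2 : p.1 + r • (p.2 + D) = p.1 + r • p.2 + r • D := by rw [smul_add, add_assoc]
      simp only [e2]
      refine mul_le_mul_left ?_ _
      calc G (p.2 - g) ≤ M * gau β (p.2 - g) := hG _
        _ ≤ M * (ENNReal.ofReal (Real.exp β) * gau γ (k - D - g)) :=
            mul_le_mul_right (gau_smear hβ hγ h g) _
        _ = _ := by ring
    · simp
  have hφ' : Measurable (fun x => φ (x + r • D)) := hφ.comp (measurable_add_const _)
  calc ∫⁻ p, G (p.2 - g) * tf r k φ (p.1, p.2 + D) ∂H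
      ≤ ∫⁻ p, (M * ENNReal.ofReal (Real.exp β) * gau γ (k - D - g)) *
        (if ‖p.2 - (k - D)‖ < 1 then (fun x => φ (x + r • D)) (p.1 + r • p.2) else 0) ∂H :=
        lintegral_mono hpt
    _ = (M * ENNReal.ofReal (Real.exp β) * gau γ (k - D - g)) *
        ∫⁻ p, (if ‖p.2 - (k - D)‖ < 1 then (fun x => φ (x + r • D)) (p.1 + r • p.2) else 0) ∂H :=
        lintegral_const_mul _ (measurable_tf r (k - D) hφ')
    _ ≤ (M * ENNReal.ofReal (Real.exp β) * gau γ (k - D - g)) *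
        (a * gau γ (k - D) * ∫⁻ x, φ (x + r • D)) := mul_le_mul_right (hH (k - D) _ hφ') _
    _ = _ := by
        rw [lintegral_add_right_eq_self φ (r • D)]
        ring

/-- The flux integral of a Gaussian of the exit velocity. -/
lemma flux_gau (S : ScatFacts Φ) (hF : FluxExit Φ) (γ : ℝ) (k : Space3) :
    ∫⁻ c, ENNReal.ofReal ‖c.1‖ * gau γ (k - ex Φ c) ∂refM = nuE (gau γ) k ∧
    ∫⁻ c, ENNReal.ofReal ‖c.1‖ * gau γ (k + ex Φ c) ∂refM = nuE (gau γ) k := by
  have key : ∀ ψ : Space3 → ℝ≥0∞, Measurable ψ →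
      ∫⁻ c, ENNReal.ofReal ‖c.1‖ * ψ (ex Φ c) ∂refM =
        ENNReal.ofReal Real.pi * ∫⁻ g, ENNReal.ofReal ‖g‖ * ψ g := by
    intro ψ hψ
    rw [← hF ψ hψ]
    have hmψ : Measurable (fun c : Space3 × Plane => ψ (ex Φ c)) := hψ.comp (measurable_ex S)
    have hm : Measurable (fun c : Space3 × Plane => ENNReal.ofReal ‖c.1‖ * ψ (ex Φ c)) :=
      (measurable_fst.norm.ennreal_ofReal).mul hmψ
    unfold refM
    rw [lintegral_prod _ hm.aemeasurable]
    refine lintegral_congr fun g => ?_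
    simp only
    by_cases hg : g = 0
    · simp [hg]
    have hmg : Measurable (fun y : Plane => ψ (ex Φ (g, y))) :=
      hmψ.comp (measurable_const.prodMk measurable_id)
    rw [lintegral_const_mul _ hmg, lintegral_impactDisc hg]
    congr 1
    refine setLIntegral_congr_fun measurableSet_ball fun y hy => ?_
    simp only [ex, exitM, frameMap_mem_impactDisc hg hy, if_true]
  constructor
  · rw [key (fun u => gau γ (k - u)) ((measurable_gau γ).comp (measurable_id.const_sub k))]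
    unfold nuE
    congr 1
    rw [← lintegral_sub_left_eq_self (fun w => ENNReal.ofReal ‖k - w‖ * gau γ w) k]
    refine lintegral_congr fun g => ?_
    simp
  · rw [key (fun u => gau γ (k + u)) ((measurable_gau γ).comp (measurable_id.const_add k))]
    unfold nuE
    congr 1
    rw [← lintegral_add_left_eq_self (fun w => ENNReal.ofReal ‖k - w‖ * gau γ w) k]
    refine lintegral_congr fun g => ?_
    simp

/-- **The collision step.** -/
theorem gain_bd (S : ScatFacts Φ) (hF : FluxExit Φ) {H : Measure PhasePoint} [SFinite H]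
    {r : ℝ} {a : ℝ≥0∞} {β γ γ₀ : ℝ} (hβ : 0 ≤ β) (hγ : γ ≤ β / 2) (hγ₀ : γ₀ ≤ γ) {M : ℝ≥0∞}
    {G : Space3 → ℝ≥0∞} (hGm : Measurable G) (hG : ∀ w, G w ≤ M * gau β w) (hH : Bd r a γ H)
    (k : Space3) {φ : Space3 → ℝ≥0∞} (hφ : Measurable φ) :
    ∫⁻ p, Lg Φ G (tf r k φ) p ∂H ≤
      (2 * M * ENNReal.ofReal (Real.exp β) * CG γ₀) * a *
        (ENNReal.ofReal (1 + ‖k‖) * gau γ k) * ∫⁻ x, φ x := by
  have htf := measurable_tf r k hφ
  have e0 : ∫⁻ p, Lg Φ G (tf r k φ) p ∂H = ∫⁻ p, ∫⁻ c, ENNReal.ofReal ‖c.1‖ * (G (p.2 - c.1) *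
      (tf r k φ (p.1, p.2 + D1 Φ c) + tf r k φ (p.1, p.2 + D2 Φ c))) ∂refM ∂H :=
    lintegral_congr fun p => Lg_eq S hGm htf p
  have hmG : Measurable (fun q : PhasePoint × (Space3 × Plane) => G (q.1.2 - q.2.1)) :=
    hGm.comp (by fun_prop)
  have hm1 : Measurable (fun q : PhasePoint × (Space3 × Plane) =>
      tf r k φ (q.1.1, q.1.2 + D1 Φ q.2)) :=
    htf.comp ((measurable_fst.comp measurable_fst).prodMk
      ((measurable_snd.comp measurable_fst).add ((measurable_D1 S).comp measurable_snd)))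
  have hm2 : Measurable (fun q : PhasePoint × (Space3 × Plane) =>
      tf r k φ (q.1.1, q.1.2 + D2 Φ q.2)) :=
    htf.comp ((measurable_fst.comp measurable_fst).prodMk
      ((measurable_snd.comp measurable_fst).add ((measurable_D2 S).comp measurable_snd)))
  have hmn : Measurable (fun q : PhasePoint × (Space3 × Plane) => ENNReal.ofReal ‖q.2.1‖) := by
    fun_prop
  rw [e0, lintegral_lintegral_swap (hmn.mul (hmG.mul (hm1.add hm2))).aemeasurable]
  set K : ℝ≥0∞ := M * ENNReal.ofReal (Real.exp β) * a with hK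
  set I : ℝ≥0∞ := ∫⁻ x, φ x with hI
  have hc : ∀ c : Space3 × Plane, ∫⁻ p : PhasePoint, ENNReal.ofReal ‖c.1‖ * (G (p.2 - c.1) *
      (tf r k φ (p.1, p.2 + D1 Φ c) + tf r k φ (p.1, p.2 + D2 Φ c))) ∂H ≤
      K * I * gau γ k * (ENNReal.ofReal ‖c.1‖ * gau γ (k - ex Φ c) +
        ENNReal.ofReal ‖c.1‖ * gau γ (k + ex Φ c)) := by
    intro c
    by_cases hc0 : c.1 = 0
    · simp [hc0]
    have hmGc : Measurable (fun p : PhasePoint => G (p.2 - c.1)) := hGm.comp (by fun_prop)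
    have hm1c : Measurable (fun p : PhasePoint => tf r k φ (p.1, p.2 + D1 Φ c)) :=
      htf.comp (by fun_prop)
    have hm2c : Measurable (fun p : PhasePoint => tf r k φ (p.1, p.2 + D2 Φ c)) :=
      htf.comp (by fun_prop)
    have hma : Measurable (fun p : PhasePoint => G (p.2 - c.1) *
        (tf r k φ (p.1, p.2 + D1 Φ c) + tf r k φ (p.1, p.2 + D2 Φ c))) :=
      hmGc.mul (hm1c.add hm2c)
    have hmb : Measurable (fun p : PhasePoint => G (p.2 - c.1) *
        tf r k φ (p.1, p.2 + D1 Φ c)) := hmGc.mul hm1c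
    rw [lintegral_const_mul _ hma]
    simp only [mul_add]
    rw [lintegral_add_left hmb]
    calc ENNReal.ofReal ‖c.1‖ * (∫⁻ p, G (p.2 - c.1) * tf r k φ (p.1, p.2 + D1 Φ c) ∂H +
          ∫⁻ p, G (p.2 - c.1) * tf r k φ (p.1, p.2 + D2 Φ c) ∂H)
        ≤ ENNReal.ofReal ‖c.1‖ * (K * (gau γ (k - D1 Φ c - c.1) * gau γ (k - D1 Φ c)) * I +
          K * (gau γ (k - D2 Φ c - c.1) * gau γ (k - D2 Φ c)) * I) := by
          refine mul_le_mul_right (add_le_add ?_ ?_) _
          · exact leg_le hβ hγ hG hH k hφ c.1 (D1 Φ c)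
          · exact leg_le hβ hγ hG hH k hφ c.1 (D2 Φ c)
      _ = _ := by
          rw [gau_D1 S γ k hc0, gau_D2 S γ k hc0]
          ring
  have hmex1 : Measurable (fun c : Space3 × Plane =>
      ENNReal.ofReal ‖c.1‖ * gau γ (k - ex Φ c)) :=
    (measurable_fst.norm.ennreal_ofReal).mul
      ((measurable_gau γ).comp ((measurable_ex S).const_sub k))
  have hmex2 : Measurable (fun c : Space3 × Plane =>
      ENNReal.ofReal ‖c.1‖ * gau γ (k + ex Φ c)) :=
    (measurable_fst.norm.ennreal_ofReal).mul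
      ((measurable_gau γ).comp ((measurable_ex S).const_add k))
  calc ∫⁻ c, ∫⁻ p : PhasePoint, ENNReal.ofReal ‖c.1‖ * (G (p.2 - c.1) *
      (tf r k φ (p.1, p.2 + D1 Φ c) + tf r k φ (p.1, p.2 + D2 Φ c))) ∂H ∂refM
      ≤ ∫⁻ c, K * I * gau γ k * (ENNReal.ofReal ‖c.1‖ * gau γ (k - ex Φ c) +
        ENNReal.ofReal ‖c.1‖ * gau γ (k + ex Φ c)) ∂refM := lintegral_mono hc
    _ = K * I * gau γ k * (nuE (gau γ) k + nuE (gau γ) k) := by
        have hms : Measurable (fun c : Space3 × Plane =>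
            ENNReal.ofReal ‖c.1‖ * gau γ (k - ex Φ c) +
              ENNReal.ofReal ‖c.1‖ * gau γ (k + ex Φ c)) := hmex1.add hmex2
        rw [lintegral_const_mul _ hms, lintegral_add_left hmex1,
          (flux_gau S hF γ k).1, (flux_gau S hF γ k).2]
    _ ≤ K * I * gau γ k * (CG γ₀ * ENNReal.ofReal (1 + ‖k‖) +
          CG γ₀ * ENNReal.ofReal (1 + ‖k‖)) := by
        have h1 : nuE (gau γ) k ≤ CG γ₀ * ENNReal.ofReal (1 + ‖k‖) :=
          (nuE_gau_le γ k).trans (mul_le_mul_left (CG_antitone hγ₀) _)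
        exact mul_le_mul_right (add_le_add h1 h1) _
    _ = _ := by
        rw [hK]; ring

end Crest.Agent.R122.Boost969
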