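import Crest.Agent.R122.Boost1_969

/-!
Row 122, block BO (boost lemma), helper969: abstract Galilean averaging.

A *tagged path* is followed leg by leg; the state of a leg is `(s, x, v)` (time, position at that
time, velocity).  Kernels `κ` on states whose boosts are dominated by a kernel `κ'` (`GalDom`) are
closed under composition; for such kernels a Gaussian initial velocity at a *fixed* space-time point
`(s₀, y)` gives the position at a fixed time `t ≠ s₀` a density `≤ C |t - s₀|⁻³` (`boost_density`).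
-/

set_option autoImplicit false

open MeasureTheory ProbabilityTheory Crest.AnalysisR.Kinetic
open Crest.Agent.R122.Boltz814 Crest.Agent.R122.Disc416 Crest.Agent.R122.Kin416
open scoped Classical ENNReal

noncomputable section

namespace Crest.Agent.R122.Boost969

/-- State of a leg: time, position at that time, velocity. -/
abbrev LSt : Type := ℝ × PhasePoint

/-- Galilean boost of velocity `u` fixing positions at time `s0`. -/
def gal (s0 : ℝ) (u : Space3) (z : LSt) : LSt := (z.1, (z.2.1 + (z.1 - s0) • u, z.2.2 + u))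

lemma measurable_gal' : Measurable (fun p : ℝ × Space3 × LSt => gal p.1 p.2.1 p.2.2) := by
  unfold gal
  refine Measurable.prodMk (by fun_prop) (Measurable.prodMk ?_ (by fun_prop))
  exact Continuous.measurable (by fun_prop)

lemma measurable_gal (s0 : ℝ) (u : Space3) : Measurable (gal s0 u) :=
  measurable_gal'.comp (measurable_const.prodMk (measurable_const.prodMk measurable_id))

lemma measurable_gal_uz (s0 : ℝ) : Measurable (fun p : Space3 × LSt => gal s0 p.1 p.2) :=
  measurable_gal'.comp (measurable_const.prodMk measurable_id)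

lemma gal_base (s0 : ℝ) (u y v : Space3) : gal s0 u (s0, (y, v)) = (s0, (y, v + u)) := by
  unfold gal; simp

/-- The boosts of `κ` by velocities of norm `≤ 1` are dominated by `κ'`. -/
def GalDom (κ κ' : Kernel LSt LSt) : Prop :=
  ∀ (s0 : ℝ) (u : Space3), ‖u‖ ≤ 1 → ∀ (z : LSt) (F : LSt → ℝ≥0∞), Measurable F →
    ∫⁻ z', F z' ∂κ (gal s0 u z) ≤ ∫⁻ z', F (gal s0 u z') ∂κ' z

lemma GalDom.id : GalDom Kernel.id Kernel.id := by
  intro s0 u _ z F hF
  have hm : Measurable (fun z' => F (gal s0 u z')) := hF.comp (measurable_gal s0 u)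
  rw [Kernel.id_apply, Kernel.id_apply, lintegral_dirac' _ hF, lintegral_dirac' _ hm]

lemma GalDom.comp {κ κ' η η' : Kernel LSt LSt} (h1 : GalDom κ κ') (h2 : GalDom η η') :
    GalDom (η ∘ₖ κ) (η' ∘ₖ κ') := by
  intro s0 u hu z F hF
  have hm : Measurable (fun z' => F (gal s0 u z')) := hF.comp (measurable_gal s0 u)
  rw [Kernel.lintegral_comp _ _ _ hF, Kernel.lintegral_comp _ _ _ hm]
  refine (h1 s0 u hu z _ hF.lintegral_kernel).trans (lintegral_mono fun z' => ?_)
  exact h2 s0 u hu z' F hF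

lemma GalDom.add {κ κ' η η' : Kernel LSt LSt} (h1 : GalDom κ κ') (h2 : GalDom η η') :
    GalDom (κ + η) (κ' + η') := by
  intro s0 u hu z F hF
  rw [Kernel.add_apply, Kernel.add_apply, lintegral_add_measure, lintegral_add_measure]
  exact add_le_add (h1 s0 u hu z F hF) (h2 s0 u hu z F hF)

lemma GalDom.sum {ι : Type*} [Countable ι] {κ κ' : ι → Kernel LSt LSt}
    (h : ∀ i, GalDom (κ i) (κ' i)) : GalDom (Kernel.sum κ) (Kernel.sum κ') := by
  intro s0 u hu z F hF
  rw [Kernel.sum_apply, Kernel.sum_apply, lintegral_sum_measure, lintegral_sum_measure]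
  exact ENNReal.tsum_le_tsum fun i => h i s0 u hu z F hF

lemma GalDom.mono {κ₀ κ κ' : Kernel LSt LSt} (h : GalDom κ κ') (h0 : ∀ z, κ₀ z ≤ κ z) :
    GalDom κ₀ κ' := by
  intro s0 u hu z F hF
  exact (lintegral_mono' (h0 _) le_rfl).trans (h s0 u hu z F hF)

/-- composition of a list of steps (the head is performed first) -/
def pathK : List (Kernel LSt LSt) → Kernel LSt LSt
  | [] => Kernel.id
  | κ :: l => pathK l ∘ₖ κ


lemma isSFiniteKernel_pathK : ∀ {l : List (Kernel LSt LSt)}, (∀ κ ∈ l, IsSFiniteKernel κ) →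
    IsSFiniteKernel (pathK l)
  | [], _ => by unfold pathK; infer_instance
  | κ :: l, h => by
      have := h κ (by simp)
      have := isSFiniteKernel_pathK (l := l) fun κ' hκ' => h κ' (by simp [hκ'])
      unfold pathK
      infer_instance

lemma GalDom.path : ∀ {l l' : List (Kernel LSt LSt)}, List.Forall₂ GalDom l l' →
    GalDom (pathK l) (pathK l')
  | _, _, List.Forall₂.nil => GalDom.id
  | _, _, List.Forall₂.cons h t => GalDom.comp h (GalDom.path t)

/-! ### The averaging argument -/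

/-- **Averaging over boosts.** -/
theorem boost_avg {κ κ' : Kernel LSt LSt} [IsSFiniteKernel κ'] (h : GalDom κ κ') (s0 : ℝ)
    (y : Space3) {b : ℝ} (hb : 0 ≤ b) {B : LSt → ℝ≥0∞} (hB : Measurable B) :
    volume (Metric.ball (0 : Space3) 1) * ∫⁻ v0, gau b v0 * ∫⁻ z, B z ∂κ (s0, (y, v0)) ≤
      ENNReal.ofReal (Real.exp b) * ∫⁻ v0, gau (b / 2) v0 *
        ∫⁻ z, (∫⁻ u in Metric.ball (0 : Space3) 1, B (gal s0 u z)) ∂κ' (s0, (y, v0)) := by
  have hI : Measurable (fun v0 : Space3 => ∫⁻ z, B z ∂κ (s0, (y, v0))) :=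
    hB.lintegral_kernel.comp (by fun_prop)
  have hmB : Measurable (fun p : (Space3 × Space3) × LSt => B (gal s0 p.1.1 p.2)) :=
    hB.comp ((measurable_gal_uz s0).comp ((measurable_fst.comp measurable_fst).prodMk
      measurable_snd))
  -- the kernel `(u, v0) ↦ κ' (s0, y, v0)`
  set K : Kernel (Space3 × Space3) LSt :=
    κ'.comap (fun p : Space3 × Space3 => ((s0, (y, p.2)) : LSt)) (by fun_prop) with hK
  have hJ : Measurable (fun p : Space3 × Space3 => ∫⁻ z, B (gal s0 p.1 z) ∂κ' (s0, (y, p.2))) := by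
    exact Measurable.lintegral_kernel_prod_right' (κ := K) hmB
  calc volume (Metric.ball (0 : Space3) 1) * ∫⁻ v0, gau b v0 * ∫⁻ z, B z ∂κ (s0, (y, v0))
      = ∫⁻ _u in Metric.ball (0 : Space3) 1, (∫⁻ v0, gau b v0 * ∫⁻ z, B z ∂κ (s0, (y, v0))) := by
        rw [setLIntegral_const, mul_comm]
    _ = ∫⁻ u in Metric.ball (0 : Space3) 1, (∫⁻ v0, gau b (v0 + u) *
          ∫⁻ z, B z ∂κ (s0, (y, v0 + u))) := by
        refine lintegral_congr fun u => ?_
        exact (lintegral_add_right_eq_self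
          (fun v0 => gau b v0 * ∫⁻ z, B z ∂κ (s0, (y, v0))) u).symm
    _ ≤ ∫⁻ u in Metric.ball (0 : Space3) 1, (∫⁻ v0, ENNReal.ofReal (Real.exp b) *
          (gau (b / 2) v0 * ∫⁻ z, B (gal s0 u z) ∂κ' (s0, (y, v0)))) := by
        refine setLIntegral_mono' measurableSet_ball fun u hu => lintegral_mono fun v0 => ?_
        have hu' : ‖u‖ < 1 := by simpa using hu
        have h1 : gau b (v0 + u) ≤ ENNReal.ofReal (Real.exp b) * gau (b / 2) v0 := by
          have := gau_smear (v := v0 + u) (V := v0) hb le_rfl (by simpa using hu') 0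
          simpa using this
        have h2 := h s0 u hu'.le (s0, (y, v0)) B hB
        rw [gal_base] at h2
        calc gau b (v0 + u) * ∫⁻ z, B z ∂κ (s0, (y, v0 + u))
            ≤ (ENNReal.ofReal (Real.exp b) * gau (b / 2) v0) *
              ∫⁻ z, B (gal s0 u z) ∂κ' (s0, (y, v0)) := mul_le_mul' h1 h2
          _ = _ := by ring
    _ = ∫⁻ v0, ∫⁻ u in Metric.ball (0 : Space3) 1, ENNReal.ofReal (Real.exp b) *
          (gau (b / 2) v0 * ∫⁻ z, B (gal s0 u z) ∂κ' (s0, (y, v0))) := by
        rw [lintegral_lintegral_swap]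
        refine Measurable.aemeasurable ?_
        exact measurable_const.mul ((((measurable_gau _).comp measurable_snd)).mul hJ)
    _ = ∫⁻ v0, ENNReal.ofReal (Real.exp b) * (gau (b / 2) v0 *
          ∫⁻ z, (∫⁻ u in Metric.ball (0 : Space3) 1, B (gal s0 u z)) ∂κ' (s0, (y, v0))) := by
        refine lintegral_congr fun v0 => ?_
        have hm1 : Measurable (fun u : Space3 => ∫⁻ z, B (gal s0 u z) ∂κ' (s0, (y, v0))) :=
          hJ.comp (measurable_id.prodMk measurable_const)
        rw [lintegral_const_mul _ (hm1.const_mul _), lintegral_const_mul _ hm1]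
        congr 2
        rw [lintegral_lintegral_swap]
        exact (hB.comp (measurable_gal_uz s0)).aemeasurable
    _ = _ := by
        have hm2 : Measurable (fun z : LSt => ∫⁻ u in Metric.ball (0 : Space3) 1,
            B (gal s0 u z)) := by
          have h1 : Measurable (fun p : LSt × Space3 => B (gal s0 p.2 p.1)) :=
            hB.comp ((measurable_gal_uz s0).comp (measurable_snd.prodMk measurable_fst))
          exact h1.lintegral_prod_right'
        rw [lintegral_const_mul]
        refine (measurable_gau _).mul ?_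
        exact hm2.lintegral_kernel.comp (by fun_prop)

/-- scaling of Lebesgue measure on `Space3` -/
lemma lintegral_comp_smul_add {a : Space3 → ℝ≥0∞} (ha : Measurable a) {r : ℝ} (hr : r ≠ 0)
    (c : Space3) : ∫⁻ u, a (c + r • u) = ENNReal.ofReal (|r|⁻¹ ^ 3) * ∫⁻ x, a x := by
  have h1 := Measure.map_addHaar_smul (volume : Measure Space3) hr
  have h2 : ∫⁻ u, a (c + r • u) = ∫⁻ x, a (c + x) ∂(Measure.map (r • ·) (volume : Measure Space3)) := by
    have hm : Measurable (fun x => a (c + x)) := ha.comp (measurable_const_add c)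
    rw [lintegral_map hm (measurable_const_smul r)]
  rw [h2, h1, lintegral_smul_measure, lintegral_add_left_eq_self a c, smul_eq_mul]
  congr 2
  rw [show Module.finrank ℝ Space3 = 3 by simp, abs_inv, abs_pow, inv_pow]

/-- **Boost density.**  Gaussian initial velocity at the fixed space-time point `(s0, y)`, then any
path kernel: the position at the time `t ≠ s0` (following the last leg) has density
`≤ C |t - s0|⁻³`.  The weight `ψ` may depend on the birth time and the velocity of the last leg. -/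
theorem boost_density {κ κ' : Kernel LSt LSt} [IsSFiniteKernel κ'] (h : GalDom κ κ') {s0 t : ℝ}
    (hst : t ≠ s0) (y : Space3) {b : ℝ} (hb : 0 ≤ b) {a : Space3 → ℝ≥0∞} (ha : Measurable a)
    {ψ Ψ : ℝ × Space3 → ℝ≥0∞} (hψ : Measurable ψ) (hΨ : Measurable Ψ)
    (hle : ∀ τ u v, ‖u‖ < 1 → ψ (τ, v + u) ≤ Ψ (τ, v)) :
    volume (Metric.ball (0 : Space3) 1) * ∫⁻ v0, gau b v0 *
        ∫⁻ z, a (z.2.1 + (t - z.1) • z.2.2) * ψ (z.1, z.2.2) ∂κ (s0, (y, v0)) ≤
      ENNReal.ofReal (Real.exp b) * (ENNReal.ofReal (|t - s0|⁻¹ ^ 3) * ∫⁻ x, a x) *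
        ∫⁻ v0, gau (b / 2) v0 * ∫⁻ z, Ψ (z.1, z.2.2) ∂κ' (s0, (y, v0)) := by
  have hpos : Measurable (fun z : LSt => z.2.1 + (t - z.1) • z.2.2) :=
    Continuous.measurable (by fun_prop)
  have hB : Measurable (fun z : LSt => a (z.2.1 + (t - z.1) • z.2.2) * ψ (z.1, z.2.2)) :=
    (ha.comp hpos).mul (hψ.comp (by fun_prop))
  refine (boost_avg h s0 y hb hB).trans ?_
  have hr : t - s0 ≠ 0 := sub_ne_zero.2 hst
  set A : ℝ≥0∞ := ENNReal.ofReal (|t - s0|⁻¹ ^ 3) * ∫⁻ x, a x with hA
  have hin : ∀ z : LSt, ∫⁻ u in Metric.ball (0 : Space3) 1,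
      a ((gal s0 u z).2.1 + (t - (gal s0 u z).1) • (gal s0 u z).2.2) *
        ψ ((gal s0 u z).1, (gal s0 u z).2.2) ≤ A * Ψ (z.1, z.2.2) := by
    intro z
    have e1 : ∀ u : Space3, (gal s0 u z).2.1 + (t - (gal s0 u z).1) • (gal s0 u z).2.2 =
        (z.2.1 + (t - z.1) • z.2.2) + (t - s0) • u := by
      intro u
      simp only [gal]
      module
    calc ∫⁻ u in Metric.ball (0 : Space3) 1,
        a ((gal s0 u z).2.1 + (t - (gal s0 u z).1) • (gal s0 u z).2.2) *
          ψ ((gal s0 u z).1, (gal s0 u z).2.2)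
        ≤ ∫⁻ u in Metric.ball (0 : Space3) 1,
          a ((z.2.1 + (t - z.1) • z.2.2) + (t - s0) • u) * Ψ (z.1, z.2.2) := by
          refine setLIntegral_mono' measurableSet_ball fun u hu => ?_
          rw [e1]
          exact mul_le_mul_right (hle z.1 u z.2.2 (by simpa using hu)) _
      _ ≤ ∫⁻ u, a ((z.2.1 + (t - z.1) • z.2.2) + (t - s0) • u) * Ψ (z.1, z.2.2) :=
          setLIntegral_le_lintegral _ _
      _ = A * Ψ (z.1, z.2.2) := by
          have hm : Measurable (fun u => a ((z.2.1 + (t - z.1) • z.2.2) + (t - s0) • u)) :=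
            ha.comp (Continuous.measurable (by fun_prop))
          rw [lintegral_mul_const _ hm, lintegral_comp_smul_add ha hr]
  have hmΨ : Measurable (fun z : LSt => Ψ (z.1, z.2.2)) := hΨ.comp (by fun_prop)
  calc ENNReal.ofReal (Real.exp b) * ∫⁻ v0, gau (b / 2) v0 *
        ∫⁻ z, (∫⁻ u in Metric.ball (0 : Space3) 1,
          a ((gal s0 u z).2.1 + (t - (gal s0 u z).1) • (gal s0 u z).2.2) *
            ψ ((gal s0 u z).1, (gal s0 u z).2.2)) ∂κ' (s0, (y, v0))
      ≤ ENNReal.ofReal (Real.exp b) * ∫⁻ v0, A * (gau (b / 2) v0 *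
        ∫⁻ z, Ψ (z.1, z.2.2) ∂κ' (s0, (y, v0))) := by
        refine mul_le_mul_right (lintegral_mono fun v0 => ?_) _
        calc gau (b / 2) v0 * ∫⁻ z, (∫⁻ u in Metric.ball (0 : Space3) 1,
              a ((gal s0 u z).2.1 + (t - (gal s0 u z).1) • (gal s0 u z).2.2) *
                ψ ((gal s0 u z).1, (gal s0 u z).2.2)) ∂κ' (s0, (y, v0))
            ≤ gau (b / 2) v0 * ∫⁻ z, A * Ψ (z.1, z.2.2) ∂κ' (s0, (y, v0)) :=
              mul_le_mul_right (lintegral_mono hin) _
          _ = A * (gau (b / 2) v0 * ∫⁻ z, Ψ (z.1, z.2.2) ∂κ' (s0, (y, v0))) := by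
              rw [lintegral_const_mul _ hmΨ]; ring
    _ = _ := by
        rw [lintegral_const_mul]
        · ring
        · refine (measurable_gau _).mul ?_
          exact hmΨ.lintegral_kernel.comp (by fun_prop)

end Crest.Agent.R122.Boost969
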