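import Crest.Agent.R122.Boost2_969

/-!
Row 122, block BO (boost lemma), helper969: step kernels of tagged paths, weights.

`stepK μ L N`: from the state `(s₁, x, v)` choose an interaction time `s` and relative parameters `e`
with density `N` with respect to `ds ⊗ μ(de)`; the next leg starts at time `s + dt e` at the position
`x + (s - s₁ + dt e) v + off e` with velocity `v + jump e`.  Delays and offsets are arbitrary
measurable functions of the relative parameters, so the `ε`-dynamics is covered exactly.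
-/

set_option autoImplicit false

open MeasureTheory ProbabilityTheory Crest.AnalysisR.Kinetic
open Crest.Agent.R122.Boltz814 Crest.Agent.R122.Disc416 Crest.Agent.R122.Kin416
open scoped Classical ENNReal

noncomputable section

namespace Crest.Agent.R122.Boost969

/-- Relative data of a change of leg. -/
structure Leg (E : Type*) [MeasurableSpace E] where
  dt : E → ℝ
  off : E → Space3
  jump : E → Space3
  mdt : Measurable dt
  moff : Measurable off
  mjump : Measurable jump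

variable {E : Type*} [MeasurableSpace E]

/-- next state -/
def Leg.out (L : Leg E) (p : LSt × (ℝ × E)) : LSt :=
  (p.2.1 + L.dt p.2.2,
    (p.1.2.1 + (p.2.1 - p.1.1 + L.dt p.2.2) • p.1.2.2 + L.off p.2.2, p.1.2.2 + L.jump p.2.2))

lemma Leg.measurable_out (L : Leg E) : Measurable L.out := by
  unfold Leg.out
  have h1 := L.mdt
  have h2 := L.moff
  have h3 := L.mjump
  refine Measurable.prodMk (by fun_prop) (Measurable.prodMk ?_ (by fun_prop))
  have hc : Measurable (fun p : LSt × (ℝ × E) => p.2.1 - p.1.1 + L.dt p.2.2) := by fun_prop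
  have hv : Measurable (fun p : LSt × (ℝ × E) => p.1.2.2) := by fun_prop
  exact Measurable.add (Measurable.add (by fun_prop) (hc.smul hv)) (by fun_prop)

lemma Leg.out_gal (L : Leg E) (s0 : ℝ) (u : Space3) (z : LSt) (q : ℝ × E) :
    L.out (gal s0 u z, q) = gal s0 u (L.out (z, q)) := by
  unfold Leg.out gal
  refine Prod.ext rfl (Prod.ext ?_ ?_)
  · simp only; module
  · simp only; module

/-- The step kernel. -/
def stepK (μ : Measure E) [SFinite μ] (L : Leg E) (N : LSt → ℝ × E → ℝ≥0∞) : Kernel LSt LSt :=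
  (Kernel.id ×ₖ (Kernel.withDensity (Kernel.const LSt ((volume : Measure ℝ).prod μ)) N)).map L.out

lemma isSFiniteKernel_stepK {μ : Measure E} [SFinite μ] (L : Leg E) {N : LSt → ℝ × E → ℝ≥0∞}
    (hN : ∀ z q, N z q ≠ ∞) : IsSFiniteKernel (stepK μ L N) := by
  have := Kernel.IsSFiniteKernel.withDensity
    (Kernel.const LSt ((volume : Measure ℝ).prod μ)) hN
  unfold stepK
  infer_instance

lemma lintegral_stepK {μ : Measure E} [SFinite μ] (L : Leg E) {N : LSt → ℝ × E → ℝ≥0∞}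
    (hNm : Measurable (Function.uncurry N)) (hN : ∀ z q, N z q ≠ ∞) {F : LSt → ℝ≥0∞}
    (hF : Measurable F) (z : LSt) :
    ∫⁻ z', F z' ∂stepK μ L N z =
      ∫⁻ q, N z q * F (L.out (z, q)) ∂((volume : Measure ℝ).prod μ) := by
  have := Kernel.IsSFiniteKernel.withDensity
    (Kernel.const LSt ((volume : Measure ℝ).prod μ)) hN
  have hFo : Measurable (fun p => F (L.out p)) := hF.comp L.measurable_out
  unfold stepK
  rw [Kernel.lintegral_map _ L.measurable_out _ hF, Kernel.lintegral_id_prod hFo,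
    Kernel.lintegral_withDensity _ hNm]
  · simp only [Kernel.const_apply]
  · exact hFo.comp (measurable_const.prodMk measurable_id)

/-- Domination of the boosts of a step kernel. -/
lemma GalDom.step {μ : Measure E} [SFinite μ] (L : Leg E) {N N' : LSt → ℝ × E → ℝ≥0∞}
    (hNm : Measurable (Function.uncurry N)) (hN : ∀ z q, N z q ≠ ∞)
    (hNm' : Measurable (Function.uncurry N')) (hN' : ∀ z q, N' z q ≠ ∞)
    (h : ∀ (s0 : ℝ) (u : Space3), ‖u‖ ≤ 1 → ∀ z q, N (gal s0 u z) q ≤ N' z q) :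
    GalDom (stepK μ L N) (stepK μ L N') := by
  intro s0 u hu z F hF
  have hm : Measurable (fun z' => F (gal s0 u z')) := hF.comp (measurable_gal s0 u)
  rw [lintegral_stepK L hNm hN hF, lintegral_stepK L hNm' hN' hm]
  refine lintegral_mono fun q => ?_
  rw [L.out_gal]
  exact mul_le_mul_left (h s0 u hu z q) _

/-- monotonicity in the density -/
lemma stepK_mono {μ : Measure E} [SFinite μ] (L : Leg E) {N N' : LSt → ℝ × E → ℝ≥0∞}
    (hNm : Measurable (Function.uncurry N)) (hN : ∀ z q, N z q ≠ ∞)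
    (hNm' : Measurable (Function.uncurry N')) (hN' : ∀ z q, N' z q ≠ ∞)
    (h : ∀ z q, N z q ≤ N' z q) (z : LSt) : stepK μ L N z ≤ stepK μ L N' z := by
  refine Measure.le_intro fun s hs _ => ?_
  rw [← lintegral_indicator_one hs, ← lintegral_indicator_one hs,
    lintegral_stepK L hNm hN (measurable_one.indicator hs),
    lintegral_stepK L hNm' hN' (measurable_one.indicator hs)]
  exact lintegral_mono fun q => mul_le_mul_left (h z q) _

/-! ### Standard densities -/

/-- `1[s > s₁] M e^{-β |v - h e|²}` -/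
def Nf (M β : ℝ) (h : E → Space3) (z : LSt) (q : ℝ × E) : ℝ≥0∞ :=
  if z.1 < q.1 then ENNReal.ofReal M * gau β (z.2.2 - h q.2) else 0

/-- `1[s < s₁] M e^{-β |v - h e|²}` -/
def Nb (M β : ℝ) (h : E → Space3) (z : LSt) (q : ℝ × E) : ℝ≥0∞ :=
  if q.1 < z.1 then ENNReal.ofReal M * gau β (z.2.2 - h q.2) else 0

lemma measurable_Nf (M β : ℝ) {h : E → Space3} (hh : Measurable h) :
    Measurable (Function.uncurry (Nf M β h)) := by
  unfold Nf Function.uncurry
  refine Measurable.ite (measurableSet_lt (by fun_prop) (by fun_prop)) ?_ measurable_const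
  exact measurable_const.mul ((measurable_gau β).comp (by fun_prop))

lemma measurable_Nb (M β : ℝ) {h : E → Space3} (hh : Measurable h) :
    Measurable (Function.uncurry (Nb M β h)) := by
  unfold Nb Function.uncurry
  refine Measurable.ite (measurableSet_lt (by fun_prop) (by fun_prop)) ?_ measurable_const
  exact measurable_const.mul ((measurable_gau β).comp (by fun_prop))

omit [MeasurableSpace E] in
lemma Nf_ne_top (M β : ℝ) (h : E → Space3) (z : LSt) (q : ℝ × E) : Nf M β h z q ≠ ∞ := by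
  unfold Nf
  split_ifs
  · exact ENNReal.mul_ne_top ENNReal.ofReal_ne_top (gau_ne_top _ _)
  · exact ENNReal.zero_ne_top

omit [MeasurableSpace E] in
lemma Nb_ne_top (M β : ℝ) (h : E → Space3) (z : LSt) (q : ℝ × E) : Nb M β h z q ≠ ∞ := by
  unfold Nb
  split_ifs
  · exact ENNReal.mul_ne_top ENNReal.ofReal_ne_top (gau_ne_top _ _)
  · exact ENNReal.zero_ne_top

/-- closed version of `gau_smear` -/
lemma gau_smear' {β : ℝ} (hβ : 0 ≤ β) {u : Space3} (h : ‖u‖ ≤ 1) (w : Space3) :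
    gau β (w + u) ≤ ENNReal.ofReal (Real.exp β) * gau (β / 2) w := by
  unfold gau
  rw [← ENNReal.ofReal_mul (Real.exp_pos _).le, ← Real.exp_add]
  refine ENNReal.ofReal_le_ofReal (Real.exp_le_exp.2 ?_)
  have h1 : ‖w‖ ≤ ‖w + u‖ + 1 := by
    have : w = (w + u) - u := by abel
    calc ‖w‖ = ‖(w + u) - u‖ := by rw [← this]
      _ ≤ ‖w + u‖ + ‖u‖ := norm_sub_le _ _
      _ ≤ _ := by linarith
  have h2 : ‖w‖ ^ 2 ≤ 2 * ‖w + u‖ ^ 2 + 2 := by
    nlinarith [norm_nonneg w, norm_nonneg (w + u), sq_nonneg (‖w + u‖ - 1)]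
  nlinarith

omit [MeasurableSpace E] in
lemma Nf_gal {M β : ℝ} (hβ : 0 ≤ β) (h : E → Space3) (s0 : ℝ) {u : Space3} (hu : ‖u‖ ≤ 1)
    (z : LSt) (q : ℝ × E) :
    Nf M β h (gal s0 u z) q ≤ Nf (M * Real.exp β) (β / 2) h z q := by
  unfold Nf
  have e1 : (gal s0 u z).1 = z.1 := rfl
  have e2 : (gal s0 u z).2.2 - h q.2 = (z.2.2 - h q.2) + u := by simp only [gal]; abel
  rw [e1, e2]
  split_ifs
  · rw [ENNReal.ofReal_mul' (Real.exp_pos β).le, mul_assoc]
    exact mul_le_mul_right (gau_smear' hβ hu _) _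
  · exact le_rfl

omit [MeasurableSpace E] in
lemma Nb_gal {M β : ℝ} (hβ : 0 ≤ β) (h : E → Space3) (s0 : ℝ) {u : Space3} (hu : ‖u‖ ≤ 1)
    (z : LSt) (q : ℝ × E) :
    Nb M β h (gal s0 u z) q ≤ Nb (M * Real.exp β) (β / 2) h z q := by
  unfold Nb
  have e1 : (gal s0 u z).1 = z.1 := rfl
  have e2 : (gal s0 u z).2.2 - h q.2 = (z.2.2 - h q.2) + u := by simp only [gal]; abel
  rw [e1, e2]
  split_ifs
  · rw [ENNReal.ofReal_mul' (Real.exp_pos β).le, mul_assoc]
    exact mul_le_mul_right (gau_smear' hβ hu _) _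
  · exact le_rfl

/-- forward step in a background of density `M e^{-β|w|²}` -/
def fwdK (μ : Measure E) [SFinite μ] (L : Leg E) (g : E → Space3) (M β : ℝ) : Kernel LSt LSt :=
  stepK μ L (Nf M β g)

/-- backward step with leaf density `M e^{-β|w|²}`, `w = v - h e` the incoming partner -/
def bwdK (μ : Measure E) [SFinite μ] (L : Leg E) (h : E → Space3) (M β : ℝ) : Kernel LSt LSt :=
  stepK μ L (Nb M β h)

lemma GalDom.fwd {μ : Measure E} [SFinite μ] (L : Leg E) {g : E → Space3} (hg : Measurable g)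
    {M β : ℝ} (hβ : 0 ≤ β) :
    GalDom (fwdK μ L g M β) (fwdK μ L g (M * Real.exp β) (β / 2)) :=
  GalDom.step L (measurable_Nf M β hg) (Nf_ne_top M β g) (measurable_Nf _ _ hg) (Nf_ne_top _ _ g)
    fun s0 _ hu z q => Nf_gal hβ g s0 hu z q

lemma GalDom.bwd {μ : Measure E} [SFinite μ] (L : Leg E) {h : E → Space3} (hh : Measurable h)
    {M β : ℝ} (hβ : 0 ≤ β) :
    GalDom (bwdK μ L h M β) (bwdK μ L h (M * Real.exp β) (β / 2)) :=
  GalDom.step L (measurable_Nb M β hh) (Nb_ne_top M β h) (measurable_Nb _ _ hh) (Nb_ne_top _ _ h)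
    fun s0 _ hu z q => Nb_gal hβ h s0 hu z q

/-! ### Weights -/

/-- The flux bound for the relative parameters. -/
def Flx (μ : Measure E) (g : E → Space3) (γ C₁ : ℝ) : Prop :=
  ∀ v : Space3, ∫⁻ e, gau γ (v - g e) ∂μ ≤ ENNReal.ofReal (C₁ * (1 + ‖v‖))

lemma Flx.mono {μ : Measure E} {g : E → Space3} {γ γ' C₁ : ℝ} (h : Flx μ g γ C₁) (hγ : γ ≤ γ') :
    Flx μ g γ' C₁ := fun v => (lintegral_mono fun _ => gau_antitone hγ _).trans (h v)

/-- Time integral of an exponential. -/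
lemma lintegral_exp_Ioi {c : ℝ} (hc : 0 < c) (a : ℝ) :
    ∫⁻ s in Set.Ioi a, ENNReal.ofReal (Real.exp (-(c * (s - a)))) = ENNReal.ofReal (1 / c) := by
  have h1 : ∀ s : ℝ, Real.exp (-(c * (s - a))) = Real.exp (c * a) * Real.exp (-c * s) := by
    intro s; rw [← Real.exp_add]; congr 1; ring
  have hint : IntegrableOn (fun s => Real.exp (-(c * (s - a)))) (Set.Ioi a) := by
    simp_rw [h1]
    exact (integrableOn_exp_mul_Ioi (by linarith) a).const_mul _
  rw [← ofReal_integral_eq_lintegral_ofReal hint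
    (Filter.Eventually.of_forall fun s => (Real.exp_pos _).le)]
  congr 1
  simp_rw [h1]
  rw [integral_const_mul, integral_exp_mul_Ioi (by linarith) a]
  have h2 : Real.exp (c * a) * Real.exp (-c * a) = 1 := by
    rw [← Real.exp_add]; simp
  calc Real.exp (c * a) * (-Real.exp (-c * a) / -c)
      = (Real.exp (c * a) * Real.exp (-c * a)) / c := by rw [neg_div_neg_eq]; ring
    _ = 1 / c := by rw [h2]

lemma lintegral_exp_Iio {c : ℝ} (hc : 0 < c) (a : ℝ) :
    ∫⁻ s in Set.Iio a, ENNReal.ofReal (Real.exp (-(c * (a - s)))) = ENNReal.ofReal (1 / c) := by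
  have h1 : ∀ s : ℝ, Real.exp (-(c * (a - s))) = Real.exp (-(c * a)) * Real.exp (c * s) := by
    intro s; rw [← Real.exp_add]; congr 1; ring
  have hint : IntegrableOn (fun s => Real.exp (-(c * (a - s)))) (Set.Iic a) := by
    simp_rw [h1]
    exact (integrableOn_exp_mul_Iic hc a).const_mul _
  rw [setLIntegral_congr Iio_ae_eq_Iic, ← ofReal_integral_eq_lintegral_ofReal hint
    (Filter.Eventually.of_forall fun s => (Real.exp_pos _).le)]
  congr 1
  simp_rw [h1]
  rw [integral_const_mul, integral_exp_mul_Iic hc a]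
  have h2 : Real.exp (-(c * a)) * Real.exp (c * a) = 1 := by
    rw [← Real.exp_add]; simp
  calc Real.exp (-(c * a)) * (Real.exp (c * a) / c)
      = (Real.exp (-(c * a)) * Real.exp (c * a)) / c := by ring
    _ = 1 / c := by rw [h2]

/-- Forward weight: `⊤` for negative times, `0` after the horizon `T`. -/
def Wf (T ν θ κ : ℝ) (z : LSt) : ℝ≥0∞ :=
  if z.1 < 0 then ∞ else if z.1 ≤ T then
    ENNReal.ofReal (Real.exp (ν * (T - z.1) + (θ + κ * (T - z.1)) * ‖z.2.2‖ ^ 2)) else 0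

/-- Backward weight: `0` for negative times, `⊤` after the horizon. -/
def Wb (T ν θ κ : ℝ) (z : LSt) : ℝ≥0∞ :=
  if z.1 < 0 then 0 else if z.1 ≤ T then
    ENNReal.ofReal (Real.exp (ν * z.1 - (θ - κ * z.1) * ‖z.2.2‖ ^ 2)) else ∞

lemma measurable_Wf (T ν θ κ : ℝ) : Measurable (Wf T ν θ κ) := by
  unfold Wf
  refine Measurable.ite (measurableSet_lt (by fun_prop) (by fun_prop)) measurable_const ?_
  refine Measurable.ite (measurableSet_le (by fun_prop) (by fun_prop)) ?_ measurable_const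
  exact ENNReal.measurable_ofReal.comp (Continuous.measurable (by fun_prop))

lemma measurable_Wb (T ν θ κ : ℝ) : Measurable (Wb T ν θ κ) := by
  unfold Wb
  refine Measurable.ite (measurableSet_lt (by fun_prop) (by fun_prop)) measurable_const ?_
  refine Measurable.ite (measurableSet_le (by fun_prop) (by fun_prop)) ?_ measurable_const
  exact ENNReal.measurable_ofReal.comp (Continuous.measurable (by fun_prop))

/-- pointwise estimate inside the forward step -/
lemma fwd_pt {T ν θ κ β M : ℝ} (hν : 0 ≤ ν) (hθ : 0 ≤ θ) (hκ : 0 ≤ κ) (hβ : θ + κ * T ≤ β / 2)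
    {s δ : ℝ} (hs : 0 ≤ s) (hδ : 0 ≤ δ) (v j w x : Space3)
    (hen : ‖v + j‖ ^ 2 ≤ ‖v‖ ^ 2 + ‖w‖ ^ 2) :
    ENNReal.ofReal M * gau β w * Wf T ν θ κ (s + δ, (x, v + j)) ≤
      ENNReal.ofReal M * Wf T ν θ κ (s, (x, v)) * gau (β / 2) w := by
  have hs0 : ¬ (s + δ < 0) := by linarith
  have hs1 : ¬ (s < 0) := by linarith
  unfold Wf
  simp only [hs0, hs1, if_false]
  by_cases h1 : s + δ ≤ T
  · have h2 : s ≤ T := by linarith
    simp only [h1, h2, if_true]
    rw [mul_assoc, mul_assoc]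
    refine mul_le_mul_right ?_ _
    unfold gau
    rw [← ENNReal.ofReal_mul (Real.exp_pos _).le, ← ENNReal.ofReal_mul (Real.exp_pos _).le,
      ← Real.exp_add, ← Real.exp_add]
    refine ENNReal.ofReal_le_ofReal (Real.exp_le_exp.2 ?_)
    have h3 : 0 ≤ θ + κ * (T - (s + δ)) := by nlinarith [mul_nonneg hκ (sub_nonneg.2 h1)]
    have h4 : (θ + κ * (T - (s + δ))) * ‖v + j‖ ^ 2 ≤
        (θ + κ * (T - (s + δ))) * (‖v‖ ^ 2 + ‖w‖ ^ 2) := mul_le_mul_of_nonneg_left hen h3
    have h5 : θ + κ * (T - (s + δ)) ≤ θ + κ * (T - s) := by nlinarith [mul_nonneg hκ hδ]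
    have h6 : (θ + κ * (T - (s + δ))) * (‖v‖ ^ 2 + ‖w‖ ^ 2) ≤
        (θ + κ * (T - s)) * (‖v‖ ^ 2 + ‖w‖ ^ 2) := mul_le_mul_of_nonneg_right h5 (by positivity)
    have h7 : (θ + κ * (T - s)) * ‖w‖ ^ 2 ≤ β / 2 * ‖w‖ ^ 2 := by
      refine mul_le_mul_of_nonneg_right ?_ (sq_nonneg _)
      nlinarith [mul_nonneg hκ hs]
    have h8 : ν * (T - (s + δ)) ≤ ν * (T - s) := by nlinarith [mul_nonneg hν hδ]
    nlinarith
  · simp [h1]

/-- **Forward super-solution.** -/
theorem forward_super {μ : Measure E} [SFinite μ] (L : Leg E) {g : E → Space3} (hg : Measurable g)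
    {T ν θ κ β M C₁ lam : ℝ} (hν : 0 < ν) (hθ : 0 ≤ θ) (hκ : 0 ≤ κ) (hβ : θ + κ * T ≤ β / 2)
    (hM : 0 ≤ M) (hlam : 0 < lam) (hF : Flx μ g (β / 2) C₁)
    (hdt : ∀ᵐ e ∂μ, 0 ≤ L.dt e)
    (hen : ∀ᵐ e ∂μ, ∀ v : Space3, ‖v + L.jump e‖ ^ 2 ≤ ‖v‖ ^ 2 + ‖v - g e‖ ^ 2)
    (hk : ∀ r : ℝ, 0 ≤ r → M * C₁ * (1 + r) ≤ lam * (ν + κ * r ^ 2)) (z : LSt) :
    ∫⁻ z', Wf T ν θ κ z' ∂fwdK μ L g M β z ≤ ENNReal.ofReal lam * Wf T ν θ κ z := by
  have hlam' : ENNReal.ofReal lam ≠ 0 := by simpa using hlam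
  obtain ⟨s1, x, v⟩ := z
  by_cases h0 : s1 < 0
  · have : Wf T ν θ κ (s1, (x, v)) = ∞ := by unfold Wf; simp [h0]
    rw [this, ENNReal.mul_top hlam']
    exact le_top
  push Not at h0
  unfold fwdK
  rw [lintegral_stepK L (measurable_Nf M β hg) (Nf_ne_top M β g) (measurable_Wf T ν θ κ)]
  -- pointwise bound
  have hpt : ∀ᵐ q ∂((volume : Measure ℝ).prod μ), Nf M β g (s1, (x, v)) q *
      Wf T ν θ κ (L.out ((s1, (x, v)), q)) ≤
      (if s1 < q.1 then ENNReal.ofReal M * Wf T ν θ κ (q.1, (x, v)) *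
        gau (β / 2) (v - g q.2) else 0) := by
    have h1 : ∀ᵐ e ∂μ, 0 ≤ L.dt e ∧ ‖v + L.jump e‖ ^ 2 ≤ ‖v‖ ^ 2 + ‖v - g e‖ ^ 2 := by
      filter_upwards [hdt, hen] with e h1 h2 using ⟨h1, h2 v⟩
    have h2 : ∀ᵐ q ∂((volume : Measure ℝ).prod μ),
        0 ≤ L.dt q.2 ∧ ‖v + L.jump q.2‖ ^ 2 ≤ ‖v‖ ^ 2 + ‖v - g q.2‖ ^ 2 :=
      Measure.quasiMeasurePreserving_snd.ae h1
    filter_upwards [h2] with q hq
    unfold Nf
    simp only
    split_ifs with hs
    · have h3 := fwd_pt (T := T) (ν := ν) (θ := θ) (κ := κ) (β := β) (M := M) hν.le hθ hκ hβ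
        (s := q.1) (δ := L.dt q.2) (by linarith) hq.1 v (L.jump q.2) (v - g q.2)
        (x + (q.1 - s1 + L.dt q.2) • v + L.off q.2) hq.2
      have e3 : Wf T ν θ κ (q.1, (x + (q.1 - s1 + L.dt q.2) • v + L.off q.2, v)) =
        Wf T ν θ κ (q.1, (x, v)) := rfl
      rw [e3] at h3
      exact h3
    · simp
  refine (lintegral_mono_ae hpt).trans ?_
  have hmW : Measurable (fun s : ℝ => Wf T ν θ κ (s, (x, v))) :=
    (measurable_Wf T ν θ κ).comp (by fun_prop)
  have hmg : Measurable (fun e : E => gau (β / 2) (v - g e)) :=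
    (measurable_gau _).comp (measurable_const.sub hg)
  have hmi : Measurable (fun q : ℝ × E => if s1 < q.1 then ENNReal.ofReal M *
      Wf T ν θ κ (q.1, (x, v)) * gau (β / 2) (v - g q.2) else 0) := by
    refine Measurable.ite (measurableSet_lt (by fun_prop) (by fun_prop)) ?_ measurable_const
    exact ((measurable_const.mul (hmW.comp measurable_fst))).mul (hmg.comp measurable_snd)
  rw [lintegral_prod _ hmi.aemeasurable]
  set c : ℝ := ν + κ * ‖v‖ ^ 2 with hc
  have hc0 : 0 < c := by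
    have : 0 ≤ κ * ‖v‖ ^ 2 := by positivity
    linarith
  have hC : M * C₁ * (1 + ‖v‖) ≤ lam * c := hk _ (norm_nonneg v)
  -- the inner integral
  have hin : ∀ s : ℝ, ∫⁻ e, (if s1 < s then ENNReal.ofReal M *
      Wf T ν θ κ (s, (x, v)) * gau (β / 2) (v - g e) else 0) ∂μ ≤
      ENNReal.ofReal (M * C₁ * (1 + ‖v‖)) * (Wf T ν θ κ (s1, (x, v)) *
        (Set.Ioi s1).indicator (fun s => ENNReal.ofReal (Real.exp (-(c * (s - s1))))) s) := by
    intro s
    by_cases hs : s1 < s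
    · simp only [hs, if_true]
      rw [lintegral_const_mul _ hmg, Set.indicator_of_mem (Set.mem_Ioi.2 hs)]
      have hW : Wf T ν θ κ (s, (x, v)) ≤ Wf T ν θ κ (s1, (x, v)) *
          ENNReal.ofReal (Real.exp (-(c * (s - s1)))) := by
        unfold Wf
        have hn1 : ¬ (s < 0) := by linarith
        have hn2 : ¬ (s1 < 0) := by linarith
        simp only [hn1, hn2, if_false]
        by_cases hT : s ≤ T
        · have hT1 : s1 ≤ T := by linarith
          simp only [hT, hT1, if_true]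
          rw [← ENNReal.ofReal_mul (Real.exp_pos _).le, ← Real.exp_add]
          refine ENNReal.ofReal_le_ofReal (Real.exp_le_exp.2 (le_of_eq ?_))
          rw [hc]; ring
        · simp [hT]
      calc ENNReal.ofReal M * Wf T ν θ κ (s, (x, v)) * ∫⁻ e, gau (β / 2) (v - g e) ∂μ
          ≤ ENNReal.ofReal M * (Wf T ν θ κ (s1, (x, v)) *
            ENNReal.ofReal (Real.exp (-(c * (s - s1))))) * ENNReal.ofReal (C₁ * (1 + ‖v‖)) := by
            gcongr
            exact hF v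
        _ = _ := by
            rw [mul_assoc M, ENNReal.ofReal_mul hM]
            ring
    · simp [hs]
  refine (lintegral_mono hin).trans ?_
  have hme : Measurable (fun s : ℝ => (Set.Ioi s1).indicator
      (fun s => ENNReal.ofReal (Real.exp (-(c * (s - s1))))) s) := by
    refine Measurable.indicator ?_ measurableSet_Ioi
    exact ENNReal.measurable_ofReal.comp (Continuous.measurable (by fun_prop))
  rw [lintegral_const_mul _ (hme.const_mul _), lintegral_const_mul _ hme,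
    lintegral_indicator measurableSet_Ioi, lintegral_exp_Ioi hc0]
  calc ENNReal.ofReal (M * C₁ * (1 + ‖v‖)) * (Wf T ν θ κ (s1, (x, v)) * ENNReal.ofReal (1 / c))
      ≤ ENNReal.ofReal (lam * c) * (Wf T ν θ κ (s1, (x, v)) * ENNReal.ofReal (1 / c)) := by
        gcongr
    _ = (ENNReal.ofReal (lam * c) * ENNReal.ofReal (1 / c)) * Wf T ν θ κ (s1, (x, v)) := by ring
    _ = _ := by
        rw [← ENNReal.ofReal_mul (by positivity)]
        congr 2
        field_simp

/-- pointwise estimate inside the backward step -/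
lemma bwd_pt {T ν θ κ β γ₀ M : ℝ} (hν : 0 ≤ ν) (hκ : 0 ≤ κ) (hγ₀ : 0 ≤ γ₀)
    (hθ : γ₀ ≤ θ - κ * T) (hβ : θ ≤ β)
    {s δ : ℝ} (hsT : s ≤ T) (hδ : δ ≤ 0) (v j w w' x : Space3)
    (hen : ‖v‖ ^ 2 + ‖w‖ ^ 2 ≤ ‖v + j‖ ^ 2 + ‖w'‖ ^ 2) :
    ENNReal.ofReal M * gau β w' * Wb T ν θ κ (s + δ, (x, v + j)) ≤
      ENNReal.ofReal M * Wb T ν θ κ (s, (x, v)) * gau γ₀ w := by
  by_cases h0 : s + δ < 0
  · have : Wb T ν θ κ (s + δ, (x, v + j)) = 0 := by unfold Wb; simp [h0]
    rw [this, mul_zero]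
    exact bot_le
  push Not at h0
  have hs0 : ¬ (s + δ < 0) := by linarith
  have hs1 : ¬ (s < 0) := by linarith
  have h1 : s + δ ≤ T := by linarith
  unfold Wb
  simp only [hs0, hs1, if_false, h1, hsT, if_true]
  rw [mul_assoc, mul_assoc]
  refine mul_le_mul_right ?_ _
  unfold gau
  rw [← ENNReal.ofReal_mul (Real.exp_pos _).le, ← ENNReal.ofReal_mul (Real.exp_pos _).le,
    ← Real.exp_add, ← Real.exp_add]
  refine ENNReal.ofReal_le_ofReal (Real.exp_le_exp.2 ?_)
  have hs : 0 ≤ s := by linarith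
  have h2 : γ₀ ≤ θ - κ * s := by nlinarith [mul_le_mul_of_nonneg_left hsT hκ]
  have h2' : 0 ≤ θ - κ * s := hγ₀.trans h2
  have h3 : θ - κ * s ≤ θ - κ * (s + δ) := by nlinarith [mul_nonneg hκ (neg_nonneg.2 hδ)]
  have h4 : (θ - κ * s) * (‖v‖ ^ 2 + ‖w‖ ^ 2) ≤ (θ - κ * s) * (‖v + j‖ ^ 2 + ‖w'‖ ^ 2) :=
    mul_le_mul_of_nonneg_left hen h2'
  have h5 : (θ - κ * s) * ‖v + j‖ ^ 2 ≤ (θ - κ * (s + δ)) * ‖v + j‖ ^ 2 :=
    mul_le_mul_of_nonneg_right h3 (sq_nonneg _)
  have h6 : (θ - κ * s) * ‖w'‖ ^ 2 ≤ β * ‖w'‖ ^ 2 := by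
    refine mul_le_mul_of_nonneg_right ?_ (sq_nonneg _)
    nlinarith [mul_nonneg hκ hs]
  have h7 : γ₀ * ‖w‖ ^ 2 ≤ (θ - κ * s) * ‖w‖ ^ 2 := mul_le_mul_of_nonneg_right h2 (sq_nonneg _)
  have h8 : ν * (s + δ) ≤ ν * s := by nlinarith [mul_nonneg hν (neg_nonneg.2 hδ)]
  nlinarith

/-- **Backward super-solution.** -/
theorem backward_super {μ : Measure E} [SFinite μ] (L : Leg E) {g h : E → Space3}
    (hg : Measurable g) (hh : Measurable h)
    {T ν θ κ β γ₀ M C₁ lam : ℝ} (hν : 0 < ν) (hκ : 0 ≤ κ) (hγ₀ : 0 ≤ γ₀) (hθ : γ₀ ≤ θ - κ * T)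
    (hβ : θ ≤ β) (hM : 0 ≤ M) (hlam : 0 < lam) (hF : Flx μ g γ₀ C₁)
    (hdt : ∀ᵐ e ∂μ, L.dt e ≤ 0)
    (hen : ∀ᵐ e ∂μ, ∀ v : Space3, ‖v‖ ^ 2 + ‖v - g e‖ ^ 2 ≤ ‖v + L.jump e‖ ^ 2 + ‖v - h e‖ ^ 2)
    (hk : ∀ r : ℝ, 0 ≤ r → M * C₁ * (1 + r) ≤ lam * (ν + κ * r ^ 2)) (z : LSt) :
    ∫⁻ z', Wb T ν θ κ z' ∂bwdK μ L h M β z ≤ ENNReal.ofReal lam * Wb T ν θ κ z := by
  have hlam' : ENNReal.ofReal lam ≠ 0 := by simpa using hlam
  obtain ⟨s1, x, v⟩ := z
  by_cases h0 : T < s1
  · by_cases h00 : s1 < 0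
    · -- everything vanishes: `s < s1 < 0`
      unfold bwdK
      rw [lintegral_stepK L (measurable_Nb M β hh) (Nb_ne_top M β h) (measurable_Wb T ν θ κ)]
      have hz : ∀ᵐ q ∂((volume : Measure ℝ).prod μ), Nb M β h (s1, (x, v)) q *
          Wb T ν θ κ (L.out ((s1, (x, v)), q)) = 0 := by
        filter_upwards [Measure.quasiMeasurePreserving_snd.ae hdt] with q hq
        unfold Nb
        simp only
        split_ifs with hs
        · have : Wb T ν θ κ (L.out ((s1, (x, v)), q)) = 0 := by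
            unfold Wb Leg.out
            simp only
            rw [if_pos (by linarith)]
          rw [this, mul_zero]
        · simp
      rw [lintegral_congr_ae hz]
      simp
    · have : Wb T ν θ κ (s1, (x, v)) = ∞ := by
        unfold Wb; simp [h00, not_le.2 h0]
      rw [this, ENNReal.mul_top hlam']
      exact le_top
  push Not at h0
  unfold bwdK
  rw [lintegral_stepK L (measurable_Nb M β hh) (Nb_ne_top M β h) (measurable_Wb T ν θ κ)]
  -- pointwise bound
  have hpt : ∀ᵐ q ∂((volume : Measure ℝ).prod μ), Nb M β h (s1, (x, v)) q *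
      Wb T ν θ κ (L.out ((s1, (x, v)), q)) ≤
      (if q.1 < s1 then ENNReal.ofReal M * Wb T ν θ κ (q.1, (x, v)) *
        gau γ₀ (v - g q.2) else 0) := by
    have h1 : ∀ᵐ e ∂μ, L.dt e ≤ 0 ∧
        ‖v‖ ^ 2 + ‖v - g e‖ ^ 2 ≤ ‖v + L.jump e‖ ^ 2 + ‖v - h e‖ ^ 2 := by
      filter_upwards [hdt, hen] with e h1 h2 using ⟨h1, h2 v⟩
    have h2 : ∀ᵐ q ∂((volume : Measure ℝ).prod μ), L.dt q.2 ≤ 0 ∧
        ‖v‖ ^ 2 + ‖v - g q.2‖ ^ 2 ≤ ‖v + L.jump q.2‖ ^ 2 + ‖v - h q.2‖ ^ 2 :=
      Measure.quasiMeasurePreserving_snd.ae h1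
    filter_upwards [h2] with q hq
    unfold Nb
    simp only
    split_ifs with hs
    · have h3 := bwd_pt (T := T) (ν := ν) (θ := θ) (κ := κ) (β := β) (M := M) hν.le hκ hγ₀ hθ hβ
        (s := q.1) (δ := L.dt q.2) (by linarith) hq.1 v (L.jump q.2) (v - g q.2) (v - h q.2)
        (x + (q.1 - s1 + L.dt q.2) • v + L.off q.2) hq.2
      have e3 : Wb T ν θ κ (q.1, (x + (q.1 - s1 + L.dt q.2) • v + L.off q.2, v)) =
        Wb T ν θ κ (q.1, (x, v)) := rfl
      rw [e3] at h3
      exact h3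
    · simp
  refine (lintegral_mono_ae hpt).trans ?_
  have hmW : Measurable (fun s : ℝ => Wb T ν θ κ (s, (x, v))) :=
    (measurable_Wb T ν θ κ).comp (by fun_prop)
  have hmg : Measurable (fun e : E => gau γ₀ (v - g e)) :=
    (measurable_gau _).comp (measurable_const.sub hg)
  have hmi : Measurable (fun q : ℝ × E => if q.1 < s1 then ENNReal.ofReal M *
      Wb T ν θ κ (q.1, (x, v)) * gau γ₀ (v - g q.2) else 0) := by
    refine Measurable.ite (measurableSet_lt (by fun_prop) (by fun_prop)) ?_ measurable_const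
    exact ((measurable_const.mul (hmW.comp measurable_fst))).mul (hmg.comp measurable_snd)
  rw [lintegral_prod _ hmi.aemeasurable]
  set c : ℝ := ν + κ * ‖v‖ ^ 2 with hc
  have hc0 : 0 < c := by
    have : 0 ≤ κ * ‖v‖ ^ 2 := by positivity
    linarith
  have hC : M * C₁ * (1 + ‖v‖) ≤ lam * c := hk _ (norm_nonneg v)
  have hin : ∀ s : ℝ, ∫⁻ e, (if s < s1 then ENNReal.ofReal M *
      Wb T ν θ κ (s, (x, v)) * gau γ₀ (v - g e) else 0) ∂μ ≤
      ENNReal.ofReal (M * C₁ * (1 + ‖v‖)) * (Wb T ν θ κ (s1, (x, v)) *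
        (Set.Iio s1).indicator (fun s => ENNReal.ofReal (Real.exp (-(c * (s1 - s))))) s) := by
    intro s
    by_cases hs : s < s1
    · simp only [hs, if_true]
      rw [lintegral_const_mul _ hmg, Set.indicator_of_mem (Set.mem_Iio.2 hs)]
      have hW : Wb T ν θ κ (s, (x, v)) ≤ Wb T ν θ κ (s1, (x, v)) *
          ENNReal.ofReal (Real.exp (-(c * (s1 - s)))) := by
        by_cases hn1 : s < 0
        · have : Wb T ν θ κ (s, (x, v)) = 0 := by unfold Wb; simp [hn1]
          rw [this]; exact bot_le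
        unfold Wb
        have hn2 : ¬ (s1 < 0) := by push Not at hn1; linarith
        have hT : s ≤ T := by linarith
        simp only [hn1, hn2, if_false, hT, h0, if_true]
        rw [← ENNReal.ofReal_mul (Real.exp_pos _).le, ← Real.exp_add]
        refine ENNReal.ofReal_le_ofReal (Real.exp_le_exp.2 (le_of_eq ?_))
        rw [hc]; ring
      calc ENNReal.ofReal M * Wb T ν θ κ (s, (x, v)) * ∫⁻ e, gau γ₀ (v - g e) ∂μ
          ≤ ENNReal.ofReal M * (Wb T ν θ κ (s1, (x, v)) *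
            ENNReal.ofReal (Real.exp (-(c * (s1 - s))))) * ENNReal.ofReal (C₁ * (1 + ‖v‖)) := by
            gcongr
            exact hF v
        _ = _ := by
            rw [mul_assoc M, ENNReal.ofReal_mul hM]
            ring
    · simp [hs]
  refine (lintegral_mono hin).trans ?_
  have hme : Measurable (fun s : ℝ => (Set.Iio s1).indicator
      (fun s => ENNReal.ofReal (Real.exp (-(c * (s1 - s))))) s) := by
    refine Measurable.indicator ?_ measurableSet_Iio
    exact ENNReal.measurable_ofReal.comp (Continuous.measurable (by fun_prop))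
  rw [lintegral_const_mul _ (hme.const_mul _), lintegral_const_mul _ hme,
    lintegral_indicator measurableSet_Iio, lintegral_exp_Iio hc0]
  calc ENNReal.ofReal (M * C₁ * (1 + ‖v‖)) * (Wb T ν θ κ (s1, (x, v)) * ENNReal.ofReal (1 / c))
      ≤ ENNReal.ofReal (lam * c) * (Wb T ν θ κ (s1, (x, v)) * ENNReal.ofReal (1 / c)) := by
        gcongr
    _ = (ENNReal.ofReal (lam * c) * ENNReal.ofReal (1 / c)) * Wb T ν θ κ (s1, (x, v)) := by ring
    _ = _ := by
        rw [← ENNReal.ofReal_mul (by positivity)]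
        congr 2
        field_simp

/-! ### A vertex time restricted to a short window -/

/-- forward step with the interaction `(s, e)` restricted to the set `J` -/
def winK (μ : Measure E) [SFinite μ] (L : Leg E) (g : E → Space3) (M β : ℝ) (J : Set (ℝ × E)) :
    Kernel LSt LSt :=
  stepK μ L (fun z q => if q ∈ J then Nf M β g z q else 0)

lemma measurable_win {M β : ℝ} {g : E → Space3} (hg : Measurable g) {J : Set (ℝ × E)}
    (hJ : MeasurableSet J) :
    Measurable (Function.uncurry (fun (z : LSt) q => if q ∈ J then Nf M β g z q else 0)) := by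
  unfold Function.uncurry
  exact Measurable.ite (measurable_snd hJ) (measurable_Nf M β hg) measurable_const

omit [MeasurableSpace E] in
lemma win_ne_top (M β : ℝ) (g : E → Space3) (J : Set (ℝ × E)) (z : LSt) (q : ℝ × E) :
    (if q ∈ J then Nf M β g z q else 0) ≠ ∞ := by
  split_ifs
  · exact Nf_ne_top _ _ _ _ _
  · exact ENNReal.zero_ne_top

lemma GalDom.win {μ : Measure E} [SFinite μ] (L : Leg E) {g : E → Space3} (hg : Measurable g)
    {M β : ℝ} (hβ : 0 ≤ β) {J : Set (ℝ × E)} (hJ : MeasurableSet J) :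
    GalDom (winK μ L g M β J) (winK μ L g (M * Real.exp β) (β / 2) J) := by
  refine GalDom.step L (measurable_win hg hJ) (win_ne_top M β g J) (measurable_win hg hJ)
    (win_ne_top _ _ g J) fun s0 u hu z q => ?_
  split_ifs
  · exact Nf_gal hβ g s0 hu z q
  · exact le_rfl

/-- **Windowed step**: the mass of interactions in a set of duration `η` is `O(η)`. -/
theorem window_super {μ : Measure E} [SFinite μ] (L : Leg E) {g : E → Space3} (hg : Measurable g)
    {T ν θ θ' κ β M C₁ C₂ η : ℝ} (hν : 0 ≤ ν) (hθ : 0 ≤ θ) (hκ : 0 ≤ κ) (hβ : θ + κ * T ≤ β / 2)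
    (hM : 0 ≤ M) (hC₂ : 0 ≤ C₂) (hη : 0 < η) (hC₂' : 0 < C₂) (hF : Flx μ g (β / 2) C₁)
    (hdt : ∀ᵐ e ∂μ, 0 ≤ L.dt e)
    (hen : ∀ᵐ e ∂μ, ∀ v : Space3, ‖v + L.jump e‖ ^ 2 ≤ ‖v‖ ^ 2 + ‖v - g e‖ ^ 2)
    (hk : ∀ r : ℝ, 0 ≤ r → M * C₁ * (1 + r) ≤ C₂ * Real.exp ((θ' - θ) * r ^ 2))
    {J : Set (ℝ × E)} (hJ : MeasurableSet J)
    (hJη : ∀ e, volume {s : ℝ | (s, e) ∈ J} ≤ ENNReal.ofReal η) (z : LSt) :
    ∫⁻ z', Wf T ν θ κ z' ∂winK μ L g M β J z ≤
      ENNReal.ofReal (C₂ * η) * Wf T ν θ' κ z := by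
  have hCη : ENNReal.ofReal (C₂ * η) ≠ 0 := by
    have : 0 < C₂ * η := by positivity
    simpa using this
  obtain ⟨s1, x, v⟩ := z
  by_cases h0 : s1 < 0
  · have : Wf T ν θ' κ (s1, (x, v)) = ∞ := by unfold Wf; simp [h0]
    rw [this, ENNReal.mul_top hCη]
    exact le_top
  push Not at h0
  unfold winK
  rw [lintegral_stepK L (measurable_win hg hJ) (win_ne_top M β g J) (measurable_Wf T ν θ κ)]
  have hpt : ∀ᵐ q ∂((volume : Measure ℝ).prod μ),
      (if q ∈ J then Nf M β g (s1, (x, v)) q else 0) *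
      Wf T ν θ κ (L.out ((s1, (x, v)), q)) ≤
      ENNReal.ofReal M * Wf T ν θ κ (s1, (x, v)) * (gau (β / 2) (v - g q.2) *
        J.indicator 1 q) := by
    have h1 : ∀ᵐ e ∂μ, 0 ≤ L.dt e ∧ ‖v + L.jump e‖ ^ 2 ≤ ‖v‖ ^ 2 + ‖v - g e‖ ^ 2 := by
      filter_upwards [hdt, hen] with e h1 h2 using ⟨h1, h2 v⟩
    have h2 : ∀ᵐ q ∂((volume : Measure ℝ).prod μ),
        0 ≤ L.dt q.2 ∧ ‖v + L.jump q.2‖ ^ 2 ≤ ‖v‖ ^ 2 + ‖v - g q.2‖ ^ 2 :=
      Measure.quasiMeasurePreserving_snd.ae h1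
    filter_upwards [h2] with q hq
    by_cases hqJ : q ∈ J
    · simp only [hqJ, if_true, Set.indicator_of_mem, Pi.one_apply, mul_one]
      unfold Nf
      simp only
      split_ifs with hs
      · have h3 := fwd_pt (T := T) (ν := ν) (θ := θ) (κ := κ) (β := β) (M := M) hν hθ hκ hβ
          (s := q.1) (δ := L.dt q.2) (by linarith) hq.1 v (L.jump q.2) (v - g q.2)
          (x + (q.1 - s1 + L.dt q.2) • v + L.off q.2) hq.2
        have e3 : Wf T ν θ κ (q.1, (x + (q.1 - s1 + L.dt q.2) • v + L.off q.2, v)) ≤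
            Wf T ν θ κ (s1, (x, v)) := by
          unfold Wf
          have hn1 : ¬ (q.1 < 0) := by linarith
          have hn2 : ¬ (s1 < 0) := by linarith
          simp only [hn1, hn2, if_false]
          by_cases hT : q.1 ≤ T
          · have hT1 : s1 ≤ T := by linarith
            simp only [hT, hT1, if_true]
            refine ENNReal.ofReal_le_ofReal (Real.exp_le_exp.2 ?_)
            have h4 : 0 ≤ κ * (q.1 - s1) * ‖v‖ ^ 2 := by
              have : 0 ≤ q.1 - s1 := by linarith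
              positivity
            have h5 : 0 ≤ ν * (q.1 - s1) := mul_nonneg hν (by linarith)
            nlinarith
          · simp [hT]
        exact h3.trans (by gcongr)
      · simp
    · simp [hqJ]
  refine (lintegral_mono_ae hpt).trans ?_
  have hmg : Measurable (fun e : E => gau (β / 2) (v - g e)) :=
    (measurable_gau _).comp (measurable_const.sub hg)
  have hmi : Measurable (fun q : ℝ × E => gau (β / 2) (v - g q.2) *
      J.indicator (1 : ℝ × E → ℝ≥0∞) q) :=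
    (hmg.comp measurable_snd).mul (measurable_one.indicator hJ)
  rw [lintegral_const_mul _ hmi, lintegral_prod_symm _ hmi.aemeasurable]
  have hin : ∀ e : E, ∫⁻ s : ℝ, gau (β / 2) (v - g (s, e).2) * J.indicator 1 (s, e) ≤
      gau (β / 2) (v - g e) * ENNReal.ofReal η := by
    intro e
    have hms : MeasurableSet {s : ℝ | (s, e) ∈ J} := measurable_prodMk_right hJ
    have e4 : ∀ s : ℝ, J.indicator (1 : ℝ × E → ℝ≥0∞) (s, e) =
        ({s : ℝ | (s, e) ∈ J}).indicator (1 : ℝ → ℝ≥0∞) s := by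
      intro s
      by_cases hs : (s, e) ∈ J
      · rw [Set.indicator_of_mem hs, Set.indicator_of_mem (show s ∈ {s : ℝ | (s, e) ∈ J} from hs)]
        rfl
      · rw [Set.indicator_of_notMem hs,
          Set.indicator_of_notMem (show s ∉ {s : ℝ | (s, e) ∈ J} from hs)]
    simp only [e4]
    rw [lintegral_const_mul _ (measurable_one.indicator hms), lintegral_indicator_one hms]
    exact mul_le_mul_right (hJη e) _
  calc ENNReal.ofReal M * Wf T ν θ κ (s1, (x, v)) *
        ∫⁻ e, ∫⁻ s : ℝ, gau (β / 2) (v - g (s, e).2) * J.indicator 1 (s, e) ∂volume ∂μ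
      ≤ ENNReal.ofReal M * Wf T ν θ κ (s1, (x, v)) *
        ∫⁻ e, gau (β / 2) (v - g e) * ENNReal.ofReal η ∂μ := by
        gcongr with e
        exact hin e
    _ ≤ ENNReal.ofReal M * Wf T ν θ κ (s1, (x, v)) *
        (ENNReal.ofReal (C₁ * (1 + ‖v‖)) * ENNReal.ofReal η) := by
        rw [lintegral_mul_const _ hmg]
        gcongr
        exact hF v
    _ = ENNReal.ofReal (M * C₁ * (1 + ‖v‖)) * ENNReal.ofReal η * Wf T ν θ κ (s1, (x, v)) := by
        rw [mul_assoc M, ENNReal.ofReal_mul hM]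
        ring
    _ ≤ ENNReal.ofReal (C₂ * Real.exp ((θ' - θ) * ‖v‖ ^ 2)) * ENNReal.ofReal η *
          Wf T ν θ κ (s1, (x, v)) :=
        mul_le_mul_left (mul_le_mul_left (ENNReal.ofReal_le_ofReal (hk _ (norm_nonneg v))) _) _
    _ = ENNReal.ofReal (C₂ * η) * (ENNReal.ofReal (Real.exp ((θ' - θ) * ‖v‖ ^ 2)) *
          Wf T ν θ κ (s1, (x, v))) := by
        rw [ENNReal.ofReal_mul hC₂, ENNReal.ofReal_mul hC₂]
        ring
    _ ≤ _ := by
        refine mul_le_mul_right ?_ _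
        unfold Wf
        have hn2 : ¬ (s1 < 0) := by linarith
        simp only [hn2, if_false]
        by_cases hT : s1 ≤ T
        · simp only [hT, if_true]
          rw [← ENNReal.ofReal_mul (Real.exp_pos _).le, ← Real.exp_add]
          refine ENNReal.ofReal_le_ofReal (Real.exp_le_exp.2 (le_of_eq ?_))
          ring
        · simp [hT]

end Crest.Agent.R122.Boost969
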