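import Crest.Agent.R122.Boost3_969
import Crest.Agent.R122.Sweep_815

/-!
Row 122, block BO (boost lemma), helper969: spread measures on lines.

`Spr s₀ Ξ ν`: the law `ν` of a line (birth time, position, velocity) is dominated by the average of
the unit Galilean boosts about the time `s₀` of the profile `Ξ`.  Point sources with Gaussian
velocities are spread, and the property is stable under the continuation kernels (`GalDom`).
Consequences: bounded position density at times `t ≠ s₀`, flux through an obstacle, full density of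
the lines linked to a spread line.
-/

set_option autoImplicit false

open MeasureTheory ProbabilityTheory Crest.AnalysisR.Kinetic
open Crest.Agent.R122.Boltz814 Crest.Agent.R122.Disc416 Crest.Agent.R122.Kin416
open scoped Classical ENNReal

noncomputable section

namespace Crest.Agent.R122.Boost969

/-- average over unit boosts -/
def avg (s0 : ℝ) (F : LSt → ℝ≥0∞) (z : LSt) : ℝ≥0∞ :=
  ∫⁻ u in Metric.ball (0 : Space3) 1, F (gal s0 u z)

lemma measurable_avg (s0 : ℝ) {F : LSt → ℝ≥0∞} (hF : Measurable F) : Measurable (avg s0 F) := by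
  unfold avg
  have h1 : Measurable (fun p : LSt × Space3 => F (gal s0 p.2 p.1)) :=
    hF.comp ((measurable_gal_uz s0).comp (measurable_snd.prodMk measurable_fst))
  exact h1.lintegral_prod_right'

lemma avg_mono (s0 : ℝ) {F G : LSt → ℝ≥0∞} (h : ∀ z, F z ≤ G z) (z : LSt) :
    avg s0 F z ≤ avg s0 G z := lintegral_mono fun _ => h _

/-- **Spread measures.** -/
def Spr (s0 : ℝ) (Ξ ν : Measure LSt) : Prop :=
  ∀ F : LSt → ℝ≥0∞, Measurable F → ∫⁻ z, F z ∂ν ≤ ∫⁻ z, avg s0 F z ∂Ξ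

lemma Spr.mono {s0 : ℝ} {Ξ Ξ' ν ν' : Measure LSt} (h : Spr s0 Ξ ν) (h1 : Ξ ≤ Ξ') (h2 : ν' ≤ ν) :
    Spr s0 Ξ' ν' := fun F hF =>
  (lintegral_mono' h2 le_rfl).trans ((h F hF).trans (lintegral_mono' h1 le_rfl))

lemma Spr.add {s0 : ℝ} {Ξ Ξ' ν ν' : Measure LSt} (h : Spr s0 Ξ ν) (h' : Spr s0 Ξ' ν') :
    Spr s0 (Ξ + Ξ') (ν + ν') := by
  intro F hF
  rw [lintegral_add_measure, lintegral_add_measure]
  exact add_le_add (h F hF) (h' F hF)

lemma Spr.smul {s0 : ℝ} {Ξ ν : Measure LSt} (h : Spr s0 Ξ ν) (c : ℝ≥0∞) :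
    Spr s0 (c • Ξ) (c • ν) := by
  intro F hF
  rw [lintegral_smul_measure, lintegral_smul_measure]
  exact mul_le_mul_right (h F hF) c

lemma Spr.sum {ι : Type*} {s0 : ℝ} {Ξ ν : ι → Measure LSt} (h : ∀ i, Spr s0 (Ξ i) (ν i)) :
    Spr s0 (Measure.sum Ξ) (Measure.sum ν) := by
  intro F hF
  rw [lintegral_sum_measure, lintegral_sum_measure]
  exact ENNReal.tsum_le_tsum fun i => h i F hF

/-- mixtures -/
lemma Spr.mix {Ω : Type*} [MeasurableSpace Ω] {s0 : ℝ} (m : Measure Ω) (Ξ ν : Kernel Ω LSt)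
    (h : ∀ᵐ ω ∂m, Spr s0 (Ξ ω) (ν ω)) : Spr s0 (m.bind Ξ) (m.bind ν) := by
  intro F hF
  rw [Measure.lintegral_bind ν.aemeasurable hF.aemeasurable,
    Measure.lintegral_bind Ξ.aemeasurable (measurable_avg s0 hF).aemeasurable]
  refine lintegral_mono_ae ?_
  filter_upwards [h] with ω hω using hω F hF

/-- **Continuation.** -/
theorem Spr.bind {s0 : ℝ} {Ξ ν : Measure LSt} (h : Spr s0 Ξ ν) {κ κ' : Kernel LSt LSt}
    [IsSFiniteKernel κ'] (hκ : GalDom κ κ') : Spr s0 (Ξ.bind κ') (ν.bind κ) := by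
  intro F hF
  rw [Measure.lintegral_bind κ.aemeasurable hF.aemeasurable,
    Measure.lintegral_bind κ'.aemeasurable (measurable_avg s0 hF).aemeasurable]
  refine (h _ hF.lintegral_kernel).trans (lintegral_mono fun z => ?_)
  unfold avg
  have hm : Measurable (fun p : Space3 × LSt => F (gal s0 p.1 p.2)) :=
    hF.comp (measurable_gal_uz s0)
  calc ∫⁻ u in Metric.ball (0 : Space3) 1, ∫⁻ z', F z' ∂κ (gal s0 u z)
      ≤ ∫⁻ u in Metric.ball (0 : Space3) 1, ∫⁻ z', F (gal s0 u z') ∂κ' z := by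
        refine setLIntegral_mono' measurableSet_ball fun u hu => ?_
        have hu' : ‖u‖ < 1 := by simpa using hu
        exact hκ s0 u hu'.le z F hF
    _ = _ := lintegral_lintegral_swap hm.aemeasurable

/-! ### Point sources -/

/-- the law of a line born at the space-time point `(s0, y)` with velocity density `G` -/
def srcM (s0 : ℝ) (y : Space3) (G : Space3 → ℝ≥0∞) : Measure LSt :=
  ((volume : Measure Space3).withDensity G).map (fun v => (s0, (y, v)))

lemma lintegral_srcM (s0 : ℝ) (y : Space3) {G : Space3 → ℝ≥0∞} (hG : Measurable G)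
    {F : LSt → ℝ≥0∞} (hF : Measurable F) :
    ∫⁻ z, F z ∂srcM s0 y G = ∫⁻ v, G v * F (s0, (y, v)) := by
  unfold srcM
  rw [lintegral_map hF (by fun_prop), lintegral_withDensity_eq_lintegral_mul _ hG]
  · rfl
  · exact hF.comp (by fun_prop)

/-- inverse volume of the unit ball -/
def cB : ℝ≥0∞ := (volume (Metric.ball (0 : Space3) 1))⁻¹

lemma vol_ball_ne_zero : volume (Metric.ball (0 : Space3) 1) ≠ 0 :=
  (Metric.measure_ball_pos _ _ one_pos).ne'

lemma vol_ball_ne_top : volume (Metric.ball (0 : Space3) 1) ≠ ∞ := measure_ball_lt_top.ne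

lemma cB_ne_top : cB ≠ ∞ := ENNReal.inv_ne_top.2 vol_ball_ne_zero

/-- **Point sources are spread.** -/
theorem Spr.src (s0 : ℝ) (y : Space3) {b : ℝ} (hb : 0 ≤ b) {G : Space3 → ℝ≥0∞}
    (hGm : Measurable G) {M : ℝ≥0∞} (hG : ∀ v, G v ≤ M * gau b v) :
    Spr s0 (srcM s0 y (fun v => M * cB * ENNReal.ofReal (Real.exp b) * gau (b / 2) v))
      (srcM s0 y G) := by
  intro F hF
  have hmg : Measurable (fun v => M * cB * ENNReal.ofReal (Real.exp b) * gau (b / 2) v) :=
    (measurable_gau _).const_mul _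
  rw [lintegral_srcM s0 y hGm hF, lintegral_srcM s0 y hmg (measurable_avg s0 hF)]
  have h1 := boost_avg GalDom.id s0 y hb hF
  simp only [Kernel.id_apply] at h1
  have e1 : ∀ v0 : Space3, ∫⁻ z, F z ∂(Measure.dirac ((s0, (y, v0)) : LSt)) = F (s0, (y, v0)) :=
    fun v0 => lintegral_dirac' _ hF
  have e2 : ∀ v0 : Space3, ∫⁻ z, (∫⁻ u in Metric.ball (0 : Space3) 1, F (gal s0 u z))
      ∂(Measure.dirac ((s0, (y, v0)) : LSt)) = avg s0 F (s0, (y, v0)) :=
    fun v0 => lintegral_dirac' _ (measurable_avg s0 hF)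
  simp only [e1, e2] at h1
  have h2 : ∫⁻ v0, gau b v0 * F (s0, (y, v0)) ≤ cB * (ENNReal.ofReal (Real.exp b) *
      ∫⁻ v0, gau (b / 2) v0 * avg s0 F (s0, (y, v0))) := by
    calc ∫⁻ v0, gau b v0 * F (s0, (y, v0))
        = cB * (volume (Metric.ball (0 : Space3) 1) * ∫⁻ v0, gau b v0 * F (s0, (y, v0))) := by
          unfold cB
          rw [← mul_assoc, ENNReal.inv_mul_cancel vol_ball_ne_zero vol_ball_ne_top, one_mul]
      _ ≤ _ := mul_le_mul_right h1 _
  have hmF : Measurable (fun v : Space3 => F (s0, (y, v))) := hF.comp (by fun_prop)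
  have hmA : Measurable (fun v : Space3 => avg s0 F (s0, (y, v))) :=
    (measurable_avg s0 hF).comp (by fun_prop)
  calc ∫⁻ v, G v * F (s0, (y, v)) ≤ ∫⁻ v, M * (gau b v * F (s0, (y, v))) := by
        refine lintegral_mono fun v => ?_
        rw [← mul_assoc]
        exact mul_le_mul_left (hG v) _
    _ = M * ∫⁻ v, gau b v * F (s0, (y, v)) :=
        lintegral_const_mul _ ((measurable_gau b).mul hmF)
    _ ≤ M * (cB * (ENNReal.ofReal (Real.exp b) *
          ∫⁻ v0, gau (b / 2) v0 * avg s0 F (s0, (y, v0)))) := mul_le_mul_right h2 _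
    _ = _ := by
        have hmp : Measurable (fun v : Space3 => gau (b / 2) v * avg s0 F (s0, (y, v))) :=
          (measurable_gau (b / 2)).mul hmA
        simp only [mul_assoc]
        rw [lintegral_const_mul _ ((hmp.const_mul _).const_mul _),
          lintegral_const_mul _ (hmp.const_mul _), lintegral_const_mul _ hmp]

/-! ### Densities -/

/-- position at time `t` on the (extended) line -/
def posAt (t : ℝ) (z : LSt) : Space3 := z.2.1 + (t - z.1) • z.2.2

lemma measurable_posAt : Measurable (fun p : ℝ × LSt => posAt p.1 p.2) := by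
  unfold posAt
  exact Continuous.measurable (by fun_prop)

lemma measurable_posAt_t (t : ℝ) : Measurable (posAt t) :=
  measurable_posAt.comp (measurable_const.prodMk measurable_id)

lemma posAt_gal (s0 t : ℝ) (u : Space3) (z : LSt) :
    posAt t (gal s0 u z) = posAt t z + (t - s0) • u := by
  unfold posAt gal; simp only; module

/-- averaged test functions -/
lemma avg_pos_le {s0 t : ℝ} (hst : t ≠ s0) {a : Space3 → ℝ≥0∞} (ha : Measurable a)
    {ψ Ψ : ℝ × Space3 → ℝ≥0∞} (hle : ∀ τ u v, ‖u‖ < 1 → ψ (τ, v + u) ≤ Ψ (τ, v)) (z : LSt) :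
    avg s0 (fun z => a (posAt t z) * ψ (z.1, z.2.2)) z ≤
      (ENNReal.ofReal (|t - s0|⁻¹ ^ 3) * ∫⁻ x, a x) * Ψ (z.1, z.2.2) := by
  have hr : t - s0 ≠ 0 := sub_ne_zero.2 hst
  unfold avg
  calc ∫⁻ u in Metric.ball (0 : Space3) 1,
      a (posAt t (gal s0 u z)) * ψ ((gal s0 u z).1, (gal s0 u z).2.2)
      ≤ ∫⁻ u in Metric.ball (0 : Space3) 1, a (posAt t z + (t - s0) • u) * Ψ (z.1, z.2.2) := by
        refine setLIntegral_mono' measurableSet_ball fun u hu => ?_
        rw [posAt_gal]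
        exact mul_le_mul_right (hle z.1 u z.2.2 (by simpa using hu)) _
    _ ≤ ∫⁻ u, a (posAt t z + (t - s0) • u) * Ψ (z.1, z.2.2) := setLIntegral_le_lintegral _ _
    _ = _ := by
        have hm : Measurable (fun u => a (posAt t z + (t - s0) • u)) :=
          ha.comp (Continuous.measurable (by fun_prop))
        rw [lintegral_mul_const _ hm, lintegral_comp_smul_add ha hr]

/-- **Position density of a spread line.** -/
theorem Spr.density {s0 : ℝ} {Ξ ν : Measure LSt} (h : Spr s0 Ξ ν) {t : ℝ} (hst : t ≠ s0)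
    {a : Space3 → ℝ≥0∞} (ha : Measurable a) {ψ Ψ : ℝ × Space3 → ℝ≥0∞} (hψ : Measurable ψ)
    (hΨ : Measurable Ψ) (hle : ∀ τ u v, ‖u‖ < 1 → ψ (τ, v + u) ≤ Ψ (τ, v)) :
    ∫⁻ z, a (posAt t z) * ψ (z.1, z.2.2) ∂ν ≤
      (ENNReal.ofReal (|t - s0|⁻¹ ^ 3) * ∫⁻ x, a x) * ∫⁻ z, Ψ (z.1, z.2.2) ∂Ξ := by
  have hF : Measurable (fun z : LSt => a (posAt t z) * ψ (z.1, z.2.2)) :=
    (ha.comp (measurable_posAt_t t)).mul (hψ.comp (by fun_prop))
  refine (h _ hF).trans ?_
  have hΨ' : Measurable (fun z : LSt => Ψ (z.1, z.2.2)) := hΨ.comp (by fun_prop)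
  rw [← lintegral_const_mul _ hΨ']
  exact lintegral_mono fun z => avg_pos_le hst ha hle z

/-- Version with a bounded range of ages `|t - s0| ≥ r`. -/
theorem Spr.density_ge {s0 : ℝ} {Ξ ν : Measure LSt} (h : Spr s0 Ξ ν) {t r : ℝ} (hr : 0 < r)
    (hst : r ≤ |t - s0|) {a : Space3 → ℝ≥0∞} (ha : Measurable a) {ψ Ψ : ℝ × Space3 → ℝ≥0∞}
    (hψ : Measurable ψ) (hΨ : Measurable Ψ)
    (hle : ∀ τ u v, ‖u‖ < 1 → ψ (τ, v + u) ≤ Ψ (τ, v)) :
    ∫⁻ z, a (posAt t z) * ψ (z.1, z.2.2) ∂ν ≤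
      ENNReal.ofReal (r⁻¹ ^ 3) * (∫⁻ x, a x) * ∫⁻ z, Ψ (z.1, z.2.2) ∂Ξ := by
  have h0 : t ≠ s0 := by
    rintro rfl
    simp at hst
    linarith
  refine (h.density h0 ha hψ hΨ hle).trans ?_
  have h1 : |t - s0|⁻¹ ^ 3 ≤ r⁻¹ ^ 3 := by
    gcongr
  gcongr

/-- **Flux of a spread line through an obstacle** (`815`'s sweeping inequality). -/
theorem Spr.flux {s0 : ℝ} {Ξ ν : Measure LSt} [SFinite ν] (h : Spr s0 Ξ ν) {a b r : ℝ}
    (hr : 0 < r) (hab : a ≤ b) (hs : s0 < a) {y y' : ℝ → Space3}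
    (hy : ∀ s ∈ Set.Icc a b, HasDerivAt y (y' s) s) (hyc : ContinuousOn y' (Set.Icc a b))
    (hym : Measurable y) (hym' : Measurable y')
    {ψ Ψ : ℝ × Space3 → ℝ≥0∞} (hψ : Measurable ψ) (hΨ : Measurable Ψ)
    (hle : ∀ τ u v, ‖u‖ < 1 →
      ψ (τ, v + u) * (1 + ENNReal.ofReal ‖v + u‖) ≤ Ψ (τ, v)) :
    ∫⁻ z, ψ (z.1, z.2.2) *
        {z | ∃ s ∈ Set.Icc a b, dist (posAt s z) (y s) ≤ r}.indicator 1 z ∂ν ≤
      8 * ENNReal.ofReal r ^ 2 * Sweep815.c3 * (∫⁻ z, Ψ (z.1, z.2.2) ∂Ξ) *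
        (ENNReal.ofReal r * ENNReal.ofReal ((a - s0)⁻¹ ^ 3) +
          ∫⁻ u in Set.Icc a b, ENNReal.ofReal ((u - s0)⁻¹ ^ 3) *
            (1 + ENNReal.ofReal ‖y' u‖)) := by
  set I : ℝ≥0∞ := ∫⁻ z, Ψ (z.1, z.2.2) ∂Ξ with hI
  set D : ℝ → ℝ≥0∞ := fun u => I * ENNReal.ofReal ((u - s0)⁻¹ ^ 3) with hD
  have hPm' : Measurable (Function.uncurry fun (z : LSt) (_ : ℝ) => z.2.2) := by
    have : Measurable (fun p : LSt × ℝ => p.1.2.2) := by fun_prop
    exact this
  have hPm : Measurable (Function.uncurry fun (z : LSt) (s : ℝ) => posAt s z) :=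
    measurable_posAt.comp (measurable_snd.prodMk measurable_fst)
  have h1 := Sweep815.contact_le (Ω := LSt) ν hr hab (P := fun z s => posAt s z)
    (P' := fun z _ => z.2.2) (y := y) (y' := y') (w := fun z => ψ (z.1, z.2.2))
    (hψ.comp (by fun_prop)) hPm hPm'
    (by
      intro z s _
      have h2 : HasDerivAt (fun s : ℝ => (s - z.1) • z.2.2) ((1 : ℝ) • z.2.2) s :=
        ((hasDerivAt_id s).sub_const z.1).smul_const z.2.2
      rw [one_smul] at h2
      exact h2.const_add z.2.1)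
    (fun z => continuousOn_const) hy hyc hym hym' (D := D)
    (by
      intro u hu
      have hus : 0 < u - s0 := by linarith [hu.1]
      have hst : u ≠ s0 := by intro h3; linarith
      have hm1 : Measurable (fun x : Space3 =>
          (Metric.closedBall (y u) (2 * r)).indicator (1 : Space3 → ℝ≥0∞) x) :=
        measurable_one.indicator Metric.isClosed_closedBall.measurableSet
      have hψ' : Measurable (fun p : ℝ × Space3 => ψ p * (1 + ENNReal.ofReal ‖p.2‖)) := by
        exact hψ.mul (by fun_prop)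
      have h4 := h.density (t := u) hst hm1 hψ' hΨ (fun τ u v hu => hle τ u v hu)
      calc ∫⁻ z, ψ (z.1, z.2.2) * {z : LSt | dist (posAt u z) (y u) ≤ 2 * r}.indicator
              (fun z => 1 + ENNReal.ofReal ‖z.2.2‖) z ∂ν
          = ∫⁻ z, (Metric.closedBall (y u) (2 * r)).indicator (1 : Space3 → ℝ≥0∞) (posAt u z) *
              (ψ (z.1, z.2.2) * (1 + ENNReal.ofReal ‖z.2.2‖)) ∂ν := by
            refine lintegral_congr fun z => ?_
            by_cases hz : dist (posAt u z) (y u) ≤ 2 * r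
            · rw [Set.indicator_of_mem (show z ∈ {z : LSt | dist (posAt u z) (y u) ≤ 2 * r} from hz),
                Set.indicator_of_mem (show posAt u z ∈ Metric.closedBall (y u) (2 * r) from hz)]
              simp
            · rw [Set.indicator_of_notMem
                (show z ∉ {z : LSt | dist (posAt u z) (y u) ≤ 2 * r} from hz),
                Set.indicator_of_notMem
                (show posAt u z ∉ Metric.closedBall (y u) (2 * r) from hz)]
              simp
        _ ≤ _ := h4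
        _ = D u * (ENNReal.ofReal (2 * r) ^ 3 * Sweep815.c3) := by
            rw [lintegral_indicator_one Metric.isClosed_closedBall.measurableSet,
              Sweep815.vol_closedBall, hD, abs_of_pos hus]
            ring)
  refine h1.trans (le_of_eq ?_)
  simp only [hD]
  have hm5 : Measurable (fun u : ℝ => ENNReal.ofReal ((u - s0)⁻¹ ^ 3) *
      (1 + ENNReal.ofReal ‖y' u‖)) := by
    have hm6 : Measurable (fun u : ℝ => ENNReal.ofReal ((u - s0)⁻¹ ^ 3)) :=
      ENNReal.measurable_ofReal.comp (((measurable_id.sub_const s0).inv).pow_const 3)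
    have hm7 : Measurable (fun u : ℝ => 1 + ENNReal.ofReal ‖y' u‖) :=
      measurable_const.add (ENNReal.measurable_ofReal.comp hym'.norm)
    exact hm6.mul hm7
  have e5 : ∫⁻ u in Set.Icc a b, I * ENNReal.ofReal ((u - s0)⁻¹ ^ 3) *
      (1 + ENNReal.ofReal ‖y' u‖) = I * ∫⁻ u in Set.Icc a b, ENNReal.ofReal ((u - s0)⁻¹ ^ 3) *
        (1 + ENNReal.ofReal ‖y' u‖) := by
    rw [← lintegral_const_mul _ hm5]
    refine lintegral_congr fun u => ?_
    ring
  rw [e5]
  ring

end Crest.Agent.R122.Boost969
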