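import Crest.Agent.R122.Boost4_969

/-!
Row 122, block BO (boost lemma), helper969: links of a spread line with fresh structures.

`e` is a spread line (law `ν`, spread from time `s₀`).  At a time `s ≥ s₀ + r` it contacts a
translation invariant structure; `m` is the law of the structure seen from the contact point, `H s ω`
a marked line of it (relative to the contact point).  Then the marked line has a full
(7-dimensional) density `≤ C r⁻³` (`Spr.link`).  Conversely, if the structure is fixed and the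
contacting line `e` is spread from the line `d`, translation covariantly, then `d` has a full density
(`Spr.link_neg`).
-/

set_option autoImplicit false

open MeasureTheory ProbabilityTheory Crest.AnalysisR.Kinetic
open Crest.Agent.R122.Boltz814 Crest.Agent.R122.Disc416 Crest.Agent.R122.Kin416
open scoped Classical ENNReal

noncomputable section

namespace Crest.Agent.R122.Boost969

/-- translation of a line -/
def shiftX (x : Space3) (l : LSt) : LSt := (l.1, (l.2.1 + x, l.2.2))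

lemma measurable_shiftX : Measurable (fun p : Space3 × LSt => shiftX p.1 p.2) := by
  unfold shiftX
  refine Measurable.prodMk (by fun_prop) (Measurable.prodMk ?_ (by fun_prop))
  exact Continuous.measurable (by fun_prop)

/-- reflected translation of a line -/
def shiftN (x : Space3) (l : LSt) : LSt := (l.1, (l.2.1 - x, l.2.2))

lemma measurable_shiftN : Measurable (fun p : Space3 × LSt => shiftN p.1 p.2) := by
  unfold shiftN
  refine Measurable.prodMk (by fun_prop) (Measurable.prodMk ?_ (by fun_prop))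
  exact Continuous.measurable (by fun_prop)

variable {Q : Type*} [MeasurableSpace Q]

/-- General form: `A q x` is the test function evaluated at the position `x = posAt (T q) z` of the
spread line at the link time `T q`. -/
theorem Spr.link_gen {s0 : ℝ} {Ξ ν : Measure LSt} [SFinite ν] (h : Spr s0 Ξ ν) {r : ℝ}
    (hr : 0 < r) (m : Measure Q) [SFinite m] {T : Q → ℝ} (hT : Measurable T)
    (hS : ∀ᵐ q ∂m, r ≤ |T q - s0|)
    {G : Q → ℝ≥0∞} (hG : Measurable G) {A : Q × Space3 → ℝ≥0∞} (hA : Measurable A)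
    {ψ Ψ : ℝ × Space3 → ℝ≥0∞} (hψ : Measurable ψ) (hΨ : Measurable Ψ)
    (hle : ∀ τ u v, ‖u‖ < 1 → ψ (τ, v + u) ≤ Ψ (τ, v)) :
    ∫⁻ z, ∫⁻ q, ψ (z.1, z.2.2) * (G q * A (q, posAt (T q) z)) ∂m ∂ν ≤
      ENNReal.ofReal (r⁻¹ ^ 3) * (∫⁻ z, Ψ (z.1, z.2.2) ∂Ξ) *
        ∫⁻ q, G q * ∫⁻ x : Space3, A (q, x) ∂volume ∂m := by
  set I : ℝ≥0∞ := ∫⁻ z, Ψ (z.1, z.2.2) ∂Ξ with hI
  have hmA : Measurable (fun p : LSt × Q => A (p.2, posAt (T p.2) p.1)) :=
    hA.comp (measurable_snd.prodMk (measurable_posAt.comp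
      ((hT.comp measurable_snd).prodMk measurable_fst)))
  have hmT : Measurable (fun p : LSt × Q =>
      ψ (p.1.1, p.1.2.2) * (G p.2 * A (p.2, posAt (T p.2) p.1))) := by
    have h1 : Measurable (fun p : LSt × Q => ψ (p.1.1, p.1.2.2)) := hψ.comp (by fun_prop)
    exact h1.mul ((hG.comp measurable_snd).mul hmA)
  have hmI : Measurable (fun q : Q => ∫⁻ x : Space3, A (q, x)) := hA.lintegral_prod_right'
  have hmGI : Measurable (fun q : Q => G q * ∫⁻ x : Space3, A (q, x)) := hG.mul hmI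
  rw [lintegral_lintegral_swap hmT.aemeasurable, ← lintegral_const_mul _ hmGI]
  refine lintegral_mono_ae ?_
  filter_upwards [hS] with q hq
  have hmaq : Measurable (fun x : Space3 => A (q, x)) :=
    hA.comp (measurable_const.prodMk measurable_id)
  have h1 := h.density_ge (t := T q) hr hq hmaq hψ hΨ hle
  have hmq : Measurable (fun z : LSt => A (q, posAt (T q) z) * ψ (z.1, z.2.2)) :=
    (hmaq.comp (measurable_posAt_t (T q))).mul (hψ.comp (by fun_prop))
  calc ∫⁻ z, ψ (z.1, z.2.2) * (G q * A (q, posAt (T q) z)) ∂ν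
      = ∫⁻ z, G q * (A (q, posAt (T q) z) * ψ (z.1, z.2.2)) ∂ν := by
        refine lintegral_congr fun z => ?_
        ring
    _ = G q * ∫⁻ z, A (q, posAt (T q) z) * ψ (z.1, z.2.2) ∂ν := lintegral_const_mul _ hmq
    _ ≤ G q * (ENNReal.ofReal (r⁻¹ ^ 3) * (∫⁻ x, A (q, x)) * I) := mul_le_mul_right h1 _
    _ = _ := by ring

/-- **Link.** Full density of a marked line of a fresh structure contacted by a spread line: `m` is
the law of the structure seen from the contact point (link time `T q`), `H q` the marked line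
relative to the contact point. -/
theorem Spr.link {s0 : ℝ} {Ξ ν : Measure LSt} [SFinite ν] (h : Spr s0 Ξ ν) {r : ℝ}
    (hr : 0 < r) (m : Measure Q) [SFinite m] {T : Q → ℝ} (hT : Measurable T)
    (hS : ∀ᵐ q ∂m, r ≤ |T q - s0|)
    {G : Q → ℝ≥0∞} (hG : Measurable G) {H : Q → LSt} (hH : Measurable H)
    {F : LSt → ℝ≥0∞} (hF : Measurable F)
    {ψ Ψ : ℝ × Space3 → ℝ≥0∞} (hψ : Measurable ψ) (hΨ : Measurable Ψ)
    (hle : ∀ τ u v, ‖u‖ < 1 → ψ (τ, v + u) ≤ Ψ (τ, v)) :
    ∫⁻ z, ∫⁻ q, ψ (z.1, z.2.2) * (G q * F (shiftX (posAt (T q) z) (H q))) ∂m ∂ν ≤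
      ENNReal.ofReal (r⁻¹ ^ 3) * (∫⁻ z, Ψ (z.1, z.2.2) ∂Ξ) *
        ∫⁻ q, G q * ∫⁻ x : Space3, F ((H q).1, (x, (H q).2.2)) ∂volume ∂m := by
  have hA : Measurable (fun p : Q × Space3 => F (shiftX p.2 (H p.1))) :=
    hF.comp (measurable_shiftX.comp (measurable_snd.prodMk (hH.comp measurable_fst)))
  refine (h.link_gen hr m hT hS hG hA hψ hΨ hle).trans (le_of_eq ?_)
  congr 1
  refine lintegral_congr fun q => ?_
  congr 1
  have e1 : ∀ x : Space3, F (shiftX x (H q)) =
      (fun x => F ((H q).1, (x, (H q).2.2))) ((H q).2.1 + x) := by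
    intro x; rfl
  simp_rw [e1]
  exact lintegral_add_left_eq_self (fun x => F ((H q).1, (x, (H q).2.2))) (H q).2.1

/-- **Converse link.** The structure is fixed, the spread line `e` hangs translation covariantly on
the line `d = H q - posAt (T q) z`, which has a full density. -/
theorem Spr.link_neg {s0 : ℝ} {Ξ ν : Measure LSt} [SFinite ν] (h : Spr s0 Ξ ν) {r : ℝ}
    (hr : 0 < r) (m : Measure Q) [SFinite m] {T : Q → ℝ} (hT : Measurable T)
    (hS : ∀ᵐ q ∂m, r ≤ |T q - s0|)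
    {G : Q → ℝ≥0∞} (hG : Measurable G) {H : Q → LSt} (hH : Measurable H)
    {F : LSt → ℝ≥0∞} (hF : Measurable F)
    {ψ Ψ : ℝ × Space3 → ℝ≥0∞} (hψ : Measurable ψ) (hΨ : Measurable Ψ)
    (hle : ∀ τ u v, ‖u‖ < 1 → ψ (τ, v + u) ≤ Ψ (τ, v)) :
    ∫⁻ z, ∫⁻ q, ψ (z.1, z.2.2) * (G q * F (shiftN (posAt (T q) z) (H q))) ∂m ∂ν ≤
      ENNReal.ofReal (r⁻¹ ^ 3) * (∫⁻ z, Ψ (z.1, z.2.2) ∂Ξ) *
        ∫⁻ q, G q * ∫⁻ x : Space3, F ((H q).1, (x, (H q).2.2)) ∂volume ∂m := by
  have hA : Measurable (fun p : Q × Space3 => F (shiftN p.2 (H p.1))) :=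
    hF.comp (measurable_shiftN.comp (measurable_snd.prodMk (hH.comp measurable_fst)))
  refine (h.link_gen hr m hT hS hG hA hψ hΨ hle).trans (le_of_eq ?_)
  congr 1
  refine lintegral_congr fun q => ?_
  congr 1
  have e1 : ∀ x : Space3, F (shiftN x (H q)) =
      (fun x => F ((H q).1, (x, (H q).2.2))) ((H q).2.1 - x) := by
    intro x; rfl
  simp_rw [e1]
  exact lintegral_sub_left_eq_self (fun x => F ((H q).1, (x, (H q).2.2))) (H q).2.1

/-! ### Translation covariant families -/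

/-- shift of all lines by `x` -/
def shiftK (x : Space3) (ν : Measure LSt) : Measure LSt := ν.map (shiftX x)

lemma measurable_shiftX_x (x : Space3) : Measurable (shiftX x) :=
  measurable_shiftX.comp (measurable_const.prodMk measurable_id)

lemma lintegral_shiftK (x : Space3) (ν : Measure LSt) {F : LSt → ℝ≥0∞} (hF : Measurable F) :
    ∫⁻ z, F z ∂shiftK x ν = ∫⁻ z, F (shiftX x z) ∂ν := by
  unfold shiftK
  rw [lintegral_map hF (measurable_shiftX_x x)]

lemma gal_shiftX (s0 : ℝ) (u x : Space3) (z : LSt) :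
    gal s0 u (shiftX x z) = shiftX x (gal s0 u z) := by
  unfold gal shiftX
  simp only
  refine Prod.ext rfl (Prod.ext ?_ rfl)
  simp only; abel

lemma Spr.shift {s0 : ℝ} {Ξ ν : Measure LSt} (h : Spr s0 Ξ ν) (x : Space3) :
    Spr s0 (shiftK x Ξ) (shiftK x ν) := by
  intro F hF
  have hm : Measurable (fun z => F (shiftX x z)) := hF.comp (measurable_shiftX_x x)
  rw [lintegral_shiftK x ν hF, lintegral_shiftK x Ξ (measurable_avg s0 hF)]
  refine (h _ hm).trans (le_of_eq (lintegral_congr fun z => ?_))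
  unfold avg
  simp_rw [gal_shiftX]

/-- **Full density of `d` given the obstacle contacted by `e`.**  `d = (τ, x, v)` has the law
`Θ(d(τ,v)) dx`, `e` the law `shift x (ν (τ, v))`, spread from the time `S₀ (τ, v)`; at the time
`T q` (of age `≥ r`) the line `e` is at the fixed position `y q`. -/
theorem converse_density {Θ : Measure (ℝ × Space3)} {Ξ ν : ℝ × Space3 → Measure LSt}
    (hν : ∀ p, SFinite (ν p)) {S₀ : ℝ × Space3 → ℝ} (h : ∀ p, Spr (S₀ p) (Ξ p) (ν p)) {r : ℝ}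
    (hr : 0 < r) (m : ℝ × Space3 → Measure Q) (hm : ∀ p, SFinite (m p)) {T : Q → ℝ}
    (hT : Measurable T) (hS : ∀ p, ∀ᵐ q ∂(m p), r ≤ |T q - S₀ p|)
    {G : Q → ℝ≥0∞} (hG : Measurable G) {y : Q → Space3} (hy : Measurable y)
    {F : LSt → ℝ≥0∞} (hF : Measurable F)
    {ψ Ψ : ℝ × Space3 → ℝ≥0∞} (hψ : Measurable ψ) (hΨ : Measurable Ψ)
    (hle : ∀ τ u v, ‖u‖ < 1 → ψ (τ, v + u) ≤ Ψ (τ, v)) {C : ℝ≥0∞}
    (hC : ∀ p, (∫⁻ z, Ψ (z.1, z.2.2) ∂(Ξ p)) * ∫⁻ q, G q ∂(m p) ≤ C) :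
    ∫⁻ p, ∫⁻ z, ∫⁻ q, ψ (z.1, z.2.2) *
        (G q * F (p.1, (y q - posAt (T q) z, p.2))) ∂(m p) ∂(ν p) ∂Θ ≤
      ENNReal.ofReal (r⁻¹ ^ 3) * C * ∫⁻ p, ∫⁻ x : Space3, F (p.1, (x, p.2)) ∂volume ∂Θ := by
  have hmF : Measurable (fun p : ℝ × Space3 => ∫⁻ x : Space3, F (p.1, (x, p.2))) := by
    have h1 : Measurable (fun q : (ℝ × Space3) × Space3 => F (q.1.1, (q.2, q.1.2))) :=
      hF.comp (by fun_prop)
    exact h1.lintegral_prod_right'
  rw [← lintegral_const_mul _ hmF]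
  refine lintegral_mono fun p => ?_
  have := hν p
  have := hm p
  have hA : Measurable (fun q : Q × Space3 => F (p.1, (y q.1 - q.2, p.2))) := by
    refine hF.comp (measurable_const.prodMk (Measurable.prodMk ?_ measurable_const))
    exact (hy.comp measurable_fst).sub measurable_snd
  refine ((h p).link_gen hr (m p) hT (hS p) hG hA hψ hΨ hle).trans ?_
  have e1 : ∀ q : Q, ∫⁻ x : Space3, F (p.1, (y q - x, p.2)) =
      ∫⁻ x : Space3, F (p.1, (x, p.2)) := by
    intro q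
    exact lintegral_sub_left_eq_self (fun x => F (p.1, (x, p.2))) (y q)
  have e2 : ∫⁻ q, G q * ∫⁻ x : Space3, F (p.1, (y q - x, p.2)) ∂volume ∂(m p) =
      (∫⁻ q, G q ∂(m p)) * ∫⁻ x : Space3, F (p.1, (x, p.2)) := by
    simp_rw [e1]
    rw [lintegral_mul_const _ hG]
  rw [e2]
  calc ENNReal.ofReal (r⁻¹ ^ 3) * (∫⁻ z, Ψ (z.1, z.2.2) ∂(Ξ p)) *
        ((∫⁻ q, G q ∂(m p)) * ∫⁻ x : Space3, F (p.1, (x, p.2)))
      = ENNReal.ofReal (r⁻¹ ^ 3) * ((∫⁻ z, Ψ (z.1, z.2.2) ∂(Ξ p)) *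
        (∫⁻ q, G q ∂(m p))) * ∫⁻ x : Space3, F (p.1, (x, p.2)) := by ring
    _ ≤ _ := by
        gcongr
        exact hC p

end Crest.Agent.R122.Boost969
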