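import Crest.Agent.R122.Boost5_969

/-!
Row 122, block BO (boost lemma), helper969: flux of a spread line through a finite family of moving
particles, translation covariant kernels.
-/

set_option autoImplicit false

open MeasureTheory ProbabilityTheory Crest.AnalysisR.Kinetic
open Crest.Agent.R122.Boltz814 Crest.Agent.R122.Disc416 Crest.Agent.R122.Kin416
open scoped Classical ENNReal

noncomputable section

namespace Crest.Agent.R122.Boost969

/-- Closedness of the set of lines touching a continuous curve during `[a, b]`. -/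
lemma isClosed_touch {a b r : ℝ} {y : ℝ → Space3} (hy : ContinuousOn y (Set.Icc a b)) :
    IsClosed {z : LSt | ∃ s ∈ Set.Icc a b, dist (posAt s z) (y s) ≤ r} := by
  have hyc1 : Continuous fun s : Set.Icc a b => y s := continuousOn_iff_continuous_domRestrict.1 hy
  have hyc2 : Continuous fun q : LSt × Set.Icc a b => y (q.2 : ℝ) := hyc1.comp continuous_snd
  have h1 : IsClosed {q : LSt × Set.Icc a b | dist (posAt q.2 q.1) (y q.2) ≤ r} := by
    refine isClosed_le (Continuous.dist ?_ hyc2) continuous_const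
    unfold posAt
    fun_prop
  have h2 := isClosedMap_fst_of_compactSpace (X := LSt) (Y := Set.Icc a b) _ h1
  convert h2 using 1
  ext z
  simp

/-- **Direct contact, single curve, age `≥ r`.** -/
theorem Spr.flux_ge {s0 : ℝ} {Ξ ν : Measure LSt} [SFinite ν] (h : Spr s0 Ξ ν) {a b ε r : ℝ}
    (hε : 0 < ε) (hr : 0 < r) (hab : a ≤ b) (hs : s0 + r ≤ a) {y y' : ℝ → Space3}
    (hy : ∀ s ∈ Set.Icc a b, HasDerivAt y (y' s) s) (hyc : ContinuousOn y' (Set.Icc a b))
    (hym : Measurable y) (hym' : Measurable y')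
    {ψ Ψ : ℝ × Space3 → ℝ≥0∞} (hψ : Measurable ψ) (hΨ : Measurable Ψ)
    (hle : ∀ τ u v, ‖u‖ < 1 →
      ψ (τ, v + u) * (1 + ENNReal.ofReal ‖v + u‖) ≤ Ψ (τ, v)) :
    ∫⁻ z, ψ (z.1, z.2.2) *
        {z | ∃ s ∈ Set.Icc a b, dist (posAt s z) (y s) ≤ ε}.indicator 1 z ∂ν ≤
      8 * ENNReal.ofReal ε ^ 2 * Sweep815.c3 * (∫⁻ z, Ψ (z.1, z.2.2) ∂Ξ) *
        ENNReal.ofReal (r⁻¹ ^ 3) *
        (ENNReal.ofReal ε + ∫⁻ u in Set.Icc a b, (1 + ENNReal.ofReal ‖y' u‖)) := by
  refine (h.flux hε hab (by linarith) hy hyc hym hym' hψ hΨ hle).trans ?_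
  have hk : ∀ u ∈ Set.Icc a b, ENNReal.ofReal ((u - s0)⁻¹ ^ 3) ≤ ENNReal.ofReal (r⁻¹ ^ 3) := by
    intro u hu
    refine ENNReal.ofReal_le_ofReal ?_
    have h1 : r ≤ u - s0 := by linarith [hu.1]
    have h2 : 0 < u - s0 := by linarith
    gcongr
  have hm7 : Measurable (fun u : ℝ => 1 + ENNReal.ofReal ‖y' u‖) :=
    measurable_const.add (ENNReal.measurable_ofReal.comp hym'.norm)
  calc 8 * ENNReal.ofReal ε ^ 2 * Sweep815.c3 * (∫⁻ z, Ψ (z.1, z.2.2) ∂Ξ) *
        (ENNReal.ofReal ε * ENNReal.ofReal ((a - s0)⁻¹ ^ 3) +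
          ∫⁻ u in Set.Icc a b, ENNReal.ofReal ((u - s0)⁻¹ ^ 3) *
            (1 + ENNReal.ofReal ‖y' u‖))
      ≤ 8 * ENNReal.ofReal ε ^ 2 * Sweep815.c3 * (∫⁻ z, Ψ (z.1, z.2.2) ∂Ξ) *
        (ENNReal.ofReal ε * ENNReal.ofReal (r⁻¹ ^ 3) +
          ∫⁻ u in Set.Icc a b, ENNReal.ofReal (r⁻¹ ^ 3) * (1 + ENNReal.ofReal ‖y' u‖)) := by
        refine mul_le_mul_right (add_le_add ?_ ?_) _
        · exact mul_le_mul_right (hk a (Set.left_mem_Icc.2 hab)) _
        · exact setLIntegral_mono' measurableSet_Icc fun u hu => mul_le_mul_left (hk u hu) _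
    _ = _ := by
        rw [lintegral_const_mul _ hm7]
        ring

/-- **Direct contact, finite family, age `≥ r`.** -/
theorem Spr.flux_family {ι : Type*} {s0 : ℝ} {Ξ ν : Measure LSt} [SFinite ν] (h : Spr s0 Ξ ν)
    {a b ε r : ℝ} (hε : 0 < ε) (hr : 0 < r) (hab : a ≤ b) (hs : s0 + r ≤ a) (S : Finset ι)
    {y y' : ι → ℝ → Space3}
    (hy : ∀ i ∈ S, ∀ s ∈ Set.Icc a b, HasDerivAt (y i) (y' i s) s)
    (hyc : ∀ i ∈ S, ContinuousOn (y' i) (Set.Icc a b))
    (hym : ∀ i ∈ S, Measurable (y i)) (hym' : ∀ i ∈ S, Measurable (y' i))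
    {ψ Ψ : ℝ × Space3 → ℝ≥0∞} (hψ : Measurable ψ) (hΨ : Measurable Ψ)
    (hle : ∀ τ u v, ‖u‖ < 1 →
      ψ (τ, v + u) * (1 + ENNReal.ofReal ‖v + u‖) ≤ Ψ (τ, v)) :
    ∫⁻ z, ψ (z.1, z.2.2) *
        {z | ∃ i ∈ S, ∃ s ∈ Set.Icc a b, dist (posAt s z) (y i s) ≤ ε}.indicator 1 z ∂ν ≤
      8 * ENNReal.ofReal ε ^ 2 * Sweep815.c3 * (∫⁻ z, Ψ (z.1, z.2.2) ∂Ξ) *
        ENNReal.ofReal (r⁻¹ ^ 3) *
        (ENNReal.ofReal ε * S.card +
          ∫⁻ u in Set.Icc a b, ∑ i ∈ S, (1 + ENNReal.ofReal ‖y' i u‖)) := by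
  set A : ℝ≥0∞ := 8 * ENNReal.ofReal ε ^ 2 * Sweep815.c3 * (∫⁻ z, Ψ (z.1, z.2.2) ∂Ξ) *
        ENNReal.ofReal (r⁻¹ ^ 3) with hA
  have hψm : Measurable (fun z : LSt => ψ (z.1, z.2.2)) := hψ.comp (by fun_prop)
  have hmi : ∀ i ∈ S, Measurable (fun z : LSt => ψ (z.1, z.2.2) *
      {z | ∃ s ∈ Set.Icc a b, dist (posAt s z) (y i s) ≤ ε}.indicator (1 : LSt → ℝ≥0∞) z) := by
    intro i hi
    refine hψm.mul (measurable_one.indicator ?_)
    exact (isClosed_touch (fun s hs =>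
      (hy i hi s hs).continuousAt.continuousWithinAt)).measurableSet
  calc ∫⁻ z, ψ (z.1, z.2.2) *
        {z | ∃ i ∈ S, ∃ s ∈ Set.Icc a b, dist (posAt s z) (y i s) ≤ ε}.indicator 1 z ∂ν
      ≤ ∫⁻ z, ∑ i ∈ S, ψ (z.1, z.2.2) *
        {z | ∃ s ∈ Set.Icc a b, dist (posAt s z) (y i s) ≤ ε}.indicator 1 z ∂ν := by
        refine lintegral_mono fun z => ?_
        rw [← Finset.mul_sum]
        refine mul_le_mul_right ?_ _
        by_cases hz : ∃ i ∈ S, ∃ s ∈ Set.Icc a b, dist (posAt s z) (y i s) ≤ ε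
        · rw [Set.indicator_of_mem (show z ∈ {z | ∃ i ∈ S, ∃ s ∈ Set.Icc a b,
            dist (posAt s z) (y i s) ≤ ε} from hz)]
          obtain ⟨i, hi, hz'⟩ := hz
          refine le_trans (le_of_eq ?_) (Finset.single_le_sum (f := fun i =>
            {z | ∃ s ∈ Set.Icc a b, dist (posAt s z) (y i s) ≤ ε}.indicator
              (1 : LSt → ℝ≥0∞) z) (fun _ _ => bot_le) hi)
          simp only
          rw [Set.indicator_of_mem (show z ∈ {z | ∃ s ∈ Set.Icc a b,
            dist (posAt s z) (y i s) ≤ ε} from hz')]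
        · rw [Set.indicator_of_notMem (show z ∉ {z | ∃ i ∈ S, ∃ s ∈ Set.Icc a b,
            dist (posAt s z) (y i s) ≤ ε} from hz)]
          exact bot_le
    _ = ∑ i ∈ S, ∫⁻ z, ψ (z.1, z.2.2) *
        {z | ∃ s ∈ Set.Icc a b, dist (posAt s z) (y i s) ≤ ε}.indicator 1 z ∂ν :=
        lintegral_finsetSum _ hmi
    _ ≤ ∑ i ∈ S, A * (ENNReal.ofReal ε +
          ∫⁻ u in Set.Icc a b, (1 + ENNReal.ofReal ‖y' i u‖)) := by
        refine Finset.sum_le_sum fun i hi => ?_
        exact h.flux_ge hε hr hab hs (hy i hi) (hyc i hi) (hym i hi) (hym' i hi) hψ hΨ hle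
    _ = _ := by
        have hmj : ∀ i ∈ S, Measurable (fun u : ℝ => 1 + ENNReal.ofReal ‖y' i u‖) :=
          fun i hi => measurable_const.add (ENNReal.measurable_ofReal.comp (hym' i hi).norm)
        rw [← Finset.mul_sum, Finset.sum_add_distrib, Finset.sum_const, nsmul_eq_mul,
          mul_comm (S.card : ℝ≥0∞), lintegral_finsetSum _ hmj]

/-! ### Translation covariant kernels -/

/-- translation covariance of a kernel on lines -/
def TrCov (κ : Kernel LSt LSt) : Prop :=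
  ∀ (x : Space3) (z : LSt) (F : LSt → ℝ≥0∞), Measurable F →
    ∫⁻ z', F z' ∂κ (shiftX x z) = ∫⁻ z', F (shiftX x z') ∂κ z

lemma TrCov.id : TrCov Kernel.id := by
  intro x z F hF
  have hm : Measurable (fun z' => F (shiftX x z')) := hF.comp (measurable_shiftX_x x)
  rw [Kernel.id_apply, Kernel.id_apply, lintegral_dirac' _ hF, lintegral_dirac' _ hm]

lemma TrCov.comp {κ η : Kernel LSt LSt} (h1 : TrCov κ) (h2 : TrCov η) : TrCov (η ∘ₖ κ) := by
  intro x z F hF
  have hm : Measurable (fun z' => F (shiftX x z')) := hF.comp (measurable_shiftX_x x)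
  rw [Kernel.lintegral_comp _ _ _ hF, Kernel.lintegral_comp _ _ _ hm,
    h1 x z _ hF.lintegral_kernel]
  exact lintegral_congr fun z' => h2 x z' F hF

lemma TrCov.add {κ η : Kernel LSt LSt} (h1 : TrCov κ) (h2 : TrCov η) : TrCov (κ + η) := by
  intro x z F hF
  rw [Kernel.add_apply, Kernel.add_apply, lintegral_add_measure, lintegral_add_measure,
    h1 x z F hF, h2 x z F hF]

lemma TrCov.sum {ι : Type*} [Countable ι] {κ : ι → Kernel LSt LSt} (h : ∀ i, TrCov (κ i)) :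
    TrCov (Kernel.sum κ) := by
  intro x z F hF
  rw [Kernel.sum_apply, Kernel.sum_apply, lintegral_sum_measure, lintegral_sum_measure]
  exact tsum_congr fun i => h i x z F hF

lemma TrCov.path : ∀ {l : List (Kernel LSt LSt)}, (∀ κ ∈ l, TrCov κ) → TrCov (pathK l)
  | [], _ => TrCov.id
  | κ :: l, h => TrCov.comp (h κ (by simp)) (TrCov.path fun κ' hκ' => h κ' (by simp [hκ']))

/-- a translation covariant kernel in terms of the lines born at the origin -/
lemma TrCov.eq_shiftK {κ : Kernel LSt LSt} (h : TrCov κ) (τ : ℝ) (x v : Space3) :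
    κ (τ, (x, v)) = shiftK x (κ (τ, (0, v))) := by
  ext s hs
  have h1 := h x (τ, (0, v)) (s.indicator 1) (measurable_one.indicator hs)
  have e1 : shiftX x ((τ, (0, v)) : LSt) = (τ, (x, v)) := by
    unfold shiftX; simp
  rw [e1, lintegral_indicator_one hs] at h1
  rw [h1, ← lintegral_indicator_one hs, lintegral_shiftK x _ (measurable_one.indicator hs)]

variable {E : Type*} [MeasurableSpace E]

lemma Leg.out_shiftX (L : Leg E) (x : Space3) (z : LSt) (q : ℝ × E) :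
    L.out (shiftX x z, q) = shiftX x (L.out (z, q)) := by
  unfold Leg.out shiftX
  refine Prod.ext rfl (Prod.ext ?_ rfl)
  simp only; module

/-- step kernels with translation invariant densities are translation covariant -/
lemma TrCov.step {μ : Measure E} [SFinite μ] (L : Leg E) {N : LSt → ℝ × E → ℝ≥0∞}
    (hNm : Measurable (Function.uncurry N)) (hN : ∀ z q, N z q ≠ ∞)
    (h : ∀ x z q, N (shiftX x z) q = N z q) : TrCov (stepK μ L N) := by
  intro x z F hF
  have hm : Measurable (fun z' => F (shiftX x z')) := hF.comp (measurable_shiftX_x x)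
  rw [lintegral_stepK L hNm hN hF, lintegral_stepK L hNm hN hm]
  refine lintegral_congr fun q => ?_
  rw [L.out_shiftX, h]

lemma TrCov.fwd {μ : Measure E} [SFinite μ] (L : Leg E) {g : E → Space3} (hg : Measurable g)
    {M β : ℝ} : TrCov (fwdK μ L g M β) :=
  TrCov.step L (measurable_Nf M β hg) (Nf_ne_top M β g) fun _ _ _ => rfl

lemma TrCov.bwd {μ : Measure E} [SFinite μ] (L : Leg E) {g : E → Space3} (hg : Measurable g)
    {M β : ℝ} : TrCov (bwdK μ L g M β) :=
  TrCov.step L (measurable_Nb M β hg) (Nb_ne_top M β g) fun _ _ _ => rfl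

lemma TrCov.win {μ : Measure E} [SFinite μ] (L : Leg E) {g : E → Space3} (hg : Measurable g)
    {M β : ℝ} {J : Set (ℝ × E)} (hJ : MeasurableSet J) : TrCov (winK μ L g M β J) :=
  TrCov.step L (measurable_win hg hJ) (win_ne_top M β g J) fun _ _ _ => rfl

end Crest.Agent.R122.Boost969
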