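import Crest.Agent.R122.Boost6_969

/-!
Row 122, block BO (boost lemma), helper969: labelled spread measures.

The label `ℓ : Λ` carries the turning time `σ ℓ` and any other data (marks, ...).  `SprL σ Ξ ν`: the
measure `ν` on `Λ × LSt` is dominated by the average of the unit boosts about the time `σ ℓ` of `Ξ`.
-/

set_option autoImplicit false

open MeasureTheory ProbabilityTheory Crest.AnalysisR.Kinetic
open Crest.Agent.R122.Boltz814 Crest.Agent.R122.Disc416 Crest.Agent.R122.Kin416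
open scoped Classical ENNReal

noncomputable section

namespace Crest.Agent.R122.Boost969

variable {Λ : Type*} [MeasurableSpace Λ]

/-- labelled average over unit boosts -/
def avgL (σ : Λ → ℝ) (F : Λ × LSt → ℝ≥0∞) (p : Λ × LSt) : ℝ≥0∞ :=
  ∫⁻ u in Metric.ball (0 : Space3) 1, F (p.1, gal (σ p.1) u p.2)

lemma measurable_galL {σ : Λ → ℝ} (hσ : Measurable σ) :
    Measurable (fun p : (Λ × LSt) × Space3 => ((p.1.1, gal (σ p.1.1) p.2 p.1.2) : Λ × LSt)) := by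
  refine Measurable.prodMk (by fun_prop) ?_
  exact measurable_gal'.comp ((hσ.comp (measurable_fst.comp measurable_fst)).prodMk
    (measurable_snd.prodMk (measurable_snd.comp measurable_fst)))

lemma measurable_avgL {σ : Λ → ℝ} (hσ : Measurable σ) {F : Λ × LSt → ℝ≥0∞} (hF : Measurable F) :
    Measurable (avgL σ F) := by
  unfold avgL
  have h1 : Measurable (fun p : (Λ × LSt) × Space3 => F (p.1.1, gal (σ p.1.1) p.2 p.1.2)) :=
    hF.comp (measurable_galL hσ)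
  exact h1.lintegral_prod_right'

/-- **Labelled spread measures.** -/
def SprL (σ : Λ → ℝ) (Ξ ν : Measure (Λ × LSt)) : Prop :=
  ∀ F : Λ × LSt → ℝ≥0∞, Measurable F → ∫⁻ p, F p ∂ν ≤ ∫⁻ p, avgL σ F p ∂Ξ

variable {σ : Λ → ℝ} {Ξ Ξ' ν ν' : Measure (Λ × LSt)}

lemma SprL.mono (h : SprL σ Ξ ν) (h1 : Ξ ≤ Ξ') (h2 : ν' ≤ ν) : SprL σ Ξ' ν' := fun F hF =>
  (lintegral_mono' h2 le_rfl).trans ((h F hF).trans (lintegral_mono' h1 le_rfl))

lemma SprL.add (h : SprL σ Ξ ν) (h' : SprL σ Ξ' ν') : SprL σ (Ξ + Ξ') (ν + ν') := by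
  intro F hF
  rw [lintegral_add_measure, lintegral_add_measure]
  exact add_le_add (h F hF) (h' F hF)

lemma SprL.smul (h : SprL σ Ξ ν) (c : ℝ≥0∞) : SprL σ (c • Ξ) (c • ν) := by
  intro F hF
  rw [lintegral_smul_measure, lintegral_smul_measure]
  exact mul_le_mul_right (h F hF) c

lemma SprL.sum {ι : Type*} {Ξ ν : ι → Measure (Λ × LSt)} (h : ∀ i, SprL σ (Ξ i) (ν i)) :
    SprL σ (Measure.sum Ξ) (Measure.sum ν) := by
  intro F hF
  rw [lintegral_sum_measure, lintegral_sum_measure]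
  exact ENNReal.tsum_le_tsum fun i => h i F hF

/-- density weights depending on the label only -/
lemma SprL.withDensity (hσ : Measurable σ) (h : SprL σ Ξ ν) {w : Λ → ℝ≥0∞} (hw : Measurable w) :
    SprL σ (Ξ.withDensity fun p => w p.1) (ν.withDensity fun p => w p.1) := by
  intro F hF
  have hw' : Measurable (fun p : Λ × LSt => w p.1) := hw.comp measurable_fst
  rw [lintegral_withDensity_eq_lintegral_mul _ hw' hF,
    lintegral_withDensity_eq_lintegral_mul _ hw' (measurable_avgL hσ hF)]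
  refine (h _ (hw'.mul hF)).trans (lintegral_mono fun p => ?_)
  unfold avgL
  simp only [Pi.mul_apply]
  rw [lintegral_const_mul]
  exact hF.comp ((measurable_galL hσ).comp (measurable_const.prodMk measurable_id))

/-- mixtures over the label -/
lemma SprL.mix (hσ : Measurable σ) (m : Measure Λ) [SFinite m] (Ξ ν : Kernel Λ LSt)
    [IsSFiniteKernel Ξ] [IsSFiniteKernel ν] (h : ∀ᵐ ℓ ∂m, Spr (σ ℓ) (Ξ ℓ) (ν ℓ)) :
    SprL σ (m ⊗ₘ Ξ) (m ⊗ₘ ν) := by
  intro F hF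
  rw [Measure.lintegral_compProd hF, Measure.lintegral_compProd (measurable_avgL hσ hF)]
  refine lintegral_mono_ae ?_
  filter_upwards [h] with ℓ hℓ
  exact hℓ (fun z => F (ℓ, z)) (hF.comp (measurable_const.prodMk measurable_id))

/-- change of label (keeping the turning time) -/
lemma SprL.map (h : SprL σ Ξ ν) {Λ' : Type*} [MeasurableSpace Λ'] {σ' : Λ' → ℝ}
    {f : Λ → Λ'} (hf : Measurable f) (hσ : ∀ ℓ, σ' (f ℓ) = σ ℓ) (hσ' : Measurable σ') :
    SprL σ' (Ξ.map fun p => (f p.1, p.2)) (ν.map fun p => (f p.1, p.2)) := by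
  intro F hF
  have hm : Measurable (fun p : Λ × LSt => ((f p.1, p.2) : Λ' × LSt)) :=
    (hf.comp measurable_fst).prodMk measurable_snd
  rw [lintegral_map hF hm, lintegral_map (measurable_avgL hσ' hF) hm]
  refine (h _ (hF.comp hm)).trans (le_of_eq (lintegral_congr fun p => ?_))
  unfold avgL
  simp only [Function.comp, hσ]

/-! ### Continuation -/

/-- labelled domination of boosts -/
def GalDomL (σ : Λ → ℝ) (κ κ' : Kernel (Λ × LSt) (Λ × LSt)) : Prop :=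
  ∀ (u : Space3), ‖u‖ ≤ 1 → ∀ (p : Λ × LSt) (F : Λ × LSt → ℝ≥0∞), Measurable F →
    ∫⁻ p', F p' ∂κ (p.1, gal (σ p.1) u p.2) ≤ ∫⁻ p', F (p'.1, gal (σ p'.1) u p'.2) ∂κ' p

lemma GalDomL.comp (hσ : Measurable σ) {κ κ' η η' : Kernel (Λ × LSt) (Λ × LSt)}
    (h1 : GalDomL σ κ κ') (h2 : GalDomL σ η η') : GalDomL σ (η ∘ₖ κ) (η' ∘ₖ κ') := by
  intro u hu p F hF
  have hm : Measurable (fun p' : Λ × LSt => F (p'.1, gal (σ p'.1) u p'.2)) :=
    hF.comp ((measurable_galL hσ).comp (measurable_id.prodMk measurable_const))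
  rw [Kernel.lintegral_comp _ _ _ hF, Kernel.lintegral_comp _ _ _ hm]
  refine (h1 u hu p _ hF.lintegral_kernel).trans (lintegral_mono fun p' => ?_)
  exact h2 u hu p' F hF

lemma GalDomL.add {κ κ' η η' : Kernel (Λ × LSt) (Λ × LSt)}
    (h1 : GalDomL σ κ κ') (h2 : GalDomL σ η η') : GalDomL σ (κ + η) (κ' + η') := by
  intro u hu p F hF
  rw [Kernel.add_apply, Kernel.add_apply, lintegral_add_measure, lintegral_add_measure]
  exact add_le_add (h1 u hu p F hF) (h2 u hu p F hF)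

lemma GalDomL.sum {ι : Type*} [Countable ι] {κ κ' : ι → Kernel (Λ × LSt) (Λ × LSt)}
    (h : ∀ i, GalDomL σ (κ i) (κ' i)) : GalDomL σ (Kernel.sum κ) (Kernel.sum κ') := by
  intro u hu p F hF
  rw [Kernel.sum_apply, Kernel.sum_apply, lintegral_sum_measure, lintegral_sum_measure]
  exact ENNReal.tsum_le_tsum fun i => h i u hu p F hF

lemma GalDomL.mono {κ₀ κ κ' : Kernel (Λ × LSt) (Λ × LSt)} (h : GalDomL σ κ κ')
    (h0 : ∀ p, κ₀ p ≤ κ p) : GalDomL σ κ₀ κ' := by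
  intro u hu p F hF
  exact (lintegral_mono' (h0 _) le_rfl).trans (h u hu p F hF)

/-- lift of a kernel on lines; the label is transported by a kernel `M` -/
def liftK (M : Kernel Λ Λ) (κ : Kernel LSt LSt) : Kernel (Λ × LSt) (Λ × LSt) := M ∥ₖ κ

lemma lintegral_liftK (M : Kernel Λ Λ) [IsSFiniteKernel M] (κ : Kernel LSt LSt)
    [IsSFiniteKernel κ] (p : Λ × LSt) {F : Λ × LSt → ℝ≥0∞} (hF : Measurable F) :
    ∫⁻ p', F p' ∂liftK M κ p = ∫⁻ ℓ', ∫⁻ z', F (ℓ', z') ∂κ p.2 ∂M p.1 := by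
  unfold liftK
  rw [Kernel.parallelComp_apply, lintegral_prod _ hF.aemeasurable]

lemma GalDomL.lift {M : Kernel Λ Λ} [IsSFiniteKernel M]
    (hM : ∀ ℓ, ∀ᵐ ℓ' ∂M ℓ, σ ℓ' = σ ℓ) (hσ : Measurable σ) {κ κ' : Kernel LSt LSt}
    [IsSFiniteKernel κ] [IsSFiniteKernel κ'] (h : GalDom κ κ') :
    GalDomL σ (liftK M κ) (liftK M κ') := by
  intro u hu p F hF
  have hm : Measurable (fun p' : Λ × LSt => F (p'.1, gal (σ p'.1) u p'.2)) :=
    hF.comp ((measurable_galL hσ).comp (measurable_id.prodMk measurable_const))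
  rw [lintegral_liftK M κ _ hF, lintegral_liftK M κ' _ hm]
  refine lintegral_mono_ae ?_
  filter_upwards [hM p.1] with ℓ' hℓ'
  simp only [hℓ']
  exact h (σ p.1) u hu p.2 (fun z' => F (ℓ', z')) (hF.comp (measurable_const.prodMk measurable_id))

/-- **Continuation**, labelled. -/
theorem SprL.bind (hσ : Measurable σ) (h : SprL σ Ξ ν) {κ κ' : Kernel (Λ × LSt) (Λ × LSt)}
    [IsSFiniteKernel κ'] (hκ : GalDomL σ κ κ') : SprL σ (Ξ.bind κ') (ν.bind κ) := by
  intro F hF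
  rw [Measure.lintegral_bind κ.aemeasurable hF.aemeasurable,
    Measure.lintegral_bind κ'.aemeasurable (measurable_avgL hσ hF).aemeasurable]
  refine (h _ hF.lintegral_kernel).trans (lintegral_mono fun p => ?_)
  unfold avgL
  have hm : Measurable (fun q : Space3 × (Λ × LSt) => F (q.2.1, gal (σ q.2.1) q.1 q.2.2)) :=
    hF.comp ((measurable_galL hσ).comp (measurable_snd.prodMk measurable_fst))
  calc ∫⁻ u in Metric.ball (0 : Space3) 1, ∫⁻ p', F p' ∂κ (p.1, gal (σ p.1) u p.2)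
      ≤ ∫⁻ u in Metric.ball (0 : Space3) 1, ∫⁻ p', F (p'.1, gal (σ p'.1) u p'.2) ∂κ' p := by
        refine setLIntegral_mono' measurableSet_ball fun u hu => ?_
        have hu' : ‖u‖ < 1 := by simpa using hu
        exact hκ u hu'.le p F hF
    _ = _ := lintegral_lintegral_swap hm.aemeasurable

/-! ### Densities and links -/

variable {Q : Type*} [MeasurableSpace Q]

/-- **General link theorem**, labelled.  `q ~ m` = everything integrated independently (link time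
`T q`, relative structure, ...); `G (ℓ, q)` vanishes unless the age `|T q - σ ℓ|` is `≥ r`. -/
theorem SprL.link_gen (hσ : Measurable σ) (h : SprL σ Ξ ν) {r : ℝ}
    (hr : 0 < r) (m : Measure Q) [SFinite m] {T : Q → ℝ} (hT : Measurable T)
    {G : Λ × Q → ℝ≥0∞} (hG : Measurable G) (hGr : ∀ ℓ q, G (ℓ, q) ≠ 0 → r ≤ |T q - σ ℓ|)
    {A : (Λ × Q) × Space3 → ℝ≥0∞} (hA : Measurable A)
    {ψ Ψ : Λ × (ℝ × Space3) → ℝ≥0∞} (hψ : Measurable ψ) (hΨ : Measurable Ψ)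
    (hle : ∀ ℓ τ u v, ‖u‖ < 1 → ψ (ℓ, (τ, v + u)) ≤ Ψ (ℓ, (τ, v))) :
    ∫⁻ p, ∫⁻ q, ψ (p.1, (p.2.1, p.2.2.2)) *
        (G (p.1, q) * A ((p.1, q), posAt (T q) p.2)) ∂m ∂ν ≤
      ENNReal.ofReal (r⁻¹ ^ 3) * ∫⁻ p, Ψ (p.1, (p.2.1, p.2.2.2)) *
        ∫⁻ q, G (p.1, q) * ∫⁻ x : Space3, A ((p.1, q), x) ∂volume ∂m ∂Ξ := by
  have hmA : Measurable (fun p : (Λ × LSt) × Q => A ((p.1.1, p.2), posAt (T p.2) p.1.2)) :=
    hA.comp (((measurable_fst.comp measurable_fst).prodMk measurable_snd).prodMk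
      (measurable_posAt.comp ((hT.comp measurable_snd).prodMk
        (measurable_snd.comp measurable_fst))))
  have hmG : Measurable (fun p : (Λ × LSt) × Q => G (p.1.1, p.2)) :=
    hG.comp ((measurable_fst.comp measurable_fst).prodMk measurable_snd)
  have hmψ : Measurable (fun p : Λ × LSt => ψ (p.1, (p.2.1, p.2.2.2))) := hψ.comp (by fun_prop)
  have hmΨ : Measurable (fun p : Λ × LSt => Ψ (p.1, (p.2.1, p.2.2.2))) := hΨ.comp (by fun_prop)
  have hmT : Measurable (fun p : (Λ × LSt) × Q => ψ (p.1.1, (p.1.2.1, p.1.2.2.2)) *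
      (G (p.1.1, p.2) * A ((p.1.1, p.2), posAt (T p.2) p.1.2))) :=
    (hmψ.comp measurable_fst).mul (hmG.mul hmA)
  have hF : Measurable (fun p : Λ × LSt => ∫⁻ q, ψ (p.1, (p.2.1, p.2.2.2)) *
      (G (p.1, q) * A ((p.1, q), posAt (T q) p.2)) ∂m) := hmT.lintegral_prod_right'
  have hmI : Measurable (fun q : Λ × Q => ∫⁻ x : Space3, A (q, x)) := hA.lintegral_prod_right'
  have hmGI : Measurable (fun p : (Λ × LSt) × Q =>
      G (p.1.1, p.2) * ∫⁻ x : Space3, A ((p.1.1, p.2), x)) :=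
    hmG.mul (hmI.comp ((measurable_fst.comp measurable_fst).prodMk measurable_snd))
  have hmR : Measurable (fun p : Λ × LSt => Ψ (p.1, (p.2.1, p.2.2.2)) *
        ∫⁻ q, G (p.1, q) * ∫⁻ x : Space3, A ((p.1, q), x) ∂volume ∂m) :=
    hmΨ.mul hmGI.lintegral_prod_right'
  refine (h _ hF).trans ?_
  rw [← lintegral_const_mul _ hmR]
  refine lintegral_mono fun p => ?_
  obtain ⟨ℓ, z⟩ := p
  unfold avgL
  simp only
  have hmu : Measurable (fun q : Space3 × Q => ψ (ℓ, ((gal (σ ℓ) q.1 z).1,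
      (gal (σ ℓ) q.1 z).2.2)) * (G (ℓ, q.2) * A ((ℓ, q.2), posAt (T q.2) (gal (σ ℓ) q.1 z)))) := by
    have h1 : Measurable (fun q : Space3 × Q => (((ℓ, gal (σ ℓ) q.1 z), q.2) : (Λ × LSt) × Q)) :=
      (measurable_const.prodMk ((measurable_gal_uz (σ ℓ)).comp
        (measurable_fst.prodMk measurable_const))).prodMk measurable_snd
    exact hmT.comp h1
  rw [lintegral_lintegral_swap hmu.aemeasurable]
  have hmq : Measurable (fun q : Q => G (ℓ, q) * ∫⁻ x : Space3, A ((ℓ, q), x)) := by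
    have h5 : Measurable (fun q : Q => (((ℓ, z), q) : (Λ × LSt) × Q)) :=
      measurable_const.prodMk measurable_id
    exact hmGI.comp h5
  rw [← lintegral_const_mul _ hmq, ← lintegral_const_mul _ (hmq.const_mul _)]
  refine lintegral_mono fun q => ?_
  by_cases hG0 : G (ℓ, q) = 0
  · simp [hG0]
  have hrq : r ≤ |T q - σ ℓ| := hGr ℓ q hG0
  have h0 : T q ≠ σ ℓ := by
    intro h1
    rw [h1] at hrq
    simp at hrq
    linarith
  have hmaq : Measurable (fun x : Space3 => A ((ℓ, q), x)) :=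
    hA.comp (measurable_const.prodMk measurable_id)
  have h2 := avg_pos_le (s0 := σ ℓ) (t := T q) h0 hmaq (ψ := fun p => ψ (ℓ, p))
    (Ψ := fun p => Ψ (ℓ, p)) (fun τ u v hu => hle ℓ τ u v hu) z
  have h3 : |T q - σ ℓ|⁻¹ ^ 3 ≤ r⁻¹ ^ 3 := by gcongr
  unfold avg at h2
  have hmz : Measurable (fun u : Space3 => A ((ℓ, q), posAt (T q) (gal (σ ℓ) u z)) *
      ψ (ℓ, ((gal (σ ℓ) u z).1, (gal (σ ℓ) u z).2.2))) := by
    have h4 : Measurable (fun u : Space3 => gal (σ ℓ) u z) :=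
      (measurable_gal_uz (σ ℓ)).comp (measurable_id.prodMk measurable_const)
    refine (hmaq.comp ((measurable_posAt_t (T q)).comp h4)).mul (hψ.comp ?_)
    exact measurable_const.prodMk ((measurable_fst.comp h4).prodMk
      (measurable_snd.comp (measurable_snd.comp h4)))
  calc ∫⁻ u in Metric.ball (0 : Space3) 1, ψ (ℓ, ((gal (σ ℓ) u z).1, (gal (σ ℓ) u z).2.2)) *
        (G (ℓ, q) * A ((ℓ, q), posAt (T q) (gal (σ ℓ) u z)))
      = ∫⁻ u in Metric.ball (0 : Space3) 1, G (ℓ, q) *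
          (A ((ℓ, q), posAt (T q) (gal (σ ℓ) u z)) *
            ψ (ℓ, ((gal (σ ℓ) u z).1, (gal (σ ℓ) u z).2.2))) := by
        refine lintegral_congr fun u => ?_
        ring
    _ = G (ℓ, q) * ∫⁻ u in Metric.ball (0 : Space3) 1,
          A ((ℓ, q), posAt (T q) (gal (σ ℓ) u z)) *
            ψ (ℓ, ((gal (σ ℓ) u z).1, (gal (σ ℓ) u z).2.2)) := lintegral_const_mul _ hmz
    _ ≤ G (ℓ, q) * ((ENNReal.ofReal (|T q - σ ℓ|⁻¹ ^ 3) * ∫⁻ x, A ((ℓ, q), x)) *
          Ψ (ℓ, (z.1, z.2.2))) := mul_le_mul_right h2 _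
    _ ≤ G (ℓ, q) * ((ENNReal.ofReal (r⁻¹ ^ 3) * ∫⁻ x, A ((ℓ, q), x)) *
          Ψ (ℓ, (z.1, z.2.2))) := by gcongr
    _ = _ := by ring

/-- **Link**, labelled: the marked line `H (ℓ, q)` (relative to the contact point) of a fresh
structure contacted by the spread line has a full density. -/
theorem SprL.link (hσ : Measurable σ) (h : SprL σ Ξ ν) {r : ℝ}
    (hr : 0 < r) (m : Measure Q) [SFinite m] {T : Q → ℝ} (hT : Measurable T)
    {G : Λ × Q → ℝ≥0∞} (hG : Measurable G) (hGr : ∀ ℓ q, G (ℓ, q) ≠ 0 → r ≤ |T q - σ ℓ|)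
    {H : Λ × Q → LSt} (hH : Measurable H) {F : Λ × Q → LSt → ℝ≥0∞}
    (hF : Measurable (Function.uncurry F))
    {ψ Ψ : Λ × (ℝ × Space3) → ℝ≥0∞} (hψ : Measurable ψ) (hΨ : Measurable Ψ)
    (hle : ∀ ℓ τ u v, ‖u‖ < 1 → ψ (ℓ, (τ, v + u)) ≤ Ψ (ℓ, (τ, v))) :
    ∫⁻ p, ∫⁻ q, ψ (p.1, (p.2.1, p.2.2.2)) *
        (G (p.1, q) * F (p.1, q) (shiftX (posAt (T q) p.2) (H (p.1, q)))) ∂m ∂ν ≤
      ENNReal.ofReal (r⁻¹ ^ 3) * ∫⁻ p, Ψ (p.1, (p.2.1, p.2.2.2)) *
        ∫⁻ q, G (p.1, q) *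
          ∫⁻ x : Space3, F (p.1, q) ((H (p.1, q)).1, (x, (H (p.1, q)).2.2)) ∂volume ∂m ∂Ξ := by
  have hA : Measurable (fun p : (Λ × Q) × Space3 => F p.1 (shiftX p.2 (H p.1))) := by
    have h1 : Measurable (fun p : (Λ × Q) × Space3 =>
        ((p.1, shiftX p.2 (H p.1)) : (Λ × Q) × LSt)) :=
      measurable_fst.prodMk (measurable_shiftX.comp
        (measurable_snd.prodMk (hH.comp measurable_fst)))
    exact hF.comp h1
  refine (h.link_gen hσ hr m hT hG hGr hA hψ hΨ hle).trans (le_of_eq ?_)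
  congr 1
  refine lintegral_congr fun p => ?_
  congr 1
  refine lintegral_congr fun q => ?_
  congr 1
  have e1 : ∀ x : Space3, F (p.1, q) (shiftX x (H (p.1, q))) =
      (fun x => F (p.1, q) ((H (p.1, q)).1, (x, (H (p.1, q)).2.2))) ((H (p.1, q)).2.1 + x) := by
    intro x; rfl
  simp_rw [e1]
  exact lintegral_add_left_eq_self
    (fun x => F (p.1, q) ((H (p.1, q)).1, (x, (H (p.1, q)).2.2))) (H (p.1, q)).2.1

/-- **Converse link**, labelled: the line `d = H (ℓ, q) - posAt (T q) z`. -/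
theorem SprL.link_neg (hσ : Measurable σ) (h : SprL σ Ξ ν) {r : ℝ}
    (hr : 0 < r) (m : Measure Q) [SFinite m] {T : Q → ℝ} (hT : Measurable T)
    {G : Λ × Q → ℝ≥0∞} (hG : Measurable G) (hGr : ∀ ℓ q, G (ℓ, q) ≠ 0 → r ≤ |T q - σ ℓ|)
    {H : Λ × Q → LSt} (hH : Measurable H) {F : Λ × Q → LSt → ℝ≥0∞}
    (hF : Measurable (Function.uncurry F))
    {ψ Ψ : Λ × (ℝ × Space3) → ℝ≥0∞} (hψ : Measurable ψ) (hΨ : Measurable Ψ)
    (hle : ∀ ℓ τ u v, ‖u‖ < 1 → ψ (ℓ, (τ, v + u)) ≤ Ψ (ℓ, (τ, v))) :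
    ∫⁻ p, ∫⁻ q, ψ (p.1, (p.2.1, p.2.2.2)) *
        (G (p.1, q) * F (p.1, q) (shiftN (posAt (T q) p.2) (H (p.1, q)))) ∂m ∂ν ≤
      ENNReal.ofReal (r⁻¹ ^ 3) * ∫⁻ p, Ψ (p.1, (p.2.1, p.2.2.2)) *
        ∫⁻ q, G (p.1, q) *
          ∫⁻ x : Space3, F (p.1, q) ((H (p.1, q)).1, (x, (H (p.1, q)).2.2)) ∂volume ∂m ∂Ξ := by
  have hA : Measurable (fun p : (Λ × Q) × Space3 => F p.1 (shiftN p.2 (H p.1))) := by
    have h1 : Measurable (fun p : (Λ × Q) × Space3 =>
        ((p.1, shiftN p.2 (H p.1)) : (Λ × Q) × LSt)) :=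
      measurable_fst.prodMk (measurable_shiftN.comp
        (measurable_snd.prodMk (hH.comp measurable_fst)))
    exact hF.comp h1
  refine (h.link_gen hσ hr m hT hG hGr hA hψ hΨ hle).trans (le_of_eq ?_)
  congr 1
  refine lintegral_congr fun p => ?_
  congr 1
  refine lintegral_congr fun q => ?_
  congr 1
  have e1 : ∀ x : Space3, F (p.1, q) (shiftN x (H (p.1, q))) =
      (fun x => F (p.1, q) ((H (p.1, q)).1, (x, (H (p.1, q)).2.2))) ((H (p.1, q)).2.1 - x) := by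
    intro x; rfl
  simp_rw [e1]
  exact lintegral_sub_left_eq_self
    (fun x => F (p.1, q) ((H (p.1, q)).1, (x, (H (p.1, q)).2.2))) (H (p.1, q)).2.1

end Crest.Agent.R122.Boost969
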