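import Crest.Agent.R122.FluxI_263

/-!
Row 122 (helper263): **weighted flux** (E_FINAL (3.4)), with a nonincreasing weight `ω` evaluated at
the contact time (`ω u = W_w(u-)`).

`hitW ω a b r d` is the supremum of `ω s` over the times `s ∈ [a, b]` with `d s ≤ r`, i.e. (for `ω`
nonincreasing) the weight at the first contact time.
-/

set_option autoImplicit false

open MeasureTheory Set Crest.AnalysisR.Kinetic
open scoped ENNReal

noncomputable section

namespace Crest.Agent.R122.FluxI263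

open Sweep815

/-! ### Weighted sweeping -/

/-- Weighted sweeping inequality. -/
theorem sweepW {a b r : ℝ} (hr : 0 < r) {d σ : ℝ → ℝ} {ω : ℝ → ℝ≥0∞}
    (hω : AntitoneOn ω (Icc a b))
    (hσ0 : ∀ s ∈ Icc a b, 0 ≤ σ s) (hσ : IntegrableOn σ (Icc a b))
    (hd : ∀ s ∈ Icc a b, ∀ s' ∈ Icc a b, s ≤ s' → d s ≤ d s' + ∫ u in s..s', σ u)
    {s : ℝ} (hs : s ∈ Icc a b) (hds : d s ≤ r) :
    ω s ≤ {u | d u ≤ 2 * r}.indicator ω a +
        (ENNReal.ofReal r)⁻¹ * ∫⁻ u in Icc a b,
          ω u * {u | d u ≤ 2 * r}.indicator (fun u => ENNReal.ofReal (σ u)) u := by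
  have hab : a ≤ b := hs.1.trans hs.2
  have hsub : Icc a s ⊆ Icc a b := Icc_subset_Icc_right hs.2
  have ha : a ∈ Icc a b := left_mem_Icc.2 hab
  have h := sweep_real (a := a) (b := s) hr (fun u hu => hσ0 u (hsub hu)) (hσ.mono_set hsub)
    (fun u hu u' hu' => hd u (hsub hu) u' (hsub hu')) ⟨s, right_mem_Icc.2 hs.1, hds⟩
  rcases h with h | h
  · rw [indicator_of_mem (show a ∈ {u | d u ≤ 2 * r} from h)]
    exact (hω ha hs hs.1).trans le_self_add
  · refine le_trans ?_ le_add_self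
    have h0 : ENNReal.ofReal r ≠ 0 := by simpa using hr
    calc ω s = (ENNReal.ofReal r)⁻¹ * (ω s * ENNReal.ofReal r) := by
          rw [mul_comm (ω s), ← mul_assoc, ENNReal.inv_mul_cancel h0 ENNReal.ofReal_ne_top, one_mul]
      _ ≤ (ENNReal.ofReal r)⁻¹ * (ω s * ∫⁻ u in Icc a s,
            {u | d u ≤ 2 * r}.indicator (fun u => ENNReal.ofReal (σ u)) u) := by gcongr
      _ ≤ (ENNReal.ofReal r)⁻¹ * ∫⁻ u in Icc a s,
            ω s * {u | d u ≤ 2 * r}.indicator (fun u => ENNReal.ofReal (σ u)) u :=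
          mul_le_mul_right (lintegral_const_mul_le _ _) _
      _ ≤ (ENNReal.ofReal r)⁻¹ * ∫⁻ u in Icc a s,
            ω u * {u | d u ≤ 2 * r}.indicator (fun u => ENNReal.ofReal (σ u)) u := by
          refine mul_le_mul_right (setLIntegral_mono' measurableSet_Icc fun u hu => ?_) _
          exact mul_le_mul_left (hω (hsub hu) hs hu.2) _
      _ ≤ _ := mul_le_mul_right (lintegral_mono_set hsub) _

set_option maxHeartbeats 1000000 in
/-- **Weighted contact estimate, density form** (815's `contact_le` with a weight at the contact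
time), with a measurable majorant. -/
theorem contactW_exists {Ω : Type*} [MeasurableSpace Ω] (ν : Measure Ω) [SFinite ν] {a b r : ℝ}
    (hr : 0 < r) (hab : a ≤ b) {P P' : Ω → ℝ → Space3} {y y' : ℝ → Space3} {w : Ω → ℝ≥0∞}
    {ω : ℝ → ℝ≥0∞} (hω : AntitoneOn ω (Icc a b)) (hωm : Measurable ω) (hωt : ∀ s, ω s ≠ ∞)
    (hw : Measurable w) (hPm : Measurable (Function.uncurry P))
    (hPm' : Measurable (Function.uncurry P'))
    (hP : ∀ o, ∀ s ∈ Icc a b, HasDerivAt (P o) (P' o s) s)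
    (hPc : ∀ o, ContinuousOn (P' o) (Icc a b))
    (hy : ∀ s ∈ Icc a b, HasDerivAt y (y' s) s) (hyc : ContinuousOn y' (Icc a b))
    (hym : Measurable y) (hym' : Measurable y')
    {D : ℝ → ℝ≥0∞}
    (hD : ∀ u ∈ Icc a b, ∫⁻ o, w o * {o | dist (P o u) (y u) ≤ 2 * r}.indicator
      (fun o => 1 + ENNReal.ofReal ‖P' o u‖) o ∂ν ≤ D u * (ENNReal.ofReal (2 * r) ^ 3 * c3)) :
    ∃ g : Ω → ℝ≥0∞, Measurable g ∧
      (∀ o, w o * (⨆ s ∈ Icc a b, ⨆ (_ : dist (P o s) (y s) ≤ r), ω s) ≤ g o) ∧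
      ∫⁻ o, g o ∂ν ≤ 8 * ENNReal.ofReal r ^ 2 * c3 *
        (ENNReal.ofReal r * (ω a * D a) +
          ∫⁻ u in Icc a b, ω u * (D u * (1 + ENNReal.ofReal ‖y' u‖))) := by
  have h8 : ENNReal.ofReal (2 * r) ^ 3 = 8 * ENNReal.ofReal r ^ 3 := by
    rw [ENNReal.ofReal_mul (by norm_num), mul_pow]
    norm_num
  have hr0 : ENNReal.ofReal r ≠ 0 := by simpa using hr
  have hdm : Measurable fun p : Ω × ℝ => dist (P p.1 p.2) (y p.2) :=
    Measurable.dist (f := fun p : Ω × ℝ => P p.1 p.2) (g := fun p : Ω × ℝ => y p.2)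
      hPm (hym.comp measurable_snd)
  have hσm : Measurable fun p : Ω × ℝ => ‖P' p.1 p.2 - y' p.2‖ :=
    (Measurable.sub (f := fun p : Ω × ℝ => P' p.1 p.2) (g := fun p : Ω × ℝ => y' p.2)
      hPm' (hym'.comp measurable_snd)).norm
  have hSm : MeasurableSet {p : Ω × ℝ | dist (P p.1 p.2) (y p.2) ≤ 2 * r} :=
    measurableSet_le hdm measurable_const
  -- the pointwise bound
  have hpt : ∀ o, (⨆ s ∈ Icc a b, ⨆ (_ : dist (P o s) (y s) ≤ r), ω s) ≤
      {u | dist (P o u) (y u) ≤ 2 * r}.indicator ω a + (ENNReal.ofReal r)⁻¹ * ∫⁻ u in Icc a b,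
        ω u * {u | dist (P o u) (y u) ≤ 2 * r}.indicator
          (fun u => ENNReal.ofReal ‖P' o u - y' u‖) u := by
    intro o
    refine iSup₂_le fun s hs => iSup_le fun hds => ?_
    exact sweepW (d := fun s => dist (P o s) (y s)) (σ := fun s => ‖P' o s - y' s‖) hr hω
      (fun _ _ => norm_nonneg _) (((hPc o).sub hyc).norm.integrableOn_compact isCompact_Icc)
      (dist_le_of_deriv (hP o) hy (hPc o) hyc) hs hds
  -- measurability of the integrand
  have hf1 : Measurable fun p : Ω × ℝ => w p.1 * (ω p.2 *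
      {p : Ω × ℝ | dist (P p.1 p.2) (y p.2) ≤ 2 * r}.indicator
        (fun p => ENNReal.ofReal ‖P' p.1 p.2 - y' p.2‖) p) :=
    (hw.comp measurable_fst).mul ((hωm.comp measurable_snd).mul
      (hσm.ennreal_ofReal.indicator hSm))
  have hind : ∀ (o : Ω) (u : ℝ), {u | dist (P o u) (y u) ≤ 2 * r}.indicator
      (fun u => ENNReal.ofReal ‖P' o u - y' u‖) u =
      {p : Ω × ℝ | dist (P p.1 p.2) (y p.2) ≤ 2 * r}.indicator
        (fun p => ENNReal.ofReal ‖P' p.1 p.2 - y' p.2‖) (o, u) := by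
    intro o u
    by_cases hm : dist (P o u) (y u) ≤ 2 * r
    · rw [indicator_of_mem (show u ∈ {u | dist (P o u) (y u) ≤ 2 * r} from hm), indicator_of_mem
        (show (o, u) ∈ {p : Ω × ℝ | dist (P p.1 p.2) (y p.2) ≤ 2 * r} from hm)]
    · rw [indicator_of_notMem (show u ∉ {u | dist (P o u) (y u) ≤ 2 * r} from hm),
        indicator_of_notMem
        (show (o, u) ∉ {p : Ω × ℝ | dist (P p.1 p.2) (y p.2) ≤ 2 * r} from hm)]
  have hind2 : ∀ (o : Ω) (u : ℝ), {o | dist (P o u) (y u) ≤ 2 * r}.indicator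
      (fun o => ENNReal.ofReal ‖P' o u - y' u‖) o =
      {p : Ω × ℝ | dist (P p.1 p.2) (y p.2) ≤ 2 * r}.indicator
        (fun p => ENNReal.ofReal ‖P' p.1 p.2 - y' p.2‖) (o, u) := by
    intro o u
    by_cases hm : dist (P o u) (y u) ≤ 2 * r
    · rw [indicator_of_mem (show o ∈ {o | dist (P o u) (y u) ≤ 2 * r} from hm), indicator_of_mem
        (show (o, u) ∈ {p : Ω × ℝ | dist (P p.1 p.2) (y p.2) ≤ 2 * r} from hm)]
    · rw [indicator_of_notMem (show o ∉ {o | dist (P o u) (y u) ≤ 2 * r} from hm),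
        indicator_of_notMem
        (show (o, u) ∉ {p : Ω × ℝ | dist (P p.1 p.2) (y p.2) ≤ 2 * r} from hm)]
  -- first term
  have hA : ∫⁻ o, w o * {u | dist (P o u) (y u) ≤ 2 * r}.indicator ω a ∂ν ≤
      8 * ENNReal.ofReal r ^ 2 * c3 * (ENNReal.ofReal r * (ω a * D a)) := by
    calc ∫⁻ o, w o * {u | dist (P o u) (y u) ≤ 2 * r}.indicator ω a ∂ν
        ≤ ∫⁻ o, ω a * (w o * {o | dist (P o a) (y a) ≤ 2 * r}.indicator
            (fun o => 1 + ENNReal.ofReal ‖P' o a‖) o) ∂ν := by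
          refine lintegral_mono fun o => ?_
          simp only
          by_cases hm : dist (P o a) (y a) ≤ 2 * r
          · rw [indicator_of_mem (show a ∈ {u | dist (P o u) (y u) ≤ 2 * r} from hm),
              indicator_of_mem (show o ∈ {o | dist (P o a) (y a) ≤ 2 * r} from hm)]
            calc w o * ω a = ω a * (w o * 1) := by ring
              _ ≤ _ := by gcongr; exact le_self_add
          · rw [indicator_of_notMem (show a ∉ {u | dist (P o u) (y u) ≤ 2 * r} from hm)]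
            simp
      _ = ω a * ∫⁻ o, w o * {o | dist (P o a) (y a) ≤ 2 * r}.indicator
            (fun o => 1 + ENNReal.ofReal ‖P' o a‖) o ∂ν := lintegral_const_mul' _ _ (hωt a)
      _ ≤ ω a * (D a * (ENNReal.ofReal (2 * r) ^ 3 * c3)) :=
          mul_le_mul_right (hD a ⟨le_refl _, hab⟩) _
      _ = 8 * ENNReal.ofReal r ^ 2 * c3 * (ENNReal.ofReal r * (ω a * D a)) := by rw [h8]; ring
  -- second term
  have hB1 : ∀ u ∈ Icc a b, ∫⁻ o, w o * (ω u *
      {p : Ω × ℝ | dist (P p.1 p.2) (y p.2) ≤ 2 * r}.indicator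
        (fun p => ENNReal.ofReal ‖P' p.1 p.2 - y' p.2‖) (o, u)) ∂ν ≤
      (ENNReal.ofReal (2 * r) ^ 3 * c3) * (ω u * (D u * (1 + ENNReal.ofReal ‖y' u‖))) := by
    intro u hu
    calc _ ≤ ∫⁻ o, (ω u * (1 + ENNReal.ofReal ‖y' u‖)) *
            (w o * {o | dist (P o u) (y u) ≤ 2 * r}.indicator
            (fun o => 1 + ENNReal.ofReal ‖P' o u‖) o) ∂ν := by
          refine lintegral_mono fun o => ?_
          rw [← hind2]
          simp only
          by_cases hm : o ∈ {o | dist (P o u) (y u) ≤ 2 * r}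
          · rw [indicator_of_mem hm, indicator_of_mem hm]
            calc w o * (ω u * ENNReal.ofReal ‖P' o u - y' u‖)
                ≤ w o * (ω u * ((1 + ENNReal.ofReal ‖P' o u‖) * (1 + ENNReal.ofReal ‖y' u‖))) := by
                  gcongr
                  calc ENNReal.ofReal ‖P' o u - y' u‖ ≤ ENNReal.ofReal (‖P' o u‖ + ‖y' u‖) :=
                        ENNReal.ofReal_le_ofReal (norm_sub_le _ _)
                    _ = ENNReal.ofReal ‖P' o u‖ + ENNReal.ofReal ‖y' u‖ :=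
                        ENNReal.ofReal_add (norm_nonneg _) (norm_nonneg _)
                    _ ≤ (1 + ENNReal.ofReal ‖P' o u‖) * (1 + ENNReal.ofReal ‖y' u‖) := by
                        rw [mul_add, mul_one, add_mul, one_mul]
                        gcongr
                        · exact le_add_self
                        · exact le_self_add
              _ = _ := by ring
          · rw [indicator_of_notMem hm, indicator_of_notMem hm]
            simp
      _ = (ω u * (1 + ENNReal.ofReal ‖y' u‖)) *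
            ∫⁻ o, w o * {o | dist (P o u) (y u) ≤ 2 * r}.indicator
            (fun o => 1 + ENNReal.ofReal ‖P' o u‖) o ∂ν :=
          lintegral_const_mul' _ _ (ENNReal.mul_ne_top (hωt u)
            (ENNReal.add_ne_top.2 ⟨ENNReal.one_ne_top, ENNReal.ofReal_ne_top⟩))
      _ ≤ (ω u * (1 + ENNReal.ofReal ‖y' u‖)) * (D u * (ENNReal.ofReal (2 * r) ^ 3 * c3)) :=
          mul_le_mul_right (hD u hu) _
      _ = _ := by ring
  have hB : ∫⁻ o, w o * ((ENNReal.ofReal r)⁻¹ * ∫⁻ u in Icc a b,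
        ω u * {u | dist (P o u) (y u) ≤ 2 * r}.indicator
          (fun u => ENNReal.ofReal ‖P' o u - y' u‖) u) ∂ν ≤
      8 * ENNReal.ofReal r ^ 2 * c3 *
        ∫⁻ u in Icc a b, ω u * (D u * (1 + ENNReal.ofReal ‖y' u‖)) := by
    have hswap : ∫⁻ o, w o * ((ENNReal.ofReal r)⁻¹ * ∫⁻ u in Icc a b,
        ω u * {u | dist (P o u) (y u) ≤ 2 * r}.indicator
          (fun u => ENNReal.ofReal ‖P' o u - y' u‖) u) ∂ν =
        (ENNReal.ofReal r)⁻¹ * ∫⁻ u in Icc a b, ∫⁻ o, w o * (ω u *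
          {p : Ω × ℝ | dist (P p.1 p.2) (y p.2) ≤ 2 * r}.indicator
            (fun p => ENNReal.ofReal ‖P' p.1 p.2 - y' p.2‖) (o, u)) ∂ν := by
      simp_rw [hind]
      rw [lintegral_lintegral_swap
        (f := fun (u : ℝ) (o : Ω) => w o * (ω u *
          {p : Ω × ℝ | dist (P p.1 p.2) (y p.2) ≤ 2 * r}.indicator
            (fun p => ENNReal.ofReal ‖P' p.1 p.2 - y' p.2‖) (o, u)))
        ((hf1.comp measurable_swap).aemeasurable)]
      rw [← lintegral_const_mul' _ _ (ENNReal.inv_ne_top.2 hr0)]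
      refine lintegral_congr fun o => ?_
      rw [lintegral_const_mul]
      · ring
      · exact (hωm.mul ((hσm.ennreal_ofReal.indicator hSm).comp measurable_prodMk_left))
    rw [hswap]
    calc _ ≤ (ENNReal.ofReal r)⁻¹ * ∫⁻ u in Icc a b,
            (ENNReal.ofReal (2 * r) ^ 3 * c3) * (ω u * (D u * (1 + ENNReal.ofReal ‖y' u‖))) :=
          mul_le_mul_right (setLIntegral_mono' measurableSet_Icc hB1) _
      _ = (ENNReal.ofReal r)⁻¹ * ((ENNReal.ofReal (2 * r) ^ 3 * c3) * ∫⁻ u in Icc a b,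
            ω u * (D u * (1 + ENNReal.ofReal ‖y' u‖))) := by
          rw [lintegral_const_mul' _ _ (by
            exact ENNReal.mul_ne_top (ENNReal.pow_ne_top ENNReal.ofReal_ne_top)
              ENNReal.ofReal_ne_top)]
      _ = ((ENNReal.ofReal r)⁻¹ * ENNReal.ofReal r) * (8 * ENNReal.ofReal r ^ 2 * c3) *
            ∫⁻ u in Icc a b, ω u * (D u * (1 + ENNReal.ofReal ‖y' u‖)) := by
          rw [h8]; ring
      _ = _ := by
          rw [ENNReal.inv_mul_cancel hr0 ENNReal.ofReal_ne_top, one_mul]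
  have hm1 : Measurable fun o => w o * {u | dist (P o u) (y u) ≤ 2 * r}.indicator ω a := by
    have hg : Measurable fun o : Ω => (o, a) := measurable_id.prodMk measurable_const
    have hda : Measurable ((fun p : Ω × ℝ => dist (P p.1 p.2) (y p.2)) ∘ fun o : Ω => (o, a)) :=
      Measurable.comp hdm hg
    have hSa : MeasurableSet {o : Ω | dist (P o a) (y a) ≤ 2 * r} := by
      have h := measurableSet_le hda (measurable_const (a := 2 * r))
      exact h
    have : (fun o => {u | dist (P o u) (y u) ≤ 2 * r}.indicator ω a) =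
        {o | dist (P o a) (y a) ≤ 2 * r}.indicator (fun _ => ω a) := by
      funext o
      by_cases hm : dist (P o a) (y a) ≤ 2 * r
      · rw [indicator_of_mem (show a ∈ {u | dist (P o u) (y u) ≤ 2 * r} from hm),
          indicator_of_mem (show o ∈ {o | dist (P o a) (y a) ≤ 2 * r} from hm)]
      · rw [indicator_of_notMem (show a ∉ {u | dist (P o u) (y u) ≤ 2 * r} from hm),
          indicator_of_notMem (show o ∉ {o | dist (P o a) (y a) ≤ 2 * r} from hm)]
    rw [show (fun o => w o * {u | dist (P o u) (y u) ≤ 2 * r}.indicator ω a) = fun o => w o *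
      {o | dist (P o a) (y a) ≤ 2 * r}.indicator (fun _ => ω a) o by
        funext o; exact congrArg (w o * ·) (congrFun this o)]
    exact hw.mul (measurable_const.indicator hSa)
  have hm2 : Measurable fun o => w o * ((ENNReal.ofReal r)⁻¹ * ∫⁻ u in Icc a b,
        ω u * {u | dist (P o u) (y u) ≤ 2 * r}.indicator
          (fun u => ENNReal.ofReal ‖P' o u - y' u‖) u) := by
    simp_rw [hind]
    refine hw.mul (Measurable.const_mul ?_ _)
    have h3 : Measurable fun p : Ω × ℝ => ω p.2 *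
      {p : Ω × ℝ | dist (P p.1 p.2) (y p.2) ≤ 2 * r}.indicator
        (fun p => ENNReal.ofReal ‖P' p.1 p.2 - y' p.2‖) p :=
      (hωm.comp measurable_snd).mul (hσm.ennreal_ofReal.indicator hSm)
    exact h3.lintegral_prod_right' (ν := volume.restrict (Icc a b))
  refine ⟨fun o => w o * {u | dist (P o u) (y u) ≤ 2 * r}.indicator ω a +
          w o * ((ENNReal.ofReal r)⁻¹ * ∫⁻ u in Icc a b,
        ω u * {u | dist (P o u) (y u) ≤ 2 * r}.indicator
          (fun u => ENNReal.ofReal ‖P' o u - y' u‖) u), hm1.add hm2, fun o => ?_, ?_⟩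
  · simp only
    rw [← mul_add]
    exact mul_le_mul_right (hpt o) _
  · rw [lintegral_add_left hm1, mul_add]
    exact add_le_add hA hB

/-! ### Free lines -/

/-- Weighted flux of free lines through one moving particle (line-space form). -/
theorem lineW_exists {s0 a b r : ℝ} (hr : 0 < r) (hab : a ≤ b) {y y' : ℝ → Space3}
    (hy : ∀ s ∈ Icc a b, HasDerivAt y (y' s) s) (hyc : ContinuousOn y' (Icc a b))
    (hym : Measurable y) (hym' : Measurable y') {G : Space3 → ℝ≥0∞} (hG : Measurable G)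
    {ω : ℝ → ℝ≥0∞} (hω : AntitoneOn ω (Icc a b)) (hωm : Measurable ω) (hωt : ∀ s, ω s ≠ ∞) :
    ∃ g : PhasePoint → ℝ≥0∞, Measurable g ∧
      (∀ p : PhasePoint, G p.2 * (⨆ s ∈ Icc a b, ⨆ (_ : dist (p.1 + (s - s0) • p.2) (y s) ≤ r), ω s)
        ≤ g p) ∧
      ∫⁻ p, g p ≤ 8 * ENNReal.ofReal r ^ 2 * c3 * (∫⁻ v, G v * (1 + ENNReal.ofReal ‖v‖)) *
        (ENNReal.ofReal r * ω a + ∫⁻ u in Icc a b, ω u * (1 + ENNReal.ofReal ‖y' u‖)) := by
  set D : ℝ → ℝ≥0∞ := fun _ => ∫⁻ v, G v * (1 + ENNReal.ofReal ‖v‖) with hDdef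
  have hPm : Measurable (Function.uncurry fun (p : PhasePoint) (s : ℝ) =>
      p.1 + (s - s0) • p.2) := by
    have : Continuous (Function.uncurry fun (p : PhasePoint) (s : ℝ) =>
      p.1 + (s - s0) • p.2) := by unfold Function.uncurry; fun_prop
    exact this.measurable
  have hPm' : Measurable (Function.uncurry fun (p : PhasePoint) (_ : ℝ) => p.2) := by
    have : Continuous (Function.uncurry fun (p : PhasePoint) (_ : ℝ) => p.2) := by
      unfold Function.uncurry; fun_prop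
    exact this.measurable
  obtain ⟨g, hg, hle, hint⟩ := contactW_exists (Ω := PhasePoint) (volume : Measure PhasePoint) hr hab
    (P := fun p s => p.1 + (s - s0) • p.2) (P' := fun p _ => p.2) (y := y) (y' := y')
    (w := fun p => G p.2) hω hωm hωt (hG.comp measurable_snd) hPm hPm'
    (by
      intro p s _
      have h1 : HasDerivAt (fun s : ℝ => (s - s0) • p.2) ((1 : ℝ) • p.2) s :=
        ((hasDerivAt_id s).sub_const s0).smul_const p.2
      rw [one_smul] at h1
      exact h1.const_add p.1)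
    (fun p => continuousOn_const) hy hyc hym hym' (D := D)
    (by
      intro u hu
      have hball : ∀ v : Space3, {x : Space3 | dist (x + (u - s0) • v) (y u) ≤ 2 * r} =
          Metric.closedBall (y u - (u - s0) • v) (2 * r) := by
        intro v
        ext x
        simp only [mem_ofPred_eq, Metric.mem_closedBall, dist_eq_norm]
        rw [show x + (u - s0) • v - y u = x - (y u - (u - s0) • v) by abel]
      have hm : Measurable (fun p : PhasePoint => G p.2 *
          {p : PhasePoint | dist (p.1 + (u - s0) • p.2) (y u) ≤ 2 * r}.indicator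
            (fun p => 1 + ENNReal.ofReal ‖p.2‖) p) := by
        refine (hG.comp measurable_snd).mul (Measurable.indicator (by fun_prop) ?_)
        exact measurableSet_le (Continuous.measurable (by fun_prop)) measurable_const
      rw [Measure.volume_eq_prod, lintegral_prod_symm' _ hm]
      have h1 : ∀ v : Space3, ∫⁻ x : Space3, G v *
          {p : PhasePoint | dist (p.1 + (u - s0) • p.2) (y u) ≤ 2 * r}.indicator
            (fun p => 1 + ENNReal.ofReal ‖p.2‖) (x, v) =
          (G v * (1 + ENNReal.ofReal ‖v‖)) * (ENNReal.ofReal (2 * r) ^ 3 * c3) := by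
        intro v
        have h2 : ∀ x : Space3, G v *
          {p : PhasePoint | dist (p.1 + (u - s0) • p.2) (y u) ≤ 2 * r}.indicator
            (fun p => 1 + ENNReal.ofReal ‖p.2‖) (x, v) =
            {x : Space3 | dist (x + (u - s0) • v) (y u) ≤ 2 * r}.indicator
              (fun _ => G v * (1 + ENNReal.ofReal ‖v‖)) x := by
          intro x
          by_cases hx : dist (x + (u - s0) • v) (y u) ≤ 2 * r
          · rw [indicator_of_mem (show (x, v) ∈ {p : PhasePoint |
              dist (p.1 + (u - s0) • p.2) (y u) ≤ 2 * r} from hx), indicator_of_mem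
              (show x ∈ {x : Space3 | dist (x + (u - s0) • v) (y u) ≤ 2 * r} from hx)]
          · rw [indicator_of_notMem (show (x, v) ∉ {p : PhasePoint |
              dist (p.1 + (u - s0) • p.2) (y u) ≤ 2 * r} from hx), indicator_of_notMem
              (show x ∉ {x : Space3 | dist (x + (u - s0) • v) (y u) ≤ 2 * r} from hx), mul_zero]
        simp_rw [h2]
        rw [hball, lintegral_indicator Metric.isClosed_closedBall.measurableSet, lintegral_const,
          Measure.restrict_apply_univ, vol_closedBall]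
      simp_rw [h1]
      rw [lintegral_mul_const _ (show Measurable fun v : Space3 => G v * (1 + ENNReal.ofReal ‖v‖) from
        hG.mul (by fun_prop))])
  refine ⟨g, hg, hle, hint.trans (le_of_eq ?_)⟩
  simp only [hDdef]
  have hmy : Measurable fun u => ω u * (1 + ENNReal.ofReal ‖y' u‖) :=
    hωm.mul (hym'.norm.ennreal_ofReal.const_add 1)
  have h5 : ∀ u, ω u * ((∫⁻ v, G v * (1 + ENNReal.ofReal ‖v‖)) * (1 + ENNReal.ofReal ‖y' u‖)) =
      (∫⁻ v, G v * (1 + ENNReal.ofReal ‖v‖)) * (ω u * (1 + ENNReal.ofReal ‖y' u‖)) := fun u => by ring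
  simp_rw [h5]
  rw [lintegral_const_mul _ hmy]
  ring

/-- The time at which `i` enters the monotone family `S`, on `[a, b]`. -/
def entry {ι : Type*} (a b : ℝ) (S : ℝ → Finset ι) (i : ι) : ℝ := sInf {s | s ∈ Icc a b ∧ i ∈ S s}

theorem entry_mem {ι : Type*} {a b : ℝ} (hab : a ≤ b) {S : ℝ → Finset ι} {i : ι} (hi : i ∈ S b) :
    entry a b S i ∈ Icc a b :=
  ⟨le_csInf ⟨b, right_mem_Icc.2 hab, hi⟩ fun s hs => hs.1.1,
    csInf_le ⟨a, fun s hs => hs.1.1⟩ ⟨right_mem_Icc.2 hab, hi⟩⟩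

theorem entry_le {ι : Type*} {a b : ℝ} {S : ℝ → Finset ι} {i : ι} {s : ℝ} (hs : s ∈ Icc a b)
    (hi : i ∈ S s) : entry a b S i ≤ s := csInf_le ⟨a, fun s hs => hs.1.1⟩ ⟨hs, hi⟩

theorem mem_of_entry_lt {ι : Type*} {a b : ℝ} (hab : a ≤ b) {S : ℝ → Finset ι}
    (hmono : ∀ s ∈ Icc a b, ∀ s' ∈ Icc a b, s ≤ s' → S s ⊆ S s') {i : ι} (hi : i ∈ S b) {u : ℝ}
    (hu : u ∈ Icc a b) (hlt : entry a b S i < u) : i ∈ S u := by
  have hne : {s | s ∈ Icc a b ∧ i ∈ S s}.Nonempty := ⟨b, right_mem_Icc.2 hab, hi⟩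
  obtain ⟨s, hs, hsu⟩ := exists_lt_of_csInf_lt hne hlt
  exact hmono s hs.1 u hu hsu.le hs.2

theorem entry_eq_left {ι : Type*} {a b : ℝ} (hab : a ≤ b) {S : ℝ → Finset ι} {i : ι} (hi : i ∈ S a)
    : entry a b S i = a := by
  refine le_antisymm (entry_le (left_mem_Icc.2 hab) hi) ?_
  exact le_csInf ⟨a, left_mem_Icc.2 hab, hi⟩ fun s hs => hs.1.1

/-- **Weighted flux** of free lines through a monotone family of moving particles. -/
theorem familyW_exists {ι : Type*} {s0 a b r : ℝ} (hr : 0 < r) (hab : a ≤ b)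
    {c c' : ι → ℝ → Space3}
    (hc : ∀ i, ∀ s ∈ Icc a b, HasDerivAt (c i) (c' i s) s)
    (hcc : ∀ i, ContinuousOn (c' i) (Icc a b))
    (hcm : ∀ i, Measurable (c i)) (hcm' : ∀ i, Measurable (c' i))
    {S : ℝ → Finset ι} (hmono : ∀ s ∈ Icc a b, ∀ s' ∈ Icc a b, s ≤ s' → S s ⊆ S s')
    {G : Space3 → ℝ≥0∞} (hG : Measurable G)
    {ω : ℝ → ℝ≥0∞} (hω : AntitoneOn ω (Icc a b)) (hωm : Measurable ω) (hωt : ∀ s, ω s ≠ ∞) :
    ∃ g : PhasePoint → ℝ≥0∞, Measurable g ∧
      (∀ p : PhasePoint, G p.2 * (⨆ s ∈ Icc a b, ⨆ i ∈ S s,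
        ⨆ (_ : dist (p.1 + (s - s0) • p.2) (c i s) ≤ r), ω s) ≤ g p) ∧
      ∫⁻ p, g p ≤ 8 * ENNReal.ofReal r ^ 2 * c3 * (∫⁻ v, G v * (1 + ENNReal.ofReal ‖v‖)) *
        (ENNReal.ofReal r * ∑ i ∈ S b, ω (entry a b S i) +
          ∫⁻ u in Icc a b, ω u * ∑ i ∈ S u, (1 + ENNReal.ofReal ‖c' i u‖)) := by
  classical
  have hbb : b ∈ Icc a b := right_mem_Icc.2 hab
  have hsub : ∀ i ∈ S b, Icc (entry a b S i) b ⊆ Icc a b := fun i hi =>
    Icc_subset_Icc_left (entry_mem hab hi).1
  have hex : ∀ i : ι, ∃ g : PhasePoint → ℝ≥0∞, i ∈ S b → (Measurable g ∧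
      (∀ p : PhasePoint, G p.2 * (⨆ s ∈ Icc (entry a b S i) b,
        ⨆ (_ : dist (p.1 + (s - s0) • p.2) (c i s) ≤ r), ω s) ≤ g p) ∧
      ∫⁻ p, g p ≤ 8 * ENNReal.ofReal r ^ 2 * c3 * (∫⁻ v, G v * (1 + ENNReal.ofReal ‖v‖)) *
        (ENNReal.ofReal r * ω (entry a b S i) +
          ∫⁻ u in Icc (entry a b S i) b, ω u * (1 + ENNReal.ofReal ‖c' i u‖))) := by
    intro i
    by_cases hi : i ∈ S b
    · obtain ⟨g, h⟩ := lineW_exists (s0 := s0) hr (entry_mem hab hi).2
        (fun s hs => hc i s (hsub i hi hs)) ((hcc i).mono (hsub i hi)) (hcm i) (hcm' i) hG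
        (hω.mono (hsub i hi)) hωm hωt
      exact ⟨g, fun _ => h⟩
    · exact ⟨fun _ => 0, fun h => absurd h hi⟩
  choose g hg using hex
  refine ⟨fun p => ∑ i ∈ S b, g i p, Finset.measurable_fun_sum _ fun i hi => (hg i hi).1, ?_, ?_⟩
  · intro p
    rw [ENNReal.mul_iSup]
    refine iSup_le fun s => ?_
    rw [ENNReal.mul_iSup]
    refine iSup_le fun hs => ?_
    rw [ENNReal.mul_iSup]
    refine iSup_le fun i => ?_
    rw [ENNReal.mul_iSup]
    refine iSup_le fun hi => ?_
    have hib : i ∈ S b := hmono s hs b hbb hs.2 hi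
    refine le_trans ?_ (Finset.single_le_sum (f := fun i => g i p) (fun _ _ => zero_le) hib)
    refine le_trans (mul_le_mul_right ?_ _) ((hg i hib).2.1 p)
    refine iSup_le fun hd => ?_
    exact le_iSup₂_of_le s ⟨entry_le hs hi, hs.2⟩ (le_iSup_of_le hd le_rfl)
  · rw [lintegral_finsetSum _ fun i hi => (hg i hi).1]
    refine (Finset.sum_le_sum fun i hi => (hg i hi).2.2).trans ?_
    rw [← Finset.mul_sum, Finset.sum_add_distrib, ← Finset.mul_sum]
    refine mul_le_mul_right (add_le_add le_rfl ?_) _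
    have h1 : ∀ i ∈ S b, ∫⁻ u in Icc (entry a b S i) b, ω u * (1 + ENNReal.ofReal ‖c' i u‖) =
        ∫⁻ u in Icc a b, (Ici (entry a b S i)).indicator
          (fun u => ω u * (1 + ENNReal.ofReal ‖c' i u‖)) u := by
      intro i hi
      rw [lintegral_indicator measurableSet_Ici, Measure.restrict_restrict measurableSet_Ici]
      congr 2
      ext u
      simp only [mem_Icc, mem_inter_iff, mem_Ici]
      have := (entry_mem hab hi).1
      constructor
      · rintro ⟨h1, h2⟩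
        exact ⟨h1, this.trans h1, h2⟩
      · rintro ⟨h1, _, h2⟩
        exact ⟨h1, h2⟩
    have hm1 : ∀ i ∈ S b, Measurable ((Ici (entry a b S i)).indicator
        (fun u => ω u * (1 + ENNReal.ofReal ‖c' i u‖))) := fun i _ =>
      Measurable.indicator (hωm.mul ((hcm' i).norm.ennreal_ofReal.const_add 1)) measurableSet_Ici
    rw [Finset.sum_congr rfl h1, ← lintegral_finsetSum _ hm1]
    refine lintegral_mono_ae ?_
    have hnull : ∀ᵐ u ∂(volume.restrict (Icc a b)), ∀ i ∈ S b, u ≠ entry a b S i := by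
      refine (Finset.eventually_all (S b)).2 fun i _ => ?_
      exact ae_restrict_of_ae (by
        have : (volume : Measure ℝ) {entry a b S i} = 0 := Real.volume_singleton
        filter_upwards [compl_mem_ae_iff.2 this] with u hu using fun h => hu (by simp [h]))
    filter_upwards [hnull, ae_restrict_mem measurableSet_Icc] with u hu hu2
    have hsubu : S u ⊆ S b := hmono u hu2 b hbb hu2.2
    rw [← Finset.sum_filter_add_sum_filter_not (S b) (fun i => i ∈ S u)]
    have h2 : ∑ i ∈ (S b).filter (fun i => i ∉ S u),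
        (Ici (entry a b S i)).indicator (fun u => ω u * (1 + ENNReal.ofReal ‖c' i u‖)) u = 0 := by
      refine Finset.sum_eq_zero fun i hi => ?_
      rw [Finset.mem_filter] at hi
      refine indicator_of_notMem (fun h : entry a b S i ≤ u => ?_) _
      exact hi.2 (mem_of_entry_lt hab hmono hi.1 hu2 (lt_of_le_of_ne h (hu i hi.1).symm))
    rw [h2, add_zero]
    have h3 : (S b).filter (fun i => i ∈ S u) = S u := by
      ext i
      simp only [Finset.mem_filter]
      exact ⟨fun h => h.2, fun h => ⟨hsubu h, h⟩⟩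
    rw [h3, Finset.mul_sum]
    exact Finset.sum_le_sum fun i _ => indicator_le_self _ _ _

/-- Time integral of the weighted speeds of the family, from an energy bound: `E0` for the particles
of `S a`, `e p` for the particles entering in `(a, b]`. -/
theorem lintegral_weight_le {ι : Type*} [DecidableEq ι] {a b : ℝ} (hab : a ≤ b)
    {S : ℝ → Finset ι} (hmono : ∀ s ∈ Icc a b, ∀ s' ∈ Icc a b, s ≤ s' → S s ⊆ S s')
    {ω : ℝ → ℝ≥0∞} (hω : AntitoneOn ω (Icc a b)) {q : ι → ℝ → ℝ≥0∞} {E0 : ℝ≥0∞} {e : ι → ℝ≥0∞}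
    (hq : ∀ u ∈ Icc a b, ∑ i ∈ S u, q i u ≤ E0 + ∑ p ∈ S u \ S a, e p) :
    ∫⁻ u in Icc a b, ω u * ∑ i ∈ S u, q i u ≤
      ENNReal.ofReal (b - a) * (ω a * E0 + ∑ p ∈ S b \ S a, ω (entry a b S p) * e p) := by
  have hbb : b ∈ Icc a b := right_mem_Icc.2 hab
  have haa : a ∈ Icc a b := left_mem_Icc.2 hab
  have h1 : ∀ u ∈ Icc a b, ω u * ∑ i ∈ S u, q i u ≤
      ω a * E0 + ∑ p ∈ S b \ S a, ω (entry a b S p) * e p := by
    intro u hu
    calc ω u * ∑ i ∈ S u, q i u ≤ ω u * (E0 + ∑ p ∈ S u \ S a, e p) := mul_le_mul_right (hq u hu) _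
      _ = ω u * E0 + ∑ p ∈ S u \ S a, ω u * e p := by rw [mul_add, Finset.mul_sum]
      _ ≤ ω a * E0 + ∑ p ∈ S u \ S a, ω (entry a b S p) * e p := by
          refine add_le_add (mul_le_mul_left (hω haa hu hu.1) _) (Finset.sum_le_sum fun p hp => ?_)
          rw [Finset.mem_sdiff] at hp
          have hpb : p ∈ S b := hmono u hu b hbb hu.2 hp.1
          exact mul_le_mul_left (hω (entry_mem hab hpb) hu (entry_le hu hp.1)) _
      _ ≤ _ := by
          refine add_le_add le_rfl (Finset.sum_le_sum_of_subset ?_)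
          exact Finset.sdiff_subset_sdiff (hmono u hu b hbb hu.2) le_rfl
  calc ∫⁻ u in Icc a b, ω u * ∑ i ∈ S u, q i u
      ≤ ∫⁻ _ in Icc a b, (ω a * E0 + ∑ p ∈ S b \ S a, ω (entry a b S p) * e p) :=
        setLIntegral_mono' measurableSet_Icc h1
    _ = _ := by rw [setLIntegral_const, Real.volume_Icc, mul_comm]

/-- **(3.4) weighted flux, final form.**  Free legs with velocity density `G` born at time `s0`
(anywhere), moving particles `c i`, monotone infected family `S`, nonincreasing weight `ω` at the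
contact time, energy bound `(E0, e)` for the family. -/
theorem fluxW_exists {ι : Type*} [DecidableEq ι] {s0 a b r : ℝ} (hr : 0 < r) (hab : a ≤ b)
    {c c' : ι → ℝ → Space3}
    (hc : ∀ i, ∀ s ∈ Icc a b, HasDerivAt (c i) (c' i s) s)
    (hcc : ∀ i, ContinuousOn (c' i) (Icc a b))
    (hcm : ∀ i, Measurable (c i)) (hcm' : ∀ i, Measurable (c' i))
    {S : ℝ → Finset ι} (hmono : ∀ s ∈ Icc a b, ∀ s' ∈ Icc a b, s ≤ s' → S s ⊆ S s')
    {G : Space3 → ℝ≥0∞} (hG : Measurable G)
    {ω : ℝ → ℝ≥0∞} (hω : AntitoneOn ω (Icc a b)) (hωm : Measurable ω) (hωt : ∀ s, ω s ≠ ∞)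
    {E0 : ℝ≥0∞} {e : ι → ℝ≥0∞}
    (hq : ∀ u ∈ Icc a b, ∑ i ∈ S u, (1 + ENNReal.ofReal ‖c' i u‖) ≤ E0 + ∑ p ∈ S u \ S a, e p)
    (he : ∀ p, 1 ≤ e p) (hE0 : ((S a).card : ℝ≥0∞) ≤ E0) :
    ∃ g : PhasePoint → ℝ≥0∞, Measurable g ∧
      (∀ p : PhasePoint, G p.2 * (⨆ s ∈ Icc a b, ⨆ i ∈ S s,
        ⨆ (_ : dist (p.1 + (s - s0) • p.2) (c i s) ≤ r), ω s) ≤ g p) ∧
      ∫⁻ p, g p ≤ 8 * ENNReal.ofReal r ^ 2 * c3 * (∫⁻ v, G v * (1 + ENNReal.ofReal ‖v‖)) *
        (ENNReal.ofReal (r + (b - a)) *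
          (ω a * E0 + ∑ p ∈ S b \ S a, ω (entry a b S p) * e p)) := by
  obtain ⟨g, hg, hle, hint⟩ := familyW_exists (s0 := s0) hr hab hc hcc hcm hcm' hmono hG hω hωm hωt
  refine ⟨g, hg, hle, hint.trans (mul_le_mul_right ?_ _)⟩
  rw [ENNReal.ofReal_add hr.le (sub_nonneg.2 hab), add_mul]
  refine add_le_add (mul_le_mul_right ?_ _)
    (lintegral_weight_le (q := fun i u => 1 + ENNReal.ofReal ‖c' i u‖) hab hmono hω hq)
  have hsub : S a ⊆ S b := hmono a (left_mem_Icc.2 hab) b (right_mem_Icc.2 hab) hab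
  rw [← Finset.sum_sdiff hsub, add_comm]
  refine add_le_add ?_ (Finset.sum_le_sum fun p _ => ?_)
  · calc ∑ i ∈ S a, ω (entry a b S i) = ∑ i ∈ S a, ω a :=
          Finset.sum_congr rfl fun i hi => by rw [entry_eq_left hab hi]
      _ = ω a * (S a).card := by rw [Finset.sum_const, nsmul_eq_mul, mul_comm]
      _ ≤ ω a * E0 := mul_le_mul_right hE0 _
  · calc ω (entry a b S p) = ω (entry a b S p) * 1 := (mul_one _).symm
      _ ≤ _ := mul_le_mul_right (he p) _

end Crest.Agent.R122.FluxI263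

end
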