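import Crest.Agent.R122.Boost7_969
import Crest.Agent.R122.FluxW_263

/-!
Row 122, block BO (boost lemma), helper969: labelled spread measures, general averaging theorem and
weighted flux through a (label dependent, monotone) family of moving particles.
-/

set_option autoImplicit false

open MeasureTheory ProbabilityTheory Crest.AnalysisR.Kinetic
open Crest.Agent.R122.Boltz814 Crest.Agent.R122.Disc416 Crest.Agent.R122.Kin416
open scoped Classical ENNReal

noncomputable section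

namespace Crest.Agent.R122.Boost969

variable {Λ : Type*} [MeasurableSpace Λ] {σ : Λ → ℝ} {Ξ ν : Measure (Λ × LSt)}
variable {Q : Type*} [MeasurableSpace Q]

/-- **General averaging theorem.**  `B ((ℓ, q), (x, (τ, v)))` : functional of the label `ℓ`, of an
independently integrated `q ~ m`, of the position `x` of the spread line at the time `T (ℓ, q)`, and
of its birth time and velocity; it vanishes unless the age `|T (ℓ, q) - σ ℓ|` is `≥ r`.  The majorant
`B'` may depend on the whole line. -/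
theorem SprL.gen' (h : SprL σ Ξ ν) {r : ℝ}
    (hr : 0 < r) (m : Measure Q) [SFinite m] {T : Λ × Q → ℝ} (hT : Measurable T)
    {B : (Λ × Q) × (Space3 × (ℝ × Space3)) → ℝ≥0∞} {B' : (Λ × Q) × (Space3 × LSt) → ℝ≥0∞}
    (hB : Measurable B) (hB' : Measurable B')
    (hage : ∀ a x, B (a, x) ≠ 0 → r ≤ |T a - σ a.1|)
    (hle : ∀ a x u (z : LSt), ‖u‖ < 1 → B (a, (x, (z.1, z.2.2 + u))) ≤ B' (a, (x, z))) :
    ∫⁻ p, ∫⁻ q, B ((p.1, q), (posAt (T (p.1, q)) p.2, (p.2.1, p.2.2.2))) ∂m ∂ν ≤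
      ENNReal.ofReal (r⁻¹ ^ 3) * ∫⁻ p, ∫⁻ q, ∫⁻ x : Space3,
        B' ((p.1, q), (x, p.2)) ∂volume ∂m ∂Ξ := by
  have hmL : Measurable (fun p : (Λ × LSt) × Q => (p.1.1, p.2)) :=
    (measurable_fst.comp measurable_fst).prodMk measurable_snd
  have hmB : Measurable (fun p : (Λ × LSt) × Q =>
      B ((p.1.1, p.2), (posAt (T (p.1.1, p.2)) p.1.2, (p.1.2.1, p.1.2.2.2)))) := by
    refine hB.comp (hmL.prodMk (Measurable.prodMk ?_ ?_))
    · exact measurable_posAt.comp ((hT.comp hmL).prodMk (measurable_snd.comp measurable_fst))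
    · fun_prop
  have hmB' : Measurable (fun p : ((Λ × LSt) × Q) × Space3 =>
      B' ((p.1.1.1, p.1.2), (p.2, p.1.1.2))) := by
    refine hB'.comp ?_
    fun_prop
  have hmI : Measurable (fun p : (Λ × LSt) × Q => ∫⁻ x : Space3,
      B' ((p.1.1, p.2), (x, p.1.2))) := hmB'.lintegral_prod_right'
  have hF : Measurable (fun p : Λ × LSt => ∫⁻ q,
      B ((p.1, q), (posAt (T (p.1, q)) p.2, (p.2.1, p.2.2.2))) ∂m) := hmB.lintegral_prod_right'
  have hR : Measurable (fun p : Λ × LSt => ∫⁻ q, ∫⁻ x : Space3,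
      B' ((p.1, q), (x, p.2)) ∂volume ∂m) := hmI.lintegral_prod_right'
  refine (h _ hF).trans ?_
  rw [← lintegral_const_mul _ hR]
  refine lintegral_mono fun p => ?_
  obtain ⟨ℓ, z⟩ := p
  unfold avgL
  simp only
  have hmu : Measurable (fun q : Space3 × Q => B ((ℓ, q.2), (posAt (T (ℓ, q.2)) (gal (σ ℓ) q.1 z),
      ((gal (σ ℓ) q.1 z).1, (gal (σ ℓ) q.1 z).2.2)))) := by
    have h1 : Measurable (fun q : Space3 × Q => (((ℓ, gal (σ ℓ) q.1 z), q.2) : (Λ × LSt) × Q)) :=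
      (measurable_const.prodMk ((measurable_gal_uz (σ ℓ)).comp
        (measurable_fst.prodMk measurable_const))).prodMk measurable_snd
    exact hmB.comp h1
  rw [lintegral_lintegral_swap hmu.aemeasurable]
  have hmq : Measurable (fun q : Q => ∫⁻ x : Space3, B' ((ℓ, q), (x, z))) := by
    have h5 : Measurable (fun q : Q => (((ℓ, z), q) : (Λ × LSt) × Q)) :=
      measurable_const.prodMk measurable_id
    exact hmI.comp h5
  rw [← lintegral_const_mul _ hmq]
  refine lintegral_mono fun q => ?_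
  by_cases hrq : r ≤ |T (ℓ, q) - σ ℓ|
  · have h0 : T (ℓ, q) - σ ℓ ≠ 0 := by
      intro h1
      rw [h1] at hrq
      simp at hrq
      linarith
    have hmx : Measurable (fun x : Space3 => B' ((ℓ, q), (x, z))) := by
      refine hB'.comp ?_
      fun_prop
    have h3 : |T (ℓ, q) - σ ℓ|⁻¹ ^ 3 ≤ r⁻¹ ^ 3 := by gcongr
    calc ∫⁻ u in Metric.ball (0 : Space3) 1, B ((ℓ, q), (posAt (T (ℓ, q)) (gal (σ ℓ) u z),
          ((gal (σ ℓ) u z).1, (gal (σ ℓ) u z).2.2)))
        ≤ ∫⁻ u in Metric.ball (0 : Space3) 1,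
            B' ((ℓ, q), (posAt (T (ℓ, q)) z + (T (ℓ, q) - σ ℓ) • u, z)) := by
          refine setLIntegral_mono' measurableSet_ball fun u hu => ?_
          rw [posAt_gal]
          exact hle (ℓ, q) _ u z (by simpa using hu)
      _ ≤ ∫⁻ u, B' ((ℓ, q), (posAt (T (ℓ, q)) z + (T (ℓ, q) - σ ℓ) • u, z)) :=
          setLIntegral_le_lintegral _ _
      _ = ENNReal.ofReal (|T (ℓ, q) - σ ℓ|⁻¹ ^ 3) *
            ∫⁻ x : Space3, B' ((ℓ, q), (x, z)) :=
          lintegral_comp_smul_add hmx h0 _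
      _ ≤ _ := by gcongr
  · have hz : ∀ x, B ((ℓ, q), x) = 0 := by
      intro x
      by_contra hx
      exact hrq (hage (ℓ, q) x hx)
    simp [hz]

/-- `SprL.gen'` with a majorant depending on position, birth time and velocity only. -/
theorem SprL.gen (h : SprL σ Ξ ν) {r : ℝ}
    (hr : 0 < r) (m : Measure Q) [SFinite m] {T : Λ × Q → ℝ} (hT : Measurable T)
    {B B' : (Λ × Q) × (Space3 × (ℝ × Space3)) → ℝ≥0∞} (hB : Measurable B) (hB' : Measurable B')
    (hage : ∀ a x, B (a, x) ≠ 0 → r ≤ |T a - σ a.1|)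
    (hle : ∀ a x τ u v, ‖u‖ < 1 → B (a, (x, (τ, v + u))) ≤ B' (a, (x, (τ, v)))) :
    ∫⁻ p, ∫⁻ q, B ((p.1, q), (posAt (T (p.1, q)) p.2, (p.2.1, p.2.2.2))) ∂m ∂ν ≤
      ENNReal.ofReal (r⁻¹ ^ 3) * ∫⁻ p, ∫⁻ q, ∫⁻ x : Space3,
        B' ((p.1, q), (x, (p.2.1, p.2.2.2))) ∂volume ∂m ∂Ξ :=
  h.gen' hr m hT (B' := fun y => B' (y.1, (y.2.1, (y.2.2.1, y.2.2.2.2)))) hB
    (hB'.comp (by fun_prop)) hage fun a x u z hu => hle a x z.1 u z.2.2 hu

/-- Probability to be in a ball (centre, radius `ρ` and time may depend on the label). -/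
theorem SprL.ball (h : SprL σ Ξ ν) {r : ℝ} (hr : 0 < r) (m : Measure Q) [SFinite m]
    {T : Λ × Q → ℝ} (hT : Measurable T) {w : Λ × Q → ℝ≥0∞} (hw : Measurable w)
    {ctr : Λ × Q → Space3} (hctr : Measurable ctr) (ρ : ℝ)
    (hage : ∀ a, w a ≠ 0 → r ≤ |T a - σ a.1|)
    {ψ Ψ : Λ × (ℝ × Space3) → ℝ≥0∞} (hψ : Measurable ψ) (hΨ : Measurable Ψ)
    (hle : ∀ ℓ τ u v, ‖u‖ < 1 → ψ (ℓ, (τ, v + u)) ≤ Ψ (ℓ, (τ, v))) :
    ∫⁻ p, ∫⁻ q, w (p.1, q) * (ψ (p.1, (p.2.1, p.2.2.2)) *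
        {x : Space3 × Space3 | dist x.1 x.2 ≤ ρ}.indicator 1
          (posAt (T (p.1, q)) p.2, ctr (p.1, q))) ∂m ∂ν ≤
      ENNReal.ofReal (r⁻¹ ^ 3) * (ENNReal.ofReal ρ ^ 3 * Sweep815.c3) *
        ∫⁻ p, Ψ (p.1, (p.2.1, p.2.2.2)) * ∫⁻ q, w (p.1, q) ∂m ∂Ξ := by
  have hS : MeasurableSet {x : Space3 × Space3 | dist x.1 x.2 ≤ ρ} :=
    measurableSet_le (by fun_prop) measurable_const
  have hind : Measurable ({x : Space3 × Space3 | dist x.1 x.2 ≤ ρ}.indicator
      (1 : Space3 × Space3 → ℝ≥0∞)) := measurable_one.indicator hS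
  have hm : ∀ {φ : Λ × (ℝ × Space3) → ℝ≥0∞}, Measurable φ →
      Measurable (fun y : (Λ × Q) × (Space3 × (ℝ × Space3)) =>
        w y.1 * (φ (y.1.1, y.2.2) * {x : Space3 × Space3 | dist x.1 x.2 ≤ ρ}.indicator 1
          (y.2.1, ctr y.1))) := by
    intro φ hφ
    refine (hw.comp measurable_fst).mul (Measurable.mul ?_ ?_)
    · exact hφ.comp (by fun_prop)
    · exact hind.comp (Measurable.prodMk (by fun_prop) (hctr.comp measurable_fst))
  have key := h.gen hr m hT (hm hψ) (hm hΨ)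
    (fun a x hx => hage a (fun h0 => hx (by simp [h0])))
    (fun a x τ u v hu => by
      simp only
      gcongr
      exact hle a.1 τ u v hu)
  refine key.trans (le_of_eq ?_)
  rw [mul_assoc]
  congr 1
  have hmw : Measurable (fun p : (Λ × LSt) × Q => w (p.1.1, p.2)) :=
    hw.comp ((measurable_fst.comp measurable_fst).prodMk measurable_snd)
  have hmW : Measurable (fun p : Λ × LSt => ∫⁻ q, w (p.1, q) ∂m) := hmw.lintegral_prod_right'
  have hmΨ : Measurable (fun p : Λ × LSt => Ψ (p.1, (p.2.1, p.2.2.2))) := hΨ.comp (by fun_prop)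
  have hmP : Measurable (fun p : Λ × LSt => Ψ (p.1, (p.2.1, p.2.2.2)) * ∫⁻ q, w (p.1, q) ∂m) :=
    hmΨ.mul hmW
  rw [← lintegral_const_mul _ hmP]
  refine lintegral_congr fun p => ?_
  have e1 : ∀ q, ∫⁻ x : Space3, w (p.1, q) * (Ψ (p.1, (p.2.1, p.2.2.2)) *
      {x : Space3 × Space3 | dist x.1 x.2 ≤ ρ}.indicator 1 (x, ctr (p.1, q))) =
      w (p.1, q) * (Ψ (p.1, (p.2.1, p.2.2.2)) * (ENNReal.ofReal ρ ^ 3 * Sweep815.c3)) := by
    intro q
    have e2 : ∀ x : Space3, {x : Space3 × Space3 | dist x.1 x.2 ≤ ρ}.indicator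
        (1 : Space3 × Space3 → ℝ≥0∞) (x, ctr (p.1, q)) =
        (Metric.closedBall (ctr (p.1, q)) ρ).indicator 1 x := by
      intro x
      by_cases hx : dist x (ctr (p.1, q)) ≤ ρ
      · rw [Set.indicator_of_mem (show (x, ctr (p.1, q)) ∈ {x : Space3 × Space3 |
          dist x.1 x.2 ≤ ρ} from hx),
          Set.indicator_of_mem (show x ∈ Metric.closedBall (ctr (p.1, q)) ρ from hx)]
        rfl
      · rw [Set.indicator_of_notMem (show (x, ctr (p.1, q)) ∉ {x : Space3 × Space3 |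
          dist x.1 x.2 ≤ ρ} from hx),
          Set.indicator_of_notMem (show x ∉ Metric.closedBall (ctr (p.1, q)) ρ from hx)]
    simp_rw [e2]
    have hmb : Measurable ((Metric.closedBall (ctr (p.1, q)) ρ).indicator
        (1 : Space3 → ℝ≥0∞)) := measurable_one.indicator Metric.isClosed_closedBall.measurableSet
    rw [lintegral_const_mul _ (hmb.const_mul _), lintegral_const_mul _ hmb,
      lintegral_indicator_one Metric.isClosed_closedBall.measurableSet, Sweep815.vol_closedBall]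
  simp_rw [e1]
  have hmwp : Measurable (fun q => w (p.1, q)) := hw.comp (measurable_const.prodMk measurable_id)
  rw [lintegral_mul_const _ hmwp]
  ring

/-! ### Weighted flux through a label dependent family -/

/-- Single particle: weighted flux with a measurable majorant. -/
theorem SprL.fluxW_one (h : SprL σ Ξ ν) {r ε : ℝ} (hr : 0 < r) (hε : 0 < ε)
    {c c' : Λ → ℝ → Space3} {aS bE : Λ → ℝ} {ω : Λ → ℝ → ℝ≥0∞}
    (haS : Measurable aS) (hbE : Measurable bE) (hω : Measurable (Function.uncurry ω))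
    (hc : Measurable (Function.uncurry c)) (hc' : Measurable (Function.uncurry c'))
    (hder : ∀ ℓ, ∀ s ∈ Set.Icc (aS ℓ) (bE ℓ), HasDerivAt (c ℓ) (c' ℓ s) s)
    (hcc : ∀ ℓ, ContinuousOn (c' ℓ) (Set.Icc (aS ℓ) (bE ℓ)))
    (hanti : ∀ ℓ, AntitoneOn (ω ℓ) (Set.Icc (aS ℓ) (bE ℓ)))
    (hage : ∀ ℓ, aS ℓ ≤ bE ℓ → σ ℓ + r ≤ aS ℓ)
    {ψ Ψ : Λ × (ℝ × Space3) → ℝ≥0∞} (hψ : Measurable ψ) (hΨ : Measurable Ψ)
    (hle : ∀ ℓ τ u v, ‖u‖ < 1 →
      ψ (ℓ, (τ, v + u)) * (1 + ENNReal.ofReal ‖v + u‖) ≤ Ψ (ℓ, (τ, v))) :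
    ∃ g : Λ × LSt → ℝ≥0∞, Measurable g ∧
      (∀ p : Λ × LSt, ψ (p.1, (p.2.1, p.2.2.2)) * (⨆ s ∈ Set.Icc (aS p.1) (bE p.1),
        ⨆ (_ : dist (posAt s p.2) (c p.1 s) ≤ ε), ω p.1 s) ≤ g p) ∧
      ∫⁻ p, g p ∂ν ≤ 8 * ENNReal.ofReal ε ^ 2 * Sweep815.c3 * ENNReal.ofReal (r⁻¹ ^ 3) *
        ∫⁻ p, Ψ (p.1, (p.2.1, p.2.2.2)) *
          (ENNReal.ofReal ε * {ℓ | aS ℓ ≤ bE ℓ}.indicator (fun ℓ => ω ℓ (aS ℓ)) p.1 +
            ∫⁻ s in Set.Icc (aS p.1) (bE p.1), ω p.1 s * (1 + ENNReal.ofReal ‖c' p.1 s‖)) ∂Ξ := by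
  set w0 : Λ × Unit → ℝ≥0∞ := fun a => {ℓ | aS ℓ ≤ bE ℓ}.indicator (fun ℓ => ω ℓ (aS ℓ)) a.1
    with hw0
  set w1 : Λ × ℝ → ℝ≥0∞ := fun a => (ENNReal.ofReal ε)⁻¹ *
    {q : Λ × ℝ | aS q.1 ≤ q.2 ∧ q.2 ≤ bE q.1}.indicator
      (fun q => ω q.1 q.2 * (1 + ENNReal.ofReal ‖c' q.1 q.2‖)) a with hw1
  have hS0 : MeasurableSet {ℓ : Λ | aS ℓ ≤ bE ℓ} := measurableSet_le haS hbE
  have hS1 : MeasurableSet {q : Λ × ℝ | aS q.1 ≤ q.2 ∧ q.2 ≤ bE q.1} :=
    (measurableSet_le (haS.comp measurable_fst) measurable_snd).inter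
      (measurableSet_le measurable_snd (hbE.comp measurable_fst))
  have hω0 : Measurable (fun ℓ : Λ => ω ℓ (aS ℓ)) := by
    have h1 : Measurable (fun ℓ : Λ => ((ℓ, aS ℓ) : Λ × ℝ)) := measurable_id.prodMk haS
    exact hω.comp h1
  have hω1 : Measurable (fun q : Λ × ℝ => ω q.1 q.2 * (1 + ENNReal.ofReal ‖c' q.1 q.2‖)) := by
    have h1 : Measurable (fun q : Λ × ℝ => c' q.1 q.2) := hc'
    have h2 : Measurable (fun q : Λ × ℝ => ω q.1 q.2) := hω
    exact h2.mul (measurable_const.add (ENNReal.measurable_ofReal.comp h1.norm))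
  have hw0m : Measurable w0 := (hω0.indicator hS0).comp measurable_fst
  have hw1m : Measurable w1 := (hω1.indicator hS1).const_mul _
  have hc0 : Measurable (fun a : Λ × Unit => c a.1 (aS a.1)) := by
    have h1 : Measurable (fun a : Λ × Unit => ((a.1, aS a.1) : Λ × ℝ)) :=
      measurable_fst.prodMk (haS.comp measurable_fst)
    exact hc.comp h1
  have hc1 : Measurable (fun a : Λ × ℝ => c a.1 a.2) := hc
  have hψv : Measurable (fun a : Λ × (ℝ × Space3) => ψ a * (1 + ENNReal.ofReal ‖a.2.2‖)) :=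
    hψ.mul (by fun_prop)
  -- the two applications of the ball bound
  have h0 := h.ball hr (Measure.dirac ()) (T := fun a => aS a.1) (haS.comp measurable_fst) hw0m
    hc0 (2 * ε) (by
      intro a ha
      have ha' : a.1 ∈ {ℓ | aS ℓ ≤ bE ℓ} := by
        by_contra hn
        exact ha (Set.indicator_of_notMem hn _)
      have := hage a.1 ha'
      rw [abs_of_nonneg (by linarith)]
      linarith) hψ hΨ (fun ℓ τ u v hu => by
        refine le_trans ?_ (hle ℓ τ u v hu)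
        exact le_mul_of_one_le_right' le_self_add)
  have h1 := h.ball hr (volume : Measure ℝ) (T := fun a : Λ × ℝ => a.2) measurable_snd hw1m
    hc1 (2 * ε) (by
      intro a ha
      have ha' : a ∈ {q : Λ × ℝ | aS q.1 ≤ q.2 ∧ q.2 ≤ bE q.1} := by
        by_contra hn
        exact ha (by simp only [hw1]; rw [Set.indicator_of_notMem hn, mul_zero])
      have := hage a.1 (ha'.1.trans ha'.2)
      have h3 : aS a.1 ≤ a.2 := ha'.1
      rw [abs_of_nonneg (by linarith)]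
      linarith) hψv hΨ hle
  -- the majorant
  set ind : Space3 × Space3 → ℝ≥0∞ :=
    {x : Space3 × Space3 | dist x.1 x.2 ≤ 2 * ε}.indicator 1 with hindd
  have hind : Measurable ind :=
    measurable_one.indicator (measurableSet_le (by fun_prop) measurable_const)
  set g0 : Λ × LSt → ℝ≥0∞ := fun p => ∫⁻ q, w0 (p.1, q) * (ψ (p.1, (p.2.1, p.2.2.2)) *
    ind (posAt (aS p.1) p.2, c p.1 (aS p.1))) ∂(Measure.dirac ()) with hg0
  set g1 : Λ × LSt → ℝ≥0∞ := fun p => ∫⁻ s, w1 (p.1, s) * ((ψ (p.1, (p.2.1, p.2.2.2)) *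
    (1 + ENNReal.ofReal ‖p.2.2.2‖)) * ind (posAt s p.2, c p.1 s)) with hg1
  have hψp : Measurable (fun p : Λ × LSt => ψ (p.1, (p.2.1, p.2.2.2))) := hψ.comp (by fun_prop)
  have hg0m : Measurable g0 := by
    have e : g0 = fun p => w0 (p.1, ()) * (ψ (p.1, (p.2.1, p.2.2.2)) *
        ind (posAt (aS p.1) p.2, c p.1 (aS p.1))) := by
      funext p
      simp only [hg0]
      rw [lintegral_dirac]
    rw [e]
    refine Measurable.mul ?_ (hψp.mul ?_)
    · exact hw0m.comp (measurable_fst.prodMk measurable_const)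
    · refine hind.comp (Measurable.prodMk ?_ ?_)
      · exact measurable_posAt.comp ((haS.comp measurable_fst).prodMk measurable_snd)
      · have h5 : Measurable (fun p : Λ × LSt => ((p.1, aS p.1) : Λ × ℝ)) :=
          measurable_fst.prodMk (haS.comp measurable_fst)
        exact hc.comp h5
  have hg1m : Measurable g1 := by
    have h5 : Measurable (fun p : (Λ × LSt) × ℝ => w1 (p.1.1, p.2) *
        ((ψ (p.1.1, (p.1.2.1, p.1.2.2.2)) * (1 + ENNReal.ofReal ‖p.1.2.2.2‖)) *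
          ind (posAt p.2 p.1.2, c p.1.1 p.2))) := by
      refine Measurable.mul ?_ (Measurable.mul (Measurable.mul ?_ ?_) ?_)
      · exact hw1m.comp ((measurable_fst.comp measurable_fst).prodMk measurable_snd)
      · exact hψp.comp measurable_fst
      · fun_prop
      · refine hind.comp (Measurable.prodMk ?_ ?_)
        · exact measurable_posAt.comp (measurable_snd.prodMk (measurable_snd.comp measurable_fst))
        · have h6 : Measurable (fun p : (Λ × LSt) × ℝ => ((p.1.1, p.2) : Λ × ℝ)) :=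
            (measurable_fst.comp measurable_fst).prodMk measurable_snd
          exact hc.comp h6
    exact h5.lintegral_prod_right'
  refine ⟨fun p => g0 p + g1 p, hg0m.add hg1m, fun p => ?_, ?_⟩
  · -- pointwise bound
    obtain ⟨ℓ, z⟩ := p
    have hr0 : ENNReal.ofReal ε ≠ 0 := by simpa using hε
    have hsup : (⨆ s ∈ Set.Icc (aS ℓ) (bE ℓ), ⨆ (_ : dist (posAt s z) (c ℓ s) ≤ ε), ω ℓ s) ≤
        {ℓ | aS ℓ ≤ bE ℓ}.indicator (fun ℓ => ω ℓ (aS ℓ)) ℓ *
            ind (posAt (aS ℓ) z, c ℓ (aS ℓ)) +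
          (ENNReal.ofReal ε)⁻¹ * ∫⁻ u in Set.Icc (aS ℓ) (bE ℓ),
            ω ℓ u * (ind (posAt u z, c ℓ u) *
              ((1 + ENNReal.ofReal ‖c' ℓ u‖) * (1 + ENNReal.ofReal ‖z.2.2‖))) := by
      refine iSup₂_le fun s hs => iSup_le fun hds => ?_
      have hder' : ∀ s ∈ Set.Icc (aS ℓ) (bE ℓ), HasDerivAt (fun s => posAt s z) z.2.2 s := by
        intro s _
        have h2 : HasDerivAt (fun s : ℝ => (s - z.1) • z.2.2) ((1 : ℝ) • z.2.2) s :=
          ((hasDerivAt_id s).sub_const z.1).smul_const z.2.2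
        rw [one_smul] at h2
        exact h2.const_add z.2.1
      have hsw := FluxI263.sweepW (d := fun s => dist (posAt s z) (c ℓ s))
        (σ := fun s => ‖z.2.2 - c' ℓ s‖) hε (hanti ℓ) (fun _ _ => norm_nonneg _)
        ((continuousOn_const.sub (hcc ℓ)).norm.integrableOn_compact isCompact_Icc)
        (Sweep815.dist_le_of_deriv hder' (hder ℓ) continuousOn_const (hcc ℓ)) hs hds
      refine hsw.trans (add_le_add ?_ (mul_le_mul_right ?_ _))
      · have hab : ℓ ∈ {ℓ | aS ℓ ≤ bE ℓ} := hs.1.trans hs.2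
        rw [Set.indicator_of_mem hab]
        by_cases hm : dist (posAt (aS ℓ) z) (c ℓ (aS ℓ)) ≤ 2 * ε
        · rw [Set.indicator_of_mem (show aS ℓ ∈ {u | dist (posAt u z) (c ℓ u) ≤ 2 * ε} from hm),
            hindd, Set.indicator_of_mem (show (posAt (aS ℓ) z, c ℓ (aS ℓ)) ∈
              {x : Space3 × Space3 | dist x.1 x.2 ≤ 2 * ε} from hm)]
          simp
        · rw [Set.indicator_of_notMem
            (show aS ℓ ∉ {u | dist (posAt u z) (c ℓ u) ≤ 2 * ε} from hm)]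
          exact bot_le
      · refine lintegral_mono fun u => ?_
        refine mul_le_mul_right ?_ _
        by_cases hm : dist (posAt u z) (c ℓ u) ≤ 2 * ε
        · rw [Set.indicator_of_mem (show u ∈ {u | dist (posAt u z) (c ℓ u) ≤ 2 * ε} from hm),
            hindd, Set.indicator_of_mem (show (posAt u z, c ℓ u) ∈
              {x : Space3 × Space3 | dist x.1 x.2 ≤ 2 * ε} from hm)]
          simp only [Pi.one_apply, one_mul]
          calc ENNReal.ofReal ‖z.2.2 - c' ℓ u‖ ≤ ENNReal.ofReal (‖z.2.2‖ + ‖c' ℓ u‖) :=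
                ENNReal.ofReal_le_ofReal (norm_sub_le _ _)
            _ = ENNReal.ofReal ‖z.2.2‖ + ENNReal.ofReal ‖c' ℓ u‖ :=
                ENNReal.ofReal_add (norm_nonneg _) (norm_nonneg _)
            _ ≤ (1 + ENNReal.ofReal ‖c' ℓ u‖) * (1 + ENNReal.ofReal ‖z.2.2‖) := by
                rw [mul_add, mul_one, add_mul, one_mul, add_comm]
                gcongr
                · exact le_add_self
                · exact le_self_add
        · rw [Set.indicator_of_notMem (show u ∉ {u | dist (posAt u z) (c ℓ u) ≤ 2 * ε} from hm)]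
          exact bot_le
    simp only
    refine (mul_le_mul_right hsup _).trans ?_
    rw [mul_add]
    refine add_le_add (le_of_eq ?_) (le_of_eq ?_)
    · simp only [hg0, hw0]
      rw [lintegral_dirac]
      ring
    · simp only [hg1, hw1]
      rw [← lintegral_indicator measurableSet_Icc]
      have hmi : Measurable (fun u => (Set.Icc (aS ℓ) (bE ℓ)).indicator (fun u =>
          ω ℓ u * (ind (posAt u z, c ℓ u) *
              ((1 + ENNReal.ofReal ‖c' ℓ u‖) * (1 + ENNReal.ofReal ‖z.2.2‖)))) u) := by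
        refine Measurable.indicator ?_ measurableSet_Icc
        have h6 : Measurable (fun u : ℝ => ((ℓ, u) : Λ × ℝ)) :=
          measurable_const.prodMk measurable_id
        have h7 : Measurable (fun u : ℝ => ω ℓ u) := hω.comp h6
        have h8 : Measurable (fun u : ℝ => c ℓ u) := hc.comp h6
        have h9 : Measurable (fun u : ℝ => c' ℓ u) := hc'.comp h6
        refine h7.mul (Measurable.mul ?_ ?_)
        · exact hind.comp ((measurable_posAt.comp (measurable_id.prodMk measurable_const)).prodMk h8)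
        · exact (measurable_const.add (ENNReal.measurable_ofReal.comp h9.norm)).mul
            measurable_const
      rw [← lintegral_const_mul _ hmi, ← lintegral_const_mul _ (hmi.const_mul _)]
      refine lintegral_congr fun u => ?_
      by_cases hu : u ∈ Set.Icc (aS ℓ) (bE ℓ)
      · rw [Set.indicator_of_mem hu, Set.indicator_of_mem (show ((ℓ, u) : Λ × ℝ) ∈
          {q : Λ × ℝ | aS q.1 ≤ q.2 ∧ q.2 ≤ bE q.1} from hu)]
        ring
      · rw [Set.indicator_of_notMem hu, Set.indicator_of_notMem (show ((ℓ, u) : Λ × ℝ) ∉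
          {q : Λ × ℝ | aS q.1 ≤ q.2 ∧ q.2 ≤ bE q.1} from hu)]
        simp
  · rw [lintegral_add_left hg0m]
    refine (add_le_add h0 h1).trans (le_of_eq ?_)
    have h8 : ENNReal.ofReal (2 * ε) ^ 3 = 8 * ENNReal.ofReal ε ^ 3 := by
      rw [ENNReal.ofReal_mul (by norm_num), mul_pow]
      norm_num
    have hr0 : ENNReal.ofReal ε ≠ 0 := by simpa using hε
    have hΨp : Measurable (fun p : Λ × LSt => Ψ (p.1, (p.2.1, p.2.2.2))) := hΨ.comp (by fun_prop)
    have hw0p : Measurable (fun p : Λ × LSt =>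
        {ℓ | aS ℓ ≤ bE ℓ}.indicator (fun ℓ => ω ℓ (aS ℓ)) p.1) :=
      (hω0.indicator hS0).comp measurable_fst
    have e0 : ∀ p : Λ × LSt, ∫⁻ q, w0 (p.1, q) ∂(Measure.dirac ()) =
        {ℓ | aS ℓ ≤ bE ℓ}.indicator (fun ℓ => ω ℓ (aS ℓ)) p.1 := by
      intro p
      rw [lintegral_dirac]
    have e1 : ∀ p : Λ × LSt, ∫⁻ s, w1 (p.1, s) = (ENNReal.ofReal ε)⁻¹ *
        ∫⁻ s in Set.Icc (aS p.1) (bE p.1), ω p.1 s * (1 + ENNReal.ofReal ‖c' p.1 s‖) := by
      intro p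
      have h6 : Measurable (fun u : ℝ => ((p.1, u) : Λ × ℝ)) :=
        measurable_const.prodMk measurable_id
      have h7 : Measurable (fun u : ℝ => ω p.1 u * (1 + ENNReal.ofReal ‖c' p.1 u‖)) :=
        hω1.comp h6
      rw [← lintegral_indicator measurableSet_Icc,
        ← lintegral_const_mul _ (h7.indicator measurableSet_Icc)]
      refine lintegral_congr fun u => ?_
      simp only [hw1]
      by_cases hu : u ∈ Set.Icc (aS p.1) (bE p.1)
      · rw [Set.indicator_of_mem hu, Set.indicator_of_mem (show ((p.1, u) : Λ × ℝ) ∈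
          {q : Λ × ℝ | aS q.1 ≤ q.2 ∧ q.2 ≤ bE q.1} from hu)]
      · rw [Set.indicator_of_notMem hu, Set.indicator_of_notMem (show ((p.1, u) : Λ × ℝ) ∉
          {q : Λ × ℝ | aS q.1 ≤ q.2 ∧ q.2 ≤ bE q.1} from hu)]
    have hJ : Measurable (fun p : Λ × LSt =>
        ∫⁻ s in Set.Icc (aS p.1) (bE p.1), ω p.1 s * (1 + ENNReal.ofReal ‖c' p.1 s‖)) := by
      have h5 : Measurable (fun q : (Λ × LSt) × ℝ =>
          {q : Λ × ℝ | aS q.1 ≤ q.2 ∧ q.2 ≤ bE q.1}.indicator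
            (fun q => ω q.1 q.2 * (1 + ENNReal.ofReal ‖c' q.1 q.2‖)) (q.1.1, q.2)) :=
        (hω1.indicator hS1).comp ((measurable_fst.comp measurable_fst).prodMk measurable_snd)
      have h6 := h5.lintegral_prod_right' (ν := (volume : Measure ℝ))
      convert h6 using 2 with p
      rw [← lintegral_indicator measurableSet_Icc]
      rfl
    simp_rw [e0, e1]
    have hm2 : Measurable (fun p : Λ × LSt => Ψ (p.1, (p.2.1, p.2.2.2)) *
        {ℓ | aS ℓ ≤ bE ℓ}.indicator (fun ℓ => ω ℓ (aS ℓ)) p.1) := hΨp.mul hw0p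
    have hm3 : Measurable (fun p : Λ × LSt => Ψ (p.1, (p.2.1, p.2.2.2)) *
        ∫⁻ s in Set.Icc (aS p.1) (bE p.1), ω p.1 s * (1 + ENNReal.ofReal ‖c' p.1 s‖)) :=
      hΨp.mul hJ
    have e2 : ∫⁻ p, Ψ (p.1, (p.2.1, p.2.2.2)) * ((ENNReal.ofReal ε)⁻¹ *
        ∫⁻ s in Set.Icc (aS p.1) (bE p.1), ω p.1 s * (1 + ENNReal.ofReal ‖c' p.1 s‖)) ∂Ξ =
        (ENNReal.ofReal ε)⁻¹ * ∫⁻ p, Ψ (p.1, (p.2.1, p.2.2.2)) *
        (∫⁻ s in Set.Icc (aS p.1) (bE p.1), ω p.1 s * (1 + ENNReal.ofReal ‖c' p.1 s‖)) ∂Ξ := by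
      rw [← lintegral_const_mul _ hm3]
      exact lintegral_congr fun p => by ring
    have e3 : ∫⁻ p, Ψ (p.1, (p.2.1, p.2.2.2)) *
          (ENNReal.ofReal ε * {ℓ | aS ℓ ≤ bE ℓ}.indicator (fun ℓ => ω ℓ (aS ℓ)) p.1 +
            ∫⁻ s in Set.Icc (aS p.1) (bE p.1), ω p.1 s * (1 + ENNReal.ofReal ‖c' p.1 s‖)) ∂Ξ =
        ENNReal.ofReal ε * (∫⁻ p, Ψ (p.1, (p.2.1, p.2.2.2)) *
          {ℓ | aS ℓ ≤ bE ℓ}.indicator (fun ℓ => ω ℓ (aS ℓ)) p.1 ∂Ξ) +
        ∫⁻ p, Ψ (p.1, (p.2.1, p.2.2.2)) *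
        (∫⁻ s in Set.Icc (aS p.1) (bE p.1), ω p.1 s * (1 + ENNReal.ofReal ‖c' p.1 s‖)) ∂Ξ := by
      rw [← lintegral_const_mul _ hm2, ← lintegral_add_left (hm2.const_mul _)]
      exact lintegral_congr fun p => by ring
    rw [e2, e3, h8]
    set X0 := ∫⁻ p, Ψ (p.1, (p.2.1, p.2.2.2)) *
          {ℓ | aS ℓ ≤ bE ℓ}.indicator (fun ℓ => ω ℓ (aS ℓ)) p.1 ∂Ξ
    set X1 := ∫⁻ p, Ψ (p.1, (p.2.1, p.2.2.2)) *
        (∫⁻ s in Set.Icc (aS p.1) (bE p.1), ω p.1 s * (1 + ENNReal.ofReal ‖c' p.1 s‖)) ∂Ξ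
    have h9 : (ENNReal.ofReal ε)⁻¹ * ENNReal.ofReal ε = 1 :=
      ENNReal.inv_mul_cancel hr0 ENNReal.ofReal_ne_top
    calc ENNReal.ofReal (r⁻¹ ^ 3) * (8 * ENNReal.ofReal ε ^ 3 * Sweep815.c3) * X0 +
          ENNReal.ofReal (r⁻¹ ^ 3) * (8 * ENNReal.ofReal ε ^ 3 * Sweep815.c3) *
            ((ENNReal.ofReal ε)⁻¹ * X1)
        = ENNReal.ofReal (r⁻¹ ^ 3) * (8 * ENNReal.ofReal ε ^ 3 * Sweep815.c3) * X0 +
          ENNReal.ofReal (r⁻¹ ^ 3) * (8 * ENNReal.ofReal ε ^ 2 * Sweep815.c3) *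
            (((ENNReal.ofReal ε)⁻¹ * ENNReal.ofReal ε) * X1) := by ring
      _ = _ := by rw [h9]; ring

variable {ι : Type*} [Fintype ι]

/-- **Weighted flux of a labelled spread line through a label dependent family.**  `c i ℓ` = path of
the particle `i` in the world of label `ℓ`, dangerous during `[aS i ℓ, bE ℓ]` (empty interval if it is
not dangerous); `ω ℓ s` nonincreasing weight, evaluated at the contact time. -/
theorem SprL.fluxW (h : SprL σ Ξ ν) {r ε : ℝ} (hr : 0 < r) (hε : 0 < ε)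
    {c c' : ι → Λ → ℝ → Space3} {aS : ι → Λ → ℝ} {bE : Λ → ℝ} {ω : Λ → ℝ → ℝ≥0∞}
    (haS : ∀ i, Measurable (aS i)) (hbE : Measurable bE) (hω : Measurable (Function.uncurry ω))
    (hc : ∀ i, Measurable (Function.uncurry (c i)))
    (hc' : ∀ i, Measurable (Function.uncurry (c' i)))
    (hder : ∀ i ℓ, ∀ s ∈ Set.Icc (aS i ℓ) (bE ℓ), HasDerivAt (c i ℓ) (c' i ℓ s) s)
    (hcc : ∀ i ℓ, ContinuousOn (c' i ℓ) (Set.Icc (aS i ℓ) (bE ℓ)))
    (hanti : ∀ i ℓ, AntitoneOn (ω ℓ) (Set.Icc (aS i ℓ) (bE ℓ)))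
    (hage : ∀ i ℓ, aS i ℓ ≤ bE ℓ → σ ℓ + r ≤ aS i ℓ)
    {ψ Ψ : Λ × (ℝ × Space3) → ℝ≥0∞} (hψ : Measurable ψ) (hΨ : Measurable Ψ)
    (hle : ∀ ℓ τ u v, ‖u‖ < 1 →
      ψ (ℓ, (τ, v + u)) * (1 + ENNReal.ofReal ‖v + u‖) ≤ Ψ (ℓ, (τ, v))) :
    ∃ g : Λ × LSt → ℝ≥0∞, Measurable g ∧
      (∀ p : Λ × LSt, ψ (p.1, (p.2.1, p.2.2.2)) * (⨆ i, ⨆ s ∈ Set.Icc (aS i p.1) (bE p.1),
        ⨆ (_ : dist (posAt s p.2) (c i p.1 s) ≤ ε), ω p.1 s) ≤ g p) ∧
      ∫⁻ p, g p ∂ν ≤ 8 * ENNReal.ofReal ε ^ 2 * Sweep815.c3 * ENNReal.ofReal (r⁻¹ ^ 3) *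
        ∫⁻ p, Ψ (p.1, (p.2.1, p.2.2.2)) *
          ∑ i, (ENNReal.ofReal ε * {ℓ | aS i ℓ ≤ bE ℓ}.indicator (fun ℓ => ω ℓ (aS i ℓ)) p.1 +
            ∫⁻ s in Set.Icc (aS i p.1) (bE p.1),
              ω p.1 s * (1 + ENNReal.ofReal ‖c' i p.1 s‖)) ∂Ξ := by
  have key := fun i => h.fluxW_one hr hε (haS i) hbE hω (hc i) (hc' i) (hder i) (hcc i) (hanti i)
    (hage i) hψ hΨ hle
  choose g hgm hgp hgi using key
  refine ⟨fun p => ∑ i, g i p, Finset.measurable_sum _ fun i _ => hgm i, fun p => ?_, ?_⟩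
  · rw [ENNReal.mul_iSup]
    refine iSup_le fun i => ?_
    exact (hgp i p).trans (Finset.single_le_sum (f := fun i => g i p) (fun _ _ => bot_le)
      (Finset.mem_univ i))
  · rw [lintegral_finsetSum _ fun i _ => hgm i]
    refine (Finset.sum_le_sum fun i _ => hgi i).trans (le_of_eq ?_)
    rw [← Finset.mul_sum]
    congr 1
    have hm : ∀ i, Measurable (fun p : Λ × LSt => Ψ (p.1, (p.2.1, p.2.2.2)) *
        (ENNReal.ofReal ε * {ℓ | aS i ℓ ≤ bE ℓ}.indicator (fun ℓ => ω ℓ (aS i ℓ)) p.1 +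
            ∫⁻ s in Set.Icc (aS i p.1) (bE p.1),
              ω p.1 s * (1 + ENNReal.ofReal ‖c' i p.1 s‖))) := by
      intro i
      have hS0 : MeasurableSet {ℓ : Λ | aS i ℓ ≤ bE ℓ} := measurableSet_le (haS i) hbE
      have hS1 : MeasurableSet {q : Λ × ℝ | aS i q.1 ≤ q.2 ∧ q.2 ≤ bE q.1} :=
        (measurableSet_le ((haS i).comp measurable_fst) measurable_snd).inter
          (measurableSet_le measurable_snd (hbE.comp measurable_fst))
      have hω0 : Measurable (fun ℓ : Λ => ω ℓ (aS i ℓ)) := by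
        have h1 : Measurable (fun ℓ : Λ => ((ℓ, aS i ℓ) : Λ × ℝ)) := measurable_id.prodMk (haS i)
        exact hω.comp h1
      have hω1 : Measurable (fun q : Λ × ℝ =>
          ω q.1 q.2 * (1 + ENNReal.ofReal ‖c' i q.1 q.2‖)) := by
        have h1 : Measurable (fun q : Λ × ℝ => c' i q.1 q.2) := hc' i
        have h2 : Measurable (fun q : Λ × ℝ => ω q.1 q.2) := hω
        exact h2.mul (measurable_const.add (ENNReal.measurable_ofReal.comp h1.norm))
      have hJ : Measurable (fun p : Λ × LSt =>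
          ∫⁻ s in Set.Icc (aS i p.1) (bE p.1), ω p.1 s * (1 + ENNReal.ofReal ‖c' i p.1 s‖)) := by
        have h5 : Measurable (fun q : (Λ × LSt) × ℝ =>
            {q : Λ × ℝ | aS i q.1 ≤ q.2 ∧ q.2 ≤ bE q.1}.indicator
              (fun q => ω q.1 q.2 * (1 + ENNReal.ofReal ‖c' i q.1 q.2‖)) (q.1.1, q.2)) :=
          (hω1.indicator hS1).comp ((measurable_fst.comp measurable_fst).prodMk measurable_snd)
        have h6 := h5.lintegral_prod_right' (ν := (volume : Measure ℝ))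
        convert h6 using 2 with p
        rw [← lintegral_indicator measurableSet_Icc]
        rfl
      refine Measurable.mul (hΨ.comp (by fun_prop)) (Measurable.add ?_ hJ)
      exact (((hω0.indicator hS0).comp measurable_fst)).const_mul _
    rw [← lintegral_finsetSum _ fun i _ => hm i]
    exact lintegral_congr fun p => (Finset.mul_sum _ _ _).symm

end Crest.Agent.R122.Boost969
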