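import Crest.Agent.R122.VolFub_365
import Crest.Agent.R122.LocFlow_45

/-!
# Row 122 (helper968): grazing contacts are negligible

For every finite family and almost every initial configuration, the isolated Newton flow has no
grazing contact at any time: whenever two particles are at distance exactly `ε`, the derivative of
their distance is nonzero.
-/

set_option autoImplicit false

open MeasureTheory Set Filter Topology
open Crest.AnalysisR.Kinetic
open scoped ENNReal Classical NNReal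

noncomputable section

namespace Crest.Agent.R122.Graze968

open Flow671 Loc45 Vol365

variable {Φ : Space3 → ℝ} {ε : ℝ} {ι : Type} [Fintype ι]

/-! ### Shells -/

theorem shell_subset (c : Space3) (r η : ℝ) :
    {x : Space3 | r - η ≤ ‖x - c‖ ∧ ‖x - c‖ ≤ r + η} ⊆
      Metric.closedBall c (r + η) \ Metric.ball c (r - η) := by
  rintro x ⟨h1, h2⟩
  refine ⟨?_, ?_⟩
  · rw [Metric.mem_closedBall, dist_eq_norm]
    exact h2
  · rw [Metric.mem_ball, dist_eq_norm, not_lt]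
    exact h1

theorem volume_shell (c : Space3) {r η : ℝ} (hη : 0 ≤ η) (hηr : η ≤ r) :
    volume {x : Space3 | r - η ≤ ‖x - c‖ ∧ ‖x - c‖ ≤ r + η} ≤
      ENNReal.ofReal (8 * r ^ 2 * η) * kap := by
  have hr : 0 ≤ r := hη.trans hηr
  refine (measure_mono (shell_subset c r η)).trans ?_
  have hb1 : volume (Metric.closedBall c (r + η)) = ENNReal.ofReal ((r + η) ^ 3) * kap := by
    rw [Vol365.vol_closedBall _ (by linarith), ENNReal.ofReal_pow (by linarith)]
  have hb2 : volume (Metric.ball c (r - η)) = ENNReal.ofReal ((r - η) ^ 3) * kap := by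
    rw [Measure.addHaar_ball _ _ (by linarith)]
    simp only [finrank_euclideanSpace, Fintype.card_fin]
    rfl
  rw [measure_sdiff (Metric.ball_subset_closedBall.trans
    (Metric.closedBall_subset_closedBall (by linarith))) measurableSet_ball.nullMeasurableSet
    measure_ball_lt_top.ne, hb1, hb2, ← ENNReal.sub_mul (fun _ _ => kap_ne_top),
    ← ENNReal.ofReal_sub _ (by
    have : 0 ≤ r - η := by linarith
    positivity)]
  refine mul_le_mul_left ?_ _
  refine ENNReal.ofReal_le_ofReal ?_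
  nlinarith [mul_nonneg hη (mul_nonneg (sub_nonneg.2 hηr) (add_nonneg hr hη)), mul_nonneg hη hr]

/-- Configurations in a box with the distance of two particles in a shell. -/
def shellBox (ι : Type) (j k : ι) (R r η : ℝ) : Set (ι → PhasePoint) :=
  {W | (∀ i, ‖(W i).1‖ ≤ R ∧ ‖(W i).2‖ ≤ R) ∧ r - η ≤ ‖(W j).1 - (W k).1‖ ∧
    ‖(W j).1 - (W k).1‖ ≤ r + η}

theorem measurableSet_shellBox (j k : ι) (R r η : ℝ) :
    MeasurableSet (shellBox ι j k R r η) := by
  have h1 : ∀ i : ι, Measurable fun W : ι → PhasePoint => (W i).1 := fun i =>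
    (measurable_pi_apply i).fst
  have h2 : ∀ i : ι, Measurable fun W : ι → PhasePoint => (W i).2 := fun i =>
    (measurable_pi_apply i).snd
  have h3 : Measurable fun W : ι → PhasePoint => ‖(W j).1 - (W k).1‖ :=
    ((h1 j).sub (h1 k)).norm
  have : shellBox ι j k R r η =
      (⋂ i, ({W : ι → PhasePoint | ‖(W i).1‖ ≤ R} ∩ {W : ι → PhasePoint | ‖(W i).2‖ ≤ R})) ∩
        ({W | r - η ≤ ‖(W j).1 - (W k).1‖} ∩ {W | ‖(W j).1 - (W k).1‖ ≤ r + η}) := by
    ext W
    simp only [shellBox, mem_inter_iff, mem_iInter, mem_ofPred_eq]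
  rw [this]
  exact (MeasurableSet.iInter fun i => (measurableSet_le (h1 i).norm measurable_const).inter
    (measurableSet_le (h2 i).norm measurable_const)).inter
    ((measurableSet_le measurable_const h3).inter (measurableSet_le h3 measurable_const))

/-- The volume of a shell box is of the order of its thickness. -/
theorem volume_shellBox {j k : ι} (hjk : j ≠ k) {R : ℝ} (hR : 0 ≤ R) {r : ℝ} :
    ∃ C : ℝ≥0∞, C ≠ ∞ ∧ ∀ η, 0 ≤ η → η ≤ r →
      volume (shellBox ι j k R r η) ≤ C * ENNReal.ofReal η := by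
  obtain ⟨p, hp⟩ : ∃ p : ι → Prop, ∀ i, p i ↔ i = j := ⟨fun i => i = j, fun _ => Iff.rfl⟩
  set Y : Set ({i // ¬ p i} → PhasePoint) := Set.pi univ fun _ => cell 0 R R with hYdef
  have hY : MeasurableSet Y := MeasurableSet.univ_pi fun _ => measurableSet_cell 0 R R
  have hYfin : volume Y ≠ ∞ := by
    rw [hYdef, volume_pi, Measure.pi_pi]
    refine (ENNReal.prod_lt_top fun i _ => ?_).ne
    rw [vol_cell _ hR hR]
    exact ENNReal.mul_lt_top (ENNReal.mul_lt_top (ENNReal.pow_lt_top ENNReal.ofReal_lt_top)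
      kap_ne_top.lt_top) (ENNReal.mul_lt_top (ENNReal.pow_lt_top ENNReal.ofReal_lt_top)
      kap_ne_top.lt_top)
  set D : ℝ≥0∞ := ENNReal.ofReal (8 * r ^ 2) * kap * (ENNReal.ofReal R ^ 3 * kap) with hD
  have hDfin : D ≠ ∞ := by
    rw [hD]
    exact (ENNReal.mul_lt_top (ENNReal.mul_lt_top ENNReal.ofReal_lt_top kap_ne_top.lt_top)
      (ENNReal.mul_lt_top (ENNReal.pow_lt_top ENNReal.ofReal_lt_top) kap_ne_top.lt_top)).ne
  refine ⟨volume Y * D, ENNReal.mul_ne_top hYfin hDfin, fun η hη hηr => ?_⟩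
  set j' : {i // p i} := ⟨j, (hp j).2 rfl⟩
  set k' : {i // ¬ p i} := ⟨k, fun h => hjk ((hp k).1 h).symm⟩
  set W : Set (({i // p i} → PhasePoint) × ({i // ¬ p i} → PhasePoint)) :=
    {w | (∀ i, w.2 i ∈ cell 0 R R) ∧ ‖(w.1 j').2‖ ≤ R ∧ r - η ≤ ‖(w.1 j').1 - (w.2 k').1‖ ∧
      ‖(w.1 j').1 - (w.2 k').1‖ ≤ r + η} with hWdef
  have hm1 : Measurable fun w : ({i // p i} → PhasePoint) × ({i // ¬ p i} → PhasePoint) =>
      w.1 j' := (measurable_pi_apply j').comp measurable_fst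
  have hm2 : ∀ i, Measurable fun w : ({i // p i} → PhasePoint) × ({i // ¬ p i} → PhasePoint) =>
      w.2 i := fun i => (measurable_pi_apply i).comp measurable_snd
  have hm3 : Measurable fun w : ({i // p i} → PhasePoint) × ({i // ¬ p i} → PhasePoint) =>
      ‖(w.1 j').1 - (w.2 k').1‖ := (hm1.fst.sub (hm2 k').fst).norm
  have hW : MeasurableSet W := by
    have : W = (⋂ i, {w | w.2 i ∈ cell 0 R R}) ∩ ({w | ‖(w.1 j').2‖ ≤ R} ∩
        ({w | r - η ≤ ‖(w.1 j').1 - (w.2 k').1‖} ∩ {w | ‖(w.1 j').1 - (w.2 k').1‖ ≤ r + η})) := by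
      ext w
      simp only [hWdef, mem_inter_iff, mem_iInter, mem_ofPred_eq]
    rw [this]
    exact (MeasurableSet.iInter fun i => hm2 i (measurableSet_cell 0 R R)).inter
      ((measurableSet_le hm1.snd.norm measurable_const).inter
        ((measurableSet_le measurable_const hm3).inter (measurableSet_le hm3 measurable_const)))
  have hsub : shellBox ι j k R r η ⊆
      {z : ι → PhasePoint | (res p z, res (fun i => ¬ p i) z) ∈ W} := by
    rintro z ⟨h1, h2, h3⟩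
    refine ⟨fun i => ⟨?_, ?_⟩, (h1 j).2, h2, h3⟩
    · rw [mem_closedBall_zero_iff]
      exact (h1 i).1
    · rw [mem_closedBall_zero_iff]
      exact (h1 i).2
  refine (measure_mono hsub).trans ((fub2 p hY hW (fun w hw i _ => hw.1 i)
    (M := D * ENNReal.ofReal η) fun y _ => ?_).trans (mul_assoc _ _ _).ge)
  have hset : {x : {i // p i} → PhasePoint | (x, y) ∈ W} ⊆ Set.pi univ fun _ =>
      {x : Space3 | r - η ≤ ‖x - (y k').1‖ ∧ ‖x - (y k').1‖ ≤ r + η} ×ˢ Metric.closedBall 0 R := by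
    intro x hx i _
    have hi : i = j' := Subtype.ext ((hp _).1 i.2)
    rw [hi]
    exact ⟨hx.2.2, by rw [mem_closedBall_zero_iff]; exact hx.2.1⟩
  refine (measure_mono hset).trans ?_
  have hcard : Fintype.card {i // p i} = 1 := by
    rw [Fintype.card_eq_one_iff]
    exact ⟨j', fun i => Subtype.ext ((hp _).1 i.2)⟩
  rw [volume_pi, Measure.pi_pi, Finset.prod_const, Finset.card_univ, hcard, pow_one,
    Measure.volume_eq_prod, Measure.prod_prod, Vol365.vol_closedBall _ hR]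
  have h8 := volume_shell (y k').1 hη hηr
  calc volume {x : Space3 | r - η ≤ ‖x - (y k').1‖ ∧ ‖x - (y k').1‖ ≤ r + η} *
        (ENNReal.ofReal R ^ 3 * kap)
      ≤ (ENNReal.ofReal (8 * r ^ 2 * η) * kap) * (ENNReal.ofReal R ^ 3 * kap) :=
        mul_le_mul_left h8 _
    _ = D * ENNReal.ofReal η := by
        rw [hD, ENNReal.ofReal_mul (by positivity)]
        ring

/-! ### Deterministic estimates -/

/-- Bounded acceleration on low configurations. -/
theorem exists_acc_bound (hΦ : AdmissiblePotential Φ) (hε : 0 < ε) {M L : ℝ} (hM : 0 ≤ M)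
    (hlow : ∀ q, q ≠ 0 → -M ≤ Φ q) (hL : 0 ≤ L) :
    ∃ A : ℝ, 0 ≤ A ∧ ∀ Z ∈ Low Φ ε M L ι, ∀ i, ‖(nf Φ ε Z i).2‖ ≤ A := by
  obtain ⟨C, hC⟩ := (cut_nice hΦ hL).grad_lipschitz
  have hgrad : ∀ q, ‖gradient (cut Φ L) q‖ ≤ C := by
    intro q
    rcases le_total 1 ‖q‖ with h | h
    · rw [(cut_nice hΦ hL).grad_zero h, norm_zero]
      exact C.2
    · have h1 := hC.dist_le_mul q 0
      rw [(cut_nice hΦ hL).grad_origin, dist_zero_right, dist_zero_right] at h1
      refine h1.trans ?_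
      exact mul_le_of_le_one_right C.2 h
  refine ⟨(1 / ε) * (Fintype.card ι * C), by positivity, fun Z hZ i => ?_⟩
  rw [nf_eq_cut hΦ hL (Low_subset_Good hΦ hε hM hlow hZ)]
  show ‖-(1 / ε) • ∑ j, gradient (cut Φ L) ((1 / ε) • ((Z i).1 - (Z j).1))‖ ≤ _
  rw [norm_smul, norm_neg, Real.norm_eq_abs, abs_of_pos (by positivity : (0 : ℝ) < 1 / ε)]
  refine mul_le_mul_of_nonneg_left ?_ (by positivity)
  refine (norm_sum_le _ _).trans ((Finset.sum_le_sum fun j _ => hgrad _).trans ?_)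
  rw [Finset.sum_const, Finset.card_univ, nsmul_eq_mul]

theorem taylor {x v a : ℝ → Space3} (hx : ∀ t, HasDerivAt x (v t) t)
    (hv : ∀ t, HasDerivAt v (a t) t) {B : ℝ} (ha : ∀ t, ‖a t‖ ≤ B) (u r : ℝ) :
    ‖x r - x u - (r - u) • v u‖ ≤ B * (r - u) ^ 2 := by
  have hB : 0 ≤ B := (norm_nonneg _).trans (ha 0)
  have h1 : ∀ t, ‖v t - v u‖ ≤ B * |t - u| := by
    intro t
    have := Convex.norm_image_sub_le_of_norm_hasDerivWithin_le (s := univ) (f := v) (f' := a)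
      (x := u) (y := t) (C := B) (fun y _ => (hv y).hasDerivWithinAt) (fun y _ => ha y)
      convex_univ (mem_univ _) (mem_univ _)
    rwa [Real.norm_eq_abs] at this
  have h2 : ∀ t ∈ uIcc u r, HasDerivWithinAt (fun t => x t - t • v u) (v t - v u) (uIcc u r) t := by
    intro t _
    have h3 : HasDerivAt (fun t : ℝ => t • v u) (v u) t := by
      simpa using (hasDerivAt_id t).smul_const (v u)
    exact ((hx t).sub h3).hasDerivWithinAt
  have h3 : ∀ t ∈ uIcc u r, ‖v t - v u‖ ≤ B * |r - u| := by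
    intro t ht
    refine (h1 t).trans (mul_le_mul_of_nonneg_left ?_ hB)
    exact abs_sub_left_of_mem_uIcc ht
  have h4 := Convex.norm_image_sub_le_of_norm_hasDerivWithin_le h2 h3 (convex_uIcc u r)
    left_mem_uIcc right_mem_uIcc
  have h5 : x r - r • v u - (x u - u • v u) = x r - x u - (r - u) • v u := by
    rw [sub_smul]
    abel
  rw [h5, Real.norm_eq_abs, mul_assoc, abs_mul_abs_self] at h4
  rw [sq]
  exact h4

theorem radial {x v : Space3} {r V h : ℝ} (hr : 0 < r) (hx : ‖x‖ = r) (hxv : inner ℝ x v = 0)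
    (hv : ‖v‖ ≤ V) : r ≤ ‖x + h • v‖ ∧ ‖x + h • v‖ ≤ r + h ^ 2 * V ^ 2 / r := by
  have h1 : ‖x + h • v‖ ^ 2 = r ^ 2 + h ^ 2 * ‖v‖ ^ 2 := by
    rw [norm_add_sq_real, inner_smul_right, hxv, hx, norm_smul, mul_pow, Real.norm_eq_abs, sq_abs]
    ring
  have h2 : ‖v‖ ^ 2 ≤ V ^ 2 := by
    have := norm_nonneg v
    gcongr
  constructor
  · by_contra hcon
    rw [not_le] at hcon
    have h3 : 0 ≤ h ^ 2 * ‖v‖ ^ 2 := by positivity
    nlinarith [norm_nonneg (x + h • v)]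
  · by_contra hcon
    rw [not_le] at hcon
    have h3 : h ^ 2 * ‖v‖ ^ 2 ≤ h ^ 2 * V ^ 2 := mul_le_mul_of_nonneg_left h2 (sq_nonneg h)
    have h4 : 0 ≤ h ^ 2 * V ^ 2 / r := by positivity
    have h5 : (r + h ^ 2 * V ^ 2 / r) ^ 2 < ‖x + h • v‖ ^ 2 := by
      have := norm_nonneg (x + h • v)
      nlinarith
    have h6 : (r + h ^ 2 * V ^ 2 / r) ^ 2 = r ^ 2 + 2 * (h ^ 2 * V ^ 2) + (h ^ 2 * V ^ 2 / r) ^ 2 := by
      field_simp
      ring
    have h7 : 0 ≤ h ^ 2 * V ^ 2 := by positivity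
    nlinarith [sq_nonneg (h ^ 2 * V ^ 2 / r)]

/-- Configurations with a grazing contact of `j` and `k` in `[-N, N]`, energy level `L` and states
bounded by `R` on `[-N, N]`. -/
def badSet (Φ : Space3 → ℝ) (ε M : ℝ) (j k : ι) (N L R : ℕ) : Set (ι → PhasePoint) :=
  {Z | Z ∈ Low Φ ε M L ι ∧
    (∀ t ∈ Icc (-(N : ℝ)) N, ∀ i, ‖(flow Φ ε t Z i).1‖ ≤ R ∧ ‖(flow Φ ε t Z i).2‖ ≤ R) ∧
    ∃ u ∈ Icc (-(N : ℝ)) N, ‖(flow Φ ε u Z j).1 - (flow Φ ε u Z k).1‖ = ε ∧
      inner ℝ ((flow Φ ε u Z j).1 - (flow Φ ε u Z k).1)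
        ((flow Φ ε u Z j).2 - (flow Φ ε u Z k).2) = 0}

theorem badSet_subset (hΦ : AdmissiblePotential Φ) (hε : 0 < ε) {M : ℝ} (hM : 0 ≤ M)
    (hlow : ∀ q, q ≠ 0 → -M ≤ Φ q) (j k : ι) (N L R : ℕ) :
    ∃ c : ℝ, 0 ≤ c ∧ ∀ m : ℕ, 0 < m → badSet Φ ε M j k N L R ⊆
      ⋃ a ∈ Finset.Icc (-((N * m : ℕ) : ℤ)) ((N * m : ℕ) : ℤ),
        flow Φ ε ((a : ℝ) / m) ⁻¹' shellBox ι j k R ε (c / (m : ℝ) ^ 2) := by
  obtain ⟨A, hA, hacc⟩ := exists_acc_bound (ι := ι) hΦ hε hM hlow (L := (L : ℝ)) (Nat.cast_nonneg L)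
  refine ⟨(2 * R) ^ 2 / ε + 2 * A, by positivity, fun m hm Z hZ => ?_⟩
  obtain ⟨hZL, hbd, u, hu, hdist, hin⟩ := hZ
  have hm' : (0 : ℝ) < m := by exact_mod_cast hm
  set a : ℤ := ⌊u * m⌋ with ha
  have ha1 : (a : ℝ) ≤ u * m := Int.floor_le _
  have ha2 : u * m < a + 1 := Int.lt_floor_add_one _
  have hmem : a ∈ Finset.Icc (-((N * m : ℕ) : ℤ)) ((N * m : ℕ) : ℤ) := by
    rw [Finset.mem_Icc]
    constructor
    · rw [ha, Int.le_floor]
      push_cast
      nlinarith [hu.1]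
    · have h1 : (a : ℝ) ≤ ((N * m : ℕ) : ℤ) := by
        push_cast
        nlinarith [hu.2]
      exact_mod_cast h1
  set r : ℝ := (a : ℝ) / m with hr
  have hrN : r ∈ Icc (-(N : ℝ)) N := by
    rw [Finset.mem_Icc] at hmem
    have h1 : (-((N * m : ℕ) : ℤ) : ℝ) ≤ a := by exact_mod_cast hmem.1
    have h2 : (a : ℝ) ≤ ((N * m : ℕ) : ℤ) := by exact_mod_cast hmem.2
    push_cast at h1 h2
    constructor
    · rw [hr, le_div_iff₀ hm']
      linarith
    · rw [hr, div_le_iff₀ hm']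
      linarith
  have hru : (r - u) ^ 2 ≤ 1 / (m : ℝ) ^ 2 := by
    have h1 : (r - u) = (a - u * m) / m := by
      rw [hr]
      field_simp
    rw [h1, div_pow]
    refine div_le_div_of_nonneg_right ?_ (by positivity)
    nlinarith
  rw [mem_iUnion₂]
  refine ⟨a, hmem, ?_⟩
  rw [mem_preimage]
  have hZD : Z ∈ Dom Φ ι := hZL.1
  set x : ℝ → Space3 := fun t => (flow Φ ε t Z j).1 - (flow Φ ε t Z k).1 with hxdef
  set v : ℝ → Space3 := fun t => (flow Φ ε t Z j).2 - (flow Φ ε t Z k).2 with hvdef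
  have hx : ∀ t, HasDerivAt x (v t) t := fun t =>
    (hasDerivAt_pos (flow_hasDerivAt hΦ hε hZD t) j).sub
      (hasDerivAt_pos (flow_hasDerivAt hΦ hε hZD t) k)
  have hv : ∀ t, HasDerivAt v ((nf Φ ε (flow Φ ε t Z) j).2 - (nf Φ ε (flow Φ ε t Z) k).2) t := by
    intro t
    have h1 : ∀ i, HasDerivAt (fun s => (flow Φ ε s Z i).2) ((nf Φ ε (flow Φ ε t Z) i).2) t := by
      intro i
      have h2 := hasDerivAt_pi.1 (flow_hasDerivAt hΦ hε hZD t) i
      have h3 := (deriv_snd (h2.hasDerivWithinAt (s := univ)))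
      rwa [hasDerivWithinAt_univ] at h3
    exact (h1 j).sub (h1 k)
  have ha' : ∀ t, ‖(nf Φ ε (flow Φ ε t Z) j).2 - (nf Φ ε (flow Φ ε t Z) k).2‖ ≤ 2 * A := by
    intro t
    refine (norm_sub_le _ _).trans ?_
    have h1 := flow_mem_Low hΦ hε hZL t
    linarith [hacc _ h1 j, hacc _ h1 k]
  have h1 := taylor hx hv ha' u r
  have hvu : ‖v u‖ ≤ 2 * R := by
    refine (norm_sub_le _ _).trans ?_
    linarith [(hbd u hu j).2, (hbd u hu k).2]
  have h2 := radial (h := r - u) hε hdist hin hvu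
  refine ⟨fun i => hbd r hrN i, ?_, ?_⟩
  · show ε - _ ≤ ‖x r‖
    have h3 : ‖x u + (r - u) • v u‖ ≤ ‖x r‖ + ‖x r - x u - (r - u) • v u‖ := by
      have h4 : x u + (r - u) • v u = x r - (x r - x u - (r - u) • v u) := by abel
      rw [h4]
      exact norm_sub_le _ _
    have h5 : 2 * A * (r - u) ^ 2 ≤ 2 * A * (1 / (m : ℝ) ^ 2) :=
      mul_le_mul_of_nonneg_left hru (by linarith)
    have h6 : ((2 * (R : ℝ)) ^ 2 / ε + 2 * A) / (m : ℝ) ^ 2 =
        (2 * (R : ℝ)) ^ 2 / ε * (1 / (m : ℝ) ^ 2) + 2 * A * (1 / (m : ℝ) ^ 2) := by ring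
    have h7 : 0 ≤ (2 * (R : ℝ)) ^ 2 / ε * (1 / (m : ℝ) ^ 2) := by positivity
    rw [h6]
    linarith [h2.1]
  · show ‖x r‖ ≤ ε + _
    have h3 : ‖x r‖ ≤ ‖x u + (r - u) • v u‖ + ‖x r - x u - (r - u) • v u‖ := by
      have h4 : x r = (x u + (r - u) • v u) + (x r - x u - (r - u) • v u) := by abel
      calc ‖x r‖ = ‖(x u + (r - u) • v u) + (x r - x u - (r - u) • v u)‖ := by rw [← h4]
        _ ≤ _ := norm_add_le _ _
    have h5 : 2 * A * (r - u) ^ 2 ≤ 2 * A * (1 / (m : ℝ) ^ 2) :=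
      mul_le_mul_of_nonneg_left hru (by linarith)
    have h8 : (r - u) ^ 2 * (2 * (R : ℝ)) ^ 2 / ε ≤ (2 * (R : ℝ)) ^ 2 / ε * (1 / (m : ℝ) ^ 2) := by
      have h9 : (r - u) ^ 2 * (2 * (R : ℝ)) ^ 2 / ε = (2 * (R : ℝ)) ^ 2 / ε * (r - u) ^ 2 := by ring
      rw [h9]
      exact mul_le_mul_of_nonneg_left hru (by positivity)
    have h6 : ((2 * (R : ℝ)) ^ 2 / ε + 2 * A) / (m : ℝ) ^ 2 =
        (2 * (R : ℝ)) ^ 2 / ε * (1 / (m : ℝ) ^ 2) + 2 * A * (1 / (m : ℝ) ^ 2) := by ring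
    rw [h6]
    linarith [h2.2]

theorem volume_badSet (hΦ : AdmissiblePotential Φ) (hε : 0 < ε) {M : ℝ} (hM : 0 ≤ M)
    (hlow : ∀ q, q ≠ 0 → -M ≤ Φ q) {j k : ι} (hjk : j ≠ k) (N L R : ℕ) :
    volume (badSet Φ ε M j k N L R) = 0 := by
  obtain ⟨c, hc, hsub⟩ := badSet_subset hΦ hε hM hlow j k N L R
  obtain ⟨C, hC, hvol⟩ := volume_shellBox hjk (R := R) (Nat.cast_nonneg R) (r := ε)
  have hbound : ∀ m : ℕ, 0 < m → c / (m : ℝ) ^ 2 ≤ ε → volume (badSet Φ ε M j k N L R) ≤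
      C * ENNReal.ofReal ((2 * (N * m) + 1) * (c / (m : ℝ) ^ 2)) := by
    intro m hm hcm
    refine (measure_mono (hsub m hm)).trans ((measure_biUnion_finset_le _ _).trans ?_)
    have h1 : ∀ a ∈ Finset.Icc (-((N * m : ℕ) : ℤ)) ((N * m : ℕ) : ℤ),
        volume (flow Φ ε ((a : ℝ) / m) ⁻¹' shellBox ι j k R ε (c / (m : ℝ) ^ 2)) ≤
          C * ENNReal.ofReal (c / (m : ℝ) ^ 2) := by
      intro a _
      rw [(measurePreserving_flow hΦ hε _).measure_preimage
        (measurableSet_shellBox j k R ε _).nullMeasurableSet]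
      exact hvol _ (by positivity) hcm
    refine (Finset.sum_le_sum h1).trans ?_
    rw [Finset.sum_const, Int.card_Icc, nsmul_eq_mul]
    have h2 : (((N * m : ℕ) : ℤ) + 1 - -((N * m : ℕ) : ℤ)).toNat = 2 * (N * m) + 1 := by
      omega
    rw [h2, ENNReal.ofReal_mul (by positivity)]
    have h3 : ENNReal.ofReal (2 * ((N : ℝ) * m) + 1) = ((2 * (N * m) + 1 : ℕ) : ℝ≥0∞) := by
      rw [← ENNReal.ofReal_natCast]
      congr 1
      push_cast
      ring
    rw [h3]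
    refine le_of_eq ?_
    ring
  have hlim : Tendsto (fun m : ℕ => C * ENNReal.ofReal ((2 * (N * m) + 1) * (c / (m : ℝ) ^ 2)))
      atTop (𝓝 0) := by
    have h1 : Tendsto (fun m : ℕ => (2 * ((N : ℝ) * m) + 1) * (c / (m : ℝ) ^ 2)) atTop (𝓝 0) := by
      have h2 : Tendsto (fun m : ℕ => 2 * N * c * (1 / (m : ℝ)) + c * (1 / (m : ℝ)) * (1 / (m : ℝ)))
          atTop (𝓝 (2 * N * c * 0 + c * 0 * 0)) := by
        have h3 := tendsto_one_div_atTop_nhds_zero_nat (𝕜 := ℝ)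
        exact (h3.const_mul _).add ((h3.const_mul c).mul h3)
      simp only [mul_zero, add_zero] at h2
      refine h2.congr' ?_
      filter_upwards [eventually_gt_atTop 0] with m hm
      have hm' : (m : ℝ) ≠ 0 := by exact_mod_cast hm.ne'
      field_simp
    have h2 : Tendsto (fun m : ℕ => ENNReal.ofReal ((2 * ((N : ℝ) * m) + 1) * (c / (m : ℝ) ^ 2)))
        atTop (𝓝 (ENNReal.ofReal 0)) := ENNReal.tendsto_ofReal h1
    rw [ENNReal.ofReal_zero] at h2
    have h3 := ENNReal.Tendsto.const_mul h2 (Or.inr hC)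
    rwa [mul_zero] at h3
  have hev : ∀ᶠ m : ℕ in atTop, c / (m : ℝ) ^ 2 ≤ ε := by
    have h1 : Tendsto (fun m : ℕ => c * (1 / (m : ℝ)) * (1 / (m : ℝ))) atTop (𝓝 (c * 0 * 0)) := by
      have h3 := tendsto_one_div_atTop_nhds_zero_nat (𝕜 := ℝ)
      exact (h3.const_mul c).mul h3
    rw [mul_zero] at h1
    filter_upwards [h1.eventually (gt_mem_nhds hε), eventually_gt_atTop 0] with m hm hm0
    have hm' : (m : ℝ) ≠ 0 := by exact_mod_cast hm0.ne'
    refine le_of_eq_of_le ?_ hm.le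
    field_simp
  refine le_antisymm (ge_of_tendsto hlim ?_) zero_le
  filter_upwards [hev, eventually_gt_atTop 0] with m h1 h2
  exact hbound m h2 h1

/-- **Grazing contacts are negligible**: for almost every configuration of any finite family, the
isolated Newton flow has no grazing contact at any time. -/
theorem ae_no_graze (hΦ : AdmissiblePotential Φ) (hε : 0 < ε) :
    ∀ᵐ Z : ι → PhasePoint, ∀ j k : ι, j ≠ k → ∀ u : ℝ,
      dist (flow Φ ε u Z j).1 (flow Φ ε u Z k).1 = ε →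
      inner ℝ ((flow Φ ε u Z j).1 - (flow Φ ε u Z k).1)
        ((flow Φ ε u Z j).2 - (flow Φ ε u Z k).2) ≠ 0 := by
  obtain ⟨M, hM, hlow⟩ := exists_lower hΦ
  have hnull : volume (⋃ j : ι, ⋃ k : ι, ⋃ (_ : j ≠ k), ⋃ N : ℕ, ⋃ L : ℕ, ⋃ R : ℕ,
      badSet Φ ε M j k N L R) = 0 :=
    measure_iUnion_null fun j => measure_iUnion_null fun k => measure_iUnion_null fun hjk =>
      measure_iUnion_null fun N => measure_iUnion_null fun L => measure_iUnion_null fun R =>
        volume_badSet hΦ hε hM hlow hjk N L R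
  filter_upwards [ae_mem_Dom (ι := ι) Φ, measure_eq_zero_iff_ae_notMem.1 hnull] with Z hZ hnot
  intro j k hjk u hd hin
  apply hnot
  obtain ⟨L, hL, hZL⟩ := exists_Low (Φ := Φ) (ε := ε) (M := M) hZ
  obtain ⟨L', hL'⟩ := exists_nat_ge L
  obtain ⟨N, hN⟩ := exists_nat_ge |u|
  -- bounds on the compact interval
  have hcont : Continuous fun t => flow Φ ε t Z := flow_continuous_time hΦ hε Z
  obtain ⟨R, hR⟩ : ∃ R : ℝ, ∀ t ∈ Icc (-(N : ℝ)) N, ‖flow Φ ε t Z‖ ≤ R := by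
    obtain ⟨R, hR⟩ := (isCompact_Icc.image hcont).isBounded.exists_norm_le
    exact ⟨R, fun t ht => hR _ ⟨t, ht, rfl⟩⟩
  obtain ⟨R', hR'⟩ := exists_nat_ge R
  simp only [mem_iUnion]
  refine ⟨j, k, hjk, N, L', R', ⟨hZL.1, hZL.2.imp id fun h => h.trans_le hL'⟩, ?_, u, ?_, ?_, hin⟩
  · intro t ht i
    have h1 : ‖flow Φ ε t Z i‖ ≤ R' := ((norm_le_pi_norm _ i).trans (hR t ht)).trans hR'
    exact ⟨(norm_fst_le _).trans h1, (norm_snd_le _).trans h1⟩
  · exact abs_le.1 hN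
  · rw [← dist_eq_norm]
    exact hd

/-- The same for all sub-families at once. -/
theorem ae_no_graze_sub (hΦ : AdmissiblePotential Φ) (hε : 0 < ε) :
    ∀ᵐ Z : ι → PhasePoint, ∀ p : ι → Prop, ∀ j k : {i // p i}, j ≠ k → ∀ u : ℝ,
      dist (flow Φ ε u (res p Z) j).1 (flow Φ ε u (res p Z) k).1 = ε →
      inner ℝ ((flow Φ ε u (res p Z) j).1 - (flow Φ ε u (res p Z) k).1)
        ((flow Φ ε u (res p Z) j).2 - (flow Φ ε u (res p Z) k).2) ≠ 0 := by
  rw [ae_all_iff]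
  intro p
  have hq : Measure.QuasiMeasurePreserving (res p)
      (volume : Measure (ι → PhasePoint)) (volume : Measure ({i // p i} → PhasePoint)) := by
    have h1 := (volume_preserving_piEquivPiSubtypeProd (fun _ : ι => PhasePoint) p)
    have h2 : Measure.QuasiMeasurePreserving
        (Prod.fst : ({i // p i} → PhasePoint) × ({i // ¬ p i} → PhasePoint) → _)
        ((volume : Measure ({i // p i} → PhasePoint)).prod
          (volume : Measure ({i // ¬ p i} → PhasePoint))) volume :=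
      Measure.quasiMeasurePreserving_fst
    exact h2.comp h1.quasiMeasurePreserving
  exact hq.ae (ae_no_graze (ι := {i // p i}) hΦ hε)

end Crest.Agent.R122.Graze968

end
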