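import Crest.Agent.R122.IStep2_317
import Crest.Agent.R122.HitNull_167
import Crest.Agent.R122.GIVUse_424
import Crest.Agent.R122.GIVChild_383

/-!
# The first-hit identity in tree form, integrated in the translation (row 122, helper317)

* `clip` : curves clipped to `[0, T]`;
* `Hgh_clip` : clipping does not change `Hgh`;
* `U_eq_uG`, `adiff_uG_U_le` : the half-open avoidance probability is `uG` (`t > 0`), and `1` at
  time zero;
* `BadSmall`, `ErrSmall` : the two analytic inputs;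
* `first_hit_maj` : the identity with errors, in majorant form.
-/

set_option autoImplicit false

open MeasureTheory Set Filter
open scoped Classical ENNReal Topology NNReal
open Crest.AnalysisR.Kinetic

noncomputable section

namespace Crest.Agent.R122.IStep317

open Kin796 Kin796.CTree Tree674 Flow671 Loc45 Causal291 PathFlow968 Hit167 GC311 GIV566
  TreeHit317 Relabel674

variable {Φ : Space3 → ℝ} {f₀ : PhasePoint → ℝ} {ε : ℝ} {ι : Type} {S : Tubes ι} {T tw t : ℝ}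

/-! ### Clipping -/

/-- Curves clipped to `[0, T]`. -/
def clip (T : ℝ) (S : Tubes ι) : Tubes ι := ⟨fun i s => S.c i (max 0 (min s T)), S.b⟩

@[simp] theorem clip_b : (clip T S).b = S.b := rfl

theorem clip_c {i : ι} {s : ℝ} (hs : s ∈ Icc 0 T) : (clip T S).c i s = S.c i s := by
  show S.c i (max 0 (min s T)) = S.c i s
  rw [min_eq_left hs.2, max_eq_right hs.1]

theorem clip_shift (x : Space3) : (clip T S).shift x = clip T (S.shift x) := rfl

theorem clip_lip (hT : 0 ≤ T) {M : ℝ≥0} {i : ι} (h : LipschitzOnWith M (S.c i) (Icc 0 T)) :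
    LipschitzWith M ((clip T S).c i) := by
  refine LipschitzWith.of_dist_le_mul fun s u => ?_
  have hm : ∀ s : ℝ, max 0 (min s T) ∈ Icc (0 : ℝ) T := fun s =>
    ⟨le_max_left _ _, max_le hT (min_le_right _ _)⟩
  refine (h.dist_le_mul _ (hm s) _ (hm u)).trans ?_
  refine mul_le_mul_of_nonneg_left ?_ M.2
  have := ((LipschitzWith.id.min_const T).const_max 0).dist_le_mul s u
  simpa using this

theorem sInf_congr_Icc {A B : Set ℝ} (hA : ∀ s ∈ A, 0 ≤ s) (hB : ∀ s ∈ B, 0 ≤ s)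
    (h : ∀ s ≤ T, s ∈ A ↔ s ∈ B) (h1 : sInf A < T) (h0 : 0 < sInf A) : sInf B = sInf A := by
  have hne : A.Nonempty := by
    by_contra hA'
    rw [not_nonempty_iff_eq_empty] at hA'
    rw [hA', Real.sInf_empty] at h0
    exact lt_irrefl _ h0
  obtain ⟨s0, hs0, hlt⟩ := exists_lt_of_csInf_lt hne h1
  have hbA : BddBelow A := ⟨0, hA⟩
  have hbB : BddBelow B := ⟨0, hB⟩
  have hs0B : s0 ∈ B := (h s0 hlt.le).1 hs0
  refine le_antisymm ?_ ?_
  · refine le_csInf hne fun a ha => ?_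
    rcases le_or_gt a T with haT | haT
    · exact csInf_le hbB ((h a haT).1 ha)
    · exact (csInf_le hbB hs0B).trans (hlt.le.trans haT.le)
  · refine le_csInf ⟨s0, hs0B⟩ fun a ha => ?_
    rcases le_or_gt a T with haT | haT
    · exact csInf_le hbA ((h a haT).2 ha)
    · exact h1.le.trans haT.le

theorem sigHit_clip {P : CTree} {z : PhasePoint × Par P}
    (h : sigHit Φ ε P S z < T) (h0 : 0 < sigHit Φ ε P S z) :
    sigHit Φ ε P (clip T S) z = sigHit Φ ε P S z := by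
  refine sInf_congr_Icc (T := T) (fun s hs => hs.1) (fun s hs => hs.1) (fun s hs => ?_) h h0
  simp only [mem_ofPred_eq, clip_b]
  refine and_congr_right fun hs0 => exists_congr fun i => ?_
  rw [clip_c ⟨hs0, hs⟩]

theorem sigHit_clip' {P : CTree} {z : PhasePoint × Par P}
    (h : sigHit Φ ε P (clip T S) z < T) (h0 : 0 < sigHit Φ ε P (clip T S) z) :
    sigHit Φ ε P (clip T S) z = sigHit Φ ε P S z := by
  refine (sInf_congr_Icc (T := T) (fun s hs => hs.1) (fun s hs => hs.1) (fun s hs => ?_) h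
    h0).symm
  simp only [mem_ofPred_eq, clip_b]
  refine and_congr_right fun hs0 => exists_congr fun i => ?_
  rw [clip_c ⟨hs0, hs⟩]

theorem firstAt_clip {P : CTree} {z : PhasePoint × Par P} {σ : ℝ} (hσ : σ ∈ Icc 0 T) :
    FirstAt Φ ε P (clip T S) z σ ↔ FirstAt Φ ε P S z σ := by
  constructor
  · rintro ⟨h1, h2, h3, h4⟩
    refine ⟨h1, h2, ?_, fun u hu m hm i hi => ?_⟩
    · obtain ⟨i, hi, hd⟩ := h3
      exact ⟨i, hi, by rwa [clip_c hσ] at hd⟩
    · have := h4 u hu m hm i hi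
      rwa [clip_c ⟨hu.1, hu.2.le.trans hσ.2⟩] at this
  · rintro ⟨h1, h2, h3, h4⟩
    refine ⟨h1, h2, ?_, fun u hu m hm i hi => ?_⟩
    · obtain ⟨i, hi, hd⟩ := h3
      exact ⟨i, hi, by rw [clip_c hσ]; exact hd⟩
    · rw [clip_c ⟨hu.1, hu.2.le.trans hσ.2⟩]
      exact h4 u hu m hm i hi

theorem uG_sum_clip {κ : Type} {S' : Tubes κ} {σ : ℝ} (hσ : σ ≤ T) :
    uG Φ f₀ ε ((clip T S).sum S') σ = uG Φ f₀ ε (S.sum S') σ := by
  refine GIVUse424.uG_congr ?_ ?_
  · funext i
    rcases i with i | i <;> rfl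
  · rintro (i | i) s hs
    · exact clip_c ⟨hs.1, hs.2.trans ((min_le_right _ _).trans hσ)⟩
    · rfl

theorem uG_clip {σ : ℝ} (hσ : σ ≤ T) : uG Φ f₀ ε (clip T S) σ = uG Φ f₀ ε S σ :=
  GIVUse424.uG_congr rfl fun _ _ hs => clip_c ⟨hs.1, hs.2.trans ((min_le_right _ _).trans hσ)⟩

theorem Hgh_clip (P : CTree) (htT : t ≤ T) :
    Hgh Φ f₀ ε P (clip T S) tw t = Hgh Φ f₀ ε P S tw t := by
  unfold Hgh
  congr 1
  refine lintegral_congr fun z => ?_
  by_cases h : sigHit Φ ε P S z ∈ Ico tw t ∧ 0 < sigHit Φ ε P S z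
  · have h1 := sigHit_clip (Φ := Φ) (ε := ε) (h.1.2.trans_le htT) h.2
    rw [h1]
    have h2 := firstAt_clip (Φ := Φ) (ε := ε) (S := S) (P := P) (z := z)
      ⟨h.2.le, h.1.2.le.trans htT⟩
    rw [h2, uG_sum_clip (h.1.2.le.trans htT)]
  · by_cases h' : sigHit Φ ε P (clip T S) z ∈ Ico tw t ∧ 0 < sigHit Φ ε P (clip T S) z
    · have h1 := sigHit_clip' (Φ := Φ) (ε := ε) (h'.1.2.trans_le htT) h'.2
      rw [h1] at h'
      exact absurd h' h
    · rw [if_neg fun h3 => h' ⟨h3.1, h3.2.1⟩, if_neg fun h3 => h ⟨h3.1, h3.2.1⟩]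

/-! ### Closed and half-open avoidance -/

theorem U_eq_uG [Finite ι] (hΦ : AdmissiblePotential Φ) (hε : 0 < ε) (ht : 0 < t)
    (hc : ∀ i, ContinuousOn (S.c i) (Icc 0 t)) :
    U f₀ Φ ε S.c S.b t = uG Φ f₀ ε S t := by
  unfold U uG
  refine le_antisymm ?_ ?_
  · refine Hit167.gcE_mono_ae f₀ ε fun n => ?_
    filter_upwards [ae_unhit_closed (θ := S.b) hΦ hε ht hc n] with Z hZ _
    unfold unhitInd
    by_cases h : Unhit (pth Φ ε Z) ε S.c S.b t
    · rw [if_pos (show unhit Φ ε S t Z from hZ.1 h)]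
      exact ind_le_one _
    · rw [ind_false h]
      exact bot_le
  · refine Hit167.gcE_mono_ae f₀ ε fun n => ?_
    filter_upwards [ae_unhit_closed (θ := S.b) hΦ hε ht hc n] with Z hZ _
    unfold unhitInd
    by_cases h : unhit Φ ε S t Z
    · rw [if_pos h, ind_true (hZ.2 h)]
    · rw [if_neg h]
      exact bot_le

theorem U_zero (hf : Measurable f₀) (h1 : ∫⁻ z, ENNReal.ofReal (f₀ z) ≤ 1) :
    U f₀ Φ ε S.c S.b 0 = 1 := by
  unfold U
  rw [← gcE_one f₀ ε hf h1]
  refine gcE_congr f₀ ε fun n Z _ => ?_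
  rw [ind_true]
  rw [unhit_iff]
  intro s hs
  exact absurd hs.2 (not_lt.2 hs.1)

theorem adiff_self (a : ℝ≥0∞) : adiff a a = 0 := by simp [adiff]

theorem adiff_uG_U_le [Fintype ι] (hΦ : AdmissiblePotential Φ) (hf : Measurable f₀)
    (h1 : ∫⁻ z, ENNReal.ofReal (f₀ z) ≤ 1) {R : ℝ≥0∞}
    (hR : ∀ x : Space3, ∫⁻ v : Space3, ENNReal.ofReal (f₀ (x, v)) ≤ R) (hε : 0 < ε) (ht : 0 ≤ t)
    (hc : ∀ i, ContinuousOn (S.c i) (Icc 0 t)) :
    adiff (uG Φ f₀ ε S t) (U f₀ Φ ε S.c S.b t) ≤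
      Fintype.card ι * (R * ENNReal.ofReal (4 / 3 * Real.pi * ε)) := by
  rcases ht.eq_or_lt with h | h
  · subst h
    rw [U_zero hf h1, adiff_self_one _ (uG_le_one hf h1)]
    exact one_sub_uG_zero_le hΦ hf h1 hR hε S
  · rw [U_eq_uG hΦ hε h hc, adiff_self]
    exact bot_le

theorem adiff_add_right_le (a b c : ℝ≥0∞) : adiff (a + c) (b + c) ≤ adiff a b := by
  unfold adiff
  exact add_le_add add_tsub_add_le_tsub_right add_tsub_add_le_tsub_right

theorem adiff_add_left_le (a b c : ℝ≥0∞) : adiff (c + a) (c + b) ≤ adiff a b := by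
  rw [add_comm c a, add_comm c b]
  exact adiff_add_right_le a b c

/-- **First-hit inequality for `uG`.** -/
theorem first_hit_uG [Fintype ι] (hΦ : AdmissiblePotential Φ) (hf : Measurable f₀)
    (h1 : ∫⁻ z, ENNReal.ofReal (f₀ z) ≤ 1) {R : ℝ≥0∞}
    (hR : ∀ x : Space3, ∫⁻ v : Space3, ENNReal.ofReal (f₀ (x, v)) ≤ R) (hε : 0 < ε)
    {M : ℝ≥0} (hc : ∀ i, LipschitzOnWith M (S.c i) (Icc 0 T)) (htw : 0 ≤ tw) (htt : tw ≤ t)
    (htT : t ≤ T) (K : ℕ) :
    adiff (uG Φ f₀ ε S t + ∑' P : CTree, if P.leaves ≤ K then Hgh Φ f₀ ε P S tw t else 0)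
        (uG Φ f₀ ε S tw) ≤
      2 * (Fintype.card ι * (R * ENNReal.ofReal (4 / 3 * Real.pi * ε))) +
      (gcE f₀ ε (fun _ Z => ind (BadR Φ ε (clip T S).c S.b (treeCls Φ ε) tw t K Z)) +
        ∑ k ∈ Finset.range (K + 1), errC Φ f₀ ε (clip T S) (treeCls Φ ε) tw t k) := by
  have hT : 0 ≤ T := htw.trans (htt.trans htT)
  have hlip : ∀ i, LipschitzWith M ((clip T S).c i) := fun i => clip_lip hT (hc i)
  have hcc : ∀ i, Continuous ((clip T S).c i) := fun i => (hlip i).continuous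
  have key := first_hit_tree (S := clip T S) hf hΦ hε hcc htw htt K
    (fun n => ae_not_multHit (M := M) hΦ hε htw (fun i => (hlip i).lipschitzOnWith) n)
  have hH : (∑' P : CTree, if P.leaves ≤ K then Hgh Φ f₀ ε P (clip T S) tw t else 0) =
      ∑' P : CTree, if P.leaves ≤ K then Hgh Φ f₀ ε P S tw t else 0 := by
    refine tsum_congr fun P => ?_
    rw [Hgh_clip P htT]
  rw [hH] at key
  have ht0 : 0 ≤ t := htw.trans htt
  have e1 := adiff_uG_U_le (S := clip T S) hΦ hf h1 hR hε ht0 fun i => (hcc i).continuousOn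
  have e2 := adiff_uG_U_le (S := clip T S) hΦ hf h1 hR hε htw fun i => (hcc i).continuousOn
  rw [uG_clip htT] at e1
  rw [uG_clip (htt.trans htT)] at e2
  set H := ∑' P : CTree, if P.leaves ≤ K then Hgh Φ f₀ ε P S tw t else 0
  set A := uG Φ f₀ ε S t
  set B := uG Φ f₀ ε S tw
  set A' := U f₀ Φ ε (clip T S).c (clip T S).b t
  set B' := U f₀ Φ ε (clip T S).c (clip T S).b tw
  set e := (Fintype.card ι * (R * ENNReal.ofReal (4 / 3 * Real.pi * ε)) : ℝ≥0∞)
  set X := (gcE f₀ ε (fun _ Z => ind (BadR Φ ε (clip T S).c (clip T S).b (treeCls Φ ε) tw t K Z)) +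
      ∑ k ∈ Finset.range (K + 1), errC Φ f₀ ε (clip T S) (treeCls Φ ε) tw t k : ℝ≥0∞) with hX
  calc adiff (A + H) B ≤ adiff (A + H) (A' + H) + adiff (A' + H) B := adiff_triangle _ _ _
    _ ≤ adiff (A + H) (A' + H) + (adiff (A' + H) B' + adiff B' B) :=
        add_le_add le_rfl (adiff_triangle _ _ _)
    _ ≤ e + (X + e) := by
        refine add_le_add ((adiff_add_right_le _ _ _).trans e1) (add_le_add ?_ ?_)
        · rw [adiff_comm]
          exact key
        · rw [adiff_comm]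
          exact e2
    _ = _ := by rw [two_mul, hX]; simp only [clip_b]; ring

/-! ### The two inputs and the integrated form -/

/-- **Bad first hits are rare** (majorant form, integrated in the translation). -/
def BadSmall (Φ : Space3 → ℝ) (f₀ : PhasePoint → ℝ) (T tw t : ℝ) : Prop :=
  ∀ (ι : Type) [Fintype ι] (Sk : ℕ → Tubes ι) (S : Tubes ι) (εk : ℕ → ℝ),
    (∀ k, 0 < εk k) → Tendsto εk atTop (𝓝 0) → TubeConv T Sk S → Generic T S →
    ∀ R δ : ℝ, 0 < δ → ∃ K₀ : ℕ, ∀ K ≥ K₀, ∀ᶠ k in atTop, ∃ maj : Space3 → ℝ≥0∞,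
      Measurable maj ∧ (∀ x, gcE f₀ (εk k) (fun _ Z => ind (BadR Φ (εk k)
        (clip T ((Sk k).shift x)).c (Sk k).b (treeCls Φ (εk k)) tw t K Z)) ≤ maj x) ∧
      ∫⁻ x in Metric.closedBall (0 : Space3) R, maj x ≤ ENNReal.ofReal δ

/-- **Real and ghost avoidance probabilities agree** (majorant form). -/
def ErrSmall (Φ : Space3 → ℝ) (f₀ : PhasePoint → ℝ) (T tw t : ℝ) : Prop :=
  ∀ (ι : Type) [Fintype ι] (Sk : ℕ → Tubes ι) (S : Tubes ι) (εk : ℕ → ℝ),
    (∀ k, 0 < εk k) → Tendsto εk atTop (𝓝 0) → TubeConv T Sk S → Generic T S →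
    ∀ (R : ℝ) (n : ℕ) (δ : ℝ), 0 < δ → ∀ᶠ k in atTop, ∃ maj : Space3 → ℝ≥0∞,
      Measurable maj ∧ (∀ x, errC Φ f₀ (εk k) (clip T ((Sk k).shift x)) (treeCls Φ (εk k))
        tw t n ≤ maj x) ∧
      ∫⁻ x in Metric.closedBall (0 : Space3) R, maj x ≤ ENNReal.ofReal δ

/-- Sum of the good first hits by trees with at most `K` particles. -/
theorem tsum_trees (K : ℕ) (g : CTree → ℝ≥0∞) :
    (∑' P : CTree, if P.leaves ≤ K then g P else 0) = ∑ P ∈ GIVStep383.trees K, g P := by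
  rw [tsum_eq_sum (s := GIVStep383.trees K)]
  · refine Finset.sum_congr rfl fun P hP => ?_
    rw [if_pos (GIVStep383.mem_trees.1 hP)]
  · intro P hP
    rw [if_neg fun h => hP (GIVStep383.mem_trees.2 h)]

/-- **The first-hit identity, integrated in the translation, in majorant form.** -/
theorem first_hit_maj (hΦ : AdmissiblePotential Φ) (hf : Measurable f₀)
    (h1 : ∫⁻ z, ENNReal.ofReal (f₀ z) ≤ 1) {Q : ℝ≥0∞} (hQ : Q ≠ ∞)
    (hQb : ∀ x : Space3, ∫⁻ v : Space3, ENNReal.ofReal (f₀ (x, v)) ≤ Q)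
    (htw : 0 ≤ tw) (htt : tw ≤ t) (htT : t ≤ T)
    (hB : BadSmall Φ f₀ T tw t) (hE : ErrSmall Φ f₀ T tw t)
    (ι : Type) [Fintype ι] {Sk : ℕ → Tubes ι} {S : Tubes ι} {εk : ℕ → ℝ}
    (hεk : ∀ k, 0 < εk k) (hlim : Tendsto εk atTop (𝓝 0)) (hc : TubeConv T Sk S)
    (hg : Generic T S) (R : ℝ) {δ : ℝ} (hδ : 0 < δ) :
    ∃ K₀ : ℕ, ∀ K ≥ K₀, ∀ᶠ k in atTop, ∃ maj : Space3 → ℝ≥0∞, Measurable maj ∧
      (∀ x, adiff (uG Φ f₀ (εk k) ((Sk k).shift x) t +
        ∑ P ∈ GIVStep383.trees K, Hgh Φ f₀ (εk k) P ((Sk k).shift x) tw t)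
        (uG Φ f₀ (εk k) ((Sk k).shift x) tw) ≤ maj x) ∧
      ∫⁻ x in Metric.closedBall (0 : Space3) R, maj x ≤ ENNReal.ofReal δ := by
  obtain ⟨K₀, hK₀⟩ := hB ι Sk S εk hεk hlim hc hg R (δ / 3) (by positivity)
  refine ⟨K₀, fun K hK => ?_⟩
  have hE' : ∀ᶠ k in atTop, ∀ n ∈ Finset.range (K + 1), ∃ maj : Space3 → ℝ≥0∞,
      Measurable maj ∧ (∀ x, errC Φ f₀ (εk k) (clip T ((Sk k).shift x)) (treeCls Φ (εk k))
        tw t n ≤ maj x) ∧
      ∫⁻ x in Metric.closedBall (0 : Space3) R, maj x ≤ ENNReal.ofReal (δ / (3 * (K + 1))) := by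
    rw [Finset.eventually_all]
    intro n _
    exact hE ι Sk S εk hεk hlim hc hg R n _ (by positivity)
  -- the boundary term at time zero
  set e : ℕ → ℝ≥0∞ := fun k => 2 * (Fintype.card ι * (Q * ENNReal.ofReal (4 / 3 * Real.pi * εk k)))
    with he
  have hv : volume (Metric.closedBall (0 : Space3) R) ≠ ∞ := measure_closedBall_lt_top.ne
  have hlime : Tendsto (fun k => e k * volume (Metric.closedBall (0 : Space3) R)) atTop (𝓝 0) := by
    have h2 : Tendsto (fun k => ENNReal.ofReal (4 / 3 * Real.pi * εk k)) atTop (𝓝 0) := by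
      have := (ENNReal.continuous_ofReal.tendsto _).comp (hlim.const_mul (4 / 3 * Real.pi))
      rw [mul_zero, ENNReal.ofReal_zero] at this
      exact this
    have h3 : Tendsto (fun k => e k * volume (Metric.closedBall (0 : Space3) R)) atTop
        (𝓝 (2 * (Fintype.card ι * (Q * 0)) * volume (Metric.closedBall (0 : Space3) R))) := by
      refine ENNReal.Tendsto.mul_const ?_ (Or.inr hv)
      refine ENNReal.Tendsto.const_mul ?_ (Or.inr (by norm_num))
      refine ENNReal.Tendsto.const_mul ?_ (Or.inr (ENNReal.natCast_ne_top _))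
      exact ENNReal.Tendsto.const_mul h2 (Or.inr hQ)
    simpa using h3
  have hev : ∀ᶠ k in atTop, e k * volume (Metric.closedBall (0 : Space3) R) ≤
      ENNReal.ofReal (δ / 3) :=
    (hlime.eventually_lt_const (by simpa using (by positivity : 0 < δ / 3))).mono
      fun _ h => h.le
  obtain ⟨M, hM, -⟩ := hc.lip
  filter_upwards [hK₀ K hK, hE', hev, hM] with k hk1 hk2 hk3 hk4
  obtain ⟨mB, hmB, hB1, hB2⟩ := hk1
  choose! mE hmE hE1 hE2 using hk2
  refine ⟨fun x => e k + (mB x + ∑ n ∈ Finset.range (K + 1), mE n x),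
    measurable_const.add (hmB.add (Finset.measurable_sum _ fun n hn => hmE n hn)), fun x => ?_, ?_⟩
  · have hlipx : ∀ i, LipschitzOnWith M (((Sk k).shift x).c i) (Icc 0 T) := by
      intro i
      refine LipschitzOnWith.of_dist_le_mul fun s hs u hu => ?_
      show dist ((Sk k).c i s + x) ((Sk k).c i u + x) ≤ _
      rw [dist_add_right]
      exact (hk4 i).dist_le_mul s hs u hu
    have := first_hit_uG (S := (Sk k).shift x) hΦ hf h1 hQb (hεk k) hlipx htw htt htT K
    rw [tsum_trees] at this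
    refine this.trans (add_le_add le_rfl (add_le_add (hB1 x) (Finset.sum_le_sum fun n hn => ?_)))
    exact hE1 n hn x
  · rw [lintegral_add_left measurable_const, lintegral_add_left hmB,
      lintegral_finsetSum _ fun n hn => hmE n hn, setLIntegral_const]
    calc e k * volume (Metric.closedBall (0 : Space3) R) +
        ((∫⁻ x in Metric.closedBall (0 : Space3) R, mB x) +
          ∑ n ∈ Finset.range (K + 1), ∫⁻ x in Metric.closedBall (0 : Space3) R, mE n x)
        ≤ ENNReal.ofReal (δ / 3) + (ENNReal.ofReal (δ / 3) +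
          ∑ _n ∈ Finset.range (K + 1), ENNReal.ofReal (δ / (3 * (K + 1)))) :=
          add_le_add hk3 (add_le_add hB2 (Finset.sum_le_sum fun n hn => hE2 n hn))
      _ = ENNReal.ofReal δ := by
          rw [Finset.sum_const, Finset.card_range, nsmul_eq_mul]
          have h3 : ((K + 1 : ℕ) : ℝ≥0∞) = ENNReal.ofReal (K + 1) := by
            rw [← Nat.cast_succ, ENNReal.ofReal_natCast]
          rw [h3, ← ENNReal.ofReal_mul (by positivity), ← ENNReal.ofReal_add (by positivity)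
            (by positivity), ← ENNReal.ofReal_add (by positivity) (by positivity)]
          congr 1
          field_simp
          ring

end Crest.Agent.R122.IStep317
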