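import Crest.Agent.R122.GenericAvoid_491


/-!
Row 122, block FT (helper491): children of a tube family, part 1 (deterministic).

A tree `P` is glued to the tube `i0` of a family of curves at the time `s`: its root line enters the
tube (impact parameter `y`, velocity `v`, velocity `V` of the tube).  If at `ε = 0` the tree meets the
curves of the family only at the glueing point, then for small `ε` no protected particle of the
`ε`-tree is within `ε` of the curves before time `s`.
-/

set_option autoImplicit false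

open MeasureTheory Set Filter
open scoped ENNReal Topology Classical RealInnerProductSpace
open Crest.AnalysisR.Kinetic

noncomputable section

namespace Crest.Agent.R122.TubeChild491

open Kin796 Kin796.CTree Disc416 Tree674 Boltz814 TreeEps399 Hid424 Generic491

variable {Φ : Space3 → ℝ}

/-! ### Generalities -/

/-- a statement which holds locally in time and eventually holds on compact time intervals
eventually -/
theorem eventually_of_local' {ι : Type*} {l : Filter ι} {T : ℝ} {R : ι → ℝ → Prop}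
    (h : ∀ s ∈ Icc 0 T, ∃ δ > 0, ∀ᶠ k in l, ∀ u : ℝ, |u - s| < δ → u ∈ Icc 0 T → R k u) :
    ∀ᶠ k in l, ∀ u ∈ Icc 0 T, R k u := by
  choose! δ hδ hev using h
  obtain ⟨t, ht, hcov⟩ := isCompact_Icc.elim_nhds_subcover (fun s => Metric.ball s (δ s))
    (fun s hs => Metric.ball_mem_nhds s (hδ s hs))
  have h1 : ∀ᶠ k in l, ∀ s ∈ t, ∀ u : ℝ, |u - s| < δ s → u ∈ Icc 0 T → R k u :=
    (Finset.eventually_all t).mpr fun s hs => hev s (ht s hs)
  filter_upwards [h1] with k hk u hu
  obtain ⟨s, hs, hus⟩ := mem_iUnion₂.mp (hcov hu)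
  exact hk s hs u (by rwa [Metric.mem_ball, Real.dist_eq] at hus) hu

/-- the protected times of the other particles are before the final time -/
theorem prot_lt : ∀ (P : CTree) (T : ℝ) (v : Space3) (p : Par P),
    Tree674.Ord Φ 0 P T v p → ∀ i, i ≠ root P → prot P T p i < T
  | leaf, _, _, _, _, i, h => absurd (Subsingleton.elim (α := Unit) i ()) h
  | node l r, T, v, p, h, i, hi => by
      have hs : Tree674.sin Φ 0 v p.1 = p.1.1 := sin_zero v p.1
      have hT : p.1.1 < T := h.1
      have hl := h.2.2.1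
      have hr := h.2.2.2
      rw [hs] at hl hr
      rcases i with i | i
      · have hi' : i ≠ root l := fun h' => hi (by rw [h']; rfl)
        have h2 : prot (node l r) T p (Sum.inl i) = prot l T p.2.1 i := rfl
        rw [h2, PathFlow968.prot_eq_of_ne l T p.1.1 p.2.1 hi']
        exact (PathFlow968.prot_le le_rfl l _ _ p.2.1 hl i).trans_lt hT
      · have h2 : prot (node l r) T p (Sum.inr i) = prot r p.1.1 p.2.2 i := rfl
        rw [h2]
        exact (PathFlow968.prot_le le_rfl r _ _ p.2.2 hr i).trans_lt hT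

/-- before the entrance the relative distance is `> ε` -/
theorem entrance_lt {ε t : ℝ} (hε : 0 < ε) {b g : Space3} (hb : ‖b‖ < 1) (hbg : ⟪b, g⟫ = 0)
    (hg : g ≠ 0) (ht : t < 0) : ε < ‖ε • entrancePoint b g + t • g‖ := by
  have hn : 0 < ‖g‖ := norm_pos_iff.2 hg
  have e1 : ε • entrancePoint b g + t • g =
      ε • b + (t - ε * (Real.sqrt (1 - ‖b‖ ^ 2) / ‖g‖)) • g := by
    unfold entrancePoint; module
  have h2 : ‖ε • entrancePoint b g + t • g‖ ^ 2 =
      ε ^ 2 * ‖b‖ ^ 2 + (t - ε * (Real.sqrt (1 - ‖b‖ ^ 2) / ‖g‖)) ^ 2 * ‖g‖ ^ 2 := by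
    rw [e1, norm_add_sq_real, inner_smul_left, inner_smul_right, hbg, norm_smul, norm_smul]
    simp only [Real.norm_eq_abs, mul_pow, sq_abs, conj_trivial]
    ring
  set r := Real.sqrt (1 - ‖b‖ ^ 2) with hr
  have hr0 : 0 ≤ r := Real.sqrt_nonneg _
  have hr2 : r ^ 2 = 1 - ‖b‖ ^ 2 := Real.sq_sqrt (by nlinarith [norm_nonneg b])
  have h3 : (t - ε * (r / ‖g‖)) ^ 2 * ‖g‖ ^ 2 = (t * ‖g‖ - ε * r) ^ 2 := by
    rw [← mul_pow]; congr 1; field_simp
  have h4 : ε ^ 2 < ‖ε • entrancePoint b g + t • g‖ ^ 2 := by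
    rw [h2, h3]
    have h5 : t * ‖g‖ < 0 := mul_neg_of_neg_of_pos ht hn
    have h6 : 0 ≤ ε * r := mul_nonneg hε.le hr0
    nlinarith [mul_nonneg h6 (neg_nonneg.2 h5.le), sq_nonneg (t * ‖g‖), mul_pos_of_neg_of_neg h5 h5]
  exact lt_of_pow_lt_pow_left₀ 2 (norm_nonneg _) h4

/-- root line entering at time `s` the tube which is at `x` at time `s`, with velocity `V` -/
def rootAt (ε : ℝ) (x V v : Space3) (y : Plane) (s : ℝ) : PhasePoint :=
  (x + ε • entrancePoint (frameMap (v - V) y) (v - V) - s • v, v)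

lemma rootAt_zero (x V v : Space3) (y : Plane) (s : ℝ) : rootAt 0 x V v y s = (x - s • v, v) := by
  unfold rootAt; simp

lemma onLine_rootAt (ε : ℝ) (x V v : Space3) (y : Plane) (s u : ℝ) :
    (onLine (rootAt ε x V v y s) u).1 =
      x + ε • entrancePoint (frameMap (v - V) y) (v - V) + (u - s) • v := by
  unfold onLine rootAt; module

/-- convergence of the trajectories with moving root positions, along any filter -/
theorem path_close' {ι : Type*} {l : Filter ι} {ε : ι → ℝ} (hε : Tendsto ε l TreeEps399.L)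
    (P : CTree) (v : Space3) (p : Par P) (T : ℝ) (hV : Valid Φ 0 P T v p) {X : ι → Space3}
    {X0 : Space3} (hX : Tendsto X l (𝓝 X0)) {η : ℝ} (hη : 0 < η) :
    ∀ᶠ k in l, ∀ (u : ℝ) (i : Idx P),
      dist (path Φ (ε k) P (X k, v) p u i).1 (path Φ 0 P (X0, v) p u i).1 < η := by
  have h1 := hε.eventually (path_close P v p T hV.1 hV.2 (fun _ => 0) 0 tendsto_const_nhds
    (η / 2) (half_pos hη))
  have h2 := (Metric.tendsto_nhds.1 hX) (η / 2) (half_pos hη)
  filter_upwards [h1, h2] with k a1 a2 u i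
  have a3 := a1 u i
  rw [path_shift (ε k) P (X k), path_shift 0 P X0]
  simp only
  calc dist ((path Φ (ε k) P (0, v) p u i).1 + X k) ((path Φ 0 P (0, v) p u i).1 + X0)
      ≤ dist (path Φ (ε k) P (0, v) p u i).1 (path Φ 0 P (0, v) p u i).1 + dist (X k) X0 :=
        dist_add_add_le _ _ _ _
    _ < η := by linarith

/-! ### Tubes of a tree: uniform Lipschitz bound, uniform convergence, velocities -/

/-- validity only improves with the final time -/
theorem valid_mono {ε : ℝ} : ∀ (P : CTree) {T T' : ℝ} (_ : T ≤ T') (v : Space3) (p : Par P),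
    Valid Φ ε P T v p → Valid Φ ε P T' v p
  | leaf, _, _, _, _, _, h => h
  | node _ _, _, _, hT, _, _, h => ⟨h.1, h.2.1.trans_le hT, h.2.2⟩

/-- one Lipschitz constant for the trajectories of the `ε`-trees, moving root positions -/
theorem pathlip (hΦ : AdmissiblePotential Φ) {ι : Type*} {l : Filter ι} {ε : ι → ℝ}
    (hε : Tendsto ε l TreeEps399.L) {P : CTree} {v : Space3} {p : Par P} {T : ℝ} (hT : 0 ≤ T)
    (hV : Valid Φ 0 P T v p) (hG : Gen Φ P (0, v) p) (X : ι → Space3) :
    ∃ M : NNReal, (∀ᶠ k in l, ∀ i : Idx P,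
      LipschitzOnWith M (fun u => (path Φ (ε k) P (X k, v) p u i).1) (Icc 0 T)) ∧
      ∀ (X0 : Space3) (i : Idx P),
        LipschitzOnWith M (fun u => (path Φ 0 P (X0, v) p u i).1) (Icc 0 T) := by
  obtain ⟨M, hM, hev⟩ := curve_lip hΦ hT hV hG
  obtain ⟨M', hM', h0⟩ := path0_lip hΦ hT hV hG
  refine ⟨Real.toNNReal (max M M'), ?_, fun X0 i => ?_⟩
  · filter_upwards [hε.eventually hev, hε.eventually (eventually_good hΦ hV hG)] with k h1 h2 i
    rw [lipschitzOnWith_iff_dist_le_mul]
    intro t ht s hs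
    rw [← curve_eq_path hΦ h2.1 h2.2.1 (h2.2.2 (X k)) ht i,
      ← curve_eq_path hΦ h2.1 h2.2.1 (h2.2.2 (X k)) hs i, Real.dist_eq]
    refine (h1 (X k) s t i).trans ?_
    refine mul_le_mul_of_nonneg_right ?_ (abs_nonneg _)
    exact (le_max_left M M').trans (Real.le_coe_toNNReal _)
  · rw [lipschitzOnWith_iff_dist_le_mul]
    intro t ht s hs
    rw [Real.dist_eq]
    refine (h0 X0 s hs t ht i).trans ?_
    refine mul_le_mul_of_nonneg_right ?_ (abs_nonneg _)
    exact (le_max_right M M').trans (Real.le_coe_toNNReal _)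

/-- uniform convergence of the trajectories, moving root positions -/
theorem pathunif {ι : Type*} {l : Filter ι} {ε : ι → ℝ}
    (hε : Tendsto ε l TreeEps399.L) {P : CTree} {v : Space3} {p : Par P} {T : ℝ}
    (hV : Valid Φ 0 P T v p) {X : ι → Space3} {X0 : Space3} (hX : Tendsto X l (𝓝 X0)) (A : Set ℝ)
    (i : Idx P) :
    TendstoUniformlyOn (fun k u => (path Φ (ε k) P (X k, v) p u i).1)
      (fun u => (path Φ 0 P (X0, v) p u i).1) l A := by
  rw [Metric.tendstoUniformlyOn_iff]
  intro η hη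
  filter_upwards [path_close' hε P v p T hV hX hη] with k hk u _
  rw [dist_comm]
  exact hk u i

/-- velocities: near a time which is not a node time, all the trajectories are straight with the
velocities of the limit -/
theorem pathvel {ι : Type*} {l : Filter ι} {ε : ι → ℝ}
    (hε : Tendsto ε l TreeEps399.L) {P : CTree} {v : Space3} {p : Par P} {s : ℝ}
    (hs : NotTime P p s) (X : ι → Space3) (X0 : Space3) :
    ∃ (w : Idx P → Space3) (δ : ℝ), 0 < δ ∧
      (∀ i, ∀ u ∈ Metric.ball s δ,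
        HasDerivAt (fun u => (path Φ 0 P (X0, v) p u i).1) (w i) u) ∧
      ∀ᶠ k in l, ∀ i, ∀ u ∈ Metric.ball s δ,
        HasDerivAt (fun u => (path Φ (ε k) P (X k, v) p u i).1) (w i) u := by
  obtain ⟨w, δ, hδ, h0, hev⟩ := path_local (Φ := Φ) P v p s hs
  have key : ∀ (ε' : ℝ) (Y : Space3), LocLine Φ ε' P v p s δ w → ∀ i, ∀ u ∈ Metric.ball s δ,
      HasDerivAt (fun u => (path Φ ε' P (Y, v) p u i).1) (w i) u := by
    intro ε' Y hL i u hu
    have h1 : (fun u => (path Φ ε' P (Y, v) p u i).1) =ᶠ[𝓝 u]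
        fun u => (path Φ ε' P (Y, v) p s i).1 + (u - s) • w i := by
      filter_upwards [Metric.isOpen_ball.mem_nhds hu] with u' hu'
      rw [hL Y u' (by rwa [Metric.mem_ball, Real.dist_eq] at hu') i]
    refine HasDerivAt.congr_of_eventuallyEq ?_ h1
    have h2 : HasDerivAt (fun u : ℝ => (u - s) • w i) ((1 : ℝ) • w i) u :=
      ((hasDerivAt_id u).sub_const s).smul_const (w i)
    rw [one_smul] at h2
    exact h2.const_add _
  refine ⟨w, δ, hδ, key 0 X0 h0, ?_⟩
  filter_upwards [hε.eventually hev] with k hk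
  exact key (ε k) (X k) hk

variable {κ : Type} [Fintype κ]

/-- **F3 (deterministic)**: eventually the entrance of the root is the first good hit. -/
theorem first_hit_eventually {ι : Type*} {l : Filter ι} {ε : ι → ℝ}
    (hε : Tendsto ε l TreeEps399.L) {T s : ℝ} (hsT : s ≤ T)
    {c : ι → κ → ℝ → Space3} {c0 : κ → ℝ → Space3} {b : ι → κ → ℝ} {b0 : κ → ℝ}
    (hcc : ∀ η > 0, ∀ᶠ k in l, ∀ i, ∀ u ∈ Icc 0 T, dist (c k i u) (c0 i u) < η)
    (hc0 : ∀ i, ContinuousOn (c0 i) (Icc 0 T))
    (hb : ∀ i, Tendsto (fun k => b k i) l (𝓝 (b0 i)))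
    (i0 : κ) {V : Space3}
    (hloc : ∃ δ > 0, ∀ᶠ k in l, ∀ u, s - δ < u → u ≤ s → u ∈ Icc 0 T →
      c k i0 u = c k i0 s + (u - s) • V)
    {P : CTree} {v : Space3} {y : Plane} {p : Par P} (hvV : v ≠ V) (hy : ‖y‖ < 1)
    (hs0 : 0 ≤ s) (hV : Valid Φ 0 P s v p)
    (hne : ∀ (i : κ) (j : Idx P), ∀ u ∈ Icc 0 s, u ≤ b0 i → u ≤ prot P s p j →
      (path Φ 0 P (c0 i0 s - s • v, v) p u j).1 = c0 i u → i = i0 ∧ u = s) :
    ∀ᶠ k in l, ∀ u ∈ Ico 0 s, ∀ j : Idx P, u ≤ prot P s p j → ∀ i, u ≤ b k i →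
      ε k < dist (path Φ (ε k) P (rootAt (ε k) (c k i0 s) V v y s) p u j).1 (c k i u) := by
  have hε0 : Tendsto ε l (𝓝 0) := hε.mono_right nhdsWithin_le_nhds
  have hεp : ∀ᶠ k in l, 0 < ε k := hε.eventually eventually_pos
  have hxs : Tendsto (fun k => c k i0 s) l (𝓝 (c0 i0 s)) := by
    rw [Metric.tendsto_nhds]
    intro η hη
    filter_upwards [hcc η hη] with k hk
    exact hk i0 s ⟨hs0, hsT⟩
  have hX : Tendsto (fun k => (rootAt (ε k) (c k i0 s) V v y s).1) l (𝓝 (c0 i0 s - s • v)) := by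
    have h1 : Tendsto (fun k => ε k • entrancePoint (frameMap (v - V) y) (v - V)) l (𝓝 0) := by
      have := hε0.smul_const (entrancePoint (frameMap (v - V) y) (v - V))
      rwa [zero_smul] at this
    have h2 := (hxs.add h1).sub_const (s • v)
    rw [add_zero] at h2
    exact h2
  -- it suffices to treat one pair
  suffices hpair : ∀ (i : κ) (j : Idx P), ∀ᶠ k in l, ∀ u ∈ Icc 0 s, u < s →
      u ≤ prot P s p j → u ≤ b k i →
      ε k < dist (path Φ (ε k) P (rootAt (ε k) (c k i0 s) V v y s) p u j).1 (c k i u) by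
    have h1 := eventually_all.2 fun i : κ => eventually_all.2 fun j : Idx P => hpair i j
    filter_upwards [h1] with k hk u hu j hj i hi
    exact hk i j u ⟨hu.1, hu.2.le⟩ hu.2 hj hi
  intro i j
  refine eventually_of_local' fun u0 hu0 => ?_
  -- inactive tube
  by_cases hbi : b0 i < u0
  · refine ⟨(u0 - b0 i) / 2, by linarith, ?_⟩
    have h1 : ∀ᶠ k in l, b k i < b0 i + (u0 - b0 i) / 2 :=
      (hb i).eventually (gt_mem_nhds (by linarith))
    filter_upwards [h1] with k hk u hu _ _ _ hu2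
    have := (abs_lt.1 hu).1
    exfalso
    linarith
  -- inactive particle
  by_cases hpj : prot P s p j < u0
  · refine ⟨u0 - prot P s p j, by linarith, Eventually.of_forall fun k u hu _ _ hu2 _ => ?_⟩
    have := (abs_lt.1 hu).1
    exfalso
    linarith
  push Not at hbi hpj
  by_cases hd : (path Φ 0 P (c0 i0 s - s • v, v) p u0 j).1 = c0 i u0
  · -- the glueing point
    obtain ⟨rfl, rfl⟩ := hne i j u0 hu0 hbi hpj hd
    have hj : j = root P := by
      by_contra hj
      exact absurd (prot_lt P u0 v p hV.2 j hj) (not_lt.2 hpj)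
    subst hj
    obtain ⟨δ1, hδ1, hev⟩ := hloc
    obtain ⟨δ2, hδ2, htop⟩ := exists_top (top_of_ord hV.2)
    refine ⟨min δ1 δ2, lt_min hδ1 hδ2, ?_⟩
    filter_upwards [hev, hεp] with k h1 h2 u hu hu2 hu3 _ _
    have hu4 := (abs_lt.1 hu).1
    have hm1 := min_le_left δ1 δ2
    have hm2 := min_le_right δ1 δ2
    have hT : Top P p u := htop.mono (by linarith)
    rw [path_root h2.le hT, onLine_rootAt, h1 u (by linarith) hu3.le ⟨hu2.1, hu2.2.trans hsT⟩,
      dist_eq_norm]
    have e : c k i u0 + ε k • entrancePoint (frameMap (v - V) y) (v - V) + (u - u0) • v -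
        (c k i u0 + (u - u0) • V) =
        ε k • entrancePoint (frameMap (v - V) y) (v - V) + (u - u0) • (v - V) := by module
    rw [e]
    have hg : v - V ≠ 0 := sub_ne_zero.2 hvV
    refine entrance_lt h2 ?_ ?_ hg (by linarith)
    · rwa [norm_frameMap hg]
    · exact Disc416.inner_frameMap_self _ _
  · -- distinct points
    set d := dist (path Φ 0 P (c0 i0 s - s • v, v) p u0 j).1 (c0 i u0) with hdd
    have hd0 : 0 < d := dist_pos.2 hd
    have hc1 : ContinuousWithinAt (fun u => dist (path Φ 0 P (c0 i0 s - s • v, v) p u j).1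
        (c0 i u)) (Icc 0 T) u0 := by
      have hp : Continuous fun u => (path Φ 0 P (c0 i0 s - s • v, v) p u j).1 :=
        TreeEps399.continuous_path0 P (c0 i0 s - s • v, v) p s hV.2 j
      exact hp.continuousWithinAt.dist ((hc0 i) u0 ⟨hu0.1, hu0.2.trans hsT⟩)
    have hev : ∀ᶠ u in 𝓝[Icc 0 T] u0, d / 2 < dist (path Φ 0 P (c0 i0 s - s • v, v) p u j).1
        (c0 i u) := hc1.eventually (lt_mem_nhds (by linarith))
    obtain ⟨δ, hδ, hball⟩ := Metric.mem_nhdsWithin_iff.1 hev
    refine ⟨δ, hδ, ?_⟩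
    filter_upwards [path_close' hε P v p s hV hX (show 0 < d / 8 by linarith),
      hcc (d / 8) (by linarith), hε0.eventually (gt_mem_nhds (show 0 < d / 8 by linarith))]
      with k a1 a2 a3 u hu hu2 hu3 _ _
    have hu4 : u ∈ Icc 0 T := ⟨hu2.1, hu2.2.trans hsT⟩
    have a4 : d / 2 < dist (path Φ 0 P (c0 i0 s - s • v, v) p u j).1 (c0 i u) :=
      hball ⟨by rwa [Metric.mem_ball, Real.dist_eq], hu4⟩
    have a5 : dist (path Φ (ε k) P (rootAt (ε k) (c k i0 s) V v y s) p u j).1
        (path Φ 0 P (c0 i0 s - s • v, v) p u j).1 < d / 8 := a1 u j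
    have a6 := a2 i u hu4
    have a7 := dist_triangle4 (path Φ 0 P (c0 i0 s - s • v, v) p u j).1
      (path Φ (ε k) P (rootAt (ε k) (c k i0 s) V v y s) p u j).1 (c k i u) (c0 i u)
    rw [dist_comm] at a5
    linarith

end Crest.Agent.R122.TubeChild491

end
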