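import Crest.Agent.R122.F3Det_370
import Crest.Agent.R122.InEq2Defs_311
import Crest.Agent.R122.GIVChild_383
import Crest.Agent.R122.IStep3_317
import Crest.Agent.R122.TubeChild1_491

/-!
# F3: gas-level assembly (row 122, helper370)

* `tI` : integral of a functional of one tree (valid at the horizon `T`) and of the gas.
* `evMass_ways_le`, `obMass_ways_le` : the masses of `GhostErr370` in tree coordinates.
* `TreeEv`, `TreeNull` : the exceptional events of a tree cluster (not good, touch, link, return to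
  the protected tubes) and their nullity.
* `ObEv`, `ObNull` : return to the test family of a tree cluster hitting this family; nullity.
* `F3Null` : the joint form, with further exceptional events; `f3Null_of`.
* `f3Input_of`, `F3_of_f3Null`, `F3_of_null` : `F3` from the null facts.
-/

set_option autoImplicit false
set_option linter.unusedSectionVars false
open MeasureTheory Set Filter
open scoped Classical ENNReal Topology
open Crest.AnalysisR.Kinetic
open Crest.Agent.R122.GC311 Crest.Agent.R122.Causal291 Crest.Agent.R122.Hit167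
open Crest.Agent.R122.GhostErr370 Crest.Agent.R122.Flow671 Crest.Agent.R122.Loc45
open Crest.Agent.R122.Disc370 Crest.Agent.R122.RtG302 Crest.Agent.R122.EDefs602
open Crest.Agent.R122.Kin796 Crest.Agent.R122.Kin796.CTree Crest.Agent.R122.Tree674
open Crest.Agent.R122.GIV566 Crest.Agent.R122.Relabel674 Crest.Agent.R122.TreeBound335
open Crest.Agent.R122.ToTree335 Crest.Agent.R122.F3Det370
noncomputable section

namespace Crest.Agent.R122.F3Fin370

/-! ### Measurability of `ways` -/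

section ways

variable {Φ : Space3 → ℝ} {f₀ : PhasePoint → ℝ} {ε T : ℝ} {Ω : Type*} [MeasurableSpace Ω]

theorem measurable_ways_par (hΦ : AdmissiblePotential Φ) (hε : 0 < ε)
    {G : Ω → (P : CTree) → PhasePoint × Par P → ℝ≥0∞}
    (hG : ∀ P, Measurable fun q : Ω × (PhasePoint × Par P) => G q.1 P q.2) {k : ℕ} (j : Fin k) :
    Measurable fun q : Ω × Config k => ways Φ ε T (G q.1) q.2 j := by
  unfold ways
  refine Measurable.tsum fun P => Finset.measurable_sum _ fun e _ => ?_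
  have hV : Measurable fun q : Ω × Config k => (fun x => q.2 (e x) : Idx P → PhasePoint) :=
    measurable_pi_iff.2 fun x => (measurable_pi_apply (e x)).comp measurable_snd
  by_cases he : e (root P) = j
  · simp only [he, true_and]
    refine Measurable.ite (hV (measurableSet_skel hΦ hε P T)) ?_ measurable_const
    have h1 : Measurable fun q : Ω × Config k =>
        (q.1, Tree674.inv Φ ε P T (fun x => q.2 (e x))) :=
      measurable_fst.prodMk ((measurable_inv hΦ hε P T).comp hV)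
    exact (hG P).comp h1
  · simp only [he, false_and, if_false]
    exact measurable_const

/-- Integral of a functional of one tree and of the gas. -/
def tI (Φ : Space3 → ℝ) (f₀ : PhasePoint → ℝ) (ε T : ℝ) (P : CTree)
    (H : PhasePoint × Par P → (m : ℕ) → Config m → ℝ≥0∞) : ℝ≥0∞ :=
  ∫⁻ z : PhasePoint × Par P, {z : PhasePoint × Par P | Valid Φ ε P T z.1.2 z.2}.indicator
    (fun z => wt Φ P z.1.2 z.2 * (pf Φ f₀ ε P z * gcE f₀ ε fun m w => H z m w)) z

theorem measurable_tI_inner (hΦ : AdmissiblePotential Φ) (hf : Measurable f₀) (P : CTree)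
    {H : Ω → PhasePoint × Par P → (m : ℕ) → Config m → ℝ≥0∞}
    (hH : ∀ m, Measurable fun q : (Ω × (PhasePoint × Par P)) × Config m => H q.1.1 q.1.2 m q.2) :
    Measurable fun q : Ω × (PhasePoint × Par P) =>
      {z : PhasePoint × Par P | Valid Φ ε P T z.1.2 z.2}.indicator
        (fun z => wt Φ P z.1.2 z.2 * (pf Φ f₀ ε P z * gcE f₀ ε fun m w => H q.1 z m w)) q.2 := by
  have h1 : Measurable fun q : Ω × (PhasePoint × Par P) => wtM Φ P q.2.1.2 q.2.2 :=
    (measurable_wtM hΦ P).comp (measurable_snd.fst.snd.prodMk measurable_snd.snd)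
  have h2 : Measurable fun q : Ω × (PhasePoint × Par P) => pfM Φ f₀ ε P q.2 :=
    (measurable_pfM hΦ hf P).comp measurable_snd
  have h3 : Measurable fun q : Ω × (PhasePoint × Par P) => gcE f₀ ε fun m w => H q.1 q.2 m w :=
    measurable_gcE_par hf (F := fun (q : Ω × (PhasePoint × Par P)) m w => H q.1 q.2 m w)
      fun m => hH m
  have h0 : MeasurableSet {q : Ω × (PhasePoint × Par P) | Valid Φ ε P T q.2.1.2 q.2.2} :=
    measurable_snd (measurableSet_valid hΦ ε P T)
  have h4 := (h1.mul (h2.mul h3)).indicator h0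
  convert h4 using 1
  funext q
  by_cases hz : Valid Φ ε P T q.2.1.2 q.2.2
  · rw [indicator_of_mem (show q.2 ∈ {z : PhasePoint × Par P | Valid Φ ε P T z.1.2 z.2} from hz),
      indicator_of_mem (show q ∈ {q : Ω × (PhasePoint × Par P) | Valid Φ ε P T q.2.1.2 q.2.2}
        from hz)]
    simp only [Pi.mul_apply]
    rw [wtM_of_adm hz.1, pfM_of_adm hz.1]
  · rw [indicator_of_notMem (show q.2 ∉ {z : PhasePoint × Par P | Valid Φ ε P T z.1.2 z.2} from hz),
      indicator_of_notMem (show q ∉ {q : Ω × (PhasePoint × Par P) | Valid Φ ε P T q.2.1.2 q.2.2}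
        from hz)]

theorem measurable_tI (hΦ : AdmissiblePotential Φ) (hf : Measurable f₀) (P : CTree)
    {H : Ω → PhasePoint × Par P → (m : ℕ) → Config m → ℝ≥0∞}
    (hH : ∀ m, Measurable fun q : (Ω × (PhasePoint × Par P)) × Config m => H q.1.1 q.1.2 m q.2) :
    Measurable fun ω => tI Φ f₀ ε T P (H ω) :=
  (measurable_tI_inner hΦ hf P hH).lintegral_prod_right'

/-- One size: the configuration integral of `ways` in tree coordinates, with a weight. -/
theorem cfg_ways_le (hΦ : AdmissiblePotential Φ) (hf : Measurable f₀) (hε : 0 < ε) {k : ℕ}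
    {W : Config k → ℝ≥0∞} {WT : (P : CTree) → PhasePoint × Par P → ℝ≥0∞}
    (hWT : ∀ P, Measurable (WT P)) (hWt : ∀ P z, WT P z ≠ ∞)
    (hW : ∀ (V : Config k) (P : CTree) (e : Idx P ≃ Fin k) (z : PhasePoint × Par P),
      Valid Φ ε P T z.1.2 z.2 → (∀ x, V (e x) = lines Φ ε P z.1 z.2 x) → W V = WT P z)
    {H : (P : CTree) → PhasePoint × Par P → (m : ℕ) → Config m → ℝ≥0∞}
    (hH : ∀ P m, Measurable fun q : (PhasePoint × Par P) × Config m => H P q.1 m q.2) :
    activity ε ^ k / (k.factorial : ℝ≥0∞) * ∫⁻ V : Config k, gcWeight f₀ ε k V *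
        ∑ j : Fin k, W V * gcE f₀ ε (fun m w => ways Φ ε T (fun P z => H P z m w) V j) ≤
      activity ε * ∑' P : CTree, if P.leaves = k then
        tI Φ f₀ ε T P (fun z m w => WT P z * H P z m w) else 0 := by
  set HI : (P : CTree) → PhasePoint × Par P → ℝ≥0∞ := fun P z =>
    gcE f₀ ε fun m w => H P z m w with hHI
  set G : (P : CTree) → PhasePoint × Par P → ℝ≥0∞ := fun P z =>
    pfM Φ f₀ ε P z * (WT P z * HI P z) with hGdef
  have hHI' : ∀ P, Measurable (HI P) := fun P =>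
    measurable_gcE_par hf (F := fun z m w => H P z m w) fun m => hH P m
  have hG : ∀ P, Measurable (G P) := fun P =>
    (measurable_pfM hΦ hf P).mul ((hWT P).mul (hHI' P))
  have key : ∀ V : Config k, gcWeight f₀ ε k V *
      ∑ j : Fin k, W V * gcE f₀ ε (fun m w => ways Φ ε T (fun P z => H P z m w) V j) ≤
      ∑ j : Fin k, ways Φ ε T G V j := by
    intro V
    by_cases hV : V ∈ PairExcluded ε k
    swap
    · have h0 : gcWeight f₀ ε k V = 0 := by simp [gcWeight, Set.indicator_of_notMem hV]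
      rw [h0, zero_mul]
      exact zero_le
    have hgw : gcWeight f₀ ε k V = ∏ i, ENNReal.ofReal (f₀ (V i)) := by
      simp [gcWeight, Set.indicator_of_mem hV]
    rw [Finset.mul_sum]
    refine Finset.sum_le_sum fun j _ => ?_
    rw [gcE_ways hf (G := fun m w P z => H P z m w)
      (fun m P z => (hH P m).comp (measurable_const.prodMk measurable_id)), mul_ways, mul_ways]
    refine ways_mono fun P e _ hS => ?_
    obtain ⟨hval, hlin⟩ := lines_inv hΦ hε hS
    have h4 : pfM Φ f₀ ε P (Tree674.inv Φ ε P T fun x => V (e x)) = gcWeight f₀ ε k V := by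
      rw [pfM_of_adm hval.1, hgw]
      unfold pf
      rw [hlin]
      exact Fintype.prod_equiv e _ _ fun x => rfl
    have h5 : W V = WT P (Tree674.inv Φ ε P T fun x => V (e x)) :=
      hW V P e _ hval fun x => (congrFun hlin x).symm
    simp only [hGdef, hHI, h4, h5]
    exact le_rfl
  refine (mul_le_mul_right (lintegral_mono key) _).trans ?_
  refine (tree_bound hΦ hε (T := T) hG (F := fun V j => ways Φ ε T G V j)
    (fun V j => le_rfl)).trans ?_
  refine mul_le_mul_right (ENNReal.tsum_le_tsum fun P => ?_) _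
  split_ifs with hP
  · refine lintegral_mono fun z => ?_
    by_cases hz : Valid Φ ε P T z.1.2 z.2
    · rw [indicator_of_mem (show z ∈ {z : PhasePoint × Par P | Valid Φ ε P T z.1.2 z.2} from hz),
        indicator_of_mem (show z ∈ {z : PhasePoint × Par P | Valid Φ ε P T z.1.2 z.2} from hz)]
      simp only [hGdef, pfM_of_adm hz.1, hHI]
      refine mul_le_mul_right (mul_le_mul_right ?_ _) _
      rw [← gcE_const_mul f₀ ε (hWt P z)]
    · rw [indicator_of_notMem
        (show z ∉ {z : PhasePoint × Par P | Valid Φ ε P T z.1.2 z.2} from hz)]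
      exact zero_le
  · exact le_rfl

/-- Finite sums over the sizes and trees. -/
theorem sum_sizes (K : ℕ) (a : CTree → ℝ≥0∞) :
    ∑ k ∈ Finset.range (K + 1), ∑' P : CTree, (if P.leaves = k then a P else 0) =
      ∑ P ∈ GIVStep383.trees K, a P := by
  rw [← IStep317.tsum_trees K a, ← Summable.tsum_finsetSum fun _ _ => ENNReal.summable]
  refine tsum_congr fun P => ?_
  rw [Finset.sum_ite_eq (Finset.range (K + 1)) P.leaves]
  simp only [Finset.mem_range, Nat.lt_succ_iff]

theorem activity_pos (hε : 0 < ε) : activity ε ≠ 0 ∧ activity ε ≠ ∞ := by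
  constructor
  · unfold activity
    exact (ENNReal.ofReal_pos.2 (by positivity)).ne'
  · unfold activity
    exact ENNReal.ofReal_ne_top

theorem wt_eq_wQ {k : ℕ} {V : Config k} {P : CTree} {z : PhasePoint × Par P} (e : Idx P ≃ Fin k)
    (h : Adm Φ P z.1.2 z.2) (hV : ∀ x, V (e x) = lines Φ ε P z.1 z.2 x) :
    XAvg370.wt k V = InEq2.wQ Φ ε P z := by
  rw [InEq2.wQ_eq h]
  unfold XAvg370.wt
  exact (Fintype.sum_equiv e _ _ fun x => by rw [hV x]).symm

theorem wQ_ne_top {P : CTree} {z : PhasePoint × Par P} : InEq2.wQ Φ ε P z ≠ ∞ := by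
  unfold InEq2.wQ
  exact ENNReal.sum_ne_top.2 fun i _ => ENNReal.ofReal_ne_top

/-- The energy-weighted mass of `GhostErr370` in tree coordinates. -/
theorem evMass_ways_le (hΦ : AdmissiblePotential Φ) (hf : Measurable f₀) (hε : 0 < ε) (K : ℕ)
    {H : (P : CTree) → PhasePoint × Par P → (m : ℕ) → Config m → ℝ≥0∞}
    (hH : ∀ P m, Measurable fun q : (PhasePoint × Par P) × Config m => H P q.1 m q.2) :
    evMass f₀ ε K (fun _ V j m w => ways Φ ε T (fun P z => H P z m w) V j) ≤
      ∑ P ∈ GIVStep383.trees K, tI Φ f₀ ε T P (fun z m w => InEq2.wQ Φ ε P z * H P z m w) := by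
  unfold evMass
  rw [← sum_sizes]
  refine Finset.sum_le_sum fun k _ => ?_
  have h := cfg_ways_le (T := T) (k := k) (W := fun V => XAvg370.wt k V)
    (WT := fun P z => InEq2.wQ Φ ε P z) hΦ hf hε (fun P => InEq2.measurable_wQ hΦ P)
    (fun P z => wQ_ne_top) (fun V P e z hz hV => wt_eq_wQ e hz.1 hV) hH
  refine (mul_le_mul_right h _).trans ?_
  rw [← mul_assoc, ENNReal.inv_mul_cancel (activity_pos hε).1 (activity_pos hε).2, one_mul]

/-- The mass with the test family in tree coordinates. -/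
theorem obMass_ways_le (hΦ : AdmissiblePotential Φ) (hf : Measurable f₀) (hε : 0 < ε) (K : ℕ)
    (R : ℝ) {H : (P : CTree) → Space3 → PhasePoint × Par P → (m : ℕ) → Config m → ℝ≥0∞}
    (hH : ∀ P m, Measurable fun q : (Space3 × (PhasePoint × Par P)) × Config m =>
      H P q.1.1 q.1.2 m q.2) :
    obMass f₀ ε K R (fun _ x V j m w => ways Φ ε T (fun P z => H P x z m w) V j) ≤
      ∑ P ∈ GIVStep383.trees K, activity ε *
        ∫⁻ x in Metric.closedBall (0 : Space3) R, tI Φ f₀ ε T P (H P x) := by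
  unfold obMass
  have hx : ∀ (x : Space3) (k : ℕ), activity ε ^ k / (k.factorial : ℝ≥0∞) *
      ∫⁻ V : Config k, gcWeight f₀ ε k V * ∑ j : Fin k,
        gcE f₀ ε (fun m w => ways Φ ε T (fun P z => H P x z m w) V j) ≤
      activity ε * ∑' P : CTree, if P.leaves = k then tI Φ f₀ ε T P (H P x) else 0 := by
    intro x k
    have h := cfg_ways_le (T := T) (k := k) (W := fun _ => 1)
      (WT := fun P z => 1) hΦ hf hε (fun P => measurable_const)
      (fun P z => ENNReal.one_ne_top) (fun V P e z hz hV => rfl)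
      (H := fun P z m w => H P x z m w)
      (fun P m => (hH P m).comp ((measurable_const.prodMk measurable_fst).prodMk measurable_snd))
    simpa only [one_mul] using h
  calc _ ≤ ∫⁻ x in Metric.closedBall (0 : Space3) R, ∑ P ∈ GIVStep383.trees K,
        activity ε * tI Φ f₀ ε T P (H P x) := by
        refine lintegral_mono fun x => (Finset.sum_le_sum fun k _ => hx x k).trans ?_
        rw [← Finset.mul_sum, sum_sizes, Finset.mul_sum]
    _ = _ := by
        rw [lintegral_finsetSum _ fun P _ => (measurable_tI hΦ hf P (hH P)).const_mul _]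
        exact Finset.sum_congr rfl fun P _ =>
          lintegral_const_mul _ (measurable_tI hΦ hf P (hH P))

end ways

/-! ### The two null facts -/

section null

/-- Pairwise exclusion of the particles of a tree and of the gas. -/
def Excl (Φ : Space3 → ℝ) (ε : ℝ) (P : CTree) (z : PhasePoint × Par P) {m : ℕ} (w : Config m) :
    Prop :=
  (∀ i j, i ≠ j → ε < dist (lines Φ ε P z.1 z.2 i).1 (lines Φ ε P z.1 z.2 j).1) ∧
    w ∈ PairExcluded ε m ∧ ∀ i q, ε < dist (lines Φ ε P z.1 z.2 i).1 (w q).1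

/-- The exceptional events of a tree with horizon `σ ≤ t`. -/
def TreeEv (Φ : Space3 → ℝ) (ε : ℝ) (K : ℕ) (t : ℝ) (P : CTree) (z : PhasePoint × Par P) {m : ℕ}
    (w : Config m) : Prop :=
  ∃ σ ∈ Ioc 0 t, Valid Φ ε P σ z.1.2 z.2 ∧ Sep Φ ε P σ z.1 z.2 ∧
    (¬ AllOk Φ ε w (exL Φ ε P z) ∨ (∃ x, (MW.cfg w).thetaL Φ ε K t (exL Φ ε P z x) ≤ t) ∨
      LinkEx Φ ε K t w (exL Φ ε P z) ∨ RetEx Φ ε K t w (exL Φ ε P z) (protT Φ ε P σ z) ∨
      RetLn Φ ε K t w (exL Φ ε P z) (protT Φ ε P σ z))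

/-- The exceptional events of trees are negligible (with the energy weight). -/
def TreeNull (Φ : Space3 → ℝ) (f₀ : PhasePoint → ℝ) (t : ℝ) : Prop :=
  ∀ (P : CTree) (δ : ℝ), 0 < δ → ∃ K : ℕ, ∀ᶠ ε in 𝓝[>] (0 : ℝ),
    ∃ H : PhasePoint × Par P → (m : ℕ) → Config m → ℝ≥0∞,
      (∀ m, Measurable fun q : (PhasePoint × Par P) × Config m => H q.1 m q.2) ∧
      (∀ z m (w : Config m), Excl Φ ε P z w → TreeEv Φ ε K t P z w → 1 ≤ H z m w) ∧
      tI Φ f₀ ε t P (fun z m w => InEq2.wQ Φ ε P z * H z m w) ≤ ENNReal.ofReal δ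

/-- Return to the test family of a tree which hits it, all exit lines being good, untouched and
unlinked. -/
def ObEv (Φ : Space3 → ℝ) (ε : ℝ) (K : ℕ) (t : ℝ) {ι : Type} (S : Tubes ι) (P : CTree)
    (z : PhasePoint × Par P) {m : ℕ} (w : Config m) : Prop :=
  ∃ σ ∈ Ioc 0 t, IStep317.FirstAt Φ ε P S z σ ∧ AllOk Φ ε w (exL Φ ε P z) ∧
    (∀ x, t < (MW.cfg w).thetaL Φ ε K t (exL Φ ε P z x)) ∧ ¬ LinkEx Φ ε K t w (exL Φ ε P z) ∧
    (RetEx Φ ε K t w (exL Φ ε P z) S ∨ RetLn Φ ε K t w (exL Φ ε P z) S)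

/-- The returns to the test family are negligible. -/
def ObNull (Φ : Space3 → ℝ) (f₀ : PhasePoint → ℝ) (T t : ℝ) : Prop :=
  ∀ (ι : Type) [Fintype ι] (Sk : ℕ → Tubes ι) (S : Tubes ι) (εk : ℕ → ℝ),
    (∀ k, 0 < εk k) → Tendsto εk atTop (𝓝 0) → TubeConv T Sk S → Generic T S →
    (∀ n i, Continuous ((Sk n).c i)) → ∀ (P : CTree) (K : ℕ) (R δ : ℝ), 0 < δ → ∀ᶠ n in atTop,
      ∃ H : Space3 → PhasePoint × Par P → (m : ℕ) → Config m → ℝ≥0∞,
        (∀ m, Measurable fun q : (Space3 × (PhasePoint × Par P)) × Config m =>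
          H q.1.1 q.1.2 m q.2) ∧
        (∀ x ∈ Metric.closedBall (0 : Space3) R, ∀ z m (w : Config m), Excl Φ (εk n) P z w →
          ObEv Φ (εk n) K t ((Sk n).shift x) P z w → 1 ≤ H x z m w) ∧
        activity (εk n) * ∫⁻ x in Metric.closedBall (0 : Space3) R, tI Φ f₀ (εk n) t P (H x) ≤
          ENNReal.ofReal δ

/-- The input of the assembly, with further exceptional events `X` which do not depend on the
translation (runs, bad clusters, bad graphs without the obstacle): they are negligible together with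
`TreeEv`, and outside `X` the returns to the test family are negligible. -/
def F3Null (Φ : Space3 → ℝ) (f₀ : PhasePoint → ℝ) (T t : ℝ) : Prop :=
  ∀ (P : CTree) (δ : ℝ), 0 < δ → ∃ (K : ℕ)
    (X : ℝ → PhasePoint × Par P → (m : ℕ) → Config m → Prop),
    (∀ᶠ ε in 𝓝[>] (0 : ℝ), ∃ H : PhasePoint × Par P → (m : ℕ) → Config m → ℝ≥0∞,
      (∀ m, Measurable fun q : (PhasePoint × Par P) × Config m => H q.1 m q.2) ∧
      (∀ z m (w : Config m), Excl Φ ε P z w → TreeEv Φ ε K t P z w ∨ X ε z m w → 1 ≤ H z m w) ∧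
      tI Φ f₀ ε t P (fun z m w => InEq2.wQ Φ ε P z * H z m w) ≤ ENNReal.ofReal δ) ∧
    ∀ (ι : Type) [Fintype ι] (Sk : ℕ → Tubes ι) (S : Tubes ι) (εk : ℕ → ℝ),
      (∀ k, 0 < εk k) → Tendsto εk atTop (𝓝 0) → TubeConv T Sk S → Generic T S →
      (∀ n i, Continuous ((Sk n).c i)) → ∀ (R δ' : ℝ), 0 < δ' → ∀ᶠ n in atTop,
        ∃ H : Space3 → PhasePoint × Par P → (m : ℕ) → Config m → ℝ≥0∞,
          (∀ m, Measurable fun q : (Space3 × (PhasePoint × Par P)) × Config m =>
            H q.1.1 q.1.2 m q.2) ∧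
          (∀ x ∈ Metric.closedBall (0 : Space3) R, ∀ z m (w : Config m), Excl Φ (εk n) P z w →
            ObEv Φ (εk n) K t ((Sk n).shift x) P z w → ¬ X (εk n) z m w → 1 ≤ H x z m w) ∧
          activity (εk n) * ∫⁻ x in Metric.closedBall (0 : Space3) R, tI Φ f₀ (εk n) t P (H x) ≤
            ENNReal.ofReal δ'

theorem f3Null_of {Φ : Space3 → ℝ} {f₀ : PhasePoint → ℝ} {T t : ℝ} (hTN : TreeNull Φ f₀ t)
    (hON : ObNull Φ f₀ T t) : F3Null Φ f₀ T t := by
  intro P δ hδ
  obtain ⟨K, hK⟩ := hTN P δ hδ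
  refine ⟨K, fun _ _ _ _ => False, ?_, ?_⟩
  · filter_upwards [hK] with ε hε
    obtain ⟨H, h1, h2, h3⟩ := hε
    exact ⟨H, h1, fun z m w hE h => h2 z m w hE (h.resolve_right id), h3⟩
  · intro ι _ Sk S εk hε hε0 hconv hgen hcont R δ' hδ'
    filter_upwards [hON ι Sk S εk hε hε0 hconv hgen hcont P K R δ' hδ'] with n hn
    obtain ⟨H, h1, h2, h3⟩ := hn
    exact ⟨H, h1, fun x hx z m w hE h _ => h2 x hx z m w hE h, h3⟩

end null

/-! ### Assembly -/

section final

variable {Φ : Space3 → ℝ} {f₀ : PhasePoint → ℝ} {ε t : ℝ}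

theorem perp_of_disc {α : Type} {c : α → ℝ → Space3} {θ : α → ℝ} {𝒢 : Cls} {k m : ℕ}
    {V : Config k} {w : Config m} {j : Fin k} {σ : ℝ} (hΦ : AdmissiblePotential Φ) (hε : 0 < ε)
    (hσ : 0 < σ) (h : GoodV Φ ε c θ 𝒢 V j σ) (hD : Disc Φ ε c θ V j σ w) : Perp ε V w := by
  by_contra hp
  refine hD ⟨fun h1 => absurd h1.1 hp, fun h2 => absurd (perp_of_ghost hΦ hε hσ h h2) hp⟩

/-- The discrepancy in tree coordinates. -/
theorem disc_tree {ι : Type} [Finite ι] {S : Tubes ι} {tw : ℝ} {k m : ℕ} {V : Config k}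
    {w : Config m} {j : Fin k} (hΦ : AdmissiblePotential Φ) (hε : 0 < ε) (htw : 0 ≤ tw)
    (hc : ∀ i, Continuous (S.c i)) (hV : V ∈ PairExcluded ε k) (hw : w ∈ PairExcluded ε m)
    (hG : GoodH Φ ε S.c S.b (IStep317.treeCls Φ ε) tw t V j)
    (hD : Disc Φ ε S.c S.b V j (hitTime (pth Φ ε V) ε S.c S.b 0 j) w) (K : CTree → ℕ) :
    ∃ (P : CTree) (e : Idx P ≃ Fin k) (z : PhasePoint × Par P), P.leaves = k ∧ e (root P) = j ∧
      Valid Φ ε P t z.1.2 z.2 ∧ (∀ x, V (e x) = lines Φ ε P z.1 z.2 x) ∧ Excl Φ ε P z w ∧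
      (TreeEv Φ ε (K P) t P z w ∨ ObEv Φ ε (K P) t S P z w) := by
  have hσ : 0 < hitTime (pth Φ ε V) ε S.c S.b 0 j := hG.2.good.pos (htw.trans hG.1.1)
  set σ := hitTime (pth Φ ε V) ε S.c S.b 0 j with hσd
  have hσt : σ ≤ t := hG.1.2.le
  obtain ⟨v, hv⟩ := exists_discAt hΦ hε hc hσ hV hw hG.2 hD
  obtain ⟨P, e, he, ℓ, p, hval, hsep, hl⟩ := hG.2.cls
  have hperp := perp_of_disc hΦ hε hσ hG.2 hD
  have hcard : P.leaves = k := by
    have h1 := Fintype.card_congr e
    rwa [card_idx, Fintype.card_fin] at h1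
  refine ⟨P, e, (ℓ, p), hcard, he, TubeChild491.valid_mono P hσt ℓ.2 p hval, hl,
    ⟨fun i i' hii => ?_, hw, fun i q => ?_⟩, ?_⟩
  · rw [← hl, ← hl]
    exact hV _ _ fun hh => hii (e.injective hh)
  · rw [← hl]
    exact hperp _ _
  by_cases hT : TreeEv Φ ε (K P) t P (ℓ, p) w
  · exact Or.inl hT
  right
  have hno : ∀ Q : Prop, Q → (Q → ¬ AllOk Φ ε w (exL Φ ε P (ℓ, p)) ∨
      (∃ x, (MW.cfg w).thetaL Φ ε (K P) t (exL Φ ε P (ℓ, p) x) ≤ t) ∨
      LinkEx Φ ε (K P) t w (exL Φ ε P (ℓ, p)) ∨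
      RetEx Φ ε (K P) t w (exL Φ ε P (ℓ, p)) (protT Φ ε P σ (ℓ, p)) ∨
      RetLn Φ ε (K P) t w (exL Φ ε P (ℓ, p)) (protT Φ ε P σ (ℓ, p))) → False :=
    fun Q hQ h => hT ⟨σ, ⟨hσ, hσt⟩, hval, hsep, h hQ⟩
  have hOk : AllOk Φ ε w (exL Φ ε P (ℓ, p)) := by
    by_contra h
    exact hno _ h fun h => Or.inl h
  have hTch : ¬ ∃ x, (MW.cfg w).thetaL Φ ε (K P) t (exL Φ ε P (ℓ, p) x) ≤ t :=
    fun h => hno _ h fun h => Or.inr (Or.inl h)
  have hLk : ¬ LinkEx Φ ε (K P) t w (exL Φ ε P (ℓ, p)) :=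
    fun h => hno _ h fun h => Or.inr (Or.inr (Or.inl h))
  have hfirst : IStep317.FirstAt Φ ε P S (ℓ, p) σ := by
    refine (IStep317.firstAt_iff hΦ hε hσ).2 ⟨hval, hsep, ?_⟩
    have h1 : (fun x => V (e x)) = lines Φ ε P ℓ p := funext hl
    rw [← h1, pth_relabel hΦ hε e V]
    refine (IStep317.goodGhostHit_relabel e).2 ?_
    rw [he]
    exact hG.2.good
  refine ⟨σ, ⟨hσ, hσt⟩, hfirst, hOk, fun x => ?_, hLk, ?_⟩
  · by_contra h
    exact hTch ⟨x, not_lt.1 h⟩
  · rcases f3_det (K := K P) hΦ hε hσ hval hsep he hl hv hσt hOk with h | h | h | h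
    · exact absurd h hTch
    · exact absurd h hLk
    · exact (hno _ h fun h => Or.inr (Or.inr (Or.inr h))).elim
    · exact h

/-- **F3Input from the null facts.** -/
theorem f3Input_of (hf : Measurable f₀) (hΦ : AdmissiblePotential Φ) {T tw : ℝ} (htw : 0 ≤ tw)
    (hN : F3Null Φ f₀ T t) : F3Input Φ f₀ T tw t := by
  intro ι _ Sk S εk hε hε0 hconv hgen hcont K R δ hδ
  set N : ℝ := (GIVStep383.trees K).card + 1 with hNd
  have hNpos : 0 < N := by positivity
  have hδ' : 0 < δ / N := div_pos hδ hNpos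
  choose K' X hK' hX using fun P => hN P (δ / N) hδ'
  have hε0' : Tendsto εk atTop (𝓝[>] 0) := tendsto_nhdsWithin_iff.2
    ⟨hε0, Eventually.of_forall fun n => hε n⟩
  have h1 := (Finset.eventually_all (GIVStep383.trees K)).2 fun P _ =>
    hε0'.eventually (hK' P)
  have h2 := (Finset.eventually_all (GIVStep383.trees K)).2 fun P _ =>
    hX P ι Sk S εk hε hε0 hconv hgen hcont R (δ / N) hδ'
  filter_upwards [h1, h2] with n h1 h2
  have h1' : ∀ P : CTree, ∃ H : PhasePoint × Par P → (m : ℕ) → Config m → ℝ≥0∞,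
      (∀ m, Measurable fun q : (PhasePoint × Par P) × Config m => H q.1 m q.2) ∧
      (P ∈ GIVStep383.trees K → ∀ z m (w : Config m), Excl Φ (εk n) P z w →
        TreeEv Φ (εk n) (K' P) t P z w ∨ X P (εk n) z m w → 1 ≤ H z m w) ∧
      (P ∈ GIVStep383.trees K →
        tI Φ f₀ (εk n) t P (fun z m w => InEq2.wQ Φ (εk n) P z * H z m w) ≤
          ENNReal.ofReal (δ / N)) := by
    intro P
    by_cases hP : P ∈ GIVStep383.trees K
    · obtain ⟨H, ha, hb, hc⟩ := h1 P hP
      exact ⟨H, ha, fun _ => hb, fun _ => hc⟩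
    · exact ⟨fun _ _ _ => 0, fun m => measurable_const, fun h => absurd h hP,
        fun h => absurd h hP⟩
  have h2' : ∀ P : CTree, ∃ H : Space3 → PhasePoint × Par P → (m : ℕ) → Config m → ℝ≥0∞,
      (∀ m, Measurable fun q : (Space3 × (PhasePoint × Par P)) × Config m =>
        H q.1.1 q.1.2 m q.2) ∧
      (P ∈ GIVStep383.trees K → ∀ x ∈ Metric.closedBall (0 : Space3) R, ∀ z m (w : Config m),
        Excl Φ (εk n) P z w → ObEv Φ (εk n) (K' P) t ((Sk n).shift x) P z w →
          ¬ X P (εk n) z m w → 1 ≤ H x z m w) ∧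
      (P ∈ GIVStep383.trees K →
        activity (εk n) * ∫⁻ x in Metric.closedBall (0 : Space3) R, tI Φ f₀ (εk n) t P (H x) ≤
          ENNReal.ofReal (δ / N)) := by
    intro P
    by_cases hP : P ∈ GIVStep383.trees K
    · obtain ⟨H, ha, hb, hc⟩ := h2 P hP
      exact ⟨H, ha, fun _ => hb, fun _ => hc⟩
    · exact ⟨fun _ _ _ _ => 0, fun m => measurable_const, fun h => absurd h hP,
        fun h => absurd h hP⟩
  choose H₁ hm₁ hev₁ hI₁ using h1'
  choose H₂ hm₂ hev₂ hI₂ using h2'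
  have hsum : ∀ a : CTree → ℝ≥0∞, (∀ P ∈ GIVStep383.trees K, a P ≤ ENNReal.ofReal (δ / N)) →
      ∑ P ∈ GIVStep383.trees K, a P ≤ ENNReal.ofReal δ := by
    intro a ha
    refine (Finset.sum_le_sum ha).trans ?_
    rw [Finset.sum_const, nsmul_eq_mul, ← ENNReal.ofReal_natCast,
      ← ENNReal.ofReal_mul (Nat.cast_nonneg _)]
    refine ENNReal.ofReal_le_ofReal ?_
    rw [mul_div_assoc', div_le_iff₀ hNpos, hNd]
    nlinarith
  refine ⟨fun _ V j m w => ways Φ (εk n) t (fun P z => H₁ P z m w) V j,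
    fun _ x V j m w => ways Φ (εk n) t (fun P z => H₂ P x z m w) V j, ⟨?_, ?_, ?_⟩, ?_, ?_⟩
  · intro k j m
    have h := measurable_ways_par (T := t) (Ω := Config m) (k := k) hΦ (hε n)
      (G := fun w P z => H₁ P z m w) (fun P => (hm₁ P m).comp measurable_swap) j
    exact h.comp measurable_swap
  · intro k j m
    have h := measurable_ways_par (T := t) (Ω := Space3 × Config m) (k := k) hΦ (hε n)
      (G := fun q P z => H₂ P q.1 z m q.2) (fun P => (hm₂ P m).comp
        (((measurable_fst.comp measurable_fst).prodMk measurable_snd).prodMk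
          (measurable_snd.comp measurable_fst))) j
    exact h.comp (((measurable_fst.comp measurable_fst).prodMk measurable_snd).prodMk
      (measurable_snd.comp measurable_fst))
  · intro k hk x hx V j m w hV hw hG hD
    obtain ⟨P, e, z, hcard, he, hval, hl, hex, hev⟩ := disc_tree (S := (Sk n).shift x) hΦ (hε n)
      htw (fun i => (hcont n i).add continuous_const) hV hw hG hD K'
    have hP : P ∈ GIVStep383.trees K := GIVStep383.mem_trees.2 (hcard.trans_le hk)
    have hcase : (TreeEv Φ (εk n) (K' P) t P z w ∨ X P (εk n) z m w) ∨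
        (ObEv Φ (εk n) (K' P) t ((Sk n).shift x) P z w ∧ ¬ X P (εk n) z m w) := by
      by_cases hXX : X P (εk n) z m w
      · exact Or.inl (Or.inr hXX)
      · exact hev.imp Or.inl fun h => ⟨h, hXX⟩
    rcases hcase with hev | ⟨hev, hnX⟩
    · refine le_add_right ((hev₁ P hP z m w hex hev).trans ?_)
      exact le_ways hΦ (hε n) (G := fun P z => H₁ P z m w) (ℓ := z.1) (p := z.2) he hval hl
    · refine le_add_left ((hev₂ P hP x hx z m w hex hev hnX).trans ?_)
      exact le_ways hΦ (hε n) (G := fun P z => H₂ P x z m w) (ℓ := z.1) (p := z.2) he hval hl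
  · exact (evMass_ways_le hΦ hf (hε n) K hm₁).trans (hsum _ hI₁)
  · exact (obMass_ways_le hΦ hf (hε n) K R hm₂).trans (hsum _ hI₂)

/-- **F3 from the null facts.** -/
theorem F3_of_f3Null (hf : Measurable f₀) (hΦ : AdmissiblePotential Φ) {T tw : ℝ} (htw : 0 ≤ tw)
    (ht : 0 ≤ t) (htT : t ≤ T) (hN : F3Null Φ f₀ T t) : F3 Φ f₀ T tw t :=
  F3_of hf hΦ htw ht htT (f3Input_of hf hΦ htw hN)

theorem F3_of_null (hf : Measurable f₀) (hΦ : AdmissiblePotential Φ) {T tw : ℝ} (htw : 0 ≤ tw)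
    (ht : 0 ≤ t) (htT : t ≤ T) (hTN : TreeNull Φ f₀ t) (hON : ObNull Φ f₀ T t) :
    F3 Φ f₀ T tw t := F3_of_f3Null hf hΦ htw ht htT (f3Null_of hTN hON)

end final

end Crest.Agent.R122.F3Fin370
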