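import Crest.Agent.R122.RtG_302
import Crest.Agent.R122.SepNull_302
import Crest.Agent.R122.F3Fin_370
import Crest.Agent.R122.LineMeas_994

/-!
# `F3Fin370.TreeNull` from the four tree-level null statements (row 122, H12 / F3), helper302

`treeNull_of` : the exceptional events of trees with ANY horizon `σ ≤ t` are null, from
`TouchNull`, `LinkNull`, `RetNullT`, `OkNull` at `T' = u₀ = t` and `SepNull`.
-/

set_option autoImplicit false

open MeasureTheory Set Filter Topology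
open scoped ENNReal
open Crest.AnalysisR.Kinetic
open Crest.Agent.R122.Flow671 Crest.Agent.R122.Loc45 Crest.Agent.R122.Causal291
open Crest.Agent.R122.Inf879 Crest.Agent.R122.GC311 Crest.Agent.R122.EDefs602
open Crest.Agent.R122.Kin796 Crest.Agent.R122.Kin796.CTree Crest.Agent.R122.Tree674
open Crest.Agent.R122.GIV566
open Crest.Agent.R122.InEq2 Crest.Agent.R122.RtG302 Crest.Agent.R122.Small302
open Crest.Agent.R122.F3Fin370

noncomputable section

open scoped Classical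

namespace Crest.Agent.R122.TreeNull302

variable {Φ : Space3 → ℝ} {f₀ : PhasePoint → ℝ} {ε T' u₀ t σ v : ℝ} {K K' : ℕ}

theorem near_protT (P : CTree) (z : PhasePoint × Par P) (h : σ ≤ t) {q : Space3}
    (hn : near ε (protT Φ ε P σ z) v q) : near ε (protT Φ ε P t z) v q := by
  obtain ⟨a, ha, h1⟩ := hn
  exact ⟨a, ha.trans (PathFlow968.prot_mono P h z.2 a), h1⟩

theorem retEx_protT {m : ℕ} {w : Config m} {P : CTree} {z : PhasePoint × Par P} (h : σ ≤ t)
    (hr : RetEx Φ ε K u₀ w (exL Φ ε P z) (protT Φ ε P σ z)) :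
    RetEx Φ ε K u₀ w (exL Φ ε P z) (protT Φ ε P t z) := by
  obtain ⟨x, v, hv, hT, i, hi, hn⟩ := hr
  exact ⟨x, v, hv, hT, i, hi, hn.imp (near_protT P z h) (near_protT P z h)⟩

theorem retLn_protT {m : ℕ} {w : Config m} {P : CTree} {z : PhasePoint × Par P} (h : σ ≤ t)
    (hr : RetLn Φ ε K u₀ w (exL Φ ε P z) (protT Φ ε P σ z)) :
    RetLn Φ ε K u₀ w (exL Φ ε P z) (protT Φ ε P t z) := by
  obtain ⟨x, v, hv, hT, hb, hn⟩ := hr
  exact ⟨x, v, hv, hT, hb, near_protT P z h hn⟩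

/-- **`TreeNull`** from the null statements at `T' = u₀ = t`. -/
theorem treeNull_of (hΦ : AdmissiblePotential Φ) {γ : ℝ} (hγ : 0 < γ) (hf : Continuous f₀)
    (H : HasSummableGaussianBound γ (fun x v => f₀ (x, v)))
    (hm1 : ∫⁻ z, ENNReal.ofReal (f₀ z) ≤ 1)
    (h1 : ∀ K, TouchNull Φ f₀ t t K) (h2 : ∀ K K', LinkNull Φ f₀ t t K K')
    (h3 : ∀ K K', RetNullT Φ f₀ t t K K') (h4 : ∀ K, OkNull Φ f₀ t K) :
    TreeNull Φ f₀ t := by
  intro P δ hδ
  obtain ⟨K₀, hK⟩ := badZ_null hΦ hf.measurable (h1 P.leaves) (h2 P.leaves) (h3 P.leaves)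
    (h4 P.leaves) (δ / 2) (by positivity)
  obtain ⟨e₀, he₀, hK⟩ := hK K₀ le_rfl
  have hS := sepNull hΦ hγ hf H hm1 P.leaves t
  have hpos : (0 : ℝ≥0∞) < ENNReal.ofReal (δ / 2) := ENNReal.ofReal_pos.2 (by positivity)
  have hSe : ∀ᶠ ε in 𝓝[>] (0 : ℝ), TS Φ f₀ ε t
      (fun P' z m w => wQ Φ ε P' z * setG P.leaves (nsep Φ t ε) P' z m w) <
        ENNReal.ofReal (δ / 2) := (tendsto_order.1 hS).2 _ hpos
  have hp : ∀ᶠ ε in 𝓝[>] (0 : ℝ), ε ∈ Ioo 0 e₀ := Ioo_mem_nhdsGT he₀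
  refine ⟨K₀, ?_⟩
  filter_upwards [hSe, hp] with ε hS1 hε
  obtain ⟨G, hG, hm⟩ := hK ε hε.1 hε.2
  have hG2 : MeasTS (setG P.leaves (nsep Φ t ε)) :=
    measTS_setG fun P' => measurableSet_nsep hΦ t hε.1 P'
  refine ⟨fun z m w => G P z m w + setG P.leaves (nsep Φ t ε) P z m w,
    fun m => (hG.meas P m).add (hG2 P m), ?_, ?_⟩
  · rintro z m w ⟨-, hw, -⟩ ⟨σ, hσ, hV, hSp, hev⟩
    have hVt : Valid Φ ε P t z.1.2 z.2 := ((LineMeas994.valid_at hσ.1 hσ.2).1 hV).1
    by_cases hs : Sep Φ ε P t z.1 z.2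
    · refine (hG.maj P z m w le_rfl hVt hs hw ?_).trans le_self_add
      rcases hev with h | h | h | h | h
      · exact Or.inr (Or.inr (Or.inr h))
      · exact Or.inl h
      · exact Or.inr (Or.inl h)
      · exact Or.inr (Or.inr (Or.inl (Or.inl (retEx_protT hσ.2 h))))
      · exact Or.inr (Or.inr (Or.inl (Or.inr (retLn_protT hσ.2 h))))
    · have h5 : (1 : ℝ≥0∞) ≤ setG P.leaves (nsep Φ t ε) P z m w := by
        unfold setG
        rw [if_pos ⟨le_rfl, hVt, hs⟩]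
      exact h5.trans le_add_self
  · have h6 : tI Φ f₀ ε t P (fun z m w => wQ Φ ε P z * (G P z m w +
        setG P.leaves (nsep Φ t ε) P z m w)) ≤
        TS Φ f₀ ε t (fun P' z m w => wQ Φ ε P' z * (G P' z m w +
          setG P.leaves (nsep Φ t ε) P' z m w)) :=
      ENNReal.le_tsum (f := fun P' => tI Φ f₀ ε t P' (fun z m w => wQ Φ ε P' z * (G P' z m w +
          setG P.leaves (nsep Φ t ε) P' z m w))) P
    refine h6.trans ?_
    have h7 : TS Φ f₀ ε t (fun P' z m w => wQ Φ ε P' z * (G P' z m w +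
          setG P.leaves (nsep Φ t ε) P' z m w)) =
        TS Φ f₀ ε t (fun P' z m w => wQ Φ ε P' z * G P' z m w) +
        TS Φ f₀ ε t (fun P' z m w => wQ Φ ε P' z * setG P.leaves (nsep Φ t ε) P' z m w) := by
      rw [← TS_add hΦ hf.measurable (measTS_wQ hΦ hG.meas)]
      simp only [mul_add]
    rw [h7]
    refine (add_le_add hm hS1.le).trans ?_
    rw [← ENNReal.ofReal_add (by positivity) (by positivity), add_halves]

end Crest.Agent.R122.TreeNull302
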