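import Crest.Agent.R122.ObDet_370
import Crest.Agent.R122.LNRet_383
import Crest.Agent.R122.LNReach_968
import Crest.Agent.R122.LNPart_424
import Crest.Agent.R122.LNTreeB_410
import Crest.Agent.R122.GateTree_522
import Crest.Agent.R122.TreeNull_302

/-!
# F3 from LN1 (row 122, helper370)

* `cEnd_of_reach` : `LNEv968.Reach` of the tree cluster gives `ObDet370.CEnd`.
* `RA` : the output of LN1 for a tree cluster (`LNEv818.ReachAll` for every exit line).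
* `ce_of_ra` : (CE) from `RA`.
* `TreeRA` : for every `δ` there are exceptional events of small mass outside of which `RA` holds.
* `f3CE_of`, `F3_of_treeRA` : F3 from `TreeNull` and `TreeRA`.
-/

set_option autoImplicit false
set_option linter.unusedSectionVars false
open MeasureTheory Set Filter
open scoped Classical ENNReal Topology
open Crest.AnalysisR.Kinetic
open Crest.Agent.R122.Kin796 Crest.Agent.R122.Kin796.CTree Crest.Agent.R122.Flow671
open Crest.Agent.R122.Tree674 Crest.Agent.R122.VL581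
open Crest.Agent.R122.GIV566 Crest.Agent.R122.ObDet370
open Crest.Agent.R122.RtG302 Crest.Agent.R122.EDefs602
noncomputable section

namespace Crest.Agent.R122.CEReach370

variable {Φ : Space3 → ℝ} {T t C ε : ℝ} {N K : ℕ}

section reach

variable {κ : Type} [Fintype κ] {n : ℕ}

theorem gsys_zero : (LNPart424.gsys Φ T ε n fun _ : κ => 0) = ObDet370.gsys Φ T ε n κ := by
  have h : LN2.bS n (fun _ : κ => (0 : ℝ)) = fun _ => 0 := by
    funext i
    rcases i with i | i <;> rfl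
  unfold LNPart424.gsys ObDet370.gsys
  rw [h]

/-- **Reached positions are chain ends.** -/
theorem cEnd_of_reach (hΦ : AdmissiblePotential Φ) (hε : 0 < ε) (htT : t ≤ T) {r a : κ}
    (har : a ≠ r) {z : κ → PhasePoint} {w : Config n} {Λ : Finset (Finset (Fin n ⊕ κ))}
    {π : Finset (Fin n ⊕ κ)} (hπΛ : π ∈ Λ) (hπ : ∀ y, Sum.inr y ∈ π)
    (hc : (LNPart424.gsys Φ t ε n fun _ : κ => 0).Conn C π (Sum.elim w z)) {i : Fin n ⊕ κ} {v : ℝ}
    {q : Space3} (h : LNEv968.Reach (LNPart424.gsys Φ t ε n fun _ : κ => 0) C (Sum.elim w z) Λ π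
      (Sum.inr a) N i v q) :
    CEnd Φ T C ε N r z w v q := by
  let _ : DecidableEq (Fin n ⊕ κ) := fun a b => Classical.propDecidable (a = b)
  obtain ⟨Y, hY, hi, A, hA, hiA, hok, hq⟩ := h
  have hconn := hY.conn_union hc (hπ a)
  obtain ⟨k, g, e, hk, he, hQ⟩ := LNPart424.exists_emb (S := κ) (π ∪ Y)
    fun y => Finset.mem_union_left _ (hπ y)
  have hcard : (π ∪ Y).card ≤ N := by
    refine (Finset.card_le_card ?_).trans hY.card
    intro x hx
    rcases Finset.mem_union.1 hx with hx | hx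
    · exact Finset.mem_union_right _ (LNEv968.sub_uni hπΛ hx)
    · exact Finset.mem_union_left _ hx
  have hmap : π ∪ Y = Finset.univ.map e := by
    ext x
    rw [← hQ x, Finset.mem_map]
    exact ⟨fun ⟨y, hy⟩ => ⟨y, Finset.mem_univ _, hy⟩, fun ⟨y, _, hy⟩ => ⟨y, hy⟩⟩
  have hpull := LNPart424.pull_gsys (Φ := Φ) (T := t) (ε := ε) (fun _ : κ => (0 : ℝ)) he
  have hZ := LNPart424.elim_comp w z he
  -- the sub-world
  have hA' : A ⊆ Finset.univ.map e := hmap ▸ hA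
  obtain ⟨A', -, rfl⟩ := Finset.subset_map_iff.1 hA'
  obtain ⟨i', hi', rfl⟩ := Finset.mem_map.1 hiA
  refine ⟨k, hk.trans hcard, g, ?_, A', i', hi', ?_, ?_, ?_⟩
  · rw [hmap] at hconn
    have h1 := (hpull.conn hΦ hε).1 hconn
    rw [hZ, gsys_zero] at h1
    exact LN2.conn_of_hor (M := ObDet370.gsys Φ T ε k κ) htT h1
  · rintro rfl
    have h1 : e (Sum.inr r) = Sum.inr r := he _
    rw [h1] at hi
    rcases hY.gas _ hi with h2 | h2
    · exact har (Sum.inr_injective h2).symm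
    · exact h2 (LNEv968.sub_uni hπΛ (hπ r))
  · have h1 := (hpull.ok hΦ hε v).1 hok
    rw [hZ, gsys_zero] at h1
    exact h1
  · have h1 := hpull.st hΦ hε (A' := A') (Z := Sum.elim w z) (i := i') v
    rw [h1, hZ, gsys_zero] at hq
    exact hq

end reach

/-! ### The output of LN1 for a tree cluster -/

section ra

variable {f₀ : PhasePoint → ℝ}

/-- The labels of the tree. -/
def tpart (m : ℕ) (P : CTree) : Finset (Fin m ⊕ Idx P) :=
  LNTree410.part ⟨Sum.inr, Sum.inr_injective⟩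

theorem mem_tpart {m : ℕ} {P : CTree} (y : Idx P) : Sum.inr y ∈ tpart m P :=
  LNTree410.mem_part.2 ⟨y, rfl⟩

/-- **The output of LN1 for a tree cluster**: everything which is cleanly influenced by an exit line
before its touch time is reached. -/
def RA (Φ : Space3 → ℝ) (ε t : ℝ) (K : ℕ) (C : ℝ) (N : ℕ) (P : CTree) (z : PhasePoint × Par P)
    {m : ℕ} (w : Config m) : Prop :=
  ∀ x : {x : Idx P // x ≠ root P}, LNEv818.ReachAll
    (LNEv968.Reach (LNPart424.gsys Φ t ε m fun _ : Idx P => 0) C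
      (Sum.elim w (lines Φ ε P z.1 z.2)) {tpart m P} (tpart m P) (Sum.inr x.1) N)
    Φ ε K t (MW.cfg w) Sum.inl (exL Φ ε P z x) (Sum.inr x.1)

/-- The tree is connected. -/
theorem tree_conn (hΦ : AdmissiblePotential Φ) (hε : 0 < ε) (hC : 1 ≤ C) {P : CTree}
    {z : PhasePoint × Par P} {m : ℕ} {w : Config m} (hV : Valid Φ ε P t z.1.2 z.2)
    (hS : Sep Φ ε P t z.1 z.2) :
    (LNPart424.gsys Φ t ε m fun _ : Idx P => 0).Conn C (tpart m P)
      (Sum.elim w (lines Φ ε P z.1 z.2)) := by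
  have h : LNTree410.TreeIn (LNPart424.gsys Φ t ε m fun _ : Idx P => 0)
      (Sum.elim w (lines Φ ε P z.1 z.2)) t P z.1 z.2 ⟨Sum.inr, Sum.inr_injective⟩ :=
    ⟨fun i => le_rfl, fun i => rfl, fun i => by simp [VLMeas973.vsys], hV, hS⟩
  exact h.Conn_tree hΦ hε le_rfl hC

/-- **(CE) from LN1.** -/
theorem ce_of_ra (hΦ : AdmissiblePotential Φ) (hε : 0 < ε) (hC : 1 ≤ C) (htT : t ≤ T) {P : CTree}
    {z : PhasePoint × Par P} {m : ℕ} {w : Config m} (hV : Valid Φ ε P t z.1.2 z.2)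
    (hS : Sep Φ ε P t z.1 z.2) (hOk : AllOk Φ ε w (exL Φ ε P z))
    (h : RA Φ ε t K C N P z w) (x : {x : Idx P // x ≠ root P}) {v : ℝ} (hv : v ∈ Icc 0 t)
    (hT : ¬ (MW.cfg w).Touched Φ ε K (MW.line (exL Φ ε P z x)) v) :
    (∀ i, (MW.cfg w).Fut Φ ε (MW.line (exL Φ ε P z x)) v i →
      CEnd Φ T C ε N (root P) (lines Φ ε P z.1 z.2) w v (Causal291.pth Φ ε w v i).1 ∧
      CEnd Φ T C ε N (root P) (lines Φ ε P z.1 z.2) w v
        (((MW.cfg w).ins (exL Φ ε P z x)).path Φ ε v (Sum.inl i)).1) ∧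
    ((exL Φ ε P z x).1.1 < v →
      CEnd Φ T C ε N (root P) (lines Φ ε P z.1 z.2) w v
        (((MW.cfg w).ins (exL Φ ε P z x)).path Φ ε v (Sum.inr ())).1) := by
  have hconn := tree_conn (m := m) (w := w) hΦ hε hC hV hS
  have hokZ : (MW.cfg w).Ok Φ ε := hOk.base hΦ hε
  have hokA : ((MW.cfg w).add (MW.line (exL Φ ε P z x))).Ok Φ ε := hOk.line hΦ hε x
  have h2 : v ≤ (MW.cfg w).thetaL Φ ε K t (exL Φ ε P z x) :=
    (LNEv383.lt_theta_of_not_touched hΦ hε hokZ hokA hv hT).le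
  have key : ∀ {i q}, LNEv968.Reach (LNPart424.gsys Φ t ε m fun _ : Idx P => 0) C
      (Sum.elim w (lines Φ ε P z.1 z.2)) {tpart m P} (tpart m P) (Sum.inr x.1) N i v q →
      CEnd Φ T C ε N (root P) (lines Φ ε P z.1 z.2) w v q := fun h =>
    cEnd_of_reach hΦ hε htT x.2 (Finset.mem_singleton_self _) (fun y => mem_tpart y) hconn h
  refine ⟨fun i hi => ?_, fun hb => ?_⟩
  · have h1 : MWFam255.CF Φ ε K (MW.cfg w) (MW.line (exL Φ ε P z x)) v i :=
      LNEv383.cf_of_fut hΦ hε hokZ hokA hv hT hi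
    have h0' : (MW.cfg w).b i ≤ v := LNEv383.born_of_fut hΦ hε hi
    have h0 : ((MW.cfg w).add (MW.line (exL Φ ε P z x))).b (Sum.inl i) ≤ v := h0'
    have h3 := h x v hv h2 (Sum.inl i) (MWFam255.ci_inl h1) h0
    refine ⟨?_, key h3.1⟩
    have h4 := key (h3.2 i rfl)
    rwa [EBasic602.cfg_path hΦ hε] at h4
  · exact key (h x v hv h2 (Sum.inr ()) MWFam255.ci_inr hb.le).1

/-- Exceptional events of tree clusters. -/
abbrev PEv (P : CTree) : Type := ℝ → PhasePoint × Par P → (m : ℕ) → Config m → Prop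

/-- The event `X` has a majorant of mass at most `δ` (energy weight). -/
def PMaj (Φ : Space3 → ℝ) (f₀ : PhasePoint → ℝ) (t : ℝ) (P : CTree) (X : PEv P) (δ : ℝ) : Prop :=
  ∀ᶠ ε in 𝓝[>] (0 : ℝ), ∃ H : PhasePoint × Par P → (m : ℕ) → Config m → ℝ≥0∞,
    (∀ m, Measurable fun q : (PhasePoint × Par P) × Config m => H q.1 m q.2) ∧
    (∀ z m (w : Config m), F3Fin370.Excl Φ ε P z w → Valid Φ ε P t z.1.2 z.2 → X ε z m w →
      1 ≤ H z m w) ∧
    F3Fin370.tI Φ f₀ ε t P (fun z m w => InEq2.wQ Φ ε P z * H z m w) ≤ ENNReal.ofReal δ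

/-- **LN1 for trees**: exceptional events of small mass outside of which everything is reached. -/
def TreeRA (Φ : Space3 → ℝ) (f₀ : PhasePoint → ℝ) (t : ℝ) (P : CTree) (K : ℕ) : Prop :=
  ∀ δ : ℝ, 0 < δ → ∃ (X : PEv P) (C : ℝ) (N : ℕ), 1 ≤ C ∧ PMaj Φ f₀ t P X δ ∧
    ∀ᶠ ε in 𝓝[>] (0 : ℝ), ∀ z m (w : Config m), F3Fin370.Excl Φ ε P z w →
      Valid Φ ε P t z.1.2 z.2 → Sep Φ ε P t z.1 z.2 → AllOk Φ ε w (exL Φ ε P z) →
      (∀ x, t < (MW.cfg w).thetaL Φ ε K t (exL Φ ε P z x)) →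
      ¬ LinkEx Φ ε K t w (exL Φ ε P z) → ¬ X ε z m w → RA Φ ε t K C N P z w

/-- Trees which are not separated. -/
def NSep (Φ : Space3 → ℝ) (t : ℝ) (P : CTree) : PEv P := fun ε z _ _ => ¬ Sep Φ ε P t z.1 z.2

/-- **Trees which are not separated are null.** -/
theorem pMaj_nsep (hΦ : AdmissiblePotential Φ) {γ : ℝ} (hγ : 0 < γ) (hf : Continuous f₀)
    (H : HasSummableGaussianBound γ (fun x v => f₀ (x, v)))
    (h1 : ∫⁻ z, ENNReal.ofReal (f₀ z) ≤ 1) (t : ℝ) (P : CTree) {δ : ℝ} (hδ : 0 < δ) :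
    PMaj Φ f₀ t P (NSep Φ t P) δ := by
  have hS := Small302.sepNull hΦ hγ hf H h1 P.leaves t
  have hpos : (0 : ℝ≥0∞) < ENNReal.ofReal δ := ENNReal.ofReal_pos.2 hδ
  have hSe := (tendsto_order.1 hS).2 _ hpos
  filter_upwards [hSe, self_mem_nhdsWithin] with ε hS1 hε
  have hε' : 0 < ε := hε
  have hG2 : InEq2.MeasTS (Small302.setG P.leaves (Small302.nsep Φ t ε)) :=
    Small302.measTS_setG fun P' => Small302.measurableSet_nsep hΦ t hε' P'
  refine ⟨fun z m w => Small302.setG P.leaves (Small302.nsep Φ t ε) P z m w, fun m => hG2 P m,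
    ?_, ?_⟩
  · intro z m w _ hV hs
    have h5 : (1 : ℝ≥0∞) ≤ Small302.setG P.leaves (Small302.nsep Φ t ε) P z m w := by
      unfold Small302.setG
      rw [if_pos ⟨le_rfl, hV, hs⟩]
    exact h5
  · exact (ENNReal.le_tsum (f := fun P' => F3Fin370.tI Φ f₀ ε t P' (fun z m w =>
      InEq2.wQ Φ ε P' z * Small302.setG P.leaves (Small302.nsep Φ t ε) P' z m w)) P).trans hS1.le

theorem tI_add (hΦ : AdmissiblePotential Φ) (hf : Measurable f₀) {P : CTree}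
    {H H' : PhasePoint × Par P → (m : ℕ) → Config m → ℝ≥0∞}
    (ha : ∀ m, Measurable fun q : (PhasePoint × Par P) × Config m => H q.1 m q.2)
    (ha' : ∀ m, Measurable fun q : (PhasePoint × Par P) × Config m => H' q.1 m q.2) :
    F3Fin370.tI Φ f₀ ε t P (fun z m w => InEq2.wQ Φ ε P z * (H z m w + H' z m w)) =
      F3Fin370.tI Φ f₀ ε t P (fun z m w => InEq2.wQ Φ ε P z * H z m w) +
      F3Fin370.tI Φ f₀ ε t P (fun z m w => InEq2.wQ Φ ε P z * H' z m w) := by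
  have h3 := GateT522.TP_eq_treeQ (Φ := Φ) (f₀ := f₀) (ε := ε) hΦ hf P t
    (H := fun z m w => H z m w + H' z m w) fun m => (ha m).add (ha' m)
  have h4 := GateT522.TP_eq_treeQ (Φ := Φ) (f₀ := f₀) (ε := ε) hΦ hf P t (H := H) ha
  have h5 := GateT522.TP_eq_treeQ (Φ := Φ) (f₀ := f₀) (ε := ε) hΦ hf P t (H := H') ha'
  change Gas522.TP Φ f₀ ε t P _ = Gas522.TP Φ f₀ ε t P _ + Gas522.TP Φ f₀ ε t P _
  rw [h3, h4, h5]
  have h6 : ∀ z, GC311.gcE f₀ ε (fun m w => H z m w + H' z m w) =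
      GC311.gcE f₀ ε (fun m w => H z m w) + GC311.gcE f₀ ε (fun m w => H' z m w) := fun z =>
    GC311.gcE_add hf ε (F := fun m w => H z m w) fun m => (ha m).comp measurable_prodMk_left
  simp only [h6]
  rw [lintegral_add_left]
  exact MeasE416.measurable_gcE_of hf ε (F := fun m z w => H z m w) fun m => ha m

/-- Majorants of unions. -/
theorem PMaj.or (hΦ : AdmissiblePotential Φ) (hf : Measurable f₀) {P : CTree} {X Y : PEv P}
    {δ δ' : ℝ} (hδ : 0 ≤ δ) (hδ' : 0 ≤ δ') (hX : PMaj Φ f₀ t P X δ) (hY : PMaj Φ f₀ t P Y δ') :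
    PMaj Φ f₀ t P (fun ε z m w => X ε z m w ∨ Y ε z m w) (δ + δ') := by
  filter_upwards [hX, hY] with ε h1 h2
  obtain ⟨H, ha, hb, hc⟩ := h1
  obtain ⟨H', ha', hb', hc'⟩ := h2
  refine ⟨fun z m w => H z m w + H' z m w, fun m => (ha m).add (ha' m), ?_, ?_⟩
  · rintro z m w hE hV (h | h)
    · exact (hb z m w hE hV h).trans le_self_add
    · exact (hb' z m w hE hV h).trans le_add_self
  · rw [tI_add hΦ hf ha ha', ENNReal.ofReal_add hδ hδ']
    exact add_le_add hc hc'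

/-- **`F3CE` from `TreeNull` and LN1.** -/
theorem f3CE_of (hΦ : AdmissiblePotential Φ) {γ : ℝ} (hγ : 0 < γ) (hf : Continuous f₀)
    (H : HasSummableGaussianBound γ (fun x v => f₀ (x, v)))
    (h1 : ∫⁻ z, ENNReal.ofReal (f₀ z) ≤ 1) (htT : t ≤ T) (hTN : F3Fin370.TreeNull Φ f₀ t)
    (hRA : ∀ P K, TreeRA Φ f₀ t P K) : F3CE Φ f₀ T t := by
  intro P δ hδ
  have h3 : 0 < δ / 3 := by positivity
  obtain ⟨K, hK⟩ := hTN P (δ / 3) h3
  obtain ⟨X, C, N, hC, hX, hdet⟩ := hRA P K (δ / 3) h3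
  have hY := (hX.or hΦ hf.measurable h3.le h3.le (pMaj_nsep hΦ hγ hf H h1 t P h3))
  refine ⟨K, fun ε z m w => Valid Φ ε P t z.1.2 z.2 ∧ (X ε z m w ∨ NSep Φ t P ε z m w), C, N, hC,
    ?_, ?_⟩
  · filter_upwards [hK, hY] with ε h1 h2
    obtain ⟨G, ha, hb, hc⟩ := h1
    obtain ⟨G', ha', hb', hc'⟩ := h2
    refine ⟨fun z m w => G z m w + G' z m w, fun m => (ha m).add (ha' m), ?_, ?_⟩
    · rintro z m w hE (h | ⟨hV, h⟩)
      · exact (hb z m w hE h).trans le_self_add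
      · exact (hb' z m w hE hV h).trans le_add_self
    · rw [tI_add hΦ hf.measurable ha ha']
      refine (add_le_add hc hc').trans ?_
      rw [← ENNReal.ofReal_add h3.le (by positivity)]
      refine ENNReal.ofReal_le_ofReal ?_
      linarith
  · filter_upwards [hdet, self_mem_nhdsWithin] with ε hε hpos
    have hp : 0 < ε := hpos
    intro σ hσ z m w hex hV hS hOk hth hL hX' x v hv hT
    have hVt : Valid Φ ε P t z.1.2 z.2 := LNTree410.valid_mono hσ.2 hV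
    have hSt : Sep Φ ε P t z.1 z.2 := by
      by_contra h
      exact hX' ⟨hVt, Or.inr h⟩
    have hra := hε z m w hex hVt hSt hOk hth hL fun h => hX' ⟨hVt, Or.inl h⟩
    exact ce_of_ra hΦ hp hC htT hVt hSt hOk hra x hv hT

/-- **F3 from LN1 for trees**, `TreeNull`, and the facts of the initial datum. -/
theorem F3_of_treeRA (hΦ : AdmissiblePotential Φ) (hVC : VC Φ) (hVL : VL Φ) {γ : ℝ} (hγ : 0 < γ)
    (hf : Continuous f₀) (H : HasSummableGaussianBound γ (fun x v => f₀ (x, v)))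
    (h1 : ∫⁻ z, ENNReal.ofReal (f₀ z) ≤ 1) {γ' : ℝ} {ρ : Space3 → ℝ≥0∞} {C₀ : ℝ≥0∞}
    (he : LN2.Env f₀ γ' ρ C₀) (hγ' : 0 < γ') {tw : ℝ} (hT : 0 < T) (htw : 0 ≤ tw) (ht : 0 ≤ t)
    (htT : t ≤ T) (hTN : F3Fin370.TreeNull Φ f₀ t) (hRA : ∀ P K, TreeRA Φ f₀ t P K) :
    GhostErr370.F3 Φ f₀ T tw t :=
  F3_of_f3CE hf.measurable hΦ hVC hVL h1 he hγ' hT htw ht htT
    (f3CE_of hΦ hγ hf H h1 htT hTN hRA)

/-! ### The gateway -/

/-- The event as an event of the gateway. -/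
theorem pMaj_of_gLe (hΦ : AdmissiblePotential Φ) (hf : Measurable f₀) {P : CTree} {X : PEv P}
    {δ : ℝ} (h : Gate424.GLe f₀ (fun ε (_ : Unit) => GateT522.treeQ Φ f₀ ε P t)
      (fun ε _ n z w => F3Fin370.Excl Φ ε P z w ∧ Valid Φ ε P t z.1.2 z.2 ∧ X ε z n w)
      (ENNReal.ofReal δ)) : PMaj Φ f₀ t P X δ := by
  obtain ⟨ε₀, h0, h⟩ := h
  filter_upwards [Ioo_mem_nhdsGT h0] with ε hε
  obtain ⟨G, hGm, hG, hGi⟩ := h ε hε.1 hε.2 ()
  refine ⟨fun z m w => G m (z, w), fun m => hGm m, ?_, ?_⟩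
  · intro z m w hE hV hX
    exact hG m z w hE.2.1 ⟨hE, hV, hX⟩
  · have h4 := GateT522.TP_eq_treeQ (Φ := Φ) (f₀ := f₀) (ε := ε) hΦ hf P t
      (H := fun z m w => G m (z, w)) fun m => hGm m
    change Gas522.TP Φ f₀ ε t P _ ≤ _
    rw [h4]
    exact hGi

/-- A null event of 302's calculus has small majorants. -/
theorem pMaj_of_tNull {P : CTree} {E : TEv} {δ : ℝ} (hδ : 0 < δ)
    (h : TNull Φ f₀ t P.leaves E) :
    PMaj Φ f₀ t P (fun ε z m w => Sep Φ ε P t z.1 z.2 ∧ E ε P z m w) δ := by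
  obtain ⟨ε₀, h0, h⟩ := h δ hδ
  filter_upwards [Ioo_mem_nhdsGT h0] with ε hε
  obtain ⟨G, hG, hGi⟩ := h ε hε.1 hε.2
  refine ⟨fun z m w => G P z m w, fun m => hG.meas P m, ?_, ?_⟩
  · intro z m w hE hV hX
    exact hG.maj P z m w le_rfl hV hX.1 hE.2.1 hX.2
  · exact (ENNReal.le_tsum (f := fun P' => F3Fin370.tI Φ f₀ ε t P' (fun z m w =>
      InEq2.wQ Φ ε P' z * G P' z m w)) P).trans hGi

/-- **The gateway for `TreeRA`.** -/
theorem treeRA_of_gate (hΦ : AdmissiblePotential Φ) {P : CTree} (hCN : VLMeas973.ClassNull Φ t)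
    (hf : Measurable f₀) (h1 : ∫⁻ z, ENNReal.ofReal (f₀ z) ≤ 1) {γ : ℝ} {ρ : Space3 → ℝ≥0∞}
    {C₀ : ℝ≥0∞} (he : LN2.Env f₀ γ ρ C₀) (hγ : 0 < γ)
    {Rn Ht : ℕ → PEv P}
    (hdet : ∀ L : ℕ, ∃ (N N' : ℕ) (C C' : ℝ), 1 ≤ C' ∧ ∀ R > 0, ∀ ς > 0,
      ∀ᶠ ε in 𝓝[>] (0 : ℝ), ∀ z m (w : Config m), F3Fin370.Excl Φ ε P z w →
      Valid Φ ε P t z.1.2 z.2 → Sep Φ ε P t z.1 z.2 → AllOk Φ ε w (exL Φ ε P z) →
      (∀ x, t < (MW.cfg w).thetaL Φ ε K t (exL Φ ε P z x)) →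
      ¬ LinkEx Φ ε K t w (exL Φ ε P z) → ¬ Rn L ε z m w →
      ¬ LN2.BadGas Φ t C R ς ε N 1 Finset.univ (fun _ : Idx P => (0 : ℝ))
        (lines Φ ε P z.1 z.2) w → ¬ Ht L ε z m w → RA Φ ε t K C' N' P z w)
    (hrun : ∀ δ : ℝ, 0 < δ → ∃ L, PMaj Φ f₀ t P (Rn L) δ)
    (hhit : ∀ (L : ℕ) (δ : ℝ), 0 < δ → PMaj Φ f₀ t P (Ht L) δ) :
    TreeRA Φ f₀ t P K := by
  intro δ hδ
  have h3 : 0 < δ / 3 := by positivity
  have h3' : 0 < ENNReal.ofReal (δ / 3) := ENNReal.ofReal_pos.2 h3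
  obtain ⟨L, hL⟩ := hrun _ h3
  obtain ⟨N, N', C, C', hC', hd⟩ := hdet L
  have ha : 0 < γ / 2 := by positivity
  have hc : (Fintype.card (Idx P) * ENNReal.ofReal (max 1 (1 / (γ / 2)))) *
      C₀ ^ Fintype.card (Idx P) ≠ ∞ :=
    ENNReal.mul_ne_top (GateT522.card_mul_ne_top P) (ENNReal.pow_ne_top he.fin)
  have he' : LN2.Env f₀ (γ - γ / 2) ρ C₀ := by
    refine ⟨he.meas, he.le_one, he.int, he.fin, fun z => (he.le z).trans ?_⟩
    gcongr
    unfold wG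
    refine ENNReal.ofReal_le_ofReal (Real.exp_le_exp.2 ?_)
    nlinarith [sq_nonneg ‖z.2‖]
  have hcard : 1 ≤ Fintype.card (Idx P) := Fintype.card_pos_iff.2 ⟨root P⟩
  obtain ⟨R, hR, ς, hς, hB⟩ := Gate424.gLe_badGas (I := Unit) hCN hf h1 he'
    (by linarith) C N hcard Finset.univ hc (Measure.dirac fun _ : Idx P => (0 : ℝ))
    (m := fun ε (_ : Unit) => GateT522.treeQ Φ f₀ ε P t) (b := fun _ _ _ _ => 0)
    (z := fun ε _ z => linesM Φ ε P z.1 z.2) (fun _ _ => inferInstance)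
    (fun ε _ hε => GateT522.dom_treeQ hΦ hf he hε ha P t) h3'
  refine ⟨fun ε z m w => Rn L ε z m w ∨ LN2.BadGas Φ t C R ς ε N 1 Finset.univ
    (fun _ : Idx P => (0 : ℝ)) (lines Φ ε P z.1 z.2) w ∨ Ht L ε z m w, C', N', hC', ?_, ?_⟩
  · have hB' : Gate424.GLe f₀ (fun ε (_ : Unit) => GateT522.treeQ Φ f₀ ε P t)
        (fun ε _ n z w => F3Fin370.Excl Φ ε P z w ∧ Valid Φ ε P t z.1.2 z.2 ∧
          LN2.BadGas Φ t C R ς ε N 1 Finset.univ (fun _ : Idx P => (0 : ℝ))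
            (lines Φ ε P z.1 z.2) w) (ENNReal.ofReal (δ / 3)) := by
      refine hB.mono le_rfl ⟨1, one_pos, fun ε _ _ i n z w _ h => ?_⟩
      obtain ⟨_, hV, h⟩ := h
      rwa [linesM_of_adm ε hV.1]
    have h4 := hL.or hΦ hf h3.le (by positivity)
      ((pMaj_of_gLe hΦ hf hB').or hΦ hf h3.le h3.le (hhit L _ h3))
    have e : δ / 3 + (δ / 3 + δ / 3) = δ := by ring
    rwa [e] at h4
  · filter_upwards [hd R hR ς hς] with ε hε
    intro z m w hex hV hS hOk hth hLk hX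
    push Not at hX
    exact hε z m w hex hV hS hOk hth hLk hX.1 hX.2.1 hX.2.2

end ra

end Crest.Agent.R122.CEReach370
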