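import Crest.Agent.R122.GateF_973

/-!
# Row 122, H11 (helper311): the capped gateway (helper823's cap, helper692's three events)

Structure measure `m` (finite mass `≤ M`), independent lines with an infinite measure `ν`.

* `FLe.add` : calculus.
* `fLe_cap` : if, off the structure event `S`, `ν`-almost every bad `x` satisfies the line event `X`
  (which does not see the structure) or the joint event `J`, then `min 1 (ν {x | E x})` has a
  measurable majorant of mass at most `a + (M * b + c)`, where `a`, `b`, `c` bound `S` over `m`, `X`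
  over `ν` and `J` over `m.prod ν`.
-/

set_option autoImplicit false
set_option linter.unusedSectionVars false

open MeasureTheory Set Filter Topology
open scoped Classical ENNReal
open Crest.AnalysisR.Kinetic
open Crest.Agent.R122.GC311 Crest.Agent.R122.EDefs602 Crest.Agent.R122.Gate424
open Crest.Agent.R122.Gate973

noncomputable section

namespace Crest.Agent.R122.Cap311

variable {f₀ : PhasePoint → ℝ} {I Θ X : Type} [MeasurableSpace Θ] [MeasurableSpace X]
  {m : ℝ → I → Measure Θ} {ν : ℝ → I → Measure X}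

/-- Sum of two functionals. -/
theorem FLe.add {F F' : ℝ → I → (n : ℕ) → Θ → Config n → ℝ≥0∞} {c c' : ℝ≥0∞} (hf : Measurable f₀)
    (h : FLe f₀ m F c) (h' : FLe f₀ m F' c') :
    FLe f₀ m (fun ε i n θ w => F ε i n θ w + F' ε i n θ w) (c + c') := by
  obtain ⟨ε₀, h0, h⟩ := h
  obtain ⟨ε₁, h1, h'⟩ := h'
  refine ⟨min ε₀ ε₁, lt_min h0 h1, fun ε hε hlt i => ?_⟩
  obtain ⟨G, hGm, hG, hGi⟩ := h ε hε (hlt.trans_le (min_le_left _ _)) i
  obtain ⟨G', hGm', hG', hGi'⟩ := h' ε hε (hlt.trans_le (min_le_right _ _)) i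
  refine ⟨fun n p => G n p + G' n p, fun n => (hGm n).add (hGm' n),
    fun n θ w hw => add_le_add (hG n θ w hw) (hG' n θ w hw), ?_⟩
  have e1 : ∀ θ, gcE f₀ ε (fun n w => G n (θ, w) + G' n (θ, w)) =
      gcE f₀ ε (fun n w => G n (θ, w)) + gcE f₀ ε (fun n w => G' n (θ, w)) := fun θ =>
    gcE_add hf ε (F := fun n w => G n (θ, w)) fun n => (hGm n).comp measurable_prodMk_left
  simp_rw [e1]
  rw [lintegral_add_left]
  · exact add_le_add hGi hGi'
  · exact MeasE416.measurable_gcE_of hf ε (F := fun n θ w => G n (θ, w)) fun n => hGm n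

/-- A functional which does not see the structure. -/
theorem FLe.right {F : ℝ → I → (n : ℕ) → X → Config n → ℝ≥0∞} {b M : ℝ≥0∞} (hf : Measurable f₀)
    (hν : ∀ ε i, SFinite (ν ε i)) (hmass : ∀ ε i, 0 < ε → m ε i univ ≤ M)
    (h : FLe f₀ ν F b) :
    FLe f₀ m (fun ε i n _ w => ∫⁻ x, F ε i n x w ∂(ν ε i)) (M * b) := by
  obtain ⟨ε₀, h0, h⟩ := h
  refine ⟨ε₀, h0, fun ε hε hlt i => ?_⟩
  obtain ⟨G, hGm, hG, hGi⟩ := h ε hε hlt i
  have := hν ε i
  have hGm' : ∀ n, Measurable fun q : (Θ × Config n) × X => G n (q.2, q.1.2) := fun n =>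
    (hGm n).comp (measurable_snd.prodMk measurable_fst.snd)
  refine ⟨fun n p => ∫⁻ x, G n (x, p.2) ∂(ν ε i), fun n => (hGm' n).lintegral_prod_right',
    fun n θ w hw => lintegral_mono fun x => hG n x w hw, ?_⟩
  have e1 := LN2.lintegral_gcE_swap hf ε (ν ε i) (F := fun n x w => G n (x, w)) fun n => hGm n
  have e2 : ∀ θ : Θ, gcE f₀ ε (fun n w => ∫⁻ x, G n (x, ((θ, w) : Θ × Config n).2) ∂(ν ε i)) =
      ∫⁻ x, gcE f₀ ε (fun n Z => G n (x, Z)) ∂(ν ε i) := fun θ => e1.symm
  rw [lintegral_congr e2, lintegral_const, mul_comm]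
  exact mul_le_mul' (hmass ε i hε) hGi

/-- Markov. -/
theorem measure_le_lintegral_of {μ : Measure X} {A : Set X} {g : X → ℝ≥0∞}
    (hg : Measurable g) (h : ∀ᵐ x ∂μ, x ∈ A → 1 ≤ g x) : μ A ≤ ∫⁻ x, g x ∂μ := by
  calc μ A ≤ μ {x | 1 ≤ g x} := measure_mono_ae h
    _ ≤ ∫⁻ x, g x ∂μ := by
        have := mul_meas_ge_le_lintegral hg (μ := μ) 1
        rwa [one_mul] at this

/-- **The capped gateway.** -/
theorem fLe_cap {M a b c : ℝ≥0∞} (hf : Measurable f₀) (hm : ∀ ε i, SFinite (m ε i))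
    (hν : ∀ ε i, SFinite (ν ε i)) (hmass : ∀ ε i, 0 < ε → m ε i univ ≤ M)
    {E J : ℝ → I → (n : ℕ) → Θ × X → Config n → Prop} {S : ℝ → I → (n : ℕ) → Θ → Config n → Prop}
    {Y : ℝ → I → (n : ℕ) → X → Config n → Prop} (hS : GLe f₀ m S a) (hY : GLe f₀ ν Y b)
    (hJ : GLe f₀ (fun ε i => (m ε i).prod (ν ε i)) J c)
    (hdet : ∃ ε₁ : ℝ, 0 < ε₁ ∧ ∀ ε : ℝ, 0 < ε → ε < ε₁ → ∀ i n θ (w : Config n),
      w ∈ PairExcluded ε n → ¬ S ε i n θ w →
        ∀ᵐ x ∂(ν ε i), E ε i n (θ, x) w → Y ε i n x w ∨ J ε i n (θ, x) w) :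
    FLe f₀ m (fun ε i n θ w => min 1 (ν ε i {x | E ε i n (θ, x) w})) (a + (M * b + c)) := by
  obtain ⟨εS, hS0, hS⟩ := hS
  obtain ⟨εY, hY0, hY⟩ := hY
  obtain ⟨εJ, hJ0, hJ⟩ := hJ
  obtain ⟨ε₁, h1, hdet⟩ := hdet
  refine ⟨min (min εS εY) (min εJ ε₁), lt_min (lt_min hS0 hY0) (lt_min hJ0 h1),
    fun ε hε hlt i => ?_⟩
  have l1 : ε < εS := hlt.trans_le ((min_le_left _ _).trans (min_le_left _ _))
  have l2 : ε < εY := hlt.trans_le ((min_le_left _ _).trans (min_le_right _ _))
  have l3 : ε < εJ := hlt.trans_le ((min_le_right _ _).trans (min_le_left _ _))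
  have l4 : ε < ε₁ := hlt.trans_le ((min_le_right _ _).trans (min_le_right _ _))
  obtain ⟨GS, hGSm, hGS, hGSi⟩ := hS ε hε l1 i
  obtain ⟨GY, hGYm, hGY, hGYi⟩ := hY ε hε l2 i
  obtain ⟨GJ, hGJm, hGJ, hGJi⟩ := hJ ε hε l3 i
  have := hm ε i
  have := hν ε i
  have hYm' : ∀ n, Measurable fun q : (Θ × Config n) × X => GY n (q.2, q.1.2) := fun n =>
    (hGYm n).comp (measurable_snd.prodMk measurable_fst.snd)
  have hJm' : ∀ n, Measurable fun q : (Θ × Config n) × X => GJ n ((q.1.1, q.2), q.1.2) := fun n =>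
    (hGJm n).comp ((measurable_fst.fst.prodMk measurable_snd).prodMk measurable_fst.snd)
  have hYi : ∀ n, Measurable fun p : Θ × Config n => ∫⁻ x, GY n (x, p.2) ∂(ν ε i) := fun n =>
    (hYm' n).lintegral_prod_right'
  have hJi : ∀ n, Measurable fun p : Θ × Config n => ∫⁻ x, GJ n ((p.1, x), p.2) ∂(ν ε i) :=
    fun n => (hJm' n).lintegral_prod_right'
  refine ⟨fun n p => GS n p + (∫⁻ x, GY n (x, p.2) ∂(ν ε i) +
    ∫⁻ x, GJ n ((p.1, x), p.2) ∂(ν ε i)), fun n => (hGSm n).add ((hYi n).add (hJi n)), ?_, ?_⟩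
  · intro n θ w hw
    by_cases hs : S ε i n θ w
    · exact (min_le_left _ _).trans ((hGS n θ w hw hs).trans le_self_add)
    · refine (min_le_right _ _).trans (le_trans ?_ le_add_self)
      have m1 : Measurable fun x => GY n (x, w) := (hGYm n).comp measurable_prodMk_right
      have m2 : Measurable fun x => GJ n ((θ, x), w) :=
        (hGJm n).comp (measurable_prodMk_left.prodMk measurable_const)
      rw [show (∫⁻ x, GY n (x, ((θ, w) : Θ × Config n).2) ∂(ν ε i)) +
        ∫⁻ x, GJ n ((((θ, w) : Θ × Config n).1, x), ((θ, w) : Θ × Config n).2) ∂(ν ε i) =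
        ∫⁻ x, (GY n (x, w) + GJ n ((θ, x), w)) ∂(ν ε i) from (lintegral_add_left m1 _).symm]
      refine measure_le_lintegral_of (m1.add m2) ?_
      filter_upwards [hdet ε hε l4 i n θ w hw hs] with x hx hE
      rcases hx hE with h | h
      · exact (hGY n x w hw h).trans le_self_add
      · exact (hGJ n (θ, x) w hw h).trans le_add_self
  · have e1 : ∀ θ, gcE f₀ ε (fun n w => GS n (θ, w) + (∫⁻ x, GY n (x, ((θ, w) : Θ × Config n).2)
          ∂(ν ε i) + ∫⁻ x, GJ n ((((θ, w) : Θ × Config n).1, x), ((θ, w) : Θ × Config n).2)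
            ∂(ν ε i))) =
        gcE f₀ ε (fun n w => GS n (θ, w)) +
          (gcE f₀ ε (fun n w => ∫⁻ x, GY n (x, w) ∂(ν ε i)) +
            gcE f₀ ε (fun n w => ∫⁻ x, GJ n ((θ, x), w) ∂(ν ε i))) := by
      intro θ
      rw [gcE_add hf ε (F := fun n w => GS n (θ, w)) fun n =>
        (hGSm n).comp measurable_prodMk_left]
      congr 1
      exact gcE_add hf ε (F := fun n w => ∫⁻ x, GY n (x, w) ∂(ν ε i)) fun n =>
        (hYi n).comp (measurable_prodMk_left (x := θ))
    have mS : Measurable fun θ => gcE f₀ ε (fun n w => GS n (θ, w)) :=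
      MeasE416.measurable_gcE_of hf ε (F := fun n θ w => GS n (θ, w)) fun n => hGSm n
    rw [lintegral_congr e1, lintegral_add_left mS, lintegral_add_left measurable_const,
      lintegral_const]
    refine add_le_add hGSi (add_le_add ?_ ?_)
    · rw [mul_comm]
      refine mul_le_mul' (hmass ε i hε) ?_
      rw [← LN2.lintegral_gcE_swap hf ε (ν ε i) (F := fun n x w => GY n (x, w)) fun n => hGYm n]
      exact hGYi
    · refine le_trans (le_of_eq ?_) hGJi
      have hgm : Measurable fun p : Θ × X => gcE f₀ ε (fun n w => GJ n (p, w)) :=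
        MeasE416.measurable_gcE_of hf ε (F := fun n p w => GJ n (p, w)) fun n => hGJm n
      rw [lintegral_prod _ hgm.aemeasurable]
      refine lintegral_congr fun θ => ?_
      exact (LN2.lintegral_gcE_swap hf ε (ν ε i) (F := fun n x w => GJ n ((θ, x), w))
        fun n => (hGJm n).comp ((measurable_const.prodMk measurable_fst).prodMk
          measurable_snd)).symm

end Crest.Agent.R122.Cap311

end
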