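import Crest.Agent.R122.TopDefs_602
import Crest.Agent.R122.SmallNull_566

/-!
# Row 122: literal inequalities of section E and line parameters (helper602)

* `LinePar g1 r1 T γ ρ` : `γ τ = g0 - κ τ` with `0 < g0 - κ T`, `g0 ≤ g1`, and `r1 ≤ ρ < 1`.
* `Vanish o` : `o h L → 0` as the window length `h → 0` and the weight strength `L → ∞`.
* `EvW T Q` : `Q h L tw te` for all small `h`, large `L` and windows `(tw, te]` of length `≤ h`.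
* `Ineq1`, `Ineq2`, `Ineq3` : the three inequalities of section E, for the unknowns `XI`, `aE` and the
  pair mass `PM m`.
* `EIn` : the input of section E.
-/

set_option autoImplicit false

open MeasureTheory Set Filter Topology
open scoped ENNReal
open Crest.AnalysisR.Kinetic
open Crest.Agent.R122.Master566 Crest.Agent.R122.EDefs602 Crest.Agent.R122.GIV566

namespace Crest.Agent.R122.Top602

noncomputable section

/-- Admissible parameters of the measure on marked lines. -/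
structure LinePar (g1 : ℝ) (r1 : ℝ≥0∞) (T : ℝ) (γ : ℝ → ℝ) (ρ : ℝ≥0∞) : Prop where
  /-- the Gaussian rate is affine in the birth time, strictly decreasing and positive -/
  lin : ∃ g0 κ : ℝ, 0 < κ ∧ (γ = fun τ => g0 - κ * τ) ∧ 0 < g0 - κ * T ∧ g0 ≤ g1
  /-- lower bound of the mark factor -/
  lo : r1 ≤ ρ
  /-- upper bound of the mark factor -/
  hi : ρ < 1

/-- Parameters of a window. -/
def epar (γ : ℝ → ℝ) (ρ : ℝ≥0∞) (L tw te : ℝ) : EPar := ⟨γ, ρ, L, tw, te⟩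

/-- `o h L → 0` as `h → 0` and `L → ∞`. -/
def Vanish (o : ℝ → ℝ → ℝ≥0∞) : Prop :=
  ∀ η : ℝ≥0∞, 0 < η → ∃ h₀ : ℝ, 0 < h₀ ∧ ∃ L₀ : ℝ, ∀ h L : ℝ, 0 < h → h ≤ h₀ → L₀ ≤ L → o h L ≤ η

/-- For short windows and large `L`. -/
def EvW (T : ℝ) (Q : ℝ → ℝ → ℝ → ℝ → Prop) : Prop :=
  ∃ h₁ : ℝ, 0 < h₁ ∧ ∃ L₁ : ℝ, ∀ h L tw te : ℝ, 0 < h → h ≤ h₁ → L₁ ≤ L → 1 ≤ L →
    Win h T tw te → Q h L tw te

/-- A pair mass, as a function of the size cut-off `m`, of `L`, of the window and of `K`, `ε`. -/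
abbrev PMass : Type := ℕ → ℝ → ℝ → ℝ → ℕ → ℝ → ℝ≥0∞

/-- **Inequality 1** (lines touched: one-contact decomposition). -/
def Ineq1 (Φ : Space3 → ℝ) (f₀ : PhasePoint → ℝ) (f : ℝ → PhasePoint → ℝ) (T : ℝ) (γ : ℝ → ℝ)
    (ρ : ℝ≥0∞) (PM : PMass) : Prop :=
  ∃ τ : ℕ → ℝ≥0∞, Tendsto τ atTop (𝓝 0) ∧ ∀ m : ℕ, ∃ C : ℝ≥0∞, C ≠ ∞ ∧ ∃ o : ℝ → ℝ → ℝ≥0∞,
    Vanish o ∧ EvW T fun h L tw te => IH Φ f₀ f T γ ρ tw →
      ∃ S : ℕ → ℝ → ℝ≥0∞, Small S ∧ Ev fun K ε =>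
        XI Φ f₀ ε K (epar γ ρ L tw te) ≤ S K ε +
          ((τ m + o h L) * XI Φ f₀ ε K (epar γ ρ L tw te) +
            o h L * aE Φ f₀ ε K (epar γ ρ L tw te) + C * PM m L tw te K ε)

/-- **Inequality 2** (entry of energy). -/
def Ineq2 (Φ : Space3 → ℝ) (f₀ : PhasePoint → ℝ) (f : ℝ → PhasePoint → ℝ) (T : ℝ) (γ : ℝ → ℝ)
    (ρ : ℝ≥0∞) : Prop :=
  ∃ C : ℝ≥0∞, C ≠ ∞ ∧ ∃ o : ℝ → ℝ → ℝ≥0∞,
    Vanish o ∧ EvW T fun h L tw te => IH Φ f₀ f T γ ρ tw →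
      ∃ S : ℕ → ℝ → ℝ≥0∞, Small S ∧ Ev fun K ε =>
        aE Φ f₀ ε K (epar γ ρ L tw te) ≤ S K ε +
          (C * XI Φ f₀ ε K (epar γ ρ L tw te) + o h L * aE Φ f₀ ε K (epar γ ρ L tw te))

/-- **Inequality 3** (pair mass: separation of pairs at the scale `r`). -/
def Ineq3 (Φ : Space3 → ℝ) (f₀ : PhasePoint → ℝ) (f : ℝ → PhasePoint → ℝ) (T : ℝ) (γ : ℝ → ℝ)
    (ρ : ℝ≥0∞) (PM : PMass) : Prop :=
  ∀ m : ℕ, ∃ σ : ℝ → ℝ≥0∞, Tendsto σ (𝓝[>] 0) (𝓝 0) ∧ ∀ r : ℝ, 0 < r → r ≤ 1 →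
    ∃ o : ℝ → ℝ → ℝ≥0∞, Vanish o ∧ EvW T fun h L tw te =>
      IH Φ f₀ f T γ ρ tw → ∃ S : ℕ → ℝ → ℝ≥0∞, Small S ∧ Ev fun K ε =>
        PM m L tw te K ε ≤ S K ε +
          (σ r + o h L) * (XI Φ f₀ ε K (epar γ ρ L tw te) + aE Φ f₀ ε K (epar γ ρ L tw te) +
            PM m L tw te K ε)

/-- Finiteness of the pair mass. -/
def FinPM (Φ : Space3 → ℝ) (f₀ : PhasePoint → ℝ) (f : ℝ → PhasePoint → ℝ) (T : ℝ) (γ : ℝ → ℝ)
    (ρ : ℝ≥0∞) (PM : PMass) : Prop :=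
  ∀ m : ℕ, EvW T fun _ L tw te => IH Φ f₀ f T γ ρ tw → Ev fun K ε => PM m L tw te K ε ≠ ∞

/-- **The input of section E.** -/
def EIn (Φ : Space3 → ℝ) (f₀ : PhasePoint → ℝ) (f : ℝ → PhasePoint → ℝ) (T : ℝ) : Prop :=
  ∃ g1 : ℝ, 0 < g1 ∧ ∃ r1 : ℝ≥0∞, r1 < 1 ∧ ∀ (γ : ℝ → ℝ) (ρ : ℝ≥0∞), LinePar g1 r1 T γ ρ →
    ∃ PM : PMass, Ineq1 Φ f₀ f T γ ρ PM ∧ Ineq2 Φ f₀ f T γ ρ ∧ Ineq3 Φ f₀ f T γ ρ PM ∧
      FinPM Φ f₀ f T γ ρ PM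

/-- **The input of section F**: the window step of the ghost avoidance identification. -/
def FIn (Φ : Space3 → ℝ) (f₀ : PhasePoint → ℝ) (f : ℝ → PhasePoint → ℝ) (T : ℝ) : Prop :=
  ∃ g1 : ℝ, 0 < g1 ∧ ∃ r1 : ℝ≥0∞, r1 < 1 ∧ ∀ (γ : ℝ → ℝ) (ρ : ℝ≥0∞), LinePar g1 r1 T γ ρ →
    FStep Φ f₀ f T γ ρ

/-- **The input of the final passage.** -/
def RetIn (Φ : Space3 → ℝ) (f₀ : PhasePoint → ℝ) (f : ℝ → PhasePoint → ℝ) (T : ℝ) : Prop :=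
  ∃ g1 : ℝ, 0 < g1 ∧ ∃ r1 : ℝ≥0∞, r1 < 1 ∧ ∀ (γ : ℝ → ℝ) (ρ : ℝ≥0∞), LinePar g1 r1 T γ ρ →
    FinStep Φ f₀ f T γ ρ

/-! ### Elementary facts -/

theorem Vanish.zero : Vanish fun _ _ => 0 := fun _ _ => ⟨1, one_pos, 0, fun _ _ _ _ _ => bot_le⟩

theorem Vanish.add {o o' : ℝ → ℝ → ℝ≥0∞} (h : Vanish o) (h' : Vanish o') :
    Vanish fun x y => o x y + o' x y := by
  intro η hη
  rcases eq_or_ne η ∞ with rfl | hηt
  · exact ⟨1, one_pos, 0, fun _ _ _ _ _ => le_top⟩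
  have h2 : 0 < η / 2 := ENNReal.div_pos hη.ne' (by norm_num)
  obtain ⟨a, ha, l, hl⟩ := h (η / 2) h2
  obtain ⟨b, hb, l', hl'⟩ := h' (η / 2) h2
  refine ⟨min a b, lt_min ha hb, max l l', fun x y hx hxa hy => ?_⟩
  calc o x y + o' x y ≤ η / 2 + η / 2 :=
        add_le_add (hl x y hx (hxa.trans (min_le_left _ _)) ((le_max_left _ _).trans hy))
          (hl' x y hx (hxa.trans (min_le_right _ _)) ((le_max_right _ _).trans hy))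
    _ = η := ENNReal.add_halves η

theorem Vanish.const_mul {o : ℝ → ℝ → ℝ≥0∞} (h : Vanish o) {c : ℝ≥0∞} (hc : c ≠ ∞) :
    Vanish fun x y => c * o x y := by
  intro η hη
  rcases eq_or_ne η ∞ with rfl | hηt
  · exact ⟨1, one_pos, 0, fun _ _ _ _ _ => le_top⟩
  have hc1 : c + 1 ≠ ∞ := by simpa using hc
  have h2 : 0 < η / (c + 1) := ENNReal.div_pos hη.ne' hc1
  obtain ⟨a, ha, l, hl⟩ := h _ h2
  refine ⟨a, ha, l, fun x y hx hxa hy => ?_⟩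
  calc c * o x y ≤ (c + 1) * (η / (c + 1)) := mul_le_mul' le_self_add (hl x y hx hxa hy)
    _ = η := ENNReal.mul_div_cancel (by simp) hc1

theorem Vanish.mono {o o' : ℝ → ℝ → ℝ≥0∞} (h : Vanish o')
    (hle : ∀ x y : ℝ, 0 < x → x ≤ 1 → 1 ≤ y → o x y ≤ o' x y) : Vanish o := by
  intro η hη
  obtain ⟨a, ha, l, hl⟩ := h η hη
  refine ⟨min a 1, lt_min ha one_pos, max l 1, fun x y hx hxa hy => ?_⟩
  exact (hle x y hx (hxa.trans (min_le_right _ _)) ((le_max_right _ _).trans hy)).trans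
    (hl x y hx (hxa.trans (min_le_left _ _)) ((le_max_left _ _).trans hy))

/-- A function of the window length only. -/
theorem Vanish.of_length {u : ℝ → ℝ} (hu : Tendsto u (𝓝[>] 0) (𝓝 0)) :
    Vanish fun x _ => ENNReal.ofReal (u x) := by
  intro η hη
  have h1 : Tendsto (fun x => ENNReal.ofReal (u x)) (𝓝[>] 0) (𝓝 0) := by
    have := (ENNReal.continuous_ofReal.tendsto 0).comp hu
    rw [ENNReal.ofReal_zero] at this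
    exact this
  have h2 : ∀ᶠ x in 𝓝[>] (0 : ℝ), ENNReal.ofReal (u x) ≤ η :=
    (h1.eventually (gt_mem_nhds hη)).mono fun _ h => le_of_lt h
  rw [eventually_nhdsWithin_iff, Metric.eventually_nhds_iff] at h2
  obtain ⟨a, ha, h⟩ := h2
  refine ⟨a / 2, by positivity, 0, fun x _ hx hxa _ => h ?_ hx⟩
  rw [Real.dist_eq, sub_zero, abs_of_pos hx]
  linarith

theorem Vanish.length : Vanish fun x _ => ENNReal.ofReal x :=
  Vanish.of_length ((continuous_id.tendsto (0 : ℝ)).mono_left nhdsWithin_le_nhds)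

theorem Vanish.sqrt_length : Vanish fun x _ => ENNReal.ofReal (√x) :=
  Vanish.of_length (by
    have := (Real.continuous_sqrt.tendsto (0 : ℝ))
    rw [Real.sqrt_zero] at this
    exact this.mono_left nhdsWithin_le_nhds)

/-- The inverse of the strength of the weight. -/
theorem Vanish.inv_L : Vanish fun _ y => ENNReal.ofReal y⁻¹ := by
  intro η hη
  have h1 : Tendsto (fun y : ℝ => ENNReal.ofReal y⁻¹) atTop (𝓝 0) := by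
    have := (ENNReal.continuous_ofReal.tendsto 0).comp (tendsto_inv_atTop_zero (𝕜 := ℝ))
    rw [ENNReal.ofReal_zero] at this
    exact this
  have h2 : ∀ᶠ y in atTop, ENNReal.ofReal (y : ℝ)⁻¹ ≤ η :=
    (h1.eventually (gt_mem_nhds hη)).mono fun _ h => le_of_lt h
  obtain ⟨l, hl⟩ := eventually_atTop.1 h2
  exact ⟨1, one_pos, l, fun _ y _ _ hy => hl y hy⟩

theorem EvW.mono {T : ℝ} {Q Q' : ℝ → ℝ → ℝ → ℝ → Prop} (h : EvW T Q)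
    (hq : ∀ h L tw te : ℝ, 0 < h → 1 ≤ L → Win h T tw te → Q h L tw te → Q' h L tw te) :
    EvW T Q' := by
  obtain ⟨a, ha, l, hl⟩ := h
  exact ⟨a, ha, l, fun x y tw te hx hxa hy h1 hw => hq x y tw te hx h1 hw
    (hl x y tw te hx hxa hy h1 hw)⟩

theorem EvW.and {T : ℝ} {Q Q' : ℝ → ℝ → ℝ → ℝ → Prop} (h : EvW T Q) (h' : EvW T Q') :
    EvW T fun h L tw te => Q h L tw te ∧ Q' h L tw te := by
  obtain ⟨a, ha, l, hl⟩ := h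
  obtain ⟨b, hb, l', hl'⟩ := h'
  exact ⟨min a b, lt_min ha hb, max l l', fun x y tw te hx hxa hy h1 hw =>
    ⟨hl x y tw te hx (hxa.trans (min_le_left _ _)) ((le_max_left _ _).trans hy) h1 hw,
      hl' x y tw te hx (hxa.trans (min_le_right _ _)) ((le_max_right _ _).trans hy) h1 hw⟩⟩

/-- A statement for all windows and all `L ≥ 1`. -/
theorem EvW.of_forall {T : ℝ} {Q : ℝ → ℝ → ℝ → ℝ → Prop}
    (hq : ∀ h L tw te : ℝ, 0 < h → h ≤ 1 → 1 ≤ L → Win h T tw te → Q h L tw te) : EvW T Q :=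
  ⟨1, one_pos, 1, fun x y tw te hx hxa _ h1 hw => hq x y tw te hx hxa h1 hw⟩

theorem LinePar.mono {g1 g1' : ℝ} {r1 r1' : ℝ≥0∞} {T : ℝ} {γ : ℝ → ℝ} {ρ : ℝ≥0∞}
    (h : LinePar g1 r1 T γ ρ) (hg : g1 ≤ g1') (hr : r1' ≤ r1) : LinePar g1' r1' T γ ρ := by
  obtain ⟨g0, κ, h1, h2, h3, h4⟩ := h.lin
  exact ⟨⟨g0, κ, h1, h2, h3, h4.trans hg⟩, hr.trans h.lo, h.hi⟩

/-- Admissible parameters exist. -/
theorem exists_linePar {g1 : ℝ} (hg : 0 < g1) {r1 : ℝ≥0∞} (hr : r1 < 1) {T : ℝ} (hT : 0 < T) :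
    ∃ (γ : ℝ → ℝ) (ρ : ℝ≥0∞), LinePar g1 r1 T γ ρ := by
  refine ⟨fun τ => g1 - g1 / (2 * T) * τ, r1, ⟨g1, g1 / (2 * T), by positivity, rfl, ?_, le_rfl⟩,
    le_rfl, hr⟩
  have : g1 / (2 * T) * T = g1 / 2 := by field_simp
  rw [this]
  linarith

theorem LinePar.measurable {g1 : ℝ} {r1 : ℝ≥0∞} {T : ℝ} {γ : ℝ → ℝ} {ρ : ℝ≥0∞}
    (h : LinePar g1 r1 T γ ρ) : Measurable γ := by
  obtain ⟨g0, κ, _, h2, _⟩ := h.lin
  rw [h2]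
  fun_prop

theorem LinePar.lower {g1 : ℝ} {r1 : ℝ≥0∞} {T : ℝ} {γ : ℝ → ℝ} {ρ : ℝ≥0∞}
    (h : LinePar g1 r1 T γ ρ) : ∃ γ₀ : ℝ, 0 < γ₀ ∧ ∀ τ ≤ T, γ₀ ≤ γ τ := by
  obtain ⟨g0, κ, h1, h2, h3, _⟩ := h.lin
  refine ⟨g0 - κ * T, h3, fun τ hτ => ?_⟩
  rw [h2]
  have := mul_le_mul_of_nonneg_left hτ h1.le
  show g0 - κ * T ≤ g0 - κ * τ
  linarith

end

end Crest.Agent.R122.Top602
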