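import Crest.Agent.R122.EBasic_602
import Crest.Agent.R122.GIVDefs_566

/-!
# Row 122: the top skeleton, definitions

* `JSup t` : energy-weighted no escape, uniformly up to time `t`.
* `IH t` : the induction hypothesis `JSup t ∧ TN t ∧ GIV t`.
* `Win h T tw te` : `(tw, te]` is a window of length at most `h` in `[0, T]`.
* `EStep` : section E (touch statistics), `FStep` : section F (ghost avoidance), `FinStep` : final
  passage.
-/

set_option autoImplicit false

open MeasureTheory Set Filter Topology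
open scoped ENNReal
open Crest.AnalysisR.Kinetic
open Crest.Agent.R122.Master566 Crest.Agent.R122.EDefs602 Crest.Agent.R122.GIV566

namespace Crest.Agent.R122.Top602

noncomputable section

/-- Energy-weighted no escape, uniformly up to time `t`. -/
def JSup (Φ : Space3 → ℝ) (f₀ : PhasePoint → ℝ) (t : ℝ) : Prop :=
  Small fun K ε => ⨆ s ∈ Icc 0 t, JE Φ f₀ ε K s

/-- The induction hypothesis at time `t`. -/
structure IH (Φ : Space3 → ℝ) (f₀ : PhasePoint → ℝ) (f : ℝ → PhasePoint → ℝ) (T : ℝ) (γ : ℝ → ℝ)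
    (ρ : ℝ≥0∞) (t : ℝ) : Prop where
  /-- no escape of energy -/
  je : JSup Φ f₀ t
  /-- negligibility of touches -/
  tn : TN Φ f₀ γ ρ t
  /-- identification of the ghost avoidance probabilities -/
  giv : GIV Φ f₀ f T t

/-- `(tw, te]` is a window of length at most `h` in `[0, T]`. -/
structure Win (h T tw te : ℝ) : Prop where
  nonneg : 0 ≤ tw
  le : tw ≤ te
  le_T : te ≤ T
  short : te ≤ tw + h

/-- Section E: the window step for the touch statistics. -/
def EStep (Φ : Space3 → ℝ) (f₀ : PhasePoint → ℝ) (f : ℝ → PhasePoint → ℝ) (T : ℝ) (γ : ℝ → ℝ)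
    (ρ : ℝ≥0∞) : Prop :=
  ∃ h : ℝ, 0 < h ∧ ∀ tw te : ℝ, Win h T tw te → IH Φ f₀ f T γ ρ tw →
    JSup Φ f₀ te ∧ TN Φ f₀ γ ρ te

/-- Section F: the window step for the ghost avoidance identification. -/
def FStep (Φ : Space3 → ℝ) (f₀ : PhasePoint → ℝ) (f : ℝ → PhasePoint → ℝ) (T : ℝ) (γ : ℝ → ℝ)
    (ρ : ℝ≥0∞) : Prop :=
  ∃ h : ℝ, 0 < h ∧ ∀ tw te : ℝ, Win h T tw te → IH Φ f₀ f T γ ρ tw →
    JSup Φ f₀ te → TN Φ f₀ γ ρ te → GIV Φ f₀ f T te

/-- Final passage from the induction hypothesis at time `T` to the lower bound. -/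
def FinStep (Φ : Space3 → ℝ) (f₀ : PhasePoint → ℝ) (f : ℝ → PhasePoint → ℝ) (T : ℝ) (γ : ℝ → ℝ)
    (ρ : ℝ≥0∞) : Prop :=
  IH Φ f₀ f T γ ρ T → ∀ s : ℕ, 1 ≤ s → FM167.LowerTV f₀ f T (flowEv Φ) s

end

end Crest.Agent.R122.Top602
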