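import Crest.Agent.R122.Q1Wgt_815
import Crest.Agent.R122.TopDefs_602

/-!
helper815, row 122, block Q (quenched densities), part 8: the standing hypotheses from `KData` and
the induction hypothesis.
-/

set_option autoImplicit false

open MeasureTheory Set Filter
open scoped ENNReal Topology Classical
open Crest.AnalysisR.Kinetic Crest.Agent.R122.Kin796 Crest.Agent.R122.Master566

noncomputable section

namespace Crest.Agent.R122.Q1815

variable {Φ : Space3 → ℝ} {f₀ : PhasePoint → ℝ} {f : ℝ → PhasePoint → ℝ} {β T : ℝ}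

theorem lintegral_mass (hD : KData Φ β T f₀ f) : ∫⁻ z, ENNReal.ofReal (f₀ z) = 1 := by
  rw [← ofReal_integral_eq_lintegral_ofReal hD.integrable (Eventually.of_forall hD.nonneg),
    hD.mass, ENNReal.ofReal_one]

/-- the standing hypotheses from `KData` and `GIV` -/
theorem Ctx.of_kdata (hD : KData Φ β T f₀ f) {tw : ℝ} (htw : tw ∈ Icc 0 T)
    (hG : GIV566.GIV Φ f₀ f T tw) {T₀ : ℝ} (hT₀ : 0 < T₀) : Ctx Φ β T f₀ f T₀ tw :=
  Ctx.of_giv hD.adm hD.beta_pos hD.T_pos hD.contDiff.continuous (lintegral_mass hD).le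
    hD.gaussian hD.sol htw hG hT₀

/-- the standing hypotheses from `KData` and the induction hypothesis -/
theorem Ctx.of_ih (hD : KData Φ β T f₀ f) {γ : ℝ → ℝ} {ρ : ℝ≥0∞} {tw : ℝ} (htw : tw ∈ Icc 0 T)
    (hI : Top602.IH Φ f₀ f T γ ρ tw) {T₀ : ℝ} (hT₀ : 0 < T₀) : Ctx Φ β T f₀ f T₀ tw :=
  Ctx.of_kdata hD htw hI.giv hT₀

/-- the constants of the kinetic bounds from `KData` -/
theorem exists_kinC_kdata (hD : KData Φ β T f₀ f) :
    ∃ h₀ kap lam C b : ℝ, Seg814.KinC Φ T f h₀ kap lam C b ∧ kap ≤ β :=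
  exists_kinC_le hD.adm hD.beta_pos hD.T_pos hD.sol

end Crest.Agent.R122.Q1815

end
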