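import Crest.Agent.R122.PairGas_292

/-!
# Inequality 3 of section E (row 122, board H4), helper292: the one-step inequality

* `outO`, `outF`, `K3` : the three continuation kernels.
* `StmtCC6` : case (C) at the gas level (helper658).
* `MJ6` : the majorant (size crossings, spread terms, outgoing pairs, LINK), `majAt6_MJ6`.
* `os2_add`, `os2_MJ6` : its structure integral.
* `Step6` : the one-step inequality, uniform over the class; `step6_of` : from the slots.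
-/

set_option autoImplicit false
set_option linter.unusedSectionVars false

open MeasureTheory ProbabilityTheory Set Filter
open scoped ENNReal Classical Topology
open Crest.AnalysisR.Kinetic
open Crest.Agent.R122.Kin796 Crest.Agent.R122.Kin796.CTree Crest.Agent.R122.Tree674
open Crest.Agent.R122.Relabel674 Crest.Agent.R122.GC311 Crest.Agent.R122.Flow671
open Crest.Agent.R122.EDefs602 Crest.Agent.R122.TreeLines335 Crest.Agent.R122.OC285
open Crest.Agent.R122.Master566 Crest.Agent.R122.GSCalc495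
open Crest.Agent.R122.Boost969 (LSt posAt)
open Crest.Agent.R122.Pair292 (Lab CDat PPar PX sig stO OutMap)
open Crest.Agent.R122.OneC285 (cfT rt cT cB cD cX lpos uI ptube RF MeasRF rfl4 RedAt StmtRed)

noncomputable section

namespace Crest.Agent.R122.PairD292

variable {Φ : Space3 → ℝ} {f₀ : PhasePoint → ℝ} {ε T te T' r : ℝ} {K : ℕ} {Q : EPar}

/-! ## Continuation kernels -/

/-- output map of the outcome `k` -/
def outO (Φ : Space3 → ℝ) (ε : ℝ) : Option Bool → ℝ → Space3 → OCout796.CD → LSt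
  | none => OCout796.lineC Φ ε
  | some false => OCout796.lineL' Φ ε
  | some true => OCout796.lineC' Φ ε

/-- mark rule of the outcome `k` : (mark of the fresh particle, old mark) -/
def outF : Option Bool → ℕ → ℕ → ℕ
  | none => fun m _n => m
  | some _ => fun m n => n + m

/-- continuation kernel of the outcome `k` -/
def KO (Φ : Space3 → ℝ) (ε b₀ te : ℝ) (q : ℕ → ℝ≥0∞) (k : Option Bool) :
    Kernel (Lab × LSt) (Lab × LSt) := stO ε b₀ te (outO Φ ε k) (outF k) q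

/-- the three continuation kernels together -/
def K3 (Φ : Space3 → ℝ) (ε b₀ te : ℝ) (q : ℕ → ℝ≥0∞) : Kernel (Lab × LSt) (Lab × LSt) :=
  KO Φ ε b₀ te q none + (KO Φ ε b₀ te q (some false) + KO Φ ε b₀ te q (some true))

/-- (658) **Case (C)** at the gas level. -/
def StmtCC6 (Φ : Space3 → ℝ) (f₀ : PhasePoint → ℝ) (Q : EPar) (T' b₀ : ℝ) (q : ℕ → ℕ → ℝ≥0∞)
    (PP : ℕ → PPar) : Prop :=
  PPOk Q PP → ∃ δ : ℕ → ℝ → ℝ≥0∞, Null δ ∧ ∀ (K : ℕ) (ε : ℝ), 0 < ε → ∀ k : Option Bool,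
    ∀ (Ξ ν : Measure (Lab × LSt)) (c : ℝ≥0∞), PX (PP K) Ξ ν c →
    OS2 Φ f₀ ε Q.te T' ν (fun P z m w θ => uG Φ ε Q.tw K P z w θ *
      tPK Φ ε K Q w (outP Φ ε P z θ k)) ≤
    PELK Φ f₀ ε K Q (ν.bind (KO Φ ε b₀ Q.te (q K) k)) + c * δ K ε

/-! ## The majorant -/

/-- measurable ghost indicator -/
def gI (Φ : Space3 → ℝ) (ε tw : ℝ) (K : ℕ) (P : CTree) (z : PhasePoint × Par P) (m : ℕ)
    (w : Config m) (θ : Lab × LSt) : ℝ≥0∞ :=
  if OkL K θ ∧ P.leaves ≤ K then H5994.gh Φ ε tw P z ⟨m, w⟩ else 0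

/-- size crossing -/
def xcI (K : ℕ) (P : CTree) (θ : Lab × LSt) : ℝ≥0∞ := if K < (eL θ).2 + P.leaves then 1 else 0

/-- spread terms -/
def spI (ε r : ℝ) (tO tY : SF2) (P : CTree) (z : PhasePoint × Par P) (m : ℕ) (w : Config m)
    (θ : Lab × LSt) : ℝ≥0∞ := if r ≤ age ε z θ then tO P z m w θ else tY P z m w θ

/-- the whole majorant -/
def MJ6 (Φ : Space3 → ℝ) (ε : ℝ) (K : ℕ) (Q : EPar) (r : ℝ) (tO tY bd : SF2) : SF2 :=
  fun P z m w θ => gI Φ ε Q.tw K P z m w θ * (xcI K P θ + (spI ε r tO tY P z m w θ +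
    (∑ k : Option Bool, tPK Φ ε K Q w (outP Φ ε P z θ k) + bd P z m w θ)))

theorem gI_eq_uG {P : CTree} {z : PhasePoint × Par P} (h : Adm Φ P z.1.2 z.2) {tw : ℝ} {m : ℕ}
    (w : Config m) (θ : Lab × LSt) : gI Φ ε tw K P z m w θ = uG Φ ε tw K P z w θ := by
  unfold gI uG
  rw [gh_eq_uI h]

theorem measSF2_gI (hΦ : AdmissiblePotential Φ) (hε : 0 < ε) (tw : ℝ) :
    MeasSF2 (gI Φ ε tw K) := by
  intro P m
  unfold gI
  refine Measurable.ite ?_ ?_ measurable_const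
  · exact ((measurableSet_okL K).preimage
      (f := fun q : (PhasePoint × Par P) × (Config m × (Lab × LSt)) => q.2.2)
      (measurable_snd.comp measurable_snd)).inter (MeasurableSet.const _)
  · exact (measurable_gh_n hΦ hε tw P m).comp
      (f := fun q : (PhasePoint × Par P) × (Config m × (Lab × LSt)) => (q.2.1, q.1))
      ((measurable_fst.comp measurable_snd).prodMk measurable_fst)

theorem measSF2_xcI : MeasSF2 fun P _ _ _ θ => xcI K P θ := by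
  intro P m
  have h1 : Measurable fun q : (PhasePoint × Par P) × (Config m × (Lab × LSt)) =>
      (eL q.2.2).2 := (measurable_eL.comp (measurable_snd.comp measurable_snd)).snd
  have h2 : Measurable fun n : ℕ => if K < n + P.leaves then (1 : ℝ≥0∞) else 0 :=
    Measurable.of_discrete
  exact h2.comp h1

theorem measurable_ageP (ε : ℝ) (P : CTree) (m : ℕ) :
    Measurable fun q : (PhasePoint × Par P) × (Config m × (Lab × LSt)) => age ε q.1 q.2.2 := by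
  unfold age
  refine Measurable.sub ?_ ?_
  · exact (Nu0566.measurable_cT ε P).comp
      (f := fun q : (PhasePoint × Par P) × (Config m × (Lab × LSt)) => (q.1, eL q.2.2))
      (measurable_fst.prodMk (measurable_eL.comp (measurable_snd.comp measurable_snd)))
  · exact Pair292.measurable_sig.comp (measurable_fst.comp (measurable_snd.comp measurable_snd))

theorem measSF2_spI {tO tY : SF2} (hO : MeasSF2 tO) (hY : MeasSF2 tY) :
    MeasSF2 (spI ε r tO tY) := by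
  intro P m
  unfold spI
  exact Measurable.ite (measurableSet_le measurable_const (measurable_ageP ε P m)) (hO P m)
    (hY P m)

theorem measurable_outP (hΦ : AdmissiblePotential Φ) (ε : ℝ) (P : CTree) (k : Option Bool) :
    Measurable fun q : (PhasePoint × Par P) × (Lab × LSt) => outP Φ ε P q.1 q.2 k := by
  have he : Measurable fun q : (PhasePoint × Par P) × (Lab × LSt) => (q.1, eL q.2) :=
    measurable_fst.prodMk (measurable_eL.comp measurable_snd)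
  have hT := (Nu0566.measurable_cT ε P).comp he
  have hX := (Nu0566.measurable_cX ε P).comp he
  have hD := (Nu0566.measurable_cD ε P).comp he
  have hc : Measurable fun q : (PhasePoint × Par P) × (Lab × LSt) =>
      ((cT ε q.1 (eL q.2), (cX ε q.1 (eL q.2), cD ε q.1 (eL q.2))) :
        ℝ × (Space3 × OCout796.CD)) := hT.prodMk (hX.prodMk hD)
  have hm : Measurable fun q : (PhasePoint × Par P) × (Lab × LSt) => (eL q.2).2 :=
    (measurable_eL.comp measurable_snd).snd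
  have hm' : Measurable fun q : (PhasePoint × Par P) × (Lab × LSt) => (eL q.2).2 + P.leaves :=
    (Measurable.of_discrete (f := fun n : ℕ => n + P.leaves)).comp hm
  have hL : Measurable fun q : (PhasePoint × Par P) × (Lab × LSt) =>
      outL6 Φ ε P q.1 (eL q.2) k := by
    rcases k with _ | _ | _
    · exact ((Nu0566.measurable_lineC hΦ ε).comp hc).prodMk measurable_const
    · exact ((Nu0566.measurable_lineL' hΦ ε).comp hc).prodMk hm'
    · exact ((Nu0566.measurable_lineC' hΦ ε).comp hc).prodMk hm'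
  unfold outP
  exact ((measurable_snd.fst.fst).prodMk ((measurable_snd.fst.snd.fst).prodMk hL.snd)).prodMk
    hL.fst

theorem measSF2_tPKo (hΦ : AdmissiblePotential Φ) (hε : 0 < ε) (k : Option Bool) :
    MeasSF2 fun P z _ w θ => tPK Φ ε K Q w (outP Φ ε P z θ k) := by
  intro P m
  exact MeasPair522.measurable_tPK hΦ hε
    (w := fun q : (PhasePoint × Par P) × (Config m × (Lab × LSt)) => q.2.1)
    (θ := fun q : (PhasePoint × Par P) × (Config m × (Lab × LSt)) => outP Φ ε P q.1 q.2.2 k)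
    (measurable_fst.comp measurable_snd) ((measurable_outP hΦ ε P k).comp
      (f := fun q : (PhasePoint × Par P) × (Config m × (Lab × LSt)) => (q.1, q.2.2))
      (measurable_fst.prodMk (measurable_snd.comp measurable_snd))) K Q

theorem measSF2_MJ6 (hΦ : AdmissiblePotential Φ) (hε : 0 < ε) {tO tY bd : SF2}
    (hO : MeasSF2 tO) (hY : MeasSF2 tY) (hb : MeasSF2 bd) :
    MeasSF2 (MJ6 Φ ε K Q r tO tY bd) := by
  intro P m
  unfold MJ6
  exact ((measSF2_gI hΦ hε Q.tw) P m).mul ((measSF2_xcI P m).add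
    (((measSF2_spI hO hY) P m).add ((Finset.measurable_sum _ fun k _ =>
      (measSF2_tPKo hΦ hε k) P m).add (hb P m))))

/-- **The majorant property.** -/
theorem majAt6_MJ6 (hε : 0 < ε) (hQL : 0 ≤ Q.L) {tO tY bd : ℕ → ℝ → SF2}
    (hpt : StmtPt6 Φ Q T' r tO tY bd) :
    MajAt6 Φ ε K Q T' (MJ6 Φ ε K Q r (tO K ε) (tY K ε) (bd K ε)) := by
  intro P z m w θ hPK hR hu
  have h1 : gI Φ ε Q.tw K P z m w θ = 1 := by
    rw [gI_eq_uG hR.valid.1]
    unfold uG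
    rw [if_pos (show OkL K θ ∧ P.leaves ≤ K from ⟨hR.okL, hPK⟩)]
    exact if_pos hu
  unfold MJ6
  rw [h1, one_mul]
  by_cases hx : K < (eL θ).2 + P.leaves
  · refine le_trans ?_ le_self_add
    unfold xcI
    rw [if_pos hx]
    exact tPK_le_one hQL
  refine le_trans ?_ le_add_self
  obtain ⟨hA, hB⟩ := hpt K ε hε P z m w θ (not_lt.1 hx) hR hu
  unfold spI
  by_cases ha : r ≤ age ε z θ
  · rw [if_pos ha, ← add_assoc]
    exact hA ha
  · rw [if_neg ha]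
    refine (hB (not_le.1 ha)).trans (add_le_add le_rfl le_add_self)

/-! ## Calculus of `OS2` -/

theorem measV_ctH_uG (hΦ : AdmissiblePotential Φ) (hε : 0 < ε) {tw : ℝ} {X : SF2}
    (hX : MeasSF2 X) : MeasV Φ ε T' (ctH Φ ε te fun P z m w θ => uG Φ ε tw K P z w θ *
      X P z m w θ) := by
  intro P
  refine MeasVP.of_adm hΦ (F' := ctH Φ ε te (fun P z m w θ => gI Φ ε tw K P z m w θ *
    X P z m w θ) P) (fun m => ?_) fun z m w θ h => ?_
  · exact measurable_ctH hΦ (fun P m => (measSF2_gI hΦ hε tw P m).mul (hX P m)) P m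
  · unfold ctH
    simp only [gI_eq_uG h]

theorem os2_add (hΦ : AdmissiblePotential Φ) (hf : Measurable f₀) (hε : 0 < ε) {tw : ℝ}
    {ν : Measure (Lab × LSt)} [SFinite ν] {X : SF2} (hX : MeasSF2 X) (Y : SF2) :
    OS2 Φ f₀ ε te T' ν (fun P z m w θ => uG Φ ε tw K P z w θ * (X P z m w θ + Y P z m w θ)) =
      OS2 Φ f₀ ε te T' ν (fun P z m w θ => uG Φ ε tw K P z w θ * X P z m w θ) +
      OS2 Φ f₀ ε te T' ν (fun P z m w θ => uG Φ ε tw K P z w θ * Y P z m w θ) := by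
  rw [OS2_eq_GS, OS2_eq_GS, OS2_eq_GS, ← GS_add hΦ hf (measV_ctH_uG hΦ hε hX)]
  refine GS_congr_on fun P z m w θ _ _ => ?_
  unfold ctH
  by_cases h : (z, θ.2) ∈ OneC423.ctSet Φ ε te P
  · rw [indicator_of_mem (show θ ∈ {θ : Lab × LSt | (z, θ.2) ∈ OneC423.ctSet Φ ε te P} from h),
      indicator_of_mem (show θ ∈ {θ : Lab × LSt | (z, θ.2) ∈ OneC423.ctSet Φ ε te P} from h),
      indicator_of_mem (show θ ∈ {θ : Lab × LSt | (z, θ.2) ∈ OneC423.ctSet Φ ε te P} from h)]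
    exact mul_add _ _ _
  · rw [indicator_of_notMem (show θ ∉ {θ : Lab × LSt | (z, θ.2) ∈ OneC423.ctSet Φ ε te P} from h),
      indicator_of_notMem (show θ ∉ {θ : Lab × LSt | (z, θ.2) ∈ OneC423.ctSet Φ ε te P} from h),
      indicator_of_notMem (show θ ∉ {θ : Lab × LSt | (z, θ.2) ∈ OneC423.ctSet Φ ε te P} from h),
      add_zero]

theorem os2_sum (hΦ : AdmissiblePotential Φ) (hf : Measurable f₀) (hε : 0 < ε) {tw : ℝ}
    {ν : Measure (Lab × LSt)} [SFinite ν] {X : Option Bool → SF2} (hX : ∀ k, MeasSF2 (X k)) :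
    OS2 Φ f₀ ε te T' ν (fun P z m w θ => uG Φ ε tw K P z w θ * ∑ k, X k P z m w θ) =
      ∑ k, OS2 Φ f₀ ε te T' ν (fun P z m w θ => uG Φ ε tw K P z w θ * X k P z m w θ) := by
  have h := GS_finset_sum (T' := T') (ν := ν) hΦ hf (Finset.univ : Finset (Option Bool))
    (F := fun k => ctH Φ ε te fun P z m w θ => uG Φ ε tw K P z w θ * X k P z m w θ)
    fun k _ => measV_ctH_uG hΦ hε (hX k)
  simp only [OS2_eq_GS]
  rw [← h]
  refine GS_congr_on fun P z m w θ _ _ => ?_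
  unfold ctH
  by_cases h : (z, θ.2) ∈ OneC423.ctSet Φ ε te P
  · simp only [indicator_of_mem
      (show θ ∈ {θ : Lab × LSt | (z, θ.2) ∈ OneC423.ctSet Φ ε te P} from h), Finset.mul_sum]
  · simp only [indicator_of_notMem
      (show θ ∉ {θ : Lab × LSt | (z, θ.2) ∈ OneC423.ctSet Φ ε te P} from h),
      Finset.sum_const_zero]

theorem os2_MJ6 (hΦ : AdmissiblePotential Φ) (hf : Measurable f₀) (hε : 0 < ε)
    {ν : Measure (Lab × LSt)} [SFinite ν] {tO tY bd : SF2} (hO : MeasSF2 tO) (hY : MeasSF2 tY) :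
    OS2 Φ f₀ ε Q.te T' ν (MJ6 Φ ε K Q r tO tY bd) =
      OS2 Φ f₀ ε Q.te T' ν (fun P z m w θ => uG Φ ε Q.tw K P z w θ * xcI K P θ) +
      (OS2 Φ f₀ ε Q.te T' ν (fun P z m w θ => uG Φ ε Q.tw K P z w θ *
        spI ε r tO tY P z m w θ) +
      (∑ k, OS2 Φ f₀ ε Q.te T' ν (fun P z m w θ => uG Φ ε Q.tw K P z w θ *
        tPK Φ ε K Q w (outP Φ ε P z θ k)) +
      OS2 Φ f₀ ε Q.te T' ν (fun P z m w θ => uG Φ ε Q.tw K P z w θ * bd P z m w θ))) := by
  have h0 : OS2 Φ f₀ ε Q.te T' ν (MJ6 Φ ε K Q r tO tY bd) =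
      OS2 Φ f₀ ε Q.te T' ν (fun P z m w θ => uG Φ ε Q.tw K P z w θ *
        (xcI K P θ + (spI ε r tO tY P z m w θ +
          (∑ k : Option Bool, tPK Φ ε K Q w (outP Φ ε P z θ k) + bd P z m w θ)))) := by
    rw [OS2_eq_GS, OS2_eq_GS]
    refine GS_congr_on fun P z m w θ hz _ => ?_
    unfold ctH MJ6
    simp only [gI_eq_uG hz.1]
  rw [h0, os2_add hΦ hf hε (X := fun P _ _ _ θ => xcI K P θ) measSF2_xcI,
    os2_add hΦ hf hε (measSF2_spI hO hY),
    os2_add hΦ hf hε (X := fun P z m w θ => ∑ k : Option Bool,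
      tPK Φ ε K Q w (outP Φ ε P z θ k)) (fun P m => Finset.measurable_sum _ fun k _ =>
        (measSF2_tPKo hΦ hε k) P m), os2_sum hΦ hf hε (fun k => measSF2_tPKo hΦ hε k)]

/-! ## The one-step inequality -/

theorem lintegral_bind_add {ν : Measure (Lab × LSt)} {K₁ K₂ : Kernel (Lab × LSt) (Lab × LSt)}
    {F : Lab × LSt → ℝ≥0∞} (hF : Measurable F) :
    ∫⁻ p, F p ∂ν.bind (K₁ + K₂ : Kernel (Lab × LSt) (Lab × LSt)) = ∫⁻ p, F p ∂ν.bind K₁ + ∫⁻ p, F p ∂ν.bind K₂ := by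
  rw [Measure.lintegral_bind (Kernel.aemeasurable _) hF.aemeasurable,
    Measure.lintegral_bind (Kernel.aemeasurable _) hF.aemeasurable,
    Measure.lintegral_bind (Kernel.aemeasurable _) hF.aemeasurable,
    ← lintegral_add_left (hF.lintegral_kernel)]
  refine lintegral_congr fun p => ?_
  rw [Kernel.add_apply, lintegral_add_measure]

theorem isSFiniteKernel_KO (ε b₀ te : ℝ) {q : ℕ → ℝ≥0∞} (hq : ∀ m, q m ≠ ∞) (k : Option Bool) :
    IsSFiniteKernel (KO Φ ε b₀ te q k) := by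
  have := Pair292.isSFiniteKernel_incK (outF k) hq
  unfold KO stO Pair292.mkK Boost969.liftK
  infer_instance

theorem measurable_tPKw (hΦ : AdmissiblePotential Φ) (hε : 0 < ε) {n : ℕ} (w : Config n) :
    Measurable fun θ => tPK Φ ε K Q w θ :=
  (MeasPair522.measurable_tPK_joint hΦ hε K Q n).comp
    (f := fun θ : Lab × LSt => ((w, θ) : Config n × (Lab × LSt)))
    (measurable_const.prodMk measurable_id)

theorem pelk_bind_add (hΦ : AdmissiblePotential Φ) (hf : Measurable f₀) (hε : 0 < ε)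
    {ν : Measure (Lab × LSt)} [SFinite ν] {K₁ K₂ : Kernel (Lab × LSt) (Lab × LSt)}
    [IsSFiniteKernel K₁] : PELK Φ f₀ ε K Q (ν.bind (K₁ + K₂ : Kernel (Lab × LSt) (Lab × LSt))) =
      PELK Φ f₀ ε K Q (ν.bind K₁) + PELK Φ f₀ ε K Q (ν.bind K₂) := by
  unfold PELK
  have h1 : ∀ (n : ℕ) (w : Config n), ∫⁻ θ, tPK Φ ε K Q w θ ∂ν.bind (K₁ + K₂ : Kernel (Lab × LSt) (Lab × LSt)) =
      ∫⁻ θ, tPK Φ ε K Q w θ ∂ν.bind K₁ + ∫⁻ θ, tPK Φ ε K Q w θ ∂ν.bind K₂ := fun n w =>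
    lintegral_bind_add (measurable_tPKw hΦ hε w)
  simp only [h1]
  exact gcE_add hf ε fun n => (MeasPair522.measurable_tPK_joint hΦ hε K Q n).lintegral_prod_right'

theorem pelk_K3 (hΦ : AdmissiblePotential Φ) (hf : Measurable f₀) (hε : 0 < ε)
    {ν : Measure (Lab × LSt)} [SFinite ν] {b₀ : ℝ} {q : ℕ → ℝ≥0∞} (hq : ∀ m, q m ≠ ∞) :
    PELK Φ f₀ ε K Q (ν.bind (K3 Φ ε b₀ te q)) =
      ∑ k, PELK Φ f₀ ε K Q (ν.bind (KO Φ ε b₀ te q k)) := by
  have h1 := isSFiniteKernel_KO (Φ := Φ) ε b₀ te hq none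
  have h2 := isSFiniteKernel_KO (Φ := Φ) ε b₀ te hq (some false)
  unfold K3
  rw [pelk_bind_add hΦ hf hε, pelk_bind_add hΦ hf hε, Fintype.sum_option, Fintype.sum_bool]
  rw [add_comm (PELK Φ f₀ ε K Q (ν.bind (KO Φ ε b₀ te q (some false))))]

/-- **The one-step inequality**, uniform over the class of pair laws. -/
def Step6 (Φ : Space3 → ℝ) (f₀ : PhasePoint → ℝ) (Q : EPar) (T' r b₀ : ℝ) (q : ℕ → ℕ → ℝ≥0∞)
    (PP : ℕ → PPar) (bd : ℕ → ℝ → SF2) (C₁ C₂ : ℝ≥0∞) : Prop :=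
  ∃ S : ℕ → ℝ → ℝ≥0∞, Small S ∧ ∀ (K : ℕ) (ε : ℝ), 0 < ε → ε ≤ 1 → slk ε ≤ Q.te - Q.tw →
    ∀ (Ξ ν : Measure (Lab × LSt)) (c : ℝ≥0∞), PX (PP K) Ξ ν c →
    (∀ᵐ θ : Lab × LSt ∂ν, 0 ≤ Pair292.sig θ.1 ∧ Pair292.sig θ.1 ≤ θ.2.1) → OkAE Φ ε K ν →
    PELK Φ f₀ ε K Q ν ≤ c * (C₁ * XI Φ f₀ ε K Q +
      C₂ * XJ Φ f₀ ε K Q (Ioc (max 0 (Q.tw - r)) Q.te) + S K ε) +
      PELK Φ f₀ ε K Q (ν.bind (K3 Φ ε b₀ Q.te (q K))) +
      (BAD Φ f₀ ε K Q ν + OS2 Φ f₀ ε Q.te T' ν (fun P z m w θ => uG Φ ε Q.tw K P z w θ *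
        bd K ε P z m w θ))

/-- **The one-step inequality from the slots.** -/
theorem step6_of (hΦ : AdmissiblePotential Φ) (hf : Measurable f₀) (hte : 0 ≤ Q.te)
    (hQL : 0 ≤ Q.L) {b₀ : ℝ} {q : ℕ → ℕ → ℝ≥0∞} (hq : ∀ K m, q K m ≠ ∞) {PP : ℕ → PPar}
    (hPP : PPOk Q PP) {tO tY bd : ℕ → ℝ → SF2} {Csp Cd C₂ Cf : ℝ≥0∞} (hCsp : Csp ≠ ∞)
    (hCf : Cf ≠ ∞) (hTN : Small fun K ε => tnMass Φ f₀ Q.γ Q.ρ ε K Q.tw)
    (hred : StmtRed Φ f₀ Q.tw Q.te T') (hpt : StmtPt6 Φ Q T' r tO tY bd)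
    (hbd : ∀ K ε, 0 < ε → MeasSF2 (bd K ε)) (hsp : StmtSP6 Φ f₀ Q T' r PP tO tY Csp)
    (hdir : StmtDIR Φ f₀ Q r PP Cd C₂) (hxc : StmtXC6 Φ f₀ Q T' PP)
    (hrf : StmtRF6 Φ f₀ Q PP Cf) (hcc : StmtCC6 Φ f₀ Q T' b₀ q PP) :
    Step6 Φ f₀ Q T' r b₀ q PP bd (Csp + Cd) C₂ := by
  obtain ⟨B, hBm, hB, hBn⟩ := hred
  obtain ⟨hOY, δs, hδs, hsp⟩ := hsp hPP
  obtain ⟨δd, hδd, hdir⟩ := hdir hPP
  obtain ⟨Sx, hSx, hxc⟩ := hxc hPP
  obtain ⟨δc, hδc, hcc⟩ := hcc hPP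
  refine ⟨fun K ε => Csp * tnMass Φ f₀ Q.γ Q.ρ ε K Q.tw + (Sx K ε + (δs K ε + (δd K ε +
    (Cf * rfl4 Φ f₀ ε K Q.te (B K ε) + 3 * δc K ε)))), (hTN.const_mul hCsp).add (hSx.add
      (hδs.add (hδd.add ((hBn.const_mul hCf).add (hδc.const_mul (by simp))))).small), ?_⟩
  intro K ε hε hε1 hεw Ξ ν c hν hsig hok
  have := hν.sfν
  have h1 := pelk_le_os2 (K := K) (Q := Q) (T' := T') (ν := ν)
    (M := MJ6 Φ ε K Q r (tO K ε) (tY K ε) (bd K ε)) hΦ hf hε hte hQL hok (hBm K ε)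
    (fun k m V w j s h1 h2 h3 h4 h5 h6 h7 => hB K ε hε k m V w j s h1 h2 h3 h4 h5 h6 h7)
    (measSF2_MJ6 hΦ hε (hOY K ε hε).1 (hOY K ε hε).2 (hbd K ε hε)) (majAt6_MJ6 hε hQL hpt)
  rw [os2_MJ6 hΦ hf hε (hOY K ε hε).1 (hOY K ε hε).2] at h1
  have h2 : errB6 Φ f₀ ε K Q ν (B K ε) ≤ Cf * (c * rfl4 Φ f₀ ε K Q.te (B K ε)) :=
    hrf hPP K ε hε Ξ ν c hν hok (B K ε) (hBm K ε)
  have h3 := hxc K ε hε Ξ ν c hν
  have h4 := hsp K ε hε hε1 Ξ ν c hν hsig
  have h5 := hdir K ε hε hε1 hεw Ξ ν c hν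
  have h6 : ∑ k, OS2 Φ f₀ ε Q.te T' ν (fun P z m w θ => uG Φ ε Q.tw K P z w θ *
      tPK Φ ε K Q w (outP Φ ε P z θ k)) ≤
      PELK Φ f₀ ε K Q (ν.bind (K3 Φ ε b₀ Q.te (q K))) + 3 * (c * δc K ε) := by
    rw [pelk_K3 hΦ hf hε (hq K)]
    refine (Finset.sum_le_sum fun k _ => hcc K ε hε k Ξ ν c hν).trans (le_of_eq ?_)
    rw [Finset.sum_add_distrib, Finset.sum_const, Finset.card_univ]
    simp
  refine h1.trans ?_
  calc _ ≤ c * Sx K ε + (c * (Csp * (XI Φ f₀ ε K Q + tnMass Φ f₀ Q.γ Q.ρ ε K Q.tw) +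
          δs K ε) +
        ((PELK Φ f₀ ε K Q (ν.bind (K3 Φ ε b₀ Q.te (q K))) + 3 * (c * δc K ε)) +
        OS2 Φ f₀ ε Q.te T' ν (fun P z m w θ => uG Φ ε Q.tw K P z w θ *
          bd K ε P z m w θ))) + Cf * (c * rfl4 Φ f₀ ε K Q.te (B K ε)) +
        (c * (Cd * XI Φ f₀ ε K Q + C₂ * XJ Φ f₀ ε K Q (Ioc (max 0 (Q.tw - r)) Q.te) +
          δd K ε) + BAD Φ f₀ ε K Q ν) :=
        add_le_add (add_le_add (add_le_add h3 (add_le_add h4 (add_le_add h6 le_rfl))) h2)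
          (add_le_add h5 le_rfl)
    _ = _ := by ring

end Crest.Agent.R122.PairD292

end
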