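import Crest.Agent.R122.CaseC_658
import Crest.Agent.R122.Direct6c_658
import Crest.Agent.R122.PairStep_292

/-!
# Row 122, section E, case (C) (helper658): the literal slot `StmtCC6` of helper292
-/

set_option autoImplicit false
set_option linter.unusedSectionVars false

open MeasureTheory ProbabilityTheory Set Filter Topology
open scoped ENNReal
open Crest.AnalysisR.Kinetic
open Crest.Agent.R122.EDefs602
open Crest.Agent.R122.Boost969 (LSt posAt)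
open Crest.Agent.R122.Pair292 (Lab CDat PPar PX sig stO OutMap)
open Crest.Agent.R122.PairD292

namespace Crest.Agent.R122.CaseC658

noncomputable section

open scoped Classical

variable {Φ : Space3 → ℝ} {β T : ℝ} {f₀ : PhasePoint → ℝ} {f : ℝ → PhasePoint → ℝ}

theorem KO_eq (Φ : Space3 → ℝ) (ε b te : ℝ) (q : ℕ → ℝ≥0∞) (k : Option Bool) :
    KO Φ ε b te q k = stO ε b te (outK Φ ε k) (mrk k) q := by
  rcases k with _ | _ | _ <;> rfl

/-- **Case (C)**, the literal slot of `PairStep_292`. -/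
theorem stmtCC6 (hD : Master566.KData Φ β T f₀ f) {h₀ kap lam C b : ℝ}
    (hK : Seg814.KinC Φ T f h₀ kap lam C b) {Q : EPar} (htw : Q.tw ∈ Icc 0 T)
    (hG : GIV566.GIV Φ f₀ f T Q.tw) (hte : Q.te ≤ Q.tw + h₀) (hL : 0 ≤ Q.L)
    (hγ : Measurable Q.γ) {g0 : ℝ} (hg0 : 0 < g0) (hγ0 : ∀ τ ∈ Ioc (0 : ℝ) Q.te, g0 ≤ Q.γ τ)
    (hρ : Q.ρ < 1) (T' : ℝ) (PP : ℕ → PPar) :
    StmtCC6 Φ f₀ Q T' b (qK C lam) PP := by
  intro hPP
  obtain ⟨δ, hδ, h⟩ := caseC hD hK htw hG hte hL hγ hg0 hγ0 hρ hPP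
  refine ⟨δ, hδ, fun K ε hε k Ξ ν c hX => ?_⟩
  rw [KO_eq]
  exact h k T' K ε hε Ξ ν c hX

/-- **Case (C)**, in a window of section E. -/
theorem stmtCC6_win (hD : Master566.KData Φ β T f₀ f) {h₀ kap lam C b : ℝ}
    (hK : Seg814.KinC Φ T f h₀ kap lam C b) {g1 : ℝ} {r1 : ℝ≥0∞} {γ : ℝ → ℝ} {ρ : ℝ≥0∞}
    (hl : Top602.LinePar g1 r1 T γ ρ) {L tw te h : ℝ} (hL : 0 ≤ L) (hw : Top602.Win h T tw te)
    (hh : h ≤ h₀) (hG : GIV566.GIV Φ f₀ f T tw) (T' : ℝ) (PP : ℕ → PPar) :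
    StmtCC6 Φ f₀ (Top602.epar γ ρ L tw te) T' b (qK C lam) PP := by
  obtain ⟨hγ, γ₀, hγp, hγ₀⟩ := Direct658.exists_rate hl
  have h1 : te ≤ tw + h₀ := hw.short.trans (by linarith)
  exact stmtCC6 hD hK (Q := Top602.epar γ ρ L tw te) ⟨hw.nonneg, hw.le.trans hw.le_T⟩ hG
    h1 hL hγ hγp (fun τ hτ => hγ₀ τ (hτ.2.trans hw.le_T)) hl.hi T' PP

end

end Crest.Agent.R122.CaseC658
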