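import Crest.Agent.R122.PairDefs_292
import Crest.Agent.R122.EquivE_416
import Crest.Agent.R122.MeasEDefs_416
import Crest.Agent.R122.EFam_879

/-!
# Measurability and equivariance of the pair step (row 122, board H4), helper522

Random worlds `Z : Ω → MW ι` (`MeasW`), random lines, random configurations `w`, random pairs `θ`:

* `rse_ctL`, `measurable_mT2`, `measurableSet_dMeet2` : first contact of a free line with a world.
* `measurableSet_ok` : good worlds (`ok_iff` : finitely many measurable conditions).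
* `measurable_tC`, `measurableSet_t1`, `measurableSet_cMeet2`, `measurableSet_bMeet2`,
  `measurableSet_okL`, `measurableSet_okW`, `measurableSet_clM2_eq`, `measurable_tPK`.
* relabelling : `ctL_comap`, `mT2_comap`, `dMeet2_comap`, `tC_perm`, `cMeet2_perm`, `bMeet2_perm`,
  `okW_perm`, `t1_perm`, `tPK_perm`, `clM2_perm`.
* `pClusterMap_clM2` : `PClusterMap ε (clM2 Φ ε K T)`.
-/

set_option autoImplicit false
set_option linter.unusedSectionVars false

open MeasureTheory Set Filter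
open scoped ENNReal Classical Topology
open Crest.AnalysisR.Kinetic
open Crest.Agent.R122.Flow671 Crest.Agent.R122.GC311 Crest.Agent.R122.Ins45
open Crest.Agent.R122.Inf879 Crest.Agent.R122.EDefs602
open Crest.Agent.R122.MeasE416
open Crest.Agent.R122.Boost969 (LSt posAt)
open Crest.Agent.R122.Pair292 (Lab CDat PPar PX sig)
open Crest.Agent.R122.OneC285 (lpos)
open Crest.Agent.R122.PairD292

noncomputable section

namespace Crest.Agent.R122.MeasPair522

variable {Ω : Type*} [MeasurableSpace Ω] {Φ : Space3 → ℝ} {ε : ℝ}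

/-! ## Free lines and worlds -/

section world

variable {ι : Type} [Fintype ι] {Z : Ω → MW ι} {l : Ω → ML}

theorem measurable_lpos (hl : Measurable l) (s : ℝ) : Measurable fun ω => lpos (l ω) s := by
  have h1 : Measurable fun ω => back (l ω).1 := MeasW.measurable_back.comp hl.fst
  exact h1.fst.add (h1.snd.const_smul s)

theorem measurable_lpos_at (hl : Measurable l) {τ : Ω → ℝ} (hτ : Measurable τ) :
    Measurable fun ω => lpos (l ω) (τ ω) := by
  have h1 : Measurable fun ω => back (l ω).1 := MeasW.measurable_back.comp hl.fst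
  exact h1.fst.add (hτ.smul h1.snd)

theorem continuous_lpos (l : ML) : Continuous (lpos l) := by
  unfold lpos
  fun_prop

/-- Contacts of a random free line with a random world. -/
theorem rse_ctL (hΦ : AdmissiblePotential Φ) (hε : 0 < ε) (hZ : MeasW Z) (hl : Measurable l)
    (i : ι) : RSE fun ω s => CtL Φ ε (Z ω) (l ω) s i := by
  have hd : RSE fun ω s => dist (lpos (l ω) s) ((Z ω).path Φ ε s i).1 ≤ ε := by
    have h1 := CF0.dist_evo_path hΦ hε (b := fun ω => (Z ω).b) (t₀ := fun _ => (0 : ℝ))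
      (Z := fun ω => (Z ω).z) hZ.b measurable_const (measurable_pi_iff.2 hZ.z) i
      (c := fun ω s => lpos (l ω) s) (fun ω => continuous_lpos (l ω))
      (fun s => measurable_lpos hl s)
    exact (RCE.of_le h1 ε).rse.congr fun ω s => by
      rw [dist_comm]
      rfl
  exact (RSE.le_time (hZ.b i)).and ((RSE.le_time hl.fst.fst).and
    (((RSE.lt_time (hZ.b i)).or (RSE.lt_time hl.fst.fst)).and hd))

theorem rse_exists_ctL (hΦ : AdmissiblePotential Φ) (hε : 0 < ε) (hZ : MeasW Z)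
    (hl : Measurable l) : RSE fun ω s => ∃ i, CtL Φ ε (Z ω) (l ω) s i :=
  RSE.exists_finite fun i => rse_ctL hΦ hε hZ hl i

/-- First contact times are measurable (also with a random horizon). -/
theorem measurable_mT2' (hΦ : AdmissiblePotential Φ) (hε : 0 < ε) (hZ : MeasW Z)
    (hl : Measurable l) {T : Ω → ℝ} (hT : Measurable T) :
    Measurable fun ω => mT2 Φ ε (T ω) (Z ω) (l ω) := by
  unfold mT2
  exact RSE.measurable_first (rse_exists_ctL hΦ hε hZ hl) hl.fst.fst hT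

theorem measurable_mT2 (hΦ : AdmissiblePotential Φ) (hε : 0 < ε) (hZ : MeasW Z)
    (hl : Measurable l) (T : ℝ) : Measurable fun ω => mT2 Φ ε T (Z ω) (l ω) :=
  measurable_mT2' hΦ hε hZ hl measurable_const

/-- Contacts at random times. -/
theorem measurableSet_ctL (hΦ : AdmissiblePotential Φ) (hε : 0 < ε) (hZ : MeasW Z)
    (hl : Measurable l) {τ : Ω → ℝ} (hτ : Measurable τ) (i : ι) :
    MeasurableSet {ω | CtL Φ ε (Z ω) (l ω) (τ ω) i} :=
  (rse_ctL hΦ hε hZ hl i).measurableSet_at hτ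

/-- The first contact is with an infected particle. -/
theorem measurableSet_dMeet2 (hΦ : AdmissiblePotential Φ) (hε : 0 < ε) (hZ : MeasW Z)
    (hl : Measurable l) (K : ℕ) (T : ℝ) :
    MeasurableSet {ω | DMeet2 Φ ε K T (Z ω) (l ω)} := by
  have hT := measurable_mT2 hΦ hε hZ hl T
  refine (measurableSet_le hT measurable_const).inter ?_
  exact (RSE.exists_finite fun i =>
    (rse_ctL hΦ hε hZ hl i).and (hZ.inf hΦ hε K i)).measurableSet_at hT

/-! ### Good worlds -/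

/-- A world is good if and only if nobody is born on top of an alive particle and particles born at
the same instant separate. -/
theorem ok_iff (hΦ : AdmissiblePotential Φ) (hε : 0 < ε) (Z : MW ι) :
    Z.Ok Φ ε ↔ (BDom Φ Z.b 0 (Z.path Φ ε 0) ∧
      (∀ i, 0 < Z.b i → BDom Φ Z.b (Z.b i) (Z.path Φ ε (Z.b i)))) ∧
        BirthSep Z.b (Z.path Φ ε) ε := by
  constructor
  · intro h
    exact ⟨⟨h.bw.dom 0 le_rfl, fun i hi => h.bw.dom _ hi.le⟩, h.sep⟩
  · rintro ⟨⟨h1, h2⟩, h3⟩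
    refine ⟨?_, h3⟩
    rw [MW.path_zero hΦ hε] at h1
    exact bworld_evo hΦ hε h1 h2

theorem measurableSet_bDom (hΦ : AdmissiblePotential Φ) (hε : 0 < ε) (hZ : MeasW Z) {τ : Ω → ℝ}
    (hτ : Measurable τ) : MeasurableSet {ω | BDom Φ (Z ω).b (τ ω) ((Z ω).path Φ ε (τ ω))} := by
  by_cases hc : ContDiff ℝ 2 Φ
  · have : {ω | BDom Φ (Z ω).b (τ ω) ((Z ω).path Φ ε (τ ω))} = univ := by
      ext ω
      simp only [mem_ofPred_eq, mem_univ, iff_true]
      exact Or.inl hc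
    rw [this]
    exact MeasurableSet.univ
  · have h1 : {ω | BDom Φ (Z ω).b (τ ω) ((Z ω).path Φ ε (τ ω))} =
        ⋂ i : ι, ⋂ j : ι, {ω | i ≠ j → (Z ω).b i ≤ τ ω → (Z ω).b j ≤ τ ω →
          ((Z ω).path Φ ε (τ ω) i).1 ≠ ((Z ω).path Φ ε (τ ω) j).1} := by
      ext ω
      simp only [mem_ofPred_eq, mem_iInter]
      unfold BDom
      simp only [hc, false_or]
    rw [h1]
    refine MeasurableSet.iInter fun i => MeasurableSet.iInter fun j => ?_
    refine (MeasurableSet.const _).imp ((measurableSet_le (hZ.b i) hτ).imp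
      ((measurableSet_le (hZ.b j) hτ).imp ?_))
    exact (measurableSet_eq_fun (hZ.path_apply hΦ hε hτ i).fst
      (hZ.path_apply hΦ hε hτ j).fst).compl

theorem measurableSet_birthSep (hΦ : AdmissiblePotential Φ) (hε : 0 < ε) (hZ : MeasW Z) :
    MeasurableSet {ω | BirthSep (Z ω).b ((Z ω).path Φ ε) ε} := by
  have h1 : {ω | BirthSep (Z ω).b ((Z ω).path Φ ε) ε} =
      ⋂ j : ι, ⋂ k : ι, {ω | j ≠ k → (Z ω).b j = (Z ω).b k →
        ∃ n : ℕ, ¬ ∃ s ∈ Ioo ((Z ω).b j) ((Z ω).b j + 1 / ((n : ℝ) + 1)),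
          dist ((Z ω).path Φ ε s j).1 ((Z ω).path Φ ε s k).1 ≤ ε} := by
    ext ω
    simp only [mem_ofPred_eq, mem_iInter]
    unfold BirthSep
    refine forall_congr' fun j => forall_congr' fun k => forall_congr' fun _ =>
      forall_congr' fun _ => ?_
    constructor
    · rintro ⟨δ, hδ, h⟩
      obtain ⟨n, hn⟩ := exists_nat_one_div_lt hδ
      refine ⟨n, ?_⟩
      rintro ⟨s, hs, hd⟩
      exact absurd (h s hs.1 (hs.2.trans (by linarith))) (not_lt.2 hd)
    · rintro ⟨n, h⟩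
      refine ⟨1 / ((n : ℝ) + 1), by positivity, fun s h1 h2 => ?_⟩
      by_contra hd
      exact h ⟨s, ⟨h1, h2⟩, not_lt.1 hd⟩
  rw [h1]
  refine MeasurableSet.iInter fun j => MeasurableSet.iInter fun k => ?_
  refine (MeasurableSet.const _).imp ((measurableSet_eq_fun (hZ.b j) (hZ.b k)).imp ?_)
  have h2 : {ω | ∃ n : ℕ, ¬ ∃ s ∈ Ioo ((Z ω).b j) ((Z ω).b j + 1 / ((n : ℝ) + 1)),
      dist ((Z ω).path Φ ε s j).1 ((Z ω).path Φ ε s k).1 ≤ ε} =
      ⋃ n : ℕ, {ω | ∃ s ∈ Ioo ((Z ω).b j) ((Z ω).b j + 1 / ((n : ℝ) + 1)),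
        dist ((Z ω).path Φ ε s j).1 ((Z ω).path Φ ε s k).1 ≤ ε}ᶜ := by
    ext ω
    simp only [mem_ofPred_eq, mem_iUnion, mem_compl_iff]
  rw [h2]
  refine MeasurableSet.iUnion fun n => MeasurableSet.compl ?_
  have h3 := CF0.dist_evo hΦ hε (b := fun ω => (Z ω).b) (t₀ := fun _ => (0 : ℝ))
    (Z := fun ω => (Z ω).z) hZ.b measurable_const (measurable_pi_iff.2 hZ.z) j k
  exact (RCE.of_le h3 ε).rse.existsIoo (hZ.b j) ((hZ.b j).add_const _)

/-- **Good worlds form a measurable set.** -/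
theorem measurableSet_ok (hΦ : AdmissiblePotential Φ) (hε : 0 < ε) (hZ : MeasW Z) :
    MeasurableSet {ω | (Z ω).Ok Φ ε} := by
  have h1 : {ω | (Z ω).Ok Φ ε} = ({ω | BDom Φ (Z ω).b 0 ((Z ω).path Φ ε 0)} ∩
      ⋂ i : ι, {ω | 0 < (Z ω).b i → BDom Φ (Z ω).b ((Z ω).b i) ((Z ω).path Φ ε ((Z ω).b i))}) ∩
        {ω | BirthSep (Z ω).b ((Z ω).path Φ ε) ε} := by
    ext ω
    simp only [mem_ofPred_eq, mem_inter_iff, mem_iInter]
    exact ok_iff hΦ hε (Z ω)
  rw [h1]
  refine ((measurableSet_bDom hΦ hε hZ measurable_const).inter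
    (MeasurableSet.iInter fun i => ?_)).inter (measurableSet_birthSep hΦ hε hZ)
  exact (measurableSet_lt measurable_const (hZ.b i)).imp (measurableSet_bDom hΦ hε hZ (hZ.b i))

end world

/-! ## Relabelling -/

section relabel

variable {ι ι' : Type} [Fintype ι] [Fintype ι'] {T : ℝ} {K : ℕ}

theorem ctL_comap (hΦ : AdmissiblePotential Φ) (hε : 0 < ε) (Z : MW ι) (e : ι' ≃ ι) (l : ML)
    (s : ℝ) (i : ι') : CtL Φ ε (Z.comap e) l s i ↔ CtL Φ ε Z l s (e i) := by
  unfold CtL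
  rw [EquivE416.path_comap hΦ hε]
  rfl

theorem mT2_comap (hΦ : AdmissiblePotential Φ) (hε : 0 < ε) (Z : MW ι) (e : ι' ≃ ι) (l : ML) :
    mT2 Φ ε T (Z.comap e) l = mT2 Φ ε T Z l := by
  unfold mT2
  congr 1
  funext s
  refine propext ⟨fun ⟨i, h⟩ => ⟨e i, (ctL_comap hΦ hε Z e l s i).1 h⟩, fun ⟨i, h⟩ =>
    ⟨e.symm i, (ctL_comap hΦ hε Z e l s _).2 (by rwa [e.apply_symm_apply])⟩⟩

theorem dMeet2_comap (hΦ : AdmissiblePotential Φ) (hε : 0 < ε) (Z : MW ι) (e : ι' ≃ ι) (l : ML) :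
    DMeet2 Φ ε K T (Z.comap e) l ↔ DMeet2 Φ ε K T Z l := by
  unfold DMeet2
  rw [mT2_comap hΦ hε]
  refine and_congr_right fun _ => ⟨fun ⟨i, h1, h2⟩ => ⟨e i, (ctL_comap hΦ hε Z e l _ i).1 h1,
    (EquivE416.inf_comap hΦ hε K Z e _ i).1 h2⟩, fun ⟨i, h1, h2⟩ => ⟨e.symm i,
    (ctL_comap hΦ hε Z e l _ _).2 (by rwa [e.apply_symm_apply]),
    (EquivE416.inf_comap hΦ hε K Z e _ _).2 (by rwa [e.apply_symm_apply])⟩⟩

theorem ok_comap (hΦ : AdmissiblePotential Φ) (hε : 0 < ε) (Z : MW ι) (e : ι' ≃ ι) :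
    (Z.comap e).Ok Φ ε ↔ Z.Ok Φ ε := MW.ok_comap_iff hΦ hε e

variable {n : ℕ} (w : Config n) (σ : Equiv.Perm (Fin n)) (θ : Lab × LSt)

theorem zd_perm : Zd (fun i => w (σ i)) θ =
    (Zd w θ).comap (Equiv.sumCongr σ (Equiv.refl Unit)) :=
  EquivE416.add_perm w σ (MW.line (dL θ))

theorem tC_perm (hΦ : AdmissiblePotential Φ) (hε : 0 < ε) :
    tC Φ ε T (fun i => w (σ i)) θ = tC Φ ε T w θ := by
  unfold tC
  rw [zd_perm, mT2_comap hΦ hε]

theorem fut_perm (hΦ : AdmissiblePotential Φ) (hε : 0 < ε) (l : ML) (s : ℝ) (i : Fin n) :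
    (MW.cfg fun i => w (σ i)).Fut Φ ε (MW.line l) s i ↔
      (MW.cfg w).Fut Φ ε (MW.line l) s (σ i) :=
  EquivE416.fut_comap hΦ hε (MW.cfg w) (MW.line l) σ (Equiv.refl Unit) s i

theorem t1_perm (hΦ : AdmissiblePotential Φ) (hε : 0 < ε) (Q : EPar) :
    T1 Φ ε K Q (fun i => w (σ i)) θ ↔ T1 Φ ε K Q w θ := by
  unfold T1
  rw [EquivE416.thetaL_perm hΦ hε]

theorem okW_perm (hΦ : AdmissiblePotential Φ) (hε : 0 < ε) :
    OkW Φ ε (fun i => w (σ i)) θ ↔ OkW Φ ε w θ := by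
  unfold OkW
  rw [zd_perm, ok_comap hΦ hε, EquivE416.ins_comap, ok_comap hΦ hε]

theorem tPK_perm (hΦ : AdmissiblePotential Φ) (hε : 0 < ε) (Q : EPar) :
    tPK Φ ε K Q (fun i => w (σ i)) θ = tPK Φ ε K Q w θ := by
  unfold tPK
  rw [EquivE416.touchP_perm hΦ hε]

theorem cMeet2_perm (hΦ : AdmissiblePotential Φ) (hε : 0 < ε) (i : Fin n) :
    CMeet2 Φ ε K T (fun i => w (σ i)) θ i ↔ CMeet2 Φ ε K T w θ (σ i) := by
  have h1 : CtL Φ ε (Zd (fun i => w (σ i)) θ) (eL θ) (tC Φ ε T (fun i => w (σ i)) θ)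
      (Sum.inl i) ↔ CtL Φ ε (Zd w θ) (eL θ) (tC Φ ε T w θ) (Sum.inl (σ i)) := by
    rw [tC_perm w σ θ hΦ hε, zd_perm, ctL_comap hΦ hε]
    rfl
  have h2 : (∃ x, CtL Φ ε (Zd (fun i => w (σ i)) θ) (eL θ) (tC Φ ε T (fun i => w (σ i)) θ) x ∧
      (Zd (fun i => w (σ i)) θ).Inf Φ ε K (tC Φ ε T (fun i => w (σ i)) θ) x) ↔
      ∃ x, CtL Φ ε (Zd w θ) (eL θ) (tC Φ ε T w θ) x ∧
        (Zd w θ).Inf Φ ε K (tC Φ ε T w θ) x := by
    rw [tC_perm w σ θ hΦ hε, zd_perm]
    set e := Equiv.sumCongr σ (Equiv.refl Unit) with he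
    constructor
    · rintro ⟨x, h1, h2⟩
      exact ⟨e x, (ctL_comap hΦ hε _ e _ _ x).1 h1, (EquivE416.inf_comap hΦ hε K _ e _ x).1 h2⟩
    · rintro ⟨x, h1, h2⟩
      exact ⟨e.symm x, (ctL_comap hΦ hε _ e _ _ _).2 (by rwa [e.apply_symm_apply]),
        (EquivE416.inf_comap hΦ hε K _ e _ _).2 (by rwa [e.apply_symm_apply])⟩
  have h3 : (MW.cfg fun i => w (σ i)).Fut Φ ε (MW.line (dL θ)) (tC Φ ε T (fun i => w (σ i)) θ) i ↔
      (MW.cfg w).Fut Φ ε (MW.line (dL θ)) (tC Φ ε T w θ) (σ i) := by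
    rw [tC_perm w σ θ hΦ hε]
    exact fut_perm w σ hΦ hε (dL θ) _ i
  have h4 := tC_perm (T := T) w σ θ hΦ hε
  constructor
  · intro h
    exact ⟨h4 ▸ h.lt, h4 ▸ h.le, h1.1 h.ct, fun h' => h.clean (h2.2 h'), fun h' =>
      h.nofut (h3.2 h')⟩
  · intro h
    exact ⟨h4.symm ▸ h.lt, h4.symm ▸ h.le, h1.2 h.ct, fun h' => h.clean (h2.1 h'), fun h' =>
      h.nofut (h3.1 h')⟩

theorem bMeet2_perm (hΦ : AdmissiblePotential Φ) (hε : 0 < ε) :
    BMeet2 Φ ε K T (fun i => w (σ i)) θ ↔ BMeet2 Φ ε K T w θ := by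
  unfold BMeet2
  rw [tC_perm w σ θ hΦ hε, zd_perm, dMeet2_comap hΦ hε]
  refine and_congr_right fun _ => and_congr_right fun _ => ?_
  constructor
  · intro h i
    have := h (σ.symm i)
    rwa [cMeet2_perm w σ θ hΦ hε, σ.apply_symm_apply] at this
  · intro h i
    rw [cMeet2_perm w σ θ hΦ hε]
    exact h (σ i)

/-- The condition of the cluster map. -/
theorem cMeetE_perm (hΦ : AdmissiblePotential Φ) (hε : 0 < ε) (i : Fin n) :
    (CMeet2 Φ ε K T (fun i => w (σ i)) θ i ∧ tC Φ ε T (fun i => w (σ i)) θ + slk ε <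
      (MW.cfg fun i => w (σ i)).thetaL Φ ε K T (dL θ)) ↔
    (CMeet2 Φ ε K T w θ (σ i) ∧ tC Φ ε T w θ + slk ε <
      (MW.cfg w).thetaL Φ ε K T (dL θ)) := by
  rw [cMeet2_perm w σ θ hΦ hε, tC_perm w σ θ hΦ hε, EquivE416.thetaL_perm hΦ hε]

/-- **Equivariance of the cluster map.** -/
theorem clM2_perm (hΦ : AdmissiblePotential Φ) (hε : 0 < ε) (i : Fin n) :
    clM2 Φ ε K T n w (σ i) θ = (clM2 Φ ε K T n (fun i => w (σ i)) i θ).map σ.toEmbedding := by
  have hiff := cMeetE_perm (K := K) (T := T) w σ θ hΦ hε i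
  have h1 : (clM2 Φ ε K T n (fun i => w (σ i)) i θ).map σ.toEmbedding =
      if CMeet2 Φ ε K T w θ (σ i) ∧ tC Φ ε T w θ + slk ε <
        (MW.cfg w).thetaL Φ ε K T (dL θ) then
        (preC Φ ε (fun i => w (σ i)) (tC Φ ε T w θ) i).map σ.toEmbedding else ∅ := by
    unfold clM2
    by_cases h : CMeet2 Φ ε K T w θ (σ i) ∧ tC Φ ε T w θ + slk ε <
        (MW.cfg w).thetaL Φ ε K T (dL θ)
    · rw [if_pos h, if_pos (hiff.2 h), tC_perm w σ θ hΦ hε]
    · rw [if_neg h, if_neg fun h' => h (hiff.1 h'), Finset.map_empty]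
  rw [h1]
  unfold clM2
  by_cases h : CMeet2 Φ ε K T w θ (σ i) ∧ tC Φ ε T w θ + slk ε <
      (MW.cfg w).thetaL Φ ε K T (dL θ)
  · rw [if_pos h, if_pos h]
    ext k
    rw [Finset.mem_map]
    constructor
    · intro hk
      refine ⟨σ.symm k, (EquivE416.mem_preC_perm hΦ hε w σ _ i _).2 ?_, ?_⟩
      · rwa [σ.apply_symm_apply]
      · exact σ.apply_symm_apply k
    · rintro ⟨k', hk', rfl⟩
      exact (EquivE416.mem_preC_perm hΦ hε w σ _ i k').1 hk'
  · rw [if_neg h, if_neg h]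

end relabel

/-! ## Pairs: measurability -/

section pairs

variable {n : ℕ} {w : Ω → Config n} {θ : Ω → Lab × LSt} {T : ℝ} {K : ℕ}

theorem measurable_dL : Measurable dL := measurable_fst.fst

theorem measurable_eL : Measurable eL := measurable_snd.prodMk measurable_fst.snd.snd

theorem measW_zd (hw : Measurable w) (hθ : Measurable θ) : MeasW fun ω => Zd (w ω) (θ ω) :=
  (MeasW.cfg hw).ins (measurable_dL.comp hθ)

theorem measurable_tC (hΦ : AdmissiblePotential Φ) (hε : 0 < ε) (hw : Measurable w)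
    (hθ : Measurable θ) (T : ℝ) : Measurable fun ω => tC Φ ε T (w ω) (θ ω) :=
  measurable_mT2 hΦ hε (measW_zd hw hθ) (measurable_eL.comp hθ) T

theorem measurableSet_okL (K : ℕ) (hθ : Measurable θ) : MeasurableSet {ω | OkL K (θ ω)} := by
  have hd := measurable_dL.comp hθ
  have he := measurable_eL.comp hθ
  have h1 : {ω | OkL K (θ ω)} = {ω | 0 < (dL (θ ω)).1.1} ∩ ({ω | 1 ≤ (dL (θ ω)).2} ∩
      ({ω | (dL (θ ω)).2 ≤ K} ∩ ({ω | 0 < (eL (θ ω)).1.1} ∩ ({ω | 1 ≤ (eL (θ ω)).2} ∩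
        {ω | (eL (θ ω)).2 ≤ K})))) := by
    ext ω
    constructor
    · intro h
      exact ⟨h.d0, h.d1, h.dK, h.e0, h.e1, h.eK⟩
    · rintro ⟨h1, h2, h3, h4, h5, h6⟩
      exact ⟨h1, h2, h3, h4, h5, h6⟩
  rw [h1]
  exact (measurableSet_lt measurable_const hd.fst.fst).inter
    ((measurableSet_le measurable_const hd.snd).inter ((measurableSet_le hd.snd
      measurable_const).inter ((measurableSet_lt measurable_const he.fst.fst).inter
        ((measurableSet_le measurable_const he.snd).inter (measurableSet_le he.snd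
          measurable_const)))))

theorem measurableSet_okW (hΦ : AdmissiblePotential Φ) (hε : 0 < ε) (hw : Measurable w)
    (hθ : Measurable θ) : MeasurableSet {ω | OkW Φ ε (w ω) (θ ω)} :=
  (measurableSet_ok hΦ hε (measW_zd hw hθ)).inter
    (measurableSet_ok hΦ hε ((measW_zd hw hθ).ins (measurable_eL.comp hθ)))

theorem measurableSet_t1 (hΦ : AdmissiblePotential Φ) (hε : 0 < ε) (hw : Measurable w)
    (hθ : Measurable θ) (K : ℕ) (Q : EPar) : MeasurableSet {ω | T1 Φ ε K Q (w ω) (θ ω)} := by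
  have h1 : Measurable fun ω => (MW.cfg (w ω)).thetaL Φ ε K Q.te (dL (θ ω)) :=
    (MeasW.cfg hw).thetaL hΦ hε (measurable_dL.comp hθ) K measurable_const
  exact (measurableSet_lt measurable_const h1).inter (measurableSet_le h1 measurable_const)

theorem measurable_tPK (hΦ : AdmissiblePotential Φ) (hε : 0 < ε) (hw : Measurable w)
    (hθ : Measurable θ) (K : ℕ) (Q : EPar) : Measurable fun ω => tPK Φ ε K Q (w ω) (θ ω) := by
  unfold tPK
  exact Measurable.ite (measurableSet_okL K hθ) ((MeasW.cfg hw).touchP hΦ hε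
    (measurable_dL.comp hθ) (measurable_eL.comp hθ) K Q) measurable_const

theorem measurableSet_dMeet2_zd (hΦ : AdmissiblePotential Φ) (hε : 0 < ε) (hw : Measurable w)
    (hθ : Measurable θ) (K : ℕ) (T : ℝ) :
    MeasurableSet {ω | DMeet2 Φ ε K T (Zd (w ω) (θ ω)) (eL (θ ω))} :=
  measurableSet_dMeet2 hΦ hε (measW_zd hw hθ) (measurable_eL.comp hθ) K T

theorem measurableSet_cMeet2 (hΦ : AdmissiblePotential Φ) (hε : 0 < ε) (hw : Measurable w)
    (hθ : Measurable θ) (K : ℕ) (T : ℝ) (i : Fin n) :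
    MeasurableSet {ω | CMeet2 Φ ε K T (w ω) (θ ω) i} := by
  have he := measurable_eL.comp hθ
  have hd := measurable_dL.comp hθ
  have hZ := measW_zd hw hθ
  have hT := measurable_tC hΦ hε hw hθ T
  have h1 : {ω | CMeet2 Φ ε K T (w ω) (θ ω) i} =
      {ω | (eL (θ ω)).1.1 < tC Φ ε T (w ω) (θ ω)} ∩ ({ω | tC Φ ε T (w ω) (θ ω) ≤ T} ∩
      ({ω | CtL Φ ε (Zd (w ω) (θ ω)) (eL (θ ω)) (tC Φ ε T (w ω) (θ ω)) (Sum.inl i)} ∩
      ({ω | ∃ x, CtL Φ ε (Zd (w ω) (θ ω)) (eL (θ ω)) (tC Φ ε T (w ω) (θ ω)) x ∧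
        (Zd (w ω) (θ ω)).Inf Φ ε K (tC Φ ε T (w ω) (θ ω)) x}ᶜ ∩
      {ω | (MW.cfg (w ω)).Fut Φ ε (MW.line (dL (θ ω))) (tC Φ ε T (w ω) (θ ω)) i}ᶜ))) := by
    ext ω
    constructor
    · intro h
      exact ⟨h.lt, h.le, h.ct, h.clean, h.nofut⟩
    · rintro ⟨h1, h2, h3, h4, h5⟩
      exact ⟨h1, h2, h3, h4, h5⟩
  rw [h1]
  refine (measurableSet_lt he.fst.fst hT).inter ((measurableSet_le hT measurable_const).inter
    ((measurableSet_ctL hΦ hε hZ he hT (Sum.inl i)).inter (MeasurableSet.inter ?_ ?_)))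
  · exact ((RSE.exists_finite fun x =>
      (rse_ctL hΦ hε hZ he x).and (hZ.inf hΦ hε K x)).measurableSet_at hT).compl
  · exact (((MeasW.cfg hw).fut hΦ hε (MeasW.line hd) i).measurableSet_at hT).compl

theorem measurableSet_bMeet2 (hΦ : AdmissiblePotential Φ) (hε : 0 < ε) (hw : Measurable w)
    (hθ : Measurable θ) (K : ℕ) (T : ℝ) :
    MeasurableSet {ω | BMeet2 Φ ε K T (w ω) (θ ω)} := by
  have h1 : {ω | BMeet2 Φ ε K T (w ω) (θ ω)} = {ω | tC Φ ε T (w ω) (θ ω) ≤ T} ∩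
      ({ω | DMeet2 Φ ε K T (Zd (w ω) (θ ω)) (eL (θ ω))}ᶜ ∩
        ⋂ i, {ω | CMeet2 Φ ε K T (w ω) (θ ω) i}ᶜ) := by
    ext ω
    simp only [mem_inter_iff, mem_iInter, mem_compl_iff, mem_ofPred_eq]
    rfl
  rw [h1]
  exact (measurableSet_le (measurable_tC hΦ hε hw hθ T) measurable_const).inter
    ((measurableSet_dMeet2_zd hΦ hε hw hθ K T).compl.inter
      (MeasurableSet.iInter fun i => (measurableSet_cMeet2 hΦ hε hw hθ K T i).compl))

/-- The cluster strictly before a random time. -/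
theorem measurableSet_preC_eq (hΦ : AdmissiblePotential Φ) (hε : 0 < ε) (hw : Measurable w)
    {τ : Ω → ℝ} (hτ : Measurable τ) (q : Fin n) (D : Finset (Fin n)) :
    MeasurableSet {ω | preC Φ ε (w ω) (τ ω) q = D} := by
  have h1 : {ω | preC Φ ε (w ω) (τ ω) q = D} =
      ⋂ k : Fin n, {ω | k ∈ preC Φ ε (w ω) (τ ω) q ↔ k ∈ D} := by
    ext ω
    simp only [mem_ofPred_eq, mem_iInter]
    exact Finset.ext_iff
  rw [h1]
  refine MeasurableSet.iInter fun k => ?_
  have h2 := measurableSet_mem_preC hΦ hε hw hτ q k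
  by_cases hk : k ∈ D
  · simp only [hk, iff_true]
    exact h2
  · simp only [hk, iff_false]
    exact h2.compl

/-- The first contact is before the touch time of the first line minus the slack. -/
theorem measurableSet_early (hΦ : AdmissiblePotential Φ) (hε : 0 < ε) (hw : Measurable w)
    (hθ : Measurable θ) (K : ℕ) (T : ℝ) :
    MeasurableSet {ω | tC Φ ε T (w ω) (θ ω) + slk ε <
      (MW.cfg (w ω)).thetaL Φ ε K T (dL (θ ω))} :=
  measurableSet_lt ((measurable_tC hΦ hε hw hθ T).add_const _)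
    ((MeasW.cfg hw).thetaL hΦ hε (measurable_dL.comp hθ) K measurable_const)

/-- **The cluster map is measurable.** -/
theorem measurableSet_clM2_eq (hΦ : AdmissiblePotential Φ) (hε : 0 < ε) (hw : Measurable w)
    (hθ : Measurable θ) (K : ℕ) (T : ℝ) (i : Fin n) (D : Finset (Fin n)) :
    MeasurableSet {ω | clM2 Φ ε K T n (w ω) i (θ ω) = D} := by
  have hc := (measurableSet_cMeet2 hΦ hε hw hθ K T i).inter
    (measurableSet_early hΦ hε hw hθ K T)
  have hp := measurableSet_preC_eq hΦ hε hw (measurable_tC hΦ hε hw hθ T) i D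
  have h1 : {ω | clM2 Φ ε K T n (w ω) i (θ ω) = D} =
      (({ω | CMeet2 Φ ε K T (w ω) (θ ω) i} ∩ {ω | tC Φ ε T (w ω) (θ ω) + slk ε <
        (MW.cfg (w ω)).thetaL Φ ε K T (dL (θ ω))}) ∩
        {ω | preC Φ ε (w ω) (tC Φ ε T (w ω) (θ ω)) i = D}) ∪
      (({ω | CMeet2 Φ ε K T (w ω) (θ ω) i} ∩ {ω | tC Φ ε T (w ω) (θ ω) + slk ε <
        (MW.cfg (w ω)).thetaL Φ ε K T (dL (θ ω))})ᶜ ∩ {_ω | (∅ : Finset (Fin n)) = D}) := by
    ext ω
    simp only [mem_union, mem_inter_iff, mem_ofPred_eq, mem_compl_iff]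
    unfold clM2
    by_cases h : CMeet2 Φ ε K T (w ω) (θ ω) i ∧ tC Φ ε T (w ω) (θ ω) + slk ε <
        (MW.cfg (w ω)).thetaL Φ ε K T (dL (θ ω))
    · simp [h]
    · simp only [h, if_false, not_false_eq_true, true_and, false_and, false_or]
  rw [h1]
  exact (hc.inter hp).union (hc.compl.inter (MeasurableSet.const _))

end pairs

/-! ## Output -/

section out

variable {T : ℝ} {K : ℕ}

/-- **`clM2` is a cluster map with a parameter.** -/
theorem pClusterMap_clM2 (hΦ : AdmissiblePotential Φ) (hε : 0 < ε) (K : ℕ) (T : ℝ) :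
    OC285.PClusterMap ε (clM2 Φ ε K T) where
  self_mem n Z i θ _ h := by
    unfold clM2 at h ⊢
    by_cases hc : CMeet2 Φ ε K T Z θ i ∧ tC Φ ε T Z θ + slk ε <
        (MW.cfg Z).thetaL Φ ε K T (dL θ)
    · rw [if_pos hc]
      simp [preC]
    · rw [if_neg hc] at h
      exact absurd h Finset.not_nonempty_empty
  equiv n σ Z i θ _ := clM2_perm Z σ θ hΦ hε i
  meas n i B := measurableSet_clM2_eq hΦ hε measurable_fst measurable_snd K T i B

/-- Number of the particles of the cluster map: `i` belongs to `clM2` at an early clean contact. -/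
theorem clM2_nonempty_iff {n : ℕ} {w : Config n} {θ : Lab × LSt} {i : Fin n} :
    (clM2 Φ ε K T n w i θ).Nonempty ↔ CMeet2 Φ ε K T w θ i ∧
      tC Φ ε T w θ + slk ε < (MW.cfg w).thetaL Φ ε K T (dL θ) := by
  unfold clM2
  by_cases hc : CMeet2 Φ ε K T w θ i ∧ tC Φ ε T w θ + slk ε <
      (MW.cfg w).thetaL Φ ε K T (dL θ)
  · rw [if_pos hc]
    exact ⟨fun _ => hc, fun _ => ⟨i, by simp [preC]⟩⟩
  · rw [if_neg hc]
    exact ⟨fun h => absurd h Finset.not_nonempty_empty, fun h => absurd h hc⟩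

/-- Integrand of `PELK`. -/
theorem measurable_tPK_joint (hΦ : AdmissiblePotential Φ) (hε : 0 < ε) (K : ℕ) (Q : EPar) (n : ℕ) :
    Measurable fun q : Config n × (Lab × LSt) => tPK Φ ε K Q q.1 q.2 :=
  measurable_tPK hΦ hε measurable_fst measurable_snd K Q

theorem measurable_thetaD (hΦ : AdmissiblePotential Φ) (hε : 0 < ε) (K : ℕ) (Q : EPar) (n : ℕ) :
    Measurable fun q : Config n × (Lab × LSt) => (MW.cfg q.1).thetaL Φ ε K Q.te (dL q.2) :=
  (MeasW.cfg measurable_fst).thetaL hΦ hε (measurable_dL.comp measurable_snd) K measurable_const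

/-- Integrand of `DIR` (v4). -/
theorem measurable_DIR_joint (hΦ : AdmissiblePotential Φ) (hε : 0 < ε) (K : ℕ) (Q : EPar) (n : ℕ) :
    Measurable fun q : Config n × (Lab × LSt) =>
      if OkW Φ ε q.1 q.2 ∧ (DMeet2 Φ ε K Q.te (Zd q.1 q.2) (eL q.2) ∨
        (tC Φ ε Q.te q.1 q.2 ≤ Q.te ∧
          (MW.cfg q.1).thetaL Φ ε K Q.te (dL q.2) ≤ tC Φ ε Q.te q.1 q.2 + slk ε)) then
        tPK Φ ε K Q q.1 q.2 else 0 :=
  Measurable.ite ((measurableSet_okW hΦ hε measurable_fst measurable_snd).inter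
    ((measurableSet_dMeet2_zd hΦ hε measurable_fst measurable_snd K Q.te).union
      ((measurableSet_le (measurable_tC hΦ hε measurable_fst measurable_snd Q.te)
        measurable_const).inter
        (measurableSet_le (measurable_thetaD hΦ hε K Q n)
          ((measurable_tC hΦ hε measurable_fst measurable_snd Q.te).add_const _)))))
    (measurable_tPK_joint hΦ hε K Q n) measurable_const

/-- The event of `BAD` (v4). -/
theorem measurableSet_bad_joint (hΦ : AdmissiblePotential Φ) (hε : 0 < ε) (K : ℕ) (Q : EPar)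
    (n : ℕ) : MeasurableSet {q : Config n × (Lab × LSt) |
      OkL K q.2 ∧ OkW Φ ε q.1 q.2 ∧ T1 Φ ε K Q q.1 q.2 ∧ BMeet2 Φ ε K Q.te q.1 q.2 ∧
        tC Φ ε Q.te q.1 q.2 + slk ε < (MW.cfg q.1).thetaL Φ ε K Q.te (dL q.2)} :=
  (measurableSet_okL K measurable_snd).inter ((measurableSet_okW hΦ hε measurable_fst
    measurable_snd).inter ((measurableSet_t1 hΦ hε measurable_fst measurable_snd K Q).inter
      ((measurableSet_bMeet2 hΦ hε measurable_fst measurable_snd K Q.te).inter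
        (measurableSet_lt ((measurable_tC hΦ hε measurable_fst measurable_snd Q.te).add_const _)
          (measurable_thetaD hΦ hε K Q n)))))

/-- Integrand of `BAD` (v4). -/
theorem measurable_bad_joint (hΦ : AdmissiblePotential Φ) (hε : 0 < ε) (K : ℕ) (Q : EPar) (n : ℕ) :
    Measurable fun q : Config n × (Lab × LSt) =>
      if OkL K q.2 ∧ OkW Φ ε q.1 q.2 ∧ T1 Φ ε K Q q.1 q.2 ∧ BMeet2 Φ ε K Q.te q.1 q.2 ∧
        tC Φ ε Q.te q.1 q.2 + slk ε < (MW.cfg q.1).thetaL Φ ε K Q.te (dL q.2) then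
        (1 : ℝ≥0∞) else 0 :=
  Measurable.ite (measurableSet_bad_joint hΦ hε K Q n) measurable_const measurable_const

/-- Integrand of `StmtRF6a` / `StmtRF6`: functionals at the contact time. -/
theorem measurable_at_tC (hΦ : AdmissiblePotential Φ) (hε : 0 < ε) (T : ℝ) {n : ℕ}
    {G : Config n × ℝ → ℝ≥0∞} (hG : Measurable G) :
    Measurable fun q : Config n × (Lab × LSt) => G (q.1, tC Φ ε T q.1 q.2) :=
  hG.comp (measurable_fst.prodMk (measurable_tC hΦ hε measurable_fst measurable_snd T))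

end out

end Crest.Agent.R122.MeasPair522

end
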