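import Crest.Agent.R122.SizeCross_815
import Crest.Agent.R122.PairDefs_292

/-!
helper815, row 122: **size crossings** of INEQUALITY 3 (pair laws), `StmtXC6` of `PairDefs_292`.

* `ct_vol_le` : volume of the positions from which a free line meets the root line of a tree;
* `pair_flux_le` : the flux of the second line of a translation invariant pair law through the root
  line of a fixed tree;
* `px_weight_le` : the weight `(1 + |v_e|) μ^mark` through `PX`;
* `stmtXC6` : `StmtXC6`.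
-/

set_option autoImplicit false

open MeasureTheory Set Filter
open scoped ENNReal Topology Classical
open Crest.AnalysisR.Kinetic Crest.Agent.R122.Kin796 Crest.Agent.R122.Disc416
  Crest.Agent.R122.Kin416 Crest.Agent.R122.Tree674
  Crest.Agent.R122.Hid424 Crest.Agent.R122.Quench815 Crest.Agent.R122.QDens815
  Crest.Agent.R122.GC311 Crest.Agent.R122.EDefs602 Crest.Agent.R122.OneC285
  Crest.Agent.R122.OneC423 Crest.Agent.R122.Q1815 Crest.Agent.R122.Master566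
  Crest.Agent.R122.PairD292
open Crest.Agent.R122.Boost969 (LSt gal avgL SprL)
open Crest.Agent.R122.Pair292 (Lab PPar PX posD shP sig)

noncomputable section

namespace Crest.Agent.R122.XC815

open CTree

variable {Φ : Space3 → ℝ} {f₀ : PhasePoint → ℝ} {f : ℝ → PhasePoint → ℝ} {β T : ℝ}

/-! ### Flux through the root line -/

/-- volume of the positions from which a free line meets the root line of a fixed tree -/
theorem ct_vol_le (hΦ : AdmissiblePotential Φ) {ε : ℝ} (hε : 0 < ε) {P : CTree}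
    (z : PhasePoint × Par P) {te τ : ℝ} (hτ : 0 < τ) (v : Space3) :
    ∫⁻ y : Space3, {l : LSt | (z, l) ∈ ctSet Φ ε te P}.indicator (fun _ => (1 : ℝ≥0∞)) (τ, (y, v)) ≤
      ENNReal.ofReal (ε ^ 2) * (ENNReal.ofReal te * ENNReal.ofReal Real.pi *
        ENNReal.ofReal (1 + ‖z.1.2‖)) * (if τ ≤ te then ENNReal.ofReal (1 + ‖v‖) else 0) := by
  have h0 := lintegral_ct_y (te := te) hΦ hε z τ v 0 (H := fun _ => (1 : ℝ≥0∞)) measurable_const
  have e1 : ∀ y : Space3, {l : LSt | (z, l) ∈ ctSet Φ ε te P}.indicator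
      (fun _ => (1 : ℝ≥0∞)) (τ, (y, v)) = {l : ML | (z, l.1) ∈ ctSet Φ ε te P}.indicator
        (fun _ => (1 : ℝ≥0∞)) ((τ, (y, v)), 0) := fun y => rfl
  simp only [e1]
  rw [h0]
  simp only [lintegral_const, Measure.restrict_apply_univ, one_mul]
  by_cases hte : τ ≤ te
  · rw [if_pos hte]
    have hJ : volume {s | τ < s ∧ s ≤ te ∧ Valid Φ ε P s z.1.2 z.2} ≤ ENNReal.ofReal te := by
      refine (measure_mono (t := Ioc 0 te) fun s hs => ⟨hτ.trans hs.1, hs.2.1⟩).trans ?_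
      rw [Real.volume_Ioc, sub_zero]
    by_cases hvu : v - z.1.2 = 0
    · rw [hvu, norm_zero, ENNReal.ofReal_zero, zero_mul, mul_zero]
      exact bot_le
    · rw [measure_impactDisc hvu]
      have h1 := norm_sub_le_mul v z.1.2
      calc ENNReal.ofReal (ε ^ 2) * (ENNReal.ofReal ‖v - z.1.2‖ *
            (ENNReal.ofReal Real.pi *
              volume {s | τ < s ∧ s ≤ te ∧ Valid Φ ε P s z.1.2 z.2}))
          ≤ ENNReal.ofReal (ε ^ 2) * ((ENNReal.ofReal (1 + ‖v‖) *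
            ENNReal.ofReal (1 + ‖z.1.2‖)) * (ENNReal.ofReal Real.pi * ENNReal.ofReal te)) := by
            gcongr
        _ = _ := by ring
  · rw [if_neg hte]
    have hJ : {s | τ < s ∧ s ≤ te ∧ Valid Φ ε P s z.1.2 z.2} = ∅ := by
      ext s
      simp only [mem_ofPred_eq, mem_empty_iff_false, iff_false]
      exact fun hh => hte (hh.1.le.trans hh.2.1)
    rw [hJ, measure_empty, mul_zero, mul_zero, mul_zero, mul_zero]

/-- **flux of the second line of a pair law through the root line of a fixed tree** -/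
theorem pair_flux_le (hΦ : AdmissiblePotential Φ) {ε : ℝ} (hε : 0 < ε) {ν : Measure (Lab × LSt)}
    (h : Pair292.InvFam shP (fun p : Lab × LSt => p.2) posD ν) {χ : Space3 → ℝ≥0∞}
    (hχ : Measurable χ) (hχ1 : ∫⁻ x, χ x = 1) {P : CTree} (z : PhasePoint × Par P) (te : ℝ)
    (g : ℕ → ℝ≥0∞) :
    ∫⁻ θ, {θ : Lab × LSt | (z, θ.2) ∈ ctSet Φ ε te P ∧ 0 < θ.2.1}.indicator
        (fun θ => g θ.1.2.2) θ ∂ν ≤
      ENNReal.ofReal (ε ^ 2) * (ENNReal.ofReal te * ENNReal.ofReal Real.pi *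
        ENNReal.ofReal (1 + ‖z.1.2‖)) *
        ∫⁻ θ, χ (posD θ) * (if θ.2.1 ≤ te then ENNReal.ofReal (1 + ‖θ.2.2.2‖) * g θ.1.2.2 else 0)
          ∂ν := by
  have hgm : Measurable fun θ : Lab × LSt => g θ.1.2.2 :=
    (Measurable.of_discrete (f := g)).comp (by fun_prop)
  have hS : MeasurableSet {θ : Lab × LSt | (z, θ.2) ∈ ctSet Φ ε te P ∧ 0 < θ.2.1} := by
    have h1 : Measurable fun θ : Lab × LSt => ((z, θ.2) : (PhasePoint × Par P) × (ℝ × PhasePoint)) :=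
      measurable_const.prodMk measurable_snd
    have h2 : Measurable fun θ : Lab × LSt => θ.2.1 := measurable_snd.fst
    exact (h1 (measurableSet_ctSet hΦ ε te P)).inter (measurableSet_lt measurable_const h2)
  have hfm : Measurable fun θ : Lab × LSt =>
      {θ : Lab × LSt | (z, θ.2) ∈ ctSet Φ ε te P ∧ 0 < θ.2.1}.indicator
        (fun θ => g θ.1.2.2) θ := hgm.indicator hS
  set A : ℝ≥0∞ := ENNReal.ofReal (ε ^ 2) * (ENNReal.ofReal te * ENNReal.ofReal Real.pi *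
        ENNReal.ofReal (1 + ‖z.1.2‖)) with hA
  have hwm : Measurable fun θ : Lab × LSt => χ (posD θ) *
      (if θ.2.1 ≤ te then ENNReal.ofReal (1 + ‖θ.2.2.2‖) * g θ.1.2.2 else 0) := by
    refine (hχ.comp Pair292.measurable_posD).mul (Measurable.ite ?_ ?_ measurable_const)
    · exact measurableSet_le (by fun_prop) measurable_const
    · exact Measurable.mul (by fun_prop) hgm
  rw [h.disint hχ hχ1 hfm, ← lintegral_const_mul _ hwm]
  refine lintegral_mono fun θ => ?_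
  have key : ∫⁻ a : Space3, {θ : Lab × LSt | (z, θ.2) ∈ ctSet Φ ε te P ∧ 0 < θ.2.1}.indicator
        (fun θ => g θ.1.2.2) (shP a θ) ≤
      A * (if θ.2.1 ≤ te then ENNReal.ofReal (1 + ‖θ.2.2.2‖) * g θ.1.2.2 else 0) := by
    by_cases hτ : 0 < θ.2.1
    · have e1 : ∀ a : Space3, {θ : Lab × LSt | (z, θ.2) ∈ ctSet Φ ε te P ∧ 0 < θ.2.1}.indicator
          (fun θ => g θ.1.2.2) (shP a θ) = {l : LSt | (z, l) ∈ ctSet Φ ε te P}.indicator
            (fun _ => (1 : ℝ≥0∞)) (θ.2.1, (θ.2.2.1 + a, θ.2.2.2)) * g θ.1.2.2 := by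
        intro a
        by_cases hc : (z, ((θ.2.1, (θ.2.2.1 + a, θ.2.2.2)) : LSt)) ∈ ctSet Φ ε te P
        · rw [indicator_of_mem (show shP a θ ∈ {θ : Lab × LSt | (z, θ.2) ∈ ctSet Φ ε te P ∧
              0 < θ.2.1} from ⟨hc, hτ⟩), indicator_of_mem (show
              ((θ.2.1, (θ.2.2.1 + a, θ.2.2.2)) : LSt) ∈ {l : LSt | (z, l) ∈ ctSet Φ ε te P}
              from hc), one_mul]
          rfl
        · rw [indicator_of_notMem (show shP a θ ∉ {θ : Lab × LSt | (z, θ.2) ∈ ctSet Φ ε te P ∧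
              0 < θ.2.1} from fun hh => hc hh.1), indicator_of_notMem (show
              ((θ.2.1, (θ.2.2.1 + a, θ.2.2.2)) : LSt) ∉ {l : LSt | (z, l) ∈ ctSet Φ ε te P}
              from hc), zero_mul]
      simp only [e1]
      have hm1 : Measurable fun y : Space3 => {l : LSt | (z, l) ∈ ctSet Φ ε te P}.indicator
          (fun _ => (1 : ℝ≥0∞)) (θ.2.1, (y, θ.2.2.2)) := by
        have h1 : Measurable fun y : Space3 =>
            ((z, (θ.2.1, (y, θ.2.2.2))) : (PhasePoint × Par P) × (ℝ × PhasePoint)) := by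
          fun_prop
        have h2 := h1 (measurableSet_ctSet hΦ ε te P)
        exact (measurable_const (a := (1 : ℝ≥0∞))).indicator h2
      have hm2 : Measurable fun a : Space3 => {l : LSt | (z, l) ∈ ctSet Φ ε te P}.indicator
          (fun _ => (1 : ℝ≥0∞)) (θ.2.1, (θ.2.2.1 + a, θ.2.2.2)) :=
        hm1.comp (measurable_const.add measurable_id)
      rw [lintegral_mul_const _ hm2]
      have e2 : ∫⁻ a : Space3, {l : LSt | (z, l) ∈ ctSet Φ ε te P}.indicator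
          (fun _ => (1 : ℝ≥0∞)) (θ.2.1, (θ.2.2.1 + a, θ.2.2.2)) =
          ∫⁻ y : Space3, {l : LSt | (z, l) ∈ ctSet Φ ε te P}.indicator
          (fun _ => (1 : ℝ≥0∞)) (θ.2.1, (y, θ.2.2.2)) :=
        lintegral_add_left_eq_self (fun y : Space3 => {l : LSt | (z, l) ∈ ctSet Φ ε te P}.indicator
          (fun _ => (1 : ℝ≥0∞)) (θ.2.1, (y, θ.2.2.2))) θ.2.2.1
      rw [e2]
      refine (mul_le_mul_left (ct_vol_le hΦ hε z hτ θ.2.2.2) _).trans (le_of_eq ?_)
      rw [mul_assoc, ite_mul, zero_mul]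
    · have e1 : ∀ a : Space3, {θ : Lab × LSt | (z, θ.2) ∈ ctSet Φ ε te P ∧ 0 < θ.2.1}.indicator
          (fun θ => g θ.1.2.2) (shP a θ) = 0 := fun a =>
        indicator_of_notMem (show shP a θ ∉ {θ : Lab × LSt | (z, θ.2) ∈ ctSet Φ ε te P ∧
              0 < θ.2.1} from fun hh => hτ hh.2) _
      simp only [e1, lintegral_zero]
      exact bot_le
  calc χ (posD θ) * ∫⁻ a : Space3, {θ : Lab × LSt | (z, θ.2) ∈ ctSet Φ ε te P ∧
        0 < θ.2.1}.indicator (fun θ => g θ.1.2.2) (shP a θ)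
      ≤ χ (posD θ) * (A * (if θ.2.1 ≤ te then ENNReal.ofReal (1 + ‖θ.2.2.2‖) * g θ.1.2.2
          else 0)) := mul_le_mul_right key _
    _ = _ := by ring

/-! ### The weight of the second line -/

/-- the weight of the second line through the spread law -/
theorem px_weight_le {PP : PPar} {Ξ ν : Measure (Lab × LSt)} {c : ℝ≥0∞} (h : PX PP Ξ ν c)
    {te : ℝ} (hv : ∀ z : LSt, z.1 ≤ te → ENNReal.ofReal (1 + ‖z.2.2‖) ≤ PP.W z) {μ : ℝ≥0∞}
    (hμ : μ ≤ PP.lam₁) {χ : Space3 → ℝ≥0∞} (hχ : Measurable χ) :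
    ∫⁻ θ, χ (posD θ) * (if θ.2.1 ≤ te then ENNReal.ofReal (1 + ‖θ.2.2.2‖) * μ ^ θ.1.2.2 else 0)
        ∂ν ≤
      2 * volume (Metric.ball (0 : Space3) 1) * (c * PP.rhs (fun q => χ q.1.1.2.1)) := by
  have hgm : Measurable fun θ : Lab × LSt => μ ^ θ.1.2.2 :=
    (Measurable.of_discrete (f := fun n : ℕ => μ ^ n)).comp (by fun_prop)
  have hGm : Measurable fun θ : Lab × LSt => χ (posD θ) *
      (if θ.2.1 ≤ te then ENNReal.ofReal (1 + ‖θ.2.2.2‖) * μ ^ θ.1.2.2 else 0) := by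
    refine (hχ.comp Pair292.measurable_posD).mul (Measurable.ite ?_ ?_ measurable_const)
    · exact measurableSet_le (by fun_prop) measurable_const
    · exact Measurable.mul (by fun_prop) hgm
  have hF : Measurable fun q : ML × ℝ => χ q.1.1.2.1 := hχ.comp (by fun_prop)
  have hwm : Measurable fun p : Lab × LSt =>
      χ (posD p) * (PP.lam₁ ^ p.1.2.2 * PP.W p.2) := by
    refine (hχ.comp Pair292.measurable_posD).mul (Measurable.mul ?_ (PP.hW.comp measurable_snd))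
    exact (Measurable.of_discrete (f := fun n : ℕ => PP.lam₁ ^ n)).comp (by fun_prop)
  refine (h.spr _ hGm).trans ?_
  have h1 : ∀ p : Lab × LSt, avgL sig (fun θ : Lab × LSt => χ (posD θ) *
      (if θ.2.1 ≤ te then ENNReal.ofReal (1 + ‖θ.2.2.2‖) * μ ^ θ.1.2.2 else 0)) p ≤
      2 * volume (Metric.ball (0 : Space3) 1) *
        (χ (posD p) * (PP.lam₁ ^ p.1.2.2 * PP.W p.2)) := by
    intro p
    unfold avgL
    have h2 : ∀ u ∈ Metric.ball (0 : Space3) 1, χ (posD (p.1, gal (sig p.1) u p.2)) *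
        (if (gal (sig p.1) u p.2).1 ≤ te then
          ENNReal.ofReal (1 + ‖(gal (sig p.1) u p.2).2.2‖) * μ ^ p.1.2.2 else 0) ≤
        2 * (χ (posD p) * (PP.lam₁ ^ p.1.2.2 * PP.W p.2)) := by
      intro u hu
      have e1 : posD (p.1, gal (sig p.1) u p.2) = posD p := rfl
      have e2 : (gal (sig p.1) u p.2).1 = p.2.1 := rfl
      have e3 : (gal (sig p.1) u p.2).2.2 = p.2.2.2 + u := rfl
      rw [e1, e2, e3]
      by_cases hte : p.2.1 ≤ te
      · rw [if_pos hte]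
        have h3 : ENNReal.ofReal (1 + ‖p.2.2.2 + u‖) ≤ 2 * PP.W p.2 := by
          refine le_trans ?_ (mul_le_mul_right (hv p.2 hte) 2)
          have e4 : (2 : ℝ≥0∞) * ENNReal.ofReal (1 + ‖p.2.2.2‖) =
              ENNReal.ofReal (2 * (1 + ‖p.2.2.2‖)) := by
            rw [ENNReal.ofReal_mul (by norm_num), ENNReal.ofReal_ofNat]
          rw [e4]
          refine ENNReal.ofReal_le_ofReal ?_
          have h4 := norm_add_le p.2.2.2 u
          have h5 : ‖u‖ < 1 := by simpa using hu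
          nlinarith [norm_nonneg p.2.2.2]
        have h4 : μ ^ p.1.2.2 ≤ PP.lam₁ ^ p.1.2.2 := pow_le_pow_left' hμ _
        calc χ (posD p) * (ENNReal.ofReal (1 + ‖p.2.2.2 + u‖) * μ ^ p.1.2.2)
            ≤ χ (posD p) * ((2 * PP.W p.2) * PP.lam₁ ^ p.1.2.2) := by gcongr
          _ = _ := by ring
      · rw [if_neg hte, mul_zero]
        exact bot_le
    refine (setLIntegral_mono' measurableSet_ball h2).trans (le_of_eq ?_)
    rw [setLIntegral_const]
    ring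
  refine (lintegral_mono h1).trans ?_
  rw [lintegral_const_mul _ hwm]
  exact mul_le_mul_right (h.marg _ hF) _

/-- the line measure of the test function of the first line -/
theorem rhs_le {PP : PPar} {γ : ℝ → ℝ} {ρ : ℝ≥0∞} {K : ℕ} {te : ℝ} (hl : PP.ℓ = lineM γ ρ K te)
    (ht : PP.t' = te) (hγ : Measurable γ) {g0 : ℝ} (hγ0 : ∀ τ ∈ Ioc (0 : ℝ) te, g0 ≤ γ τ)
    {χ : Space3 → ℝ≥0∞} (hχ : Measurable χ) (hχ1 : ∫⁻ x, χ x = 1) :
    PP.rhs (fun q => χ q.1.1.2.1) ≤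
      (1 + ENNReal.ofReal te) * (ENNReal.ofReal te * (cV g0 * (1 - ρ)⁻¹)) := by
  have hF : Measurable fun l : ML => χ l.1.2.1 := hχ.comp (by fun_prop)
  have h1 : ∫⁻ l, χ l.1.2.1 ∂(lineM γ ρ K te) ≤ ENNReal.ofReal te * (cV g0 * (1 - ρ)⁻¹) := by
    rw [EBasic602.lintegral_lineM hγ hF]
    have h2 : ∀ τ ∈ Ioc (0 : ℝ) te, ∫⁻ v : Space3, wG (γ τ) v *
        ∫⁻ y : Space3, ∑' n : ℕ, markW ρ K n * χ y ≤ cV g0 * (1 - ρ)⁻¹ := by
      intro τ hτ
      have e1 : ∫⁻ y : Space3, ∑' n : ℕ, markW ρ K n * χ y = ∑' n : ℕ, markW ρ K n := by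
        have : ∀ y : Space3, ∑' n : ℕ, markW ρ K n * χ y = (∑' n : ℕ, markW ρ K n) * χ y :=
          fun y => ENNReal.tsum_mul_right
        simp only [this]
        rw [lintegral_const_mul _ hχ, hχ1, mul_one]
      rw [e1]
      have hm : Measurable fun v : Space3 => wG g0 v * ENNReal.ofReal (1 + ‖v‖) := by
        unfold wG
        fun_prop
      calc ∫⁻ v : Space3, wG (γ τ) v * ∑' n : ℕ, markW ρ K n
          ≤ ∫⁻ v : Space3, wG g0 v * ENNReal.ofReal (1 + ‖v‖) * (1 - ρ)⁻¹ := by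
            refine lintegral_mono fun v => mul_le_mul' ?_ (EBasic602.tsum_markW_le K)
            refine (Kin796.wG_anti (hγ0 τ hτ) v).trans (le_mul_of_one_le_right' ?_)
            rw [← ENNReal.ofReal_one]
            exact ENNReal.ofReal_le_ofReal (by linarith [norm_nonneg v])
        _ = _ := by rw [lintegral_mul_const _ hm]; rfl
    refine (setLIntegral_mono' measurableSet_Ioc h2).trans (le_of_eq ?_)
    rw [setLIntegral_const, Real.volume_Ioc, sub_zero, mul_comm]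
  unfold PPar.rhs
  simp only [lintegral_const, Measure.restrict_apply_univ]
  rw [hl, ht, Real.volume_Icc, sub_zero, lintegral_mul_const _ hF, add_mul, one_mul]
  refine add_le_add h1 ?_
  rw [mul_comm]
  exact mul_le_mul_right h1 _

/-! ### The crossings -/

/-- weight of the sizes -/
def r6 (m : ℝ) (K : ℕ) (P : CTree) : ℝ≥0∞ :=
  if P.leaves ≤ K then ENNReal.ofReal m⁻¹ ^ K * ENNReal.ofReal m ^ P.leaves else 0

theorem r6_ne_top (m : ℝ) (K : ℕ) (P : CTree) : r6 m K P ≠ ∞ := by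
  unfold r6
  split_ifs
  · exact ENNReal.mul_ne_top (ENNReal.pow_ne_top ENNReal.ofReal_ne_top)
      (ENNReal.pow_ne_top ENNReal.ofReal_ne_top)
  · exact ENNReal.zero_ne_top

/-- the crossing indicator against the weights -/
theorem cross_le {m : ℝ} (hm : 1 ≤ m) {K n : ℕ} {P : CTree} (hP : P.leaves ≤ K)
    (h : K < n + P.leaves) : (1 : ℝ≥0∞) ≤ r6 m K P * ENNReal.ofReal m ^ n := by
  unfold r6
  rw [if_pos hP]
  have h1 : (1 : ℝ≥0∞) ≤ ENNReal.ofReal m := by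
    rw [← ENNReal.ofReal_one]
    exact ENNReal.ofReal_le_ofReal hm
  have h2 : ENNReal.ofReal m⁻¹ * ENNReal.ofReal m = 1 := by
    rw [← ENNReal.ofReal_mul (by positivity), inv_mul_cancel₀ (by linarith), ENNReal.ofReal_one]
  calc (1 : ℝ≥0∞) = (ENNReal.ofReal m⁻¹ * ENNReal.ofReal m) ^ K := by rw [h2, one_pow]
    _ = ENNReal.ofReal m⁻¹ ^ K * ENNReal.ofReal m ^ K := mul_pow _ _ _
    _ ≤ ENNReal.ofReal m⁻¹ ^ K * ENNReal.ofReal m ^ (P.leaves + n) :=
        mul_le_mul_right (pow_le_pow_right₀ h1 (by omega)) _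
    _ = _ := by rw [pow_add, mul_assoc]

/-- weight of the quenched densities -/
def φ6 (m : ℝ) (K : ℕ) (P : CTree) : ℝ × PhasePoint × Par P → ℝ≥0∞ := fun q =>
  r6 m K P * rootA P q

theorem measurable_φ6 (m : ℝ) (K : ℕ) (P : CTree) : Measurable (φ6 m K P) :=
  (measurable_rootA P).const_mul _

theorem φ6_ne_top (m : ℝ) (K : ℕ) (P : CTree) (q : ℝ × PhasePoint × Par P) :
    φ6 m K P q ≠ ∞ := ENNReal.mul_ne_top (r6_ne_top m K P) ENNReal.ofReal_ne_top

/-- coefficient of the crossing mass -/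
def a6 (m M : ℝ) (K : ℕ) : ℝ≥0∞ :=
  (ENNReal.ofReal m * (2 * ENNReal.ofReal M)) * ENNReal.ofReal m⁻¹ ^ K

theorem a6_ne_top (m M : ℝ) (K : ℕ) : a6 m M K ≠ ∞ := by
  unfold a6
  exact ENNReal.mul_ne_top (ENNReal.mul_ne_top ENNReal.ofReal_ne_top
    (ENNReal.mul_ne_top (by norm_num) ENNReal.ofReal_ne_top))
    (ENNReal.pow_ne_top ENNReal.ofReal_ne_top)

theorem tendsto_a6 {m : ℝ} (hm : 1 < m) (M : ℝ) : Tendsto (a6 m M) atTop (𝓝 0) := by
  have h1 : ENNReal.ofReal m⁻¹ < 1 := by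
    rw [← ENNReal.ofReal_one]
    exact (ENNReal.ofReal_lt_ofReal_iff one_pos).2 (inv_lt_one_of_one_lt₀ hm)
  have h2 := ENNReal.tendsto_pow_atTop_nhds_zero_of_lt_one h1
  have h3 : ENNReal.ofReal m * (2 * ENNReal.ofReal M) ≠ ∞ :=
    ENNReal.mul_ne_top ENNReal.ofReal_ne_top
      (ENNReal.mul_ne_top (by norm_num) ENNReal.ofReal_ne_top)
  have := ENNReal.Tendsto.const_mul (a := ENNReal.ofReal m * (2 * ENNReal.ofReal M)) h2
    (Or.inr h3)
  rwa [mul_zero] at this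

theorem φ6_le (hΦ : AdmissiblePotential Φ) {m lam lam₁ kap M : ℝ} (hm : 0 < m)
    (h2 : m * lam₁ ≤ lam) (hM : ∀ (P : CTree) (s : ℝ) (ℓ : PhasePoint) (p : Par P),
      wtA Φ P (s, ℓ, p) ≤ ENNReal.ofReal M * ENNReal.ofReal lam₁ ^ P.size *
        ENNReal.ofReal (Real.exp (kap * Seg814.eng Φ P ℓ.2 p)))
    {K : ℕ} {P : CTree} (s : ℝ) (ℓ : PhasePoint) (p : Par P)
    (hA : Adm Φ P ℓ.2 p) : φ6 m K P (s, ℓ, p) ≤ a6 m M K *
      ENNReal.ofReal lam ^ P.size * ENNReal.ofReal (Real.exp (kap * Seg814.eng Φ P ℓ.2 p)) := by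
  by_cases hP : P.leaves ≤ K
  swap
  · unfold φ6 r6
    rw [if_neg hP, zero_mul]
    exact bot_le
  have h3 : rootA P (s, ℓ, p) ≤ 2 * (ENNReal.ofReal M * ENNReal.ofReal lam₁ ^ P.size *
      ENNReal.ofReal (Real.exp (kap * Seg814.eng Φ P ℓ.2 p))) :=
    (rootA_le_wtA hΦ hA).trans (mul_le_mul_right (hM P s ℓ p) 2)
  have h4 : ENNReal.ofReal m * ENNReal.ofReal lam₁ ≤ ENNReal.ofReal lam := by
    rw [← ENNReal.ofReal_mul hm.le]
    exact ENNReal.ofReal_le_ofReal h2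
  calc φ6 m K P (s, ℓ, p) ≤ (ENNReal.ofReal m⁻¹ ^ K * ENNReal.ofReal m ^ (P.size + 1)) *
        (2 * (ENNReal.ofReal M * ENNReal.ofReal lam₁ ^ P.size *
          ENNReal.ofReal (Real.exp (kap * Seg814.eng Φ P ℓ.2 p)))) := by
        unfold φ6 r6
        rw [if_pos hP, CTree.leaves_eq P]
        exact mul_le_mul_right h3 _
    _ = a6 m M K * (ENNReal.ofReal m * ENNReal.ofReal lam₁) ^ P.size *
          ENNReal.ofReal (Real.exp (kap * Seg814.eng Φ P ℓ.2 p)) := by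
        unfold a6
        rw [pow_succ, mul_pow]
        ring
    _ ≤ _ := by gcongr

/-- the constant of the crossings -/
def C6 (te g0 : ℝ) (ρ : ℝ≥0∞) : ℝ≥0∞ :=
  (ENNReal.ofReal te * ENNReal.ofReal Real.pi) * (2 * volume (Metric.ball (0 : Space3) 1) *
    ((1 + ENNReal.ofReal te) * (ENNReal.ofReal te * (cV g0 * (1 - ρ)⁻¹))))

theorem C6_ne_top {te g0 : ℝ} (hg0 : 0 < g0) {ρ : ℝ≥0∞} (hρ : ρ < 1) : C6 te g0 ρ ≠ ∞ := by
  have h1 : (1 - ρ)⁻¹ ≠ ∞ := by
    rw [Ne, ENNReal.inv_eq_top, tsub_eq_zero_iff_le]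
    exact not_le.2 hρ
  unfold C6
  refine ENNReal.mul_ne_top (ENNReal.mul_ne_top ENNReal.ofReal_ne_top ENNReal.ofReal_ne_top)
    (ENNReal.mul_ne_top (ENNReal.mul_ne_top (by norm_num) measure_ball_lt_top.ne)
      (ENNReal.mul_ne_top (ENNReal.add_ne_top.2 ⟨ENNReal.one_ne_top, ENNReal.ofReal_ne_top⟩)
        (ENNReal.mul_ne_top ENNReal.ofReal_ne_top (ENNReal.mul_ne_top (cV_ne_top hg0) h1))))

/-- a normalised bump function -/
def chi (x : Space3) : ℝ≥0∞ :=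
  (Metric.ball (0 : Space3) 1).indicator (fun _ => (volume (Metric.ball (0 : Space3) 1))⁻¹) x

theorem measurable_chi : Measurable chi := measurable_const.indicator measurableSet_ball

theorem lintegral_chi : ∫⁻ x, chi x = 1 := by
  unfold chi
  rw [lintegral_indicator_const measurableSet_ball]
  exact ENNReal.inv_mul_cancel (Metric.measure_ball_pos volume 0 one_pos).ne'
    measure_ball_lt_top.ne

/-- the crossing mass against the quenched trees -/
theorem OS2_cross_le (hΦ : AdmissiblePotential Φ) (hf : Measurable f₀) {ε : ℝ} (hε : 0 < ε)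
    {K : ℕ} {Q : EPar} (hγ : Measurable Q.γ) {g0 : ℝ}
    (hγ0 : ∀ τ ∈ Ioc (0 : ℝ) Q.te, g0 ≤ Q.γ τ) (T' : ℝ) {PP : PPar}
    (hl : PP.ℓ = lineM Q.γ Q.ρ K Q.te) (ht : PP.t' = Q.te)
    (hv : ∀ z : LSt, z.1 ≤ Q.te → ENNReal.ofReal (1 + ‖z.2.2‖) ≤ PP.W z) {m : ℝ} (hm : 1 ≤ m)
    (hml : ENNReal.ofReal m ≤ PP.lam₁) {Ξ ν : Measure (Lab × LSt)} {c : ℝ≥0∞}
    (h : PX PP Ξ ν c) (hc : C6 Q.te g0 Q.ρ * c ≠ ∞) :
    OS2 Φ f₀ ε Q.te T' ν (fun P z _ w θ => PairD292.uG Φ ε Q.tw K P z w θ *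
      (if K < (eL θ).2 + P.leaves then 1 else 0)) ≤
      (C6 Q.te g0 Q.ρ * c) * gcE f₀ ε fun _ w => ∑ P ∈ GIVStep383.trees K,
        ∫⁻ ℓ : PhasePoint, Dw Φ f₀ P (φ6 m K P) ε Q.tw T' ℓ w := by
  have hmD : ∀ P : CTree, ∀ n, Measurable fun w : Config n => ∫⁻ ℓ : PhasePoint,
      Dw Φ f₀ P (φ6 m K P) ε Q.tw T' ℓ w := fun P n => by
    have h := (measurable_Dw_n hΦ hf (measurable_φ6 m K P) hε Q.tw n).comp
      (f := fun q : Config n × PhasePoint => (q.1, (T', q.2))) (by fun_prop)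
    exact h.lintegral_prod_right'
  have e1 : (gcE f₀ ε fun (n : ℕ) (w : Config n) => ∑ P ∈ GIVStep383.trees K,
      ∫⁻ ℓ : PhasePoint, Dw Φ f₀ P (φ6 m K P) ε Q.tw T' ℓ w) =
      ∑ P ∈ GIVStep383.trees K, gcE f₀ ε fun (n : ℕ) (w : Config n) =>
        ∫⁻ ℓ : PhasePoint, Dw Φ f₀ P (φ6 m K P) ε Q.tw T' ℓ w :=
    gcE_finset_sum hf ε (GIVStep383.trees K) (F := fun P n w =>
      ∫⁻ ℓ : PhasePoint, Dw Φ f₀ P (φ6 m K P) ε Q.tw T' ℓ w) fun P _ n => hmD P n
  rw [e1, Finset.mul_sum]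
  unfold OS2
  rw [← ENNReal.tsum_mul_left]
  -- trees with more than `K` leaves do not contribute
  have e2 : ∀ P ∉ GIVStep383.trees K, (activity ε * ∫⁻ z : PhasePoint × Par P,
      {z : PhasePoint × Par P | Valid Φ ε P T' z.1.2 z.2}.indicator
      (fun z => wt Φ P z.1.2 z.2 * (ToTree335.pf Φ f₀ ε P z *
        gcE f₀ ε (fun _ w => ∫⁻ θ, {θ : Lab × LSt | (z, θ.2) ∈ OneC423.ctSet Φ ε Q.te P}.indicator
          (fun θ => PairD292.uG Φ ε Q.tw K P z w θ *
            (if K < (eL θ).2 + P.leaves then 1 else 0)) θ ∂ν))) z) = 0 := by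
    intro P hP
    have hP' : ¬ P.leaves ≤ K := fun hh => hP (GIVStep383.mem_trees.2 hh)
    have e3 : ∀ (z : PhasePoint × Par P) (n : ℕ) (w : Config n) (θ : Lab × LSt),
        PairD292.uG Φ ε Q.tw K P z w θ = 0 := fun z n w θ => if_neg fun hh => hP' hh.2
    simp only [e3, zero_mul, indicator_zero, lintegral_zero, gcE_zero, mul_zero]
  rw [tsum_eq_sum e2]
  refine Finset.sum_le_sum fun P hP => ?_
  have hPK : P.leaves ≤ K := GIVStep383.mem_trees.1 hP
  rw [← lintegral_gw_unhit hΦ hf (measurable_φ6 m K P) (φ6_ne_top m K P) hε Q.tw T',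
    ← lintegral_const_mul' _ _ hc, ← lintegral_const_mul' _ _
      (show activity ε ≠ ∞ from ENNReal.ofReal_ne_top)]
  refine lintegral_mono fun z => ?_
  by_cases hV : Valid Φ ε P T' z.1.2 z.2
  swap
  · rw [indicator_of_notMem (show z ∉ {z : PhasePoint × Par P | Valid Φ ε P T' z.1.2 z.2} from hV),
      mul_zero]
    exact bot_le
  rw [indicator_of_mem (show z ∈ {z : PhasePoint × Par P | Valid Φ ε P T' z.1.2 z.2} from hV),
    gw_of_valid hV]
  -- the flux of the second line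
  set A : ℝ≥0∞ := ENNReal.ofReal (ε ^ 2) * ((C6 Q.te g0 Q.ρ * c) *
    (ENNReal.ofReal (1 + ‖z.1.2‖) * r6 m K P)) with hA
  have hAt : A ≠ ∞ := ENNReal.mul_ne_top ENNReal.ofReal_ne_top (ENNReal.mul_ne_top hc
    (ENNReal.mul_ne_top ENNReal.ofReal_ne_top (r6_ne_top m K P)))
  have hfl : r6 m K P * ∫⁻ θ, {θ : Lab × LSt | (z, θ.2) ∈ ctSet Φ ε Q.te P ∧
      0 < θ.2.1}.indicator (fun θ => ENNReal.ofReal m ^ θ.1.2.2) θ ∂ν ≤ A := by
    have h1 := pair_flux_le hΦ hε h.invFam measurable_chi lintegral_chi z Q.te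
      (fun n => ENNReal.ofReal m ^ n)
    have h2 := px_weight_le h hv hml measurable_chi
    have h3 := rhs_le (K := K) hl ht hγ hγ0 measurable_chi lintegral_chi
    calc r6 m K P * ∫⁻ θ, {θ : Lab × LSt | (z, θ.2) ∈ ctSet Φ ε Q.te P ∧
          0 < θ.2.1}.indicator (fun θ => ENNReal.ofReal m ^ θ.1.2.2) θ ∂ν
        ≤ r6 m K P * (ENNReal.ofReal (ε ^ 2) * (ENNReal.ofReal Q.te * ENNReal.ofReal Real.pi *
            ENNReal.ofReal (1 + ‖z.1.2‖)) * (2 * volume (Metric.ball (0 : Space3) 1) *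
            (c * ((1 + ENNReal.ofReal Q.te) *
              (ENNReal.ofReal Q.te * (cV g0 * (1 - Q.ρ)⁻¹)))))) := by
          refine mul_le_mul_right (h1.trans (mul_le_mul_right (h2.trans ?_) _)) _
          gcongr
      _ = A := by
          rw [hA]
          unfold C6
          ring
  have hin : gcE f₀ ε (fun _ w => ∫⁻ θ, {θ : Lab × LSt |
      (z, θ.2) ∈ OneC423.ctSet Φ ε Q.te P}.indicator
        (fun θ => PairD292.uG Φ ε Q.tw K P z w θ *
          (if K < (eL θ).2 + P.leaves then 1 else 0)) θ ∂ν) ≤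
      A * gcE f₀ ε (fun _ w => GIV566.unhitInd Φ ε (hid Φ ε P z.1 z.2) Q.tw w) := by
    rw [← gcE_const_mul f₀ ε hAt]
    refine gcE_mono f₀ ε fun n w _ => ?_
    have hu : uI Φ ε Q.tw P z w ≠ ∞ := by
      unfold uI GIV566.unhitInd
      split_ifs <;> simp
    have h4 : ∀ θ : Lab × LSt, {θ : Lab × LSt |
        (z, θ.2) ∈ OneC423.ctSet Φ ε Q.te P}.indicator
          (fun θ => PairD292.uG Φ ε Q.tw K P z w θ *
            (if K < (eL θ).2 + P.leaves then 1 else 0)) θ ≤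
        (r6 m K P * uI Φ ε Q.tw P z w) * {θ : Lab × LSt | (z, θ.2) ∈ ctSet Φ ε Q.te P ∧
          0 < θ.2.1}.indicator (fun θ => ENNReal.ofReal m ^ θ.1.2.2) θ := by
      intro θ
      by_cases hθ : θ ∈ {θ : Lab × LSt | (z, θ.2) ∈ OneC423.ctSet Φ ε Q.te P}
      swap
      · rw [indicator_of_notMem hθ]
        exact bot_le
      rw [indicator_of_mem hθ]
      unfold PairD292.uG
      by_cases hok : OkL K θ ∧ P.leaves ≤ K
      swap
      · rw [if_neg hok, zero_mul]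
        exact bot_le
      rw [if_pos hok]
      by_cases hx : K < (eL θ).2 + P.leaves
      swap
      · rw [if_neg hx, mul_zero]
        exact bot_le
      rw [if_pos hx, mul_one, indicator_of_mem (show θ ∈ {θ : Lab × LSt |
        (z, θ.2) ∈ ctSet Φ ε Q.te P ∧ 0 < θ.2.1} from ⟨hθ, hok.1.e0⟩)]
      have h5 := cross_le hm hPK hx
      calc uI Φ ε Q.tw P z w = 1 * uI Φ ε Q.tw P z w := (one_mul _).symm
        _ ≤ (r6 m K P * ENNReal.ofReal m ^ (eL θ).2) * uI Φ ε Q.tw P z w :=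
            mul_le_mul_left h5 _
        _ = _ := by
            show (r6 m K P * ENNReal.ofReal m ^ θ.1.2.2) * uI Φ ε Q.tw P z w = _
            ring
    refine (lintegral_mono h4).trans ?_
    rw [lintegral_const_mul' _ _ (ENNReal.mul_ne_top (r6_ne_top m K P) hu)]
    calc r6 m K P * uI Φ ε Q.tw P z w * ∫⁻ θ, {θ : Lab × LSt |
          (z, θ.2) ∈ ctSet Φ ε Q.te P ∧ 0 < θ.2.1}.indicator
            (fun θ => ENNReal.ofReal m ^ θ.1.2.2) θ ∂ν
        = (r6 m K P * ∫⁻ θ, {θ : Lab × LSt |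
          (z, θ.2) ∈ ctSet Φ ε Q.te P ∧ 0 < θ.2.1}.indicator
            (fun θ => ENNReal.ofReal m ^ θ.1.2.2) θ ∂ν) * uI Φ ε Q.tw P z w := by ring
      _ ≤ A * GIV566.unhitInd Φ ε (hid Φ ε P z.1 z.2) Q.tw w :=
          mul_le_mul' hfl (unhitInd_rel_le hε.le hV Q.tw w)
  have hact : activity ε * ENNReal.ofReal (ε ^ 2) = 1 := by
    unfold activity
    rw [← ENNReal.ofReal_mul (by positivity), inv_mul_cancel₀ (by positivity),
      ENNReal.ofReal_one]
  calc activity ε * (wt Φ P z.1.2 z.2 * (ToTree335.pf Φ f₀ ε P z * gcE f₀ ε (fun _ w =>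
        ∫⁻ θ, {θ : Lab × LSt | (z, θ.2) ∈ OneC423.ctSet Φ ε Q.te P}.indicator
          (fun θ => PairD292.uG Φ ε Q.tw K P z w θ *
            (if K < (eL θ).2 + P.leaves then 1 else 0)) θ ∂ν)))
      ≤ activity ε * (wt Φ P z.1.2 z.2 * (ToTree335.pf Φ f₀ ε P z *
          (A * gcE f₀ ε (fun _ w => GIV566.unhitInd Φ ε (hid Φ ε P z.1 z.2) Q.tw w)))) := by
        gcongr
    _ = (activity ε * ENNReal.ofReal (ε ^ 2)) * ((C6 Q.te g0 Q.ρ * c) * (wt Φ P z.1.2 z.2 *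
          ToTree335.pf Φ f₀ ε P z * (r6 m K P * ENNReal.ofReal (1 + ‖z.1.2‖)) *
            gcE f₀ ε (fun _ w => GIV566.unhitInd Φ ε (hid Φ ε P z.1 z.2) Q.tw w))) := by
        rw [hA]
        ring
    _ = _ := by rw [hact, one_mul]; rfl

/-- **(XC)** : the size crossings of INEQUALITY 3 are small. -/
theorem stmtXC6 (hD : KData Φ β T f₀ f) {Q : EPar} (htw : Q.tw ∈ Icc 0 T)
    (hG : GIV566.GIV Φ f₀ f T Q.tw) {h₀ kap lam b M : ℝ}
    (hK : KinL1.KinM Φ T f h₀ kap lam b M) {T' : ℝ} (hT' : 0 < T') (hT'2 : T' ≤ Q.tw + h₀)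
    (hγ : Measurable Q.γ) {g0 : ℝ} (hg0 : 0 < g0) (hγ0 : ∀ τ ∈ Ioc (0 : ℝ) Q.te, g0 ≤ Q.γ τ)
    (hρ : Q.ρ < 1) (PP : ℕ → PPar) : StmtXC6 Φ f₀ Q T' PP := by
  intro hPP
  have hΦ := hD.adm
  have hf : Measurable f₀ := hD.contDiff.continuous.measurable
  have X : Ctx Φ β T f₀ f T' Q.tw := Ctx.of_kdata hD htw hG hT'
  have hβ := hD.beta_pos
  have hlam : 1 < lam := hK.2.2.1
  have hkap : 0 < kap := hK.2.1
  set lam₁ : ℝ := Real.sqrt lam with hl1
  have hl1' : 1 < lam₁ := by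
    rw [hl1]
    exact Real.lt_sqrt_of_sq_lt (by simpa using hlam)
  have hl2 : lam₁ * lam₁ = lam := Real.mul_self_sqrt (by linarith)
  set kap' : ℝ := min kap β with hkap'
  have hkap'0 : 0 < kap' := lt_min hkap hβ
  obtain ⟨MA, hMA, hMAle⟩ := exists_wtA_le Φ hl1' hkap'0
  have hexp : ∀ (P : CTree) (v : Space3) (p : Par P),
      ENNReal.ofReal (Real.exp (kap' * Seg814.eng Φ P v p)) ≤
        ENNReal.ofReal (Real.exp (kap * Seg814.eng Φ P v p)) := fun P v p =>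
    ENNReal.ofReal_le_ofReal (Real.exp_le_exp.2 (mul_le_mul_of_nonneg_right (min_le_left _ _)
      (Seg814.eng_nonneg P v p)))
  -- the factor of the marks
  obtain ⟨l, hl, hle⟩ := hPP.lam
  obtain ⟨m₀, hm₀, hm₀l⟩ := ENNReal.lt_iff_exists_real_btwn.1 hl
  set m : ℝ := min m₀ lam₁ with hm
  have hm₀1 : 1 < m₀ := by
    have := hm₀l.1
    rw [← ENNReal.ofReal_one] at this
    exact (ENNReal.ofReal_lt_ofReal_iff_of_nonneg zero_le_one).1 this
  have hm1 : 1 < m := lt_min hm₀1 hl1'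
  have hml : ∀ K, ENNReal.ofReal m ≤ (PP K).lam₁ := fun K =>
    (ENNReal.ofReal_le_ofReal (min_le_left _ _)).trans (hm₀l.2.le.trans (hle K))
  have hmlam : m * lam₁ ≤ lam := by
    rw [← hl2]
    exact mul_le_mul_of_nonneg_right (min_le_right _ _) (by linarith)
  have hsmall := small_time X hK (t := T') ⟨hT'.le, hT'2⟩ le_rfl (φ := fun K P => φ6 m K P)
    (N := fun K => K) (fun K P =>
      Wgt.of_le (measurable_φ6 m K P) (kap := kap') (lam := lam)
        (by linarith [min_le_right kap β]) (a6_ne_top m MA K)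
        (fun s ℓ p hA => φ6_le hΦ (by linarith) hmlam hMAle s ℓ p hA))
    (a := a6 m MA) (a6_ne_top m MA) (tendsto_a6 hm1 MA)
    (fun K P ℓ p _ hA => (φ6_le hΦ (by linarith) hmlam hMAle T' ℓ p hA).trans
      (mul_le_mul_right (hexp P ℓ.2 p) _))
  have hC : C6 Q.te g0 Q.ρ ≠ ∞ := C6_ne_top hg0 hρ
  have hpos : Small fun K (_ : ℝ) => ((2 : ℝ≥0∞)⁻¹) ^ K :=
    Small.of_tendsto (ENNReal.tendsto_pow_atTop_nhds_zero_of_lt_one (by norm_num))
  refine ⟨_, (hsmall.const_mul hC).add hpos, fun K ε hε Ξ ν c hX => ?_⟩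
  by_cases hc : c = ∞
  · have h1 : ((2 : ℝ≥0∞)⁻¹) ^ K ≠ 0 := by
      refine pow_ne_zero _ ?_
      simp
    rw [hc, ENNReal.top_mul]
    · exact le_top
    · intro hh
      exact h1 (add_eq_zero.1 hh).2
  have h2 := OS2_cross_le hΦ hf hε hγ hγ0 T' (hPP.ell K) (hPP.hor K) (hPP.vel K) hm1.le (hml K)
    hX (ENNReal.mul_ne_top hC hc)
  refine h2.trans ?_
  rw [mul_comm (C6 Q.te g0 Q.ρ) c, mul_assoc]
  exact mul_le_mul_right le_self_add _

end Crest.Agent.R122.XC815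

end
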