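import Crest.Agent.R122.PairRoot_292
import Crest.Agent.R122.PairSplit_292
import Crest.Agent.R122.MeasPair_522
import Crest.Agent.R122.SizeCross6_815
import Crest.Agent.R122.EMDefs_602

/-!
# Row 122, section E, inequality 3, case (C) on the gas level (helper658)

* `outK`, `mrk` : output map and mark rule of the continued lines `outP .. k`.
* `outP_rootL` : the continued pair in root coordinates.
* `caseC` : `OS2 ν (uG * tPK w (outP k)) ≤ PELK (ν.bind (stO ..)) + c * δ`, `δ` null uniformly in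
  the pair law `ν` of class `PX` with constant `c`.
-/

set_option autoImplicit false
set_option linter.unusedSectionVars false

open MeasureTheory Set Filter ProbabilityTheory
open scoped ENNReal Classical Topology
open Crest.AnalysisR.Kinetic
open Crest.Agent.R122.Kin796 Crest.Agent.R122.Kin796.CTree Crest.Agent.R122.Tree674
open Crest.Agent.R122.Relabel674 Crest.Agent.R122.GC311 Crest.Agent.R122.Flow671
open Crest.Agent.R122.EDefs602 Crest.Agent.R122.TreeLines335 Crest.Agent.R122.Kin416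
open Crest.Agent.R122.Boost969 (LSt posAt)
open Crest.Agent.R122.Pair292 hiding ML
open Crest.Agent.R122.OneC285 (cfT rt cT cB cD cX lpos uI ptube RF MeasRF rfl4)
open Crest.Agent.R122.Q1815 Crest.Agent.R122.QDens815 Crest.Agent.R122.Disc416
open Crest.Agent.R122.Quench815 Crest.Agent.R122.PairD292

noncomputable section

namespace Crest.Agent.R122.CaseC658

variable {Φ : Space3 → ℝ} {f₀ : PhasePoint → ℝ} {f : ℝ → PhasePoint → ℝ} {ε : ℝ} {K : ℕ}

/-! ### Outputs -/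

/-- Output map of the continued line. -/
def outK (Φ : Space3 → ℝ) (ε : ℝ) : Option Bool → ℝ → Space3 → OCout796.CD → LSt
  | none => OCout796.lineC Φ ε
  | some false => OCout796.lineL' Φ ε
  | some true => OCout796.lineC' Φ ε

/-- Mark rule of the continued line: `m` leaves of the fresh tree, old mark `n`. -/
def mrk : Option Bool → ℕ → ℕ → ℕ
  | none => fun m _ => m
  | some _ => fun m n => n + m

theorem mrk_le (k : Option Bool) (m n : ℕ) : mrk k m n ≤ n + m := by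
  rcases k with _ | _ <;> simp [mrk]

theorem outMap_outK (hΦ : AdmissiblePotential Φ) (ε : ℝ) (k : Option Bool) :
    OutMap (outK Φ ε k) := by
  rcases k with _ | (_ | _)
  · exact outMap_C hΦ ε
  · exact outMap_L' hΦ ε
  · exact outMap_C' hΦ ε

theorem outL6_eq (Φ : Space3 → ℝ) (ε : ℝ) (P : CTree) (z : PhasePoint × Par P) (e : ML)
    (k : Option Bool) : outL6 Φ ε P z e k =
      (outK Φ ε k (cT ε z e) (cX ε z e) (cD ε z e), mrk k P.leaves e.2) := by
  rcases k with _ | (_ | _) <;> rfl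

/-- The continued pair in root coordinates. -/
theorem outP_rootL {P : CTree} (p : Par P) {θ : Lab × LSt} {c : CDat} (hε : 0 < ε)
    (hy : ‖c.2.2‖ < 1) (hg : θ.2.2.2 - c.2.1 ≠ 0) (k : Option Bool) :
    outP Φ ε P (rootL ε θ.2 c, p) θ k =
      (incM (mrk k) P.leaves θ.1, outC (outK Φ ε k) ε θ.2 c) := by
  have h1 := cT_rootL (p := p) (e := eL θ) hε hg hy
  have h2 := cX_rootL (p := p) (e := eL θ) hε hg hy
  have h3 := cD_rootL (p := p) (e := eL θ) hε hg hy
  unfold outP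
  rw [outL6_eq]
  have e1 : rootL ε (eL θ).1 c = rootL ε θ.2 c := rfl
  rw [e1] at h1 h2 h3
  rw [h1, h2, h3]
  rfl

theorem measurable_outL6 (hΦ : AdmissiblePotential Φ) (ε : ℝ) (P : CTree) (k : Option Bool) :
    Measurable fun q : (PhasePoint × Par P) × ML => outL6 Φ ε P q.1 q.2 k := by
  simp only [outL6_eq]
  have hd : Measurable fun q : (PhasePoint × Par P) × ML =>
      ((cT ε q.1 q.2, (cX ε q.1 q.2, cD ε q.1 q.2)) : ℝ × (Space3 × OCout796.CD)) :=
    (Nu0566.measurable_cT ε P).prodMk ((Nu0566.measurable_cX ε P).prodMk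
      (Nu0566.measurable_cD ε P))
  have h1 := (outMap_outK hΦ ε k).meas.comp hd
  refine Measurable.prodMk h1 ?_
  exact (Measurable.of_discrete (f := fun n : ℕ => mrk k P.leaves n)).comp measurable_snd.snd

theorem meas_aux {α : Type*} [MeasurableSpace α] {θ : α → Lab × LSt} {g : α → ML}
    (hθ : Measurable θ) (hg : Measurable g) :
    Measurable fun a => ((((θ a).1.1, ((θ a).1.2.1, (g a).2)), (g a).1) : Lab × LSt) := by
  fun_prop

theorem measurable_outL6' (hΦ : AdmissiblePotential Φ) (ε : ℝ) (P : CTree) (k : Option Bool) :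
    Measurable fun q : (PhasePoint × Par P) × (Lab × LSt) => outL6 Φ ε P q.1 (eL q.2) k := by
  have h0 : Measurable fun q : (PhasePoint × Par P) × (Lab × LSt) => (q.1, eL q.2) :=
    measurable_fst.prodMk (PairD292.measurable_eL.comp measurable_snd)
  have h := Measurable.comp (g := fun q : (PhasePoint × Par P) × ML => outL6 Φ ε P q.1 q.2 k)
    (f := fun q : (PhasePoint × Par P) × (Lab × LSt) => (q.1, eL q.2))
    (measurable_outL6 hΦ ε P k) h0
  simp only [Function.comp_def] at h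
  exact h

theorem measurable_outP (hΦ : AdmissiblePotential Φ) (ε : ℝ) (P : CTree) (k : Option Bool) :
    Measurable fun q : (PhasePoint × Par P) × (Lab × LSt) => outP Φ ε P q.1 q.2 k :=
  meas_aux (θ := fun q : (PhasePoint × Par P) × (Lab × LSt) => q.2)
    (g := fun q : (PhasePoint × Par P) × (Lab × LSt) => outL6 Φ ε P q.1 (eL q.2) k)
    measurable_snd (measurable_outL6' hΦ ε P k)

theorem measSF2_tPK (hΦ : AdmissiblePotential Φ) (hε : 0 < ε) (K : ℕ) (Q : EPar)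
    (k : Option Bool) : MeasSF2 fun P z _ w θ => tPK Φ ε K Q w (outP Φ ε P z θ k) := by
  intro P m
  exact MeasPair522.measurable_tPK hΦ hε (w := fun q : (PhasePoint × Par P) × (Config m × (Lab × LSt)) =>
    q.2.1) (θ := fun q => outP Φ ε P q.1 q.2.2 k) measurable_snd.fst
    ((measurable_outP hΦ ε P k).comp (measurable_fst.prodMk measurable_snd.snd)) K Q

/-! ### The constant of the contact mass -/

/-- Bound of `Cflux` of a spread pair law, divided by `c`. -/
def cCC (te g0 : ℝ) (ρ : ℝ≥0∞) : ℝ≥0∞ :=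
  volume (Metric.ball (0 : Disc416.Plane) 1) * (2 * volume (Metric.ball (0 : Space3) 1) *
    ((1 + ENNReal.ofReal te) * (ENNReal.ofReal te * (XC815.cV g0 * (1 - ρ)⁻¹))))

theorem cCC_ne_top {te g0 : ℝ} (hg0 : 0 < g0) {ρ : ℝ≥0∞} (hρ : ρ < 1) : cCC te g0 ρ ≠ ∞ := by
  have h1 : (1 - ρ)⁻¹ ≠ ∞ := by
    rw [Ne, ENNReal.inv_eq_top, tsub_eq_zero_iff_le]
    exact not_le.2 hρ
  unfold cCC
  refine ENNReal.mul_ne_top measure_ball_lt_top.ne
    (ENNReal.mul_ne_top (ENNReal.mul_ne_top (by norm_num) measure_ball_lt_top.ne)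
      (ENNReal.mul_ne_top (ENNReal.add_ne_top.2 ⟨ENNReal.one_ne_top, ENNReal.ofReal_ne_top⟩)
        (ENNReal.mul_ne_top ENNReal.ofReal_ne_top (ENNReal.mul_ne_top (XC815.cV_ne_top hg0) h1))))

theorem cflux_le {Q : EPar} (hγ : Measurable Q.γ) {g0 : ℝ}
    (hγ0 : ∀ τ ∈ Ioc (0 : ℝ) Q.te, g0 ≤ Q.γ τ) {PP : ℕ → PPar} (hPP : PPOk Q PP)
    {Ξ ν : Measure (Lab × LSt)} {c : ℝ≥0∞} (h : PX (PP K) Ξ ν c) :
    Cflux (fun p : Lab × LSt => p.2) posD ν XC815.chi Q.te ≤ cCC Q.te g0 Q.ρ * c := by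
  have h2 := XC815.px_weight_le h (fun z hz => hPP.vel K z hz) (μ := 1) (PP K).hlam₁
    XC815.measurable_chi
  have h3 := XC815.rhs_le (K := K) (hPP.ell K) (hPP.hor K) hγ hγ0 XC815.measurable_chi
    XC815.lintegral_chi
  unfold Cflux cCC
  simp only [one_pow, mul_one] at h2
  calc _ ≤ volume (Metric.ball (0 : Disc416.Plane) 1) *
        (2 * volume (Metric.ball (0 : Space3) 1) * (c * ((1 + ENNReal.ofReal Q.te) *
          (ENNReal.ofReal Q.te * (XC815.cV g0 * (1 - Q.ρ)⁻¹))))) := by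
        refine mul_le_mul_right (h2.trans ?_) _
        gcongr
    _ = _ := by ring

/-! ### The error -/

/-- Weight of the error. -/
def φV (K : ℕ) (P : CTree) : ℝ × PhasePoint × Par P → ℝ≥0∞ := fun q =>
  ENNReal.ofReal (1 + ‖q.2.1.2‖) * φK K P q

theorem measurable_φV (K : ℕ) (P : CTree) : Measurable (φV K P) := by
  unfold φV φK
  fun_prop

/-- Error of case (C). -/
def errC (Φ : Space3 → ℝ) (f₀ : PhasePoint → ℝ) (f : ℝ → PhasePoint → ℝ) (T : ℝ) (K : ℕ)
    (te tw ε : ℝ) : ℝ≥0∞ :=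
  ∑ P ∈ GIVStep383.trees K, err Φ f₀ f T P (φV K P) (volume.restrict (Ioc 0 te)) tw ε

theorem φV_eq_zero {P : CTree} (h : P ∉ GIVStep383.trees K) (q : ℝ × PhasePoint × Par P) :
    φV K P q = 0 := by
  unfold φV φK
  rw [if_neg fun hh => h (GIVStep383.mem_trees.2 hh), mul_zero]

theorem φK_eq_zero {P : CTree} (h : P ∉ GIVStep383.trees K) (q : ℝ × PhasePoint × Par P) :
    φK K P q = 0 := by
  unfold φK
  rw [if_neg fun hh => h (GIVStep383.mem_trees.2 hh)]

variable {β T T₀ tw te : ℝ}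

theorem wgt_φV (hΦ : AdmissiblePotential Φ) (hβ : 0 < β) (K : ℕ) (P : CTree) (T₀ : ℝ) :
    Wgt Φ β P (φV K P) T₀ := by
  obtain ⟨M, hM, hle⟩ := exists_wtA_le Φ (lam := 2) (kap := β) (by norm_num) hβ
  refine Wgt.of_le (measurable_φV K P) (kap := β) (lam := 2) (by linarith)
    (M := 2 * ENNReal.ofReal M) (ENNReal.mul_ne_top (by norm_num) ENNReal.ofReal_ne_top)
    fun s ℓ p hA => ?_
  have h1 : φV K P (s, ℓ, p) ≤ rootA P (s, ℓ, p) := by
    unfold φV rootA
    exact mul_le_of_le_one_right (zero_le) (φK_le_one K P _)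
  calc φV K P (s, ℓ, p) ≤ rootA P (s, ℓ, p) := h1
    _ ≤ 2 * wtA Φ P (s, ℓ, p) := rootA_le_wtA hΦ hA
    _ ≤ 2 * (ENNReal.ofReal M * ENNReal.ofReal 2 ^ P.size *
        ENNReal.ofReal (Real.exp (β * Seg814.eng Φ P ℓ.2 p))) :=
        mul_le_mul_right (hle P s ℓ p) _
    _ = _ := by ring

theorem null_errC (X : Ctx Φ β T f₀ f T₀ tw) (hte : te ≤ T₀) :
    Null fun K ε => errC Φ f₀ f T K te tw ε := by
  rw [null_iff_tendsto]
  intro K
  have hκ : ∀ᵐ s ∂(volume.restrict (Ioc 0 te)), s ≤ T₀ := by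
    filter_upwards [ae_restrict_mem measurableSet_Ioc] with s hs
    exact hs.2.trans hte
  exact tendsto_err_sum X hκ (GIVStep383.trees K) fun P _ => wgt_φV X.hΦ X.hβ K P T₀

/-! ### Marks -/

/-- Mark weights of the fresh tree. -/
def qK (C lam : ℝ) (K m : ℕ) : ℝ≥0∞ :=
  if 1 ≤ m ∧ m ≤ K then ENNReal.ofReal C * ENNReal.ofReal (1 / lam) ^ (m - 1) else 0

theorem qK_ne_top (C lam : ℝ) (K m : ℕ) : qK C lam K m ≠ ∞ := by
  unfold qK
  split_ifs
  · exact ENNReal.mul_ne_top ENNReal.ofReal_ne_top (ENNReal.pow_ne_top ENNReal.ofReal_ne_top)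
  · exact ENNReal.zero_ne_top

theorem gau_eq_wG (b : ℝ) (v : Space3) : gau b v = Kin796.wG b v := by
  unfold gau Kin796.wG
  rw [neg_mul]

theorem kin_le (X : Ctx Φ β T f₀ f T₀ tw) {h₀ kap lam C b : ℝ}
    (hK : Seg814.KinC Φ T f h₀ kap lam C b) (hte : te ≤ tw + h₀) {s : ℝ} (hs : s ∈ Ioc 0 te)
    (ℓ : PhasePoint) (m : ℕ) :
    ∑' P : CTree, (if P.leaves = m then D0 Φ f₀ f T P (φK K P) tw s ℓ else 0) ≤
      qK C lam K m * gau b ℓ.2 := by
  rw [gau_eq_wG]
  by_cases hm : 1 ≤ m ∧ m ≤ K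
  · have h1 := D0_size_le X.hΦ X.hβ X.hT X.sol hK (φ := fun P => φK K P) (M := 1)
      ENNReal.one_ne_top (lam₁ := 1) one_pos hK.2.2.1.le X.htw
      (⟨hs.1.le, hs.2.trans hte⟩ : s ∈ Icc 0 (tw + h₀)) ℓ (fun P p _ => by
        refine (φK_le_one K P _).trans ?_
        rw [ENNReal.ofReal_one, one_pow, one_mul, one_mul]
        have := mul_nonneg hK.2.1.le (Seg814.eng_nonneg (Φ := Φ) P ℓ.2 p)
        rw [← ENNReal.ofReal_one]
        exact ENNReal.ofReal_le_ofReal (Real.one_le_exp this)) m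
    refine h1.trans (le_of_eq ?_)
    unfold qK
    rw [if_pos hm]
    ring
  · refine le_trans (le_of_eq (ENNReal.tsum_eq_zero.2 fun P => ?_)) zero_le
    split_ifs with hP
    · refine D0_zero fun p => ?_
      unfold φK
      rw [if_neg]
      intro h
      exact hm ⟨hP ▸ one_le_leaves' P, hP ▸ h⟩
    · rfl

theorem isSFiniteKernel_stO (Φ : Space3 → ℝ) (ε b te : ℝ) (k : Option Bool)
    (C lam : ℝ) (K : ℕ) :
    IsSFiniteKernel (stO ε b te (outK Φ ε k) (mrk k) (qK C lam K)) := by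
  have := isSFiniteKernel_incK (mrk k) (qK_ne_top C lam K)
  unfold stO mkK Boost969.liftK
  infer_instance

/-! ### Case (C) for one pair law -/

set_option maxHeartbeats 1600000 in
theorem caseC_le (X : Ctx Φ β T f₀ f T₀ tw) {h₀ kap lam C b : ℝ}
    (hK : Seg814.KinC Φ T f h₀ kap lam C b) {Q : EPar} (hQtw : Q.tw = tw)
    (hte : Q.te ≤ tw + h₀) (hL : 0 ≤ Q.L) (hε : 0 < ε) {ν : Measure (Lab × LSt)}
    (hν : SFinite ν) (htr : ∀ a, ν.map (shP a) = ν)
    (hcf : Cflux (fun p : Lab × LSt => p.2) posD ν XC815.chi Q.te ≠ ∞) (T' : ℝ)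
    (k : Option Bool) :
    OS2 Φ f₀ ε Q.te T' ν (fun P z _ w θ => uG Φ ε Q.tw K P z w θ *
        tPK Φ ε K Q w (outP Φ ε P z θ k)) ≤
      PELK Φ f₀ ε K Q (ν.bind (stO ε b Q.te (outK Φ ε k) (mrk k) (qK C lam K))) +
        Cflux (fun p : Lab × LSt => p.2) posD ν XC815.chi Q.te *
          errC Φ f₀ f T K Q.te Q.tw ε := by
  have hΦ := X.hΦ
  have hf := X.cont.measurable
  subst hQtw
  have htK : ∀ n, Measurable fun q : Config n × (Lab × LSt) => tPK Φ ε K Q q.1 q.2 := fun n =>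
    MeasPair522.measurable_tPK_joint hΦ hε K Q n
  set G : CTree → (m : ℕ) → Config m → (Lab × LSt) × CDat → ℝ≥0∞ := fun P m w q =>
    tPK Φ ε K Q w (incM (mrk k) P.leaves q.1.1, outC (outK Φ ε k) ε q.1.2 q.2) with hG
  have hGm : ∀ P m, Measurable fun q : Config m × ((Lab × LSt) × CDat) => G P m q.1 q.2 := by
    intro P m
    have h1 : Measurable fun q : Config m × ((Lab × LSt) × CDat) =>
        incM (mrk k) P.leaves q.2.1.1 :=
      (measurable_incM (mrk k) P.leaves).comp (by fun_prop)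
    have h2 : Measurable fun q : Config m × ((Lab × LSt) × CDat) =>
        outC (outK Φ ε k) ε q.2.1.2 q.2.2 :=
      (measurable_outC (outMap_outK hΦ ε k) ε).comp
        (f := fun q : Config m × ((Lab × LSt) × CDat) => (q.2.1.2, q.2.2)) (by fun_prop)
    have h3 : Measurable fun q : Config m × ((Lab × LSt) × CDat) =>
        ((q.1, (incM (mrk k) P.leaves q.2.1.1, outC (outK Φ ε k) ε q.2.1.2 q.2.2)) :
          Config m × (Lab × LSt)) := measurable_fst.prodMk (h1.prodMk h2)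
    exact (htK m).comp h3
  refine (OS2_le_root hΦ hf hε (measSF2_tPK hΦ hε K Q k) hGm
    fun P m w θ c p _ _ _ hy hg => by
      simp only [hG]
      rw [outP_rootL p hε hy hg k]).trans ?_
  -- fixed world
  set κ : Measure ℝ := volume.restrict (Ioc 0 Q.te) with hκ
  set Cf := Cflux (fun p : Lab × LSt => p.2) posD ν XC815.chi Q.te with hCf
  set E : CTree → (m : ℕ) → Config m → ℝ × PhasePoint → ℝ≥0∞ := fun P m w q =>
    absd (Dw Φ f₀ P (φK K P) ε Q.tw q.1 q.2 w) (D0 Φ f₀ f T P (φK K P) Q.tw q.1 q.2) with hE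
  have hEm : ∀ P m, Measurable fun q : Config m × (ℝ × PhasePoint) => E P m q.1 q.2 :=
    fun P m => measurable_absd (measurable_Dw_n hΦ hf (measurable_φK K P) hε Q.tw m)
      ((measurable_D0 X.hΦ X.hβ X.hT X.sol X.htw.1 (measurable_φK K P)).comp measurable_snd)
  have hpt : ∀ m, ∀ w ∈ PairExcluded ε m, ∑' P : CTree, ∫⁻ θ, cInt ε Q.te
      (fun p : Lab × LSt => p.2) (fun q => Dw Φ f₀ P (φK K P) ε Q.tw q.1 q.2 w) (G P m w) θ ∂ν ≤
      ∫⁻ θ, tPK Φ ε K Q w θ ∂(ν.bind (stO ε b Q.te (outK Φ ε k) (mrk k) (qK C lam K))) +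
        Cf * ∑' P : CTree, ∫⁻ s in Ioc 0 Q.te, ∫⁻ ℓ : PhasePoint,
          E P m w (s, ℓ) * ENNReal.ofReal (1 + ‖ℓ.2‖) := by
    intro m w _
    have hEw : ∀ P, Measurable fun q : ℝ × PhasePoint => E P m w q := fun P =>
      (hEm P m).comp (f := fun q : ℝ × PhasePoint => (w, q)) measurable_prodMk_left
    have hDw : ∀ P, Measurable fun q : ℝ × PhasePoint =>
        D0 Φ f₀ f T P (φK K P) Q.tw q.1 q.2 := fun P =>
      measurable_D0 X.hΦ X.hβ X.hT X.sol X.htw.1 (measurable_φK K P)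
    have htw' : Measurable fun θ : Lab × LSt => tPK Φ ε K Q w θ :=
      (htK m).comp (f := fun θ : Lab × LSt => (w, θ)) measurable_prodMk_left
    exact caseC_pt hν htr XC815.measurable_chi XC815.lintegral_chi (size := CTree.leaves)
      (D := fun P q => Dw Φ f₀ P (φK K P) ε Q.tw q.1 q.2 w)
      (D' := fun P q => D0 Φ f₀ f T P (φK K P) Q.tw q.1 q.2) (E := fun P q => E P m w q)
      hDw hEw (fun P q => le_add_absd _ _)
      (outMap_outK hΦ ε k) (qK_ne_top C lam K)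
      (fun s hs ℓ j => kin_le X hK hte hs ℓ j)
      (H := fun θ => tPK Φ ε K Q w θ) htw'
      (fun θ => tPK_le_one hL)
  refine (gcE_mono f₀ ε hpt).trans ?_
  have hker := isSFiniteKernel_stO Φ ε b Q.te k C lam K
  have hsf : SFinite (ν.bind (stO ε b Q.te (outK Φ ε k) (mrk k) (qK C lam K))) := inferInstance
  rw [gcE_add hf ε fun m => (htK m).lintegral_prod_right', gcE_const_mul f₀ ε hcf]
  refine add_le_add le_rfl (mul_le_mul_right ?_ _)
  have hEw : ∀ P m, Measurable fun q : (Config m × ℝ) × PhasePoint =>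
      E P m q.1.1 (q.1.2, q.2) * ENNReal.ofReal (1 + ‖q.2.2‖) := by
    intro P m
    refine Measurable.mul ?_ (by fun_prop)
    exact (hEm P m).comp (f := fun q : (Config m × ℝ) × PhasePoint => (q.1.1, (q.1.2, q.2)))
      (by fun_prop)
  rw [gcE_tsum hf ε fun P m => (hEw P m).lintegral_prod_right'.lintegral_prod_right']
  have hterm : ∀ P : CTree, (gcE f₀ ε fun m w => ∫⁻ s in Ioc 0 Q.te, ∫⁻ ℓ : PhasePoint,
      E P m w (s, ℓ) * ENNReal.ofReal (1 + ‖ℓ.2‖)) =
      err Φ f₀ f T P (φV K P) (volume.restrict (Ioc 0 Q.te)) Q.tw ε := by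
    intro P
    have h1 := err_mul_left (Φ := Φ) (f₀ := f₀) (f := f) (T := T) (P := P) (φ := φK K P)
      (c := fun _ ℓ => ENNReal.ofReal (1 + ‖ℓ.2‖)) (κ := volume.restrict (Ioc 0 Q.te))
      (tw := Q.tw) (ε := ε) (fun s ℓ => ENNReal.ofReal_ne_top)
    have h2 : φV K P = fun q => (fun (_ : ℝ) (ℓ : PhasePoint) =>
        ENNReal.ofReal (1 + ‖ℓ.2‖)) q.1 q.2.1 * φK K P q := rfl
    rw [h2, h1]
    congr 1
    funext m w
    have h3 : Measurable fun y : ℝ × PhasePoint =>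
        ENNReal.ofReal (1 + ‖y.2.2‖) * E P m w y :=
      Measurable.mul (by fun_prop) ((hEm P m).comp measurable_prodMk_left)
    rw [lintegral_prod _ h3.aemeasurable]
    refine lintegral_congr fun s => lintegral_congr fun ℓ => ?_
    exact mul_comm _ _
  simp only [hterm]
  unfold errC
  refine le_of_eq (tsum_eq_sum fun P hP => ?_)
  unfold err
  have h0 : ∀ (n : ℕ) (w : Config n) (y : ℝ × PhasePoint),
      absd (Dw Φ f₀ P (φV K P) ε Q.tw y.1 y.2 w) (D0 Φ f₀ f T P (φV K P) Q.tw y.1 y.2) = 0 := by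
    intro n w y
    rw [Dw_zero fun p => φV_eq_zero hP _, D0_zero fun p => φV_eq_zero hP _, absd_self]
  simp only [h0, lintegral_zero]
  exact gcE_zero f₀ ε

/-! ### Case (C), uniform in the pair law -/

/-- **Case (C) on the gas level.** The continued line is a new pair law, up to an error which is null
uniformly in the pair law. -/
theorem caseC (hD : Master566.KData Φ β T f₀ f) {h₀ kap lam C b : ℝ}
    (hK : Seg814.KinC Φ T f h₀ kap lam C b) {Q : EPar} (htw : Q.tw ∈ Icc 0 T)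
    (hG : GIV566.GIV Φ f₀ f T Q.tw) (hte : Q.te ≤ Q.tw + h₀) (hL : 0 ≤ Q.L)
    (hγ : Measurable Q.γ) {g0 : ℝ} (hg0 : 0 < g0) (hγ0 : ∀ τ ∈ Ioc (0 : ℝ) Q.te, g0 ≤ Q.γ τ)
    (hρ : Q.ρ < 1) {PP : ℕ → PPar} (hPP : PPOk Q PP) :
    ∃ δ : ℕ → ℝ → ℝ≥0∞, Null δ ∧ ∀ (k : Option Bool) (T' : ℝ) (K : ℕ) (ε : ℝ), 0 < ε →
      ∀ (Ξ ν : Measure (Lab × LSt)) (c : ℝ≥0∞), PX (PP K) Ξ ν c →
      OS2 Φ f₀ ε Q.te T' ν (fun P z _ w θ => uG Φ ε Q.tw K P z w θ *
          tPK Φ ε K Q w (outP Φ ε P z θ k)) ≤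
        PELK Φ f₀ ε K Q (ν.bind (stO ε b Q.te (outK Φ ε k) (mrk k) (qK C lam K))) +
          c * δ K ε := by
  have ht0 : Tendsto (fun ε : ℝ => ENNReal.ofReal ε) (𝓝[>] 0) (𝓝 0) := by
    have := (ENNReal.continuous_ofReal.tendsto 0).mono_left
      (nhdsWithin_le_nhds : (𝓝[>] (0 : ℝ)) ≤ 𝓝 0)
    rwa [ENNReal.ofReal_zero] at this
  have X : Ctx Φ β T f₀ f (max Q.te 1) Q.tw :=
    Ctx.of_kdata hD htw hG (lt_of_lt_of_le one_pos (le_max_right _ _))
  have hC := cCC_ne_top (te := Q.te) hg0 hρ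
  refine ⟨fun K ε => cCC Q.te g0 Q.ρ * errC Φ f₀ f T K Q.te Q.tw ε + ENNReal.ofReal ε,
    ((null_errC X (le_max_left _ _)).const_mul hC).add (Null.of_tendsto ht0), ?_⟩
  intro k T' K ε hε Ξ ν c hX
  by_cases hc : c = ∞
  · have hne : cCC Q.te g0 Q.ρ * errC Φ f₀ f T K Q.te Q.tw ε + ENNReal.ofReal ε ≠ 0 := by
      intro h0
      have h3 := (add_eq_zero.1 h0).2
      rw [ENNReal.ofReal_eq_zero] at h3
      linarith
    rw [hc, ENNReal.top_mul hne]
    exact le_add_self.trans' le_top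
  have hcf := cflux_le hγ hγ0 hPP hX
  have hcf' : Cflux (fun p : Lab × LSt => p.2) posD ν XC815.chi Q.te ≠ ∞ :=
    ne_top_of_le_ne_top (ENNReal.mul_ne_top hC hc) hcf
  refine (caseC_le X hK rfl hte hL hε hX.sfν hX.trans hcf' T' k).trans ?_
  refine add_le_add le_rfl ?_
  calc _ ≤ (cCC Q.te g0 Q.ρ * c) * errC Φ f₀ f T K Q.te Q.tw ε := mul_le_mul_left hcf _
    _ = c * (cCC Q.te g0 Q.ρ * errC Φ f₀ f T K Q.te Q.tw ε) := by ring
    _ ≤ _ := mul_le_mul_right le_self_add _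

end Crest.Agent.R122.CaseC658

end
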