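import Crest.Agent.R122.CausalMeas_291

/-!
# Causal-past calculus (row 122, block F4): forests (several roots, different root times),
`Fin.append` versions, connected components of the contact graph in a window.
-/

set_option autoImplicit false

open Set Filter Topology MeasureTheory
open Crest.AnalysisR.Kinetic
open Crest.Agent.R122.Flow671 Crest.Agent.R122.Loc45

namespace Crest.Agent.R122.Causal291

/-! ### Forests -/

/-- Active set at time `s` of the exploration from a set of roots `(i, t)`. -/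
def ActF {ι : Type*} (C : ℝ → ι → ι → Prop) (R : Set (ι × ℝ)) (s : ℝ) : Set ι :=
  {k | ∃ r ∈ R, Past C r.2 r.1 s k}

theorem ActF_anti {ι : Type*} {C : ℝ → ι → ι → Prop} {R : Set (ι × ℝ)} : Antitone (ActF C R) := by
  rintro s s' h k ⟨r, hr, hk⟩
  exact ⟨r, hr, hk.mono h⟩

theorem ActF_mono {ι : Type*} {C : ℝ → ι → ι → Prop} {R R' : Set (ι × ℝ)} (h : R ⊆ R') (s : ℝ) :
    ActF C R s ⊆ ActF C R' s := fun _ ⟨r, hr, hk⟩ => ⟨r, h hr, hk⟩

theorem ActF_contact {ι : Type*} {C : ℝ → ι → ι → Prop} {R : Set (ι × ℝ)} {s : ℝ} {j k : ι}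
    (hj : j ∈ ActF C R s) (hc : C s j k) : k ∈ ActF C R s := by
  obtain ⟨r, hr, hj⟩ := hj
  exact ⟨r, hr, hj.contact hc⟩

@[simp] theorem ActF_singleton {ι : Type*} {C : ℝ → ι → ι → Prop} {i : ι} {t s : ℝ} :
    ActF C {(i, t)} s = Act C t i s := by
  ext k
  simp [ActF]

theorem ActF_eq_biUnion {ι : Type*} {C : ℝ → ι → ι → Prop} {R : Set (ι × ℝ)} (s : ℝ) :
    ActF C R s = ⋃ r ∈ R, Act C r.2 r.1 s := by
  ext k
  simp [ActF]

section forest

variable {ι₁ ι₂ κ : Type} [Finite ι₁] [Finite ι₂] [Finite κ]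
variable {z₁ : ℝ → ι₁ → PhasePoint} {z₂ : ℝ → ι₂ → PhasePoint} {e₁ : κ → ι₁} {e₂ : κ → ι₂}
variable {ε T : ℝ}

/-- Active set of a forest with roots in the common part, as a subset of the common part. -/
def ActCF (z₁ : ℝ → ι₁ → PhasePoint) (e₁ : κ → ι₁) (ε : ℝ) (R : Set (κ × ℝ)) (s : ℝ) : Set κ :=
  {k | ∃ r ∈ R, Past (Ct z₁ ε) r.2 (e₁ r.1) s (e₁ k)}

omit [Finite ι₁] [Finite κ] in
theorem ActCF_anti {R : Set (κ × ℝ)} : Antitone (ActCF z₁ e₁ ε R) := by
  rintro s s' h k ⟨r, hr, hk⟩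
  exact ⟨r, hr, hk.mono h⟩

/-- **Comparison of a forest in two worlds.** -/
theorem compareF (hz₁ : ∀ j, ContinuousOn (fun s => z₁ s j) (Icc 0 T))
    (hz₂ : ∀ j, ContinuousOn (fun s => z₂ s j) (Icc 0 T))
    (hloc : LocUniq ε T z₁ z₂) (he₁ : Function.Injective e₁) (he₂ : Function.Injective e₂)
    (R : Set (κ × ℝ)) (hR : ∀ r ∈ R, r.2 ≤ T)
    (hcl : ∀ r ∈ R, BC (Ct z₁ ε) r.2 (e₁ r.1) ⊆ range e₁)
    (h0 : ∀ k ∈ ActCF z₁ e₁ ε R 0, z₁ 0 (e₁ k) = z₂ 0 (e₂ k))
    (hav : ∀ s ∈ Icc 0 T, ∀ k ∈ ActCF z₁ e₁ ε R s, ∀ j, j ∉ e₂ '' ActCF z₁ e₁ ε R s →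
      ε < dist (z₁ s (e₁ k)).1 (z₂ s j).1) :
    (∀ s ∈ Icc 0 T, ∀ k ∈ ActCF z₁ e₁ ε R s, z₁ s (e₁ k) = z₂ s (e₂ k)) ∧
    (∀ r ∈ R, ∀ s, 0 ≤ s → ∀ k,
      Past (Ct z₂ ε) r.2 (e₂ r.1) s (e₂ k) ↔ Past (Ct z₁ ε) r.2 (e₁ r.1) s (e₁ k)) ∧
    (∀ r ∈ R, ∀ s, 0 ≤ s → ∀ j, Past (Ct z₂ ε) r.2 (e₂ r.1) s j → j ∈ range e₂) := by
  have hrange : ∀ r ∈ R, ∀ s, 0 ≤ s → ∀ j, Past (Ct z₁ ε) r.2 (e₁ r.1) s j → j ∈ range e₁ :=
    fun r hr s hs j hj => hcl r hr (hj.mono hs)
  have hagree : ∀ s ∈ Icc 0 T, ∀ k ∈ ActCF z₁ e₁ ε R s, z₁ s (e₁ k) = z₂ s (e₂ k) := by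
    refine agree_of_antitone hz₁ hz₂ hloc he₁ he₂ (fun s => ActCF z₁ e₁ ε R s)
      (fun s s' _ hss' _ => ActCF_anti hss') h0 ?_
    intro s hs hpast
    have hsI : s ∈ Icc 0 T := ⟨hs.1, hs.2.le⟩
    constructor
    · rintro k ⟨r, hr, hk⟩ j hj
      by_contra hle
      push Not at hle
      have h1 : Past (Ct z₁ ε) r.2 (e₁ r.1) s j := Past.contact hk hle
      obtain ⟨l, rfl⟩ := hrange r hr s hs.1 j h1
      exact hj ⟨l, ⟨r, hr, h1⟩, rfl⟩
    · intro k hk j hj
      rw [← hpast s ⟨hs.1, le_rfl⟩ k hk]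
      exact hav s hsI k hk j hj
  have hforw : ∀ r ∈ R, ∀ (s : ℝ) (j : ι₁), Past (Ct z₁ ε) r.2 (e₁ r.1) s j → 0 ≤ s →
      ∀ k, e₁ k = j → Past (Ct z₂ ε) r.2 (e₂ r.1) s (e₂ k) := by
    intro r hr s j h
    induction h with
    | root h =>
      intro _ k hk
      rw [he₁ hk]
      exact .root h
    | @step s s' j l h hc hss' ih =>
      intro hs0 k hk
      subst hk
      have hs'0 : 0 ≤ s' := hs0.trans hss'
      obtain ⟨m, rfl⟩ := hrange r hr s' hs'0 j h
      have hm := ih hs'0 m rfl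
      have hs'T : s' ≤ T := h.le.trans (hR r hr)
      refine .step hm ?_ hss'
      have hm1 : m ∈ ActCF z₁ e₁ ε R s' := ⟨r, hr, h⟩
      have hk1 : k ∈ ActCF z₁ e₁ ε R s' := ⟨r, hr, Past.contact h hc⟩
      change dist (z₂ s' (e₂ m)).1 (z₂ s' (e₂ k)).1 ≤ ε
      rw [← hagree s' ⟨hs'0, hs'T⟩ m hm1, ← hagree s' ⟨hs'0, hs'T⟩ k hk1]
      exact hc
  have hback : ∀ r ∈ R, ∀ (s : ℝ) (j : ι₂), Past (Ct z₂ ε) r.2 (e₂ r.1) s j → 0 ≤ s →
      ∃ k, e₂ k = j ∧ Past (Ct z₁ ε) r.2 (e₁ r.1) s (e₁ k) := by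
    intro r hr s j h
    induction h with
    | root h => exact fun _ => ⟨r.1, rfl, .root h⟩
    | @step s s' j l h hc hss' ih =>
      intro hs0
      have hs'0 : 0 ≤ s' := hs0.trans hss'
      have hs'T : s' ≤ T := h.le.trans (hR r hr)
      obtain ⟨m, rfl, hm⟩ := ih hs'0
      have hm1 : m ∈ ActCF z₁ e₁ ε R s' := ⟨r, hr, hm⟩
      by_cases hl : l ∈ e₂ '' ActCF z₁ e₁ ε R s'
      · obtain ⟨k, hk, rfl⟩ := hl
        refine ⟨k, rfl, .step hm ?_ hss'⟩
        change dist (z₁ s' (e₁ m)).1 (z₁ s' (e₁ k)).1 ≤ ε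
        rw [hagree s' ⟨hs'0, hs'T⟩ m hm1, hagree s' ⟨hs'0, hs'T⟩ k hk]
        exact hc
      · exfalso
        have h1 := hav s' ⟨hs'0, hs'T⟩ m hm1 l hl
        rw [hagree s' ⟨hs'0, hs'T⟩ m hm1] at h1
        exact absurd hc (not_le.2 h1)
  refine ⟨hagree, fun r hr s hs k => ⟨fun h => ?_, fun h => hforw r hr s _ h hs k rfl⟩,
    fun r hr s hs j hj => ?_⟩
  · obtain ⟨k', hk', h'⟩ := hback r hr s _ h hs
    rwa [he₂ hk'] at h'
  · obtain ⟨k', hk', _⟩ := hback r hr s j hj hs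
    exact ⟨k', hk'⟩

/-- Consequences of `compareF` for active sets and backward clusters. -/
theorem compareF_Act (hz₁ : ∀ j, ContinuousOn (fun s => z₁ s j) (Icc 0 T))
    (hz₂ : ∀ j, ContinuousOn (fun s => z₂ s j) (Icc 0 T))
    (hloc : LocUniq ε T z₁ z₂) (he₁ : Function.Injective e₁) (he₂ : Function.Injective e₂)
    (R : Set (κ × ℝ)) (hR : ∀ r ∈ R, r.2 ≤ T)
    (hcl : ∀ r ∈ R, BC (Ct z₁ ε) r.2 (e₁ r.1) ⊆ range e₁)
    (h0 : ∀ k ∈ ActCF z₁ e₁ ε R 0, z₁ 0 (e₁ k) = z₂ 0 (e₂ k))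
    (hav : ∀ s ∈ Icc 0 T, ∀ k ∈ ActCF z₁ e₁ ε R s, ∀ j, j ∉ e₂ '' ActCF z₁ e₁ ε R s →
      ε < dist (z₁ s (e₁ k)).1 (z₂ s j).1) :
    ∀ r ∈ R, ∀ s, 0 ≤ s →
      Act (Ct z₂ ε) r.2 (e₂ r.1) s = e₂ '' {k | e₁ k ∈ Act (Ct z₁ ε) r.2 (e₁ r.1) s} := by
  obtain ⟨_, h2, h3⟩ := compareF hz₁ hz₂ hloc he₁ he₂ R hR hcl h0 hav
  intro r hr s hs
  ext j
  constructor
  · intro hj
    obtain ⟨k, rfl⟩ := h3 r hr s hs j hj
    exact ⟨k, (h2 r hr s hs k).1 hj, rfl⟩
  · rintro ⟨k, hk, rfl⟩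
    exact (h2 r hr s hs k).2 hk

end forest

/-! ### Worlds `V`, `W` and `V ∪ W` (`Fin.append`) -/

section append

variable {Φ : Space3 → ℝ} {ε : ℝ}

/-- Factorisation: if all particles of `Z` which are not active in the isolated world `V` stay at
distance more than `ε` from the protected tubes of the isolated world `V` (roots `R`), then the
protected tubes of `Z = V ∪ W` are the isolated ones. -/
theorem compare_append (hΦ : AdmissiblePotential Φ) (hε : 0 < ε) {k m : ℕ} {V : Config k}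
    {W : Config m} (hVW : Fin.append V W ∈ Dom Φ (Fin (k + m))) (R : Set (Fin k × ℝ)) {T : ℝ}
    (hR : ∀ r ∈ R, r.2 ≤ T)
    (hav : ∀ s ∈ Icc 0 T, ∀ l ∈ ActF (Ct (pth Φ ε V) ε) R s, ∀ j,
      j ∉ Fin.castAdd m '' ActF (Ct (pth Φ ε V) ε) R s →
      ε < dist (pth Φ ε V s l).1 (pth Φ ε (Fin.append V W) s j).1) :
    (∀ s ∈ Icc 0 T, ∀ l ∈ ActF (Ct (pth Φ ε V) ε) R s,
      pth Φ ε V s l = pth Φ ε (Fin.append V W) s (Fin.castAdd m l)) ∧
    ∀ r ∈ R, ∀ s, 0 ≤ s → Act (Ct (pth Φ ε (Fin.append V W)) ε) r.2 (Fin.castAdd m r.1) s =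
      Fin.castAdd m '' Act (Ct (pth Φ ε V) ε) r.2 r.1 s := by
  have hV : V ∈ Dom Φ (Fin k) := by
    have := dom_comp hVW (e := Fin.castAdd m) (Fin.castAdd_injective k m)
    simpa using this
  have hz₁ : ∀ j, ContinuousOn (fun s => pth Φ ε V s j) (Icc 0 T) := fun j =>
    (continuous_pth hΦ hε V j).continuousOn
  have hz₂ : ∀ j, ContinuousOn (fun s => pth Φ ε (Fin.append V W) s j) (Icc 0 T) := fun j =>
    (continuous_pth hΦ hε _ j).continuousOn
  have hloc := locUniq_pth hΦ hε T hV hVW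
  have hcl : ∀ r ∈ R, BC (Ct (pth Φ ε V) ε) r.2 (id r.1) ⊆ range (id : Fin k → Fin k) := by
    intro r _
    rw [range_id]
    exact subset_univ _
  have h0 : ∀ l ∈ ActCF (pth Φ ε V) id ε R 0,
      pth Φ ε V 0 (id l) = pth Φ ε (Fin.append V W) 0 (Fin.castAdd m l) := by
    intro l _
    simp only [pth, flow_zero hΦ hε, id_eq, Fin.append_left]
  have hinj : Function.Injective (Fin.castAdd m : Fin k → Fin (k + m)) :=
    Fin.castAdd_injective k m
  refine ⟨(compareF hz₁ hz₂ hloc Function.injective_id hinj R hR hcl h0 hav).1, ?_⟩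
  intro r hr s hs
  exact compareF_Act hz₁ hz₂ hloc Function.injective_id hinj R hR hcl h0 hav r hr s hs

/-- Converse: if the real protected tubes lie in `V` and in the isolated world `V` no particle which
is not really active comes within `ε` of a real protected tube, then the isolated tubes are the real
ones. -/
theorem compare_append_conv (hΦ : AdmissiblePotential Φ) (hε : 0 < ε) {k m : ℕ} {V : Config k}
    {W : Config m} (hVW : Fin.append V W ∈ Dom Φ (Fin (k + m))) (R : Set (Fin k × ℝ)) {T : ℝ}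
    (hR : ∀ r ∈ R, r.2 ≤ T)
    (hcl : ∀ r ∈ R, BC (Ct (pth Φ ε (Fin.append V W)) ε) r.2 (Fin.castAdd m r.1) ⊆
      range (Fin.castAdd m))
    (hav : ∀ s ∈ Icc 0 T, ∀ l ∈ ActCF (pth Φ ε (Fin.append V W)) (Fin.castAdd m) ε R s, ∀ j,
      j ∉ ActCF (pth Φ ε (Fin.append V W)) (Fin.castAdd m) ε R s →
      ε < dist (pth Φ ε (Fin.append V W) s (Fin.castAdd m l)).1 (pth Φ ε V s j).1) :
    (∀ s ∈ Icc 0 T, ∀ l ∈ ActCF (pth Φ ε (Fin.append V W)) (Fin.castAdd m) ε R s,
      pth Φ ε (Fin.append V W) s (Fin.castAdd m l) = pth Φ ε V s l) ∧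
    ∀ r ∈ R, ∀ s, 0 ≤ s → Act (Ct (pth Φ ε V) ε) r.2 r.1 s =
      {l | Fin.castAdd m l ∈ Act (Ct (pth Φ ε (Fin.append V W)) ε) r.2 (Fin.castAdd m r.1) s} := by
  have hV : V ∈ Dom Φ (Fin k) := by
    have := dom_comp hVW (e := Fin.castAdd m) (Fin.castAdd_injective k m)
    simpa using this
  have hz₁ : ∀ j, ContinuousOn (fun s => pth Φ ε V s j) (Icc 0 T) := fun j =>
    (continuous_pth hΦ hε V j).continuousOn
  have hz₂ : ∀ j, ContinuousOn (fun s => pth Φ ε (Fin.append V W) s j) (Icc 0 T) := fun j =>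
    (continuous_pth hΦ hε _ j).continuousOn
  have hloc := locUniq_pth hΦ hε T hVW hV
  have h0 : ∀ l ∈ ActCF (pth Φ ε (Fin.append V W)) (Fin.castAdd m) ε R 0,
      pth Φ ε (Fin.append V W) 0 (Fin.castAdd m l) = pth Φ ε V 0 (id l) := by
    intro l _
    simp only [pth, flow_zero hΦ hε, id_eq, Fin.append_left]
  have hinj : Function.Injective (Fin.castAdd m : Fin k → Fin (k + m)) :=
    Fin.castAdd_injective k m
  have hav' : ∀ s ∈ Icc 0 T, ∀ l ∈ ActCF (pth Φ ε (Fin.append V W)) (Fin.castAdd m) ε R s, ∀ j,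
      j ∉ id '' ActCF (pth Φ ε (Fin.append V W)) (Fin.castAdd m) ε R s →
      ε < dist (pth Φ ε (Fin.append V W) s (Fin.castAdd m l)).1 (pth Φ ε V s j).1 := by
    simpa using hav
  refine ⟨(compareF hz₂ hz₁ hloc hinj Function.injective_id R hR hcl h0 hav').1, ?_⟩
  intro r hr s hs
  have := compareF_Act hz₂ hz₁ hloc hinj Function.injective_id R hR hcl h0 hav' r hr s hs
  simpa using this

/-- The worlds `W` and `V ∪ W`: particles of `W` outside the forward causal closure have the same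
history. -/
theorem agree_append (hΦ : AdmissiblePotential Φ) (hε : 0 < ε) {k m : ℕ} {V : Config k}
    {W : Config m} (hVW : Fin.append V W ∈ Dom Φ (Fin (k + m))) {T s : ℝ} (hs : s ≤ T)
    {l : Fin m} (hl : ¬ Fut (pth Φ ε W) (pth Φ ε (Fin.append V W)) id (Fin.natAdd k) ε s l)
    {s' : ℝ} (hs' : s' ∈ Icc 0 s) :
    pth Φ ε W s' l = pth Φ ε (Fin.append V W) s' (Fin.natAdd k l) := by
  have hW : W ∈ Dom Φ (Fin m) := by
    have := dom_comp hVW (e := Fin.natAdd k) (Fin.natAdd_injective m k)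
    simpa using this
  exact agree_history_of_not_fut (T := T) (fun j => (continuous_pth hΦ hε W j).continuousOn)
    (fun j => (continuous_pth hΦ hε _ j).continuousOn) (locUniq_pth hΦ hε T hW hVW)
    Function.injective_id (Fin.natAdd_injective m k) hs hl hs'

/-- In the worlds `W` and `V ∪ W` the sources of `Fut` are contacts of particles of `W` with
particles of `V` in the world `V ∪ W`. -/
theorem fut_append_cases (hΦ : AdmissiblePotential Φ) (hε : 0 < ε) {k m : ℕ} {V : Config k}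
    {W : Config m} {s : ℝ} {l : Fin m}
    (h : Fut (pth Φ ε W) (pth Φ ε (Fin.append V W)) id (Fin.natAdd k) ε s l) :
    (∃ s' j, 0 ≤ s' ∧ s' ≤ s ∧ Ct (pth Φ ε (Fin.append V W)) ε s' (Fin.castAdd m j)
      (Fin.natAdd k l)) ∨
    (∃ s' l', s' ≤ s ∧ Fut (pth Φ ε W) (pth Φ ε (Fin.append V W)) id (Fin.natAdd k) ε s' l' ∧
      (Ct (pth Φ ε W) ε s' l' l ∨
        Ct (pth Φ ε (Fin.append V W)) ε s' (Fin.natAdd k l') (Fin.natAdd k l))) := by
  cases h with
  | init h hs =>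
    exfalso
    apply h
    simp only [pth, flow_zero hΦ hε, id_eq, Fin.append_right]
  | new₁ j hj hc h0 hs => exact absurd ⟨j, rfl⟩ hj
  | @new₂ _ s' _ j hj hc h0 hs =>
    left
    refine ⟨s', ?_⟩
    induction j using Fin.addCases with
    | left j => exact ⟨j, h0, hs, hc⟩
    | right j => exact absurd ⟨j, rfl⟩ hj
  | @chain₁ _ s' _ l' h hc hs => exact Or.inr ⟨s', l', hs, h, Or.inl hc⟩
  | @chain₂ _ s' _ l' h hc hs => exact Or.inr ⟨s', l', hs, h, Or.inr hc⟩

end append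

/-! ### Connected components of the contact graph in a window -/

section comp

variable {ι : Type*}

/-- `j` and `k` are in contact at some time of `[a, b]`. -/
def Adj (z : ℝ → ι → PhasePoint) (ε a b : ℝ) (j k : ι) : Prop := ∃ s ∈ Icc a b, Ct z ε s j k

/-- Connected component of `i` in the contact graph of the window `[a, b]`. -/
def comp (z : ℝ → ι → PhasePoint) (ε a b : ℝ) (i : ι) : Set ι :=
  {k | Relation.ReflTransGen (Adj z ε a b) i k}

variable {z : ℝ → ι → PhasePoint} {ε a b : ℝ}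

theorem Adj.symm {j k : ι} (h : Adj z ε a b j k) : Adj z ε a b k j := by
  obtain ⟨s, hs, hc⟩ := h
  exact ⟨s, hs, hc.symm⟩

theorem Adj.mono {a' b' : ℝ} {j k : ι} (h : Adj z ε a b j k) (ha : a' ≤ a) (hb : b ≤ b') :
    Adj z ε a' b' j k := by
  obtain ⟨s, hs, hc⟩ := h
  exact ⟨s, ⟨ha.trans hs.1, hs.2.trans hb⟩, hc⟩

theorem rtg_mono {r r' : ι → ι → Prop} (h : ∀ j k, r j k → r' j k) {i k : ι}
    (hk : Relation.ReflTransGen r i k) : Relation.ReflTransGen r' i k := by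
  induction hk with
  | refl => exact .refl
  | tail _ hjk ih => exact ih.tail (h _ _ hjk)

theorem rtg_symm {r : ι → ι → Prop} (h : ∀ j k, r j k → r k j) {i k : ι}
    (hk : Relation.ReflTransGen r i k) : Relation.ReflTransGen r k i := by
  induction hk with
  | refl => exact .refl
  | tail _ hjk ih => exact .head (h _ _ hjk) ih

theorem mem_comp_self (i : ι) : i ∈ comp z ε a b i := .refl

theorem comp_mono {a' b' : ℝ} (ha : a' ≤ a) (hb : b ≤ b') (i : ι) :
    comp z ε a b i ⊆ comp z ε a' b' i := fun _ hk =>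
  rtg_mono (fun _ _ h => h.mono ha hb) hk

theorem comp_symm {i k : ι} (h : k ∈ comp z ε a b i) : i ∈ comp z ε a b k := by
  exact rtg_symm (fun _ _ h => h.symm) h

theorem comp_trans {i j k : ι} (h : j ∈ comp z ε a b i) (h' : k ∈ comp z ε a b j) :
    k ∈ comp z ε a b i := Relation.ReflTransGen.trans h h'

theorem comp_eq_of_mem {i k : ι} (h : k ∈ comp z ε a b i) : comp z ε a b k = comp z ε a b i := by
  ext l
  exact ⟨fun hl => comp_trans h hl, fun hl => comp_trans (comp_symm h) hl⟩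

theorem comp_disjoint {i k : ι} (h : k ∉ comp z ε a b i) :
    Disjoint (comp z ε a b i) (comp z ε a b k) := by
  rw [Set.disjoint_left]
  intro l hl hl'
  exact h (comp_trans hl (comp_symm hl'))

theorem comp_adj {i j k : ι} (h : j ∈ comp z ε a b i) (hjk : Adj z ε a b j k) :
    k ∈ comp z ε a b i := Relation.ReflTransGen.tail h hjk

/-- Components are strictly isolated during the window. -/
theorem comp_isolated {i j k : ι} (hj : j ∈ comp z ε a b i) (hk : k ∉ comp z ε a b i) {s : ℝ}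
    (hs : s ∈ Icc a b) : ε < dist (z s j).1 (z s k).1 := by
  by_contra hle
  push Not at hle
  exact hk (comp_adj hj ⟨s, hs, hle⟩)

/-- A set closed under contacts in the window and containing `i` contains its component. -/
theorem comp_subset_of_closed {i : ι} {S : Set ι} (hi : i ∈ S)
    (hS : ∀ j ∈ S, ∀ k, Adj z ε a b j k → k ∈ S) : comp z ε a b i ⊆ S := by
  intro k hk
  change Relation.ReflTransGen _ i k at hk
  induction hk with
  | refl => exact hi
  | tail _ h ih => exact hS _ ih _ h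

theorem comp_congr {z' : ℝ → ι → PhasePoint} (h : ∀ s ∈ Icc a b, ∀ j, (z s j).1 = (z' s j).1)
    (i : ι) : comp z ε a b i = comp z' ε a b i := by
  have : Adj z ε a b = Adj z' ε a b := by
    funext j k
    simp only [Adj, Ct, eq_iff_iff]
    constructor
    · rintro ⟨s, hs, hc⟩
      exact ⟨s, hs, by rwa [← h s hs j, ← h s hs k]⟩
    · rintro ⟨s, hs, hc⟩
      exact ⟨s, hs, by rwa [h s hs j, h s hs k]⟩
  simp only [comp, this]

/-- Active particles of an exploration which starts in the window at time `t ∈ [a, b]` from `i` stay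
in the component of `i`, at all times in the window. -/
theorem past_subset_comp {i k : ι} {t s : ℝ} (ht : t ≤ b) (hs : a ≤ s)
    (h : Past (Ct z ε) t i s k) : k ∈ comp z ε a b i := by
  refine h.mem_of_closed (mem_comp_self i) ?_
  intro s' j l h1 h2 h3 h4
  exact comp_adj h3 ⟨s', ⟨hs.trans h1, h2.trans ht⟩, h4⟩

/-- The full exploration from `(i, t)` is contained in the union of the explorations from the members
of the component at the beginning of the window. -/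
theorem Act_subset_biUnion_comp {i : ι} {t s : ℝ} (hat : a ≤ t) (ht : t ≤ b) (hs : s ≤ a) :
    Act (Ct z ε) t i s ⊆ ⋃ j ∈ comp z ε a b i, Act (Ct z ε) a j s := by
  rw [Act_eq_biUnion hs hat]
  intro k hk
  simp only [mem_iUnion, exists_prop] at hk ⊢
  obtain ⟨j, hj, hk⟩ := hk
  exact ⟨j, past_subset_comp ht le_rfl hj, hk⟩

/-- With closed contact sets the set of window ends for which `j` and `k` are adjacent is closed. -/
theorem isClosed_adj (hC : ∀ j k, IsClosed {s | Ct z ε s j k}) (a : ℝ) (j k : ι) :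
    IsClosed {b | Adj z ε a b j k} := by
  rw [← isSeqClosed_iff_isClosed]
  intro u σ hu hlim
  -- bounded sequence of contact times
  obtain ⟨M, hM⟩ : ∃ M, ∀ n, u n ≤ M := by
    obtain ⟨M, hM⟩ := hlim.bddAbove_range
    exact ⟨M, fun n => hM ⟨n, rfl⟩⟩
  choose s hs hc using hu
  have hbd : ∀ n, s n ∈ Icc a M := fun n => ⟨(hs n).1, (hs n).2.trans (hM n)⟩
  obtain ⟨r, -, φ, hφ, hr⟩ := isCompact_Icc.tendsto_subseq hbd
  refine ⟨r, ⟨ge_of_tendsto' hr fun n => (hs (φ n)).1, ?_⟩, ?_⟩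
  · exact le_of_tendsto_of_tendsto' hr (hlim.comp hφ.tendsto_atTop) fun n => (hs (φ n)).2
  · exact (hC j k).mem_of_tendsto hr (Eventually.of_forall fun n => hc (φ n))

/-- With closed contact sets and finitely many particles, components are right-continuous in the end
of the window: the set of window ends for which `k` belongs to the component of `i` is closed. -/
theorem isClosed_mem_comp [Finite ι] (hC : ∀ j k, IsClosed {s | Ct z ε s j k}) (a : ℝ) (i k : ι) :
    IsClosed {b | k ∈ comp z ε a b i} := by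
  rw [← isSeqClosed_iff_isClosed]
  intro u σ hu hlim
  by_contra hk
  change k ∉ comp z ε a σ i at hk
  -- for each `n` there is an exit edge from the component at `σ`
  have hex : ∀ n, ∃ p : ι × ι, p.1 ∈ comp z ε a σ i ∧ p.2 ∉ comp z ε a σ i ∧
      Adj z ε a (u n) p.1 p.2 := by
    intro n
    have h1 : Relation.ReflTransGen (Adj z ε a (u n)) i k := hu n
    have gen : ∀ l, Relation.ReflTransGen (Adj z ε a (u n)) i l → l ∉ comp z ε a σ i →
        ∃ p : ι × ι, p.1 ∈ comp z ε a σ i ∧ p.2 ∉ comp z ε a σ i ∧ Adj z ε a (u n) p.1 p.2 := by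
      intro l hl
      induction hl with
      | refl => intro h; exact absurd (mem_comp_self i) h
      | @tail x y _ hxy ih =>
        intro hy
        by_cases hx : x ∈ comp z ε a σ i
        · exact ⟨(x, y), hx, hy, hxy⟩
        · exact ih hx
    exact gen k h1 hk
  choose p hp1 hp2 hp3 using hex
  obtain ⟨q, hq⟩ := Finite.exists_infinite_fiber p
  have hinf : Set.Infinite (p ⁻¹' {q}) := Set.infinite_coe_iff.1 hq
  obtain ⟨φ, hφ, hφ'⟩ := Filter.extraction_of_frequently_atTop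
    (Nat.frequently_atTop_iff_infinite.2 hinf)
  have hadj : Adj z ε a σ q.1 q.2 := by
    refine (isClosed_adj hC a q.1 q.2).mem_of_tendsto (hlim.comp hφ.tendsto_atTop) ?_
    refine Filter.Eventually.of_forall fun n => ?_
    have h6 : p (φ n) = q := hφ' n
    have := hp3 (φ n)
    rwa [h6] at this
  have h6 : p (φ 0) = q := hφ' 0
  have h7 := hp1 (φ 0)
  have h8 := hp2 (φ 0)
  rw [h6] at h7 h8
  exact h8 (comp_adj h7 hadj)

end comp

section compdyn

variable {Φ : Space3 → ℝ} {ε : ℝ} {ι κ : Type*} [Fintype ι] [Fintype κ]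

/-- A group which is strictly isolated in the window evolves like its own isolated world. -/
theorem isolated_group (hΦ : AdmissiblePotential Φ) (hε : 0 < ε) {Z : ι → PhasePoint}
    (hZ : Z ∈ Dom Φ ι) (e : κ ↪ ι) {a b : ℝ} (_hab : a ≤ b)
    (hiso : ∀ s ∈ Icc a b, ∀ k, ∀ j, j ∉ range e → ε ≤ dist (pth Φ ε Z s (e k)).1
      (pth Φ ε Z s j).1) :
    ∀ s ∈ Icc a b, ∀ k, pth Φ ε Z s (e k) = flow Φ ε (s - a) (fun k => pth Φ ε Z a (e k)) k := by
  intro s hs k
  have h1 : SolOn Φ ε (fun t k => pth Φ ε Z t (e k)) (Icc a b) :=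
    (solOn_pth hΦ hε hZ (Icc a b)).comp hΦ hε e fun t ht k j hj => hiso t ht k j hj
  have hd : (fun k => pth Φ ε Z a (e k)) ∈ Dom Φ κ :=
    dom_comp (flow_mem hΦ hε hZ a) e.injective
  -- shift time
  have h2 : ∀ t ∈ Icc 0 (b - a), HasDerivWithinAt (fun t k => pth Φ ε Z (a + t) (e k))
      (nf Φ ε (fun k => pth Φ ε Z (a + t) (e k))) (Icc 0 (b - a)) t := by
    intro t ht
    have h3 := h1 (a + t) ⟨by linarith [ht.1], by linarith [ht.2]⟩
    have h4 : HasDerivWithinAt (fun t : ℝ => a + t) 1 (Icc 0 (b - a)) t :=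
      ((hasDerivAt_id t).const_add a).hasDerivWithinAt
    have h5 := h3.scomp t h4 (fun u hu => ⟨by linarith [hu.1], by linarith [hu.2]⟩)
    simpa [Function.comp_def] using h5
  have h6 := eq_flow hΦ hε (γ := fun t k => pth Φ ε Z (a + t) (e k)) (a := 0) (b := b - a)
    ⟨le_rfl, by linarith [hs.1, hs.2]⟩ h2 (by simpa using hd) (t := s - a)
    ⟨by linarith [hs.1], by linarith [hs.2]⟩
  have h7 := congrFun h6 k
  simpa using h7

/-- **Components evolve like their own isolated worlds.** -/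
theorem comp_isolated_flow (hΦ : AdmissiblePotential Φ) (hε : 0 < ε) {Z : ι → PhasePoint}
    (hZ : Z ∈ Dom Φ ι) {a b : ℝ} (hab : a ≤ b) (i : ι) [Fintype (comp (pth Φ ε Z) ε a b i)] :
    ∀ s ∈ Icc a b, ∀ k : comp (pth Φ ε Z) ε a b i, pth Φ ε Z s k =
      flow Φ ε (s - a) (fun k : comp (pth Φ ε Z) ε a b i => pth Φ ε Z a k) k := by
  refine isolated_group hΦ hε hZ (Function.Embedding.subtype _) hab ?_
  intro s hs k j hj
  have hj' : j ∉ comp (pth Φ ε Z) ε a b i := by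
    intro h
    exact hj ⟨⟨j, h⟩, rfl⟩
  exact (comp_isolated k.2 hj' hs).le

/-- Measurability of adjacency in a window. -/
theorem measurableSet_adj (hΦ : AdmissiblePotential Φ) (hε : 0 < ε) (j k : ι) :
    MeasurableSet {p : ℝ × ℝ × (ι → PhasePoint) | Adj (pth Φ ε p.2.2) ε p.1 p.2.1 j k} := by
  exact measurableSet_exists_Icc (α := fun p : ℝ × ℝ × (ι → PhasePoint) => p.1)
    (β := fun p : ℝ × ℝ × (ι → PhasePoint) => p.2.1) measurable_fst
    (measurable_fst.comp measurable_snd)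
    (g := fun p s => dist (pth Φ ε p.2.2 s j).1 (pth Φ ε p.2.2 s k).1)
    (fun p => continuous_dist_pth hΦ hε p.2.2 j k)
    (fun s => (measurable_dist_pth hΦ hε s j k).comp (measurable_snd.comp measurable_snd)) ε

/-- Measurability of membership in a component. -/
theorem measurableSet_mem_comp (hΦ : AdmissiblePotential Φ) (hε : 0 < ε) (i k : ι) :
    MeasurableSet {p : ℝ × ℝ × (ι → PhasePoint) | k ∈ comp (pth Φ ε p.2.2) ε p.1 p.2.1 i} := by
  classical
  -- only countably (finitely) many adjacency matrices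
  have key : {p : ℝ × ℝ × (ι → PhasePoint) | k ∈ comp (pth Φ ε p.2.2) ε p.1 p.2.1 i} =
      ⋃ E ∈ {E : Set (ι × ι) | Relation.ReflTransGen (fun j k => (j, k) ∈ E) i k},
        ⋂ q : ι × ι, {p : ℝ × ℝ × (ι → PhasePoint) |
          Adj (pth Φ ε p.2.2) ε p.1 p.2.1 q.1 q.2 ↔ q ∈ E} := by
    ext p
    simp only [mem_iUnion, mem_iInter, mem_ofPred_eq, exists_prop]
    constructor
    · intro h
      exact ⟨{q | Adj (pth Φ ε p.2.2) ε p.1 p.2.1 q.1 q.2}, h, fun q => Iff.rfl⟩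
    · rintro ⟨E, hE, h⟩
      exact rtg_mono (fun j k hjk => (h (j, k)).2 hjk) hE
  rw [key]
  refine MeasurableSet.biUnion (Set.to_countable _) fun E _ => MeasurableSet.iInter fun q => ?_
  by_cases hq : q ∈ E
  · simp only [hq, iff_true]
    exact measurableSet_adj hΦ hε q.1 q.2
  · simp only [hq, iff_false]
    exact (measurableSet_adj hΦ hε q.1 q.2).compl

end compdyn

end Crest.Agent.R122.Causal291
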