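import Crest.Agent.R122.CausalInf_291

/-!
# Causal-past calculus (row 122, block F4): four worlds `Z`, `Z+A`, `Z+L`, `Z+A+L`

If the forward closures of `A` and of `L` (with respect to `Z`) are unlinked, the world `Z+A+L` is
glued from `Z+A` and `Z+L` (`glueA`, `glueL`, `histA`, `histL`), and the infection processes of
`Z, Z+L` agree exactly when those of `Z+A, Z+A+L` agree (`agreeAt_iff`).
-/

set_option autoImplicit false

open Set Filter Topology MeasureTheory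
open Crest.AnalysisR.Kinetic
open Crest.Agent.R122.Flow671 Crest.Agent.R122.Loc45

namespace Crest.Agent.R122.Causal291

section tools

variable {ι₁ ι₂ κ : Type} [Finite ι₁] [Finite ι₂] [Finite κ]
variable {z₁ : ℝ → ι₁ → PhasePoint} {z₂ : ℝ → ι₂ → PhasePoint} {e₁ : κ → ι₁} {e₂ : κ → ι₂}
variable {ε T : ℝ}

/-- Right step: agreement at one time of a group which is strictly isolated in both worlds. -/
theorem extend_agree
    (hz₁ : ∀ j, ContinuousOn (fun s => z₁ s j) (Icc 0 T))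
    (hz₂ : ∀ j, ContinuousOn (fun s => z₂ s j) (Icc 0 T))
    (hloc : LocUniq ε T z₁ z₂) (he₁ : Function.Injective e₁) (he₂ : Function.Injective e₂)
    {s : ℝ} (hs : s ∈ Ico 0 T) (G : Set κ)
    (h1 : ∀ k ∈ G, ∀ j, j ∉ e₁ '' G → ε < dist (z₁ s (e₁ k)).1 (z₁ s j).1)
    (h2 : ∀ k ∈ G, ∀ j, j ∉ e₂ '' G → ε < dist (z₂ s (e₂ k)).1 (z₂ s j).1)
    (hsG : ∀ k ∈ G, z₁ s (e₁ k) = z₂ s (e₂ k)) :
    ∃ δ > 0, s + δ ≤ T ∧ ∀ s' ∈ Icc s (s + δ), ∀ k ∈ G, z₁ s' (e₁ k) = z₂ s' (e₂ k) := by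
  obtain ⟨δ₁, hδ₁, hδ₁T, hi₁⟩ := exists_isolated (ε := ε) hz₁ hs (e₁ '' G) (e₁ '' G)ᶜ
    (by rintro _ ⟨k, hk, rfl⟩ j hj; exact h1 k hk j hj)
  obtain ⟨δ₂, hδ₂, hδ₂T, hi₂⟩ := exists_isolated (ε := ε) hz₂ hs (e₂ '' G) (e₂ '' G)ᶜ
    (by rintro _ ⟨k, hk, rfl⟩ j hj; exact h2 k hk j hj)
  have hδ0 : 0 < min δ₁ δ₂ := lt_min hδ₁ hδ₂
  have l₁ : min δ₁ δ₂ ≤ δ₁ := min_le_left _ _
  have l₂ : min δ₁ δ₂ ≤ δ₂ := min_le_right _ _
  refine ⟨min δ₁ δ₂, hδ0, by linarith, fun s' hs' k hk => ?_⟩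
  exact hloc G (fun k => e₁ k) (fun k => e₂ k) s (s + min δ₁ δ₂)
    (fun k l h => Subtype.ext (he₁ h)) (fun k l h => Subtype.ext (he₂ h)) hs.1
    (by linarith) (by linarith)
    (fun s' hs' k j hj => (hi₁ s' ⟨hs'.1, hs'.2.trans (by linarith)⟩ _ ⟨k, k.2, rfl⟩ j (by
      rintro ⟨l, hl, rfl⟩
      exact hj ⟨⟨l, hl⟩, rfl⟩)).le)
    (fun s' hs' k j hj => (hi₂ s' ⟨hs'.1, hs'.2.trans (by linarith)⟩ _ ⟨k, k.2, rfl⟩ j (by
      rintro ⟨l, hl, rfl⟩
      exact hj ⟨⟨l, hl⟩, rfl⟩)).le) (fun k => hsG k k.2) s' hs' ⟨k, hk⟩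

omit [Finite ι₁] [Finite ι₂] [Finite κ] in
/-- Left step: the set of times up to which an antitone family agrees is closed. -/
theorem closed_agree
    (hz₁ : ∀ j, ContinuousOn (fun s => z₁ s j) (Icc 0 T))
    (hz₂ : ∀ j, ContinuousOn (fun s => z₂ s j) (Icc 0 T))
    (G : ℝ → Set κ) (hG : ∀ s s', 0 ≤ s → s ≤ s' → s' ≤ T → G s' ⊆ G s) :
    IsClosed ({s | ∀ s' ∈ Icc 0 s, ∀ k ∈ G s', z₁ s' (e₁ k) = z₂ s' (e₂ k)} ∩ Icc 0 T) := by
  rw [← isSeqClosed_iff_isClosed]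
  intro u σ hu hlim
  have hσ : σ ∈ Icc 0 T := isClosed_Icc.mem_of_tendsto hlim
    (Eventually.of_forall fun n => (hu n).2)
  refine ⟨?_, hσ⟩
  intro s' hs' k hk
  rcases lt_or_eq_of_le hs'.2 with h1 | h1
  · obtain ⟨n, hn⟩ := (hlim.eventually (lt_mem_nhds h1)).exists
    exact (hu n).1 s' ⟨hs'.1, hn.le⟩ k hk
  · subst h1
    by_cases h2 : ∃ n, s' ≤ u n
    · obtain ⟨n, hn⟩ := h2
      exact (hu n).1 s' ⟨hs'.1, hn⟩ k hk
    · push Not at h2
      have h3 : ∀ n, z₁ (u n) (e₁ k) = z₂ (u n) (e₂ k) := fun n =>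
        (hu n).1 (u n) ⟨(hu n).2.1, le_rfl⟩ k
          (hG (u n) s' (hu n).2.1 (h2 n).le hσ.2 hk)
      have hlim' : Tendsto u atTop (𝓝[Icc 0 T] s') :=
        tendsto_nhdsWithin_iff.2 ⟨hlim, Eventually.of_forall fun n => (hu n).2⟩
      have h4 : Tendsto (fun n => z₁ (u n) (e₁ k)) atTop (𝓝 (z₁ s' (e₁ k))) :=
        (hz₁ (e₁ k) s' hσ).tendsto.comp hlim'
      have h5 : Tendsto (fun n => z₂ (u n) (e₂ k)) atTop (𝓝 (z₂ s' (e₂ k))) :=
        (hz₂ (e₂ k) s' hσ).tendsto.comp hlim'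
      simp only [h3] at h4
      exact tendsto_nhds_unique h4 h5

end tools

/-- Four worlds over `κ` (base `Z`), `ιA` (`Z+A`), `ιL` (`Z+L`), `ι` (`Z+A+L`). -/
structure Four (κ ιA ιL ι : Type) where
  z₀ : ℝ → κ → PhasePoint
  zA : ℝ → ιA → PhasePoint
  zL : ℝ → ιL → PhasePoint
  z : ℝ → ι → PhasePoint
  eA : κ → ιA
  eL : κ → ιL
  fA : ιA → ι
  fL : ιL → ι
  eA_inj : Function.Injective eA
  eL_inj : Function.Injective eL
  fA_inj : Function.Injective fA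
  fL_inj : Function.Injective fL
  comm : ∀ k, fA (eA k) = fL (eL k)
  cover : ∀ j, j ∈ range fA ∨ j ∈ range fL
  pull : ∀ x y, fA x = fL y → ∃ k, x = eA k ∧ y = eL k

namespace Four

variable {κ ιA ιL ι : Type}

/-- The symmetric system (roles of `A` and `L` exchanged). -/
def swap (F : Four κ ιA ιL ι) : Four κ ιL ιA ι where
  z₀ := F.z₀
  zA := F.zL
  zL := F.zA
  z := F.z
  eA := F.eL
  eL := F.eA
  fA := F.fL
  fL := F.fA
  eA_inj := F.eL_inj
  eL_inj := F.eA_inj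
  fA_inj := F.fL_inj
  fL_inj := F.fA_inj
  comm := fun k => (F.comm k).symm
  cover := fun j => (F.cover j).symm
  pull := fun x y h => by
    obtain ⟨k, hk, hk'⟩ := F.pull y x h.symm
    exact ⟨k, hk', hk⟩

/-- Forward closure of `A` with respect to `Z`. -/
def FA (F : Four κ ιA ιL ι) (ε s : ℝ) : Set κ := {k | Fut F.z₀ F.zA id F.eA ε s k}

/-- Forward closure of `L` with respect to `Z`. -/
def FL (F : Four κ ιA ιL ι) (ε s : ℝ) : Set κ := {k | Fut F.z₀ F.zL id F.eL ε s k}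

/-- `A` and the particles influenced by `A`, in `Z+A`. -/
def IA (F : Four κ ιA ιL ι) (ε s : ℝ) : Set ιA := {x | ∀ k, x = F.eA k → k ∈ F.FA ε s}

/-- `L` and the particles influenced by `L`, in `Z+L`. -/
def IL (F : Four κ ιA ιL ι) (ε s : ℝ) : Set ιL := {y | ∀ k, y = F.eL k → k ∈ F.FL ε s}

theorem swap_FA (F : Four κ ιA ιL ι) (ε s : ℝ) : F.swap.FA ε s = F.FL ε s := rfl
theorem swap_FL (F : Four κ ιA ιL ι) (ε s : ℝ) : F.swap.FL ε s = F.FA ε s := rfl
theorem swap_IA (F : Four κ ιA ιL ι) (ε s : ℝ) : F.swap.IA ε s = F.IL ε s := rfl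
theorem swap_IL (F : Four κ ιA ιL ι) (ε s : ℝ) : F.swap.IL ε s = F.IA ε s := rfl

/-- The influences of `A` and `L` are unlinked on `[0, T]`. -/
structure Unlinked (F : Four κ ιA ιL ι) (ε T : ℝ) : Prop where
  disj : ∀ s ∈ Icc 0 T, ∀ k, k ∈ F.FA ε s → k ∉ F.FL ε s
  far : ∀ s ∈ Icc 0 T, ∀ x ∈ F.IA ε s, ∀ y ∈ F.IL ε s, ε < dist (F.zA s x).1 (F.zL s y).1

/-- Dynamical hypotheses: continuity, equal initial data, local uniqueness for all pairs. -/
structure Dyn (F : Four κ ιA ιL ι) (ε T : ℝ) : Prop where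
  c₀ : ∀ j, ContinuousOn (fun s => F.z₀ s j) (Icc 0 T)
  cA : ∀ j, ContinuousOn (fun s => F.zA s j) (Icc 0 T)
  cL : ∀ j, ContinuousOn (fun s => F.zL s j) (Icc 0 T)
  c : ∀ j, ContinuousOn (fun s => F.z s j) (Icc 0 T)
  u₀A : LocUniq ε T F.z₀ F.zA
  u₀L : LocUniq ε T F.z₀ F.zL
  uA : LocUniq ε T F.zA F.z
  uL : LocUniq ε T F.zL F.z
  initA : ∀ x, F.zA 0 x = F.z 0 (F.fA x)
  initL : ∀ y, F.zL 0 y = F.z 0 (F.fL y)

variable {F : Four κ ιA ιL ι} {ε T : ℝ}

theorem Unlinked.swap (h : F.Unlinked ε T) : F.swap.Unlinked ε T where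
  disj := fun s hs k hk hk' => h.disj s hs k hk' hk
  far := fun s hs x hx y hy => by
    rw [dist_comm]
    exact h.far s hs y hy x hx

theorem Dyn.swap (h : F.Dyn ε T) : F.swap.Dyn ε T where
  c₀ := h.c₀
  cA := h.cL
  cL := h.cA
  c := h.c
  u₀A := h.u₀L
  u₀L := h.u₀A
  uA := h.uL
  uL := h.uA
  initA := h.initL
  initL := h.initA

theorem Unlinked.mono (h : F.Unlinked ε T) {T' : ℝ} (hT : T' ≤ T) : F.Unlinked ε T' where
  disj := fun s hs => h.disj s ⟨hs.1, hs.2.trans hT⟩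
  far := fun s hs => h.far s ⟨hs.1, hs.2.trans hT⟩

theorem FA_mono {s s' : ℝ} (h : s ≤ s') : F.FA ε s ⊆ F.FA ε s' := fun _ hk => Fut.mono hk h

theorem FL_mono {s s' : ℝ} (h : s ≤ s') : F.FL ε s ⊆ F.FL ε s' := fun _ hk => Fut.mono hk h

variable [Finite κ] [Finite ιA] [Finite ιL] [Finite ι]

/-- Outside `FA` the worlds `Z` and `Z+A` agree. -/
theorem agreeA (hd : F.Dyn ε T) {s : ℝ} (hs : s ∈ Icc 0 T) {k : κ} (hk : k ∉ F.FA ε s) :
    F.z₀ s k = F.zA s (F.eA k) :=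
  agree_of_not_fut (e₁ := id) hd.c₀ hd.cA hd.u₀A Function.injective_id F.eA_inj hs hk

theorem agreeL (hd : F.Dyn ε T) {s : ℝ} (hs : s ∈ Icc 0 T) {k : κ} (hk : k ∉ F.FL ε s) :
    F.z₀ s k = F.zL s (F.eL k) :=
  agree_of_not_fut (e₁ := id) hd.c₀ hd.cL hd.u₀L Function.injective_id F.eL_inj hs hk

/-- In `Z+A`, the particles influenced by `L` (in `Z+L`) are isolated from all other particles. -/
theorem isoA (hd : F.Dyn ε T) (hu : F.Unlinked ε T) {s : ℝ} (hs : s ∈ Icc 0 T) {x y : ιA}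
    (hx : ∀ k, x = F.eA k → k ∉ F.FL ε s) (hy : ¬ ∀ k, y = F.eA k → k ∉ F.FL ε s) :
    ε < dist (F.zA s x).1 (F.zA s y).1 := by
  push Not at hy
  obtain ⟨l, rfl, hl⟩ := hy
  by_contra hle
  push Not at hle
  have hlA : l ∉ F.FA ε s := fun h => hu.disj s hs l h hl
  by_cases hxA : x ∈ F.IA ε s
  · -- contact of an influenced particle
    apply hlA
    by_cases hxr : x ∈ range F.eA
    · obtain ⟨k, rfl⟩ := hxr
      exact .chain₂ (hxA k rfl) hle le_rfl
    · exact .new₂ x hxr hle hs.1 le_rfl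
  · simp only [IA, mem_ofPred_eq, not_forall] at hxA
    obtain ⟨k, rfl, hk⟩ := hxA
    have hkL := hx k rfl
    rw [← agreeA hd hs hk, ← agreeA hd hs hlA] at hle
    exact hkL (.chain₁ (e₁ := id) hl (Ct.symm hle) le_rfl)

omit [Finite κ] [Finite ιA] [Finite ιL] [Finite ι] in
/-- In the glued world, at a time at which it is known to be glued, the particles of `Z+A` not
influenced by `L` are isolated from all others. -/
theorem isoZ (hu : F.Unlinked ε T) {s : ℝ} (hs : s ∈ Icc 0 T)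
    (hA : ∀ x, (∀ k, x = F.eA k → k ∉ F.FL ε s) → F.zA s x = F.z s (F.fA x))
    (hL : ∀ y, (∀ k, y = F.eL k → k ∉ F.FA ε s) → F.zL s y = F.z s (F.fL y))
    {x : ιA} (hx : ∀ k, x = F.eA k → k ∉ F.FL ε s) {j : ι}
    (hj : ∀ x', (∀ k, x' = F.eA k → k ∉ F.FL ε s) → F.fA x' ≠ j) :
    ε < dist (F.z s (F.fA x)).1 (F.z s j).1 := by
  -- `j` is influenced by `L` or belongs to `L`
  have hjL : ∃ y ∈ F.IL ε s, j = F.fL y := by
    rcases F.cover j with ⟨x', rfl⟩ | ⟨y, rfl⟩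
    · have : ¬ ∀ k, x' = F.eA k → k ∉ F.FL ε s := fun h => hj x' h rfl
      push Not at this
      obtain ⟨k, rfl, hk⟩ := this
      refine ⟨F.eL k, ?_, F.comm k⟩
      intro k' hk'
      rw [← F.eL_inj hk']
      exact hk
    · by_cases hy : y ∈ range F.eL
      · obtain ⟨k, rfl⟩ := hy
        refine ⟨F.eL k, ?_, rfl⟩
        intro k' hk'
        rw [← F.eL_inj hk']
        by_contra hk
        exact hj (F.eA k) (fun k'' hk'' => by rw [← F.eA_inj hk'']; exact hk) (F.comm k)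
      · exact ⟨y, fun k hk => absurd ⟨k, hk.symm⟩ hy, rfl⟩
  obtain ⟨y, hyL, rfl⟩ := hjL
  have hyA : ∀ k, y = F.eL k → k ∉ F.FA ε s := fun k hk hkA => hu.disj s hs k hkA (hyL k hk)
  rw [← hL y hyA]
  by_cases hxA : x ∈ F.IA ε s
  · rw [← hA x hx]
    exact hu.far s hs x hxA y hyL
  · simp only [IA, mem_ofPred_eq, not_forall] at hxA
    obtain ⟨k, rfl, hk⟩ := hxA
    have hkL := hx k rfl
    rw [F.comm k, ← hL (F.eL k) (fun k' hk' => by rw [← F.eL_inj hk']; exact hk)]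
    by_contra hle
    push Not at hle
    apply hkL
    by_cases hyr : y ∈ range F.eL
    · obtain ⟨l, rfl⟩ := hyr
      exact .chain₂ (hyL l rfl) (Ct.symm hle) le_rfl
    · exact .new₂ y hyr (Ct.symm hle) hs.1 le_rfl

/-- **Glueing.** Under unlinked influences the world `Z+A+L` agrees with `Z+A` outside the influence
of `L`, and with `Z+L` outside the influence of `A`. -/
theorem glue (hd : F.Dyn ε T) (hu : F.Unlinked ε T) :
    (∀ s ∈ Icc 0 T, ∀ x, (∀ k, x = F.eA k → k ∉ F.FL ε s) → F.zA s x = F.z s (F.fA x)) ∧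
    (∀ s ∈ Icc 0 T, ∀ y, (∀ k, y = F.eL k → k ∉ F.FA ε s) → F.zL s y = F.z s (F.fL y)) := by
  rcases lt_or_ge T 0 with hT | hT
  · exact ⟨fun s hs => absurd (hs.1.trans hs.2) (not_le.2 hT),
      fun s hs => absurd (hs.1.trans hs.2) (not_le.2 hT)⟩
  let SA : ℝ → Set ιA := fun s => {x | ∀ k, x = F.eA k → k ∉ F.FL ε s}
  let SL : ℝ → Set ιL := fun s => {y | ∀ k, y = F.eL k → k ∉ F.FA ε s}
  have hSA : ∀ s s', 0 ≤ s → s ≤ s' → s' ≤ T → SA s' ⊆ SA s :=
    fun s s' _ hss' _ x hx k hk hk' => hx k hk (FL_mono hss' hk')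
  have hSL : ∀ s s', 0 ≤ s → s ≤ s' → s' ≤ T → SL s' ⊆ SL s :=
    fun s s' _ hss' _ x hx k hk hk' => hx k hk (FA_mono hss' hk')
  set EA : Set ℝ := {s | ∀ s' ∈ Icc 0 s, ∀ k ∈ SA s', F.zA s' (id k) = F.z s' (F.fA k)} with hEA
  set EL : Set ℝ := {s | ∀ s' ∈ Icc 0 s, ∀ k ∈ SL s', F.zL s' (id k) = F.z s' (F.fL k)} with hEL
  have hcA : IsClosed (EA ∩ Icc 0 T) := closed_agree hd.cA hd.c SA hSA
  have hcL : IsClosed (EL ∩ Icc 0 T) := closed_agree hd.cL hd.c SL hSL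
  have hmain : Icc 0 T ⊆ EA ∩ EL := by
    refine IsClosed.Icc_subset_of_forall_exists_gt ?_ ?_ ?_
    · have : EA ∩ EL ∩ Icc 0 T = (EA ∩ Icc 0 T) ∩ (EL ∩ Icc 0 T) := by
        ext s
        simp only [mem_inter_iff]
        tauto
      rw [this]
      exact hcA.inter hcL
    · constructor
      · intro s' hs' x _
        have : s' = 0 := le_antisymm hs'.2 hs'.1
        subst this
        exact hd.initA x
      · intro s' hs' x _
        have : s' = 0 := le_antisymm hs'.2 hs'.1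
        subst this
        exact hd.initL x
    · rintro s ⟨⟨hsA, hsL⟩, hs⟩ y hy
      have hsI : s ∈ Icc 0 T := ⟨hs.1, hs.2.le⟩
      have hA : ∀ x, (∀ k, x = F.eA k → k ∉ F.FL ε s) → F.zA s x = F.z s (F.fA x) :=
        fun x hx => hsA s ⟨hs.1, le_rfl⟩ x hx
      have hL : ∀ y, (∀ k, y = F.eL k → k ∉ F.FA ε s) → F.zL s y = F.z s (F.fL y) :=
        fun y hy => hsL s ⟨hs.1, le_rfl⟩ y hy
      obtain ⟨δ₁, hδ₁, hδ₁T, h1⟩ := extend_agree (e₁ := id) hd.cA hd.c hd.uA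
        Function.injective_id F.fA_inj hs (SA s)
        (fun x hx j hj => isoA hd hu hsI hx (fun h => hj ⟨j, h, rfl⟩))
        (fun x hx j hj => isoZ hu hsI hA hL hx fun x' hx' h => hj ⟨x', hx', h⟩)
        (fun x hx => hA x hx)
      obtain ⟨δ₂, hδ₂, hδ₂T, h2⟩ := extend_agree (e₁ := id) hd.cL hd.c hd.uL
        Function.injective_id F.fL_inj hs (SL s)
        (fun x hx j hj => isoA (F := F.swap) hd.swap hu.swap hsI hx (fun h => hj ⟨j, h, rfl⟩))
        (fun x hx j hj => isoZ (F := F.swap) hu.swap hsI hL hA hx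
          fun x' hx' h => hj ⟨x', hx', h⟩)
        (fun x hx => hL x hx)
      set δ := min (min δ₁ δ₂) (y - s) with hδ
      have hδ0 : 0 < δ := lt_min (lt_min hδ₁ hδ₂) (sub_pos.2 hy)
      have l₁ : δ ≤ δ₁ := (min_le_left _ _).trans (min_le_left _ _)
      have l₂ : δ ≤ δ₂ := (min_le_left _ _).trans (min_le_right _ _)
      have l₃ : δ ≤ y - s := min_le_right _ _
      refine ⟨s + δ, ⟨?_, ?_⟩, by linarith, by linarith⟩
      · intro s' hs' x hx
        rcases le_total s' s with h3 | h3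
        · exact hsA s' ⟨hs'.1, h3⟩ x hx
        · exact h1 s' ⟨h3, hs'.2.trans (by linarith)⟩ x
            (hSA s s' hs.1 h3 (hs'.2.trans (by linarith)) hx)
      · intro s' hs' x hx
        rcases le_total s' s with h3 | h3
        · exact hsL s' ⟨hs'.1, h3⟩ x hx
        · exact h2 s' ⟨h3, hs'.2.trans (by linarith)⟩ x
            (hSL s s' hs.1 h3 (hs'.2.trans (by linarith)) hx)
  exact ⟨fun s hs x hx => (hmain hs).1 s ⟨hs.1, le_rfl⟩ x hx,
    fun s hs x hx => (hmain hs).2 s ⟨hs.1, le_rfl⟩ x hx⟩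

theorem glueA (hd : F.Dyn ε T) (hu : F.Unlinked ε T) {s : ℝ} (hs : s ∈ Icc 0 T) {x : ιA}
    (hx : ∀ k, x = F.eA k → k ∉ F.FL ε s) : F.zA s x = F.z s (F.fA x) := (glue hd hu).1 s hs x hx

theorem glueL (hd : F.Dyn ε T) (hu : F.Unlinked ε T) {s : ℝ} (hs : s ∈ Icc 0 T) {y : ιL}
    (hy : ∀ k, y = F.eL k → k ∉ F.FA ε s) : F.zL s y = F.z s (F.fL y) := (glue hd hu).2 s hs y hy

/-- In the glued world, influence of `L` spreads only to particles influenced by `L`: a contact in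
`Z+A+L` of a particle influenced by `L` (or in `L`). -/
theorem contact_IL (hd : F.Dyn ε T) (hu : F.Unlinked ε T) {s : ℝ} (hs : s ∈ Icc 0 T) {y : ιL}
    (hy : y ∈ F.IL ε s) {j : ι} (hc : Ct F.z ε s (F.fL y) j) :
    ∃ y' ∈ F.IL ε s, j = F.fL y' := by
  by_contra hno
  push Not at hno
  -- `j` comes from `Z+A` and is not influenced by `L`
  have hj : ∃ x, (∀ k, x = F.eA k → k ∉ F.FL ε s) ∧ F.fA x = j := by
    rcases F.cover j with ⟨x, rfl⟩ | ⟨y', rfl⟩
    · refine ⟨x, fun k hk hkL => ?_, rfl⟩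
      subst hk
      exact hno (F.eL k) (fun k' hk' => by rw [← F.eL_inj hk']; exact hkL) (F.comm k)
    · by_cases hy' : y' ∈ range F.eL
      · obtain ⟨k, rfl⟩ := hy'
        refine ⟨F.eA k, fun k' hk' hkL => ?_, F.comm k⟩
        rw [← F.eA_inj hk'] at hkL
        exact hno (F.eL k) (fun k'' hk'' => by rw [← F.eL_inj hk'']; exact hkL) rfl
      · exact absurd rfl (hno y' fun k hk => absurd ⟨k, hk.symm⟩ hy')
  obtain ⟨x, hx, rfl⟩ := hj
  have h1 := isoZ hu hs (fun x hx => glueA hd hu hs hx) (fun y hy => glueL hd hu hs hy) hx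
    (j := F.fL y) (by
      intro x' hx' h
      obtain ⟨k, rfl, rfl⟩ := F.pull x' y h
      exact hx' k rfl (hy k rfl))
  have h2 : dist (F.z s (F.fA x)).1 (F.z s (F.fL y)).1 ≤ ε := Ct.symm hc
  exact absurd h2 (not_le.2 h1)

/-- An exploration in `Z+A+L` which meets the influence of `L` starts in the influence of `L`. -/
theorem past_IL (hd : F.Dyn ε T) (hu : F.Unlinked ε T) {t s : ℝ} (hs : 0 ≤ s) (ht : t ≤ T)
    {i j : ι} (h : Past (Ct F.z ε) t i s j) :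
    ∀ y ∈ F.IL ε s, j = F.fL y → ∃ y' ∈ F.IL ε t, i = F.fL y' := by
  have monoIL : ∀ {r r' : ℝ}, r ≤ r' → F.IL ε r ⊆ F.IL ε r' :=
    fun hr y hy k hk => FL_mono hr (hy k hk)
  induction h with
  | @root s h =>
    intro y hy hj
    exact ⟨y, monoIL h hy, hj⟩
  | @step s s' j k h hc hss' ih =>
    intro y hy hj
    subst hj
    have hs' : 0 ≤ s' := hs.trans hss'
    obtain ⟨y', hy', hj'⟩ := contact_IL hd hu (s := s') ⟨hs', h.le.trans ht⟩ (monoIL hss' hy)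
      (Ct.symm hc)
    exact ih hs' y' hy' hj'

/-- The history in `Z+A+L` of a particle not influenced by `L` is its history in `Z+A`. -/
theorem histA (hd : F.Dyn ε T) (hu : F.Unlinked ε T) {t : ℝ} (ht : t ∈ Icc 0 T) {x : ιA}
    (hx : ∀ k, x = F.eA k → k ∉ F.FL ε t) :
    HistEq F.zA F.z id F.fA ε t x := by
  -- no exploration from `(x, t)` in the glued world meets the influence of `L`
  have hno : ∀ s j, 0 ≤ s → Past (Ct F.z ε) t (F.fA x) s j →
      ∃ x', (∀ k, x' = F.eA k → k ∉ F.FL ε s) ∧ j = F.fA x' := by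
    intro s j hs hj
    have hnoIL : ∀ y ∈ F.IL ε s, j ≠ F.fL y := by
      intro y hy hjy
      obtain ⟨y', hy', hxy'⟩ := past_IL hd hu hs ht.2 hj y hy hjy
      obtain ⟨k, rfl, rfl⟩ := F.pull x y' hxy'
      exact hx k rfl (hy' k rfl)
    rcases F.cover j with ⟨x', rfl⟩ | ⟨y, rfl⟩
    · refine ⟨x', fun k hk hkL => ?_, rfl⟩
      subst hk
      exact hnoIL (F.eL k) (fun k' hk' => by rw [← F.eL_inj hk']; exact hkL) (F.comm k)
    · by_cases hy' : y ∈ range F.eL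
      · obtain ⟨k, rfl⟩ := hy'
        refine ⟨F.eA k, fun k' hk' hkL => ?_, (F.comm k).symm⟩
        rw [← F.eA_inj hk'] at hkL
        exact hnoIL (F.eL k) (fun k'' hk'' => by rw [← F.eL_inj hk'']; exact hkL) rfl
      · exact absurd rfl (hnoIL y fun k hk => absurd ⟨k, hk.symm⟩ hy')
  have hback : ∀ (s : ℝ) (j : ι), Past (Ct F.z ε) t (F.fA x) s j → 0 ≤ s →
      ∀ x', F.fA x' = j → Past (Ct F.zA ε) t x s x' := by
    intro s j hj
    induction hj with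
    | @root s h =>
      intro _ x' hx'
      rw [F.fA_inj hx']
      exact .root h
    | @step s s' j k h hc hss' ih =>
      intro hs x' hx'
      subst hx'
      have hs' : 0 ≤ s' := hs.trans hss'
      have hs'T : s' ∈ Icc 0 T := ⟨hs', h.le.trans ht.2⟩
      obtain ⟨x₁, hx₁, rfl⟩ := hno s' j hs' h
      obtain ⟨x₂, hx₂, hx₂'⟩ := hno s' _ hs' (Past.contact h hc)
      have : x' = x₂ := F.fA_inj hx₂'
      subst this
      refine .step (ih hs' x₁ rfl) ?_ hss'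
      change dist (F.zA s' x₁).1 (F.zA s' x').1 ≤ ε
      rw [glueA hd hu hs'T hx₁, glueA hd hu hs'T hx₂]
      exact hc
  have hforw : ∀ (s : ℝ) (x' : ιA), Past (Ct F.zA ε) t x s x' → 0 ≤ s →
      Past (Ct F.z ε) t (F.fA x) s (F.fA x') ∧ (∀ k, x' = F.eA k → k ∉ F.FL ε s) := by
    intro s x' hx'
    induction hx' with
    | @root s h => exact fun hs => ⟨.root h, fun k hk hkL => hx k hk (FL_mono h hkL)⟩
    | @step s s' j k h hc hss' ih =>
      intro hs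
      have hs' : 0 ≤ s' := hs.trans hss'
      have hs'T : s' ∈ Icc 0 T := ⟨hs', h.le.trans ht.2⟩
      obtain ⟨h1, h2⟩ := ih hs'
      -- `k` is not influenced by `L` at time `s'`
      have hk : ∀ l, k = F.eA l → l ∉ F.FL ε s' := by
        by_contra hno'
        exact absurd hc (not_le.2 (isoA hd hu hs'T h2 hno'))
      refine ⟨.step h1 ?_ hss', fun l hl hlL => hk l hl (FL_mono hss' hlL)⟩
      change dist (F.z s' (F.fA j)).1 (F.z s' (F.fA k)).1 ≤ ε
      rw [← glueA hd hu hs'T h2, ← glueA hd hu hs'T hk]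
      exact hc
  refine ⟨fun s j _ _ => ⟨j, rfl⟩, fun s j hs hj => ?_, fun s k hs => ⟨fun hk => (hforw s k hk hs).1,
    fun hk => hback s _ hk hs k rfl⟩, fun s k hs hk => ?_⟩
  · obtain ⟨x', _, rfl⟩ := hno s j hs hj
    exact ⟨x', rfl⟩
  · have hkt : s ≤ t := hk.le
    exact glueA hd hu ⟨hs, hkt.trans ht.2⟩ (hforw s k hk hs).2

/-- The history in `Z+A+L` of a particle not influenced by `A` is its history in `Z+L`. -/
theorem histL (hd : F.Dyn ε T) (hu : F.Unlinked ε T) {t : ℝ} (ht : t ∈ Icc 0 T) {y : ιL}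
    (hy : ∀ k, y = F.eL k → k ∉ F.FA ε t) : HistEq F.zL F.z id F.fL ε t y :=
  histA (F := F.swap) hd.swap hu.swap ht hy

/-- The history in `Z+A` of a particle not influenced by `A` is its history in `Z`. -/
theorem hist₀A (hd : F.Dyn ε T) {t : ℝ} (ht : t ∈ Icc 0 T) {k : κ} (hk : k ∉ F.FA ε t) :
    HistEq F.z₀ F.zA id F.eA ε t k := by
  -- explorations (in either world) from an uninfluenced particle stay uninfluenced
  have hforw : ∀ (s : ℝ) (j : κ), Past (Ct F.z₀ ε) t k s j → 0 ≤ s →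
      Past (Ct F.zA ε) t (F.eA k) s (F.eA j) ∧ j ∉ F.FA ε s := by
    intro s j hj
    induction hj with
    | @root s h => exact fun _ => ⟨.root h, fun h' => hk (FA_mono h h')⟩
    | @step s s' j l h hc hss' ih =>
      intro hs
      have hs' : 0 ≤ s' := hs.trans hss'
      have hs'T : s' ∈ Icc 0 T := ⟨hs', h.le.trans ht.2⟩
      obtain ⟨h1, h2⟩ := ih hs'
      have hl : l ∉ F.FA ε s' := fun h' => h2 (.chain₁ (e₁ := id) h' (Ct.symm hc) le_rfl)
      refine ⟨.step h1 ?_ hss', fun h' => hl (FA_mono hss' h')⟩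
      change dist (F.zA s' (F.eA j)).1 (F.zA s' (F.eA l)).1 ≤ ε
      rw [← agreeA hd hs'T h2, ← agreeA hd hs'T hl]
      exact hc
  have hback : ∀ (s : ℝ) (x : ιA), Past (Ct F.zA ε) t (F.eA k) s x → 0 ≤ s →
      ∃ j, F.eA j = x ∧ Past (Ct F.z₀ ε) t k s j ∧ j ∉ F.FA ε s := by
    intro s x hx
    induction hx with
    | @root s h => exact fun _ => ⟨k, rfl, .root h, fun h' => hk (FA_mono h h')⟩
    | @step s s' x y h hc hss' ih =>
      intro hs
      have hs' : 0 ≤ s' := hs.trans hss'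
      have hs'T : s' ∈ Icc 0 T := ⟨hs', h.le.trans ht.2⟩
      obtain ⟨j, rfl, h1, h2⟩ := ih hs'
      have hy : y ∈ range F.eA := by
        by_contra hy
        exact h2 (.new₂ y hy (Ct.symm hc) hs' le_rfl)
      obtain ⟨l, rfl⟩ := hy
      have hl : l ∉ F.FA ε s' := fun h' => h2 (.chain₂ h' (Ct.symm hc) le_rfl)
      refine ⟨l, rfl, .step h1 ?_ hss', fun h' => hl (FA_mono hss' h')⟩
      change dist (F.z₀ s' j).1 (F.z₀ s' l).1 ≤ ε
      rw [agreeA hd hs'T h2, agreeA hd hs'T hl]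
      exact hc
  refine ⟨fun s j _ _ => ⟨j, rfl⟩, fun s j hs hj => ?_, fun s j hs => ⟨fun hj => (hforw s j hj hs).1,
    fun hj => ?_⟩, fun s j hs hj => ?_⟩
  · obtain ⟨l, rfl, _⟩ := hback s j hj hs
    exact ⟨l, rfl⟩
  · obtain ⟨l, hl, hl', _⟩ := hback s _ hj hs
    rw [F.eA_inj hl] at hl'
    exact hl'
  · have hjt : s ≤ t := Past.le hj
    exact agreeA hd ⟨hs, hjt.trans ht.2⟩ (hforw s j hj hs).2

theorem hist₀L (hd : F.Dyn ε T) {t : ℝ} (ht : t ∈ Icc 0 T) {k : κ} (hk : k ∉ F.FL ε t) :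
    HistEq F.z₀ F.zL id F.eL ε t k := hist₀A (F := F.swap) hd.swap ht hk

/-! ### World consistency of infection processes -/

/-- Infection status in the four worlds, coherent. -/
structure Status (F : Four κ ιA ιL ι) (ε a T : ℝ) (P₀ : ℝ → κ → Prop) (PA : ℝ → ιA → Prop)
    (PL : ℝ → ιL → Prop) (P : ℝ → ι → Prop) : Prop where
  coh₀A : ∀ s ∈ Icc a T, ∀ k, HistEq F.z₀ F.zA id F.eA ε s k → (P₀ s k ↔ PA s (F.eA k))
  coh₀L : ∀ s ∈ Icc a T, ∀ k, HistEq F.z₀ F.zL id F.eL ε s k → (P₀ s k ↔ PL s (F.eL k))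
  cohA : ∀ s ∈ Icc a T, ∀ x, HistEq F.zA F.z id F.fA ε s x → (PA s x ↔ P s (F.fA x))
  cohL : ∀ s ∈ Icc a T, ∀ y, HistEq F.zL F.z id F.fL ε s y → (PL s y ↔ P s (F.fL y))

/-- **World consistency (W1), pointwise in time.** Assume that the influences of `A` and `L` are
unlinked on `[0, T]` and that at time `s` the infection processes of `Z` and `Z+A` agree. Then the
infection processes of `Z` and `Z+L` agree at `s` if and only if those of `Z+A` and `Z+A+L` do. -/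
theorem agreeAt_iff (hd : F.Dyn ε T) (hu : F.Unlinked ε T) {a : ℝ} (ha : 0 ≤ a)
    {P₀ : ℝ → κ → Prop} {PA : ℝ → ιA → Prop} {PL : ℝ → ιL → Prop} {P : ℝ → ι → Prop}
    (hS : F.Status ε a T P₀ PA PL P) {s : ℝ} (hs : s ∈ Icc a T)
    (h₀A : AgreeAt F.z₀ F.zA id F.eA P₀ PA s) :
    AgreeAt F.z₀ F.zL id F.eL P₀ PL s ↔ AgreeAt F.zA F.z id F.fA PA P s := by
  have hsT : s ∈ Icc 0 T := ⟨ha.trans hs.1, hs.2⟩
  -- the status of elements of `L` is the same in `Z+L` and in `Z+A+L`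
  have hPL : ∀ y, (∀ k, y = F.eL k → k ∉ F.FA ε s) → (PL s y ↔ P s (F.fL y)) :=
    fun y hy => hS.cohL s hs y (histL hd hu hsT hy)
  have hPA : ∀ x, (∀ k, x = F.eA k → k ∉ F.FL ε s) → (PA s x ↔ P s (F.fA x)) :=
    fun x hx => hS.cohA s hs x (histA hd hu hsT hx)
  constructor
  · intro h
    have key : ∀ x, (PA s x ↔ P s (F.fA x)) ∧ (PA s x → F.zA s x = F.z s (F.fA x)) := by
      intro x
      by_cases hx : ∀ k, x = F.eA k → k ∉ F.FL ε s
      · exact ⟨hPA x hx, fun _ => glueA hd hu hsT hx⟩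
      · push Not at hx
        obtain ⟨k, rfl, hkL⟩ := hx
        have hkA : k ∉ F.FA ε s := fun h' => hu.disj s hsT k h' hkL
        have h1 : PL s (F.eL k) ↔ P s (F.fA (F.eA k)) := by
          rw [F.comm k]
          exact hPL (F.eL k) fun k' hk' => by rw [← F.eL_inj hk']; exact hkA
        have h2 : P₀ s k ↔ PL s (F.eL k) := h.iff k
        have h3 : P₀ s k ↔ PA s (F.eA k) := h₀A.iff k
        refine ⟨h3.symm.trans (h2.trans h1), fun hk => ?_⟩
        have hk0 : P₀ s k := h3.2 hk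
        have e1 : F.z₀ s k = F.zA s (F.eA k) := h₀A.eq k hk0
        have e2 : F.z₀ s k = F.zL s (F.eL k) := h.eq k hk0
        have e3 : F.zL s (F.eL k) = F.z s (F.fL (F.eL k)) :=
          glueL hd hu hsT fun k' hk' => by rw [← F.eL_inj hk']; exact hkA
        rw [← e1, e2, e3, F.comm k]
    refine ⟨fun x _ => ⟨x, rfl⟩, fun j hj => ?_, fun x => (key x).1, fun x hx => (key x).2 hx⟩
    -- no element of `L` is infected
    by_contra hjr
    rcases F.cover j with h1 | ⟨y, rfl⟩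
    · exact hjr h1
    · have hy : ∀ k, y = F.eL k → k ∉ F.FA ε s := by
        intro k hk _
        exact hjr ⟨F.eA k, by rw [F.comm k, hk]⟩
      have h2 := h.new₂ y ((hPL y hy).2 hj)
      obtain ⟨k, rfl⟩ := h2
      exact hjr ⟨F.eA k, F.comm k⟩
  · intro h
    have key : ∀ k, (P₀ s k ↔ PL s (F.eL k)) ∧ (P₀ s k → F.z₀ s k = F.zL s (F.eL k)) := by
      intro k
      by_cases hkA : k ∈ F.FA ε s
      · have hkL : k ∉ F.FL ε s := hu.disj s hsT k hkA
        exact ⟨hS.coh₀L s hs k (hist₀L hd hsT hkL), fun _ => agreeL hd hsT hkL⟩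
      · have h1 : PL s (F.eL k) ↔ P s (F.fL (F.eL k)) :=
          hPL (F.eL k) fun k' hk' => by rw [← F.eL_inj hk']; exact hkA
        have h2 : PA s (F.eA k) ↔ P s (F.fA (F.eA k)) := h.iff (F.eA k)
        have h3 : P₀ s k ↔ PA s (F.eA k) := h₀A.iff k
        rw [F.comm k] at h2
        refine ⟨h3.trans (h2.trans h1.symm), fun hk => ?_⟩
        have e1 : F.z₀ s k = F.zA s (F.eA k) := h₀A.eq k hk
        have e2 : F.zA s (F.eA k) = F.z s (F.fA (F.eA k)) := h.eq (F.eA k) (h3.1 hk)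
        have e3 : F.zL s (F.eL k) = F.z s (F.fL (F.eL k)) :=
          glueL hd hu hsT fun k' hk' => by rw [← F.eL_inj hk']; exact hkA
        rw [e1, e2, e3, F.comm k]
    refine ⟨fun x _ => ⟨x, rfl⟩, fun y hy => ?_, fun k => (key k).1, fun k hk => (key k).2 hk⟩
    by_contra hyr
    have h1 := (hPL y fun k hk => absurd ⟨k, hk.symm⟩ hyr).1 hy
    obtain ⟨x, hx⟩ := h.new₂ _ h1
    obtain ⟨k, _, hk⟩ := F.pull x y hx
    exact hyr ⟨k, hk.symm⟩

end Four

end Crest.Agent.R122.Causal291
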