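import Crest.Agent.R122.CausalForest_291

/-!
# Causal-past calculus (row 122, block F4): infection processes and their first discrepancy

An infection rule `P` of a world says which particles are infected at which times of `[a, T]`. It is
hereditary: an exploration which meets an infected pair `(j, s)` is infected. For two worlds with
coherent rules (equal histories give equal infection status) the first time at which the two
infection processes differ is attained and produced by a particle whose history is different in the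
two worlds, hence (`touch_of_not_histEq`) by a new or altered particle which comes within `ε` of a
protected tube.
-/

set_option autoImplicit false

open Set Filter Topology MeasureTheory
open Crest.AnalysisR.Kinetic
open Crest.Agent.R122.Flow671 Crest.Agent.R122.Loc45

namespace Crest.Agent.R122.Causal291

/-- An infection rule on the window `[a, T]` for the world `z`. -/
structure IsRule {ι : Type*} (z : ℝ → ι → PhasePoint) (ε a T : ℝ) (P : ℝ → ι → Prop) : Prop where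
  /-- an exploration which meets an infected pair is infected -/
  hered : ∀ i t j s, a ≤ s → t ≤ T → Past (Ct z ε) t i s j → P s j → P t i
  /-- infection times are attained -/
  closed : ∀ i, IsClosed {s | s ∈ Icc a T ∧ P s i}

section rule

variable {ι : Type*} {z : ℝ → ι → PhasePoint} {ε a T : ℝ} {P : ℝ → ι → Prop}

theorem IsRule.mono (h : IsRule z ε a T P) {i : ι} {s t : ℝ} (ha : a ≤ s) (hst : s ≤ t)
    (ht : t ≤ T) (hP : P s i) : P t i := h.hered i t i s ha ht (.root hst) hP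

theorem IsRule.contact (h : IsRule z ε a T P) {i j : ι} {s : ℝ} (ha : a ≤ s) (ht : s ≤ T)
    (hc : Ct z ε s i j) (hP : P s i) : P s j :=
  h.hered j s i s ha ht (Past.contact (.root le_rfl) hc.symm) hP

/-- Infected and non-infected particles are more than `ε` apart. -/
theorem IsRule.isolated (h : IsRule z ε a T P) {i j : ι} {s : ℝ} (ha : a ≤ s) (ht : s ≤ T)
    (hi : P s i) (hj : ¬ P s j) : ε < dist (z s i).1 (z s j).1 := by
  by_contra hle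
  push Not at hle
  exact hj (h.contact ha ht hle hi)

/-- With finitely many particles the infected set is constant just after each time. -/
theorem IsRule.eventually_const [Finite ι] (h : IsRule z ε a T P) {s : ℝ} (ha : a ≤ s)
    (ht : s < T) : ∃ δ > 0, s + δ ≤ T ∧ ∀ s', s ≤ s' → s' ≤ s + δ → ∀ i, (P s' i ↔ P s i) := by
  classical
  have := Fintype.ofFinite ι
  have key : ∀ i, ∃ δ > 0, ∀ s', s ≤ s' → s' ≤ s + δ → s' ≤ T → (P s' i ↔ P s i) := by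
    intro i
    by_cases hi : P s i
    · exact ⟨1, one_pos, fun s' h1 _ h3 => ⟨fun _ => hi, fun _ => h.mono ha h1 h3 hi⟩⟩
    · -- closedness: not infected at `s` implies not infected shortly after
      by_contra hno
      push Not at hno
      have hx : ∀ n : ℕ, ∃ s', s ≤ s' ∧ s' ≤ s + 1 / ((n : ℝ) + 1) ∧ s' ≤ T ∧ P s' i := by
        intro n
        obtain ⟨s', h1, h2, h3, h4⟩ := hno (1 / ((n : ℝ) + 1)) (by positivity)
        refine ⟨s', h1, h2, h3, ?_⟩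
        rcases h4 with h4 | h4
        · exact h4.1
        · exact absurd h4.2 hi
      choose u hu1 hu2 hu3 hu4 using hx
      have hlim : Tendsto u atTop (𝓝 s) := by
        have h1 : Tendsto (fun n : ℕ => s + 1 / ((n : ℝ) + 1)) atTop (𝓝 s) := by
          simpa using (tendsto_const_nhds (x := s)).add
            (tendsto_one_div_add_atTop_nhds_zero_nat (𝕜 := ℝ))
        exact tendsto_of_tendsto_of_tendsto_of_le_of_le tendsto_const_nhds h1 hu1 hu2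
      exact hi ((h.closed i).mem_of_tendsto hlim (Eventually.of_forall fun n =>
        ⟨⟨ha.trans (hu1 n), hu3 n⟩, hu4 n⟩)).2
  choose δ hδ hδ' using key
  have hmin : ∃ η > 0, ∀ i, η ≤ δ i := by
    by_cases hne : Nonempty ι
    · obtain ⟨i₀, hi₀⟩ := Finite.exists_min δ
      exact ⟨δ i₀, hδ i₀, hi₀⟩
    · exact ⟨1, one_pos, fun i => absurd ⟨i⟩ hne⟩
  obtain ⟨η, hη, hηδ⟩ := hmin
  refine ⟨min η (T - s), lt_min hη (sub_pos.2 ht), by linarith [min_le_right η (T - s)], ?_⟩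
  intro s' h1 h2 i
  exact hδ' i s' h1 (h2.trans (by linarith [min_le_left η (T - s), hηδ i]))
    (h2.trans (by linarith [min_le_right η (T - s)]))

end rule

section two

variable {ι₁ ι₂ κ : Type} {z₁ : ℝ → ι₁ → PhasePoint} {z₂ : ℝ → ι₂ → PhasePoint} {e₁ : κ → ι₁}
  {e₂ : κ → ι₂} {ε a T : ℝ}

/-- The histories of the common particle `i` up to time `t` are equal in both worlds: explorations
inside the common part, equal, with equal states. -/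
structure HistEq (z₁ : ℝ → ι₁ → PhasePoint) (z₂ : ℝ → ι₂ → PhasePoint) (e₁ : κ → ι₁) (e₂ : κ → ι₂)
    (ε : ℝ) (t : ℝ) (i : κ) : Prop where
  sub₁ : ∀ s j, 0 ≤ s → Past (Ct z₁ ε) t (e₁ i) s j → j ∈ range e₁
  sub₂ : ∀ s j, 0 ≤ s → Past (Ct z₂ ε) t (e₂ i) s j → j ∈ range e₂
  iff : ∀ s k, 0 ≤ s → (Past (Ct z₁ ε) t (e₁ i) s (e₁ k) ↔ Past (Ct z₂ ε) t (e₂ i) s (e₂ k))
  eq : ∀ s k, 0 ≤ s → Past (Ct z₁ ε) t (e₁ i) s (e₁ k) → z₁ s (e₁ k) = z₂ s (e₂ k)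

theorem HistEq.symm {t : ℝ} {i : κ} (h : HistEq z₁ z₂ e₁ e₂ ε t i) :
    HistEq z₂ z₁ e₂ e₁ ε t i :=
  ⟨h.sub₂, h.sub₁, fun s k hs => (h.iff s k hs).symm,
    fun s k hs hk => (h.eq s k hs ((h.iff s k hs).2 hk)).symm⟩

theorem HistEq.of_past (he₁ : Function.Injective e₁) (he₂ : Function.Injective e₂) {t s : ℝ}
    {i k : κ} (h : HistEq z₁ z₂ e₁ e₂ ε t i)
    (hk : Past (Ct z₁ ε) t (e₁ i) s (e₁ k)) (hs : 0 ≤ s) : HistEq z₁ z₂ e₁ e₂ ε s k := by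
  have hk2 := (h.iff s k hs).1 hk
  have aux : ∀ (r : ℝ) (j : ι₁), Past (Ct z₁ ε) s (e₁ k) r j → 0 ≤ r →
      ∀ l, e₁ l = j → Past (Ct z₂ ε) s (e₂ k) r (e₂ l) := by
    intro r j hj
    induction hj with
    | @root r hr =>
      intro _ l hl
      rw [he₁ hl]
      exact .root hr
    | @step r r' j l' hj hc hrr' ih =>
      intro hr l hl
      subst hl
      have hr' : 0 ≤ r' := hr.trans hrr'
      obtain ⟨m, rfl⟩ := h.sub₁ r' j hr' (hk.trans hj)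
      refine .step (ih hr' m rfl) ?_ hrr'
      change dist (z₂ r' (e₂ m)).1 (z₂ r' (e₂ l)).1 ≤ ε
      rw [← h.eq r' m hr' (hk.trans hj), ← h.eq r' l hr' ((hk.trans hj).contact hc)]
      exact hc
  have aux2 : ∀ (r : ℝ) (j : ι₂), Past (Ct z₂ ε) s (e₂ k) r j → 0 ≤ r →
      ∀ l, e₂ l = j → Past (Ct z₁ ε) s (e₁ k) r (e₁ l) := by
    intro r j hj
    induction hj with
    | @root r hr =>
      intro _ l hl
      rw [he₂ hl]
      exact .root hr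
    | @step r r' j l' hj hc hrr' ih =>
      intro hr l hl
      subst hl
      have hr' : 0 ≤ r' := hr.trans hrr'
      obtain ⟨m, rfl⟩ := h.sub₂ r' j hr' (hk2.trans hj)
      refine .step (ih hr' m rfl) ?_ hrr'
      change dist (z₁ r' (e₁ m)).1 (z₁ r' (e₁ l)).1 ≤ ε
      rw [h.eq r' m hr' ((h.iff r' m hr').2 (hk2.trans hj)),
        h.eq r' l hr' ((h.iff r' l hr').2 ((hk2.trans hj).contact hc))]
      exact hc
  exact ⟨fun r j hr hj => h.sub₁ r j hr (hk.trans hj), fun r j hr hj => h.sub₂ r j hr (hk2.trans hj),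
    fun r l hr => ⟨fun hl => aux r _ hl hr l rfl, fun hl => aux2 r _ hl hr l rfl⟩,
    fun r l hr hl => h.eq r l hr (hk.trans hl)⟩

/-- If the backward cluster of `(i, t)` in the world `z₁` lies in the common part (with equal initial
states) and the histories differ, then at some time `s ≤ t` a particle `j` of `z₂`, which is new or
has a different state at time `s`, is within `ε` of the `z₁`-position of a `z₁`-active particle. -/
theorem touch_of_not_histEq [Finite ι₁] [Finite ι₂] [Finite κ]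
    (hz₁ : ∀ j, ContinuousOn (fun s => z₁ s j) (Icc 0 T))
    (hz₂ : ∀ j, ContinuousOn (fun s => z₂ s j) (Icc 0 T))
    (hloc : LocUniq ε T z₁ z₂) (he₁ : Function.Injective e₁) (he₂ : Function.Injective e₂)
    {t : ℝ} (ht : t ∈ Icc 0 T) {i : κ}
    (hcl : BC (Ct z₁ ε) t (e₁ i) ⊆ range e₁)
    (h0 : ∀ k, e₁ k ∈ BC (Ct z₁ ε) t (e₁ i) → z₁ 0 (e₁ k) = z₂ 0 (e₂ k))
    (hne : ¬ HistEq z₁ z₂ e₁ e₂ ε t i) :
    ∃ s ∈ Icc 0 t, ∃ k, Past (Ct z₁ ε) t (e₁ i) s (e₁ k) ∧ ∃ j,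
      dist (z₁ s (e₁ k)).1 (z₂ s j).1 ≤ ε ∧ (∀ l, j = e₂ l → z₁ s (e₁ l) ≠ z₂ s (e₂ l)) := by
  rcases compare_or_touch hz₁ hz₂ hloc he₁ he₂ ht i hcl h0 with ⟨h1, h2⟩ | h
  · exfalso
    apply hne
    refine ⟨fun s j hs hj => hcl (hj.mono hs), fun s j hs hj => ?_, fun s k hs => ?_,
      fun s k hs hk => h1 s ⟨hs, hk.le⟩ k hk⟩
    · have := (h2 s ⟨hs, hj.le⟩)
      have hj' : j ∈ Act (Ct z₂ ε) t (e₂ i) s := hj
      rw [this] at hj'
      obtain ⟨k, _, rfl⟩ := hj'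
      exact ⟨k, rfl⟩
    · constructor
      · intro hk
        have := (h2 s ⟨hs, hk.le⟩)
        have hk' : e₂ k ∈ e₂ '' ActC z₁ e₁ ε t i s := ⟨k, hk, rfl⟩
        rw [← this] at hk'
        exact hk'
      · intro hk
        have := (h2 s ⟨hs, hk.le⟩)
        have hk' : e₂ k ∈ Act (Ct z₂ ε) t (e₂ i) s := hk
        rw [this] at hk'
        obtain ⟨k', hk'', hkk'⟩ := hk'
        rw [← he₂ hkk']
        exact hk''
  · obtain ⟨s, hs, k, hk, j, _, hd, hj⟩ := h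
    exact ⟨s, hs, k, hk, j, hd, hj⟩

/-- The infection processes agree at time `u`: no new particle is infected, the same common
particles are infected, and these have equal states. -/
structure AgreeAt (z₁ : ℝ → ι₁ → PhasePoint) (z₂ : ℝ → ι₂ → PhasePoint) (e₁ : κ → ι₁)
    (e₂ : κ → ι₂) (P₁ : ℝ → ι₁ → Prop) (P₂ : ℝ → ι₂ → Prop) (u : ℝ) : Prop where
  new₁ : ∀ j, P₁ u j → j ∈ range e₁
  new₂ : ∀ j, P₂ u j → j ∈ range e₂
  iff : ∀ k, P₁ u (e₁ k) ↔ P₂ u (e₂ k)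
  eq : ∀ k, P₁ u (e₁ k) → z₁ u (e₁ k) = z₂ u (e₂ k)

theorem AgreeAt.symm {P₁ : ℝ → ι₁ → Prop} {P₂ : ℝ → ι₂ → Prop} {u : ℝ}
    (h : AgreeAt z₁ z₂ e₁ e₂ P₁ P₂ u) : AgreeAt z₂ z₁ e₂ e₁ P₂ P₁ u :=
  ⟨h.new₂, h.new₁, fun k => (h.iff k).symm, fun k hk => (h.eq k ((h.iff k).2 hk)).symm⟩

/-- Agreement of the infection processes at time `s` persists for a short time. -/
theorem AgreeAt.eventually [Finite ι₁] [Finite ι₂] [Finite κ]
    (hz₁ : ∀ j, ContinuousOn (fun s => z₁ s j) (Icc 0 T))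
    (hz₂ : ∀ j, ContinuousOn (fun s => z₂ s j) (Icc 0 T))
    (hloc : LocUniq ε T z₁ z₂) (he₁ : Function.Injective e₁) (he₂ : Function.Injective e₂)
    (ha : 0 ≤ a) {P₁ : ℝ → ι₁ → Prop} {P₂ : ℝ → ι₂ → Prop} (hP₁ : IsRule z₁ ε a T P₁)
    (hP₂ : IsRule z₂ ε a T P₂) {s : ℝ} (has : a ≤ s) (hsT : s < T)
    (h : AgreeAt z₁ z₂ e₁ e₂ P₁ P₂ s) :
    ∃ δ > 0, ∀ s' ∈ Icc s (s + δ), AgreeAt z₁ z₂ e₁ e₂ P₁ P₂ s' := by
  obtain ⟨δ₁, hδ₁, hδ₁T, hc₁⟩ := hP₁.eventually_const has hsT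
  obtain ⟨δ₂, hδ₂, hδ₂T, hc₂⟩ := hP₂.eventually_const has hsT
  let G : Set κ := {k | P₁ s (e₁ k)}
  have hs0 : s ∈ Ico 0 T := ⟨ha.trans has, hsT⟩
  obtain ⟨δ₃, hδ₃, hδ₃T, hi₁⟩ := exists_isolated (ε := ε) hz₁ hs0 (e₁ '' G) (e₁ '' G)ᶜ (by
    rintro _ ⟨k, hk, rfl⟩ j hj
    refine hP₁.isolated has hsT.le hk fun hPj => ?_
    obtain ⟨l, rfl⟩ := h.new₁ j hPj
    exact hj ⟨l, hPj, rfl⟩)
  obtain ⟨δ₄, hδ₄, hδ₄T, hi₂⟩ := exists_isolated (ε := ε) hz₂ hs0 (e₂ '' G) (e₂ '' G)ᶜ (by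
    rintro _ ⟨k, hk, rfl⟩ j hj
    refine hP₂.isolated has hsT.le ((h.iff k).1 hk) fun hPj => ?_
    obtain ⟨l, rfl⟩ := h.new₂ j hPj
    exact hj ⟨l, (h.iff l).2 hPj, rfl⟩)
  set δ := min (min δ₁ δ₂) (min δ₃ δ₄) with hδ
  have hδ0 : 0 < δ := lt_min (lt_min hδ₁ hδ₂) (lt_min hδ₃ hδ₄)
  have l₁ : δ ≤ δ₁ := (min_le_left _ _).trans (min_le_left _ _)
  have l₂ : δ ≤ δ₂ := (min_le_left _ _).trans (min_le_right _ _)
  have l₃ : δ ≤ δ₃ := (min_le_right _ _).trans (min_le_left _ _)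
  have l₄ : δ ≤ δ₄ := (min_le_right _ _).trans (min_le_right _ _)
  have key := hloc G (fun k => e₁ k) (fun k => e₂ k) s (s + δ)
    (fun k l h => Subtype.ext (he₁ h)) (fun k l h => Subtype.ext (he₂ h)) hs0.1
    (by linarith) (by linarith)
    (fun s' hs' k j hj => (hi₁ s' ⟨hs'.1, hs'.2.trans (by linarith)⟩ _ ⟨k, k.2, rfl⟩ j (by
      rintro ⟨l, hl, rfl⟩
      exact hj ⟨⟨l, hl⟩, rfl⟩)).le)
    (fun s' hs' k j hj => (hi₂ s' ⟨hs'.1, hs'.2.trans (by linarith)⟩ _ ⟨k, k.2, rfl⟩ j (by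
      rintro ⟨l, hl, rfl⟩
      exact hj ⟨⟨l, hl⟩, rfl⟩)).le)
    (fun k => h.eq k k.2)
  refine ⟨δ, hδ0, fun s' hs' => ?_⟩
  have q₁ := fun j => hc₁ s' hs'.1 (hs'.2.trans (by linarith)) j
  have q₂ := fun j => hc₂ s' hs'.1 (hs'.2.trans (by linarith)) j
  refine ⟨fun j hj => h.new₁ j ((q₁ j).1 hj), fun j hj => h.new₂ j ((q₂ j).1 hj), fun k => ?_,
    fun k hk => ?_⟩
  · rw [q₁, q₂]
    exact h.iff k
  · exact key s' hs' ⟨k, (q₁ _).1 hk⟩

/-- **First discrepancy of two infection processes.** Assume that the rules are coherent (equal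
histories give equal status), that the processes agree at time `a`, and disagree at some time of
`[a, T]`. Then there is a first time `θ` of disagreement, they agree before, and at `θ` either a new
particle is infected, or some common particle `q` is infected at `θ` in at least one of the worlds,
was infected before `θ` in none of them, and has different histories up to `θ` in the two worlds. -/
theorem first_discrepancy [Finite ι₁] [Finite ι₂] [Finite κ]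
    (hz₁ : ∀ j, ContinuousOn (fun s => z₁ s j) (Icc 0 T))
    (hz₂ : ∀ j, ContinuousOn (fun s => z₂ s j) (Icc 0 T))
    (hloc : LocUniq ε T z₁ z₂) (he₁ : Function.Injective e₁) (he₂ : Function.Injective e₂)
    (ha : 0 ≤ a) {P₁ : ℝ → ι₁ → Prop} {P₂ : ℝ → ι₂ → Prop} (hP₁ : IsRule z₁ ε a T P₁)
    (hP₂ : IsRule z₂ ε a T P₂)
    (hcoh : ∀ s ∈ Icc a T, ∀ k, HistEq z₁ z₂ e₁ e₂ ε s k → (P₁ s (e₁ k) ↔ P₂ s (e₂ k)))
    (h0 : AgreeAt z₁ z₂ e₁ e₂ P₁ P₂ a)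
    (hdis : ∃ s ∈ Icc a T, ¬ AgreeAt z₁ z₂ e₁ e₂ P₁ P₂ s) :
    ∃ θ, a < θ ∧ θ ≤ T ∧ (∀ u ∈ Ico a θ, AgreeAt z₁ z₂ e₁ e₂ P₁ P₂ u) ∧
      ¬ AgreeAt z₁ z₂ e₁ e₂ P₁ P₂ θ ∧
      ((∃ j, j ∉ range e₁ ∧ P₁ θ j ∧ ∀ u ∈ Ico a θ, ¬ P₁ u j) ∨
       (∃ j, j ∉ range e₂ ∧ P₂ θ j ∧ ∀ u ∈ Ico a θ, ¬ P₂ u j) ∨
       ∃ q, (P₁ θ (e₁ q) ∨ P₂ θ (e₂ q)) ∧ (∀ u ∈ Ico a θ, ¬ P₁ u (e₁ q) ∧ ¬ P₂ u (e₂ q)) ∧
        ¬ HistEq z₁ z₂ e₁ e₂ ε θ q) := by
  obtain ⟨s₁, hs₁, hns₁⟩ := hdis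
  set D : Set ℝ := {s | s ∈ Icc a T ∧ ¬ AgreeAt z₁ z₂ e₁ e₂ P₁ P₂ s} with hD
  have hDne : D.Nonempty := ⟨s₁, hs₁, hns₁⟩
  have hDbd : BddBelow D := ⟨a, fun s hs => hs.1.1⟩
  set θ := sInf D with hθ
  have haθ : a ≤ θ := le_csInf hDne fun s hs => hs.1.1
  have hθT : θ ≤ T := (csInf_le hDbd ⟨hs₁, hns₁⟩).trans hs₁.2
  have hbefore : ∀ u ∈ Ico a θ, AgreeAt z₁ z₂ e₁ e₂ P₁ P₂ u := by
    intro u hu
    by_contra hno
    exact absurd (csInf_le hDbd (show u ∈ D from ⟨⟨hu.1, hu.2.le.trans hθT⟩, hno⟩))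
      (not_le.2 hu.2)
  have hat : ¬ AgreeAt z₁ z₂ e₁ e₂ P₁ P₂ θ := by
    intro hag
    have hlt : θ < T := by
      rcases lt_or_eq_of_le hθT with h1 | h1
      · exact h1
      · exfalso
        have hs1θ : s₁ = θ := le_antisymm (hs₁.2.trans h1.symm.le) (csInf_le hDbd ⟨hs₁, hns₁⟩)
        rw [hs1θ] at hns₁
        exact hns₁ hag
    obtain ⟨δ, hδ, hδ'⟩ := hag.eventually hz₁ hz₂ hloc he₁ he₂ ha hP₁ hP₂ haθ hlt
    obtain ⟨s, hs, hsθ⟩ := exists_lt_of_csInf_lt hDne (show sInf D < θ + δ by linarith)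
    exact hs.2 (hδ' s ⟨csInf_le hDbd hs, hsθ.le⟩)
  have haθ' : a < θ := lt_of_le_of_ne haθ (by rintro h1; rw [← h1] at hat; exact hat h0)
  refine ⟨θ, haθ', hθT, hbefore, hat, ?_⟩
  by_contra hno
  push Not at hno
  obtain ⟨hno₁, hno₂, hno₃⟩ := hno
  apply hat
  -- helper: an infected-before particle
  have hθ0 : θ ∈ Icc 0 T := ⟨ha.trans haθ, hθT⟩
  have lim : ∀ k, (∃ u ∈ Ico a θ, P₁ u (e₁ k)) → z₁ θ (e₁ k) = z₂ θ (e₂ k) := by
    rintro k ⟨u, hu, hk⟩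
    have hcl : (𝓝[Ioo u θ] θ).NeBot := by
      apply mem_closure_iff_nhdsWithin_neBot.1
      rw [closure_Ioo hu.2.ne]
      exact ⟨hu.2.le, le_rfl⟩
    have hsub : Ioo u θ ⊆ Icc 0 T := fun r hr =>
      ⟨(ha.trans hu.1).trans hr.1.le, hr.2.le.trans hθT⟩
    have t₁ := (hz₁ (e₁ k) θ hθ0).mono hsub
    have t₂ := (hz₂ (e₂ k) θ hθ0).mono hsub
    refine tendsto_nhds_unique (l := 𝓝[Ioo u θ] θ) t₁ ?_
    refine t₂.congr' ?_
    filter_upwards [self_mem_nhdsWithin] with r hr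
    exact ((hbefore r ⟨hu.1.trans hr.1.le, hr.2⟩).eq k
      (hP₁.mono hu.1 hr.1.le (hr.2.le.trans hθT) hk)).symm
  have main : ∀ k, (P₁ θ (e₁ k) ∨ P₂ θ (e₂ k)) →
      P₁ θ (e₁ k) ∧ P₂ θ (e₂ k) ∧ z₁ θ (e₁ k) = z₂ θ (e₂ k) := by
    intro k hk
    by_cases hb : ∃ u ∈ Ico a θ, P₁ u (e₁ k) ∨ P₂ u (e₂ k)
    · obtain ⟨u, hu, hk'⟩ := hb
      have hag := hbefore u hu
      have hk1 : P₁ u (e₁ k) := hk'.elim id fun h => (hag.iff k).2 h
      have hk2 : P₂ u (e₂ k) := (hag.iff k).1 hk1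
      exact ⟨hP₁.mono hu.1 hu.2.le hθT hk1, hP₂.mono hu.1 hu.2.le hθT hk2, lim k ⟨u, hu, hk1⟩⟩
    · push Not at hb
      have hH : HistEq z₁ z₂ e₁ e₂ ε θ k := hno₃ k hk hb
      have hiff := hcoh θ ⟨haθ, hθT⟩ k hH
      have h1 : P₁ θ (e₁ k) := hk.elim id fun h => hiff.2 h
      exact ⟨h1, hiff.1 h1, hH.eq θ k hθ0.1 (.root le_rfl)⟩
  refine ⟨fun j hj => ?_, fun j hj => ?_, fun k => ⟨fun h => (main k (Or.inl h)).2.1,
    fun h => (main k (Or.inr h)).1⟩, fun k hk => (main k (Or.inl hk)).2.2⟩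
  · by_contra hjr
    obtain ⟨u, hu, hju⟩ := hno₁ j hjr hj
    exact hjr ((hbefore u hu).new₁ j hju)
  · by_contra hjr
    obtain ⟨u, hu, hju⟩ := hno₂ j hjr hj
    exact hjr ((hbefore u hu).new₂ j hju)

/-- Before the first discrepancy altered particles are infected in neither world. -/
theorem not_infected_of_diff {P₁ : ℝ → ι₁ → Prop} {P₂ : ℝ → ι₂ → Prop} {u : ℝ} {k : κ}
    (h : AgreeAt z₁ z₂ e₁ e₂ P₁ P₂ u) (hd : z₁ u (e₁ k) ≠ z₂ u (e₂ k)) :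
    ¬ P₁ u (e₁ k) ∧ ¬ P₂ u (e₂ k) :=
  ⟨fun hk => hd (h.eq k hk), fun hk => hd (h.eq k ((h.iff k).2 hk))⟩

end two

end Crest.Agent.R122.Causal291
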