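import Crest.Agent.R122.CausalFour_291

/-!
# Causal-past calculus (row 122, block F4): touch times (decision D2)

Worlds `z₀ = Z` over `κ` and `z₁ = Z + O` over `ι₁` with the embedding `e`. `Fut z₀ z₁ id e ε s` is
the set of particles of `Z` influenced by `O` before `s` (closed under contacts in both worlds).
`Touched s`: an influenced particle (or a particle of `O`) is infected in one of the worlds.
-/

set_option autoImplicit false

open Set Filter Topology MeasureTheory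
open Crest.AnalysisR.Kinetic
open Crest.Agent.R122.Flow671 Crest.Agent.R122.Loc45

namespace Crest.Agent.R122.Causal291

section fut

variable {ι₁ ι₂ κ : Type} {z₁ : ℝ → ι₁ → PhasePoint} {z₂ : ℝ → ι₂ → PhasePoint} {e₁ : κ → ι₁}
  {e₂ : κ → ι₂} {ε T : ℝ}

/-- First entrance: if `k` is in the forward closure at `σ' > σ` and not at `σ`, then some particle
enters at a time in `(σ, σ']` through a contact with a source or with a member at that time. -/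
theorem Fut.enter {σ s : ℝ} {k : κ} (h : Fut z₁ z₂ e₁ e₂ ε s k) (hσ : 0 ≤ σ)
    (hk : ¬ Fut z₁ z₂ e₁ e₂ ε σ k) :
    ∃ s' k', σ < s' ∧ s' ≤ s ∧ ¬ Fut z₁ z₂ e₁ e₂ ε σ k' ∧ Fut z₁ z₂ e₁ e₂ ε s' k' ∧
      ((∃ j, j ∉ range e₁ ∧ Ct z₁ ε s' j (e₁ k')) ∨ (∃ j, j ∉ range e₂ ∧ Ct z₂ ε s' j (e₂ k')) ∨
        (∃ l, Fut z₁ z₂ e₁ e₂ ε σ l ∧ (Ct z₁ ε s' (e₁ l) (e₁ k') ∨ Ct z₂ ε s' (e₂ l) (e₂ k')))) := by
  induction h with
  | @init s k h hs => exact absurd (.init h hσ) hk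
  | @new₁ s s' k j hj hc h0 hs =>
    have h1 : σ < s' := by
      by_contra hle
      push Not at hle
      exact hk (.new₁ j hj hc h0 hle)
    exact ⟨s', k, h1, hs, hk, .new₁ j hj hc h0 le_rfl, Or.inl ⟨j, hj, hc⟩⟩
  | @new₂ s s' k j hj hc h0 hs =>
    have h1 : σ < s' := by
      by_contra hle
      push Not at hle
      exact hk (.new₂ j hj hc h0 hle)
    exact ⟨s', k, h1, hs, hk, .new₂ j hj hc h0 le_rfl, Or.inr (Or.inl ⟨j, hj, hc⟩)⟩
  | @chain₁ s s' k l h hc hs ih =>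
    by_cases hl : Fut z₁ z₂ e₁ e₂ ε σ l
    · have h1 : σ < s' := by
        by_contra hle
        push Not at hle
        exact hk ((Fut.chain₁ h hc le_rfl).mono hle)
      exact ⟨s', k, h1, hs, hk, .chain₁ h hc le_rfl, Or.inr (Or.inr ⟨l, hl, Or.inl hc⟩)⟩
    · obtain ⟨s'', k', h1, h2, h3, h4, h5⟩ := ih hl
      exact ⟨s'', k', h1, h2.trans hs, h3, h4, h5⟩
  | @chain₂ s s' k l h hc hs ih =>
    by_cases hl : Fut z₁ z₂ e₁ e₂ ε σ l
    · have h1 : σ < s' := by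
        by_contra hle
        push Not at hle
        exact hk ((Fut.chain₂ h hc le_rfl).mono hle)
      exact ⟨s', k, h1, hs, hk, .chain₂ h hc le_rfl, Or.inr (Or.inr ⟨l, hl, Or.inr hc⟩)⟩
    · obtain ⟨s'', k', h1, h2, h3, h4, h5⟩ := ih hl
      exact ⟨s'', k', h1, h2.trans hs, h3, h4, h5⟩

/-- The times at which a given particle is influenced form a closed set. -/
theorem isClosed_fut [Finite ι₁] [Finite ι₂] [Finite κ]
    (hC₁ : ∀ j k, IsClosed {s | Ct z₁ ε s j k}) (hC₂ : ∀ j k, IsClosed {s | Ct z₂ ε s j k}) (k : κ) :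
    IsClosed {s | Fut z₁ z₂ e₁ e₂ ε s k} := by
  rw [← isSeqClosed_iff_isClosed]
  intro u σ hu hlim
  have hσ : 0 ≤ σ := ge_of_tendsto' hlim fun n => (hu n).nonneg
  by_contra hk
  change ¬ Fut z₁ z₂ e₁ e₂ ε σ k at hk
  have hlt : ∀ n, σ < u n := by
    intro n
    by_contra h
    push Not at h
    exact hk ((hu n).mono h)
  -- data: the entering particle and the partner
  have hex : ∀ n, ∃ (p : κ × (ι₁ ⊕ ι₂ ⊕ (κ ⊕ κ))) (s' : ℝ), σ < s' ∧ s' ≤ u n ∧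
      ¬ Fut z₁ z₂ e₁ e₂ ε σ p.1 ∧
      (match p.2 with
        | .inl j => j ∉ range e₁ ∧ Ct z₁ ε s' j (e₁ p.1)
        | .inr (.inl j) => j ∉ range e₂ ∧ Ct z₂ ε s' j (e₂ p.1)
        | .inr (.inr (.inl l)) => Fut z₁ z₂ e₁ e₂ ε σ l ∧ Ct z₁ ε s' (e₁ l) (e₁ p.1)
        | .inr (.inr (.inr l)) => Fut z₁ z₂ e₁ e₂ ε σ l ∧ Ct z₂ ε s' (e₂ l) (e₂ p.1)) := by
    intro n
    obtain ⟨s', k', h1, h2, h3, _, h5⟩ := Fut.enter (hu n) hσ hk
    rcases h5 with ⟨j, hj, hc⟩ | ⟨j, hj, hc⟩ | ⟨l, hl, hc | hc⟩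
    · exact ⟨(k', .inl j), s', h1, h2, h3, hj, hc⟩
    · exact ⟨(k', .inr (.inl j)), s', h1, h2, h3, hj, hc⟩
    · exact ⟨(k', .inr (.inr (.inl l))), s', h1, h2, h3, hl, hc⟩
    · exact ⟨(k', .inr (.inr (.inr l))), s', h1, h2, h3, hl, hc⟩
  choose p s' h1 h2 h3 h4 using hex
  have hs' : Tendsto s' atTop (𝓝 σ) :=
    tendsto_of_tendsto_of_tendsto_of_le_of_le tendsto_const_nhds hlim (fun n => (h1 n).le) h2
  obtain ⟨q, hq⟩ := Finite.exists_infinite_fiber p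
  have hinf : Set.Infinite (p ⁻¹' {q}) := Set.infinite_coe_iff.1 hq
  obtain ⟨φ, hφ, hφ'⟩ := Filter.extraction_of_frequently_atTop
    (Nat.frequently_atTop_iff_infinite.2 hinf)
  have hlim' : Tendsto (fun n => s' (φ n)) atTop (𝓝 σ) := hs'.comp hφ.tendsto_atTop
  have hpq : ∀ n, p (φ n) = q := fun n => hφ' n
  obtain ⟨k', j'⟩ := q
  have h3' : ¬ Fut z₁ z₂ e₁ e₂ ε σ k' := by
    have := h3 (φ 0)
    rwa [hpq 0] at this
  have h4' : ∀ n, (match j' with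
        | .inl j => j ∉ range e₁ ∧ Ct z₁ ε (s' (φ n)) j (e₁ k')
        | .inr (.inl j) => j ∉ range e₂ ∧ Ct z₂ ε (s' (φ n)) j (e₂ k')
        | .inr (.inr (.inl l)) => Fut z₁ z₂ e₁ e₂ ε σ l ∧ Ct z₁ ε (s' (φ n)) (e₁ l) (e₁ k')
        | .inr (.inr (.inr l)) => Fut z₁ z₂ e₁ e₂ ε σ l ∧ Ct z₂ ε (s' (φ n)) (e₂ l) (e₂ k')) := by
    intro n
    have := h4 (φ n)
    rw [hpq n] at this
    exact this
  apply h3'
  rcases j' with j | j | l | l
  · exact .new₁ j (h4' 0).1 ((hC₁ j (e₁ k')).mem_of_tendsto hlim'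
      (Eventually.of_forall fun n => (h4' n).2)) hσ le_rfl
  · exact .new₂ j (h4' 0).1 ((hC₂ j (e₂ k')).mem_of_tendsto hlim'
      (Eventually.of_forall fun n => (h4' n).2)) hσ le_rfl
  · exact .chain₁ (h4' 0).1 ((hC₁ (e₁ l) (e₁ k')).mem_of_tendsto hlim'
      (Eventually.of_forall fun n => (h4' n).2)) le_rfl
  · exact .chain₂ (h4' 0).1 ((hC₂ (e₂ l) (e₂ k')).mem_of_tendsto hlim'
      (Eventually.of_forall fun n => (h4' n).2)) le_rfl

end fut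

section touched

variable {κ ι₁ : Type} {z₀ : ℝ → κ → PhasePoint} {z₁ : ℝ → ι₁ → PhasePoint} {e : κ → ι₁}
  {ε a T : ℝ} {P₀ : ℝ → κ → Prop} {P₁ : ℝ → ι₁ → Prop}

/-- At time `s` a particle influenced by `O` (or a particle of `O`) is infected in `Z` or `Z+O`. -/
def Touched (z₀ : ℝ → κ → PhasePoint) (z₁ : ℝ → ι₁ → PhasePoint) (e : κ → ι₁) (ε : ℝ)
    (P₀ : ℝ → κ → Prop) (P₁ : ℝ → ι₁ → Prop) (s : ℝ) : Prop :=
  (∃ k, Fut z₀ z₁ id e ε s k ∧ (P₀ s k ∨ P₁ s (e k))) ∨ ∃ j, j ∉ range e ∧ P₁ s j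

theorem Touched.mono (hP₀ : IsRule z₀ ε a T P₀) (hP₁ : IsRule z₁ ε a T P₁) {s s' : ℝ}
    (ha : a ≤ s) (hss' : s ≤ s') (hT : s' ≤ T) (h : Touched z₀ z₁ e ε P₀ P₁ s) :
    Touched z₀ z₁ e ε P₀ P₁ s' := by
  rcases h with ⟨k, hk, hP | hP⟩ | ⟨j, hj, hP⟩
  · exact Or.inl ⟨k, hk.mono hss', Or.inl (hP₀.mono ha hss' hT hP)⟩
  · exact Or.inl ⟨k, hk.mono hss', Or.inr (hP₁.mono ha hss' hT hP)⟩
  · exact Or.inr ⟨j, hj, hP₁.mono ha hss' hT hP⟩

/-- The touched times form a closed subset of `[a, T]`. -/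
theorem isClosed_touched [Finite κ] [Finite ι₁]
    (hC₀ : ∀ j k, IsClosed {s | Ct z₀ ε s j k}) (hC₁ : ∀ j k, IsClosed {s | Ct z₁ ε s j k})
    (hP₀ : IsRule z₀ ε a T P₀) (hP₁ : IsRule z₁ ε a T P₁) :
    IsClosed {s | s ∈ Icc a T ∧ Touched z₀ z₁ e ε P₀ P₁ s} := by
  have : {s | s ∈ Icc a T ∧ Touched z₀ z₁ e ε P₀ P₁ s} =
      (⋃ k, {s | Fut z₀ z₁ id e ε s k} ∩ {s | s ∈ Icc a T ∧ P₀ s k}) ∪
      (⋃ k, {s | Fut z₀ z₁ id e ε s k} ∩ {s | s ∈ Icc a T ∧ P₁ s (e k)}) ∪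
      ⋃ j ∈ {j : ι₁ | j ∉ range e}, {s | s ∈ Icc a T ∧ P₁ s j} := by
    ext s
    simp only [Touched, mem_union, mem_iUnion, mem_inter_iff, mem_ofPred_eq, exists_prop]
    constructor
    · rintro ⟨hs, ⟨k, hk, hP | hP⟩ | ⟨j, hj, hP⟩⟩
      · exact Or.inl (Or.inl ⟨k, hk, hs, hP⟩)
      · exact Or.inl (Or.inr ⟨k, hk, hs, hP⟩)
      · exact Or.inr ⟨j, hj, hs, hP⟩
    · rintro ((⟨k, hk, hs, hP⟩ | ⟨k, hk, hs, hP⟩) | ⟨j, hj, hs, hP⟩)
      · exact ⟨hs, Or.inl ⟨k, hk, Or.inl hP⟩⟩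
      · exact ⟨hs, Or.inl ⟨k, hk, Or.inr hP⟩⟩
      · exact ⟨hs, Or.inr ⟨j, hj, hP⟩⟩
  rw [this]
  refine IsClosed.union (IsClosed.union ?_ ?_) ?_
  · exact isClosed_iUnion_of_finite fun k => (isClosed_fut hC₀ hC₁ k).inter (hP₀.closed k)
  · exact isClosed_iUnion_of_finite fun k => (isClosed_fut hC₀ hC₁ k).inter (hP₁.closed (e k))
  · exact Set.Finite.isClosed_biUnion (Set.toFinite _) fun j _ => hP₁.closed j

/-- If not touched at `s`, then the infection processes agree at `s`, and no influenced particle is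
infected. -/
theorem agreeAt_of_not_touched [Finite κ] [Finite ι₁]
    (hz₀ : ∀ j, ContinuousOn (fun s => z₀ s j) (Icc 0 T))
    (hz₁ : ∀ j, ContinuousOn (fun s => z₁ s j) (Icc 0 T))
    (hloc : LocUniq ε T z₀ z₁) (he : Function.Injective e)
    (hcoh : ∀ s ∈ Icc a T, ∀ k, HistEq z₀ z₁ id e ε s k → (P₀ s k ↔ P₁ s (e k)))
    (hhist : ∀ s ∈ Icc 0 T, ∀ k, ¬ Fut z₀ z₁ id e ε s k → HistEq z₀ z₁ id e ε s k)
    (ha : 0 ≤ a) {s : ℝ} (hs : s ∈ Icc a T) (h : ¬ Touched z₀ z₁ e ε P₀ P₁ s) :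
    AgreeAt z₀ z₁ id e P₀ P₁ s ∧
      ∀ k, Fut z₀ z₁ id e ε s k → ¬ P₀ s k ∧ ¬ P₁ s (e k) := by
  have h1 : ∀ k, Fut z₀ z₁ id e ε s k → ¬ P₀ s k ∧ ¬ P₁ s (e k) :=
    fun k hk => ⟨fun hP => h (Or.inl ⟨k, hk, Or.inl hP⟩), fun hP => h (Or.inl ⟨k, hk, Or.inr hP⟩)⟩
  have h2 : ∀ j, P₁ s j → j ∈ range e := by
    intro j hj
    by_contra hjr
    exact h (Or.inr ⟨j, hjr, hj⟩)
  have hs0 : s ∈ Icc 0 T := ⟨ha.trans hs.1, hs.2⟩
  refine ⟨⟨fun j _ => ⟨j, rfl⟩, h2, fun k => ?_, fun k hk => ?_⟩, h1⟩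
  · by_cases hk : Fut z₀ z₁ id e ε s k
    · exact ⟨fun hP => absurd hP (h1 k hk).1, fun hP => absurd hP (h1 k hk).2⟩
    · exact hcoh s hs k (hhist s hs0 k hk)
  · by_cases hkf : Fut z₀ z₁ id e ε s k
    · exact absurd hk (h1 k hkf).1
    · exact agree_of_not_fut (e₁ := id) hz₀ hz₁ hloc Function.injective_id he hs0 hkf

/-- The history of a particle outside the forward closure is the same in both worlds (two-world
version of `Four.hist₀A`). -/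
theorem histEq_of_not_fut [Finite κ] [Finite ι₁]
    (hz₀ : ∀ j, ContinuousOn (fun s => z₀ s j) (Icc 0 T))
    (hz₁ : ∀ j, ContinuousOn (fun s => z₁ s j) (Icc 0 T))
    (hloc : LocUniq ε T z₀ z₁) (he : Function.Injective e) {t : ℝ} (ht : t ∈ Icc 0 T) {k : κ}
    (hk : ¬ Fut z₀ z₁ id e ε t k) : HistEq z₀ z₁ id e ε t k := by
  have ag : ∀ {s : ℝ}, s ∈ Icc 0 T → ∀ {j : κ}, ¬ Fut z₀ z₁ id e ε s j → z₀ s j = z₁ s (e j) :=
    fun hs _ hj => agree_of_not_fut (e₁ := id) hz₀ hz₁ hloc Function.injective_id he hs hj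
  have hforw : ∀ (s : ℝ) (j : κ), Past (Ct z₀ ε) t k s j → 0 ≤ s →
      Past (Ct z₁ ε) t (e k) s (e j) ∧ ¬ Fut z₀ z₁ id e ε s j := by
    intro s j hj
    induction hj with
    | @root s h => exact fun _ => ⟨.root h, fun h' => hk (h'.mono h)⟩
    | @step s s' j l h hc hss' ih =>
      intro hs
      have hs' : 0 ≤ s' := hs.trans hss'
      have hs'T : s' ∈ Icc 0 T := ⟨hs', h.le.trans ht.2⟩
      obtain ⟨h1, h2⟩ := ih hs'
      have hl : ¬ Fut z₀ z₁ id e ε s' l := fun h' => h2 (.chain₁ (e₁ := id) h' (Ct.symm hc) le_rfl)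
      refine ⟨.step h1 ?_ hss', fun h' => hl (h'.mono hss')⟩
      change dist (z₁ s' (e j)).1 (z₁ s' (e l)).1 ≤ ε
      rw [← ag hs'T h2, ← ag hs'T hl]
      exact hc
  have hback : ∀ (s : ℝ) (x : ι₁), Past (Ct z₁ ε) t (e k) s x → 0 ≤ s →
      ∃ j, e j = x ∧ Past (Ct z₀ ε) t k s j ∧ ¬ Fut z₀ z₁ id e ε s j := by
    intro s x hx
    induction hx with
    | @root s h => exact fun _ => ⟨k, rfl, .root h, fun h' => hk (h'.mono h)⟩
    | @step s s' x y h hc hss' ih =>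
      intro hs
      have hs' : 0 ≤ s' := hs.trans hss'
      have hs'T : s' ∈ Icc 0 T := ⟨hs', h.le.trans ht.2⟩
      obtain ⟨j, rfl, h1, h2⟩ := ih hs'
      have hy : y ∈ range e := by
        by_contra hy
        exact h2 (.new₂ y hy (Ct.symm hc) hs' le_rfl)
      obtain ⟨l, rfl⟩ := hy
      have hl : ¬ Fut z₀ z₁ id e ε s' l := fun h' => h2 (.chain₂ h' (Ct.symm hc) le_rfl)
      refine ⟨l, rfl, .step h1 ?_ hss', fun h' => hl (h'.mono hss')⟩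
      change dist (z₀ s' j).1 (z₀ s' l).1 ≤ ε
      rw [ag hs'T h2, ag hs'T hl]
      exact hc
  refine ⟨fun s j _ _ => ⟨j, rfl⟩, fun s j hs hj => ?_, fun s j hs => ⟨fun hj => (hforw s j hj hs).1,
    fun hj => ?_⟩, fun s j hs hj => ?_⟩
  · obtain ⟨l, rfl, _⟩ := hback s j hj hs
    exact ⟨l, rfl⟩
  · obtain ⟨l, hl, hl', _⟩ := hback s _ hj hs
    rw [he hl] at hl'
    exact hl'
  · have hjt : s ≤ t := Past.le hj
    exact ag ⟨hs, hjt.trans ht.2⟩ (hforw s j hj hs).2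

/-- The touch time: first touched time in `[a, T]`, and `T + 1` if there is none. -/
noncomputable def theta (z₀ : ℝ → κ → PhasePoint) (z₁ : ℝ → ι₁ → PhasePoint) (e : κ → ι₁)
    (ε a T : ℝ) (P₀ : ℝ → κ → Prop) (P₁ : ℝ → ι₁ → Prop) : ℝ :=
  open scoped Classical in
  if ∃ s ∈ Icc a T, Touched z₀ z₁ e ε P₀ P₁ s then
    sInf {s | s ∈ Icc a T ∧ Touched z₀ z₁ e ε P₀ P₁ s} else T + 1

theorem touched_iff_theta_le [Finite κ] [Finite ι₁]
    (hC₀ : ∀ j k, IsClosed {s | Ct z₀ ε s j k}) (hC₁ : ∀ j k, IsClosed {s | Ct z₁ ε s j k})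
    (hP₀ : IsRule z₀ ε a T P₀) (hP₁ : IsRule z₁ ε a T P₁) {s : ℝ} (hs : s ∈ Icc a T) :
    Touched z₀ z₁ e ε P₀ P₁ s ↔ theta z₀ z₁ e ε a T P₀ P₁ ≤ s := by
  classical
  unfold theta
  by_cases hex : ∃ s ∈ Icc a T, Touched z₀ z₁ e ε P₀ P₁ s
  · rw [if_pos hex]
    obtain ⟨s₁, hs₁, hs₁'⟩ := hex
    have hbd : BddBelow {s | s ∈ Icc a T ∧ Touched z₀ z₁ e ε P₀ P₁ s} := ⟨a, fun s hs => hs.1.1⟩
    constructor
    · intro h
      exact csInf_le hbd ⟨hs, h⟩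
    · intro h
      have hmem := (isClosed_touched (e := e) hC₀ hC₁ hP₀ hP₁).csInf_mem ⟨s₁, hs₁, hs₁'⟩ hbd
      exact hmem.2.mono hP₀ hP₁ hmem.1.1 h hs.2
  · rw [if_neg hex]
    constructor
    · intro h
      exact absurd ⟨s, hs, h⟩ hex
    · intro h
      linarith [hs.2]

theorem le_theta (haT : a ≤ T) : a ≤ theta z₀ z₁ e ε a T P₀ P₁ := by
  classical
  unfold theta
  split_ifs with h
  · obtain ⟨s₁, hs₁, hs₁'⟩ := h
    exact le_csInf ⟨s₁, hs₁, hs₁'⟩ fun s hs => hs.1.1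
  · linarith

end touched

namespace Four

variable {κ ιA ιL ι : Type} {F : Four κ ιA ιL ι} {ε T : ℝ}
variable [Finite κ] [Finite ιA] [Finite ιL] [Finite ι]

/-- Under unlinked influences, the influence of `L` in `Z+A` is the influence of `L` in `Z`. -/
theorem fut_iff (hd : F.Dyn ε T) (hu : F.Unlinked ε T) {s : ℝ} (hs : s ≤ T) {x : ιA} :
    Fut F.zA F.z id F.fA ε s x ↔ ∃ k, x = F.eA k ∧ k ∈ F.FL ε s := by
  constructor
  · intro h
    induction h with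
    | init h _ => exact absurd (hd.initA _) h
    | new₁ j hj _ _ _ => exact absurd ⟨j, rfl⟩ hj
    | @new₂ s s' x j hj hc h0 hss' =>
      have hs'T : s' ∈ Icc 0 T := ⟨h0, hss'.trans hs⟩
      rcases F.cover j with h | ⟨y, rfl⟩
      · exact absurd h hj
      · have hy' : y ∈ F.IL ε s' := by
          intro k hk
          exact absurd ⟨F.eA k, by rw [F.comm k, hk]⟩ hj
        obtain ⟨y', hy'', hxy⟩ := contact_IL hd hu hs'T hy' hc
        obtain ⟨k, hk, hk'⟩ := F.pull x y' hxy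
        exact ⟨k, hk, FL_mono hss' (hy'' k hk')⟩
    | @chain₁ s s' x l h hc hss' ih =>
      have h0 : 0 ≤ s' := h.nonneg
      have hs'T : s' ∈ Icc 0 T := ⟨h0, hss'.trans hs⟩
      obtain ⟨k, rfl, hk⟩ := ih hs'T.2
      by_contra hno
      push Not at hno
      have h1 := isoA hd hu hs'T (x := x) (y := F.eA k)
        (fun k' hk' hk'' => hno k' hk' (FL_mono hss' hk''))
        (fun h' => h' k rfl hk)
      exact absurd (Ct.symm hc) (not_le.2 h1)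
    | @chain₂ s s' x l h hc hss' ih =>
      have h0 : 0 ≤ s' := h.nonneg
      have hs'T : s' ∈ Icc 0 T := ⟨h0, hss'.trans hs⟩
      obtain ⟨k, rfl, hk⟩ := ih hs'T.2
      have hc' : Ct F.z ε s' (F.fL (F.eL k)) (F.fA x) := by
        rw [← F.comm k]; exact hc
      obtain ⟨y', hy', hxy⟩ := contact_IL hd hu hs'T (y := F.eL k)
        (fun k' hk' => by rw [← F.eL_inj hk']; exact hk) hc'
      obtain ⟨k', hk', hk''⟩ := F.pull x y' hxy
      exact ⟨k', hk', FL_mono hss' (hy' k' hk'')⟩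
  · rintro ⟨k, rfl, hk⟩
    change Fut F.z₀ F.zL id F.eL ε s k at hk
    induction hk with
    | @init s k h h0 =>
      exfalso
      have h1 : k ∈ F.FL ε 0 := .init h le_rfl
      have h2 : k ∈ F.FA ε 0 := by
        refine .init ?_ le_rfl
        intro h3
        apply h
        rw [h3, hd.initA, F.comm k, ← hd.initL]
      exact hu.disj 0 ⟨le_rfl, h0.trans hs⟩ k h2 h1
    | new₁ j hj _ _ _ => exact absurd ⟨j, rfl⟩ hj
    | @new₂ s s' k y hy hc h0 hss' =>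
      have hs'T : s' ∈ Icc 0 T := ⟨h0, hss'.trans hs⟩
      have hkL : k ∈ F.FL ε s' := .new₂ y hy hc h0 le_rfl
      have hkA : k ∉ F.FA ε s' := fun h' => hu.disj s' hs'T k h' hkL
      refine .new₂ (F.fL y) ?_ ?_ h0 hss'
      · rintro ⟨x, hx⟩
        obtain ⟨k', _, hk'⟩ := F.pull x y hx
        exact hy ⟨k', hk'.symm⟩
      · change dist (F.z s' (F.fL y)).1 (F.z s' (F.fA (F.eA k))).1 ≤ ε
        rw [F.comm k, ← glueL hd hu hs'T (y := y) (fun k' hk' => absurd ⟨k', hk'.symm⟩ hy),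
          ← glueL hd hu hs'T (y := F.eL k) (fun k' hk' => by rw [← F.eL_inj hk']; exact hkA)]
        exact hc
    | @chain₁ s s' k l h hc hss' ih =>
      have h0 : 0 ≤ s' := h.nonneg
      have hs'T : s' ∈ Icc 0 T := ⟨h0, hss'.trans hs⟩
      have hlL : l ∈ F.FL ε s' := h
      have hkL : k ∈ F.FL ε s' := .chain₁ h hc le_rfl
      have hlA : l ∉ F.FA ε s' := fun h' => hu.disj s' hs'T l h' hlL
      have hkA : k ∉ F.FA ε s' := fun h' => hu.disj s' hs'T k h' hkL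
      refine .chain₁ (ih hs'T.2) ?_ hss'
      change dist (F.zA s' (F.eA l)).1 (F.zA s' (F.eA k)).1 ≤ ε
      rw [← agreeA hd hs'T hlA, ← agreeA hd hs'T hkA]
      exact hc
    | @chain₂ s s' k l h hc hss' ih =>
      have h0 : 0 ≤ s' := h.nonneg
      have hs'T : s' ∈ Icc 0 T := ⟨h0, hss'.trans hs⟩
      have hlL : l ∈ F.FL ε s' := h
      have hkL : k ∈ F.FL ε s' := .chain₂ h hc le_rfl
      have hlA : l ∉ F.FA ε s' := fun h' => hu.disj s' hs'T l h' hlL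
      have hkA : k ∉ F.FA ε s' := fun h' => hu.disj s' hs'T k h' hkL
      refine .chain₂ (ih hs'T.2) ?_ hss'
      change dist (F.z s' (F.fA (F.eA l))).1 (F.z s' (F.fA (F.eA k))).1 ≤ ε
      rw [F.comm k, F.comm l,
        ← glueL hd hu hs'T (y := F.eL l) (fun k' hk' => by rw [← F.eL_inj hk']; exact hlA),
        ← glueL hd hu hs'T (y := F.eL k) (fun k' hk' => by rw [← F.eL_inj hk']; exact hkA)]
      exact hc

/-- **World consistency (W1) for touches.** Under unlinked influences on `[0, T]`: `L` touches `Z`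
before `s` if and only if `L` touches `Z+A` before `s`. -/
theorem touched_iff (hd : F.Dyn ε T) (hu : F.Unlinked ε T) {a : ℝ} (ha : 0 ≤ a)
    {P₀ : ℝ → κ → Prop} {PA : ℝ → ιA → Prop} {PL : ℝ → ιL → Prop} {P : ℝ → ι → Prop}
    (hS : F.Status ε a T P₀ PA PL P) {s : ℝ} (hs : s ∈ Icc a T) :
    Touched F.zA F.z F.fA ε PA P s ↔ Touched F.z₀ F.zL F.eL ε P₀ PL s := by
  have hsT : s ∈ Icc 0 T := ⟨ha.trans hs.1, hs.2⟩
  have key : ∀ k, k ∈ F.FL ε s → (P₀ s k ↔ PA s (F.eA k)) ∧ (PL s (F.eL k) ↔ P s (F.fA (F.eA k))) := by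
    intro k hk
    have hkA : k ∉ F.FA ε s := fun h' => hu.disj s hsT k h' hk
    refine ⟨hS.coh₀A s hs k (hist₀A hd hsT hkA), ?_⟩
    rw [F.comm k]
    exact hS.cohL s hs _ (histL hd hu hsT fun k' hk' => by rw [← F.eL_inj hk']; exact hkA)
  have keyL : ∀ y, y ∉ range F.eL → (PL s y ↔ P s (F.fL y)) := fun y hy =>
    hS.cohL s hs _ (histL hd hu hsT fun k hk => absurd ⟨k, hk.symm⟩ hy)
  constructor
  · rintro (⟨x, hx, hP⟩ | ⟨j, hj, hP⟩)
    · obtain ⟨k, rfl, hk⟩ := (fut_iff hd hu hs.2).1 hx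
      refine Or.inl ⟨k, hk, ?_⟩
      rcases hP with hP | hP
      · exact Or.inl ((key k hk).1.2 hP)
      · exact Or.inr ((key k hk).2.2 hP)
    · rcases F.cover j with h | ⟨y, rfl⟩
      · exact absurd h hj
      · have hy : y ∉ range F.eL := by
          rintro ⟨k, rfl⟩
          exact hj ⟨F.eA k, F.comm k⟩
        exact Or.inr ⟨y, hy, (keyL y hy).2 hP⟩
  · rintro (⟨k, hk, hP⟩ | ⟨y, hy, hP⟩)
    · refine Or.inl ⟨F.eA k, (fut_iff hd hu hs.2).2 ⟨k, rfl, hk⟩, ?_⟩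
      rcases hP with hP | hP
      · exact Or.inl ((key k hk).1.1 hP)
      · exact Or.inr ((key k hk).2.1 hP)
    · refine Or.inr ⟨F.fL y, ?_, (keyL y hy).1 hP⟩
      rintro ⟨x, hx⟩
      obtain ⟨k, _, hk⟩ := F.pull x y hx
      exact hy ⟨k, hk.symm⟩

end Four

end Crest.Agent.R122.Causal291
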