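import Crest.Agent.R122.ChainHist_726
import Crest.Agent.R122.InfRule_879

/-!
# Release chains (row 122, D5, helper726): the history of a real cluster is a tapered history

`GWorld Φ ε t X C G`: a world on `[0, t]` with contact relation `C` (with or without births), in
which isolated families of particles of `G` (the gas) move by their own flow.

`Activity C i u P`: `P s k` means that `k` is active at time `s < u` in the backward exploration of
the root `i` seen at time `u` (closed version: contacts at time `u` count; or at `u⁻`).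
-/

set_option autoImplicit false
set_option linter.unusedSectionVars false

open Set Filter Topology
open Crest.AnalysisR.Kinetic
open scoped Classical

noncomputable section

namespace Crest.Agent.R122.Chain726

open Flow671 Loc45 Causal291

/-- A world on `[0, t]` whose particles in `G` obey Newton's equations locally. -/
structure GWorld (Φ : Space3 → ℝ) (ε t : ℝ) {κ : Type} [Fintype κ] (X : ℝ → κ → PhasePoint)
    (C : ℝ → κ → κ → Prop) (G : Set κ) : Prop where
  closed : ∀ j k, IsClosed {s | C s j k}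
  symm : ∀ s j k, C s j k → C s k j
  ct : ∀ s ∈ Icc 0 t, ∀ j ∈ G, ∀ k ∈ G, C s j k ↔ dist (X s j).1 (X s k).1 ≤ ε
  dom : ∀ s ∈ Icc 0 t, ∀ (ι : Type) [Fintype ι] (e : ι ↪ κ), range e ⊆ G →
    (fun k => X s (e k)) ∈ Dom Φ ι
  iso : ∀ (ι : Type) [Fintype ι] (e : ι ↪ κ), range e ⊆ G → ∀ a b, 0 ≤ a → a < b → b ≤ t →
    (∀ s ∈ Ioo a b, ∀ j, ∀ x, x ∉ range e → ¬ C s (e j) x) →
      ∀ s ∈ Icc a b, (fun k => X s (e k)) = flow Φ ε (s - a) (fun k => X a (e k))

/-- the activity predicate of the exploration of `(i, u)`, closed or open at `u` -/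
structure Activity {κ : Type} (C : ℝ → κ → κ → Prop) (u : ℝ) (P : ℝ → κ → Prop) : Prop where
  anti : ∀ s s' k, s ≤ s' → P s' k → P s k
  contact : ∀ s j k, P s j → C s j k → P s k
  left : ∀ σ k, σ < u → (∀ s, s < σ → P s k) → P σ k
  gen : ∀ σ k, σ < u → P σ k → ¬ (∃ s, σ < s ∧ s < u ∧ P s k) →
    ∃ m m', (∃ s, σ < s ∧ s < u ∧ P s m) ∧ C σ m m' ∧ (¬ ∃ s, σ < s ∧ s < u ∧ P s m') ∧
      Relation.ReflTransGen (fun a b => C σ a b ∧ ¬ ∃ s, σ < s ∧ s < u ∧ P s b) m' k

theorem mem_of_left {S : Set ℝ} (hS : IsClosed S) {σ : ℝ} (h : ∀ s, s < σ → s ∈ S) : σ ∈ S := by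
  have h1 : Tendsto (fun s : ℝ => s) (𝓝[<] σ) (𝓝 σ) := nhdsWithin_le_nhds
  refine hS.mem_of_tendsto h1 ?_
  filter_upwards [self_mem_nhdsWithin] with s hs
  exact h s hs

section activity

variable {κ : Type} [Fintype κ] {C : ℝ → κ → κ → Prop}

theorem gen_aux {r σ : ℝ} {i : κ} {N : κ → Prop} (hr : σ < r)
    (hN : ∀ s l, σ < s → Past C r i s l → N l) {s : ℝ} {k : κ} (h : Past C r i s k) (hs : σ ≤ s) :
    N k ∨ ∃ m m', N m ∧ C σ m m' ∧ ¬ N m' ∧
      Relation.ReflTransGen (fun a b => C σ a b ∧ ¬ N b) m' k := by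
  induction h with
  | @root s h =>
    exact Or.inl (hN r i hr (.root le_rfl))
  | @step s s' j k h hc hs' ih =>
    have ih' := ih (hs.trans hs')
    rcases eq_or_lt_of_le (hs.trans hs') with h1 | h1
    · subst h1
      by_cases hk : N k
      · exact Or.inl hk
      · right
        rcases ih' with h2 | ⟨m, m', h2, h3, h4, h5⟩
        · exact ⟨j, k, h2, hc, hk, .refl⟩
        · exact ⟨m, m', h2, h3, h4, h5.tail ⟨hc, hk⟩⟩
    · exact Or.inl (hN s' k h1 (h.contact hc))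

/-- the closed version -/
theorem activity_past (hC : ∀ j k, IsClosed {s | C s j k}) (i : κ) (u : ℝ) :
    Activity C u (fun s k => Past C u i s k) where
  anti _ _ _ h h' := h'.mono h
  contact _ _ _ h h' := h.contact h'
  left σ k hσ h := mem_of_left (isClosed_past hC k) h
  gen σ k hσ h hn := by
    refine (gen_aux (N := fun k => ∃ s, σ < s ∧ s < u ∧ Past C u i s k) hσ ?_ h le_rfl).resolve_left
      hn
    intro s l hs hl
    rcases lt_or_ge s u with h1 | h1
    · exact ⟨s, hs, h1, hl⟩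
    · exact ⟨(σ + u) / 2, by linarith, by linarith, hl.mono (by linarith)⟩

/-- the version at `u⁻` -/
theorem activity_pre (hC : ∀ j k, IsClosed {s | C s j k}) (i : κ) (u : ℝ) :
    Activity C u (fun s k => k ∈ Inf879.pre C i u s) where
  anti _ _ _ h h' := Inf879.pre_anti h h'
  contact s j k h h' := by
    obtain ⟨r, hr, hp⟩ := h
    exact ⟨r, hr, hp.contact h'⟩
  left σ k hσ h := by
    obtain ⟨r, hr, hr'⟩ := Inf879.exists_Act_eq_pre (C := C) (j := i) hσ
    have h1 : ∀ s, s < σ → Past C r i s k := by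
      intro s hs
      obtain ⟨r', hr1, hp⟩ := h s hs
      have hp' : Past C (max r' r) i s k := Inf879.past_root_mono (le_max_left _ _) hp
      have hm : max r' r ∈ Ico r u := ⟨le_max_right _ _, max_lt hr1.2 hr.2⟩
      obtain ⟨j, hj, hjk⟩ := hp'.split hs.le (hr.1.trans hm.1)
      have h2 : j ∈ Act C (max r' r) i σ := hj
      rw [hr' _ hm, ← hr' r ⟨le_rfl, hr.2⟩] at h2
      exact Past.trans h2 hjk
    exact ⟨r, hr, mem_of_left (isClosed_past hC k) h1⟩
  gen σ k hσ h hn := by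
    obtain ⟨r, hr, hp⟩ := h
    obtain ⟨r', hr1, hr2⟩ := exists_between hr.2
    have hp' : Past C r' i σ k := Inf879.past_root_mono hr1.le hp
    refine (gen_aux (N := fun k => ∃ s, σ < s ∧ s < u ∧ k ∈ Inf879.pre C i u s)
      (hr.1.trans_lt hr1) ?_ hp' le_rfl).resolve_left hn
    intro s l hs hl
    exact ⟨s, hs, hl.le.trans_lt hr2, r', ⟨hl.le, hr2⟩, hl⟩

end activity

/-! ### The history -/

section hist

variable {Φ : Space3 → ℝ} {ε t u : ℝ} {κ : Type} [Fintype κ] {X : ℝ → κ → PhasePoint}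
  {C : ℝ → κ → κ → Prop} {G : Set κ} {P : ℝ → κ → Prop} {ι : Type} [Fintype ι] {e : ι ↪ κ}
  {τ : ι → ℝ}

/-- No contacts for a short time with particles which are not in contact. -/
theorem exists_no_contact (hC : ∀ j k, IsClosed {s | C s j k}) {s : ℝ} (S : Set (κ × κ))
    (h : ∀ p ∈ S, ¬ C s p.1 p.2) : ∃ δ > 0, ∀ s', |s' - s| < δ → ∀ p ∈ S, ¬ C s' p.1 p.2 := by
  have h1 : ∀ᶠ s' in 𝓝 s, ∀ p : κ × κ, p ∈ S → ¬ C s' p.1 p.2 := by
    rw [Filter.eventually_all]
    intro p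
    by_cases hp : p ∈ S
    · have h2 : {s' | C s' p.1 p.2}ᶜ ∈ 𝓝 s := (hC p.1 p.2).isOpen_compl.mem_nhds (h p hp)
      filter_upwards [h2] with s' hs' _
      exact hs'
    · exact Filter.Eventually.of_forall fun _ h' => absurd h' hp
  obtain ⟨δ, hδ, h2⟩ := Metric.eventually_nhds_iff.1 h1
  exact ⟨δ, hδ, fun s' hs' p hp => h2 (by rwa [Real.dist_eq]) p hp⟩

/-- **The history of a real cluster is a tapered history.** -/
theorem rhist (hw : GWorld Φ ε t X C G) (hP : Activity C u P) (hu : u ≤ t)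
    (heG : range e ⊆ G) (hV : ∀ k, P 0 k → k ∈ range e) (hτ0 : ∀ k, 0 ≤ τ k)
    (hτ : ∀ k s, 0 ≤ s → s < u → (P s (e k) ↔ s ≤ τ k)) :
    RHist Φ ε u τ (fun s k => X s (e k)) where
  dom s hs A := by
    refine hw.dom s ⟨hs.1, hs.2.trans hu⟩ A ((Function.Embedding.subtype (· ∈ A)).trans e) ?_
    rintro _ ⟨k, rfl⟩
    exact heG ⟨k, rfl⟩
  nonneg := hτ0
  move a b ha hab hb hdich A hA s hs := by
    refine hw.iso A ((Function.Embedding.subtype (· ∈ A)).trans e) ?_ a b ha hab (hb.trans hu) ?_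
      s hs
    · rintro _ ⟨k, rfl⟩
      exact heG ⟨k, rfl⟩
    · intro s hs j x hx hc
      have hj : s ≤ τ j := hs.2.le.trans ((hA j).1 j.2)
      have hs0 : 0 ≤ s := ha.trans hs.1.le
      have hsu : s < u := hs.2.trans_le hb
      have h1 : P s x := hP.contact s _ _ ((hτ j s hs0 hsu).2 hj) hc
      obtain ⟨l, rfl⟩ := hV x (hP.anti 0 s x hs0 h1)
      have h2 := (hτ l s hs0 hsu).1 h1
      have h3 : l ∈ A := by
        rw [hA]
        rcases hdich l with h4 | h4
        · linarith [hs.1]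
        · exact h4
      exact hx ⟨⟨l, h3⟩, rfl⟩
  loc s hs0 hsu _ := by
    obtain ⟨δ, hδ, hδ'⟩ := exists_no_contact hw.closed (s := s)
      {p | (∃ l, s ≤ τ l ∧ e l = p.1) ∧ ¬ ∃ l, s ≤ τ l ∧ e l = p.2} (by
        rintro ⟨j, x⟩ ⟨⟨l, hl, rfl⟩, hx⟩ hc
        have h1 : P s x := hP.contact s _ _ ((hτ l s hs0 hsu).2 hl) hc
        obtain ⟨l', rfl⟩ := hV x (hP.anti 0 s x hs0 h1)
        exact hx ⟨l', (hτ l' s hs0 hsu).1 h1, rfl⟩)
    refine ⟨min (δ / 2) (u - s), lt_min (by linarith) (by linarith), ?_⟩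
    intro A hA s' hs'
    have h1 := min_le_left (δ / 2) (u - s)
    have h2 := min_le_right (δ / 2) (u - s)
    have h3 : 0 < min (δ / 2) (u - s) := lt_min (by linarith) (by linarith)
    refine hw.iso A ((Function.Embedding.subtype (· ∈ A)).trans e) ?_ s
      (s + min (δ / 2) (u - s)) hs0 (by linarith) (by linarith) ?_ s' hs'
    · rintro _ ⟨k, rfl⟩
      exact heG ⟨k, rfl⟩
    · intro v hv j x hx
      refine hδ' v ?_ (e j, x) ⟨⟨j, (hA j).1 j.2, rfl⟩, ?_⟩
      · rw [abs_of_pos (by linarith [hv.1])]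
        linarith [hv.2]
      · rintro ⟨l, hl, rfl⟩
        exact hx ⟨⟨l, (hA l).2 hl⟩, rfl⟩
  sep j k hju hjk := by
    have hm : τ j < min (τ k) u := lt_min hjk hju
    filter_upwards [Ioo_mem_nhdsGT hm] with s hs
    have hsu : s < u := hs.2.trans_le (min_le_right _ _)
    have hsk : s ≤ τ k := hs.2.le.trans (min_le_left _ _)
    have hs0 : 0 ≤ s := (hτ0 j).trans hs.1.le
    by_contra hle
    rw [not_lt] at hle
    have hc : C s (e k) (e j) := by
      refine hw.symm _ _ _ ((hw.ct s ⟨hs0, hsu.le.trans hu⟩ _ (heG ⟨j, rfl⟩) _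
        (heG ⟨k, rfl⟩)).2 hle)
    have h1 := (hτ j s hs0 hsu).1 (hP.contact s _ _ ((hτ k s hs0 hsu).2 hsk) hc)
    linarith [hs.1]
  conn j hju := by
    have h0 := hτ0 j
    have hσI : τ j ∈ Icc 0 t := ⟨h0, hju.le.trans hu⟩
    have hact : ∀ l, τ j < τ l → ∃ s, τ j < s ∧ s < u ∧ P s (e l) := by
      intro l hl
      obtain ⟨s, hs1, hs2⟩ := exists_between (lt_min hl hju)
      exact ⟨s, hs1, hs2.trans_le (min_le_right _ _),
        (hτ l s (h0.trans hs1.le) (hs2.trans_le (min_le_right _ _))).2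
          (hs2.le.trans (min_le_left _ _))⟩
    have hact' : ∀ l, (∃ s, τ j < s ∧ s < u ∧ P s (e l)) → τ j < τ l := by
      rintro l ⟨s, hs1, hs2, hs3⟩
      exact hs1.trans_le ((hτ l s (h0.trans hs1.le) hs2).1 hs3)
    have hin : ∀ x s, 0 ≤ s → P s x → ∃ l, e l = x := fun x s hs hx => by
      obtain ⟨l, hl⟩ := hV x (hP.anti 0 s x hs hx)
      exact ⟨l, hl⟩
    obtain ⟨m, m', ⟨s, hs1, hs2, hs3⟩, hmm, hm', hch⟩ := hP.gen (τ j) (e j) hju
      ((hτ j _ h0 hju).2 le_rfl) (fun h => lt_irrefl _ (hact' j h))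
    obtain ⟨l, rfl⟩ := hin m s (h0.trans hs1.le) hs3
    have hl : τ j < τ l := hact' l ⟨s, hs1, hs2, hs3⟩
    have hPl : P (τ j) (e l) := hP.anti _ _ _ hs1.le hs3
    have hPm' : P (τ j) m' := hP.contact _ _ _ hPl hmm
    have key : ∀ x, Relation.ReflTransGen
        (fun a b => C (τ j) a b ∧ ¬ ∃ s, τ j < s ∧ s < u ∧ P s b) m' x →
        ∃ l', e l' = m' ∧ ∃ y, e y = x ∧ τ l' = τ j ∧ τ y = τ j ∧ Relation.ReflTransGen
          (fun a b => τ b = τ j ∧ dist (X (τ j) (e a)).1 (X (τ j) (e b)).1 ≤ ε) l' y := by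
      intro x hx
      induction hx with
      | refl =>
        obtain ⟨l', rfl⟩ := hin m' _ h0 hPm'
        have h1 : τ l' = τ j := by
          refine le_antisymm (not_lt.1 fun h => hm' (hact l' h)) ?_
          exact (hτ l' _ h0 hju).1 hPm'
        exact ⟨l', rfl, l', rfl, h1, h1, .refl⟩
      | @tail y z _ hyz ih =>
        obtain ⟨l', hl', y', rfl, h1, h2, h3⟩ := ih
        have hPz : P (τ j) z := hP.contact _ _ _ ((hτ y' _ h0 hju).2 h2.ge) hyz.1
        obtain ⟨z', rfl⟩ := hin z _ h0 hPz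
        have h4 : τ z' = τ j := by
          refine le_antisymm (not_lt.1 fun h => hyz.2 (hact z' h)) ?_
          exact (hτ z' _ h0 hju).1 hPz
        refine ⟨l', hl', z', rfl, h1, h4, h3.tail ⟨h4, ?_⟩⟩
        exact (hw.ct _ hσI _ (heG ⟨y', rfl⟩) _ (heG ⟨z', rfl⟩)).1 hyz.1
    obtain ⟨l', hl', y, hy, h1, _, h3⟩ := key (e j) hch
    have hyj : y = j := e.injective hy
    subst hyj
    refine ⟨l', h1, ⟨l, hl, ?_⟩, h3⟩
    have h5 : C (τ y) (e l) (e l') := by rw [hl']; exact hmm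
    exact (hw.ct _ hσI _ (heG ⟨l', rfl⟩) _ (heG ⟨l, rfl⟩)).1 (hw.symm _ _ _ h5)

end hist

end Crest.Agent.R122.Chain726

end
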