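import Crest.Agent.R122.BadDefs_726
import Crest.Agent.R122.ChainWorld_726

/-!
# Release chains (row 122, D5, helper726): a tapered history is a collision tree or bad
-/

set_option autoImplicit false
set_option linter.unusedSectionVars false

open Set Filter Topology
open Crest.AnalysisR.Kinetic
open scoped Classical

noncomputable section

namespace Crest.Agent.R122.Chain726

open Kin796 Kin796.CTree Disc416 Tree674 Flow671 Loc45 Causal291 PathFlow968 Surj968 Graft968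

variable {Φ : Space3 → ℝ} {ε T : ℝ}

/-- Right after `s` the pair is separated: the radial velocity at time `s` is not negative. -/
theorem radial_nonneg (hΦ : AdmissiblePotential Φ) (hε : 0 < ε) {κ : Type*} [Fintype κ]
    {W : κ → PhasePoint} (hW : W ∈ Dom Φ κ) {s : ℝ} {j k : κ}
    (hd : dist (flow Φ ε s W j).1 (flow Φ ε s W k).1 = ε)
    (hsep : ∀ᶠ u in 𝓝[>] s, ε < dist (flow Φ ε u W j).1 (flow Φ ε u W k).1) :
    0 ≤ inner ℝ ((flow Φ ε s W j).1 - (flow Φ ε s W k).1)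
      ((flow Φ ε s W j).2 - (flow Φ ε s W k).2) := by
  by_contra hneg
  rw [not_le] at hneg
  set f : ℝ → ℝ := fun u => ‖(flow Φ ε u W j).1 - (flow Φ ε u W k).1‖ ^ 2 with hf
  have h1 : HasDerivAt f (2 * inner ℝ ((flow Φ ε s W j).1 - (flow Φ ε s W k).1)
      ((flow Φ ε s W j).2 - (flow Φ ε s W k).2)) s :=
    ((hasDerivAt_pos_flow hΦ hε hW s j).sub (hasDerivAt_pos_flow hΦ hε hW s k)).norm_sq
  have h2 := (hasDerivAt_iff_tendsto_slope.1 h1).mono_left
    (nhdsWithin_mono s (fun x (hx : s < x) => hx.ne') : 𝓝[>] s ≤ 𝓝[≠] s)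
  have h3 : ∀ᶠ u in 𝓝[>] s, slope f s u < 0 := h2.eventually (gt_mem_nhds (by linarith))
  obtain ⟨u, ⟨h4, h5⟩, h6⟩ := ((h3.and hsep).and self_mem_nhdsWithin).exists
  have h6' : s < u := h6
  rw [slope_def_field, div_neg_iff] at h4
  have h7 : f u < f s := by
    rcases h4 with h4 | h4
    · linarith [h4.2]
    · linarith [h4.1]
  have h8 : f s = ε ^ 2 := by
    simp only [hf]
    rw [← dist_eq_norm, hd]
  have h9 : ε ^ 2 < f u := by
    simp only [hf]
    rw [← dist_eq_norm]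
    exact pow_lt_pow_left₀ h5 hε.le two_ne_zero
  linarith

theorem after_le_entr : ∀ (P : CTree) {s : ℝ} (T : ℝ) (v : Space3) (p : Par P) (m : Idx P),
    After Φ ε s P v p → s ≤ T → s ≤ entr Φ ε P T v p m
  | leaf, _, _, _, _, _, _, h => h
  | node l _, _, _, v, p, Sum.inl m, h, _ => after_le_entr l _ _ p.2.1 m h.2.1 h.1.le
  | node _ r, _, _, v, p, Sum.inr m, h, _ => after_le_entr r _ _ p.2.2 m h.2.2 h.1.le

theorem after_lt_prot (hε : 0 ≤ ε) : ∀ (P : CTree) {s : ℝ} (T : ℝ) (v : Space3) (p : Par P)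
    (m : Idx P), After Φ ε s P v p → s < T → s < prot P T p m
  | leaf, _, _, _, _, _, _, h => h
  | node l r, s, T, v, p, Sum.inl m, h, hT => after_lt_prot hε l T _ p.2.1 m h.2.1 hT
  | node l r, s, T, v, p, Sum.inr m, h, hT =>
      after_lt_prot hε r p.1.1 _ p.2.2 m h.2.2 (h.1.trans_le (sin_le hε v p.1))

/-- the equivalence `Option A' ≃ A` for `A = insert j A'` -/
def optE {ι : Type*} {A A' : Finset ι} (hsub : A' ⊆ A) (j : A) (hj : (j : ι) ∉ A')
    (hcov : ∀ k : A, (k : ι) ∉ A' → k = j) : Option A' ≃ A :=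
  Equiv.ofBijective (fun o => o.elim j fun k => ⟨k, hsub k.2⟩) ⟨by
    rintro (_ | k) (_ | k') h
    · rfl
    · exact absurd (by rw [show j = ⟨(k' : ι), hsub k'.2⟩ from h]; exact k'.2) hj
    · exact absurd (by rw [← show (⟨(k : ι), hsub k.2⟩ : A) = j from h]; exact k.2) hj
    · congr 1
      exact Subtype.ext (Subtype.mk.inj h), by
    intro k
    by_cases hk : (k : ι) ∈ A'
    · exact ⟨some ⟨k, hk⟩, rfl⟩
    · exact ⟨none, (hcov k hk).symm⟩⟩

@[simp] theorem optE_none {ι : Type*} {A A' : Finset ι} (hsub : A' ⊆ A) (j : A)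
    (hj : (j : ι) ∉ A') (hcov : ∀ k : A, (k : ι) ∉ A' → k = j) : optE hsub j hj hcov none = j := rfl

@[simp] theorem optE_some {ι : Type*} {A A' : Finset ι} (hsub : A' ⊆ A) (j : A)
    (hj : (j : ι) ∉ A') (hcov : ∀ k : A, (k : ι) ∉ A' → k = j) (k : A') :
    optE hsub j hj hcov (some k) = ⟨k, hsub k.2⟩ := rfl

/-- **One release step of a good younger tree**: the graft is good, or the step is bad. -/
theorem graft_or_badAt (hΦ : AdmissiblePotential Φ) (hε : 0 < ε) {ι : Type*} {A A' : Finset ι}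
    {W : A → PhasePoint} {W' : A' → PhasePoint} {s : ℝ} (hs : s ∈ Icc 0 T)
    (hst : Step Φ ε s W W') {i : ι} (hi : i ∈ A') {τ : ι → ℝ}
    {P : CTree} {e : Idx P ≃ A'} {ℓ : PhasePoint} {p : Par P}
    (hg : Good0 Φ ε T ⟨i, hi⟩ W' (fun k => τ k) P e ℓ p)
    (hle : ∀ k ∈ A', s ≤ τ k) (hτ : ∀ k : A, (k : ι) ∉ A' → τ k = s)
    (hch : ∃ W'' : ({i} : Finset ι) → PhasePoint, Chain Φ ε T A' W' {i} W'') :
    (∃ (Q : CTree) (f : Idx Q ≃ A) (q : Par Q),
      Good0 Φ ε T ⟨i, hst.sub hi⟩ W (fun k => τ k) Q f ℓ q ∧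
      ∀ (k : A') (s' : ℝ), s ≤ s' →
        path Φ ε Q ℓ q s' (f.symm ⟨k, hst.sub k.2⟩) = path Φ ε P ℓ p s' (e.symm k)) ∨
    BadAt Φ ε T i s W W' := by
  by_cases hcard : A'.card + 2 ≤ A.card
  · exact Or.inr (Or.inl ⟨hcard, hch⟩)
  have hcard1 : A'.card + 1 = A.card := by
    have h1 := hst.card_lt
    omega
  obtain ⟨j, hj, ⟨m, hm, hjm⟩, -⟩ := hst.touch
  have hcov : ∀ k : A, (k : ι) ∉ A' → k = j := by
    intro k hk
    by_contra hkj
    refine hcard ?_
    have h1 : insert (k : ι) (insert (j : ι) A') ⊆ A := by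
      intro x hx
      rw [Finset.mem_insert, Finset.mem_insert] at hx
      rcases hx with rfl | rfl | hx
      · exact k.2
      · exact j.2
      · exact hst.sub hx
    have h2 := Finset.card_le_card h1
    rw [Finset.card_insert_of_notMem, Finset.card_insert_of_notMem hj] at h2
    · exact h2
    · rw [Finset.mem_insert]
      rintro (h3 | h3)
      · exact hkj (Subtype.ext h3)
      · exact hk h3
  have hfl : ∀ k : A', flow Φ ε s W' k = flow Φ ε s W ⟨k, hst.sub k.2⟩ := fun k =>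
    congrFun (hst.flow_eq hΦ hε) k
  set m' : A' := ⟨m, hm⟩ with hm'
  have hmm : flow Φ ε s W' m' = flow Φ ε s W m := hfl m'
  have hd : dist (flow Φ ε s W j).1 (flow Φ ε s W' m').1 = ε := by
    rw [hmm]
    exact hjm
  have hrad : 0 ≤ inner ℝ ((flow Φ ε s W j).1 - (flow Φ ε s W' m').1)
      ((flow Φ ε s W j).2 - (flow Φ ε s W' m').2) := by
    rw [hmm]
    refine radial_nonneg hΦ hε hst.dom hjm ?_
    obtain ⟨h, hh, hsep⟩ := hst.sep
    filter_upwards [Ioo_mem_nhdsGT (show s < s + h by linarith)] with u hu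
    exact hsep u hu j m hj hm
  rcases hrad.eq_or_lt with hr | hr
  · exact Or.inr (Or.inr ⟨hcard1, j, m', ⟨i, hi⟩, rfl, hj, hd, Or.inl hr.symm⟩)
  -- the impact parameter
  have hbad : ∀ y : Plane, ‖y‖ < 1 → (flow Φ ε s W' m').2 ≠ (flow Φ ε s W j).2 →
      (flow Φ ε s W j).1 = (flow Φ ε s W' m').1 + ε • entrancePoint
        (frameMap ((flow Φ ε s W' m').2 - (flow Φ ε s W j).2) y)
        ((flow Φ ε s W' m').2 - (flow Φ ε s W j).2) →
      ¬ (After Φ ε s P ℓ.2 p ∧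
        Valid Φ ε (graft P (e.symm m')) T ℓ.2 (gpar P (e.symm m') ((s, (flow Φ ε s W j).2, y), p)) ∧
        Sep Φ ε (graft P (e.symm m')) T ℓ (gpar P (e.symm m') ((s, (flow Φ ε s W j).2, y), p))) →
      BadAt Φ ε T i s W W' := by
    intro y hy hv hx hno
    refine Or.inr ⟨hcard1, j, m', ⟨i, hi⟩, rfl, hj, hd, Or.inr ⟨hr, ?_⟩⟩
    refine ⟨P, e, ℓ, p, y, hg.valid, hg.sep, hg.root, hg.state, fun x => ?_, hy, hv, hx, hno⟩
    rw [← hg.rel x]
    exact hle _ (e x).2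
  by_cases haf : After Φ ε s P ℓ.2 p
  swap
  · -- an open window
    right
    obtain ⟨a, ha1, ha2, ha3, ha4, ha5⟩ := exists_node hε (ℓ := lineOf (flow Φ ε s W' m') s)
      (z := flow Φ ε s W j) (s := s) (by rw [onLine_lineOf]; exact hd)
      (by rw [onLine_lineOf]; exact hr)
    refine hbad a.2.2 ha3 (by rw [← ha2]; exact ha4) ?_ fun h => haf h.1
    rw [← ha2]
    have h1 := congrArg Prod.fst ha5
    unfold onLine outLine lineOf nb ng at h1
    simp only [ha1, sub_add_cancel] at h1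
    exact h1.symm
  -- the node of the graft
  have hentr := after_le_entr P T ℓ.2 p (e.symm m') haf hs.2
  obtain ⟨hline, a, ha1, ha2, ha3, ha4, ha5, hgr⟩ := exists_graft hΦ hε hg hs.1 (e.symm m') hentr
    (z := flow Φ ε s W j) (by rw [Equiv.apply_symm_apply]; exact hd)
    (by rw [Equiv.apply_symm_apply]; exact hr)
  rw [Equiv.apply_symm_apply] at hline
  have hav : a = (s, (flow Φ ε s W j).2, a.2.2) := by
    rw [← ha2, ← ha1]
  by_cases hok : Valid Φ ε (graft P (e.symm m')) T ℓ.2 (gpar P (e.symm m') (a, p)) ∧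
      Sep Φ ε (graft P (e.symm m')) T ℓ (gpar P (e.symm m') (a, p))
  swap
  · right
    refine hbad a.2.2 ha3 ?_ ?_ ?_
    · rw [hline, ← ha2]
      exact ha4
    · rw [← ha2]
      have h1 := congrArg Prod.fst ha5
      unfold onLine outLine nb ng at h1
      rw [hline]
      unfold onLine
      simp only [ha1, sub_add_cancel] at h1
      exact h1.symm
    · rintro ⟨-, h1, h2⟩
      rw [← hav] at h1 h2
      exact hok ⟨h1, h2⟩
  · left
    set f := optE hst.sub j hj hcov with hf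
    have hnew := hgr hok.1 hok.2 f (W' := W) (σ' := fun k : A => τ k)
      (fun k => by rw [hf, optE_some]; exact (hfl k).symm) rfl (fun k => rfl)
      (by rw [hf, optE_none]; exact hτ j hj)
    refine ⟨graft P (e.symm m'), gLabel P (e.symm m') e f, gpar P (e.symm m') (a, p), hnew, ?_⟩
    intro k s' hs'
    have h1 : (gLabel P (e.symm m') e f).symm ⟨k, hst.sub k.2⟩ = old P (e.symm m') (e.symm k) := by
      rw [Equiv.symm_apply_eq, gLabel_old, Equiv.apply_symm_apply]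
      rfl
    rw [h1]
    exact path_graft_old hΦ hε P (e.symm m') T ℓ a p hok.1 s' (e.symm k)
      (Or.inr (ha1.le.trans hs'))

/-- The same with `BadStep`. -/
theorem graft_or_bad (hΦ : AdmissiblePotential Φ) (hε : 0 < ε) {ι : Type*} {A A' : Finset ι}
    {W : A → PhasePoint} {W' : A' → PhasePoint} {s : ℝ} (hs : s ∈ Icc 0 T)
    (hst : Step Φ ε s W W') {i : ι} (hi : i ∈ A') {τ : ι → ℝ}
    {P : CTree} {e : Idx P ≃ A'} {ℓ : PhasePoint} {p : Par P}
    (hg : Good0 Φ ε T ⟨i, hi⟩ W' (fun k => τ k) P e ℓ p)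
    (hle : ∀ k ∈ A', s ≤ τ k) (hτ : ∀ k : A, (k : ι) ∉ A' → τ k = s)
    (hch : ∃ W'' : ({i} : Finset ι) → PhasePoint, Chain Φ ε T A' W' {i} W'') :
    (∃ (Q : CTree) (f : Idx Q ≃ A) (q : Par Q),
      Good0 Φ ε T ⟨i, hst.sub hi⟩ W (fun k => τ k) Q f ℓ q ∧
      ∀ (k : A') (s' : ℝ), s ≤ s' →
        path Φ ε Q ℓ q s' (f.symm ⟨k, hst.sub k.2⟩) = path Φ ε P ℓ p s' (e.symm k)) ∨
    BadStep Φ ε T i W :=
  (graft_or_badAt hΦ hε hs hst hi hg hle hτ hch).imp id fun h => ⟨s, hs, A', W', hst, h⟩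

/-! ### The induction over the releases -/

section main

variable {u te : ℝ} {ι : Type} [Fintype ι] {τ : ι → ℝ} {X : ℝ → ι → PhasePoint} {i : ι}

/-- The group `A` at time `s` is the group of a good tree whose protected times are the release
times, and on `[s, u]` the active particles follow the path of the tree. -/
def GoodX (Φ : Space3 → ℝ) (ε T u : ℝ) (τ : ι → ℝ) (X : ℝ → ι → PhasePoint) (i : ι)
    (A : Finset ι) (s : ℝ) : Prop :=
  ∃ (hi : i ∈ A) (P : CTree) (e : Idx P ≃ A) (ℓ : PhasePoint) (p : Par P),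
    Good0 Φ ε T ⟨i, hi⟩ (pull Φ ε X A s) (fun k => τ k) P e ℓ p ∧
    (∃ W'' : ({i} : Finset ι) → PhasePoint, Chain Φ ε T A (pull Φ ε X A s) {i} W'') ∧
    ∀ (k : A) (s' : ℝ), s' ∈ Icc s u → s' ≤ τ k → X s' k = path Φ ε P ℓ p s' (e.symm k)

/-- transfer over a release-free interval -/
theorem transfer (hΦ : AdmissiblePotential Φ) (hε : 0 < ε) (h : RHist Φ ε u τ X) (huT : u ≤ T)
    {A : Finset ι} {s s₁ : ℝ} (hs0 : 0 ≤ s) (hss : s < s₁) (hsu : s₁ ≤ u)
    (hdich : ∀ k, τ k ≤ s ∨ s₁ ≤ τ k) (hA : ∀ k, k ∈ A ↔ s₁ ≤ τ k) :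
    pull Φ ε X A s = pull Φ ε X A s₁ ∧ (GoodX Φ ε T u τ X i A s₁ → GoodX Φ ε T u τ X i A s) := by
  have hmove := h.move s s₁ hs0 hss hsu hdich A hA
  have hpull : pull Φ ε X A s = pull Φ ε X A s₁ := by
    unfold pull
    rw [hmove s₁ ⟨hss.le, le_rfl⟩, ← flow_add hΦ hε]
    congr 1
    ring
  refine ⟨hpull, ?_⟩
  rintro ⟨hi, P, e, ℓ, p, hg, hch, hp⟩
  refine ⟨hi, P, e, ℓ, p, hpull ▸ hg, hpull ▸ hch, ?_⟩
  intro k s' hs' hk
  rcases le_total s₁ s' with h1 | h1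
  · exact hp k s' ⟨h1, hs'.2⟩ hk
  · have h2 := hg.flow_eq hΦ hε ⟨hs0.trans hs'.1, h1.trans (hsu.trans huT)⟩ (e.symm k)
    rw [Equiv.apply_symm_apply] at h2
    rw [← h2, ← hpull, flow_pull' hΦ hε, ← hmove s' ⟨hs'.1, h1⟩]
    rfl

/-- one release -/
theorem release_at (hΦ : AdmissiblePotential Φ) (hε : 0 < ε) (h : RHist Φ ε u τ X) (huT : u ≤ T)
    {A : Finset ι} {s : ℝ} (hsu : s < u) (hA : Stage ε τ X A s) {j₀ : ι} (hj₀ : j₀ ∈ A)
    (hτ : τ j₀ = s) (hG : GoodX Φ ε T u τ X i (A \ comp ε τ X s j₀) s) :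
    GoodX Φ ε T u τ X i A s ∨
      BadAt Φ ε T i s (pull Φ ε X A s) (pull Φ ε X (A \ comp ε τ X s j₀) s) := by
  have hs0 : 0 ≤ s := hτ ▸ h.nonneg j₀
  have hsT : s ∈ Icc 0 T := ⟨hs0, hsu.le.trans huT⟩
  have hst := h.step hΦ hε hsu hA hj₀ hτ
  have hA' := hA.sdiff hτ
  obtain ⟨hi, P, e, ℓ, p, hg, hch, hp⟩ := hG
  have hτJ : ∀ k : A, (k : ι) ∉ A \ comp ε τ X s j₀ → τ k = s := by
    intro k hk
    by_contra hne
    refine hk (Finset.mem_sdiff.2 ⟨k.2, fun hc => hne (comp_tau hτ hc)⟩)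
  rcases graft_or_badAt hΦ hε hsT hst hi hg hA'.le hτJ hch with ⟨Q, f, q, hQ, hQp⟩ | hbad
  swap
  · exact Or.inr hbad
  left
  refine ⟨hst.sub hi, Q, f, ℓ, q, hQ, hch.imp fun _ h' => .step hsT hst h', ?_⟩
  intro k s' hs' hk
  rcases eq_or_lt_of_le hs'.1 with h1 | h1
  · subst h1
    have h2 := hQ.flow_eq hΦ hε hsT (f.symm k)
    rw [Equiv.apply_symm_apply, flow_pull hΦ hε] at h2
    exact h2
  · by_cases hkA : (k : ι) ∈ A \ comp ε τ X s j₀
    · have h2 := hQp ⟨k, hkA⟩ s' hs'.1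
      rw [show (⟨(k : ι), hst.sub hkA⟩ : A) = k from rfl] at h2
      rw [h2]
      exact hp ⟨k, hkA⟩ s' hs' hk
    · exact absurd (hτJ k hkA) (by linarith)

/-- **A tapered history is the history of a tree, or bad**, for any notion `B` of badness which
contains the bad release steps from good younger groups and goes backward along release steps. -/
theorem good_or_gen (hΦ : AdmissiblePotential Φ) (hε : 0 < ε) (h : RHist Φ ε u τ X) (huT : u ≤ T)
    (hiT : τ i = T) (B : (A : Finset ι) → (A → PhasePoint) → Prop)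
    (hB1 : ∀ s ∈ Icc 0 T, ∀ (A A' : Finset ι) (W : A → PhasePoint) (W' : A' → PhasePoint),
      Step Φ ε s W W' → B A' W' → B A W)
    (hB2 : ∀ s ∈ Icc 0 u, ∀ (A A' : Finset ι) (W : A → PhasePoint),
      Step Φ ε s W (pull Φ ε X A' s) → GoodX Φ ε T u τ X i A' s →
      BadAt Φ ε T i s W (pull Φ ε X A' s) → B A W)
    (hterm : ∀ A : Finset ι, (∀ k, k ∈ A ↔ u ≤ τ k) →
      GoodX Φ ε T u τ X i A u ∨ B A (pull Φ ε X A u)) :
    ∀ (n : ℕ) (A : Finset ι) (s : ℝ), A.card ≤ n → 0 ≤ s → s < u → Stage ε τ X A s →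
      GoodX Φ ε T u τ X i A s ∨ B A (pull Φ ε X A s) := by
  intro n
  induction n with
  | zero =>
    intro A s hn hs0 hsu hA
    exfalso
    have h1 : i ∈ A := hA.mem i (by rw [hiT]; linarith)
    rw [Nat.le_zero, Finset.card_eq_zero] at hn
    rw [hn] at h1
    exact absurd h1 (Finset.notMem_empty _)
  | succ n ih =>
    intro A s hn hs0 hsu hA
    -- release of a component at time `s'`
    have key : ∀ s', 0 ≤ s' → s' < u → Stage ε τ X A s' → (∃ j₀ ∈ A, τ j₀ = s') →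
        GoodX Φ ε T u τ X i A s' ∨ B A (pull Φ ε X A s') := by
      rintro s' hs'0 hs'u hA' ⟨j₀, hj₀, hτ⟩
      have hst := h.step hΦ hε hs'u hA' hj₀ hτ
      have h1 := hst.card_lt
      rcases ih _ s' (by omega) hs'0 hs'u (hA'.sdiff hτ) with hG | hB
      · exact (release_at hΦ hε h huT hs'u hA' hj₀ hτ hG).imp id
          fun hb => hB2 s' ⟨hs'0, hs'u.le⟩ _ _ _ hst hG hb
      · exact Or.inr (hB1 s' ⟨hs'0, hs'u.le.trans huT⟩ _ _ _ _ hst hB)
    by_cases hex : ∃ j₀ ∈ A, τ j₀ = s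
    · exact key s hs0 hsu hA hex
    push Not at hex
    have hlt : ∀ k ∈ A, s < τ k := fun k hk => lt_of_le_of_ne (hA.le k hk) (hex k hk).symm
    by_cases hF : ∃ k ∈ A, τ k < u
    · -- the next release time
      obtain ⟨k₀, hk₀, hk₀u⟩ := hF
      obtain ⟨k₁, hk₁, hmin⟩ := Finset.exists_min_image A τ ⟨k₀, hk₀⟩
      set s₁ := τ k₁ with hs₁
      have hs₁u : s₁ < u := (hmin k₀ hk₀).trans_lt hk₀u
      have hss : s < s₁ := hlt k₁ hk₁
      have hdich : ∀ k, τ k ≤ s ∨ s₁ ≤ τ k := by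
        intro k
        rcases le_or_gt (τ k) s with h1 | h1
        · exact Or.inl h1
        · exact Or.inr (hmin k (hA.mem k h1))
      have hAm : ∀ k, k ∈ A ↔ s₁ ≤ τ k := fun k =>
        ⟨fun hk => hmin k hk, fun hk => hA.mem k (hss.trans_le hk)⟩
      have hA₁ : Stage ε τ X A s₁ :=
        ⟨fun k hk => hmin k hk, fun k hk => hA.mem k (hss.trans hk), fun a _ b _ hb _ =>
          hA.mem b (by rw [hb]; exact hss)⟩
      obtain ⟨h1, h2⟩ := transfer (i := i) hΦ hε h huT hs0 hss hs₁u.le hdich hAm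
      rw [h1]
      exact (key s₁ (hs0.trans hss.le) hs₁u hA₁ ⟨k₁, hk₁, rfl⟩).imp h2 id
    · push Not at hF
      have hdich : ∀ k, τ k ≤ s ∨ u ≤ τ k := by
        intro k
        rcases le_or_gt (τ k) s with h1 | h1
        · exact Or.inl h1
        · exact Or.inr (hF k (hA.mem k h1))
      have hAm : ∀ k, k ∈ A ↔ u ≤ τ k := fun k =>
        ⟨fun hk => hF k hk, fun hk => hA.mem k (hsu.trans_le hk)⟩
      obtain ⟨h1, h2⟩ := transfer (i := i) hΦ hε h huT hs0 hsu le_rfl hdich hAm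
      rw [h1]
      exact (hterm A hAm).imp h2 id

/-- **A tapered history is the history of a tree, or bad.** -/
theorem good_or_bad (hΦ : AdmissiblePotential Φ) (hε : 0 < ε) (h : RHist Φ ε u τ X) (huT : u ≤ T)
    (hiT : τ i = T)
    (hterm : ∀ A : Finset ι, (∀ k, k ∈ A ↔ u ≤ τ k) →
      GoodX Φ ε T u τ X i A u ∨ BadGrp Φ ε T te i A (pull Φ ε X A u)) :
    ∀ (n : ℕ) (A : Finset ι) (s : ℝ), A.card ≤ n → 0 ≤ s → s < u → Stage ε τ X A s →
      GoodX Φ ε T u τ X i A s ∨ BadGrp Φ ε T te i A (pull Φ ε X A s) :=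
  good_or_gen hΦ hε h huT hiT (fun A W => BadGrp Φ ε T te i A W)
    (fun _ hs _ _ _ _ hst hB => BadGrp.of_chain (Chain.single hs hst) hB)
    (fun s hs _ _ _ hst _ hb => BadGrp.of_step ⟨s, ⟨hs.1, hs.2.trans huT⟩, _, _, hst, hb⟩) hterm

end main

end Crest.Agent.R122.Chain726

end
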