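import Crest.Agent.R122.ChainDet_726

/-!
# Release chains (row 122, D5, helper726): the terminal group and its virtual continuation
-/

set_option autoImplicit false
set_option linter.unusedSectionVars false

open Set Filter Topology
open Crest.AnalysisR.Kinetic
open scoped Classical

noncomputable section

namespace Crest.Agent.R122.Chain726

open Kin796 Kin796.CTree Disc416 Tree674 Flow671 Loc45 Causal291 PathFlow968 Surj968 Graft968

/-! ### The terminal group is contact-connected -/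

section term

variable {κ : Type} [Fintype κ] {C : ℝ → κ → κ → Prop}

theorem term_past (hC : ∀ j k, IsClosed {s | C s j k}) {i : κ} {u : ℝ} {k : κ}
    (h : ∀ s, s < u → Past C u i s k) :
    Relation.ReflTransGen (fun a b => C u a b ∧ ∀ s, s < u → Past C u i s b) i k := by
  have h1 : Past C u i u k := mem_of_left (isClosed_past hC k) h
  have key : ∀ s k, Past C u i s k → s = u →
      Relation.ReflTransGen (fun a b => C u a b ∧ ∀ s, s < u → Past C u i s b) i k := by
    intro s k h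
    induction h with
    | root h => exact fun _ => .refl
    | @step s s' j k h hc hs ih =>
      intro hsu
      have h2 : s' = u := le_antisymm h.le (hsu ▸ hs)
      subst h2
      exact (ih rfl).tail ⟨hc, fun s hs => (h.contact hc).mono hs.le⟩
  exact key u k h1 rfl

theorem term_pre (hC : ∀ j k, IsClosed {s | C s j k}) {i : κ} {u : ℝ} {k : κ}
    (h : ∀ s, s < u → k ∈ Inf879.pre C i u s) :
    Relation.ReflTransGen (fun a b => C u a b ∧ ∀ s, s < u → b ∈ Inf879.pre C i u s) i k := by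
  obtain ⟨δ, hδ, hδ'⟩ := exists_no_contact hC (s := u) {p | ¬ C u p.1 p.2} (fun p hp => hp)
  have h1 : ∀ s, u - δ < s → s < u → ∀ a b, C s a b → C u a b := by
    intro s hs1 hs2 a b hab
    by_contra hno
    refine hδ' s ?_ (a, b) hno hab
    rw [abs_sub_comm, abs_of_pos (by linarith)]
    linarith
  have h2 : ∀ b : κ, ∃ s, s < u ∧ (b ∈ Inf879.pre C i u s → ∀ s', s' < u →
      b ∈ Inf879.pre C i u s') := by
    intro b
    by_cases hb : ∀ s', s' < u → b ∈ Inf879.pre C i u s'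
    · exact ⟨u - 1, by linarith, fun _ => hb⟩
    · push Not at hb
      obtain ⟨s, hs, hs'⟩ := hb
      exact ⟨s, hs, fun h => absurd h hs'⟩
  choose σ hσ hσ' using h2
  have hne : (Finset.univ : Finset κ).Nonempty := ⟨i, Finset.mem_univ i⟩
  set s₀ := max (u - δ / 2) (Finset.univ.sup' hne σ) with hs₀
  have hs₀u : s₀ < u := max_lt (by linarith) ((Finset.sup'_lt_iff hne).2 fun b _ => hσ b)
  have hs₀δ : u - δ < s₀ := lt_of_lt_of_le (by linarith) (le_max_left _ _)
  have h3 : ∀ b s, s₀ ≤ s → b ∈ Inf879.pre C i u s → ∀ s', s' < u → b ∈ Inf879.pre C i u s' := by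
    intro b s hs hb
    refine hσ' b (Inf879.pre_anti ?_ hb)
    exact ((Finset.le_sup' σ (Finset.mem_univ b)).trans (le_max_right _ _)).trans hs
  obtain ⟨r, hr, hp⟩ := h s₀ hs₀u
  have key : ∀ s k, Past C r i s k → s₀ ≤ s → Relation.ReflTransGen
      (fun a b => C u a b ∧ ∀ s, s < u → b ∈ Inf879.pre C i u s) i k := by
    intro s k h
    induction h with
    | root h => exact fun _ => .refl
    | @step s s' j k h hc hs ih =>
      intro hs0
      have h4 : s₀ ≤ s' := hs0.trans hs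
      have h5 : s' < u := h.le.trans_lt hr.2
      refine (ih h4).tail ⟨h1 s' (hs₀δ.trans_le h4) h5 _ _ hc, ?_⟩
      exact h3 k s' h4 ⟨r, ⟨h.le, hr.2⟩, h.contact hc⟩
  exact key s₀ k hp le_rfl

/-- the release times of the particles which are released before `u` -/
theorem exists_sigma {P : ℝ → κ → Prop} {u : ℝ} (hP : Activity C u P) {k : κ} (h0 : P 0 k)
    (hk : ¬ ∀ s, s < u → P s k) :
    ∃ σ, 0 ≤ σ ∧ σ < u ∧ ∀ s, 0 ≤ s → s < u → (P s k ↔ s ≤ σ) := by
  push Not at hk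
  obtain ⟨s₁, hs₁, hk₁⟩ := hk
  have hs₁0 : 0 < s₁ := by
    by_contra hle
    exact hk₁ (hP.anti _ _ _ (not_lt.1 hle) h0)
  set S : Set ℝ := {s | 0 ≤ s ∧ s ≤ s₁ ∧ P s k} with hS
  have hne : S.Nonempty := ⟨0, le_rfl, hs₁0.le, h0⟩
  have hbd : BddAbove S := ⟨s₁, fun s hs => hs.2.1⟩
  have hσ0 : 0 ≤ sSup S := le_csSup hbd ⟨le_rfl, hs₁0.le, h0⟩
  have hσ1 : sSup S ≤ s₁ := csSup_le hne fun s hs => hs.2.1
  have hσP : P (sSup S) k := by
    refine hP.left _ _ (hσ1.trans_lt hs₁) fun s hs => ?_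
    obtain ⟨s', hs', hss'⟩ := exists_lt_of_lt_csSup hne hs
    exact hP.anti _ _ _ hss'.le hs'.2.2
  refine ⟨sSup S, hσ0, hσ1.trans_lt hs₁, fun s hs0 _ => ⟨fun h => ?_, fun h => ?_⟩⟩
  · rcases le_or_gt s s₁ with h1 | h1
    · exact le_csSup hbd ⟨hs0, h1, h⟩
    · exact absurd (hP.anti _ _ _ h1.le h) hk₁
  · exact hP.anti _ _ _ h hσP

end term

/-! ### The virtual continuation -/

section virt

variable {Φ : Space3 → ℝ} {ε T u te : ℝ} {ι : Type} [Fintype ι] {X : ℝ → ι → PhasePoint} {i : ι}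

theorem good_single (hΦ : AdmissiblePotential Φ) (hε : 0 < ε) (hu : 0 ≤ u) (huT : u ≤ T)
    (τ : ι → ℝ) (hτ : τ i = T) : GoodX Φ ε T u τ X i {i} u := by
  haveI : Subsingleton ({i} : Finset ι) := ⟨fun a b => Subtype.ext
    ((Finset.mem_singleton.1 a.2).trans (Finset.mem_singleton.1 b.2).symm)⟩
  have hi : i ∈ ({i} : Finset ι) := Finset.mem_singleton_self i
  obtain ⟨e, he⟩ := exists_good0_leaf Φ ε T (⟨i, hi⟩ : ({i} : Finset ι)) (pull Φ ε X {i} u)
    (fun k => τ k) hτ
  refine ⟨hi, leaf, e, _, _, he, ⟨_, .refl _ _⟩, ?_⟩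
  intro k s' hs' _
  obtain rfl : s' = u := le_antisymm hs'.2 hs'.1
  have h1 := he.flow_eq hΦ hε ⟨hu, huT⟩ (e.symm k)
  rw [Equiv.apply_symm_apply, flow_pull hΦ hε] at h1
  exact h1

/-- **The terminal group** at time `u`: a single particle, or a pair which separates before the
horizon `T` (virtual release), or bad. -/
theorem terminal_at (hΦ : AdmissiblePotential Φ) (hε : 0 < ε) (hu : u ∈ Icc 0 te) (hteT : te < T)
    {A : Finset ι} (hi : i ∈ A) (hdom : grp A (X u) ∈ Dom Φ A)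
    (hconn : ∀ k : A, Relation.ReflTransGen (fun a b => dst (grp A (X u)) a b ≤ ε) ⟨i, hi⟩ k) :
    ∃ τA : ι → ℝ, (∀ k, u ≤ τA k) ∧ τA i = T ∧ ∀ τ : ι → ℝ, (∀ k ∈ A, τ k = τA k) →
      (GoodX Φ ε T u τ X i A u ∨ (A.card = 2 ∧ BadStep Φ ε T i (pull Φ ε X A u)) ∨
        TermBad Φ ε T te i (pull Φ ε X A u)) := by
  have huT : u < T := hu.2.trans_lt hteT
  have hcard1 : 1 ≤ A.card := Finset.card_pos.2 ⟨i, hi⟩
  by_cases hc3 : 3 ≤ A.card
  · refine ⟨fun _ => T, fun _ => huT.le, rfl, fun τ _ => Or.inr (Or.inr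
      ⟨⟨i, hi⟩, rfl, Or.inl ⟨hc3, u, hu, ?_⟩⟩)⟩
    rw [flow_pull hΦ hε]
    exact hconn
  by_cases hc1 : A.card = 1
  · obtain ⟨a, rfl⟩ := Finset.card_eq_one.1 hc1
    obtain rfl : i = a := Finset.mem_singleton.1 hi
    refine ⟨fun _ => T, fun _ => huT.le, rfl, fun τ hτ => Or.inl ?_⟩
    exact good_single hΦ hε hu.1 huT.le τ (hτ i hi)
  have hc2 : A.card = 2 := by omega
  -- the pair
  obtain ⟨j, hj⟩ : ∃ j, A.erase i = {j} := Finset.card_eq_one.1 (by
    rw [Finset.card_erase_of_mem hi, hc2])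
  have hjA' : j ∈ A.erase i := by rw [hj]; exact Finset.mem_singleton_self j
  have hjA : j ∈ A := Finset.mem_of_mem_erase hjA'
  have hji : j ≠ i := Finset.ne_of_mem_erase hjA'
  have hcov : ∀ k ∈ A, k = i ∨ k = j := by
    intro k hk
    by_cases hki : k = i
    · exact Or.inl hki
    · right
      have : k ∈ A.erase i := Finset.mem_erase.2 ⟨hki, hk⟩
      rw [hj] at this
      exact Finset.mem_singleton.1 this
  set iA : A := ⟨i, hi⟩ with hiA
  set jA : A := ⟨j, hjA⟩ with hjA2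
  have hjiA : jA ≠ iA := fun h => hji (congrArg Subtype.val h)
  set W : A → PhasePoint := pull Φ ε X A u with hW
  have hWd : W ∈ Dom Φ A := (flow_mem_iff hΦ hε _ _).2 hdom
  by_cases hTc : dst (flow Φ ε T W) iA jA ≤ ε
  · exact ⟨fun _ => T, fun _ => huT.le, rfl, fun τ _ => Or.inr (Or.inr
      ⟨iA, rfl, Or.inr ⟨hc2, jA, hjiA, hTc⟩⟩)⟩
  rw [not_le] at hTc
  -- contact at time `u`
  have hcu : dst (flow Φ ε u W) iA jA ≤ ε := by
    have h1 : flow Φ ε u W = grp A (X u) := flow_pull hΦ hε A u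
    rw [h1]
    have key : ∀ k : A, Relation.ReflTransGen (fun a b => dst (grp A (X u)) a b ≤ ε) iA k →
        k = iA ∨ dst (grp A (X u)) iA jA ≤ ε := by
      intro k hk
      induction hk with
      | refl => exact Or.inl rfl
      | @tail b c _ hbc ih =>
        rcases ih with rfl | ih
        · rcases hcov c c.2 with h2 | h2
          · exact Or.inl (Subtype.ext h2)
          · right
            have h3 : c = jA := Subtype.ext h2
            rwa [h3] at hbc
        · exact Or.inr ih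
    rcases key jA (hconn jA) with h2 | h2
    · exact absurd h2 hjiA
    · exact h2
  -- the exit time
  have hcont : Continuous fun s => dst (flow Φ ε s W) iA jA := by
    have hc : ∀ m : A, Continuous fun s => flow Φ ε s W m := fun m =>
      (continuous_apply m).comp (flow_continuous_time hΦ hε W)
    exact (hc iA).fst.dist (hc jA).fst
  have hcomp : IsCompact (Icc u T ∩ {s | dst (flow Φ ε s W) iA jA ≤ ε}) :=
    isCompact_Icc.inter_right (isClosed_le hcont continuous_const)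
  obtain ⟨s, ⟨hsI, hsc⟩, hsmax⟩ := hcomp.exists_isGreatest ⟨u, ⟨le_rfl, huT.le⟩, hcu⟩
  have hsc' : dst (flow Φ ε s W) iA jA ≤ ε := hsc
  have hsT : s < T := by
    rcases eq_or_lt_of_le hsI.2 with h | h
    · rw [h] at hsc'
      exact absurd hsc' (not_le.2 hTc)
    · exact h
  have hs0 : 0 ≤ s := hu.1.trans hsI.1
  have hafter : ∀ s', s < s' → s' ≤ T → ε < dst (flow Φ ε s' W) iA jA := by
    intro s' h1 h2
    by_contra hle
    exact absurd (hsmax ⟨⟨hsI.1.trans h1.le, h2⟩, not_lt.1 hle⟩) (not_le.2 h1)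
  have hseq : dst (flow Φ ε s W) iA jA = ε := by
    refine le_antisymm hsc' ?_
    refine ge_of_tendsto ((hcont.tendsto s).mono_left nhdsWithin_le_nhds : Tendsto _ (𝓝[>] s) _) ?_
    filter_upwards [Ioc_mem_nhdsGT hsT] with s' hs'
    exact (hafter s' hs'.1 hs'.2).le
  -- the virtual step
  have hsub : ({i} : Finset ι) ⊆ A := Finset.singleton_subset_iff.2 hi
  have hj' : (jA : ι) ∉ ({i} : Finset ι) := fun h => hji (Finset.mem_singleton.1 h)
  have hrel : ∀ k : A, (k : ι) ∉ ({i} : Finset ι) → k = jA := by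
    intro k hk
    rcases hcov k k.2 with h | h
    · exact absurd (Finset.mem_singleton.2 h) hk
    · exact Subtype.ext h
  have hrel' : ∀ k : A, (k : ι) ∈ ({i} : Finset ι) → k = iA := fun k hk =>
    Subtype.ext (Finset.mem_singleton.1 hk)
  set W' : ({i} : Finset ι) → PhasePoint := flow Φ ε (-s) (rs hsub (flow Φ ε s W)) with hW'
  have hst : Step Φ ε s W W' := by
    refine ⟨hWd, hsub, ⟨jA, hj', ⟨iA, Finset.mem_singleton_self i, ?_⟩, ?_⟩, ?_, rfl⟩
    · rw [dst_comm]
      exact hseq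
    · intro k hk
      rw [hrel k hk]
    · refine ⟨T - s, by linarith, fun s' hs' a b ha hb => ?_⟩
      rw [hrel a ha, hrel' b hb, dst_comm]
      exact hafter s' hs'.1 (by linarith [hs'.2])
  refine ⟨fun k => if k = i then T else s, fun k => ?_, if_pos rfl, fun τ hτ => ?_⟩
  · show u ≤ if k = i then T else s
    split_ifs
    · exact huT.le
    · exact hsI.1
  have hτi : τ i = T := (hτ i hi).trans (if_pos rfl)
  have hτj : τ j = s := (hτ j hjA).trans (if_neg hji)
  haveI : Subsingleton ({i} : Finset ι) := ⟨fun a b => Subtype.ext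
    ((Finset.mem_singleton.1 a.2).trans (Finset.mem_singleton.1 b.2).symm)⟩
  have hi1 : i ∈ ({i} : Finset ι) := Finset.mem_singleton_self i
  obtain ⟨e, he⟩ := exists_good0_leaf Φ ε T (⟨i, hi1⟩ : ({i} : Finset ι)) W'
    (fun k => τ k) hτi
  rcases graft_or_bad hΦ hε ⟨hs0, hsT.le⟩ hst hi1 he
    (fun k hk => by rw [Finset.mem_singleton.1 hk, hτi]; exact hsT.le)
    (fun k hk => by rw [hrel k hk]; exact hτj) ⟨W', .refl _ _⟩ with ⟨Q, f, q, hQ, -⟩ | hbad
  swap
  · exact Or.inr (Or.inl ⟨hc2, hbad⟩)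
  left
  refine ⟨hi, Q, f, _, q, hQ, ⟨W', Chain.single ⟨hs0, hsT.le⟩ hst⟩, ?_⟩
  intro k s' hs' _
  obtain rfl : s' = u := le_antisymm hs'.2 hs'.1
  have h1 := hQ.flow_eq hΦ hε ⟨hu.1, huT.le⟩ (f.symm k)
  rw [Equiv.apply_symm_apply, hW, flow_pull hΦ hε] at h1
  exact h1

/-- The same with `BadGrp`. -/
theorem terminal (hΦ : AdmissiblePotential Φ) (hε : 0 < ε) (hu : u ∈ Icc 0 te) (hteT : te < T)
    {A : Finset ι} (hi : i ∈ A) (hdom : grp A (X u) ∈ Dom Φ A)
    (hconn : ∀ k : A, Relation.ReflTransGen (fun a b => dst (grp A (X u)) a b ≤ ε) ⟨i, hi⟩ k) :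
    ∃ τA : ι → ℝ, (∀ k, u ≤ τA k) ∧ τA i = T ∧ ∀ τ : ι → ℝ, (∀ k ∈ A, τ k = τA k) →
      (GoodX Φ ε T u τ X i A u ∨ BadGrp Φ ε T te i A (pull Φ ε X A u)) := by
  obtain ⟨τA, h1, h2, h3⟩ := terminal_at hΦ hε hu hteT hi hdom hconn
  refine ⟨τA, h1, h2, fun τ hτ => (h3 τ hτ).imp id ?_⟩
  rintro (h | h)
  · exact BadGrp.of_step h.2
  · exact BadGrp.of_term h

end virt

end Crest.Agent.R122.Chain726

end
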