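import Crest.Agent.R122.ChainWorld_726
import Crest.Agent.R122.BPair_45
import Crest.Agent.R122.BirthsEvo_45

/-!
# Row 122, D5 (helper968): instances of the abstract world `GWorld` of helper726

* `gworld_pth`: the isolated Newton flow of a finite family, contact relation `Ct`.
* `gworld_bworld`: a world with births `b ≥ 0` with contact relation `CtB`, `G` = any set of
  particles born at time `0` which are separated at time `0`.
* `gworld_bworld_Icc`: the same with the contact relation restricted to `[0, t]`, without condition on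
  the births.
-/

set_option autoImplicit false

open Set Filter Topology
open Crest.AnalysisR.Kinetic
open scoped Classical

noncomputable section

namespace Crest.Agent.R122.Chain726

open Flow671 Loc45 Causal291 Ins45 Inf879

variable {Φ : Space3 → ℝ} {ε t : ℝ} {κ : Type} [Fintype κ]

/-- Particles which are not in contact on an open interval have distance at least `ε` on the closed
interval. -/
theorem le_dist_of_Ioo {X : ℝ → κ → PhasePoint} {S : Set ℝ} {j k : κ}
    (hj : ContinuousOn (fun s => X s j) S) (hk : ContinuousOn (fun s => X s k) S) {a b : ℝ}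
    (hab : a < b) (hS : Icc a b ⊆ S) (h : ∀ s ∈ Ioo a b, ε ≤ dist (X s j).1 (X s k).1) {s : ℝ}
    (hs : s ∈ Icc a b) : ε ≤ dist (X s j).1 (X s k).1 := by
  have h3 : ContinuousOn (fun s => dist (X s j).1 (X s k).1) S :=
    continuous_dist.comp_continuousOn (hj.fst.prodMk hk.fst)
  have h2 : ContinuousWithinAt (fun s => dist (X s j).1 (X s k).1) (Ioo a b) s :=
    (h3 s (hS hs)).mono fun u hu => hS ⟨hu.1.le, hu.2.le⟩
  have : (𝓝[Ioo a b] s).NeBot := by
    rw [← mem_closure_iff_nhdsWithin_neBot, closure_Ioo hab.ne]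
    exact hs
  exact ge_of_tendsto h2 (eventually_nhdsWithin_of_forall h)

/-- **The isolated flow is a world.** -/
theorem gworld_pth (hΦ : AdmissiblePotential Φ) (hε : 0 < ε) {Z : κ → PhasePoint}
    (hZ : Z ∈ Dom Φ κ) (t : ℝ) :
    GWorld Φ ε t (pth Φ ε Z) (Ct (pth Φ ε Z) ε) univ where
  closed j k := isClosed_ct (continuous_pth hΦ hε Z) j k
  symm _ _ _ h := h.symm
  ct _ _ _ _ _ _ := Iff.rfl
  dom s _ ι _ e _ := Dom_comp e (flow_mem hΦ hε hZ s)
  iso ι _ e _ a b _ hab _ hno s hs := by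
    have hfar : ∀ r ∈ Icc a b, CrossFar ε e (flow Φ ε r Z) := by
      intro r hr j x hx
      refine le_dist_of_Ioo (X := pth Φ ε Z) (S := univ) (continuous_pth hΦ hε Z _).continuousOn
        (continuous_pth hΦ hε Z _).continuousOn hab (subset_univ _) (fun r hr => ?_) hr
      exact (not_le.1 (hno r hr j x hx)).le
    exact flow_comp hΦ hε e hZ (t₀ := a) ⟨le_rfl, hab.le⟩ hfar hs

/-- **An isolated family of old particles in a world with births moves by its own flow.** -/
theorem _root_.Crest.Agent.R122.Ins45.BWorld.iso_flow (hΦ : AdmissiblePotential Φ) (hε : 0 < ε)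
    {b : κ → ℝ} {X : ℝ → κ → PhasePoint} {t₀ : ℝ} (hX : BWorld Φ ε b t₀ X) {ι : Type} [Fintype ι]
    (e : ι ↪ κ) {a b' : ℝ} (ha : t₀ ≤ a) (hab : a < b') (hb : ∀ i, b (e i) ≤ a)
    (hno : ∀ s ∈ Ioo a b', ∀ j, ∀ x, x ∉ range e → ¬ CtB b X ε s (e j) x) :
    ∀ s ∈ Icc a b', (fun k => X s (e k)) = flow Φ ε (s - a) (fun k => X a (e k)) := by
  set Z : ι → PhasePoint := fun k => X a (e k) with hZ
  have hdom : Z ∈ Dom Φ ι := (hX.dom a ha).imp id fun h i j hij =>
    h (e i) (e j) (fun h' => hij (e.injective h')) (hb i) (hb j)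
  have hW : World Φ ε (fun s => flow Φ ε (s - a) Z) := by
    have := (world_flow hΦ hε hdom).shift (-a)
    have h2 : (fun s => flow Φ ε (-a + s) Z) = fun s => flow Φ ε (s - a) Z := by
      funext s
      rw [neg_add_eq_sub]
    rwa [h2] at this
  have hB : BWorld Φ ε (fun _ : ι => a) a (fun s => flow Φ ε (s - a) Z) :=
    World.bworld hW fun _ => le_rfl
  intro s hs
  funext k
  refine BWorld.agree_own hΦ hε hX hB (μ := ι) (e := e) (f := id) e.injective
    Function.injective_id (S := univ) (A := ∅) (a := a) (T := b') ha le_rfl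
    (fun m _ r hr => ⟨fun _ => hr.1, fun _ => (hb m).trans hr.1⟩)
    (fun _ h => absurd h (notMem_empty _)) (fun m _ => ?_) ?_ ?_ k (mem_univ k) s hs
  · show X a (e m) = flow Φ ε (a - a) Z m
    rw [sub_self, flow_zero hΦ hε]
  · intro r hr m _ hm x hx hne
    refine hX.le_dist_of_not_ctB (ha.trans hr.1) hr.2 hm hx fun r' hr' hc => ?_
    refine hno r' ⟨hr.1.trans_lt hr'.1, hr'.2⟩ m x ?_ hc
    rintro ⟨m', hm'⟩
    exact hne m' (Or.inl (mem_univ _)) hm'
  · intro r _ m _ _ x _ hne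
    exact absurd rfl (hne x (Or.inl (mem_univ _)))

section births

variable {b : κ → ℝ} {X : ℝ → κ → PhasePoint} {G : Set κ}

/-- Contact of old particles which are separated at time `0`. -/
theorem ctB_iff_dist {j k : κ} (hj : b j ≤ 0) (hk : b k ≤ 0)
    (hex : j ≠ k → ε < dist (X 0 j).1 (X 0 k).1) {s : ℝ} (hs : 0 ≤ s) :
    CtB b X ε s j k ↔ dist (X s j).1 (X s k).1 ≤ ε := by
  refine (ctB_iff_ct_of_excl (hj.trans hs) (hk.trans hs) fun hjk h1 _ => ?_).trans Iff.rfl
  have h2 : s = 0 := le_antisymm (h1 ▸ hj) hs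
  rw [h2]
  exact hex hjk

theorem dom_of_bworld (hX : BWorld Φ ε b 0 X) (hG : ∀ k ∈ G, b k ≤ 0) {s : ℝ} (hs : 0 ≤ s)
    {ι : Type} [Fintype ι] (e : ι ↪ κ) (he : range e ⊆ G) :
    (fun k => X s (e k)) ∈ Dom Φ ι :=
  (hX.dom s hs).imp id fun h i j hij =>
    h (e i) (e j) (fun h' => hij (e.injective h')) ((hG _ (he ⟨i, rfl⟩)).trans hs)
      ((hG _ (he ⟨j, rfl⟩)).trans hs)

/-- **A world with births is a world**: contact relation `CtB`, `G` = old particles which are
separated at time `0`. -/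
theorem gworld_bworld (hΦ : AdmissiblePotential Φ) (hε : 0 < ε) (hX : BWorld Φ ε b 0 X)
    (hs : BirthSep b X ε) (hb : ∀ k, 0 ≤ b k) (hG : ∀ k ∈ G, b k ≤ 0)
    (hex : ∀ j ∈ G, ∀ k ∈ G, j ≠ k → ε < dist (X 0 j).1 (X 0 k).1) (t : ℝ) :
    GWorld Φ ε t X (CtB b X ε) G where
  closed j k := isClosed_ctB (t₀ := 0) hX.cont_pos hb hs j k
  symm _ _ _ h := h.symm
  ct s hs j hj k hk := ctB_iff_dist (hG j hj) (hG k hk) (hex j hj k hk) hs.1
  dom s hs ι _ e he := dom_of_bworld hX hG hs.1 e he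
  iso ι _ e he a b' ha hab _ hno s hs :=
    hX.iso_flow hΦ hε e ha hab (fun i => (hG _ (he ⟨i, rfl⟩)).trans ha) hno s hs

/-- The same, with the contact relation restricted to the times in `[0, t]` (births of any sign). -/
theorem gworld_bworld_Icc (hΦ : AdmissiblePotential Φ) (hε : 0 < ε) (hX : BWorld Φ ε b 0 X)
    (hs : BirthSep b X ε) (hG : ∀ k ∈ G, b k ≤ 0)
    (hex : ∀ j ∈ G, ∀ k ∈ G, j ≠ k → ε < dist (X 0 j).1 (X 0 k).1) (t : ℝ) :
    GWorld Φ ε t X (fun s j k => s ∈ Icc 0 t ∧ CtB b X ε s j k) G where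
  closed j k := isClosed_ctB_Icc (fun i => (hX.cont_pos i).mono Icc_subset_Ici_self) hs j k
  symm _ _ _ h := ⟨h.1, h.2.symm⟩
  ct s hs j hj k hk :=
    ⟨fun h => (ctB_iff_dist (hG j hj) (hG k hk) (hex j hj k hk) hs.1).1 h.2,
      fun h => ⟨hs, (ctB_iff_dist (hG j hj) (hG k hk) (hex j hj k hk) hs.1).2 h⟩⟩
  dom s hs ι _ e he := dom_of_bworld hX hG hs.1 e he
  iso ι _ e he a b' ha hab hb' hno s hs :=
    hX.iso_flow hΦ hε e ha hab (fun i => (hG _ (he ⟨i, rfl⟩)).trans ha)
      (fun r hr j x hx hc => hno r hr j x hx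
        ⟨⟨ha.trans hr.1.le, hr.2.le.trans hb'⟩, hc⟩) s hs

omit [Fintype κ] in
/-- The past is the same for both contact relations. -/
theorem past_Icc_iff {C : ℝ → κ → κ → Prop} {u s : ℝ} {i k : κ} (hu : u ≤ t) (hs : 0 ≤ s) :
    Past (fun s j k => s ∈ Icc 0 t ∧ C s j k) u i s k ↔ Past C u i s k := by
  constructor
  · exact fun h => h.mono_rel fun _ _ _ h' => h'.2
  · intro h
    induction h with
    | root h => exact .root h
    | @step s₁ s₂ j k h1 hc h2 ih =>
      exact .step (ih (hs.trans h2)) ⟨⟨hs.trans h2, h1.le.trans hu⟩, hc⟩ h2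

end births

end Crest.Agent.R122.Chain726

end
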