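import Crest.Agent.R122.ChainEnd_726
import Crest.Agent.R122.GWorldInst_968
import Crest.Agent.R122.InEq2Defs_311

/-!
# Release chains (row 122, D5, helper726): the history of a real cluster is a collision tree or bad

`HistTree`: the history of a labelled family `e` in a world is a collision tree.
`det`: in a world `GWorld`, for an exploration of gas particles only, the history is a tree or the
configuration at time `0` of the cluster is bad (`BadCh`).
`det_past`, `det_pre`: the closed past and the past at `u⁻`; `det_pth`, `det_pth_pre`: the isolated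
Newton world (`HTreeC`, `HTreeP` of helper311).
-/

set_option autoImplicit false
set_option linter.unusedSectionVars false

open Set Filter Topology
open Crest.AnalysisR.Kinetic
open scoped Classical

noncomputable section

namespace Crest.Agent.R122.Chain726

open Kin796 Kin796.CTree Disc416 Tree674 Flow671 Loc45 Causal291 PathFlow968 Surj968 Graft968
open InEq2 (topIn topOut)

variable {Φ : Space3 → ℝ} {ε T te t u : ℝ}

/-- **The history (activity `P`) up to time `u` of the labelled family `g` in the world `X` is the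
collision tree `(Q, ℓ, p)`** (valid and separated at the horizon `T`), cut at `u`. -/
structure HistTree (Φ : Space3 → ℝ) (ε T u : ℝ) {κ : Type} (X : ℝ → κ → PhasePoint)
    (P : ℝ → κ → Prop) (i : κ) (Q : CTree) (ℓ : PhasePoint) (p : Par Q) (g : Idx Q → κ) :
    Prop where
  valid : Valid Φ ε Q T ℓ.2 p
  sep : Sep Φ ε Q T ℓ p
  root : g (root Q) = i
  inj : Function.Injective g
  top : topIn Φ ε Q ℓ.2 p ≤ u
  lines : ∀ x, X 0 (g x) = Tree674.lines Φ ε Q ℓ p x
  agree : ∀ x s, 0 ≤ s → s ≤ u → s ≤ prot Q T p x → X s (g x) = path Φ ε Q ℓ p s x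
  past : ∀ s, 0 ≤ s → s < u → ∀ k, P s k ↔ ∃ x, g x = k ∧ s ≤ prot Q T p x
  last : ∀ k, (∀ s, s < u → P s k) ↔ ∃ x, g x = k ∧ u ≤ prot Q T p x

/-- the entrance time of the top node is not after `u`, if the active particles are connected at
time `u` -/
theorem topIn_le (hε : 0 < ε) {Q : CTree} {ℓ : PhasePoint} {p : Par Q}
    (hv : Valid Φ ε Q T ℓ.2 p) (hs : Sep Φ ε Q T ℓ p) (hu : 0 ≤ u)
    (hconn : ∀ x, u ≤ prot Q T p x → Relation.ReflTransGen (fun a b =>
      dist (path Φ ε Q ℓ p u a).1 (path Φ ε Q ℓ p u b).1 ≤ ε) (root Q) x) :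
    topIn Φ ε Q ℓ.2 p ≤ u := by
  match Q, p, hv, hs, hconn with
  | leaf, _, _, _, _ => exact hu
  | node l r, p, hv, hs, hconn =>
    by_contra hlt
    have hlt : u < Tree674.sin Φ ε ℓ.2 p.1 := not_le.1 hlt
    have hsT : Tree674.sin Φ ε ℓ.2 p.1 < T := Valid.sin_lt hε.le hv
    have hpr : u ≤ prot (node l r) T p (Sum.inr (root r)) := by
      show u ≤ prot r p.1.1 p.2.2 (root r)
      rw [Final973.prot_root]
      exact hlt.le.trans (sin_le hε.le _ _)
    have h1 := hconn (Sum.inr (root r)) hpr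
    have key : ∀ x, Relation.ReflTransGen (fun a b =>
        dist (path Φ ε (node l r) ℓ p u a).1 (path Φ ε (node l r) ℓ p u b).1 ≤ ε)
        (root (node l r)) x → ∃ y, x = Sum.inl y := by
      intro x hx
      induction hx with
      | refl => exact ⟨root l, rfl⟩
      | @tail b c _ hbc ih =>
        obtain ⟨y, rfl⟩ := ih
        rcases c with c | c
        · exact ⟨c, rfl⟩
        · exfalso
          refine absurd hbc (not_le.2 (hs (Sum.inl y) (Sum.inr c) (fun h' => by cases h') u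
            ⟨hu, (hlt.trans hsT).le⟩ ?_ inWindow_inr_inl))
          rw [inWindow_inl_inr]
          rintro ⟨-, -, h2, -⟩
          exact absurd h2 (not_le.2 hlt)
    obtain ⟨y, hy⟩ := key _ h1
    cases hy

section det

variable {κ : Type} [Fintype κ] {X : ℝ → κ → PhasePoint} {C : ℝ → κ → κ → Prop} {G : Set κ}
  {P : ℝ → κ → Prop} {ι : Type} [Fintype ι] {e : ι ↪ κ} {i : ι}

/-- **The history of a real cluster is a collision tree, or the cluster is bad**, for a general
notion `B` of badness. -/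
theorem det_gen (hΦ : AdmissiblePotential Φ) (hε : 0 < ε) (hw : GWorld Φ ε t X C G)
    (hP : Activity C u P) (hu : u ∈ Icc 0 te) (hut : u ≤ t) (hteT : te < T)
    (heG : range e ⊆ G) (hV : ∀ k, P 0 k ↔ k ∈ range e)
    (h0 : ∀ k, (∀ s, s < u → P s k) → P 0 k) (hi : ∀ s, s < u → P s (e i))
    (hconn : ∀ k, (∀ s, s < u → P s k) → Relation.ReflTransGen
      (fun a b => C u a b ∧ ∀ s, s < u → P s b) (e i) k)
    (B : (A : Finset ι) → (A → PhasePoint) → Prop)
    (hB1 : ∀ s ∈ Icc 0 T, ∀ (A A' : Finset ι) (W : A → PhasePoint) (W' : A' → PhasePoint),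
      Step Φ ε s W W' → B A' W' → B A W)
    (hB2 : ∀ τ : ι → ℝ, τ i = T → ∀ s ∈ Icc 0 u, ∀ (A A' : Finset ι) (W : A → PhasePoint),
      Step Φ ε s W (pull Φ ε (fun s k => X s (e k)) A' s) →
      GoodX Φ ε T u τ (fun s k => X s (e k)) i A' s →
      BadAt Φ ε T i s W (pull Φ ε (fun s k => X s (e k)) A' s) → B A W)
    (hB3 : ∀ A : Finset ι, i ∈ A →
      (A.card = 2 ∧ BadStep Φ ε T i (pull Φ ε (fun s k => X s (e k)) A u)) ∨
        TermBad Φ ε T te i (pull Φ ε (fun s k => X s (e k)) A u) →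
      B A (pull Φ ε (fun s k => X s (e k)) A u)) :
    (∃ (Q : CTree) (f : Idx Q ≃ ι) (ℓ : PhasePoint) (p : Par Q),
      HistTree Φ ε T u X P (e i) Q ℓ p (fun x => e (f x))) ∨
    B Finset.univ (grp Finset.univ fun k => X 0 (e k)) := by
  have huI : u ∈ Icc 0 t := ⟨hu.1, hut⟩
  set A : Finset ι := Finset.univ.filter fun k => ∀ s, s < u → P s (e k) with hA
  have hAm : ∀ k, k ∈ A ↔ ∀ s, s < u → P s (e k) := fun k => by simp [hA]
  have hiA : i ∈ A := (hAm i).2 hi
  set X' : ℝ → ι → PhasePoint := fun s k => X s (e k) with hX'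
  -- release times
  have hσ : ∀ k : ι, ∃ σ : ℝ, k ∉ A → 0 ≤ σ ∧ σ < u ∧
      ∀ s, 0 ≤ s → s < u → (P s (e k) ↔ s ≤ σ) := by
    intro k
    by_cases hk : k ∈ A
    · exact ⟨0, fun h => absurd hk h⟩
    · obtain ⟨σ, h1⟩ := exists_sigma hP ((hV _).2 ⟨k, rfl⟩) (fun h => hk ((hAm k).2 h))
      exact ⟨σ, fun _ => h1⟩
  choose σ hσ using hσ
  -- the terminal group
  have hdomA : grp A (X' u) ∈ Dom Φ A := by
    refine hw.dom u huI A ((Function.Embedding.subtype (· ∈ A)).trans e) ?_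
    rintro _ ⟨k, rfl⟩
    exact heG ⟨k, rfl⟩
  have hconnA : ∀ k : A, Relation.ReflTransGen (fun a b => dst (grp A (X' u)) a b ≤ ε)
      ⟨i, hiA⟩ k := by
    intro k
    have key : ∀ x, Relation.ReflTransGen
        (fun a b => C u a b ∧ ∀ s, s < u → P s b) (e i) x → ∃ (y : ι) (hy : y ∈ A), e y = x ∧
        Relation.ReflTransGen (fun a b => dst (grp A (X' u)) a b ≤ ε) ⟨i, hiA⟩ ⟨y, hy⟩ := by
      intro x hx
      induction hx with
      | refl => exact ⟨i, hiA, rfl, .refl⟩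
      | @tail b c _ hbc ih =>
        obtain ⟨y, hy, rfl, hR⟩ := ih
        obtain ⟨z, rfl⟩ := (hV c).1 (h0 c hbc.2)
        refine ⟨z, (hAm z).2 hbc.2, rfl, hR.tail ?_⟩
        exact (hw.ct u huI _ (heG ⟨y, rfl⟩) _ (heG ⟨z, rfl⟩)).1 hbc.1
    obtain ⟨y, hy, hyk, hR⟩ := key (e k) (hconn _ ((hAm k).1 k.2))
    have h1 : (⟨y, hy⟩ : A) = k := Subtype.ext (e.injective hyk)
    rwa [h1] at hR
  obtain ⟨τA, hτA1, hτA2, hterm'⟩ := terminal_at (T := T) (te := te) hΦ hε hu hteT hiA hdomA hconnA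
  have hterm : ∀ τ : ι → ℝ, (∀ k ∈ A, τ k = τA k) →
      GoodX Φ ε T u τ X' i A u ∨ B A (pull Φ ε X' A u) := fun τ hτ =>
    (hterm' τ hτ).imp id (hB3 A hiA)
  set τ : ι → ℝ := fun k => if k ∈ A then τA k else σ k with hτ
  have hτin : ∀ k ∈ A, τ k = τA k := fun k hk => if_pos hk
  have hτout : ∀ k, k ∉ A → τ k = σ k := fun k hk => if_neg hk
  have hτu : ∀ k, k ∈ A ↔ u ≤ τ k := by
    intro k
    constructor
    · intro hk
      rw [hτin k hk]
      exact hτA1 k
    · intro hk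
      by_contra hkA
      rw [hτout k hkA] at hk
      linarith [(hσ k hkA).2.1]
  have hτ0 : ∀ k, 0 ≤ τ k := by
    intro k
    by_cases hk : k ∈ A
    · exact hu.1.trans ((hτu k).1 hk)
    · rw [hτout k hk]
      exact (hσ k hk).1
  have hτP : ∀ k s, 0 ≤ s → s < u → (P s (e k) ↔ s ≤ τ k) := by
    intro k s hs0 hsu
    by_cases hk : k ∈ A
    · exact ⟨fun _ => hsu.le.trans ((hτu k).1 hk), fun _ => (hAm k).1 hk s hsu⟩
    · rw [hτout k hk]
      exact (hσ k hk).2.2 s hs0 hsu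
  have hhist : RHist Φ ε u τ X' := rhist hw hP hut heG (fun k hk => (hV k).1 hk) hτ0 hτP
  have huT : u < T := hu.2.trans_lt hteT
  have hτi : τ i = T := (hτin i hiA).trans hτA2
  have hmain : GoodX Φ ε T u τ X' i Finset.univ 0 ∨
      B Finset.univ (pull Φ ε X' Finset.univ 0) := by
    rcases eq_or_lt_of_le hu.1 with h1 | h1
    · have hAu : A = Finset.univ := by
        ext k
        simp only [Finset.mem_univ, iff_true]
        rw [hAm]
        intro s hs
        exact hP.anti s 0 _ (by linarith) ((hV _).2 ⟨k, rfl⟩)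
      have h2 := hterm τ hτin
      rw [hAu] at h2
      subst h1
      exact h2
    · refine good_or_gen hΦ hε hhist huT.le hτi B hB1 (hB2 τ hτi) (fun A₁ hA₁ => ?_) _
        Finset.univ 0 le_rfl le_rfl h1
        ⟨fun k _ => hτ0 k, fun k _ => Finset.mem_univ k, fun _ _ b _ _ _ => Finset.mem_univ b⟩
      have hBA : A₁ = A := by
        ext k
        rw [hA₁, hτu]
      subst hBA
      exact hterm τ hτin
  have hpull : pull Φ ε X' Finset.univ 0 = grp Finset.univ (fun k => X 0 (e k)) := by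
    unfold pull
    rw [neg_zero, flow_zero hΦ hε]
  rcases hmain with hG | hB
  swap
  · right
    rw [← hpull]
    exact hB
  left
  obtain ⟨hi', Q, f, ℓ, p, hg, -, hpath⟩ := hG
  set f' : Idx Q ≃ ι := f.trans (Equiv.subtypeUnivEquiv fun k => Finset.mem_univ k) with hf'
  have hff : ∀ x, f' x = (f x : ι) := fun x => rfl
  have hrel : ∀ x, τ (f' x) = prot Q T p x := fun x => hg.rel x
  have hagree : ∀ x s, 0 ≤ s → s ≤ u → s ≤ prot Q T p x →
      X s (e (f' x)) = path Φ ε Q ℓ p s x := by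
    intro x s hs0 hsu hsp
    have h1 := hpath (f x) s ⟨hs0, hsu⟩ (by rw [← hff, hrel]; exact hsp)
    rw [Equiv.symm_apply_apply] at h1
    exact h1
  have hlast : ∀ k, (∀ s, s < u → P s k) ↔ ∃ x, e (f' x) = k ∧ u ≤ prot Q T p x := by
    intro k
    constructor
    · intro hk
      obtain ⟨y, rfl⟩ := (hV k).1 (h0 k hk)
      refine ⟨f'.symm y, by rw [Equiv.apply_symm_apply], ?_⟩
      rw [← hrel, Equiv.apply_symm_apply]
      exact (hτu y).1 ((hAm y).2 hk)
    · rintro ⟨x, rfl, hx⟩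
      rw [← hrel] at hx
      exact (hAm _).1 ((hτu _).2 hx)
  refine ⟨Q, f', ℓ, p, hg.valid, hg.sep, ?_, fun a b hab => f'.injective (e.injective hab), ?_,
    ?_, hagree, ?_, hlast⟩
  · show e (f (root Q) : ι) = e i
    rw [hg.root]
  · -- the top node
    refine topIn_le hε hg.valid hg.sep hu.1 fun x hx => ?_
    have h1 : f' x ∈ A := (hτu _).2 (by rw [hrel]; exact hx)
    have h2 := hconnA ⟨f' x, h1⟩
    have key : ∀ k : A, Relation.ReflTransGen (fun a b => dst (grp A (X' u)) a b ≤ ε)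
        ⟨i, hiA⟩ k → Relation.ReflTransGen (fun a b =>
          dist (path Φ ε Q ℓ p u a).1 (path Φ ε Q ℓ p u b).1 ≤ ε) (root Q) (f'.symm k) := by
      intro k hk
      induction hk with
      | refl =>
        have h3 : f'.symm i = root Q := by
          rw [Equiv.symm_apply_eq, hff, hg.root]
        show Relation.ReflTransGen _ (root Q) (f'.symm i)
        rw [h3]
      | @tail b c _ hbc ih =>
        refine ih.tail ?_
        have h3 : ∀ b : A, path Φ ε Q ℓ p u (f'.symm b) = X' u b := by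
          intro b
          have h4 := hagree (f'.symm b) u hu.1 le_rfl (by
            rw [← hrel, Equiv.apply_symm_apply]
            exact (hτu _).1 b.2)
          rw [Equiv.apply_symm_apply] at h4
          exact h4.symm
        rw [h3, h3]
        exact hbc
    have h4 := key _ h2
    simp only [Equiv.symm_apply_apply] at h4
    exact h4
  · intro x
    have h1 := hagree x 0 le_rfl hu.1 (PathFlow968.prot_nonneg hε.le Q (hu.1.trans huT.le) ℓ.2 p
      hg.valid.2 x)
    rw [PathFlow968.path_zero Q T ℓ p hg.valid.2] at h1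
    exact h1
  · intro s hs0 hsu k
    constructor
    · intro hk
      obtain ⟨y, rfl⟩ := (hV k).1 (hP.anti 0 s k hs0 hk)
      refine ⟨f'.symm y, by rw [Equiv.apply_symm_apply], ?_⟩
      rw [← hrel, Equiv.apply_symm_apply]
      exact (hτP y s hs0 hsu).1 hk
    · rintro ⟨x, rfl, hx⟩
      rw [← hrel] at hx
      exact (hτP _ s hs0 hsu).2 hx

/-- **The history of a real cluster is a collision tree, or the cluster is bad.** -/
theorem det (hΦ : AdmissiblePotential Φ) (hε : 0 < ε) (hw : GWorld Φ ε t X C G)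
    (hP : Activity C u P) (hu : u ∈ Icc 0 te) (hut : u ≤ t) (hteT : te < T)
    (heG : range e ⊆ G) (hV : ∀ k, P 0 k ↔ k ∈ range e)
    (h0 : ∀ k, (∀ s, s < u → P s k) → P 0 k) (hi : ∀ s, s < u → P s (e i))
    (hconn : ∀ k, (∀ s, s < u → P s k) → Relation.ReflTransGen
      (fun a b => C u a b ∧ ∀ s, s < u → P s b) (e i) k) :
    (∃ (Q : CTree) (f : Idx Q ≃ ι) (ℓ : PhasePoint) (p : Par Q),
      HistTree Φ ε T u X P (e i) Q ℓ p (fun x => e (f x))) ∨
    BadCh Φ ε T te (fun k => X 0 (e k)) i := by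
  refine det_gen hΦ hε hw hP hu hut hteT heG hV h0 hi hconn (fun A W => BadGrp Φ ε T te i A W)
    (fun _ hs _ _ _ _ hst hB => BadGrp.of_chain (Chain.single hs hst) hB)
    (fun _ _ s hs _ _ _ hst _ hb => BadGrp.of_step
      ⟨s, ⟨hs.1, hs.2.trans (hu.2.trans hteT.le)⟩, _, _, hst, hb⟩) (fun A _ h => ?_)
  rcases h with h | h
  · exact BadGrp.of_step h.2
  · exact BadGrp.of_term h

/-- **Closed past.** -/
theorem det_past (hΦ : AdmissiblePotential Φ) (hε : 0 < ε) (hw : GWorld Φ ε t X C G)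
    (hu : u ∈ Icc 0 te) (hut : u ≤ t) (hteT : te < T) (heG : range e ⊆ G)
    (hV : ∀ k, Past C u (e i) 0 k ↔ k ∈ range e) :
    (∃ (Q : CTree) (f : Idx Q ≃ ι) (ℓ : PhasePoint) (p : Par Q),
      HistTree Φ ε T u X (fun s k => Past C u (e i) s k) (e i) Q ℓ p (fun x => e (f x))) ∨
    BadCh Φ ε T te (fun k => X 0 (e k)) i := by
  refine det hΦ hε hw (activity_past hw.closed (e i) u) hu hut hteT heG hV (fun k hk => ?_)
    (fun s hs => .root hs.le) (fun k hk => term_past hw.closed hk)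
  exact (mem_of_left (S := {s | Past C u (e i) s k}) (isClosed_past hw.closed k) hk).mono hu.1

/-- **Past at `u⁻`.** -/
theorem det_pre (hΦ : AdmissiblePotential Φ) (hε : 0 < ε) (hw : GWorld Φ ε t X C G)
    (hu : u ∈ Ioc 0 te) (hut : u ≤ t) (hteT : te < T) (heG : range e ⊆ G)
    (hV : ∀ k, k ∈ Inf879.pre C (e i) u 0 ↔ k ∈ range e) :
    (∃ (Q : CTree) (f : Idx Q ≃ ι) (ℓ : PhasePoint) (p : Par Q),
      HistTree Φ ε T u X (fun s k => k ∈ Inf879.pre C (e i) u s) (e i) Q ℓ p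
        (fun x => e (f x))) ∨
    BadCh Φ ε T te (fun k => X 0 (e k)) i := by
  refine det hΦ hε hw (activity_pre hw.closed (e i) u) ⟨hu.1.le, hu.2⟩ hut hteT heG hV
    (fun k hk => hk 0 hu.1) (fun s hs => ?_) (fun k hk => term_pre hw.closed hk)
  obtain ⟨r, hr1, hr2⟩ := exists_between hs
  exact ⟨r, ⟨hr1.le, hr2⟩, .root hr1.le⟩

/-- In the version at `u⁻`, the entrance time of the top node is before `u`. -/
theorem HistTree.top_lt (hε : 0 < ε) (hw : GWorld Φ ε t X C G) (hu : 0 < u) (hut : u ≤ t)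
    {k₀ : κ} {Q : CTree} {ℓ : PhasePoint} {p : Par Q} {g : Idx Q → κ} (hG : range g ⊆ G)
    (h : HistTree Φ ε T u X (fun s k => k ∈ Inf879.pre C k₀ u s) k₀ Q ℓ p g) :
    topIn Φ ε Q ℓ.2 p < u := by
  match Q, p, g, hG, h with
  | leaf, _, _, _, _ => exact hu
  | node l r, p, g, hG, h =>
    by_contra hlt
    have hlt : u ≤ Tree674.sin Φ ε ℓ.2 p.1 := not_lt.1 hlt
    have hsT : Tree674.sin Φ ε ℓ.2 p.1 < T := Valid.sin_lt hε.le h.valid
    have hpr : u ≤ prot (node l r) T p (Sum.inr (Tree674.root r)) := by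
      show u ≤ prot r p.1.1 p.2.2 (Tree674.root r)
      rw [Final973.prot_root]
      exact hlt.trans (sin_le hε.le _ _)
    obtain ⟨v, hv, hpast⟩ := (h.last _).2 ⟨Sum.inr (Tree674.root r), rfl, hpr⟩ 0 hu
    have key : ∀ s k, Past C v k₀ s k → 0 ≤ s → ∃ y, k = g (Sum.inl y) := by
      intro s k hk
      induction hk with
      | root _ => exact fun _ => ⟨Tree674.root l, h.root.symm⟩
      | @step s s' j k h1 hc hs ih =>
        intro hs0
        have hs'0 : 0 ≤ s' := hs0.trans hs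
        have hs'u : s' < u := h1.le.trans_lt hv.2
        obtain ⟨y, rfl⟩ := ih hs'0
        obtain ⟨y', hy', hyp⟩ := (h.past s' hs'0 hs'u _).1 ⟨v, ⟨h1.le, hv.2⟩, h1⟩
        have hyy : y' = Sum.inl y := h.inj hy'
        subst hyy
        obtain ⟨x, rfl, hx⟩ := (h.past s' hs'0 hs'u _).1 ⟨v, ⟨h1.le, hv.2⟩, h1.contact hc⟩
        rcases x with x | x
        · exact ⟨x, rfl⟩
        · exfalso
          have h2 := (hw.ct s' ⟨hs'0, hs'u.le.trans hut⟩ _ (hG ⟨_, rfl⟩) _ (hG ⟨_, rfl⟩)).1 hc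
          rw [h.agree _ s' hs'0 hs'u.le hyp, h.agree _ s' hs'0 hs'u.le hx] at h2
          refine absurd h2 (not_le.2 (h.sep (Sum.inl y) (Sum.inr x) (fun h' => by cases h') s'
            ⟨hs'0, (hs'u.le.trans hlt).trans hsT.le⟩ ?_ inWindow_inr_inl))
          rw [inWindow_inl_inr]
          rintro ⟨-, -, h3, -⟩
          exact absurd h3 (not_le.2 (hs'u.trans_le hlt))
    obtain ⟨y, hy⟩ := key 0 _ hpast le_rfl
    have := h.inj hy
    cases this

end det

/-! ### The isolated Newton world -/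

section pth

variable {κ : Type} [Fintype κ] {Z : κ → PhasePoint} {ι : Type} [Fintype ι] {e : ι ↪ κ} {i : ι}

/-- **Closed past in the Newton world** (`HTreeC`). -/
theorem det_pth (hΦ : AdmissiblePotential Φ) (hε : 0 < ε) (hZ : Z ∈ Dom Φ κ)
    (hu : u ∈ Icc 0 te) (hteT : te < T)
    (hV : ∀ k, Past (Ct (pth Φ ε Z) ε) u (e i) 0 k ↔ k ∈ range e) :
    (∃ (Q : CTree) (f : Idx Q ≃ ι) (ℓ : PhasePoint) (p : Par Q),
      InEq2.HTreeC Φ ε T u Z (e i) Q ℓ p (fun x => e (f x))) ∨
    BadCh Φ ε T te (fun k => Z (e k)) i := by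
  have hX0 : pth Φ ε Z 0 = Z := by
    show flow Φ ε 0 Z = Z
    rw [Flow671.flow_zero hΦ hε]
  have hw := gworld_pth hΦ hε hZ te
  rcases det_past (T := T) hΦ hε hw hu hu.2 hteT (subset_univ _) hV with ⟨Q, f, ℓ, p, h⟩ | h
  · refine Or.inl ⟨Q, f, ℓ, p, h.valid, h.sep, h.root, h.inj, h.top, h.agree, ?_⟩
    intro s hs k
    rcases eq_or_lt_of_le hs.2 with h1 | h1
    · subst h1
      rw [← h.last]
      exact ⟨fun h2 s' hs' => h2.mono hs'.le, fun h2 =>
        mem_of_left (S := {s' | Past (Ct (pth Φ ε Z) ε) s (e i) s' k})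
          (isClosed_past hw.closed k) h2⟩
    · exact h.past s hs.1 h1 k
  · right
    rw [hX0] at h
    exact h

/-- **Past at `u⁻` in the Newton world** (`HTreeP`). -/
theorem det_pth_pre (hΦ : AdmissiblePotential Φ) (hε : 0 < ε) (hZ : Z ∈ Dom Φ κ)
    (hu : u ∈ Ioc 0 te) (hteT : te < T)
    (hV : ∀ k, k ∈ Inf879.pre (Ct (pth Φ ε Z) ε) (e i) u 0 ↔ k ∈ range e) :
    (∃ (Q : CTree) (f : Idx Q ≃ ι) (ℓ : PhasePoint) (p : Par Q),
      InEq2.HTreeP Φ ε T u Z (e i) Q ℓ p (fun x => e (f x))) ∨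
    BadCh Φ ε T te (fun k => Z (e k)) i := by
  have hX0 : pth Φ ε Z 0 = Z := by
    show flow Φ ε 0 Z = Z
    rw [Flow671.flow_zero hΦ hε]
  have hw := gworld_pth hΦ hε hZ te
  rcases det_pre (T := T) hΦ hε hw hu hu.2 hteT (subset_univ _) hV with ⟨Q, f, ℓ, p, h⟩ | h
  · exact Or.inl ⟨Q, f, ℓ, p, h.valid, h.sep, h.root, h.inj,
      h.top_lt hε hw hu.1 hu.2 (subset_univ _), fun k s h1 h2 => h.agree k s h1 h2.le, h.past⟩
  · right
    rw [hX0] at h
    exact h

end pth

end Crest.Agent.R122.Chain726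

end
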