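import Crest.Agent.R122.ChainDefs_726

/-!
# Release chains (row 122, D5, helper726): tapered histories and their release steps

`RHist Φ ε u τ X`: on `[0, u]` the particle `k` is active up to its release time `τ k`; between
releases the active group moves by its isolated flow; a released family is contact-connected to the
remaining group at the release time, and separated from it right afterwards.
-/

set_option autoImplicit false
set_option linter.unusedSectionVars false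

open Set Filter Topology
open Crest.AnalysisR.Kinetic
open scoped Classical

noncomputable section

namespace Crest.Agent.R122.Chain726

open Flow671 Loc45 Causal291

/-- the states of the group `A` -/
def grp {ι : Type*} (A : Finset ι) (Z : ι → PhasePoint) : A → PhasePoint := fun k => Z k

@[simp] theorem grp_apply {ι : Type*} (A : Finset ι) (Z : ι → PhasePoint) (k : A) :
    grp A Z k = Z k := rfl

theorem rs_grp {ι : Type*} {A A' : Finset ι} (h : A' ⊆ A) (Z : ι → PhasePoint) :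
    rs h (grp A Z) = grp A' Z := rfl

/-- **Tapered history** on `[0, u]` with release times `τ`. -/
structure RHist (Φ : Space3 → ℝ) (ε u : ℝ) {ι : Type} [Fintype ι] (τ : ι → ℝ)
    (X : ℝ → ι → PhasePoint) : Prop where
  dom : ∀ s ∈ Icc 0 u, ∀ A : Finset ι, grp A (X s) ∈ Dom Φ A
  nonneg : ∀ k, 0 ≤ τ k
  /-- between releases the active group moves by its own flow -/
  move : ∀ a b, 0 ≤ a → a < b → b ≤ u → (∀ k, τ k ≤ a ∨ b ≤ τ k) → ∀ A : Finset ι,
    (∀ k, k ∈ A ↔ b ≤ τ k) → ∀ s ∈ Icc a b,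
      grp A (X s) = flow Φ ε (s - a) (grp A (X a))
  /-- the group which is active at a release time moves by its own flow for a short time -/
  loc : ∀ s, 0 ≤ s → s < u → (∃ k, τ k = s) → ∃ h > 0, ∀ A : Finset ι, (∀ k, k ∈ A ↔ s ≤ τ k) →
    ∀ s' ∈ Icc s (s + h), grp A (X s') = flow Φ ε (s' - s) (grp A (X s))
  /-- released particles are separated from the remaining ones after the release time -/
  sep : ∀ j k, τ j < u → τ j < τ k → ∀ᶠ s in 𝓝[>] (τ j), ε < dist (X s j).1 (X s k).1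
  /-- released particles are contact-connected to the remaining group -/
  conn : ∀ j, τ j < u → ∃ j', τ j' = τ j ∧
    (∃ m, τ j < τ m ∧ dist (X (τ j) j').1 (X (τ j) m).1 ≤ ε) ∧
    Relation.ReflTransGen (fun a b => τ b = τ j ∧ dist (X (τ j) a).1 (X (τ j) b).1 ≤ ε) j' j

section

variable {Φ : Space3 → ℝ} {ε u : ℝ} {ι : Type} [Fintype ι] {τ : ι → ℝ} {X : ℝ → ι → PhasePoint}

/-- embedding of a sub-family -/
def emb {A A' : Finset ι} (h : A' ⊆ A) : A' ↪ A :=
  ⟨fun k => ⟨k, h k.2⟩, fun a b hab => Subtype.ext (Subtype.mk.inj hab)⟩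

/-- An isolated sub-family of a group moves by its own flow. -/
theorem flow_rs (hΦ : AdmissiblePotential Φ) (hε : 0 < ε) {A A' : Finset ι} (h : A' ⊆ A)
    {Z : A → PhasePoint} (hZ : Z ∈ Dom Φ A) {a b t₀ : ℝ} (h0 : t₀ ∈ Icc a b)
    (hfar : ∀ t ∈ Icc a b, ∀ j k : A, (j : ι) ∈ A' → (k : ι) ∉ A' → ε ≤ dst (flow Φ ε t Z) j k)
    {t : ℝ} (ht : t ∈ Icc a b) :
    rs h (flow Φ ε t Z) = flow Φ ε (t - t₀) (rs h (flow Φ ε t₀ Z)) := by
  refine flow_comp hΦ hε (emb h) hZ h0 (fun t ht b k hk => ?_) ht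
  refine hfar t ht _ k b.2 fun hk' => hk ⟨⟨k, hk'⟩, ?_⟩
  exact Subtype.ext rfl

/-- The stage of a chain: the group `A` at time `s`, some of the particles with release time `s`
are already released. -/
structure Stage (ε : ℝ) (τ : ι → ℝ) (X : ℝ → ι → PhasePoint) (A : Finset ι) (s : ℝ) : Prop where
  le : ∀ k ∈ A, s ≤ τ k
  mem : ∀ k, s < τ k → k ∈ A
  cl : ∀ a ∈ A, ∀ b, τ a = s → τ b = s → dist (X s a).1 (X s b).1 ≤ ε → b ∈ A

/-- the time-`0` pull-back of the group `A` at time `s` -/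
def pull (Φ : Space3 → ℝ) (ε : ℝ) (X : ℝ → ι → PhasePoint) (A : Finset ι) (s : ℝ) :
    A → PhasePoint := flow Φ ε (-s) (grp A (X s))

theorem flow_pull (hΦ : AdmissiblePotential Φ) (hε : 0 < ε) (A : Finset ι) (s : ℝ) :
    flow Φ ε s (pull Φ ε X A s) = grp A (X s) := flow_flow_neg hΦ hε s _

theorem flow_pull' (hΦ : AdmissiblePotential Φ) (hε : 0 < ε) (A : Finset ι) (s t : ℝ) :
    flow Φ ε t (pull Φ ε X A s) = flow Φ ε (t - s) (grp A (X s)) := by
  rw [← flow_pull (X := X) hΦ hε A s, ← flow_add hΦ hε]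
  congr 1
  ring

/-- the component of `j₀` among the particles with release time `s` -/
def comp (ε : ℝ) (τ : ι → ℝ) (X : ℝ → ι → PhasePoint) (s : ℝ) (j₀ : ι) : Finset ι :=
  Finset.univ.filter fun k => Relation.ReflTransGen
    (fun a b => τ b = s ∧ dist (X s a).1 (X s b).1 ≤ ε) j₀ k

theorem mem_comp {s : ℝ} {j₀ k : ι} : k ∈ comp ε τ X s j₀ ↔ Relation.ReflTransGen
    (fun a b => τ b = s ∧ dist (X s a).1 (X s b).1 ≤ ε) j₀ k := by
  simp [comp]

theorem comp_tau {s : ℝ} {j₀ k : ι} (hj : τ j₀ = s) (hk : k ∈ comp ε τ X s j₀) : τ k = s := by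
  rw [mem_comp] at hk
  induction hk with
  | refl => exact hj
  | tail _ h _ => exact h.1

theorem comp_symm {s : ℝ} {j₀ k : ι} (hj : τ j₀ = s)
    (hk : Relation.ReflTransGen (fun a b => τ b = s ∧ dist (X s a).1 (X s b).1 ≤ ε) j₀ k) :
    Relation.ReflTransGen (fun a b => τ b = s ∧ dist (X s a).1 (X s b).1 ≤ ε) k j₀ := by
  induction hk with
  | refl => exact .refl
  | @tail b c hb h ih =>
    have hb' : τ b = s := by
      rcases Relation.ReflTransGen.cases_tail_iff _ _ _ |>.1 hb with h1 | ⟨d, _, h1⟩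
      · rw [h1]; exact hj
      · exact h1.1
    exact .head ⟨hb', by rw [dist_comm]; exact h.2⟩ ih

theorem Stage.comp_sub {A : Finset ι} {s : ℝ} (hA : Stage ε τ X A s) {j₀ : ι} (hj : j₀ ∈ A)
    (hj' : τ j₀ = s) : comp ε τ X s j₀ ⊆ A := by
  intro k hk
  rw [mem_comp] at hk
  have : k ∈ A ∧ τ k = s := by
    induction hk with
    | refl => exact ⟨hj, hj'⟩
    | tail _ h ih => exact ⟨hA.cl _ ih.1 _ ih.2 h.1 h.2, h.1⟩
  exact this.1

/-- Releasing a component leads to a stage. -/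
theorem Stage.sdiff {A : Finset ι} {s : ℝ} (hA : Stage ε τ X A s) {j₀ : ι}
    (hj' : τ j₀ = s) : Stage ε τ X (A \ comp ε τ X s j₀) s where
  le k hk := hA.le k (Finset.mem_sdiff.1 hk).1
  mem k hk := Finset.mem_sdiff.2 ⟨hA.mem k hk, fun h => hk.ne' (comp_tau hj' h)⟩
  cl a ha b hta htb hd := by
    rw [Finset.mem_sdiff] at ha ⊢
    refine ⟨hA.cl a ha.1 b hta htb hd, fun hb => ha.2 ?_⟩
    rw [mem_comp] at hb ⊢
    exact hb.tail ⟨hta, by rw [dist_comm]; exact hd⟩


/-! ### The release step of a component -/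

theorem RHist.tendsto_dist (h : RHist Φ ε u τ X) (hΦ : AdmissiblePotential Φ) (hε : 0 < ε) {s : ℝ}
    (hs0 : 0 ≤ s) (hsu : s < u) (hex : ∃ k, τ k = s) {j k : ι} (hj : s ≤ τ j) (hk : s ≤ τ k) :
    Tendsto (fun s' => dist (X s' j).1 (X s' k).1) (𝓝[>] s) (𝓝 (dist (X s j).1 (X s k).1)) := by
  obtain ⟨δ, hδ, hl⟩ := h.loc s hs0 hsu hex
  set A : Finset ι := Finset.univ.filter fun k => s ≤ τ k with hA
  have hmem : ∀ k, k ∈ A ↔ s ≤ τ k := fun k => by simp [hA]
  have h1 : Tendsto (fun s' => dist (flow Φ ε (s' - s) (grp A (X s)) ⟨j, (hmem j).2 hj⟩).1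
      (flow Φ ε (s' - s) (grp A (X s)) ⟨k, (hmem k).2 hk⟩).1) (𝓝 s)
      (𝓝 (dist (X s j).1 (X s k).1)) := by
    have hc : ∀ m : A, Continuous fun s' => flow Φ ε (s' - s) (grp A (X s)) m := fun m =>
      ((continuous_apply m).comp (flow_continuous_time hΦ hε (grp A (X s)))).comp
        (continuous_id.sub continuous_const)
    have h2 := ((hc ⟨j, (hmem j).2 hj⟩).fst.dist (hc ⟨k, (hmem k).2 hk⟩).fst).tendsto s
    simpa [sub_self, flow_zero hΦ hε] using h2
  refine (h1.mono_left nhdsWithin_le_nhds).congr' ?_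
  filter_upwards [Ioc_mem_nhdsGT (show s < s + δ by linarith)] with s' hs'
  have h3 := hl A hmem s' ⟨hs'.1.le, hs'.2⟩
  rw [← h3]
  rfl

/-- a pair which is separated right after `s` is at distance at least `ε` at time `s` -/
theorem RHist.le_dist (h : RHist Φ ε u τ X) (hΦ : AdmissiblePotential Φ) (hε : 0 < ε) {j k : ι}
    (hju : τ j < u) (hjk : τ j < τ k) : ε ≤ dist (X (τ j) j).1 (X (τ j) k).1 :=
  ge_of_tendsto (h.tendsto_dist hΦ hε (h.nonneg j) hju ⟨j, rfl⟩ le_rfl hjk.le)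
    ((h.sep j k hju hjk).mono fun _ h' => h'.le)

theorem RHist.step (h : RHist Φ ε u τ X) (hΦ : AdmissiblePotential Φ) (hε : 0 < ε) {A : Finset ι}
    {s : ℝ} (hsu : s < u) (hA : Stage ε τ X A s) {j₀ : ι} (hj₀ : j₀ ∈ A) (hτ : τ j₀ = s) :
    Step Φ ε s (pull Φ ε X A s) (pull Φ ε X (A \ comp ε τ X s j₀) s) := by
  have hs0 : 0 ≤ s := hτ ▸ h.nonneg j₀
  have hex : ∃ k, τ k = s := ⟨j₀, hτ⟩
  set J : Finset ι := comp ε τ X s j₀ with hJ
  have hsI : s ∈ Icc 0 u := ⟨hs0, hsu.le⟩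
  have hJA : J ⊆ A := hA.comp_sub hj₀ hτ
  have hJτ : ∀ k ∈ J, τ k = s := fun k hk => comp_tau hτ hk
  -- the active group
  set B : Finset ι := Finset.univ.filter fun k => s ≤ τ k with hB
  have hmem : ∀ k, k ∈ B ↔ s ≤ τ k := fun k => by simp [hB]
  have hAB : A ⊆ B := fun k hk => (hmem k).2 (hA.le k hk)
  have hmem' : ∀ k, k ∉ A \ J → k ∈ A → k ∈ J := fun k hk hkA => by
    by_contra hkJ
    exact hk (Finset.mem_sdiff.2 ⟨hkA, hkJ⟩)
  -- separation facts right after `s`
  have hsepB : ∀ a ∈ A, ∀ b ∈ B, b ∉ A → ε ≤ dist (X s a).1 (X s b).1 ∧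
      ∀ᶠ s' in 𝓝[>] s, ε < dist (X s' a).1 (X s' b).1 := by
    intro a ha b hb hbA
    have hbs : τ b = s := by
      rcases eq_or_lt_of_le ((hmem b).1 hb) with h1 | h1
      · exact h1.symm
      · exact absurd (hA.mem b h1) hbA
    rcases eq_or_lt_of_le (hA.le a ha) with h1 | h1
    · have h2 : ε < dist (X s a).1 (X s b).1 := by
        by_contra hle
        exact hbA (hA.cl a ha b h1.symm hbs (not_lt.1 hle))
      exact ⟨h2.le, (h.tendsto_dist hΦ hε hs0 hsu hex h1.le hbs.ge).eventually (lt_mem_nhds h2)⟩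
    · subst hbs
      constructor
      · rw [dist_comm]
        exact h.le_dist hΦ hε hsu h1
      · filter_upwards [h.sep b a hsu h1] with s' hs'
        rwa [dist_comm]
  have hsepJ : ∀ j ∈ J, ∀ k ∈ A, k ∉ J → ∀ᶠ s' in 𝓝[>] s, ε < dist (X s' j).1 (X s' k).1 := by
    intro j hj k hk hkJ
    have hjs := hJτ j hj
    rcases eq_or_lt_of_le (hA.le k hk) with h1 | h1
    · have h2 : ε < dist (X s j).1 (X s k).1 := by
        by_contra hle
        exact hkJ (mem_comp.2 ((mem_comp.1 hj).tail ⟨h1.symm, not_lt.1 hle⟩))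
      exact (h.tendsto_dist hΦ hε hs0 hsu hex hjs.ge h1.le).eventually (lt_mem_nhds h2)
    · rw [← hjs] at h1 ⊢
      exact h.sep j k (hjs ▸ hsu) h1
  refine ⟨?_, Finset.sdiff_subset, ?_, ?_, ?_⟩
  · unfold pull
    rw [flow_mem_iff hΦ hε]
    exact h.dom s hsI A
  · -- touch
    obtain ⟨j', hj't, ⟨m, hm, hjm⟩, hchain⟩ := h.conn j₀ (hτ ▸ hsu)
    rw [hτ] at hj't hm hjm hchain
    have hj'J : j' ∈ J := mem_comp.2 (comp_symm hj't hchain)
    have hj'A : j' ∈ A := hJA hj'J
    have hmA : m ∈ A := hA.mem m hm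
    have hmJ : m ∉ J := fun h' => hm.ne' (hJτ m h')
    refine ⟨⟨j', hj'A⟩, fun h' => (Finset.mem_sdiff.1 h').2 hj'J,
      ⟨⟨m, hmA⟩, Finset.mem_sdiff.2 ⟨hmA, hmJ⟩, ?_⟩, ?_⟩
    · rw [flow_pull hΦ hε]
      refine le_antisymm hjm ?_
      have := h.le_dist hΦ hε (j := j') (k := m) (hj't ▸ hsu) (hj't ▸ hm)
      rw [hj't] at this
      exact this
    · intro k hk
      rw [flow_pull hΦ hε]
      have hkJ : (k : ι) ∈ J := hmem' k hk k.2
      have h1 : Relation.ReflTransGen (fun a b => τ b = s ∧ dist (X s a).1 (X s b).1 ≤ ε) j' k :=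
        hchain.trans (mem_comp.1 hkJ)
      have key : ∀ l, Relation.ReflTransGen
          (fun a b => τ b = s ∧ dist (X s a).1 (X s b).1 ≤ ε) j' l → ∃ hl : l ∈ A, l ∈ J ∧
          Relation.ReflTransGen (fun a b : A => (b : ι) ∉ A \ J ∧ dst (grp A (X s)) a b ≤ ε)
            ⟨j', hj'A⟩ ⟨l, hl⟩ := by
        intro l hl
        induction hl with
        | refl => exact ⟨hj'A, hj'J, .refl⟩
        | @tail b c hb hbc ih =>
          obtain ⟨hbA, hbJ, hbR⟩ := ih
          have hcJ : c ∈ J := mem_comp.2 ((mem_comp.1 hbJ).tail hbc)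
          exact ⟨hJA hcJ, hcJ, hbR.tail ⟨fun h' => (Finset.mem_sdiff.1 h').2 hcJ, hbc.2⟩⟩
      obtain ⟨hkA, _, hR⟩ := key k h1
      exact hR
  · -- separation
    obtain ⟨δ, hδ, hl⟩ := h.loc s hs0 hsu hex
    have h1 : ∀ᶠ s' in 𝓝[>] s, (∀ a ∈ A, ∀ b ∈ B, b ∉ A → ε < dist (X s' a).1 (X s' b).1) ∧
        ∀ j ∈ J, ∀ k ∈ A, k ∉ J → ε < dist (X s' j).1 (X s' k).1 := by
      refine Filter.Eventually.and ?_ ?_
      · rw [Filter.eventually_all_finset]
        intro a ha
        rw [Filter.eventually_all_finset]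
        intro b hb
        by_cases hbA : b ∈ A
        · exact Filter.Eventually.of_forall fun _ h' => absurd hbA h'
        · exact (hsepB a ha b hb hbA).2.mono fun _ h' _ => h'
      · rw [Filter.eventually_all_finset]
        intro j hj
        rw [Filter.eventually_all_finset]
        intro k hk
        by_cases hkJ : k ∈ J
        · exact Filter.Eventually.of_forall fun _ h' => absurd hkJ h'
        · exact (hsepJ j hj k hk hkJ).mono fun _ h' _ => h'
    obtain ⟨c, hc, hcs⟩ := (mem_nhdsGT_iff_exists_Ioo_subset).1 h1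
    have hcs' : s < c := hc
    refine ⟨min δ (c - s), lt_min hδ (by linarith), ?_⟩
    intro s' hs' j k hj hk
    have hs'1 : s < s' := hs'.1
    have hs'2 : s' < s + δ := hs'.2.trans_le (by linarith [min_le_left δ (c - s)])
    have hs'3 : s' < c := hs'.2.trans_le (by linarith [min_le_right δ (c - s)])
    have hgrp : flow Φ ε s' (pull Φ ε X A s) = grp A (X s') := by
      rw [flow_pull' hΦ hε]
      have h3 := flow_rs hΦ hε hAB (h.dom s hsI B) (a := 0) (b := s' - s) (t₀ := 0)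
        ⟨le_rfl, by linarith⟩ (fun t ht a b ha hb => by
          have h4 := hl B hmem (s + t) ⟨by linarith [ht.1], by linarith [ht.2]⟩
          rw [add_sub_cancel_left] at h4
          rw [← h4]
          show ε ≤ dist (X (s + t) a).1 (X (s + t) b).1
          rcases eq_or_lt_of_le ht.1 with h5 | h5
          · rw [← h5, add_zero]
            exact (hsepB a ha b b.2 hb).1
          · exact ((hcs ⟨by linarith, by linarith [ht.2]⟩ : _ ∧ _).1 a ha b b.2 hb).le)
        (t := s' - s) ⟨by linarith, le_rfl⟩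
      rw [← hl B hmem s' ⟨hs'1.le, hs'2.le⟩, rs_grp, flow_zero hΦ hε, rs_grp, sub_zero] at h3
      exact h3.symm
    rw [hgrp]
    have hkJ : (k : ι) ∉ J := (Finset.mem_sdiff.1 hk).2
    exact (hcs ⟨hs'1, hs'3⟩ : _ ∧ _).2 j (hmem' j hj j.2) k k.2 hkJ
  · rw [flow_pull hΦ hε]
    rfl

end

end Crest.Agent.R122.Chain726

end
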