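import Crest.Agent.R122.TreeLim_974
import Crest.Agent.R122.TreeMeas2_674
import Crest.Agent.R122.TreeF_399
import Crest.Agent.R122.GenericMain_491

/-!
# Row 122 (helper796), D5 (b): the measure step, preliminaries

`Aft s` (all entrance times of a tree are after `s`): then all particles are on their initial lines
at time `s`; measurability; the free transport and relabellings preserve the volume.
-/

set_option autoImplicit false
set_option synthInstance.maxSize 1024

open MeasureTheory Set Filter Topology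
open Crest.AnalysisR.Kinetic
open scoped ENNReal

noncomputable section

namespace Crest.Agent.R122.Cherry796

open Kin796 Kin796.CTree Disc416 Tree674 TreeEps399 TreeDom974 TreeLim974

variable {Φ : Space3 → ℝ}

/-! ### All entrance times after `s` -/

/-- all entrance times are after `s` -/
def Aft (Φ : Space3 → ℝ) (ε : ℝ) : ∀ P : CTree, ℝ → Space3 → Par P → Prop
  | leaf => fun _ _ _ => True
  | node l r => fun s v p => s < Tree674.sin Φ ε v p.1 ∧ Aft Φ ε l s (preV Φ v p.1).1 p.2.1 ∧
      Aft Φ ε r s (preV Φ v p.1).2 p.2.2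

theorem aft_node_iff {ε s : ℝ} {l r : CTree} {v : Space3} {p : Par (node l r)} :
    Aft Φ ε (node l r) s v p ↔ s < Tree674.sin Φ ε v p.1 ∧ Aft Φ ε l s (preV Φ v p.1).1 p.2.1 ∧
      Aft Φ ε r s (preV Φ v p.1).2 p.2.2 := Iff.rfl

/-- before all entrance times the particles are on their initial lines -/
theorem path_of_aft {ε s : ℝ} : ∀ {P : CTree} {ℓ : PhasePoint} {p : Par P}, Aft Φ ε P s ℓ.2 p →
    path Φ ε P ℓ p s = fun x => onLine (lines Φ ε P ℓ p x) s
  | leaf, _, _, _ => rfl
  | node l r, ℓ, p, h => by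
      obtain ⟨h1, h2, h3⟩ := h
      have e1 := path_of_aft (ε := ε) (s := s) (P := l) (ℓ := (inMap Φ ε ℓ p.1).1) (p := p.2.1) h2
      have e2 := path_of_aft (ε := ε) (s := s) (P := r) (ℓ := (inMap Φ ε ℓ p.1).2) (p := p.2.2) h3
      show (if s ≤ Tree674.sin Φ ε ℓ.2 p.1 then _ else _) = _
      rw [if_pos h1.le, e1, e2]
      funext x
      rcases x with x | x <;> rfl

/-- `Aft` at `ε` implies `Aft` at `0`. -/
theorem aft_zero {ε s : ℝ} (hε : 0 ≤ ε) : ∀ {P : CTree} {v : Space3} {p : Par P},
    Aft Φ ε P s v p → Aft Φ 0 P s v p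
  | leaf, _, _, _ => trivial
  | node l r, v, p, h => by
      obtain ⟨h1, h2, h3⟩ := h
      refine ⟨?_, aft_zero hε h2, aft_zero hε h3⟩
      rw [sin_zero]
      exact h1.trans_le (sin_le hε v p.1)

/-- the set `Adm ∧ Aft` is measurable, jointly in the time -/
theorem measurableSet_aft3 (hΦ : AdmissiblePotential Φ) (ε : ℝ) : ∀ P : CTree,
    MeasurableSet {q : ℝ × Space3 × Par P | Adm Φ P q.2.1 q.2.2 ∧ Aft Φ ε P q.1 q.2.1 q.2.2}
  | leaf => by
      have : {q : ℝ × Space3 × Par leaf | Adm Φ leaf q.2.1 q.2.2 ∧ Aft Φ ε leaf q.1 q.2.1 q.2.2} =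
          univ := by
        ext q; simp [Adm, Aft]
      rw [this]; exact MeasurableSet.univ
  | node l r => by
      have hv : Measurable fun q : ℝ × Space3 × Par (node l r) => q.2.1 := measurable_snd.fst
      have hp : Measurable fun q : ℝ × Space3 × Par (node l r) => q.2.2 := measurable_snd.snd
      have ha : Measurable fun q : ℝ × Space3 × Par (node l r) => q.2.2.1 :=
        (measurable_par1 l r).comp hp
      have hz : Measurable fun q : ℝ × Space3 × Par (node l r) => (q.2.1, q.2.2.1) :=
        hv.prodMk ha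
      have hs := (measurable_sM hΦ ε).comp hz
      have hpre := (measurable_preM hΦ).comp hz
      have hl := (measurable_parL l r).comp hp
      have hr := (measurable_parR l r).comp hp
      have e : {q : ℝ × Space3 × Par (node l r) | Adm Φ (node l r) q.2.1 q.2.2 ∧
            Aft Φ ε (node l r) q.1 q.2.1 q.2.2} =
          ({q | (q.2.1, q.2.2.1) ∈ NS Φ} ∩ {q | q.1 < sM Φ ε (q.2.1, q.2.2.1)}) ∩
          ((fun q => (q.1, (preM Φ (q.2.1, q.2.2.1)).1, q.2.2.2.1)) ⁻¹'
              {q : ℝ × Space3 × Par l | Adm Φ l q.2.1 q.2.2 ∧ Aft Φ ε l q.1 q.2.1 q.2.2} ∩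
           (fun q => (q.1, (preM Φ (q.2.1, q.2.2.1)).2, q.2.2.2.2)) ⁻¹'
              {q : ℝ × Space3 × Par r | Adm Φ r q.2.1 q.2.2 ∧ Aft Φ ε r q.1 q.2.1 q.2.2}) := by
        ext q
        simp only [mem_ofPred_eq, mem_inter_iff, mem_preimage]
        constructor
        · rintro ⟨⟨h2, h3, h4⟩, h5, h6, h7⟩
          have e1 : sM Φ ε (q.2.1, q.2.2.1) = _ := sM_of_adm (z := (q.2.1, q.2.2.1)) h2
          have e2 : preM Φ (q.2.1, q.2.2.1) = _ := preM_of_adm (z := (q.2.1, q.2.2.1)) h2
          rw [e1, e2]
          exact ⟨⟨h2, h5⟩, ⟨h3, h6⟩, h4, h7⟩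
        · rintro ⟨⟨h2, h3⟩, h5, h6⟩
          have h2' : Adm1 Φ q.2.1 q.2.2.1 := h2
          have e1 : sM Φ ε (q.2.1, q.2.2.1) = _ := sM_of_adm (z := (q.2.1, q.2.2.1)) h2'
          have e2 : preM Φ (q.2.1, q.2.2.1) = _ := preM_of_adm (z := (q.2.1, q.2.2.1)) h2'
          rw [e1] at h3
          rw [e2] at h5 h6
          exact ⟨⟨h2', h5.1, h6.1⟩, h3, h5.2, h6.2⟩
      rw [e]
      refine ((hz (measurableSet_NS hΦ)).inter (measurableSet_lt measurable_fst hs)).inter
        (MeasurableSet.inter ?_ ?_)
      · exact (measurable_fst.prodMk (hpre.fst.prodMk hl)) (measurableSet_aft3 hΦ ε l)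
      · exact (measurable_fst.prodMk (hpre.snd.prodMk hr)) (measurableSet_aft3 hΦ ε r)

/-- all exit times are at least `s` -/
def Exs : ∀ P : CTree, ℝ → Par P → Prop
  | leaf => fun _ _ => True
  | node l r => fun s p => s ≤ p.1.1 ∧ Exs l s p.2.1 ∧ Exs r s p.2.2

theorem measurableSet_exs : ∀ P : CTree, MeasurableSet {q : ℝ × Par P | Exs P q.1 q.2}
  | leaf => by
      have : {q : ℝ × Par leaf | Exs leaf q.1 q.2} = univ := by
        ext q; simp [Exs]
      rw [this]; exact MeasurableSet.univ
  | node l r => by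
      have hp : Measurable fun q : ℝ × Par (node l r) => q.2 := measurable_snd
      have ha := ((measurable_par1 l r).comp hp).fst
      have hl := (measurable_parL l r).comp hp
      have hr := (measurable_parR l r).comp hp
      have e : {q : ℝ × Par (node l r) | Exs (node l r) q.1 q.2} =
          {q | q.1 ≤ q.2.1.1} ∩
          ((fun q => (q.1, q.2.2.1)) ⁻¹' {q : ℝ × Par l | Exs l q.1 q.2} ∩
           (fun q => (q.1, q.2.2.2)) ⁻¹' {q : ℝ × Par r | Exs r q.1 q.2}) := rfl
      rw [e]
      exact (measurableSet_le measurable_fst ha).inter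
        (((measurable_fst.prodMk hl) (measurableSet_exs l)).inter
          ((measurable_fst.prodMk hr) (measurableSet_exs r)))

/-- `s` is the exit time of a node -/
def IsEx : ∀ P : CTree, ℝ → Par P → Prop
  | leaf => fun _ _ => False
  | node l r => fun s p => s = p.1.1 ∨ IsEx l s p.2.1 ∨ IsEx r s p.2.2

theorem finite_isEx : ∀ (P : CTree) (p : Par P), {s | IsEx P s p}.Finite
  | leaf, p => by simp [IsEx]
  | node l r, p => by
      have e : {s | IsEx (node l r) s p} = {p.1.1} ∪ ({s | IsEx l s p.2.1} ∪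
          {s | IsEx r s p.2.2}) := rfl
      rw [e]
      exact (finite_singleton _).union ((finite_isEx l p.2.1).union (finite_isEx r p.2.2))

/-- all exit times after `s`: for small `ε` all entrance times are after `s` -/
theorem aft_eventually {s : ℝ} : ∀ {P : CTree} {v : Space3} {p : Par P}, Exs P s p →
    ¬ IsEx P s p → ∀ᶠ ε in 𝓝[>] (0 : ℝ), Aft Φ ε P s v p
  | leaf, _, _, _, _ => Filter.Eventually.of_forall fun _ => trivial
  | node l r, v, p, h, hn => by
      obtain ⟨h1, h2, h3⟩ := h
      have h1' : s < p.1.1 := lt_of_le_of_ne h1 fun h => hn (Or.inl h)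
      filter_upwards [(tendsto_sin v p.1).eventually (lt_mem_nhds h1'),
        aft_eventually (v := (preV Φ v p.1).1) h2 (fun h => hn (Or.inr (Or.inl h))),
        aft_eventually (v := (preV Φ v p.1).2) h3 (fun h => hn (Or.inr (Or.inr h)))]
        with ε e1 e2 e3
      exact ⟨e1, e2, e3⟩

/-! ### Free transport -/

theorem onLine_onLine (ℓ : PhasePoint) (s t : ℝ) : onLine (onLine ℓ s) t = onLine ℓ (s + t) := by
  ext1
  · simp only [onLine, add_smul]
    abel
  · rfl

theorem onLine_zero (ℓ : PhasePoint) : onLine ℓ 0 = ℓ := by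
  ext1 <;> simp [onLine]

theorem measurable_onLine' (s : ℝ) : Measurable fun ℓ : PhasePoint => onLine ℓ s := by
  unfold onLine
  exact (measurable_fst.add (measurable_snd.const_smul s)).prodMk measurable_snd

/-- free transport preserves the volume of the phase space of one particle -/
theorem measurePreserving_onLine (s : ℝ) :
    MeasurePreserving (fun ℓ : PhasePoint => onLine ℓ s) volume volume := by
  refine ⟨measurable_onLine' s, ?_⟩
  refine Measure.ext fun A hA => ?_
  rw [Measure.map_apply (measurable_onLine' s) hA]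
  have hvol : (volume : Measure PhasePoint) =
      (volume : Measure Space3).prod (volume : Measure Space3) := rfl
  rw [hvol, Measure.prod_apply_symm ((measurable_onLine' s) hA), Measure.prod_apply_symm hA]
  refine lintegral_congr fun v => ?_
  have e : (fun x : Space3 => (x, v)) ⁻¹' ((fun ℓ : PhasePoint => onLine ℓ s) ⁻¹' A) =
      (fun x => x + s • v) ⁻¹' ((fun x : Space3 => (x, v)) ⁻¹' A) := by
    ext x; rfl
  rw [e, measure_preimage_add_right]

/-- free transport of a finite family -/
theorem measurePreserving_free {κ : Type*} [Fintype κ] (s : ℝ) :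
    MeasurePreserving (fun (V : κ → PhasePoint) (x : κ) => onLine (V x) s) volume volume :=
  volume_preserving_pi fun _ => measurePreserving_onLine s

/-- relabelling -/
theorem measurePreserving_relabel {ι κ : Type*} [Fintype ι] [Fintype κ] (e : ι ≃ κ) :
    MeasurePreserving (fun (V : κ → PhasePoint) (x : ι) => V (e x)) volume volume := by
  exact (volume_measurePreserving_piCongrLeft (fun _ : κ => PhasePoint) e).symm

end Crest.Agent.R122.Cherry796

end
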