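import Crest.Agent.R122.Cherry1_796

/-!
# Row 122 (helper796), D5 (b): the measure step for an abstract grafted tree, definitions

`P'` is the tree `P` with one more node (parameter `a = (s, w, y)`) attached at the particle `m`.
`CW` = configurations `W` (at time `0`) of the tree `P` (valid and separated), all exit times `≥ s`,
together with a partner `c = (w, y)` of `m` at the time `s`, such that a window of `P` is open at
time `s` or the grafted tree is not valid or not separated.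
-/

set_option autoImplicit false
set_option synthInstance.maxSize 1024

open MeasureTheory Set Filter Topology
open Crest.AnalysisR.Kinetic
open scoped ENNReal

noncomputable section

namespace Crest.Agent.R122.Cherry796

open Kin796 Kin796.CTree Disc416 Tree674 TreeEps399 TreeDom974 TreeLim974

variable {Φ : Space3 → ℝ}

/-! ### The weights -/

/-- weight of the partner -/
def gW (b : ℝ) (c : Space3 × Plane) : ℝ≥0∞ :=
  ENNReal.ofReal (Real.exp (-b * ‖c.1‖ ^ 2)) *
    (Metric.ball (0 : Plane) 1).indicator (1 : Plane → ℝ≥0∞) c.2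

theorem measurable_gW (b : ℝ) : Measurable (gW b) := by
  unfold gW
  have h1 : Measurable fun c : Space3 × Plane => ENNReal.ofReal (Real.exp (-b * ‖c.1‖ ^ 2)) := by
    fun_prop
  exact h1.mul ((measurable_one.indicator measurableSet_ball).comp measurable_snd)

theorem lintegral_gW_ne_top {b : ℝ} (hb : 0 < b) : ∫⁻ c, gW b c ≠ ∞ := by
  have h2 : ∫⁻ q : Space3 × Plane, gW b q =
      (∫⁻ w : Space3, ENNReal.ofReal (Real.exp (-b * ‖w‖ ^ 2))) *
        ∫⁻ y : Plane, (Metric.ball (0 : Plane) 1).indicator (1 : Plane → ℝ≥0∞) y :=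
    lintegral_prod_mul (f := fun w : Space3 => ENNReal.ofReal (Real.exp (-b * ‖w‖ ^ 2)))
      (by fun_prop) (measurable_one.indicator measurableSet_ball).aemeasurable
  rw [h2, lintegral_indicator_one measurableSet_ball]
  exact ENNReal.mul_ne_top (Boltz814.integrable_gauss hb).lintegral_lt_top.ne
    measure_ball_lt_top.ne

/-- weight of a configuration `W` (at time `0`) with an outgoing partner `c = (w, y)` of a particle
with velocity `u` at the collision time; the particle `i0` is localised by `Ψ` -/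
def kerW (b : ℝ) {κ : Type*} [Fintype κ] (i0 : κ) (Ψ : Space3 → ℝ≥0∞) (u : Space3)
    (W : κ → PhasePoint) (c : Space3 × Plane) : ℝ≥0∞ :=
  (ENNReal.ofReal ‖u - c.1‖ * (Metric.ball (0 : Plane) 1).indicator (1 : Plane → ℝ≥0∞) c.2) *
    (ENNReal.ofReal (Real.exp (-b * (∑ x, ‖(W x).2‖ ^ 2 + ‖c.1‖ ^ 2))) * Ψ (W i0).1)

theorem measurable_kerW (b : ℝ) {κ : Type*} [Fintype κ] (i0 : κ) {Ψ : Space3 → ℝ≥0∞}
    (hΨ : Measurable Ψ) :
    Measurable fun z : Space3 × ((κ → PhasePoint) × (Space3 × Plane)) =>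
      kerW b i0 Ψ z.1 z.2.1 z.2.2 := by
  unfold kerW
  have hv : ∀ x : κ, Measurable fun z : Space3 × ((κ → PhasePoint) × (Space3 × Plane)) =>
      (z.2.1 x).2 := fun x => ((measurable_pi_apply x).comp measurable_snd.fst).snd
  have hx : Measurable fun z : Space3 × ((κ → PhasePoint) × (Space3 × Plane)) => (z.2.1 i0).1 :=
    ((measurable_pi_apply i0).comp measurable_snd.fst).fst
  have hw : Measurable fun z : Space3 × ((κ → PhasePoint) × (Space3 × Plane)) => z.2.2.1 :=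
    measurable_snd.snd.fst
  refine (Measurable.mul ?_ ?_).mul (Measurable.mul ?_ ?_)
  · exact (measurable_fst.sub hw).norm.ennreal_ofReal
  · exact (measurable_one.indicator measurableSet_ball).comp measurable_snd.snd.snd
  · refine (Real.measurable_exp.comp ((?_ : Measurable _).const_mul (-b))).ennreal_ofReal
    exact (Finset.measurable_sum _ fun x _ => (hv x).norm.pow_const 2).add (hw.norm.pow_const 2)
  · exact hΨ.comp hx

/-- domination of the weights; `u` is the velocity of a particle of the tree at any time -/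
theorem dom_le (hΦ : AdmissiblePotential Φ) {b : ℝ} (hb : 0 < b) (P : CTree) (i0 : Idx P)
    {c0 : ℝ} (hc0 : 0 ≤ c0) :
    ∃ C : ℝ, 0 ≤ C ∧ ∀ (ε T : ℝ) (v : Space3) (p : Par P) (Ψ : Space3 → ℝ≥0∞)
      (W : Idx P → PhasePoint) (u : Space3) (c : Space3 × Plane), 0 ≤ ε → Valid Φ ε P T v p →
      (∀ x, (W x).2 = vels Φ P v p x) → ‖u‖ ^ 2 ≤ ∑ x, ‖(W x).2‖ ^ 2 + c0 →
      wt Φ P v p * kerW b i0 Ψ u W c ≤ Ψ (W i0).1 * (domG C (b / 2) T P v p * gW (b / 2) c) := by
  have hδ : 0 < b / 2 := half_pos hb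
  refine ⟨(P.size + 1).factorial / (b / 2) ^ (P.size + 1) * Real.exp (b / 2) *
    Real.exp ((b / 2) * c0), by positivity, fun ε T v p Ψ W u c hε hV hW hu => ?_⟩
  set E := ‖v‖ ^ 2 + nodeE P p with hE
  have hE0 : 0 ≤ E := by
    have := nodeE_nonneg P p
    positivity
  have hs : ∑ x, ‖(W x).2‖ ^ 2 = E := by
    rw [hE, ← sum_vels_sq hΦ hV.1]
    exact Finset.sum_congr rfl fun x _ => by rw [hW x]
  rw [hs] at hu
  have hw0 : 0 ≤ ‖c.1‖ ^ 2 := by positivity
  set F := E + ‖c.1‖ ^ 2 with hF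
  have hF0 : 0 ≤ F := by positivity
  set F' := F + c0 with hF'
  have hF'0 : 0 ≤ F' := by positivity
  have h1 : wt Φ P v p ≤ ENNReal.ofReal ((1 + F') ^ P.size) :=
    wt_le hΦ (E := F') hV.1 (by rw [hF', hF]; linarith)
  have h2 : ‖u - c.1‖ ≤ 1 + F' := by
    refine norm_sub_le_energy _ _ ?_
    rw [hF', hF]; linarith
  have h3 := one_add_pow_le hδ hF'0 (P.size + 1)
  have hbox : boxI T P p = 1 := boxI_of_valid hε hV le_rfl
  unfold kerW domG gW
  rw [hs, hbox, one_mul]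
  set A : ℝ := (P.size + 1).factorial / (b / 2) ^ (P.size + 1) * Real.exp (b / 2) with hA
  have hA0 : 0 ≤ A := by positivity
  have h4 : ENNReal.ofReal ((1 + F') ^ P.size) * (ENNReal.ofReal (1 + F') *
      ENNReal.ofReal (Real.exp (-b * F))) ≤
      ENNReal.ofReal (A * Real.exp ((b / 2) * c0) * Real.exp (-(b / 2) * E)) *
        ENNReal.ofReal (Real.exp (-(b / 2) * ‖c.1‖ ^ 2)) := by
    rw [← ENNReal.ofReal_mul (by positivity), ← ENNReal.ofReal_mul (by positivity),
      ← ENNReal.ofReal_mul (by positivity)]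
    refine ENNReal.ofReal_le_ofReal ?_
    have e1 : Real.exp ((b / 2) * c0) * (Real.exp (-(b / 2) * E) *
        Real.exp (-(b / 2) * ‖c.1‖ ^ 2)) = Real.exp ((b / 2) * F') * Real.exp (-b * F) := by
      rw [← Real.exp_add, ← Real.exp_add, ← Real.exp_add, hF', hF]
      congr 1
      ring
    calc (1 + F') ^ P.size * ((1 + F') * Real.exp (-b * F))
        = (1 + F') ^ (P.size + 1) * Real.exp (-b * F) := by ring
      _ ≤ (A * Real.exp ((b / 2) * F')) * Real.exp (-b * F) := by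
          gcongr
      _ = A * Real.exp ((b / 2) * c0) * Real.exp (-(b / 2) * E) *
          Real.exp (-(b / 2) * ‖c.1‖ ^ 2) := by
          rw [mul_assoc A, ← e1]; ring
  calc wt Φ P v p * (ENNReal.ofReal ‖u - c.1‖ *
          (Metric.ball (0 : Plane) 1).indicator (1 : Plane → ℝ≥0∞) c.2 *
          (ENNReal.ofReal (Real.exp (-b * (E + ‖c.1‖ ^ 2))) * Ψ (W i0).1))
      ≤ ENNReal.ofReal ((1 + F') ^ P.size) * (ENNReal.ofReal (1 + F') *
          (Metric.ball (0 : Plane) 1).indicator (1 : Plane → ℝ≥0∞) c.2 *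
          (ENNReal.ofReal (Real.exp (-b * F)) * Ψ (W i0).1)) := by
        gcongr
    _ = (ENNReal.ofReal ((1 + F') ^ P.size) * (ENNReal.ofReal (1 + F') *
          ENNReal.ofReal (Real.exp (-b * F)))) *
          ((Metric.ball (0 : Plane) 1).indicator (1 : Plane → ℝ≥0∞) c.2 * Ψ (W i0).1) := by
        ring
    _ ≤ (ENNReal.ofReal (A * Real.exp ((b / 2) * c0) * Real.exp (-(b / 2) * E)) *
        ENNReal.ofReal (Real.exp (-(b / 2) * ‖c.1‖ ^ 2))) *
          ((Metric.ball (0 : Plane) 1).indicator (1 : Plane → ℝ≥0∞) c.2 * Ψ (W i0).1) := by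
        gcongr
    _ = _ := by ring

/-! ### Abstract grafts -/

/-- What is used of the grafted tree. -/
structure IsGraft (Φ : Space3 → ℝ) (P P' : CTree) (m : Idx P) (g : NodeP × Par P ≃ᵐ Par P') :
    Prop where
  mp : MeasurePreserving g volume volume
  valid0 : ∀ (T : ℝ) (v : Space3) (p : Par P) (a : NodeP), Valid Φ 0 P T v p →
    Aft Φ 0 P a.1 v p → Adm1 Φ (vels Φ P v p m) a → 0 < a.1 → a.1 < T →
    Valid Φ 0 P' T v (g (a, p))

/-- the **measurable bad set**: `s`, `W`, `(w, y)` -/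
def CW1 (Φ : Space3 → ℝ) (ε T : ℝ) {P P' : CTree} (g : NodeP × Par P ≃ᵐ Par P') :
    Set (ℝ × ((Idx P → PhasePoint) × (Space3 × Plane))) :=
  {c | (c.2.1 ∈ Skel Φ ε P T ∧ inv Φ ε P T c.2.1 ∈ goodS Φ ε P T ∧
      Exs P c.1 (inv Φ ε P T c.2.1).2) ∧
    ¬ (Aft Φ ε P c.1 (inv Φ ε P T c.2.1).1.2 (inv Φ ε P T c.2.1).2 ∧
      ((inv Φ ε P T c.2.1).1, g ((c.1, c.2.2), (inv Φ ε P T c.2.1).2)) ∈ goodS Φ ε P' T)}

theorem mem_CW1 (hΦ : AdmissiblePotential Φ) {ε T : ℝ} (hε : 0 < ε) {P P' : CTree}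
    {g : NodeP × Par P ≃ᵐ Par P'} {s : ℝ} {ℓ : PhasePoint}
    {p : Par P} {c : Space3 × Plane} (hG : (ℓ, p) ∈ goodS Φ ε P T) (hs : Exs P s p)
    (hB : ¬ (Aft Φ ε P s ℓ.2 p ∧ (ℓ, g ((s, c), p)) ∈ goodS Φ ε P' T)) :
    (s, (lines Φ ε P ℓ p, c)) ∈ CW1 Φ ε T g := by
  have e2 : inv Φ ε P T (lines Φ ε P ℓ p) = (ℓ, p) := inv_lines hΦ hε hG.1 le_rfl
  show (_ ∧ _ ∧ _) ∧ _
  simp only [e2]
  exact ⟨⟨mem_skel_lines hG.1, hG, hs⟩, hB⟩

theorem measurableSet_CW1 (hΦ : AdmissiblePotential Φ) {ε T : ℝ} (hε : 0 < ε) {P P' : CTree}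
    (g : NodeP × Par P ≃ᵐ Par P') : MeasurableSet (CW1 Φ ε T g) := by
  have hs : Measurable fun c : ℝ × ((Idx P → PhasePoint) × (Space3 × Plane)) => c.1 :=
    measurable_fst
  have hW : Measurable fun c : ℝ × ((Idx P → PhasePoint) × (Space3 × Plane)) => c.2.1 :=
    measurable_snd.fst
  have hi := (measurable_inv hΦ hε P T).comp hW
  have ha : Measurable fun c : ℝ × ((Idx P → PhasePoint) × (Space3 × Plane)) =>
      ((c.1, c.2.2) : NodeP) := hs.prodMk measurable_snd.snd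
  have h1 := (measurableSet_skel hΦ hε P T).preimage hW
  have h2 := (measurableSet_goodS hΦ hε P T).preimage hi
  have h3 := (measurableSet_exs P).preimage (hs.prodMk hi.snd)
  have h4 := (measurableSet_aft3 hΦ ε P).preimage (hs.prodMk (hi.fst.snd.prodMk hi.snd))
  have h5 := (measurableSet_goodS hΦ hε P' T).preimage
    (hi.fst.prodMk (g.measurable.comp (ha.prodMk hi.snd)))
  have h6 := (h1.inter (h2.inter h3)).inter ((h4.inter h5).compl)
  convert h6 using 1
  ext c
  constructor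
  · rintro ⟨⟨a1, a2, a3⟩, a4⟩
    exact ⟨⟨a1, a2, a3⟩, fun h => a4 ⟨h.1.2, h.2⟩⟩
  · rintro ⟨⟨a1, a2, a3⟩, a4⟩
    exact ⟨⟨a1, a2, a3⟩, fun h => a4 ⟨⟨a2.1.1, h.1⟩, h.2⟩⟩

end Crest.Agent.R122.Cherry796

end
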