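import Crest.Agent.R122.Cherry2_796

/-!
# Row 122 (helper796), D5 (b): the measure step for an abstract grafted tree, limits
-/

set_option autoImplicit false
set_option synthInstance.maxSize 1024

open MeasureTheory Set Filter Topology
open Crest.AnalysisR.Kinetic
open scoped ENNReal

noncomputable section

namespace Crest.Agent.R122.Cherry796

open Kin796 Kin796.CTree Disc416 Tree674 TreeEps399 TreeDom974 TreeLim974 Flow671

variable {Φ : Space3 → ℝ}

/-! ### The two null sets -/

/-- valid straight-line trees which are not good at `ε` -/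
def N1 (Φ : Space3 → ℝ) (ε : ℝ) (P : CTree) (T : ℝ) : Set (Space3 × Par P) :=
  {u | Valid Φ 0 P T u.1 u.2 ∧ ((((0 : Space3), u.1), u.2) : PhasePoint × Par P) ∉ goodS Φ ε P T}

theorem measurableSet_N1 (hΦ : AdmissiblePotential Φ) {ε : ℝ} (hε : 0 < ε) (P : CTree) (T : ℝ) :
    MeasurableSet (N1 Φ ε P T) := by
  have h0 : Measurable fun u : Space3 × Par P => ((((0 : Space3), u.1), u.2) : PhasePoint × Par P) :=
    (measurable_const.prodMk measurable_fst).prodMk measurable_snd
  have h1 : MeasurableSet {u : Space3 × Par P | Valid Φ 0 P T u.1 u.2} :=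
    (measurableSet_valid hΦ 0 P T).preimage h0
  exact h1.inter ((measurableSet_goodS hΦ hε P T).preimage h0).compl

theorem goodS_shift {ε T : ℝ} {P : CTree} {v : Space3} {p : Par P} (X : Space3) :
    (((X, v), p) : PhasePoint × Par P) ∈ goodS Φ ε P T ↔
      ((((0 : Space3), v), p) : PhasePoint × Par P) ∈ goodS Φ ε P T := by
  unfold goodS
  simp only [mem_ofPred_eq]
  rw [Hid424.sep_shift X]

theorem tendsto_N1 (hΦ : AdmissiblePotential Φ) (P : CTree) (T : ℝ)
    {F : Space3 × Par P → ℝ≥0∞} (hF : Measurable F) (hFi : ∫⁻ u, F u ≠ ∞) :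
    Tendsto (fun ε => ∫⁻ u, F u * (N1 Φ ε P T).indicator (1 : Space3 × Par P → ℝ≥0∞) u)
      (𝓝[>] 0) (𝓝 0) := by
  have h0 : ∫⁻ _u : Space3 × Par P, (0 : ℝ≥0∞) = 0 := lintegral_zero
  rw [← h0]
  refine tendsto_lintegral_filter_of_dominated_convergence F ?_ ?_ hFi ?_
  · filter_upwards [eventually_pos] with ε hε
    exact hF.mul (measurable_one.indicator (measurableSet_N1 hΦ hε P T))
  · refine Filter.Eventually.of_forall fun ε => Filter.Eventually.of_forall fun u => ?_
    calc F u * (N1 Φ ε P T).indicator (1 : Space3 × Par P → ℝ≥0∞) u ≤ F u * 1 := by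
          gcongr
          exact indicator_le_self' (fun _ _ => bot_le) u
      _ = F u := mul_one _
  · filter_upwards [gen_ae_q hΦ P T] with u hu
    by_cases hV : Valid Φ 0 P T u.1 u.2
    · refine (tendsto_congr' ?_).mpr tendsto_const_nhds
      filter_upwards [Hid424.eventually_good hΦ hV (hu hV)] with ε hε
      rw [indicator_of_notMem, mul_zero]
      exact fun h => h.2 ⟨hε.2.1, hε.2.2 0⟩
    · refine (tendsto_congr' ?_).mpr tendsto_const_nhds
      refine Filter.Eventually.of_forall fun ε => ?_
      show _ * _ = _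
      rw [indicator_of_notMem, mul_zero]
      exact fun h => hV h.1

/-- a window is open at `s` -/
def N2 (Φ : Space3 → ℝ) (ε : ℝ) (P : CTree) (T : ℝ) : Set (ℝ × (Space3 × Par P)) :=
  {z | Valid Φ 0 P T z.2.1 z.2.2 ∧ Exs P z.1 z.2.2 ∧ ¬ Aft Φ ε P z.1 z.2.1 z.2.2}

theorem measurableSet_N2 (hΦ : AdmissiblePotential Φ) (ε : ℝ) (P : CTree) (T : ℝ) :
    MeasurableSet (N2 Φ ε P T) := by
  have h0 : Measurable fun z : ℝ × (Space3 × Par P) =>
      ((((0 : Space3), z.2.1), z.2.2) : PhasePoint × Par P) :=
    (measurable_const.prodMk measurable_snd.fst).prodMk measurable_snd.snd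
  have h1 := (measurableSet_valid hΦ 0 P T).preimage h0
  have h2 := (measurableSet_exs P).preimage (measurable_fst.prodMk measurable_snd.snd :
    Measurable fun z : ℝ × (Space3 × Par P) => (z.1, z.2.2))
  have h3 := measurableSet_aft3 hΦ ε P
  have h4 := (h1.inter h2).inter h3.compl
  convert h4 using 1
  ext z
  constructor
  · rintro ⟨a1, a2, a3⟩
    exact ⟨⟨a1, a2⟩, fun h => a3 h.2⟩
  · rintro ⟨⟨a1, a2⟩, a3⟩
    exact ⟨a1, a2, fun h => a3 ⟨a1.1, h⟩⟩

theorem measurableSet_isEx : ∀ P : CTree, MeasurableSet {q : ℝ × Par P | IsEx P q.1 q.2}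
  | leaf => by
      have : {q : ℝ × Par leaf | IsEx leaf q.1 q.2} = ∅ := by
        ext q; simp [IsEx]
      rw [this]; exact MeasurableSet.empty
  | node l r => by
      have hp : Measurable fun q : ℝ × Par (node l r) => q.2 := measurable_snd
      have ha := ((measurable_par1 l r).comp hp).fst
      have hl := (measurable_parL l r).comp hp
      have hr := (measurable_parR l r).comp hp
      have e : {q : ℝ × Par (node l r) | IsEx (node l r) q.1 q.2} =
          {q | q.1 = q.2.1.1} ∪
          ((fun q => (q.1, q.2.2.1)) ⁻¹' {q : ℝ × Par l | IsEx l q.1 q.2} ∪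
           (fun q => (q.1, q.2.2.2)) ⁻¹' {q : ℝ × Par r | IsEx r q.1 q.2}) := rfl
      rw [e]
      exact (measurableSet_eq_fun measurable_fst ha).union
        (((measurable_fst.prodMk hl) (measurableSet_isEx l)).union
          ((measurable_fst.prodMk hr) (measurableSet_isEx r)))

theorem ae_not_isEx (P : CTree) : ∀ᵐ z : ℝ × (Space3 × Par P), ¬ IsEx P z.1 z.2.2 := by
  have hm : MeasurableSet {z : ℝ × (Space3 × Par P) | IsEx P z.1 z.2.2} :=
    (measurableSet_isEx P).preimage (measurable_fst.prodMk measurable_snd.snd :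
      Measurable fun z : ℝ × (Space3 × Par P) => (z.1, z.2.2))
  rw [ae_iff]
  simp only [not_not]
  have hvol : (volume : Measure (ℝ × (Space3 × Par P))) =
      (volume : Measure ℝ).prod (volume : Measure (Space3 × Par P)) := rfl
  rw [hvol, Measure.prod_apply_symm hm]
  have h : ∀ q : Space3 × Par P, volume ((fun x : ℝ => (x, q)) ⁻¹'
      {z : ℝ × (Space3 × Par P) | IsEx P z.1 z.2.2}) = 0 := fun q =>
    (finite_isEx P q.2).measure_zero _
  simp only [h, lintegral_zero]

theorem tendsto_N2 (hΦ : AdmissiblePotential Φ) (P : CTree) (T : ℝ)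
    {F : ℝ × (Space3 × Par P) → ℝ≥0∞} (hF : Measurable F) (hFi : ∫⁻ u, F u ≠ ∞) :
    Tendsto (fun ε => ∫⁻ u, F u * (N2 Φ ε P T).indicator (1 : ℝ × (Space3 × Par P) → ℝ≥0∞) u)
      (𝓝[>] 0) (𝓝 0) := by
  have h0 : ∫⁻ _u : ℝ × (Space3 × Par P), (0 : ℝ≥0∞) = 0 := lintegral_zero
  rw [← h0]
  refine tendsto_lintegral_filter_of_dominated_convergence F ?_ ?_ hFi ?_
  · refine Filter.Eventually.of_forall fun ε => ?_
    exact hF.mul (measurable_one.indicator (measurableSet_N2 hΦ ε P T))
  · refine Filter.Eventually.of_forall fun ε => Filter.Eventually.of_forall fun u => ?_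
    calc F u * (N2 Φ ε P T).indicator (1 : ℝ × (Space3 × Par P) → ℝ≥0∞) u ≤ F u * 1 := by
          gcongr
          exact indicator_le_self' (fun _ _ => bot_le) u
      _ = F u := mul_one _
  · filter_upwards [ae_not_isEx P] with u hu
    by_cases hV : Exs P u.1 u.2.2
    · refine (tendsto_congr' ?_).mpr tendsto_const_nhds
      filter_upwards [aft_eventually (Φ := Φ) (v := u.2.1) hV hu] with ε hε
      rw [indicator_of_notMem, mul_zero]
      exact fun h => h.2.2 hε
    · refine (tendsto_congr' ?_).mpr tendsto_const_nhds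
      refine Filter.Eventually.of_forall fun ε => ?_
      show _ * _ = _
      rw [indicator_of_notMem, mul_zero]
      exact fun h => hV h.2.1

/-! ### Integration over the parameters of the grafted tree -/

theorem lintegral_theta {P P' : CTree} {m : Idx P} {g : NodeP × Par P ≃ᵐ Par P'}
    (hg : IsGraft Φ P P' m g) {G : Space3 × Par P' → ℝ≥0∞} (hG : Measurable G) :
    ∫⁻ s : ℝ, ∫⁻ q : Space3 × Par P, ∫⁻ c : Space3 × Plane, G (q.1, g ((s, c), q.2)) =
      ∫⁻ u, G u := by
  have hG3 : Measurable fun z : Space3 × (NodeP × Par P) => G (z.1, g z.2) :=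
    hG.comp (measurable_fst.prodMk (g.measurable.comp measurable_snd))
  have e1 : ∫⁻ u : Space3 × Par P', G u = ∫⁻ v : Space3, ∫⁻ a : NodeP, ∫⁻ p : Par P,
      G (v, g (a, p)) := by
    have hvol : (volume : Measure (Space3 × Par P')) =
      (volume : Measure Space3).prod (volume : Measure (Par P')) := rfl
    rw [hvol, lintegral_prod _ hG.aemeasurable]
    refine lintegral_congr fun v => ?_
    have h1 : Measurable fun p' : Par P' => G (v, p') := hG.comp measurable_prodMk_left
    rw [← hg.mp.lintegral_comp h1]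
    have hvol2 : (volume : Measure (NodeP × Par P)) =
      (volume : Measure NodeP).prod (volume : Measure (Par P)) := rfl
    rw [hvol2]
    exact lintegral_prod _ (h1.comp g.measurable).aemeasurable
  have e2 : ∀ v : Space3, ∫⁻ a : NodeP, ∫⁻ p : Par P, G (v, g (a, p)) =
      ∫⁻ s : ℝ, ∫⁻ c : Space3 × Plane, ∫⁻ p : Par P, G (v, g ((s, c), p)) := by
    intro v
    have h1 : Measurable fun a : NodeP => ∫⁻ p : Par P, G (v, g (a, p)) := by
      refine Measurable.lintegral_prod_right' (f := fun z : NodeP × Par P => G (v, g z)) ?_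
      exact hG.comp (measurable_const.prodMk g.measurable)
    have hvol : (volume : Measure NodeP) =
      (volume : Measure ℝ).prod (volume : Measure (Space3 × Plane)) := rfl
    rw [hvol, lintegral_prod _ h1.aemeasurable]
  have e3 : ∀ s : ℝ, ∫⁻ q : Space3 × Par P, ∫⁻ c : Space3 × Plane, G (q.1, g ((s, c), q.2)) =
      ∫⁻ v : Space3, ∫⁻ c : Space3 × Plane, ∫⁻ p : Par P, G (v, g ((s, c), p)) := by
    intro s
    have h2 : Measurable fun z : (Space3 × Par P) × (Space3 × Plane) =>
        G (z.1.1, g ((s, z.2), z.1.2)) :=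
      hG.comp (measurable_fst.fst.prodMk (g.measurable.comp
        ((measurable_const.prodMk measurable_snd).prodMk measurable_fst.snd)))
    have h1 : Measurable fun q : Space3 × Par P =>
        ∫⁻ c : Space3 × Plane, G (q.1, g ((s, c), q.2)) :=
      Measurable.lintegral_prod_right' (f := fun z : (Space3 × Par P) × (Space3 × Plane) =>
        G (z.1.1, g ((s, z.2), z.1.2))) h2
    have hvol : (volume : Measure (Space3 × Par P)) =
      (volume : Measure Space3).prod (volume : Measure (Par P)) := rfl
    rw [hvol, lintegral_prod _ h1.aemeasurable]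
    refine lintegral_congr fun v => ?_
    refine lintegral_lintegral_swap ?_
    have h3 : Measurable fun z : Par P × (Space3 × Plane) => G (v, g ((s, z.2), z.1)) :=
      hG.comp (measurable_const.prodMk (g.measurable.comp
        ((measurable_const.prodMk measurable_snd).prodMk measurable_fst)))
    exact h3.aemeasurable
  rw [e1]
  simp only [e2, e3]
  refine lintegral_lintegral_swap ?_
  have h4 : Measurable fun z : (ℝ × Space3) × ((Space3 × Plane) × Par P) =>
      G (z.1.2, g ((z.1.1, z.2.1), z.2.2)) :=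
    hG.comp (measurable_fst.snd.prodMk (g.measurable.comp
      ((measurable_fst.fst.prodMk measurable_snd.fst).prodMk measurable_snd.snd)))
  have h5 : Measurable fun z : (ℝ × Space3) × (Space3 × Plane) => ∫⁻ p : Par P,
      G (z.1.2, g ((z.1.1, z.2), p)) :=
    Measurable.lintegral_prod_right' (f := fun z : ((ℝ × Space3) × (Space3 × Plane)) × Par P =>
      G (z.1.1.2, g ((z.1.1.1, z.1.2), z.2))) (hG.comp (measurable_fst.fst.snd.prodMk
        (g.measurable.comp ((measurable_fst.fst.fst.prodMk measurable_fst.snd).prodMk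
          measurable_snd))))
  exact (Measurable.lintegral_prod_right' (f := fun z : (ℝ × Space3) × (Space3 × Plane) =>
    ∫⁻ p : Par P, G (z.1.2, g ((z.1.1, z.2), p))) h5).aemeasurable

end Crest.Agent.R122.Cherry796

end
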