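import Crest.Agent.R122.Cherry3_796

/-!
# Row 122 (helper796), D5 (b): the measure step for an abstract grafted tree, main estimate
-/

set_option autoImplicit false
set_option synthInstance.maxSize 1024

open MeasureTheory Set Filter Topology
open Crest.AnalysisR.Kinetic
open scoped ENNReal

noncomputable section

namespace Crest.Agent.R122.Cherry796

open Kin796 Kin796.CTree Disc416 Tree674 TreeEps399 TreeDom974 TreeLim974 Flow671

variable {Φ : Space3 → ℝ}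

theorem ae_adm (hΦ : AdmissiblePotential Φ) (v : Space3) (s : ℝ) :
    ∀ᵐ c : Space3 × Plane, ‖c.2‖ < 1 → Adm1 Φ v (s, c) := by
  have hm : MeasurableSet {c : Space3 × Plane | ‖c.2‖ < 1 ∧ ¬ Adm1 Φ v (s, c)} := by
    refine (measurableSet_lt measurable_snd.norm measurable_const).inter
      ((TreeF399.measurableSet_adm1 hΦ).preimage
        (measurable_const.prodMk (measurable_const.prodMk measurable_id) :
          Measurable fun c : Space3 × Plane => (v, ((s, c) : NodeP)))).compl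
  have h0 : volume {c : Space3 × Plane | ‖c.2‖ < 1 ∧ ¬ Adm1 Φ v (s, c)} = 0 := by
    have hvol : (volume : Measure (Space3 × Plane)) =
      (volume : Measure Space3).prod (volume : Measure Plane) := rfl
    rw [hvol, Measure.measure_prod_null hm]
    have hne : ∀ᵐ w : Space3, w ≠ v := by
      rw [ae_iff]
      simp
    filter_upwards [hne] with w hw
    have h1 := TreeF399.ae_adm1 hΦ (Ne.symm hw) s
    have h2 : ∀ᵐ y : Plane, y ∉ Prod.mk w ⁻¹' {c : Space3 × Plane | ‖c.2‖ < 1 ∧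
        ¬ Adm1 Φ v (s, c)} := by
      filter_upwards [h1] with y hy hy2
      exact hy2.2 (hy (by simpa using hy2.1))
    exact measure_eq_zero_iff_ae_notMem.mpr h2
  have h1 := measure_eq_zero_iff_ae_notMem.mp h0
  filter_upwards [h1] with c hc hc1
  by_contra h
  exact hc ⟨hc1, h⟩

/-- the integrand after the change of variables -/
def Rq (Φ : Space3 → ℝ) (ε T C b : ℝ) {P P' : CTree} (g : NodeP × Par P ≃ᵐ Par P') (s : ℝ)
    (q : Space3 × Par P) : ℝ≥0∞ :=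
  ∫⁻ c : Space3 × Plane, (domG C (b / 2) T P q.1 q.2 * gW (b / 2) c) *
    ((N1 Φ ε P' T).indicator (1 : Space3 × Par P' → ℝ≥0∞) (q.1, g ((s, c), q.2)) +
      (N2 Φ ε P T).indicator (1 : ℝ × (Space3 × Par P) → ℝ≥0∞) (s, q))

theorem measurable_Rq (hΦ : AdmissiblePotential Φ) {ε : ℝ} (hε : 0 < ε) (T : ℝ) {C : ℝ}
    (hC : 0 ≤ C) (b : ℝ) {P P' : CTree} (g : NodeP × Par P ≃ᵐ Par P') :
    Measurable fun z : ℝ × (Space3 × Par P) => Rq Φ ε T C b g z.1 z.2 := by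
  unfold Rq
  refine Measurable.lintegral_prod_right'
    (f := fun z : (ℝ × (Space3 × Par P)) × (Space3 × Plane) =>
      (domG C (b / 2) T P z.1.2.1 z.1.2.2 * gW (b / 2) z.2) *
    ((N1 Φ ε P' T).indicator (1 : Space3 × Par P' → ℝ≥0∞) (z.1.2.1, g ((z.1.1, z.2), z.1.2.2)) +
      (N2 Φ ε P T).indicator (1 : ℝ × (Space3 × Par P) → ℝ≥0∞) (z.1.1, z.1.2))) ?_
  have h1 : Measurable fun z : (ℝ × (Space3 × Par P)) × (Space3 × Plane) =>
      domG C (b / 2) T P z.1.2.1 z.1.2.2 := (measurable_domG hC (b / 2) T P).comp measurable_fst.snd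
  have h2 : Measurable fun z : (ℝ × (Space3 × Par P)) × (Space3 × Plane) => gW (b / 2) z.2 :=
    (measurable_gW (b / 2)).comp measurable_snd
  have h3 : Measurable fun z : (ℝ × (Space3 × Par P)) × (Space3 × Plane) =>
      (z.1.2.1, g ((z.1.1, z.2), z.1.2.2)) :=
    measurable_fst.snd.fst.prodMk (g.measurable.comp
      ((measurable_fst.fst.prodMk measurable_snd).prodMk measurable_fst.snd.snd))
  exact (h1.mul h2).mul (((measurable_one.indicator (measurableSet_N1 hΦ hε P' T)).comp h3).add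
    ((measurable_one.indicator (measurableSet_N2 hΦ ε P T)).comp measurable_fst))

/-- the integral over the partner -/
def Kc (Φ : Space3 → ℝ) (ε T b : ℝ) {P P' : CTree} (m i0 : Idx P) (g : NodeP × Par P ≃ᵐ Par P')
    (Ψ : Space3 → ℝ≥0∞) (s : ℝ) (W : Idx P → PhasePoint) : ℝ≥0∞ :=
  ∫⁻ c : Space3 × Plane, kerW b i0 Ψ (flow Φ ε s W m).2 W c *
    (CW1 Φ ε T g).indicator (1 : ℝ × ((Idx P → PhasePoint) × (Space3 × Plane)) → ℝ≥0∞) (s, (W, c))

theorem measurable_Kc (hΦ : AdmissiblePotential Φ) {ε : ℝ} (hε : 0 < ε) (T b : ℝ)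
    {P P' : CTree} (m i0 : Idx P) (g : NodeP × Par P ≃ᵐ Par P') {Ψ : Space3 → ℝ≥0∞}
    (hΨ : Measurable Ψ) :
    Measurable fun z : ℝ × (Idx P → PhasePoint) => Kc Φ ε T b m i0 g Ψ z.1 z.2 := by
  unfold Kc
  refine Measurable.lintegral_prod_right'
    (f := fun z : (ℝ × (Idx P → PhasePoint)) × (Space3 × Plane) =>
      kerW b i0 Ψ (flow Φ ε z.1.1 z.1.2 m).2 z.1.2 z.2 *
    (CW1 Φ ε T g).indicator (1 : ℝ × ((Idx P → PhasePoint) × (Space3 × Plane)) → ℝ≥0∞)
      (z.1.1, (z.1.2, z.2))) ?_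
  have h1 : Measurable fun z : (ℝ × (Idx P → PhasePoint)) × (Space3 × Plane) =>
      (flow Φ ε z.1.1 z.1.2 m).2 :=
    ((measurable_pi_apply m).comp ((measurable_flow_joint hΦ hε).comp measurable_fst)).snd
  exact ((measurable_kerW b i0 hΨ).comp
    (h1.prodMk (measurable_fst.snd.prodMk measurable_snd))).mul
    ((measurable_one.indicator (measurableSet_CW1 hΦ hε g)).comp
      (measurable_fst.fst.prodMk (measurable_fst.snd.prodMk measurable_snd)))

theorem measurable_Kcs (hΦ : AdmissiblePotential Φ) {ε : ℝ} (hε : 0 < ε) (T b : ℝ)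
    {P P' : CTree} (m i0 : Idx P) (g : NodeP × Par P ≃ᵐ Par P') {Ψ : Space3 → ℝ≥0∞}
    (hΨ : Measurable Ψ) (s : ℝ) :
    Measurable fun W : Idx P → PhasePoint => Kc Φ ε T b m i0 g Ψ s W := by
  have h1 := measurable_Kc hΦ hε T b m i0 g hΨ
  have h2 : Measurable fun W : Idx P → PhasePoint => (s, W) := measurable_prodMk_left
  exact Measurable.comp (g := fun z : ℝ × (Idx P → PhasePoint) => Kc Φ ε T b m i0 g Ψ z.1 z.2)
    (f := fun W : Idx P → PhasePoint => (s, W)) h1 h2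

theorem energy_lines (hΦ : AdmissiblePotential Φ) {ε T : ℝ} (hε : 0 < ε) (hT : 0 ≤ T) {P : CTree}
    {z : PhasePoint × Par P} (hz : z ∈ goodS Φ ε P T) :
    energy Φ ε (lines Φ ε P z.1 z.2) = (1 / 2) * ∑ i, ‖vels Φ P z.1.2 z.2 i‖ ^ 2 := by
  rw [Loc45.energy_eq_kin_add_pot, Loc45.pot_eq_zero hΦ hε, add_zero]
  · unfold Loc45.kin
    simp only [Hid424.lines_vel]
  · intro i j hij
    exact (PathFlow968.Sep.zero (ℓ := z.1) hε.le hT hz.1.2 hz.2 hij).le

theorem vel_le (hΦ : AdmissiblePotential Φ) {ε T : ℝ} (hε : 0 < ε) (hT : 0 ≤ T) {P : CTree}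
    {z : PhasePoint × Par P} (hz : z ∈ goodS Φ ε P T) (s : ℝ) (m : Idx P) :
    ‖(flow Φ ε s (lines Φ ε P z.1 z.2) m).2‖ ^ 2 ≤
      ∑ x, ‖(lines Φ ε P z.1 z.2 x).2‖ ^ 2 + 2 * (Loc45.stabB Φ * Fintype.card (Idx P)) := by
  have h1 := Loc45.norm_vel_flow_sq_le hΦ hε
    (PathFlow968.lines_mem_Dom (ℓ := z.1) hε hT hz.1.2 hz.2) s m
  rw [energy_lines hΦ hε hT hz] at h1
  simp only [Hid424.lines_vel]
  linarith

/-- **pointwise bound** -/
theorem key (hΦ : AdmissiblePotential Φ) {b : ℝ} (hb : 0 < b) {P P' : CTree} {m : Idx P}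
    {g : NodeP × Par P ≃ᵐ Par P'} (hg : IsGraft Φ P P' m g) (i0 : Idx P) :
    ∃ C : ℝ, 0 ≤ C ∧ ∀ (ε T s : ℝ) (Ψ : Space3 → ℝ≥0∞) (ℓ : PhasePoint) (p : Par P),
      0 < ε → s ∈ Ioo 0 T → Valid Φ ε P T ℓ.2 p →
      wt Φ P ℓ.2 p * Kc Φ ε T b m i0 g Ψ s (lines Φ ε P ℓ p) ≤
        Ψ (lines Φ ε P ℓ p i0).1 * Rq Φ ε T C b g s (ℓ.2, p) := by
  obtain ⟨C, hC, hdom⟩ := dom_le hΦ hb P i0 (c0 := 2 * (Loc45.stabB Φ * Fintype.card (Idx P)))
    (by have := Loc45.stabB_nonneg Φ; positivity)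
  refine ⟨C, hC, fun ε T s Ψ ℓ p hε hs hV => ?_⟩
  unfold Kc Rq
  rw [← lintegral_const_mul' _ _ (wt_ne_top P ℓ.2 p)]
  have hmeas : Measurable fun c : Space3 × Plane =>
      (domG C (b / 2) T P ℓ.2 p * gW (b / 2) c) *
    ((N1 Φ ε P' T).indicator (1 : Space3 × Par P' → ℝ≥0∞) (ℓ.2, g ((s, c), p)) +
      (N2 Φ ε P T).indicator (1 : ℝ × (Space3 × Par P) → ℝ≥0∞) (s, (ℓ.2, p))) := by
    refine (measurable_const.mul (measurable_gW _)).mul (Measurable.add ?_ measurable_const)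
    exact (measurable_one.indicator (measurableSet_N1 hΦ hε P' T)).comp
      (measurable_const.prodMk (g.measurable.comp
        ((measurable_const.prodMk measurable_id).prodMk measurable_const)))
  rw [← lintegral_const_mul _ hmeas]
  refine lintegral_mono_ae ?_
  filter_upwards [ae_adm hΦ (vels Φ P ℓ.2 p m) s] with c hc
  by_cases hmem : (s, (lines Φ ε P ℓ p, c)) ∈ CW1 Φ ε T g
  swap
  · rw [indicator_of_notMem hmem, mul_zero, mul_zero]
    exact bot_le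
  rw [indicator_of_mem hmem]
  obtain ⟨⟨-, hgood, hexs⟩, hbad⟩ := hmem
  rw [show (s, (lines Φ ε P ℓ p, c)).2.1 = lines Φ ε P ℓ p from rfl,
    inv_lines hΦ hε hV le_rfl] at hgood hexs hbad
  have hT : 0 ≤ T := (hs.1.trans hs.2).le
  have h1 := hdom ε T ℓ.2 p Ψ (lines Φ ε P ℓ p) (flow Φ ε s (lines Φ ε P ℓ p) m).2 c hε.le hV
    (fun x => Hid424.lines_vel ε P ℓ p x) (vel_le hΦ hε hT hgood s m)
  by_cases hy : ‖c.2‖ < 1
  swap
  · have : kerW b i0 Ψ (flow Φ ε s (lines Φ ε P ℓ p) m).2 (lines Φ ε P ℓ p) c = 0 := by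
      unfold kerW
      rw [indicator_of_notMem (by simpa using hy)]
      simp
    rw [this, zero_mul, mul_zero]
    exact bot_le
  have hadm := hc hy
  have hone : (1 : ℝ≥0∞) ≤
      (N1 Φ ε P' T).indicator (1 : Space3 × Par P' → ℝ≥0∞) (ℓ.2, g ((s, c), p)) +
      (N2 Φ ε P T).indicator (1 : ℝ × (Space3 × Par P) → ℝ≥0∞) (s, (ℓ.2, p)) := by
    by_cases hA : Aft Φ ε P s ℓ.2 p
    · have hN : (ℓ.2, g ((s, c), p)) ∈ N1 Φ ε P' T := by
        refine ⟨hg.valid0 T ℓ.2 p (s, c) (valid_zero hε.le hV) (aft_zero hε.le hA) hadm hs.1 hs.2,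
          fun h => hbad ⟨hA, ?_⟩⟩
        exact (goodS_shift ℓ.1).mpr h
      rw [indicator_of_mem hN]
      exact le_self_add
    · have hN : (s, (ℓ.2, p)) ∈ N2 Φ ε P T := ⟨valid_zero hε.le hV, hexs, hA⟩
      rw [indicator_of_mem hN]
      exact le_add_self
  calc wt Φ P ℓ.2 p * (kerW b i0 Ψ (flow Φ ε s (lines Φ ε P ℓ p) m).2 (lines Φ ε P ℓ p) c * 1)
      = (wt Φ P ℓ.2 p * kerW b i0 Ψ (flow Φ ε s (lines Φ ε P ℓ p) m).2 (lines Φ ε P ℓ p) c) * 1 := by
        ring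
    _ ≤ (Ψ (lines Φ ε P ℓ p i0).1 * (domG C (b / 2) T P ℓ.2 p * gW (b / 2) c)) *
        ((N1 Φ ε P' T).indicator (1 : Space3 × Par P' → ℝ≥0∞) (ℓ.2, g ((s, c), p)) +
      (N2 Φ ε P T).indicator (1 : ℝ × (Space3 × Par P) → ℝ≥0∞) (s, (ℓ.2, p))) := by
        gcongr
    _ = _ := by ring

/-- change of variables to the tree parameters -/
theorem lintegral_Kc (hΦ : AdmissiblePotential Φ) {b : ℝ} {P P' : CTree} (m : Idx P)
    (g : NodeP × Par P ≃ᵐ Par P') (i0 : Idx P) {ε T s : ℝ} {Ψ : Space3 → ℝ≥0∞} (hε : 0 < ε)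
    (hΨ : Measurable Ψ) :
    ∫⁻ W : Idx P → PhasePoint, Kc Φ ε T b m i0 g Ψ s W =
      ENNReal.ofReal (ε ^ 2) ^ P.size * ∫⁻ z : PhasePoint × Par P,
        {z : PhasePoint × Par P | Valid Φ ε P T z.1.2 z.2}.indicator
          (fun z => wt Φ P z.1.2 z.2 * Kc Φ ε T b m i0 g Ψ s (lines Φ ε P z.1 z.2)) z := by
  have hK := measurable_Kcs hΦ hε T b m i0 g hΨ s
  have h1 : ∫⁻ W : Idx P → PhasePoint, Kc Φ ε T b m i0 g Ψ s W =
      ∫⁻ W : Idx P → PhasePoint, (Skel Φ ε P T).indicator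
        (fun W => Kc Φ ε T b m i0 g Ψ s W) W := by
    refine lintegral_congr fun W => ?_
    by_cases hW : W ∈ Skel Φ ε P T
    · rw [indicator_of_mem hW]
    · rw [indicator_of_notMem hW]
      unfold Kc
      have : ∀ c : Space3 × Plane, kerW b i0 Ψ (flow Φ ε s W m).2 W c *
          (CW1 Φ ε T g).indicator
            (1 : ℝ × ((Idx P → PhasePoint) × (Space3 × Plane)) → ℝ≥0∞) (s, (W, c)) = 0 := by
        intro c
        rw [indicator_of_notMem (fun h => hW h.1.1), mul_zero]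
      simp only [this, lintegral_zero]
  exact h1.trans (treeMeasure hΦ hε P T (H := fun zV => Kc Φ ε T b m i0 g Ψ s zV.2)
    (hK.comp measurable_snd)).symm

theorem measurable_GK (hΦ : AdmissiblePotential Φ) {b : ℝ} {P P' : CTree} (m : Idx P)
    (g : NodeP × Par P ≃ᵐ Par P') (i0 : Idx P) {ε T s : ℝ} {Ψ : Space3 → ℝ≥0∞} (hε : 0 < ε)
    (hΨ : Measurable Ψ) : Measurable fun z : PhasePoint × Par P =>
      {z : PhasePoint × Par P | Valid Φ ε P T z.1.2 z.2}.indicator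
        (fun z => wt Φ P z.1.2 z.2 * Kc Φ ε T b m i0 g Ψ s (lines Φ ε P z.1 z.2)) z := by
  have hK := measurable_Kcs hΦ hε T b m i0 g hΨ s
  have e1 : (fun z : PhasePoint × Par P =>
      {z : PhasePoint × Par P | Valid Φ ε P T z.1.2 z.2}.indicator
        (fun z => wt Φ P z.1.2 z.2 * Kc Φ ε T b m i0 g Ψ s (lines Φ ε P z.1 z.2)) z) =
      fun z => vw Φ ε P T z * Kc Φ ε T b m i0 g Ψ s (linesM Φ ε P z.1 z.2) := by
    funext z
    by_cases hz : Valid Φ ε P T z.1.2 z.2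
    · rw [indicator_of_mem (show z ∈ {z : PhasePoint × Par P | Valid Φ ε P T z.1.2 z.2} from hz),
        vw_of_valid hz, linesM_of_adm ε hz.1]
    · rw [indicator_of_notMem
        (show z ∉ {z : PhasePoint × Par P | Valid Φ ε P T z.1.2 z.2} from hz),
        vw_of_not_valid hz, zero_mul]
  rw [e1]
  exact (measurable_vw hΦ ε P T).mul (hK.comp (measurable_linesM hΦ ε P))

/-- **fixed time** -/
theorem fixed_time (hΦ : AdmissiblePotential Φ) {b : ℝ} (hb : 0 < b) {P P' : CTree} {m : Idx P}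
    {g : NodeP × Par P ≃ᵐ Par P'} (hg : IsGraft Φ P P' m g) (i0 : Idx P) :
    ∃ C : ℝ, 0 ≤ C ∧ ∀ (ε T s : ℝ) (Ψ : Space3 → ℝ≥0∞), 0 < ε → s ∈ Ioo 0 T → Measurable Ψ →
      ∫⁻ W : Idx P → PhasePoint, Kc Φ ε T b m i0 g Ψ s W ≤
        ENNReal.ofReal (ε ^ 2) ^ P.size * ((∫⁻ x, Ψ x) *
          ∫⁻ q : Space3 × Par P, Rq Φ ε T C b g s q) := by
  obtain ⟨C, hC, hkey⟩ := key hΦ hb hg i0
  refine ⟨C, hC, fun ε T s Ψ hε hs hΨ => ?_⟩
  rw [lintegral_Kc hΦ m g i0 hε hΨ, lintegral_split P (measurable_GK hΦ m g i0 hε hΨ)]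
  have hR : Measurable fun q : Space3 × Par P => Rq Φ ε T C b g s q :=
    Measurable.comp (g := fun z : ℝ × (Space3 × Par P) => Rq Φ ε T C b g z.1 z.2)
      (f := fun q : Space3 × Par P => (s, q)) (measurable_Rq hΦ hε T hC b g)
      measurable_prodMk_left
  refine mul_le_mul' le_rfl ?_
  rw [← lintegral_const_mul _ hR]
  refine lintegral_mono fun q => ?_
  have hx : ∀ x : Space3, {z : PhasePoint × Par P | Valid Φ ε P T z.1.2 z.2}.indicator
        (fun z => wt Φ P z.1.2 z.2 * Kc Φ ε T b m i0 g Ψ s (lines Φ ε P z.1 z.2)) ((x, q.1), q.2) ≤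
      Ψ (x + (lines Φ ε P ((0 : Space3), q.1) q.2 i0).1) * Rq Φ ε T C b g s q := by
    intro x
    by_cases hz : Valid Φ ε P T q.1 q.2
    · rw [indicator_of_mem
        (show ((x, q.1), q.2) ∈ {z : PhasePoint × Par P | Valid Φ ε P T z.1.2 z.2} from hz)]
      have h3 := hkey ε T s Ψ (x, q.1) q.2 hε hs hz
      have e2 : (lines Φ ε P (x, q.1) q.2 i0).1 =
          x + (lines Φ ε P ((0 : Space3), q.1) q.2 i0).1 := by
        rw [Hid424.lines_shift ε P x q.1 q.2 i0]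
        exact add_comm _ _
      rw [e2] at h3
      exact h3
    · rw [indicator_of_notMem
        (show ((x, q.1), q.2) ∉ {z : PhasePoint × Par P | Valid Φ ε P T z.1.2 z.2} from hz)]
      exact bot_le
  refine (lintegral_mono hx).trans (le_of_eq ?_)
  have hm : Measurable fun x : Space3 => Ψ (x + (lines Φ ε P ((0 : Space3), q.1) q.2 i0).1) :=
    hΨ.comp (measurable_id.add_const _)
  rw [lintegral_mul_const _ hm, lintegral_add_right_eq_self (μ := (volume : Measure Space3)) Ψ]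

end Crest.Agent.R122.Cherry796

end
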