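import Crest.Agent.R122.Cherry4_796

/-!
# Row 122 (helper796), D5 (b): the measure step for an abstract grafted tree
-/

set_option autoImplicit false
set_option synthInstance.maxSize 1024

open MeasureTheory Set Filter Topology
open Crest.AnalysisR.Kinetic
open scoped ENNReal

noncomputable section

namespace Crest.Agent.R122.Cherry796

open Kin796 Kin796.CTree Disc416 Tree674 TreeEps399 TreeDom974 TreeLim974 Flow671

variable {Φ : Space3 → ℝ}

/-- majorant on the parameters of the grafted tree -/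
def Fd (T C b : ℝ) {P P' : CTree} (g : NodeP × Par P ≃ᵐ Par P') (u : Space3 × Par P') : ℝ≥0∞ :=
  (Ioo 0 T).indicator (1 : ℝ → ℝ≥0∞) (g.symm u.2).1.1 *
    (domG C (b / 2) T P u.1 (g.symm u.2).2 * gW (b / 2) (g.symm u.2).1.2)

theorem measurable_Fd (T : ℝ) {C : ℝ} (hC : 0 ≤ C) (b : ℝ) {P P' : CTree}
    (g : NodeP × Par P ≃ᵐ Par P') : Measurable (Fd T C b g) := by
  unfold Fd
  have h1 : Measurable fun u : Space3 × Par P' => g.symm u.2 := g.symm.measurable.comp measurable_snd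
  refine Measurable.mul ?_ (Measurable.mul ?_ ?_)
  · exact (measurable_one.indicator measurableSet_Ioo).comp h1.fst.fst
  · exact (measurable_domG hC (b / 2) T P).comp (measurable_fst.prodMk h1.snd)
  · exact (measurable_gW (b / 2)).comp h1.fst.snd

theorem Fd_graft (T C b : ℝ) {P P' : CTree} (g : NodeP × Par P ≃ᵐ Par P') (v : Space3)
    (p : Par P) (s : ℝ) (c : Space3 × Plane) :
    Fd T C b g (v, g ((s, c), p)) = (Ioo 0 T).indicator (1 : ℝ → ℝ≥0∞) s *
      (domG C (b / 2) T P v p * gW (b / 2) c) := by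
  unfold Fd
  simp only [MeasurableEquiv.symm_apply_apply]

theorem lintegral_Ioo_mul (T : ℝ) (f : ℝ → ℝ≥0∞) :
    ∫⁻ s in Ioo 0 T, f s = ∫⁻ s, (Ioo 0 T).indicator (1 : ℝ → ℝ≥0∞) s * f s := by
  rw [← lintegral_indicator measurableSet_Ioo]
  refine lintegral_congr fun s => ?_
  by_cases hs : s ∈ Ioo 0 T
  · rw [indicator_of_mem hs, indicator_of_mem hs]; simp
  · rw [indicator_of_notMem hs, indicator_of_notMem hs, zero_mul]

theorem lintegral_Fd_ne_top {T C b : ℝ} (hC : 0 ≤ C) (hb : 0 < b) {P P' : CTree} {m : Idx P}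
    {g : NodeP × Par P ≃ᵐ Par P'} (hg : IsGraft Φ P P' m g) : ∫⁻ u, Fd T C b g u ≠ ∞ := by
  rw [← lintegral_theta hg (measurable_Fd T hC b g)]
  simp only [Fd_graft]
  have hgW := measurable_gW (b / 2)
  have hD := measurable_domG hC (b / 2) T P
  have e1 : ∀ (s : ℝ) (q : Space3 × Par P), ∫⁻ c : Space3 × Plane,
      (Ioo 0 T).indicator (1 : ℝ → ℝ≥0∞) s * (domG C (b / 2) T P q.1 q.2 * gW (b / 2) c) =
      (Ioo 0 T).indicator (1 : ℝ → ℝ≥0∞) s * (domG C (b / 2) T P q.1 q.2 *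
        ∫⁻ c, gW (b / 2) c) := by
    intro s q
    rw [lintegral_const_mul _ (hgW.const_mul _), lintegral_const_mul _ hgW]
  simp only [e1]
  have e2 : ∀ s : ℝ, ∫⁻ q : Space3 × Par P,
      (Ioo 0 T).indicator (1 : ℝ → ℝ≥0∞) s * (domG C (b / 2) T P q.1 q.2 *
        ∫⁻ c, gW (b / 2) c) = (Ioo 0 T).indicator (1 : ℝ → ℝ≥0∞) s *
        ((∫⁻ q : Space3 × Par P, domG C (b / 2) T P q.1 q.2) * ∫⁻ c, gW (b / 2) c) := by
    intro s
    rw [lintegral_const_mul _ (hD.mul_const _), lintegral_mul_const _ hD]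
  simp only [e2]
  rw [lintegral_mul_const _ (measurable_one.indicator measurableSet_Ioo),
    lintegral_indicator_one measurableSet_Ioo]
  refine ENNReal.mul_ne_top (by simp) (ENNReal.mul_ne_top
    (lintegral_domG_ne_top hC (half_pos hb) T P) (lintegral_gW_ne_top (half_pos hb)))

/-- the rate -/
def qA (Φ : Space3 → ℝ) (T C b : ℝ) {P P' : CTree} (g : NodeP × Par P ≃ᵐ Par P') (ε : ℝ) : ℝ≥0∞ :=
  ∫⁻ u, Fd T C b g u * (N1 Φ ε P' T).indicator (1 : Space3 × Par P' → ℝ≥0∞) u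

/-- the rate of the open windows -/
def qB (Φ : Space3 → ℝ) (T C b : ℝ) (P : CTree) (ε : ℝ) : ℝ≥0∞ :=
  ∫⁻ z : ℝ × (Space3 × Par P), ((Ioo 0 T).indicator (1 : ℝ → ℝ≥0∞) z.1 *
    (domG C (b / 2) T P z.2.1 z.2.2 * ∫⁻ c, gW (b / 2) c)) *
    (N2 Φ ε P T).indicator (1 : ℝ × (Space3 × Par P) → ℝ≥0∞) z

theorem tendsto_qA (hΦ : AdmissiblePotential Φ) {T C b : ℝ} (hC : 0 ≤ C) (hb : 0 < b)
    {P P' : CTree} {m : Idx P} {g : NodeP × Par P ≃ᵐ Par P'} (hg : IsGraft Φ P P' m g) :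
    Tendsto (qA Φ T C b g) (𝓝[>] 0) (𝓝 0) :=
  tendsto_N1 hΦ P' T (measurable_Fd T hC b g) (lintegral_Fd_ne_top hC hb hg)

theorem tendsto_qB (hΦ : AdmissiblePotential Φ) {T C b : ℝ} (hC : 0 ≤ C) (hb : 0 < b)
    (P : CTree) : Tendsto (qB Φ T C b P) (𝓝[>] 0) (𝓝 0) := by
  have hD := measurable_domG hC (b / 2) T P
  have hI : Measurable fun z : ℝ × (Space3 × Par P) => (Ioo 0 T).indicator (1 : ℝ → ℝ≥0∞) z.1 :=
    (measurable_one.indicator measurableSet_Ioo).comp measurable_fst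
  have hm : Measurable fun z : ℝ × (Space3 × Par P) =>
      (Ioo 0 T).indicator (1 : ℝ → ℝ≥0∞) z.1 *
    (domG C (b / 2) T P z.2.1 z.2.2 * ∫⁻ c, gW (b / 2) c) :=
    hI.mul ((hD.comp measurable_snd).mul_const _)
  refine tendsto_N2 hΦ P T hm ?_
  have hvol : (volume : Measure (ℝ × (Space3 × Par P))) =
      (volume : Measure ℝ).prod (volume : Measure (Space3 × Par P)) := rfl
  rw [hvol, lintegral_prod _ hm.aemeasurable]
  have e2 : ∀ s : ℝ, ∫⁻ q : Space3 × Par P,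
      (Ioo 0 T).indicator (1 : ℝ → ℝ≥0∞) (s, q).1 * (domG C (b / 2) T P (s, q).2.1 (s, q).2.2 *
        ∫⁻ c, gW (b / 2) c) = (Ioo 0 T).indicator (1 : ℝ → ℝ≥0∞) s *
        ((∫⁻ q : Space3 × Par P, domG C (b / 2) T P q.1 q.2) * ∫⁻ c, gW (b / 2) c) := by
    intro s
    show ∫⁻ q : Space3 × Par P, (Ioo 0 T).indicator (1 : ℝ → ℝ≥0∞) s *
      (domG C (b / 2) T P q.1 q.2 * ∫⁻ c, gW (b / 2) c) = _
    rw [lintegral_const_mul _ (hD.mul_const _), lintegral_mul_const _ hD]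
  simp only [e2]
  rw [lintegral_mul_const _ (measurable_one.indicator measurableSet_Ioo),
    lintegral_indicator_one measurableSet_Ioo]
  exact ENNReal.mul_ne_top (by simp) (ENNReal.mul_ne_top
    (lintegral_domG_ne_top hC (half_pos hb) T P) (lintegral_gW_ne_top (half_pos hb)))

theorem lintegral_Rq (hΦ : AdmissiblePotential Φ) {ε T C b : ℝ} (hε : 0 < ε) (hC : 0 ≤ C)
    {P P' : CTree} {m : Idx P} {g : NodeP × Par P ≃ᵐ Par P'} (hg : IsGraft Φ P P' m g) :
    ∫⁻ s in Ioo 0 T, ∫⁻ q : Space3 × Par P, Rq Φ ε T C b g s q =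
      qA Φ T C b g ε + qB Φ T C b P ε := by
  have hgW := measurable_gW (b / 2)
  have hD := measurable_domG hC (b / 2) T P
  have hN1 := measurableSet_N1 hΦ hε P' T
  have hN2 := measurableSet_N2 hΦ ε P T
  have hi1 : Measurable ((N1 Φ ε P' T).indicator (1 : Space3 × Par P' → ℝ≥0∞)) :=
    measurable_one.indicator hN1
  have hi2 : Measurable ((N2 Φ ε P T).indicator (1 : ℝ × (Space3 × Par P) → ℝ≥0∞)) :=
    measurable_one.indicator hN2
  set I : ℝ → ℝ≥0∞ := (Ioo 0 T).indicator (1 : ℝ → ℝ≥0∞) with hI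
  have hIm : Measurable I := measurable_one.indicator measurableSet_Ioo
  -- the three-fold functions
  have hA3 : Measurable fun z : (ℝ × (Space3 × Par P)) × (Space3 × Plane) =>
      (domG C (b / 2) T P z.1.2.1 z.1.2.2 * gW (b / 2) z.2) *
        (N1 Φ ε P' T).indicator (1 : Space3 × Par P' → ℝ≥0∞)
          (z.1.2.1, g ((z.1.1, z.2), z.1.2.2)) :=
    (((hD.comp measurable_fst.snd)).mul (hgW.comp measurable_snd)).mul
      (hi1.comp (measurable_fst.snd.fst.prodMk (g.measurable.comp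
        ((measurable_fst.fst.prodMk measurable_snd).prodMk measurable_fst.snd.snd))))
  have hA2 : Measurable fun z : ℝ × (Space3 × Par P) => ∫⁻ c : Space3 × Plane,
      (domG C (b / 2) T P z.2.1 z.2.2 * gW (b / 2) c) *
        (N1 Φ ε P' T).indicator (1 : Space3 × Par P' → ℝ≥0∞) (z.2.1, g ((z.1, c), z.2.2)) :=
    Measurable.lintegral_prod_right'
      (f := fun z : (ℝ × (Space3 × Par P)) × (Space3 × Plane) =>
      (domG C (b / 2) T P z.1.2.1 z.1.2.2 * gW (b / 2) z.2) *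
        (N1 Φ ε P' T).indicator (1 : Space3 × Par P' → ℝ≥0∞)
          (z.1.2.1, g ((z.1.1, z.2), z.1.2.2))) hA3
  have hB2 : Measurable fun z : ℝ × (Space3 × Par P) =>
      (domG C (b / 2) T P z.2.1 z.2.2 * ∫⁻ c, gW (b / 2) c) *
        (N2 Φ ε P T).indicator (1 : ℝ × (Space3 × Par P) → ℝ≥0∞) z :=
    ((hD.comp measurable_snd).mul_const _).mul hi2
  have e1 : ∀ (s : ℝ) (q : Space3 × Par P), Rq Φ ε T C b g s q =
      (∫⁻ c : Space3 × Plane, (domG C (b / 2) T P q.1 q.2 * gW (b / 2) c) *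
        (N1 Φ ε P' T).indicator (1 : Space3 × Par P' → ℝ≥0∞) (q.1, g ((s, c), q.2))) +
      (domG C (b / 2) T P q.1 q.2 * ∫⁻ c, gW (b / 2) c) *
        (N2 Φ ε P T).indicator (1 : ℝ × (Space3 × Par P) → ℝ≥0∞) (s, q) := by
    intro s q
    unfold Rq
    simp only [mul_add]
    have hs : Measurable fun c : Space3 × Plane =>
        (domG C (b / 2) T P q.1 q.2 * gW (b / 2) c) *
        (N1 Φ ε P' T).indicator (1 : Space3 × Par P' → ℝ≥0∞) (q.1, g ((s, c), q.2)) :=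
      (hgW.const_mul _).mul (hi1.comp (measurable_const.prodMk (g.measurable.comp
        ((measurable_const.prodMk measurable_id).prodMk measurable_const))))
    rw [lintegral_add_left hs, lintegral_mul_const _ (hgW.const_mul _),
      lintegral_const_mul _ hgW]
  simp only [e1]
  rw [lintegral_Ioo_mul]
  have hA1 : ∀ s : ℝ, Measurable fun q : Space3 × Par P => ∫⁻ c : Space3 × Plane,
      (domG C (b / 2) T P q.1 q.2 * gW (b / 2) c) *
        (N1 Φ ε P' T).indicator (1 : Space3 × Par P' → ℝ≥0∞) (q.1, g ((s, c), q.2)) := fun s =>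
    Measurable.comp (g := fun z : ℝ × (Space3 × Par P) => ∫⁻ c : Space3 × Plane,
      (domG C (b / 2) T P z.2.1 z.2.2 * gW (b / 2) c) *
        (N1 Φ ε P' T).indicator (1 : Space3 × Par P' → ℝ≥0∞) (z.2.1, g ((z.1, c), z.2.2)))
      (f := fun q : Space3 × Par P => (s, q)) hA2 measurable_prodMk_left
  have e2 : ∀ s : ℝ, ∫⁻ q : Space3 × Par P, ((∫⁻ c : Space3 × Plane,
      (domG C (b / 2) T P q.1 q.2 * gW (b / 2) c) *
        (N1 Φ ε P' T).indicator (1 : Space3 × Par P' → ℝ≥0∞) (q.1, g ((s, c), q.2))) +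
      (domG C (b / 2) T P q.1 q.2 * ∫⁻ c, gW (b / 2) c) *
        (N2 Φ ε P T).indicator (1 : ℝ × (Space3 × Par P) → ℝ≥0∞) (s, q)) =
      (∫⁻ q : Space3 × Par P, ∫⁻ c : Space3 × Plane,
        (domG C (b / 2) T P q.1 q.2 * gW (b / 2) c) *
        (N1 Φ ε P' T).indicator (1 : Space3 × Par P' → ℝ≥0∞) (q.1, g ((s, c), q.2))) +
      ∫⁻ q : Space3 × Par P, (domG C (b / 2) T P q.1 q.2 * ∫⁻ c, gW (b / 2) c) *
        (N2 Φ ε P T).indicator (1 : ℝ × (Space3 × Par P) → ℝ≥0∞) (s, q) := fun s =>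
    lintegral_add_left (hA1 s) _
  simp only [e2, mul_add]
  have hA0 : Measurable fun s : ℝ => I s * ∫⁻ q : Space3 × Par P, ∫⁻ c : Space3 × Plane,
        (domG C (b / 2) T P q.1 q.2 * gW (b / 2) c) *
        (N1 Φ ε P' T).indicator (1 : Space3 × Par P' → ℝ≥0∞) (q.1, g ((s, c), q.2)) :=
    hIm.mul (Measurable.lintegral_prod_right' (f := fun z : ℝ × (Space3 × Par P) =>
      ∫⁻ c : Space3 × Plane, (domG C (b / 2) T P z.2.1 z.2.2 * gW (b / 2) c) *
        (N1 Φ ε P' T).indicator (1 : Space3 × Par P' → ℝ≥0∞) (z.2.1, g ((z.1, c), z.2.2))) hA2)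
  rw [lintegral_add_left hA0]
  congr 1
  · unfold qA
    have hFm : Measurable fun u : Space3 × Par P' =>
        Fd T C b g u * (N1 Φ ε P' T).indicator (1 : Space3 × Par P' → ℝ≥0∞) u :=
      (measurable_Fd T hC b g).mul hi1
    rw [← lintegral_theta hg hFm]
    refine lintegral_congr fun s => ?_
    rw [← lintegral_const_mul _ (hA1 s)]
    refine lintegral_congr fun q => ?_
    have h3 : Measurable fun c : Space3 × Plane =>
        (domG C (b / 2) T P q.1 q.2 * gW (b / 2) c) *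
        (N1 Φ ε P' T).indicator (1 : Space3 × Par P' → ℝ≥0∞) (q.1, g ((s, c), q.2)) :=
      (hgW.const_mul _).mul (hi1.comp (measurable_const.prodMk (g.measurable.comp
        ((measurable_const.prodMk measurable_id).prodMk measurable_const))))
    rw [← lintegral_const_mul _ h3]
    refine lintegral_congr fun c => ?_
    rw [Fd_graft]
    ring
  · unfold qB
    have hvol : (volume : Measure (ℝ × (Space3 × Par P))) =
      (volume : Measure ℝ).prod (volume : Measure (Space3 × Par P)) := rfl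
    have hm : Measurable fun z : ℝ × (Space3 × Par P) =>
      (I z.1 * (domG C (b / 2) T P z.2.1 z.2.2 * ∫⁻ c, gW (b / 2) c)) *
        (N2 Φ ε P T).indicator (1 : ℝ × (Space3 × Par P) → ℝ≥0∞) z :=
      ((hIm.comp measurable_fst).mul ((hD.comp measurable_snd).mul_const _)).mul hi2
    rw [hvol, lintegral_prod _ hm.aemeasurable]
    refine lintegral_congr fun s => ?_
    have h4 : Measurable fun q : Space3 × Par P =>
        (domG C (b / 2) T P q.1 q.2 * ∫⁻ c, gW (b / 2) c) *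
        (N2 Φ ε P T).indicator (1 : ℝ × (Space3 × Par P) → ℝ≥0∞) (s, q) :=
      (hD.mul_const _).mul (hi2.comp measurable_prodMk_left)
    rw [← lintegral_const_mul _ h4]
    refine lintegral_congr fun q => ?_
    ring

/-- **The measure step for one tree.** -/
theorem step (hΦ : AdmissiblePotential Φ) {b : ℝ} (hb : 0 < b) (T : ℝ) {P P' : CTree} {m : Idx P}
    {g : NodeP × Par P ≃ᵐ Par P'} (hg : IsGraft Φ P P' m g) (i0 : Idx P) :
    ∃ q : ℝ → ℝ≥0∞, Tendsto q (𝓝[>] 0) (𝓝 0) ∧ ∀ (ε : ℝ) (Ψ : Space3 → ℝ≥0∞), 0 < ε →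
      Measurable Ψ → ∫⁻ s in Ioo 0 T, ∫⁻ W : Idx P → PhasePoint, Kc Φ ε T b m i0 g Ψ s W ≤
        ENNReal.ofReal (ε ^ 2) ^ P.size * ((∫⁻ x, Ψ x) * q ε) := by
  obtain ⟨C, hC, h⟩ := fixed_time hΦ hb hg i0
  refine ⟨fun ε => qA Φ T C b g ε + qB Φ T C b P ε, ?_, fun ε Ψ hε hΨ => ?_⟩
  · have := (tendsto_qA (T := T) hΦ hC hb hg).add (tendsto_qB (T := T) hΦ hC hb P)
    rwa [add_zero] at this
  · show _ ≤ ENNReal.ofReal (ε ^ 2) ^ P.size * ((∫⁻ x, Ψ x) *
      (qA Φ T C b g ε + qB Φ T C b P ε))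
    rw [← lintegral_Rq hΦ hε hC hg]
    have hm : Measurable fun s : ℝ => ∫⁻ q : Space3 × Par P, Rq Φ ε T C b g s q :=
      Measurable.lintegral_prod_right' (f := fun z : ℝ × (Space3 × Par P) =>
        Rq Φ ε T C b g z.1 z.2) (measurable_Rq hΦ hε T hC b g)
    rw [← lintegral_const_mul _ hm, ← lintegral_const_mul _ (hm.const_mul _)]
    refine setLIntegral_mono' measurableSet_Ioo fun s hs => ?_
    exact h ε T s Ψ hε hs hΨ

end Crest.Agent.R122.Cherry796

end
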