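import Crest.Agent.R122.Omega_969

/-!
Row 122, helper350: flux through a moving sphere.

`γ` is a differentiable curve, `S` a measurable time attached to every point `x` of a measurable set
`D`, with `‖x - γ (S x)‖ = ε`.  Then

`∫_D F (S x) x ≤ ε² ∫_a^b ds ∫ |⟪γ' s, ω⟫| F s (γ s + ε ω) sphM(dω)`.
-/

set_option autoImplicit false

open MeasureTheory Crest.AnalysisR.Kinetic
open Crest.Agent.R122.Disc416 Crest.Agent.R122.Omega969
open scoped Classical ENNReal

noncomputable section

namespace Crest.Agent.R122.Flux350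

/-! ### Coordinates -/

/-- plane coordinates of `x` -/
def cpl (g x : Space3) : Plane := WithLp.toLp 2 ![inner ℝ (e1 g) x, inner ℝ (e2 g) x]

/-- axial coordinate of `x` -/
def cax (g x : Space3) : ℝ := inner ℝ (dir g) x

lemma cyl_dec {g : Space3} (hg : g ≠ 0) (x : Space3) :
    frameMap g (cpl g x) + cax g x • dir g = x := by
  have h := (frameBasis g hg).sum_repr' x
  rw [Fin.sum_univ_three] at h
  simp only [frameBasis_zero, frameBasis_one, frameBasis_two] at h
  conv_rhs => rw [← h]
  rfl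

lemma inner_frameMap_dir (g : Space3) (y : Plane) : inner ℝ (frameMap g y) (dir g) = 0 := by
  unfold dir
  rw [inner_smul_right, inner_frameMap_self, mul_zero]

lemma cax_frameMap (g : Space3) (y : Plane) : cax g (frameMap g y) = 0 := by
  unfold cax
  rw [real_inner_comm, inner_frameMap_dir]

/-- squared distance to the axis through `x`, parallel to `g`, of the plane point `y` -/
def Rsq (g : Space3) (y : Plane) (x : Space3) : ℝ := ‖frameMap g y - x‖ ^ 2 - cax g x ^ 2

lemma Rsq_eq {g : Space3} (hg : g ≠ 0) (y : Plane) (x : Space3) :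
    Rsq g y x = ‖y - cpl g x‖ ^ 2 := by
  have h : frameMap g y - x = frameMap g (y - cpl g x) + (-cax g x) • dir g := by
    conv_lhs => rw [← cyl_dec hg x]
    rw [frameMap_sub]; module
  unfold Rsq
  rw [h, norm_cyl_sq hg]; ring

lemma norm_cyl_sub {g : Space3} (hg : g ≠ 0) (y : Plane) (t : ℝ) (x : Space3) :
    ‖frameMap g y + t • dir g - x‖ ^ 2 = Rsq g y x + (t - cax g x) ^ 2 := by
  have h : frameMap g y + t • dir g - x =
      frameMap g (y - cpl g x) + (t - cax g x) • dir g := by
    conv_lhs => rw [← cyl_dec hg x]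
    rw [frameMap_sub]; module
  rw [h, norm_cyl_sq hg, Rsq_eq hg]

lemma inner_cyl_sub {g : Space3} (hg : g ≠ 0) (y : Plane) (t : ℝ) (x : Space3) :
    inner ℝ g (frameMap g y + t • dir g - x) = ‖g‖ * (t - cax g x) := by
  rw [inner_sub_right, inner_cyl hg]
  have h : inner ℝ g x = ‖g‖ * cax g x := by
    unfold cax
    conv_lhs => rw [← norm_smul_dir g]
    rw [real_inner_smul_left]
  rw [h]; ring

/-- height of the lower hemisphere of the sphere with centre `x` above the plane point `y` -/
def tht (g : Space3) (ε : ℝ) (y : Plane) (x : Space3) : ℝ := cax g x - Real.sqrt (ε ^ 2 - Rsq g y x)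

/-- point of the lower hemisphere -/
def Xpt (g : Space3) (ε : ℝ) (y : Plane) (x : Space3) : Space3 := frameMap g y + tht g ε y x • dir g

lemma measurable_fm (g : Space3) : Measurable (fun y : Plane => frameMap g y) :=
  measurable_frameMap.comp (measurable_const.prodMk measurable_id)

lemma measurable_cax (g : Space3) : Measurable (cax g) := by
  unfold cax
  exact Continuous.measurable (by fun_prop)

lemma measurable_Rsq (g : Space3) : Measurable (fun p : Plane × Space3 => Rsq g p.1 p.2) := by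
  unfold Rsq
  exact ((((measurable_fm g).comp measurable_fst).sub measurable_snd).norm.pow_const 2).sub
    (((measurable_cax g).comp measurable_snd).pow_const 2)

lemma measurable_tht (g : Space3) (ε : ℝ) : Measurable (fun p : Plane × Space3 => tht g ε p.1 p.2) := by
  unfold tht
  exact ((measurable_cax g).comp measurable_snd).sub
    (((measurable_const.sub (measurable_Rsq g))).sqrt)

lemma measurable_Xpt (g : Space3) (ε : ℝ) : Measurable (fun p : Plane × Space3 => Xpt g ε p.1 p.2) := by
  unfold Xpt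
  exact ((measurable_fm g).comp measurable_fst).add ((measurable_tht g ε).smul_const _)

/-- derivative of the height along a curve -/
lemma hasDerivAt_tht {g : Space3} {ε : ℝ} {γ γ' : ℝ → Space3} {s : ℝ}
    (hγ : HasDerivAt γ (γ' s) s) (y : Plane) (hR : Rsq g y (γ s) < ε ^ 2) :
    HasDerivAt (fun s => tht g ε y (γ s))
      (-(inner ℝ (Xpt g ε y (γ s) - γ s) (γ' s)) / Real.sqrt (ε ^ 2 - Rsq g y (γ s))) s := by
  have h1 : HasDerivAt (fun s => cax g (γ s)) (cax g (γ' s)) s := by
    unfold cax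
    have := (hasDerivAt_const s (dir g)).inner ℝ hγ
    simpa using this
  have h2 : HasDerivAt (fun s => Rsq g y (γ s))
      (2 * inner ℝ (frameMap g y - γ s) (-(γ' s)) - 2 * cax g (γ s) * cax g (γ' s)) s := by
    unfold Rsq
    have h3 := ((hγ.const_sub (frameMap g y)).norm_sq).sub (h1.pow 2)
    convert! h3 using 1
    simp
  have h0 : ε ^ 2 - Rsq g y (γ s) ≠ 0 := by linarith
  have h4 := h1.sub ((h2.const_sub (ε ^ 2)).sqrt h0)
  unfold tht
  convert! h4 using 1
  have hs : Real.sqrt (ε ^ 2 - Rsq g y (γ s)) ≠ 0 := (Real.sqrt_pos.2 (by linarith)).ne'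
  have h5 : inner ℝ (Xpt g ε y (γ s) - γ s) (γ' s) =
      inner ℝ (frameMap g y - γ s) (γ' s) + tht g ε y (γ s) * cax g (γ' s) := by
    unfold Xpt cax
    rw [show frameMap g y + tht g ε y (γ s) • dir g - γ s =
      (frameMap g y - γ s) + tht g ε y (γ s) • dir g by abel, inner_add_left,
      real_inner_smul_left]
  rw [h5, inner_neg_right]
  unfold tht
  field_simp
  ring

variable {γ γ' : ℝ → Space3} {g : Space3} {ε a b : ℝ}

/-- the set of times on the line over `y` -/
def Eset (g : Space3) (ε a b : ℝ) (γ : ℝ → Space3) (S : Space3 → ℝ) (D : Set Space3) (y : Plane) :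
    Set ℝ :=
  {s | s ∈ Set.Icc a b ∧ Rsq g y (γ s) < ε ^ 2 ∧ Xpt g ε y (γ s) ∈ D ∧ S (Xpt g ε y (γ s)) = s}

lemma measurableSet_Eset (hγ : Measurable γ) {S : Space3 → ℝ} (hS : Measurable S) {D : Set Space3}
    (hD : MeasurableSet D) (y : Plane) : MeasurableSet (Eset g ε a b γ S D y) := by
  have h0 : Measurable (fun s => (y, γ s)) := measurable_const.prodMk hγ
  have hX : Measurable (fun s => Xpt g ε y (γ s)) := by
    have h := (measurable_Xpt g ε).comp h0
    exact h
  have hR : Measurable (fun s => Rsq g y (γ s)) := by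
    have h := (measurable_Rsq g).comp h0
    exact h
  have h2 : MeasurableSet {s : ℝ | Rsq g y (γ s) < ε ^ 2} := measurableSet_lt hR measurable_const
  have h3 : MeasurableSet {s : ℝ | Xpt g ε y (γ s) ∈ D} := hX hD
  have h4 : MeasurableSet {s : ℝ | S (Xpt g ε y (γ s)) = s} :=
    measurableSet_eq_fun (hS.comp hX) measurable_id
  have h5 : Eset g ε a b γ S D y = Set.Icc a b ∩ ({s : ℝ | Rsq g y (γ s) < ε ^ 2} ∩
      ({s : ℝ | Xpt g ε y (γ s) ∈ D} ∩ {s : ℝ | S (Xpt g ε y (γ s)) = s})) := by
    ext s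
    simp only [Eset, Set.mem_inter_iff, Set.mem_ofPred_eq]
  rw [h5]
  exact measurableSet_Icc.inter (h2.inter (h3.inter h4))

lemma image_Eset (hg : g ≠ 0) {S : Space3 → ℝ} {D : Set Space3}
    (hSD : ∀ x ∈ D, S x ∈ Set.Icc a b ∧ ‖x - γ (S x)‖ = ε) (y : Plane) :
    {t : ℝ | frameMap g y + t • dir g ∈ D ∧
      inner ℝ g (frameMap g y + t • dir g - γ (S (frameMap g y + t • dir g))) < 0} =
    (fun s => tht g ε y (γ s)) '' Eset g ε a b γ S D y := by
  have hg0 : 0 < ‖g‖ := norm_pos_iff.2 hg
  ext t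
  constructor
  · rintro ⟨hx, hin⟩
    set x := frameMap g y + t • dir g with hxdef
    obtain ⟨h1, h2⟩ := hSD x hx
    have h3 : ‖x - γ (S x)‖ ^ 2 = Rsq g y (γ (S x)) + (t - cax g (γ (S x))) ^ 2 :=
      norm_cyl_sub hg y t _
    rw [hxdef, inner_cyl_sub hg, ← hxdef] at hin
    have h4 : t - cax g (γ (S x)) < 0 := by
      by_contra h
      push Not at h
      have := mul_nonneg hg0.le h
      linarith
    rw [h2] at h3
    have h5 : Rsq g y (γ (S x)) < ε ^ 2 := by nlinarith [mul_pos_of_neg_of_neg h4 h4]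
    have h6 : ε ^ 2 - Rsq g y (γ (S x)) = (cax g (γ (S x)) - t) ^ 2 := by rw [h3]; ring
    have h7 : tht g ε y (γ (S x)) = t := by
      unfold tht
      rw [h6, Real.sqrt_sq (by linarith)]; ring
    have h8 : Xpt g ε y (γ (S x)) = x := by
      unfold Xpt; rw [h7]
    refine ⟨S x, ⟨h1, h5, ?_, ?_⟩, h7⟩
    · rw [h8]; exact hx
    · rw [h8]
  · rintro ⟨s, ⟨_, h2, h3, h4⟩, rfl⟩
    have hX : frameMap g y + tht g ε y (γ s) • dir g = Xpt g ε y (γ s) := rfl
    simp only [Set.mem_ofPred_eq, hX]
    refine ⟨h3, ?_⟩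
    rw [h4]
    unfold Xpt
    rw [inner_cyl_sub hg]
    unfold tht
    have : 0 < Real.sqrt (ε ^ 2 - Rsq g y (γ s)) := Real.sqrt_pos.2 (by linarith)
    nlinarith [mul_pos hg0 this]

lemma injOn_Eset {S : Space3 → ℝ} {D : Set Space3} (y : Plane) :
    Set.InjOn (fun s => tht g ε y (γ s)) (Eset g ε a b γ S D y) := by
  intro s hs s' hs' h
  have h1 : Xpt g ε y (γ s) = Xpt g ε y (γ s') := by
    unfold Xpt; simp only at h; rw [h]
  rw [← hs.2.2.2, ← hs'.2.2.2, h1]

/-- the line over `y` -/
lemma line_le (hg : g ≠ 0) (hγ : ∀ s, HasDerivAt γ (γ' s) s) {S : Space3 → ℝ}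
    (hS : Measurable S) {D : Set Space3} (hD : MeasurableSet D)
    (hSD : ∀ x ∈ D, S x ∈ Set.Icc a b ∧ ‖x - γ (S x)‖ = ε) (F : ℝ → Space3 → ℝ≥0∞) (y : Plane) :
    ∫⁻ t in {t : ℝ | frameMap g y + t • dir g ∈ D ∧
      inner ℝ g (frameMap g y + t • dir g - γ (S (frameMap g y + t • dir g))) < 0},
      F (S (frameMap g y + t • dir g)) (frameMap g y + t • dir g) ≤
    ∫⁻ s in Set.Icc a b, if Rsq g y (γ s) < ε ^ 2 then
      ENNReal.ofReal (|inner ℝ (Xpt g ε y (γ s) - γ s) (γ' s)| /
        Real.sqrt (ε ^ 2 - Rsq g y (γ s))) * F s (Xpt g ε y (γ s)) else 0 := by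
  have hγm : Measurable γ := (continuous_iff_continuousAt.2 fun s => (hγ s).continuousAt).measurable
  have hE := measurableSet_Eset (g := g) (ε := ε) (a := a) (b := b) hγm hS hD y
  rw [image_Eset hg hSD, lintegral_image_eq_lintegral_abs_deriv_mul hE
    (fun s hs => (hasDerivAt_tht (hγ s) y hs.2.1).hasDerivWithinAt) (injOn_Eset y)]
  have h1 : ∀ s ∈ Eset g ε a b γ S D y,
      ENNReal.ofReal |(-(inner ℝ (Xpt g ε y (γ s) - γ s) (γ' s)) /
        Real.sqrt (ε ^ 2 - Rsq g y (γ s)))| *
        F (S (frameMap g y + tht g ε y (γ s) • dir g)) (frameMap g y + tht g ε y (γ s) • dir g) =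
      if Rsq g y (γ s) < ε ^ 2 then
      ENNReal.ofReal (|inner ℝ (Xpt g ε y (γ s) - γ s) (γ' s)| /
        Real.sqrt (ε ^ 2 - Rsq g y (γ s))) * F s (Xpt g ε y (γ s)) else 0 := by
    intro s hs
    have hX : frameMap g y + tht g ε y (γ s) • dir g = Xpt g ε y (γ s) := rfl
    rw [hX, hs.2.2.2, if_pos hs.2.1, abs_div, abs_neg, abs_of_nonneg (Real.sqrt_nonneg _)]
  rw [setLIntegral_congr_fun hE h1]
  exact lintegral_mono_set fun s hs => hs.1

/-- the measurable integrand of the half theorem -/
lemma Rsq_shift (hg : g ≠ 0) (y : Plane) (x : Space3) : Rsq g (cpl g x + ε • y) x = (|ε| * ‖y‖) ^ 2 := by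
  rw [Rsq_eq hg, add_sub_cancel_left, norm_smul, Real.norm_eq_abs]

lemma Xpt_shift (hg : g ≠ 0) (hε : 0 < ε) (y : Plane) (x : Space3) :
    Xpt g ε (cpl g x + ε • y) x = x + ε • entrancePoint (frameMap g y) g := by
  have h1 : ε ^ 2 - (|ε| * ‖y‖) ^ 2 = ε ^ 2 * (1 - ‖y‖ ^ 2) := by
    rw [abs_of_pos hε]; ring
  unfold Xpt tht
  rw [Rsq_shift hg, h1, Real.sqrt_mul (sq_nonneg ε), Real.sqrt_sq hε.le, frameMap_add, frameMap_smul,
    ← entrance_eq hg]
  unfold hgt
  rw [one_pow]
  conv_rhs => rw [← cyl_dec hg x]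
  module

/-- half of the flux formula at fixed time -/
lemma plane_le (hg : g ≠ 0) (hε : 0 < ε) (x v : Space3) {H : Space3 → ℝ≥0∞} (hH : Measurable H) :
    ∫⁻ y : Plane, (if Rsq g y x < ε ^ 2 then
      ENNReal.ofReal (|inner ℝ (Xpt g ε y x - x) v| / Real.sqrt (ε ^ 2 - Rsq g y x)) *
        H (Xpt g ε y x) else 0) =
    ENNReal.ofReal (ε ^ 2) * ∫⁻ w, (if inner ℝ g w < 0 then
      ENNReal.ofReal |inner ℝ v w| * H (x + ε • w) else 0) ∂sphM := by
  have hg0 : 0 < ‖g‖ := norm_pos_iff.2 hg
  set K : Plane → ℝ≥0∞ := fun y => (if Rsq g y x < ε ^ 2 then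
      ENNReal.ofReal (|inner ℝ (Xpt g ε y x - x) v| / Real.sqrt (ε ^ 2 - Rsq g y x)) *
        H (Xpt g ε y x) else 0) with hK
  have h0 : Measurable (fun y : Plane => (y, x)) := measurable_id.prodMk measurable_const
  have hX : Measurable (fun y : Plane => Xpt g ε y x) := by
    have h := (measurable_Xpt g ε).comp h0
    exact h
  have hR : Measurable (fun y : Plane => Rsq g y x) := by
    have h := (measurable_Rsq g).comp h0
    exact h
  have hKm : Measurable K := by
    refine Measurable.ite (measurableSet_lt hR measurable_const) ?_ measurable_const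
    refine Measurable.mul ?_ (hH.comp hX)
    refine ENNReal.measurable_ofReal.comp ?_
    refine Measurable.div ?_ ?_
    · have : Measurable (fun z : Space3 => |inner ℝ (z - x) v|) := by
        have : Continuous (fun z : Space3 => |inner ℝ (z - x) v|) := by fun_prop
        exact this.measurable
      exact this.comp hX
    · exact (measurable_const.sub hR).sqrt
  -- translate
  have h1 : ∫⁻ y : Plane, K y = ∫⁻ y : Plane, K (cpl g x + y) :=
    (lintegral_add_left_eq_self K (cpl g x)).symm
  have h2 : ∫⁻ y : Plane, K (cpl g x + y) = ∫⁻ y in Metric.ball (0 : Plane) ε, K (cpl g x + y) := by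
    rw [← lintegral_indicator measurableSet_ball]
    refine lintegral_congr fun y => ?_
    by_cases hy : y ∈ Metric.ball (0 : Plane) ε
    · rw [Set.indicator_of_mem hy]
    · rw [Set.indicator_of_notMem hy]
      have : ¬ Rsq g (cpl g x + y) x < ε ^ 2 := by
        rw [Rsq_eq hg, add_sub_cancel_left, not_lt]
        have : ε ≤ ‖y‖ := by simpa using hy
        exact pow_le_pow_left₀ hε.le this 2
      rw [hK]
      simp only
      rw [if_neg this]
  have h3 := lintegral_disc_scale hε (F := fun y => K (cpl g x + y))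
    (hKm.comp (measurable_const_add _))
  rw [h1, h2, h3]
  congr 1
  -- the function on the sphere
  set ψ : Space3 → ℝ≥0∞ := fun w => (if inner ℝ g w < 0 then
      ENNReal.ofReal (|inner ℝ v w| / (-inner ℝ g w)) * H (x + ε • w) else 0) with hψ
  have hψm : Measurable ψ := by
    refine Measurable.ite ?_ ?_ measurable_const
    · exact measurableSet_lt (Continuous.measurable (by fun_prop)) measurable_const
    · refine Measurable.mul ?_ (hH.comp (Continuous.measurable (by fun_prop)))
      refine ENNReal.measurable_ofReal.comp ?_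
      exact Measurable.div (Continuous.measurable (by fun_prop)) (Continuous.measurable (by fun_prop))
  have h4 := omega_disc hg hψm
  have h5 : ∀ w : Space3, ENNReal.ofReal (-inner ℝ g w) * ψ w = (if inner ℝ g w < 0 then
      ENNReal.ofReal |inner ℝ v w| * H (x + ε • w) else 0) := by
    intro w
    rw [hψ]
    simp only
    split_ifs with hw
    · have hw' : 0 < -inner ℝ g w := by linarith
      rw [← mul_assoc, ← ENNReal.ofReal_mul hw'.le, mul_div_cancel₀ _ hw'.ne']
    · rw [mul_zero]
  simp only [h5] at h4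
  rw [← h4, ← lintegral_const_mul' _ _ ENNReal.ofReal_ne_top]
  refine setLIntegral_congr_fun measurableSet_ball fun y hy => ?_
  have hy1 : ‖y‖ < 1 := by simpa using hy
  have hpos : 0 < 1 - ‖y‖ ^ 2 := by nlinarith [norm_nonneg y]
  have hsq : 0 < Real.sqrt (1 - ‖y‖ ^ 2) := Real.sqrt_pos.2 hpos
  have h6 : inner ℝ g (entrancePoint (frameMap g y) g) = -(‖g‖ * Real.sqrt (1 - ‖y‖ ^ 2)) := by
    rw [← entrance_eq hg, inner_cyl hg]
    unfold hgt
    rw [one_pow]; ring
  have h7 : Rsq g (cpl g x + ε • y) x < ε ^ 2 := by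
    rw [Rsq_shift hg, abs_of_pos hε]
    have : ε * ‖y‖ < ε := by nlinarith
    exact pow_lt_pow_left₀ this (by positivity) two_ne_zero
  have h8 : Real.sqrt (ε ^ 2 - Rsq g (cpl g x + ε • y) x) = ε * Real.sqrt (1 - ‖y‖ ^ 2) := by
    rw [Rsq_shift hg, show ε ^ 2 - (|ε| * ‖y‖) ^ 2 = ε ^ 2 * (1 - ‖y‖ ^ 2) by
      rw [abs_of_pos hε]; ring, Real.sqrt_mul (sq_nonneg ε), Real.sqrt_sq hε.le]
  rw [hK, hψ]
  simp only
  rw [if_pos h7, Xpt_shift hg hε, h8, if_pos (by rw [h6]; nlinarith [mul_pos hg0 hsq]), h6, neg_neg,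
    ← mul_assoc, ← ENNReal.ofReal_mul hg0.le, add_sub_cancel_left, real_inner_smul_left,
    real_inner_comm v, abs_mul, abs_of_pos hε]
  congr 2
  field_simp

/-- the flux formula on one hemisphere -/
theorem flux_half (hg : g ≠ 0) (hε : 0 < ε) (hγ : ∀ s, HasDerivAt γ (γ' s) s)
    (hγ' : Measurable γ') {S : Space3 → ℝ} (hS : Measurable S) {D : Set Space3}
    (hD : MeasurableSet D) (hSD : ∀ x ∈ D, S x ∈ Set.Icc a b ∧ ‖x - γ (S x)‖ = ε)
    {F : ℝ → Space3 → ℝ≥0∞} (hF : Measurable (Function.uncurry F)) :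
    ∫⁻ x in D ∩ {x | inner ℝ g (x - γ (S x)) < 0}, F (S x) x ≤
      ENNReal.ofReal (ε ^ 2) * ∫⁻ s in Set.Icc a b, ∫⁻ w, (if inner ℝ g w < 0 then
        ENNReal.ofReal |inner ℝ (γ' s) w| * F s (γ s + ε • w) else 0) ∂sphM := by
  have hγm : Measurable γ := (continuous_iff_continuousAt.2 fun s => (hγ s).continuousAt).measurable
  have hA : MeasurableSet (D ∩ {x | inner ℝ g (x - γ (S x)) < 0}) := by
    refine hD.inter (measurableSet_lt ?_ measurable_const)
    have h1 : Measurable (fun x : Space3 => x - γ (S x)) := measurable_id.sub (hγm.comp hS)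
    have h2 : Measurable (fun z : Space3 => inner ℝ g z) := Continuous.measurable (by fun_prop)
    exact h2.comp h1
  set A := D ∩ {x | inner ℝ g (x - γ (S x)) < 0} with hAdef
  have hG : Measurable (fun x => F (S x) x) := by
    have h := hF.comp (hS.prodMk measurable_id)
    exact h
  have hGA : Measurable (A.indicator fun x => F (S x) x) := hG.indicator hA
  rw [← lintegral_indicator hA, lintegral_cylinder hg hGA]
  have hcyl : Measurable (fun p : Plane × ℝ => frameMap g p.1 + p.2 • dir g) :=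
    ((measurable_fm g).comp measurable_fst).add (measurable_snd.smul_const _)
  have hm2 : Measurable (fun p : Plane × ℝ => (A.indicator fun x => F (S x) x)
      (frameMap g p.1 + p.2 • dir g)) := by
    have h := hGA.comp hcyl
    exact h
  rw [Measure.volume_eq_prod, lintegral_prod _ hm2.aemeasurable]
  -- joint measurability of the integrand
  have h0 : Measurable (fun p : Plane × ℝ => (p.1, γ p.2)) :=
    measurable_fst.prodMk (hγm.comp measurable_snd)
  have hX : Measurable (fun p : Plane × ℝ => Xpt g ε p.1 (γ p.2)) := by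
    have h := (measurable_Xpt g ε).comp h0
    exact h
  have hR : Measurable (fun p : Plane × ℝ => Rsq g p.1 (γ p.2)) := by
    have h := (measurable_Rsq g).comp h0
    exact h
  have hJ : Measurable (fun p : Plane × ℝ => if Rsq g p.1 (γ p.2) < ε ^ 2 then
      ENNReal.ofReal (|inner ℝ (Xpt g ε p.1 (γ p.2) - γ p.2) (γ' p.2)| /
        Real.sqrt (ε ^ 2 - Rsq g p.1 (γ p.2))) * F p.2 (Xpt g ε p.1 (γ p.2)) else 0) := by
    refine Measurable.ite (measurableSet_lt hR measurable_const) ?_ measurable_const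
    refine Measurable.mul ?_ ?_
    · refine ENNReal.measurable_ofReal.comp ?_
      refine Measurable.div ?_ (measurable_const.sub hR).sqrt
      have h1 : Measurable (fun p : Plane × ℝ => (Xpt g ε p.1 (γ p.2) - γ p.2, γ' p.2)) :=
        (hX.sub (hγm.comp measurable_snd)).prodMk (hγ'.comp measurable_snd)
      have h2 : Measurable (fun q : Space3 × Space3 => |inner ℝ q.1 q.2|) :=
        Continuous.measurable (by fun_prop)
      have h := h2.comp h1
      exact h
    · have h := hF.comp (measurable_snd.prodMk hX)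
      exact h
  calc ∫⁻ y : Plane, ∫⁻ t : ℝ, (A.indicator fun x => F (S x) x) (frameMap g y + t • dir g)
      ≤ ∫⁻ y : Plane, ∫⁻ s in Set.Icc a b, (if Rsq g y (γ s) < ε ^ 2 then
        ENNReal.ofReal (|inner ℝ (Xpt g ε y (γ s) - γ s) (γ' s)| /
          Real.sqrt (ε ^ 2 - Rsq g y (γ s))) * F s (Xpt g ε y (γ s)) else 0) := by
        refine lintegral_mono fun y => ?_
        refine le_trans (le_of_eq ?_) (line_le hg hγ hS hD hSD F y)
        have hc1 : Measurable (fun t : ℝ => frameMap g y + t • dir g) :=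
          (measurable_id.smul_const _).const_add _
        have hset : MeasurableSet {t : ℝ | frameMap g y + t • dir g ∈ D ∧
            inner ℝ g (frameMap g y + t • dir g - γ (S (frameMap g y + t • dir g))) < 0} := by
          have h := hc1 hA
          exact h
        rw [← lintegral_indicator hset]
        rfl
    _ = ∫⁻ s in Set.Icc a b, ∫⁻ y : Plane, (if Rsq g y (γ s) < ε ^ 2 then
        ENNReal.ofReal (|inner ℝ (Xpt g ε y (γ s) - γ s) (γ' s)| /
          Real.sqrt (ε ^ 2 - Rsq g y (γ s))) * F s (Xpt g ε y (γ s)) else 0) :=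
        lintegral_lintegral_swap hJ.aemeasurable
    _ = ∫⁻ s in Set.Icc a b, ENNReal.ofReal (ε ^ 2) * ∫⁻ w, (if inner ℝ g w < 0 then
        ENNReal.ofReal |inner ℝ (γ' s) w| * F s (γ s + ε • w) else 0) ∂sphM := by
        refine lintegral_congr fun s => ?_
        refine plane_le hg hε (γ s) (γ' s) (H := F s) ?_
        have h := hF.comp (measurable_const.prodMk measurable_id : Measurable fun x : Space3 => (s, x))
        exact h
    _ = _ := lintegral_const_mul' _ _ ENNReal.ofReal_ne_top

/-- almost every direction is transversal -/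
lemma exists_dir (hε : 0 < ε) {W : Space3 → Space3} (hW : Measurable W) {D : Set Space3}
    (hD : MeasurableSet D) (hWD : ∀ x ∈ D, ‖W x‖ = ε) :
    ∃ g : Space3, g ≠ 0 ∧ volume (D ∩ {x | inner ℝ g (W x) = 0}) = 0 := by
  have hin : Measurable (fun p : Space3 × Space3 => inner ℝ p.1 (W p.2)) := by
    have h1 : Measurable (fun p : Space3 × Space3 => (p.1, W p.2)) :=
      measurable_fst.prodMk (hW.comp measurable_snd)
    have h2 : Measurable (fun q : Space3 × Space3 => inner ℝ q.1 q.2) :=
      Continuous.measurable (by fun_prop)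
    have h := h2.comp h1
    exact h
  have hB : MeasurableSet {p : Space3 × Space3 | p.2 ∈ D ∧ inner ℝ p.1 (W p.2) = 0} := by
    refine MeasurableSet.inter (measurable_snd hD) ?_
    exact measurableSet_eq_fun hin measurable_const
  have hnull : (volume : Measure (Space3 × Space3))
      {p : Space3 × Space3 | p.2 ∈ D ∧ inner ℝ p.1 (W p.2) = 0} = 0 := by
    rw [Measure.volume_eq_prod, Measure.prod_apply_symm hB]
    rw [lintegral_eq_zero_iff (measurable_measure_prodMk_right hB)]
    refine Filter.Eventually.of_forall fun x => ?_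
    by_cases hx : x ∈ D
    · have hWx : W x ≠ 0 := by
        intro h
        have := hWD x hx
        rw [h, norm_zero] at this
        exact hε.ne this
      have hsub : (fun g : Space3 => (g, x)) ⁻¹' {p : Space3 × Space3 | p.2 ∈ D ∧ inner ℝ p.1 (W p.2) = 0} ⊆
          ((LinearMap.ker (innerₛₗ ℝ (W x)) : Submodule ℝ Space3) : Set Space3) := by
        intro g hg
        simp only [SetLike.mem_coe, LinearMap.mem_ker, innerₛₗ_apply_apply]
        rw [real_inner_comm]
        exact hg.2
      refine measure_mono_null hsub (Measure.addHaar_submodule _ _ ?_)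
      intro htop
      have : W x ∈ (LinearMap.ker (innerₛₗ ℝ (W x)) : Submodule ℝ Space3) := by
        rw [htop]; trivial
      rw [LinearMap.mem_ker, innerₛₗ_apply_apply, inner_self_eq_zero] at this
      exact hWx this
    · have : (fun g : Space3 => (g, x)) ⁻¹' {p : Space3 × Space3 | p.2 ∈ D ∧ inner ℝ p.1 (W p.2) = 0} = ∅ := by
        ext g
        simp [hx]
      simp only [this, measure_empty, Pi.zero_apply]
  rw [Measure.volume_eq_prod, Measure.measure_prod_null hB] at hnull
  have hne : ∀ᵐ g : Space3, g ≠ 0 := by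
    rw [ae_iff]
    simp
  obtain ⟨g, hg1, hg2⟩ := (hnull.and hne).exists
  exact ⟨g, hg2, hg1⟩

/-- **Flux through a moving sphere.** -/
theorem flux_sphere (hε : 0 < ε) (hγ : ∀ s, HasDerivAt γ (γ' s) s)
    (hγ' : Measurable γ') {S : Space3 → ℝ} (hS : Measurable S) {D : Set Space3}
    (hD : MeasurableSet D) (hSD : ∀ x ∈ D, S x ∈ Set.Icc a b ∧ ‖x - γ (S x)‖ = ε)
    {F : ℝ → Space3 → ℝ≥0∞} (hF : Measurable (Function.uncurry F)) :
    ∫⁻ x in D, F (S x) x ≤
      ENNReal.ofReal (ε ^ 2) * ∫⁻ s in Set.Icc a b, ∫⁻ w,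
        ENNReal.ofReal |inner ℝ (γ' s) w| * F s (γ s + ε • w) ∂sphM := by
  have hγm : Measurable γ := (continuous_iff_continuousAt.2 fun s => (hγ s).continuousAt).measurable
  have hW : Measurable (fun x : Space3 => x - γ (S x)) := measurable_id.sub (hγm.comp hS)
  obtain ⟨g, hg, hnull⟩ := exists_dir hε hW hD (fun x hx => (hSD x hx).2)
  have h1 := flux_half (F := F) hg hε hγ hγ' hS hD hSD hF
  have h2 := flux_half (F := F) (neg_ne_zero.2 hg) hε hγ hγ' hS hD hSD hF
  have hcov : D ⊆ ((D ∩ {x | inner ℝ g (x - γ (S x)) < 0}) ∪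
      (D ∩ {x | inner ℝ (-g) (x - γ (S x)) < 0})) ∪ (D ∩ {x | inner ℝ g (x - γ (S x)) = 0}) := by
    intro x hx
    rcases lt_trichotomy (inner ℝ g (x - γ (S x))) 0 with h | h | h
    · exact Or.inl (Or.inl ⟨hx, h⟩)
    · exact Or.inr ⟨hx, h⟩
    · refine Or.inl (Or.inr ⟨hx, ?_⟩)
      simp only [Set.mem_ofPred_eq, inner_neg_left]
      linarith
  have hm : Measurable (fun p : ℝ × Space3 => ENNReal.ofReal |inner ℝ (γ' p.1) p.2| *
      F p.1 (γ p.1 + ε • p.2)) := by
    refine Measurable.mul (ENNReal.measurable_ofReal.comp ?_) ?_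
    · have h1 : Measurable (fun p : ℝ × Space3 => (γ' p.1, p.2)) :=
        (hγ'.comp measurable_fst).prodMk measurable_snd
      have h2 : Measurable (fun q : Space3 × Space3 => |inner ℝ q.1 q.2|) :=
        Continuous.measurable (by fun_prop)
      have h := h2.comp h1
      exact h
    · have h1 : Measurable (fun p : ℝ × Space3 => (p.1, γ p.1 + ε • p.2)) :=
        measurable_fst.prodMk ((hγm.comp measurable_fst).add (measurable_snd.const_smul ε))
      have h := hF.comp h1
      exact h
  have hmi : ∀ g : Space3, Measurable (fun p : ℝ × Space3 => if inner ℝ g p.2 < 0 then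
      ENNReal.ofReal |inner ℝ (γ' p.1) p.2| * F p.1 (γ p.1 + ε • p.2) else 0) := by
    intro g
    refine Measurable.ite (measurableSet_lt ?_ measurable_const) hm measurable_const
    have h2 : Measurable (fun z : Space3 => inner ℝ g z) := Continuous.measurable (by fun_prop)
    exact h2.comp measurable_snd
  calc ∫⁻ x in D, F (S x) x
      ≤ ∫⁻ x in ((D ∩ {x | inner ℝ g (x - γ (S x)) < 0}) ∪
          (D ∩ {x | inner ℝ (-g) (x - γ (S x)) < 0})) ∪
          (D ∩ {x | inner ℝ g (x - γ (S x)) = 0}), F (S x) x := lintegral_mono_set hcov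
    _ ≤ (∫⁻ x in (D ∩ {x | inner ℝ g (x - γ (S x)) < 0}) ∪
          (D ∩ {x | inner ℝ (-g) (x - γ (S x)) < 0}), F (S x) x) +
          ∫⁻ x in D ∩ {x | inner ℝ g (x - γ (S x)) = 0}, F (S x) x := lintegral_union_le _ _ _
    _ = ∫⁻ x in (D ∩ {x | inner ℝ g (x - γ (S x)) < 0}) ∪
          (D ∩ {x | inner ℝ (-g) (x - γ (S x)) < 0}), F (S x) x := by
        rw [setLIntegral_measure_zero _ _ hnull, add_zero]
    _ ≤ (∫⁻ x in D ∩ {x | inner ℝ g (x - γ (S x)) < 0}, F (S x) x) +
          ∫⁻ x in D ∩ {x | inner ℝ (-g) (x - γ (S x)) < 0}, F (S x) x := lintegral_union_le _ _ _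
    _ ≤ _ := add_le_add h1 h2
    _ = ENNReal.ofReal (ε ^ 2) * ∫⁻ s in Set.Icc a b, ((∫⁻ w, (if inner ℝ g w < 0 then
        ENNReal.ofReal |inner ℝ (γ' s) w| * F s (γ s + ε • w) else 0) ∂sphM) +
        ∫⁻ w, (if inner ℝ (-g) w < 0 then
        ENNReal.ofReal |inner ℝ (γ' s) w| * F s (γ s + ε • w) else 0) ∂sphM) := by
        rw [← mul_add, lintegral_add_left]
        exact (hmi g).lintegral_prod_right'
    _ ≤ _ := by
        gcongr with s
        rw [← lintegral_add_left]
        · refine lintegral_mono fun w => ?_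
          by_cases hw : inner ℝ g w < 0
          · rw [if_pos hw, if_neg (by rw [inner_neg_left]; linarith), add_zero]
          · rw [if_neg hw, zero_add]
            split_ifs
            · exact le_rfl
            · exact zero_le
        · have h := (hmi g).comp (measurable_const.prodMk measurable_id : Measurable fun x : Space3 => (s, x))
          exact h

end Crest.Agent.R122.Flux350

end
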