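import Crest.Agent.R122.Cherry5_796
import Crest.Agent.R122.Graft2_968
import Crest.Agent.R122.BadDefs_726
import Crest.Agent.R122.VolFlux1_350

/-!
# Row 122 (helper796), D5 (b): the measure of the bad release steps (one released particle)

`badY` is the measurable set of the `(s, (Y, z))` such that the release of `z` from the particle `m`
of `Y` (time-`0` pull-back) at time `s` is a bad graft (`Chain726.BadGraft`); `cherry` is the bound
of its flux integral (right-hand side of `Flux350.FS1`).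
-/

set_option autoImplicit false
set_option synthInstance.maxSize 1024
set_option linter.unusedSectionVars false
set_option maxHeartbeats 400000

open MeasureTheory Set Filter Topology
open Crest.AnalysisR.Kinetic
open scoped ENNReal

noncomputable section

namespace Crest.Agent.R122.Cherry796

open Kin796 Kin796.CTree Disc416 Tree674 TreeEps399 TreeDom974 TreeLim974 Flow671 Graft968

variable {Φ : Space3 → ℝ}

/-! ### The parameters of the graft as a measurable equivalence -/

/-- inverse of `gpar` -/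
def ginv : ∀ (P : CTree) (m : Idx P), Par (graft P m) → NodeP × Par P
  | leaf, _ => fun q => (q.1, ())
  | node l _, Sum.inl m => fun q => ((ginv l m q.2.1).1, (q.1, (ginv l m q.2.1).2, q.2.2))
  | node _ r, Sum.inr m => fun q => ((ginv r m q.2.2).1, (q.1, q.2.1, (ginv r m q.2.2).2))

theorem ginv_gpar : ∀ (P : CTree) (m : Idx P) (q : NodeP × Par P), ginv P m (gpar P m q) = q
  | leaf, _, _ => rfl
  | node l r, Sum.inl m, q => by
      have h := ginv_gpar l m (q.1, q.2.2.1)
      show ((ginv l m (gpar l m (q.1, q.2.2.1))).1,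
        (q.2.1, (ginv l m (gpar l m (q.1, q.2.2.1))).2, q.2.2.2)) = q
      rw [h]
      rfl
  | node l r, Sum.inr m, q => by
      have h := ginv_gpar r m (q.1, q.2.2.2)
      show ((ginv r m (gpar r m (q.1, q.2.2.2))).1,
        (q.2.1, q.2.2.1, (ginv r m (gpar r m (q.1, q.2.2.2))).2)) = q
      rw [h]
      rfl

theorem gpar_ginv : ∀ (P : CTree) (m : Idx P) (q : Par (graft P m)), gpar P m (ginv P m q) = q
  | leaf, _, _ => rfl
  | node l r, Sum.inl m, q => by
      have h := gpar_ginv l m q.2.1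
      show ((q.1, gpar l m ((ginv l m q.2.1).1, (ginv l m q.2.1).2), q.2.2) :
        Par (node (graft l m) r)) = q
      rw [show ((ginv l m q.2.1).1, (ginv l m q.2.1).2) = ginv l m q.2.1 from rfl, h]
      rfl
  | node l r, Sum.inr m, q => by
      have h := gpar_ginv r m q.2.2
      show ((q.1, q.2.1, gpar r m ((ginv r m q.2.2).1, (ginv r m q.2.2).2)) :
        Par (node l (graft r m))) = q
      rw [show ((ginv r m q.2.2).1, (ginv r m q.2.2).2) = ginv r m q.2.2 from rfl, h]
      rfl

theorem measurable_ginv : ∀ (P : CTree) (m : Idx P), Measurable (ginv P m)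
  | leaf, _ => (measurable_par1 leaf leaf).prodMk measurable_const
  | node l r, Sum.inl m => by
      have h1 := measurable_par1 (graft l m) r
      have h2 := (measurable_ginv l m).comp (measurable_parL (graft l m) r)
      have h3 := measurable_parR (graft l m) r
      exact h2.fst.prodMk (h1.prodMk (h2.snd.prodMk h3))
  | node l r, Sum.inr m => by
      have h1 := measurable_par1 l (graft r m)
      have h2 := (measurable_ginv r m).comp (measurable_parR l (graft r m))
      have h3 := measurable_parL l (graft r m)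
      exact h2.fst.prodMk (h1.prodMk (h3.prodMk h2.snd))

/-- `gpar` as a measurable equivalence -/
def gEq (P : CTree) (m : Idx P) : NodeP × Par P ≃ᵐ Par (graft P m) where
  toFun := gpar P m
  invFun := ginv P m
  left_inv := ginv_gpar P m
  right_inv := gpar_ginv P m
  measurable_toFun := measurable_gpar P m
  measurable_invFun := measurable_ginv P m

@[simp] theorem gEq_apply (P : CTree) (m : Idx P) (q : NodeP × Par P) :
    gEq P m q = gpar P m q := rfl

theorem aft_iff {ε s : ℝ} : ∀ {P : CTree} {v : Space3} {p : Par P},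
    Aft Φ ε P s v p ↔ After Φ ε s P v p
  | leaf, _, _ => Iff.rfl
  | node l r, v, p => by
      unfold Aft After
      rw [aft_iff (P := l), aft_iff (P := r)]

theorem lt_entr {s : ℝ} : ∀ (P : CTree) (T : ℝ) (v : Space3) (p : Par P) (m : Idx P), s < T →
    Aft Φ 0 P s v p → s < entr Φ 0 P T v p m
  | leaf, _, _, _, _, h, _ => h
  | node l _, _, v, p, Sum.inl m, _, hA =>
      lt_entr l (Tree674.sin Φ 0 v p.1) _ p.2.1 m hA.1 hA.2.1
  | node _ r, _, v, p, Sum.inr m, _, hA =>
      lt_entr r (Tree674.sin Φ 0 v p.1) _ p.2.2 m hA.1 hA.2.2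

theorem isGraft (P : CTree) (m : Idx P) : IsGraft Φ P (graft P m) m (gEq P m) where
  mp := measurePreserving_gpar P m
  valid0 T v p a hV hA hadm h0 hT := by
    rw [gEq_apply, valid_graft]
    refine ⟨hV, hadm, lt_entr P T v p m hT hA, ?_⟩
    rw [sin_zero]
    exact h0

theorem exs_of_prot {s : ℝ} : ∀ (P : CTree) (T : ℝ) (p : Par P), (∀ x, s ≤ prot P T p x) →
    Exs P s p
  | leaf, _, _, _ => trivial
  | node l r, T, p, h => by
      have hr : ∀ x : Idx r, s ≤ prot r p.1.1 p.2.2 x := fun x => h (Sum.inr x)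
      have hroot : ∀ (Q : CTree) (t : ℝ) (q : Par Q), prot Q t q (root Q) = t := by
        intro Q
        induction Q with
        | leaf => intro t q; rfl
        | node l r ihl _ => intro t q; exact ihl t q.2.1
      refine ⟨?_, exs_of_prot l T p.2.1 fun x => h (Sum.inl x), exs_of_prot r p.1.1 p.2.2 hr⟩
      have := hr (root r)
      rwa [hroot] at this

/-! ### The bad set for an arbitrary index type -/

section general

variable {κ : Type*} [Fintype κ]

/-- the bad set: `s`, `Y` (time-`0` pull-back of the group), `(w, y)` -/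
def CW (Φ : Space3 → ℝ) (ε T : ℝ) (m : κ) : Set (ℝ × ((κ → PhasePoint) × (Space3 × Plane))) :=
  {c | ∃ (P : CTree) (e : Idx P ≃ κ),
    (c.1, ((fun x => c.2.1 (e x)), c.2.2)) ∈ CW1 Φ ε T (gEq P (e.symm m))}

theorem measurable_relab {P : CTree} (e : Idx P ≃ κ) :
    Measurable fun c : ℝ × ((κ → PhasePoint) × (Space3 × Plane)) =>
      (c.1, ((fun x => c.2.1 (e x)), c.2.2)) := by
  have h : Measurable fun c : ℝ × ((κ → PhasePoint) × (Space3 × Plane)) =>
      fun x => c.2.1 (e x) := by
    refine measurable_pi_iff.2 fun x => ?_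
    exact (measurable_pi_apply (e x)).comp measurable_snd.fst
  exact measurable_fst.prodMk (h.prodMk measurable_snd.snd)

theorem measurableSet_CW (hΦ : AdmissiblePotential Φ) {ε T : ℝ} (hε : 0 < ε) (m : κ) :
    MeasurableSet (CW Φ ε T m) := by
  have e0 : CW Φ ε T m = ⋃ (P : CTree), ⋃ (e : Idx P ≃ κ),
      (fun c : ℝ × ((κ → PhasePoint) × (Space3 × Plane)) =>
        (c.1, ((fun x => c.2.1 (e x)), c.2.2))) ⁻¹' (CW1 Φ ε T (gEq P (e.symm m))) := by
    ext c
    simp only [CW, mem_ofPred_eq, mem_iUnion, mem_preimage]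
  rw [e0]
  refine MeasurableSet.iUnion fun P => MeasurableSet.iUnion fun e => ?_
  exact (measurableSet_CW1 hΦ hε (gEq P (e.symm m))).preimage (measurable_relab e)

theorem mem_CW (hΦ : AdmissiblePotential Φ) {ε T : ℝ} (hε : 0 < ε) {m : κ} {s : ℝ}
    {Y : κ → PhasePoint} {c : Space3 × Plane} {P : CTree} {e : Idx P ≃ κ} {ℓ : PhasePoint}
    {p : Par P} (hV : Valid Φ ε P T ℓ.2 p) (hS : Sep Φ ε P T ℓ p)
    (hY : ∀ x, Y (e x) = lines Φ ε P ℓ p x) (hs : Exs P s p)
    (hB : ¬ (Aft Φ ε P s ℓ.2 p ∧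
      Valid Φ ε (graft P (e.symm m)) T ℓ.2 (gpar P (e.symm m) ((s, c), p)) ∧
      Sep Φ ε (graft P (e.symm m)) T ℓ (gpar P (e.symm m) ((s, c), p)))) :
    (s, (Y, c)) ∈ CW Φ ε T m := by
  refine ⟨P, e, ?_⟩
  have h := mem_CW1 hΦ hε (g := gEq P (e.symm m)) (s := s) (ℓ := ℓ) (p := p) (c := c) ⟨hV, hS⟩ hs hB
  have e1 : (fun x => Y (e x)) = lines Φ ε P ℓ p := funext hY
  show (s, ((fun x => Y (e x)), c)) ∈ _
  rw [e1]
  exact h

/-- the bad set in terms of the state `z` of the released particle -/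
def badY (Φ : Space3 → ℝ) (ε T : ℝ) (m : κ) : Set (ℝ × ((κ → PhasePoint) × PhasePoint)) :=
  {c | (c.1, (c.2.1, (c.2.2.2, Flux350.cpl ((flow Φ ε c.1 c.2.1 m).2 - c.2.2.2)
    ((1 / ε) • (c.2.2.1 - (flow Φ ε c.1 c.2.1 m).1))))) ∈ CW Φ ε T m}

theorem measurable_cpl : Measurable fun z : Space3 × Space3 => Flux350.cpl z.1 z.2 := by
  unfold Flux350.cpl
  have h1 : Measurable fun z : Space3 × Space3 => inner ℝ (e1 z.1) z.2 :=
    (measurable_e1.comp measurable_fst).inner measurable_snd
  have h2 : Measurable fun z : Space3 × Space3 => inner ℝ (e2 z.1) z.2 :=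
    (measurable_e2.comp measurable_fst).inner measurable_snd
  refine (WithLp.measurable_toLp 2 (Fin 2 → ℝ)).comp (measurable_pi_iff.2 fun i => ?_)
  fin_cases i
  · exact h1
  · exact h2

theorem measurable_flowm (hΦ : AdmissiblePotential Φ) {ε : ℝ} (hε : 0 < ε) (m : κ) :
    Measurable fun c : ℝ × ((κ → PhasePoint) × PhasePoint) => flow Φ ε c.1 c.2.1 m := by
  have h0 : Measurable fun c : ℝ × ((κ → PhasePoint) × PhasePoint) => (c.1, c.2.1) :=
    measurable_fst.prodMk measurable_snd.fst
  have h1 : Measurable fun c : ℝ × ((κ → PhasePoint) × PhasePoint) => flow Φ ε c.1 c.2.1 :=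
    Measurable.comp (g := fun p : ℝ × (κ → PhasePoint) => flow Φ ε p.1 p.2)
      (f := fun c : ℝ × ((κ → PhasePoint) × PhasePoint) => (c.1, c.2.1))
      (measurable_flow_joint hΦ hε) h0
  exact measurable_pi_iff.1 h1 m

/-- the coordinates `(s, Y, (w, y))` -/
def coY (Φ : Space3 → ℝ) (ε : ℝ) (m : κ) (c : ℝ × ((κ → PhasePoint) × PhasePoint)) :
    ℝ × ((κ → PhasePoint) × (Space3 × Plane)) :=
  (c.1, (c.2.1, (c.2.2.2, Flux350.cpl ((flow Φ ε c.1 c.2.1 m).2 - c.2.2.2)
    ((1 / ε) • (c.2.2.1 - (flow Φ ε c.1 c.2.1 m).1)))))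

theorem measurable_coY (hΦ : AdmissiblePotential Φ) {ε : ℝ} (hε : 0 < ε) (m : κ) :
    Measurable (coY Φ ε m) := by
  have hf := measurable_flowm hΦ hε m
  have ha : Measurable fun c : ℝ × ((κ → PhasePoint) × PhasePoint) =>
      (flow Φ ε c.1 c.2.1 m).2 - c.2.2.2 := hf.snd.sub measurable_snd.snd.snd
  have hb : Measurable fun c : ℝ × ((κ → PhasePoint) × PhasePoint) =>
      (1 / ε) • (c.2.2.1 - (flow Φ ε c.1 c.2.1 m).1) :=
    (measurable_snd.snd.fst.sub hf.fst).const_smul (1 / ε)
  have h1 : Measurable fun c : ℝ × ((κ → PhasePoint) × PhasePoint) =>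
      Flux350.cpl ((flow Φ ε c.1 c.2.1 m).2 - c.2.2.2)
        ((1 / ε) • (c.2.2.1 - (flow Φ ε c.1 c.2.1 m).1)) :=
    Measurable.comp (g := fun z : Space3 × Space3 => Flux350.cpl z.1 z.2)
      (f := fun c : ℝ × ((κ → PhasePoint) × PhasePoint) =>
        ((flow Φ ε c.1 c.2.1 m).2 - c.2.2.2, (1 / ε) • (c.2.2.1 - (flow Φ ε c.1 c.2.1 m).1)))
      measurable_cpl (ha.prodMk hb)
  exact measurable_fst.prodMk (measurable_snd.fst.prodMk (measurable_snd.snd.snd.prodMk h1))

theorem measurableSet_badY (hΦ : AdmissiblePotential Φ) {ε T : ℝ} (hε : 0 < ε) (m : κ) :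
    MeasurableSet (badY Φ ε T m) :=
  measurable_coY hΦ hε m (measurableSet_CW hΦ hε m)

/-- plane coordinates of the entrance point -/
theorem cpl_entrance {g : Space3} (hg : g ≠ 0) (y : Plane) :
    Flux350.cpl g (entrancePoint (frameMap g y) g) = y := by
  have h1 : inner ℝ (e1 g) (entrancePoint (frameMap g y) g) = y 0 := by
    unfold entrancePoint frameMap
    rw [inner_sub_right, inner_smul_right, inner_e1_self, mul_zero, sub_zero, inner_add_right,
      inner_smul_right, inner_smul_right, real_inner_self_eq_norm_sq, norm_e1_sq,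
      real_inner_comm, inner_e2_e1]
    ring
  have h2 : inner ℝ (e2 g) (entrancePoint (frameMap g y) g) = y 1 := by
    unfold entrancePoint frameMap
    rw [inner_sub_right, inner_smul_right, inner_e2_self, mul_zero, sub_zero, inner_add_right,
      inner_smul_right, inner_smul_right, real_inner_self_eq_norm_sq, norm_e2_sq hg,
      inner_e2_e1]
    ring
  unfold Flux350.cpl
  rw [h1, h2]
  ext i
  fin_cases i <;> rfl

theorem mem_badY_iff {ε T : ℝ} (hε : 0 < ε) {m : κ} {s : ℝ} {Y : κ → PhasePoint} {w : Space3}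
    {y : Plane} (hw : (flow Φ ε s Y m).2 ≠ w) :
    (s, (Y, ((flow Φ ε s Y m).1 + ε • entrancePoint (frameMap ((flow Φ ε s Y m).2 - w) y)
      ((flow Φ ε s Y m).2 - w), w))) ∈ badY Φ ε T m ↔ (s, (Y, (w, y))) ∈ CW Φ ε T m := by
  unfold badY
  simp only [mem_ofPred_eq]
  rw [add_sub_cancel_left, smul_smul, one_div, inv_mul_cancel₀ hε.ne', one_smul,
    cpl_entrance (sub_ne_zero.2 hw)]

/-- **the bad grafts are in the bad set** -/
theorem mem_badY (hΦ : AdmissiblePotential Φ) {ε T : ℝ} (hε : 0 < ε) {i m : κ} {s : ℝ}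
    {Y : κ → PhasePoint} {z : PhasePoint} (h : Chain726.BadGraft Φ ε T i s Y m z) :
    (s, (Y, z)) ∈ badY Φ ε T m := by
  obtain ⟨P, e, ℓ, p, y, hV, hS, -, hY, hs, -, hw, hz, hB⟩ := h
  have e1 : z = ((flow Φ ε s Y m).1 + ε • entrancePoint (frameMap ((flow Φ ε s Y m).2 - z.2) y)
      ((flow Φ ε s Y m).2 - z.2), z.2) := Prod.ext hz rfl
  rw [e1, mem_badY_iff hε hw]
  refine mem_CW hΦ hε hV hS hY (exs_of_prot P T p hs) ?_
  rw [aft_iff]
  exact hB

end general

end Crest.Agent.R122.Cherry796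

end
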