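import Crest.Agent.R122.VolFlux3_350

/-!
Row 122, helper350: the flux step for one released particle (FS1), (FS1Z).
-/

set_option autoImplicit false
set_option linter.unusedSectionVars false

open MeasureTheory Set Filter Topology
open Crest.AnalysisR.Kinetic
open Crest.Agent.R122.Flow671 Crest.Agent.R122.Loc45 Crest.Agent.R122.Causal291
open Crest.Agent.R122.Omega969 Crest.Agent.R122.Disc416
open scoped Classical ENNReal

noncomputable section

namespace Crest.Agent.R122.Flux350

variable {Φ : Space3 → ℝ} {ε : ℝ} {υ κ : Type*} [Fintype υ] [Fintype κ]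

/-- change of variables by the flow, without measurability of the integrand -/
lemma lintegral_flow (hΦ : AdmissiblePotential Φ) (hε : 0 < ε) (s : ℝ)
    (f : (κ → PhasePoint) → ℝ≥0∞) : ∫⁻ Y, f (flow Φ ε s Y) = ∫⁻ Y, f Y := by
  let e : (κ → PhasePoint) ≃ᵐ (κ → PhasePoint) :=
    { toFun := flow Φ ε s
      invFun := flow Φ ε (-s)
      left_inv := fun Z => flow_neg_flow hΦ hε s Z
      right_inv := fun Z => flow_flow_neg hΦ hε s Z
      measurable_toFun := measurable_flow hΦ hε s
      measurable_invFun := measurable_flow hΦ hε (-s) }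
  exact (measurePreserving_flow (ι := κ) hΦ hε s).lintegral_comp_emb e.measurableEmbedding f

lemma lintegral_one_particle [Unique υ] (f : PhasePoint → ℝ≥0∞) :
    ∫⁻ U : υ → PhasePoint, f (U default) = ∫⁻ z, f z := by
  have hinst : ‹Fintype υ› = Unique.fintype := Subsingleton.elim _ _
  subst hinst
  exact (volume_preserving_funUnique υ PhasePoint).lintegral_comp_emb
    (MeasurableEquiv.funUnique υ PhasePoint).measurableEmbedding f

lemma sphere_disc (v w x : Space3) {H : Space3 → ℝ≥0∞} (hH : Measurable H) :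
    ∫⁻ u, ENNReal.ofReal (inner ℝ u (w - v)) * H (x + ε • u) ∂sphM =
      ∫⁻ y in Metric.ball (0 : Plane) 1, ENNReal.ofReal ‖v - w‖ *
        H (x + ε • entrancePoint (frameMap (v - w) y) (v - w)) := by
  by_cases hg : v - w = 0
  · have h1 : w - v = 0 := by rw [← neg_sub, hg, neg_zero]
    simp [hg, h1]
  · have h := omega_disc hg (ψ := fun u => H (x + ε • u))
      (hH.comp (Continuous.measurable (by fun_prop)))
    rw [lintegral_const_mul' _ _ ENNReal.ofReal_ne_top, h]
    refine lintegral_congr fun u => ?_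
    rw [← inner_neg_left, neg_sub, real_inner_comm]

/-- **(FS1) Flux step, one released particle**, node coordinates. -/
theorem FS1 [Unique υ] (hΦ : AdmissiblePotential Φ) (hε : 0 < ε) {T : ℝ} (hT : 0 ≤ T) (m : κ)
    {G : ℝ → (κ → PhasePoint) → PhasePoint → ℝ≥0∞}
    (hG : Measurable fun p : ℝ × (κ → PhasePoint) × PhasePoint => G p.1 p.2.1 p.2.2) :
    ∃ M : (υ ⊕ κ → PhasePoint) → ℝ≥0∞, Measurable M ∧
      (∀ W s, Rel Φ ε T default m W s →
        G s (keep Φ ε s W) (flow Φ ε s W (Sum.inl default)) ≤ M W) ∧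
      ∫⁻ W, M W ≤ ENNReal.ofReal (ε ^ 2) * ∫⁻ s in Icc 0 T, ∫⁻ Y : κ → PhasePoint,
        ∫⁻ w : Space3, ∫⁻ y in Metric.ball (0 : Plane) 1,
          ENNReal.ofReal ‖(flow Φ ε s Y m).2 - w‖ * G s Y
            ((flow Φ ε s Y m).1 + ε • entrancePoint (frameMap ((flow Φ ε s Y m).2 - w) y)
              ((flow Φ ε s Y m).2 - w), w) := by
  have hG' : Measurable fun p : ℝ × (κ → PhasePoint) × (υ → PhasePoint) =>
      (fun s Y (U : υ → PhasePoint) => G s Y (U default)) p.1 p.2.1 p.2.2 := by
    have h := hG.comp (measurable_fst.prodMk ((measurable_fst.comp measurable_snd).prodMk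
      ((measurable_pi_apply default).comp (measurable_snd.comp measurable_snd))) :
        Measurable fun p : ℝ × (κ → PhasePoint) × (υ → PhasePoint) => (p.1, (p.2.1, p.2.2 default)))
    exact h
  obtain ⟨M, hM, hM1, hM2⟩ := FSJ hΦ hε hT (default : υ) m
    (G := fun s Y (U : υ → PhasePoint) => G s Y (U default)) hG'
  refine ⟨M, hM, hM1, hM2.trans (le_of_eq ?_)⟩
  congr 1
  refine lintegral_congr fun s => lintegral_congr fun Y => ?_
  -- reduce to one particle
  have h1 : ∀ U : υ → PhasePoint, kw (U default).1 * Kin Φ ε default m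
      (fun s Y (U : υ → PhasePoint) => G s Y (U default)) s Y U =
      (fun z : PhasePoint => kw z.1 * ∫⁻ u, ENNReal.ofReal (inner ℝ u (z.2 - (flow Φ ε s Y m).2)) *
        G s Y ((flow Φ ε s Y m).1 + ε • u, z.2) ∂sphM) (U default) := by
    intro U
    unfold Kin
    simp only
    congr 1
    refine lintegral_congr fun u => ?_
    congr 2
    refine Prod.ext ?_ rfl
    simp [shiftX]
  simp only [h1]
  have h2 := lintegral_one_particle (υ := υ)
    (fun z : PhasePoint => kw z.1 * ∫⁻ u, ENNReal.ofReal (inner ℝ u (z.2 - (flow Φ ε s Y m).2)) *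
        G s Y ((flow Φ ε s Y m).1 + ε • u, z.2) ∂sphM)
  refine Eq.trans h2 ?_
  have hGs : Measurable fun p : (Space3 × Space3) => G s Y (p.1, p.2) := by
    have h := hG.comp (measurable_const.prodMk (measurable_const.prodMk measurable_id) :
      Measurable fun p : Space3 × Space3 => (s, (Y, p)))
    exact h
  have h3 : ∀ w : Space3, ∫⁻ u, ENNReal.ofReal (inner ℝ u (w - (flow Φ ε s Y m).2)) *
        G s Y ((flow Φ ε s Y m).1 + ε • u, w) ∂sphM =
      ∫⁻ y in Metric.ball (0 : Plane) 1,
          ENNReal.ofReal ‖(flow Φ ε s Y m).2 - w‖ * G s Y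
            ((flow Φ ε s Y m).1 + ε • entrancePoint (frameMap ((flow Φ ε s Y m).2 - w) y)
              ((flow Φ ε s Y m).2 - w), w) := by
    intro w
    refine sphere_disc (flow Φ ε s Y m).2 w (flow Φ ε s Y m).1 (H := fun x => G s Y (x, w)) ?_
    have h := hGs.comp (measurable_id.prodMk measurable_const : Measurable fun x : Space3 => (x, w))
    exact h
  simp only [h3]
  -- the weight integrates to one
  have hm : Measurable (fun w : Space3 => ∫⁻ y in Metric.ball (0 : Plane) 1,
          ENNReal.ofReal ‖(flow Φ ε s Y m).2 - w‖ * G s Y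
            ((flow Φ ε s Y m).1 + ε • entrancePoint (frameMap ((flow Φ ε s Y m).2 - w) y)
              ((flow Φ ε s Y m).2 - w), w)) := by
    have h4 : Measurable (fun q : Space3 × Space3 =>
        ENNReal.ofReal (inner ℝ q.2 (q.1 - (flow Φ ε s Y m).2)) *
        G s Y ((flow Φ ε s Y m).1 + ε • q.2, q.1)) := by
      refine (ENNReal.measurable_ofReal.comp (Continuous.measurable (by fun_prop))).mul ?_
      have h := hGs.comp (((measurable_snd.const_smul ε).const_add _).prodMk measurable_fst :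
        Measurable fun q : Space3 × Space3 => ((flow Φ ε s Y m).1 + ε • q.2, q.1))
      exact h
    have h5 := h4.lintegral_prod_right' (ν := sphM)
    simp only [h3] at h5
    exact h5
  rw [Measure.volume_eq_prod]
  refine (lintegral_prod_mul (f := kw) measurable_kw.aemeasurable hm.aemeasurable).trans ?_
  rw [lintegral_kw, one_mul]

/-- **(FS1Z)**: the same with the state at time `s`. -/
theorem FS1Z [Unique υ] (hΦ : AdmissiblePotential Φ) (hε : 0 < ε) {T : ℝ} (hT : 0 ≤ T) (m : κ)
    {G : ℝ → (κ → PhasePoint) → PhasePoint → ℝ≥0∞}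
    (hG : Measurable fun p : ℝ × (κ → PhasePoint) × PhasePoint => G p.1 p.2.1 p.2.2) :
    ∃ M : (υ ⊕ κ → PhasePoint) → ℝ≥0∞, Measurable M ∧
      (∀ W s, Rel Φ ε T default m W s →
        G s (keep Φ ε s W) (flow Φ ε s W (Sum.inl default)) ≤ M W) ∧
      ∫⁻ W, M W ≤ ENNReal.ofReal (ε ^ 2) * ∫⁻ s in Icc 0 T, ∫⁻ Z : κ → PhasePoint,
        ∫⁻ w : Space3, ∫⁻ y in Metric.ball (0 : Plane) 1,
          ENNReal.ofReal ‖(Z m).2 - w‖ * G s (flow Φ ε (-s) Z)
            ((Z m).1 + ε • entrancePoint (frameMap ((Z m).2 - w) y) ((Z m).2 - w), w) := by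
  obtain ⟨M, hM, hM1, hM2⟩ := FS1 (υ := υ) hΦ hε hT m hG
  refine ⟨M, hM, hM1, hM2.trans (le_of_eq ?_)⟩
  congr 1
  refine lintegral_congr fun s => ?_
  rw [← lintegral_flow hΦ hε s (fun Z : κ → PhasePoint => ∫⁻ w : Space3,
    ∫⁻ y in Metric.ball (0 : Plane) 1, ENNReal.ofReal ‖(Z m).2 - w‖ * G s (flow Φ ε (-s) Z)
      ((Z m).1 + ε • entrancePoint (frameMap ((Z m).2 - w) y) ((Z m).2 - w), w))]
  refine lintegral_congr fun Y => ?_
  simp only [flow_neg_flow hΦ hε]

end Crest.Agent.R122.Flux350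

end
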