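import Crest.Agent.R122.Cherry7_796
import Crest.Agent.R122.VolFlux4_350

/-!
# Row 122 (helper796), D5 (b): the flux step `FS1` applied to the bad grafts
-/

set_option autoImplicit false
set_option synthInstance.maxSize 1024
set_option linter.unusedSectionVars false
set_option maxHeartbeats 1000000

open MeasureTheory Set Filter Topology
open Crest.AnalysisR.Kinetic
open scoped ENNReal Classical

noncomputable section

namespace Crest.Agent.R122.Cherry796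

open Kin796 Kin796.CTree Disc416 Tree674 TreeEps399 TreeDom974 TreeLim974 Flow671 Graft968 Flux350

variable {Φ : Space3 → ℝ} {κ : Type*} [Fintype κ]

/-- energy of a configuration which follows a good tree -/
theorem energy_good (hΦ : AdmissiblePotential Φ) {ε T : ℝ} (hε : 0 < ε) (hT : 0 ≤ T) {P : CTree}
    (e : Idx P ≃ κ) {ℓ : PhasePoint} {p : Par P} {Y : κ → PhasePoint}
    (hV : Valid Φ ε P T ℓ.2 p) (hS : Sep Φ ε P T ℓ p) (hY : ∀ x, Y (e x) = lines Φ ε P ℓ p x) :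
    energy Φ ε Y = (1 / 2) * ∑ x, ‖(Y x).2‖ ^ 2 := by
  have h1 := energy_lines hΦ hε hT (z := (ℓ, p)) ⟨hV, hS⟩
  have h2 : (fun x => Y (e x)) = lines Φ ε P ℓ p := funext hY
  have h3 := Loc45.energy_equiv Φ ε e Y
  rw [h2, h1] at h3
  rw [← h3, ← Equiv.sum_comp e fun x => ‖(Y x).2‖ ^ 2]
  congr 1
  refine Finset.sum_congr rfl fun x _ => ?_
  rw [hY x, Hid424.lines_vel]

theorem energy_bad (hΦ : AdmissiblePotential Φ) {ε T : ℝ} (hε : 0 < ε) (hT : 0 ≤ T) {i m : κ}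
    {s : ℝ} {Y : κ → PhasePoint} {z : PhasePoint}
    (h : Chain726.BadGraft Φ ε T i s Y m z) : energy Φ ε Y = (1 / 2) * ∑ x, ‖(Y x).2‖ ^ 2 := by
  obtain ⟨P, e, ℓ, p, y, hV, hS, -, hY, -⟩ := h
  exact energy_good hΦ hε hT e hV hS hY

variable {υ : Type*} [Fintype υ]

/-- energy of the whole group at a release -/
theorem energy_rel (hΦ : AdmissiblePotential Φ) {ε T : ℝ} (hε : 0 < ε) {j : υ} {m : κ} {s : ℝ}
    {W : υ ⊕ κ → PhasePoint} (h : Rel Φ ε T j m W s) :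
    energy Φ ε W = energy Φ ε (gone Φ ε s W) + energy Φ ε (keep Φ ε s W) := by
  have h1 : energy Φ ε W = energy Φ ε (flow Φ ε s W) := (energy_flow hΦ hε s W).symm
  have h2 : flow Φ ε s W = Sum.elim (gone Φ ε s W) (fun k => flow Φ ε s W (Sum.inr k)) := by
    funext x
    rcases x with x | x <;> rfl
  have h3 : ∀ (i : υ) (k : κ), ε ≤ dist (gone Φ ε s W i).1 (flow Φ ε s W (Sum.inr k)).1 := by
    intro i k
    obtain ⟨η, hη, hsep⟩ := h.sep
    have hc : Continuous fun u => dist (flow Φ ε u W (Sum.inl i)).1 (flow Φ ε u W (Sum.inr k)).1 := by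
      have hf := flow_continuous_time hΦ hε W
      exact (((continuous_apply (Sum.inl i)).comp hf).fst).dist
        (((continuous_apply (Sum.inr k)).comp hf).fst)
    have ht : Tendsto (fun u => dist (flow Φ ε u W (Sum.inl i)).1 (flow Φ ε u W (Sum.inr k)).1)
        (𝓝[>] s) (𝓝 (dist (flow Φ ε s W (Sum.inl i)).1 (flow Φ ε s W (Sum.inr k)).1)) :=
      (hc.tendsto s).mono_left nhdsWithin_le_nhds
    refine ge_of_tendsto ht ?_
    filter_upwards [Ioo_mem_nhdsGT (show s < s + η by linarith)] with u hu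
    exact (hsep u hu i k).le
  have h4 : energy Φ ε (keep Φ ε s W) = energy Φ ε (fun k => flow Φ ε s W (Sum.inr k)) := by
    unfold keep
    rw [energy_flow hΦ hε]
  rw [h1, h2, Loc45.energy_sum_elim hΦ hε _ _ h3, h4]

theorem energy_single (hΦ : AdmissiblePotential Φ) {ε : ℝ} (hε : 0 < ε) [Unique υ]
    (U : υ → PhasePoint) : energy Φ ε U = (1 / 2) * ‖(U default).2‖ ^ 2 := by
  rw [Loc45.energy_eq_kin_add_pot, Loc45.pot_eq_zero hΦ hε
    (fun i j hij => absurd (Subsingleton.elim i j) hij), add_zero]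
  unfold Loc45.kin
  rw [Fintype.sum_unique]

/-- **The flux step for the bad grafts.** -/
theorem cherry_FS1 [Unique υ] (hΦ : AdmissiblePotential Φ) (m i0 : κ) {γ : ℝ} (hγ : 0 < γ)
    {T : ℝ} (hT : 0 ≤ T) :
    ∃ q : ℝ → ℝ≥0∞, Tendsto q (𝓝[>] 0) (𝓝 0) ∧ ∀ (ε : ℝ) (Ψ : Space3 → ℝ≥0∞), 0 < ε →
      Measurable Ψ → ∃ M : (υ ⊕ κ → PhasePoint) → ℝ≥0∞, Measurable M ∧
        (∀ (W : υ ⊕ κ → PhasePoint) (s : ℝ) (i : κ), Rel Φ ε T default m W s →
          Chain726.BadGraft Φ ε T i s (keep Φ ε s W) m (flow Φ ε s W (Sum.inl default)) →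
          ENNReal.ofReal (Real.exp (-(γ * energy Φ ε W))) * Ψ (keep Φ ε s W i0).1 ≤ M W) ∧
        ∫⁻ W, M W ≤ ENNReal.ofReal (ε ^ 2) ^ Fintype.card κ * ((∫⁻ x, Ψ x) * q ε) := by
  obtain ⟨q, hq, h⟩ := cherry hΦ m i0 (half_pos hγ) T
  refine ⟨q, hq, fun ε Ψ hε hΨ => ?_⟩
  obtain ⟨M, hM, hM1, hM2⟩ := FS1 (υ := υ) hΦ hε hT m (G := GY Φ ε T (γ / 2) m i0 Ψ)
    (measurable_GY hΦ hε T (γ / 2) m i0 hΨ)
  refine ⟨M, hM, fun W s i hR hB => ?_, ?_⟩
  · refine le_trans (le_of_eq ?_) (hM1 W s hR)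
    unfold GY
    rw [indicator_of_mem (mem_badY hΦ hε hB)]
    have e1 : energy Φ ε W = (1 / 2) * (∑ x, ‖(keep Φ ε s W x).2‖ ^ 2 +
        ‖(flow Φ ε s W (Sum.inl default)).2‖ ^ 2) := by
      rw [energy_rel hΦ hε hR, energy_single hΦ hε, energy_bad hΦ hε hT hB]
      unfold gone
      ring
    have e2 : -(γ * energy Φ ε W) = -(γ / 2) * (∑ x, ‖(keep Φ ε s W x).2‖ ^ 2 +
        ‖(flow Φ ε s W (Sum.inl default)).2‖ ^ 2) := by
      rw [e1]; ring
    rw [e2]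
    simp
  · refine hM2.trans ?_
    have hc : Fintype.card κ = (Fintype.card κ - 1) + 1 := by
      have : 0 < Fintype.card κ := Fintype.card_pos_iff.2 ⟨m⟩
      omega
    calc ENNReal.ofReal (ε ^ 2) * _
        ≤ ENNReal.ofReal (ε ^ 2) * (ENNReal.ofReal (ε ^ 2) ^ (Fintype.card κ - 1) *
            ((∫⁻ x, Ψ x) * q ε)) := by
          gcongr
          exact h ε Ψ hε hΨ
      _ = ENNReal.ofReal (ε ^ 2) ^ Fintype.card κ * ((∫⁻ x, Ψ x) * q ε) := by
          rw [hc, Nat.add_sub_cancel, pow_succ]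
          ring

end Crest.Agent.R122.Cherry796

end
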