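import Crest.Agent.R122.VLDefs_581

/-!
# Row 122, block D3 (helper664): `VLu` from `VL`

`vlu_of_vl : VL Φ → VLu Φ`.  The births are clipped to `[0, T]` (this changes neither `Conn` nor
`TreeLike`), then sequential compactness of `[0, T]^J`.
-/

set_option autoImplicit false

open MeasureTheory Set Filter Topology
open scoped ENNReal NNReal
open Crest.AnalysisR.Kinetic
open Crest.Agent.R122.Ins45 Crest.Agent.R122.GIV566 Crest.Agent.R122.VL581

noncomputable section

namespace Crest.Agent.R122.VLu664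

open scoped Classical

variable {J : Type} [Fintype J]

/-- The state in a sub-world as a function of the set of members and of the births. -/
def stA (Φ : Space3 → ℝ) (ε : ℝ) (s : Finset J) (f : J → ℝ) (t : ℝ) (Z : J → PhasePoint) (i : J) :
    PhasePoint :=
  if h : i ∈ s then
    evo Φ ε (fun j : s => f j) (-1) t (fun j : s => ((Z j).1 - (Z j).2, (Z j).2)) ⟨i, h⟩
  else ((Z i).1 + t • (Z i).2, (Z i).2)

omit [Fintype J] in
theorem st_eq_stA {κ : Type} (M : VSys J κ) (A : Finset J) (t : ℝ) (Z : J → PhasePoint) (i : J) :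
    M.st A t Z i = stA M.Φ M.ε (M.mem A t) M.bb t Z i := rfl

omit [Fintype J] in
theorem stA_congr {Φ : Space3 → ℝ} {ε : ℝ} {s : Finset J} {f f' : J → ℝ} {t : ℝ}
    {Z : J → PhasePoint} {i : J} (h : ∀ j ∈ s, f j = f' j) :
    stA Φ ε s f t Z i = stA Φ ε s f' t Z i := by
  unfold stA
  have : (fun j : s => f j) = fun j : s => f' j := funext fun j => h j j.2
  rw [this]

/-- The trivial tube. -/
def S₀ : Tubes Unit := ⟨fun _ _ => 0, fun _ => 0⟩

theorem tubeConv_S₀ (T : ℝ) : TubeConv T (fun _ => S₀) S₀ where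
  lip := ⟨0, Eventually.of_forall fun _ _ => (LipschitzWith.const 0).lipschitzOnWith,
    fun _ => (LipschitzWith.const 0).lipschitzOnWith⟩
  curves := fun _ => by
    intro u hu
    exact Eventually.of_forall fun _ _ _ => refl_mem_uniformity hu
  active := fun _ => tendsto_const_nhds
  vel := ⟨∅, finite_empty, fun s hs _ _ hsb => absurd hsb (not_lt.2 hs.1.le)⟩

theorem generic_S₀ (T : ℝ) : Generic T S₀ := fun i j h => absurd (Subsingleton.elim i j) h

/-- Clipping of the births to `[0, T]`, no obstacle. -/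
def clip (M : VSys J Unit) : VSys J Unit :=
  ⟨M.Φ, M.T, M.ε, fun i => min (max (M.b i) 0) M.T, none, S₀⟩

variable {M : VSys J Unit}

omit [Fintype J] in
theorem clip_bb (hT : 0 ≤ M.T) (i : J) : (clip M).bb i = min (M.bb i) M.T := by
  show max (min (max (M.b i) 0) M.T) 0 = min (max (M.b i) 0) M.T
  exact max_eq_left (le_min (le_max_right _ _) hT)

omit [Fintype J] in
theorem clip_bb_lt (hT : 0 ≤ M.T) {t : ℝ} (ht : t ≤ M.T) (i : J) :
    (clip M).bb i < t ↔ M.bb i < t := by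
  rw [clip_bb hT, min_lt_iff]
  exact or_iff_left (not_lt.2 ht)

omit [Fintype J] in
theorem clip_mem (hT : 0 ≤ M.T) (ho : M.o = none) {t : ℝ} (ht : t ≤ M.T) (A : Finset J) :
    (clip M).mem A t = M.mem A t := by
  ext i
  simp only [VSys.mem, Finset.mem_filter, clip_bb_lt hT ht, ho]
  simp [clip]

omit [Fintype J] in
theorem clip_st (hT : 0 ≤ M.T) (ho : M.o = none) {t : ℝ} (ht : t ≤ M.T) (A : Finset J)
    (Z : J → PhasePoint) (i : J) : (clip M).st A t Z i = M.st A t Z i := by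
  rw [st_eq_stA, st_eq_stA, clip_mem hT ho ht]
  refine stA_congr fun j hj => ?_
  have hj' : M.bb j < t := (Finset.mem_filter.1 hj).2.2
  rw [clip_bb hT, min_eq_left (hj'.le.trans ht)]

theorem clip_ok (hT : 0 ≤ M.T) (ho : M.o = none) {t : ℝ} (ht : t ≤ M.T) (A : Finset J)
    (Z : J → PhasePoint) : (clip M).ok A t Z ↔ M.ok A t Z := by
  have ho' : (clip M).o = none := rfl
  unfold VSys.ok
  refine forall₂_congr fun i _ => ?_
  rw [ho, ho']
  refine forall_congr' fun _ => ?_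
  rw [clip_bb_lt hT ht]
  refine forall_congr' fun hi => forall₂_congr fun j _ => forall_congr' fun _ =>
    forall_congr' fun _ => ?_
  have h1 : (clip M).bb i = M.bb i := by rw [clip_bb hT, min_eq_left (hi.le.trans ht)]
  have h2 : (clip M).bb j ≤ (clip M).bb i ↔ M.bb j ≤ M.bb i := by
    rw [h1, clip_bb hT, min_le_iff]
    exact or_iff_left (not_le.2 (hi.trans_le ht))
  rw [h2, h1, clip_st hT ho (hi.le.trans ht), clip_st hT ho (hi.le.trans ht)]
  exact Iff.rfl

theorem clip_Ct (hT : 0 ≤ M.T) (ho : M.o = none) {t : ℝ} (ht : t ≤ M.T) (C : ℝ) (A : Finset J)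
    (k : Unit) (i : J) (B : Finset J) (l : Unit) (j : J) (Z : J → PhasePoint) :
    (clip M).Ct C A k i B l j t Z ↔ M.Ct C A k i B l j t Z := by
  have ho' : (clip M).o = none := rfl
  have hp : ∀ (A : Finset J) (k : Unit) (i : J), (clip M).pos A k t Z i = M.pos A k t Z i := by
    intro A k i
    simp only [VSys.pos, ho, ho', clip_st hT ho ht]
    simp
  unfold VSys.Ct
  rw [clip_ok hT ho ht, clip_ok hT ho ht, hp, hp, ho, ho']
  simp [clip]

theorem clip_VCt (hT : 0 ≤ M.T) (ho : M.o = none) {t : ℝ} (ht : t ≤ M.T) (C : ℝ) (P : Finset J)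
    (i j : J) (Z : J → PhasePoint) : (clip M).VCt C P i j t Z ↔ M.VCt C P i j t Z := by
  unfold VSys.VCt
  simp only [clip_Ct hT ho ht]

theorem clip_Conn (hT : 0 ≤ M.T) (ho : M.o = none) (C : ℝ) (P : Finset J) (Z : J → PhasePoint) :
    (clip M).Conn C P Z ↔ M.Conn C P Z := by
  unfold VSys.Conn
  have hT' : (clip M).T = M.T := rfl
  rw [hT']
  refine and_congr Iff.rfl (forall_congr' fun Q => forall_congr' fun _ => forall_congr' fun _ =>
    forall_congr' fun _ => ?_)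
  constructor
  · rintro ⟨i, hi, j, hj, t, ht, h⟩
    exact ⟨i, hi, j, hj, t, ht, (clip_VCt hT ho ht.2 C P i j Z).1 h⟩
  · rintro ⟨i, hi, j, hj, t, ht, h⟩
    exact ⟨i, hi, j, hj, t, ht, (clip_VCt hT ho ht.2 C P i j Z).2 h⟩

theorem clip_TreeLike (hT : 0 ≤ M.T) (ho : M.o = none) (C ℓ ς : ℝ) (P : Finset J)
    (Z : J → PhasePoint) (h : (clip M).TreeLike C ℓ ς P Z) : M.TreeLike C ℓ ς P Z := by
  obtain ⟨hok, E, σ, h1, h2, h3, h4, h5, h6⟩ := h
  refine ⟨fun A hA => (clip_ok hT ho le_rfl A Z).1 (hok A hA), E, σ, h1, h2, h3, ?_, h5, ?_⟩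
  · intro e he i
    have h3' : ς < σ e ∧ σ e < M.T - ς := h3 e he
    have h4' : ς < |σ e - min (max (M.b i) 0) M.T| := h4 e he i
    rcases le_total (M.b i) 0 with hb | hb
    · refine lt_of_lt_of_le ?_ (le_abs_self _)
      linarith [h3'.1]
    · rcases le_total (M.b i) M.T with hb' | hb'
      · rwa [max_eq_left hb, min_eq_left hb'] at h4'
      · refine lt_of_lt_of_le ?_ (neg_le_abs _)
        linarith [h3'.2]
  · intro i hi j hj hij t ht hv
    exact h6 i hi j hj hij t ht ((clip_VCt hT ho ht.2 C P i j Z).2 hv)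

/-- **VLu from VL**: uniformity in the births. -/
theorem vlu_of_vl {Φ : Space3 → ℝ} (h : VL Φ) : VLu Φ := by
  intro J _ β T C hβ hT i₀ ρ hρ hρi δ hδ
  by_contra hcon
  push Not at hcon
  have H : ∀ n : ℕ, ∃ M : VSys J Unit, M.Φ = Φ ∧ M.T = T ∧ M.o = none ∧ 0 < M.ε ∧
      M.ε < 1 / ((n : ℝ) + 1) ∧ δ * ENNReal.ofReal (M.ε ^ (2 * (Fintype.card J - 1))) <
        ∫⁻ Z, {Z | M.Conn C Finset.univ Z ∧
          ¬ M.TreeLike C (((n : ℝ) + 1) * M.ε) (1 / ((n : ℝ) + 1)) Finset.univ Z}.indicator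
            (wgt β ρ i₀) Z := fun n => by
    obtain ⟨M, h1, h2, h3, h4, h5, h6⟩ := hcon ((n : ℝ) + 1) (by positivity) (1 / ((n : ℝ) + 1))
      (by positivity) (1 / ((n : ℝ) + 1)) (by positivity)
    exact ⟨M, h1, h2, h3, h4, h5, h6⟩
  choose M hΦ hTM ho hε hε' hI using H
  have hT0 : ∀ n, 0 ≤ (M n).T := fun n => by rw [hTM]; exact hT.le
  have hb : ∀ n, (clip (M n)).b ∈ Set.pi univ fun _ : J => Icc (0 : ℝ) T := by
    intro n i _
    show min (max ((M n).b i) 0) (M n).T ∈ Icc 0 T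
    rw [hTM]
    exact ⟨le_min (le_max_right _ _) hT.le, min_le_right _ _⟩
  obtain ⟨b, -, φ, hφ, hlim⟩ :=
    (isCompact_univ_pi fun _ : J => isCompact_Icc (a := (0 : ℝ)) (b := T)).tendsto_subseq hb
  have hφ' : Tendsto φ atTop atTop := hφ.tendsto_atTop
  have hR : Tendsto (fun n : ℕ => ((φ n : ℕ) : ℝ) + 1) atTop atTop :=
    tendsto_atTop_add_const_right _ _ (tendsto_natCast_atTop_atTop.comp hφ')
  have hς : Tendsto (fun n : ℕ => 1 / (((φ n : ℕ) : ℝ) + 1)) atTop (𝓝 0) := by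
    have := tendsto_inv_atTop_zero.comp hR
    simpa only [one_div, Function.comp_def] using this
  have hεl : Tendsto (fun n => (clip (M (φ n))).ε) atTop (𝓝 0) :=
    squeeze_zero (fun n => (hε (φ n)).le) (fun n => (hε' (φ n)).le) hς
  have hmain := h J Unit β T C hβ hT (fun n => clip (M (φ n))) none b S₀
    (fun n => ((φ n : ℕ) : ℝ) + 1) (fun n => 1 / (((φ n : ℕ) : ℝ) + 1)) i₀
    (fun k => ⟨hΦ _, hTM _, rfl, hε _⟩) hεl (fun i => (tendsto_pi_nhds.1 hlim) i)
    (tubeConv_S₀ T) (generic_S₀ T) hR hς (fun j hj => by cases hj) ρ hρ hρi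
  obtain ⟨n, hn⟩ := ((tendsto_order.1 hmain).2 δ hδ).exists
  refine absurd hn (not_lt.2 ?_)
  have hpos : 0 < (M (φ n)).ε ^ (2 * (Fintype.card J - 1)) := pow_pos (hε _) _
  have hne : ENNReal.ofReal ((M (φ n)).ε ^ (2 * (Fintype.card J - 1))) ≠ 0 :=
    (ENNReal.ofReal_pos.2 hpos).ne'
  calc δ = (ENNReal.ofReal ((M (φ n)).ε ^ (2 * (Fintype.card J - 1))))⁻¹ *
        (δ * ENNReal.ofReal ((M (φ n)).ε ^ (2 * (Fintype.card J - 1)))) := by
        rw [mul_comm δ, ← mul_assoc, ENNReal.inv_mul_cancel hne ENNReal.ofReal_ne_top, one_mul]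
    _ ≤ _ := by
        refine mul_le_mul' le_rfl ((hI (φ n)).le.trans (lintegral_mono fun Z => ?_))
        refine indicator_le_indicator_of_subset ?_ (fun _ => zero_le) Z
        rintro Z ⟨hc, ht⟩
        exact ⟨(clip_Conn (hT0 _) (ho _) C _ Z).2 hc, fun h' =>
          ht (clip_TreeLike (hT0 _) (ho _) C _ _ _ Z h')⟩

end Crest.Agent.R122.VLu664
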