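import Crest.Agent.R122.VLClassSeq_973
import Crest.Agent.R122.VCFin_973
import Crest.Agent.R122.VLu_664

/-!
# Row 122, H11 / D3 (helper973): the class facts from `VL` alone

`VC` is proved (`VC973.vc`), `VLu` follows from `VL` (helper664).
-/

set_option autoImplicit false

open MeasureTheory Set Filter Topology
open scoped NNReal ENNReal
open Crest.AnalysisR.Kinetic
open Crest.Agent.R122.Ins45 Crest.Agent.R122.GIV566 Crest.Agent.R122.VL581

noncomputable section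

namespace Crest.Agent.R122.VLMeas973

variable {J κ : Type} [Fintype J]

/-- **Uniform class form** from `VL`. -/
theorem classNull_of_vl {Φ : Space3 → ℝ} (hΦ : AdmissiblePotential Φ) {T : ℝ} (hT : 0 < T)
    (hVL : VL Φ) : ClassNull Φ T :=
  class_null hΦ hT (VC973.vc hΦ) (VLu664.vlu_of_vl hVL)

/-- **Sequence class form** (obstacle allowed) from `VL`. -/
theorem class_null_seq_of_vl {Φ : Space3 → ℝ} (hΦ : AdmissiblePotential Φ) (hVL : VL Φ)
    [Fintype κ] {β T C : ℝ} (hβ : 0 < β) (hT : 0 < T)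
    {M : ℕ → VSys J κ} {o : Option J} {b : J → ℝ} {S : Tubes κ} {R ς : ℕ → ℝ}
    (hM : ∀ k, (M k).Φ = Φ ∧ (M k).T = T ∧ (M k).o = o ∧ 0 < (M k).ε)
    (hε : Tendsto (fun k => (M k).ε) atTop (𝓝 0))
    (hb : ∀ i, Tendsto (fun k => (M k).b i) atTop (𝓝 (b i)))
    (hconv : TubeConv T (fun k => (M k).S) S) (hgen : Generic T S)
    (hR : Tendsto R atTop atTop) (hς : Tendsto ς atTop (𝓝 0)) {s : ℕ} (hs : s ≤ Fintype.card J)
    {A : Finset J} (ho : ∀ j, o = some j → j ∈ A)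
    {ρ : Space3 → ℝ≥0∞} (hρ : Measurable ρ) (hρ1 : ∀ x, ρ x ≤ 1) (hρf : ∫⁻ x, ρ x < ∞) :
    (∀ᶠ k in atTop, Good (M k)) ∧
    Tendsto (fun k => (ENNReal.ofReal ((M k).ε ^ 2) ^ (Fintype.card J - s))⁻¹ *
      ∫⁻ Z, (badQ (M k) C (R k * (M k).ε) (ς k) s A).indicator (wA β ρ A) Z) atTop (𝓝 0) :=
  class_null_seq hΦ (VC973.vc hΦ) hVL hβ hT hM hε hb hconv hgen hR hς hs ho hρ hρ1 hρf

end Crest.Agent.R122.VLMeas973

end
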