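import Crest.Agent.R122.ClusterMecke_311
import Crest.Agent.R122.CausalMeas_291
import Crest.Agent.R122.LocFlow_45
import Crest.Agent.R122.Master_566

/-!
# Grand-canonical calculus VI: the Mecke formula for backward clusters `BC`

`bcT Φ ε t r` is the cluster map attached to `r` marked particles and measurable root times
(possibly depending on the configuration in a relabelling-equivariant way).
-/

set_option autoImplicit false
open MeasureTheory Set
open scoped Classical ENNReal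
open Crest.AnalysisR.Kinetic
open Crest.Agent.R122.Causal291 Crest.Agent.R122.Flow671 Crest.Agent.R122.Loc45
noncomputable section

namespace Crest.Agent.R122.GC311

variable {Φ : Space3 → ℝ} {ε : ℝ}

theorem ct_pth_equiv (hΦ : AdmissiblePotential Φ) (hε : 0 < ε) {ι κ : Type*} [Fintype ι]
    [Fintype κ] (σ : ι ≃ κ) (Z : κ → PhasePoint) (s : ℝ) (j k : ι) :
    Ct (pth Φ ε fun i => Z (σ i)) ε s j k ↔ Ct (pth Φ ε Z) ε s (σ j) (σ k) := by
  unfold Ct pth
  rw [flow_equiv hΦ hε σ s Z]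

theorem past_pth_equiv (hΦ : AdmissiblePotential Φ) (hε : 0 < ε) {ι κ : Type*} [Fintype ι]
    [Fintype κ] (σ : ι ≃ κ) (Z : κ → PhasePoint) (t s : ℝ) (i k : ι) :
    Past (Ct (pth Φ ε fun i => Z (σ i)) ε) t i s k ↔ Past (Ct (pth Φ ε Z) ε) t (σ i) s (σ k) := by
  have h : Ct (pth Φ ε fun i => Z (σ i)) ε = fun s j k => Ct (pth Φ ε Z) ε s (σ j) (σ k) := by
    funext s j k
    exact propext (ct_pth_equiv hΦ hε σ Z s j k)
  rw [h]
  exact past_equiv (Ct (pth Φ ε Z) ε) σ

theorem BC_pth_equiv (hΦ : AdmissiblePotential Φ) (hε : 0 < ε) {ι κ : Type*} [Fintype ι]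
    [Fintype κ] (σ : ι ≃ κ) (Z : κ → PhasePoint) (t : ℝ) (i : ι) :
    BC (Ct (pth Φ ε Z) ε) t (σ i) = σ '' BC (Ct (pth Φ ε fun i => Z (σ i)) ε) t i := by
  ext k
  obtain ⟨k', rfl⟩ := σ.surjective k
  rw [σ.injective.mem_set_image]
  exact (past_pth_equiv hΦ hε σ Z t 0 i k').symm

/-- The union of the backward clusters of the marked particles `ι j` at times `t j`. -/
def bcU (Φ : Space3 → ℝ) (ε : ℝ) {r : ℕ} (t : (n : ℕ) → Config n → (Fin r → Fin n) → Fin r → ℝ)
    (n : ℕ) (Z : Config n) (ι : Fin r → Fin n) : Finset (Fin n) :=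
  (⋃ j, BC (Ct (pth Φ ε Z) ε) (t n Z ι j) (ι j)).toFinset

theorem mem_bcU {r n : ℕ} {t : (n : ℕ) → Config n → (Fin r → Fin n) → Fin r → ℝ} {Z : Config n}
    {ι : Fin r → Fin n} {k : Fin n} :
    k ∈ bcU Φ ε t n Z ι ↔ ∃ j, k ∈ BC (Ct (pth Φ ε Z) ε) (t n Z ι j) (ι j) := by
  simp [bcU]

/-- The backward clusters form a cluster map, for nonnegative measurable equivariant root times. -/
theorem clusterMap_bcU (hΦ : AdmissiblePotential Φ) (hε : 0 < ε) {r : ℕ}
    {t : (n : ℕ) → Config n → (Fin r → Fin n) → Fin r → ℝ}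
    (ht0 : ∀ n Z ι j, Z ∈ PairExcluded ε n → 0 ≤ t n Z ι j)
    (htm : ∀ n ι j, Measurable fun Z : Config n => t n Z ι j)
    (hte : ∀ (n : ℕ) (σ : Equiv.Perm (Fin n)) (Z : Config n) (ι : Fin r → Fin n) (j : Fin r),
      Z ∈ PairExcluded ε n → t n Z (fun j => σ (ι j)) j = t n (fun i => Z (σ i)) ι j) :
    ClusterMap ε r (bcU Φ ε t) where
  self_mem n Z ι j hZ := mem_bcU.2 ⟨j, root_mem_BC (ht0 n Z ι j hZ)⟩
  equiv n σ Z ι hZ := by
    ext k
    rw [mem_bcU, Finset.mem_map]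
    constructor
    · rintro ⟨j, hj⟩
      rw [hte n σ Z ι j hZ, BC_pth_equiv hΦ hε σ Z] at hj
      obtain ⟨k', hk', rfl⟩ := hj
      exact ⟨k', mem_bcU.2 ⟨j, hk'⟩, rfl⟩
    · rintro ⟨k', hk', rfl⟩
      obtain ⟨j, hj⟩ := mem_bcU.1 hk'
      refine ⟨j, ?_⟩
      rw [hte n σ Z ι j hZ, BC_pth_equiv hΦ hε σ Z]
      exact ⟨k', hj, rfl⟩
  meas n ι B := by
    have hmem : ∀ k : Fin n, MeasurableSet {Z : Config n | k ∈ bcU Φ ε t n Z ι} := by
      intro k
      have : {Z : Config n | k ∈ bcU Φ ε t n Z ι} =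
          ⋃ j, (fun Z : Config n => (t n Z ι j, Z)) ⁻¹'
            {p : ℝ × Config n | k ∈ BC (Ct (pth Φ ε p.2) ε) p.1 (ι j)} := by
        ext Z
        simp only [mem_bcU, mem_iUnion, mem_preimage, mem_ofPred_eq]
      rw [this]
      refine MeasurableSet.iUnion fun j => ?_
      exact ((htm n ι j).prodMk measurable_id) (measurableSet_mem_BC_pth hΦ hε (ι j) k)
    have h2 : {Z : Config n | bcU Φ ε t n Z ι = B} =
        ⋂ k : Fin n, {Z : Config n | k ∈ bcU Φ ε t n Z ι ↔ k ∈ B} := by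
      ext Z
      simp only [mem_ofPred_eq, mem_iInter, Finset.ext_iff]
    rw [h2]
    refine MeasurableSet.iInter fun k => ?_
    by_cases hk : k ∈ B
    · have : {Z : Config n | k ∈ bcU Φ ε t n Z ι ↔ k ∈ B} =
          {Z : Config n | k ∈ bcU Φ ε t n Z ι} := by
        ext Z
        simp only [mem_ofPred_eq, hk, iff_true]
      rw [this]
      exact hmem k
    · have : {Z : Config n | k ∈ bcU Φ ε t n Z ι ↔ k ∈ B} =
          {Z : Config n | k ∈ bcU Φ ε t n Z ι}ᶜ := by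
        ext Z
        simp only [mem_ofPred_eq, hk, iff_false, mem_compl_iff]
      rw [this]
      exact (hmem k).compl

/-- One marked particle, deterministic root time. -/
def bc1 (Φ : Space3 → ℝ) (ε t : ℝ) (n : ℕ) (Z : Config n) (ι : Fin 1 → Fin n) :
    Finset (Fin n) := (Master566.bc Φ ε Z t (ι 0)).toFinset

theorem clusterMap_bc1 (hΦ : AdmissiblePotential Φ) (hε : 0 < ε) {t : ℝ} (ht : 0 ≤ t) :
    ClusterMap ε 1 (bc1 Φ ε t) := by
  have h := clusterMap_bcU (r := 1) (t := fun _ _ _ _ => t) hΦ hε (fun _ _ _ _ _ => ht)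
    (fun _ _ _ => measurable_const) (fun _ _ _ _ _ _ => rfl)
  have e : bc1 Φ ε t = bcU Φ ε (r := 1) (fun _ _ _ _ => t) := by
    funext n Z ι
    ext k
    rw [mem_bcU]
    simp [bc1, Master566.bc]
  rw [e]
  exact h

/-- Sums over one marked particle written with `Fin 1 → Fin n`. -/
theorem sum_fin_one {n : ℕ} (g : Fin n → ℝ≥0∞) :
    ∑ ι : Fin 1 → Fin n, g (ι 0) = ∑ i : Fin n, g i :=
  Fintype.sum_equiv (Equiv.funUnique (Fin 1) (Fin n)) _ _ (fun _ => rfl)

/-- **Mecke formula for the backward cluster of one particle at a fixed time.** -/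
theorem bc_mecke {f₀ : PhasePoint → ℝ} (hf : Measurable f₀) (hΦ : AdmissiblePotential Φ)
    (hε : 0 < ε) {t : ℝ} (ht : 0 ≤ t)
    {F : (n : ℕ) → Fin n → Finset (Fin n) → Config n → ℝ≥0∞}
    (hF : ∀ (n : ℕ) (σ : Equiv.Perm (Fin n)) (i : Fin n) (B : Finset (Fin n)) (Z : Config n),
      Z ∈ PairExcluded ε n → F n (σ i) (B.map σ.toEmbedding) Z = F n i B (fun i => Z (σ i)))
    (hFm : ∀ n i B, Measurable (F n i B)) :
    gcE f₀ ε (fun n Z => ∑ i : Fin n, F n i (Master566.bc Φ ε Z t i).toFinset Z) =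
      ∑' k : ℕ, activity ε ^ k / (k.factorial : ℝ≥0∞) * ∫⁻ V : Config k, gcWeight f₀ ε k V *
        gcE f₀ ε (fun m w => perpInd ε V w * ∑ j : Fin k,
          if (Master566.bc Φ ε (Fin.append V w) t (Fin.castAdd m j)).toFinset = block k m then
            F (k + m) (Fin.castAdd m j) (block k m) (Fin.append V w) else 0) := by
  have h := cluster_mecke hf (clusterMap_bc1 hΦ hε ht)
    (F := fun n ι B Z => F n (ι 0) B Z) (fun n σ ι B Z hZ => hF n σ (ι 0) B Z hZ)
    (fun n ι B => hFm n (ι 0) B)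
  have e1 : (fun (n : ℕ) (Z : Config n) => ∑ ι : Fin 1 → Fin n, F n (ι 0) (bc1 Φ ε t n Z ι) Z) =
      fun (n : ℕ) (Z : Config n) => ∑ i : Fin n, F n i (Master566.bc Φ ε Z t i).toFinset Z := by
    funext n Z
    exact sum_fin_one (fun i => F n i (Master566.bc Φ ε Z t i).toFinset Z)
  rw [e1] at h
  rw [h]
  refine tsum_congr fun k => ?_
  congr 1
  refine lintegral_congr fun V => ?_
  congr 2
  funext m w
  congr 1
  exact sum_fin_one (fun j : Fin k =>
    if (Master566.bc Φ ε (Fin.append V w) t (Fin.castAdd m j)).toFinset = block k m then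
      F (k + m) (Fin.castAdd m j) (block k m) (Fin.append V w) else 0)

end Crest.Agent.R122.GC311
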