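import Crest.Agent.R122.GCBounds_311

/-!
# Grand-canonical calculus V: Mecke formula for clusters

`cluster_mecke`: let `cl n Z ι : Finset (Fin n)` be a relabelling-equivariant "cluster" attached to
a tuple of marked particles `ι : Fin r → Fin n` (not necessarily distinct) of the configuration
`Z`, containing the marked particles.  Then
`E[∑_ι F ι (cl ι)] = ∑_k a^k/k! ∫ dV gcW(V) ∑_{j : Fin r → Fin k} E_w[1[V ⟂ w] 1[cl_{V⧺w}(j) = V] F]`.
-/

set_option autoImplicit false
open MeasureTheory
open scoped Classical ENNReal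
open Crest.AnalysisR.Kinetic
noncomputable section

namespace Crest.Agent.R122.GC311

/-- The first block of `Fin (k + m)` as a finset. -/
def block (k m : ℕ) : Finset (Fin (k + m)) := Finset.univ.map (Fin.castAddEmb m)

theorem mem_block {k m : ℕ} {i : Fin (k + m)} : i ∈ block k m ↔ ∃ j : Fin k, Fin.castAdd m j = i := by
  simp [block]

theorem castAdd_mem_block {k m : ℕ} (j : Fin k) : Fin.castAdd m j ∈ block k m :=
  mem_block.2 ⟨j, rfl⟩

theorem card_block (k m : ℕ) : (block k m).card = k := by
  simp [block]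

/-- Data of an equivariant cluster map with `r` marks. -/
structure ClusterMap (ε : ℝ) (r : ℕ)
    (cl : (n : ℕ) → Config n → (Fin r → Fin n) → Finset (Fin n)) : Prop where
  self_mem : ∀ n Z ι j, Z ∈ PairExcluded ε n → ι j ∈ cl n Z ι
  equiv : ∀ (n : ℕ) (σ : Equiv.Perm (Fin n)) (Z : Config n) (ι : Fin r → Fin n),
    Z ∈ PairExcluded ε n →
    cl n Z (fun j => σ (ι j)) = (cl n (fun i => Z (σ i)) ι).map σ.toEmbedding
  meas : ∀ n ι B, MeasurableSet {Z : Config n | cl n Z ι = B}

/-- Equivariance of a functional with marks and a marked set. -/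
def MarkedEquiv (ε : ℝ) (r : ℕ)
    (F : (n : ℕ) → (Fin r → Fin n) → Finset (Fin n) → Config n → ℝ≥0∞) : Prop :=
  ∀ (n : ℕ) (σ : Equiv.Perm (Fin n)) (ι : Fin r → Fin n) (B : Finset (Fin n)) (Z : Config n),
    Z ∈ PairExcluded ε n →
    F n (fun j => σ (ι j)) (B.map σ.toEmbedding) Z = F n ι B (fun i => Z (σ i))

/-- **Mecke formula for clusters.** -/
theorem cluster_mecke {f₀ : PhasePoint → ℝ} (hf : Measurable f₀) {ε : ℝ} {r : ℕ}
    {cl : (n : ℕ) → Config n → (Fin r → Fin n) → Finset (Fin n)} (hcl : ClusterMap ε r cl)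
    {F : (n : ℕ) → (Fin r → Fin n) → Finset (Fin n) → Config n → ℝ≥0∞}
    (hF : MarkedEquiv ε r F) (hFm : ∀ n ι B, Measurable (F n ι B)) :
    gcE f₀ ε (fun n Z => ∑ ι : Fin r → Fin n, F n ι (cl n Z ι) Z) =
      ∑' k : ℕ, activity ε ^ k / (k.factorial : ℝ≥0∞) * ∫⁻ V : Config k, gcWeight f₀ ε k V *
        gcE f₀ ε (fun m w => perpInd ε V w * ∑ j : Fin r → Fin k,
          if cl (k + m) (Fin.append V w) (fun i => Fin.castAdd m (j i)) = block k m then
            F (k + m) (fun i => Fin.castAdd m (j i)) (block k m) (Fin.append V w) else 0) := by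
  -- the functional with a marked set
  set G : (n : ℕ) → Finset (Fin n) → Config n → ℝ≥0∞ := fun n B Z =>
    ∑ ι : Fin r → Fin n, if cl n Z ι = B then F n ι B Z else 0 with hG
  have hGm : ∀ n B, Measurable (G n B) := by
    intro n B
    refine Finset.measurable_sum _ fun ι _ => ?_
    exact Measurable.ite (hcl.meas n ι B) (hFm n ι B) measurable_const
  have hGe : ∀ (n : ℕ) (σ : Equiv.Perm (Fin n)) (B : Finset (Fin n)) (Z : Config n),
      Z ∈ PairExcluded ε n → G n (B.map σ.toEmbedding) Z = G n B (fun i => Z (σ i)) := by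
    intro n σ B Z hZ
    simp only [hG]
    rw [← Equiv.sum_comp (Equiv.arrowCongr (Equiv.refl (Fin r)) σ)
      (fun ι : Fin r → Fin n => if cl n Z ι = B.map σ.toEmbedding then
        F n ι (B.map σ.toEmbedding) Z else 0)]
    refine Finset.sum_congr rfl fun ι _ => ?_
    have e1 : (Equiv.arrowCongr (Equiv.refl (Fin r)) σ) ι = fun j => σ (ι j) := by
      funext j
      simp [Equiv.arrowCongr]
    rw [e1, hcl.equiv n σ Z ι hZ, hF n σ ι B Z hZ]
    by_cases h : cl n (fun i => Z (σ i)) ι = B
    · rw [if_pos h, if_pos (by rw [h])]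
    · rw [if_neg h, if_neg]
      intro hc
      exact h (Finset.map_injective _ hc)
  -- decomposition according to the cluster
  have hdec : ∀ (n : ℕ) (Z : Config n), (∑ ι : Fin r → Fin n, F n ι (cl n Z ι) Z) =
      ∑' k : ℕ, ∑ B ∈ (Finset.univ : Finset (Fin n)).powersetCard k, G n B Z := by
    intro n Z
    have h0 : ∀ k ∉ Finset.range (n + 1),
        ∑ B ∈ (Finset.univ : Finset (Fin n)).powersetCard k, G n B Z = 0 := by
      intro k hk
      rw [Finset.powersetCard_eq_empty.2, Finset.sum_empty]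
      simp only [Finset.mem_range, not_lt] at hk
      simpa using hk
    rw [tsum_eq_sum h0]
    have h1 : ∑ k ∈ Finset.range (n + 1),
        ∑ B ∈ (Finset.univ : Finset (Fin n)).powersetCard k, G n B Z =
        ∑ B ∈ (Finset.univ : Finset (Fin n)).powerset, G n B Z := by
      rw [Finset.sum_powerset]
      simp
    rw [h1]
    simp only [hG]
    rw [Finset.sum_comm]
    refine Finset.sum_congr rfl fun ι _ => ?_
    rw [Finset.sum_ite_eq]
    simp
  have hcong : gcE f₀ ε (fun n Z => ∑ ι : Fin r → Fin n, F n ι (cl n Z ι) Z) =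
      gcE f₀ ε (fun n Z => ∑' k : ℕ,
        ∑ B ∈ (Finset.univ : Finset (Fin n)).powersetCard k, G n B Z) :=
    gcE_congr f₀ ε fun n Z _ => hdec n Z
  rw [hcong, gcE_tsum hf ε (fun k n => Finset.measurable_sum _ fun B _ => hGm n B)]
  refine tsum_congr fun k => ?_
  rw [mecke_finset hf k hGe hGm]
  congr 1
  refine lintegral_congr fun V => ?_
  by_cases hV : V ∈ PairExcluded ε k
  swap
  · have : gcWeight f₀ ε k V = 0 := by simp [gcWeight, Set.indicator_of_notMem hV]
    rw [this, zero_mul, zero_mul]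
  congr 1
  refine gcE_congr f₀ ε fun m w hw => ?_
  unfold perpInd
  by_cases hp : Perp ε V w
  swap
  · rw [if_neg hp, zero_mul, zero_mul]
  rw [if_pos hp, one_mul, one_mul]
  have hVw : (Fin.append V w : Config (k + m)) ∈ PairExcluded ε (k + m) :=
    (append_mem_pairExcluded_iff V w).2 ⟨hV, hw, hp⟩
  simp only [hG]
  change (∑ ι : Fin r → Fin (k + m), if cl (k + m) (Fin.append V w) ι = block k m then
    F (k + m) ι (block k m) (Fin.append V w) else 0) = _
  -- only marks in the block contribute
  let e : (Fin r → Fin k) ↪ (Fin r → Fin (k + m)) :=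
    ⟨fun j i => Fin.castAdd m (j i), fun j j' h => by
      funext i
      exact Fin.castAdd_injective k m (congrFun h i)⟩
  have h2 : ∑ ι ∈ (Finset.univ : Finset (Fin r → Fin k)).map e,
      (if cl (k + m) (Fin.append V w) ι = block k m then
        F (k + m) ι (block k m) (Fin.append V w) else 0) =
      ∑ ι : Fin r → Fin (k + m), if cl (k + m) (Fin.append V w) ι = block k m then
        F (k + m) ι (block k m) (Fin.append V w) else 0 := by
    refine Finset.sum_subset (Finset.subset_univ _) fun ι _ hι => ?_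
    rw [if_neg]
    intro hc
    apply hι
    rw [Finset.mem_map]
    have h3 : ∀ i, ∃ j : Fin k, Fin.castAdd m j = ι i := by
      intro i
      have := hcl.self_mem (k + m) (Fin.append V w) ι i hVw
      rw [hc] at this
      exact mem_block.1 this
    choose j hj using h3
    exact ⟨j, Finset.mem_univ _, funext hj⟩
  rw [← h2, Finset.sum_map]
  rfl

end Crest.Agent.R122.GC311
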