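import Crest.Agent.R122.NoDbl_255
import Crest.Agent.R122.CutRel_879

/-!
# Colours before the touch of one line (row 122, blocks A8/A9)

`h : FamNL Φ ε K T Z ls s`, `W = Z.add (MW.lines ls)`, `u ≤ s`, `u < thetaL (ls k)` for ONE line `k`
(the other lines are only known to be untouched before `s`, with the closed end `u = s` allowed).

* `col_step_lt`, `col_of_past_lt` : a particle which has the line `k` in its past has colour `k`.
* `col_avoid` : a particle of colour `k` has no other colour in its past.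
* `not_inf_of_col` : **a particle of colour `k` is not infected in `W`.**
* `subs_or_clean` : if all members of `D`, except possibly `δ`, are lines which are not yet touched at
  `u`, then every particle has at most one member of `D` in its past or is not infected.
-/

set_option autoImplicit false
set_option linter.unusedSectionVars false

open MeasureTheory Set Filter Topology
open Crest.AnalysisR.Kinetic
open Crest.Agent.R122.EDefs602 Crest.Agent.R122.MWAlg255 Crest.Agent.R122.CausalGen291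
open Crest.Agent.R122.Inf879
open Crest.Agent.R122.Causal291 (Past BC)

namespace Crest.Agent.R122.MWFam255

noncomputable section

variable {Φ : Space3 → ℝ} {ε T s u : ℝ} {K : ℕ} {ι κ : Type} [Fintype ι] [Fintype κ]
variable {Z : MW ι} {ls : κ → ML}

/-- **Step.** A particle in contact with a particle of colour `k` has colour `k` before the touch time
of the line `k`. -/
theorem col_step_lt (hΦ : AdmissiblePotential Φ) (hε : 0 < ε) (h : FamNL Φ ε K T Z ls s)
    (hu : u ∈ Icc 0 s) {k : κ} (hlt : u < Z.thetaL Φ ε K T (ls k)) {x y : ι ⊕ κ}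
    (hy : Col Φ ε K Z ls k u y) (hc : (Z.add (MW.lines ls)).C Φ ε u x y) :
    Col Φ ε K Z ls k u x := by
  by_cases hx : ∃ j, Col Φ ε K Z ls j u x
  · obtain ⟨j, hj⟩ := hx
    have := col_contact hΦ hε h hu hj hy hc
    exact this ▸ hj
  push Not at hx
  have hok := okF_of_okFam hΦ hε h.ok
  have hZ := hok.z
  have hA := h.ok.line hΦ hε k
  obtain ⟨i, rfl, hp, hpk⟩ := path_no_col hΦ hε h hu hx
  obtain ⟨h1, h2, h3, h4⟩ := hc
  have hck : (Z.add (MW.line (ls k))).C Φ ε u (proj y) (Sum.inl i) := by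
    refine ⟨?_, h1, ?_, ?_⟩
    · rw [← hy.b]; exact h2
    · rw [← hy.b]
      rcases h3 with h3 | h3 | h3
      · left
        rw [← h3]
        rfl
      · exact Or.inr (Or.inr h3)
      · exact Or.inr (Or.inl h3)
    · rw [← hy.path hΦ hε h hu, hpk k, ← hp, dist_comm]
      exact h4
  refine Or.inr ⟨i, rfl, ?_⟩
  refine cf_of_fut_lt hΦ hε hZ hA hu.1 (hu.2.trans h.sT) hlt ?_
  rcases hy with rfl | ⟨i', rfl, hi'⟩
  · exact .new₂ (Sum.inr ()) (by rintro ⟨l, hl⟩; cases hl) hck hu.1 le_rfl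
  · exact .chain₂ hi'.fut hck le_rfl

/-- **Past and colour** before the touch time of the line `k`. -/
theorem col_of_past_lt (hΦ : AdmissiblePotential Φ) (hε : 0 < ε) (h : FamNL Φ ε K T Z ls s)
    (hus : u ≤ s) {k : κ} (hlt : u < Z.thetaL Φ ε K T (ls k)) {x : ι ⊕ κ} {v : ℝ} {y : ι ⊕ κ}
    (hp : Past ((Z.add (MW.lines ls)).C Φ ε) u x v y) (hv : 0 ≤ v)
    (hy : Col Φ ε K Z ls k v y) : Col Φ ε K Z ls k u x := by
  induction hp with
  | root hvu => exact hy.mono hvu
  | @step v v' j y hj hc hvv ih =>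
    have hv' : 0 ≤ v' := hv.trans hvv
    exact ih hv' (col_step_lt hΦ hε h ⟨hv', hj.le.trans hus⟩ (hj.le.trans_lt hlt) (hy.mono hvv) hc)

/-- Different colours do not meet in the past. -/
theorem col_avoid (hΦ : AdmissiblePotential Φ) (hε : 0 < ε) (h : FamNL Φ ε K T Z ls s)
    (hus : u ≤ s) {k : κ} (hlt : u < Z.thetaL Φ ε K T (ls k)) {x : ι ⊕ κ}
    (hx : Col Φ ε K Z ls k u x) {v : ℝ} {y : ι ⊕ κ}
    (hp : Past ((Z.add (MW.lines ls)).C Φ ε) u x v y) (hv : 0 ≤ v) :
    (∀ j, Col Φ ε K Z ls j v y → j = k) ∧ (v = s → Col Φ ε K Z ls k v y) := by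
  induction hp with
  | @root v hvu =>
    refine ⟨fun j hj => col_disjoint h ⟨hv.trans hvu, hus⟩ (hj.mono hvu) hx, fun hvs => ?_⟩
    have : v = u := le_antisymm hvu (hus.trans hvs.ge)
    rw [this]
    exact hx
  | @step v v' y' y hy' hc hvv ih =>
    have hv' : 0 ≤ v' := hv.trans hvv
    obtain ⟨ih1, ih2⟩ := ih hv'
    have hv's : v' ≤ s := hy'.le.trans hus
    rcases hv's.lt_or_eq with hlt' | heq
    · refine ⟨fun j hj => ?_, fun hvs => absurd (hvs.ge.trans hvv) (not_le.2 hlt')⟩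
      exact ih1 j (col_step hΦ hε h ⟨hv', hv's⟩ (hj.mono hvv) hc (Or.inl hlt'))
    · have hk' := ih2 heq
      have hky : Col Φ ε K Z ls k v' y :=
        col_step_lt hΦ hε h ⟨hv', hv's⟩ (hy'.le.trans_lt hlt) hk' (MW.C_symm _ hc)
      refine ⟨fun j hj => col_disjoint h ⟨hv', hv's⟩ (hj.mono hvv) hky, fun hvs => ?_⟩
      have : v = v' := hvs.trans heq.symm
      rw [this]
      exact hky

/-- A contact of two particles which have no colour different from `k`. -/
theorem contact_proj (hΦ : AdmissiblePotential Φ) (hε : 0 < ε) (h : FamNL Φ ε K T Z ls s)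
    (hu : u ∈ Icc 0 s) {k : κ} {x y : ι ⊕ κ} (hx : ∀ j, Col Φ ε K Z ls j u x → j = k)
    (hy : ∀ j, Col Φ ε K Z ls j u y → j = k) (hc : (Z.add (MW.lines ls)).C Φ ε u x y) :
    (Z.add (MW.line (ls k))).C Φ ε u (proj x) (proj y) := by
  have key : ∀ {x : ι ⊕ κ}, (∀ j, Col Φ ε K Z ls j u x → j = k) →
      (Z.add (MW.lines ls)).b x = (Z.add (MW.line (ls k))).b (proj x) ∧
        (Z.add (MW.lines ls)).path Φ ε u x = (Z.add (MW.line (ls k))).path Φ ε u (proj x) := by
    intro x hx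
    by_cases hk : Col Φ ε K Z ls k u x
    · exact ⟨hk.b, hk.path hΦ hε h hu⟩
    · have hno : ∀ j, ¬ Col Φ ε K Z ls j u x := fun j hj => hk (hx j hj ▸ hj)
      obtain ⟨i, rfl, hp, hpk⟩ := path_no_col hΦ hε h hu hno
      exact ⟨rfl, hp.trans (hpk k).symm⟩
  obtain ⟨bx, px⟩ := key hx
  obtain ⟨bY, pY⟩ := key hy
  obtain ⟨h1, h2, h3, h4⟩ := hc
  refine ⟨bx ▸ h1, bY ▸ h2, ?_, ?_⟩
  · rcases h3 with h3 | h3 | h3
    · left
      rw [h3]
    · right; left
      rw [← bx]; exact h3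
    · right; right
      rw [← bY]; exact h3
  · rw [← px, ← pY]
    exact h4

/-- The past of a particle of colour `k`, in the world with the line `k` only. -/
theorem past_proj (hΦ : AdmissiblePotential Φ) (hε : 0 < ε) (h : FamNL Φ ε K T Z ls s)
    (hus : u ≤ s) {k : κ} (hlt : u < Z.thetaL Φ ε K T (ls k)) {x : ι ⊕ κ}
    (hx : Col Φ ε K Z ls k u x) {v : ℝ} {y : ι ⊕ κ}
    (hp : Past ((Z.add (MW.lines ls)).C Φ ε) u x v y) (hv : 0 ≤ v) :
    Past ((Z.add (MW.line (ls k))).C Φ ε) u (proj x) v (proj y) := by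
  induction hp with
  | root hvu => exact .root hvu
  | @step v v' y' y hy' hc hvv ih =>
    have hv' : 0 ≤ v' := hv.trans hvv
    refine .step (ih hv') (contact_proj hΦ hε h ⟨hv', hy'.le.trans hus⟩
      (col_avoid hΦ hε h hus hlt hx hy' hv').1 ?_ hc) hvv
    exact (col_avoid hΦ hε h hus hlt hx (.step hy' hc le_rfl) hv').1

/-- **A particle of colour `k` is not infected before the touch time of the line `k`.** -/
theorem not_inf_of_col (hΦ : AdmissiblePotential Φ) (hε : 0 < ε) (h : FamNL Φ ε K T Z ls s)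
    (hu : u ∈ Icc 0 s) {k : κ} (hlt : u < Z.thetaL Φ ε K T (ls k)) {x : ι ⊕ κ}
    (hx : Col Φ ε K Z ls k u x) : ¬ (Z.add (MW.lines ls)).Inf Φ ε K u x := by
  classical
  have hok := okF_of_okFam hΦ hε h.ok
  have hZ := hok.z
  have hA := h.ok.line hΦ hε k
  have hT : u ∈ Icc 0 T := ⟨hu.1, hu.2.trans h.sT⟩
  -- clean in the world with the line `k`
  have h1 : ¬ (Z.add (MW.line (ls k))).Inf Φ ε K u (proj x) := by
    rcases hx with rfl | ⟨i, rfl, hi⟩
    · exact MW.not_inf_new_of_lt_theta hΦ hε hZ hA hT hlt ()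
    · exact ((MW.agree_of_lt_theta hΦ hε hZ hA hT hlt).2 i hi.fut).2
  have hj : ∀ j, Sum.inr j ∈ BC ((Z.add (MW.lines ls)).C Φ ε) u x → j = k := fun j hj =>
    (col_avoid hΦ hε h hu.2 hlt hx hj le_rfl).1 j (Or.inl rfl)
  have h2 : msize ((Z.add (MW.lines ls)).C Φ ε) (Z.add (MW.lines ls)).m u x ≤
      msize ((Z.add (MW.line (ls k))).C Φ ε) (Z.add (MW.line (ls k))).m u (proj x) := by
    unfold msize
    rw [Fintype.sum_sum_type, Fintype.sum_sum_type]
    refine add_le_add (Finset.sum_le_sum fun i _ => ?_) ?_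
    · by_cases hi : (Sum.inl i : ι ⊕ κ) ∈ BC ((Z.add (MW.lines ls)).C Φ ε) u x
      · have h3 : (Sum.inl i : ι ⊕ Unit) ∈ BC ((Z.add (MW.line (ls k))).C Φ ε) u (proj x) :=
          past_proj hΦ hε h hu.2 hlt hx hi le_rfl
        rw [if_pos hi, if_pos h3]
        exact le_rfl
      · rw [if_neg hi]
        exact Nat.zero_le _
    · rw [Finset.sum_eq_single k]
      · by_cases hk : (Sum.inr k : ι ⊕ κ) ∈ BC ((Z.add (MW.lines ls)).C Φ ε) u x
        · have h3 : (Sum.inr () : ι ⊕ Unit) ∈ BC ((Z.add (MW.line (ls k))).C Φ ε) u (proj x) :=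
            past_proj hΦ hε h hu.2 hlt hx hk le_rfl
          rw [if_pos hk, Fintype.sum_unique]
          rw [if_pos h3]
          exact le_rfl
        · rw [if_neg hk]
          exact Nat.zero_le _
      · intro j _ hjk
        rw [if_neg fun h' => hjk (hj j h')]
      · intro h'
        exact absurd (Finset.mem_univ k) h'
  exact fun hI => h1 (lt_of_lt_of_le hI h2)

/-- **At most one member in the past, or clean.** -/
theorem subs_or_clean (hΦ : AdmissiblePotential Φ) (hε : 0 < ε) (h : FamNL Φ ε K T Z ls s)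
    (hu : u ∈ Icc 0 s) {D : Set (ι ⊕ κ)} {δ : ι ⊕ κ}
    (hD : ∀ y ∈ D, y ≠ δ → ∃ k, y = Sum.inr k ∧ u < Z.thetaL Φ ε K T (ls k)) (x : ι ⊕ κ) :
    (BC ((Z.add (MW.lines ls)).C Φ ε) u x ∩ D).Subsingleton ∨
      ¬ (Z.add (MW.lines ls)).Inf Φ ε K u x := by
  by_cases hne : ∃ y ∈ BC ((Z.add (MW.lines ls)).C Φ ε) u x ∩ D, y ≠ δ
  · obtain ⟨y, ⟨hy, hyD⟩, hyδ⟩ := hne
    obtain ⟨k, rfl, hlt⟩ := hD y hyD hyδ
    right
    refine not_inf_of_col hΦ hε h hu hlt ?_
    exact col_of_past_lt hΦ hε h hu.2 hlt hy le_rfl (Or.inl rfl)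
  · push Not at hne
    left
    intro y hy y' hy'
    rw [hne y hy, hne y' hy']

end

end Crest.Agent.R122.MWFam255
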