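import Crest.Agent.R122.Coll_674

/-!
Row 122, block C (helper674), part C1: measurability and the measure identity of the isolated
two-body collision in outgoing parameters.
-/

set_option autoImplicit false

open MeasureTheory Set Filter Topology
open Crest.AnalysisR.Kinetic
open scoped ENNReal

noncomputable section

namespace Crest.Agent.R122.Tree674

open Kin796 Kin796.CTree Disc416 Scat818 Flow671 Flux663

variable {Φ : Space3 → ℝ}

/-! ### Measurability of the two-body data -/

/-- the good incidence set: `b ∈ impactDisc g`, `g ≠ 0`, a passage exists -/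
def AS (Φ : Space3 → ℝ) : Set (Space3 × Space3) :=
  {p | p.1 ∈ impactDisc p.2 ∧ p.2 ≠ 0 ∧ NT Φ p.1 p.2}

theorem measurableSet_AS (hΦ : AdmissiblePotential Φ) : MeasurableSet (AS Φ) := by
  have h : AS Φ = {p : Space3 × Space3 | p ∈ incid ∧ ∃ τ, HasExit Φ (inc p.1 p.2) τ} ∩
      {p | p.2 ≠ 0} := by
    ext p
    constructor
    · rintro ⟨h1, h2, h3⟩
      exact ⟨⟨⟨h1, fun h => h2 (by rw [h]; rfl)⟩, (nt_iff hΦ h1 h2).1 h3⟩, h2⟩
    · rintro ⟨⟨h1, h3⟩, h2⟩
      exact ⟨h1.1, h2, (nt_iff hΦ h1.1 h2).2 h3⟩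
  rw [h]
  exact (measurableSet_hasExit hΦ).inter
    ((measurableSet_singleton (0 : Space3)).compl.preimage measurable_snd)

theorem measurable_indicator_tau (hΦ : AdmissiblePotential Φ) :
    Measurable ((AS Φ).indicator fun p => tau Φ p.1 p.2) := by
  refine measurable_of_Iio fun c => ?_
  rcases le_or_gt c 0 with hc | hc
  · have : (AS Φ).indicator (fun p => tau Φ p.1 p.2) ⁻¹' Iio c = ∅ := by
      ext p
      simp only [mem_preimage, mem_Iio, mem_empty_iff_false, iff_false, not_lt]
      refine hc.trans (indicator_nonneg (fun p _ => tau_nonneg Φ _ _) p)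
    rw [this]; exact MeasurableSet.empty
  · have : (AS Φ).indicator (fun p => tau Φ p.1 p.2) ⁻¹' Iio c =
        (AS Φ)ᶜ ∪ (AS Φ ∩ {p | 1 < ‖(relFlow Φ c (inc p.1 p.2)).1‖}) := by
      ext p
      simp only [mem_preimage, mem_Iio, mem_union, mem_compl_iff, mem_inter_iff, mem_ofPred_eq]
      by_cases hp : p ∈ AS Φ
      · rw [indicator_of_mem hp]
        simp only [hp, not_true_eq_false, true_and, false_or]
        rw [← exit_lt_iff hΦ (reg_entrance Φ hp.1 hp.2.1) (enters_inc hΦ hp.1 hp.2.1) hc]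
        constructor
        · intro h; exact ⟨_, h, hasExit_tau hΦ hp.1 hp.2.1 hp.2.2⟩
        · rintro ⟨τ, h1, h2⟩
          rwa [(hasExit_tau hΦ hp.1 hp.2.1 hp.2.2).unique h2]
      · rw [indicator_of_notMem hp]
        simp [hp, hc]
    rw [this]
    refine (measurableSet_AS hΦ).compl.union ((measurableSet_AS hΦ).inter ?_)
    exact measurableSet_lt measurable_const (((measurable_relFlow hΦ c).comp measurable_inc).fst.norm)

theorem measurable_indicator_exit (hΦ : AdmissiblePotential Φ) :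
    Measurable ((AS Φ).indicator fun p => exitVelocity Φ p.1 p.2) := by
  classical
  have h1 := (measurable_exitVelocity hΦ).indicator (measurableSet_AS hΦ)
  convert h1 using 1
  funext p
  by_cases hp : p ∈ AS Φ
  · rw [indicator_of_mem hp, indicator_of_mem hp, if_pos hp.1]
  · rw [indicator_of_notMem hp, indicator_of_notMem hp]

theorem measurable_indicator_qx (hΦ : AdmissiblePotential Φ) :
    Measurable ((AS Φ).indicator fun p => qx Φ p.1 p.2) := by
  refine measurable_of_tendsto_metrizable (f := fun n : ℕ => (AS Φ).indicator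
    fun p : Space3 × Space3 => (relFlow Φ (n : ℝ) (inc p.1 p.2)).1 -
      ((n : ℝ) - (AS Φ).indicator (fun p => tau Φ p.1 p.2) p) •
        (relFlow Φ (n : ℝ) (inc p.1 p.2)).2) (fun n => ?_) ?_
  · refine Measurable.indicator ?_ (measurableSet_AS hΦ)
    have h1 : Measurable fun p : Space3 × Space3 => relFlow Φ (n : ℝ) (inc p.1 p.2) :=
      (measurable_relFlow hΦ _).comp measurable_inc
    exact h1.fst.sub ((measurable_const.sub (measurable_indicator_tau hΦ)).smul h1.snd)
  · rw [tendsto_pi_nhds]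
    intro p
    by_cases hp : p ∈ AS Φ
    · simp only [indicator_of_mem hp]
      refine tendsto_const_nhds.congr' ?_
      obtain ⟨N, hN⟩ := exists_nat_ge (tau Φ p.1 p.2)
      filter_upwards [eventually_ge_atTop N] with n hn
      have hn' : tau Φ p.1 p.2 ≤ n := hN.trans (by exact_mod_cast hn)
      obtain ⟨h1, h2⟩ := qpath_after hΦ hp.1 hp.2.1 hp.2.2 hn'
      rw [← qpath_eq hΦ hp.1 hp.2.1 hp.2.2, ← deriv_qpath hΦ hp.1 hp.2.1 hp.2.2, h1, h2]
      abel
    · simp only [indicator_of_notMem hp]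
      exact tendsto_const_nhds

/-- admissible nodes -/
def NS (Φ : Space3 → ℝ) : Set (Space3 × NodeP) := {z | Adm1 Φ z.1 z.2}

theorem measurable_nbng : Measurable fun z : Space3 × NodeP => (nb z.1 z.2, ng z.1 z.2) := by
  have h1 : Measurable fun z : Space3 × NodeP => z.1 - z.2.2.1 := by fun_prop
  have h2 : Measurable fun z : Space3 × NodeP => z.2.2.2 := by fun_prop
  exact (measurable_frameMap.comp (h1.prodMk h2)).prodMk h1

theorem mem_NS_iff {z : Space3 × NodeP} :
    z ∈ NS Φ ↔ ‖z.2.2.2‖ < 1 ∧ z.1 ≠ z.2.2.1 ∧ (nb z.1 z.2, ng z.1 z.2) ∈ AS Φ := by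
  constructor
  · intro h
    exact ⟨h.1, h.2.1, h.nb_mem, h.ng_ne, h.nt⟩
  · rintro ⟨h1, h2, h3⟩
    exact ⟨h1, h2, h3.2.2⟩

theorem nbng_mem {z : Space3 × NodeP} (hz : z ∈ NS Φ) : (nb z.1 z.2, ng z.1 z.2) ∈ AS Φ :=
  (mem_NS_iff.1 hz).2.2

theorem measurableSet_NS (hΦ : AdmissiblePotential Φ) : MeasurableSet (NS Φ) := by
  have h : NS Φ = ({z | ‖z.2.2.2‖ < 1} ∩ {z | z.1 ≠ z.2.2.1}) ∩
      (fun z : Space3 × NodeP => (nb z.1 z.2, ng z.1 z.2)) ⁻¹' AS Φ := by
    ext z; rw [mem_NS_iff]; simp [and_assoc]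
  rw [h]
  refine MeasurableSet.inter (MeasurableSet.inter ?_ ?_) (measurable_nbng (measurableSet_AS hΦ))
  · exact measurableSet_lt (by fun_prop) measurable_const
  · exact (measurableSet_eq_fun measurable_fst (by fun_prop)).compl

/-- a function which is measurable on the admissible nodes -/
theorem measurable_NS_comp {β : Type*} [MeasurableSpace β] [Zero β] (hΦ : AdmissiblePotential Φ)
    {f : Space3 × Space3 → β} (hf : Measurable ((AS Φ).indicator f)) :
    Measurable ((NS Φ).indicator fun z => f (nb z.1 z.2, ng z.1 z.2)) := by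
  have h1 := (hf.comp measurable_nbng).indicator (measurableSet_NS hΦ)
  convert h1 using 1
  funext z
  by_cases hz : z ∈ NS Φ
  · rw [indicator_of_mem hz, indicator_of_mem hz, Function.comp_apply, indicator_of_mem (nbng_mem hz)]
  · rw [indicator_of_notMem hz, indicator_of_notMem hz]

theorem measurable_sin (hΦ : AdmissiblePotential Φ) (ε : ℝ) :
    Measurable ((NS Φ).indicator fun z => Tree674.sin Φ ε z.1 z.2) := by
  have h1 := measurable_NS_comp hΦ (measurable_indicator_tau hΦ)
  have h2 : ((NS Φ).indicator fun z => Tree674.sin Φ ε z.1 z.2) = (NS Φ).indicator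
      (fun z => z.2.1 - ε * (NS Φ).indicator (fun z => tau Φ (nb z.1 z.2) (ng z.1 z.2)) z) := by
    funext z
    by_cases hz : z ∈ NS Φ
    · rw [indicator_of_mem hz, indicator_of_mem hz, indicator_of_mem hz]; rfl
    · rw [indicator_of_notMem hz, indicator_of_notMem hz]
  rw [h2]
  refine Measurable.indicator ?_ (measurableSet_NS hΦ)
  exact (by fun_prop : Measurable fun z : Space3 × NodeP => z.2.1).sub (measurable_const.mul h1)

/-- incoming lines on the admissible nodes, `0` elsewhere -/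
def inM (Φ : Space3 → ℝ) (ε : ℝ) (z : PhasePoint × NodeP) : PhasePoint × PhasePoint :=
  {z : PhasePoint × NodeP | (z.1.2, z.2) ∈ NS Φ}.indicator (fun z => inMap Φ ε z.1 z.2) z

/-- entrance time on the admissible nodes, `0` elsewhere -/
def sinM (Φ : Space3 → ℝ) (ε : ℝ) (z : PhasePoint × NodeP) : ℝ :=
  (NS Φ).indicator (fun z => Tree674.sin Φ ε z.1 z.2) (z.1.2, z.2)

theorem inM_of_adm {ε : ℝ} {z : PhasePoint × NodeP} (h : Adm1 Φ z.1.2 z.2) :
    inM Φ ε z = inMap Φ ε z.1 z.2 := by
  unfold inM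
  rw [indicator_of_mem]
  exact h

theorem sinM_of_adm {ε : ℝ} {z : PhasePoint × NodeP} (h : Adm1 Φ z.1.2 z.2) :
    sinM Φ ε z = Tree674.sin Φ ε z.1.2 z.2 := by
  unfold sinM
  rw [indicator_of_mem]
  exact h

theorem measurable_zv : Measurable fun z : PhasePoint × NodeP => (z.1.2, z.2) := by fun_prop

theorem measurableSet_adm1 (hΦ : AdmissiblePotential Φ) :
    MeasurableSet {z : PhasePoint × NodeP | Adm1 Φ z.1.2 z.2} :=
  measurable_zv (measurableSet_NS hΦ)

theorem measurable_sinM (hΦ : AdmissiblePotential Φ) (ε : ℝ) : Measurable (sinM Φ ε) :=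
  (measurable_sin hΦ ε).comp measurable_zv

theorem measurable_inM (hΦ : AdmissiblePotential Φ) (ε : ℝ) : Measurable (inM Φ ε) := by
  have ht := (measurable_NS_comp hΦ (measurable_indicator_tau hΦ)).comp measurable_zv
  have hq := (measurable_NS_comp hΦ (measurable_indicator_qx hΦ)).comp measurable_zv
  have hv := (measurable_NS_comp hΦ (measurable_indicator_exit hΦ)).comp measurable_zv
  have hs := measurable_sinM hΦ ε
  have he : Measurable fun z : PhasePoint × NodeP => entrancePoint (nb z.1.2 z.2) (ng z.1.2 z.2) :=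
    measurable_entrancePoint.comp (measurable_nbng.comp measurable_zv)
  set t : PhasePoint × NodeP → ℝ := fun z => (NS Φ).indicator
    (fun z => tau Φ (nb z.1 z.2) (ng z.1 z.2)) (z.1.2, z.2) with hts
  set q : PhasePoint × NodeP → Space3 := fun z => (NS Φ).indicator
    (fun z => qx Φ (nb z.1 z.2) (ng z.1 z.2)) (z.1.2, z.2) with hqs
  set w : PhasePoint × NodeP → Space3 := fun z => (NS Φ).indicator
    (fun z => exitVelocity Φ (nb z.1 z.2) (ng z.1 z.2)) (z.1.2, z.2) with hws
  have ht' : Measurable t := ht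
  have hq' : Measurable q := hq
  have hw' : Measurable w := hv
  have hcm : Measurable fun z : PhasePoint × NodeP => cmv z.1.2 z.2 := by unfold cmv; fun_prop
  have hcs : Measurable fun z : PhasePoint × NodeP => cms ε z.1 z.2 := by
    unfold cms
    exact (by fun_prop : Measurable fun z : PhasePoint × NodeP => z.1.1 + z.2.1 • z.1.2).add
      (he.const_smul (ε / 2))
  have key : inM Φ ε = {z : PhasePoint × NodeP | (z.1.2, z.2) ∈ NS Φ}.indicator (fun z =>
      ((cms ε z.1 z.2 - (ε * t z) • cmv z.1.2 z.2 - (ε / 2) • q z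
          - sinM Φ ε z • (cmv z.1.2 z.2 + (1 / 2 : ℝ) • w z),
        cmv z.1.2 z.2 + (1 / 2 : ℝ) • w z),
       (cms ε z.1 z.2 - (ε * t z) • cmv z.1.2 z.2 + (ε / 2) • q z
          - sinM Φ ε z • (cmv z.1.2 z.2 - (1 / 2 : ℝ) • w z),
        cmv z.1.2 z.2 - (1 / 2 : ℝ) • w z))) := by
    funext z
    unfold inM
    by_cases hz : (z.1.2, z.2) ∈ NS Φ
    · rw [indicator_of_mem (by exact hz), indicator_of_mem (by exact hz), sinM_of_adm (by exact hz)]
      simp only [hts, hqs, hws, indicator_of_mem hz]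
      rfl
    · rw [indicator_of_notMem (by exact hz), indicator_of_notMem (by exact hz)]
  rw [key]
  refine Measurable.indicator ?_ (measurable_zv (measurableSet_NS hΦ))
  have h1 := hcm.add (hw'.const_smul (1 / 2 : ℝ))
  have h2 := hcm.sub (hw'.const_smul (1 / 2 : ℝ))
  have h3 := hcs.sub ((ht'.const_mul ε).smul hcm)
  exact (((h3.sub (hq'.const_smul (ε / 2))).sub (hs.smul h1)).prodMk h1).prodMk
    (((h3.add (hq'.const_smul (ε / 2))).sub (hs.smul h2)).prodMk h2)

end Crest.Agent.R122.Tree674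

end
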