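import Crest.Agent.R122.FluxQ_663

/-!
# Row 122, block F2 (S7), two-body form at range `ε`

Lebesgue measure on pairs of phase points whose free lines come closer than `ε`, in collision
coordinates `(s, x, v, w, b)`: at the time `s` of closest approach the first particle is at `x`, the
second one at `x - ε b`, `b ∈ impactDisc (v - w)`.
-/

set_option autoImplicit false

open MeasureTheory Set Filter
open Crest.AnalysisR.Kinetic
open scoped ENNReal

noncomputable section

namespace Crest.Agent.R122.Flux663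

open Disc416

/-- Pairs whose free lines come closer than `ε` (at some real time). -/
def PairCyl (ε : ℝ) : Set (PhasePoint × PhasePoint) :=
  {p | p.1.2 ≠ p.2.2 ∧ ‖bline (p.1.1 - p.2.1, p.1.2 - p.2.2)‖ < ε}

lemma measurableSet_PairCyl (ε : ℝ) : MeasurableSet (PairCyl ε) := by
  have h1 : MeasurableSet {p : PhasePoint × PhasePoint | p.1.2 ≠ p.2.2} :=
    (measurableSet_eq_fun (by fun_prop) (by fun_prop)).compl
  have h2 : Measurable (fun p : PhasePoint × PhasePoint => bline (p.1.1 - p.2.1, p.1.2 - p.2.2)) :=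
    measurable_bline.comp (by fun_prop)
  exact h1.inter (measurableSet_lt h2.norm measurable_const)

/-- Scaling of Lebesgue measure on `Space3`. -/
lemma lintegral_scale3 {a : ℝ} (ha : 0 < a) (H : Space3 → ℝ≥0∞) :
    ∫⁻ q, H q = ENNReal.ofReal (a ^ 3) * ∫⁻ q, H (a • q) := by
  have h := Measure.map_addHaar_smul (volume : Measure Space3) ha.ne'
  have hd : Module.finrank ℝ Space3 = 3 := by simp
  rw [hd] at h
  have h2 : ∫⁻ q, H (a • q) = ∫⁻ q, H q ∂(Measure.map (a • ·) (volume : Measure Space3)) :=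
    ((Homeomorph.smulOfNeZero a ha.ne').measurableEmbedding.lintegral_map H).symm
  rw [h2, h, lintegral_smul_measure, smul_eq_mul, ← mul_assoc,
    ← ENNReal.ofReal_mul (by positivity), abs_of_pos (by positivity),
    mul_inv_cancel₀ (by positivity), ENNReal.ofReal_one, one_mul]

lemma bline_smul_fst (a : ℝ) (q g : Space3) : bline (a • q, g) = a • bline (q, g) := by
  unfold bline tline
  simp only [inner_smul_left, conj_trivial, smul_sub, smul_smul, mul_div_assoc]

/-- One relative velocity, range `ε`. -/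
lemma lintegral_cyl_eps {ε : ℝ} (hε : 0 < ε) {g : Space3} (hg : g ≠ 0) {F : Space3 → ℝ≥0∞}
    (hF : Measurable F) :
    ∫⁻ q, (if ‖bline (q, g)‖ < ε then F q else 0) =
      ENNReal.ofReal (ε ^ 2) * (ENNReal.ofReal ‖g‖ *
        ∫⁻ y in Metric.ball (0 : Plane) 1, ∫⁻ s : ℝ, F (ε • frameMap g y + s • g)) := by
  rw [lintegral_scale3 hε]
  have h1 : ∀ q : Space3, (if ‖bline (ε • q, g)‖ < ε then F (ε • q) else 0) =
      if ‖bline (q, g)‖ < 1 then F (ε • q) else 0 := by
    intro q
    rw [bline_smul_fst, norm_smul, Real.norm_eq_abs, abs_of_pos hε]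
    have : ε * ‖bline (q, g)‖ < ε ↔ ‖bline (q, g)‖ < 1 := by
      constructor
      · intro h; by_contra h2; push Not at h2; nlinarith
      · intro h; nlinarith
    simp only [this]
  simp only [h1]
  rw [lintegral_cyl_fixed hg (F := fun q => F (ε • q)) (hF.comp (measurable_const_smul ε))]
  have h2 : ∀ y : Plane, ∫⁻ s : ℝ, F (ε • frameMap g y + s • g) =
      ENNReal.ofReal ε * ∫⁻ s : ℝ, F (ε • (frameMap g y + s • g)) := by
    intro y
    rw [lintegral_scale hε (fun s => F (ε • frameMap g y + s • g))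
      (hF.comp ((measurable_id.smul measurable_const).const_add _))]
    simp only [smul_add, smul_smul]
  simp only [h2]
  rw [lintegral_const_mul' _ _ ENNReal.ofReal_ne_top]
  have h3 : ENNReal.ofReal (ε ^ 3) = ENNReal.ofReal (ε ^ 2) * ENNReal.ofReal ε := by
    rw [← ENNReal.ofReal_mul (by positivity)]
    ring_nf
  rw [h3]
  ring

/-- (S7) for pairs, fixed velocities. -/
lemma lintegral_pair_fixed {ε : ℝ} (hε : 0 < ε) {v w : Space3} (hg : v - w ≠ 0)
    {F : Space3 → Space3 → ℝ≥0∞} (hF : Measurable (Function.uncurry F)) :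
    ∫⁻ x₁, ∫⁻ x₂, (if ‖bline (x₁ - x₂, v - w)‖ < ε then F x₁ x₂ else 0) =
      ENNReal.ofReal (ε ^ 2) * ∫⁻ s : ℝ, ∫⁻ x : Space3, ENNReal.ofReal ‖v - w‖ *
        ∫⁻ y in Metric.ball (0 : Plane) 1,
          F (x - s • v) (x - ε • frameMap (v - w) y - s • w) := by
  set g := v - w with hgdef
  -- x₂ = x₁ - q
  have h1 : ∀ x₁ : Space3, ∫⁻ x₂, (if ‖bline (x₁ - x₂, g)‖ < ε then F x₁ x₂ else 0) =
      ∫⁻ q, (if ‖bline (q, g)‖ < ε then F x₁ (x₁ - q) else 0) := by
    intro x₁
    have := (Measure.measurePreserving_sub_left (volume : Measure Space3) x₁).lintegral_comp_emb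
      (MeasurableEquiv.subLeft x₁).measurableEmbedding
      (fun x₂ => (if ‖bline (x₁ - x₂, g)‖ < ε then F x₁ x₂ else 0))
    rw [← this]
    simp only [sub_sub_cancel]
  simp only [h1]
  have h2 : ∀ x₁ : Space3, ∫⁻ q, (if ‖bline (q, g)‖ < ε then F x₁ (x₁ - q) else 0) =
      ENNReal.ofReal (ε ^ 2) * (ENNReal.ofReal ‖g‖ *
        ∫⁻ y in Metric.ball (0 : Plane) 1, ∫⁻ s : ℝ, F x₁ (x₁ - (ε • frameMap g y + s • g))) := by
    intro x₁
    exact lintegral_cyl_eps hε hg (F := fun q => F x₁ (x₁ - q))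
      (hF.comp (measurable_const.prodMk (measurable_id.const_sub x₁)))
  simp only [h2]
  -- measurability of the integrand in all variables
  have hfm : Measurable (fun y : Plane => frameMap g y) :=
    measurable_frameMap.comp (measurable_const.prodMk measurable_id)
  have hA : Measurable (fun p : (Space3 × Plane) × ℝ =>
      F p.1.1 (p.1.1 - (ε • frameMap g p.1.2 + p.2 • g))) := by
    refine hF.comp (Measurable.prodMk (measurable_fst.comp measurable_fst) ?_)
    refine (measurable_fst.comp measurable_fst).sub (Measurable.add ?_ ?_)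
    · exact (hfm.comp (measurable_snd.comp measurable_fst)).const_smul ε
    · exact measurable_snd.smul measurable_const
  rw [lintegral_const_mul' _ _ ENNReal.ofReal_ne_top]
  congr 1
  rw [lintegral_const_mul' _ _ ENNReal.ofReal_ne_top]
  have hB : ∀ s : ℝ, ∫⁻ x : Space3, ENNReal.ofReal ‖g‖ * ∫⁻ y in Metric.ball (0 : Plane) 1,
          F (x - s • v) (x - ε • frameMap g y - s • w) =
      ENNReal.ofReal ‖g‖ * ∫⁻ x : Space3, ∫⁻ y in Metric.ball (0 : Plane) 1,
          F (x - s • v) (x - ε • frameMap g y - s • w) := by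
    intro s
    rw [lintegral_const_mul' _ _ ENNReal.ofReal_ne_top]
  simp only [hB]
  rw [lintegral_const_mul' _ _ ENNReal.ofReal_ne_top]
  congr 1
  -- exchange the order: ∫ x₁ ∫ y ∫ s = ∫ s ∫ x₁ ∫ y
  have hC : ∫⁻ x₁ : Space3, ∫⁻ y in Metric.ball (0 : Plane) 1, ∫⁻ s : ℝ,
        F x₁ (x₁ - (ε • frameMap g y + s • g)) =
      ∫⁻ s : ℝ, ∫⁻ x₁ : Space3, ∫⁻ y in Metric.ball (0 : Plane) 1,
        F x₁ (x₁ - (ε • frameMap g y + s • g)) := by
    have e1 : ∀ x₁ : Space3, ∫⁻ y in Metric.ball (0 : Plane) 1, ∫⁻ s : ℝ,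
        F x₁ (x₁ - (ε • frameMap g y + s • g)) =
        ∫⁻ s : ℝ, ∫⁻ y in Metric.ball (0 : Plane) 1, F x₁ (x₁ - (ε • frameMap g y + s • g)) := by
      intro x₁
      refine lintegral_lintegral_swap ?_
      exact (hA.comp ((measurable_const.prodMk measurable_fst).prodMk measurable_snd)).aemeasurable
    simp only [e1]
    refine lintegral_lintegral_swap ?_
    have e2 : Measurable (fun q : (Space3 × ℝ) × Plane =>
        F q.1.1 (q.1.1 - (ε • frameMap g q.2 + q.1.2 • g))) :=
      hA.comp (((measurable_fst.comp measurable_fst).prodMk measurable_snd).prodMk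
        (measurable_snd.comp measurable_fst))
    exact (e2.lintegral_prod_right' (ν := volume.restrict (Metric.ball (0 : Plane) 1))).aemeasurable
  rw [hC]
  -- s ↦ -s, x₁ = x - s v
  have hD : Measurable (fun s : ℝ => ∫⁻ x₁ : Space3, ∫⁻ y in Metric.ball (0 : Plane) 1,
        F x₁ (x₁ - (ε • frameMap g y + s • g))) := by
    have e2 : Measurable (fun q : (ℝ × Space3) × Plane =>
        F q.1.2 (q.1.2 - (ε • frameMap g q.2 + q.1.1 • g))) :=
      hA.comp (((measurable_snd.comp measurable_fst).prodMk measurable_snd).prodMk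
        (measurable_fst.comp measurable_fst))
    exact (e2.lintegral_prod_right'
      (ν := volume.restrict (Metric.ball (0 : Plane) 1))).lintegral_prod_right'
  rw [← (Measure.measurePreserving_neg (volume : Measure ℝ)).lintegral_comp hD]
  refine lintegral_congr fun s => ?_
  have hE : Measurable (fun x₁ : Space3 => ∫⁻ y in Metric.ball (0 : Plane) 1,
        F x₁ (x₁ - (ε • frameMap g y + (-s) • g))) := by
    have e2 : Measurable (fun q : Space3 × Plane =>
        F q.1 (q.1 - (ε • frameMap g q.2 + (-s) • g))) :=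
      hA.comp ((measurable_fst.prodMk measurable_snd).prodMk measurable_const)
    exact e2.lintegral_prod_right' (ν := volume.restrict (Metric.ball (0 : Plane) 1))
  rw [← (measurePreserving_sub_right (volume : Measure Space3) (s • v)).lintegral_comp hE]
  refine lintegral_congr fun x => ?_
  refine lintegral_congr fun y => ?_
  congr 1
  rw [hgdef, neg_smul, smul_sub]
  abel

/-- Reordering of the four integrals. -/
lemma lintegral_reorder {K : Space3 → Space3 → Space3 → Space3 → ℝ≥0∞}
    (hK : Measurable (fun p : (Space3 × Space3) × (Space3 × Space3) => K p.1.1 p.1.2 p.2.1 p.2.2)) :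
    ∫⁻ z₁ : PhasePoint, ∫⁻ z₂ : PhasePoint, K z₁.1 z₁.2 z₂.1 z₂.2 =
      ∫⁻ v : Space3, ∫⁻ w : Space3, ∫⁻ x₁ : Space3, ∫⁻ x₂ : Space3, K x₁ v x₂ w := by
  have h1 : ∀ z₁ : PhasePoint, ∫⁻ z₂ : PhasePoint, K z₁.1 z₁.2 z₂.1 z₂.2 =
      ∫⁻ w : Space3, ∫⁻ x₂ : Space3, K z₁.1 z₁.2 x₂ w := by
    intro z₁
    have hm : Measurable (fun z₂ : Space3 × Space3 => K z₁.1 z₁.2 z₂.1 z₂.2) :=
      hK.comp (measurable_const.prodMk measurable_id)
    rw [Measure.volume_eq_prod, lintegral_prod_symm _ hm.aemeasurable]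
  simp only [h1]
  have hm2 : Measurable (fun q : ((Space3 × Space3) × Space3) × Space3 =>
      K q.1.1.1 q.1.1.2 q.2 q.1.2) :=
    hK.comp ((measurable_fst.comp measurable_fst).prodMk
      (measurable_snd.prodMk (measurable_snd.comp measurable_fst)))
  have hm3 : Measurable (fun z₁ : Space3 × Space3 => ∫⁻ w : Space3, ∫⁻ x₂ : Space3,
      K z₁.1 z₁.2 x₂ w) := (hm2.lintegral_prod_right').lintegral_prod_right'
  rw [Measure.volume_eq_prod, lintegral_prod_symm _ hm3.aemeasurable]
  refine lintegral_congr fun v => ?_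
  rw [lintegral_lintegral_swap]
  have hm4 : Measurable (fun q : (Space3 × Space3) × Space3 => K q.1.1 v q.2 q.1.2) :=
    hK.comp (((measurable_fst.comp measurable_fst).prodMk measurable_const).prodMk
      (measurable_snd.prodMk (measurable_snd.comp measurable_fst)))
  exact (hm4.lintegral_prod_right').aemeasurable

/-- (S7) for pairs at range `ε`. -/
theorem lintegral_pair {ε : ℝ} (hε : 0 < ε) {F : PhasePoint → PhasePoint → ℝ≥0∞}
    (hF : Measurable (Function.uncurry F)) :
    ∫⁻ z₁ : PhasePoint, ∫⁻ z₂ : PhasePoint, (PairCyl ε).indicator (Function.uncurry F) (z₁, z₂) =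
      ENNReal.ofReal (ε ^ 2) * ∫⁻ v : Space3, ∫⁻ w : Space3, ∫⁻ s : ℝ, ∫⁻ x : Space3,
        ENNReal.ofReal ‖v - w‖ * ∫⁻ b in impactDisc (v - w),
          F (x - s • v, v) (x - ε • b - s • w, w) ∂μHE[2] := by
  have hI : Measurable (fun p : PhasePoint × PhasePoint =>
      (PairCyl ε).indicator (Function.uncurry F) p) := hF.indicator (measurableSet_PairCyl ε)
  have h0 := lintegral_reorder (K := fun x₁ v x₂ w =>
    (PairCyl ε).indicator (Function.uncurry F) ((x₁, v), (x₂, w))) hI
  rw [h0]
  rw [← lintegral_const_mul' _ _ ENNReal.ofReal_ne_top]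
  refine lintegral_congr fun v => ?_
  rw [← lintegral_const_mul' _ _ ENNReal.ofReal_ne_top]
  refine lintegral_congr_ae ?_
  filter_upwards [Measure.ae_ne volume v] with w hw
  have hg : v - w ≠ 0 := sub_ne_zero.2 (Ne.symm hw)
  have hF' : Measurable (Function.uncurry fun x₁ x₂ : Space3 => F (x₁, v) (x₂, w)) := by
    have : Measurable (fun p : Space3 × Space3 => Function.uncurry F ((p.1, v), (p.2, w))) :=
      hF.comp (by fun_prop)
    exact this
  have h1 := lintegral_pair_fixed hε hg (F := fun x₁ x₂ => F (x₁, v) (x₂, w)) hF'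
  have h2 : ∀ x₁ x₂ : Space3, (PairCyl ε).indicator (Function.uncurry F) ((x₁, v), (x₂, w)) =
      if ‖bline (x₁ - x₂, v - w)‖ < ε then F (x₁, v) (x₂, w) else 0 := by
    intro x₁ x₂
    have hne : v ≠ w := Ne.symm hw
    simp only [indicator, PairCyl, mem_ofPred_eq, ne_eq, hne, not_false_eq_true, true_and,
      Function.uncurry]
  simp only [h2]
  rw [h1]
  congr 1
  refine lintegral_congr fun s => lintegral_congr fun x => ?_
  rw [norm_mul_lintegral_impactDisc (v - w) (fun b => F (x - s • v, v) (x - ε • b - s • w, w))]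

end Crest.Agent.R122.Flux663
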