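import Crest.Agent.R122.Coll2_674
import Crest.Agent.R122.FluxPair_663

/-!
Row 122, block C (helper674), part C1: the measure identity of the isolated two-body collision in
outgoing parameters.
-/

set_option autoImplicit false

open MeasureTheory Set Filter Topology
open Crest.AnalysisR.Kinetic
open scoped ENNReal

noncomputable section

namespace Crest.Agent.R122.Tree674

open Kin796 Kin796.CTree Disc416 Scat818 Flow671 Flux663

variable {Φ : Space3 → ℝ}

/-! ### `sc` preserves Lebesgue measure -/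

instance sigmaFinite_phase : SigmaFinite (volume : Measure PhasePoint) :=
  inferInstanceAs (SigmaFinite ((volume : Measure Space3).prod (volume : Measure Space3)))

theorem measurable_onLine (T : ℝ) : Measurable fun z : PhasePoint => onLine z T := by
  unfold onLine; fun_prop

theorem measurePreserving_onLine (T : ℝ) :
    MeasurePreserving (fun z : PhasePoint => onLine z T) volume volume := by
  have h2 : MeasurePreserving (fun z : Space3 × Space3 => (z.1, T • z.1 + z.2)) := by
    have h := MeasurePreserving.skew_product (μa := (volume : Measure Space3))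
      (μb := (volume : Measure Space3)) (f := id) (μc := (volume : Measure Space3))
      (μd := (volume : Measure Space3)) (MeasurePreserving.id _)
      (g := fun x y => T • x + y) (by fun_prop)
      (Eventually.of_forall fun x => map_add_left_eq_self volume (T • x))
    exact h
  have h3 : MeasurePreserving (Prod.swap : Space3 × Space3 → Space3 × Space3) :=
    Measure.measurePreserving_swap
  have h4 := h3.comp (h2.comp h3)
  have h5 : (fun z : PhasePoint => onLine z T) =
      Prod.swap ∘ (fun z : Space3 × Space3 => (z.1, T • z.1 + z.2)) ∘ Prod.swap := by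
    funext z
    simp [onLine, add_comm]
  rw [h5]
  exact h4

theorem measurable_pr2 : Measurable pr2 := by
  unfold pr2
  refine measurable_pi_iff.2 fun i => ?_
  fin_cases i
  · exact measurable_fst
  · exact measurable_snd

theorem measurePreserving_pr2 : MeasurePreserving pr2 volume volume := by
  have h := (volume_preserving_finTwoArrow PhasePoint).symm
  exact h

theorem measurePreserving_lineT (T : ℝ) : MeasurePreserving (lineT T) volume volume := by
  have h := volume_preserving_finTwoArrow PhasePoint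
  have h2 := (measurePreserving_onLine (-T)).prod (measurePreserving_onLine (-T))
  exact h2.comp h

theorem measurePreserving_atT (T : ℝ) : MeasurePreserving (atT T) volume volume := by
  have h2 := (measurePreserving_onLine T).prod (measurePreserving_onLine T)
  exact measurePreserving_pr2.comp h2

theorem measurePreserving_sc (hΦ : AdmissiblePotential Φ) {ε : ℝ} (hε : 0 < ε) (T : ℝ) :
    MeasurePreserving (sc Φ ε T) volume volume :=
  (measurePreserving_lineT T).comp ((measurePreserving_flow hΦ hε T).comp measurePreserving_pr2)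

theorem measurePreserving_scInv (hΦ : AdmissiblePotential Φ) {ε : ℝ} (hε : 0 < ε) (T : ℝ) :
    MeasurePreserving (scInv Φ ε T) volume volume :=
  (measurePreserving_lineT 0).comp ((measurePreserving_flow hΦ hε (-T)).comp (measurePreserving_atT T))

/-! ### Outgoing cylinder coordinates -/

/-- planar coordinates of a vector in the frame of `g` -/
def planeC (g b : Space3) : Plane := WithLp.toLp 2 ![inner ℝ (e1 g) b, inner ℝ (e2 g) b]

theorem frameMap_planeC {g : Space3} (hg : g ≠ 0) {b : Space3} (hb : inner ℝ b g = 0) :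
    frameMap g (planeC g b) = b := by
  have h : b ∈ Set.range (frameMap g) := by rw [range_frameMap hg]; exact hb
  have hdir : inner ℝ (dir g) b = 0 := by
    unfold dir; rw [inner_smul_left, real_inner_comm, hb]; simp
  have hsum := (frameBasis g hg).sum_repr' b
  rw [Fin.sum_univ_three] at hsum
  simp only [frameBasis_zero, frameBasis_one, frameBasis_two, hdir, zero_smul, add_zero] at hsum
  unfold frameMap planeC
  simpa using hsum

theorem planeC_frameMap {g : Space3} (hg : g ≠ 0) (y : Plane) : planeC g (frameMap g y) = y := by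
  have h := frameMap_planeC hg (inner_frameMap_self g y)
  exact (isometry_frameMap hg).injective h

theorem measurable_planeC : Measurable fun p : Space3 × Space3 => planeC p.1 p.2 := by
  unfold planeC
  have h1 : Measurable fun p : Space3 × Space3 => inner ℝ (e1 p.1) p.2 :=
    (measurable_e1.comp measurable_fst).inner measurable_snd
  have h2 : Measurable fun p : Space3 × Space3 => inner ℝ (e2 p.1) p.2 :=
    (measurable_e2.comp measurable_fst).inner measurable_snd
  refine (WithLp.measurable_toLp 2 (Fin 2 → ℝ)).comp (measurable_pi_iff.2 fun i => ?_)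
  fin_cases i
  · exact h1
  · exact h2

/-- impact parameter of a pair of outgoing lines -/
def bO (ε : ℝ) (q : PhasePoint × PhasePoint) : Space3 :=
  (1 / ε) • bline (q.2.1 - q.1.1, q.1.2 - q.2.2)

/-- exit time of a pair of outgoing lines -/
def sO (ε : ℝ) (q : PhasePoint × PhasePoint) : ℝ :=
  tline (q.2.1 - q.1.1, q.1.2 - q.2.2) + ε * (Real.sqrt (1 - ‖bO ε q‖ ^ 2) / ‖q.1.2 - q.2.2‖)

/-- root line and node parameters of a pair of outgoing lines -/
def nodeO (ε : ℝ) (q : PhasePoint × PhasePoint) : PhasePoint × NodeP :=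
  (q.1, (sO ε q, q.2.2, planeC (q.1.2 - q.2.2) (bO ε q)))

theorem measurable_relq :
    Measurable fun q : PhasePoint × PhasePoint => (q.2.1 - q.1.1, q.1.2 - q.2.2) := by
  fun_prop

theorem measurable_relv : Measurable fun q : PhasePoint × PhasePoint => q.1.2 - q.2.2 := by
  fun_prop

theorem measurable_bO (ε : ℝ) : Measurable (bO ε) :=
  (measurable_bline.comp measurable_relq).const_smul (1 / ε)

theorem measurable_sO (ε : ℝ) : Measurable (sO ε) := by
  have h1 := measurable_tline.comp measurable_relq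
  have h2 : Measurable fun q => Real.sqrt (1 - ‖bO ε q‖ ^ 2) :=
    (((measurable_bO ε).norm.pow_const 2).const_sub 1).sqrt
  have h3 : Measurable fun q : PhasePoint × PhasePoint => ‖q.1.2 - q.2.2‖ := measurable_relv.norm
  exact h1.add ((h2.div h3).const_mul ε)

theorem measurable_nodeO (ε : ℝ) : Measurable (nodeO ε) := by
  have h40 : Measurable fun q : PhasePoint × PhasePoint => ((q.1.2 - q.2.2, bO ε q) : Space3 × Space3) :=
    measurable_relv.prodMk (measurable_bO ε)
  have h4 : Measurable fun q : PhasePoint × PhasePoint => planeC (q.1.2 - q.2.2) (bO ε q) :=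
    Measurable.comp (g := fun p : Space3 × Space3 => planeC p.1 p.2)
      (f := fun q : PhasePoint × PhasePoint => ((q.1.2 - q.2.2, bO ε q) : Space3 × Space3))
      measurable_planeC h40
  have h5 : Measurable fun q : PhasePoint × PhasePoint => q.2.2 := by fun_prop
  have h6 : Measurable fun q : PhasePoint × PhasePoint => (q.2.2, planeC (q.1.2 - q.2.2) (bO ε q)) :=
    h5.prodMk h4
  have h7 : Measurable fun q : PhasePoint × PhasePoint =>
      (sO ε q, (q.2.2, planeC (q.1.2 - q.2.2) (bO ε q))) := (measurable_sO ε).prodMk h6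
  have h8 : Measurable fun q : PhasePoint × PhasePoint => q.1 := measurable_fst
  exact h8.prodMk h7

theorem outLine_fst_sub (ε : ℝ) (ℓ : PhasePoint) (a : NodeP) :
    (outLine ε ℓ a).1 - ℓ.1 = ε • nb ℓ.2 a +
      (a.1 - ε * (Real.sqrt (1 - ‖nb ℓ.2 a‖ ^ 2) / ‖ng ℓ.2 a‖)) • ng ℓ.2 a := by
  simp only [outLine, entrancePoint, ng]
  module

theorem bline_frame {g : Space3} (hg : g ≠ 0) {b : Space3} (hb : inner ℝ b g = 0) (r : ℝ) :
    bline (b + r • g, g) = b ∧ tline (b + r • g, g) = r := by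
  have h0 : ‖g‖ ^ 2 ≠ 0 := by positivity
  have h1 : tline (b + r • g, g) = r := by
    unfold tline
    simp only [inner_add_left, inner_smul_left, real_inner_self_eq_norm_sq, hb, conj_trivial, zero_add]
    exact mul_div_cancel_right₀ r h0
  refine ⟨?_, h1⟩
  unfold bline
  rw [h1]
  simp

theorem nodeO_outLine {ε : ℝ} (hε : 0 < ε) {ℓ : PhasePoint} {a : NodeP} (ha : ℓ.2 ≠ a.2.1) :
    nodeO ε (ℓ, outLine ε ℓ a) = (ℓ, a) := by
  have hg : ng ℓ.2 a ≠ 0 := sub_ne_zero.2 ha
  have hb0 : inner ℝ (nb ℓ.2 a) (ng ℓ.2 a) = 0 := inner_frameMap_self _ _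
  have hb1 : inner ℝ (ε • nb ℓ.2 a) (ng ℓ.2 a) = 0 := by rw [inner_smul_left, hb0, mul_zero]
  have e0 : ((ℓ, outLine ε ℓ a) : PhasePoint × PhasePoint).1.2 - (outLine ε ℓ a).2 = ng ℓ.2 a := rfl
  obtain ⟨h1, h2⟩ := bline_frame hg hb1
    (a.1 - ε * (Real.sqrt (1 - ‖nb ℓ.2 a‖ ^ 2) / ‖ng ℓ.2 a‖))
  have e1 : bO ε (ℓ, outLine ε ℓ a) = nb ℓ.2 a := by
    simp only [bO]
    rw [outLine_fst_sub, show ℓ.2 - (outLine ε ℓ a).2 = ng ℓ.2 a from rfl, h1, smul_smul,
      one_div_mul_cancel hε.ne', one_smul]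
  have e2 : sO ε (ℓ, outLine ε ℓ a) = a.1 := by
    simp only [sO]
    rw [outLine_fst_sub, show ℓ.2 - (outLine ε ℓ a).2 = ng ℓ.2 a from rfl, h2, e1]
    ring
  simp only [nodeO, e1, e2]
  have e3 : planeC (ℓ.2 - (outLine ε ℓ a).2) (nb ℓ.2 a) = a.2.2 := planeC_frameMap hg _
  rw [e3]
  rfl

theorem bO_inner (ε : ℝ) (q : PhasePoint × PhasePoint) (hq : q.1.2 ≠ q.2.2) :
    inner ℝ (bO ε q) (q.1.2 - q.2.2) = 0 := by
  unfold bO
  rw [inner_smul_left, inner_bline (z := (q.2.1 - q.1.1, q.1.2 - q.2.2)) (sub_ne_zero.2 hq),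
    mul_zero]

theorem outLine_nodeO {ε : ℝ} (hε : 0 < ε) {q : PhasePoint × PhasePoint} (hq : q.1.2 ≠ q.2.2) :
    outLine ε (nodeO ε q).1 (nodeO ε q).2 = q.2 := by
  have hg : q.1.2 - q.2.2 ≠ 0 := sub_ne_zero.2 hq
  have e1 : nb (nodeO ε q).1.2 (nodeO ε q).2 = bO ε q := frameMap_planeC hg (bO_inner ε q hq)
  have h1 := outLine_fst_sub ε (nodeO ε q).1 (nodeO ε q).2
  rw [e1] at h1
  have h2 : (outLine ε (nodeO ε q).1 (nodeO ε q).2).1 = q.2.1 := by
    have h3 : (outLine ε (nodeO ε q).1 (nodeO ε q).2).1 =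
        (outLine ε (nodeO ε q).1 (nodeO ε q).2).1 - (nodeO ε q).1.1 + q.1.1 := by
      show _ = _ - q.1.1 + q.1.1
      abel
    rw [h3, h1]
    show ε • bO ε q + (sO ε q - ε * (Real.sqrt (1 - ‖bO ε q‖ ^ 2) / ‖q.1.2 - q.2.2‖)) •
      (q.1.2 - q.2.2) + q.1.1 = q.2.1
    have h4 : sO ε q - ε * (Real.sqrt (1 - ‖bO ε q‖ ^ 2) / ‖q.1.2 - q.2.2‖) =
        tline (q.2.1 - q.1.1, q.1.2 - q.2.2) := by unfold sO; ring
    rw [h4]
    have h5 : ε • bO ε q = bline (q.2.1 - q.1.1, q.1.2 - q.2.2) := by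
      unfold bO; rw [smul_smul, mul_one_div_cancel hε.ne', one_smul]
    rw [h5]
    unfold bline
    simp
  exact Prod.ext h2 rfl

theorem norm_planeC_bO {ε : ℝ} {q : PhasePoint × PhasePoint} (hq : q.1.2 ≠ q.2.2) :
    ‖planeC (q.1.2 - q.2.2) (bO ε q)‖ = ‖bO ε q‖ := by
  have hg : q.1.2 - q.2.2 ≠ 0 := sub_ne_zero.2 hq
  rw [← norm_frameMap hg, frameMap_planeC hg (bO_inner ε q hq)]

theorem norm_bO_lt {ε : ℝ} (hε : 0 < ε) (q : PhasePoint × PhasePoint) :
    ‖bO ε q‖ < 1 ↔ ‖bline (q.2.1 - q.1.1, q.1.2 - q.2.2)‖ < ε := by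
  unfold bO
  rw [norm_smul, Real.norm_eq_abs, abs_of_pos (by positivity)]
  constructor
  · intro h
    have : ε * (1 / ε * ‖bline (q.2.1 - q.1.1, q.1.2 - q.2.2)‖) < ε * 1 :=
      mul_lt_mul_of_pos_left h hε
    rw [← mul_assoc, mul_one_div_cancel hε.ne', one_mul, mul_one] at this
    exact this
  · intro h
    have : 1 / ε * ‖bline (q.2.1 - q.1.1, q.1.2 - q.2.2)‖ < 1 / ε * ε :=
      mul_lt_mul_of_pos_left h (by positivity)
    rwa [one_div_mul_cancel hε.ne'] at this

/-- good nodes: `‖y‖ < 1`, velocities different -/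
def GN : Set (PhasePoint × NodeP) := {z | ‖z.2.2.2‖ < 1 ∧ z.1.2 ≠ z.2.2.1}

theorem measurableSet_GN : MeasurableSet GN := by
  have h1 : Measurable fun z : PhasePoint × NodeP => ‖z.2.2.2‖ := by fun_prop
  have h2 : Measurable fun z : PhasePoint × NodeP => z.1.2 := by fun_prop
  have h3 : Measurable fun z : PhasePoint × NodeP => z.2.2.1 := by fun_prop
  exact (measurableSet_lt h1 measurable_const).inter (measurableSet_eq_fun h2 h3).compl

theorem nodeO_mem_GN_iff {ε : ℝ} (hε : 0 < ε) (q : PhasePoint × PhasePoint) :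
    nodeO ε q ∈ GN ↔ q.1.2 ≠ q.2.2 ∧ ‖bline (q.2.1 - q.1.1, q.1.2 - q.2.2)‖ < ε := by
  rw [← norm_bO_lt hε]
  constructor
  · rintro ⟨h1, h2⟩
    have h2' : q.1.2 ≠ q.2.2 := h2
    refine ⟨h2', ?_⟩
    rw [← norm_planeC_bO h2']
    exact h1
  · rintro ⟨h1, h2⟩
    refine ⟨?_, h1⟩
    show ‖planeC (q.1.2 - q.2.2) (bO ε q)‖ < 1
    rw [norm_planeC_bO h1]
    exact h2

/-- **Cylinder coordinates for the outgoing partner.** -/
theorem lintegral_outLine {ε : ℝ} (hε : 0 < ε) (ℓ : PhasePoint) {K : PhasePoint → ℝ≥0∞}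
    (hK : Measurable K) :
    ∫⁻ ℓo : PhasePoint, {ℓo | nodeO ε (ℓ, ℓo) ∈ GN}.indicator K ℓo =
      ENNReal.ofReal (ε ^ 2) * ∫⁻ a : NodeP, {a | (ℓ, a) ∈ GN}.indicator
        (fun a => ENNReal.ofReal ‖ℓ.2 - a.2.1‖ * K (outLine ε ℓ a)) a := by
  have hmo : Measurable fun a : NodeP => outLine ε ℓ a := by
    unfold outLine
    have h1 : Measurable fun a : NodeP => entrancePoint (nb ℓ.2 a) (ng ℓ.2 a) :=
      measurable_entrancePoint.comp (measurable_nbng.comp (measurable_const.prodMk measurable_id))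
    have h2 : Measurable fun a : NodeP => ℓ.1 + a.1 • ℓ.2 := by fun_prop
    have h3 : Measurable fun a : NodeP => a.1 • a.2.1 := by fun_prop
    have h4 : Measurable fun a : NodeP => a.2.1 := by fun_prop
    exact ((h2.add (h1.const_smul ε)).sub h3).prodMk h4
  have hmG : MeasurableSet {a : NodeP | (ℓ, a) ∈ GN} :=
    measurableSet_GN.preimage (measurable_const.prodMk measurable_id)
  have hmI : Measurable ({a : NodeP | (ℓ, a) ∈ GN}.indicator
        (fun a => ENNReal.ofReal ‖ℓ.2 - a.2.1‖ * K (outLine ε ℓ a))) :=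
    Measurable.indicator ((by fun_prop : Measurable fun a : NodeP =>
      ENNReal.ofReal ‖ℓ.2 - a.2.1‖).mul (hK.comp hmo)) hmG
  have hmL : MeasurableSet {ℓo : PhasePoint | nodeO ε (ℓ, ℓo) ∈ GN} :=
    measurableSet_GN.preimage ((measurable_nodeO ε).comp (measurable_const.prodMk measurable_id))
  -- left side: velocity first
  rw [Measure.volume_eq_prod, lintegral_prod_symm _ (hK.indicator hmL).aemeasurable]
  -- right side: order w, y, s
  have hR : ∫⁻ a : NodeP, {a | (ℓ, a) ∈ GN}.indicator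
        (fun a => ENNReal.ofReal ‖ℓ.2 - a.2.1‖ * K (outLine ε ℓ a)) a =
      ∫⁻ w : Space3, ∫⁻ y : Plane, ∫⁻ s : ℝ, {a | (ℓ, a) ∈ GN}.indicator
        (fun a => ENNReal.ofReal ‖ℓ.2 - a.2.1‖ * K (outLine ε ℓ a)) (s, w, y) := by
    rw [Measure.volume_eq_prod, lintegral_prod_symm _ hmI.aemeasurable, Measure.volume_eq_prod,
      lintegral_prod _ hmI.lintegral_prod_left'.aemeasurable]
  rw [hR, ← lintegral_const_mul' _ _ ENNReal.ofReal_ne_top]
  refine lintegral_congr_ae ?_
  filter_upwards [Measure.ae_ne volume ℓ.2] with w hw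
  have hg : ℓ.2 - w ≠ 0 := sub_ne_zero.2 (Ne.symm hw)
  have h1 : ∫⁻ x : Space3, {ℓo | nodeO ε (ℓ, ℓo) ∈ GN}.indicator K (x, w) =
      ∫⁻ x : Space3, (if ‖bline (x, ℓ.2 - w)‖ < ε then K (ℓ.1 + x, w) else 0) := by
    rw [← lintegral_add_left_eq_self (fun x => {ℓo | nodeO ε (ℓ, ℓo) ∈ GN}.indicator K (x, w)) ℓ.1]
    refine lintegral_congr fun x => ?_
    have h2 : ((ℓ.1 + x, w) : PhasePoint) ∈ {ℓo | nodeO ε (ℓ, ℓo) ∈ GN} ↔
        ‖bline (x, ℓ.2 - w)‖ < ε := by
      show nodeO ε (ℓ, (ℓ.1 + x, w)) ∈ GN ↔ _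
      rw [nodeO_mem_GN_iff hε]
      simp only [add_sub_cancel_left]
      exact ⟨fun h => h.2, fun h => ⟨hw.symm, h⟩⟩
    by_cases h3 : ‖bline (x, ℓ.2 - w)‖ < ε
    · rw [indicator_of_mem (h2.2 h3), if_pos h3]
    · rw [indicator_of_notMem (fun h => h3 (h2.1 h)), if_neg h3]
  rw [h1, lintegral_cyl_eps hε hg (F := fun x => K (ℓ.1 + x, w))
    (hK.comp ((measurable_const.add measurable_id).prodMk measurable_const))]
  congr 1
  rw [← lintegral_const_mul' _ _ ENNReal.ofReal_ne_top, ← lintegral_indicator measurableSet_ball]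
  refine lintegral_congr fun y => ?_
  by_cases hy : ‖y‖ < 1
  · have hy' : y ∈ Metric.ball (0 : Plane) 1 := by simpa using hy
    rw [indicator_of_mem hy', ← lintegral_const_mul' _ _ ENNReal.ofReal_ne_top]
    set c := ε * (Real.sqrt (1 - ‖frameMap (ℓ.2 - w) y‖ ^ 2) / ‖ℓ.2 - w‖) with hc
    rw [← lintegral_sub_right_eq_self (fun s : ℝ => ENNReal.ofReal ‖ℓ.2 - w‖ *
      K (ℓ.1 + (ε • frameMap (ℓ.2 - w) y + s • (ℓ.2 - w)), w)) c]
    refine lintegral_congr fun s => ?_
    have h4 : ((s, w, y) : NodeP) ∈ {a | (ℓ, a) ∈ GN} := ⟨hy, hw.symm⟩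
    rw [indicator_of_mem h4]
    congr 2
    have h5 := outLine_fst_sub ε ℓ (s, w, y)
    have h6 : (outLine ε ℓ (s, w, y)).1 = ℓ.1 + ((outLine ε ℓ (s, w, y)).1 - ℓ.1) := by abel
    refine Prod.ext ?_ rfl
    show ℓ.1 + _ = (outLine ε ℓ (s, w, y)).1
    rw [h6, h5]
    rfl
  · have hy' : y ∉ Metric.ball (0 : Plane) 1 := by simpa using hy
    rw [indicator_of_notMem hy']
    symm
    rw [lintegral_eq_zero_iff']
    · refine Eventually.of_forall fun s => ?_
      have h4 : ((s, w, y) : NodeP) ∉ {a | (ℓ, a) ∈ GN} := fun h => hy h.1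
      simp only [Pi.zero_apply]
      rw [indicator_of_notMem h4]
    · exact (hmI.comp (measurable_id.prodMk measurable_const)).aemeasurable

end Crest.Agent.R122.Tree674

end
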