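import Crest.Agent.R122.Omega_969

/-!
Row 122, block BO, helper969: contact coordinates for a moving ball.

`D : ℝ → Space3` is the path of the centre of a ball of radius `ε` (differentiable, not necessarily
affine).  If `T x` is an entrance time of the point `x` into the moving ball, then the law of
`(x, T x)` under Lebesgue measure is dominated by the image of `ε² (⟪D' s, ω⟫)₊ ds sphM(dω)` under
`(s, ω) ↦ (D s + ε ω, s)`.
-/

set_option autoImplicit false

open MeasureTheory Crest.AnalysisR.Kinetic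
open Crest.Agent.R122.Disc416 Crest.Agent.R122.Omega969
open scoped Classical ENNReal

noncomputable section

namespace Crest.Agent.R122.Contact969

/-- `x` enters the ball of radius `ε` about `D` at the time `s`. -/
def Entr (D : ℝ → Space3) (ε : ℝ) (x : Space3) (s : ℝ) : Prop :=
  ‖x - D s‖ = ε ∧ ∃ a' < s, ∀ s' ∈ Set.Ioo a' s, ε < ‖x - D s'‖

/-- At an entrance time the relative velocity is inward. -/
lemma Entr.inner_nonneg {D : ℝ → Space3} {ε : ℝ} {x : Space3} {s : ℝ} (hε : 0 < ε)
    (h : Entr D ε x s) {D' : Space3} (hD : HasDerivAt D D' s) : 0 ≤ inner ℝ (x - D s) D' := by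
  obtain ⟨h1, a', ha', h2⟩ := h
  have hf : HasDerivAt (fun s => ‖x - D s‖ ^ 2) (2 * inner ℝ (x - D s) (-D')) s :=
    (hD.const_sub x).norm_sq
  have hslope := hf.tendsto_slope.mono_left (nhdsLT_le_nhdsNE s)
  have hev : ∀ᶠ s' in nhdsWithin s (Set.Iio s), slope (fun s => ‖x - D s‖ ^ 2) s s' ≤ 0 := by
    have : Set.Ioo a' s ∈ nhdsWithin s (Set.Iio s) := Ioo_mem_nhdsLT ha'
    filter_upwards [this] with s' hs'
    rw [slope_def_field]
    refine div_nonpos_of_nonneg_of_nonpos ?_ (by linarith [hs'.2])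
    have h3 := h2 s' hs'
    rw [h1]
    nlinarith
  have h4 := le_of_tendsto hslope hev
  rw [inner_neg_right] at h4
  linarith

section chart

variable (n : Space3) (D : ℝ → Space3) (ε : ℝ)

/-- the radicand -/
def qq (y : Plane) (s : ℝ) : ℝ := ε ^ 2 - ‖frameMap n y - D s‖ ^ 2 + inner ℝ (D s) n ^ 2

/-- height of the lower contact point -/
def hh (y : Plane) (s : ℝ) : ℝ := inner ℝ (D s) n - Real.sqrt (qq n D ε y s)

/-- the contact point -/
def xx (y : Plane) (s : ℝ) : Space3 := frameMap n y + hh n D ε y s • n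

variable {n D ε}

lemma norm_sq_cyl (hn : ‖n‖ = 1) (y : Plane) (t s : ℝ) :
    ‖frameMap n y + t • n - D s‖ ^ 2 =
      ‖frameMap n y - D s‖ ^ 2 - 2 * t * inner ℝ (D s) n + t ^ 2 := by
  have e : frameMap n y + t • n - D s = (frameMap n y - D s) + t • n := by abel
  rw [e, norm_add_sq_real, norm_smul, hn, inner_smul_right, inner_sub_left, inner_frameMap_self,
    Real.norm_eq_abs, mul_one, sq_abs]
  ring

lemma height_eq (hn : ‖n‖ = 1) {y : Plane} {t s : ℝ} (h1 : ‖frameMap n y + t • n - D s‖ = ε)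
    (h2 : inner ℝ (frameMap n y + t • n - D s) n < 0) : 0 < qq n D ε y s ∧ t = hh n D ε y s := by
  have e1 := norm_sq_cyl (D := D) hn y t s
  rw [h1] at e1
  have e2 : qq n D ε y s = (inner ℝ (D s) n - t) ^ 2 := by
    unfold qq; rw [e1]; ring
  have e3 : inner ℝ (frameMap n y + t • n - D s) n = t - inner ℝ (D s) n := by
    rw [inner_sub_left, inner_add_left, inner_frameMap_self, real_inner_smul_left,
      real_inner_self_eq_norm_sq, hn]
    ring
  rw [e3] at h2
  have h3 : 0 < inner ℝ (D s) n - t := by linarith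
  refine ⟨by rw [e2]; positivity, ?_⟩
  unfold hh
  rw [e2, Real.sqrt_sq h3.le]
  ring

lemma inner_xx (hn : ‖n‖ = 1) (y : Plane) (s : ℝ) :
    inner ℝ (xx n D ε y s - D s) n = -Real.sqrt (qq n D ε y s) := by
  unfold xx hh
  rw [inner_sub_left, inner_add_left, inner_frameMap_self, real_inner_smul_left,
    real_inner_self_eq_norm_sq, hn]
  ring

lemma hasDerivAt_hh {D' : Space3} {y : Plane} {s : ℝ} (hD : HasDerivAt D D' s)
    (hq : 0 < qq n D ε y s) :
    HasDerivAt (hh n D ε y) (-(inner ℝ (xx n D ε y s - D s) D' / Real.sqrt (qq n D ε y s))) s := by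
  have h1 : HasDerivAt (fun s => ‖frameMap n y - D s‖ ^ 2)
      (2 * inner ℝ (frameMap n y - D s) (-D')) s := (hD.const_sub _).norm_sq
  have h2 : HasDerivAt (fun s => inner ℝ (D s) n) (inner ℝ D' n) s := by
    have := hD.inner ℝ (hasDerivAt_const s n)
    simpa using this
  have h3 : HasDerivAt (qq n D ε y)
      (-(2 * inner ℝ (frameMap n y - D s) (-D')) + 2 * inner ℝ (D s) n * inner ℝ D' n) s := by
    have := ((h1.const_sub (ε ^ 2)).add (h2.pow 2))
    convert! this using 1
    simp
  have h4 := h2.sub (h3.sqrt hq.ne')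
  convert! h4 using 1
  have hs : Real.sqrt (qq n D ε y s) ≠ 0 := (Real.sqrt_pos.2 hq).ne'
  have e : inner ℝ (xx n D ε y s - D s) D' = inner ℝ (frameMap n y - D s) D' +
      (inner ℝ (D s) n - Real.sqrt (qq n D ε y s)) * inner ℝ D' n := by
    unfold xx hh
    rw [show frameMap n y + (inner ℝ (D s) n - Real.sqrt (qq n D ε y s)) • n - D s =
      (frameMap n y - D s) + (inner ℝ (D s) n - Real.sqrt (qq n D ε y s)) • n by abel,
      inner_add_left, real_inner_smul_left, real_inner_comm D' n]
  rw [e, inner_neg_right]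
  field_simp
  ring

end chart

lemma lintegral_plane_affine {ε : ℝ} (hε : 0 < ε) (c : Plane) {G : Plane → ℝ≥0∞}
    (hG : Measurable G) :
    ∫⁻ y, G y = ENNReal.ofReal (ε ^ 2) * ∫⁻ y, G (c + ε • y) := by
  have h1 := Measure.map_addHaar_smul (volume : Measure Plane) hε.ne'
  have hm : Measurable (fun y : Plane => G (c + y)) := hG.comp (measurable_const_add c)
  have h2 : ∫⁻ y, G (c + ε • y) = ENNReal.ofReal (ε ^ 2)⁻¹ * ∫⁻ y, G (c + y) := by
    rw [← lintegral_map hm (measurable_const_smul ε), h1, lintegral_smul_measure, smul_eq_mul]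
    congr 2
    rw [show Module.finrank ℝ Plane = 2 by simp, abs_inv, abs_of_pos (by positivity)]
  rw [h2, ← mul_assoc, ← ENNReal.ofReal_mul (by positivity), mul_inv_cancel₀ (by positivity),
    ENNReal.ofReal_one, one_mul, lintegral_add_left_eq_self]

/-- one chart -/
lemma chart_le {D D' : ℝ → Space3} {a b ε : ℝ} (hε : 0 < ε) (hDm : Measurable D)
    (hDm' : Measurable D') (hD : ∀ s ∈ Set.Ioc a b, HasDerivAt D (D' s) s) {n : Space3}
    (hn : ‖n‖ = 1) {P : Set Space3} (hP : MeasurableSet P) (hPn : ∀ w ∈ P, inner ℝ w n < 0)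
    {X : Set Space3} (hX : MeasurableSet X) {T : Space3 → ℝ} (hT : Measurable T)
    (hTX : ∀ x ∈ X, T x ∈ Set.Ioc a b ∧ Entr D ε x (T x))
    (hXP : ∀ x ∈ X, ε⁻¹ • (x - D (T x)) ∈ P)
    {Φ : Space3 × ℝ → ℝ≥0∞} (hΦ : Measurable Φ) :
    ∫⁻ x in X, Φ (x, T x) ≤ ENNReal.ofReal (ε ^ 2) * ∫⁻ s in Set.Ioc a b, ∫⁻ w in P,
      ENNReal.ofReal (inner ℝ (D' s) w) * Φ (D s + ε • w, s) ∂sphM := by
  have hn0 : n ≠ 0 := by
    intro h
    rw [h, norm_zero] at hn
    norm_num at hn
  have hdir : dir n = n := by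
    unfold dir; rw [hn]; simp
  -- measurability
  have hmF : Measurable (fun p : Plane × ℝ => frameMap n p.1) :=
    measurable_frameMap.comp (measurable_const.prodMk measurable_fst)
  have hmD : Measurable (fun p : Plane × ℝ => D p.2) := hDm.comp measurable_snd
  have hmD' : Measurable (fun p : Plane × ℝ => D' p.2) := hDm'.comp measurable_snd
  have hmin : Measurable (fun p : Plane × ℝ => inner ℝ (D p.2) n) := hmD.inner measurable_const
  have hmq : Measurable (fun p : Plane × ℝ => qq n D ε p.1 p.2) := by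
    unfold qq
    exact (measurable_const.sub ((hmF.sub hmD).norm.pow_const 2)).add (hmin.pow_const 2)
  have hmh : Measurable (fun p : Plane × ℝ => hh n D ε p.1 p.2) := by
    unfold hh
    exact hmin.sub hmq.sqrt
  have hmx : Measurable (fun p : Plane × ℝ => xx n D ε p.1 p.2) := by
    unfold xx
    exact hmF.add (hmh.smul_const n)
  set S : Set (Plane × ℝ) := {p | p.2 ∈ Set.Ioc a b ∧ 0 < qq n D ε p.1 p.2 ∧
    xx n D ε p.1 p.2 ∈ X ∧ T (xx n D ε p.1 p.2) = p.2} with hS
  have hmS : MeasurableSet S := by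
    refine (measurable_snd measurableSet_Ioc).inter ((measurableSet_lt measurable_const hmq).inter
      ((hmx hX).inter (measurableSet_eq_fun (hT.comp hmx) measurable_snd)))
  -- facts on `S`
  have hfact : ∀ p ∈ S, ‖xx n D ε p.1 p.2 - D p.2‖ = ε ∧
      ε⁻¹ • (xx n D ε p.1 p.2 - D p.2) ∈ P ∧
      0 ≤ inner ℝ (xx n D ε p.1 p.2 - D p.2) (D' p.2) := by
    rintro ⟨y, s⟩ ⟨hs, -, hx, hTx⟩
    simp only at hs hx hTx ⊢
    have h1 := hTX _ hx
    have h2 := hXP _ hx
    rw [hTx] at h1 h2
    exact ⟨h1.2.1, h2, h1.2.inner_nonneg hε (hD s hs)⟩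
  -- the left side in cylinder coordinates
  set K : Plane × ℝ → ℝ≥0∞ := fun p => S.indicator (fun p =>
    ENNReal.ofReal (inner ℝ (xx n D ε p.1 p.2 - D p.2) (D' p.2) / Real.sqrt (qq n D ε p.1 p.2)) *
      Φ (xx n D ε p.1 p.2, p.2)) p with hK
  have hmK : Measurable K := by
    refine Measurable.indicator ?_ hmS
    refine Measurable.mul ?_ (hΦ.comp (hmx.prodMk measurable_snd))
    exact ENNReal.measurable_ofReal.comp (((hmx.sub hmD).inner hmD').div hmq.sqrt)
  have hmΦT : Measurable (X.indicator fun x => Φ (x, T x)) :=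
    (hΦ.comp (measurable_id.prodMk hT)).indicator hX
  have hleft : ∫⁻ x in X, Φ (x, T x) = ∫⁻ p, K p := by
    have hmc : Measurable (fun p : Plane × ℝ =>
        X.indicator (fun x => Φ (x, T x)) (frameMap n p.1 + p.2 • dir n)) :=
      hmΦT.comp (measurePreserving_cylinder hn0).measurable
    rw [← lintegral_indicator hX, lintegral_cylinder hn0 hmΦT, Measure.volume_eq_prod,
      lintegral_prod _ hmc.aemeasurable, lintegral_prod _ hmK.aemeasurable]
    refine lintegral_congr fun y => ?_
    simp only [hdir]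
    -- one-dimensional change of variables
    set Sy : Set ℝ := {s | (y, s) ∈ S} with hSy
    set Xy : Set ℝ := {t | frameMap n y + t • n ∈ X} with hXy
    have hmSy : MeasurableSet Sy := (measurable_const.prodMk measurable_id) hmS
    have hmXy : MeasurableSet Xy := by
      have h7 : Measurable (fun t : ℝ => frameMap n y + t • n) :=
        Continuous.measurable (by fun_prop)
      exact h7 hX
    have himg : hh n D ε y '' Sy = Xy := by
      ext t
      constructor
      · rintro ⟨s, hs, rfl⟩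
        exact hs.2.2.1
      · intro ht
        have h1 := hTX _ ht
        have h2 := hPn _ (hXP _ ht)
        rw [real_inner_smul_left] at h2
        have h3 : inner ℝ (frameMap n y + t • n - D (T (frameMap n y + t • n))) n < 0 := by
          by_contra h4
          push Not at h4
          have : 0 ≤ ε⁻¹ * inner ℝ (frameMap n y + t • n - D (T (frameMap n y + t • n))) n := by
            positivity
          linarith
        obtain ⟨h5, h6⟩ := height_eq hn h1.2.1 h3
        refine ⟨T (frameMap n y + t • n), ⟨h1.1, h5, ?_, ?_⟩, h6.symm⟩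
        · simp only [xx]
          rw [← h6]; exact ht
        · simp only [xx]
          rw [← h6]
    have hinj : Set.InjOn (hh n D ε y) Sy := by
      intro s hs s' hs' he
      have h1 : T (xx n D ε y s) = s := hs.2.2.2
      have h2 : T (xx n D ε y s') = s' := hs'.2.2.2
      rw [← h1, ← h2]
      unfold xx
      rw [he]
    have e1 : ∀ t : ℝ, X.indicator (fun x => Φ (x, T x)) (frameMap n y + t • n) =
        Xy.indicator (fun t => Φ (frameMap n y + t • n, T (frameMap n y + t • n))) t := by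
      intro t
      rfl
    simp_rw [e1]
    rw [lintegral_indicator hmXy, ← himg, lintegral_image_eq_lintegral_abs_deriv_mul hmSy
      (fun s hs => (hasDerivAt_hh (hD s hs.1) hs.2.1).hasDerivWithinAt) hinj,
      ← lintegral_indicator hmSy]
    refine lintegral_congr fun s => ?_
    by_cases hs : s ∈ Sy
    · rw [Set.indicator_of_mem hs]
      simp only [hK]
      rw [Set.indicator_of_mem (show (y, s) ∈ S from hs)]
      have h1 : T (xx n D ε y s) = s := hs.2.2.2
      have h2 := (hfact _ hs).2.2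
      simp only at h2 ⊢
      rw [abs_neg, abs_of_nonneg (div_nonneg h2 (Real.sqrt_nonneg _))]
      congr 2
      change (xx n D ε y s, T (xx n D ε y s)) = _
      rw [h1]
    · rw [Set.indicator_of_notMem hs]
      simp only [hK]
      rw [Set.indicator_of_notMem (show (y, s) ∉ S from hs)]
  rw [hleft, Measure.volume_eq_prod, lintegral_prod_symm _ hmK.aemeasurable,
    ← lintegral_const_mul' _ _ ENNReal.ofReal_ne_top, ← lintegral_indicator measurableSet_Ioc]
  refine lintegral_mono fun s => ?_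
  by_cases hs : s ∈ Set.Ioc a b
  swap
  · have h0 : ∀ y : Plane, K (y, s) = 0 := fun y =>
      Set.indicator_of_notMem (fun h => hs h.1) _
    simp [h0]
  rw [Set.indicator_of_mem hs]
  -- the centre
  have hc : D s - inner ℝ (D s) n • n ∈ Set.range (frameMap n) := by
    rw [range_frameMap hn0]
    change inner ℝ (D s - inner ℝ (D s) n • n) n = 0
    rw [inner_sub_left, real_inner_smul_left, real_inner_self_eq_norm_sq, hn]
    ring
  obtain ⟨c, hc⟩ := hc
  have hmKs : Measurable (fun y : Plane => K (y, s)) :=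
    hmK.comp (measurable_id.prodMk measurable_const)
  rw [lintegral_plane_affine hε c hmKs]
  refine mul_le_mul_right ?_ _
  set ψ : Space3 → ℝ≥0∞ := P.indicator fun w => ENNReal.ofReal (inner ℝ (D' s) w) /
    ENNReal.ofReal (-inner ℝ n w) * Φ (D s + ε • w, s) with hψ
  have hmi : ∀ v : Space3, Measurable (fun w : Space3 => ENNReal.ofReal (inner ℝ v w)) := fun v =>
    ENNReal.measurable_ofReal.comp (Continuous.measurable (by fun_prop))
  have hmi2 : Measurable (fun w : Space3 => ENNReal.ofReal (-inner ℝ n w)) :=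
    ENNReal.measurable_ofReal.comp (Continuous.measurable (by fun_prop))
  have hmΦs : Measurable (fun w : Space3 => Φ (D s + ε • w, s)) := by
    refine hΦ.comp (Measurable.prodMk ?_ measurable_const)
    exact Continuous.measurable (by fun_prop)
  have hmψ : Measurable ψ :=
    (((hmi (D' s)).div hmi2).mul hmΦs).indicator hP
  have hpt : ∀ y : Plane, K (c + ε • y, s) ≤ (Metric.ball (0 : Plane) 1).indicator
      (fun y => ψ (entrancePoint (frameMap n y) n)) y := by
    intro y
    by_cases hyS : (c + ε • y, s) ∈ S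
    swap
    · simp only [hK]
      rw [Set.indicator_of_notMem hyS]
      exact bot_le
    obtain ⟨f1, f2, f3⟩ := hfact _ hyS
    have hq : 0 < qq n D ε (c + ε • y) s := hyS.2.1
    simp only at f1 f2 f3
    set x := xx n D ε (c + ε • y) s with hx
    set rt := Real.sqrt (qq n D ε (c + ε • y) s) with hrt
    have hrt0 : 0 < rt := Real.sqrt_pos.2 hq
    have hxD : x - D s = ε • frameMap n y - rt • n := by
      rw [hx]
      unfold xx hh
      rw [frameMap_add, frameMap_smul, hc, ← hrt]
      module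
    have hw : ε⁻¹ • (x - D s) = frameMap n y - (rt / ε) • n := by
      rw [hxD, smul_sub, smul_smul, smul_smul, inv_mul_cancel₀ hε.ne', one_smul]
      congr 2
      field_simp
    have hperp : inner ℝ (frameMap n y) n = 0 := inner_frameMap_self n y
    have hnorm : ‖frameMap n y - (rt / ε) • n‖ ^ 2 = ‖y‖ ^ 2 + (rt / ε) ^ 2 := by
      rw [norm_sub_sq_real, norm_frameMap hn0, norm_smul, hn, inner_smul_right, hperp,
        Real.norm_eq_abs, mul_one, sq_abs]
      ring
    have hone : ‖y‖ ^ 2 + (rt / ε) ^ 2 = 1 := by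
      rw [← hnorm, ← hw, norm_smul, f1, Real.norm_eq_abs, abs_of_pos (inv_pos.2 hε),
        inv_mul_cancel₀ hε.ne', one_pow]
    have hre : 0 < rt / ε := by positivity
    have hy1 : ‖y‖ < 1 := by nlinarith [norm_nonneg y, pow_pos hre 2]
    have hsq : Real.sqrt (1 - ‖y‖ ^ 2) = rt / ε := by
      rw [show 1 - ‖y‖ ^ 2 = (rt / ε) ^ 2 by linarith, Real.sqrt_sq hre.le]
    have hent : entrancePoint (frameMap n y) n = ε⁻¹ • (x - D s) := by
      unfold entrancePoint
      rw [norm_frameMap hn0, hn, div_one, hsq, hw]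
    rw [Set.indicator_of_mem (show y ∈ Metric.ball (0 : Plane) 1 by simpa using hy1), hent, hψ,
      Set.indicator_of_mem f2]
    simp only [hK]
    rw [Set.indicator_of_mem hyS]
    have hwn : -inner ℝ n (ε⁻¹ • (x - D s)) = rt / ε := by
      rw [hw, inner_sub_right, real_inner_comm (frameMap n y) n, hperp, inner_smul_right,
        real_inner_self_eq_norm_sq, hn]
      ring
    have hwD : inner ℝ (D' s) (ε⁻¹ • (x - D s)) = ε⁻¹ * inner ℝ (x - D s) (D' s) := by
      rw [inner_smul_right, real_inner_comm]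
    rw [hwn, hwD, ← ENNReal.ofReal_div_of_pos hre]
    refine le_of_eq ?_
    congr 1
    · congr 1
      rw [← hx, ← hrt]
      field_simp
    · rw [← hx, smul_smul, mul_inv_cancel₀ hε.ne', one_smul]
      congr 2
      abel
  calc ∫⁻ y : Plane, K (c + ε • y, s)
      ≤ ∫⁻ y : Plane, (Metric.ball (0 : Plane) 1).indicator
          (fun y => ψ (entrancePoint (frameMap n y) n)) y := lintegral_mono hpt
    _ = ∫⁻ w, ENNReal.ofReal (-inner ℝ n w) * ψ w ∂sphM := by
        rw [lintegral_indicator measurableSet_ball, ← omega_disc hn0 hmψ, hn, ENNReal.ofReal_one,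
          one_mul]
    _ ≤ ∫⁻ w, P.indicator (fun w => ENNReal.ofReal (inner ℝ (D' s) w) * Φ (D s + ε • w, s)) w
          ∂sphM := by
        refine lintegral_mono fun w => ?_
        by_cases hw : w ∈ P
        · rw [hψ]
          simp only
          rw [Set.indicator_of_mem hw, Set.indicator_of_mem hw, ← mul_assoc]
          gcongr
          exact ENNReal.mul_div_le
        · rw [hψ]
          simp only
          rw [Set.indicator_of_notMem hw, mul_zero]
          exact bot_le
    _ = _ := lintegral_indicator hP _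

/-- six directions (repeated) -/
def dirs (k : ℕ) : Space3 :=
  (if k < 3 then (1 : ℝ) else -1) • EuclideanSpace.single (⟨k % 3, Nat.mod_lt k (by norm_num)⟩ : Fin 3) (1 : ℝ)

lemma norm_dirs (k : ℕ) : ‖dirs k‖ = 1 := by
  unfold dirs
  rw [norm_smul, EuclideanSpace.norm_single]
  split_ifs <;> simp

lemma exists_dirs {w : Space3} (hw : w ≠ 0) : ∃ k, inner ℝ w (dirs k) < 0 := by
  obtain ⟨i, hi⟩ : ∃ i : Fin 3, w i ≠ 0 := by
    by_contra h
    push Not at h
    exact hw (by ext i; simpa using h i)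
  have e : ∀ k : ℕ, inner ℝ w (dirs k) = (if k < 3 then (1 : ℝ) else -1) *
      w (⟨k % 3, Nat.mod_lt k (by norm_num)⟩ : Fin 3) := by
    intro k
    unfold dirs
    rw [inner_smul_right, EuclideanSpace.inner_single_right]
    simp
  rcases lt_or_gt_of_ne hi with h | h
  · refine ⟨i, ?_⟩
    rw [e, if_pos i.2]
    have : (⟨(i : ℕ) % 3, Nat.mod_lt _ (by norm_num)⟩ : Fin 3) = i := by
      ext; simp [Nat.mod_eq_of_lt i.2]
    rw [this]
    linarith
  · refine ⟨i + 3, ?_⟩
    rw [e, if_neg (by omega)]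
    have : (⟨((i : ℕ) + 3) % 3, Nat.mod_lt _ (by norm_num)⟩ : Fin 3) = i := by
      ext; simp [Nat.mod_eq_of_lt i.2]
    rw [this]
    linarith

/-- **Contact coordinates for a moving ball.** -/
theorem contact_law {D D' : ℝ → Space3} {a b ε : ℝ} (hε : 0 < ε) (hDm : Measurable D)
    (hDm' : Measurable D') (hD : ∀ s ∈ Set.Ioc a b, HasDerivAt D (D' s) s)
    {X : Set Space3} (hX : MeasurableSet X) {T : Space3 → ℝ} (hT : Measurable T)
    (hTX : ∀ x ∈ X, T x ∈ Set.Ioc a b ∧ Entr D ε x (T x))
    {Φ : Space3 × ℝ → ℝ≥0∞} (hΦ : Measurable Φ) :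
    ∫⁻ x in X, Φ (x, T x) ≤ ENNReal.ofReal (ε ^ 2) * ∫⁻ s in Set.Ioc a b, ∫⁻ w,
      ENNReal.ofReal (inner ℝ (D' s) w) * Φ (D s + ε • w, s) ∂sphM := by
  set A : ℕ → Set Space3 := fun k => {w | inner ℝ w (dirs k) < 0} with hA
  have hAm : ∀ k, MeasurableSet (A k) := fun k =>
    measurableSet_lt (Continuous.measurable (by fun_prop)) measurable_const
  set P : ℕ → Set Space3 := disjointed A with hP
  have hPm : ∀ k, MeasurableSet (P k) := fun k => MeasurableSet.disjointed hAm k
  have hmw : Measurable (fun x : Space3 => ε⁻¹ • (x - D (T x))) :=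
    (measurable_id.sub (hDm.comp hT)).const_smul ε⁻¹
  set Xk : ℕ → Set Space3 := fun k => X ∩ (fun x => ε⁻¹ • (x - D (T x))) ⁻¹' P k with hXk
  have hXkm : ∀ k, MeasurableSet (Xk k) := fun k => hX.inter (hmw (hPm k))
  have hcover : X ⊆ ⋃ k, Xk k := by
    intro x hx
    have h1 := (hTX x hx).2.1
    have h2 : ε⁻¹ • (x - D (T x)) ≠ 0 := by
      intro h
      have h3 : ‖ε⁻¹ • (x - D (T x))‖ = 1 := by
        rw [norm_smul, h1, Real.norm_eq_abs, abs_of_pos (inv_pos.2 hε), inv_mul_cancel₀ hε.ne']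
      rw [h, norm_zero] at h3
      norm_num at h3
    obtain ⟨k, hk⟩ := exists_dirs h2
    have h4 : ε⁻¹ • (x - D (T x)) ∈ ⋃ k, P k := by
      rw [hP, iUnion_disjointed]
      exact Set.mem_iUnion.2 ⟨k, hk⟩
    obtain ⟨j, hj⟩ := Set.mem_iUnion.1 h4
    exact Set.mem_iUnion.2 ⟨j, hx, hj⟩
  set G : ℝ × Space3 → ℝ≥0∞ := fun p => ENNReal.ofReal (inner ℝ (D' p.1) p.2) *
    Φ (D p.1 + ε • p.2, p.1) with hG
  have hGm : Measurable G := by
    refine Measurable.mul ?_ ?_
    · exact ENNReal.measurable_ofReal.comp ((hDm'.comp measurable_fst).inner measurable_snd)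
    · exact hΦ.comp (((hDm.comp measurable_fst).add (measurable_snd.const_smul ε)).prodMk
        measurable_fst)
  have hstep : ∀ k, ∫⁻ x in Xk k, Φ (x, T x) ≤ ENNReal.ofReal (ε ^ 2) *
      ∫⁻ s in Set.Ioc a b, ∫⁻ w in P k, G (s, w) ∂sphM := by
    intro k
    exact chart_le hε hDm hDm' hD (norm_dirs k) (hPm k)
      (fun w hw => disjointed_subset A k hw) (hXkm k) hT (fun x hx => hTX x hx.1)
      (fun x hx => hx.2) hΦ
  have hmk : ∀ k, Measurable (fun s => ∫⁻ w in P k, G (s, w) ∂sphM) := fun k =>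
    hGm.lintegral_prod_right'
  calc ∫⁻ x in X, Φ (x, T x) ≤ ∫⁻ x in ⋃ k, Xk k, Φ (x, T x) := lintegral_mono_set hcover
    _ ≤ ∑' k, ∫⁻ x in Xk k, Φ (x, T x) := lintegral_iUnion_le _ _
    _ ≤ ∑' k, ENNReal.ofReal (ε ^ 2) * ∫⁻ s in Set.Ioc a b, ∫⁻ w in P k, G (s, w) ∂sphM :=
        ENNReal.tsum_le_tsum hstep
    _ = ENNReal.ofReal (ε ^ 2) * ∫⁻ s in Set.Ioc a b, ∑' k, ∫⁻ w in P k, G (s, w) ∂sphM := by
        rw [ENNReal.tsum_mul_left, lintegral_tsum fun k => (hmk k).aemeasurable]
    _ = ENNReal.ofReal (ε ^ 2) * ∫⁻ s in Set.Ioc a b, ∫⁻ w in ⋃ k, P k, G (s, w) ∂sphM := by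
        congr 1
        refine lintegral_congr fun s => ?_
        exact (lintegral_iUnion hPm (disjoint_disjointed A) _).symm
    _ ≤ ENNReal.ofReal (ε ^ 2) * ∫⁻ s in Set.Ioc a b, ∫⁻ w, G (s, w) ∂sphM := by
        refine mul_le_mul_right (lintegral_mono fun s => ?_) _
        exact setLIntegral_le_lintegral _ _

end Crest.Agent.R122.Contact969
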