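import Crest.Agent.R122.Follow_973
import Crest.Agent.R122.ClusterBC_311
import Crest.Agent.R122.CausalForest_291
import Crest.Agent.R122.FMReduce_167

/-!
# Row 122, block FP (helper973): counting forests

`count_le`: the sum over finitely many forest types of the weight of the isolated worlds which
follow the forest, are unhit in the real world and have their roots in `A` is at most
`activity ^ s * factorialMarginal`.  (Lower bound of the factorial marginal by forests.)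
-/

set_option autoImplicit false

open MeasureTheory Set Crest.AnalysisR.Kinetic
open scoped Classical ENNReal

noncomputable section

namespace Crest.Agent.R122.Final973

open Kin796 Kin796.CTree Disc416 Tree674 Causal291 GC311 Flow671 Loc45

/-! ### `Follow` and the past -/

theorem Follow.past {κ : Type*} {z : ℝ → κ → PhasePoint} {ε : ℝ} :
    ∀ {P : CTree} {i : κ} {t : ℝ} {e : Idx P → κ}, 0 ≤ t → Follow z ε P i t e →
      ∀ x, Past (Ct z ε) t i 0 (e x)
  | leaf, i, t, e, ht, h, x => by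
      have hx : x = root leaf := rfl
      rw [hx, h.1]
      exact .root ht
  | node l r, i, t, e, ht, h, x => by
      obtain ⟨s', s, j, hn, hl, hr⟩ := h
      rcases x with x | x
      · have h1 : Past (Ct z ε) t i s' i := .root (hn.le.trans hn.lt.le)
        exact h1.trans (Follow.past hn.nonneg hl x)
      · have h1 : Past (Ct z ε) t i s j := .step (.root hn.lt.le) hn.contact le_rfl
        exact (h1.mono hn.le).trans (Follow.past hn.nonneg hr x)

/-- Relabelling of `Follow`. -/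
theorem Follow.map {κ κ' : Type*} {z : ℝ → κ → PhasePoint} {z' : ℝ → κ' → PhasePoint}
    {ε : ℝ} (σ : κ ≃ κ') (hz : ∀ u x, z' u (σ x) = z u x) :
    ∀ {P : CTree} {i : κ} {t : ℝ} {e : Idx P → κ}, Follow z ε P i t e →
      Follow z' ε P (σ i) t (fun x => σ (e x))
  | leaf, i, t, e, h => by
      refine ⟨congrArg σ h.1, fun u hu k hk => ?_⟩
      obtain ⟨k', rfl⟩ := σ.surjective k
      have h1 := h.2 u hu k' (fun hh => hk (by rw [hh]))
      unfold Ct at h1 ⊢
      rwa [hz, hz]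
  | node l r, i, t, e, h => by
      obtain ⟨s', s, j, hn, hl, hr⟩ := h
      refine ⟨s', s, σ j, ⟨hn.nonneg, hn.le, hn.lt, fun hh => hn.ne (σ.injective hh), ?_, ?_, ?_,
        ?_, ?_⟩, Follow.map σ hz hl, Follow.map σ hz hr⟩
      · have h1 := hn.contact
        unfold Ct at h1 ⊢
        rwa [hz, hz]
      · intro u hu k hk
        obtain ⟨k', rfl⟩ := σ.surjective k
        have h1 := hn.free u hu k' (fun hh => hk (by rw [hh]))
        unfold Ct at h1 ⊢
        rwa [hz, hz]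
      · intro k hk hk'
        obtain ⟨k', rfl⟩ := σ.surjective k
        have h1 := hn.only k' (fun hh => hk (by rw [hh])) (fun hh => hk' (by rw [hh]))
        unfold Ct at h1 ⊢
        rwa [hz, hz]
      · have h1 := hn.contact'
        unfold Ct at h1 ⊢
        rwa [hz, hz]
      · intro u hu
        have h1 := hn.before u hu
        unfold Ct at h1 ⊢
        rwa [hz, hz]

/-! ### Forests -/

/-- Index set of a forest. -/
abbrev FIdx {s : ℕ} (Ps : Fin s → CTree) : Type := Σ i : Fin s, Idx (Ps i)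

/-- The roots of a forest. -/
def froot {s : ℕ} (Ps : Fin s → CTree) (i : Fin s) : FIdx Ps := ⟨i, root (Ps i)⟩

variable {Φ : Space3 → ℝ} {ε : ℝ} {f₀ : PhasePoint → ℝ} {s : ℕ}

/-- The isolated worlds which follow the forest `Ps` up to time `t`. -/
def Pat (Φ : Space3 → ℝ) (ε t : ℝ) {s : ℕ} (Ps : Fin s → CTree) : Set (FIdx Ps → PhasePoint) :=
  {V | ∀ i, Follow (pth Φ ε V) ε (Ps i) (froot Ps i) t (fun x => ⟨i, x⟩)}

/-- The world `V` (isolated) with roots `ρ` (time `t`) is unhit in the real world `V ∪ w`: on `[0, t]`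
all particles which are not active keep distance more than `ε` from the active ones. -/
def Avoid (Φ : Space3 → ℝ) (ε : ℝ) {κ : Type} [Fintype κ] {m s : ℕ} (V : κ → PhasePoint)
    (w : Config m) (ρ : Fin s → κ) (t : ℝ) : Prop :=
  ∀ u ∈ Icc 0 t, ∀ l, (∃ i, Past (Ct (pth Φ ε V) ε) t (ρ i) u l) → ∀ j : κ ⊕ Fin m,
    (∀ l', j = Sum.inl l' → ¬ ∃ i, Past (Ct (pth Φ ε V) ε) t (ρ i) u l') →
    ε < dist (pth Φ ε V u l).1 (pth Φ ε (Sum.elim V w) u j).1

/-- Initial exclusion between `V` and `w`. -/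
def PerpC (ε : ℝ) {κ : Type} {m : ℕ} (V : κ → PhasePoint) (w : Config m) : Prop :=
  ∀ i j, ε < dist (V i).1 (w j).1

/-- Probability that the isolated world `V` is unhit in the real world. -/
def uR (Φ : Space3 → ℝ) (f₀ : PhasePoint → ℝ) (ε : ℝ) {κ : Type} [Fintype κ] {s : ℕ}
    (V : κ → PhasePoint) (ρ : Fin s → κ) (t : ℝ) : ℝ≥0∞ :=
  gcE f₀ ε (fun _ w => if PerpC ε V w ∧ Avoid Φ ε V w ρ t then 1 else 0)

theorem pth_relabel (hΦ : AdmissiblePotential Φ) (hε : 0 < ε) {ι κ : Type*} [Fintype ι]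
    [Fintype κ] (σ : ι ≃ κ) (Z : κ → PhasePoint) (u : ℝ) (x : ι) :
    pth Φ ε (fun i => Z (σ i)) u x = pth Φ ε Z u (σ x) := by
  unfold pth
  rw [flow_equiv hΦ hε σ u Z]

theorem avoid_relabel (hΦ : AdmissiblePotential Φ) (hε : 0 < ε) {κ κ' : Type} [Fintype κ]
    [Fintype κ'] {m s : ℕ} (σ : κ ≃ κ') (V : κ' → PhasePoint) (w : Config m) (ρ : Fin s → κ)
    (t : ℝ) : Avoid Φ ε (fun x => V (σ x)) w ρ t ↔ Avoid Φ ε V w (fun i => σ (ρ i)) t := by
  have hP : ∀ i u l, Past (Ct (pth Φ ε fun x => V (σ x)) ε) t (ρ i) u l ↔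
      Past (Ct (pth Φ ε V) ε) t (σ (ρ i)) u (σ l) := fun i u l =>
    past_pth_equiv hΦ hε σ V t u (ρ i) l
  let τ : κ ⊕ Fin m ≃ κ' ⊕ Fin m := Equiv.sumCongr σ (Equiv.refl _)
  have hS : (Sum.elim (fun x => V (σ x)) w : κ ⊕ Fin m → PhasePoint) =
      fun x => (Sum.elim V w) (τ x) := by
    funext x
    rcases x with x | x <;> rfl
  have hS' : ∀ u (x : κ ⊕ Fin m), pth Φ ε (Sum.elim (fun x => V (σ x)) w) u x =
      pth Φ ε (Sum.elim V w) u (τ x) := by
    intro u x
    rw [hS]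
    exact pth_relabel hΦ hε τ _ u x
  unfold Avoid
  constructor
  · intro h u hu l hl j hj
    obtain ⟨l, rfl⟩ := σ.surjective l
    obtain ⟨j, rfl⟩ := τ.surjective j
    have h1 := h u hu l (by simpa only [hP] using hl) j (by
      intro l' hl' hh
      refine hj (σ l') (by rw [hl']; rfl) ?_
      simpa only [hP] using hh)
    rwa [pth_relabel hΦ hε, hS'] at h1
  · intro h u hu l hl j hj
    rw [pth_relabel hΦ hε, hS']
    refine h u hu (σ l) (by simpa only [hP] using hl) (τ j) ?_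
    intro l' hl' hh
    obtain ⟨l', rfl⟩ := σ.surjective l'
    refine hj l' (τ.injective (by rw [hl']; rfl)) ?_
    simpa only [hP] using hh

theorem uR_relabel (hΦ : AdmissiblePotential Φ) (hε : 0 < ε) {κ κ' : Type} [Fintype κ]
    [Fintype κ'] {s : ℕ} (σ : κ ≃ κ') (V : κ' → PhasePoint) (ρ : Fin s → κ) (t : ℝ) :
    uR Φ f₀ ε (fun x => V (σ x)) ρ t = uR Φ f₀ ε V (fun i => σ (ρ i)) t := by
  unfold uR
  congr 1
  funext m w
  have h1 : PerpC ε (fun x => V (σ x)) w ↔ PerpC ε V w := by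
    constructor
    · intro h i j
      obtain ⟨i, rfl⟩ := σ.surjective i
      exact h i j
    · intro h i j
      exact h (σ i) j
  simp only [h1, avoid_relabel hΦ hε σ V w ρ t]

/-! ### The real cluster of an unhit world is the block -/

theorem avoid_append (hΦ : AdmissiblePotential Φ) (hε : 0 < ε) {k m s : ℕ} {V : Config k}
    {w : Config m} {ρ : Fin s → Fin k} {t : ℝ} (h : Avoid Φ ε V w ρ t) :
    ∀ u ∈ Icc 0 t, ∀ l ∈ ActF (Ct (pth Φ ε V) ε) (range fun i => (ρ i, t)) u, ∀ j,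
      j ∉ Fin.castAdd m '' ActF (Ct (pth Φ ε V) ε) (range fun i => (ρ i, t)) u →
      ε < dist (pth Φ ε V u l).1 (pth Φ ε (Fin.append V w) u j).1 := by
  have hA : ∀ u l, l ∈ ActF (Ct (pth Φ ε V) ε) (range fun i => (ρ i, t)) u ↔
      ∃ i, Past (Ct (pth Φ ε V) ε) t (ρ i) u l := by
    intro u l
    constructor
    · rintro ⟨-, ⟨i, rfl⟩, hi⟩
      exact ⟨i, hi⟩
    · rintro ⟨i, hi⟩
      exact ⟨_, ⟨i, rfl⟩, hi⟩
  have hS : (Fin.append V w : Config (k + m)) =
      fun x => (Sum.elim V w) (finSumFinEquiv.symm x) := by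
    funext x
    refine Fin.addCases (fun i => ?_) (fun i => ?_) x
    · rw [Fin.append_left, finSumFinEquiv_symm_apply_castAdd]
      rfl
    · rw [Fin.append_right, finSumFinEquiv_symm_apply_natAdd]
      rfl
  intro u hu l hl j hj
  rw [hS]
  have h2 : pth Φ ε (fun x => (Sum.elim V w) (finSumFinEquiv.symm x)) u j =
      pth Φ ε (Sum.elim V w) u (finSumFinEquiv.symm j) :=
    pth_relabel hΦ hε finSumFinEquiv.symm _ u j
  rw [h2]
  refine h u hu l ((hA u l).1 hl) _ ?_
  intro l' hl' hh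
  apply hj
  refine ⟨l', (hA u l').2 hh, ?_⟩
  rw [Equiv.symm_apply_eq] at hl'
  rw [hl']
  rfl

theorem bcU_append_eq_block (hΦ : AdmissiblePotential Φ) (hε : 0 < ε) {k m s : ℕ} {V : Config k}
    {w : Config m} (hVw : (Fin.append V w : Config (k + m)) ∈ PairExcluded ε (k + m))
    {ρ : Fin s → Fin k} {t : ℝ} (ht : 0 ≤ t) (h : Avoid Φ ε V w ρ t)
    (hcov : ∀ x, ∃ i, x ∈ BC (Ct (pth Φ ε V) ε) t (ρ i)) :
    bcU Φ ε (fun _ _ _ _ => t) (k + m) (Fin.append V w) (fun i => Fin.castAdd m (ρ i)) =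
      block k m ∧
    ∀ i, pth Φ ε (Fin.append V w) t (Fin.castAdd m (ρ i)) = pth Φ ε V t (ρ i) := by
  have hD : (Fin.append V w : Config (k + m)) ∈ Dom Φ (Fin (k + m)) :=
    pairExcluded_subset_Dom hε _ hVw
  obtain ⟨h1, h2⟩ := compare_append hΦ hε hD (range fun i => (ρ i, t)) (T := t)
    (by rintro _ ⟨i, rfl⟩; exact le_rfl) (avoid_append hΦ hε h)
  constructor
  · ext x
    rw [mem_bcU, mem_block]
    constructor
    · rintro ⟨i, hi⟩
      have h3 := h2 _ ⟨i, rfl⟩ 0 le_rfl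
      change x ∈ Act _ t _ 0 at hi
      have h4 : x ∈ Fin.castAdd m '' Act (Ct (pth Φ ε V) ε) t (ρ i) 0 := by
        rw [← h3]; exact hi
      obtain ⟨y, -, rfl⟩ := h4
      exact ⟨y, rfl⟩
    · rintro ⟨y, rfl⟩
      obtain ⟨i, hi⟩ := hcov y
      refine ⟨i, ?_⟩
      have h3 := h2 _ ⟨i, rfl⟩ 0 le_rfl
      change _ ∈ Act _ t _ 0
      rw [h3]
      exact ⟨y, hi, rfl⟩
  · intro i
    exact (h1 t ⟨ht, le_rfl⟩ (ρ i) ⟨_, ⟨i, rfl⟩, .root le_rfl⟩).symm

/-! ### Superadditivity of `gcE` (no measurability) -/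

theorem gcE_add_le (f₀ : PhasePoint → ℝ) (ε : ℝ) (F G : (n : ℕ) → Config n → ℝ≥0∞) :
    gcE f₀ ε F + gcE f₀ ε G ≤ gcE f₀ ε (fun n Z => F n Z + G n Z) := by
  unfold gcE
  rw [← mul_add, ← ENNReal.tsum_add]
  gcongr with n
  rw [← mul_add]
  gcongr
  refine (le_lintegral_add _ _).trans (le_of_eq ?_)
  refine lintegral_congr fun Z => ?_
  simp only [mul_add]

theorem gcE_sum_le' (f₀ : PhasePoint → ℝ) (ε : ℝ) {α : Type*} (S : Finset α)
    (F : α → (n : ℕ) → Config n → ℝ≥0∞) :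
    ∑ a ∈ S, gcE f₀ ε (F a) ≤ gcE f₀ ε (fun n Z => ∑ a ∈ S, F a n Z) := by
  induction S using Finset.induction_on with
  | empty => simp
  | insert a S ha ih =>
    simp only [Finset.sum_insert ha]
    exact (add_le_add_right ih _).trans (gcE_add_le f₀ ε _ _)

theorem lintegral_sum_le {Ω : Type*} [MeasurableSpace Ω] (μ : Measure Ω) {α : Type*}
    (S : Finset α) (F : α → Ω → ℝ≥0∞) :
    ∑ a ∈ S, ∫⁻ x, F a x ∂μ ≤ ∫⁻ x, ∑ a ∈ S, F a x ∂μ := by
  induction S using Finset.induction_on with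
  | empty => simp
  | insert a S ha ih =>
    simp only [Finset.sum_insert ha]
    exact (add_le_add_right ih _).trans (le_lintegral_add _ _)

/-! ### Relabelling of integrals -/

theorem lintegral_relabel {κ κ' : Type} [Fintype κ] [Fintype κ'] (σ : κ ≃ κ')
    (H : (κ → PhasePoint) → ℝ≥0∞) :
    ∫⁻ Z : κ' → PhasePoint, H (fun i => Z (σ i)) = ∫⁻ Z : κ → PhasePoint, H Z := by
  have h := volume_measurePreserving_piCongrLeft (fun _ : κ => PhasePoint) σ.symm
  have h2 := h.lintegral_comp_emb (MeasurableEquiv.measurableEmbedding _) H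
  rw [← h2]
  refine lintegral_congr fun Z => ?_
  congr 1
  ext i : 1
  obtain ⟨j, rfl⟩ := σ.symm.surjective i
  rw [MeasurableEquiv.coe_piCongrLeft]
  refine Eq.trans ?_ (Equiv.piCongrLeft_apply_apply (fun _ : κ => PhasePoint) σ.symm Z j).symm
  simp

/-- Grand-canonical weight on a general index type. -/
def wt0 (f₀ : PhasePoint → ℝ) (ε : ℝ) {κ : Type} [Fintype κ] (V : κ → PhasePoint) : ℝ≥0∞ :=
  if (∀ i j, i ≠ j → ε < dist (V i).1 (V j).1) then ∏ i, ENNReal.ofReal (f₀ (V i)) else 0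

theorem wt0_relabel {κ κ' : Type} [Fintype κ] [Fintype κ'] (σ : κ ≃ κ') (V : κ' → PhasePoint) :
    wt0 f₀ ε (fun x => V (σ x)) = wt0 f₀ ε V := by
  unfold wt0
  have h1 : (∀ i j, i ≠ j → ε < dist (V (σ i)).1 (V (σ j)).1) ↔
      ∀ i j, i ≠ j → ε < dist (V i).1 (V j).1 := by
    constructor
    · intro h i j hij
      have := h (σ.symm i) (σ.symm j) (fun hh => hij (σ.symm.injective hh))
      simpa using this
    · intro h i j hij
      exact h _ _ (fun hh => hij (σ.injective hh))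
  have h2 : ∏ i, ENNReal.ofReal (f₀ (V (σ i))) = ∏ i, ENNReal.ofReal (f₀ (V i)) :=
    Equiv.prod_comp σ (fun i => ENNReal.ofReal (f₀ (V i)))
  simp only [h1, h2]

theorem gcWeight_eq_wt0 (f₀ : PhasePoint → ℝ) (ε : ℝ) {n : ℕ} (V : Config n) :
    gcWeight f₀ ε n V = wt0 f₀ ε V := by
  unfold gcWeight wt0
  by_cases h : V ∈ PairExcluded ε n
  · rw [Set.indicator_of_mem h, if_pos (fun i j hij => h i j hij)]
  · rw [Set.indicator_of_notMem h, if_neg (fun hh => h (fun i j hij => hh i j hij))]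

/-! ### The counting inequality -/

/-- The contribution of the world `V` (type `Ps`) to the factorial marginal. -/
def fw (Φ : Space3 → ℝ) (f₀ : PhasePoint → ℝ) (ε t : ℝ) {s : ℕ} (A : Set (Config s))
    (Ps : Fin s → CTree) (V : FIdx Ps → PhasePoint) : ℝ≥0∞ :=
  if V ∈ Pat Φ ε t Ps ∧ (fun i => pth Φ ε V t (froot Ps i)) ∈ A then
    uR Φ f₀ ε V (froot Ps) t else 0

/-- The functional of `s` marked particles. -/
def fF (Φ : Space3 → ℝ) (ε t : ℝ) {s : ℕ} (A : Set (Config s)) (n : ℕ) (ι : Fin s → Fin n)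
    (_ : Finset (Fin n)) (Z : Config n) : ℝ≥0∞ :=
  if Function.Injective ι ∧ (fun i => pth Φ ε Z t (ι i)) ∈ A then 1 else 0

theorem fF_equiv (hΦ : AdmissiblePotential Φ) (hε : 0 < ε) {t : ℝ} {A : Set (Config s)} :
    MarkedEquiv ε s (fF Φ ε t A) := by
  intro n σ ι B Z _
  unfold fF
  have h1 : Function.Injective (fun j => σ (ι j)) ↔ Function.Injective ι :=
    ⟨fun h => Function.Injective.of_comp (f := σ) h, fun h => σ.injective.comp h⟩
  have h2 : (fun i => pth Φ ε Z t (σ (ι i))) =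
      (fun i => pth Φ ε (fun i => Z (σ i)) t (ι i)) := by
    funext i
    rw [pth_relabel hΦ hε]
  simp only [h1, h2]

theorem fF_measurable (hΦ : AdmissiblePotential Φ) (hε : 0 < ε) {t : ℝ} {A : Set (Config s)}
    (hA : MeasurableSet A) (n : ℕ) (ι : Fin s → Fin n) (B : Finset (Fin n)) :
    Measurable (fF Φ ε t A n ι B) := by
  unfold fF
  refine Measurable.ite ?_ measurable_const measurable_const
  refine (MeasurableSet.const _).inter ?_
  have h1 : Measurable (fun Z : Config n => fun i => pth Φ ε Z t (ι i)) :=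
    measurable_pi_lambda _ fun i => measurable_pth hΦ hε t (ι i)
  exact h1 hA

/-- For one labelled world. -/
theorem pointwise_count (hΦ : AdmissiblePotential Φ) (hε : 0 < ε) {t : ℝ} (ht : 0 ≤ t)
    {A : Set (Config s)} (Fs : Finset (Fin s → CTree)) {k : ℕ} (V : Config k)
    (hV : V ∈ PairExcluded ε k) :
    ∑ Ps ∈ Fs, ∑ σ : FIdx Ps ≃ Fin k, fw Φ f₀ ε t A Ps (fun x => V (σ x)) ≤
      gcE f₀ ε (fun m w => perpInd ε V w * ∑ j : Fin s → Fin k,
        if bcU Φ ε (fun _ _ _ _ => t) (k + m) (Fin.append V w)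
          (fun i => Fin.castAdd m (j i)) = block k m then
          fF Φ ε t A (k + m) (fun i => Fin.castAdd m (j i)) (block k m) (Fin.append V w)
        else 0) := by
  -- the marks seen by the types
  let J : Finset (Fin s → Fin k) := Finset.univ.filter fun j =>
    Function.Injective j ∧ (∀ x, ∃ i, x ∈ BC (Ct (pth Φ ε V) ε) t (j i)) ∧
      (fun i => pth Φ ε V t (j i)) ∈ A
  have step1 : ∑ j ∈ J, uR Φ f₀ ε V j t ≤
      gcE f₀ ε (fun m w => perpInd ε V w * ∑ j : Fin s → Fin k,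
        if bcU Φ ε (fun _ _ _ _ => t) (k + m) (Fin.append V w)
          (fun i => Fin.castAdd m (j i)) = block k m then
          fF Φ ε t A (k + m) (fun i => Fin.castAdd m (j i)) (block k m) (Fin.append V w)
        else 0) := by
    unfold uR
    refine (gcE_sum_le' f₀ ε J _).trans (gcE_mono f₀ ε fun m w hw => ?_)
    unfold perpInd
    by_cases hp : Perp ε V w
    swap
    · have : ∀ j : Fin s → Fin k,
          (if PerpC ε V w ∧ Avoid Φ ε V w j t then (1 : ℝ≥0∞) else 0) = 0 := by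
        intro j
        rw [if_neg]
        intro h
        exact hp h.1
      simp [this]
    rw [if_pos hp, one_mul]
    refine (Finset.sum_le_sum (s := J) (g := fun j : Fin s → Fin k =>
      if bcU Φ ε (fun _ _ _ _ => t) (k + m) (Fin.append V w)
          (fun i => Fin.castAdd m (j i)) = block k m then
          fF Φ ε t A (k + m) (fun i => Fin.castAdd m (j i)) (block k m) (Fin.append V w)
        else 0) fun j hj => ?_).trans
      (Finset.sum_le_sum_of_subset (Finset.subset_univ J))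
    obtain ⟨hinj, hcov, hA⟩ := (Finset.mem_filter.1 hj).2
    by_cases hav : Avoid Φ ε V w j t
    swap
    · rw [if_neg (fun h => hav h.2)]
      exact bot_le
    rw [if_pos ⟨hp, hav⟩]
    have hVw : (Fin.append V w : Config (k + m)) ∈ PairExcluded ε (k + m) :=
      (append_mem_pairExcluded_iff V w).2 ⟨hV, hw, hp⟩
    obtain ⟨h1, h2⟩ := bcU_append_eq_block hΦ hε hVw ht hav hcov
    rw [if_pos h1]
    unfold fF
    rw [if_pos]
    refine ⟨fun a b hab => hinj (Fin.castAdd_injective k m hab), ?_⟩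
    have h3 : (fun i => pth Φ ε (Fin.append V w) t (Fin.castAdd m (j i))) =
        fun i => pth Φ ε V t (j i) := funext h2
    rw [h3]
    exact hA
  refine le_trans ?_ step1
  -- the injection
  have hsig : ∑ Ps ∈ Fs, ∑ σ : FIdx Ps ≃ Fin k, fw Φ f₀ ε t A Ps (fun x => V (σ x)) =
      ∑ x ∈ Fs.sigma (fun Ps => (Finset.univ : Finset (FIdx Ps ≃ Fin k))),
        fw Φ f₀ ε t A x.1 (fun y => V (x.2 y)) := by
    rw [Finset.sum_sigma]
  rw [hsig]
  let S := (Fs.sigma (fun Ps => (Finset.univ : Finset (FIdx Ps ≃ Fin k)))).filter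
    (fun x => (fun y => V (x.2 y)) ∈ Pat Φ ε t x.1 ∧
      (fun i => pth Φ ε (fun y => V (x.2 y)) t (froot x.1 i)) ∈ A)
  let φ : (Σ Ps : Fin s → CTree, (FIdx Ps ≃ Fin k)) → (Fin s → Fin k) :=
    fun x i => x.2 (froot x.1 i)
  have hφ : Set.InjOn φ (S : Set (Σ Ps : Fin s → CTree, (FIdx Ps ≃ Fin k))) := by
    rintro ⟨Ps, σ⟩ h1 ⟨Ps', σ'⟩ h2 heq
    have h1' := ((Finset.mem_filter.1 (Finset.mem_coe.1 h1)).2).1
    have h2' := ((Finset.mem_filter.1 (Finset.mem_coe.1 h2)).2).1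
    have key : ∀ i, (⟨Ps i, fun x => σ ⟨i, x⟩⟩ : Σ P : CTree, (Idx P → Fin k)) =
        ⟨Ps' i, fun x => σ' ⟨i, x⟩⟩ := by
      intro i
      have e1 := Follow.map (z' := pth Φ ε V) σ
        (fun u x => (pth_relabel hΦ hε σ V u x).symm) (h1' i)
      have e2 := Follow.map (z' := pth Φ ε V) σ'
        (fun u x => (pth_relabel hΦ hε σ' V u x).symm) (h2' i)
      have e3 : σ (froot Ps i) = σ' (froot Ps' i) := congrFun heq i
      rw [e3] at e1
      exact Follow.unique e1 e2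
    have hP : Ps = Ps' := funext fun i => congrArg Sigma.fst (key i)
    subst hP
    have hσ : σ = σ' := by
      ext ⟨i, x⟩
      have h3 := key i
      have h4 := eq_of_heq (Sigma.mk.inj_iff.1 h3).2
      rw [congrFun h4 x]
    rw [hσ]
  have hzero : ∑ x ∈ Fs.sigma (fun Ps => (Finset.univ : Finset (FIdx Ps ≃ Fin k))),
        fw Φ f₀ ε t A x.1 (fun y => V (x.2 y)) = ∑ x ∈ S, uR Φ f₀ ε V (φ x) t := by
    rw [Finset.sum_filter]
    refine Finset.sum_congr rfl fun x _ => ?_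
    unfold fw
    by_cases h : (fun y => V (x.2 y)) ∈ Pat Φ ε t x.1 ∧
      (fun i => pth Φ ε (fun y => V (x.2 y)) t (froot x.1 i)) ∈ A
    · rw [if_pos h, if_pos h, uR_relabel hΦ hε x.2 V (froot x.1) t]
    · rw [if_neg h, if_neg h]
  rw [hzero, ← Finset.sum_image (f := fun j => uR Φ f₀ ε V j t) (g := φ) (s := S)
    (fun x hx y hy h => hφ (Finset.mem_coe.2 hx) (Finset.mem_coe.2 hy) h)]
  refine Finset.sum_le_sum_of_subset ?_
  intro j hj
  obtain ⟨x, hx, rfl⟩ := Finset.mem_image.1 hj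
  obtain ⟨hpat, hA⟩ := (Finset.mem_filter.1 hx).2
  refine Finset.mem_filter.2 ⟨Finset.mem_univ _, ?_, ?_, ?_⟩
  · intro a b hab
    have h1 := x.2.injective hab
    exact congrArg Sigma.fst h1
  · intro y
    obtain ⟨⟨i, y⟩, rfl⟩ := x.2.surjective y
    refine ⟨i, ?_⟩
    have e1 := Follow.map (z' := pth Φ ε V) x.2
      (fun u y => (pth_relabel hΦ hε x.2 V u y).symm) (hpat i)
    exact Follow.past ht e1 y
  · have h1 : (fun i => pth Φ ε (fun y => V (x.2 y)) t (froot x.1 i)) =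
        fun i => pth Φ ε V t (φ x i) := by
      funext i
      exact pth_relabel hΦ hε x.2 V t _
    rw [← h1]
    exact hA

theorem sum_embedding {n : ℕ} (g : (Fin s → Fin n) → ℝ≥0∞) :
    ∑ ι : Fin s ↪ Fin n, g ι = ∑ ι : Fin s → Fin n, if Function.Injective ι then g ι else 0 := by
  rw [← Finset.sum_filter]
  refine Finset.sum_bij (fun (ι : Fin s ↪ Fin n) _ => (ι : Fin s → Fin n)) ?_ ?_ ?_ ?_
  · intro ι _
    exact Finset.mem_filter.2 ⟨Finset.mem_univ _, ι.injective⟩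
  · intro a _ b _ h
    exact DFunLike.coe_injective h
  · intro ι hι
    exact ⟨⟨ι, (Finset.mem_filter.1 hι).2⟩, Finset.mem_univ _, rfl⟩
  · intro ι _
    rfl

theorem factorialMarginal_eq_gcE {t : ℝ} (hε : 0 < ε) {A : Set (Config s)} :
    activity ε ^ s * factorialMarginal f₀ ε (Master566.flowEv Φ ε) s t A =
      gcE f₀ ε (fun n Z => ∑ ι : Fin s → Fin n,
        fF Φ ε t A n ι (bcU Φ ε (fun _ _ _ _ => t) n Z ι) Z) := by
  unfold factorialMarginal gcE
  have h1 : activity ε ^ s ≠ 0 := FM167.activity_pow_ne_zero hε s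
  have h2 : activity ε ^ s ≠ ⊤ := FM167.activity_pow_ne_top ε s
  rw [← mul_assoc, mul_comm (gcPartition f₀ ε)⁻¹, ← mul_assoc (activity ε ^ s),
    ENNReal.mul_inv_cancel h1 h2, one_mul]
  congr 1
  refine tsum_congr fun n => ?_
  congr 1
  refine lintegral_congr fun Z => ?_
  congr 1
  rw [sum_embedding (fun ι => A.indicator (fun _ => (1 : ℝ≥0∞))
    (fun k => Master566.flowEv Φ ε n t Z (ι k)))]
  refine Finset.sum_congr rfl fun ι _ => ?_
  unfold fF
  change (if Function.Injective ι then A.indicator (fun _ => (1 : ℝ≥0∞))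
    (fun i => pth Φ ε Z t (ι i)) else 0) = _
  by_cases hι : Function.Injective ι
  · by_cases hA : (fun i => pth Φ ε Z t (ι i)) ∈ A
    · rw [if_pos hι, if_pos ⟨hι, hA⟩, Set.indicator_of_mem hA]
    · rw [if_pos hι, if_neg (fun h => hA h.2), Set.indicator_of_notMem hA]
  · rw [if_neg hι, if_neg (fun h => hι h.1)]

/-- **Lower bound of the factorial marginal by forests.** -/
theorem count_le (hf : Measurable f₀) (hΦ : AdmissiblePotential Φ) (hε : 0 < ε) {t : ℝ}
    (ht : 0 ≤ t) {A : Set (Config s)} (hA : MeasurableSet A) (Fs : Finset (Fin s → CTree)) :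
    ∑ Ps ∈ Fs, activity ε ^ Fintype.card (FIdx Ps) *
        ∫⁻ V : FIdx Ps → PhasePoint, wt0 f₀ ε V * fw Φ f₀ ε t A Ps V ≤
      activity ε ^ s * factorialMarginal f₀ ε (Master566.flowEv Φ ε) s t A := by
  rw [factorialMarginal_eq_gcE hε]
  rw [cluster_mecke hf (clusterMap_bcU (t := fun _ _ _ _ => t) hΦ hε (fun _ _ _ _ _ => ht)
    (fun _ _ _ => measurable_const) (fun _ _ _ _ _ _ => rfl)) (fF_equiv hΦ hε)
    (fF_measurable hΦ hε hA)]
  -- bound every `k` from below
  have hk : ∀ k : ℕ, ∑ Ps ∈ Fs, ∑ σ : FIdx Ps ≃ Fin k,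
      ∫⁻ V : FIdx Ps → PhasePoint, wt0 f₀ ε V * fw Φ f₀ ε t A Ps V ≤
      ∫⁻ V : Config k, gcWeight f₀ ε k V *
        gcE f₀ ε (fun m w => perpInd ε V w * ∑ j : Fin s → Fin k,
          if bcU Φ ε (fun _ _ _ _ => t) (k + m) (Fin.append V w)
            (fun i => Fin.castAdd m (j i)) = block k m then
            fF Φ ε t A (k + m) (fun i => Fin.castAdd m (j i)) (block k m) (Fin.append V w)
          else 0) := by
    intro k
    have h1 : ∀ Ps, ∀ σ : FIdx Ps ≃ Fin k,
        ∫⁻ V : FIdx Ps → PhasePoint, wt0 f₀ ε V * fw Φ f₀ ε t A Ps V =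
        ∫⁻ V : Config k, gcWeight f₀ ε k V * fw Φ f₀ ε t A Ps (fun x => V (σ x)) := by
      intro Ps σ
      rw [← lintegral_relabel σ]
      refine lintegral_congr fun V => ?_
      rw [wt0_relabel, gcWeight_eq_wt0]
    calc ∑ Ps ∈ Fs, ∑ σ : FIdx Ps ≃ Fin k,
          ∫⁻ V : FIdx Ps → PhasePoint, wt0 f₀ ε V * fw Φ f₀ ε t A Ps V
        = ∑ Ps ∈ Fs, ∑ σ : FIdx Ps ≃ Fin k,
          ∫⁻ V : Config k, gcWeight f₀ ε k V * fw Φ f₀ ε t A Ps (fun x => V (σ x)) :=
          Finset.sum_congr rfl fun Ps _ => Finset.sum_congr rfl fun σ _ => h1 Ps σ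
      _ ≤ ∑ Ps ∈ Fs, ∫⁻ V : Config k, ∑ σ : FIdx Ps ≃ Fin k,
            gcWeight f₀ ε k V * fw Φ f₀ ε t A Ps (fun x => V (σ x)) :=
          Finset.sum_le_sum fun Ps _ => lintegral_sum_le _ _ _
      _ ≤ ∫⁻ V : Config k, ∑ Ps ∈ Fs, ∑ σ : FIdx Ps ≃ Fin k,
            gcWeight f₀ ε k V * fw Φ f₀ ε t A Ps (fun x => V (σ x)) :=
          lintegral_sum_le _ _ _
      _ ≤ _ := by
          refine lintegral_mono fun V => ?_
          simp_rw [← Finset.mul_sum]
          by_cases hV : V ∈ PairExcluded ε k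
          · gcongr
            exact pointwise_count hΦ hε ht Fs V hV
          · have h0 : gcWeight f₀ ε k V = 0 := by
              simp [gcWeight, Set.indicator_of_notMem hV]
            simp [h0]
  have h2 : ∑' k : ℕ, activity ε ^ k / (k.factorial : ℝ≥0∞) * (∑ Ps ∈ Fs,
      ∑ σ : FIdx Ps ≃ Fin k, ∫⁻ V : FIdx Ps → PhasePoint, wt0 f₀ ε V * fw Φ f₀ ε t A Ps V) ≤
      ∑' k : ℕ, activity ε ^ k / (k.factorial : ℝ≥0∞) * ∫⁻ V : Config k, gcWeight f₀ ε k V *
        gcE f₀ ε (fun m w => perpInd ε V w * ∑ j : Fin s → Fin k,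
          if bcU Φ ε (fun _ _ _ _ => t) (k + m) (Fin.append V w)
            (fun i => Fin.castAdd m (j i)) = block k m then
            fF Φ ε t A (k + m) (fun i => Fin.castAdd m (j i)) (block k m) (Fin.append V w)
          else 0) :=
    ENNReal.tsum_le_tsum fun k => mul_le_mul_right (hk k) _
  refine le_trans ?_ h2
  simp_rw [Finset.mul_sum]
  rw [Summable.tsum_finsetSum (fun _ _ => ENNReal.summable)]
  refine Finset.sum_le_sum fun Ps _ => ?_
  refine le_trans ?_ (ENNReal.le_tsum (Fintype.card (FIdx Ps)))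
  rw [Finset.sum_const, nsmul_eq_mul, Finset.card_univ,
    Fintype.card_equiv (Fintype.equivFin (FIdx Ps))]
  have h3 : ((Fintype.card (FIdx Ps)).factorial : ℝ≥0∞) ≠ 0 := by
    exact_mod_cast (Nat.factorial_pos _).ne'
  have h4 : ((Fintype.card (FIdx Ps)).factorial : ℝ≥0∞) ≠ ⊤ := ENNReal.natCast_ne_top _
  rw [← mul_assoc, mul_comm ((Fintype.card (FIdx Ps)).factorial : ℝ≥0∞),
    ENNReal.div_mul_cancel h3 h4]

end Crest.Agent.R122.Final973
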