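import Crest.Agent.R122.SizeX3_974
import Crest.Agent.R122.ChainFam_726

/-!
# Row 122 (helper974), size crossing (SX), part 4: the input `NGC` from D5

`ngc_of` : the volume statement of D5 for helper726's bad family gives `NGC`.
-/

set_option autoImplicit false

open MeasureTheory Set Filter
open scoped ENNReal Topology Classical NNReal
open Crest.AnalysisR.Kinetic Crest.Agent.R122.Kin796 Crest.Agent.R122.Disc416
  Crest.Agent.R122.Tree674 Crest.Agent.R122.TreeLim974 Crest.Agent.R122.GIV566
  Crest.Agent.R122.Band974 Crest.Agent.R122.GC311 Crest.Agent.R122.Causal291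
  Crest.Agent.R122.Master566 Crest.Agent.R122.Relabel674 Crest.Agent.R122.EDefs602
  Crest.Agent.R122.InEq2 Crest.Agent.R122.RealTree674 Crest.Agent.R122.NEK370
  Crest.Agent.R122.EW370

noncomputable section

namespace Crest.Agent.R122.SizeX974

open CTree

variable {Φ : Space3 → ℝ} {f₀ : PhasePoint → ℝ} {f : ℝ → PhasePoint → ℝ} {β T tw te T' ε : ℝ}

/-! ### D5 -/

theorem eW_append_block {k m : ℕ} (V : Config k) (w : Config m) :
    eW (Fin.append V w : Config (k + m)) (block k m) = NG416.Wt V := by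
  have h := NG416.eW_map (Fin.append V w : Config (k + m)) (Fin.castAddEmb m)
  have e : (fun x => (Fin.append V w : Config (k + m)) (Fin.castAddEmb m x)) = V := by
    funext x
    exact Fin.append_left _ _ _
  rw [e] at h
  exact h

/-- **`NGC` from the volume statement of D5.** -/
theorem ngc_of (hD : KData Φ β T f₀ f) {γ : ℝ} (hγ : γ < 2 * β) (hteT : te < T')
    (hvol : ∀ K, NG416.BadVol γ K (Chain726.badFam Φ T' te)) : NGC Φ f₀ te T' := by
  intro K δ hδ
  have hfm : Measurable f₀ := hD.contDiff.continuous.measurable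
  have h1 : ∫⁻ z, ENNReal.ofReal (f₀ z) ≤ 1 :=
    (FM167.lintegral_density_eq_one hD.nonneg hD.integrable hD.mass).le
  obtain ⟨N, hNm, -, -, hNb, hN⟩ := NG416.ngin_mecke (Chain726.permCov_badFam hD.adm T' te) hγ (hvol K) hfm h1 hD.gaussian
  have hlt : (0 : ℝ≥0∞) < ENNReal.ofReal δ := ENNReal.ofReal_pos.2 hδ
  obtain ⟨ε₀, hε₀, h⟩ := mem_nhdsGT_iff_exists_Ioo_subset.1 (hN.eventually (gt_mem_nhds hlt))
  refine ⟨ε₀, hε₀, fun ε hε hlt' => ?_⟩
  have hsm : (activity ε)⁻¹ * MS f₀ ε (fun k m V w j => NG416.Wt V * N ε k V j) ≤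
      ENNReal.ofReal δ := le_of_lt (h ⟨hε, hlt'⟩)
  refine ⟨fun k m V w j => NG416.Wt V * N ε k V j, fun k m j => ?_, ?_,
    fun k m V w j hk hV hw hp s hs hb => ?_⟩
  · exact (NG416.measurable_Wt.comp measurable_fst).mul ((hNm ε k j).comp measurable_fst)
  · have ha := FM167.activity_ne_zero hε
    have ha' := FM167.activity_ne_top ε
    calc MS f₀ ε (fun k m V w j => NG416.Wt V * N ε k V j)
        = activity ε * ((activity ε)⁻¹ * MS f₀ ε fun k m V w j => NG416.Wt V * N ε k V j) := by
          rw [← mul_assoc, ENNReal.mul_inv_cancel ha ha', one_mul]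
      _ ≤ _ := by gcongr
  · have hZ : (Fin.append V w : Config (k + m)) ∈ PairExcluded ε (k + m) :=
      (append_mem_pairExcluded_iff V w).2 ⟨hV, hw, hp⟩
    have hdom : (Fin.append V w : Config (k + m)) ∈ Flow671.Dom Φ (Fin (k + m)) := by
      refine Or.inr fun i j hij h => ?_
      have := hZ i j hij
      rw [h, dist_self] at this
      linarith
    have hVr : ∀ a, Past (Ct (pth Φ ε (Fin.append V w : Config (k + m))) ε) s
        ((Fin.castAddEmb m) j) 0 a ↔ a ∈ range (Fin.castAddEmb m : Fin k ↪ Fin (k + m)) := by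
      intro a
      have h2 : a ∈ (bc Φ ε (Fin.append V w : Config (k + m)) s (Fin.castAdd m j)).toFinset ↔
          a ∈ block k m := by rw [hb]
      rw [Set.mem_toFinset] at h2
      refine Iff.trans h2 ?_
      rw [mem_block]
      rfl
    rcases Chain726.det_pth (T := T') hD.adm hε hdom hs hteT hVr with ⟨Q, g, ℓ, p, h⟩ | h
    · exact Or.inl ⟨Q, ℓ, p, _, h⟩
    · right
      rw [eW_append_block]
      have e : (fun x => (Fin.append V w : Config (k + m)) (Fin.castAddEmb m x)) = V := by
        funext x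
        exact Fin.append_left _ _ _
      rw [e] at h
      exact le_mul_of_one_le_right bot_le (hNb ε hε k hk V hV j ⟨hε, h⟩)

end Crest.Agent.R122.SizeX974
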