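import Crest.Agent.R122.TopB_602
import Crest.Agent.R122.BadIn_167
import Crest.Agent.R122.SizeX4_974

/-!
# Row 122: the inputs of D5 from its volume statement (helper602)

* `D5Vol` : the volume statement of section D5 for helper726's bad family.
* `d5In_of_vol`, `ngcIn_of_vol`, `badIn_of_vol`.
-/

set_option autoImplicit false

open MeasureTheory Set Filter Topology
open scoped ENNReal
open Crest.AnalysisR.Kinetic
open Crest.Agent.R122.Master566 Crest.Agent.R122.EDefs602 Crest.Agent.R122.GIV566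

namespace Crest.Agent.R122.Top602

noncomputable section

/-- **The volume statement of section D5**: for some `γ < 2 β` the bad configurations of at most
`K` particles have Gaussian volume `o(act ^ (k - 1))`. -/
def D5Vol (Φ : Space3 → ℝ) (β : ℝ) : Prop :=
  ∃ γ : ℝ, 0 < γ ∧ γ < 2 * β ∧ ∀ te T' : ℝ, 0 ≤ te → te < T' → ∀ K : ℕ,
    NG416.BadVol γ K (Chain726.badFam Φ T' te)

variable {Φ : Space3 → ℝ} {β T : ℝ} {f₀ : PhasePoint → ℝ} {f : ℝ → PhasePoint → ℝ}

theorem d5In_of_vol (hD : KData Φ β T f₀ f) (h : D5Vol Φ β) : D5In Φ f₀ := by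
  obtain ⟨γ, _, hγ, h⟩ := h
  intro te T' h0 hlt K
  exact Chain726.ngin_of_badVol hD.adm hlt hγ (h te T' h0 hlt K)
    hD.contDiff.continuous.measurable
    (FM167.lintegral_density_eq_one hD.nonneg hD.integrable hD.mass).le hD.gaussian

theorem ngcIn_of_vol (hD : KData Φ β T f₀ f) (h : D5Vol Φ β) : NGCIn Φ f₀ := by
  obtain ⟨γ, _, hγ, h⟩ := h
  intro te T' h0 hlt
  exact SizeX974.ngc_of hD hγ hlt (h te T' h0 hlt)

/-- **Bad first hits are rare**, from the volume statement of D5. -/
theorem badIn_of_vol (hD : KData Φ β T f₀ f) (h : D5Vol Φ β) : BadIn Φ f₀ f T :=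
  Hit167.badIn_of hD (T' := T + 1) (by linarith) fun K =>
    d5In_of_vol hD h T (T + 1) hD.T_pos.le (by linarith) K

end

end Crest.Agent.R122.Top602
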