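import Crest.Agent.R122.BadVolMain_726
import Crest.Agent.R122.BadTerm_818
import Crest.Agent.R122.TopV_602

/-!
# Row 122, section D5 (helper726): the volume statement, final form

`badVol : BadVol γ K (badFam Φ T te)` for all `γ > 0`, `K`, `T ≥ 0`, `te`;
`d5Vol : KData → Top602.D5Vol Φ β`.
-/

set_option autoImplicit false

open MeasureTheory Set Filter Topology
open Crest.AnalysisR.Kinetic

namespace Crest.Agent.R122.Chain726

variable {Φ : Space3 → ℝ} {T te : ℝ}

theorem termVol (hΦ : AdmissiblePotential Φ) (T te : ℝ) : TermVol Φ T te :=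
  fun _ _ _ hγ => BadTerm818.term_bad hΦ hγ te T

/-- **The volume statement of D5.** -/
theorem badVol (hΦ : AdmissiblePotential Φ) (hT : 0 ≤ T) {γ : ℝ} (hγ : 0 < γ) (K : ℕ) :
    NG416.BadVol γ K (badFam Φ T te) :=
  badVol_of_term hΦ hT (termVol hΦ T te) hγ K

/-- **D5 of the top skeleton.** -/
theorem d5Vol (hΦ : AdmissiblePotential Φ) {β : ℝ} (hβ : 0 < β) : Top602.D5Vol Φ β :=
  ⟨β, hβ, by linarith, fun _ _ h0 hlt K => badVol hΦ (h0.trans hlt.le) hβ K⟩

theorem d5Vol_of_kData {β T : ℝ} {f₀ : PhasePoint → ℝ} {f : ℝ → PhasePoint → ℝ}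
    (hD : Master566.KData Φ β T f₀ f) : Top602.D5Vol Φ β := d5Vol hD.adm hD.beta_pos

end Crest.Agent.R122.Chain726
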