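import Crest.Agent.R122.GateF_973
import Crest.Agent.R122.LN2Touch_473
import Crest.Agent.R122.OS2Calc_495

/-!
# Row 122, inequality 3, null facts of the pair laws (helper581): structures behind a pair law

* `Shp` : one shape of structures (all data as functions of `ε`); `Rep` : a pair law is dominated by
  the images of finitely many structure laws.
* `null_of_rep` : conversion of the gateway form (`GNull`, `FNull`) into `Null` of the gas integral
  of the pair law.
* `treeA`, `osP` : the measure of a contact tree and a structure; `null_os2` : the same for the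
  structure integral `OS2`.
* `GNull.of_ae` : almost sure facts.
-/

set_option autoImplicit false
set_option linter.unusedSectionVars false

open MeasureTheory Set Filter Topology
open scoped Classical ENNReal
open Crest.AnalysisR.Kinetic

noncomputable section

namespace Crest.Agent.R122.PairRep581

open Crest.Agent.R122.GC311 Crest.Agent.R122.Kin796 Crest.Agent.R122.Kin796.CTree
open Crest.Agent.R122.Tree674 Crest.Agent.R122.EDefs602
open Crest.Agent.R122.Gate424 Crest.Agent.R122.Gate973 Crest.Agent.R122.LN2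
open Crest.Agent.R122.Boost969 (LSt)
open Crest.Agent.R122.Pair292 (Lab)
open Crest.Agent.R122.PairD292

variable {f₀ : PhasePoint → ℝ}

/-! ## Structures -/

/-- One shape of structures: parameter space, labels, law, births, time `0` states, action of the
translations, pair of lines (all as functions of `ε`). -/
structure Shp where
  Θ : Type
  κ : Type
  [mΘ : MeasurableSpace Θ]
  [fκ : Fintype κ]
  m : ℝ → Measure Θ
  b : ℝ → Θ → κ → ℝ
  z : ℝ → Θ → κ → PhasePoint
  Tr : Space3 → Θ → Θ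
  th : ℝ → Θ → Lab × LSt

attribute [instance] Shp.mΘ Shp.fκ

/-- The pair law is dominated by the images of the structure laws. -/
structure Rep {ι : Type} [Fintype ι] (ν : ℝ → Measure (Lab × LSt)) (S : ι → Shp) : Prop where
  sf : ∀ s ε, SFinite ((S s).m ε)
  mth : ∀ s ε, 0 < ε → Measurable ((S s).th ε)
  le : ∀ ε, 0 < ε → ∀ F : Lab × LSt → ℝ≥0∞, Measurable F →
    ∫⁻ p, F p ∂(ν ε) ≤ ∑ s, ∫⁻ x, F ((S s).th ε x) ∂((S s).m ε)

/-- The law of the structures with the trivial index. -/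
abbrev Shp.mI (S : Shp) : ℝ → Unit → Measure S.Θ := fun ε _ => S.m ε

theorem Rep.le' {ι : Type} [Fintype ι] {ν : ℝ → Measure (Lab × LSt)} {S : ι → Shp} (h : Rep ν S)
    {ε : ℝ} (hε : 0 < ε) (F : Lab × LSt → ℝ≥0∞) :
    ∫⁻ p, F p ∂(ν ε) ≤ ∑ s, ∫⁻ x, F ((S s).th ε x) ∂((S s).m ε) := by
  obtain ⟨g, hg, hgF, e⟩ := exists_measurable_le_lintegral_eq (ν ε) F
  rw [e]
  exact (h.le ε hε g hg).trans (Finset.sum_le_sum fun s _ => lintegral_mono fun x => hgF _)

/-- Minimum of finitely many positive numbers. -/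
theorem exists_pos_le_fin {α : Type*} (S : Finset α) (e : α → ℝ) (h : ∀ s ∈ S, 0 < e s) :
    ∃ r : ℝ, 0 < r ∧ ∀ s ∈ S, r ≤ e s := by
  induction S using Finset.induction_on with
  | empty => exact ⟨1, one_pos, fun s hs => by simp at hs⟩
  | insert a S ha ih =>
    obtain ⟨r, hr, h2⟩ := ih fun s hs => h s (Finset.mem_insert_of_mem hs)
    refine ⟨min r (e a), lt_min hr (h a (Finset.mem_insert_self a S)), fun s hs => ?_⟩
    rcases Finset.mem_insert.1 hs with rfl | hs
    · exact min_le_right _ _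
    · exact (min_le_left _ _).trans (h2 s hs)

/-- Distribution of `δ` over finitely many terms. -/
theorem sum_div_le {α : Type*} (S : Finset α) (δ : ℝ≥0∞) :
    ∑ _s ∈ S, δ / (S.card + 1) ≤ δ := by
  have hc : ((S.card : ℝ≥0∞) + 1) ≠ ∞ :=
    ENNReal.add_ne_top.2 ⟨ENNReal.natCast_ne_top _, ENNReal.one_ne_top⟩
  rw [Finset.sum_const, nsmul_eq_mul]
  calc (S.card : ℝ≥0∞) * (δ / (S.card + 1)) ≤ (S.card + 1) * (δ / (S.card + 1)) := by
        gcongr
        exact le_self_add
    _ = δ := ENNReal.mul_div_cancel (by simp) hc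

theorem div_pos' {α : Type*} (S : Finset α) {δ : ℝ≥0∞} (hδ : 0 < δ) : 0 < δ / (S.card + 1) :=
  ENNReal.div_pos hδ.ne' (ENNReal.add_ne_top.2 ⟨ENNReal.natCast_ne_top _, ENNReal.one_ne_top⟩)

/-- **Conversion, functionals.** -/
theorem null_of_rep (hf : Measurable f₀) {ι : ℕ → Type} [∀ K, Fintype (ι K)]
    {ν : ℕ → ℝ → Measure (Lab × LSt)} {S : ∀ K, ι K → Shp} (h : ∀ K, Rep (ν K) (S K))
    {F : ℕ → ℝ → (n : ℕ) → Config n → Lab × LSt → ℝ≥0∞}
    (hF : ∀ K s, FNull f₀ (S K s).mI (fun ε _ n x w => F K ε n w ((S K s).th ε x))) :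
    Null fun K ε => gcE f₀ ε fun n w => ∫⁻ θ, F K ε n w θ ∂(ν K ε) := by
  intro K δ hδ
  set U : Finset (ι K) := Finset.univ with hU
  have hδ' : 0 < ENNReal.ofReal δ := ENNReal.ofReal_pos.2 hδ
  choose e he hG using fun s => hF K s _ (div_pos' U hδ')
  obtain ⟨r, hr, hre⟩ := exists_pos_le_fin U e fun s _ => he s
  refine ⟨r, hr, fun ε hε hlt => ?_⟩
  choose G hGm hGle hGi using fun s => hG s ε hε (hlt.trans_le (hre s (Finset.mem_univ s))) ()
  have hsf := fun s => (h K).sf s ε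
  calc gcE f₀ ε (fun n w => ∫⁻ θ, F K ε n w θ ∂(ν K ε))
      ≤ gcE f₀ ε (fun n w => ∑ s ∈ U, ∫⁻ x, G s n (x, w) ∂((S K s).m ε)) := by
        refine gcE_mono f₀ ε fun n w hw => ?_
        refine ((h K).le' hε _).trans (Finset.sum_le_sum fun s _ => ?_)
        exact lintegral_mono fun x => hGle s n x w hw
    _ = ∑ s ∈ U, gcE f₀ ε (fun n w => ∫⁻ x, G s n (x, w) ∂((S K s).m ε)) :=
        gcE_finset_sum hf ε U fun s _ n => by
          have hm : Measurable fun q : Config n × (S K s).Θ => G s n (q.2, q.1) :=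
            (hGm s n).comp measurable_swap
          exact hm.lintegral_prod_right'
    _ = ∑ s ∈ U, ∫⁻ x, gcE f₀ ε (fun n w => G s n (x, w)) ∂((S K s).m ε) := by
        refine Finset.sum_congr rfl fun s _ => ?_
        exact (lintegral_gcE_swap hf ε ((S K s).m ε) (F := fun n x w => G s n (x, w))
          fun n => hGm s n).symm
    _ ≤ ∑ _s ∈ U, ENNReal.ofReal δ / (U.card + 1) := Finset.sum_le_sum fun s _ => hGi s
    _ ≤ ENNReal.ofReal δ := sum_div_le U _

/-- **Conversion, events.** -/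
theorem null_of_rep_E (hf : Measurable f₀) {ι : ℕ → Type} [∀ K, Fintype (ι K)]
    {ν : ℕ → ℝ → Measure (Lab × LSt)} {S : ∀ K, ι K → Shp} (h : ∀ K, Rep (ν K) (S K))
    {E : ℕ → ℝ → (n : ℕ) → Config n → Lab × LSt → Prop}
    (hE : ∀ K s, GNull f₀ (S K s).mI (fun ε _ n x w => E K ε n w ((S K s).th ε x))) :
    Null fun K ε => gcE f₀ ε fun n w => ∫⁻ θ, (if E K ε n w θ then 1 else 0) ∂(ν K ε) :=
  null_of_rep hf h (F := fun K ε n w θ => if E K ε n w θ then 1 else 0)
    fun K s => FNull.ofE (hE K s)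

/-! ## The contact tree and a structure -/

/-- Density of the law of a tree, with the activity. -/
def treeD (Φ : Space3 → ℝ) (f₀ : PhasePoint → ℝ) (ε T' : ℝ) (P : CTree) :
    PhasePoint × Par P → ℝ≥0∞ := fun z =>
  {z : PhasePoint × Par P | Valid Φ ε P T' z.1.2 z.2}.indicator
    (fun z => activity ε * (wt Φ P z.1.2 z.2 * ToTree335.pf Φ f₀ ε P z)) z

/-- Law of a tree, with the activity. -/
def treeA (Φ : Space3 → ℝ) (f₀ : PhasePoint → ℝ) (ε T' : ℝ) (P : CTree) :
    Measure (PhasePoint × Par P) := volume.withDensity (treeD Φ f₀ ε T' P)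

instance (Φ : Space3 → ℝ) (f₀ : PhasePoint → ℝ) (ε T' : ℝ) (P : CTree) :
    SFinite (treeA Φ f₀ ε T' P) := by
  unfold treeA
  infer_instance

variable {Φ : Space3 → ℝ} {ε te T' tw : ℝ} {K : ℕ}

theorem measurable_treeD (hΦ : AdmissiblePotential Φ) (hf : Measurable f₀) (ε T' : ℝ)
    (P : CTree) : Measurable (treeD Φ f₀ ε T' P) := by
  have h1 : treeD Φ f₀ ε T' P = {z : PhasePoint × Par P | Valid Φ ε P T' z.1.2 z.2}.indicator
      (fun z => activity ε * (wtM Φ P z.1.2 z.2 * ToTree335.pfM Φ f₀ ε P z)) := by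
    funext z
    unfold treeD
    by_cases hz : Valid Φ ε P T' z.1.2 z.2
    · rw [indicator_of_mem (show z ∈ {z : PhasePoint × Par P | Valid Φ ε P T' z.1.2 z.2} from hz),
        indicator_of_mem (show z ∈ {z : PhasePoint × Par P | Valid Φ ε P T' z.1.2 z.2} from hz),
        wtM_of_adm hz.1, ToTree335.pfM_of_adm hz.1]
    · rw [indicator_of_notMem
        (show z ∉ {z : PhasePoint × Par P | Valid Φ ε P T' z.1.2 z.2} from hz),
        indicator_of_notMem
        (show z ∉ {z : PhasePoint × Par P | Valid Φ ε P T' z.1.2 z.2} from hz)]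
  rw [h1]
  refine Measurable.indicator (Measurable.const_mul (Measurable.mul ?_ ?_) _)
    (measurableSet_valid hΦ ε P T')
  · exact (measurable_wtM hΦ P).comp (measurable_fst.snd.prodMk measurable_snd)
  · exact ToTree335.measurable_pfM hΦ hf P

/-- Admissible pairs (contact tree, pair of lines). -/
def ctOk (Φ : Space3 → ℝ) (ε : ℝ) (K : ℕ) (te : ℝ) (P : CTree) :
    Set ((PhasePoint × Par P) × (Lab × LSt)) :=
  {q | (q.1, q.2.2) ∈ OneC423.ctSet Φ ε te P ∧ OkL K q.2}

theorem measurableSet_ctOk (hΦ : AdmissiblePotential Φ) (ε : ℝ) (K : ℕ) (te : ℝ) (P : CTree) :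
    MeasurableSet (ctOk Φ ε K te P) :=
  ((OneC423.measurableSet_ctSet hΦ ε te P).preimage
    (f := fun q : (PhasePoint × Par P) × (Lab × LSt) => (q.1, q.2.2))
    (measurable_fst.prodMk measurable_snd.snd)).inter
    ((measurableSet_okL K).preimage measurable_snd)

/-- Admissible pairs (contact tree, structure). -/
def ctOkS (Φ : Space3 → ℝ) (ε : ℝ) (K : ℕ) (te : ℝ) (P : CTree) (S : Shp) :
    Set ((PhasePoint × Par P) × S.Θ) := {q | (q.1, S.th ε q.2) ∈ ctOk Φ ε K te P}

/-- Law of the contact tree and the structure. -/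
def osP (Φ : Space3 → ℝ) (f₀ : PhasePoint → ℝ) (te T' : ℝ) (K : ℕ) (P : CTree) (S : Shp) :
    ℝ → Unit → Measure ((PhasePoint × Par P) × S.Θ) := fun ε _ =>
  ((treeA Φ f₀ ε T' P).prod (S.m ε)).restrict (ctOkS Φ ε K te P S)

/-- Exchange of the gas and the structure, with a restriction of the structure. -/
theorem gcE_ind_swap (hf : Measurable f₀) (ε : ℝ) {Θ : Type} [MeasurableSpace Θ] (m : Measure Θ)
    [SFinite m] {A : Set Θ} (hA : MeasurableSet A) {G : (n : ℕ) → Θ × Config n → ℝ≥0∞}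
    (hG : ∀ n, Measurable (G n)) :
    gcE f₀ ε (fun n w => ∫⁻ x, A.indicator (fun x => G n (x, w)) x ∂m) =
      ∫⁻ x, A.indicator (fun x => gcE f₀ ε fun n w => G n (x, w)) x ∂m := by
  have h1 : ∀ n, Measurable fun q : Θ × Config n => A.indicator (fun x => G n (x, q.2)) q.1 := by
    intro n
    have h2 : (fun q : Θ × Config n => A.indicator (fun x => G n (x, q.2)) q.1) =
        (Prod.fst ⁻¹' A).indicator (G n) := by
      funext q
      by_cases hq : q.1 ∈ A
      · rw [indicator_of_mem hq, indicator_of_mem (show q ∈ Prod.fst ⁻¹' A from hq)]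
      · rw [indicator_of_notMem hq, indicator_of_notMem (show q ∉ Prod.fst ⁻¹' A from hq)]
    rw [h2]
    exact (hG n).indicator (measurable_fst hA)
  rw [← lintegral_gcE_swap hf ε m (F := fun n x w => A.indicator (fun x => G n (x, w)) x) h1]
  refine lintegral_congr fun x => ?_
  by_cases hx : x ∈ A
  · simp only [indicator_of_mem hx]
  · simp only [indicator_of_notMem hx]
    exact gcE_zero f₀ ε

/-- Integrand of `OS2` for a fixed tree. -/
def os2I (f₀ : PhasePoint → ℝ) (Φ : Space3 → ℝ) (ε te : ℝ) (ν : Measure (Lab × LSt)) (H : SF2)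
    (P : CTree) (z : PhasePoint × Par P) : ℝ≥0∞ :=
  gcE f₀ ε fun m w => ∫⁻ θ, {θ : Lab × LSt | (z, θ.2) ∈ OneC423.ctSet Φ ε te P}.indicator
    (fun θ => H P z m w θ) θ ∂ν

theorem os2_eq (ν : Measure (Lab × LSt)) (H : SF2) : OS2 Φ f₀ ε te T' ν H =
    activity ε * ∑' P : CTree, ∫⁻ z : PhasePoint × Par P,
      {z : PhasePoint × Par P | Valid Φ ε P T' z.1.2 z.2}.indicator
        (fun z => wt Φ P z.1.2 z.2 * (ToTree335.pf Φ f₀ ε P z * os2I f₀ Φ ε te ν H P z)) z := rfl

section os2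

variable {ι : Type} [Fintype ι] {ν : ℝ → Measure (Lab × LSt)} {S : ι → Shp}

theorem measurableSet_ctOkS (h : Rep ν S) (hΦ : AdmissiblePotential Φ) (hε : 0 < ε) (P : CTree)
    (s : ι) : MeasurableSet (ctOkS Φ ε K te P (S s)) := by
  have h1 : Measurable fun q : (PhasePoint × Par P) × (S s).Θ => (q.1, (S s).th ε q.2) :=
    measurable_fst.prodMk ((h.mth s ε hε).comp measurable_snd)
  exact h1 (measurableSet_ctOk hΦ ε K te P)

/-- Mean over the gas and the structure, fixed tree. -/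
theorem os2I_le (h : Rep ν S) (hΦ : AdmissiblePotential Φ) (hf : Measurable f₀) (hε : 0 < ε)
    {H : SF2} {P : CTree} (hH : ∀ z m w θ, ¬ OkL K θ → H P z m w θ = 0)
    {G : (s : ι) → (n : ℕ) → ((PhasePoint × Par P) × (S s).Θ) × Config n → ℝ≥0∞}
    (hGm : ∀ s n, Measurable (G s n)) {z : PhasePoint × Par P}
    (hG : ∀ s n x (w : Config n), (z, (S s).th ε x) ∈ ctOk Φ ε K te P → w ∈ PairExcluded ε n →
      H P z n w ((S s).th ε x) ≤ G s n ((z, x), w)) :
    os2I f₀ Φ ε te (ν ε) H P z ≤ ∑ s, ∫⁻ x, (ctOkS Φ ε K te P (S s)).indicator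
      (fun q => gcE f₀ ε fun n w => G s n (q, w)) (z, x) ∂((S s).m ε) := by
  have hsf := fun s => h.sf s ε
  have hA : ∀ s, MeasurableSet {x | (z, x) ∈ ctOkS Φ ε K te P (S s)} := fun s =>
    measurable_prodMk_left (measurableSet_ctOkS h hΦ hε P s)
  have hGz : ∀ s n, Measurable fun q : (S s).Θ × Config n => G s n ((z, q.1), q.2) := fun s n =>
    (hGm s n).comp ((measurable_const.prodMk measurable_fst).prodMk measurable_snd)
  have h2 : os2I f₀ Φ ε te (ν ε) H P z ≤ gcE f₀ ε (fun m w => ∑ s, ∫⁻ x,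
      {x | (z, x) ∈ ctOkS Φ ε K te P (S s)}.indicator (fun x => G s m ((z, x), w)) x
        ∂((S s).m ε)) := by
    refine gcE_mono f₀ ε fun m w hw => ?_
    refine (h.le' hε _).trans (Finset.sum_le_sum fun s _ => lintegral_mono fun x => ?_)
    by_cases hL : OkL K ((S s).th ε x)
    · by_cases hc : (z, ((S s).th ε x).2) ∈ OneC423.ctSet Φ ε te P
      · rw [indicator_of_mem (show (S s).th ε x ∈
          {θ : Lab × LSt | (z, θ.2) ∈ OneC423.ctSet Φ ε te P} from hc),
          indicator_of_mem (show x ∈ {x | (z, x) ∈ ctOkS Φ ε K te P (S s)} from ⟨hc, hL⟩)]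
        exact hG s m x w ⟨hc, hL⟩ hw
      · rw [indicator_of_notMem (show (S s).th ε x ∉
          {θ : Lab × LSt | (z, θ.2) ∈ OneC423.ctSet Φ ε te P} from hc)]
        exact zero_le
    · have h4 : {θ : Lab × LSt | (z, θ.2) ∈ OneC423.ctSet Φ ε te P}.indicator
          (fun θ => H P z m w θ) ((S s).th ε x) = 0 :=
        indicator_apply_eq_zero.2 fun _ => hH z m w _ hL
      rw [h4]
      exact zero_le
  refine h2.trans (le_of_eq ?_)
  have h3 : ∀ s n, Measurable fun w : Config n => ∫⁻ x,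
      {x | (z, x) ∈ ctOkS Φ ε K te P (S s)}.indicator (fun x => G s n ((z, x), w)) x
        ∂((S s).m ε) := by
    intro s n
    have h5 : Measurable fun q : Config n × (S s).Θ =>
        {x | (z, x) ∈ ctOkS Φ ε K te P (S s)}.indicator (fun x => G s n ((z, x), q.1)) q.2 := by
      have h6 : (fun q : Config n × (S s).Θ =>
          {x | (z, x) ∈ ctOkS Φ ε K te P (S s)}.indicator (fun x => G s n ((z, x), q.1)) q.2) =
          (Prod.snd ⁻¹' {x | (z, x) ∈ ctOkS Φ ε K te P (S s)}).indicator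
            (fun q => G s n ((z, q.2), q.1)) := by
        funext q
        by_cases hq : (z, q.2) ∈ ctOkS Φ ε K te P (S s)
        · rw [indicator_of_mem (show q.2 ∈ {x | (z, x) ∈ ctOkS Φ ε K te P (S s)} from hq),
            indicator_of_mem (show q ∈ Prod.snd ⁻¹' {x | (z, x) ∈ ctOkS Φ ε K te P (S s)}
              from hq)]
        · rw [indicator_of_notMem (show q.2 ∉ {x | (z, x) ∈ ctOkS Φ ε K te P (S s)} from hq),
            indicator_of_notMem (show q ∉ Prod.snd ⁻¹' {x | (z, x) ∈ ctOkS Φ ε K te P (S s)}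
              from hq)]
      rw [h6]
      exact ((hGz s n).comp measurable_swap).indicator (measurable_snd (hA s))
    exact h5.lintegral_prod_right'
  rw [gcE_finset_sum hf ε Finset.univ fun s _ n => h3 s n]
  refine Finset.sum_congr rfl fun s _ => ?_
  rw [gcE_ind_swap hf ε ((S s).m ε) (hA s) (G := fun n q => G s n ((z, q.1), q.2)) (hGz s)]
  rfl

/-- **The structure integral `OS2` is dominated by the laws `osP`.** -/
theorem os2_le (h : Rep ν S) (hΦ : AdmissiblePotential Φ) (hf : Measurable f₀) (hε : 0 < ε)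
    {H : SF2} (hH : ∀ P z m w θ, ¬ (P.leaves ≤ K ∧ OkL K θ) → H P z m w θ = 0)
    {G : (P : CTree) → (s : ι) → (n : ℕ) → ((PhasePoint × Par P) × (S s).Θ) × Config n → ℝ≥0∞}
    (hGm : ∀ P s n, P.leaves ≤ K → Measurable (G P s n))
    (hG : ∀ P s n z x (w : Config n), P.leaves ≤ K → Valid Φ ε P T' z.1.2 z.2 →
      (z, (S s).th ε x) ∈ ctOk Φ ε K te P → w ∈ PairExcluded ε n →
      H P z n w ((S s).th ε x) ≤ G P s n ((z, x), w)) :
    OS2 Φ f₀ ε te T' (ν ε) H ≤ ∑ P ∈ GIVStep383.trees K, ∑ s,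
      ∫⁻ q, gcE f₀ ε (fun n w => G P s n (q, w)) ∂(osP Φ f₀ te T' K P (S s) ε ()) := by
  have hsf := fun s => h.sf s ε
  rw [os2_eq]
  -- only the trees of bounded size
  have h0 : ∀ P ∉ GIVStep383.trees K, ∫⁻ z : PhasePoint × Par P,
      {z : PhasePoint × Par P | Valid Φ ε P T' z.1.2 z.2}.indicator
      (fun z => wt Φ P z.1.2 z.2 * (ToTree335.pf Φ f₀ ε P z *
        os2I f₀ Φ ε te (ν ε) H P z)) z = 0 := by
    intro P hP
    have hP' : ¬ P.leaves ≤ K := fun h' => hP (GIVStep383.mem_trees.2 h')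
    have h1 : ∀ z : PhasePoint × Par P, os2I f₀ Φ ε te (ν ε) H P z = 0 := by
      intro z
      have h2 : ∀ (m : ℕ) (w : Config m), ∫⁻ θ,
          {θ : Lab × LSt | (z, θ.2) ∈ OneC423.ctSet Φ ε te P}.indicator
          (fun θ => H P z m w θ) θ ∂(ν ε) = 0 := by
        intro m w
        have h3 : (fun θ => H P z m w θ) = fun _ => 0 := by
          funext θ
          exact hH P z m w θ fun h' => hP' h'.1
        rw [h3]
        simp
      unfold os2I
      simp only [h2]
      exact gcE_zero f₀ ε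
    simp only [h1, mul_zero, indicator_zero, lintegral_zero]
  rw [tsum_eq_sum (s := GIVStep383.trees K) h0, Finset.mul_sum]
  refine Finset.sum_le_sum fun P hP => ?_
  have hPK : P.leaves ≤ K := GIVStep383.mem_trees.1 hP
  -- mean over the gas
  set g : (s : ι) → (PhasePoint × Par P) × (S s).Θ → ℝ≥0∞ := fun s q =>
    gcE f₀ ε fun n w => G P s n (q, w) with hg
  have hgm : ∀ s, Measurable (g s) := fun s =>
    MeasE416.measurable_gcE_of hf ε (F := fun n q w => G P s n (q, w)) fun n => hGm P s n hPK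
  have hcm := fun s => measurableSet_ctOkS (K := K) (te := te) h hΦ hε P s
  set R : PhasePoint × Par P → ℝ≥0∞ := fun z => ∑ s, ∫⁻ x,
    (ctOkS Φ ε K te P (S s)).indicator (g s) (z, x) ∂((S s).m ε) with hR
  have hkey : ∀ z : PhasePoint × Par P, Valid Φ ε P T' z.1.2 z.2 →
      os2I f₀ Φ ε te (ν ε) H P z ≤ R z := fun z hz =>
    os2I_le h hΦ hf hε (fun z m w θ hθ => hH P z m w θ fun h' => hθ h'.2)
      (fun s n => hGm P s n hPK) fun s n x w hc hw => hG P s n z x w hPK hz hc hw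
  -- the tree
  have hD := measurable_treeD hΦ hf ε T' P
  have hIm : ∀ s, Measurable ((ctOkS Φ ε K te P (S s)).indicator (g s)) := fun s =>
    (hgm s).indicator (hcm s)
  have hIs : ∀ s, Measurable fun z : PhasePoint × Par P =>
      ∫⁻ x, (ctOkS Φ ε K te P (S s)).indicator (g s) (z, x) ∂((S s).m ε) := fun s =>
    (hIm s).lintegral_prod_right'
  have hRm : Measurable R := Finset.measurable_sum _ fun s _ => hIs s
  have h7 : activity ε * ∫⁻ z : PhasePoint × Par P,
      {z : PhasePoint × Par P | Valid Φ ε P T' z.1.2 z.2}.indicator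
      (fun z => wt Φ P z.1.2 z.2 * (ToTree335.pf Φ f₀ ε P z *
        os2I f₀ Φ ε te (ν ε) H P z)) z ≤ ∫⁻ z, treeD Φ f₀ ε T' P z * R z := by
    rw [← lintegral_const_mul' _ _ (activity_ne_top ε)]
    refine lintegral_mono fun z => ?_
    unfold treeD
    by_cases hz : Valid Φ ε P T' z.1.2 z.2
    · rw [indicator_of_mem
        (show z ∈ {z : PhasePoint × Par P | Valid Φ ε P T' z.1.2 z.2} from hz),
        indicator_of_mem
        (show z ∈ {z : PhasePoint × Par P | Valid Φ ε P T' z.1.2 z.2} from hz)]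
      calc activity ε * (wt Φ P z.1.2 z.2 * (ToTree335.pf Φ f₀ ε P z *
            os2I f₀ Φ ε te (ν ε) H P z))
          = activity ε * (wt Φ P z.1.2 z.2 * ToTree335.pf Φ f₀ ε P z) *
            os2I f₀ Φ ε te (ν ε) H P z := by ring
        _ ≤ _ := mul_le_mul_right (hkey z hz) _
    · rw [indicator_of_notMem
        (show z ∉ {z : PhasePoint × Par P | Valid Φ ε P T' z.1.2 z.2} from hz), mul_zero]
      exact zero_le
  refine h7.trans (le_of_eq ?_)
  have h8 : ∫⁻ z, treeD Φ f₀ ε T' P z * R z = ∫⁻ z, R z ∂(treeA Φ f₀ ε T' P) := by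
    unfold treeA
    rw [lintegral_withDensity_eq_lintegral_mul _ hD hRm]
    rfl
  rw [h8, hR, lintegral_finsetSum _ fun s _ => hIs s]
  refine Finset.sum_congr rfl fun s _ => ?_
  have h9 := lintegral_prod (μ := treeA Φ f₀ ε T' P) (ν := (S s).m ε)
    ((ctOkS Φ ε K te P (S s)).indicator (g s)) (hIm s).aemeasurable
  rw [← h9, lintegral_indicator (hcm s)]
  rfl

end os2

/-- **Conversion for the structure integral `OS2`.** -/
theorem null_os2 (hΦ : AdmissiblePotential Φ) (hf : Measurable f₀) {ι : ℕ → Type}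
    [∀ K, Fintype (ι K)] {ν : ℕ → ℝ → Measure (Lab × LSt)} {S : ∀ K, ι K → Shp}
    (h : ∀ K, Rep (ν K) (S K)) {bd : ℕ → ℝ → SF2}
    (hbd : ∀ K P s, P.leaves ≤ K → FNull f₀ (osP Φ f₀ te T' K P (S K s))
      (fun ε _ n q w => if Valid Φ ε P T' q.1.1.2 q.1.2 ∧ q ∈ ctOkS Φ ε K te P (S K s) then
        bd K ε P q.1 n w ((S K s).th ε q.2) else 0)) :
    Null fun K ε => OS2 Φ f₀ ε te T' (ν K ε) fun P z m w θ =>
      uG Φ ε tw K P z w θ * bd K ε P z m w θ := by
  intro K δ hδ
  set U : Finset (CTree × ι K) := GIVStep383.trees K ×ˢ Finset.univ with hU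
  have hδ' : 0 < ENNReal.ofReal δ := ENNReal.ofReal_pos.2 hδ
  have hex : ∀ a : CTree × ι K, ∃ e : ℝ, 0 < e ∧ (a.1.leaves ≤ K → ∀ ε : ℝ, 0 < ε → ε < e →
      ∃ G : (n : ℕ) → ((PhasePoint × Par a.1) × (S K a.2).Θ) × Config n → ℝ≥0∞,
        (∀ n, Measurable (G n)) ∧ (∀ n q (w : Config n), w ∈ PairExcluded ε n →
          (if Valid Φ ε a.1 T' q.1.1.2 q.1.2 ∧ q ∈ ctOkS Φ ε K te a.1 (S K a.2) then
            bd K ε a.1 q.1 n w ((S K a.2).th ε q.2) else 0) ≤ G n (q, w)) ∧
        ∫⁻ q, gcE f₀ ε (fun n w => G n (q, w)) ∂(osP Φ f₀ te T' K a.1 (S K a.2) ε ()) ≤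
          ENNReal.ofReal δ / (U.card + 1)) := by
    rintro ⟨P, s⟩
    by_cases hP : P.leaves ≤ K
    · obtain ⟨e, he, h1⟩ := hbd K P s hP _ (div_pos' U hδ')
      exact ⟨e, he, fun _ ε hε hlt => h1 ε hε hlt ()⟩
    · exact ⟨1, one_pos, fun h' => absurd h' hP⟩
  choose e he hG using hex
  obtain ⟨r, hr, hre⟩ := exists_pos_le_fin U e fun a _ => he a
  refine ⟨r, hr, fun ε hε hlt => ?_⟩
  have hG' : ∀ a : CTree × ι K,
      ∃ G : (n : ℕ) → ((PhasePoint × Par a.1) × (S K a.2).Θ) × Config n → ℝ≥0∞,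
        a.1.leaves ≤ K → (∀ n, Measurable (G n)) ∧
        (∀ n q (w : Config n), w ∈ PairExcluded ε n →
          (if Valid Φ ε a.1 T' q.1.1.2 q.1.2 ∧ q ∈ ctOkS Φ ε K te a.1 (S K a.2) then
            bd K ε a.1 q.1 n w ((S K a.2).th ε q.2) else 0) ≤ G n (q, w)) ∧
        ∫⁻ q, gcE f₀ ε (fun n w => G n (q, w)) ∂(osP Φ f₀ te T' K a.1 (S K a.2) ε ()) ≤
          ENNReal.ofReal δ / (U.card + 1) := by
    intro a
    by_cases hP : a.1.leaves ≤ K
    · have ha : a ∈ U := by
        rw [hU, Finset.mem_product]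
        exact ⟨GIVStep383.mem_trees.2 hP, Finset.mem_univ _⟩
      obtain ⟨G, h1⟩ := hG a hP ε hε (hlt.trans_le (hre a ha))
      exact ⟨G, fun _ => h1⟩
    · exact ⟨fun _ _ => 0, fun h' => absurd h' hP⟩
  choose G hG' using hG'
  refine (os2_le (K := K) (G := fun P s n => G (P, s) n) (h K) hΦ hf hε
    (fun P z m w θ h1 => ?_) (fun P s n hP => (hG' (P, s) hP).1 n)
    fun P s n z x w hP hz hc hw => ?_).trans ?_
  · have h2 : uG Φ ε tw K P z w θ = 0 := if_neg fun h' => h1 ⟨h'.2, h'.1⟩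
    rw [h2, zero_mul]
  · have h3 := (hG' (P, s) hP).2.1 n (z, x) w hw
    rw [if_pos ⟨hz, hc⟩] at h3
    refine le_trans ?_ h3
    calc uG Φ ε tw K P z w ((S K s).th ε x) * bd K ε P z n w ((S K s).th ε x)
        ≤ 1 * bd K ε P z n w ((S K s).th ε x) := by
          gcongr
          exact OS2Calc495.uG_le_one
      _ = _ := one_mul _
  · calc ∑ P ∈ GIVStep383.trees K, ∑ s, ∫⁻ q, gcE f₀ ε (fun n w => G (P, s) n (q, w))
          ∂(osP Φ f₀ te T' K P (S K s) ε ())
        = ∑ a ∈ U, ∫⁻ q, gcE f₀ ε (fun n w => G a n (q, w))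
          ∂(osP Φ f₀ te T' K a.1 (S K a.2) ε ()) := by
          rw [hU, Finset.sum_product]
      _ ≤ ∑ _a ∈ U, ENNReal.ofReal δ / (U.card + 1) := by
          refine Finset.sum_le_sum fun a ha => ?_
          rw [hU, Finset.mem_product] at ha
          exact (hG' a (GIVStep383.mem_trees.1 ha.1)).2.2
      _ ≤ ENNReal.ofReal δ := sum_div_le U _

/-! ## Almost sure facts -/

/-- Almost sure facts give null events. -/
theorem gNull_of_ae (hf : Measurable f₀) {I Θ : Type} [MeasurableSpace Θ]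
    {m : ℝ → I → Measure Θ} (hm : ∀ ε i, SFinite (m ε i))
    {E : ℝ → I → (n : ℕ) → Θ → Config n → Prop}
    (h : ∀ ε, 0 < ε → ∀ i n, ∀ᵐ q : Θ × Config n ∂((m ε i).prod (volume : Measure (Config n))),
      q.2 ∈ PairExcluded ε n → ¬ E ε i n q.1 q.2) : GNull f₀ m E := by
  intro δ _
  refine ⟨1, one_pos, fun ε hε _ i => ?_⟩
  have := hm ε i
  set B : (n : ℕ) → Set (Θ × Config n) := fun n =>
    {q | q.2 ∈ PairExcluded ε n ∧ E ε i n q.1 q.2} with hB
  have h0 : ∀ n, ((m ε i).prod (volume : Measure (Config n))) (B n) = 0 := by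
    intro n
    have h1 := h ε hε i n
    rw [ae_iff] at h1
    convert h1 using 2
    ext q
    simp [hB, Classical.not_imp]
  set M : (n : ℕ) → Set (Θ × Config n) := fun n =>
    toMeasurable ((m ε i).prod (volume : Measure (Config n))) (B n) with hM
  have hMm : ∀ n, MeasurableSet (M n) := fun n => measurableSet_toMeasurable _ _
  have hM0 : ∀ n, ((m ε i).prod (volume : Measure (Config n))) (M n) = 0 := fun n => by
    rw [hM]
    simp only
    rw [measure_toMeasurable]
    exact h0 n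
  refine ⟨fun n q => (M n).indicator 1 q, fun n => measurable_one.indicator (hMm n), ?_, ?_⟩
  · intro n θ w hw hE
    have h2 : (θ, w) ∈ M n := subset_toMeasurable _ _ (show (θ, w) ∈ B n from ⟨hw, hE⟩)
    simp only
    rw [indicator_of_mem h2]
    exact le_rfl
  · have hIm : ∀ n, Measurable ((M n).indicator (1 : Θ × Config n → ℝ≥0∞)) := fun n =>
      measurable_one.indicator (hMm n)
    rw [lintegral_gcE_swap hf ε (m ε i) (F := fun n θ w => (M n).indicator 1 (θ, w)) hIm]
    refine le_of_eq_of_le ?_ bot_le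
    have h3 : ∀ n, ∀ᵐ w : Config n, ∫⁻ θ, (M n).indicator (1 : Θ × Config n → ℝ≥0∞) (θ, w)
        ∂(m ε i) = 0 := by
      intro n
      have h4 : ∫⁻ q, (M n).indicator (1 : Θ × Config n → ℝ≥0∞) q
          ∂((m ε i).prod (volume : Measure (Config n))) = 0 := by
        rw [lintegral_indicator_one (hMm n)]
        exact hM0 n
      rw [lintegral_prod_symm _ (hIm n).aemeasurable] at h4
      exact (lintegral_eq_zero_iff (hIm n).lintegral_prod_left').1 h4
    unfold gcE
    have h5 : ∀ n, ∫⁻ Z : Config n, gcWeight f₀ ε n Z *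
        ∫⁻ θ, (M n).indicator (1 : Θ × Config n → ℝ≥0∞) (θ, Z) ∂(m ε i) = 0 := by
      intro n
      refine lintegral_eq_zero_of_ae_eq_zero ?_
      filter_upwards [h3 n] with Z hZ
      rw [hZ, mul_zero]
      rfl
    simp only [h5, mul_zero, tsum_zero]
    rfl

end Crest.Agent.R122.PairRep581

end
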