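import Crest.Agent.R122.OkInd_942
import Crest.Agent.R122.PairRep_581
import Crest.Agent.R122.R6Tree_974

/-!
# Row 122 (helper942): the world facts of a test line under the laws of structures

* `DAc S te'` : the law of the first line of the structures is absolutely continuous.
* `ae_okX6_osP` : for almost every tree, structure, test line and gas, the facts `OkX6` and `ok₁`.
* `gNull_okX6`, `gNull_ok1` : the same as null events.
-/

set_option autoImplicit false
set_option linter.unusedSectionVars false

open MeasureTheory Set Filter Topology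
open scoped ENNReal
open Crest.AnalysisR.Kinetic
open Crest.Agent.R122.GC311 Crest.Agent.R122.EDefs602
open Crest.Agent.R122.Kin796 Crest.Agent.R122.Kin796.CTree Crest.Agent.R122.Disc416
open Crest.Agent.R122.Tree674 Crest.Agent.R122.TreeLines335
open Crest.Agent.R122.E6Hyp879 (withD)
open Crest.Agent.R122.InEq2T (PerpT)
open Crest.Agent.R122.LKok416 (OkX6)
open Crest.Agent.R122.PairD292
open Crest.Agent.R122.Gate424 Crest.Agent.R122.Gate973
open Crest.Agent.R122.PairRep581

noncomputable section

open scoped Classical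

namespace Crest.Agent.R122.OkInd942

variable {Φ : Space3 → ℝ} {f₀ : PhasePoint → ℝ} {ε te T' : ℝ} {K : ℕ} {P : CTree} {S : Shp}

/-- The law of the first line of the structures is absolutely continuous (horizon `te'`). -/
def DAc (S : Shp) (te' : ℝ) : Prop := ∀ ε, 0 < ε →
  Measure.QuasiMeasurePreserving (fun x => dL (S.th ε x)) (S.m ε) (lineV te')

/-- The law of a contact tree and a structure is absolutely continuous. -/
theorem osP_ac [SFinite (S.m ε)] : osP Φ f₀ te T' K P S ε () ≪
    (volume : Measure (PhasePoint × Par P)).prod (S.m ε) := by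
  have h1 : treeA Φ f₀ ε T' P ≪ (volume : Measure (PhasePoint × Par P)) :=
    withDensity_absolutelyContinuous _ _
  exact Measure.restrict_le_self.absolutelyContinuous.trans (h1.prod Measure.AbsolutelyContinuous.rfl)

instance sf_lineV (te' : ℝ) : SFinite (lineV te') := by unfold lineV; infer_instance

/-- Transport: tree, first line of the structure, test line, gas. -/
theorem qmp_osP (hS : SFinite (S.m ε)) (hε : 0 < ε) {te' : ℝ} (hd : DAc S te') (n : ℕ)
    {γ : ℝ → ℝ} {ρ : ℝ≥0∞} {Km : ℕ} {tx : ℝ} :
    Measure.QuasiMeasurePreserving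
      (fun p : (((PhasePoint × Par P) × S.Θ) × ML) × Config n =>
        (((p.1.1.1, p.2), p.1.2), dL (S.th ε p.1.1.2)))
      (((osP Φ f₀ te T' K P S ε ()).prod (lineM γ ρ Km tx)).prod (volume : Measure (Config n)))
      (((volume : Measure ((PhasePoint × Par P) × Config n)).prod (lineV tx)).prod
        (lineV te')) := by
  have hac : lineM γ ρ Km tx ≪ lineV tx := withDensity_absolutelyContinuous _ _
  have : SFinite (lineM γ ρ Km tx) := by unfold lineM; infer_instance
  -- the law
  have h1 : ((osP Φ f₀ te T' K P S ε ()).prod (lineM γ ρ Km tx)).prod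
      (volume : Measure (Config n)) ≪
      (((volume : Measure (PhasePoint × Par P)).prod (S.m ε)).prod (lineV tx)).prod
        (volume : Measure (Config n)) :=
    ((osP_ac (Φ := Φ) (f₀ := f₀) (te := te) (T' := T') (K := K)).prod hac).prod
      Measure.AbsolutelyContinuous.rfl
  -- the first line
  have h2 : Measure.QuasiMeasurePreserving
      (fun p : (((PhasePoint × Par P) × S.Θ) × ML) × Config n =>
        (((p.1.1.1, dL (S.th ε p.1.1.2)), p.1.2), p.2))
      ((((volume : Measure (PhasePoint × Par P)).prod (S.m ε)).prod (lineV tx)).prod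
        (volume : Measure (Config n)))
      ((((volume : Measure (PhasePoint × Par P)).prod (lineV te')).prod (lineV tx)).prod
        (volume : Measure (Config n))) :=
    QuasiMeasurePreserving.prodMap (QuasiMeasurePreserving.prodMap
      (QuasiMeasurePreserving.prodMap (Measure.QuasiMeasurePreserving.id _) (hd ε hε))
      (Measure.QuasiMeasurePreserving.id _)) (Measure.QuasiMeasurePreserving.id _)
  -- the order
  have h3 : MeasurePreserving
      (fun p : (((PhasePoint × Par P) × ML) × ML) × Config n =>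
        (((p.1.1.1, p.2), p.1.2), p.1.1.2))
      ((((volume : Measure (PhasePoint × Par P)).prod (lineV te')).prod (lineV tx)).prod
        (volume : Measure (Config n)))
      ((((volume : Measure (PhasePoint × Par P)).prod (volume : Measure (Config n))).prod
        (lineV tx)).prod (lineV te')) := by
    have m1 := (mp_swapR (volume : Measure (PhasePoint × Par P)) (lineV te') (lineV tx)).prod
      (MeasurePreserving.id (volume : Measure (Config n)))
    have m2 := mp_swapR ((volume : Measure (PhasePoint × Par P)).prod (lineV tx)) (lineV te')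
      (volume : Measure (Config n))
    have m3 := (mp_swapR (volume : Measure (PhasePoint × Par P)) (lineV tx)
      (volume : Measure (Config n))).prod (MeasurePreserving.id (lineV te'))
    exact m3.comp (m2.comp m1)
  exact (h3.quasiMeasurePreserving.comp h2).mono_left h1

/-- **Tree, structure, test line, gas**: the world facts. -/
theorem ae_okX6_osP (hΦ : AdmissiblePotential Φ) (hS : SFinite (S.m ε)) (hε : 0 < ε) {te' : ℝ}
    (hd : DAc S te') (hT : 0 ≤ T') (n : ℕ) {γ : ℝ → ℝ} {ρ : ℝ≥0∞} {Km : ℕ} {tx : ℝ} :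
    ∀ᵐ p ∂(((osP Φ f₀ te T' K P S ε ()).prod (lineM γ ρ Km tx)).prod
      (volume : Measure (Config n))), p.2 ∈ PairExcluded ε n →
      Valid Φ ε P T' p.1.1.1.1.2 p.1.1.1.2 → Sep Φ ε P T' p.1.1.1.1 p.1.1.1.2 →
      PerpT Φ ε P p.1.1.1 p.2 →
        MW.OkFam Φ ε (MW.cfg p.2) (withD (lineML Φ ε P p.1.1.1) (dL (S.th ε p.1.1.2))) ∧
        OkX6 Φ ε (MW.cfg p.2) P p.1.1.1 (dL (S.th ε p.1.1.2)) p.1.2 := by
  filter_upwards [(qmp_osP (Φ := Φ) (f₀ := f₀) (te := te) (T' := T') (K := K) (P := P)
    (γ := γ) (ρ := ρ) (Km := Km) (tx := tx) hS hε hd n).ae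
      (ae_okX6 hΦ hε P hT n tx te')] with p hp hw hv hs hpp
  exact hp hv hs hw hpp

/-- Transport without test line. -/
theorem qmp_osP₁ (hS : SFinite (S.m ε)) (hε : 0 < ε) {te' : ℝ} (hd : DAc S te') (n : ℕ) :
    Measure.QuasiMeasurePreserving
      (fun p : ((PhasePoint × Par P) × S.Θ) × Config n =>
        ((p.1.1, p.2), dL (S.th ε p.1.2)))
      ((osP Φ f₀ te T' K P S ε ()).prod (volume : Measure (Config n)))
      ((volume : Measure ((PhasePoint × Par P) × Config n)).prod (lineV te')) := by
  have h1 : (osP Φ f₀ te T' K P S ε ()).prod (volume : Measure (Config n)) ≪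
      ((volume : Measure (PhasePoint × Par P)).prod (S.m ε)).prod
        (volume : Measure (Config n)) :=
    (osP_ac (Φ := Φ) (f₀ := f₀) (te := te) (T' := T') (K := K)).prod
      Measure.AbsolutelyContinuous.rfl
  have h2 : Measure.QuasiMeasurePreserving
      (fun p : ((PhasePoint × Par P) × S.Θ) × Config n =>
        ((p.1.1, dL (S.th ε p.1.2)), p.2))
      (((volume : Measure (PhasePoint × Par P)).prod (S.m ε)).prod
        (volume : Measure (Config n)))
      (((volume : Measure (PhasePoint × Par P)).prod (lineV te')).prod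
        (volume : Measure (Config n))) :=
    QuasiMeasurePreserving.prodMap
      (QuasiMeasurePreserving.prodMap (Measure.QuasiMeasurePreserving.id _) (hd ε hε))
      (Measure.QuasiMeasurePreserving.id _)
  have h3 := mp_swapR (volume : Measure (PhasePoint × Par P)) (lineV te')
    (volume : Measure (Config n))
  exact (h3.quasiMeasurePreserving.comp h2).mono_left h1

/-- **Tree, structure, gas**: `ok₁`. -/
theorem ae_ok1_osP (hΦ : AdmissiblePotential Φ) (hS : SFinite (S.m ε)) (hε : 0 < ε) {te' : ℝ}
    (hd : DAc S te') (hT : 0 ≤ T') (n : ℕ) :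
    ∀ᵐ p ∂((osP Φ f₀ te T' K P S ε ()).prod (volume : Measure (Config n))),
      p.2 ∈ PairExcluded ε n → Valid Φ ε P T' p.1.1.1.2 p.1.1.2 →
      Sep Φ ε P T' p.1.1.1 p.1.1.2 → PerpT Φ ε P p.1.1 p.2 →
        MW.OkFam Φ ε (MW.cfg p.2) (withD (lineML Φ ε P p.1.1) (dL (S.th ε p.1.2))) := by
  filter_upwards [(qmp_osP₁ (Φ := Φ) (f₀ := f₀) (te := te) (T' := T') (K := K) (P := P)
    hS hε hd n).ae (AllOk663.ae_goodX_lineV hΦ hε P hT n te')] with p hp hw hv hs hpp
  exact (hp hv hs hw hpp).1

/-! ### Null events -/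

/-- The guards of the world facts hold for real structures. -/
theorem perpT_of_real6 {z : PhasePoint × Par P} {m : ℕ} {w : Config m} {θ : Pair292.Lab × Boost969.LSt}
    (h : Real6 Φ ε K te T' P z w θ) : PerpT Φ ε P z w := by
  intro x i
  rw [linesM_of_adm ε h.valid.1]
  have h1 := h.perp (Relabel674.eP P x) i
  rwa [R6Tree974.cfT_apply] at h1

/-- **Null event: the world facts of a test line** (any event which contains `Real6`). -/
theorem gNull_okX6 (hΦ : AdmissiblePotential Φ) (hf : Measurable f₀)
    (hS : ∀ ε, SFinite (S.m ε)) {te' : ℝ} (hd : DAc S te') (hT : 0 ≤ T')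
    {γ : ℝ → ℝ} {ρ : ℝ≥0∞} {Km K₁ : ℕ} {tx te₁ : ℝ} :
    GNull f₀ (fun ε i => (osP Φ f₀ te T' K P S ε i).prod (lineM γ ρ Km tx))
      (fun ε _ _ q w => Real6 Φ ε K₁ te₁ T' P q.1.1 w (S.th ε q.1.2) ∧
        ¬ OkX6 Φ ε (MW.cfg w) P q.1.1 (dL (S.th ε q.1.2)) q.2) := by
  refine PairRep581.gNull_of_ae hf (fun ε i => ?_) fun ε hε i n => ?_
  · have h1 := hS ε
    have : SFinite (lineM γ ρ Km tx) := by unfold lineM; infer_instance
    have : SFinite (osP Φ f₀ te T' K P S ε i) := by unfold osP; infer_instance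
    infer_instance
  · filter_upwards [ae_okX6_osP (Φ := Φ) (f₀ := f₀) (te := te) (T' := T') (K := K) (P := P)
      (γ := γ) (ρ := ρ) (Km := Km) (tx := tx) hΦ (hS ε) hε hd hT n] with p hp hw hE
    exact hE.2 (hp hw hE.1.valid hE.1.sep (perpT_of_real6 hE.1)).2

/-- **Null event: `ok₁`**. -/
theorem gNull_ok1 (hΦ : AdmissiblePotential Φ) (hf : Measurable f₀)
    (hS : ∀ ε, SFinite (S.m ε)) {te' : ℝ} (hd : DAc S te') (hT : 0 ≤ T') {K₁ : ℕ} {te₁ : ℝ} :
    GNull f₀ (osP Φ f₀ te T' K P S)
      (fun ε _ _ q w => Real6 Φ ε K₁ te₁ T' P q.1 w (S.th ε q.2) ∧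
        ¬ MW.OkFam Φ ε (MW.cfg w) (withD (lineML Φ ε P q.1) (dL (S.th ε q.2)))) := by
  refine PairRep581.gNull_of_ae hf (fun ε i => ?_) fun ε hε i n => ?_
  · have h1 := hS ε
    unfold osP
    infer_instance
  · filter_upwards [ae_ok1_osP (Φ := Φ) (f₀ := f₀) (te := te) (T' := T') (K := K) (P := P)
      hΦ (hS ε) hε hd hT n] with p hp hw hE
    exact hE.2 (hp hw hE.1.valid hE.1.sep (perpT_of_real6 hE.1))

end Crest.Agent.R122.OkInd942

end
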