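import Mathlib
import Crest.Prelude.Def_KineticLimit

/-!
# Isotropic laws and Lipschitz curves: null sets (row 122, block D3, helper735)

No quantitative estimates: only null sets, for s-finite measures.

* `volume_image_null`, `volume_image_null'`: images of sets of dimension `< 3` under (locally)
  Lipschitz maps to `Space3` are Lebesgue null.
* `ray_null`, `ae_ray` (I-b): for a Lipschitz curve `c`, a.e. `g : Space3` has
  `c s + (s - t) • g ≠ 0` for all `s ∈ Icc a b`, `s ≠ t`.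
* `Eqv μ f`: every linear isometry `O` of `Space3` lifts to a `μ`-preserving `T` with
  `f ∘ T = O ∘ f` a.e.
* `Eqv.ae_ne` (I-a): `f ≠ a` a.e. for `a ≠ 0`.
* `Eqv.ae_ne_curve`, `Eqv.ae_ne_ray`: a.e. `ω` with `f ω ≠ 0` is on no given Lipschitz curve /
  satisfies `c s + (s - t) • f ω ≠ 0` for `s ≠ t`.
* `Act Ω μ` measure spaces with a measure preserving family of maps indexed by the isometries;
  closed under products and powers (`Act.space`, `Act.prod`, `Act.pi`); `Act.Equi` equivariant maps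
  with their algebra.
-/

set_option autoImplicit false

open MeasureTheory Set Filter Topology Metric
open scoped ENNReal NNReal
open Crest.AnalysisR.Kinetic

noncomputable section

namespace Crest.Agent.R122.Iso735

/-! ### Images of small dimension -/

theorem volume_null_of_dimH {s : Set Space3} (h : dimH s < 3) : volume s = 0 := by
  have h1 : (volume : Measure Space3) ≪ μH[((3 : ℝ≥0) : ℝ)] := by
    have e : ((3 : ℝ≥0) : ℝ) = (Module.finrank ℝ Space3 : ℝ) := by simp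
    rw [e]
    exact Measure.absolutelyContinuous_isAddHaarMeasure _ _
  exact measure_zero_of_dimH_lt h1 (by simpa using h)

/-- Images of sets of dimension `< 3` under locally Lipschitz maps are null. -/
theorem volume_image_null {X : Type*} [EMetricSpace X] [SecondCountableTopology X] {S : Set X}
    (hS : dimH S < 3) {F : X → Space3}
    (hF : ∀ x ∈ S, ∃ C : ℝ≥0, ∃ t ∈ 𝓝[S] x, LipschitzOnWith C F t) : volume (F '' S) = 0 :=
  volume_null_of_dimH ((dimH_image_le_of_locally_lipschitzOn hF).trans_lt hS)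

theorem dimH_real_lt (S : Set ℝ) : dimH S < 3 := by
  refine (dimH_mono (subset_univ S)).trans_lt ?_
  rw [Real.dimH_univ]
  norm_num

theorem dimH_real2_lt (S : Set (ℝ × ℝ)) : dimH S < 3 := by
  refine (dimH_mono (subset_univ S)).trans_lt ?_
  rw [Real.dimH_univ_eq_finrank]
  simp only [Module.finrank_prod, Module.finrank_self]
  norm_num

/-- locally Lipschitz on `S` -/
def LocLip (c : ℝ → Space3) (S : Set ℝ) : Prop :=
  ∀ s ∈ S, ∃ C : ℝ≥0, ∃ t ∈ 𝓝[S] s, LipschitzOnWith C c t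

theorem LocLip.of_lipschitz {c : ℝ → Space3} {S : Set ℝ} {C : ℝ≥0} (h : LipschitzOnWith C c S) :
    LocLip c S := fun _ _ => ⟨C, S, self_mem_nhdsWithin, h⟩

theorem LocLip.mono {c : ℝ → Space3} {S S' : Set ℝ} (h : LocLip c S) (hS : S' ⊆ S) :
    LocLip c S' := fun s hs => by
  obtain ⟨C, t, ht, hc⟩ := h s (hS hs)
  exact ⟨C, t, nhdsWithin_mono _ hS ht, hc⟩

theorem LocLip.continuousOn {c : ℝ → Space3} {S : Set ℝ} (h : LocLip c S) : ContinuousOn c S := by
  intro s hs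
  obtain ⟨C, t, ht, hc⟩ := h s hs
  have h1 : ContinuousWithinAt c t s := hc.continuousOn s (mem_of_mem_nhdsWithin hs ht)
  exact h1.mono_of_mem_nhdsWithin ht

theorem curve_null {c : ℝ → Space3} {S : Set ℝ} (h : LocLip c S) : volume (c '' S) = 0 :=
  volume_image_null (dimH_real_lt S) h

/-- products of bounded locally Lipschitz maps (scalar times vector), in the form needed below -/
theorem lipschitzOn_smul_const {t : Set (ℝ × ℝ)} {c : ℝ → Space3} {C : ℝ≥0} {M N : ℝ}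
    (hM : ∀ p ∈ t, |p.1| ≤ M) (hN : ∀ p ∈ t, ‖c p.2‖ ≤ N)
    (hc : ∀ p ∈ t, ∀ q ∈ t, dist (c p.2) (c q.2) ≤ C * dist p.2 q.2) :
    ∃ C' : ℝ≥0, LipschitzOnWith C' (fun p : ℝ × ℝ => p.1 • c p.2) t := by
  refine ⟨Real.toNNReal (M * C + N), LipschitzOnWith.of_dist_le_mul fun p hp q hq => ?_⟩
  have hM0 : 0 ≤ M := (abs_nonneg _).trans (hM p hp)
  have hN0 : 0 ≤ N := (norm_nonneg _).trans (hN p hp)
  rw [Real.coe_toNNReal _ (by positivity)]
  have e : p.1 • c p.2 - q.1 • c q.2 = p.1 • (c p.2 - c q.2) + (p.1 - q.1) • c q.2 := by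
    rw [smul_sub, sub_smul]; abel
  have h1 : dist p.1 q.1 ≤ dist p q := le_max_left _ _
  have h2 : dist p.2 q.2 ≤ dist p q := le_max_right _ _
  calc dist (p.1 • c p.2) (q.1 • c q.2) = ‖p.1 • (c p.2 - c q.2) + (p.1 - q.1) • c q.2‖ := by
        rw [dist_eq_norm, e]
    _ ≤ ‖p.1 • (c p.2 - c q.2)‖ + ‖(p.1 - q.1) • c q.2‖ := norm_add_le _ _
    _ = |p.1| * dist (c p.2) (c q.2) + dist p.1 q.1 * ‖c q.2‖ := by
        rw [norm_smul, norm_smul, dist_eq_norm, dist_eq_norm, Real.norm_eq_abs]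
    _ ≤ M * (C * dist p.2 q.2) + dist p.1 q.1 * N := by
        gcongr
        · exact hM p hp
        · exact hc p hp q hq
        · exact hN q hq
    _ ≤ M * (C * dist p q) + dist p q * N := by gcongr
    _ = (M * C + N) * dist p q := by ring

/-- the cone over a locally Lipschitz curve is null -/
theorem cone_null {c : ℝ → Space3} {S : Set ℝ} (h : LocLip c S) :
    volume {w : Space3 | ∃ l : ℝ, ∃ s ∈ S, w = l • c s} = 0 := by
  have e : {w : Space3 | ∃ l : ℝ, ∃ s ∈ S, w = l • c s} =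
      (fun p : ℝ × ℝ => p.1 • c p.2) '' (univ ×ˢ S) := by
    ext w
    constructor
    · rintro ⟨l, s, hs, rfl⟩
      exact ⟨(l, s), ⟨mem_univ _, hs⟩, rfl⟩
    · rintro ⟨⟨l, s⟩, ⟨_, hs⟩, rfl⟩
      exact ⟨l, s, hs, rfl⟩
  rw [e]
  refine volume_image_null (dimH_real2_lt _) ?_
  rintro ⟨l, s⟩ ⟨_, hs⟩
  obtain ⟨C, t, ht, hc⟩ := h s hs
  -- bound for `c` near `s`
  have hcont := h.continuousOn s hs
  have hbd : {r | ‖c r‖ < ‖c s‖ + 1} ∈ 𝓝[S] s := by
    have := hcont.norm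
    exact this.eventually (eventually_lt_nhds (show ‖c s‖ < ‖c s‖ + 1 by linarith))
  obtain ⟨C', hC'⟩ := lipschitzOn_smul_const (t := (ball l 1) ×ˢ (t ∩ {r | ‖c r‖ < ‖c s‖ + 1}))
    (c := c) (C := C) (M := |l| + 1) (N := ‖c s‖ + 1)
    (fun p hp => by
      have := hp.1
      rw [mem_ball, Real.dist_eq] at this
      have h2 : |p.1| ≤ |p.1 - l| + |l| := by
        calc |p.1| = |(p.1 - l) + l| := by congr 1; ring
          _ ≤ _ := abs_add_le _ _
      linarith)
    (fun p hp => hp.2.2.le)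
    (fun p hp q hq => hc.dist_le_mul _ hp.2.1 _ hq.2.1)
  refine ⟨C', _, ?_, hC'⟩
  rw [nhdsWithin_prod_eq, nhdsWithin_univ]
  exact prod_mem_prod (ball_mem_nhds l one_pos) (inter_mem ht hbd)

/-! ### (I-b) -/

theorem locLip_ray {c : ℝ → Space3} {S : Set ℝ} (h : LocLip c S) (t : ℝ) :
    LocLip (fun s => -((s - t)⁻¹ • c s)) (S \ {t}) := by
  rintro s ⟨hs, hst⟩
  have hst' : s ≠ t := hst
  obtain ⟨C, u, hu, hc⟩ := h s hs
  have hcont := h.continuousOn s hs
  have hbd : {r | ‖c r‖ < ‖c s‖ + 1} ∈ 𝓝[S] s :=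
    hcont.norm.eventually (eventually_lt_nhds (show ‖c s‖ < ‖c s‖ + 1 by linarith))
  set δ := |s - t| / 2 with hδ
  have hδ0 : 0 < δ := by
    have : 0 < |s - t| := abs_pos.2 (sub_ne_zero.2 hst')
    positivity
  have hball : ball s δ ∈ 𝓝[S \ {t}] s := nhdsWithin_le_nhds (ball_mem_nhds s hδ0)
  have hu' : u ∈ 𝓝[S \ {t}] s := nhdsWithin_mono _ sdiff_subset hu
  have hbd' := nhdsWithin_mono s (sdiff_subset (s := S) (t := {t})) hbd
  refine ⟨Real.toNNReal (δ⁻¹ * C + (δ⁻¹ * δ⁻¹) * (‖c s‖ + 1)), _,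
    inter_mem (inter_mem hball hu') hbd', ?_⟩
  refine LipschitzOnWith.of_dist_le_mul fun x hx y hy => ?_
  rw [Real.coe_toNNReal _ (by positivity)]
  have hdist : ∀ x ∈ ball s δ, δ ≤ |x - t| := by
    intro x hx
    rw [mem_ball, Real.dist_eq] at hx
    have h1 : |s - t| ≤ |x - s| + |x - t| := by
      calc |s - t| = |(x - t) - (x - s)| := by congr 1; ring
        _ ≤ |x - t| + |x - s| := abs_sub _ _
        _ = _ := add_comm _ _
    have h2 : |s - t| = 2 * δ := by rw [hδ]; ring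
    linarith
  have hx1 := hdist x hx.1.1
  have hy1 := hdist y hy.1.1
  have hxt : x - t ≠ 0 := by
    intro h0; rw [h0, abs_zero] at hx1; linarith
  have hyt : y - t ≠ 0 := by
    intro h0; rw [h0, abs_zero] at hy1; linarith
  have hix : |(x - t)⁻¹| ≤ δ⁻¹ := by rw [abs_inv]; exact inv_anti₀ hδ0 hx1
  have hiy : |(y - t)⁻¹| ≤ δ⁻¹ := by rw [abs_inv]; exact inv_anti₀ hδ0 hy1
  have hdd : |(x - t)⁻¹ - (y - t)⁻¹| ≤ (δ⁻¹ * δ⁻¹) * dist x y := by
    have e : (x - t)⁻¹ - (y - t)⁻¹ = (x - t)⁻¹ * (y - t)⁻¹ * (y - x) := by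
      field_simp
      ring
    rw [e, abs_mul, abs_mul, Real.dist_eq, abs_sub_comm y x]
    gcongr
  have e2 : -((x - t)⁻¹ • c x) - -((y - t)⁻¹ • c y) =
      -((x - t)⁻¹ • (c x - c y) + ((x - t)⁻¹ - (y - t)⁻¹) • c y) := by
    rw [smul_sub, sub_smul]; abel
  calc dist (-((x - t)⁻¹ • c x)) (-((y - t)⁻¹ • c y))
      = ‖(x - t)⁻¹ • (c x - c y) + ((x - t)⁻¹ - (y - t)⁻¹) • c y‖ := by
        rw [dist_eq_norm, e2, norm_neg]
    _ ≤ ‖(x - t)⁻¹ • (c x - c y)‖ + ‖((x - t)⁻¹ - (y - t)⁻¹) • c y‖ := norm_add_le _ _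
    _ = |(x - t)⁻¹| * dist (c x) (c y) + |(x - t)⁻¹ - (y - t)⁻¹| * ‖c y‖ := by
        rw [norm_smul, norm_smul, dist_eq_norm, Real.norm_eq_abs, Real.norm_eq_abs]
    _ ≤ δ⁻¹ * (C * dist x y) + ((δ⁻¹ * δ⁻¹) * dist x y) * (‖c s‖ + 1) := by
        gcongr
        · exact hc.dist_le_mul _ hx.1.2 _ hy.1.2
        · exact hy.2.le
    _ = (δ⁻¹ * C + (δ⁻¹ * δ⁻¹) * (‖c s‖ + 1)) * dist x y := by ring

/-- (I-b), general form -/
theorem ray_null' {c : ℝ → Space3} {S : Set ℝ} (h : LocLip c S) (t : ℝ) :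
    volume {g : Space3 | ∃ s ∈ S, s ≠ t ∧ c s + (s - t) • g = 0} = 0 := by
  refine measure_mono_null ?_ (curve_null (locLip_ray h t))
  rintro g ⟨s, hs, hst, hg⟩
  refine ⟨s, ⟨hs, hst⟩, ?_⟩
  have h1 : (s - t) • g = -c s := by rw [eq_neg_iff_add_eq_zero, add_comm]; exact hg
  have h2 : s - t ≠ 0 := sub_ne_zero.2 hst
  show -((s - t)⁻¹ • c s) = g
  rw [← smul_neg, ← h1, smul_smul, inv_mul_cancel₀ h2, one_smul]

/-- (I-b) -/
theorem ray_null {c : ℝ → Space3} {a b : ℝ} {C : ℝ≥0} (h : LipschitzOnWith C c (Icc a b))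
    (t : ℝ) : volume {g : Space3 | ∃ s ∈ Icc a b, s ≠ t ∧ c s + (s - t) • g = 0} = 0 :=
  ray_null' (LocLip.of_lipschitz h) t

theorem ae_ray {c : ℝ → Space3} {S : Set ℝ} (h : LocLip c S) (t : ℝ) :
    ∀ᵐ g : Space3, ∀ s ∈ S, s ≠ t → c s + (s - t) • g ≠ 0 := by
  rw [ae_iff]
  refine measure_mono_null ?_ (ray_null' h t)
  intro g hg
  simp only [mem_ofPred_eq, not_forall, not_not] at hg
  obtain ⟨s, hs, hst, h0⟩ := hg
  exact ⟨s, hs, hst, h0⟩

/-! ### Reflections -/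

/-- the reflection in the plane orthogonal to `w` -/
def refl (w : Space3) : Space3 ≃ₗᵢ[ℝ] Space3 := (ℝ ∙ w)ᗮ.reflection

theorem refl_apply (w x : Space3) : refl w x = x - (2 * (inner ℝ w x / ‖w‖ ^ 2)) • w := by
  unfold refl
  rw [Submodule.reflection_orthogonal_apply, Submodule.reflection_singleton_apply]
  simp only [RCLike.ofReal_real_eq_id, id_eq, neg_sub]
  congr 1
  rw [mul_smul, two_smul, two_smul]

theorem measurable_refl : Measurable fun p : Space3 × Space3 => refl p.1 p.2 := by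
  simp only [refl_apply]
  have h1 : Measurable fun p : Space3 × Space3 => (inner ℝ p.1 p.2 : ℝ) :=
    measurable_fst.inner measurable_snd
  have h2 : Measurable fun p : Space3 × Space3 => ‖p.1‖ ^ 2 := measurable_fst.norm.pow_const 2
  have h3 : Measurable fun p : Space3 × Space3 => 2 * ((inner ℝ p.1 p.2 : ℝ) / ‖p.1‖ ^ 2) :=
    (h1.div h2).const_mul 2
  exact measurable_snd.sub (h3.smul measurable_fst)

attribute [irreducible] refl

/-- the reflections of a given vector `≠ 0` do not hit a given curve -/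
theorem refl_null {c : ℝ → Space3} {S : Set ℝ} (h : LocLip c S) {x : Space3} (hx : x ≠ 0) :
    volume {w : Space3 | refl w x ∈ c '' S} = 0 := by
  have hsub : {w : Space3 | refl w x ∈ c '' S} ⊆ {w : Space3 | inner ℝ w x = 0} ∪
      {w : Space3 | ∃ l : ℝ, ∃ s ∈ S, w = l • (x - c s)} := by
    rintro w ⟨s, hs, hw⟩
    by_cases h0 : inner ℝ w x = 0
    · exact Or.inl h0
    · right
      rw [refl_apply] at hw
      have hw0 : w ≠ 0 := by
        rintro rfl
        exact h0 (inner_zero_left _)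
      have hn : ‖w‖ ^ 2 ≠ 0 := pow_ne_zero 2 (norm_ne_zero_iff.2 hw0)
      refine ⟨(2 * (inner ℝ w x / ‖w‖ ^ 2))⁻¹, s, hs, ?_⟩
      have h1 : x - c s = (2 * (inner ℝ w x / ‖w‖ ^ 2)) • w := by rw [hw]; abel
      have h2 : 2 * (inner ℝ w x / ‖w‖ ^ 2) ≠ 0 := mul_ne_zero two_ne_zero (div_ne_zero h0 hn)
      rw [h1, smul_smul, inv_mul_cancel₀ h2, one_smul]
  refine measure_mono_null hsub (measure_union_null ?_ ?_)
  · have e : {w : Space3 | inner ℝ w x = 0} = ((ℝ ∙ x)ᗮ : Submodule ℝ Space3) := by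
      ext w
      rw [SetLike.mem_coe, Submodule.mem_orthogonal_singleton_iff_inner_left]
      rfl
    rw [e]
    refine Measure.addHaar_submodule _ _ ?_
    intro htop
    have : x ∈ (ℝ ∙ x)ᗮ := by rw [htop]; trivial
    rw [Submodule.mem_orthogonal_singleton_iff_inner_left] at this
    exact hx (inner_self_eq_zero.1 this)
  · refine cone_null (c := fun s => x - c s) ?_
    intro s hs
    obtain ⟨C, t, ht, hc⟩ := h s hs
    refine ⟨C, t, ht, LipschitzOnWith.of_dist_le_mul fun y hy z hz => ?_⟩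
    rw [dist_sub_left]
    exact hc.dist_le_mul y hy z hz

/-! ### Equivariant functions -/

section eqv

variable {Ω : Type*} [MeasurableSpace Ω]

/-- `f` is equivariant for measure preserving lifts of the isometries. -/
def Eqv (μ : Measure Ω) (f : Ω → Space3) : Prop :=
  ∀ O : Space3 ≃ₗᵢ[ℝ] Space3, ∃ T : Ω → Ω, MeasurePreserving T μ μ ∧ ∀ᵐ ω ∂μ, f (T ω) = O (f ω)

theorem Eqv.ae_notMem {μ : Measure Ω} [SFinite μ] {f : Ω → Space3} (hf : Measurable f)
    (hT : Eqv μ f) {Γ : Set Space3} (hΓ : MeasurableSet Γ)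
    (hthin : ∀ x : Space3, x ≠ 0 → volume {w : Space3 | refl w x ∈ Γ} = 0) :
    ∀ᵐ ω ∂μ, f ω ≠ 0 → f ω ∉ Γ := by
  set E : Set (Space3 × Ω) := {p | f p.2 ≠ 0 ∧ refl p.1 (f p.2) ∈ Γ} with hE
  have hm1 : Measurable fun p : Space3 × Ω => f p.2 := hf.comp measurable_snd
  have hm2 : Measurable fun p : Space3 × Ω => refl p.1 (f p.2) :=
    measurable_refl.comp (measurable_fst.prodMk hm1)
  have hEm : MeasurableSet E :=
    ((measurableSet_singleton (0 : Space3)).compl.preimage hm1).inter (hm2 hΓ)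
  have hE0 : ((volume : Measure Space3).prod μ) E = 0 := by
    rw [Measure.prod_apply_symm hEm]
    refine (lintegral_eq_zero_iff' ?_).2 ?_
    · exact (measurable_measure_prodMk_right hEm).aemeasurable
    · refine Eventually.of_forall fun ω => ?_
      by_cases h0 : f ω = 0
      · have : (fun w => (w, ω)) ⁻¹' E = (∅ : Set Space3) := by
          ext w
          simp only [hE, mem_preimage, mem_ofPred_eq, mem_empty_iff_false, iff_false]
          exact fun h => h.1 h0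
        show volume ((fun w => (w, ω)) ⁻¹' E) = 0
        rw [this, measure_empty]
      · refine measure_mono_null ?_ (hthin _ h0)
        rintro w ⟨_, hw⟩
        exact hw
  have hae := Measure.measure_ae_null_of_prod_null hE0
  obtain ⟨w, hw⟩ := hae.exists
  obtain ⟨T, hTm, hTf⟩ := hT (refl w)
  have hB : MeasurableSet {ω | f ω ≠ 0 ∧ f ω ∈ Γ} :=
    ((measurableSet_singleton (0 : Space3)).compl.preimage hf).inter (hf hΓ)
  have key : μ {ω | f ω ≠ 0 ∧ f ω ∈ Γ} = 0 := by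
    rw [← hTm.measure_preimage hB.nullMeasurableSet]
    have h2 : (T ⁻¹' {ω | f ω ≠ 0 ∧ f ω ∈ Γ} : Set Ω) =ᵐ[μ] (Prod.mk w ⁻¹' E) := by
      filter_upwards [hTf] with ω hω
      apply propext
      show (f (T ω) ≠ 0 ∧ f (T ω) ∈ Γ) ↔ (f ω ≠ 0 ∧ refl w (f ω) ∈ Γ)
      rw [hω]
      refine and_congr_left fun _ => not_congr ?_
      exact (refl w).map_eq_zero_iff
    rw [measure_congr h2]
    exact hw
  rw [ae_iff]
  refine measure_mono_null ?_ key
  intro ω hω
  simp only [mem_ofPred_eq, Classical.not_imp, not_not] at hω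
  exact hω

/-- (I-a), points -/
theorem Eqv.ae_ne {μ : Measure Ω} [SFinite μ] {f : Ω → Space3} (hf : Measurable f)
    (hT : Eqv μ f) {a : Space3} (ha : a ≠ 0) : ∀ᵐ ω ∂μ, f ω ≠ a := by
  have h1 : LocLip (fun _ : ℝ => a) univ :=
    LocLip.of_lipschitz (C := 0) (LipschitzWith.const a).lipschitzOnWith
  have h2 := hT.ae_notMem hf (Γ := (fun _ : ℝ => a) '' univ) (by
    have : (fun _ : ℝ => a) '' univ = {a} := by simp
    rw [this]; exact measurableSet_singleton a) (fun x hx => refl_null h1 hx)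
  filter_upwards [h2] with ω hω h
  exact hω (by rw [h]; exact ha) (by rw [h]; exact ⟨0, mem_univ _, rfl⟩)

/-- (I-a), compact curves -/
theorem Eqv.ae_ne_compact {μ : Measure Ω} [SFinite μ] {f : Ω → Space3} (hf : Measurable f)
    (hT : Eqv μ f) {c : ℝ → Space3} {S : Set ℝ} (hS : IsCompact S) (hc : LocLip c S) :
    ∀ᵐ ω ∂μ, f ω ≠ 0 → ∀ s ∈ S, f ω ≠ c s := by
  have h2 := hT.ae_notMem hf (Γ := c '' S) (hS.image_of_continuousOn hc.continuousOn).measurableSet
    (fun x hx => refl_null hc hx)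
  filter_upwards [h2] with ω hω h0 s hs h
  exact hω h0 (h ▸ mem_image_of_mem c hs)

/-- (I-a), curves on `σ`-compact sets of parameters -/
theorem Eqv.ae_ne_sigma {μ : Measure Ω} [SFinite μ] {f : Ω → Space3} (hf : Measurable f)
    (hT : Eqv μ f) {c : ℝ → Space3} {S : Set ℝ} (hS : IsSigmaCompact S) (hc : LocLip c S) :
    ∀ᵐ ω ∂μ, f ω ≠ 0 → ∀ s ∈ S, f ω ≠ c s := by
  obtain ⟨K, hK, rfl⟩ := hS
  have h1 : ∀ n, ∀ᵐ ω ∂μ, f ω ≠ 0 → ∀ s ∈ K n, f ω ≠ c s := fun n =>
    hT.ae_ne_compact hf (hK n) (hc.mono (subset_iUnion K n))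
  filter_upwards [ae_all_iff.2 h1] with ω hω h0 s hs
  obtain ⟨n, hn⟩ := mem_iUnion.1 hs
  exact hω n h0 s hn

/-- (I-a), Lipschitz curves -/
theorem Eqv.ae_ne_curve {μ : Measure Ω} [SFinite μ] {f : Ω → Space3} (hf : Measurable f)
    (hT : Eqv μ f) {c : ℝ → Space3} {a b : ℝ} {C : ℝ≥0} (hc : LipschitzOnWith C c (Icc a b)) :
    ∀ᵐ ω ∂μ, f ω ≠ 0 → ∀ s ∈ Icc a b, f ω ≠ c s :=
  hT.ae_ne_compact hf isCompact_Icc (LocLip.of_lipschitz hc)

theorem isSigmaCompact_sdiff {S : Set ℝ} (hS : IsSigmaCompact S) (t : ℝ) :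
    IsSigmaCompact (S \ {t}) := by
  obtain ⟨K, hK, rfl⟩ := hS
  have e : (⋃ n, K n) \ {t} = ⋃ p : ℕ × ℕ, K p.1 ∩ (ball t (1 / ((p.2 : ℝ) + 1)))ᶜ := by
    ext s
    simp only [Set.mem_sdiff, mem_iUnion, mem_singleton_iff, mem_inter_iff, mem_compl_iff, mem_ball,
      not_lt, Prod.exists]
    constructor
    · rintro ⟨⟨n, hn⟩, hst⟩
      obtain ⟨m, hm⟩ := exists_nat_one_div_lt (dist_pos.2 hst)
      exact ⟨n, m, hn, hm.le⟩
    · rintro ⟨n, m, hn, hm⟩
      refine ⟨⟨n, hn⟩, ?_⟩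
      rintro rfl
      rw [dist_self] at hm
      have : 0 < 1 / ((m : ℝ) + 1) := by positivity
      linarith
  rw [e]
  exact isSigmaCompact_iUnion_of_isCompact _ fun p => (hK p.1).inter_right isOpen_ball.isClosed_compl

/-- (I-a) in the form `c s + (s - t) f ≠ 0` -/
theorem Eqv.ae_ne_ray' {μ : Measure Ω} [SFinite μ] {f : Ω → Space3} (hf : Measurable f)
    (hT : Eqv μ f) {c : ℝ → Space3} {S : Set ℝ} (hS : IsSigmaCompact S) (hc : LocLip c S) (t : ℝ) :
    ∀ᵐ ω ∂μ, f ω ≠ 0 → ∀ s ∈ S, s ≠ t → c s + (s - t) • f ω ≠ 0 := by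
  have h1 := hT.ae_ne_sigma hf (isSigmaCompact_sdiff hS t) (locLip_ray hc t)
  filter_upwards [h1] with ω hω h0 s hs hst hg
  refine hω h0 s ⟨hs, hst⟩ ?_
  have h1 : (s - t) • f ω = -c s := by rw [eq_neg_iff_add_eq_zero, add_comm]; exact hg
  have h2 : s - t ≠ 0 := sub_ne_zero.2 hst
  rw [← smul_neg, ← h1, smul_smul, inv_mul_cancel₀ h2, one_smul]

theorem Eqv.ae_ne_ray {μ : Measure Ω} [SFinite μ] {f : Ω → Space3} (hf : Measurable f)
    (hT : Eqv μ f) {c : ℝ → Space3} {a b : ℝ} {C : ℝ≥0} (hc : LipschitzOnWith C c (Icc a b))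
    (t : ℝ) : ∀ᵐ ω ∂μ, f ω ≠ 0 → ∀ s ∈ Icc a b, s ≠ t → c s + (s - t) • f ω ≠ 0 :=
  hT.ae_ne_ray' hf isCompact_Icc.isSigmaCompact (LocLip.of_lipschitz hc) t

end eqv

/-! ### Spaces with a measure preserving family of maps indexed by the isometries -/

/-- measure preserving maps indexed by the linear isometries of `Space3` -/
structure Act (Ω : Type*) [MeasurableSpace Ω] (μ : Measure Ω) where
  T : (Space3 ≃ₗᵢ[ℝ] Space3) → Ω → Ω
  mp : ∀ O, MeasurePreserving (T O) μ μ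

namespace Act

variable {Ω Ω' : Type*} [MeasurableSpace Ω] [MeasurableSpace Ω'] {μ : Measure Ω} {μ' : Measure Ω'}

/-- equivariant maps -/
def Equi (A : Act Ω μ) (f : Ω → Space3) : Prop := ∀ O, ∀ᵐ ω ∂μ, f (A.T O ω) = O (f ω)

/-- invariant functions -/
def Inv {β : Type*} (A : Act Ω μ) (f : Ω → β) : Prop := ∀ O, ∀ᵐ ω ∂μ, f (A.T O ω) = f ω

theorem Equi.eqv {A : Act Ω μ} {f : Ω → Space3} (h : A.Equi f) : Eqv μ f := fun O =>
  ⟨A.T O, A.mp O, h O⟩

theorem Equi.zero (A : Act Ω μ) : A.Equi fun _ => 0 := fun O =>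
  Eventually.of_forall fun _ => (map_zero O).symm

theorem Equi.add {A : Act Ω μ} {f g : Ω → Space3} (hf : A.Equi f) (hg : A.Equi g) :
    A.Equi fun ω => f ω + g ω := fun O => by
  filter_upwards [hf O, hg O] with ω h1 h2
  rw [h1, h2, map_add]

theorem Equi.sub {A : Act Ω μ} {f g : Ω → Space3} (hf : A.Equi f) (hg : A.Equi g) :
    A.Equi fun ω => f ω - g ω := fun O => by
  filter_upwards [hf O, hg O] with ω h1 h2
  rw [h1, h2, map_sub]

theorem Equi.neg {A : Act Ω μ} {f : Ω → Space3} (hf : A.Equi f) : A.Equi fun ω => - f ω :=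
  fun O => by
  filter_upwards [hf O] with ω h1
  rw [h1, map_neg]

theorem Equi.const_smul {A : Act Ω μ} {f : Ω → Space3} (hf : A.Equi f) (r : ℝ) :
    A.Equi fun ω => r • f ω := fun O => by
  filter_upwards [hf O] with ω h1
  rw [h1, map_smul]

theorem Equi.smul {A : Act Ω μ} {f : Ω → Space3} (hf : A.Equi f) {r : Ω → ℝ} (hr : A.Inv r) :
    A.Equi fun ω => r ω • f ω := fun O => by
  filter_upwards [hf O, hr O] with ω h1 h2
  rw [h1, h2, map_smul]

theorem Equi.norm {A : Act Ω μ} {f : Ω → Space3} (hf : A.Equi f) : A.Inv fun ω => ‖f ω‖ :=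
  fun O => by
  filter_upwards [hf O] with ω h1
  rw [h1, O.norm_map]

/-- `Space3` with Lebesgue measure -/
def space : Act Space3 volume := ⟨fun O x => O x, fun O => O.measurePreserving⟩

/-- products -/
def prod [SFinite μ] [SFinite μ'] (A : Act Ω μ) (B : Act Ω' μ') : Act (Ω × Ω') (μ.prod μ') :=
  ⟨fun O p => (A.T O p.1, B.T O p.2), fun O => (A.mp O).prod (B.mp O)⟩

/-- trivial action -/
def triv (μ : Measure Ω) : Act Ω μ := ⟨fun _ ω => ω, fun _ => MeasurePreserving.id μ⟩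

/-- powers -/
def pi (ι : Type*) [Fintype ι] [SigmaFinite μ] (A : Act Ω μ) :
    Act (ι → Ω) (Measure.pi fun _ : ι => μ) :=
  ⟨fun O ω i => A.T O (ω i), fun O => measurePreserving_pi _ _ fun _ => A.mp O⟩

/-- phase points -/
def phase : Act (Space3 × Space3) (volume.prod volume) := space.prod space

/-- families of pairs of vectors -/
def phases (ι : Type*) [Fintype ι] : Act (ι → Space3 × Space3) volume :=
  pi ι phase

@[simp] theorem phases_T {ι : Type*} [Fintype ι] (O : Space3 ≃ₗᵢ[ℝ] Space3)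
    (θ : ι → Space3 × Space3) (i : ι) : (phases ι).T O θ i = (O (θ i).1, O (θ i).2) := rfl

theorem Equi.comp_fst [SFinite μ] [SFinite μ'] {A : Act Ω μ} (B : Act Ω' μ') {f : Ω → Space3}
    (hf : A.Equi f) : (A.prod B).Equi fun p => f p.1 := fun O =>
  (Measure.quasiMeasurePreserving_fst (μ := μ) (ν := μ')).ae (hf O)

theorem Equi.comp_snd [SFinite μ] [SFinite μ'] (A : Act Ω μ) {B : Act Ω' μ'} {f : Ω' → Space3}
    (hf : B.Equi f) : (A.prod B).Equi fun p => f p.2 := fun O =>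
  (Measure.quasiMeasurePreserving_snd (μ := μ) (ν := μ')).ae (hf O)

/-- restriction to an invariant set -/
def restrict (A : Act Ω μ) (S : Set Ω) (hS : MeasurableSet S) (hinv : ∀ O, A.T O ⁻¹' S = S) :
    Act Ω (μ.restrict S) :=
  ⟨A.T, fun O => by
    have h := (A.mp O).restrict_preimage hS
    rw [hinv O] at h
    exact h⟩

end Act

end Crest.Agent.R122.Iso735
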