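import Mathlib
import Crest.Prelude.Def_KineticLimit
import Crest.Agent.R122.VLParDefs_823
import Crest.Agent.R122.Iso_735

/-!
# Row 122, block D3 (helper735): tools for the almost everywhere genericity of the limit object

* `measurableSet_exists_zero`;
* `parT`, `parAct` : isometries act on the parameters of a merge tree;
* `ae_node_*` : Fubini by sections at a node.
-/

set_option autoImplicit false

open MeasureTheory Set Filter Topology Metric
open scoped ENNReal NNReal
open Crest.AnalysisR.Kinetic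
open Crest.Agent.R122.Iso735 Crest.Agent.R122.VLPar823 Crest.Agent.R122.VLPar823.MTree

noncomputable section

namespace Crest.Agent.R122.VLGen735

/-! ### Measurability of the existence of zeros -/

theorem exists_zero_iff {K : Type*} [TopologicalSpace K] [CompactSpace K] [Nonempty K]
    {d : ℕ → K} (hd : DenseRange d) {G : K → ℝ} (hG : Continuous G) (hG0 : ∀ s, 0 ≤ G s) :
    (∃ s, G s = 0) ↔ ∀ m : ℕ, ∃ k, G (d k) < 1 / ((m : ℝ) + 1) := by
  constructor
  · rintro ⟨s, hs⟩ m
    have hopen : IsOpen {x | G x < 1 / ((m : ℝ) + 1)} := isOpen_lt hG continuous_const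
    obtain ⟨k, hk⟩ := hd.exists_mem_open hopen ⟨s, by
      show G s < 1 / ((m : ℝ) + 1)
      rw [hs]; positivity⟩
    exact ⟨k, hk⟩
  · intro h
    obtain ⟨s, _, hs⟩ := isCompact_univ.exists_isMinOn (univ_nonempty (α := K)) hG.continuousOn
    refine ⟨s, le_antisymm ?_ (hG0 s)⟩
    by_contra hlt
    push Not at hlt
    obtain ⟨m, hm⟩ := exists_nat_one_div_lt hlt
    obtain ⟨k, hk⟩ := h m
    have h1 : G s ≤ G (d k) := hs (mem_univ (d k))
    linarith

theorem measurableSet_exists_zero {Ω : Type*} [MeasurableSpace Ω] {F : Ω → ℝ → Space3} {a b : ℝ}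
    (hcont : ∀ ω, ContinuousOn (F ω) (Icc a b)) (hmeas : ∀ s ∈ Icc a b, Measurable fun ω => F ω s)
    {t : Ω → ℝ} (ht : Measurable t) :
    MeasurableSet {ω | ∃ s ∈ Icc a b, s ≠ t ω ∧ F ω s = 0} := by
  rcases (Icc a b).eq_empty_or_nonempty with hE | hne
  · have : {ω | ∃ s ∈ Icc a b, s ≠ t ω ∧ F ω s = 0} = ∅ := by
      ext ω
      simp [hE]
    rw [this]
    exact MeasurableSet.empty
  have : Nonempty (Icc a b) := hne.to_subtype
  have : CompactSpace (Icc a b) := isCompact_iff_compactSpace.1 isCompact_Icc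
  let G : ℕ → Ω → Icc a b → ℝ := fun n ω s =>
    ‖F ω s‖ + max 0 (1 / ((n : ℝ) + 1) - |(s : ℝ) - t ω|)
  have hGc : ∀ n ω, Continuous (G n ω) := by
    intro n ω
    have h1 : Continuous fun s : Icc a b => F ω s := (hcont ω).domRestrict
    have h2 : Continuous fun s : Icc a b => max 0 (1 / ((n : ℝ) + 1) - |(s : ℝ) - t ω|) := by
      fun_prop
    exact h1.norm.add h2
  have hG0 : ∀ n ω s, 0 ≤ G n ω s := fun n ω s => add_nonneg (norm_nonneg _) (le_max_left _ _)
  have hGm : ∀ n s, Measurable fun ω => G n ω s := by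
    intro n s
    have h1 : Measurable fun ω => F ω s := hmeas s s.2
    have h2 : Measurable fun ω => max 0 (1 / ((n : ℝ) + 1) - |(s : ℝ) - t ω|) := by
      have h3 : Measurable fun ω => |(s : ℝ) - t ω| :=
        continuous_abs.measurable.comp (measurable_const.sub ht)
      exact measurable_const.max (measurable_const.sub h3)
    exact h1.norm.add h2
  have key : {ω | ∃ s ∈ Icc a b, s ≠ t ω ∧ F ω s = 0} =
      ⋃ n : ℕ, ⋂ m : ℕ, ⋃ k : ℕ, {ω | G n ω (TopologicalSpace.denseSeq (Icc a b) k) <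
        1 / ((m : ℝ) + 1)} := by
    ext ω
    simp only [mem_ofPred_eq, mem_iUnion, mem_iInter]
    have h1 : ∀ n, (∀ m : ℕ, ∃ k, G n ω (TopologicalSpace.denseSeq (Icc a b) k) <
        1 / ((m : ℝ) + 1)) ↔ ∃ s, G n ω s = 0 := fun n =>
      (exists_zero_iff (TopologicalSpace.denseRange_denseSeq _) (hGc n ω) (hG0 n ω)).symm
    simp only [h1]
    constructor
    · rintro ⟨s, hs, hst, h0⟩
      have hpos : 0 < |s - t ω| := abs_pos.2 (sub_ne_zero.2 hst)
      obtain ⟨n, hn⟩ := exists_nat_one_div_lt hpos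
      refine ⟨n, ⟨s, hs⟩, ?_⟩
      show ‖F ω s‖ + max 0 (1 / ((n : ℝ) + 1) - |s - t ω|) = 0
      rw [h0, norm_zero, zero_add, max_eq_left]
      linarith
    · rintro ⟨n, ⟨s, hs⟩, h0⟩
      have h0' : ‖F ω s‖ + max 0 (1 / ((n : ℝ) + 1) - |s - t ω|) = 0 := h0
      have h2 := (add_eq_zero_iff_of_nonneg (norm_nonneg _) (le_max_left _ _)).1 h0'
      refine ⟨s, hs, ?_, norm_eq_zero.1 h2.1⟩
      rintro rfl
      rw [sub_self, abs_zero, sub_zero] at h2
      have h3 : 0 < 1 / ((n : ℝ) + 1) := by positivity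
      have h4 := h2.2
      rw [max_eq_right h3.le] at h4
      linarith
  rw [key]
  exact MeasurableSet.iUnion fun n => MeasurableSet.iInter fun m => MeasurableSet.iUnion fun k =>
    measurableSet_lt (hGm n _) measurable_const

/-! ### Isometries act on parameters -/

variable {J κ : Type}

/-- action of an isometry on the parameters -/
def parT (O : Space3 ≃ₗᵢ[ℝ] Space3) : ∀ τ : MTree J κ, Par τ → Par τ
  | leaf _ => fun π => π
  | node _ _ _ _ _ _ P Q => fun π =>
      ((π.1.1, O π.1.2.1, O π.1.2.2), parT O P π.2.1, parT O Q π.2.2)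

theorem measurePreserving_parT (O : Space3 ≃ₗᵢ[ℝ] Space3) : ∀ τ : MTree J κ,
    MeasurePreserving (parT O τ) volume volume
  | leaf _ => MeasurePreserving.id _
  | node _ _ _ _ _ _ P Q => by
      have h1 : MeasurePreserving (fun q : ℝ × Space3 × Space3 => (q.1, O q.2.1, O q.2.2))
          volume volume :=
        (MeasurePreserving.id volume).prod (O.measurePreserving.prod O.measurePreserving)
      exact h1.prod ((measurePreserving_parT O P).prod (measurePreserving_parT O Q))

/-- isometries act on the parameters -/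
def parAct (τ : MTree J κ) : Act (Par τ) volume := ⟨fun O => parT O τ, fun O => measurePreserving_parT O τ⟩

/-! ### Fubini at a node -/

section fubini

variable {X Y Z W : Type*} [MeasurableSpace X] [MeasurableSpace Y] [MeasurableSpace Z]
  [MeasurableSpace W] {μX : Measure X} {μY : Measure Y} {μZ : Measure Z} {μW : Measure W}
  [SFinite μX] [SFinite μY] [SFinite μZ] [SFinite μW]

/-- sections in the first factor -/
theorem ae_prod_left {B : Set (X × Y)} (hB : MeasurableSet B)
    (h : ∀ y, ∀ᵐ x ∂μX, (x, y) ∉ B) : ∀ᵐ p ∂(μX.prod μY), p ∉ B := by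
  rw [ae_iff]
  have e : {p | ¬ p ∉ B} = B := by ext p; simp
  rw [e, Measure.prod_apply_symm hB]
  refine (lintegral_eq_zero_iff' (measurable_measure_prodMk_right hB).aemeasurable).2 ?_
  refine Eventually.of_forall fun y => ?_
  have := h y
  rw [ae_iff] at this
  refine measure_mono_null ?_ this
  intro x hx hn
  exact hn hx

/-- sections in the second factor -/
theorem ae_prod_right {B : Set (X × Y)} (hB : MeasurableSet B)
    (h : ∀ x, ∀ᵐ y ∂μY, (x, y) ∉ B) : ∀ᵐ p ∂(μX.prod μY), p ∉ B := by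
  rw [ae_iff]
  have e : {p | ¬ p ∉ B} = B := by ext p; simp
  rw [e, Measure.prod_apply hB]
  refine (lintegral_eq_zero_iff' (measurable_measure_prodMk_left hB).aemeasurable).2 ?_
  refine Eventually.of_forall fun x => ?_
  have := h x
  rw [ae_iff] at this
  refine measure_mono_null ?_ this
  intro y hy hn
  exact hn hy

variable {B : Set (((ℝ × Space3 × Space3) × X × Y) × Z)}

/-- the measure of a node with root -/
abbrev nodeM (μX : Measure X) (μY : Measure Y) (μZ : Measure Z) :
    Measure (((ℝ × Space3 × Space3) × X × Y) × Z) :=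
  ((volume : Measure (ℝ × Space3 × Space3)).prod (μX.prod μY)).prod μZ

/-- sections in `(ξ, g)` -/
theorem ae_sec_q (hB : MeasurableSet B)
    (h : ∀ t x y z, ∀ᵐ q : Space3 × Space3, (((t, q), x, y), z) ∉ B) :
    ∀ᵐ p ∂(nodeM μX μY μZ), p ∉ B := by
  refine ae_prod_left hB fun z => ?_
  have h1 : MeasurableSet {π : (ℝ × Space3 × Space3) × X × Y | (π, z) ∈ B} :=
    measurable_prodMk_right hB
  refine ae_prod_left h1 fun xy => ?_
  have h2 : MeasurableSet {r : ℝ × Space3 × Space3 | (r, xy) ∈ {π | (π, z) ∈ B}} :=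
    measurable_prodMk_right h1
  exact ae_prod_right h2 fun t => h t xy.1 xy.2 z

/-- sections in `t` -/
theorem ae_sec_t (hB : MeasurableSet B)
    (h : ∀ q x y z, ∀ᵐ t : ℝ, (((t, q), x, y), z) ∉ B) : ∀ᵐ p ∂(nodeM μX μY μZ), p ∉ B := by
  refine ae_prod_left hB fun z => ?_
  have h1 : MeasurableSet {π : (ℝ × Space3 × Space3) × X × Y | (π, z) ∈ B} :=
    measurable_prodMk_right hB
  refine ae_prod_left h1 fun xy => ?_
  have h2 : MeasurableSet {r : ℝ × Space3 × Space3 | (r, xy) ∈ {π | (π, z) ∈ B}} :=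
    measurable_prodMk_right h1
  exact ae_prod_left h2 fun q => h q xy.1 xy.2 z

/-- sections in the parameters of the left subtree -/
theorem ae_sec_l (hB : MeasurableSet B)
    (h : ∀ r y z, ∀ᵐ x ∂μX, ((r, x, y), z) ∉ B) : ∀ᵐ p ∂(nodeM μX μY μZ), p ∉ B := by
  refine ae_prod_left hB fun z => ?_
  have h1 : MeasurableSet {π : (ℝ × Space3 × Space3) × X × Y | (π, z) ∈ B} :=
    measurable_prodMk_right hB
  refine ae_prod_right h1 fun r => ?_
  have h2 : MeasurableSet {xy : X × Y | (r, xy) ∈ {π | (π, z) ∈ B}} := measurable_prodMk_left h1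
  exact ae_prod_left h2 fun y => h r y z

/-- sections in the parameters of the right subtree -/
theorem ae_sec_r (hB : MeasurableSet B)
    (h : ∀ r x z, ∀ᵐ y ∂μY, ((r, x, y), z) ∉ B) : ∀ᵐ p ∂(nodeM μX μY μZ), p ∉ B := by
  refine ae_prod_left hB fun z => ?_
  have h1 : MeasurableSet {π : (ℝ × Space3 × Space3) × X × Y | (π, z) ∈ B} :=
    measurable_prodMk_right hB
  refine ae_prod_right h1 fun r => ?_
  have h2 : MeasurableSet {xy : X × Y | (r, xy) ∈ {π | (π, z) ∈ B}} := measurable_prodMk_left h1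
  exact ae_prod_right h2 fun x => h r x z

end fubini

end Crest.Agent.R122.VLGen735
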