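import Crest.Agent.R122.VLnull_564

/-!
# Row 122, block VL: outgoing velocity and offset of a scaled state (helper564)

* `pout Φ z`, `qout Φ z`: outgoing velocity and position offset (`q(t) = qout + t pout` for large
  scaled times `t`), `0` if never exited;
* `pout_eq`, `qout_eq`, `ae_exited` (T'), `ae_swap` (Sw'), `ae_glance` (Gl'), measurability,
  equivariance, norm, invariance along the line;
* `pout_mem_span` (Pl), `ae_opposite` (Op).
-/

set_option autoImplicit false
set_option linter.unusedSectionVars false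
open MeasureTheory Metric Set Filter
open scoped ENNReal NNReal Topology
open Crest.AnalysisR.Kinetic

noncomputable section

namespace Crest.Agent.R122.VLcore564

open Scat818 Flux663

variable {Φ : Space3 → ℝ}

open scoped Classical in
/-- Outgoing velocity, `0` if the state is never exited. -/
def pout (Φ : Space3 → ℝ) (z : Space3 × Space3) : Space3 :=
  if h : ∃ R, Exi Φ R z then (rel0 Φ h.choose z).2 else 0

open scoped Classical in
/-- Offset of the outgoing line (its position at scaled time `0`), `0` if never exited. -/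
def qout (Φ : Space3 → ℝ) (z : Space3 × Space3) : Space3 :=
  if h : ∃ R, Exi Φ R z then
    (rel0 Φ h.choose z).1 - h.choose • (rel0 Φ h.choose z).2 else 0

/-- **(St)** Stability of the outgoing data. -/
theorem exi_stable (hΦ : AdmissiblePotential Φ) {R R' : ℝ} (hR : R ≤ R') {z : Space3 × Space3}
    (hz : Exi Φ R z) : Exi Φ R' z ∧ (rel0 Φ R' z).2 = (rel0 Φ R z).2 ∧
      (rel0 Φ R' z).1 - R' • (rel0 Φ R' z).2 = (rel0 Φ R z).1 - R • (rel0 Φ R z).2 := by
  refine ⟨exi_mono hΦ hR hz, ?_, ?_⟩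
  · rw [rel0_mono hΦ hR hz]
  · rw [rel0_mono hΦ hR hz]
    show (rel0 Φ R z).1 + (R' - R) • (rel0 Φ R z).2 - R' • (rel0 Φ R z).2 =
      (rel0 Φ R z).1 - R • (rel0 Φ R z).2
    module

theorem exi_unique (hΦ : AdmissiblePotential Φ) {R R' : ℝ} {z : Space3 × Space3}
    (hz : Exi Φ R z) (hz' : Exi Φ R' z) : (rel0 Φ R' z).2 = (rel0 Φ R z).2 ∧
      (rel0 Φ R' z).1 - R' • (rel0 Φ R' z).2 = (rel0 Φ R z).1 - R • (rel0 Φ R z).2 := by
  rcases le_total R R' with h | h
  · exact (exi_stable hΦ h hz).2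
  · have := (exi_stable hΦ h hz').2
    exact ⟨this.1.symm, this.2.symm⟩

theorem pout_eq (hΦ : AdmissiblePotential Φ) {R : ℝ} {z : Space3 × Space3} (hz : Exi Φ R z) :
    pout Φ z = (rel0 Φ R z).2 := by
  classical
  have h : ∃ R, Exi Φ R z := ⟨R, hz⟩
  unfold pout
  rw [dif_pos h]
  exact (exi_unique hΦ hz h.choose_spec).1

theorem qout_eq (hΦ : AdmissiblePotential Φ) {R : ℝ} {z : Space3 × Space3} (hz : Exi Φ R z) :
    qout Φ z = (rel0 Φ R z).1 - R • (rel0 Φ R z).2 := by
  classical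
  have h : ∃ R, Exi Φ R z := ⟨R, hz⟩
  unfold qout
  rw [dif_pos h]
  exact (exi_unique hΦ hz h.choose_spec).2

theorem pout_of_not {z : Space3 × Space3} (h : ¬ ∃ R, Exi Φ R z) : pout Φ z = 0 := by
  classical
  unfold pout
  rw [dif_neg h]

theorem qout_of_not {z : Space3 × Space3} (h : ¬ ∃ R, Exi Φ R z) : qout Φ z = 0 := by
  classical
  unfold qout
  rw [dif_neg h]

/-- The relative motion at scaled time `t ≥ R`. -/
theorem rel0_eq_out (hΦ : AdmissiblePotential Φ) {R : ℝ} {z : Space3 × Space3} (hz : Exi Φ R z)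
    {t : ℝ} (ht : R ≤ t) : rel0 Φ t z = (qout Φ z + t • pout Φ z, pout Φ z) := by
  rw [rel0_mono hΦ ht hz, pout_eq hΦ hz, qout_eq hΦ hz]
  ext1
  · show (rel0 Φ R z).1 + (t - R) • (rel0 Φ R z).2 =
      (rel0 Φ R z).1 - R • (rel0 Φ R z).2 + t • (rel0 Φ R z).2
    module
  · rfl

/-- The relative motion started from the incoming line at scaled time `-t`, `t ≥ R`, seen at scaled
time `r ≥ R`. -/
theorem relFlow_out (hΦ : AdmissiblePotential Φ) {R : ℝ} {z : Space3 × Space3} (hz : Exi Φ R z)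
    {t r : ℝ} (ht : R ≤ t) (hr : R ≤ r) :
    relFlow Φ (t + r) (z.1 - t • z.2, z.2) = (qout Φ z + r • pout Φ z, pout Φ z) := by
  have h := rel0_eq hΦ hz ht (sub_nonneg.2 hr)
  have e : t + R + (r - R) = t + r := by ring
  rw [e] at h
  rw [h, pout_eq hΦ hz, qout_eq hΦ hz]
  ext1
  · show (rel0 Φ R z).1 + (r - R) • (rel0 Φ R z).2 =
      (rel0 Φ R z).1 - R • (rel0 Φ R z).2 + r • (rel0 Φ R z).2
    module
  · rfl

/-- **(T')** Almost every state is exited for all large `R`. -/
theorem ae_exited (hΦ : AdmissiblePotential Φ) :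
    ∀ᵐ z : Space3 × Space3, ∃ R₀ : ℝ, ∀ R, R₀ ≤ R → Exi Φ R z := ae_exi_eventually hΦ

theorem norm_pout (hΦ : AdmissiblePotential Φ) {z : Space3 × Space3} (h : ∃ R, Exi Φ R z) :
    ‖pout Φ z‖ = ‖z.2‖ := by
  obtain ⟨R, hz⟩ := h
  rw [pout_eq hΦ hz]
  exact norm_rel0 hΦ hz

theorem norm_pout_le (hΦ : AdmissiblePotential Φ) (z : Space3 × Space3) : ‖pout Φ z‖ ≤ ‖z.2‖ := by
  by_cases h : ∃ R, Exi Φ R z
  · exact (norm_pout hΦ h).le
  · rw [pout_of_not h, norm_zero]; exact norm_nonneg _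

/-- **(Sw')** -/
theorem ae_swap (hΦ : AdmissiblePotential Φ) :
    ∀ᵐ z : Space3 × Space3, ∀ R, Exi Φ R z → (rel0 Φ R z).2 ≠ -z.2 := by
  have h : ∀ n : ℕ, ∀ᵐ z : Space3 × Space3, ¬ (Exi Φ (n : ℝ) z ∧ (rel0 Φ (n : ℝ) z).2 = -z.2) := by
    intro n
    rw [ae_iff]
    simpa only [not_not] using swap_null hΦ (n : ℝ)
  filter_upwards [ae_all_iff.2 h] with z hz R hR heq
  obtain ⟨n, hn⟩ := exists_nat_ge R
  obtain ⟨h1, h2, _⟩ := exi_stable hΦ hn hR
  exact hz n ⟨h1, h2.trans heq⟩

theorem ae_pout_swap (hΦ : AdmissiblePotential Φ) :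
    ∀ᵐ z : Space3 × Space3, pout Φ z ≠ -z.2 := by
  have h0 : ∀ᵐ z : Space3 × Space3, z.2 ≠ 0 := by
    rw [ae_iff]
    simpa only [not_not, ne_eq] using volume_vel_zero
  filter_upwards [ae_swap hΦ, ae_exited hΦ] with z hz ⟨R₀, hR⟩
  rw [pout_eq hΦ (hR R₀ le_rfl)]
  exact hz R₀ (hR R₀ le_rfl)

/-- **(Gl')** no deflection: the outgoing line is the incoming one. -/
theorem ae_glance (hΦ : AdmissiblePotential Φ) :
    ∀ᵐ z : Space3 × Space3, pout Φ z = z.2 → qout Φ z = z.1 := by
  have h : ∀ n : ℕ, ∀ᵐ z : Space3 × Space3, ¬ (Exi Φ (n : ℝ) z ∧ (rel0 Φ (n : ℝ) z).2 = z.2 ∧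
      (rel0 Φ (n : ℝ) z).1 ≠ z.1 + (n : ℝ) • z.2) := by
    intro n
    rw [ae_iff]
    simpa only [not_not] using glance_null hΦ (n : ℝ)
  filter_upwards [ae_all_iff.2 h, ae_exited hΦ] with z hz ⟨R₀, hR⟩ heq
  obtain ⟨n, hn⟩ := exists_nat_ge R₀
  have hE := hR n hn
  rw [pout_eq hΦ hE] at heq
  rw [qout_eq hΦ hE]
  have h1 : (rel0 Φ (n : ℝ) z).1 = z.1 + (n : ℝ) • z.2 := by
    by_contra hne
    exact hz n ⟨hE, heq, hne⟩
  rw [h1, heq]
  module

/-! ### Measurability -/

open scoped Classical in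
theorem measurable_pout (hΦ : AdmissiblePotential Φ) : Measurable (pout Φ) := by
  refine measurable_of_tendsto_metrizable (f := fun n : ℕ => fun z : Space3 × Space3 =>
    if Exi Φ (n : ℝ) z then (rel0 Φ (n : ℝ) z).2 else 0) (fun n => ?_) ?_
  · exact Measurable.ite (measurableSet_exi hΦ n) (measurable_rel0 hΦ n).snd measurable_const
  · rw [tendsto_pi_nhds]
    intro z
    by_cases h : ∃ R, Exi Φ R z
    · obtain ⟨R, hz⟩ := h
      refine tendsto_const_nhds.congr' ?_
      obtain ⟨N, hN⟩ := exists_nat_ge R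
      filter_upwards [eventually_ge_atTop N] with n hn
      have h1 := exi_mono hΦ (R' := (n : ℝ)) (hN.trans (by exact_mod_cast hn)) hz
      rw [if_pos h1]
      exact pout_eq hΦ h1
    · rw [pout_of_not h]
      refine tendsto_const_nhds.congr fun n => ?_
      rw [if_neg fun h' => h ⟨_, h'⟩]

open scoped Classical in
theorem measurable_qout (hΦ : AdmissiblePotential Φ) : Measurable (qout Φ) := by
  refine measurable_of_tendsto_metrizable (f := fun n : ℕ => fun z : Space3 × Space3 =>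
    if Exi Φ (n : ℝ) z then (rel0 Φ (n : ℝ) z).1 - (n : ℝ) • (rel0 Φ (n : ℝ) z).2 else 0)
    (fun n => ?_) ?_
  · exact Measurable.ite (measurableSet_exi hΦ n)
      ((measurable_rel0 hΦ n).fst.sub ((measurable_rel0 hΦ n).snd.const_smul (n : ℝ)))
      measurable_const
  · rw [tendsto_pi_nhds]
    intro z
    by_cases h : ∃ R, Exi Φ R z
    · obtain ⟨R, hz⟩ := h
      refine tendsto_const_nhds.congr' ?_
      obtain ⟨N, hN⟩ := exists_nat_ge R
      filter_upwards [eventually_ge_atTop N] with n hn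
      have h1 := exi_mono hΦ (R' := (n : ℝ)) (hN.trans (by exact_mod_cast hn)) hz
      rw [if_pos h1]
      exact qout_eq hΦ h1
    · rw [qout_of_not h]
      refine tendsto_const_nhds.congr fun n => ?_
      rw [if_neg fun h' => h ⟨_, h'⟩]

theorem measurableSet_exited (hΦ : AdmissiblePotential Φ) :
    MeasurableSet {z : Space3 × Space3 | ∃ R, Exi Φ R z} := by
  have : {z : Space3 × Space3 | ∃ R, Exi Φ R z} = ⋃ n : ℕ, {z | Exi Φ (n : ℝ) z} := by
    ext z
    simp only [mem_ofPred_eq, mem_iUnion]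
    constructor
    · rintro ⟨R, hz⟩
      obtain ⟨n, hn⟩ := exists_nat_ge R
      exact ⟨n, exi_mono hΦ hn hz⟩
    · rintro ⟨n, hz⟩
      exact ⟨n, hz⟩
  rw [this]
  exact MeasurableSet.iUnion fun n => measurableSet_exi hΦ (n : ℝ)

/-! ### Equivariance -/

theorem pout_isometry (hΦ : AdmissiblePotential Φ) (U : Space3 ≃ₗᵢ[ℝ] Space3)
    (z : Space3 × Space3) : pout Φ (U z.1, U z.2) = U (pout Φ z) := by
  by_cases h : ∃ R, Exi Φ R z
  · obtain ⟨R, hz⟩ := h
    rw [pout_eq hΦ hz, pout_eq hΦ ((exi_isometry hΦ U z).2 hz), rel0_isometry hΦ U hz.1]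
  · have h' : ¬ ∃ R, Exi Φ R (U z.1, U z.2) := by
      rintro ⟨R, hR⟩
      exact h ⟨R, (exi_isometry hΦ U z).1 hR⟩
    rw [pout_of_not h, pout_of_not h', map_zero]

theorem qout_isometry (hΦ : AdmissiblePotential Φ) (U : Space3 ≃ₗᵢ[ℝ] Space3)
    (z : Space3 × Space3) : qout Φ (U z.1, U z.2) = U (qout Φ z) := by
  by_cases h : ∃ R, Exi Φ R z
  · obtain ⟨R, hz⟩ := h
    rw [qout_eq hΦ hz, qout_eq hΦ ((exi_isometry hΦ U z).2 hz), rel0_isometry hΦ U hz.1]
    simp only [map_sub, map_smul]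
  · have h' : ¬ ∃ R, Exi Φ R (U z.1, U z.2) := by
      rintro ⟨R, hR⟩
      exact h ⟨R, (exi_isometry hΦ U z).1 hR⟩
    rw [qout_of_not h, qout_of_not h', map_zero]

/-! ### Invariance along the line -/

theorem exi_shift (hΦ : AdmissiblePotential Φ) {R : ℝ} {z : Space3 × Space3} (hz : Exi Φ R z)
    (s : ℝ) {R' : ℝ} (hR' : R + |s| ≤ R') :
    Exi Φ R' (z.1 + s • z.2, z.2) ∧
      rel0 Φ R' (z.1 + s • z.2, z.2) =
        ((rel0 Φ R z).1 + (R' + s - R) • (rel0 Φ R z).2, (rel0 Φ R z).2) := by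
  have hs1 := neg_abs_le s
  have hs2 := le_abs_self s
  have hrel : rel0 Φ R' (z.1 + s • z.2, z.2) =
      ((rel0 Φ R z).1 + (R' + s - R) • (rel0 Φ R z).2, (rel0 Φ R z).2) := by
    have h := rel0_eq hΦ hz (t := R' - s) (r := R' + s - R) (by linarith) (by linarith)
    have e1 : R' - s + R + (R' + s - R) = 2 * R' := by ring
    rw [e1] at h
    rw [← h]
    unfold rel0
    congr 1
    ext1
    · show z.1 + s • z.2 - R' • z.2 = z.1 - (R' - s) • z.2
      module
    · rfl
  refine ⟨?_, hrel⟩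
  have h1 := incoming_back hz.1 hz.2.1 (t := R' - s - R) (by linarith)
  have e2 : z.1 - R • z.2 - (R' - s - R) • z.2 = z.1 + s • z.2 - R' • z.2 := by module
  rw [e2] at h1
  have h2 := outgoing_fwd hz.2.2.1 hz.2.2.2 (t := R' + s - R) (by linarith)
  refine ⟨h1.1, h1.2, ?_⟩
  rw [hrel]
  exact h2

theorem exited_shift (hΦ : AdmissiblePotential Φ) (z : Space3 × Space3) (s : ℝ) :
    (∃ R, Exi Φ R (z.1 + s • z.2, z.2)) ↔ ∃ R, Exi Φ R z := by
  constructor
  · rintro ⟨R, hR⟩
    have h := (exi_shift hΦ hR (-s) le_rfl).1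
    have e : ((z.1 + s • z.2, z.2) : Space3 × Space3).1 +
        (-s) • ((z.1 + s • z.2, z.2) : Space3 × Space3).2 = z.1 := by
      show z.1 + s • z.2 + (-s) • z.2 = z.1
      module
    rw [e] at h
    exact ⟨_, h⟩
  · rintro ⟨R, hR⟩
    exact ⟨_, (exi_shift hΦ hR s le_rfl).1⟩

theorem pout_shift (hΦ : AdmissiblePotential Φ) (z : Space3 × Space3) (s : ℝ) :
    pout Φ (z.1 + s • z.2, z.2) = pout Φ z := by
  by_cases h : ∃ R, Exi Φ R z
  · obtain ⟨R, hz⟩ := h
    obtain ⟨h1, h2⟩ := exi_shift hΦ hz s le_rfl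
    rw [pout_eq hΦ h1, h2, pout_eq hΦ hz]
  · rw [pout_of_not h, pout_of_not fun h' => h ((exited_shift hΦ z s).1 h')]

theorem qout_shift (hΦ : AdmissiblePotential Φ) (z : Space3 × Space3) (s : ℝ) :
    qout Φ (z.1 + s • z.2, z.2) = qout Φ z + s • pout Φ z := by
  by_cases h : ∃ R, Exi Φ R z
  · obtain ⟨R, hz⟩ := h
    obtain ⟨h1, h2⟩ := exi_shift hΦ hz s le_rfl
    rw [qout_eq hΦ h1, h2, qout_eq hΦ hz, pout_eq hΦ hz]
    show (rel0 Φ R z).1 + (R + |s| + s - R) • (rel0 Φ R z).2 - (R + |s|) • (rel0 Φ R z).2 =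
      (rel0 Φ R z).1 - R • (rel0 Φ R z).2 + s • (rel0 Φ R z).2
    module
  · rw [qout_of_not h, pout_of_not h, qout_of_not fun h' => h ((exited_shift hΦ z s).1 h')]
    simp

/-! ### Planarity -/

theorem relFlow_mem_span (hΦ : AdmissiblePotential Φ) {x v : Space3} (hx : Reg Φ x) (t : ℝ) :
    (relFlow Φ t (x, v)).1 ∈ Submodule.span ℝ {x, v} ∧
      (relFlow Φ t (x, v)).2 ∈ Submodule.span ℝ {x, v} := by
  set K : Submodule ℝ Space3 := Submodule.span ℝ {x, v} with hK
  have hxK : x ∈ K := Submodule.subset_span (by simp)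
  have hvK : v ∈ K := Submodule.subset_span (by simp)
  have h := relFlow_isometry hΦ K.reflection (z := (x, v)) hx t
  have h1 : K.reflection x = x := Submodule.reflection_mem_subspace_eq_self hxK
  have h2 : K.reflection v = v := Submodule.reflection_mem_subspace_eq_self hvK
  have h3 : relFlow Φ t (x, v) = (K.reflection (relFlow Φ t (x, v)).1,
      K.reflection (relFlow Φ t (x, v)).2) := by
    conv_lhs => rw [← h1, ← h2]
    exact h
  constructor
  · exact (Submodule.reflection_eq_self_iff _).1 (congrArg Prod.fst h3).symm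
  · exact (Submodule.reflection_eq_self_iff _).1 (congrArg Prod.snd h3).symm

/-- **(Pl)** -/
theorem pout_mem_span (hΦ : AdmissiblePotential Φ) (z : Space3 × Space3) :
    pout Φ z ∈ Submodule.span ℝ {z.1, z.2} := by
  by_cases h : ∃ R, Exi Φ R z
  · obtain ⟨R, hz⟩ := h
    rw [pout_eq hΦ hz]
    have hreg : Reg Φ (z.1 - R • z.2) := reg_of_norm_pos (by linarith [hz.1])
    have h1 := (relFlow_mem_span hΦ (x := z.1 - R • z.2) (v := z.2) hreg (2 * R)).2
    refine (Submodule.span_le.2 ?_ : Submodule.span ℝ {z.1 - R • z.2, z.2} ≤ _) h1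
    intro w hw
    have hz1 : z.1 ∈ Submodule.span ℝ {z.1, z.2} := Submodule.subset_span (by simp)
    have hz2 : z.2 ∈ Submodule.span ℝ {z.1, z.2} := Submodule.subset_span (by simp)
    simp only [mem_insert_iff, mem_singleton_iff] at hw
    rcases hw with rfl | rfl
    · exact Submodule.sub_mem _ hz1 (Submodule.smul_mem _ _ hz2)
    · exact hz2
  · rw [pout_of_not h]; exact Submodule.zero_mem _

/-! ### Opposite outgoing velocities of two parallel lines -/

open Disc416 in
theorem cross_add_smul (a c : Space3) (s : ℝ) : cross (a + s • c) c = cross a c := by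
  apply ext3 <;> simp only [cross, vec_zero, vec_one, vec_two, PiLp.add_apply, PiLp.smul_apply,
    smul_eq_mul] <;> ring

open Disc416 in
theorem continuous_cross_right (κ : Space3) : Continuous fun g : Space3 => cross g κ := by
  unfold cross vec
  refine (PiLp.continuous_toLp 2 _).comp ?_
  refine continuous_pi fun i => ?_
  fin_cases i <;> simp <;> fun_prop

open Disc416 in
theorem cross_smul_self (κ : Space3) (s : ℝ) : cross (s • κ) κ = 0 := by
  apply ext3 <;> simp [cross, vec_zero, vec_one, vec_two] <;> ring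

/-- Almost every `g` is not parallel to a fixed vector. -/
theorem volume_span_singleton (κ : Space3) : volume {g : Space3 | g ∈ Submodule.span ℝ {κ}} = 0 := by
  refine Measure.addHaar_submodule volume (Submodule.span ℝ {κ}) ?_
  intro htop
  have h1 := finrank_span_le_card (R := ℝ) ({κ} : Set Space3)
  rw [htop] at h1
  simp at h1

open Disc416 in
theorem mem_span_of_cross {g κ : Space3} (hκ : κ ≠ 0) (h : cross g κ = 0) :
    g ∈ Submodule.span ℝ {κ} := by
  have h1 := norm_cross_sq g κ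
  rw [h, norm_zero] at h1
  have hk : 0 < ‖κ‖ ^ 2 := by positivity
  have h2 : ‖g - (inner ℝ g κ / ‖κ‖ ^ 2) • κ‖ ^ 2 = 0 := by
    rw [norm_sub_sq_real, inner_smul_right, norm_smul, mul_pow, Real.norm_eq_abs, sq_abs]
    field_simp
    nlinarith
  have h3 : g - (inner ℝ g κ / ‖κ‖ ^ 2) • κ = 0 := by
    rw [← norm_eq_zero]
    exact pow_eq_zero_iff (two_ne_zero) |>.1 h2
  rw [sub_eq_zero.1 h3]
  exact Submodule.smul_mem _ _ (Submodule.mem_span_singleton_self κ)

open Disc416 in
/-- The triple product with a fixed nonzero vector vanishes on a null set. -/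
theorem ae_triple {κ : Space3} (hκ : κ ≠ 0) :
    ∀ᵐ z : Space3 × Space3, inner ℝ z.1 (cross z.2 κ) ≠ (0 : ℝ) := by
  have hm : MeasurableSet {z : Space3 × Space3 | inner ℝ z.1 (cross z.2 κ) = (0 : ℝ)} := by
    refine (isClosed_eq ?_ continuous_const).measurableSet
    exact continuous_fst.inner ((continuous_cross_right κ).comp continuous_snd)
  rw [ae_iff]
  simp only [ne_eq, not_not]
  rw [Measure.volume_eq_prod, Measure.prod_apply_symm hm]
  refine (lintegral_congr_ae (g := fun _ => 0) ?_).trans lintegral_zero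
  have h0 : ∀ᵐ g : Space3, g ∉ Submodule.span ℝ {κ} := by
    rw [ae_iff]
    simpa only [not_not] using volume_span_singleton κ
  filter_upwards [h0] with g hg
  have hw : cross g κ ≠ 0 := fun h => hg (mem_span_of_cross hκ h)
  show volume ((fun x : Space3 => (x, g)) ⁻¹' {z : Space3 × Space3 |
    inner ℝ z.1 (cross z.2 κ) = (0 : ℝ)}) = 0
  have e : (fun x : Space3 => (x, g)) ⁻¹' {z : Space3 × Space3 |
      inner ℝ z.1 (cross z.2 κ) = (0 : ℝ)} = ((ℝ ∙ cross g κ)ᗮ : Submodule ℝ Space3) := by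
    ext x
    simp only [mem_preimage, mem_ofPred_eq, SetLike.mem_coe,
      Submodule.mem_orthogonal_singleton_iff_inner_left]
  rw [e]
  refine Measure.addHaar_submodule volume _ ?_
  intro htop
  have h1 : cross g κ ∈ (ℝ ∙ cross g κ)ᗮ := by rw [htop]; exact Submodule.mem_top
  rw [Submodule.mem_orthogonal_singleton_iff_inner_left, real_inner_self_eq_norm_sq] at h1
  exact hw (by simpa using h1)

open Disc416 in
/-- **(Op)** -/
theorem ae_opposite (hΦ : AdmissiblePotential Φ) (κ : Space3) :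
    ∀ᵐ z : Space3 × Space3, pout Φ z + pout Φ (z.1 + κ, z.2) ≠ 0 := by
  have h0 : ∀ᵐ z : Space3 × Space3, z.2 ≠ 0 := by
    rw [ae_iff]
    simpa only [not_not, ne_eq] using volume_vel_zero
  have hshift : MeasurePreserving (fun z : Space3 × Space3 => (z.1 + κ, z.2)) volume volume := by
    have h1 : MeasurePreserving (fun z : Space3 × Space3 => z + (κ, (0 : Space3))) volume volume :=
      measurePreserving_add_right volume (κ, (0 : Space3))
    have e : (fun z : Space3 × Space3 => z + (κ, (0 : Space3))) = fun z => (z.1 + κ, z.2) := by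
      funext z
      ext1
      · rfl
      · show z.2 + 0 = z.2
        rw [add_zero]
    rwa [e] at h1
  have hex := ae_exited hΦ
  have hsw := ae_pout_swap hΦ
  by_cases hκ : κ = 0
  · filter_upwards [h0, hex] with z hz ⟨R₀, hR⟩ heq
    rw [hκ, add_zero] at heq
    have h1 := norm_pout hΦ (z := z) ⟨R₀, hR R₀ le_rfl⟩
    have h2 : (2 : ℝ) • pout Φ z = 0 := by rw [two_smul]; exact heq
    rcases smul_eq_zero.1 h2 with h3 | h3
    · norm_num at h3
    · rw [h3, norm_zero] at h1
      exact hz (norm_eq_zero.1 h1.symm)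
  filter_upwards [h0, hex, hsw, hshift.quasiMeasurePreserving.ae hsw, ae_triple hκ]
    with z hz ⟨R₀, hR⟩ hs1 hs2 htr heq
  have hn := norm_pout hΦ (z := z) ⟨R₀, hR R₀ le_rfl⟩
  obtain ⟨a, b, hab⟩ := Submodule.mem_span_pair.1 (pout_mem_span hΦ z)
  obtain ⟨c, d, hcd⟩ := Submodule.mem_span_pair.1 (pout_mem_span hΦ (z.1 + κ, z.2))
  have hcd' : c • (z.1 + κ) + d • z.2 = pout Φ (z.1 + κ, z.2) := hcd
  have hsum : (a + c) • z.1 + (b + d) • z.2 + c • κ = 0 := by
    rw [← hab, ← hcd'] at heq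
    rw [← heq]
    module
  have hort1 : inner ℝ z.2 (cross z.2 κ) = (0 : ℝ) := by
    rw [real_inner_comm]; exact inner_cross_left _ _
  have hort2 : inner ℝ κ (cross z.2 κ) = (0 : ℝ) := by
    rw [real_inner_comm]; exact inner_cross_right _ _
  have h1 : (a + c) * inner ℝ z.1 (cross z.2 κ) = (0 : ℝ) := by
    have h2 := congrArg (fun w => inner ℝ w (cross z.2 κ)) hsum
    simp only [inner_add_left, inner_smul_left, conj_trivial, hort1, hort2, mul_zero, add_zero,
      inner_zero_left] at h2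
    exact h2
  have hac : a + c = 0 := by
    rcases mul_eq_zero.1 h1 with h | h
    · exact h
    · exact absurd h htr
  have hc : c = 0 := by
    by_contra hc
    rw [hac, zero_smul, zero_add] at hsum
    have h2 : κ = (-(c⁻¹ * (b + d))) • z.2 := by
      have h3 : c • κ = -((b + d) • z.2) := by
        rw [eq_neg_iff_add_eq_zero, add_comm]; exact hsum
      have h4 : κ = c⁻¹ • (c • κ) := by rw [smul_smul, inv_mul_cancel₀ hc, one_smul]
      rw [h4, h3, smul_neg, smul_smul, neg_smul]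
    apply htr
    have h5 : cross z.2 κ = 0 := by
      have h6 : cross κ z.2 = 0 := by
        conv_lhs => rw [h2]
        exact cross_smul_self _ _
      have h7 : cross z.2 κ = -cross κ z.2 := by
        apply ext3 <;> simp only [cross, vec_zero, vec_one, vec_two, PiLp.neg_apply] <;> ring
      rw [h7, h6, neg_zero]
    rw [h5, inner_zero_right]
  have ha : a = 0 := by rw [hc, add_zero] at hac; exact hac
  rw [ha, zero_smul, zero_add] at hab
  rw [hc, zero_smul, zero_add] at hcd'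
  have hb : |b| = 1 := by
    have h2 : ‖z.2‖ ≠ 0 := norm_ne_zero_iff.2 hz
    rw [← hab, norm_smul, Real.norm_eq_abs] at hn
    exact mul_right_cancel₀ h2 (by rw [hn, one_mul])
  have hbd : b + d = 0 := by
    rw [hac, hc, zero_smul, zero_smul, zero_add, add_zero] at hsum
    rcases smul_eq_zero.1 hsum with h | h
    · exact h
    · exact absurd h hz
  rcases eq_or_eq_neg_of_abs_eq hb with h | h
  · -- `pout z = g`, `pout z' = -g`
    apply hs2
    show pout Φ (z.1 + κ, z.2) = -z.2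
    rw [← hcd']
    have : d = -1 := by linarith
    rw [this, neg_one_smul]
  · apply hs1
    rw [← hab, h, neg_one_smul]

end Crest.Agent.R122.VLcore564
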