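import Mathlib
import Crest.Agent.R122.VLDefs_581
import Crest.Agent.R122.VLParDefs_823
import Crest.Agent.R122.VLout_564

/-!
# Row 122, block D3 (helper581): the limit object of a merge tree, `Gen`, `Inv` and the two Props
`AGen`, `NodeStep` from which `AE` follows

The limit system is a `VSys` (its field `ε` is not used).  For a merge tree `τ` with parameters
`π : Par τ`:

* `D τ π A p` : displacement `(M, ν)` of the final line of the particle `p` of the sub-world `A`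
  with respect to its own free line.
* `Del τ π A p s` : displacement of the path at time `s`.
* `ovL τ π z x` : limit configuration.
* `Gam` : limit path of a label.
* `Gen` : genericity conditions, `Inv` : the invariant of the recursion.
-/

set_option autoImplicit false

open MeasureTheory Set Filter Topology
open scoped ENNReal NNReal
open Crest.AnalysisR.Kinetic
open Crest.Agent.R122.Ins45 Crest.Agent.R122.GIV566 Crest.Agent.R122.VLPar823
open Crest.Agent.R122.VLPar823.MTree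
open Crest.Agent.R122.VLcore564

noncomputable section

namespace Crest.Agent.R122.VL581

open scoped Classical

/-- Half of the change of the relative velocity. -/
def kick (Φ : Space3 → ℝ) (z : Space3 × Space3) : Space3 := (1 / 2 : ℝ) • (pout Φ z - z.2)

namespace VSys

variable {J κ : Type} [Fintype J] (N : VSys J κ)

/-- The contact of `i` and `j` at time `t` is an interaction. -/
def real (i j : J) (t : ℝ) : Prop := N.o ≠ some i ∧ N.o ≠ some j ∧ N.bb i < t ∧ N.bb j < t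

/-- Displacement of the final line of `p` in the sub-world `A'`. -/
def D : ∀ τ : MTree J κ, Par τ → Finset J → J → PhasePoint
  | leaf _ => fun _ _ _ => 0
  | node A _ i B _ j P Q => fun π A' p =>
    (if p ∈ supp P then D P π.2.1 (A' ∩ supp P) p else D Q π.2.2 (A' ∩ supp Q) p) +
    if N.real i j π.1.1 ∧ i ∈ A' ∧ j ∈ A' ∧ D P π.2.1 (A' ∩ supp P) i = D P π.2.1 A i ∧
        D Q π.2.2 (A' ∩ supp Q) j = D Q π.2.2 B j then
      (if p = i then (-(π.1.1 • kick N.Φ π.1.2), kick N.Φ π.1.2)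
        else if p = j then (π.1.1 • kick N.Φ π.1.2, -kick N.Φ π.1.2) else 0)
    else 0

/-- The particles `i` and `j` of the sub-world `A'` interact at the node. -/
def mrg (A : Finset J) (i : J) (B : Finset J) (j : J) (P Q : MTree J κ) (t : ℝ) (πP : Par P)
    (πQ : Par Q) (A' : Finset J) : Prop :=
  N.real i j t ∧ i ∈ A' ∧ j ∈ A' ∧ N.D P πP (A' ∩ supp P) i = N.D P πP A i ∧
    N.D Q πQ (A' ∩ supp Q) j = N.D Q πQ B j

/-- Displacement of the path of `p` in the sub-world `A'` at time `s`. -/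
def Del : ∀ τ : MTree J κ, Par τ → Finset J → J → ℝ → Space3
  | leaf _ => fun _ _ _ _ => 0
  | node A _ i B _ j P Q => fun π A' p s =>
    (if p ∈ supp P then Del P π.2.1 (A' ∩ supp P) p s else Del Q π.2.2 (A' ∩ supp Q) p s) +
    if N.mrg A i B j P Q π.1.1 π.2.1 π.2.2 A' then
      (if p = i then max (s - π.1.1) 0 • kick N.Φ π.1.2
        else if p = j then -(max (s - π.1.1) 0 • kick N.Φ π.1.2) else 0)
    else 0

/-- Limit path of the label `(A', k, p)` for the configuration `Z`. -/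
def Gam (τ : MTree J κ) (π : Par τ) (A' : Finset J) (k : κ) (s : ℝ) (Z : J → PhasePoint) (p : J) :
    Space3 :=
  if N.o = some p then (Z p).1 + N.S.c k (max 0 (min s N.T))
  else (Z p).1 + s • (Z p).2 + N.Del τ π A' p s

/-- Limit state of the label at a time after the merges (velocity `0` for the obstacle). -/
def phL (τ : MTree J κ) (π : Par τ) (A' : Finset J) (k : κ) (s : ℝ) (Z : J → PhasePoint) (p : J) :
    PhasePoint :=
  (N.Gam τ π A' k s Z p, if N.o = some p then 0 else (Z p).2 + (N.D τ π A' p).2)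

/-- Limit configuration: `x` overwritten on the support, the root has state `z`. -/
def ovL : ∀ τ : MTree J κ, Par τ → PhasePoint → (J → PhasePoint) → (J → PhasePoint)
  | leaf j => fun _ z x => Function.update x j z
  | node A k i B l j P Q => fun π z x =>
      ovL Q π.2.2 (mv 0 π.1.1 (N.phL P π.2.1 A k π.1.1 (ovL P π.2.1 z x) i)
        (N.phL Q π.2.2 B l π.1.1 (ovL Q π.2.2 0 (ovL P π.2.1 z x)) j) π.1.2.1 π.1.2.2)
        (ovL P π.2.1 z x)

/-- Two labels with the same particle and the same final path (same tube). -/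
def Eqv (τ : MTree J κ) (π : Par τ) (A' : Finset J) (k' : κ) (i' : J) (A : Finset J) (k : κ)
    (i : J) : Prop :=
  i' = i ∧ (N.o = some i → k' = k) ∧ (N.o ≠ some i → N.D τ π A' i = N.D τ π A i)

/-- The label of a tube is active at time `s` (no condition for a particle). -/
def act (k : κ) (i : J) (s : ℝ) : Prop := N.o = some i → s ≤ N.S.b k

end VSys

/-- Time of the last merge (`-1` for a leaf). -/
def tlast {J κ : Type} : ∀ τ : MTree J κ, Par τ → ℝ
  | leaf _ => fun _ => -1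
  | node _ _ _ _ _ _ _ _ => fun π => π.1.1

/-- The edges. -/
def edg {J κ : Type} : MTree J κ → Finset (J × J)
  | leaf _ => ∅
  | node _ _ i _ _ j P Q => insert (i, j) (edg P ∪ edg Q)

/-- The time of an edge. -/
def sig {J κ : Type} : ∀ τ : MTree J κ, Par τ → J × J → ℝ
  | leaf _ => fun _ _ => 0
  | node _ _ i _ _ j P Q => fun π e =>
    if e = (i, j) then π.1.1 else if e.1 ∈ supp P then sig P π.2.1 e else sig Q π.2.2 e

namespace VSys

variable {J κ : Type} [Fintype J] (N : VSys J κ)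

/-- The conditions of `Gen` at a node; `Z` is the limit configuration. -/
structure GenNode (Bd : Set ℝ) (A : Finset J) (k : κ) (i : J) (B : Finset J) (l : κ) (j : J)
    (P Q : MTree J κ) (t : ℝ) (ζ : Space3 × Space3) (πP : Par P) (πQ : Par Q)
    (Z : J → PhasePoint) : Prop where
  /-- (N1) times -/
  tBd : t ∉ Bd
  tbb : ∀ p, t ≠ N.bb p
  tSb : ∀ k, t ≠ N.S.b k
  tPQ : ∀ e ∈ edg P, ∀ e' ∈ edg Q, sig P πP e ≠ sig Q πQ e'
  /-- (N2) no cross coincidence at other times -/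
  N2 : ∀ A' ⊆ supp P, ∀ B' ⊆ supp Q, ∀ k' l', ∀ i' ∈ A', ∀ j' ∈ B', ∀ s ∈ Icc 0 N.T, s ≠ t →
    N.act k' i' s → N.Gam P πP A' k' s Z i' ≠ N.Gam Q πQ B' l' s Z j'
  /-- (N3) cross coincidences at the merge time -/
  N3 : N.act k i t → ∀ A' ⊆ supp P, ∀ B' ⊆ supp Q, ∀ k' l', ∀ i' ∈ A', ∀ j' ∈ B',
    N.act k' i' t → N.Gam P πP A' k' t Z i' = N.Gam Q πQ B' l' t Z j' →
      N.Eqv P πP A' k' i' A k i ∧ N.Eqv Q πQ B' l' j' B l j
  /-- (N4) relative velocity -/
  N4 : N.o ≠ some i → ζ.2 ≠ 0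
  N4t : N.o = some i → ∀ v, HasDerivAt (N.S.c k) v t → ζ.2 + v ≠ 0
  /-- (N5) scattering -/
  N5 : N.real i j t → (∃ R : ℝ, Exi N.Φ R ζ) ∧ pout N.Φ ζ + ζ.2 ≠ 0 ∧
    (kick N.Φ ζ = 0 → qout N.Φ ζ = ζ.1)
  /-- (N6) the outgoing lines -/
  N6a : N.real i j t → kick N.Φ ζ ≠ 0 → ∀ s ∈ Ioc t N.T, ∀ A' ⊆ supp P, ∀ k', ∀ i' ∈ A', i' ≠ i →
    N.act k' i' s → N.Gam P πP A' k' s Z i' ≠ N.Gam P πP A k s Z i + (s - t) • kick N.Φ ζ
  N6b : N.real i j t → kick N.Φ ζ ≠ 0 → ∀ s ∈ Ioc t N.T, ∀ B' ⊆ supp Q, ∀ l', ∀ j' ∈ B',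
    ¬ N.Eqv Q πQ B' l' j' B l j →
    N.Gam Q πQ B' l' s Z j' ≠ N.Gam P πP A k s Z i + (s - t) • kick N.Φ ζ
  N6c : N.real i j t → kick N.Φ ζ ≠ 0 → ∀ s ∈ Ioc t N.T, ∀ B' ⊆ supp Q, ∀ l', ∀ j' ∈ B', j' ≠ j →
    N.Gam Q πQ B' l' s Z j' ≠ N.Gam Q πQ B l s Z j - (s - t) • kick N.Φ ζ
  N6d : N.real i j t → kick N.Φ ζ ≠ 0 → ∀ s ∈ Ioc t N.T, ∀ A' ⊆ supp P, ∀ k', ∀ i' ∈ A',
    ¬ N.Eqv P πP A' k' i' A k i → N.act k' i' s →
    N.Gam P πP A' k' s Z i' ≠ N.Gam Q πQ B l s Z j - (s - t) • kick N.Φ ζ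
  /-- (N7) no accidental equality of displacements -/
  N7P : N.real i j t → kick N.Φ ζ ≠ 0 → ∀ A' ⊆ supp P, i ∈ A' →
    N.D P πP A' i ≠ N.D P πP A i + (-(t • kick N.Φ ζ), kick N.Φ ζ)
  N7Q : N.real i j t → kick N.Φ ζ ≠ 0 → ∀ B' ⊆ supp Q, j ∈ B' →
    N.D Q πQ B' j ≠ N.D Q πQ B j + (t • kick N.Φ ζ, -kick N.Φ ζ)

/-- Genericity of the parameters.  `Bd` : finite set of exceptional times of the tubes. -/
def Gen (Bd : Set ℝ) : ∀ τ : MTree J κ, Par τ → PhasePoint → (J → PhasePoint) → Prop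
  | leaf _ => fun _ _ _ => True
  | node A k i B l j P Q => fun π z x =>
    Gen Bd P π.2.1 z x ∧ Gen Bd Q π.2.2 0 x ∧
    N.GenNode Bd A k i B l j P Q π.1.1 π.1.2 π.2.1 π.2.2 (N.ovL (node A k i B l j P Q) π z x)

end VSys

/-- Hypotheses on a sequence of systems `M` with limit `N`; `Bd` : the exceptional times of the
tubes. -/
structure Hyp {J κ : Type} [Fintype J] (M : ℕ → VSys J κ) (N : VSys J κ) (Bd : Set ℝ) : Prop where
  adm : AdmissiblePotential N.Φ
  Tpos : 0 < N.T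
  eq : ∀ k, (M k).Φ = N.Φ ∧ (M k).T = N.T ∧ (M k).o = N.o ∧ 0 < (M k).ε
  eps : Tendsto (fun k => (M k).ε) atTop (𝓝 0)
  births : ∀ i, Tendsto (fun k => (M k).b i) atTop (𝓝 (N.b i))
  tubes : TubeConv N.T (fun k => (M k).S) N.S
  gen : Generic N.T N.S
  fin : Bd.Finite
  vel : ∀ s ∈ Ioo 0 N.T, s ∉ Bd → ∀ i, s < N.S.b i →
    ∃ v : Space3, ∃ U ∈ 𝓝 s, (∀ u ∈ U, HasDerivAt (N.S.c i) v u) ∧
      ∀ᶠ k in atTop, ∀ u ∈ U, HasDerivAt ((M k).S.c i) v u

/-- The invariant of the recursion, for a sequence `Z` of configurations with limit `Zl`. -/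
structure InvC {J κ : Type} [Fintype J] (M : ℕ → VSys J κ) (N : VSys J κ) (τ : MTree J κ)
    (π : Par τ) (Z : ℕ → J → PhasePoint) (Zl : J → PhasePoint) : Prop where
  /-- velocities of the configuration -/
  vel : ∀ᶠ k in atTop, ∀ i ∈ supp τ, (Z k i).2 = (Zl i).2
  /-- positions of the configuration -/
  posn : ∀ i ∈ supp τ, Tendsto (fun k => (Z k i).1) atTop (𝓝 (Zl i).1)
  /-- no bad births -/
  ok : ∀ᶠ k in atTop, ∀ A ⊆ supp τ, (M k).ok A N.T (Z k)
  /-- straight lines after the last merge -/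
  line : ∃ R : ℝ, ∀ᶠ k in atTop, ∀ A ⊆ supp τ, ∀ i ∈ A, N.o ≠ some i →
    ∀ s ∈ Icc (tlast τ π + R * (M k).ε) N.T,
      (M k).st A s (Z k) i =
        (((M k).st A N.T (Z k) i).1 - (N.T - s) • ((Zl i).2 + (N.D τ π A i).2),
          (Zl i).2 + (N.D τ π A i).2)
  /-- labels with equal displacements have equal paths after the last merge -/
  eqv : ∃ R : ℝ, ∀ᶠ k in atTop, ∀ A ⊆ supp τ, ∀ A' ⊆ supp τ, ∀ i ∈ A, i ∈ A' → N.o ≠ some i →
    N.D τ π A i = N.D τ π A' i → ∀ s ∈ Icc (tlast τ π + R * (M k).ε) N.T,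
      (M k).st A s (Z k) i = (M k).st A' s (Z k) i
  /-- uniform convergence of the paths -/
  conv : ∀ A ⊆ supp τ, ∀ k', ∀ i ∈ A,
    TendstoUniformlyOn (fun k s => (M k).pos A k' s (Z k) i)
      (fun s => N.Gam τ π A k' s Zl i) atTop (Icc 0 N.T)
  /-- contacts -/
  ct : ∀ C : ℝ, ∃ R : ℝ, ∀ᶠ k in atTop, ∀ A ⊆ supp τ, ∀ B ⊆ supp τ, ∀ k' l', ∀ i ∈ A, ∀ j ∈ B,
    i ≠ j → ∀ s ∈ Icc 0 N.T, (M k).act k' i s → (M k).act l' j s →
      dist ((M k).pos A k' s (Z k) i) ((M k).pos B l' s (Z k) j) ≤ C * (M k).ε →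
      ∃ e ∈ edg τ, (e = (i, j) ∨ e = (j, i)) ∧ |s - sig τ π e| ≤ R * (M k).ε

/-- The invariant for the configurations with given parameters. -/
def Inv {J κ : Type} [Fintype J] (M : ℕ → VSys J κ) (N : VSys J κ) (τ : MTree J κ)
    (π : Par τ) (z : PhasePoint) (x : J → PhasePoint) : Prop :=
  InvC M N τ π (fun k => ov (M k) τ π z x) (N.ovL τ π z x)

/-- Limit paths of different particles meet only at the time of their edge. -/
def Coinc {J κ : Type} [Fintype J] (N : VSys J κ) (τ : MTree J κ) (π : Par τ)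
    (Zl : J → PhasePoint) : Prop :=
  ∀ A ⊆ supp τ, ∀ B ⊆ supp τ, ∀ k' l', ∀ i ∈ A, ∀ j ∈ B, i ≠ j → ∀ s ∈ Icc 0 N.T,
    N.act k' i s → N.act l' j s → N.Gam τ π A k' s Zl i = N.Gam τ π B l' s Zl j →
      ∃ e ∈ edg τ, (e = (i, j) ∨ e = (j, i)) ∧ s = sig τ π e

/-- **Node step** of (B): the two parts satisfy the invariant for the common configuration and the
touching labels are at `(ε ξ, g)` at time `t`. -/
def NodeStep (Φ : Space3 → ℝ) : Prop :=
  ∀ (J κ : Type) [Fintype J] [Fintype κ] (M : ℕ → VSys J κ) (N : VSys J κ) (Bd : Set ℝ),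
    N.Φ = Φ → Hyp M N Bd → ∀ (A : Finset J) (k : κ) (i : J) (B : Finset J) (l : κ) (j : J)
      (P Q : MTree J κ), WF N.o (node A k i B l j P Q) →
      ∀ (t : ℝ) (ζ : Space3 × Space3) (πP : Par P) (πQ : Par Q) (Z : ℕ → J → PhasePoint)
        (Zl : J → PhasePoint), 0 < t → t < N.T → N.act k i t → Ord P t πP → Ord Q t πQ →
        N.GenNode Bd A k i B l j P Q t ζ πP πQ Zl →
        InvC M N P πP Z Zl → InvC M N Q πQ Z Zl → Coinc N P πP Zl → Coinc N Q πQ Zl →
        (∀ᶠ m in atTop, ph (M m) A k t (Z m) i - ph (M m) B l t (Z m) j =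
          ((M m).ε • ζ.1, ζ.2)) →
        InvC M N (node A k i B l j P Q) ((t, ζ), πP, πQ) Z Zl

/-- **(A)** almost all parameters are generic. -/
def AGen (Φ : Space3 → ℝ) : Prop :=
  ∀ (J κ : Type) [Fintype J] [Fintype κ] (N : VSys J κ) (Bd : Set ℝ), N.Φ = Φ → 0 < N.T →
    Bd.Finite → (∃ L : ℝ≥0, ∀ k, LipschitzOnWith L (N.S.c k) (Icc 0 N.T)) → Generic N.T N.S →
    ∀ τ : MTree J κ, WF N.o τ → ∀ x : J → PhasePoint,
      ∀ᵐ p : Par τ × PhasePoint, Ord τ N.T p.1 → N.Gen Bd τ p.1 p.2 x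

end Crest.Agent.R122.VL581
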