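import Mathlib
import Crest.Agent.R122.VLLim_581
import Crest.Agent.R122.VLGenA_735

/-!
# Row 122, block D3 (A) (helper692): the limit object `D`, `Del`, `Gam`, `ovL`: measurability,
Lipschitz continuity in time, supports, covariance

* `measurable_kick`, `eqv_kick`, `eqv_out` : the kick and `pout + g` are isotropic;
* `measurable_D`, `measurable_Del` (jointly in the parameters and time), `lipschitz_Del`;
* `measurable_Gam`, `lipschitz_Gam`, `measurable_phL`, `measurable_ovL`;
* `ovL_of_notMem`, `ovL_congr`, `ovL_shift`, `Gam_shift`.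
-/

set_option autoImplicit false

open MeasureTheory Set Filter Topology Metric
open scoped ENNReal NNReal
open Crest.AnalysisR.Kinetic
open Crest.Agent.R122.Ins45 Crest.Agent.R122.GIV566 Crest.Agent.R122.VLPar823
open Crest.Agent.R122.VLPar823.MTree Crest.Agent.R122.VL581
open Crest.Agent.R122.VLcore564 Crest.Agent.R122.Iso735 Crest.Agent.R122.VLGen735

noncomputable section

namespace Crest.Agent.R122.VLGen692

open scoped Classical

variable {Φ : Space3 → ℝ}

/-! ### the kick -/

theorem measurable_kick (hΦ : AdmissiblePotential Φ) : Measurable (kick Φ) :=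
  ((measurable_pout hΦ).sub measurable_snd).const_smul (1 / 2 : ℝ)

theorem kick_isometry (hΦ : AdmissiblePotential Φ) (U : Space3 ≃ₗᵢ[ℝ] Space3)
    (z : Space3 × Space3) : kick Φ (U z.1, U z.2) = U (kick Φ z) := by
  unfold kick
  rw [pout_isometry hΦ, map_smul, map_sub]

theorem eqv_kick (hΦ : AdmissiblePotential Φ) :
    Iso735.Eqv (volume : Measure (Space3 × Space3)) (kick Φ) := fun O =>
  ⟨fun z => (O z.1, O z.2), O.measurePreserving.prod O.measurePreserving,
    Eventually.of_forall fun z => kick_isometry hΦ O z⟩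

/-- half of `pout + g` is `g + kick` -/
theorem add_kick (z : Space3 × Space3) : z.2 + kick Φ z = (1 / 2 : ℝ) • (pout Φ z + z.2) := by
  unfold kick
  module

theorem measurable_add_kick (hΦ : AdmissiblePotential Φ) :
    Measurable fun z : Space3 × Space3 => z.2 + kick Φ z :=
  measurable_snd.add (measurable_kick hΦ)

theorem eqv_add_kick (hΦ : AdmissiblePotential Φ) :
    Iso735.Eqv (volume : Measure (Space3 × Space3)) fun z => z.2 + kick Φ z := fun O =>
  ⟨fun z => (O z.1, O z.2), O.measurePreserving.prod O.measurePreserving,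
    Eventually.of_forall fun z => by
      show O z.2 + kick Φ (O z.1, O z.2) = O (z.2 + kick Φ z)
      rw [kick_isometry hΦ, map_add]⟩

theorem ae_add_kick (hΦ : AdmissiblePotential Φ) :
    ∀ᵐ z : Space3 × Space3, z.2 + kick Φ z ≠ 0 := by
  filter_upwards [ae_pout_swap hΦ] with z hz h
  rw [add_kick] at h
  have h1 : pout Φ z + z.2 = 0 := by
    rcases smul_eq_zero.1 h with h | h
    · norm_num at h
    · exact h
  exact hz (eq_neg_of_add_eq_zero_left h1)

/-! ### `D` and `Del` -/

section Dm

variable {J κ : Type} [Fintype J] (N : VSys J κ)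

theorem measurableSet_real (i j : J) : MeasurableSet {t : ℝ | N.real i j t} := by
  have e : {t : ℝ | N.real i j t} =
      {t | (N.o ≠ some i ∧ N.o ≠ some j)} ∩ (Ioi (N.bb i) ∩ Ioi (N.bb j)) := by
    ext t
    simp only [VSys.real, mem_ofPred_eq, mem_inter_iff, mem_Ioi]
    tauto
  rw [e]
  exact (MeasurableSet.const _).inter (measurableSet_Ioi.inter measurableSet_Ioi)

theorem measurable_D (hΦ : AdmissiblePotential N.Φ) : ∀ (τ : MTree J κ) (A' : Finset J) (p : J),
    Measurable fun π : Par τ => N.D τ π A' p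
  | leaf _ => fun _ _ => measurable_const
  | node A k i B l j P Q => fun A' p => by
      have hP := measurable_D hΦ P
      have hQ := measurable_D hΦ Q
      have m1 : Measurable fun π : (ℝ × Space3 × Space3) × Par P × Par Q => π.1.1 :=
        measurable_fst.fst
      have mk : Measurable fun π : (ℝ × Space3 × Space3) × Par P × Par Q => kick N.Φ π.1.2 :=
        (measurable_kick hΦ).comp measurable_fst.snd
      have mP : ∀ A' p, Measurable fun π : (ℝ × Space3 × Space3) × Par P × Par Q =>
          N.D P π.2.1 A' p := fun A' p => (hP A' p).comp measurable_snd.fst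
      have mQ : ∀ A' p, Measurable fun π : (ℝ × Space3 × Space3) × Par P × Par Q =>
          N.D Q π.2.2 A' p := fun A' p => (hQ A' p).comp measurable_snd.snd
      have hS : MeasurableSet {π : (ℝ × Space3 × Space3) × Par P × Par Q |
          N.real i j π.1.1 ∧ i ∈ A' ∧ j ∈ A' ∧ N.D P π.2.1 (A' ∩ supp P) i = N.D P π.2.1 A i ∧
            N.D Q π.2.2 (A' ∩ supp Q) j = N.D Q π.2.2 B j} :=
        (m1 (measurableSet_real N i j)).inter ((MeasurableSet.const _).inter
          ((MeasurableSet.const _).inter ((measurableSet_eq_fun (mP _ _) (mP _ _)).inter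
            (measurableSet_eq_fun (mQ _ _) (mQ _ _)))))
      have h1 : Measurable fun π : (ℝ × Space3 × Space3) × Par P × Par Q =>
          (if p ∈ supp P then N.D P π.2.1 (A' ∩ supp P) p else N.D Q π.2.2 (A' ∩ supp Q) p) := by
        by_cases hp : p ∈ supp P
        · simp only [if_pos hp]; exact mP _ _
        · simp only [if_neg hp]; exact mQ _ _
      have h2 : Measurable fun π : (ℝ × Space3 × Space3) × Par P × Par Q =>
          (if p = i then ((-(π.1.1 • kick N.Φ π.1.2), kick N.Φ π.1.2) : PhasePoint)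
            else if p = j then (π.1.1 • kick N.Φ π.1.2, -kick N.Φ π.1.2) else 0) := by
        by_cases hp : p = i
        · simp only [if_pos hp]
          exact (m1.smul mk).neg.prodMk mk
        · simp only [if_neg hp]
          by_cases hq : p = j
          · simp only [if_pos hq]
            exact (m1.smul mk).prodMk mk.neg
          · simp only [if_neg hq]
            exact measurable_const
      exact h1.add (Measurable.ite hS h2 measurable_const)

theorem measurableSet_mrg (hΦ : AdmissiblePotential N.Φ) (A : Finset J) (i : J) (B : Finset J)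
    (j : J) (P Q : MTree J κ) (A' : Finset J) :
    MeasurableSet {π : (ℝ × Space3 × Space3) × Par P × Par Q |
      N.mrg A i B j P Q π.1.1 π.2.1 π.2.2 A'} := by
  have m1 : Measurable fun π : (ℝ × Space3 × Space3) × Par P × Par Q => π.1.1 :=
    measurable_fst.fst
  have mP : ∀ A' p, Measurable fun π : (ℝ × Space3 × Space3) × Par P × Par Q =>
      N.D P π.2.1 A' p := fun A' p => (measurable_D N hΦ P A' p).comp measurable_snd.fst
  have mQ : ∀ A' p, Measurable fun π : (ℝ × Space3 × Space3) × Par P × Par Q =>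
      N.D Q π.2.2 A' p := fun A' p => (measurable_D N hΦ Q A' p).comp measurable_snd.snd
  exact (m1 (measurableSet_real N i j)).inter ((MeasurableSet.const _).inter
    ((MeasurableSet.const _).inter ((measurableSet_eq_fun (mP _ _) (mP _ _)).inter
      (measurableSet_eq_fun (mQ _ _) (mQ _ _)))))

/-- joint measurability of `Del` in the parameters and the time -/
theorem measurable_Del (hΦ : AdmissiblePotential N.Φ) : ∀ (τ : MTree J κ) (A' : Finset J) (p : J),
    Measurable fun q : Par τ × ℝ => N.Del τ q.1 A' p q.2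
  | leaf _ => fun _ _ => measurable_const
  | node A k i B l j P Q => fun A' p => by
      have hP := measurable_Del hΦ P
      have hQ := measurable_Del hΦ Q
      have m0 : Measurable fun q : ((ℝ × Space3 × Space3) × Par P × Par Q) × ℝ => q.2 :=
        measurable_snd
      have m1 : Measurable fun q : ((ℝ × Space3 × Space3) × Par P × Par Q) × ℝ => q.1.1.1 :=
        measurable_fst.fst.fst
      have mk : Measurable fun q : ((ℝ × Space3 × Space3) × Par P × Par Q) × ℝ =>
          kick N.Φ q.1.1.2 := (measurable_kick hΦ).comp measurable_fst.fst.snd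
      have mm : Measurable fun q : ((ℝ × Space3 × Space3) × Par P × Par Q) × ℝ =>
          max (q.2 - q.1.1.1) 0 := (m0.sub m1).max measurable_const
      have mP : ∀ A' p, Measurable fun q : ((ℝ × Space3 × Space3) × Par P × Par Q) × ℝ =>
          N.Del P q.1.2.1 A' p q.2 := fun A' p =>
        (hP A' p).comp (measurable_fst.snd.fst.prodMk measurable_snd)
      have mQ : ∀ A' p, Measurable fun q : ((ℝ × Space3 × Space3) × Par P × Par Q) × ℝ =>
          N.Del Q q.1.2.2 A' p q.2 := fun A' p =>
        (hQ A' p).comp (measurable_fst.snd.snd.prodMk measurable_snd)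
      have hS : MeasurableSet {q : ((ℝ × Space3 × Space3) × Par P × Par Q) × ℝ |
          N.mrg A i B j P Q q.1.1.1 q.1.2.1 q.1.2.2 A'} :=
        measurable_fst (measurableSet_mrg N hΦ A i B j P Q A')
      have h1 : Measurable fun q : ((ℝ × Space3 × Space3) × Par P × Par Q) × ℝ =>
          (if p ∈ supp P then N.Del P q.1.2.1 (A' ∩ supp P) p q.2
            else N.Del Q q.1.2.2 (A' ∩ supp Q) p q.2) := by
        by_cases hp : p ∈ supp P
        · simp only [if_pos hp]; exact mP _ _
        · simp only [if_neg hp]; exact mQ _ _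
      have h2 : Measurable fun q : ((ℝ × Space3 × Space3) × Par P × Par Q) × ℝ =>
          (if p = i then max (q.2 - q.1.1.1) 0 • kick N.Φ q.1.1.2
            else if p = j then -(max (q.2 - q.1.1.1) 0 • kick N.Φ q.1.1.2) else 0) := by
        by_cases hp : p = i
        · simp only [if_pos hp]
          exact mm.smul mk
        · simp only [if_neg hp]
          by_cases hq : p = j
          · simp only [if_pos hq]
            exact (mm.smul mk).neg
          · simp only [if_neg hq]
            exact measurable_const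
      exact h1.add (Measurable.ite hS h2 measurable_const)

/-- `Del` is Lipschitz in time -/
theorem lipschitz_Del : ∀ (τ : MTree J κ) (π : Par τ) (A' : Finset J) (p : J),
    ∃ K : ℝ≥0, LipschitzWith K fun s => N.Del τ π A' p s
  | leaf _ => fun _ _ _ => ⟨0, LipschitzWith.const 0⟩
  | node A k i B l j P Q => fun π A' p => by
      have hm : LipschitzWith 1 fun s : ℝ => max (s - π.1.1) 0 := by
        have h0 : LipschitzWith 1 fun s : ℝ => s - π.1.1 := by
          simpa using LipschitzWith.id.sub (LipschitzWith.const (α := ℝ) π.1.1)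
        simpa using h0.max (LipschitzWith.const (0 : ℝ))
      have hk : LipschitzWith ‖kick N.Φ π.1.2‖₊ fun s : ℝ => max (s - π.1.1) 0 • kick N.Φ π.1.2 := by
        refine LipschitzWith.of_dist_le_mul fun s s' => ?_
        rw [dist_eq_norm, ← sub_smul, norm_smul, coe_nnnorm, mul_comm]
        have := hm.dist_le_mul s s'
        rw [dist_eq_norm] at this
        simp only [NNReal.coe_one, one_mul] at this
        exact mul_le_mul_of_nonneg_left this (norm_nonneg _)
      have h1 : ∃ K : ℝ≥0, LipschitzWith K fun s =>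
          (if p ∈ supp P then N.Del P π.2.1 (A' ∩ supp P) p s
            else N.Del Q π.2.2 (A' ∩ supp Q) p s) := by
        by_cases hp : p ∈ supp P
        · simp only [if_pos hp]; exact lipschitz_Del P _ _ _
        · simp only [if_neg hp]; exact lipschitz_Del Q _ _ _
      have h2 : ∃ K : ℝ≥0, LipschitzWith K fun s =>
          (if N.mrg A i B j P Q π.1.1 π.2.1 π.2.2 A' then
            (if p = i then max (s - π.1.1) 0 • kick N.Φ π.1.2
              else if p = j then -(max (s - π.1.1) 0 • kick N.Φ π.1.2) else 0)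
            else 0) := by
        by_cases hm : N.mrg A i B j P Q π.1.1 π.2.1 π.2.2 A'
        · simp only [if_pos hm]
          by_cases hp : p = i
          · simp only [if_pos hp]; exact ⟨_, hk⟩
          · simp only [if_neg hp]
            by_cases hq : p = j
            · simp only [if_pos hq]; exact ⟨_, hk.neg⟩
            · simp only [if_neg hq]; exact ⟨0, LipschitzWith.const 0⟩
        · simp only [if_neg hm]; exact ⟨0, LipschitzWith.const 0⟩
      obtain ⟨K1, hK1⟩ := h1
      obtain ⟨K2, hK2⟩ := h2
      exact ⟨K1 + K2, hK1.add hK2⟩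

/-! ### `Gam`, `phL`, `ovL` -/

/-- clamped tubes are Lipschitz -/
theorem lipschitz_clamp {c : ℝ → Space3} {T : ℝ} (hT : 0 ≤ T) {L : ℝ≥0}
    (hc : LipschitzOnWith L c (Icc 0 T)) : LipschitzWith L fun s => c (max 0 (min s T)) := by
  have h0 : LipschitzWith 1 fun s : ℝ => max 0 (min s T) := by
    simpa using (LipschitzWith.const (α := ℝ) (0 : ℝ)).max
      (LipschitzWith.id.min (LipschitzWith.const (α := ℝ) T))
  refine LipschitzWith.of_dist_le_mul fun s s' => ?_
  have hs : ∀ s : ℝ, max 0 (min s T) ∈ Icc 0 T := fun s =>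
    ⟨le_max_left _ _, max_le hT (min_le_right _ _)⟩
  refine (hc.dist_le_mul _ (hs s) _ (hs s')).trans ?_
  have := h0.dist_le_mul s s'
  simp only [NNReal.coe_one, one_mul] at this
  exact mul_le_mul_of_nonneg_left this L.2

variable {N}

theorem lipschitz_Gam (hT : 0 ≤ N.T) (hc : ∃ L : ℝ≥0, ∀ k, LipschitzOnWith L (N.S.c k) (Icc 0 N.T))
    (τ : MTree J κ) (π : Par τ) (A' : Finset J) (k : κ) (Z : J → PhasePoint) (p : J) :
    ∃ K : ℝ≥0, LipschitzWith K fun s => N.Gam τ π A' k s Z p := by
  obtain ⟨L, hL⟩ := hc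
  by_cases hp : N.o = some p
  · simp only [VSys.Gam, if_pos hp]
    refine ⟨0 + L, (LipschitzWith.const (Z p).1).add (lipschitz_clamp hT (hL k))⟩
  · simp only [VSys.Gam, if_neg hp]
    obtain ⟨K, hK⟩ := lipschitz_Del N τ π A' p
    have h1 : LipschitzWith ‖(Z p).2‖₊ fun s : ℝ => s • (Z p).2 := by
      refine LipschitzWith.of_dist_le_mul fun s s' => ?_
      rw [dist_eq_norm, ← sub_smul, norm_smul, coe_nnnorm, mul_comm, dist_eq_norm]
    exact ⟨0 + ‖(Z p).2‖₊ + K, ((LipschitzWith.const (Z p).1).add h1).add hK⟩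

theorem measurable_Gam (hΦ : AdmissiblePotential N.Φ) (hT : 0 ≤ N.T)
    (hc : ∃ L : ℝ≥0, ∀ k, LipschitzOnWith L (N.S.c k) (Icc 0 N.T)) (τ : MTree J κ)
    (A' : Finset J) (k : κ) (p : J) {α : Type*} [MeasurableSpace α] {f : α → Par τ} {s : α → ℝ}
    {Z : α → PhasePoint} (hf : Measurable f) (hs : Measurable s) (hZ : Measurable Z) :
    Measurable fun a => if N.o = some p then (Z a).1 + N.S.c k (max 0 (min (s a) N.T))
      else (Z a).1 + s a • (Z a).2 + N.Del τ (f a) A' p (s a) := by
  obtain ⟨L, hL⟩ := hc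
  by_cases hp : N.o = some p
  · simp only [if_pos hp]
    exact hZ.fst.add ((lipschitz_clamp hT (hL k)).continuous.measurable.comp hs)
  · simp only [if_neg hp]
    exact (hZ.fst.add (hs.smul hZ.snd)).add ((measurable_Del N hΦ τ A' p).comp (hf.prodMk hs))

theorem measurable_Gam' (hΦ : AdmissiblePotential N.Φ) (hT : 0 ≤ N.T)
    (hc : ∃ L : ℝ≥0, ∀ k, LipschitzOnWith L (N.S.c k) (Icc 0 N.T)) (τ : MTree J κ)
    (A' : Finset J) (k : κ) (p : J) {α : Type*} [MeasurableSpace α] {f : α → Par τ} {s : α → ℝ}
    {Z : α → J → PhasePoint} (hf : Measurable f) (hs : Measurable s)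
    (hZ : Measurable fun a => Z a p) :
    Measurable fun a => N.Gam τ (f a) A' k (s a) (Z a) p := by
  have := measurable_Gam hΦ hT hc τ A' k p hf hs hZ
  exact this

theorem measurable_phL (hΦ : AdmissiblePotential N.Φ) (hT : 0 ≤ N.T)
    (hc : ∃ L : ℝ≥0, ∀ k, LipschitzOnWith L (N.S.c k) (Icc 0 N.T)) (τ : MTree J κ)
    (A' : Finset J) (k : κ) (p : J) {α : Type*} [MeasurableSpace α] {f : α → Par τ} {s : α → ℝ}
    {Z : α → J → PhasePoint} (hf : Measurable f) (hs : Measurable s)
    (hZ : Measurable fun a => Z a p) :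
    Measurable fun a => N.phL τ (f a) A' k (s a) (Z a) p := by
  refine (measurable_Gam' hΦ hT hc τ A' k p hf hs hZ).prodMk ?_
  by_cases hp : N.o = some p
  · simp only [if_pos hp]; exact measurable_const
  · simp only [if_neg hp]
    exact hZ.snd.add ((measurable_D N hΦ τ A' p).comp hf).snd

theorem measurable_mv {α : Type*} [MeasurableSpace α] {e t : α → ℝ} {p q : α → PhasePoint}
    {ξ g : α → Space3} (he : Measurable e) (ht : Measurable t) (hp : Measurable p)
    (hq : Measurable q) (hξ : Measurable ξ) (hg : Measurable g) :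
    Measurable fun a => mv (e a) (t a) (p a) (q a) (ξ a) (g a) := by
  have h2 : Measurable fun a => (p a).2 - g a - (q a).2 := (hp.snd.sub hg).sub hq.snd
  exact (((hp.fst.sub (he.smul hξ)).sub hq.fst).sub (ht.smul h2)).prodMk h2

/-- measurability of the limit configuration in all arguments -/
theorem measurable_ovL (hΦ : AdmissiblePotential N.Φ) (hT : 0 ≤ N.T)
    (hc : ∃ L : ℝ≥0, ∀ k, LipschitzOnWith L (N.S.c k) (Icc 0 N.T)) {α : Type*}
    [MeasurableSpace α] :
    ∀ (τ : MTree J κ) (f : α → Par τ) (z : α → PhasePoint)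
      (x : α → J → PhasePoint), Measurable f → Measurable z → (∀ p, Measurable fun a => x a p) →
      ∀ p, Measurable fun a => N.ovL τ (f a) (z a) (x a) p
  | leaf j => fun f z x hf hz hx p => by
      by_cases hp : p = j
      · subst hp
        simpa [VSys.ovL] using hz
      · simpa [VSys.ovL, Function.update_of_ne hp] using hx p
  | node A k i B l j P Q => fun f z x hf hz hx p => by
      have f1 : Measurable fun a => (f a).1.1 := Measurable.fst (Measurable.fst hf)
      have f2 : Measurable fun a => (f a).1.2.1 := Measurable.fst (Measurable.snd (Measurable.fst hf))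
      have f3 : Measurable fun a => (f a).1.2.2 := Measurable.snd (Measurable.snd (Measurable.fst hf))
      have f4 : Measurable fun a => (f a).2.1 := Measurable.fst (Measurable.snd hf)
      have f5 : Measurable fun a => (f a).2.2 := Measurable.snd (Measurable.snd hf)
      have hP := measurable_ovL hΦ hT hc P _ _ _ f4 hz hx
      have hQ := measurable_ovL hΦ hT hc Q _ (fun _ => 0) _ f5 measurable_const hP
      have h1 := measurable_phL hΦ hT hc P A k i f4 f1 (hP i)
      have h2 := measurable_phL hΦ hT hc Q B l j f5 f1 (hQ j)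
      have h3 := measurable_mv (e := fun _ : α => 0) measurable_const f1 h1 h2 f2 f3
      exact measurable_ovL hΦ hT hc Q _ _ _ f5 h3 hP p

variable (N)

theorem ovL_of_notMem : ∀ (τ : MTree J κ) (π : Par τ) (z : PhasePoint) (x : J → PhasePoint)
    {p : J}, p ∉ supp τ → N.ovL τ π z x p = x p
  | leaf j => fun π z x p hp => by
      have : p ≠ j := fun h => hp (by simp [supp, h])
      simp [VSys.ovL, Function.update_of_ne this]
  | node A k i B l j P Q => fun π z x p hp => by
      have hp' : p ∉ supp P ∧ p ∉ supp Q := by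
        simpa [supp, not_or] using hp
      show N.ovL Q π.2.2 _ (N.ovL P π.2.1 z x) p = x p
      rw [ovL_of_notMem Q _ _ _ hp'.2, ovL_of_notMem P _ _ _ hp'.1]

/-- the limit configuration on the support does not depend on the other coordinates -/
theorem ovL_congr : ∀ (τ : MTree J κ), WF N.o τ → ∀ (π : Par τ) (z : PhasePoint)
    (x x' : J → PhasePoint) {p : J}, p ∈ supp τ → N.ovL τ π z x p = N.ovL τ π z x' p
  | leaf j => fun _ π z x x' p hp => by
      have : p = j := by simpa [supp] using hp
      subst this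
      simp [VSys.ovL]
  | node A k i B l j P Q => fun hτ π z x x' p hp => by
      obtain ⟨hd, hA, hB, hi, hj, ho, hP, hQ⟩ := hτ
      have e1 : ∀ q ∈ supp P, N.ovL P π.2.1 z x q = N.ovL P π.2.1 z x' q := fun q hq =>
        ovL_congr P hP _ _ _ _ hq
      have e2 : N.phL P π.2.1 A k π.1.1 (N.ovL P π.2.1 z x) i =
          N.phL P π.2.1 A k π.1.1 (N.ovL P π.2.1 z x') i := by
        have := e1 i (hA hi)
        simp only [VSys.phL, VSys.Gam, this]
      have e3 : N.phL Q π.2.2 B l π.1.1 (N.ovL Q π.2.2 0 (N.ovL P π.2.1 z x)) j =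
          N.phL Q π.2.2 B l π.1.1 (N.ovL Q π.2.2 0 (N.ovL P π.2.1 z x')) j := by
        have := ovL_congr Q hQ π.2.2 0 (N.ovL P π.2.1 z x) (N.ovL P π.2.1 z x') (hB hj)
        simp only [VSys.phL, VSys.Gam, this]
      show N.ovL Q π.2.2 _ (N.ovL P π.2.1 z x) p = N.ovL Q π.2.2 _ (N.ovL P π.2.1 z x') p
      rw [e2, e3]
      by_cases hq : p ∈ supp Q
      · exact ovL_congr Q hQ _ _ _ _ hq
      · rw [ovL_of_notMem N Q _ _ _ hq, ovL_of_notMem N Q _ _ _ hq]
        refine e1 p ?_
        rcases Finset.mem_union.1 hp with h | h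
        · exact h
        · exact absurd h hq

/-- translation and boost of a path -/
theorem Gam_shift {τ : MTree J κ} {π : Par τ} {A' : Finset J} {k : κ} {s : ℝ}
    {Z Z' : J → PhasePoint} {p : J} {w : PhasePoint} (hp : N.o ≠ some p) (h : Z' p = Z p + w) :
    N.Gam τ π A' k s Z' p = N.Gam τ π A' k s Z p + (w.1 + s • w.2) := by
  simp only [VSys.Gam, if_neg hp, h, Prod.fst_add, Prod.snd_add]
  module

theorem phL_shift {τ : MTree J κ} {π : Par τ} {A' : Finset J} {k : κ} {s : ℝ}
    {Z Z' : J → PhasePoint} {p : J} {w : PhasePoint} (hp : N.o ≠ some p) (h : Z' p = Z p + w) :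
    N.phL τ π A' k s Z' p = N.phL τ π A' k s Z p + (w.1 + s • w.2, w.2) := by
  have h1 := Gam_shift N (τ := τ) (π := π) (A' := A') (k := k) (s := s) hp h
  ext1
  · exact h1
  · simp only [VSys.phL, if_neg hp, h, Prod.snd_add]
    abel

/-- change of the root state -/
theorem ovL_shift : ∀ (τ : MTree J κ), WF N.o τ → (∀ p ∈ supp τ, N.o ≠ some p) →
    ∀ (π : Par τ) (z w : PhasePoint) (x : J → PhasePoint) {p : J}, p ∈ supp τ →
      N.ovL τ π (z + w) x p = N.ovL τ π z x p + w
  | leaf j => fun _ _ π z w x p hp => by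
      have : p = j := by simpa [supp] using hp
      subst this
      simp [VSys.ovL]
  | node A k i B l j P Q => fun hτ hno π z w x p hp => by
      obtain ⟨hd, hA, hB, hi, hj, ho, hP, hQ⟩ := hτ
      have hnoP : ∀ p ∈ supp P, N.o ≠ some p := fun p hp => hno p (Finset.mem_union_left _ hp)
      have hnoQ : ∀ p ∈ supp Q, N.o ≠ some p := fun p hp => hno p (Finset.mem_union_right _ hp)
      have e1 : ∀ q ∈ supp P, N.ovL P π.2.1 (z + w) x q = N.ovL P π.2.1 z x q + w := fun q hq =>
        ovL_shift P hP hnoP _ _ _ _ hq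
      have e2 := phL_shift N (τ := P) (π := π.2.1) (A' := A) (k := k) (s := π.1.1)
        (hnoP i (hA hi)) (e1 i (hA hi))
      have e3 : N.phL Q π.2.2 B l π.1.1 (N.ovL Q π.2.2 0 (N.ovL P π.2.1 (z + w) x)) j =
          N.phL Q π.2.2 B l π.1.1 (N.ovL Q π.2.2 0 (N.ovL P π.2.1 z x)) j := by
        have := ovL_congr N Q hQ π.2.2 0 (N.ovL P π.2.1 (z + w) x) (N.ovL P π.2.1 z x) (hB hj)
        simp only [VSys.phL, VSys.Gam, this]
      have e4 : ∀ (t : ℝ) (a b : PhasePoint) (ξ g : Space3),
          mv 0 t (a + (w.1 + t • w.2, w.2)) b ξ g = mv 0 t a b ξ g + w := by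
        intro t a b ξ g
        ext1
        · simp only [mv, Prod.fst_add, Prod.snd_add]
          module
        · simp only [mv, Prod.snd_add]
          abel
      show N.ovL Q π.2.2 (mv 0 π.1.1 (N.phL P π.2.1 A k π.1.1 (N.ovL P π.2.1 (z + w) x) i)
          (N.phL Q π.2.2 B l π.1.1 (N.ovL Q π.2.2 0 (N.ovL P π.2.1 (z + w) x)) j) π.1.2.1 π.1.2.2)
          (N.ovL P π.2.1 (z + w) x) p =
        N.ovL Q π.2.2 (mv 0 π.1.1 (N.phL P π.2.1 A k π.1.1 (N.ovL P π.2.1 z x) i)
          (N.phL Q π.2.2 B l π.1.1 (N.ovL Q π.2.2 0 (N.ovL P π.2.1 z x)) j) π.1.2.1 π.1.2.2)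
          (N.ovL P π.2.1 z x) p + w
      rw [e2, e3, e4]
      by_cases hq : p ∈ supp Q
      · rw [ovL_shift Q hQ hnoQ _ _ _ _ hq,
          ovL_congr N Q hQ π.2.2 _ (N.ovL P π.2.1 (z + w) x) (N.ovL P π.2.1 z x) hq]
      · rw [ovL_of_notMem N Q _ _ _ hq, ovL_of_notMem N Q _ _ _ hq]
        refine e1 p ?_
        rcases Finset.mem_union.1 hp with h | h
        · exact h
        · exact absurd h hq

end Dm

end Crest.Agent.R122.VLGen692
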