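import Mathlib
import Crest.Agent.R122.VLLim_581
import Crest.Agent.R122.VLGenA_735
import Crest.Agent.R122.VLGenB_692

/-!
# Row 122, block D3 (A) (helper692): the conditions (N5), (N6), (N7) of `GenNode` hold for almost
all parameters

* `ae_ray_node` : curve + `(s - t) • f ζ` has no zero for almost all parameters;
* `ovL_left`, `ovL_right`, `Gam_left`, `Gam_right` : the limit paths of a node;
* `ae_cross_add` : `Γ_P - Γ_Q + (s - t) • (f ζ - g) ≠ 0`;
* `ae_N5`, `ae_N6a`, …, `ae_N7Q` and the collection `Rest`, `ae_rest`.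
-/

set_option autoImplicit false

open MeasureTheory Set Filter Topology Metric
open scoped ENNReal NNReal
open Crest.AnalysisR.Kinetic
open Crest.Agent.R122.Ins45 Crest.Agent.R122.GIV566 Crest.Agent.R122.VLPar823
open Crest.Agent.R122.VLPar823.MTree Crest.Agent.R122.VL581
open Crest.Agent.R122.VLcore564 Crest.Agent.R122.Iso735 Crest.Agent.R122.VLGen735

noncomputable section

namespace Crest.Agent.R122.VLGen692

open scoped Classical

/-! ### General lemmas -/

section general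

variable {X Y W : Type*} [MeasurableSpace X] [MeasurableSpace Y] [MeasurableSpace W]
  {μX : Measure X} {μY : Measure Y} {μZ : Measure W} [SFinite μX] [SFinite μY] [SFinite μZ]

/-- a curve plus a ray in an isotropic direction -/
theorem ae_ray_node {T : ℝ} {f : Space3 × Space3 → Space3} (hf : Measurable f)
    (he : Iso735.Eqv (volume : Measure (Space3 × Space3)) f) {c : ℝ → X → Y → W → ℝ → Space3}
    (hc : ∀ t x y z, ∃ C : ℝ≥0, LipschitzWith C (c t x y z))
    (hm : ∀ s, Measurable fun p : ((ℝ × Space3 × Space3) × X × Y) × W =>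
      c p.1.1.1 p.1.2.1 p.1.2.2 p.2 s) :
    ∀ᵐ p ∂(nodeM μX μY μZ), f p.1.1.2 ≠ 0 → ∀ s ∈ Icc 0 T, s ≠ p.1.1.1 →
      c p.1.1.1 p.1.2.1 p.1.2.2 p.2 s + (s - p.1.1.1) • f p.1.1.2 ≠ 0 := by
  have mt : Measurable fun p : ((ℝ × Space3 × Space3) × X × Y) × W => p.1.1.1 :=
    Measurable.fst (Measurable.fst measurable_fst)
  have mz : Measurable fun p : ((ℝ × Space3 × Space3) × X × Y) × W => p.1.1.2 :=
    Measurable.snd (Measurable.fst measurable_fst)
  have mf : Measurable fun p : ((ℝ × Space3 × Space3) × X × Y) × W => f p.1.1.2 := hf.comp mz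
  have hB1 : MeasurableSet {p : ((ℝ × Space3 × Space3) × X × Y) × W | ∃ s ∈ Icc 0 T,
      s ≠ p.1.1.1 ∧ c p.1.1.1 p.1.2.1 p.1.2.2 p.2 s + (s - p.1.1.1) • f p.1.1.2 = 0} := by
    refine measurableSet_exists_zero (F := fun p s =>
      c p.1.1.1 p.1.2.1 p.1.2.2 p.2 s + (s - p.1.1.1) • f p.1.1.2) (fun p => ?_) (fun s _ => ?_) mt
    · obtain ⟨C, hC⟩ := hc p.1.1.1 p.1.2.1 p.1.2.2 p.2
      have : Continuous fun s : ℝ => (s - p.1.1.1) • f p.1.1.2 := by fun_prop
      exact (hC.continuous.add this).continuousOn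
    · exact (hm s).add ((measurable_const.sub mt).smul mf)
  have hB2 : MeasurableSet {p : ((ℝ × Space3 × Space3) × X × Y) × W | f p.1.1.2 = 0} :=
    mf (measurableSet_singleton 0)
  have hB := hB2.compl.inter hB1
  have key := ae_sec_q (μX := μX) (μY := μY) (μZ := μZ) hB (fun t x y z => by
    obtain ⟨C, hC⟩ := hc t x y z
    filter_upwards [he.ae_ne_ray hf (a := 0) (b := T) (hC.lipschitzOnWith (s := Icc 0 T)) t]
      with q hq hmem
    obtain ⟨h1, s, hs, hst, h0⟩ := hmem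
    exact hq h1 s hs hst h0)
  filter_upwards [key] with p hp h0 s hs hst h
  exact hp ⟨h0, s, hs, hst, h⟩

/-- projection to `(ξ, g)` -/
theorem ae_of_ae_q {p : Space3 × Space3 → Prop} (h : ∀ᵐ q : Space3 × Space3, p q) :
    ∀ᵐ r ∂(nodeM μX μY μZ), p r.1.1.2 := by
  have h1 : Measure.QuasiMeasurePreserving (fun r : ((ℝ × Space3 × Space3) × X × Y) × W => r.1.1.2)
      (nodeM μX μY μZ) (volume : Measure (Space3 × Space3)) := by
    have a1 : Measure.QuasiMeasurePreserving (Prod.fst : ((ℝ × Space3 × Space3) × X × Y) × W → _)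
        (nodeM μX μY μZ) ((volume : Measure (ℝ × Space3 × Space3)).prod (μX.prod μY)) :=
      Measure.quasiMeasurePreserving_fst
    have a2 : Measure.QuasiMeasurePreserving (Prod.fst : (ℝ × Space3 × Space3) × X × Y → _)
        ((volume : Measure (ℝ × Space3 × Space3)).prod (μX.prod μY)) volume :=
      Measure.quasiMeasurePreserving_fst
    have a3 : Measure.QuasiMeasurePreserving (Prod.snd : ℝ × Space3 × Space3 → Space3 × Space3)
        volume volume := Measure.quasiMeasurePreserving_snd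
    exact a3.comp (a2.comp a1)
  exact h1.ae h

end general

/-! ### The limit paths of a node -/

section node

variable {J κ : Type} [Fintype J] {N : VSys J κ} {A : Finset J} {k : κ} {i : J} {B : Finset J}
  {l : κ} {j : J} {P Q : MTree J κ}

/-- `Gam` only depends on the state of the particle -/
theorem Gam_congr {τ : MTree J κ} {π : Par τ} {A' : Finset J} {k' : κ} {s : ℝ}
    {Z Z' : J → PhasePoint} {p : J} (h : Z p = Z' p) :
    N.Gam τ π A' k' s Z p = N.Gam τ π A' k' s Z' p := by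
  simp only [VSys.Gam, h]

/-- the root state of the right part -/
def wL (N : VSys J κ) (A : Finset J) (k : κ) (i : J) (B : Finset J) (l : κ) (j : J)
    (P Q : MTree J κ) (t : ℝ) (ζ : Space3 × Space3) (πP : Par P) (πQ : Par Q) (z : PhasePoint)
    (x : J → PhasePoint) : PhasePoint :=
  mv 0 t (N.phL P πP A k t (N.ovL P πP z x) i)
    (N.phL Q πQ B l t (N.ovL Q πQ 0 (N.ovL P πP z x)) j) ζ.1 ζ.2

theorem ovL_left (hwf : WF N.o (node A k i B l j P Q)) (π : Par (node A k i B l j P Q))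
    (z : PhasePoint) (x : J → PhasePoint) {p : J} (hp : p ∈ supp P) :
    N.ovL (node A k i B l j P Q) π z x p = N.ovL P π.2.1 z x p := by
  have hd := hwf.1
  have hq : p ∉ supp Q := fun h => (Finset.disjoint_left.1 hd) hp h
  show N.ovL Q π.2.2 _ (N.ovL P π.2.1 z x) p = _
  exact ovL_of_notMem N Q _ _ _ hq

theorem ovL_right (hwf : WF N.o (node A k i B l j P Q)) (π : Par (node A k i B l j P Q))
    (z : PhasePoint) (x : J → PhasePoint) {p : J} (hp : p ∈ supp Q) :
    N.ovL (node A k i B l j P Q) π z x p =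
      N.ovL Q π.2.2 0 x p + wL N A k i B l j P Q π.1.1 π.1.2 π.2.1 π.2.2 z x := by
  obtain ⟨hd, hA, hB, hi, hj, ho, hP, hQ⟩ := hwf
  have h1 := ovL_shift N Q hQ ho π.2.2 0 (wL N A k i B l j P Q π.1.1 π.1.2 π.2.1 π.2.2 z x)
    (N.ovL P π.2.1 z x) hp
  rw [zero_add] at h1
  have h2 := ovL_congr N Q hQ π.2.2 0 (N.ovL P π.2.1 z x) x hp
  rw [h2] at h1
  exact h1

theorem Gam_left (hwf : WF N.o (node A k i B l j P Q)) (π : Par (node A k i B l j P Q))
    (z : PhasePoint) (x : J → PhasePoint) (A' : Finset J) (k' : κ) (s : ℝ) {p : J}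
    (hp : p ∈ supp P) :
    N.Gam P π.2.1 A' k' s (N.ovL (node A k i B l j P Q) π z x) p =
      N.Gam P π.2.1 A' k' s (N.ovL P π.2.1 z x) p := Gam_congr (ovL_left hwf π z x hp)

/-- relative free line of the touching labels -/
def pq (N : VSys J κ) (A : Finset J) (k : κ) (i : J) (B : Finset J) (l : κ) (j : J)
    (P Q : MTree J κ) (t : ℝ) (πP : Par P) (πQ : Par Q) (z : PhasePoint)
    (x : J → PhasePoint) : PhasePoint :=
  N.phL P πP A k t (N.ovL P πP z x) i - N.phL Q πQ B l t (N.ovL Q πQ 0 x) j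

theorem wL_eq (hwf : WF N.o (node A k i B l j P Q)) (t : ℝ) (ζ : Space3 × Space3) (πP : Par P)
    (πQ : Par Q) (z : PhasePoint) (x : J → PhasePoint) (s : ℝ) :
    (wL N A k i B l j P Q t ζ πP πQ z x).1 + s • (wL N A k i B l j P Q t ζ πP πQ z x).2 =
      (pq N A k i B l j P Q t πP πQ z x).1 +
        (s - t) • ((pq N A k i B l j P Q t πP πQ z x).2 - ζ.2) := by
  obtain ⟨hd, hA, hB, hi, hj, ho, hP, hQ⟩ := hwf
  have h2 := ovL_congr N Q hQ πQ 0 (N.ovL P πP z x) x (hB hj)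
  have h3 : N.phL Q πQ B l t (N.ovL Q πQ 0 (N.ovL P πP z x)) j =
      N.phL Q πQ B l t (N.ovL Q πQ 0 x) j := by
    simp only [VSys.phL, VSys.Gam, h2]
  simp only [wL, pq, mv, h3, Prod.fst_sub, Prod.snd_sub]
  module

theorem Gam_right (hwf : WF N.o (node A k i B l j P Q)) (π : Par (node A k i B l j P Q))
    (z : PhasePoint) (x : J → PhasePoint) (B' : Finset J) (l' : κ) (s : ℝ) {p : J}
    (hp : p ∈ supp Q) :
    N.Gam Q π.2.2 B' l' s (N.ovL (node A k i B l j P Q) π z x) p =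
      N.Gam Q π.2.2 B' l' s (N.ovL Q π.2.2 0 x) p +
        ((pq N A k i B l j P Q π.1.1 π.2.1 π.2.2 z x).1 +
        (s - π.1.1) • ((pq N A k i B l j P Q π.1.1 π.2.1 π.2.2 z x).2 - π.1.2.2)) := by
  have ho := hwf.2.2.2.2.2.1
  rw [← wL_eq hwf π.1.1 π.1.2 π.2.1 π.2.2 z x s]
  exact Gam_shift N (ho p hp) (ovL_right hwf π z x hp)

/-! ### Measurability and Lipschitz continuity at a node -/

variable (hΦ : AdmissiblePotential N.Φ) (hT : 0 ≤ N.T)
  (hc : ∃ L : ℝ≥0, ∀ k, LipschitzOnWith L (N.S.c k) (Icc 0 N.T))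

include hΦ hT hc

theorem measurable_GamP (x : J → PhasePoint) (A' : Finset J) (k' : κ) (s : ℝ) (p : J) :
    Measurable fun r : ((ℝ × Space3 × Space3) × Par P × Par Q) × PhasePoint =>
      N.Gam P r.1.2.1 A' k' s (N.ovL P r.1.2.1 r.2 x) p := by
  have m1 : Measurable fun r : ((ℝ × Space3 × Space3) × Par P × Par Q) × PhasePoint => r.1.2.1 :=
    Measurable.fst (Measurable.snd measurable_fst)
  exact measurable_Gam' hΦ hT hc P A' k' p m1 measurable_const
    (measurable_ovL hΦ hT hc P _ _ (fun _ => x) m1 measurable_snd (fun _ => measurable_const) p)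

theorem measurable_GamQ (x : J → PhasePoint) (A' : Finset J) (k' : κ) (s : ℝ) (p : J) :
    Measurable fun r : ((ℝ × Space3 × Space3) × Par P × Par Q) × PhasePoint =>
      N.Gam Q r.1.2.2 A' k' s (N.ovL Q r.1.2.2 0 x) p := by
  have m1 : Measurable fun r : ((ℝ × Space3 × Space3) × Par P × Par Q) × PhasePoint => r.1.2.2 :=
    Measurable.snd (Measurable.snd measurable_fst)
  exact measurable_Gam' hΦ hT hc Q A' k' p m1 measurable_const
    (measurable_ovL hΦ hT hc Q _ (fun _ => 0) (fun _ => x) m1 measurable_const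
      (fun _ => measurable_const) p)

theorem measurable_pq (x : J → PhasePoint) :
    Measurable fun r : ((ℝ × Space3 × Space3) × Par P × Par Q) × PhasePoint =>
      pq N A k i B l j P Q r.1.1.1 r.1.2.1 r.1.2.2 r.2 x := by
  have m0 : Measurable fun r : ((ℝ × Space3 × Space3) × Par P × Par Q) × PhasePoint => r.1.1.1 :=
    Measurable.fst (Measurable.fst measurable_fst)
  have m1 : Measurable fun r : ((ℝ × Space3 × Space3) × Par P × Par Q) × PhasePoint => r.1.2.1 :=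
    Measurable.fst (Measurable.snd measurable_fst)
  have m2 : Measurable fun r : ((ℝ × Space3 × Space3) × Par P × Par Q) × PhasePoint => r.1.2.2 :=
    Measurable.snd (Measurable.snd measurable_fst)
  exact (measurable_phL hΦ hT hc P A k i m1 m0
    (measurable_ovL hΦ hT hc P _ _ (fun _ => x) m1 measurable_snd
      (fun _ => measurable_const) i)).sub
    (measurable_phL hΦ hT hc Q B l j m2 m0
    (measurable_ovL hΦ hT hc Q _ (fun _ => 0) (fun _ => x) m2 measurable_const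
      (fun _ => measurable_const) j))

variable {μZ : Measure PhasePoint} [SFinite μZ]

/-- two paths of the left part -/
theorem ae_PP {f : Space3 × Space3 → Space3} (hf : Measurable f)
    (he : Iso735.Eqv (volume : Measure (Space3 × Space3)) f) (x : J → PhasePoint)
    (A' : Finset J) (k' : κ) (i' : J) (A'' : Finset J) (k'' : κ) (i'' : J) :
    ∀ᵐ p ∂(nodeM (volume : Measure (Par P)) (volume : Measure (Par Q)) μZ), f p.1.1.2 ≠ 0 →
      ∀ s ∈ Icc 0 N.T, s ≠ p.1.1.1 →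
        (N.Gam P p.1.2.1 A' k' s (N.ovL P p.1.2.1 p.2 x) i' -
          N.Gam P p.1.2.1 A'' k'' s (N.ovL P p.1.2.1 p.2 x) i'') +
          (s - p.1.1.1) • f p.1.1.2 ≠ 0 := by
  refine ae_ray_node hf he (c := fun _ πP _ z s =>
    N.Gam P πP A' k' s (N.ovL P πP z x) i' - N.Gam P πP A'' k'' s (N.ovL P πP z x) i'')
    (fun t πP πQ z => ?_) (fun s => ?_)
  · obtain ⟨C1, h1⟩ := lipschitz_Gam hT hc P πP A' k' (N.ovL P πP z x) i'
    obtain ⟨C2, h2⟩ := lipschitz_Gam hT hc P πP A'' k'' (N.ovL P πP z x) i''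
    exact ⟨C1 + C2, h1.sub h2⟩
  · exact (measurable_GamP hΦ hT hc x A' k' s i').sub (measurable_GamP hΦ hT hc x A'' k'' s i'')

/-- two paths of the right part -/
theorem ae_QQ {f : Space3 × Space3 → Space3} (hf : Measurable f)
    (he : Iso735.Eqv (volume : Measure (Space3 × Space3)) f) (x : J → PhasePoint)
    (B' : Finset J) (l' : κ) (j' : J) (B'' : Finset J) (l'' : κ) (j'' : J) :
    ∀ᵐ p ∂(nodeM (volume : Measure (Par P)) (volume : Measure (Par Q)) μZ), f p.1.1.2 ≠ 0 →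
      ∀ s ∈ Icc 0 N.T, s ≠ p.1.1.1 →
        (N.Gam Q p.1.2.2 B' l' s (N.ovL Q p.1.2.2 0 x) j' -
          N.Gam Q p.1.2.2 B'' l'' s (N.ovL Q p.1.2.2 0 x) j'') +
          (s - p.1.1.1) • f p.1.1.2 ≠ 0 := by
  refine ae_ray_node hf he (c := fun _ _ πQ _ s =>
    N.Gam Q πQ B' l' s (N.ovL Q πQ 0 x) j' - N.Gam Q πQ B'' l'' s (N.ovL Q πQ 0 x) j'')
    (fun t πP πQ z => ?_) (fun s => ?_)
  · obtain ⟨C1, h1⟩ := lipschitz_Gam hT hc Q πQ B' l' (N.ovL Q πQ 0 x) j'
    obtain ⟨C2, h2⟩ := lipschitz_Gam hT hc Q πQ B'' l'' (N.ovL Q πQ 0 x) j''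
    exact ⟨C1 + C2, h1.sub h2⟩
  · exact (measurable_GamQ hΦ hT hc x B' l' s j').sub (measurable_GamQ hΦ hT hc x B'' l'' s j'')

/-- a path of the left part and a path of the right part -/
theorem ae_PQ {f : Space3 × Space3 → Space3} (hf : Measurable f)
    (he : Iso735.Eqv (volume : Measure (Space3 × Space3)) f) (x : J → PhasePoint)
    (A' : Finset J) (k' : κ) (i' : J) (B' : Finset J) (l' : κ) (j' : J) :
    ∀ᵐ p ∂(nodeM (volume : Measure (Par P)) (volume : Measure (Par Q)) μZ), f p.1.1.2 ≠ 0 →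
      ∀ s ∈ Icc 0 N.T, s ≠ p.1.1.1 →
        (N.Gam P p.1.2.1 A' k' s (N.ovL P p.1.2.1 p.2 x) i' -
          N.Gam Q p.1.2.2 B' l' s (N.ovL Q p.1.2.2 0 x) j' -
          (pq N A k i B l j P Q p.1.1.1 p.1.2.1 p.1.2.2 p.2 x).1 -
          (s - p.1.1.1) • (pq N A k i B l j P Q p.1.1.1 p.1.2.1 p.1.2.2 p.2 x).2) +
          (s - p.1.1.1) • f p.1.1.2 ≠ 0 := by
  refine ae_ray_node hf he (c := fun t πP πQ z s =>
    N.Gam P πP A' k' s (N.ovL P πP z x) i' - N.Gam Q πQ B' l' s (N.ovL Q πQ 0 x) j' -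
      (pq N A k i B l j P Q t πP πQ z x).1 - (s - t) • (pq N A k i B l j P Q t πP πQ z x).2)
    (fun t πP πQ z => ?_) (fun s => ?_)
  · obtain ⟨C1, h1⟩ := lipschitz_Gam hT hc P πP A' k' (N.ovL P πP z x) i'
    obtain ⟨C2, h2⟩ := lipschitz_Gam hT hc Q πQ B' l' (N.ovL Q πQ 0 x) j'
    have h3 : LipschitzWith ‖(pq N A k i B l j P Q t πP πQ z x).2‖₊ fun s : ℝ =>
        (s - t) • (pq N A k i B l j P Q t πP πQ z x).2 := by
      refine LipschitzWith.of_dist_le_mul fun s s' => ?_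
      rw [dist_eq_norm, ← sub_smul, norm_smul, coe_nnnorm, mul_comm, dist_eq_norm,
        sub_sub_sub_cancel_right]
    exact ⟨_, ((h1.sub h2).sub (LipschitzWith.const _)).sub h3⟩
  · have m0 : Measurable fun r : ((ℝ × Space3 × Space3) × Par P × Par Q) × PhasePoint =>
        r.1.1.1 := Measurable.fst (Measurable.fst measurable_fst)
    have h3 := measurable_pq (A := A) (k := k) (i := i) (B := B) (l := l) (j := j) (P := P)
      (Q := Q) hΦ hT hc x
    exact (((measurable_GamP hΦ hT hc x A' k' s i').sub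
      (measurable_GamQ hΦ hT hc x B' l' s j')).sub h3.fst).sub
      ((measurable_const.sub m0).smul h3.snd)

omit hT hc in
/-- (N7) -/
theorem ae_N7P (A' : Finset J) :
    ∀ᵐ p ∂(nodeM (volume : Measure (Par P)) (volume : Measure (Par Q)) μZ),
      kick N.Φ p.1.1.2 ≠ 0 → N.D P p.1.2.1 A' i ≠ N.D P p.1.2.1 A i +
        (-(p.1.1.1 • kick N.Φ p.1.1.2), kick N.Φ p.1.1.2) := by
  have m0 : Measurable fun r : ((ℝ × Space3 × Space3) × Par P × Par Q) × PhasePoint =>
    r.1.1.1 := Measurable.fst (Measurable.fst measurable_fst)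
  have mz : Measurable fun r : ((ℝ × Space3 × Space3) × Par P × Par Q) × PhasePoint =>
    kick N.Φ r.1.1.2 := (measurable_kick hΦ).comp (Measurable.snd (Measurable.fst measurable_fst))
  have m1 : Measurable fun r : ((ℝ × Space3 × Space3) × Par P × Par Q) × PhasePoint => r.1.2.1 :=
    Measurable.fst (Measurable.snd measurable_fst)
  have hB1 : MeasurableSet {p : ((ℝ × Space3 × Space3) × Par P × Par Q) × PhasePoint |
      kick N.Φ p.1.1.2 = 0} := mz (measurableSet_singleton 0)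
  have hB2 : MeasurableSet {p : ((ℝ × Space3 × Space3) × Par P × Par Q) × PhasePoint |
      N.D P p.1.2.1 A' i = N.D P p.1.2.1 A i +
        ((-(p.1.1.1 • kick N.Φ p.1.1.2), kick N.Φ p.1.1.2) : PhasePoint)} :=
    measurableSet_eq_fun ((measurable_D N hΦ P A' i).comp m1)
      (((measurable_D N hΦ P A i).comp m1).add ((m0.smul mz).neg.prodMk mz))
  have key := ae_sec_t (μX := (volume : Measure (Par P))) (μY := (volume : Measure (Par Q)))
    (μZ := μZ) (hB1.compl.inter hB2) (fun q x y z => by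
      have hs : Set.Subsingleton {t : ℝ | kick N.Φ q ≠ 0 ∧ N.D P x A' i = N.D P x A i +
          ((-(t • kick N.Φ q), kick N.Φ q) : PhasePoint)} := by
        rintro t ⟨h0, h1⟩ t' ⟨_, h2⟩
        have h3 := congrArg Prod.fst (add_left_cancel (h1.symm.trans h2))
        have h4 : t • kick N.Φ q = t' • kick N.Φ q := neg_inj.1 h3
        exact smul_left_injective ℝ h0 h4
      have := hs.measure_zero (volume : Measure ℝ)
      rw [ae_iff]
      refine measure_mono_null ?_ this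
      intro t ht
      simpa using ht)
  filter_upwards [key] with p hp h0 h
  exact hp ⟨h0, h⟩

omit hT hc in
theorem ae_N7Q (B' : Finset J) :
    ∀ᵐ p ∂(nodeM (volume : Measure (Par P)) (volume : Measure (Par Q)) μZ),
      kick N.Φ p.1.1.2 ≠ 0 → N.D Q p.1.2.2 B' j ≠ N.D Q p.1.2.2 B j +
        (p.1.1.1 • kick N.Φ p.1.1.2, -kick N.Φ p.1.1.2) := by
  have m0 : Measurable fun r : ((ℝ × Space3 × Space3) × Par P × Par Q) × PhasePoint =>
    r.1.1.1 := Measurable.fst (Measurable.fst measurable_fst)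
  have mz : Measurable fun r : ((ℝ × Space3 × Space3) × Par P × Par Q) × PhasePoint =>
    kick N.Φ r.1.1.2 := (measurable_kick hΦ).comp (Measurable.snd (Measurable.fst measurable_fst))
  have m1 : Measurable fun r : ((ℝ × Space3 × Space3) × Par P × Par Q) × PhasePoint => r.1.2.2 :=
    Measurable.snd (Measurable.snd measurable_fst)
  have hB1 : MeasurableSet {p : ((ℝ × Space3 × Space3) × Par P × Par Q) × PhasePoint |
      kick N.Φ p.1.1.2 = 0} := mz (measurableSet_singleton 0)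
  have hB2 : MeasurableSet {p : ((ℝ × Space3 × Space3) × Par P × Par Q) × PhasePoint |
      N.D Q p.1.2.2 B' j = N.D Q p.1.2.2 B j +
        ((p.1.1.1 • kick N.Φ p.1.1.2, -kick N.Φ p.1.1.2) : PhasePoint)} :=
    measurableSet_eq_fun ((measurable_D N hΦ Q B' j).comp m1)
      (((measurable_D N hΦ Q B j).comp m1).add ((m0.smul mz).prodMk mz.neg))
  have key := ae_sec_t (μX := (volume : Measure (Par P))) (μY := (volume : Measure (Par Q)))
    (μZ := μZ) (hB1.compl.inter hB2) (fun q x y z => by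
      have hs : Set.Subsingleton {t : ℝ | kick N.Φ q ≠ 0 ∧ N.D Q y B' j = N.D Q y B j +
          ((t • kick N.Φ q, -kick N.Φ q) : PhasePoint)} := by
        rintro t ⟨h0, h1⟩ t' ⟨_, h2⟩
        have h3 := congrArg Prod.fst (add_left_cancel (h1.symm.trans h2))
        have h4 : t • kick N.Φ q = t' • kick N.Φ q := h3
        exact smul_left_injective ℝ h0 h4
      have := hs.measure_zero (volume : Measure ℝ)
      rw [ae_iff]
      refine measure_mono_null ?_ this
      intro t ht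
      simpa using ht)
  filter_upwards [key] with p hp h0 h
  exact hp ⟨h0, h⟩

end node

/-! ### Collection -/

section rest

variable {J κ : Type} [Fintype J] (N : VSys J κ)

/-- The conditions (N5), (N6), (N7) of `GenNode`. -/
structure Rest (A : Finset J) (k : κ) (i : J) (B : Finset J) (l : κ) (j : J)
    (P Q : MTree J κ) (t : ℝ) (ζ : Space3 × Space3) (πP : Par P) (πQ : Par Q)
    (Z : J → PhasePoint) : Prop where
  /-- (N5) scattering -/
  N5 : N.real i j t → (∃ R : ℝ, Exi N.Φ R ζ) ∧ pout N.Φ ζ + ζ.2 ≠ 0 ∧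
    (kick N.Φ ζ = 0 → qout N.Φ ζ = ζ.1)
  /-- (N6) the outgoing lines -/
  N6a : N.real i j t → kick N.Φ ζ ≠ 0 → ∀ s ∈ Ioc t N.T, ∀ A' ⊆ supp P, ∀ k', ∀ i' ∈ A', i' ≠ i →
    N.act k' i' s → N.Gam P πP A' k' s Z i' ≠ N.Gam P πP A k s Z i + (s - t) • kick N.Φ ζ
  N6b : N.real i j t → kick N.Φ ζ ≠ 0 → ∀ s ∈ Ioc t N.T, ∀ B' ⊆ supp Q, ∀ l', ∀ j' ∈ B',
    ¬ N.Eqv Q πQ B' l' j' B l j →
    N.Gam Q πQ B' l' s Z j' ≠ N.Gam P πP A k s Z i + (s - t) • kick N.Φ ζ
  N6c : N.real i j t → kick N.Φ ζ ≠ 0 → ∀ s ∈ Ioc t N.T, ∀ B' ⊆ supp Q, ∀ l', ∀ j' ∈ B', j' ≠ j →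
    N.Gam Q πQ B' l' s Z j' ≠ N.Gam Q πQ B l s Z j - (s - t) • kick N.Φ ζ
  N6d : N.real i j t → kick N.Φ ζ ≠ 0 → ∀ s ∈ Ioc t N.T, ∀ A' ⊆ supp P, ∀ k', ∀ i' ∈ A',
    ¬ N.Eqv P πP A' k' i' A k i → N.act k' i' s →
    N.Gam P πP A' k' s Z i' ≠ N.Gam Q πQ B l s Z j - (s - t) • kick N.Φ ζ
  /-- (N7) no accidental equality of displacements -/
  N7P : N.real i j t → kick N.Φ ζ ≠ 0 → ∀ A' ⊆ supp P, i ∈ A' →
    N.D P πP A' i ≠ N.D P πP A i + (-(t • kick N.Φ ζ), kick N.Φ ζ)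
  N7Q : N.real i j t → kick N.Φ ζ ≠ 0 → ∀ B' ⊆ supp Q, j ∈ B' →
    N.D Q πQ B' j ≠ N.D Q πQ B j + (t • kick N.Φ ζ, -kick N.Φ ζ)

variable {N}

/-- **(N5), (N6), (N7) hold for almost all parameters**, for every s-finite law of the root. -/
theorem ae_rest [Fintype κ] (hΦ : AdmissiblePotential N.Φ) (hT : 0 ≤ N.T)
    (hc : ∃ L : ℝ≥0, ∀ k, LipschitzOnWith L (N.S.c k) (Icc 0 N.T)) {A : Finset J} {k : κ} {i : J}
    {B : Finset J} {l : κ} {j : J} {P Q : MTree J κ} (hwf : WF N.o (node A k i B l j P Q))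
    (x : J → PhasePoint) (μZ : Measure PhasePoint) [SFinite μZ] :
    ∀ᵐ p ∂((volume : Measure (Par (node A k i B l j P Q))).prod μZ), 0 < p.1.1.1 →
      Rest N A k i B l j P Q p.1.1.1 p.1.1.2 p.1.2.1 p.1.2.2
        (N.ovL (node A k i B l j P Q) p.1 p.2 x) := by
  have hk := measurable_kick hΦ
  have ek := eqv_kick hΦ
  have hg := measurable_add_kick hΦ
  have eg := eqv_add_kick hΦ
  have a1 : ∀ᵐ p ∂(nodeM (volume : Measure (Par P)) (volume : Measure (Par Q)) μZ),
      ∃ R₀ : ℝ, ∀ R, R₀ ≤ R → Exi N.Φ R p.1.1.2 := ae_of_ae_q (ae_exited hΦ)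
  have a2 : ∀ᵐ p ∂(nodeM (volume : Measure (Par P)) (volume : Measure (Par Q)) μZ),
      pout N.Φ p.1.1.2 ≠ -p.1.1.2.2 :=
    ae_of_ae_q (p := fun z => pout N.Φ z ≠ -z.2) (ae_pout_swap hΦ)
  have a3 : ∀ᵐ p ∂(nodeM (volume : Measure (Par P)) (volume : Measure (Par Q)) μZ),
      pout N.Φ p.1.1.2 = p.1.1.2.2 → qout N.Φ p.1.1.2 = p.1.1.2.1 :=
    ae_of_ae_q (p := fun z => pout N.Φ z = z.2 → qout N.Φ z = z.1) (ae_glance hΦ)
  have a4 : ∀ᵐ p ∂(nodeM (volume : Measure (Par P)) (volume : Measure (Par Q)) μZ),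
      p.1.1.2.2 + kick N.Φ p.1.1.2 ≠ 0 :=
    ae_of_ae_q (p := fun z => z.2 + kick N.Φ z ≠ 0) (ae_add_kick hΦ)
  have b1 := ae_all_iff.2 fun A' : Finset J => ae_all_iff.2 fun k' : κ => ae_all_iff.2 fun i' : J =>
    ae_PP (P := P) (Q := Q) (μZ := μZ) hΦ hT hc hk ek x A k i A' k' i'
  have b2 := ae_all_iff.2 fun A' : Finset J => ae_all_iff.2 fun k' : κ => ae_all_iff.2 fun i' : J =>
    ae_PQ (A := A) (k := k) (i := i) (B := B) (l := l) (j := j) (P := P) (Q := Q) (μZ := μZ)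
      hΦ hT hc hg eg x A k i A' k' i'
  have b3 := ae_all_iff.2 fun A' : Finset J => ae_all_iff.2 fun k' : κ => ae_all_iff.2 fun i' : J =>
    ae_QQ (P := P) (Q := Q) (μZ := μZ) hΦ hT hc hk ek x A' k' i' B l j
  have b4 := ae_all_iff.2 fun A' : Finset J => ae_all_iff.2 fun k' : κ => ae_all_iff.2 fun i' : J =>
    ae_PQ (A := A) (k := k) (i := i) (B := B) (l := l) (j := j) (P := P) (Q := Q) (μZ := μZ)
      hΦ hT hc hg eg x A' k' i' B l j
  have c1 := ae_all_iff.2 fun A' : Finset J =>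
    ae_N7P (A := A) (i := i) (P := P) (Q := Q) (μZ := μZ) hΦ A'
  have c2 := ae_all_iff.2 fun B' : Finset J =>
    ae_N7Q (B := B) (j := j) (P := P) (Q := Q) (μZ := μZ) hΦ B'
  have hgoal : ∀ᵐ p ∂(nodeM (volume : Measure (Par P)) (volume : Measure (Par Q)) μZ),
      0 < p.1.1.1 → Rest N A k i B l j P Q p.1.1.1 p.1.1.2 p.1.2.1 p.1.2.2
        (N.ovL (node A k i B l j P Q) p.1 p.2 x) := by
    filter_upwards [a1, a2, a3, a4, b1, b2, b3, b4, c1, c2] with p
      ⟨R₀, h1⟩ h2 h3 h4 hb1 hb2 hb3 hb4 hc1 hc2 ht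
    have hA : A ⊆ supp P := hwf.2.1
    have hB : B ⊆ supp Q := hwf.2.2.1
    have hi : i ∈ supp P := hA hwf.2.2.2.1
    have hj : j ∈ supp Q := hB hwf.2.2.2.2.1
    have hIcc : ∀ {s : ℝ}, s ∈ Ioc p.1.1.1 N.T → s ∈ Icc 0 N.T := fun {s} hs =>
      ⟨(ht.trans hs.1).le, hs.2⟩
    refine ⟨fun _ => ⟨⟨R₀, h1 R₀ le_rfl⟩, fun h => h2 (eq_neg_of_add_eq_zero_left h), fun h => ?_⟩,
      ?_, ?_, ?_, ?_, fun _ h0 A' _ _ => hc1 A' h0, fun _ h0 B' _ _ => hc2 B' h0⟩
    · refine h3 ?_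
      have h5 : pout N.Φ p.1.1.2 - p.1.1.2.2 = 0 := by
        rcases smul_eq_zero.1 h with h | h
        · norm_num at h
        · exact h
      exact sub_eq_zero.1 h5
    · intro _ h0 s hs A' hA' k' i' hi' _ _ he
      rw [Gam_left hwf p.1 p.2 x A' k' s (hA' hi'), Gam_left hwf p.1 p.2 x A k s hi] at he
      refine hb1 A' k' i' h0 s (hIcc hs) hs.1.ne' ?_
      rw [he]
      abel
    · intro _ h0 s hs B' hB' l' j' hj' _ he
      rw [Gam_right hwf p.1 p.2 x B' l' s (hB' hj'), Gam_left hwf p.1 p.2 x A k s hi] at he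
      refine hb2 B' l' j' h4 s (hIcc hs) hs.1.ne' ?_
      have he' := sub_eq_zero.2 he
      rw [← neg_eq_zero, ← he']
      module
    · intro _ h0 s hs B' hB' l' j' hj' _ he
      rw [Gam_right hwf p.1 p.2 x B' l' s (hB' hj'), Gam_right hwf p.1 p.2 x B l s hj] at he
      refine hb3 B' l' j' h0 s (hIcc hs) hs.1.ne' ?_
      have he' := sub_eq_zero.2 he
      rw [← he']
      module
    · intro _ h0 s hs A' hA' k' i' hi' _ _ he
      rw [Gam_left hwf p.1 p.2 x A' k' s (hA' hi'), Gam_right hwf p.1 p.2 x B l s hj] at he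
      refine hb4 A' k' i' h4 s (hIcc hs) hs.1.ne' ?_
      have he' := sub_eq_zero.2 he
      rw [← he']
      module
  exact hgoal

end rest

end Crest.Agent.R122.VLGen692
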