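import Mathlib
import Crest.Agent.R122.VLLim_581
import Crest.Agent.R122.VLGenA_735
import Crest.Agent.R122.VLGenB_692
import Crest.Agent.R122.VLGenC_692

/-!
# Row 122, block D3 (A) (helper692): the conditions (N1), (N2), (N4) of `GenNode` hold for almost
all parameters

* `qmp_sig` : the time of an edge has an absolutely continuous law;
* `Rest1`, `ae_N124`.
-/

set_option autoImplicit false

open MeasureTheory Set Filter Topology Metric
open scoped ENNReal NNReal
open Crest.AnalysisR.Kinetic
open Crest.Agent.R122.Ins45 Crest.Agent.R122.GIV566 Crest.Agent.R122.VLPar823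
open Crest.Agent.R122.VLPar823.MTree Crest.Agent.R122.VL581
open Crest.Agent.R122.VLcore564 Crest.Agent.R122.Iso735 Crest.Agent.R122.VLGen735

noncomputable section

namespace Crest.Agent.R122.VLGen692

open scoped Classical

theorem ae_ne_const {E : Type*} [MeasurableSpace E] {μ : Measure E} [NullSingletonClass μ] (c : E) :
    ∀ᵐ x ∂μ, x ≠ c := by
  rw [ae_iff]
  simp

/-! ### The times of the edges -/

theorem edg_fst_mem {J κ : Type} {o : Option J} : ∀ τ : MTree J κ, WF o τ → ∀ e ∈ edg τ,
    e.1 ∈ supp τ
  | leaf _ => fun _ e he => absurd he (Finset.notMem_empty e)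
  | node A k i B l j P Q => fun hτ e he => by
      obtain ⟨hd, hA, hB, hi, hj, ho, hP, hQ⟩ := hτ
      rcases Finset.mem_insert.1 he with h | h
      · rw [h]
        exact Finset.mem_union_left _ (hA hi)
      · rcases Finset.mem_union.1 h with h | h
        · exact Finset.mem_union_left _ (edg_fst_mem P hP e h)
        · exact Finset.mem_union_right _ (edg_fst_mem Q hQ e h)

/-- the law of the time of an edge is absolutely continuous -/
theorem qmp_sig {J κ : Type} {o : Option J} : ∀ τ : MTree J κ, WF o τ → ∀ e ∈ edg τ,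
    Measure.QuasiMeasurePreserving (fun π : Par τ => sig τ π e) volume volume
  | leaf _ => fun _ e he => absurd he (Finset.notMem_empty e)
  | node A k i B l j P Q => fun hτ e he => by
      obtain ⟨hd, hA, hB, hi, hj, ho, hP, hQ⟩ := hτ
      have a1 : Measure.QuasiMeasurePreserving
          (Prod.fst : (ℝ × Space3 × Space3) × Par P × Par Q → ℝ × Space3 × Space3)
          ((volume : Measure (ℝ × Space3 × Space3)).prod
            ((volume : Measure (Par P)).prod (volume : Measure (Par Q)))) volume :=
        Measure.quasiMeasurePreserving_fst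
      have a2 : Measure.QuasiMeasurePreserving
          (Prod.snd : (ℝ × Space3 × Space3) × Par P × Par Q → Par P × Par Q)
          ((volume : Measure (ℝ × Space3 × Space3)).prod
            ((volume : Measure (Par P)).prod (volume : Measure (Par Q))))
          ((volume : Measure (Par P)).prod (volume : Measure (Par Q))) :=
        Measure.quasiMeasurePreserving_snd
      have b1 : Measure.QuasiMeasurePreserving (Prod.fst : Par P × Par Q → Par P)
          ((volume : Measure (Par P)).prod (volume : Measure (Par Q))) volume :=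
        Measure.quasiMeasurePreserving_fst
      have b2 : Measure.QuasiMeasurePreserving (Prod.snd : Par P × Par Q → Par Q)
          ((volume : Measure (Par P)).prod (volume : Measure (Par Q))) volume :=
        Measure.quasiMeasurePreserving_snd
      have c1 : Measure.QuasiMeasurePreserving (Prod.fst : ℝ × Space3 × Space3 → ℝ)
          volume volume := Measure.quasiMeasurePreserving_fst
      by_cases h1 : e = (i, j)
      · have : (fun π : Par (node A k i B l j P Q) => sig (node A k i B l j P Q) π e) =
            fun π => π.1.1 := by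
          funext π
          simp only [sig, if_pos h1]
        rw [this]
        exact c1.comp a1
      · have h2 : e ∈ edg P ∪ edg Q := Finset.mem_of_mem_insert_of_ne he h1
        rcases Finset.mem_union.1 h2 with h | h
        · have hs := edg_fst_mem P hP e h
          have : (fun π : Par (node A k i B l j P Q) => sig (node A k i B l j P Q) π e) =
              fun π => sig P π.2.1 e := by
            funext π
            simp only [sig, if_neg h1, if_pos hs]
          rw [this]
          exact (qmp_sig P hP e h).comp (b1.comp a2)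
        · have hs : e.1 ∉ supp P := fun h' =>
            Finset.disjoint_left.1 hd h' (edg_fst_mem Q hQ e h)
          have : (fun π : Par (node A k i B l j P Q) => sig (node A k i B l j P Q) π e) =
              fun π => sig Q π.2.2 e := by
            funext π
            simp only [sig, if_neg h1, if_neg hs]
          rw [this]
          exact (qmp_sig Q hQ e h).comp (b2.comp a2)

section general

variable {X Y W : Type*} [MeasurableSpace X] [MeasurableSpace Y] [MeasurableSpace W]
  {μX : Measure X} {μY : Measure Y} {μZ : Measure W} [SFinite μX] [SFinite μY] [SFinite μZ]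

/-- projection to the time -/
theorem ae_of_ae_t {p : ℝ → Prop} (h : ∀ᵐ t : ℝ, p t) :
    ∀ᵐ r ∂(nodeM μX μY μZ), p r.1.1.1 := by
  have h1 : Measure.QuasiMeasurePreserving (fun r : ((ℝ × Space3 × Space3) × X × Y) × W => r.1.1.1)
      (nodeM μX μY μZ) (volume : Measure ℝ) := by
    have a1 : Measure.QuasiMeasurePreserving (Prod.fst : ((ℝ × Space3 × Space3) × X × Y) × W → _)
        (nodeM μX μY μZ) ((volume : Measure (ℝ × Space3 × Space3)).prod (μX.prod μY)) :=
      Measure.quasiMeasurePreserving_fst
    have a2 : Measure.QuasiMeasurePreserving (Prod.fst : (ℝ × Space3 × Space3) × X × Y → _)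
        ((volume : Measure (ℝ × Space3 × Space3)).prod (μX.prod μY)) volume :=
      Measure.quasiMeasurePreserving_fst
    have a3 : Measure.QuasiMeasurePreserving (Prod.fst : ℝ × Space3 × Space3 → ℝ)
        volume volume := Measure.quasiMeasurePreserving_fst
    exact a3.comp (a2.comp a1)
  exact h1.ae h

theorem ae_snd_ne (c : Space3) : ∀ᵐ q : Space3 × Space3, q.2 ≠ c :=
  (Measure.quasiMeasurePreserving_snd (μ := (volume : Measure Space3))
    (ν := (volume : Measure Space3))).ae (ae_ne_const c)

/-- the relative velocity is not opposite to the velocity of a curve -/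
theorem ae_deriv (c : ℝ → Space3) :
    ∀ᵐ p ∂(nodeM μX μY μZ), ∀ v, HasDerivAt c v p.1.1.1 → p.1.1.2.2 + v ≠ 0 := by
  have mt : Measurable fun p : ((ℝ × Space3 × Space3) × X × Y) × W => p.1.1.1 :=
    Measurable.fst (Measurable.fst measurable_fst)
  have mg : Measurable fun p : ((ℝ × Space3 × Space3) × X × Y) × W => p.1.1.2.2 :=
    Measurable.snd (Measurable.snd (Measurable.fst measurable_fst))
  have hB : MeasurableSet {p : ((ℝ × Space3 × Space3) × X × Y) × W |
      p.1.1.2.2 = -deriv c p.1.1.1} :=
    measurableSet_eq_fun mg (((measurable_deriv c).comp mt).neg)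
  have key := ae_sec_q (μX := μX) (μY := μY) (μZ := μZ) hB (fun t x y z => by
    filter_upwards [ae_snd_ne (-deriv c t)] with q hq h
    exact hq h)
  filter_upwards [key] with p hp v hv h0
  refine hp ?_
  show p.1.1.2.2 = -deriv c p.1.1.1
  rw [hv.deriv]
  exact eq_neg_of_add_eq_zero_left h0

end general

/-! ### Collection -/

section rest

variable {J κ : Type} [Fintype J] (N : VSys J κ)

/-- The conditions (N1), (N2), (N4) of `GenNode` (in stronger form: no activity, all tubes). -/
structure Rest1 (Bd : Set ℝ) (A : Finset J) (k : κ) (i : J) (B : Finset J) (l : κ) (j : J)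
    (P Q : MTree J κ) (t : ℝ) (ζ : Space3 × Space3) (πP : Par P) (πQ : Par Q)
    (Z : J → PhasePoint) : Prop where
  /-- (N1) times -/
  tBd : t ∉ Bd
  tbb : ∀ p, t ≠ N.bb p
  tSb : ∀ k, t ≠ N.S.b k
  tPQ : ∀ e ∈ edg P, ∀ e' ∈ edg Q, sig P πP e ≠ sig Q πQ e'
  /-- (N2) no cross coincidence at other times -/
  N2 : ∀ A' ⊆ supp P, ∀ B' ⊆ supp Q, ∀ k' l', ∀ i' ∈ A', ∀ j' ∈ B', ∀ s ∈ Icc 0 N.T, s ≠ t →
    N.Gam P πP A' k' s Z i' ≠ N.Gam Q πQ B' l' s Z j'
  /-- (N4) relative velocity -/
  N4 : ζ.2 ≠ 0
  N4t : ∀ k', ∀ v, HasDerivAt (N.S.c k') v t → ζ.2 + v ≠ 0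

variable {N}

/-- **(N1), (N2), (N4) hold for almost all parameters**, for every s-finite law of the root. -/
theorem ae_N124 [Fintype κ] (hΦ : AdmissiblePotential N.Φ) (hT : 0 ≤ N.T)
    (hc : ∃ L : ℝ≥0, ∀ k, LipschitzOnWith L (N.S.c k) (Icc 0 N.T)) {Bd : Set ℝ} (hBd : Bd.Finite)
    {A : Finset J} {k : κ} {i : J}
    {B : Finset J} {l : κ} {j : J} {P Q : MTree J κ} (hwf : WF N.o (node A k i B l j P Q))
    (x : J → PhasePoint) (μZ : Measure PhasePoint) [SFinite μZ] :
    ∀ᵐ p ∂((volume : Measure (Par (node A k i B l j P Q))).prod μZ),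
      Rest1 N Bd A k i B l j P Q p.1.1.1 p.1.1.2 p.1.2.1 p.1.2.2
        (N.ovL (node A k i B l j P Q) p.1 p.2 x) := by
  have hP := hwf.2.2.2.2.2.2.1
  have hQ := hwf.2.2.2.2.2.2.2
  have eg : Iso735.Eqv (volume : Measure (Space3 × Space3)) fun z : Space3 × Space3 => z.2 :=
    fun O => ⟨fun z => (O z.1, O z.2), O.measurePreserving.prod O.measurePreserving,
      Eventually.of_forall fun z => rfl⟩
  have a1 : ∀ᵐ p ∂(nodeM (volume : Measure (Par P)) (volume : Measure (Par Q)) μZ),
      p.1.1.1 ∉ Bd := ae_of_ae_t (p := fun t => t ∉ Bd) (by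
    rw [ae_iff]
    simpa using hBd.measure_zero volume)
  have a2 : ∀ᵐ p ∂(nodeM (volume : Measure (Par P)) (volume : Measure (Par Q)) μZ),
      ∀ q : J, p.1.1.1 ≠ N.bb q := ae_all_iff.2 fun q => ae_of_ae_t (p := fun t => t ≠ N.bb q)
        (ae_ne_const _)
  have a3 : ∀ᵐ p ∂(nodeM (volume : Measure (Par P)) (volume : Measure (Par Q)) μZ),
      ∀ k' : κ, p.1.1.1 ≠ N.S.b k' :=
    ae_all_iff.2 fun k' => ae_of_ae_t (p := fun t => t ≠ N.S.b k') (ae_ne_const _)
  have a4 : ∀ᵐ p ∂(nodeM (volume : Measure (Par P)) (volume : Measure (Par Q)) μZ),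
      ∀ e e' : J × J, e ∈ edg P → e' ∈ edg Q → sig P p.1.2.1 e ≠ sig Q p.1.2.2 e' := by
    refine ae_all_iff.2 fun e => ae_all_iff.2 fun e' => ?_
    by_cases he : e ∈ edg P
    · by_cases he' : e' ∈ edg Q
      · have q1 := qmp_sig P hP e he
        have q2 := qmp_sig Q hQ e' he'
        have m1 : Measurable fun r : ((ℝ × Space3 × Space3) × Par P × Par Q) × PhasePoint =>
          r.1.2.1 := Measurable.fst (Measurable.snd measurable_fst)
        have m2 : Measurable fun r : ((ℝ × Space3 × Space3) × Par P × Par Q) × PhasePoint =>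
          r.1.2.2 := Measurable.snd (Measurable.snd measurable_fst)
        have hB : MeasurableSet {p : ((ℝ × Space3 × Space3) × Par P × Par Q) × PhasePoint |
            sig P p.1.2.1 e = sig Q p.1.2.2 e'} :=
          measurableSet_eq_fun (q1.measurable.comp m1) (q2.measurable.comp m2)
        have key := ae_sec_l (μX := (volume : Measure (Par P)))
          (μY := (volume : Measure (Par Q))) (μZ := μZ) hB (fun r y z =>
            q1.ae (ae_ne_const (sig Q y e')))
        filter_upwards [key] with p hp _ _
        exact hp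
      · exact Eventually.of_forall fun p _ h => absurd h he'
    · exact Eventually.of_forall fun p h => absurd h he
  have a5 : ∀ᵐ p ∂(nodeM (volume : Measure (Par P)) (volume : Measure (Par Q)) μZ),
      p.1.1.2.2 ≠ 0 := ae_of_ae_q (p := fun z => z.2 ≠ 0) (ae_snd_ne 0)
  have a6 : ∀ᵐ p ∂(nodeM (volume : Measure (Par P)) (volume : Measure (Par Q)) μZ),
      ∀ k' : κ, ∀ v, HasDerivAt (N.S.c k') v p.1.1.1 → p.1.1.2.2 + v ≠ 0 :=
    ae_all_iff.2 fun k' => ae_deriv (N.S.c k')
  have b := ae_all_iff.2 fun A' : Finset J => ae_all_iff.2 fun k' : κ => ae_all_iff.2 fun i' : J =>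
    ae_all_iff.2 fun B' : Finset J => ae_all_iff.2 fun l' : κ => ae_all_iff.2 fun j' : J =>
    ae_PQ (A := A) (k := k) (i := i) (B := B) (l := l) (j := j) (P := P) (Q := Q) (μZ := μZ)
      hΦ hT hc measurable_snd eg x A' k' i' B' l' j'
  have hgoal : ∀ᵐ p ∂(nodeM (volume : Measure (Par P)) (volume : Measure (Par Q)) μZ),
      Rest1 N Bd A k i B l j P Q p.1.1.1 p.1.1.2 p.1.2.1 p.1.2.2
        (N.ovL (node A k i B l j P Q) p.1 p.2 x) := by
    filter_upwards [a1, a2, a3, a4, a5, a6, b] with p h1 h2 h3 h4 h5 h6 hb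
    refine ⟨h1, h2, h3, fun e he e' he' => h4 e e' he he', ?_, h5, h6⟩
    intro A' hA' B' hB' k' l' i' hi' j' hj' s hs hst he
    rw [Gam_left hwf p.1 p.2 x A' k' s (hA' hi'), Gam_right hwf p.1 p.2 x B' l' s (hB' hj')] at he
    refine hb A' k' i' B' l' j' h5 s hs hst ?_
    have he' := sub_eq_zero.2 he
    rw [← he']
    module
  exact hgoal

end rest

end Crest.Agent.R122.VLGen692
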