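import Crest.Agent.R122.VLLim_581

/-!
# Row 122, block D3 (B) (helper399): coincidences of the limit paths of a merge tree

* `del_eq_D`: after the merges the displacement is affine.
* `edg_supp`, `sig_pos`, `sig_lt`, `edg_card`: the edges of a merge tree.
* `coinc_node`: limit paths of different particles meet only at the times of the edges (node step).
-/

set_option autoImplicit false
set_option linter.unusedSectionVars false

open MeasureTheory Set Filter Topology
open scoped ENNReal NNReal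
open Crest.AnalysisR.Kinetic
open Crest.Agent.R122.Ins45 Crest.Agent.R122.GIV566 Crest.Agent.R122.VLPar823
open Crest.Agent.R122.VLPar823.MTree
open Crest.Agent.R122.VLcore564 Crest.Agent.R122.VL581

noncomputable section

namespace Crest.Agent.R122.VLInv399

open scoped Classical

variable {J κ : Type} [Fintype J] (N : VSys J κ)

/-! ### Affine displacement after the merges -/

theorem D_node (A : Finset J) (k : κ) (i : J) (B : Finset J) (l : κ) (j : J) (P Q : MTree J κ)
    (π : Par (node A k i B l j P Q)) (A' : Finset J) (p : J) :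
    N.D (node A k i B l j P Q) π A' p =
      (if p ∈ supp P then N.D P π.2.1 (A' ∩ supp P) p else N.D Q π.2.2 (A' ∩ supp Q) p) +
      if N.mrg A i B j P Q π.1.1 π.2.1 π.2.2 A' then
        (if p = i then (-(π.1.1 • kick N.Φ π.1.2), kick N.Φ π.1.2)
          else if p = j then (π.1.1 • kick N.Φ π.1.2, -kick N.Φ π.1.2) else 0)
      else 0 := by
  by_cases h : N.mrg A i B j P Q π.1.1 π.2.1 π.2.2 A'
  · rw [if_pos h]; exact congrArg₂ (· + ·) rfl (if_pos h)
  · rw [if_neg h]; exact congrArg₂ (· + ·) rfl (if_neg h)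

theorem Del_node (A : Finset J) (k : κ) (i : J) (B : Finset J) (l : κ) (j : J) (P Q : MTree J κ)
    (π : Par (node A k i B l j P Q)) (A' : Finset J) (p : J) (s : ℝ) :
    N.Del (node A k i B l j P Q) π A' p s =
      (if p ∈ supp P then N.Del P π.2.1 (A' ∩ supp P) p s
        else N.Del Q π.2.2 (A' ∩ supp Q) p s) +
      if N.mrg A i B j P Q π.1.1 π.2.1 π.2.2 A' then
        (if p = i then max (s - π.1.1) 0 • kick N.Φ π.1.2
          else if p = j then -(max (s - π.1.1) 0 • kick N.Φ π.1.2) else 0)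
      else 0 := by
  rfl

theorem del_eq_D : ∀ (τ : MTree J κ) {u : ℝ} {π : Par τ}, Ord τ u π → ∀ (A' : Finset J) (p : J)
    {s : ℝ}, u ≤ s → N.Del τ π A' p s = (N.D τ π A' p).1 + s • (N.D τ π A' p).2
  | leaf j, u, π, _, A', p, s, _ => by
    show (0 : Space3) = (0 : PhasePoint).1 + s • (0 : PhasePoint).2
    simp
  | node A k i B l j P Q, u, π, hO, A', p, s, hs => by
    have hP := del_eq_D P hO.2.2.1 (A' ∩ supp P) p (hO.2.1.le.trans hs)
    have hQ := del_eq_D Q hO.2.2.2 (A' ∩ supp Q) p (hO.2.1.le.trans hs)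
    have hst : π.1.1 ≤ s := hO.2.1.le.trans hs
    rw [D_node, Del_node, Prod.fst_add, Prod.snd_add, smul_add, hP, hQ,
      max_eq_left (sub_nonneg.2 hst)]
    have h1 : (if p ∈ supp P then
          (N.D P π.2.1 (A' ∩ supp P) p).1 + s • (N.D P π.2.1 (A' ∩ supp P) p).2
        else (N.D Q π.2.2 (A' ∩ supp Q) p).1 + s • (N.D Q π.2.2 (A' ∩ supp Q) p).2) =
        (if p ∈ supp P then N.D P π.2.1 (A' ∩ supp P) p else N.D Q π.2.2 (A' ∩ supp Q) p).1 +
        s • (if p ∈ supp P then N.D P π.2.1 (A' ∩ supp P) p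
          else N.D Q π.2.2 (A' ∩ supp Q) p).2 := by
      split_ifs <;> rfl
    have h2 : (if N.mrg A i B j P Q π.1.1 π.2.1 π.2.2 A' then
          (if p = i then (s - π.1.1) • kick N.Φ π.1.2
            else if p = j then -((s - π.1.1) • kick N.Φ π.1.2) else 0) else (0 : Space3)) =
        (if N.mrg A i B j P Q π.1.1 π.2.1 π.2.2 A' then
          (if p = i then (-(π.1.1 • kick N.Φ π.1.2), kick N.Φ π.1.2)
            else if p = j then (π.1.1 • kick N.Φ π.1.2, -kick N.Φ π.1.2) else 0)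
          else (0 : PhasePoint)).1 +
        s • (if N.mrg A i B j P Q π.1.1 π.2.1 π.2.2 A' then
          (if p = i then (-(π.1.1 • kick N.Φ π.1.2), kick N.Φ π.1.2)
            else if p = j then (π.1.1 • kick N.Φ π.1.2, -kick N.Φ π.1.2) else 0)
          else (0 : PhasePoint)).2 := by
      split_ifs
      · show (s - π.1.1) • kick N.Φ π.1.2 = -(π.1.1 • kick N.Φ π.1.2) + s • kick N.Φ π.1.2
        module
      · show -((s - π.1.1) • kick N.Φ π.1.2) = π.1.1 • kick N.Φ π.1.2 + s • -kick N.Φ π.1.2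
        module
      · show (0 : Space3) = (0 : PhasePoint).1 + s • (0 : PhasePoint).2
        simp
      · show (0 : Space3) = (0 : PhasePoint).1 + s • (0 : PhasePoint).2
        simp
    rw [h1, h2]
    abel

/-- Label paths with the same final displacement coincide after the merges. -/
theorem gam_eq_of_D {τ : MTree J κ} {u : ℝ} {π : Par τ} (hO : Ord τ u π) {A' A : Finset J}
    {k' k : κ} {p : J} (ho : N.o ≠ some p) (h : N.D τ π A' p = N.D τ π A p) {s : ℝ} (hs : u ≤ s)
    (Z : J → PhasePoint) : N.Gam τ π A' k' s Z p = N.Gam τ π A k s Z p := by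
  unfold VSys.Gam
  rw [if_neg ho, if_neg ho, del_eq_D N τ hO A' p hs, del_eq_D N τ hO A p hs, h]

/-- After the merges a limit path is a straight line. -/
theorem gam_line {τ : MTree J κ} {u : ℝ} {π : Par τ} (hO : Ord τ u π) {A' : Finset J}
    {k' : κ} {p : J} (ho : N.o ≠ some p) {s t : ℝ} (ht : u ≤ t) (hs : u ≤ s) (Z : J → PhasePoint) :
    N.Gam τ π A' k' s Z p =
      N.Gam τ π A' k' t Z p + (s - t) • ((Z p).2 + (N.D τ π A' p).2) := by
  unfold VSys.Gam
  rw [if_neg ho, if_neg ho, del_eq_D N τ hO A' p hs, del_eq_D N τ hO A' p ht]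
  module

/-! ### Edges -/

theorem edg_supp {o : Option J} : ∀ {τ : MTree J κ}, WF o τ → ∀ {e : J × J}, e ∈ edg τ →
    e.1 ∈ supp τ ∧ e.2 ∈ supp τ
  | leaf j, _, e, he => absurd he (Finset.notMem_empty e)
  | node A k i B l j P Q, hW, e, he => by
    obtain ⟨hd, hA, hB, hi, hj, hoQ, hWP, hWQ⟩ := hW
    change e ∈ insert (i, j) (edg P ∪ edg Q) at he
    change e.1 ∈ supp P ∪ supp Q ∧ e.2 ∈ supp P ∪ supp Q
    rw [Finset.mem_insert, Finset.mem_union] at he
    rw [Finset.mem_union, Finset.mem_union]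
    rcases he with rfl | he | he
    · exact ⟨Or.inl (hA hi), Or.inr (hB hj)⟩
    · exact ⟨Or.inl (edg_supp hWP he).1, Or.inl (edg_supp hWP he).2⟩
    · exact ⟨Or.inr (edg_supp hWQ he).1, Or.inr (edg_supp hWQ he).2⟩

section node

variable {o : Option J} {A : Finset J} {k : κ} {i : J} {B : Finset J} {l : κ} {j : J}
  {P Q : MTree J κ}

theorem not_mem_Q (hW : WF o (node A k i B l j P Q)) {p : J} (hp : p ∈ supp P) : p ∉ supp Q :=
  fun hq => (Finset.disjoint_left.1 hW.1 hp) hq

theorem not_mem_P (hW : WF o (node A k i B l j P Q)) {p : J} (hp : p ∈ supp Q) : p ∉ supp P :=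
  fun hq => (Finset.disjoint_left.1 hW.1 hq) hp

theorem mem_edg_node {e : J × J} :
    e ∈ edg (node A k i B l j P Q) ↔ e = (i, j) ∨ e ∈ edg P ∨ e ∈ edg Q := by
  change e ∈ insert (i, j) (edg P ∪ edg Q) ↔ _
  rw [Finset.mem_insert, Finset.mem_union]

theorem sig_node (π : Par (node A k i B l j P Q)) (e : J × J) :
    sig (node A k i B l j P Q) π e =
      if e = (i, j) then π.1.1 else if e.1 ∈ supp P then sig P π.2.1 e else sig Q π.2.2 e := rfl

theorem sig_new (π : Par (node A k i B l j P Q)) :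
    sig (node A k i B l j P Q) π (i, j) = π.1.1 := by
  rw [sig_node, if_pos rfl]

theorem sig_left (hW : WF o (node A k i B l j P Q)) (π : Par (node A k i B l j P Q))
    {e : J × J} (he : e ∈ edg P) : sig (node A k i B l j P Q) π e = sig P π.2.1 e := by
  have h := edg_supp hW.2.2.2.2.2.2.1 he
  rw [sig_node, if_neg, if_pos h.1]
  rintro rfl
  exact not_mem_Q hW h.2 (hW.2.2.1 hW.2.2.2.2.1)

theorem sig_right (hW : WF o (node A k i B l j P Q)) (π : Par (node A k i B l j P Q))
    {e : J × J} (he : e ∈ edg Q) : sig (node A k i B l j P Q) π e = sig Q π.2.2 e := by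
  have h := edg_supp hW.2.2.2.2.2.2.2 he
  rw [sig_node, if_neg, if_neg (not_mem_P hW h.1)]
  rintro rfl
  exact not_mem_P hW h.1 (hW.2.1 hW.2.2.2.1)

end node

theorem sig_bounds {o : Option J} : ∀ {τ : MTree J κ}, WF o τ → ∀ {u : ℝ} {π : Par τ},
    Ord τ u π → ∀ {e : J × J}, e ∈ edg τ → 0 < sig τ π e ∧ sig τ π e < u
  | leaf j, _, _, _, _, e, he => absurd he (Finset.notMem_empty e)
  | node A k i B l j P Q, hW, u, π, hO, e, he => by
    rcases mem_edg_node.1 he with rfl | he | he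
    · rw [sig_new]
      exact ⟨hO.1, hO.2.1⟩
    · rw [sig_left hW π he]
      have h := sig_bounds hW.2.2.2.2.2.2.1 hO.2.2.1 he
      exact ⟨h.1, h.2.trans hO.2.1⟩
    · rw [sig_right hW π he]
      have h := sig_bounds hW.2.2.2.2.2.2.2 hO.2.2.2 he
      exact ⟨h.1, h.2.trans hO.2.1⟩

theorem edg_card {o : Option J} : ∀ {τ : MTree J κ}, WF o τ → (edg τ).card + 1 = (supp τ).card
  | leaf j, _ => by
    change (∅ : Finset (J × J)).card + 1 = ({j} : Finset J).card
    simp
  | node A k i B l j P Q, hW => by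
    have hP := edg_card hW.2.2.2.2.2.2.1
    have hQ := edg_card hW.2.2.2.2.2.2.2
    change (insert (i, j) (edg P ∪ edg Q)).card + 1 = (supp P ∪ supp Q).card
    have h1 : (i, j) ∉ edg P ∪ edg Q := by
      rw [Finset.mem_union]
      rintro (h | h)
      · exact not_mem_Q hW (edg_supp hW.2.2.2.2.2.2.1 h).2 (hW.2.2.1 hW.2.2.2.2.1)
      · exact not_mem_P hW (edg_supp hW.2.2.2.2.2.2.2 h).1 (hW.2.1 hW.2.2.2.1)
    have h2 : Disjoint (edg P) (edg Q) := by
      rw [Finset.disjoint_left]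
      intro e he he'
      exact not_mem_Q hW (edg_supp hW.2.2.2.2.2.2.1 he).1 (edg_supp hW.2.2.2.2.2.2.2 he').1
    rw [Finset.card_insert_of_notMem h1, Finset.card_union_of_disjoint h2,
      Finset.card_union_of_disjoint hW.1, ← hP, ← hQ]
    omega

theorem edg_ne {o : Option J} : ∀ {τ : MTree J κ}, WF o τ → ∀ {e : J × J}, e ∈ edg τ → e.1 ≠ e.2
  | leaf j, _, e, he => absurd he (Finset.notMem_empty e)
  | node A k i B l j P Q, hW, e, he => by
    rcases mem_edg_node.1 he with rfl | he | he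
    · rintro (h : i = j)
      exact not_mem_Q hW (hW.2.1 hW.2.2.2.1) (h ▸ hW.2.2.1 hW.2.2.2.2.1)
    · exact edg_ne hW.2.2.2.2.2.2.1 he
    · exact edg_ne hW.2.2.2.2.2.2.2 he

/-! ### Label paths of a node -/

section gam

variable {A : Finset J} {k : κ} {i : J} {B : Finset J} {l : κ} {j : J}
  {P Q : MTree J κ}

/-- Kick of the particle `p` at the node. -/
def nk (i j p : J) (w : Space3) : Space3 := if p = i then w else if p = j then -w else 0

theorem gam_tube {τ : MTree J κ} {π : Par τ} {A' : Finset J} {k' : κ} {s : ℝ}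
    {Z : J → PhasePoint} {p : J} (ho : N.o = some p) :
    N.Gam τ π A' k' s Z p = (Z p).1 + N.S.c k' (max 0 (min s N.T)) := by
  unfold VSys.Gam
  rw [if_pos ho]

/-- Additional displacement of the label `(A', p)` at the node. -/
def ext (A : Finset J) (i : J) (B : Finset J) (j : J) (P Q : MTree J κ) (t : ℝ)
    (ζ : Space3 × Space3) (πP : Par P) (πQ : Par Q) (A' : Finset J) (p : J) (s : ℝ) : Space3 :=
  if N.mrg A i B j P Q t πP πQ A' then max (s - t) 0 • nk i j p (kick N.Φ ζ) else 0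

theorem ext_tube {t : ℝ} {ζ : Space3 × Space3} {πP : Par P} {πQ : Par Q} {A' : Finset J} {p : J}
    {s : ℝ} (ho : N.o = some p) : ext N A i B j P Q t ζ πP πQ A' p s = 0 := by
  unfold ext
  split_ifs with h
  · have hi : p ≠ i := fun h' => h.1.1 (by rw [ho, h'])
    have hj : p ≠ j := fun h' => h.1.2.1 (by rw [ho, h'])
    unfold nk
    rw [if_neg hi, if_neg hj, smul_zero]
  · rfl

theorem gam_node_left (π : Par (node A k i B l j P Q)) {A' : Finset J} (k' : κ) (s : ℝ)
    (Z : J → PhasePoint) {p : J} (hp : p ∈ supp P) :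
    N.Gam (node A k i B l j P Q) π A' k' s Z p =
      N.Gam P π.2.1 (A' ∩ supp P) k' s Z p +
        ext N A i B j P Q π.1.1 π.1.2 π.2.1 π.2.2 A' p s := by
  by_cases ho : N.o = some p
  · rw [gam_tube N ho, gam_tube N ho, ext_tube N ho, add_zero]
  unfold VSys.Gam
  rw [if_neg ho, if_neg ho, Del_node, if_pos hp, ← add_assoc]
  congr 1
  unfold ext nk
  split_ifs <;> simp

theorem gam_node_right (π : Par (node A k i B l j P Q)) {A' : Finset J} (k' : κ) (s : ℝ)
    (Z : J → PhasePoint) {p : J} (hp : p ∉ supp P) :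
    N.Gam (node A k i B l j P Q) π A' k' s Z p =
      N.Gam Q π.2.2 (A' ∩ supp Q) k' s Z p +
        ext N A i B j P Q π.1.1 π.1.2 π.2.1 π.2.2 A' p s := by
  by_cases ho : N.o = some p
  · rw [gam_tube N ho, gam_tube N ho, ext_tube N ho, add_zero]
  unfold VSys.Gam
  rw [if_neg ho, if_neg ho, Del_node, if_neg hp, ← add_assoc]
  congr 1
  unfold ext nk
  split_ifs <;> simp

theorem ext_cases (A : Finset J) (i : J) (B : Finset J) (j : J) (P Q : MTree J κ) (t : ℝ)
    (ζ : Space3 × Space3) (πP : Par P) (πQ : Par Q) (A' : Finset J) (p : J) (s : ℝ) (hij : i ≠ j) :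
    ext N A i B j P Q t ζ πP πQ A' p s = 0 ∨
      (N.mrg A i B j P Q t πP πQ A' ∧ t < s ∧ kick N.Φ ζ ≠ 0 ∧
        ((p = i ∧ ext N A i B j P Q t ζ πP πQ A' p s = (s - t) • kick N.Φ ζ) ∨
          (p = j ∧ ext N A i B j P Q t ζ πP πQ A' p s = -((s - t) • kick N.Φ ζ)))) := by
  by_cases hm : N.mrg A i B j P Q t πP πQ A'
  swap
  · left; unfold ext; rw [if_neg hm]
  by_cases hs : t < s
  swap
  · left; unfold ext; rw [if_pos hm, max_eq_right (by linarith [not_lt.1 hs]), zero_smul]
  by_cases hw : kick N.Φ ζ = 0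
  · left; unfold ext nk; rw [if_pos hm, hw]; simp
  have hmax : max (s - t) 0 = s - t := max_eq_left (by linarith)
  by_cases hpi : p = i
  · right
    refine ⟨hm, hs, hw, Or.inl ⟨hpi, ?_⟩⟩
    unfold ext nk
    rw [if_pos hm, if_pos hpi, hmax]
  by_cases hpj : p = j
  · right
    refine ⟨hm, hs, hw, Or.inr ⟨hpj, ?_⟩⟩
    unfold ext nk
    rw [if_pos hm, if_neg hpi, if_pos hpj, hmax, smul_neg]
  · left; unfold ext nk; rw [if_pos hm, if_neg hpi, if_neg hpj, smul_zero]

end gam

/-! ### The node step -/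

/-- Relation of the two touching labels after the merge time. -/
theorem gam_rel {A : Finset J} {k : κ} {i : J} {B : Finset J} {l : κ} {j : J} {P Q : MTree J κ}
    {t : ℝ} {ζ : Space3 × Space3} {πP : Par P} {πQ : Par Q} {Zl : J → PhasePoint}
    (hOP : Ord P t πP) (hOQ : Ord Q t πQ)
    (hrel : N.phL P πP A k t Zl i - N.phL Q πQ B l t Zl j = (0, ζ.2))
    (hoi : N.o ≠ some i) (hoj : N.o ≠ some j) {s : ℝ} (hs : t ≤ s) :
    N.Gam P πP A k s Zl i = N.Gam Q πQ B l s Zl j + (s - t) • ζ.2 := by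
  have h1 : N.Gam P πP A k t Zl i - N.Gam Q πQ B l t Zl j = 0 := congrArg Prod.fst hrel
  have h2 : ((Zl i).2 + (N.D P πP A i).2) - ((Zl j).2 + (N.D Q πQ B j).2) = ζ.2 := by
    have := congrArg Prod.snd hrel
    change (if N.o = some i then 0 else (Zl i).2 + (N.D P πP A i).2) -
      (if N.o = some j then 0 else (Zl j).2 + (N.D Q πQ B j).2) = ζ.2 at this
    rwa [if_neg hoi, if_neg hoj] at this
  rw [gam_line N hOP hoi le_rfl hs, gam_line N hOQ hoj le_rfl hs, sub_eq_zero.1 h1, ← h2]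
  module

theorem coinc_node {Bd : Set ℝ} {A : Finset J} {k : κ} {i : J} {B : Finset J} {l : κ} {j : J}
    {P Q : MTree J κ} (hΦ : AdmissiblePotential N.Φ) (hW : WF N.o (node A k i B l j P Q))
    {t : ℝ} {ζ : Space3 × Space3} {πP : Par P} {πQ : Par Q} {Zl : J → PhasePoint}
    (hact : N.act k i t) (hOP : Ord P t πP) (hOQ : Ord Q t πQ)
    (hG : N.GenNode Bd A k i B l j P Q t ζ πP πQ Zl)
    (hrel : N.phL P πP A k t Zl i - N.phL Q πQ B l t Zl j = (0, ζ.2))
    (hP : Coinc N P πP Zl) (hQ : Coinc N Q πQ Zl) :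
    Coinc N (node A k i B l j P Q) ((t, ζ), πP, πQ) Zl := by
  have hW' := hW
  obtain ⟨hd, hA, hB, hi, hj, hoQ, hWP, hWQ⟩ := hW'
  have hiP : i ∈ supp P := hA hi
  have hjQ : j ∈ supp Q := hB hj
  have hij : i ≠ j := fun h => not_mem_Q hW hiP (h ▸ hjQ)
  set w := kick N.Φ ζ with hw
  have hwdef : w = (1 / 2 : ℝ) • (pout N.Φ ζ - ζ.2) := rfl
  set π : Par (node A k i B l j P Q) := ((t, ζ), πP, πQ) with hπ
  -- both in `P`
  have hPP : ∀ A' B' : Finset J, ∀ k' l', ∀ i' ∈ A', ∀ j' ∈ B', i' ∈ supp P → j' ∈ supp P →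
      i' ≠ j' → ∀ s ∈ Icc 0 N.T, N.act k' i' s → N.act l' j' s →
      N.Gam (node A k i B l j P Q) π A' k' s Zl i' = N.Gam (node A k i B l j P Q) π B' l' s Zl j' →
      ∃ e ∈ edg (node A k i B l j P Q), (e = (i', j') ∨ e = (j', i')) ∧
        s = sig (node A k i B l j P Q) π e := by
    intro A' B' k' l' i' hi' j' hj' hiP' hjP' hne s hs hai haj heq
    rw [gam_node_left N π k' s Zl hiP', gam_node_left N π l' s Zl hjP'] at heq
    have hni : i' ≠ j := fun h => not_mem_Q hW hiP' (h ▸ hjQ)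
    have hnj : j' ≠ j := fun h => not_mem_Q hW hjP' (h ▸ hjQ)
    have hi'' : i' ∈ A' ∩ supp P := Finset.mem_inter.2 ⟨hi', hiP'⟩
    have hj'' : j' ∈ B' ∩ supp P := Finset.mem_inter.2 ⟨hj', hjP'⟩
    rcases ext_cases N A i B j P Q t ζ πP πQ A' i' s hij with h1 | ⟨hm1, hts, hw0, h1 | h1⟩
    · rcases ext_cases N A i B j P Q t ζ πP πQ B' j' s hij with h2 | ⟨hm2, hts, hw0, h2 | h2⟩
      · rw [show ext N A i B j P Q π.1.1 π.1.2 π.2.1 π.2.2 A' i' s = 0 from h1,
          show ext N A i B j P Q π.1.1 π.1.2 π.2.1 π.2.2 B' j' s = 0 from h2, add_zero,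
          add_zero] at heq
        obtain ⟨e, he, hee, hse⟩ := hP _ Finset.inter_subset_right _ Finset.inter_subset_right
          k' l' i' hi'' j' hj'' hne s hs hai haj heq
        exact ⟨e, mem_edg_node.2 (Or.inr (Or.inl he)), hee, by rw [sig_left hW π he]; exact hse⟩
      · exfalso
        rw [show ext N A i B j P Q π.1.1 π.1.2 π.2.1 π.2.2 A' i' s = 0 from h1,
          show ext N A i B j P Q π.1.1 π.1.2 π.2.1 π.2.2 B' j' s = _ from h2.2, add_zero] at heq
        have hji : j' = i := h2.1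
        subst hji
        rw [gam_eq_of_D N hOP (k := k) hm2.1.1 hm2.2.2.2.1 hts.le] at heq
        exact hG.N6a hm2.1 hw0 s ⟨hts, hs.2⟩ _ Finset.inter_subset_right k' i' hi'' hne hai heq
      · exact absurd h2.1 hnj
    · exfalso
      have hii : i' = i := h1.1
      subst hii
      rcases ext_cases N A i' B j P Q t ζ πP πQ B' j' s hij with h2 | ⟨hm2, _, _, h2 | h2⟩
      · rw [show ext N A i' B j P Q π.1.1 π.1.2 π.2.1 π.2.2 A' i' s = _ from h1.2,
          show ext N A i' B j P Q π.1.1 π.1.2 π.2.1 π.2.2 B' j' s = 0 from h2, add_zero,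
          gam_eq_of_D N hOP (k := k) hm1.1.1 hm1.2.2.2.1 hts.le] at heq
        exact hG.N6a hm1.1 hw0 s ⟨hts, hs.2⟩ _ Finset.inter_subset_right l' j' hj'' hne.symm haj
          heq.symm
      · exact hne h2.1.symm
      · exact hnj h2.1
    · exact absurd h1.1 hni
  -- both in `Q`
  have hQQ : ∀ A' B' : Finset J, ∀ k' l', ∀ i' ∈ A', ∀ j' ∈ B', i' ∈ supp Q → j' ∈ supp Q →
      i' ≠ j' → ∀ s ∈ Icc 0 N.T, N.act k' i' s → N.act l' j' s →
      N.Gam (node A k i B l j P Q) π A' k' s Zl i' = N.Gam (node A k i B l j P Q) π B' l' s Zl j' →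
      ∃ e ∈ edg (node A k i B l j P Q), (e = (i', j') ∨ e = (j', i')) ∧
        s = sig (node A k i B l j P Q) π e := by
    intro A' B' k' l' i' hi' j' hj' hiQ' hjQ' hne s hs hai haj heq
    rw [gam_node_right N π k' s Zl (not_mem_P hW hiQ'),
      gam_node_right N π l' s Zl (not_mem_P hW hjQ')] at heq
    have hni : i' ≠ i := fun h => not_mem_P hW hiQ' (h ▸ hiP)
    have hnj : j' ≠ i := fun h => not_mem_P hW hjQ' (h ▸ hiP)
    have hi'' : i' ∈ A' ∩ supp Q := Finset.mem_inter.2 ⟨hi', hiQ'⟩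
    have hj'' : j' ∈ B' ∩ supp Q := Finset.mem_inter.2 ⟨hj', hjQ'⟩
    rcases ext_cases N A i B j P Q t ζ πP πQ A' i' s hij with h1 | ⟨hm1, hts, hw0, h1 | h1⟩
    · rcases ext_cases N A i B j P Q t ζ πP πQ B' j' s hij with h2 | ⟨hm2, hts, hw0, h2 | h2⟩
      · rw [show ext N A i B j P Q π.1.1 π.1.2 π.2.1 π.2.2 A' i' s = 0 from h1,
          show ext N A i B j P Q π.1.1 π.1.2 π.2.1 π.2.2 B' j' s = 0 from h2, add_zero,
          add_zero] at heq
        obtain ⟨e, he, hee, hse⟩ := hQ _ Finset.inter_subset_right _ Finset.inter_subset_right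
          k' l' i' hi'' j' hj'' hne s hs hai haj heq
        exact ⟨e, mem_edg_node.2 (Or.inr (Or.inr he)), hee, by rw [sig_right hW π he]; exact hse⟩
      · exact absurd h2.1 hnj
      · exfalso
        rw [show ext N A i B j P Q π.1.1 π.1.2 π.2.1 π.2.2 A' i' s = 0 from h1,
          show ext N A i B j P Q π.1.1 π.1.2 π.2.1 π.2.2 B' j' s = _ from h2.2, add_zero,
          ← sub_eq_add_neg] at heq
        have hji : j' = j := h2.1
        subst hji
        rw [gam_eq_of_D N hOQ (k := l) hm2.1.2.1 hm2.2.2.2.2 hts.le] at heq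
        exact hG.N6c hm2.1 hw0 s ⟨hts, hs.2⟩ _ Finset.inter_subset_right k' i' hi'' hne heq
    · exact absurd h1.1 hni
    · exfalso
      have hii : i' = j := h1.1
      subst hii
      rcases ext_cases N A i B i' P Q t ζ πP πQ B' j' s hij with h2 | ⟨hm2, _, _, h2 | h2⟩
      · rw [show ext N A i B i' P Q π.1.1 π.1.2 π.2.1 π.2.2 A' i' s = _ from h1.2,
          show ext N A i B i' P Q π.1.1 π.1.2 π.2.1 π.2.2 B' j' s = 0 from h2, add_zero,
          ← sub_eq_add_neg, gam_eq_of_D N hOQ (k := l) hm1.1.2.1 hm1.2.2.2.2 hts.le] at heq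
        exact hG.N6c hm1.1 hw0 s ⟨hts, hs.2⟩ _ Finset.inter_subset_right l' j' hj'' hne.symm
          heq.symm
      · exact hnj h2.1
      · exact hne h2.1.symm
  -- one in `P`, the other one in `Q`
  have hPQ : ∀ A' B' : Finset J, ∀ k' l', ∀ i' ∈ A', ∀ j' ∈ B', i' ∈ supp P → j' ∈ supp Q →
      ∀ s ∈ Icc 0 N.T, N.act k' i' s →
      N.Gam (node A k i B l j P Q) π A' k' s Zl i' = N.Gam (node A k i B l j P Q) π B' l' s Zl j' →
      i' = i ∧ j' = j ∧ s = t := by
    intro A' B' k' l' i' hi' j' hj' hiP' hjQ' s hs hai heq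
    rw [gam_node_left N π k' s Zl hiP', gam_node_right N π l' s Zl (not_mem_P hW hjQ')] at heq
    have hni : i' ≠ j := fun h => not_mem_Q hW hiP' (h ▸ hjQ)
    have hnj : j' ≠ i := fun h => not_mem_P hW hjQ' (h ▸ hiP)
    have hi'' : i' ∈ A' ∩ supp P := Finset.mem_inter.2 ⟨hi', hiP'⟩
    have hj'' : j' ∈ B' ∩ supp Q := Finset.mem_inter.2 ⟨hj', hjQ'⟩
    rcases ext_cases N A i B j P Q t ζ πP πQ A' i' s hij with h1 | ⟨hm1, hts, hw0, h1 | h1⟩
    · rcases ext_cases N A i B j P Q t ζ πP πQ B' j' s hij with h2 | ⟨hm2, hts, hw0, h2 | h2⟩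
      · -- no deflection
        rw [show ext N A i B j P Q π.1.1 π.1.2 π.2.1 π.2.2 A' i' s = 0 from h1,
          show ext N A i B j P Q π.1.1 π.1.2 π.2.1 π.2.2 B' j' s = 0 from h2, add_zero,
          add_zero] at heq
        by_cases hst : s = t
        · subst hst
          have h3 := hG.N3 hact _ Finset.inter_subset_right _ Finset.inter_subset_right k' l' i' hi''
            j' hj'' hai heq
          exact ⟨h3.1.1, h3.2.1, rfl⟩
        · exact absurd heq (hG.N2 _ Finset.inter_subset_right _ Finset.inter_subset_right k' l' i'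
            hi'' j' hj'' s hs hst hai)
      · exact absurd h2.1 hnj
      · -- `j` deflected
        exfalso
        rw [show ext N A i B j P Q π.1.1 π.1.2 π.2.1 π.2.2 A' i' s = 0 from h1,
          show ext N A i B j P Q π.1.1 π.1.2 π.2.1 π.2.2 B' j' s = _ from h2.2, add_zero,
          ← sub_eq_add_neg] at heq
        have hji : j' = j := h2.1
        subst hji
        rw [gam_eq_of_D N hOQ (k := l) hm2.1.2.1 hm2.2.2.2.2 hts.le] at heq
        by_cases hE : N.Eqv P πP (A' ∩ supp P) k' i' A k i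
        · have hii : i' = i := hE.1
          subst hii
          have hoi : N.o ≠ some i' := hm2.1.1
          rw [gam_eq_of_D N hOP (k := k) hoi (hE.2.2 hoi) hts.le,
            gam_rel N hOP hOQ hrel hoi hm2.1.2.1 hts.le] at heq
          have h3 : (s - t) • (ζ.2 + w) = 0 := by
            have h4 := sub_eq_zero.2 heq
            rw [← h4, smul_add]
            abel
          have h5 : ζ.2 + w ≠ 0 := by
            intro h6
            apply (hG.N5 hm2.1).2.1
            have h7 : (2 : ℝ) • (ζ.2 + w) = pout N.Φ ζ + ζ.2 := by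
              rw [hwdef]; module
            rw [← h7, h6, smul_zero]
          rcases smul_eq_zero.1 h3 with h6 | h6
          · linarith
          · exact h5 h6
        · exact hG.N6d hm2.1 hw0 s ⟨hts, hs.2⟩ _ Finset.inter_subset_right k' i' hi'' hE hai heq
    · exfalso
      have hii : i' = i := h1.1
      subst hii
      rcases ext_cases N A i' B j P Q t ζ πP πQ B' j' s hij with h2 | ⟨hm2, _, _, h2 | h2⟩
      · -- `i` deflected
        rw [show ext N A i' B j P Q π.1.1 π.1.2 π.2.1 π.2.2 A' i' s = _ from h1.2,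
          show ext N A i' B j P Q π.1.1 π.1.2 π.2.1 π.2.2 B' j' s = 0 from h2, add_zero,
          gam_eq_of_D N hOP (k := k) hm1.1.1 hm1.2.2.2.1 hts.le] at heq
        by_cases hE : N.Eqv Q πQ (B' ∩ supp Q) l' j' B l j
        · have hjj : j' = j := hE.1
          subst hjj
          have hoj : N.o ≠ some j' := hm1.1.2.1
          rw [gam_eq_of_D N hOQ (k := l) hoj (hE.2.2 hoj) hts.le,
            gam_rel N hOP hOQ hrel hm1.1.1 hoj hts.le] at heq
          have h3 : (s - t) • (ζ.2 + w) = 0 := by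
            have h4 := sub_eq_zero.2 heq
            rw [← h4, smul_add]
            abel
          have h5 : ζ.2 + w ≠ 0 := by
            intro h6
            apply (hG.N5 hm1.1).2.1
            have h7 : (2 : ℝ) • (ζ.2 + w) = pout N.Φ ζ + ζ.2 := by
              rw [hwdef]; module
            rw [← h7, h6, smul_zero]
          rcases smul_eq_zero.1 h3 with h6 | h6
          · linarith
          · exact h5 h6
        · exact hG.N6b hm1.1 hw0 s ⟨hts, hs.2⟩ _ Finset.inter_subset_right l' j' hj'' hE heq.symm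
      · exact hnj h2.1
      · -- both deflected
        rw [show ext N A i' B j P Q π.1.1 π.1.2 π.2.1 π.2.2 A' i' s = _ from h1.2,
          show ext N A i' B j P Q π.1.1 π.1.2 π.2.1 π.2.2 B' j' s = _ from h2.2,
          gam_eq_of_D N hOP (k := k) hm1.1.1 hm1.2.2.2.1 hts.le] at heq
        have hjj : j' = j := h2.1
        subst hjj
        rw [gam_eq_of_D N hOQ (k := l) hm2.1.2.1 hm2.2.2.2.2 hts.le,
          gam_rel N hOP hOQ hrel hm1.1.1 hm1.1.2.1 hts.le] at heq
        have h3 : (s - t) • pout N.Φ ζ = 0 := by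
          have h4 := sub_eq_zero.2 heq
          rw [← h4, ← hw, hwdef]
          module
        rcases smul_eq_zero.1 h3 with h6 | h6
        · linarith
        · have h7 := norm_pout hΦ (hG.N5 hm1.1).1
          rw [h6, norm_zero] at h7
          exact hG.N4 hm1.1.1 (norm_eq_zero.1 h7.symm)
    · exact absurd h1.1 hni
  -- conclusion
  intro A' hA' B' hB' k' l' i' hi' j' hj' hne s hs hai haj heq
  have hcov : ∀ {p : J}, p ∈ supp (node A k i B l j P Q) → p ∈ supp P ∨ p ∈ supp Q := fun h =>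
    Finset.mem_union.1 h
  rcases hcov (hA' hi') with h1 | h1 <;> rcases hcov (hB' hj') with h2 | h2
  · exact hPP A' B' k' l' i' hi' j' hj' h1 h2 hne s hs hai haj heq
  · obtain ⟨rfl, rfl, rfl⟩ := hPQ A' B' k' l' i' hi' j' hj' h1 h2 s hs hai heq
    exact ⟨_, mem_edg_node.2 (Or.inl rfl), Or.inl rfl, (sig_new π).symm⟩
  · obtain ⟨rfl, rfl, rfl⟩ := hPQ B' A' l' k' j' hj' i' hi' h2 h1 s hs haj heq.symm
    exact ⟨_, mem_edg_node.2 (Or.inl rfl), Or.inr rfl, (sig_new π).symm⟩
  · exact hQQ A' B' k' l' i' hi' j' hj' h1 h2 hne s hs hai haj heq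



end Crest.Agent.R122.VLInv399

end
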