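import Mathlib
import Crest.Prelude.Def_KineticLimit
import Crest.Agent.R122.VLGenB_692

/-!
# Row 122, block D3 (helper735): the limit object: final lines, equivariance

* `D_node`, `Del_node`, `Del_eq` (after the last merge the path is the final line);
* `D_parT`, `Del_parT`, `Gam_parT`, `ovL_parT` : equivariance under isometries (no obstacle).
-/

set_option autoImplicit false
set_option linter.unusedSectionVars false

open MeasureTheory Set Filter Topology Metric
open scoped ENNReal NNReal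
open Crest.AnalysisR.Kinetic
open Crest.Agent.R122.Ins45 Crest.Agent.R122.GIV566 Crest.Agent.R122.VL581
open Crest.Agent.R122.Iso735 Crest.Agent.R122.VLPar823 Crest.Agent.R122.VLPar823.MTree
open Crest.Agent.R122.VLcore564 Crest.Agent.R122.VLGen692

noncomputable section

namespace Crest.Agent.R122.VLGen735

open scoped Classical

variable {J κ : Type} [Fintype J] (N : VSys J κ)

theorem D_node (A : Finset J) (k : κ) (i : J) (B : Finset J) (l : κ) (j : J) (P Q : MTree J κ)
    (π : Par (node A k i B l j P Q)) (C : Finset J) (p : J) :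
    N.D (node A k i B l j P Q) π C p =
    (if p ∈ supp P then N.D P π.2.1 (C ∩ supp P) p else N.D Q π.2.2 (C ∩ supp Q) p) +
    if N.mrg A i B j P Q π.1.1 π.2.1 π.2.2 C then
      (if p = i then (-(π.1.1 • kick N.Φ π.1.2), kick N.Φ π.1.2)
        else if p = j then (π.1.1 • kick N.Φ π.1.2, -kick N.Φ π.1.2) else 0)
    else 0 := by
  by_cases h : N.mrg A i B j P Q π.1.1 π.2.1 π.2.2 C
  · rw [if_pos h]
    exact congrArg (_ + ·) (if_pos h)
  · rw [if_neg h]
    exact congrArg (_ + ·) (if_neg h)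

theorem Del_node (A : Finset J) (k : κ) (i : J) (B : Finset J) (l : κ) (j : J) (P Q : MTree J κ)
    (π : Par (node A k i B l j P Q)) (C : Finset J) (p : J) (s : ℝ) :
    N.Del (node A k i B l j P Q) π C p s =
    (if p ∈ supp P then N.Del P π.2.1 (C ∩ supp P) p s else N.Del Q π.2.2 (C ∩ supp Q) p s) +
    if N.mrg A i B j P Q π.1.1 π.2.1 π.2.2 C then
      (if p = i then max (s - π.1.1) 0 • kick N.Φ π.1.2
        else if p = j then -(max (s - π.1.1) 0 • kick N.Φ π.1.2) else 0)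
    else 0 := rfl

/-- after the last time the displacement path is the final line -/
theorem Del_eq : ∀ (τ : MTree J κ) (π : Par τ) (C : Finset J) (p : J) {u : ℝ}, Ord τ u π →
    ∀ s, u ≤ s → N.Del τ π C p s = (N.D τ π C p).1 + s • (N.D τ π C p).2
  | leaf _, _, _, _, _, _, s, _ => by
      show (0 : Space3) = (0 : PhasePoint).1 + s • (0 : PhasePoint).2
      simp
  | node A k i B l j P Q, π, C, p, u, h, s, hs => by
      obtain ⟨_, htu, hP, hQ⟩ := h
      have hts : π.1.1 ≤ s := htu.le.trans hs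
      have h0 : max (s - π.1.1) 0 = s - π.1.1 := max_eq_left (sub_nonneg.2 hts)
      have hP' := Del_eq P π.2.1 (C ∩ supp P) p hP s hts
      have hQ' := Del_eq Q π.2.2 (C ∩ supp Q) p hQ s hts
      rw [Del_node, D_node, h0, hP', hQ']
      split_ifs <;> simp only [Prod.fst_add, Prod.snd_add, Prod.fst_zero, Prod.snd_zero] <;> module

/-- at negative times there is no displacement -/
theorem Del_of_le : ∀ (τ : MTree J κ) (π : Par τ) (C : Finset J) (p : J) {u : ℝ}, Ord τ u π →
    ∀ s, s ≤ 0 → N.Del τ π C p s = 0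
  | leaf _, _, _, _, _, _, _, _ => rfl
  | node A k i B l j P Q, π, C, p, u, h, s, hs => by
      obtain ⟨ht0, _, hP, hQ⟩ := h
      have h1 : max (s - π.1.1) 0 = 0 := max_eq_right (by linarith)
      rw [Del_node, Del_of_le P π.2.1 (C ∩ supp P) p hP s hs,
        Del_of_le Q π.2.2 (C ∩ supp Q) p hQ s hs, h1]
      split_ifs <;> simp

/-! ### Equivariance -/

theorem parT_node (O : Space3 ≃ₗᵢ[ℝ] Space3) (A : Finset J) (k : κ) (i : J) (B : Finset J) (l : κ)
    (j : J) (P Q : MTree J κ) (π : Par (node A k i B l j P Q)) :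
    parT O (node A k i B l j P Q) π =
      ((π.1.1, O π.1.2.1, O π.1.2.2), parT O P π.2.1, parT O Q π.2.2) := rfl

/-- an isometry acting on phase points -/
def phO (O : Space3 ≃ₗᵢ[ℝ] Space3) (z : PhasePoint) : PhasePoint := (O z.1, O z.2)

@[simp] theorem phO_fst (O : Space3 ≃ₗᵢ[ℝ] Space3) (z : PhasePoint) : (phO O z).1 = O z.1 := rfl
@[simp] theorem phO_snd (O : Space3 ≃ₗᵢ[ℝ] Space3) (z : PhasePoint) : (phO O z).2 = O z.2 := rfl

theorem phO_inj (O : Space3 ≃ₗᵢ[ℝ] Space3) (x y : PhasePoint) : phO O x = phO O y ↔ x = y := by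
  simp only [phO, O.injective.eq_iff, Prod.ext_iff]

theorem phO_zero (O : Space3 ≃ₗᵢ[ℝ] Space3) : phO O 0 = 0 := by
  simp [phO]

theorem phO_add (O : Space3 ≃ₗᵢ[ℝ] Space3) (x y : PhasePoint) :
    phO O (x + y) = phO O x + phO O y := by
  simp [phO]

theorem mrg_parT_of {O : Space3 ≃ₗᵢ[ℝ] Space3} {A : Finset J} {i : J} {B : Finset J} {j : J}
    {P Q : MTree J κ} {t : ℝ} {πP : Par P} {πQ : Par Q}
    (hP : ∀ C p, N.D P (parT O P πP) C p = phO O (N.D P πP C p))
    (hQ : ∀ C p, N.D Q (parT O Q πQ) C p = phO O (N.D Q πQ C p)) (C : Finset J) :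
    N.mrg A i B j P Q t (parT O P πP) (parT O Q πQ) C ↔ N.mrg A i B j P Q t πP πQ C := by
  unfold VSys.mrg
  rw [hP, hP, hQ, hQ, phO_inj, phO_inj]

theorem D_parT (hΦ : AdmissiblePotential N.Φ) (O : Space3 ≃ₗᵢ[ℝ] Space3) :
    ∀ (τ : MTree J κ) (π : Par τ) (C : Finset J) (p : J),
      N.D τ (parT O τ π) C p = phO O (N.D τ π C p)
  | leaf _, _, _, _ => (phO_zero O).symm
  | node A k i B l j P Q, π, C, p => by
      have hP := D_parT hΦ O P π.2.1
      have hQ := D_parT hΦ O Q π.2.2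
      have hw : kick N.Φ (O π.1.2.1, O π.1.2.2) = O (kick N.Φ π.1.2) := kick_isometry hΦ O π.1.2
      rw [D_node, D_node, parT_node]
      simp only [hP, hQ, hw, mrg_parT_of N hP hQ]
      rw [phO_add]
      congr 1
      · split_ifs <;> rfl
      · split_ifs
        · simp [phO]
        · simp [phO]
        · exact (phO_zero O).symm
        · exact (phO_zero O).symm

theorem Del_parT (hΦ : AdmissiblePotential N.Φ) (O : Space3 ≃ₗᵢ[ℝ] Space3) :
    ∀ (τ : MTree J κ) (π : Par τ) (C : Finset J) (p : J) (s : ℝ),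
      N.Del τ (parT O τ π) C p s = O (N.Del τ π C p s)
  | leaf _, _, _, _, _ => (map_zero O).symm
  | node A k i B l j P Q, π, C, p, s => by
      have hw : kick N.Φ (O π.1.2.1, O π.1.2.2) = O (kick N.Φ π.1.2) := kick_isometry hΦ O π.1.2
      rw [Del_node, Del_node, parT_node]
      simp only [Del_parT hΦ O P π.2.1, Del_parT hΦ O Q π.2.2, hw,
        mrg_parT_of N (D_parT N hΦ O P π.2.1) (D_parT N hΦ O Q π.2.2)]
      rw [map_add]
      congr 1
      · split_ifs <;> rfl
      · split_ifs <;> simp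

theorem Gam_parT (hΦ : AdmissiblePotential N.Φ) (O : Space3 ≃ₗᵢ[ℝ] Space3) {τ : MTree J κ}
    {π : Par τ} {C : Finset J} {k : κ} {s : ℝ} {Z Z' : J → PhasePoint} {p : J}
    (hp : N.o ≠ some p) (h : Z' p = phO O (Z p)) :
    N.Gam τ (parT O τ π) C k s Z' p = O (N.Gam τ π C k s Z p) := by
  simp only [VSys.Gam, if_neg hp, h, phO_fst, phO_snd, Del_parT N hΦ O, map_add, map_smul]

theorem phL_parT (hΦ : AdmissiblePotential N.Φ) (O : Space3 ≃ₗᵢ[ℝ] Space3) {τ : MTree J κ}
    {π : Par τ} {C : Finset J} {k : κ} {s : ℝ} {Z Z' : J → PhasePoint} {p : J}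
    (hp : N.o ≠ some p) (h : Z' p = phO O (Z p)) :
    N.phL τ (parT O τ π) C k s Z' p = phO O (N.phL τ π C k s Z p) := by
  ext1
  · exact Gam_parT N hΦ O hp h
  · simp only [VSys.phL, if_neg hp, h, phO_snd, D_parT N hΦ O, map_add]

theorem mv_parT (O : Space3 ≃ₗᵢ[ℝ] Space3) (t : ℝ) (p q : PhasePoint) (ξ g : Space3) :
    mv 0 t (phO O p) (phO O q) (O ξ) (O g) = phO O (mv 0 t p q ξ g) := by
  ext1
  · simp only [mv, phO_fst, phO_snd, map_sub, map_smul]
  · simp only [mv, phO_snd, map_sub]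

/-- equivariance of the limit configuration of a merge tree without obstacle -/
theorem ovL_parT (hΦ : AdmissiblePotential N.Φ) (O : Space3 ≃ₗᵢ[ℝ] Space3) :
    ∀ (τ : MTree J κ), WF N.o τ → (∀ p ∈ supp τ, N.o ≠ some p) →
    ∀ (π : Par τ) (z : PhasePoint) (x : J → PhasePoint) {p : J}, p ∈ supp τ →
      N.ovL τ (parT O τ π) (phO O z) x p = phO O (N.ovL τ π z x p)
  | leaf j => fun _ _ π z x p hp => by
      have : p = j := by simpa [supp] using hp
      subst this
      simp [VSys.ovL]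
  | node A k i B l j P Q => fun hτ hno π z x p hp => by
      obtain ⟨hd, hA, hB, hi, hj, ho, hP, hQ⟩ := hτ
      have hnoP : ∀ p ∈ supp P, N.o ≠ some p := fun p hp => hno p (Finset.mem_union_left _ hp)
      have hnoQ : ∀ p ∈ supp Q, N.o ≠ some p := fun p hp => hno p (Finset.mem_union_right _ hp)
      have e1 : ∀ q ∈ supp P, N.ovL P (parT O P π.2.1) (phO O z) x q =
          phO O (N.ovL P π.2.1 z x q) := fun q hq => ovL_parT hΦ O P hP hnoP _ _ _ hq
      have e2 := phL_parT N hΦ O (τ := P) (π := π.2.1) (C := A) (k := k) (s := π.1.1)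
        (hnoP i (hA hi)) (e1 i (hA hi))
      have e3' : N.ovL Q (parT O Q π.2.2) 0 (N.ovL P (parT O P π.2.1) (phO O z) x) j =
          phO O (N.ovL Q π.2.2 0 (N.ovL P π.2.1 z x) j) := by
        rw [ovL_congr N Q hQ _ 0 _ (N.ovL P π.2.1 z x) (hB hj), ← phO_zero O]
        rw [ovL_parT hΦ O Q hQ hnoQ _ _ _ (hB hj), phO_zero]
      have e3 := phL_parT N hΦ O (τ := Q) (π := π.2.2) (C := B) (k := l) (s := π.1.1)
        (hnoQ j (hB hj)) e3'
      rw [parT_node]
      show N.ovL Q (parT O Q π.2.2)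
          (mv 0 π.1.1 (N.phL P (parT O P π.2.1) A k π.1.1 (N.ovL P (parT O P π.2.1) (phO O z) x) i)
          (N.phL Q (parT O Q π.2.2) B l π.1.1 (N.ovL Q (parT O Q π.2.2) 0
            (N.ovL P (parT O P π.2.1) (phO O z) x)) j) (O π.1.2.1) (O π.1.2.2))
          (N.ovL P (parT O P π.2.1) (phO O z) x) p =
        phO O (N.ovL Q π.2.2 (mv 0 π.1.1 (N.phL P π.2.1 A k π.1.1 (N.ovL P π.2.1 z x) i)
          (N.phL Q π.2.2 B l π.1.1 (N.ovL Q π.2.2 0 (N.ovL P π.2.1 z x)) j) π.1.2.1 π.1.2.2)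
          (N.ovL P π.2.1 z x) p)
      rw [e2, e3, mv_parT]
      by_cases hq : p ∈ supp Q
      · rw [ovL_parT hΦ O Q hQ hnoQ _ _ _ hq,
          ovL_congr N Q hQ π.2.2 _ (N.ovL P (parT O P π.2.1) (phO O z) x) (N.ovL P π.2.1 z x) hq]
      · rw [ovL_of_notMem N Q _ _ _ hq, ovL_of_notMem N Q _ _ _ hq]
        refine e1 p ?_
        rcases Finset.mem_union.1 hp with h | h
        · exact h
        · exact absurd h hq

end Crest.Agent.R122.VLGen735
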