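import Mathlib
import Crest.Agent.R122.VLGenB_735
import Crest.Agent.R122.VLGenC_692
import Crest.Agent.R122.VLCoinc_399

/-!
# Row 122, block D3 (A) (helper735): condition (N3) of `GenNode` holds for almost all parameters

* `ae_iso` : a relative displacement of the right part at the merge time is not a given vector `≠ 0`;
* `ae_affine` : different final lines are at different points at the merge time;
* `ae_N3`.
-/

set_option autoImplicit false
set_option linter.unusedSectionVars false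

open MeasureTheory Set Filter Topology Metric
open scoped ENNReal NNReal
open Crest.AnalysisR.Kinetic
open Crest.Agent.R122.Ins45 Crest.Agent.R122.GIV566 Crest.Agent.R122.VL581
open Crest.Agent.R122.Iso735 Crest.Agent.R122.VLPar823 Crest.Agent.R122.VLPar823.MTree
open Crest.Agent.R122.VLcore564 Crest.Agent.R122.VLGen692

noncomputable section

namespace Crest.Agent.R122.VLGen735

open scoped Classical

/-! ### Projections of the node measure -/

section proj

variable {X Y W : Type*} [MeasurableSpace X] [MeasurableSpace Y] [MeasurableSpace W]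
  {μX : Measure X} {μY : Measure Y} {μZ : Measure W} [SFinite μX] [SFinite μY] [SFinite μZ]

theorem ae_of_ae_t {p : ℝ → Prop} (h : ∀ᵐ t : ℝ, p t) :
    ∀ᵐ r ∂(nodeM μX μY μZ), p r.1.1.1 := by
  have a1 : Measure.QuasiMeasurePreserving (Prod.fst : ((ℝ × Space3 × Space3) × X × Y) × W → _)
      (nodeM μX μY μZ) ((volume : Measure (ℝ × Space3 × Space3)).prod (μX.prod μY)) :=
    Measure.quasiMeasurePreserving_fst
  have a2 : Measure.QuasiMeasurePreserving (Prod.fst : (ℝ × Space3 × Space3) × X × Y → _)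
      ((volume : Measure (ℝ × Space3 × Space3)).prod (μX.prod μY)) volume :=
    Measure.quasiMeasurePreserving_fst
  have a3 : Measure.QuasiMeasurePreserving (Prod.fst : ℝ × Space3 × Space3 → ℝ)
      volume volume := Measure.quasiMeasurePreserving_fst
  exact (a3.comp (a2.comp a1)).ae h

theorem ae_of_ae_y {p : Y → Prop} (h : ∀ᵐ y ∂μY, p y) :
    ∀ᵐ r ∂(nodeM μX μY μZ), p r.1.2.2 := by
  have a1 : Measure.QuasiMeasurePreserving (Prod.fst : ((ℝ × Space3 × Space3) × X × Y) × W → _)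
      (nodeM μX μY μZ) ((volume : Measure (ℝ × Space3 × Space3)).prod (μX.prod μY)) :=
    Measure.quasiMeasurePreserving_fst
  have a2 : Measure.QuasiMeasurePreserving (Prod.snd : (ℝ × Space3 × Space3) × X × Y → _)
      ((volume : Measure (ℝ × Space3 × Space3)).prod (μX.prod μY)) (μX.prod μY) :=
    Measure.quasiMeasurePreserving_snd
  have a3 : Measure.QuasiMeasurePreserving (Prod.snd : X × Y → Y)
      (μX.prod μY) μY := Measure.quasiMeasurePreserving_snd
  exact (a3.comp (a2.comp a1)).ae h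

theorem ae_of_ae_xz {p : X × W → Prop} (h : ∀ᵐ y ∂(μX.prod μZ), p y) :
    ∀ᵐ r ∂(nodeM μX μY μZ), p (r.1.2.1, r.2) := by
  have a2 : Measure.QuasiMeasurePreserving (Prod.snd : (ℝ × Space3 × Space3) × X × Y → _)
      ((volume : Measure (ℝ × Space3 × Space3)).prod (μX.prod μY)) (μX.prod μY) :=
    Measure.quasiMeasurePreserving_snd
  have a3 : Measure.QuasiMeasurePreserving (Prod.fst : X × Y → X)
      (μX.prod μY) μX := Measure.quasiMeasurePreserving_fst
  have a4 : Measure.QuasiMeasurePreserving (Prod.map (fun r : (ℝ × Space3 × Space3) × X × Y =>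
      r.2.1) (id : W → W)) (nodeM μX μY μZ) (μX.prod μZ) :=
    MeasureTheory.QuasiMeasurePreserving.prodMap (a3.comp a2) (Measure.QuasiMeasurePreserving.id μZ)
  exact a4.ae h

/-- affine functions of the merge time -/
theorem ae_affine {d : ((ℝ × Space3 × Space3) × X × Y) × W → PhasePoint} (hd : Measurable d)
    (hd' : ∀ t t' q x y z, d (((t, q), x, y), z) = d (((t', q), x, y), z)) :
    ∀ᵐ p ∂(nodeM μX μY μZ), d p ≠ 0 → (d p).1 + p.1.1.1 • (d p).2 ≠ 0 := by
  have m0 : Measurable fun r : ((ℝ × Space3 × Space3) × X × Y) × W => r.1.1.1 :=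
    Measurable.fst (Measurable.fst measurable_fst)
  have hB1 : MeasurableSet {p : ((ℝ × Space3 × Space3) × X × Y) × W | d p = 0} :=
    hd (measurableSet_singleton 0)
  have hB2 : MeasurableSet {p : ((ℝ × Space3 × Space3) × X × Y) × W |
      (d p).1 + p.1.1.1 • (d p).2 = 0} :=
    (hd.fst.add (m0.smul hd.snd)) (measurableSet_singleton 0)
  have key := ae_sec_t (μX := μX) (μY := μY) (μZ := μZ) (hB1.compl.inter hB2) (fun q x y z => by
    have hs : Set.Subsingleton {t : ℝ | d (((t, q), x, y), z) ≠ 0 ∧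
        (d (((t, q), x, y), z)).1 + t • (d (((t, q), x, y), z)).2 = 0} := by
      rintro t ⟨h0, h1⟩ t' ⟨_, h2⟩
      by_contra hne
      rw [hd' t' t] at h2
      have h3 : (t - t') • (d (((t, q), x, y), z)).2 = 0 := by
        rw [sub_smul, sub_eq_zero]
        exact add_left_cancel (h1.trans h2.symm)
      have h4 : (d (((t, q), x, y), z)).2 = 0 := by
        rcases smul_eq_zero.1 h3 with h | h
        · exact absurd (sub_eq_zero.1 h) hne
        · exact h
      rw [h4, smul_zero, add_zero] at h1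
      exact h0 (Prod.ext h1 h4)
    have := hs.measure_zero (volume : Measure ℝ)
    rw [ae_iff]
    refine measure_mono_null ?_ this
    intro t ht
    simpa using ht)
  filter_upwards [key] with p hp h0 h
  exact hp ⟨h0, h⟩

end proj

/-! ### (N3) -/

section N3

variable {J κ : Type} [Fintype J] {N : VSys J κ} {A : Finset J} {k : κ} {i : J} {B : Finset J}
  {l : κ} {j : J} {P Q : MTree J κ}

/-- the relative displacement of two labels of a merge tree without obstacle is isotropic -/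
theorem eqv_Gam (hΦ : AdmissiblePotential N.Φ) {τ : MTree J κ} (hτ : WF N.o τ)
    (ho : ∀ p ∈ supp τ, N.o ≠ some p) (x : J → PhasePoint) (B' : Finset J) (l' : κ) {j' : J}
    (hj' : j' ∈ supp τ) (B : Finset J) (l : κ) {j : J} (hj : j ∈ supp τ) (t : ℝ) :
    Iso735.Eqv (volume : Measure (Par τ)) fun π =>
      N.Gam τ π B' l' t (N.ovL τ π 0 x) j' - N.Gam τ π B l t (N.ovL τ π 0 x) j := fun O =>
  ⟨parT O τ, measurePreserving_parT O τ, Eventually.of_forall fun π => by
    have e : ∀ p ∈ supp τ, N.ovL τ (parT O τ π) 0 x p = phO O (N.ovL τ π 0 x p) := fun p hp => by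
      have := ovL_parT N hΦ O τ hτ ho π 0 x hp
      rwa [phO_zero] at this
    show N.Gam τ (parT O τ π) B' l' t (N.ovL τ (parT O τ π) 0 x) j' -
      N.Gam τ (parT O τ π) B l t (N.ovL τ (parT O τ π) 0 x) j = _
    rw [Gam_parT N hΦ O (ho _ hj') (e _ hj'), Gam_parT N hΦ O (ho _ hj) (e _ hj), ← map_sub]⟩

variable (hΦ : AdmissiblePotential N.Φ) (hT : 0 ≤ N.T)
  (hc : ∃ L : ℝ≥0, ∀ k, LipschitzOnWith L (N.S.c k) (Icc 0 N.T))

include hΦ hT hc

/-- nonzero relative displacements of the two parts are different at the merge time -/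
theorem ae_iso (hwf : WF N.o (node A k i B l j P Q)) (x : J → PhasePoint) {μZ : Measure PhasePoint}
    [SFinite μZ] (A' : Finset J) (k' : κ) (i' : J) (B' : Finset J) (l' : κ) (j' : J)
    (hj' : j' ∈ supp Q) :
    ∀ᵐ p ∂(nodeM (volume : Measure (Par P)) (volume : Measure (Par Q)) μZ),
      N.Gam Q p.1.2.2 B' l' p.1.1.1 (N.ovL Q p.1.2.2 0 x) j' -
          N.Gam Q p.1.2.2 B l p.1.1.1 (N.ovL Q p.1.2.2 0 x) j =
        N.Gam P p.1.2.1 A' k' p.1.1.1 (N.ovL P p.1.2.1 p.2 x) i' -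
          N.Gam P p.1.2.1 A k p.1.1.1 (N.ovL P p.1.2.1 p.2 x) i →
      N.Gam P p.1.2.1 A' k' p.1.1.1 (N.ovL P p.1.2.1 p.2 x) i' -
          N.Gam P p.1.2.1 A k p.1.1.1 (N.ovL P p.1.2.1 p.2 x) i = 0 := by
  have m0 : Measurable fun r : ((ℝ × Space3 × Space3) × Par P × Par Q) × PhasePoint =>
    r.1.1.1 := Measurable.fst (Measurable.fst measurable_fst)
  have m1 : Measurable fun r : ((ℝ × Space3 × Space3) × Par P × Par Q) × PhasePoint => r.1.2.1 :=
    Measurable.fst (Measurable.snd measurable_fst)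
  have m2 : Measurable fun r : ((ℝ × Space3 × Space3) × Par P × Par Q) × PhasePoint => r.1.2.2 :=
    Measurable.snd (Measurable.snd measurable_fst)
  have gP : ∀ A' k' i', Measurable fun p : ((ℝ × Space3 × Space3) × Par P × Par Q) × PhasePoint =>
      N.Gam P p.1.2.1 A' k' p.1.1.1 (N.ovL P p.1.2.1 p.2 x) i' := fun A' k' i' =>
    measurable_Gam' hΦ hT hc P A' k' i' m1 m0
      (measurable_ovL hΦ hT hc P _ _ (fun _ => x) m1 measurable_snd (fun _ => measurable_const) i')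
  have gQ : ∀ B' l' j', Measurable fun p : ((ℝ × Space3 × Space3) × Par P × Par Q) × PhasePoint =>
      N.Gam Q p.1.2.2 B' l' p.1.1.1 (N.ovL Q p.1.2.2 0 x) j' := fun B' l' j' =>
    measurable_Gam' hΦ hT hc Q B' l' j' m2 m0
      (measurable_ovL hΦ hT hc Q _ (fun _ => 0) (fun _ => x) m2 measurable_const
        (fun _ => measurable_const) j')
  have hB1 : MeasurableSet {p : ((ℝ × Space3 × Space3) × Par P × Par Q) × PhasePoint |
      N.Gam P p.1.2.1 A' k' p.1.1.1 (N.ovL P p.1.2.1 p.2 x) i' -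
          N.Gam P p.1.2.1 A k p.1.1.1 (N.ovL P p.1.2.1 p.2 x) i = 0} :=
    ((gP A' k' i').sub (gP A k i)) (measurableSet_singleton 0)
  have hB2 : MeasurableSet {p : ((ℝ × Space3 × Space3) × Par P × Par Q) × PhasePoint |
      N.Gam Q p.1.2.2 B' l' p.1.1.1 (N.ovL Q p.1.2.2 0 x) j' -
          N.Gam Q p.1.2.2 B l p.1.1.1 (N.ovL Q p.1.2.2 0 x) j =
        N.Gam P p.1.2.1 A' k' p.1.1.1 (N.ovL P p.1.2.1 p.2 x) i' -
          N.Gam P p.1.2.1 A k p.1.1.1 (N.ovL P p.1.2.1 p.2 x) i} :=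
    measurableSet_eq_fun ((gQ B' l' j').sub (gQ B l j)) ((gP A' k' i').sub (gP A k i))
  obtain ⟨hd, hA, hB, hi, hj, ho, hP, hQ⟩ := hwf
  have key := ae_sec_r (μX := (volume : Measure (Par P))) (μY := (volume : Measure (Par Q)))
    (μZ := μZ) (hB1.compl.inter hB2) (fun r πP z => by
      by_cases h0 : N.Gam P πP A' k' r.1 (N.ovL P πP z x) i' -
          N.Gam P πP A k r.1 (N.ovL P πP z x) i = 0
      · refine Eventually.of_forall fun y hy => ?_
        exact hy.1 h0
      · have hm : Measurable fun π : Par Q => N.Gam Q π B' l' r.1 (N.ovL Q π 0 x) j' -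
            N.Gam Q π B l r.1 (N.ovL Q π 0 x) j :=
          (measurable_Gam' hΦ hT hc Q B' l' j' measurable_id measurable_const
            (measurable_ovL hΦ hT hc Q _ (fun _ => 0) (fun _ => x) measurable_id measurable_const
              (fun _ => measurable_const) j')).sub
          (measurable_Gam' hΦ hT hc Q B l j measurable_id measurable_const
            (measurable_ovL hΦ hT hc Q _ (fun _ => 0) (fun _ => x) measurable_id measurable_const
              (fun _ => measurable_const) j))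
        filter_upwards [(eqv_Gam hΦ hQ ho x B' l' hj' B l (hB hj) r.1).ae_ne hm h0] with y hy hmem
        exact hy hmem.2)
  filter_upwards [key] with p hp h
  by_contra h0
  exact hp ⟨h0, h⟩

omit hT hc in
theorem ae_DP (A' : Finset J) {μZ : Measure PhasePoint} [SFinite μZ] :
    ∀ᵐ p ∂(nodeM (volume : Measure (Par P)) (volume : Measure (Par Q)) μZ),
      N.D P p.1.2.1 A' i - N.D P p.1.2.1 A i ≠ 0 →
        (N.D P p.1.2.1 A' i - N.D P p.1.2.1 A i).1 +
          p.1.1.1 • (N.D P p.1.2.1 A' i - N.D P p.1.2.1 A i).2 ≠ 0 := by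
  have m1 : Measurable fun r : ((ℝ × Space3 × Space3) × Par P × Par Q) × PhasePoint => r.1.2.1 :=
    Measurable.fst (Measurable.snd measurable_fst)
  exact ae_affine (d := fun p : ((ℝ × Space3 × Space3) × Par P × Par Q) × PhasePoint =>
    N.D P p.1.2.1 A' i - N.D P p.1.2.1 A i)
    (((measurable_D N hΦ P A' i).comp m1).sub ((measurable_D N hΦ P A i).comp m1))
    (fun _ _ _ _ _ _ => rfl)

omit hT hc in
theorem ae_DQ (B' : Finset J) {μZ : Measure PhasePoint} [SFinite μZ] :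
    ∀ᵐ p ∂(nodeM (volume : Measure (Par P)) (volume : Measure (Par Q)) μZ),
      N.D Q p.1.2.2 B' j - N.D Q p.1.2.2 B j ≠ 0 →
        (N.D Q p.1.2.2 B' j - N.D Q p.1.2.2 B j).1 +
          p.1.1.1 • (N.D Q p.1.2.2 B' j - N.D Q p.1.2.2 B j).2 ≠ 0 := by
  have m1 : Measurable fun r : ((ℝ × Space3 × Space3) × Par P × Par Q) × PhasePoint => r.1.2.2 :=
    Measurable.snd (Measurable.snd measurable_fst)
  exact ae_affine (d := fun p : ((ℝ × Space3 × Space3) × Par P × Par Q) × PhasePoint =>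
    N.D Q p.1.2.2 B' j - N.D Q p.1.2.2 B j)
    (((measurable_D N hΦ Q B' j).comp m1).sub ((measurable_D N hΦ Q B j).comp m1))
    (fun _ _ _ _ _ _ => rfl)

omit hΦ hT hc in
/-- two labels of the same particle at the same point after the merges have the same final line -/
theorem D_eq_of_Gam {τ : MTree J κ} {t : ℝ} {π : Par τ} (hO : Ord τ t π) {A' A : Finset J}
    {k' k : κ} {p : J} (ho : N.o ≠ some p) {Z : J → PhasePoint}
    (hD : N.D τ π A' p - N.D τ π A p ≠ 0 →
      (N.D τ π A' p - N.D τ π A p).1 + t • (N.D τ π A' p - N.D τ π A p).2 ≠ 0)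
    (h : N.Gam τ π A' k' t Z p = N.Gam τ π A k t Z p) : N.D τ π A' p = N.D τ π A p := by
  by_contra hne
  refine hD (sub_ne_zero.2 hne) ?_
  simp only [VSys.Gam, if_neg ho, Del_eq N τ π _ p hO t le_rfl] at h
  have h1 := add_left_cancel h
  rw [Prod.fst_sub, Prod.snd_sub, smul_sub]
  have h2 := sub_eq_zero.2 h1
  rw [← h2]
  abel

/-- **(N3) holds for almost all parameters** -/
theorem ae_N3 [Fintype κ] (hgen : Generic N.T N.S) (hwf : WF N.o (node A k i B l j P Q))
    (x : J → PhasePoint) (μZ : Measure PhasePoint) [SFinite μZ] :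
    ∀ᵐ p ∂((volume : Measure (Par (node A k i B l j P Q))).prod μZ),
      Ord (node A k i B l j P Q) N.T p.1 → N.act k i p.1.1.1 →
      Coinc N P p.1.2.1 (N.ovL P p.1.2.1 p.2 x) → Coinc N Q p.1.2.2 (N.ovL Q p.1.2.2 0 x) →
      ∀ A' ⊆ supp P, ∀ B' ⊆ supp Q, ∀ k' l', ∀ i' ∈ A', ∀ j' ∈ B', N.act k' i' p.1.1.1 →
        N.Gam P p.1.2.1 A' k' p.1.1.1 (N.ovL (node A k i B l j P Q) p.1 p.2 x) i' =
          N.Gam Q p.1.2.2 B' l' p.1.1.1 (N.ovL (node A k i B l j P Q) p.1 p.2 x) j' →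
        (i' = i ∧ (N.o = some i → k' = k) ∧
          (N.o ≠ some i → N.D P p.1.2.1 A' i = N.D P p.1.2.1 A i)) ∧
        (j' = j ∧ N.D Q p.1.2.2 B' j = N.D Q p.1.2.2 B j) := by
  have c1 : ∀ᵐ p ∂(nodeM (volume : Measure (Par P)) (volume : Measure (Par Q)) μZ),
      ∀ A' : Finset J, ∀ k' : κ, ∀ i' : J, ∀ B' : Finset J, ∀ l' : κ, ∀ j' : J, j' ∈ supp Q →
      N.Gam Q p.1.2.2 B' l' p.1.1.1 (N.ovL Q p.1.2.2 0 x) j' -
          N.Gam Q p.1.2.2 B l p.1.1.1 (N.ovL Q p.1.2.2 0 x) j =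
        N.Gam P p.1.2.1 A' k' p.1.1.1 (N.ovL P p.1.2.1 p.2 x) i' -
          N.Gam P p.1.2.1 A k p.1.1.1 (N.ovL P p.1.2.1 p.2 x) i →
      N.Gam P p.1.2.1 A' k' p.1.1.1 (N.ovL P p.1.2.1 p.2 x) i' -
          N.Gam P p.1.2.1 A k p.1.1.1 (N.ovL P p.1.2.1 p.2 x) i = 0 := by
    simp only [ae_all_iff]
    intro A' k' i' B' l' j' hj'
    exact ae_iso hΦ hT hc hwf x A' k' i' B' l' j' hj'
  have c2 := ae_all_iff.2 fun A' : Finset J =>
    ae_DP (A := A) (i := i) (P := P) (Q := Q) (μZ := μZ) hΦ A'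
  have c3 := ae_all_iff.2 fun B' : Finset J =>
    ae_DQ (B := B) (j := j) (P := P) (Q := Q) (μZ := μZ) hΦ B'
  have c4 : ∀ᵐ p ∂(nodeM (volume : Measure (Par P)) (volume : Measure (Par Q)) μZ),
      ∀ k' : κ, k' ≠ k → p.1.1.1 ∉
        {s | s ∈ Icc 0 (min N.T (min (N.S.b k') (N.S.b k))) ∧ N.S.c k' s = N.S.c k s} := by
    simp only [ae_all_iff]
    intro k' hk'
    exact ae_of_ae_t (p := fun t => t ∉
      {s | s ∈ Icc 0 (min N.T (min (N.S.b k') (N.S.b k))) ∧ N.S.c k' s = N.S.c k s})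
      (by
        rw [ae_iff]
        simp only [not_not]
        exact (hgen k' k hk').measure_zero _)
  have hgoal : ∀ᵐ p ∂(nodeM (volume : Measure (Par P)) (volume : Measure (Par Q)) μZ),
      Ord (node A k i B l j P Q) N.T p.1 → N.act k i p.1.1.1 →
      Coinc N P p.1.2.1 (N.ovL P p.1.2.1 p.2 x) → Coinc N Q p.1.2.2 (N.ovL Q p.1.2.2 0 x) →
      ∀ A' ⊆ supp P, ∀ B' ⊆ supp Q, ∀ k' l', ∀ i' ∈ A', ∀ j' ∈ B', N.act k' i' p.1.1.1 →
        N.Gam P p.1.2.1 A' k' p.1.1.1 (N.ovL (node A k i B l j P Q) p.1 p.2 x) i' =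
          N.Gam Q p.1.2.2 B' l' p.1.1.1 (N.ovL (node A k i B l j P Q) p.1 p.2 x) j' →
        (i' = i ∧ (N.o = some i → k' = k) ∧
          (N.o ≠ some i → N.D P p.1.2.1 A' i = N.D P p.1.2.1 A i)) ∧
        (j' = j ∧ N.D Q p.1.2.2 B' j = N.D Q p.1.2.2 B j) := by
    filter_upwards [c1, c2, c3, c4] with p h1 h2 h3 h4 hO hact hCP hCQ
    have hwf' := hwf
    obtain ⟨hd, hA, hB, hi, hj, ho, hWP, hWQ⟩ := hwf'
    obtain ⟨ht0, htT, hOP, hOQ⟩ := hO
    have htI : p.1.1.1 ∈ Icc 0 N.T := ⟨ht0.le, htT.le⟩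
    intro A' hA' B' hB' k' l' i' hi' j' hj' hact' heq
    rw [Gam_left hwf p.1 p.2 x A' k' p.1.1.1 (hA' hi'),
      Gam_right hwf p.1 p.2 x B' l' p.1.1.1 (hB' hj'), sub_self, zero_smul, add_zero] at heq
    have heq' : N.Gam Q p.1.2.2 B' l' p.1.1.1 (N.ovL Q p.1.2.2 0 x) j' -
          N.Gam Q p.1.2.2 B l p.1.1.1 (N.ovL Q p.1.2.2 0 x) j =
        N.Gam P p.1.2.1 A' k' p.1.1.1 (N.ovL P p.1.2.1 p.2 x) i' -
          N.Gam P p.1.2.1 A k p.1.1.1 (N.ovL P p.1.2.1 p.2 x) i := by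
      rw [heq]
      show _ = N.Gam Q p.1.2.2 B' l' p.1.1.1 (N.ovL Q p.1.2.2 0 x) j' +
        (N.Gam P p.1.2.1 A k p.1.1.1 (N.ovL P p.1.2.1 p.2 x) i -
          N.Gam Q p.1.2.2 B l p.1.1.1 (N.ovL Q p.1.2.2 0 x) j) - _
      abel
    have hP0 := h1 A' k' i' B' l' j' (hB' hj') heq'
    have hQ0 : N.Gam Q p.1.2.2 B' l' p.1.1.1 (N.ovL Q p.1.2.2 0 x) j' -
          N.Gam Q p.1.2.2 B l p.1.1.1 (N.ovL Q p.1.2.2 0 x) j = 0 := heq'.trans hP0
    have hP1 := sub_eq_zero.1 hP0
    have hQ1 := sub_eq_zero.1 hQ0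
    have hii : i' = i := by
      by_contra hne
      obtain ⟨e, he, _, hs⟩ := hCP A' hA' A hA k' k i' hi' i hi hne p.1.1.1 htI hact' hact hP1
      exact absurd hs (VLInv399.sig_bounds hWP hOP he).2.ne'
    have hjj : j' = j := by
      by_contra hne
      obtain ⟨e, he, _, hs⟩ := hCQ B' hB' B hB l' l j' hj' j hj hne p.1.1.1 htI
        (fun h => absurd h (ho j' (hB' hj'))) (fun h => absurd h (ho j (hB hj))) hQ1
      exact absurd hs (VLInv399.sig_bounds hWQ hOQ he).2.ne'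
    subst hii hjj
    refine ⟨⟨rfl, fun hoi => ?_, fun hoi => ?_⟩, rfl, ?_⟩
    · by_contra hne
      refine h4 k' hne ⟨⟨ht0.le, le_min htT.le (le_min (hact' hoi) (hact hoi))⟩, ?_⟩
      simp only [VSys.Gam, if_pos hoi, min_eq_left htT.le, max_eq_right ht0.le] at hP1
      exact add_left_cancel hP1
    · exact D_eq_of_Gam hOP hoi (h2 A') hP1
    · exact D_eq_of_Gam hOQ (ho _ (hB hj)) (h3 B') hQ1
  exact hgoal

end N3

end Crest.Agent.R122.VLGen735
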