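import Mathlib
import Crest.Agent.R122.VLGenE_735
import Crest.Agent.R122.VLGenD_692

/-!
# Row 122, block D3 (A) (helper735): coincidences of generic parameters, and **`AGen`**

* `phL_rel` : the two touching labels of the limit configuration;
* `Coinc.congr`, `Coinc.shift`;
* `coinc_gen` : `Gen` implies `Coinc`;
* `ae_gen`, `agen : AGen Φ`.
-/

set_option autoImplicit false
set_option linter.unusedSectionVars false

open MeasureTheory Set Filter Topology Metric
open scoped ENNReal NNReal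
open Crest.AnalysisR.Kinetic
open Crest.Agent.R122.Ins45 Crest.Agent.R122.GIV566 Crest.Agent.R122.VL581
open Crest.Agent.R122.Iso735 Crest.Agent.R122.VLPar823 Crest.Agent.R122.VLPar823.MTree
open Crest.Agent.R122.VLcore564 Crest.Agent.R122.VLGen692

noncomputable section

namespace Crest.Agent.R122.VLGen735

open scoped Classical

variable {J κ : Type} [Fintype J] {N : VSys J κ}

/-- the touching labels of the limit configuration -/
theorem phL_rel {A : Finset J} {k : κ} {i : J} {B : Finset J} {l : κ} {j : J} {P Q : MTree J κ}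
    (hwf : WF N.o (node A k i B l j P Q)) (π : Par (node A k i B l j P Q)) (z : PhasePoint)
    (x : J → PhasePoint) :
    N.phL P π.2.1 A k π.1.1 (N.ovL (node A k i B l j P Q) π z x) i -
      N.phL Q π.2.2 B l π.1.1 (N.ovL (node A k i B l j P Q) π z x) j = (0, π.1.2.2) := by
  have hwf' := hwf
  obtain ⟨hd, hA, hB, hi, hj, ho, hWP, hWQ⟩ := hwf'
  have e1 : N.phL P π.2.1 A k π.1.1 (N.ovL (node A k i B l j P Q) π z x) i =
      N.phL P π.2.1 A k π.1.1 (N.ovL P π.2.1 z x) i := by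
    simp only [VSys.phL, VSys.Gam, ovL_left hwf π z x (hA hi)]
  have e2 := phL_shift N (τ := Q) (π := π.2.2) (A' := B) (k := l) (s := π.1.1) (ho j (hB hj))
    (ovL_right hwf π z x (hB hj))
  have e3 := wL_eq hwf π.1.1 π.1.2 π.2.1 π.2.2 z x π.1.1
  rw [sub_self, zero_smul, add_zero] at e3
  have e4 : (wL N A k i B l j P Q π.1.1 π.1.2 π.2.1 π.2.2 z x).2 =
      (pq N A k i B l j P Q π.1.1 π.2.1 π.2.2 z x).2 - π.1.2.2 := by
    have h2 := ovL_congr N Q hWQ π.2.2 0 (N.ovL P π.2.1 z x) x (hB hj)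
    have h3 : N.phL Q π.2.2 B l π.1.1 (N.ovL Q π.2.2 0 (N.ovL P π.2.1 z x)) j =
        N.phL Q π.2.2 B l π.1.1 (N.ovL Q π.2.2 0 x) j := by
      simp only [VSys.phL, VSys.Gam, h2]
    simp only [wL, pq, mv, h3, Prod.snd_sub]
    abel
  have e5 : pq N A k i B l j P Q π.1.1 π.2.1 π.2.2 z x =
      N.phL P π.2.1 A k π.1.1 (N.ovL P π.2.1 z x) i -
        N.phL Q π.2.2 B l π.1.1 (N.ovL Q π.2.2 0 x) j := rfl
  rw [e1, e2, e3, e4, e5]
  generalize N.phL P π.2.1 A k π.1.1 (N.ovL P π.2.1 z x) i = a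
  generalize N.phL Q π.2.2 B l π.1.1 (N.ovL Q π.2.2 0 x) j = b
  generalize π.1.2.2 = g
  ext1
  · show a.1 - (b.1 + (a.1 - b.1)) = 0
    abel
  · show a.2 - (b.2 + (a.2 - b.2 - g)) = g
    abel

theorem coinc_congr {τ : MTree J κ} {π : Par τ} {Z Z' : J → PhasePoint}
    (h : ∀ p ∈ supp τ, Z' p = Z p) (hC : Coinc N τ π Z) : Coinc N τ π Z' := by
  intro A hA B hB k' l' i hi j hj hne s hs ha hb heq
  refine hC A hA B hB k' l' i hi j hj hne s hs ha hb ?_
  rwa [Gam_congr (h i (hA hi)), Gam_congr (h j (hB hj))] at heq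

theorem coinc_shift {τ : MTree J κ} {π : Par τ} {Z Z' : J → PhasePoint} {w : PhasePoint}
    (ho : ∀ p ∈ supp τ, N.o ≠ some p) (h : ∀ p ∈ supp τ, Z' p = Z p + w) (hC : Coinc N τ π Z) :
    Coinc N τ π Z' := by
  intro A hA B hB k' l' i hi j hj hne s hs ha hb heq
  refine hC A hA B hB k' l' i hi j hj hne s hs ha hb ?_
  rw [Gam_shift N (ho i (hA hi)) (h i (hA hi)), Gam_shift N (ho j (hB hj)) (h j (hB hj))] at heq
  exact add_right_cancel heq

/-- limit paths of different particles meet only at the times of the edges -/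
theorem coinc_gen (hΦ : AdmissiblePotential N.Φ) {Bd : Set ℝ} : ∀ (τ : MTree J κ), WF N.o τ →
    ∀ {u : ℝ} {π : Par τ} {z : PhasePoint} {x : J → PhasePoint}, Ord τ u π → VLPar823.Act N τ π →
      N.Gen Bd τ π z x → Coinc N τ π (N.ovL τ π z x)
  | leaf j => fun _ u π z x _ _ _ A hA B hB k' l' i hi i' hi' hne _ _ _ _ _ => by
      have h1 : i = j := Finset.mem_singleton.1 (hA hi)
      have h2 : i' = j := Finset.mem_singleton.1 (hB hi')
      exact absurd (h1.trans h2.symm) hne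
  | node A k i B l j P Q => fun hwf u π z x hO hact hG => by
      obtain ⟨hd, hA, hB, hi, hj, ho, hWP, hWQ⟩ := id hwf
      obtain ⟨ht0, htu, hOP, hOQ⟩ := hO
      obtain ⟨ha, haP, haQ⟩ := hact
      obtain ⟨hGP, hGQ, hGN⟩ := hG
      exact VLInv399.coinc_node N hΦ hwf ha hOP hOQ hGN (phL_rel hwf π z x)
        (coinc_congr (fun p hp => ovL_left hwf π z x hp) (coinc_gen hΦ P hWP hOP haP hGP))
        (coinc_shift ho (fun p hp => ovL_right hwf π z x hp) (coinc_gen hΦ Q hWQ hOQ haQ hGQ))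

theorem ord_mono : ∀ (τ : MTree J κ) {u v : ℝ} {π : Par τ}, u ≤ v → Ord τ u π → Ord τ v π
  | leaf _, _, _, _, _, _ => trivial
  | node _ _ _ _ _ _ _ _, _, _, _, huv, h => ⟨h.1, h.2.1.trans_le huv, h.2.2.1, h.2.2.2⟩

/-- the induction -/
theorem ae_gen_aux [Fintype κ] (hΦ : AdmissiblePotential N.Φ) (hT : 0 ≤ N.T)
    (hc : ∃ L : ℝ≥0, ∀ k, LipschitzOnWith L (N.S.c k) (Icc 0 N.T)) (hgen : Generic N.T N.S)
    {Bd : Set ℝ} (hBd : Bd.Finite) (x : J → PhasePoint) : ∀ (τ : MTree J κ), WF N.o τ →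
    ∀ (μZ : Measure PhasePoint) [SFinite μZ], ∀ᵐ p ∂((volume : Measure (Par τ)).prod μZ),
      Ord τ N.T p.1 → VLPar823.Act N τ p.1 → N.Gen Bd τ p.1 p.2 x
  | leaf _ => fun _ μZ _ => Eventually.of_forall fun _ _ _ => trivial
  | node A k i B l j P Q => fun hwf μZ _ => by
      obtain ⟨hd, hA, hB, hi, hj, ho, hWP, hWQ⟩ := id hwf
      have iP := ae_gen_aux hΦ hT hc hgen hBd x P hWP μZ
      have iQ := ae_gen_aux hΦ hT hc hgen hBd x Q hWQ (Measure.dirac 0)
      have iQ' : ∀ᵐ y : Par Q, Ord Q N.T y → VLPar823.Act N Q y → N.Gen Bd Q y 0 x := by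
        rw [Measure.prod_dirac] at iQ
        exact ae_of_ae_map (measurable_prodMk_right).aemeasurable iQ
      have a1 := ae_of_ae_xz (μX := (volume : Measure (Par P))) (μY := (volume : Measure (Par Q)))
        (μZ := μZ) iP
      have a2 := ae_of_ae_y (μX := (volume : Measure (Par P))) (μY := (volume : Measure (Par Q)))
        (μZ := μZ) iQ'
      have a3 := ae_rest hΦ hT hc hwf x μZ
      have a4 := ae_N124 hΦ hT hc hBd hwf x μZ
      have a5 := ae_N3 hΦ hT hc hgen hwf x μZ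
      filter_upwards [a1, a2, a3, a4, a5] with p h1 h2 h3 h4 h5 hO hact
      obtain ⟨ht0, htT, hOP, hOQ⟩ := id hO
      obtain ⟨ha, haP, haQ⟩ := hact
      have hGP := h1 (ord_mono P htT.le hOP) haP
      have hGQ := h2 (ord_mono Q htT.le hOQ) haQ
      have h3' := h3 ht0
      have h5' := h5 hO ha (coinc_gen hΦ P hWP hOP haP hGP) (coinc_gen hΦ Q hWQ hOQ haQ hGQ)
      refine ⟨hGP, hGQ, ?_⟩
      exact
        { tBd := h4.tBd
          tbb := h4.tbb
          tSb := h4.tSb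
          tPQ := h4.tPQ
          N2 := fun A' hA' B' hB' k' l' i' hi' j' hj' s hs hst _ =>
            h4.N2 A' hA' B' hB' k' l' i' hi' j' hj' s hs hst
          N3 := fun _ A' hA' B' hB' k' l' i' hi' j' hj' ha' he => by
            obtain ⟨b1, b2, b3⟩ := h5' A' hA' B' hB' k' l' i' hi' j' hj' ha' he
            exact ⟨b1, b2, fun h => absurd h (ho j (hB hj)), fun _ => b3⟩
          N4 := fun _ => h4.N4
          N4t := fun _ v hv => h4.N4t k v hv
          N5 := h3'.N5
          N6a := h3'.N6a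
          N6b := h3'.N6b
          N6c := h3'.N6c
          N6d := h3'.N6d
          N7P := h3'.N7P
          N7Q := h3'.N7Q }

/-- **(A)** almost all parameters are generic -/
theorem ae_gen [Fintype κ] (hΦ : AdmissiblePotential N.Φ) (hT : 0 ≤ N.T)
    (hc : ∃ L : ℝ≥0, ∀ k, LipschitzOnWith L (N.S.c k) (Icc 0 N.T)) (hgen : Generic N.T N.S)
    {Bd : Set ℝ} (hBd : Bd.Finite) (τ : MTree J κ) (hτ : WF N.o τ) (x : J → PhasePoint) :
    ∀ᵐ p : Par τ × PhasePoint, Ord τ N.T p.1 → VLPar823.Act N τ p.1 → N.Gen Bd τ p.1 p.2 x :=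
  ae_gen_aux hΦ hT hc hgen hBd x τ hτ volume

end Crest.Agent.R122.VLGen735
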