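import Crest.Agent.R122.VLAE_399
import Crest.Agent.R122.VLGenF_735

/-!
# Row 122, block D3 (helper399): `AE` from `NodeStep`

`ae_of_nodeStep : AdmissiblePotential Φ → NodeStep Φ → AE Φ`, on 735's `ae_gen`.
-/

set_option autoImplicit false

open MeasureTheory Set Filter Topology
open Crest.AnalysisR.Kinetic
open Crest.Agent.R122.VLPar823 Crest.Agent.R122.VL581

namespace Crest.Agent.R122.VLInv399

theorem agenA {Φ : Space3 → ℝ} (hΦ : AdmissiblePotential Φ) : AGenA Φ := by
  intro J κ _ _ N Bd hN hT hBd hL hgen τ hW x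
  subst hN
  exact Crest.Agent.R122.VLGen735.ae_gen hΦ hT.le hL hgen hBd τ hW x

/-- **AE from the node step.** -/
theorem ae_of_nodeStep {Φ : Space3 → ℝ} (hΦ : AdmissiblePotential Φ) (hNS : NodeStep Φ) : AE Φ :=
  ae_of_AB hΦ (agenA hΦ) (binv_of_nodeStep hNS)

end Crest.Agent.R122.VLInv399
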