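import Mathlib
import Crest.Prelude.Def_KineticLimit
import Crest.Agent.R122.VLParDefs_823
import Crest.Agent.R122.VLInstC_442
import Crest.Agent.R122.VLMeas_973

/-!
# Row 122, block D3, part P1 (helper823): the overlay `ov`, basic facts

* `MF LS M` : standing hypotheses.
* `ov_off`, `ov_root`, `ov_on`, `measurable_ov`.
* `OkT` : the two sub-worlds of every merge are ok at the time of the merge.
* `ov_cov`, `touch` : covariance and the position of the touching labels under `OkT`.
-/

set_option autoImplicit false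

open MeasureTheory Set Filter Topology
open scoped ENNReal NNReal
open Crest.AnalysisR.Kinetic
open Crest.Agent.R122.Ins45 Crest.Agent.R122.GIV566 Crest.Agent.R122.VL581

noncomputable section

namespace Crest.Agent.R122.VLPar823

open scoped Classical
open MTree

variable {J κ : Type} [Fintype J]

/-- Standing hypotheses on a system. -/
structure MF {J κ : Type} (LS : ℝ≥0) (M : VSys J κ) : Prop where
  adm : AdmissiblePotential M.Φ
  eps : 0 < M.ε
  T0 : 0 ≤ M.T
  lip : ∀ k, LipschitzOnWith LS (M.S.c k) (Icc 0 M.T)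

variable {LS : ℝ≥0} {M : VSys J κ}

omit [Fintype J] in
theorem clamp_mem (h0 : 0 ≤ M.T) (t : ℝ) : max 0 (min t M.T) ∈ Icc 0 M.T :=
  ⟨le_max_left _ _, max_le h0 (min_le_right _ _)⟩

omit [Fintype J] in
theorem continuous_clamp (h : MF LS M) (k : κ) :
    Continuous fun t : ℝ => M.S.c k (max 0 (min t M.T)) := by
  have hc : Continuous fun t : ℝ => max 0 (min t M.T) := by fun_prop
  exact (h.lip k).continuousOn.comp_continuous hc fun t => clamp_mem h.T0 t

omit [Fintype J] in
theorem clamp_lip (h : MF LS M) (k : κ) (s t : ℝ) :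
    dist (M.S.c k (max 0 (min t M.T))) (M.S.c k (max 0 (min s M.T))) ≤ LS * |t - s| := by
  refine ((h.lip k).dist_le_mul _ (clamp_mem h.T0 t) _ (clamp_mem h.T0 s)).trans ?_
  refine mul_le_mul_of_nonneg_left ?_ LS.2
  rw [Real.dist_eq]
  have h1 : |max 0 (min t M.T) - max 0 (min s M.T)| ≤ |min t M.T - min s M.T| := by
    have := abs_max_sub_max_le_max 0 (min t M.T) 0 (min s M.T)
    simpa using this
  have h2 : |min t M.T - min s M.T| ≤ |t - s| := by
    have := abs_min_sub_min_le_max t M.T s M.T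
    simpa using this
  exact h1.trans h2

theorem st_meas (h : MF LS M) (A : Finset J) (i : J) :
    Measurable fun p : ℝ × (J → PhasePoint) => M.st A p.1 p.2 i :=
  VLMeas973.measurable_st (M := M) (b := fun _ => M.b)
    ⟨h.adm, h.eps, h.T0, fun k => (h.lip k).continuousOn⟩ measurable_const measurable_snd A
    measurable_fst i

theorem ph_meas (h : MF LS M) (A : Finset J) (k : κ) (i : J) :
    Measurable fun p : ℝ × (J → PhasePoint) => ph M A k p.1 p.2 i := by
  unfold ph
  refine Measurable.prodMk ?_ ?_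
  · unfold VSys.pos
    by_cases ho : M.o = some i
    · simp only [ho, if_true]
      refine Measurable.add ?_ ?_
      · exact ((measurable_pi_apply i).comp measurable_snd).fst
      · exact (continuous_clamp h k).measurable.comp measurable_fst
    · simp only [ho, if_false]
      exact (st_meas h A i).fst
  · by_cases ho : M.o = some i
    · simp only [ho, if_true]
      exact measurable_const
    · simp only [ho, if_false]
      exact (st_meas h A i).snd

theorem ph_loc {A : Finset J} {k : κ} {t : ℝ} {Z Z' : J → PhasePoint}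
    (hZ : ∀ j ∈ A, Z' j = Z j) {i : J} (hi : i ∈ A) :
    ph M A k t Z' i = ph M A k t Z i := by
  unfold ph
  rw [VLInst442.pos_congr hZ hi, VLInst442.st_congr hZ hi]

theorem ph_cov (h : MF LS M) {A : Finset J} {k : κ} {t : ℝ} {Z Z' : J → PhasePoint}
    {w : PhasePoint} (hok : M.ok A t Z) (hZ : ∀ j ∈ A, Z' j = Z j + w) {i : J} (hi : i ∈ A)
    (ho : M.o ≠ some i) : ph M A k t Z' i = ph M A k t Z i + (w.1 + t • w.2, w.2) := by
  have h1 : ph M A k t Z' i = ph M A k t (fun j => Z j + w) i := ph_loc hZ hi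
  rw [h1]
  unfold ph VSys.pos
  rw [if_neg ho, if_neg ho, if_neg ho, if_neg ho, VLInst442.st_vadd h.adm h.eps hok]
  rfl

/-! ### The overlay -/

/-- New root state of the right subtree at a node. -/
def nw (M : VSys J κ) (A : Finset J) (k : κ) (i : J) (B : Finset J) (l : κ) (j : J)
    (P Q : MTree J κ) (t : ℝ) (πP : Par P) (πQ : Par Q) (z : PhasePoint) (x : J → PhasePoint)
    (ξ g : Space3) : PhasePoint :=
  mv M.ε t (ph M A k t (ov M P πP z x) i) (ph M B l t (ov M Q πQ 0 (ov M P πP z x)) j) ξ g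

theorem ov_leaf (j : J) (π : Par (leaf j : MTree J κ)) (z : PhasePoint) (x : J → PhasePoint) :
    ov M (leaf j) π z x = Function.update x j z := rfl

theorem ov_node (A : Finset J) (k : κ) (i : J) (B : Finset J) (l : κ) (j : J) (P Q : MTree J κ)
    (π : Par (node A k i B l j P Q)) (z : PhasePoint) (x : J → PhasePoint) :
    ov M (node A k i B l j P Q) π z x =
      ov M Q π.2.2 (nw M A k i B l j P Q π.1.1 π.2.1 π.2.2 z x π.1.2.1 π.1.2.2)
        (ov M P π.2.1 z x) := rfl

omit [Fintype J] in
theorem root_mem : ∀ τ : MTree J κ, root τ ∈ supp τ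
  | leaf _ => Finset.mem_singleton_self _
  | node _ _ _ _ _ _ P _ => Finset.mem_union_left _ (root_mem P)

theorem ov_off : ∀ (τ : MTree J κ) (π : Par τ) (z : PhasePoint) (x : J → PhasePoint) (y : J),
    y ∉ supp τ → ov M τ π z x y = x y
  | leaf j => fun π z x y hy => by
      rw [ov_leaf, Function.update_of_ne]
      exact fun h => hy (h ▸ Finset.mem_singleton_self _)
  | node A k i B l j P Q => fun π z x y hy => by
      rw [ov_node, ov_off Q _ _ _ y (fun h => hy (Finset.mem_union_right _ h)),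
        ov_off P _ _ _ y (fun h => hy (Finset.mem_union_left _ h))]

theorem ov_node_left {A : Finset J} {k : κ} {i : J} {B : Finset J} {l : κ} {j : J}
    {P Q : MTree J κ} {o : Option J} (hW : WF o (node A k i B l j P Q))
    (π : Par (node A k i B l j P Q)) (z : PhasePoint) (x : J → PhasePoint) {y : J}
    (hy : y ∈ supp P) : ov M (node A k i B l j P Q) π z x y = ov M P π.2.1 z x y := by
  rw [ov_node, ov_off Q _ _ _ y (Finset.disjoint_left.1 hW.1 hy)]

theorem ov_root {o : Option J} : ∀ (τ : MTree J κ) (_ : WF o τ) (π : Par τ) (z : PhasePoint)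
    (x : J → PhasePoint), ov M τ π z x (root τ) = z
  | leaf j => fun _ π z x => by
      rw [ov_leaf]
      exact Function.update_self _ _ _
  | node A k i B l j P Q => fun hW π z x => by
      have h1 := ov_node_left (M := M) hW π z x (root_mem P)
      have h2 := ov_root P hW.2.2.2.2.2.2.1 π.2.1 z x
      exact h1.trans h2

/-- The values on the support do not depend on the background. -/
theorem ov_on {o : Option J} : ∀ (τ : MTree J κ) (_ : WF o τ) (π : Par τ)
    (z : PhasePoint) (x x' : J → PhasePoint), ∀ y ∈ supp τ, ov M τ π z x y = ov M τ π z x' y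
  | leaf j => fun _ π z x x' y hy => by
      have : y = j := Finset.mem_singleton.1 hy
      subst this
      rw [ov_leaf, ov_leaf, Function.update_self, Function.update_self]
  | node A k i B l j P Q => fun hW π z x x' y hy => by
      obtain ⟨hd, hA, hB, hi, hj, -, hWP, hWQ⟩ := hW
      have hP := ov_on P hWP π.2.1 z x x'
      have hp : ph M A k π.1.1 (ov M P π.2.1 z x) i = ph M A k π.1.1 (ov M P π.2.1 z x') i :=
        ph_loc (fun a ha => hP a (hA ha)) hi
      have hq : ph M B l π.1.1 (ov M Q π.2.2 0 (ov M P π.2.1 z x)) j =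
          ph M B l π.1.1 (ov M Q π.2.2 0 (ov M P π.2.1 z x')) j :=
        ph_loc (fun b hb => ov_on Q hWQ π.2.2 0 _ _ b (hB hb)) hj
      rw [ov_node, ov_node]
      unfold nw
      rw [hp, hq]
      by_cases hyQ : y ∈ supp Q
      · exact ov_on Q hWQ _ _ _ _ y hyQ
      · rw [ov_off Q _ _ _ y hyQ, ov_off Q _ _ _ y hyQ]
        exact hP y ((Finset.mem_union.1 hy).resolve_right hyQ)

theorem mv_add (ε t : ℝ) (p q : PhasePoint) (ξ g : Space3) (w : PhasePoint) :
    mv ε t (p + (w.1 + t • w.2, w.2)) q ξ g = mv ε t p q ξ g + w := by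
  unfold mv
  ext1
  · simp only [Prod.fst_add, Prod.snd_add]
    module
  · simp only [Prod.snd_add]
    module

end Crest.Agent.R122.VLPar823

namespace Crest.Agent.R122.VLPar823

open scoped Classical
open MTree

variable {J κ : Type} [Fintype J] {LS : ℝ≥0} {M : VSys J κ}

/-- merge times -/
def Tm : MTree J κ → Type
  | leaf _ => Unit
  | node _ _ _ _ _ _ P Q => ℝ × Tm P × Tm Q

/-- the times of the parameters -/
def tms : ∀ τ : MTree J κ, Par τ → Tm τ
  | leaf _ => fun _ => ()
  | node _ _ _ _ _ _ P Q => fun π => (π.1.1, tms P π.2.1, tms Q π.2.2)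

/-- The two sub-worlds of every merge are ok at the time of the merge. -/
def OkT (M : VSys J κ) : ∀ τ : MTree J κ, Tm τ → (J → PhasePoint) → Prop
  | leaf _ => fun _ _ => True
  | node A _ _ B _ _ P Q => fun t Z => M.ok A t.1 Z ∧ M.ok B t.1 Z ∧ OkT M P t.2.1 Z ∧
      OkT M Q t.2.2 Z

theorem OkT.congr {o : Option J} : ∀ (τ : MTree J κ) (_ : WF o τ) {t : Tm τ}
    {Z Z' : J → PhasePoint} (_ : ∀ y ∈ supp τ, Z y = Z' y), OkT M τ t Z → OkT M τ t Z'
  | leaf _ => fun _ _ _ _ _ _ => trivial
  | node A k i B l j P Q => fun hW t Z Z' hZ h => by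
      obtain ⟨hd, hA, hB, hi, hj, -, hWP, hWQ⟩ := hW
      obtain ⟨h1, h2, h3, h4⟩ := h
      have hZP : ∀ y ∈ supp P, Z y = Z' y := fun y hy => hZ y (Finset.mem_union_left _ hy)
      have hZQ : ∀ y ∈ supp Q, Z y = Z' y := fun y hy => hZ y (Finset.mem_union_right _ hy)
      exact ⟨(VLInst442.ok_congr (fun y hy => hZP y (hA hy)) _).1 h1,
        (VLInst442.ok_congr (fun y hy => hZQ y (hB hy)) _).1 h2, OkT.congr P hWP hZP h3,
        OkT.congr Q hWQ hZQ h4⟩

/-- Covariance of the overlay under `OkT`. -/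
theorem ov_cov (h : MF LS M) : ∀ (τ : MTree J κ) (_ : WF M.o τ) (_ : ∀ y ∈ supp τ, M.o ≠ some y)
    (π : Par τ) (z w : PhasePoint) (x x' : J → PhasePoint) (_ : OkT M τ (tms τ π) (ov M τ π z x)),
    ∀ y ∈ supp τ, ov M τ π (z + w) x' y = ov M τ π z x y + w
  | leaf j => fun _ _ π z w x x' _ y hy => by
      have : y = j := Finset.mem_singleton.1 hy
      subst this
      rw [ov_leaf, ov_leaf, Function.update_self, Function.update_self]
  | node A k i B l j P Q => fun hW ho π z w x x' hok y hy => by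
      obtain ⟨hd, hA, hB, hi, hj, -, hWP, hWQ⟩ := id hW
      obtain ⟨ok1, ok2, ok3, ok4⟩ := hok
      have hoP : ∀ y ∈ supp P, M.o ≠ some y := fun y hy => ho y (Finset.mem_union_left _ hy)
      have hoQ : ∀ y ∈ supp Q, M.o ≠ some y := fun y hy => ho y (Finset.mem_union_right _ hy)
      have hZP : ∀ y ∈ supp P, ov M (node A k i B l j P Q) π z x y = ov M P π.2.1 z x y :=
        fun y hy => ov_node_left hW π z x hy
      have hP := ov_cov h P hWP hoP π.2.1 z w x x' (OkT.congr P hWP hZP ok3)
      have hokA : M.ok A π.1.1 (ov M P π.2.1 z x) :=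
        (VLInst442.ok_congr (fun y hy => hZP y (hA hy)) _).1 ok1
      have hp : ph M A k π.1.1 (ov M P π.2.1 (z + w) x') i =
          ph M A k π.1.1 (ov M P π.2.1 z x) i + (w.1 + π.1.1 • w.2, w.2) :=
        ph_cov h hokA (fun a ha => hP a (hA ha)) hi (hoP i (hA hi))
      have hq : ph M B l π.1.1 (ov M Q π.2.2 0 (ov M P π.2.1 (z + w) x')) j =
          ph M B l π.1.1 (ov M Q π.2.2 0 (ov M P π.2.1 z x)) j :=
        ph_loc (fun b hb => ov_on Q hWQ π.2.2 0 _ _ b (hB hb)) hj
      rw [ov_node] at ok4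
      rw [ov_node, ov_node]
      unfold nw at ok4 ⊢
      rw [hp, hq, mv_add]
      by_cases hyQ : y ∈ supp Q
      · exact ov_cov h Q hWQ hoQ π.2.2 _ w _ _ ok4 y hyQ
      · rw [ov_off Q _ _ _ y hyQ, ov_off Q _ _ _ y hyQ]
        exact hP y ((Finset.mem_union.1 hy).resolve_right hyQ)

/-- At the time of a merge the two labels are at `(ε ξ, g)`, under `OkT`. -/
theorem touch (h : MF LS M) {A : Finset J} {k : κ} {i : J} {B : Finset J} {l : κ} {j : J}
    {P Q : MTree J κ} (hW : WF M.o (node A k i B l j P Q)) (π : Par (node A k i B l j P Q))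
    (z : PhasePoint) (x : J → PhasePoint)
    (hokB : M.ok B π.1.1 (ov M (node A k i B l j P Q) π z x))
    (hokQ : OkT M Q (tms Q π.2.2) (ov M (node A k i B l j P Q) π z x)) :
    ph M A k π.1.1 (ov M (node A k i B l j P Q) π z x) i -
      ph M B l π.1.1 (ov M (node A k i B l j P Q) π z x) j = (M.ε • π.1.2.1, π.1.2.2) := by
  obtain ⟨hd, hA, hB, hi, hj, hoQ, hWP, hWQ⟩ := id hW
  have h1 : ph M A k π.1.1 (ov M (node A k i B l j P Q) π z x) i =
      ph M A k π.1.1 (ov M P π.2.1 z x) i :=
    ph_loc (fun a ha => ov_node_left hW π z x (hA ha)) hi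
  rw [ov_node] at hokQ hokB
  rw [h1, ov_node]
  set x₁ := ov M P π.2.1 z x with hx₁
  set w := nw M A k i B l j P Q π.1.1 π.2.1 π.2.2 z x π.1.2.1 π.1.2.2 with hw
  have hc := ov_cov h Q hWQ hoQ π.2.2 w (-w) x₁ x₁ hokQ
  rw [add_neg_cancel] at hc
  have h2 : ph M B l π.1.1 (ov M Q π.2.2 0 x₁) j =
      ph M B l π.1.1 (ov M Q π.2.2 w x₁) j + ((-w).1 + π.1.1 • (-w).2, (-w).2) :=
    ph_cov h hokB (fun b hb => hc b (hB hb)) hj (hoQ j (hB hj))
  have h3 : ph M B l π.1.1 (ov M Q π.2.2 w x₁) j =
      ph M B l π.1.1 (ov M Q π.2.2 0 x₁) j + (w.1 + π.1.1 • w.2, w.2) := by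
    rw [h2]
    ext1
    · simp only [Prod.fst_add, Prod.fst_neg, Prod.snd_neg]
      module
    · simp only [Prod.snd_add, Prod.snd_neg]
      module
  rw [h3, hw]
  unfold nw mv
  ext1
  · simp only [Prod.fst_sub, Prod.fst_add]
    module
  · simp only [Prod.snd_sub, Prod.snd_add]
    module

/-! ### Measurability -/

theorem measurable_mv {α : Type*} [MeasurableSpace α] {ε : ℝ} {t : α → ℝ} {p q : α → PhasePoint}
    {ξ g : α → Space3} (ht : Measurable t) (hp : Measurable p) (hq : Measurable q)
    (hξ : Measurable ξ) (hg : Measurable g) :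
    Measurable fun a => mv ε (t a) (p a) (q a) (ξ a) (g a) := by
  unfold mv
  refine Measurable.prodMk ?_ ?_
  · exact ((hp.fst.sub (hξ.const_smul ε)).sub hq.fst).sub (ht.smul ((hp.snd.sub hg).sub hq.snd))
  · exact (hp.snd.sub hg).sub hq.snd

attribute [local irreducible] ph mv ov in
theorem measurable_ov (h : MF LS M) (τ : MTree J κ) : ∀ {α : Type}
    [MeasurableSpace α] {π : α → Par τ} {z : α → PhasePoint} {x : α → J → PhasePoint},
    Measurable π → Measurable z → Measurable x → Measurable fun a => ov M τ (π a) (z a) (x a) := by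
  induction τ with
  | leaf j =>
    intro α _ π z x hπ hz hx
    simp only [ov_leaf]
    refine measurable_pi_lambda _ fun y => ?_
    by_cases hy : y = j
    · subst hy
      simp only [Function.update_self]
      exact hz
    · simp only [Function.update_of_ne hy]
      exact (measurable_pi_apply y).comp hx
  | node A k i B l j P Q ihP ihQ =>
    intro α _ π z x hπ hz hx
    have hπ' : @Measurable α ((ℝ × Space3 × Space3) × Par P × Par Q) _ _ π := hπ
    have h1 : Measurable fun a => (π a).1.1 := hπ'.fst.fst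
    have h2 : Measurable fun a => (π a).1.2.1 := hπ'.fst.snd.fst
    have h3 : Measurable fun a => (π a).1.2.2 := hπ'.fst.snd.snd
    have h4 : Measurable fun a => (π a).2.1 := hπ'.snd.fst
    have h5 : Measurable fun a => (π a).2.2 := hπ'.snd.snd
    have h6 := ihP h4 hz hx
    have h7 := ihQ h5 (measurable_const (a := (0 : PhasePoint))) h6
    simp only [ov_node]
    refine ihQ h5 ?_ h6
    unfold nw
    have h8 : Measurable fun a => ph M A k (π a).1.1 (ov M P (π a).2.1 (z a) (x a)) i :=
      (ph_meas h A k i).comp (h1.prodMk h6)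
    have h9 : Measurable fun a => ph M B l (π a).1.1
        (ov M Q (π a).2.2 0 (ov M P (π a).2.1 (z a) (x a))) j :=
      (ph_meas h B l j).comp (h1.prodMk h7)
    exact measurable_mv h1 h8 h9 h2 h3

end Crest.Agent.R122.VLPar823

end
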