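import Mathlib
import Crest.Prelude.Def_KineticLimit
import Crest.Agent.R122.VLPar1_823

/-!
# Row 122, block D3, part P1 (helper823): the exact change of variables

`cov_formula`: `∫ dt ∫ dZ (coordinates in supp τ) G t Z = ε^(3 n) ∫ dπ ∫ dz G (times π) (ov τ π z x)`.
-/

set_option autoImplicit false

open MeasureTheory Set Filter Topology
open scoped ENNReal NNReal
open Crest.AnalysisR.Kinetic
open Crest.Agent.R122.Ins45 Crest.Agent.R122.GIV566 Crest.Agent.R122.VL581

noncomputable section

namespace Crest.Agent.R122.VLPar823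

open scoped Classical
open MTree

/-! ### One merge -/

theorem lintegral_scale {ε : ℝ} (hε : 0 < ε) (c : Space3) {f : Space3 → ℝ≥0∞} (hf : Measurable f) :
    ∫⁻ x, f x = ENNReal.ofReal (ε ^ 3) * ∫⁻ ξ, f (c - ε • ξ) := by
  have h1 : ∫⁻ ξ, f (c - ε • ξ) = ∫⁻ y, f (c - y) ∂(Measure.map (ε • ·) (volume : Measure Space3)) := by
    have hf' : Measurable fun y : Space3 => f (c - y) := hf.comp (measurable_const.sub measurable_id)
    rw [lintegral_map hf' (measurable_const_smul ε)]
  rw [h1, Measure.map_addHaar_smul _ hε.ne', lintegral_smul_measure, lintegral_sub_left_eq_self]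
  have h3 : Module.finrank ℝ Space3 = 3 := by simp
  rw [h3, smul_eq_mul, ← mul_assoc, ← ENNReal.ofReal_mul (by positivity), abs_of_pos (by positivity),
    mul_inv_cancel₀ (by positivity), ENNReal.ofReal_one, one_mul]

theorem lintegral_mv {ε : ℝ} (hε : 0 < ε) (t : ℝ) (p q : PhasePoint) {F : PhasePoint → ℝ≥0∞}
    (hF : Measurable F) :
    ∫⁻ w, F w = ENNReal.ofReal (ε ^ 3) * ∫⁻ ξg : Space3 × Space3, F (mv ε t p q ξg.1 ξg.2) := by
  have hmv : Measurable fun ξg : Space3 × Space3 => mv ε t p q ξg.1 ξg.2 :=
    measurable_mv measurable_const measurable_const measurable_const measurable_fst measurable_snd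
  have e1 : ∫⁻ w, F w = ∫⁻ w2 : Space3, ∫⁻ w1 : Space3, F (w1, w2) := by
    rw [Measure.volume_eq_prod, lintegral_prod_symm' _ hF]
  have hF2 : Measurable fun ξg : Space3 × Space3 => F (mv ε t p q ξg.1 ξg.2) := hF.comp hmv
  have e2 : ∫⁻ ξg : Space3 × Space3, F (mv ε t p q ξg.1 ξg.2) =
      ∫⁻ g : Space3, ∫⁻ ξ : Space3, F (mv ε t p q ξ g) := by
    rw [Measure.volume_eq_prod, lintegral_prod_symm' _ hF2]
  rw [e1, e2]
  have hH : Measurable fun g : Space3 => ∫⁻ ξ : Space3, F (mv ε t p q ξ g) :=
    Measurable.lintegral_prod_left' hF2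
  rw [← lintegral_sub_left_eq_self (fun w2 : Space3 => ∫⁻ w1 : Space3, F (w1, w2)) (p.2 - q.2),
    ← lintegral_const_mul _ hH]
  refine lintegral_congr fun g => ?_
  have hfix : Measurable fun w1 : Space3 => F (w1, p.2 - q.2 - g) :=
    hF.comp (measurable_id.prodMk measurable_const)
  rw [lintegral_scale hε (p.1 - q.1 - t • (p.2 - g - q.2)) hfix]
  refine congrArg _ (lintegral_congr fun ξ => ?_)
  refine congrArg F ?_
  unfold mv
  ext1
  · simp only
    module
  · simp only
    module

/-! ### Merge times -/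

variable {J κ : Type}

instance instMeasurableSpaceTm : ∀ τ : MTree J κ, MeasurableSpace (Tm τ)
  | leaf _ => inferInstanceAs (MeasurableSpace Unit)
  | node _ _ _ _ _ _ P Q => @Prod.instMeasurableSpace _ _ _ (@Prod.instMeasurableSpace _ _
      (instMeasurableSpaceTm P) (instMeasurableSpaceTm Q))

/-- Lebesgue measure on the merge times -/
def tmVol : ∀ τ : MTree J κ, Measure (Tm τ)
  | leaf _ => (Measure.dirac () : Measure Unit)
  | node _ _ _ _ _ _ P Q => (volume : Measure ℝ).prod ((tmVol P).prod (tmVol Q))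

instance instMeasureSpaceTm (τ : MTree J κ) : MeasureSpace (Tm τ) := ⟨tmVol τ⟩

instance instSigmaFiniteTm : ∀ τ : MTree J κ, SigmaFinite (volume : Measure (Tm τ))
  | leaf _ => inferInstanceAs (SigmaFinite (Measure.dirac () : Measure Unit))
  | node _ _ _ _ _ _ P Q => by
      have := instSigmaFiniteTm P
      have := instSigmaFiniteTm Q
      exact inferInstanceAs (SigmaFinite ((volume : Measure ℝ).prod
        ((volume : Measure (Tm P)).prod (volume : Measure (Tm Q)))))

theorem measurable_tms (τ : MTree J κ) : Measurable (tms τ) := by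
  induction τ with
  | leaf j => exact measurable_const
  | node A k i B l j P Q ihP ihQ =>
    have h1 : Measurable fun π : (ℝ × Space3 × Space3) × Par P × Par Q => π.1.1 :=
      measurable_fst.fst
    have h2 : Measurable fun π : (ℝ × Space3 × Space3) × Par P × Par Q => tms P π.2.1 :=
      ihP.comp measurable_snd.fst
    have h3 : Measurable fun π : (ℝ × Space3 × Space3) × Par P × Par Q => tms Q π.2.2 :=
      ihQ.comp measurable_snd.snd
    exact h1.prodMk (h2.prodMk h3)

/-- Integral over the parameters of a node. -/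
theorem lintegral_par {A : Finset J} {k : κ} {i : J} {B : Finset J} {l : κ} {j : J}
    {P Q : MTree J κ} {F : Par (node A k i B l j P Q) → ℝ≥0∞} (hF : Measurable F) :
    ∫⁻ π, F π = ∫⁻ t : ℝ, ∫⁻ ξg : Space3 × Space3, ∫⁻ πP : Par P, ∫⁻ πQ : Par Q,
      F ((t, ξg), πP, πQ) := by
  have hF' : @Measurable ((ℝ × Space3 × Space3) × Par P × Par Q) _ _ _ F := hF
  have e1 : ∫⁻ π, F π = ∫⁻ π : (ℝ × Space3 × Space3) × Par P × Par Q, F π
      ∂((volume : Measure (ℝ × Space3 × Space3)).prod
        ((volume : Measure (Par P)).prod (volume : Measure (Par Q)))) := rfl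
  rw [e1, lintegral_prod _ hF'.aemeasurable]
  have hm : Measurable fun a : ℝ × Space3 × Space3 => ∫⁻ b, F (a, b)
      ∂((volume : Measure (Par P)).prod (volume : Measure (Par Q))) :=
    Measurable.lintegral_prod_right' hF'
  rw [Measure.volume_eq_prod ℝ, lintegral_prod _ hm.aemeasurable]
  refine lintegral_congr fun t => lintegral_congr fun ξg => ?_
  exact lintegral_prod _ (hF'.comp measurable_prodMk_left).aemeasurable

/-- Integral over the times of a node. -/
theorem lintegral_tm {A : Finset J} {k : κ} {i : J} {B : Finset J} {l : κ} {j : J}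
    {P Q : MTree J κ} {F : Tm (node A k i B l j P Q) → ℝ≥0∞} (hF : Measurable F) :
    ∫⁻ π, F π = ∫⁻ t : ℝ, ∫⁻ tP : Tm P, ∫⁻ tQ : Tm Q, F (t, tP, tQ) := by
  have hF' : @Measurable (ℝ × Tm P × Tm Q) _ _ _ F := hF
  have e1 : ∫⁻ π, F π = ∫⁻ π : ℝ × Tm P × Tm Q, F π
      ∂((volume : Measure ℝ).prod
        ((volume : Measure (Tm P)).prod (volume : Measure (Tm Q)))) := rfl
  rw [e1, lintegral_prod _ hF'.aemeasurable]
  refine lintegral_congr fun t => ?_
  exact lintegral_prod _ (hF'.comp measurable_prodMk_left).aemeasurable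

/-- joint measurability of the marginal integral -/
theorem measurable_lmarginal {α : Type} [MeasurableSpace α] [Fintype J] (s : Finset J)
    {G : α × (J → PhasePoint) → ℝ≥0∞} (hG : Measurable G) :
    Measurable fun p : α × (J → PhasePoint) =>
      lmarginal (fun _ => (volume : Measure PhasePoint)) s (fun Z => G (p.1, Z)) p.2 := by
  unfold lmarginal
  have h : Measurable fun q : (α × (J → PhasePoint)) × ((i : s) → PhasePoint) =>
      G (q.1.1, Function.updateFinset q.1.2 s q.2) := by
    refine hG.comp (measurable_fst.fst.prodMk ?_)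
    exact measurable_updateFinset'.comp (measurable_fst.snd.prodMk measurable_snd)
  exact Measurable.lintegral_prod_right' h

variable [Fintype J]

omit [Fintype J] in
/-- Tonelli for the marginal integral. -/
theorem lmarginal_swap {α : Type} [MeasurableSpace α] (μ : Measure α) [SFinite μ] (s : Finset J)
    {G : α × (J → PhasePoint) → ℝ≥0∞} (hG : Measurable G) (x : J → PhasePoint) :
    ∫⁻ a, lmarginal (fun _ => (volume : Measure PhasePoint)) s (fun Z => G (a, Z)) x ∂μ =
      lmarginal (fun _ => (volume : Measure PhasePoint)) s (fun Z => ∫⁻ a, G (a, Z) ∂μ) x := by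
  unfold lmarginal
  rw [lintegral_lintegral_swap]
  refine Measurable.aemeasurable ?_
  refine hG.comp (measurable_fst.prodMk ?_)
  exact measurable_updateFinset.comp measurable_snd

omit [Fintype J] in
theorem swap4 {α β γ δ : Type} [MeasurableSpace α] [MeasurableSpace β] [MeasurableSpace γ]
    [MeasurableSpace δ] {a : Measure α} {b : Measure β} {c : Measure γ} {d : Measure δ}
    [SFinite a] [SFinite b] [SFinite c] [SFinite d] {f : α → β → γ → δ → ℝ≥0∞}
    (hf : Measurable fun q : α × β × γ × δ => f q.1 q.2.1 q.2.2.1 q.2.2.2) :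
    ∫⁻ y, ∫⁻ w, ∫⁻ z, ∫⁻ x, f x y z w ∂a ∂c ∂d ∂b = ∫⁻ x, ∫⁻ y, ∫⁻ z, ∫⁻ w, f x y z w ∂d ∂c ∂b ∂a := by
  have m1 : Measurable fun q : α × β × γ => ∫⁻ w, f q.1 q.2.1 q.2.2 w ∂d := by
    refine Measurable.lintegral_prod_right' (f := fun r : (α × β × γ) × δ =>
      f r.1.1 r.1.2.1 r.1.2.2 r.2) ?_
    exact hf.comp (measurable_fst.fst.prodMk (measurable_fst.snd.fst.prodMk
      (measurable_fst.snd.snd.prodMk measurable_snd)))
  have m2 : Measurable fun q : α × β => ∫⁻ z, ∫⁻ w, f q.1 q.2 z w ∂d ∂c := by
    refine Measurable.lintegral_prod_right' (f := fun r : (α × β) × γ =>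
      ∫⁻ w, f r.1.1 r.1.2 r.2 w ∂d) ?_
    exact m1.comp (measurable_fst.fst.prodMk (measurable_fst.snd.prodMk measurable_snd))
  have m3 : ∀ y, Measurable fun q : γ × δ => ∫⁻ x, f x y q.1 q.2 ∂a := by
    intro y
    refine Measurable.lintegral_prod_left' (f := fun r : α × (γ × δ) => f r.1 y r.2.1 r.2.2) ?_
    exact hf.comp (measurable_fst.prodMk (measurable_const.prodMk
      (measurable_snd.fst.prodMk measurable_snd.snd)))
  rw [lintegral_lintegral_swap (f := fun x y => ∫⁻ z, ∫⁻ w, f x y z w ∂d ∂c) m2.aemeasurable]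
  refine lintegral_congr fun y => ?_
  have m4 : Measurable fun q : α × γ => ∫⁻ w, f q.1 y q.2 w ∂d :=
    m1.comp (measurable_fst.prodMk (measurable_const.prodMk measurable_snd))
  rw [lintegral_lintegral_swap (f := fun x z => ∫⁻ w, f x y z w ∂d) m4.aemeasurable,
    ← lintegral_lintegral_swap (f := fun z w => ∫⁻ x, f x y z w ∂a) (m3 y).aemeasurable]
  refine lintegral_congr fun z => ?_
  have m5 : Measurable fun q : α × δ => f q.1 y z q.2 :=
    hf.comp (measurable_fst.prodMk (measurable_const.prodMk
      (measurable_const.prodMk measurable_snd)))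
  rw [lintegral_lintegral_swap (f := fun x w => f x y z w) m5.aemeasurable]

variable {LS : ℝ≥0} {M : VSys J κ}

/-- **The exact change of variables.** -/
theorem cov_formula (h : MF LS M) (τ : MTree J κ) :
    WF M.o τ → ∀ (G : Tm τ × (J → PhasePoint) → ℝ≥0∞), Measurable G → ∀ x : J → PhasePoint,
    ∫⁻ t : Tm τ, lmarginal (fun _ => (volume : Measure PhasePoint)) (supp τ)
      (fun Z => G (t, Z)) x =
    ENNReal.ofReal (M.ε ^ (3 * nn τ)) * ∫⁻ π : Par τ, ∫⁻ z : PhasePoint,
      G (tms τ π, ov M τ π z x) := by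
  induction τ with
  | leaf j =>
    intro _ G hG x
    have e1 : ∫⁻ t : Tm (leaf j : MTree J κ), lmarginal (fun _ => (volume : Measure PhasePoint))
        (supp (leaf j : MTree J κ)) (fun Z => G (t, Z)) x =
        lmarginal (fun _ => (volume : Measure PhasePoint)) {j} (fun Z => G ((), Z)) x := by
      exact lintegral_dirac (α := Unit) () _
    have e2 : ∫⁻ π : Par (leaf j : MTree J κ), ∫⁻ z : PhasePoint,
        G (tms (leaf j) π, ov M (leaf j) π z x) =
        ∫⁻ z : PhasePoint, G ((), Function.update x j z) := by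
      exact lintegral_dirac (α := Unit) () _
    rw [e1, e2, lmarginal_singleton]
    simp [nn]
  | node A k i B l j P Q ihP ihQ =>
    intro hW G hG x
    obtain ⟨hd, hA, hB, hi, hj, hoQ, hWP, hWQ⟩ := id hW
    have hε := h.eps
    have hG' : @Measurable ((ℝ × Tm P × Tm Q) × (J → PhasePoint)) _ _ _ G := hG
    set cP := ENNReal.ofReal (M.ε ^ (3 * nn P)) with hcP
    set cQ := ENNReal.ofReal (M.ε ^ (3 * nn Q)) with hcQ
    set ν : J → Measure PhasePoint := fun _ => (volume : Measure PhasePoint) with hν
    -- the full integrand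
    set f : ℝ → Space3 × Space3 → Par P → Par Q → PhasePoint → ℝ≥0∞ := fun t ξg πP πQ z =>
      G ((t, tms P πP, tms Q πQ), ov M Q πQ (nw M A k i B l j P Q t πP πQ z x ξg.1 ξg.2)
        (ov M P πP z x)) with hf
    have hfm : ∀ t, Measurable fun q : (Space3 × Space3) × Par P × Par Q × PhasePoint =>
        f t q.1 q.2.1 q.2.2.1 q.2.2.2 := by
      intro t
      have hπ : Measurable fun q : (Space3 × Space3) × Par P × Par Q × PhasePoint =>
          (((t, q.1), q.2.1, q.2.2.1) : (ℝ × Space3 × Space3) × Par P × Par Q) :=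
        (measurable_const.prodMk measurable_fst).prodMk
          (measurable_snd.fst.prodMk measurable_snd.snd.fst)
      have h1 := measurable_ov h (node A k i B l j P Q) hπ
        (measurable_snd.snd.snd : Measurable fun q : (Space3 × Space3) × Par P × Par Q ×
          PhasePoint => q.2.2.2) (measurable_const (a := x))
      have h2 := (measurable_tms P).comp (measurable_snd.fst : Measurable fun q :
        (Space3 × Space3) × Par P × Par Q × PhasePoint => q.2.1)
      have h3 := (measurable_tms Q).comp (measurable_snd.snd.fst : Measurable fun q :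
        (Space3 × Space3) × Par P × Par Q × PhasePoint => q.2.2.1)
      exact hG'.comp ((measurable_const.prodMk (h2.prodMk h3)).prodMk h1)
    -- left-hand side
    have hL1 : Measurable fun t : Tm (node A k i B l j P Q) =>
        lmarginal ν (supp P ∪ supp Q) (fun Z => G (t, Z)) x :=
      (measurable_lmarginal (supp P ∪ supp Q) hG).comp (measurable_id.prodMk measurable_const)
    have hR1 : Measurable fun π : Par (node A k i B l j P Q) =>
        ∫⁻ z : PhasePoint, G (tms (node A k i B l j P Q) π, ov M (node A k i B l j P Q) π z x) := by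
      have h1 := measurable_ov h (node A k i B l j P Q)
        (measurable_fst : Measurable fun q : Par (node A k i B l j P Q) × PhasePoint => q.1)
        measurable_snd (measurable_const (a := x))
      have h2 := (measurable_tms (node A k i B l j P Q)).comp
        (measurable_fst : Measurable fun q : Par (node A k i B l j P Q) × PhasePoint => q.1)
      exact Measurable.lintegral_prod_right' (hG.comp (h2.prodMk h1))
    have eL : ∫⁻ t : Tm (node A k i B l j P Q), lmarginal ν (supp (node A k i B l j P Q))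
        (fun Z => G (t, Z)) x = ∫⁻ t : ℝ, ∫⁻ tP : Tm P, ∫⁻ tQ : Tm Q,
          lmarginal ν (supp P ∪ supp Q) (fun Z => G ((t, tP, tQ), Z)) x := lintegral_tm hL1
    have eR : ∫⁻ π : Par (node A k i B l j P Q), ∫⁻ z : PhasePoint,
        G (tms (node A k i B l j P Q) π, ov M (node A k i B l j P Q) π z x) =
        ∫⁻ t : ℝ, ∫⁻ ξg : Space3 × Space3, ∫⁻ πP : Par P, ∫⁻ πQ : Par Q, ∫⁻ z : PhasePoint,
          f t ξg πP πQ z := lintegral_par hR1
    rw [eL, eR]
    have hcst : ENNReal.ofReal (M.ε ^ (3 * nn (node A k i B l j P Q))) =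
        cP * (cQ * ENNReal.ofReal (M.ε ^ 3)) := by
      rw [hcP, hcQ, ← ENNReal.ofReal_mul (by positivity), ← ENNReal.ofReal_mul (by positivity)]
      congr 1
      simp only [nn]
      ring
    rw [← lintegral_const_mul' _ _ ENNReal.ofReal_ne_top]
    refine lintegral_congr fun t => ?_
    -- fixed time of the node
    have s1 : ∀ tP : Tm P, ∫⁻ tQ : Tm Q, lmarginal ν (supp P ∪ supp Q)
        (fun Z => G ((t, tP, tQ), Z)) x = lmarginal ν (supp P) (fun y => cQ *
          ∫⁻ πQ : Par Q, ∫⁻ z' : PhasePoint, G ((t, tP, tms Q πQ), ov M Q πQ z' y)) x := by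
      intro tP
      have hGt : Measurable fun q : Tm Q × (J → PhasePoint) => G ((t, tP, q.1), q.2) :=
        hG'.comp ((measurable_const.prodMk (measurable_const.prodMk measurable_fst)).prodMk
          measurable_snd)
      have e1 : ∀ tQ : Tm Q, lmarginal ν (supp P ∪ supp Q) (fun Z => G ((t, tP, tQ), Z)) x =
          lmarginal ν (supp P) (fun y => lmarginal ν (supp Q)
            (fun Z => G ((t, tP, tQ), Z)) y) x := by
        intro tQ
        have := lmarginal_union ν (fun Z => G ((t, tP, tQ), Z))
          (hGt.comp (measurable_const.prodMk measurable_id)) hd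
        rw [this]
      rw [lintegral_congr e1, lmarginal_swap (volume : Measure (Tm Q)) (supp P)
        (G := fun q : Tm Q × (J → PhasePoint) => lmarginal ν (supp Q)
            (fun Z => G ((t, tP, q.1), Z)) q.2) (measurable_lmarginal (supp Q) hGt) x]
      congr 1
      funext y
      exact ihQ hWQ (fun q => G ((t, tP, q.1), q.2)) hGt y
    rw [lintegral_congr s1]
    have hG2 : Measurable fun q : Tm P × (J → PhasePoint) => cQ *
        ∫⁻ πQ : Par Q, ∫⁻ z' : PhasePoint, G ((t, q.1, tms Q πQ), ov M Q πQ z' q.2) := by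
      refine Measurable.const_mul ?_ _
      refine Measurable.lintegral_prod_right' (f := fun r : (Tm P × (J → PhasePoint)) × Par Q =>
        ∫⁻ z' : PhasePoint, G ((t, r.1.1, tms Q r.2), ov M Q r.2 z' r.1.2)) ?_
      refine Measurable.lintegral_prod_right' (f := fun u : ((Tm P × (J → PhasePoint)) × Par Q) ×
        PhasePoint => G ((t, u.1.1.1, tms Q u.1.2), ov M Q u.1.2 u.2 u.1.1.2)) ?_
      have h1 := measurable_ov h Q
        (measurable_fst.snd : Measurable fun u : ((Tm P × (J → PhasePoint)) × Par Q) ×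
          PhasePoint => u.1.2) measurable_snd measurable_fst.fst.snd
      have h3 := (measurable_tms Q).comp
        (measurable_fst.snd : Measurable fun u : ((Tm P × (J → PhasePoint)) × Par Q) ×
          PhasePoint => u.1.2)
      exact hG'.comp ((measurable_const.prodMk (measurable_fst.fst.fst.prodMk h3)).prodMk h1)
    rw [ihP hWP (fun q => cQ * ∫⁻ πQ : Par Q, ∫⁻ z' : PhasePoint,
      G ((t, q.1, tms Q πQ), ov M Q πQ z' q.2)) hG2 x]
    -- the last merge
    have s2 : ∀ πP : Par P, ∀ z : PhasePoint, ∀ πQ : Par Q, ∫⁻ z' : PhasePoint,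
        G ((t, tms P πP, tms Q πQ), ov M Q πQ z' (ov M P πP z x)) =
        ENNReal.ofReal (M.ε ^ 3) * ∫⁻ ξg : Space3 × Space3, f t ξg πP πQ z := by
      intro πP z πQ
      refine lintegral_mv h.eps t _ _ ?_
      have h1 := measurable_ov h Q (measurable_const (a := πQ)) (measurable_id :
        Measurable fun z' : PhasePoint => z') (measurable_const (a := ov M P πP z x))
      exact hG'.comp (measurable_const.prodMk h1)
    simp only [s2]
    rw [hcst, mul_assoc]
    refine congrArg _ ?_
    rw [← swap4 (hfm t)]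
    rw [← lintegral_const_mul' _ _ (by finiteness)]
    refine lintegral_congr fun πP => ?_
    rw [← lintegral_const_mul' _ _ (by finiteness)]
    refine lintegral_congr fun z => ?_
    rw [mul_assoc]
    refine congrArg _ ?_
    rw [← lintegral_const_mul' _ _ (by finiteness)]

end Crest.Agent.R122.VLPar823

end
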