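import Mathlib
import Crest.Prelude.Def_KineticLimit
import Crest.Agent.R122.VLPar2_823

/-!
# Row 122, block D3, part P1 (helper823): Kruskal lemma for `VSys`

`kruskal`: a connected configuration has a merge tree with root `i₀`, nested contact times.
-/

set_option autoImplicit false
set_option linter.unusedSectionVars false

open MeasureTheory Set Filter Topology
open scoped ENNReal NNReal
open Crest.AnalysisR.Kinetic
open Crest.Agent.R122.Ins45 Crest.Agent.R122.GIV566 Crest.Agent.R122.VL581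

noncomputable section

namespace Crest.Agent.R122.VLPar823

open scoped Classical
open MTree

variable {J κ : Type}

/-- nested merge times -/
def OrdT : ∀ τ : MTree J κ, ℝ → Tm τ → Prop
  | leaf _ => fun _ _ => True
  | node _ _ _ _ _ _ P Q => fun u t => 0 ≤ t.1 ∧ t.1 ≤ u ∧ OrdT P t.1 t.2.1 ∧ OrdT Q t.1 t.2.2

theorem OrdT.mono {u u' : ℝ} (huu : u ≤ u') : ∀ (τ : MTree J κ) {t : Tm τ}, OrdT τ u t →
    OrdT τ u' t
  | leaf _ => fun _ => trivial
  | node _ _ _ _ _ _ _ _ => fun h => ⟨h.1, h.2.1.trans huu, h.2.2⟩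

variable [Fintype J]

/-- contacts at the merge times -/
def CtT (M : VSys J κ) (C : ℝ) : ∀ τ : MTree J κ, Tm τ → (J → PhasePoint) → Prop
  | leaf _ => fun _ _ => True
  | node A k i B l j P Q => fun t Z => M.Ct C A k i B l j t.1 Z ∧ CtT M C P t.2.1 Z ∧
      CtT M C Q t.2.2 Z

variable {LS : ℝ≥0} {M : VSys J κ} {C : ℝ} {Z : J → PhasePoint}

theorem Ct_symm {A B : Finset J} {k l : κ} {i j : J} {t : ℝ} (h : M.Ct C A k i B l j t Z) :
    M.Ct C B l j A k i t Z :=
  ⟨h.2.1, h.1, h.2.2.2.1, h.2.2.1, h.2.2.2.2.2.1, h.2.2.2.2.1, by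
    rw [dist_comm]; exact h.2.2.2.2.2.2⟩

/-- `K` is connected before time `u`, through a merge tree with root `i₀` (if `i₀ ∈ K`). -/
def Gd (M : VSys J κ) (C : ℝ) (Z : J → PhasePoint) (i₀ : J) (K : Finset J) (u : ℝ) : Prop :=
  ∃ (τ : MTree J κ) (t : Tm τ), WF M.o τ ∧ supp τ = K ∧ (i₀ ∈ K → root τ = i₀) ∧ OrdT τ u t ∧
    CtT M C τ t Z

theorem Gd.mono {i₀ : J} {K : Finset J} {u u' : ℝ} (h : Gd M C Z i₀ K u) (huu : u ≤ u') :
    Gd M C Z i₀ K u' := by
  obtain ⟨τ, t, h1, h2, h3, h4, h5⟩ := h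
  exact ⟨τ, t, h1, h2, h3, h4.mono huu, h5⟩

theorem Gd.single (i₀ i : J) (u : ℝ) : Gd M C Z i₀ {i} u :=
  ⟨leaf i, (), trivial, rfl, fun h => (Finset.mem_singleton.1 h).symm, trivial, trivial⟩

theorem Gd.merge {i₀ : J} (ho : ∀ x, M.o = some x → i₀ = x) {P Q A B : Finset J} {k l : κ}
    {i j : J} {s : ℝ} (hs : 0 ≤ s) (hP : Gd M C Z i₀ P s) (hQ : Gd M C Z i₀ Q s)
    (hd : Disjoint P Q) (hA : A ⊆ P) (hB : B ⊆ Q) (hc : M.Ct C A k i B l j s Z) :
    Gd M C Z i₀ (P ∪ Q) s := by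
  obtain ⟨τ, t, a1, rfl, a3, a4, a5⟩ := hP
  obtain ⟨τ', t', b1, rfl, b3, b4, b5⟩ := hQ
  by_cases hi : i₀ ∈ supp τ'
  · have hi' : i₀ ∉ supp τ := fun h => (Finset.disjoint_left.1 hd h) hi
    refine ⟨node B l j A k i τ' τ, ((s, t', t) : ℝ × Tm τ' × Tm τ), ⟨hd.symm, hB, hA, hc.2.1, hc.1,
      fun x hx h => hi' ((ho x h) ▸ hx), b1, a1⟩, Finset.union_comm _ _, fun _ => b3 hi,
      ⟨hs, le_rfl, b4, a4⟩, ⟨Ct_symm hc, b5, a5⟩⟩
  · refine ⟨node A k i B l j τ τ', ((s, t, t') : ℝ × Tm τ × Tm τ'), ⟨hd, hA, hB, hc.1, hc.2.1,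
      fun x hx h => hi ((ho x h) ▸ hx), a1, b1⟩, rfl, fun h => a3 ?_, ⟨hs, le_rfl, a4, b4⟩,
      ⟨hc, a5, b5⟩⟩
    exact (Finset.mem_union.1 h).resolve_right hi

/-! ### Closed sets of contact times -/

theorem pos_continuousOn (h : MF LS M) (A : Finset J) (k : κ) (Z : J → PhasePoint) (i : J) :
    ContinuousOn (fun t => M.pos A k t Z i) {t | M.ok A t Z} := by
  unfold VSys.pos
  by_cases ho : M.o = some i
  · simp only [ho, if_true]
    exact (continuous_const.add (continuous_clamp h k)).continuousOn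
  · simp only [ho, if_false]
    exact (VLInst442.st_continuousOn h.adm h.eps A Z i).fst

theorem isClosed_ct (h : MF LS M) (C : ℝ) (A : Finset J) (k : κ) (i : J) (B : Finset J) (l : κ)
    (j : J) (Z : J → PhasePoint) :
    IsClosed {s | s ∈ Icc 0 M.T ∧ M.Ct C A k i B l j s Z} := by
  have h1 : IsClosed {s | s ∈ Icc 0 M.T ∧ i ∈ A ∧ j ∈ B ∧ M.ok A s Z ∧ M.ok B s Z ∧
      (M.o = some i → s ≤ M.S.b k) ∧ (M.o = some j → s ≤ M.S.b l)} := by
    have e : {s | s ∈ Icc 0 M.T ∧ i ∈ A ∧ j ∈ B ∧ M.ok A s Z ∧ M.ok B s Z ∧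
      (M.o = some i → s ≤ M.S.b k) ∧ (M.o = some j → s ≤ M.S.b l)} =
      Icc 0 M.T ∩ ({_s | i ∈ A ∧ j ∈ B} ∩ ({s | M.ok A s Z} ∩ ({s | M.ok B s Z} ∩
        ({s | M.o = some i → s ≤ M.S.b k} ∩ {s | M.o = some j → s ≤ M.S.b l})))) := by
      ext s
      simp only [mem_ofPred_eq, mem_inter_iff]
      tauto
    rw [e]
    have hcl : ∀ (x : J) (m : κ), IsClosed {s : ℝ | M.o = some x → s ≤ M.S.b m} := by
      intro x m
      by_cases hx : M.o = some x
      · simp only [hx, forall_const]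
        exact isClosed_Iic
      · simp only [hx, false_imp_iff]
        exact isClosed_univ
    refine isClosed_Icc.inter (IsClosed.inter isClosed_const ?_)
    exact (VLInst442.isClosed_ok M A Z).inter ((VLInst442.isClosed_ok M B Z).inter
      ((hcl i k).inter (hcl j l)))
  have h2 : ContinuousOn (fun s => dist (M.pos A k s Z i) (M.pos B l s Z j))
      {s | s ∈ Icc 0 M.T ∧ i ∈ A ∧ j ∈ B ∧ M.ok A s Z ∧ M.ok B s Z ∧
      (M.o = some i → s ≤ M.S.b k) ∧ (M.o = some j → s ≤ M.S.b l)} := by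
    refine continuous_dist.comp_continuousOn (ContinuousOn.prodMk ?_ ?_)
    · exact (pos_continuousOn h A k Z i).mono fun s hs => hs.2.2.2.1
    · exact (pos_continuousOn h B l Z j).mono fun s hs => hs.2.2.2.2.1
  have h3 := h2.preimage_isClosed_of_isClosed h1 (isClosed_Iic (a := C * M.ε))
  convert h3 using 1
  ext s
  simp only [mem_ofPred_eq, mem_inter_iff, mem_preimage, mem_Iic, VSys.Ct]
  tauto

/-- Restriction of a label to a block. -/
theorem restrict (h : MF LS M) (hC : 1 ≤ C) {P K : Finset J} {s : ℝ}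
    (hno : ∀ u ∈ Ico 0 s, ∀ a ∈ P, a ∈ K → ∀ b ∈ P, b ∉ K → ¬ M.VCt C P a b u Z)
    {A : Finset J} (hA : A ⊆ P) {i : J} (hi : i ∈ A) (hiK : i ∈ K) (k : κ) (hok : M.ok A s Z) :
    M.ok (A.filter (· ∈ K)) s Z ∧ M.pos A k s Z i = M.pos (A.filter (· ∈ K)) k s Z i := by
  have hun : A.filter (· ∈ K) ∪ A.filter (fun x => ¬ x ∈ K) = A := by
    rw [Finset.filter_union_filter_not_eq]
  have hdis : Disjoint (A.filter (· ∈ K)) (A.filter (fun x => ¬ x ∈ K)) :=
    Finset.disjoint_filter_filter_not _ _ _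
  have hok' : M.ok (A.filter (· ∈ K) ∪ A.filter (fun x => ¬ x ∈ K)) s Z := by rw [hun]; exact hok
  have hfact := VLInst442.fact h.adm h.eps hdis hok' (by
    intro u hu ho1 ho2 a ha b hb hoa hob _ _
    by_contra hcon
    have ha' := Finset.mem_filter.1 ha
    have hb' := Finset.mem_filter.1 hb
    refine hno u hu a (hA ha'.1) ha'.2 b (hA hb'.1) hb'.2
      ⟨_, (Finset.filter_subset _ _).trans hA, _, (Finset.filter_subset _ _).trans hA, k, k,
        ha, hb, ho1, ho2, fun h => absurd h hoa, fun h => absurd h hob, ?_⟩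
    unfold VSys.pos
    rw [if_neg hoa, if_neg hob]
    have h1 := (not_le.1 hcon).le
    have h2 : M.ε ≤ C * M.ε := by nlinarith [h.eps]
    exact h1.trans h2)
  refine ⟨hfact.1, ?_⟩
  unfold VSys.pos
  by_cases ho : M.o = some i
  · rw [if_pos ho, if_pos ho]
  · rw [if_neg ho, if_neg ho]
    have := (hfact.2.2 s le_rfl).1 i (Finset.mem_filter.2 ⟨hi, hiK⟩)
    rw [hun] at this
    rw [this]

private theorem kr_aux [Fintype κ] (h : MF LS M) (hC : 1 ≤ C) {i₀ : J}
    (ho : ∀ x, M.o = some x → i₀ = x) {P : Finset J} (hP : P.Nonempty)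
    (hc : ∀ Q ⊆ P, Q.Nonempty → Q ≠ P → ∃ i ∈ Q, ∃ j ∈ P \ Q, ∃ s ∈ Icc 0 M.T, M.VCt C P i j s Z) :
    ∀ (n : ℕ) (c : J → J) (t₀ : ℝ), t₀ ∈ Icc 0 M.T → (P.image c).card = n →
      (∀ k ∈ P.image c, Gd M C Z i₀ (P.filter (c · = k)) t₀) →
      (∀ u ∈ Ico 0 t₀, ∀ i ∈ P, ∀ j ∈ P, c i ≠ c j → ¬ M.VCt C P i j u Z) →
      Gd M C Z i₀ P M.T := by
  intro n
  induction n with
  | zero =>
    intro c t₀ _ hcard _ _
    exact absurd (Finset.card_eq_zero.1 hcard) (hP.image c).ne_empty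
  | succ n ih =>
    intro c t₀ ht₀ hcard hblk hno
    by_cases hone : ∀ i ∈ P, ∀ j ∈ P, c i = c j
    · obtain ⟨i₀, hi₀⟩ := hP
      have h1 := hblk (c i₀) (Finset.mem_image_of_mem c hi₀)
      have h2 : P.filter (c · = c i₀) = P := by
        apply Finset.filter_true_of_mem
        exact fun j hj => hone j hj i₀ hi₀
      rw [h2] at h1
      exact h1.mono ht₀.2
    push Not at hone
    obtain ⟨p₀, hp₀, j₀, hj₀, hij⟩ := hone
    -- the set of cross contact times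
    set W : Set ℝ := ⋃ (q : Finset J × κ × J × Finset J × κ × J),
      ⋃ (_ : q.1 ⊆ P ∧ q.2.2.2.1 ⊆ P ∧ c q.2.2.1 ≠ c q.2.2.2.2.2),
      {s | s ∈ Icc 0 M.T ∧ M.Ct C q.1 q.2.1 q.2.2.1 q.2.2.2.1 q.2.2.2.2.1 q.2.2.2.2.2 s Z} with hW
    have hWmem : ∀ s, s ∈ W ↔ s ∈ Icc 0 M.T ∧ ∃ A ⊆ P, ∃ B ⊆ P, ∃ i j k l, c i ≠ c j ∧
        M.Ct C A k i B l j s Z := by
      intro s
      simp only [hW, mem_iUnion, mem_ofPred_eq, exists_prop]
      constructor
      · rintro ⟨⟨A, k, i, B, l, j⟩, ⟨hA, hB, hne⟩, hs, hct⟩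
        exact ⟨hs, A, hA, B, hB, i, j, k, l, hne, hct⟩
      · rintro ⟨hs, A, hA, B, hB, i, j, k, l, hne, hct⟩
        exact ⟨⟨A, k, i, B, l, j⟩, ⟨hA, hB, hne⟩, hs, hct⟩
    have hWcl : IsClosed W := by
      rw [hW]
      refine isClosed_iUnion_of_finite fun q => isClosed_iUnion_of_finite fun _ => ?_
      exact isClosed_ct h C _ _ _ _ _ _ Z
    have hWne : W.Nonempty := by
      have hQne : (P.filter (c · = c p₀)).Nonempty := ⟨p₀, Finset.mem_filter.2 ⟨hp₀, rfl⟩⟩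
      have hQne' : P.filter (c · = c p₀) ≠ P := by
        intro h
        have : j₀ ∈ P.filter (c · = c p₀) := by rw [h]; exact hj₀
        exact hij ((Finset.mem_filter.1 this).2).symm
      obtain ⟨i, hi, j, hj, s, hs, A, hA, B, hB, k, l, h⟩ :=
        hc _ (Finset.filter_subset _ _) hQne hQne'
      refine ⟨s, (hWmem s).2 ⟨hs, A, hA, B, hB, i, j, k, l, ?_, h⟩⟩
      have h1 := (Finset.mem_filter.1 hi).2
      have h2 := Finset.mem_sdiff.1 hj
      intro hcij
      exact h2.2 (Finset.mem_filter.2 ⟨h2.1, by rw [← hcij]; exact h1⟩)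
    have hWsub : W ⊆ Icc 0 M.T := fun s hs => ((hWmem s).1 hs).1
    have hWcomp : IsCompact W := isCompact_Icc.of_isClosed_subset hWcl hWsub
    obtain ⟨t₁, ht₁⟩ := hWcomp.exists_isLeast hWne
    obtain ⟨ht₁T, A, hA, B, hB, i, j, k, l, hne, hct⟩ := (hWmem t₁).1 ht₁.1
    have hno₁ : ∀ u ∈ Ico 0 t₁, ∀ a ∈ P, ∀ b ∈ P, c a ≠ c b → ¬ M.VCt C P a b u Z := by
      rintro u hu a _ b _ hab ⟨A', hA', B', hB', k', l', h⟩
      have : u ∈ W := (hWmem u).2 ⟨⟨hu.1, (hu.2.trans_le ht₁T.2).le⟩, A', hA', B', hB', a, b,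
        k', l', hab, h⟩
      exact absurd (ht₁.2 this) (not_le.2 hu.2)
    have ht₀₁ : t₀ ≤ t₁ := by
      by_contra hlt
      push Not at hlt
      exact hno t₁ ⟨ht₁T.1, hlt⟩ i (hA hct.1) j (hB hct.2.1) hne ⟨A, hA, B, hB, k, l, hct⟩
    set Ki := P.filter (c · = c i) with hKi
    set Kj := P.filter (c · = c j) with hKj
    have hiP : i ∈ P := hA hct.1
    have hjP : j ∈ P := hB hct.2.1
    have hiK : i ∈ Ki := Finset.mem_filter.2 ⟨hiP, rfl⟩
    have hjK : j ∈ Kj := Finset.mem_filter.2 ⟨hjP, rfl⟩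
    have hri := restrict h hC (P := P) (K := Ki) (s := t₁) (Z := Z)
      (fun u hu a ha haK b hb hbK => hno₁ u hu a ha b hb fun h => hbK
        (Finset.mem_filter.2 ⟨hb, h ▸ (Finset.mem_filter.1 haK).2⟩)) hA hct.1 hiK k hct.2.2.1
    have hrj := restrict h hC (P := P) (K := Kj) (s := t₁) (Z := Z)
      (fun u hu a ha haK b hb hbK => hno₁ u hu a ha b hb fun h => hbK
        (Finset.mem_filter.2 ⟨hb, h ▸ (Finset.mem_filter.1 haK).2⟩)) hB hct.2.1 hjK l hct.2.2.2.1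
    have hct' : M.Ct C (A.filter (· ∈ Ki)) k i (B.filter (· ∈ Kj)) l j t₁ Z := by
      refine ⟨Finset.mem_filter.2 ⟨hct.1, hiK⟩, Finset.mem_filter.2 ⟨hct.2.1, hjK⟩,
        hri.1, hrj.1, hct.2.2.2.2.1, hct.2.2.2.2.2.1, ?_⟩
      rw [← hri.2, ← hrj.2]; exact hct.2.2.2.2.2.2
    have hdisK : Disjoint Ki Kj := by
      rw [Finset.disjoint_left]
      intro k hk1 hk2
      exact hne (((Finset.mem_filter.1 hk1).2).symm.trans (Finset.mem_filter.1 hk2).2)
    have hmerge : Gd M C Z i₀ (Ki ∪ Kj) t₁ := by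
      refine Gd.merge ho ht₁T.1 ((hblk _ (Finset.mem_image_of_mem c hiP)).mono ht₀₁)
        ((hblk _ (Finset.mem_image_of_mem c hjP)).mono ht₀₁) hdisK ?_ ?_ hct'
      · intro k hk; exact (Finset.mem_filter.1 hk).2
      · intro k hk; exact (Finset.mem_filter.1 hk).2
    -- the new colouring
    set c' : J → J := fun k => if c k = c j then c i else c k with hc'
    have himg : P.image c' = (P.image c).erase (c j) := by
      ext k
      simp only [Finset.mem_image, Finset.mem_erase, hc']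
      constructor
      · rintro ⟨a, ha, rfl⟩
        by_cases h : c a = c j
        · rw [if_pos h]; exact ⟨hne, i, hiP, rfl⟩
        · rw [if_neg h]; exact ⟨h, a, ha, rfl⟩
      · rintro ⟨hk, a, ha, rfl⟩
        exact ⟨a, ha, by rw [if_neg hk]⟩
    refine ih c' t₁ ht₁T ?_ ?_ ?_
    · rw [himg, Finset.card_erase_of_mem (Finset.mem_image_of_mem c hjP), hcard]
      rfl
    · intro k hk
      rw [himg] at hk
      obtain ⟨hkj, hk⟩ := Finset.mem_erase.1 hk
      by_cases hki : k = c i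
      · have : P.filter (c' · = k) = Ki ∪ Kj := by
          ext a
          simp only [Finset.mem_filter, Finset.mem_union, hKi, hKj, hc', hki]
          constructor
          · rintro ⟨ha, h⟩
            by_cases h2 : c a = c j
            · exact Or.inr ⟨ha, h2⟩
            · rw [if_neg h2] at h; exact Or.inl ⟨ha, h⟩
          · rintro (⟨ha, h⟩ | ⟨ha, h⟩)
            · refine ⟨ha, ?_⟩
              rw [if_neg (by rw [h]; exact hne), h]
            · exact ⟨ha, by rw [if_pos h]⟩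
        rw [this]; exact hmerge
      · have : P.filter (c' · = k) = P.filter (c · = k) := by
          apply Finset.filter_congr
          intro a _
          simp only [hc']
          by_cases h2 : c a = c j
          · rw [if_pos h2, h2]
            exact ⟨fun h => absurd h.symm hki, fun h => absurd h.symm hkj⟩
          · rw [if_neg h2]
        rw [this]; exact (hblk k hk).mono ht₀₁
    · intro u hu a ha b hb hab
      refine hno₁ u hu a ha b hb fun h => hab ?_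
      simp only [hc', h]

/-- **Kruskal lemma** for virtual systems. -/
theorem kruskal [Fintype κ] (h : MF LS M) (hC : 1 ≤ C) {i₀ : J} (ho : ∀ x, M.o = some x → i₀ = x)
    {P : Finset J} (hi₀ : i₀ ∈ P) (hc : M.Conn C P Z) :
    ∃ (τ : MTree J κ) (t : Tm τ), WF M.o τ ∧ supp τ = P ∧ root τ = i₀ ∧ OrdT τ M.T t ∧
      CtT M C τ t Z := by
  have h0 := h.T0
  have key : Gd M C Z i₀ P M.T := by
    refine kr_aux h hC ho hc.1 hc.2 _ id 0 ⟨le_rfl, h0⟩ rfl ?_ ?_
    · intro k hk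
      have hk' : k ∈ P := by simpa using hk
      have : P.filter (fun a => id a = k) = {k} := by
        ext a
        simp only [Finset.mem_filter, id, Finset.mem_singleton]
        exact ⟨fun h => h.2, fun h => ⟨h ▸ hk', h⟩⟩
      rw [this]; exact Gd.single i₀ k 0
    · intro u hu
      exact absurd hu.2 (not_lt.2 hu.1)
  obtain ⟨τ, t, h1, h2, h3, h4, h5⟩ := key
  exact ⟨τ, t, h1, h2, h3 hi₀, h4, h5⟩

end Crest.Agent.R122.VLPar823

end
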