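import Mathlib
import Crest.Prelude.Def_KineticLimit
import Crest.Agent.R122.VLPar3_823

/-!
# Row 122, block D3, part P1 (helper823): domination of the connected integral

`main_ineq`: `ε^(m-1) ∫ F ≤ ε^(3(m-1)) Σ_τ ∫ dπ ∫ dz 1[Bx] F (ov τ π z 0)`.
-/

set_option autoImplicit false
set_option linter.unusedSectionVars false

open MeasureTheory Set Filter Topology
open scoped ENNReal NNReal
open Crest.AnalysisR.Kinetic
open Crest.Agent.R122.Ins45 Crest.Agent.R122.GIV566 Crest.Agent.R122.VL581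

noncomputable section

namespace Crest.Agent.R122.VLPar823

open scoped Classical
open MTree

variable {J κ : Type}

/-! ### Finitely many merge trees -/

theorem nn_card {o : Option J} : ∀ (τ : MTree J κ), WF o τ → nn τ + 1 = (supp τ).card
  | leaf j => fun _ => by simp [nn, supp]
  | node A k i B l j P Q => fun hW => by
      have h1 := nn_card P hW.2.2.2.2.2.2.1
      have h2 := nn_card Q hW.2.2.2.2.2.2.2
      have h3 : (supp (node A k i B l j P Q)).card = (supp P).card + (supp Q).card :=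
        Finset.card_union_of_disjoint hW.1
      rw [h3]
      simp only [nn]
      omega

/-- merge trees with at most `n` merges (and some more) -/
def trees (J κ : Type) [Fintype J] [Fintype κ] : ℕ → Finset (MTree J κ)
  | 0 => Finset.univ.image leaf
  | n + 1 => trees J κ n ∪
      ((Finset.univ : Finset (Finset J × κ × J × Finset J × κ × J)) ×ˢ
        (trees J κ n ×ˢ trees J κ n)).image fun q =>
          node q.1.1 q.1.2.1 q.1.2.2.1 q.1.2.2.2.1 q.1.2.2.2.2.1 q.1.2.2.2.2.2 q.2.1 q.2.2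

variable [Fintype J]

theorem mem_trees [Fintype κ] : ∀ (n : ℕ) (τ : MTree J κ), nn τ ≤ n → τ ∈ trees J κ n := by
  intro n
  induction n with
  | zero =>
    intro τ hτ
    cases τ with
    | leaf j => exact Finset.mem_image_of_mem _ (Finset.mem_univ _)
    | node A k i B l j P Q => simp [nn] at hτ
  | succ n ih =>
    intro τ hτ
    unfold trees
    cases τ with
    | leaf j => exact Finset.mem_union_left _ (ih _ (by simp [nn]))
    | node A k i B l j P Q =>
      simp only [nn] at hτ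
      refine Finset.mem_union_right _ (Finset.mem_image.2
        ⟨((A, k, i, B, l, j), (P, Q)), ?_, rfl⟩)
      have hP : P ∈ trees J κ n := ih P (by omega)
      have hQ : Q ∈ trees J κ n := ih Q (by omega)
      exact Finset.mem_product.2 ⟨Finset.mem_univ _, Finset.mem_product.2 ⟨hP, hQ⟩⟩

/-! ### Boxes of times -/

/-- box of times -/
def InBox (h : ℝ) : ∀ τ : MTree J κ, Tm τ → Tm τ → Prop
  | leaf _ => fun _ _ => True
  | node _ _ _ _ _ _ P Q => fun s t => t.1 ∈ Ioc (s.1 - h) s.1 ∧ InBox h P s.2.1 t.2.1 ∧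
      InBox h Q s.2.2 t.2.2

/-- relaxed order of the merge times -/
def OrdR (h : ℝ) : ∀ τ : MTree J κ, ℝ → Tm τ → Prop
  | leaf _ => fun _ _ => True
  | node _ _ _ _ _ _ P Q => fun u t => -h ≤ t.1 ∧ t.1 ≤ u ∧ OrdR h P (t.1 + h) t.2.1 ∧
      OrdR h Q (t.1 + h) t.2.2

theorem ordR_of_box {h : ℝ} (τ : MTree J κ) : ∀ {u : ℝ} {s t : Tm τ}, OrdT τ u s →
    InBox h τ s t → OrdR h τ u t := by
  induction τ with
  | leaf j =>
    intro u s t _ _
    exact trivial
  | node A k i B l j P Q ihP ihQ =>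
    intro u s t h1 h2
    obtain ⟨s0, sP, sQ⟩ := s
    obtain ⟨t0, tP, tQ⟩ := t
    obtain ⟨a1, a2, a3, a4⟩ := h1
    obtain ⟨b1, b2, b3⟩ := h2
    simp only at a1 a2 b1
    have e1 : s0 - h < t0 := b1.1
    have e2 : t0 ≤ s0 := b1.2
    have e3 : s0 ≤ t0 + h := by linarith
    have e4 : -h ≤ t0 := by linarith
    exact ⟨e4, e2.trans a2, ihP (a3.mono e3 P) b2, ihQ (a4.mono e3 Q) b3⟩

theorem volume_box {h : ℝ} (hh : 0 ≤ h) (τ : MTree J κ) : ∀ s : Tm τ,
    volume {t | InBox h τ s t} = ENNReal.ofReal (h ^ nn τ) := by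
  induction τ with
  | leaf j =>
    intro s
    have e : {t | InBox h (leaf j : MTree J κ) s t} = Set.univ := by
      ext t
      simp [InBox]
    rw [e]
    have : (volume : Measure (Tm (leaf j : MTree J κ))) Set.univ =
      (Measure.dirac () : Measure Unit) Set.univ := rfl
    rw [this]
    simp [nn]
  | node A k i B l j P Q ihP ihQ =>
    intro s
    have e2 : (volume : Measure (Tm (node A k i B l j P Q))) {t | InBox h (node A k i B l j P Q) s t} =
      ((volume : Measure ℝ).prod ((volume : Measure (Tm P)).prod (volume : Measure (Tm Q))))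
        ((Ioc (s.1 - h) s.1) ×ˢ ({t | InBox h P s.2.1 t} ×ˢ {t | InBox h Q s.2.2 t})) := rfl
    rw [e2, Measure.prod_prod, Measure.prod_prod, ihP, ihQ,
      Real.volume_Ioc, ← ENNReal.ofReal_mul (by positivity), ← ENNReal.ofReal_mul (by linarith)]
    congr 1
    simp only [nn]
    ring

/-! ### Closeness at the merge times -/

/-- The labels of every merge are close to each other, with bounded relative velocity; the
sub-worlds are ok. -/
def NearZ (M : VSys J κ) (C' L' : ℝ) : ∀ τ : MTree J κ, Tm τ → (J → PhasePoint) → Prop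
  | leaf _ => fun _ _ => True
  | node A k i B l j P Q => fun t Z => M.ok A t.1 Z ∧ M.ok B t.1 Z ∧
      ‖(ph M A k t.1 Z i - ph M B l t.1 Z j).1‖ ≤ C' * M.ε ∧
      ‖(ph M A k t.1 Z i - ph M B l t.1 Z j).2‖ ≤ L' ∧
      NearZ M C' L' P t.2.1 Z ∧ NearZ M C' L' Q t.2.2 Z

/-- bounded parameters -/
def Bx (C' L' : ℝ) : ∀ τ : MTree J κ, Par τ → Prop
  | leaf _ => fun _ => True
  | node _ _ _ _ _ _ P Q => fun π => ‖π.1.2.1‖ ≤ C' ∧ ‖π.1.2.2‖ ≤ L' ∧ Bx C' L' P π.2.1 ∧
      Bx C' L' Q π.2.2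

variable {LS : ℝ≥0} {M : VSys J κ} {C : ℝ} {Z : J → PhasePoint}

theorem NearZ.okT {C' L' : ℝ} : ∀ (τ : MTree J κ) {t : Tm τ}, NearZ M C' L' τ t Z → OkT M τ t Z
  | leaf _ => fun _ => trivial
  | node _ _ _ _ _ _ P Q => fun h => ⟨h.1, h.2.1, NearZ.okT P h.2.2.2.2.1, NearZ.okT Q h.2.2.2.2.2⟩

theorem NearZ.congr {C' L' : ℝ} {o : Option J} : ∀ (τ : MTree J κ) (_ : WF o τ) {t : Tm τ}
    {Z Z' : J → PhasePoint} (_ : ∀ y ∈ supp τ, Z y = Z' y), NearZ M C' L' τ t Z →
      NearZ M C' L' τ t Z'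
  | leaf _ => fun _ _ _ _ _ _ => trivial
  | node A k i B l j P Q => fun hW t Z Z' hZ h => by
      obtain ⟨hd, hA, hB, hi, hj, -, hWP, hWQ⟩ := hW
      obtain ⟨h1, h2, h3, h4, h5, h6⟩ := h
      have hZP : ∀ y ∈ supp P, Z y = Z' y := fun y hy => hZ y (Finset.mem_union_left _ hy)
      have hZQ : ∀ y ∈ supp Q, Z y = Z' y := fun y hy => hZ y (Finset.mem_union_right _ hy)
      have e1 : ph M A k t.1 Z i = ph M A k t.1 Z' i := ph_loc (fun y hy => hZP y (hA hy)) hi
      have e2 : ph M B l t.1 Z j = ph M B l t.1 Z' j := ph_loc (fun y hy => hZQ y (hB hy)) hj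
      refine ⟨(VLInst442.ok_congr (fun y hy => hZP y (hA hy)) _).1 h1,
        (VLInst442.ok_congr (fun y hy => hZQ y (hB hy)) _).1 h2, ?_, ?_, NearZ.congr P hWP hZP h5,
        NearZ.congr Q hWQ hZQ h6⟩
      · rw [← e1, ← e2]; exact h3
      · rw [← e1, ← e2]; exact h4

/-- Closeness on the configuration side gives bounded parameters. -/
theorem bx_of_near (h : MF LS M) {C' L' : ℝ} : ∀ (τ : MTree J κ) (_ : WF M.o τ) (π : Par τ)
    (z : PhasePoint) (x : J → PhasePoint), NearZ M C' L' τ (tms τ π) (ov M τ π z x) → Bx C' L' τ π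
  | leaf _ => fun _ _ _ _ _ => trivial
  | node A k i B l j P Q => fun hW π z x hN => by
      obtain ⟨hd, hA, hB, hi, hj, -, hWP, hWQ⟩ := id hW
      obtain ⟨h1, h2, h3, h4, h5, h6⟩ := hN
      have ht := touch h hW π z x h2 (NearZ.okT Q h6)
      have e : (tms (node A k i B l j P Q) π).1 = π.1.1 := rfl
      rw [e, ht] at h3 h4
      simp only at h3 h4
      refine ⟨?_, h4, ?_, ?_⟩
      · rw [norm_smul, Real.norm_of_nonneg h.eps.le, mul_comm] at h3
        exact le_of_mul_le_mul_right h3 h.eps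
      · exact bx_of_near h P hWP π.2.1 z x
          (NearZ.congr P hWP (fun y hy => ov_node_left hW π z x hy) h5)
      · rw [ov_node] at h6
        exact bx_of_near h Q hWQ π.2.2 _ _ h6

/-- speed of a label -/
theorem ph_speed (h : MF LS M) {V : ℝ} (hV : ∀ j, ‖(Z j).2‖ ≤ V) {A : Finset J} {k : κ} {t : ℝ}
    (hok : M.ok A t Z) (i : J) : ‖(ph M A k t Z i).2‖ ≤ VLInst442.spd M.Φ (Fintype.card J) V := by
  unfold ph
  by_cases ho : M.o = some i
  · simp only [ho, if_true, norm_zero]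
    exact VLInst442.spd_nonneg _ _ _
  · simp only [ho, if_false]
    exact VLInst442.st_speed h.adm h.eps hok hV i

theorem pos_lip (h : MF LS M) {V : ℝ} (hV : ∀ j, ‖(Z j).2‖ ≤ V) {A : Finset J} {k : κ} {s t : ℝ}
    (hok : M.ok A s Z) (hts : t ≤ s) (i : J) :
    dist (M.pos A k t Z i) (M.pos A k s Z i) ≤
      (VLInst442.spd M.Φ (Fintype.card J) V + LS) * (s - t) := by
  have h0 := VLInst442.spd_nonneg M.Φ (Fintype.card J) V
  have h1 : (0 : ℝ) ≤ LS := LS.2
  have h2 : 0 ≤ s - t := by linarith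
  unfold VSys.pos
  by_cases ho : M.o = some i
  · rw [if_pos ho, if_pos ho, dist_add_left]
    have := clamp_lip h k s t
    rw [abs_of_nonpos (by linarith)] at this
    nlinarith
  · rw [if_neg ho, if_neg ho]
    have := VLInst442.st_lipschitz h.adm h.eps hok hV i hts
    nlinarith

theorem near_of_box (h : MF LS M) {V : ℝ} (hV : ∀ j, ‖(Z j).2‖ ≤ V) (τ : MTree J κ) :
    ∀ {s t : Tm τ}, CtT M C τ s Z → InBox M.ε τ s t →
      NearZ M (C + 2 * (VLInst442.spd M.Φ (Fintype.card J) V + LS))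
        (2 * VLInst442.spd M.Φ (Fintype.card J) V) τ t Z := by
  induction τ with
  | leaf j =>
    intro s t _ _
    exact trivial
  | node A k i B l j P Q ihP ihQ =>
    intro s t h1 h2
    obtain ⟨a1, a2, a3⟩ := h1
    obtain ⟨b1, b2, b3⟩ := h2
    obtain ⟨c1, c2, c3, c4, -, -, c5⟩ := a1
    have e1 : s.1 - M.ε < t.1 := b1.1
    have e2 : t.1 ≤ s.1 := b1.2
    set Λ := VLInst442.spd M.Φ (Fintype.card J) V with hΛ
    have hΛ0 : 0 ≤ Λ := VLInst442.spd_nonneg _ _ _
    have hLS : (0 : ℝ) ≤ LS := LS.2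
    refine ⟨VLInst442.ok_anti e2 c3, VLInst442.ok_anti e2 c4, ?_, ?_, ihP a2 b2, ihQ a3 b3⟩
    · show ‖M.pos A k t.1 Z i - M.pos B l t.1 Z j‖ ≤ _
      rw [← dist_eq_norm]
      have f1 := pos_lip (k := k) h hV c3 e2 i
      have f2 := pos_lip (k := l) h hV c4 e2 j
      have f3 : (Λ + LS) * (s.1 - t.1) ≤ (Λ + LS) * M.ε :=
        mul_le_mul_of_nonneg_left (by linarith) (by linarith)
      have f4 := dist_triangle4 (M.pos A k t.1 Z i) (M.pos A k s.1 Z i) (M.pos B l s.1 Z j)
        (M.pos B l t.1 Z j)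
      rw [dist_comm (M.pos B l s.1 Z j)] at f4
      nlinarith
    · have f1 := ph_speed (k := k) h hV (VLInst442.ok_anti e2 c3) i
      have f2 := ph_speed (k := l) h hV (VLInst442.ok_anti e2 c4) j
      calc ‖(ph M A k t.1 Z i - ph M B l t.1 Z j).2‖ ≤
          ‖(ph M A k t.1 Z i).2‖ + ‖(ph M B l t.1 Z j).2‖ := norm_sub_le _ _
        _ ≤ 2 * Λ := by linarith

/-! ### Measurability -/

theorem measurableSet_ordR (h : ℝ) (τ : MTree J κ) : ∀ {α : Type} [MeasurableSpace α]
    {u : α → ℝ} {t : α → Tm τ}, Measurable u → Measurable t →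
      MeasurableSet {a | OrdR h τ (u a) (t a)} := by
  induction τ with
  | leaf j =>
    intro α _ u t hu ht
    simp [OrdR]
  | node A k i B l j P Q ihP ihQ =>
    intro α _ u t hu ht
    have ht' : @Measurable α (ℝ × Tm P × Tm Q) _ _ t := ht
    have h1 : Measurable fun a => (t a).1 := ht'.fst
    have h2 : Measurable fun a => (t a).2.1 := ht'.snd.fst
    have h3 : Measurable fun a => (t a).2.2 := ht'.snd.snd
    have e : {a | OrdR h (node A k i B l j P Q) (u a) (t a)} =
        {a | -h ≤ (t a).1} ∩ ({a | (t a).1 ≤ u a} ∩ ({a | OrdR h P ((t a).1 + h) (t a).2.1} ∩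
          {a | OrdR h Q ((t a).1 + h) (t a).2.2})) := rfl
    rw [e]
    exact (measurableSet_le measurable_const h1).inter ((measurableSet_le h1 hu).inter
      ((ihP (h1.add_const h) h2).inter (ihQ (h1.add_const h) h3)))

theorem measurableSet_bx (C' L' : ℝ) (τ : MTree J κ) : MeasurableSet {π | Bx C' L' τ π} := by
  induction τ with
  | leaf j => simp [Bx]
  | node A k i B l j P Q ihP ihQ =>
    have e : {π | Bx C' L' (node A k i B l j P Q) π} =
        {π : (ℝ × Space3 × Space3) × Par P × Par Q | ‖π.1.2.1‖ ≤ C'} ∩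
        ({π : (ℝ × Space3 × Space3) × Par P × Par Q | ‖π.1.2.2‖ ≤ L'} ∩
        ((fun π : (ℝ × Space3 × Space3) × Par P × Par Q => π.2.1) ⁻¹' {π | Bx C' L' P π} ∩
        (fun π : (ℝ × Space3 × Space3) × Par P × Par Q => π.2.2) ⁻¹' {π | Bx C' L' Q π})) := rfl
    rw [e]
    exact (measurableSet_le measurable_fst.snd.fst.norm measurable_const).inter
      ((measurableSet_le measurable_fst.snd.snd.norm measurable_const).inter
      ((measurable_snd.fst ihP).inter (measurable_snd.snd ihQ)))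

theorem measurableSet_ok (h : MF LS M) (A : Finset J) {α : Type} [MeasurableSpace α]
    {t : α → ℝ} {Z : α → J → PhasePoint} (ht : Measurable t) (hZ : Measurable Z) :
    MeasurableSet {a | M.ok A (t a) (Z a)} :=
  (VLMeas973.rse_ok (M := M) (b := fun _ => M.b)
    ⟨h.adm, h.eps, h.T0, fun k => (h.lip k).continuousOn⟩ measurable_const hZ A).measurableSet_at ht

attribute [local irreducible] ph in
theorem measurableSet_near (h : MF LS M) (C' L' : ℝ) (τ : MTree J κ) : ∀ {α : Type}
    [MeasurableSpace α] {t : α → Tm τ} {Z : α → J → PhasePoint}, Measurable t → Measurable Z →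
      MeasurableSet {a | NearZ M C' L' τ (t a) (Z a)} := by
  induction τ with
  | leaf j =>
    intro α _ t Z ht hZ
    simp [NearZ]
  | node A k i B l j P Q ihP ihQ =>
    intro α _ t Z ht hZ
    have ht' : @Measurable α (ℝ × Tm P × Tm Q) _ _ t := ht
    have h1 : Measurable fun a => (t a).1 := ht'.fst
    have h2 : Measurable fun a => (t a).2.1 := ht'.snd.fst
    have h3 : Measurable fun a => (t a).2.2 := ht'.snd.snd
    have h4 : Measurable fun a => ph M A k (t a).1 (Z a) i :=
      (ph_meas h A k i).comp (h1.prodMk hZ)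
    have h5 : Measurable fun a => ph M B l (t a).1 (Z a) j :=
      (ph_meas h B l j).comp (h1.prodMk hZ)
    have e : {a | NearZ M C' L' (node A k i B l j P Q) (t a) (Z a)} =
        {a | M.ok A (t a).1 (Z a)} ∩ ({a | M.ok B (t a).1 (Z a)} ∩
        ({a | ‖(ph M A k (t a).1 (Z a) i - ph M B l (t a).1 (Z a) j).1‖ ≤ C' * M.ε} ∩
        ({a | ‖(ph M A k (t a).1 (Z a) i - ph M B l (t a).1 (Z a) j).2‖ ≤ L'} ∩
        ({a | NearZ M C' L' P (t a).2.1 (Z a)} ∩ {a | NearZ M C' L' Q (t a).2.2 (Z a)})))) := rfl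
    rw [e]
    have h6 : Measurable fun a => ‖(ph M A k (t a).1 (Z a) i - ph M B l (t a).1 (Z a) j).1‖ :=
      (h4.sub h5).fst.norm
    have h7 : Measurable fun a => ‖(ph M A k (t a).1 (Z a) i - ph M B l (t a).1 (Z a) j).2‖ :=
      (h4.sub h5).snd.norm
    exact (measurableSet_ok h A h1 hZ).inter ((measurableSet_ok h B h1 hZ).inter
      ((measurableSet_le h6 measurable_const).inter
      ((measurableSet_le h7 measurable_const).inter
      ((ihP h2 hZ).inter (ihQ h3 hZ)))))

end Crest.Agent.R122.VLPar823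

end
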