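import Mathlib
import Crest.Prelude.Def_KineticLimit
import Crest.Agent.R122.VLPar4_823

/-!
# Row 122, block D3, part P1 (helper823): the main inequality

`main_ineq`: `ε^(m-1) ∫ F ≤ ε^(3(m-1)) Σ_τ ∫ dπ ∫ dz 1[Bx] F (ov τ π z 0)`.
-/

set_option autoImplicit false
set_option linter.unusedSectionVars false

open MeasureTheory Set Filter Topology
open scoped ENNReal NNReal
open Crest.AnalysisR.Kinetic
open Crest.Agent.R122.Ins45 Crest.Agent.R122.GIV566 Crest.Agent.R122.VL581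

noncomputable section

namespace Crest.Agent.R122.VLPar823

open scoped Classical
open MTree

variable {J κ : Type} [Fintype J] {LS : ℝ≥0} {M : VSys J κ} {C : ℝ} {Z : J → PhasePoint}

/-- the merge tubes are active at the merge times -/
def ActT (M : VSys J κ) : ∀ τ : MTree J κ, Tm τ → Prop
  | leaf _ => fun _ => True
  | node _ k i _ _ _ P Q => fun t =>
      (M.o = some i → t.1 ≤ M.S.b k) ∧ ActT M P t.2.1 ∧ ActT M Q t.2.2

theorem act_of_actT (M : VSys J κ) (τ : MTree J κ) : ∀ {π : Par τ}, ActT M τ (tms τ π) →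
    Act M τ π := by
  induction τ with
  | leaf j =>
    intro π _
    exact trivial
  | node A k i B l j P Q ihP ihQ =>
    intro π h
    exact ⟨h.1, ihP h.2.1, ihQ h.2.2⟩

theorem actT_of_box {h : ℝ} (τ : MTree J κ) : ∀ {s t : Tm τ}, CtT M C τ s Z →
    InBox h τ s t → ActT M τ t := by
  induction τ with
  | leaf j =>
    intro s t _ _
    exact trivial
  | node A k i B l j P Q ihP ihQ =>
    intro s t h1 h2
    obtain ⟨a1, a2, a3⟩ := h1
    obtain ⟨b1, b2, b3⟩ := h2
    exact ⟨fun ho => b1.2.trans (a1.2.2.2.2.1 ho), ihP a2 b2, ihQ a3 b3⟩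

theorem measurableSet_actT (M : VSys J κ) (τ : MTree J κ) : MeasurableSet {t | ActT M τ t} := by
  induction τ with
  | leaf j => simp [ActT]
  | node A k i B l j P Q ihP ihQ =>
    have e : {t | ActT M (node A k i B l j P Q) t} =
        {t : ℝ × Tm P × Tm Q | M.o = some i → t.1 ≤ M.S.b k} ∩
        ((fun t : ℝ × Tm P × Tm Q => t.2.1) ⁻¹' {t | ActT M P t} ∩
        (fun t : ℝ × Tm P × Tm Q => t.2.2) ⁻¹' {t | ActT M Q t}) := rfl
    have h1 : MeasurableSet {t : ℝ × Tm P × Tm Q | M.o = some i → t.1 ≤ M.S.b k} := by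
      by_cases ho : M.o = some i
      · simp only [ho, forall_const]
        exact measurableSet_le measurable_fst measurable_const
      · simp only [ho, false_imp_iff]
        exact MeasurableSet.univ
    have h2 : @MeasurableSet (ℝ × Tm P × Tm Q) _ ({t : ℝ × Tm P × Tm Q | M.o = some i →
        t.1 ≤ M.S.b k} ∩ ((fun t : ℝ × Tm P × Tm Q => t.2.1) ⁻¹' {t | ActT M P t} ∩
        (fun t : ℝ × Tm P × Tm Q => t.2.2) ⁻¹' {t | ActT M Q t})) :=
      h1.inter ((measurable_snd.fst ihP).inter (measurable_snd.snd ihQ))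
    rw [e]
    exact h2

/-- integrand on the side of times and configurations -/
def GG (M : VSys J κ) (C' L' : ℝ) (τ : MTree J κ) (F : (J → PhasePoint) → ℝ≥0∞) :
    Tm τ × (J → PhasePoint) → ℝ≥0∞ :=
  {p | OrdR M.ε τ M.T p.1 ∧ ActT M τ p.1 ∧ NearZ M C' L' τ p.1 p.2}.indicator fun p => F p.2

theorem measurable_GG (h : MF LS M) (C' L' : ℝ) (τ : MTree J κ) {F : (J → PhasePoint) → ℝ≥0∞}
    (hF : Measurable F) : Measurable (GG M C' L' τ F) := by
  refine (hF.comp measurable_snd).indicator ?_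
  exact (measurableSet_ordR M.ε τ measurable_const measurable_fst).inter
    ((measurable_fst (measurableSet_actT M τ)).inter
      (measurableSet_near h C' L' τ measurable_fst measurable_snd))

/-- The merge trees of the sum. -/
def Trs [Fintype κ] (M : VSys J κ) (i₀ : J) : Finset (MTree J κ) :=
  (trees J κ (Fintype.card J - 1)).filter fun τ =>
    WF M.o τ ∧ supp τ = Finset.univ ∧ root τ = i₀

theorem nn_of_univ {o : Option J} {τ : MTree J κ} (hW : WF o τ) (hs : supp τ = Finset.univ) :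
    nn τ = Fintype.card J - 1 := by
  have := nn_card τ hW
  rw [hs, Finset.card_univ] at this
  omega

theorem mem_Trs [Fintype κ] {i₀ : J} {τ : MTree J κ} (hW : WF M.o τ)
    (hs : supp τ = Finset.univ) (hr : root τ = i₀) : τ ∈ Trs M i₀ :=
  Finset.mem_filter.2 ⟨mem_trees _ τ (nn_of_univ hW hs).le, hW, hs, hr⟩

/-- Bound for the distances of the touching labels. -/
def cC (M : VSys J κ) (LS : ℝ≥0) (C V : ℝ) : ℝ :=
  C + 2 * (VLInst442.spd M.Φ (Fintype.card J) V + LS)

/-- Bound for the relative velocities. -/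
def cL (M : VSys J κ) (V : ℝ) : ℝ := 2 * VLInst442.spd M.Φ (Fintype.card J) V

theorem measurableSet_box (h : ℝ) (τ : MTree J κ) : ∀ s : Tm τ,
    MeasurableSet {t | InBox h τ s t} := by
  induction τ with
  | leaf j =>
    intro s
    simp [InBox]
  | node A k i B l j P Q ihP ihQ =>
    intro s
    have e : @MeasurableSet (ℝ × Tm P × Tm Q) _
        ((Ioc (s.1 - h) s.1) ×ˢ ({t | InBox h P s.2.1 t} ×ˢ {t | InBox h Q s.2.2 t})) :=
      measurableSet_Ioc.prod ((ihP _).prod (ihQ _))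
    exact e

theorem pointwise [Fintype κ] (h : MF LS M) (hC : 1 ≤ C) {V : ℝ} {F : (J → PhasePoint) → ℝ≥0∞}
    (hF' : ∀ Z, F Z ≠ 0 → M.Conn C Finset.univ Z ∧ ∀ j, ‖(Z j).2‖ ≤ V) {i₀ : J}
    (ho : ∀ x, M.o = some x → i₀ = x) (Z : J → PhasePoint) :
    ENNReal.ofReal (M.ε ^ (Fintype.card J - 1)) * F Z ≤
      ∑ τ ∈ Trs M i₀, ∫⁻ t : Tm τ, GG M (cC M LS C V) (cL M V) τ F (t, Z) := by
  by_cases hZ : F Z = 0
  · rw [hZ, mul_zero]
    exact zero_le
  obtain ⟨hconn, hV⟩ := hF' Z hZ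
  obtain ⟨τ, s, hW, hs, hr, hO, hct⟩ := kruskal h hC ho (Finset.mem_univ i₀) hconn
  refine le_trans ?_ (Finset.single_le_sum (f := fun τ => ∫⁻ t : Tm τ,
    GG M (cC M LS C V) (cL M V) τ F (t, Z)) (fun _ _ => zero_le) (mem_Trs hW hs hr))
  have h1 : ∫⁻ _t : Tm τ in {t | InBox M.ε τ s t}, F Z ≤
      ∫⁻ t : Tm τ, GG M (cC M LS C V) (cL M V) τ F (t, Z) := by
    have hm : MeasurableSet {t | InBox M.ε τ s t} := measurableSet_box M.ε τ s
    rw [← lintegral_indicator hm]
    refine lintegral_mono fun t => ?_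
    by_cases ht : InBox M.ε τ s t
    · rw [indicator_of_mem (show t ∈ {t | InBox M.ε τ s t} from ht)]
      unfold GG
      rw [indicator_of_mem]
      exact ⟨ordR_of_box τ hO ht, actT_of_box τ hct ht, near_of_box h hV τ hct ht⟩
    · rw [indicator_of_notMem (show t ∉ {t | InBox M.ε τ s t} from ht)]
      exact zero_le
  refine le_trans ?_ h1
  rw [setLIntegral_const, volume_box h.eps.le τ s, nn_of_univ hW hs, mul_comm]

/-- **Main inequality.** -/
theorem main_ineq [Fintype κ] (h : MF LS M) (hC : 1 ≤ C) {V : ℝ} {F : (J → PhasePoint) → ℝ≥0∞}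
    (hF : Measurable F) (hF' : ∀ Z, F Z ≠ 0 → M.Conn C Finset.univ Z ∧ ∀ j, ‖(Z j).2‖ ≤ V) {i₀ : J}
    (ho : ∀ x, M.o = some x → i₀ = x) :
    ENNReal.ofReal (M.ε ^ (Fintype.card J - 1)) * ∫⁻ Z, F Z ≤
      ENNReal.ofReal (M.ε ^ (3 * (Fintype.card J - 1))) * ∑ τ ∈ Trs M i₀,
        ∫⁻ π : Par τ, ∫⁻ z : PhasePoint,
          {π | OrdR M.ε τ M.T (tms τ π) ∧ ActT M τ (tms τ π) ∧
            Bx (cC M LS C V) (cL M V) τ π}.indicator (fun π => F (ov M τ π z 0)) π := by
  rw [← lintegral_const_mul' _ _ ENNReal.ofReal_ne_top]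
  refine (lintegral_mono (pointwise h hC hF' ho)).trans ?_
  rw [lintegral_finsetSum', Finset.mul_sum]
  swap
  · intro τ _
    exact (Measurable.lintegral_prod_left' (measurable_GG h _ _ τ hF)).aemeasurable
  refine Finset.sum_le_sum fun τ hτ => ?_
  obtain ⟨-, hW, hs, -⟩ := Finset.mem_filter.1 hτ
  have hG := measurable_GG h (cC M LS C V) (cL M V) τ hF
  have e1 : ∫⁻ Z : J → PhasePoint, ∫⁻ t : Tm τ, GG M (cC M LS C V) (cL M V) τ F (t, Z) =
      ∫⁻ t : Tm τ, lmarginal (fun _ => (volume : Measure PhasePoint)) (supp τ)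
        (fun Z => GG M (cC M LS C V) (cL M V) τ F (t, Z)) 0 := by
    rw [hs, ← lintegral_lintegral_swap
      (f := fun (t : Tm τ) (Z : J → PhasePoint) => GG M (cC M LS C V) (cL M V) τ F (t, Z))
      hG.aemeasurable]
    refine lintegral_congr fun t => ?_
    rw [lmarginal_univ]
    rfl
  rw [e1, cov_formula h τ hW _ hG 0, nn_of_univ hW hs]
  refine mul_le_mul_right (lintegral_mono fun π => lintegral_mono fun z => ?_) _
  unfold GG
  by_cases hp : OrdR M.ε τ M.T (tms τ π) ∧ ActT M τ (tms τ π) ∧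
      NearZ M (cC M LS C V) (cL M V) τ (tms τ π) (ov M τ π z 0)
  · rw [indicator_of_mem (show (tms τ π, ov M τ π z 0) ∈ {p : Tm τ × (J → PhasePoint) |
      OrdR M.ε τ M.T p.1 ∧ ActT M τ p.1 ∧ NearZ M (cC M LS C V) (cL M V) τ p.1 p.2} from hp),
      indicator_of_mem]
    exact ⟨hp.1, hp.2.1, bx_of_near h τ hW π z 0 hp.2.2⟩
  · rw [indicator_of_notMem (show (tms τ π, ov M τ π z 0) ∉ {p : Tm τ × (J → PhasePoint) |
      OrdR M.ε τ M.T p.1 ∧ ActT M τ p.1 ∧ NearZ M (cC M LS C V) (cL M V) τ p.1 p.2} from hp)]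
    exact zero_le

end Crest.Agent.R122.VLPar823

end
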