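import Mathlib
import Crest.Prelude.Def_KineticLimit
import Crest.Agent.R122.VLPar5_823
import Crest.Agent.R122.GCBounds_311

/-!
# Row 122, block D3, part P1 (helper823): null sets of times, finite boxes, the bounding function
-/

set_option autoImplicit false
set_option linter.unusedSectionVars false

open MeasureTheory Set Filter Topology
open scoped ENNReal NNReal
open Crest.AnalysisR.Kinetic
open Crest.Agent.R122.Ins45 Crest.Agent.R122.GIV566 Crest.Agent.R122.VL581

noncomputable section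

namespace Crest.Agent.R122.VLPar823

open scoped Classical
open MTree

variable {J κ : Type}

/-! ### Generic times -/

/-- The times are different from their bounds. -/
def GT : ∀ τ : MTree J κ, ℝ → Par τ → Prop
  | leaf _ => fun _ _ => True
  | node _ _ _ _ _ _ P Q => fun u π => π.1.1 ≠ 0 ∧ π.1.1 ≠ u ∧ GT P π.1.1 π.2.1 ∧
      GT Q π.1.1 π.2.2

theorem measurableSet_GT (τ : MTree J κ) : MeasurableSet {p : ℝ × Par τ | GT τ p.1 p.2} := by
  induction τ with
  | leaf j => simp [GT]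
  | node A k i B l j P Q ihP ihQ =>
    have m0 : Measurable fun p : ℝ × ((ℝ × Space3 × Space3) × Par P × Par Q) => p.2.1.1 :=
      measurable_snd.fst.fst
    have m1 : Measurable fun p : ℝ × ((ℝ × Space3 × Space3) × Par P × Par Q) =>
        (p.2.1.1, p.2.2.1) := m0.prodMk measurable_snd.snd.fst
    have m2 : Measurable fun p : ℝ × ((ℝ × Space3 × Space3) × Par P × Par Q) =>
        (p.2.1.1, p.2.2.2) := m0.prodMk measurable_snd.snd.snd
    have e : @MeasurableSet (ℝ × ((ℝ × Space3 × Space3) × Par P × Par Q)) _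
        ({p | p.2.1.1 ≠ 0} ∩ ({p | p.2.1.1 ≠ p.1} ∩
        ((fun p => (p.2.1.1, p.2.2.1)) ⁻¹' {p : ℝ × Par P | GT P p.1 p.2} ∩
        (fun p => (p.2.1.1, p.2.2.2)) ⁻¹' {p : ℝ × Par Q | GT Q p.1 p.2}))) :=
      (measurableSet_eq_fun m0 measurable_const).compl.inter
        ((measurableSet_eq_fun m0 measurable_fst).compl.inter ((m1 ihP).inter (m2 ihQ)))
    exact e

theorem ae_GT (τ : MTree J κ) : ∀ u : ℝ, ∀ᵐ π : Par τ, GT τ u π := by
  induction τ with
  | leaf j =>
    intro u
    exact Eventually.of_forall fun _ => trivial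
  | node A k i B l j P Q ihP ihQ =>
    intro u
    have hne : ∀ c : ℝ, ∀ᵐ a : ℝ × Space3 × Space3, a.1 ≠ c := by
      intro c
      have h1 : ∀ᵐ t : ℝ, t ≠ c := by
        rw [ae_iff]
        simp
      exact Measure.quasiMeasurePreserving_fst.ae h1
    have hms : @MeasurableSet ((ℝ × Space3 × Space3) × Par P × Par Q) _
        {π | GT (node A k i B l j P Q) u π} :=
      (measurable_const.prodMk measurable_id) (measurableSet_GT (node A k i B l j P Q))
    have key : ∀ᵐ π : (ℝ × Space3 × Space3) × Par P × Par Q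
        ∂((volume : Measure (ℝ × Space3 × Space3)).prod
        ((volume : Measure (Par P)).prod (volume : Measure (Par Q)))),
        GT (node A k i B l j P Q) u π := by
      refine (Measure.ae_prod_iff_ae_ae hms).2 ?_
      filter_upwards [hne 0, hne u] with a h0 hu
      have h1 := Measure.quasiMeasurePreserving_fst.ae (μa := (volume : Measure (Par P)).prod
        (volume : Measure (Par Q))) (ihP a.1)
      have h2 := Measure.quasiMeasurePreserving_snd.ae (μa := (volume : Measure (Par P)).prod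
        (volume : Measure (Par Q))) (ihQ a.1)
      filter_upwards [h1, h2] with b hb1 hb2
      exact ⟨h0, hu, hb1, hb2⟩
    exact key

/-- Generic times which are frequently in relaxed order are in order. -/
theorem ord_of_frequently (τ : MTree J κ) : ∀ {u : ℝ} {uk hk : ℕ → ℝ} {π : Par τ},
    Tendsto hk atTop (𝓝 0) → Tendsto uk atTop (𝓝 u) → GT τ u π →
    (∃ᶠ k in atTop, OrdR (hk k) τ (uk k) (tms τ π)) → Ord τ u π := by
  induction τ with
  | leaf j =>
    intro u uk hk π _ _ _ _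
    exact trivial
  | node A k i B l j P Q ihP ihQ =>
    intro u uk hk π hh hu hG hf
    obtain ⟨⟨t, ξ, g⟩, πP, πQ⟩ := π
    obtain ⟨g0, gu, gP, gQ⟩ := hG
    simp only at g0 gu gP gQ
    have f0 : ∃ᶠ k in atTop, -hk k ≤ t := hf.mono fun k hk => hk.1
    have f1 : ∃ᶠ k in atTop, t ≤ uk k := hf.mono fun k hk => hk.2.1
    have f2 : ∃ᶠ k in atTop, OrdR (hk k) P (t + hk k) (tms P πP) := hf.mono fun k hk => hk.2.2.1
    have f3 : ∃ᶠ k in atTop, OrdR (hk k) Q (t + hk k) (tms Q πQ) := hf.mono fun k hk => hk.2.2.2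
    have ht0 : 0 ≤ t := by
      by_contra hcon
      push Not at hcon
      have h1 : Tendsto (fun k => -hk k) atTop (𝓝 0) := by simpa using hh.neg
      have h2 := h1.eventually_const_lt hcon
      exact f0 (h2.mono fun k hk => not_le.2 hk)
    have htu : t ≤ u := by
      by_contra hcon
      push Not at hcon
      have h2 := hu.eventually_lt_const hcon
      exact f1 (h2.mono fun k hk => not_le.2 hk)
    have hth : Tendsto (fun k => t + hk k) atTop (𝓝 t) := by
      simpa using (tendsto_const_nhds (x := t)).add hh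
    exact ⟨lt_of_le_of_ne ht0 (Ne.symm g0), lt_of_le_of_ne htu gu, ihP hh hth gP f2,
      ihQ hh hth gQ f3⟩

/-! ### Finite boxes -/

/-- bounded parameters and times -/
def BxT (a b C' L' : ℝ) : ∀ τ : MTree J κ, Par τ → Prop
  | leaf _ => fun _ => True
  | node _ _ _ _ _ _ P Q => fun π => π.1.1 ∈ Icc a b ∧ ‖π.1.2.1‖ ≤ C' ∧ ‖π.1.2.2‖ ≤ L' ∧
      BxT a b C' L' P π.2.1 ∧ BxT a b C' L' Q π.2.2

theorem bxT_of (τ : MTree J κ) : ∀ {h u b C' L' : ℝ} {π : Par τ}, 0 ≤ h → h ≤ 1 →
    u + nn τ ≤ b → OrdR h τ u (tms τ π) → Bx C' L' τ π → BxT (-1) b C' L' τ π := by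
  induction τ with
  | leaf j =>
    intro h u b C' L' π _ _ _ _ _
    exact trivial
  | node A k i B l j P Q ihP ihQ =>
    intro h u b C' L' π h0 h1 hb hO hB
    obtain ⟨⟨t, ξ, g⟩, πP, πQ⟩ := π
    obtain ⟨o1, o2, o3, o4⟩ := hO
    obtain ⟨b1, b2, b3, b4⟩ := hB
    have o1' : -h ≤ t := o1
    have o2' : t ≤ u := o2
    have e : (nn (node A k i B l j P Q) : ℝ) = nn P + nn Q + 1 := by
      simp only [nn]
      push_cast
      ring
    rw [e] at hb
    have hP0 : (0 : ℝ) ≤ nn P := Nat.cast_nonneg _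
    have hQ0 : (0 : ℝ) ≤ nn Q := Nat.cast_nonneg _
    have c1 : -1 ≤ t := by linarith
    have c2 : t ≤ b := by linarith
    refine ⟨⟨c1, c2⟩, b1, b2, ihP h0 h1 ?_ o3 b3, ihQ h0 h1 ?_ o4 b4⟩
    · show t + h + nn P ≤ b
      linarith
    · show t + h + nn Q ≤ b
      linarith

theorem measurableSet_bxT (a b C' L' : ℝ) (τ : MTree J κ) :
    MeasurableSet {π | BxT a b C' L' τ π} := by
  induction τ with
  | leaf j => simp [BxT]
  | node A k i B l j P Q ihP ihQ =>
    have e : {π | BxT a b C' L' (node A k i B l j P Q) π} =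
        {π : (ℝ × Space3 × Space3) × Par P × Par Q | π.1.1 ∈ Icc a b} ∩
        ({π : (ℝ × Space3 × Space3) × Par P × Par Q | ‖π.1.2.1‖ ≤ C'} ∩
        ({π : (ℝ × Space3 × Space3) × Par P × Par Q | ‖π.1.2.2‖ ≤ L'} ∩
        ((fun π : (ℝ × Space3 × Space3) × Par P × Par Q => π.2.1) ⁻¹' {π | BxT a b C' L' P π} ∩
        (fun π : (ℝ × Space3 × Space3) × Par P × Par Q => π.2.2) ⁻¹' {π | BxT a b C' L' Q π}))) :=
      rfl
    rw [e]
    exact (measurable_fst.fst measurableSet_Icc).inter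
      ((measurableSet_le measurable_fst.snd.fst.norm measurable_const).inter
      ((measurableSet_le measurable_fst.snd.snd.norm measurable_const).inter
      ((measurable_snd.fst ihP).inter (measurable_snd.snd ihQ))))

theorem volume_bxT (a b C' L' : ℝ) (τ : MTree J κ) : volume {π | BxT a b C' L' τ π} < ⊤ := by
  induction τ with
  | leaf j =>
    have e : (volume : Measure (Par (leaf j : MTree J κ))) {π | BxT a b C' L' (leaf j) π} =
        (Measure.dirac () : Measure Unit) {π | BxT a b C' L' (leaf j : MTree J κ) π} := rfl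
    rw [e]
    exact measure_lt_top _ _
  | node A k i B l j P Q ihP ihQ =>
    have e : (volume : Measure (Par (node A k i B l j P Q)))
        {π | BxT a b C' L' (node A k i B l j P Q) π} ≤
      ((volume : Measure (ℝ × Space3 × Space3)).prod ((volume : Measure (Par P)).prod
        (volume : Measure (Par Q))))
        (((Icc a b) ×ˢ (Metric.closedBall (0 : Space3) C' ×ˢ Metric.closedBall (0 : Space3) L')) ×ˢ
          ({π | BxT a b C' L' P π} ×ˢ {π | BxT a b C' L' Q π})) := by
      refine measure_mono ?_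
      rintro ⟨⟨t, ξ, g⟩, πP, πQ⟩ ⟨h1, h2, h3, h4, h5⟩
      exact ⟨⟨h1, by simpa using h2, by simpa using h3⟩, h4, h5⟩
    refine e.trans_lt ?_
    rw [Measure.prod_prod, Measure.prod_prod, Measure.volume_eq_prod, Measure.prod_prod,
      Measure.volume_eq_prod, Measure.prod_prod]
    refine ENNReal.mul_lt_top (ENNReal.mul_lt_top ?_ (ENNReal.mul_lt_top ?_ ?_))
      (ENNReal.mul_lt_top ihP ihQ)
    · simp
    · exact measure_closedBall_lt_top
    · exact measure_closedBall_lt_top

/-! ### The bounding function -/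

variable [Fintype J]

theorem wgt_le {β : ℝ} (hβ : 0 < β) (ρ : Space3 → ℝ≥0∞) (i₀ : J) (Z : J → PhasePoint) :
    wgt β ρ i₀ Z ≤ ρ (Z i₀).1 * ENNReal.ofReal (Real.exp (-(β * ‖(Z i₀).2‖ ^ 2))) := by
  unfold wgt
  refine mul_le_mul_right ?_ _
  rw [← Finset.mul_prod_erase Finset.univ _ (Finset.mem_univ i₀)]
  have h1 : ∏ x ∈ Finset.univ.erase i₀, ENNReal.ofReal (Real.exp (-β * ‖(Z x).2‖ ^ 2)) ≤ 1 := by
    refine Finset.prod_le_one' fun j _ => ?_
    rw [← ENNReal.ofReal_one]
    refine ENNReal.ofReal_le_ofReal (Real.exp_le_one_iff.2 ?_)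
    have : 0 ≤ ‖(Z j).2‖ ^ 2 := by positivity
    nlinarith
  calc _ ≤ ENNReal.ofReal (Real.exp (-β * ‖(Z i₀).2‖ ^ 2)) * 1 := mul_le_mul_right h1 _
    _ = _ := by rw [mul_one, neg_mul]

theorem lintegral_bound {β : ℝ} (hβ : 0 < β) {ρ : Space3 → ℝ≥0∞} (hρ : Measurable ρ)
    (hρ' : ∫⁻ x, ρ x < ⊤) (a b C' L' : ℝ) (τ : MTree J κ) :
    ∫⁻ p : Par τ × PhasePoint, ({π | BxT a b C' L' τ π}.indicator (fun _ => (1 : ℝ≥0∞)) p.1) *
      (ρ p.2.1 * ENNReal.ofReal (Real.exp (-(β * ‖p.2.2‖ ^ 2)))) ≠ ⊤ := by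
  have hm := measurableSet_bxT a b C' L' τ
  have hg : Measurable fun v : Space3 => ENNReal.ofReal (Real.exp (-(β * ‖v‖ ^ 2))) := by
    fun_prop
  have h1 : Measurable fun z : PhasePoint => ρ z.1 * ENNReal.ofReal (Real.exp (-(β * ‖z.2‖ ^ 2))) :=
    (hρ.comp measurable_fst).mul (hg.comp measurable_snd)
  rw [Measure.volume_eq_prod, lintegral_prod_mul (f := {π | BxT a b C' L' τ π}.indicator
    (fun _ => (1 : ℝ≥0∞))) (g := fun z : PhasePoint => ρ z.1 *
      ENNReal.ofReal (Real.exp (-(β * ‖z.2‖ ^ 2))))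
    (measurable_const.indicator hm).aemeasurable h1.aemeasurable]
  have h2 : ∫⁻ z : PhasePoint, ρ z.1 * ENNReal.ofReal (Real.exp (-(β * ‖z.2‖ ^ 2))) =
      (∫⁻ x, ρ x) * ∫⁻ v : Space3, ENNReal.ofReal (Real.exp (-(β * ‖v‖ ^ 2))) := by
    rw [Measure.volume_eq_prod, lintegral_prod_mul hρ.aemeasurable hg.aemeasurable]
  rw [h2, lintegral_indicator hm, setLIntegral_one]
  exact (ENNReal.mul_lt_top (volume_bxT a b C' L' τ)
    (ENNReal.mul_lt_top hρ' (GC311.lintegral_gaussian_lt_top hβ))).ne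

end Crest.Agent.R122.VLPar823

end
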