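import Mathlib
import Crest.Prelude.Def_KineticLimit
import Crest.Agent.R122.VLPar6_823

/-!
# Row 122, block D3, part P1 (helper823): `vl_of_ae`

`vl_of_ae : AdmissiblePotential Φ → VC Φ → AE Φ → VL Φ`.
-/

set_option autoImplicit false
set_option linter.unusedSectionVars false

open MeasureTheory Set Filter Topology
open scoped ENNReal NNReal
open Crest.AnalysisR.Kinetic
open Crest.Agent.R122.Ins45 Crest.Agent.R122.GIV566 Crest.Agent.R122.VL581

noncomputable section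

namespace Crest.Agent.R122.VLPar823

open scoped Classical
open MTree

variable {J κ : Type} [Fintype J]

/-! ### Monotonicity in `C` -/

theorem Ct_mono {M : VSys J κ} {C C' : ℝ} (hC : C ≤ C') (hε : 0 < M.ε) {A B : Finset J} {k l : κ}
    {i j : J} {t : ℝ} {Z : J → PhasePoint} (h : M.Ct C A k i B l j t Z) :
    M.Ct C' A k i B l j t Z :=
  ⟨h.1, h.2.1, h.2.2.1, h.2.2.2.1, h.2.2.2.2.1, h.2.2.2.2.2.1,
    h.2.2.2.2.2.2.trans (mul_le_mul_of_nonneg_right hC hε.le)⟩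

theorem VCt_mono {M : VSys J κ} {C C' : ℝ} (hC : C ≤ C') (hε : 0 < M.ε) {P : Finset J}
    {i j : J} {t : ℝ} {Z : J → PhasePoint} (h : M.VCt C P i j t Z) : M.VCt C' P i j t Z := by
  obtain ⟨A, hA, B, hB, k, l, h⟩ := h
  exact ⟨A, hA, B, hB, k, l, Ct_mono hC hε h⟩

theorem Conn_mono {M : VSys J κ} {C C' : ℝ} (hC : C ≤ C') (hε : 0 < M.ε) {P : Finset J}
    {Z : J → PhasePoint} (h : M.Conn C P Z) : M.Conn C' P Z := by
  refine ⟨h.1, fun Q hQ hne hneq => ?_⟩
  obtain ⟨i, hi, j, hj, t, ht, hv⟩ := h.2 Q hQ hne hneq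
  exact ⟨i, hi, j, hj, t, ht, VCt_mono hC hε hv⟩

theorem TreeLike_anti {M : VSys J κ} {C C' ℓ ς : ℝ} (hC : C ≤ C') (hε : 0 < M.ε) {P : Finset J}
    {Z : J → PhasePoint} (h : M.TreeLike C' ℓ ς P Z) : M.TreeLike C ℓ ς P Z := by
  obtain ⟨h1, E, σ, h2, h3, h4, h5, h6, h7⟩ := h
  exact ⟨h1, E, σ, h2, h3, h4, h5, h6, fun i hi j hj hij t ht hv =>
    h7 i hi j hj hij t ht (VCt_mono hC hε hv)⟩

/-! ### Slow configurations -/

/-- slow configurations -/
def slow (J : Type) (V : ℝ) : Set (J → PhasePoint) := {Z | ∀ j, ‖(Z j).2‖ ≤ V}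

theorem measurableSet_slow (V : ℝ) : MeasurableSet (slow J V) := by
  have e : slow J V = ⋂ j : J, {Z | ‖(Z j).2‖ ≤ V} := by
    ext Z
    simp [slow]
  rw [e]
  exact MeasurableSet.iInter fun j =>
    measurableSet_le (measurable_pi_apply j).snd.norm measurable_const

theorem tail_le {β V : ℝ} (hβ : 0 < β) (hV : 0 ≤ V) (ρ : Space3 → ℝ≥0∞) (i₀ : J)
    {Z : J → PhasePoint} (hZ : Z ∉ slow J V) :
    wgt β ρ i₀ Z ≤ ENNReal.ofReal (Real.exp (-(β / 2) * V ^ 2)) * wgt (β / 2) ρ i₀ Z := by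
  simp only [slow, mem_ofPred_eq, not_forall, not_le] at hZ
  obtain ⟨j₀, hj₀⟩ := hZ
  unfold wgt
  have h1 : ∏ j, ENNReal.ofReal (Real.exp (-β * ‖(Z j).2‖ ^ 2)) =
      (∏ j, ENNReal.ofReal (Real.exp (-(β / 2) * ‖(Z j).2‖ ^ 2))) *
        ∏ j, ENNReal.ofReal (Real.exp (-(β / 2) * ‖(Z j).2‖ ^ 2)) := by
    rw [← Finset.prod_mul_distrib]
    refine Finset.prod_congr rfl fun j _ => ?_
    rw [← ENNReal.ofReal_mul (Real.exp_nonneg _), ← Real.exp_add]
    congr 2
    ring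
  have h2 : ∏ j, ENNReal.ofReal (Real.exp (-(β / 2) * ‖(Z j).2‖ ^ 2)) ≤
      ENNReal.ofReal (Real.exp (-(β / 2) * V ^ 2)) := by
    rw [← Finset.mul_prod_erase Finset.univ _ (Finset.mem_univ j₀)]
    have h3 : ∏ x ∈ Finset.univ.erase j₀,
        ENNReal.ofReal (Real.exp (-(β / 2) * ‖(Z x).2‖ ^ 2)) ≤ 1 := by
      refine Finset.prod_le_one' fun j _ => ?_
      rw [← ENNReal.ofReal_one]
      refine ENNReal.ofReal_le_ofReal (Real.exp_le_one_iff.2 ?_)
      have : 0 ≤ ‖(Z j).2‖ ^ 2 := by positivity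
      nlinarith
    calc _ ≤ ENNReal.ofReal (Real.exp (-(β / 2) * ‖(Z j₀).2‖ ^ 2)) * 1 := mul_le_mul_right h3 _
      _ = ENNReal.ofReal (Real.exp (-(β / 2) * ‖(Z j₀).2‖ ^ 2)) := mul_one _
      _ ≤ _ := by
        refine ENNReal.ofReal_le_ofReal (Real.exp_le_exp.2 ?_)
        have : V ^ 2 ≤ ‖(Z j₀).2‖ ^ 2 := pow_le_pow_left₀ hV hj₀.le 2
        nlinarith
  rw [h1]
  calc ρ (Z i₀).1 * ((∏ j, ENNReal.ofReal (Real.exp (-(β / 2) * ‖(Z j).2‖ ^ 2))) *
        ∏ j, ENNReal.ofReal (Real.exp (-(β / 2) * ‖(Z j).2‖ ^ 2)))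
      ≤ ρ (Z i₀).1 * ((∏ j, ENNReal.ofReal (Real.exp (-(β / 2) * ‖(Z j).2‖ ^ 2))) *
        ENNReal.ofReal (Real.exp (-(β / 2) * V ^ 2))) := by gcongr
    _ = _ := by ring

/-! ### The core -/

section core

variable [Fintype κ] {Φ : Space3 → ℝ} {T C β V : ℝ} {M : ℕ → VSys J κ} {o : Option J}
  {R ς : ℕ → ℝ} {i₀ : J} {ρ : Space3 → ℝ≥0∞} {LS : ℝ≥0}

/-- bad configurations -/
def bad (M : ℕ → VSys J κ) (C : ℝ) (R ς : ℕ → ℝ) (k : ℕ) : Set (J → PhasePoint) :=
  {Z | (M k).Conn C Finset.univ Z ∧ ¬ (M k).TreeLike C (R k * (M k).ε) (ς k) Finset.univ Z}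

theorem core (hΦ : AdmissiblePotential Φ) (hβ : 0 < β) (hT : 0 < T) (hC : 1 ≤ C)
    (hM : ∀ k, (M k).Φ = Φ ∧ (M k).T = T ∧ (M k).o = o ∧ 0 < (M k).ε)
    (hε : Tendsto (fun k => (M k).ε) atTop (𝓝 0))
    (hLS : ∀ᶠ k in atTop, ∀ i, LipschitzOnWith LS ((M k).S.c i) (Icc 0 T))
    (ho : ∀ j, o = some j → i₀ = j) (hρ : Measurable ρ) (hρ' : ∫⁻ x, ρ x < ⊤)
    (hAE : ∀ τ : MTree J κ, WF o τ → supp τ = Finset.univ →
        ∀ᵐ p : Par τ × PhasePoint, Ord τ T p.1 →
          ∀ᶠ k in atTop, Act (M k) τ p.1 → (M k).Conn C Finset.univ (ov (M k) τ p.1 p.2 0) →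
            (M k).TreeLike C (R k * (M k).ε) (ς k) Finset.univ (ov (M k) τ p.1 p.2 0)) :
    Tendsto (fun k => (ENNReal.ofReal ((M k).ε ^ (2 * (Fintype.card J - 1))))⁻¹ *
      ∫⁻ Z in slow J V, (bad M C R ς k).indicator (wgt β ρ i₀) Z) atTop (𝓝 0) := by
  have hg : ∀ k, ∃ g : (J → PhasePoint) → ℝ≥0∞, Measurable g ∧
      g ≤ (slow J V).indicator ((bad M C R ς k).indicator (wgt β ρ i₀)) ∧
      ∫⁻ Z, (slow J V).indicator ((bad M C R ς k).indicator (wgt β ρ i₀)) Z = ∫⁻ Z, g Z :=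
    fun k => exists_measurable_le_lintegral_eq _ _
  choose g hgm hgle hgint using hg
  have hMF : ∀ᶠ k in atTop, MF LS (M k) := by
    filter_upwards [hLS] with k hk
    exact ⟨by rw [(hM k).1]; exact hΦ, (hM k).2.2.2, by rw [(hM k).2.1]; exact hT.le,
      by rw [(hM k).2.1]; exact hk⟩
  have hgne : ∀ k Z, g k Z ≠ 0 → Z ∈ bad M C R ς k ∧ ∀ j, ‖(Z j).2‖ ≤ V := by
    intro k Z hZ
    have h1 := hgle k Z
    by_cases hs : Z ∈ slow J V
    · refine ⟨?_, hs⟩
      by_contra hb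
      rw [indicator_of_mem hs, indicator_of_notMem hb] at h1
      exact hZ (le_antisymm h1 zero_le)
    · rw [indicator_of_notMem hs] at h1
      exact absurd (le_antisymm h1 zero_le) hZ
  have hgw : ∀ k Z, g k Z ≤ wgt β ρ i₀ Z := by
    intro k Z
    refine (hgle k Z).trans ?_
    refine (indicator_le_self _ _ _).trans (indicator_le_self _ _ _)
  set S₀ : Finset (MTree J κ) := (trees J κ (Fintype.card J - 1)).filter fun τ =>
    WF o τ ∧ supp τ = Finset.univ ∧ root τ = i₀ with hS₀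
  have hTrs : ∀ k, Trs (M k) i₀ = S₀ := by
    intro k
    unfold Trs
    rw [(hM k).2.2.1]
  set C' : ℝ := C + 2 * (VLInst442.spd Φ (Fintype.card J) V + LS) with hC'
  set L' : ℝ := 2 * VLInst442.spd Φ (Fintype.card J) V with hL'
  have hcC : ∀ k, cC (M k) LS C V = C' := fun k => by unfold cC; rw [(hM k).1]
  have hcL : ∀ k, cL (M k) V = L' := fun k => by unfold cL; rw [(hM k).1]
  set H : ∀ τ : MTree J κ, ℕ → Par τ × PhasePoint → ℝ≥0∞ := fun τ k p =>
    {π | OrdR (M k).ε τ T (tms τ π) ∧ ActT (M k) τ (tms τ π) ∧ Bx C' L' τ π}.indicator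
      (fun π => g k (ov (M k) τ π p.2 0)) p.1 with hH
  have hHm : ∀ τ, ∀ᶠ k in atTop, Measurable (H τ k) := by
    intro τ
    filter_upwards [hMF] with k hk
    have h1 : Measurable fun p : Par τ × PhasePoint => g k (ov (M k) τ p.1 p.2 0) :=
      (hgm k).comp (measurable_ov hk τ measurable_fst measurable_snd measurable_const)
    have h2 : MeasurableSet {p : Par τ × PhasePoint | OrdR (M k).ε τ T (tms τ p.1) ∧
        ActT (M k) τ (tms τ p.1) ∧ Bx C' L' τ p.1} :=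
      (measurableSet_ordR _ τ measurable_const ((measurable_tms τ).comp measurable_fst)).inter
        ((((measurable_tms τ).comp measurable_fst) (measurableSet_actT (M k) τ)).inter
          (measurable_fst (measurableSet_bx C' L' τ)))
    have h3 : H τ k = {p : Par τ × PhasePoint | OrdR (M k).ε τ T (tms τ p.1) ∧
        ActT (M k) τ (tms τ p.1) ∧ Bx C' L' τ p.1}.indicator (fun p => g k (ov (M k) τ p.1 p.2 0)) := by
      funext p
      simp only [hH, indicator_apply, mem_ofPred_eq]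
    rw [h3]
    exact h1.indicator h2
  -- the main inequality
  have key1 : ∀ᶠ k in atTop, (ENNReal.ofReal ((M k).ε ^ (2 * (Fintype.card J - 1))))⁻¹ *
      ∫⁻ Z in slow J V, (bad M C R ς k).indicator (wgt β ρ i₀) Z ≤
        ∑ τ ∈ S₀, ∫⁻ p : Par τ × PhasePoint, H τ k p := by
    filter_upwards [hMF, (Filter.eventually_all_finset S₀).2 fun τ _ => hHm τ] with k hk hHk
    have hpos := (hM k).2.2.2
    have h1 := main_ineq hk hC (hgm k) (fun Z hZ => ⟨(hgne k Z hZ).1.1, (hgne k Z hZ).2⟩)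
      (i₀ := i₀) (by rw [(hM k).2.2.1]; exact ho)
    rw [hTrs k, hcC k, hcL k, (hM k).2.1] at h1
    have h2 : ∀ τ ∈ S₀, ∫⁻ π : Par τ, ∫⁻ z : PhasePoint,
        {π | OrdR (M k).ε τ T (tms τ π) ∧ ActT (M k) τ (tms τ π) ∧ Bx C' L' τ π}.indicator
            (fun π => g k (ov (M k) τ π z 0)) π = ∫⁻ p : Par τ × PhasePoint, H τ k p := by
      intro τ hτ
      exact (lintegral_prod (H τ k) (hHk τ hτ).aemeasurable).symm
    rw [Finset.sum_congr rfl h2] at h1
    have h3 : ENNReal.ofReal ((M k).ε ^ (3 * (Fintype.card J - 1))) =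
        ENNReal.ofReal ((M k).ε ^ (Fintype.card J - 1)) *
          ENNReal.ofReal ((M k).ε ^ (2 * (Fintype.card J - 1))) := by
      rw [← ENNReal.ofReal_mul (by positivity), ← pow_add]
      congr 2
      ring
    rw [h3, mul_assoc, ENNReal.mul_le_mul_iff_right
      (ENNReal.ofReal_pos.2 (by positivity)).ne' ENNReal.ofReal_ne_top] at h1
    rw [← lintegral_indicator (measurableSet_slow V), hgint k]
    rw [mul_comm, ← div_eq_mul_inv]
    refine ENNReal.div_le_of_le_mul' ?_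
    exact h1
  -- dominated convergence
  have key2 : ∀ τ ∈ S₀, Tendsto (fun k => ∫⁻ p : Par τ × PhasePoint, H τ k p) atTop (𝓝 0) := by
    intro τ hτ
    obtain ⟨-, hW, hs, hr⟩ := Finset.mem_filter.1 hτ
    have e0 : (0 : ℝ≥0∞) = ∫⁻ _p : Par τ × PhasePoint, (0 : ℝ≥0∞) := by simp
    rw [e0]
    refine tendsto_lintegral_filter_of_dominated_convergence
      (fun p : Par τ × PhasePoint =>
        ({π | BxT (-1) (T + nn τ) C' L' τ π}.indicator (fun _ => (1 : ℝ≥0∞)) p.1) *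
        (ρ p.2.1 * ENNReal.ofReal (Real.exp (-(β * ‖p.2.2‖ ^ 2))))) (hHm τ) ?_
      (lintegral_bound hβ hρ hρ' _ _ _ _ τ) ?_
    · have hε1 : ∀ᶠ k in atTop, (M k).ε ≤ 1 := hε.eventually_le_const (by norm_num)
      filter_upwards [hε1] with k hk1
      refine Eventually.of_forall fun p => ?_
      simp only [hH]
      by_cases hp : OrdR (M k).ε τ T (tms τ p.1) ∧ ActT (M k) τ (tms τ p.1) ∧ Bx C' L' τ p.1
      · rw [indicator_of_mem (show p.1 ∈ {π | OrdR (M k).ε τ T (tms τ π) ∧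
          ActT (M k) τ (tms τ π) ∧ Bx C' L' τ π} from hp), indicator_of_mem, one_mul]
        · refine (hgw k _).trans ((wgt_le hβ ρ i₀ _).trans ?_)
          have h4 := ov_root (M := M k) τ hW p.1 p.2 0
          rw [hr] at h4
          rw [h4]
        · exact bxT_of τ (hM k).2.2.2.le hk1 le_rfl hp.1 hp.2.2
      · rw [indicator_of_notMem (show p.1 ∉ {π | OrdR (M k).ε τ T (tms τ π) ∧
          ActT (M k) τ (tms τ π) ∧ Bx C' L' τ π} from hp)]
        exact zero_le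
    · have hGT : ∀ᵐ p : Par τ × PhasePoint, GT τ T p.1 :=
        Measure.quasiMeasurePreserving_fst.ae (ae_GT τ T)
      filter_upwards [hAE τ hW hs, hGT] with p hp hpG
      refine tendsto_const_nhds.congr' ?_
      by_contra hcon
      have hfr : ∃ᶠ k in atTop, H τ k p ≠ 0 := by
        refine (Filter.not_eventually.1 hcon).mono fun k hk h0 => hk h0.symm
      have hO : Ord τ T p.1 := by
        refine ord_of_frequently τ hε tendsto_const_nhds hpG (hfr.mono fun k hk => ?_)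
        by_contra hno
        refine hk ?_
        simp only [hH]
        rw [indicator_of_notMem]
        exact fun h => hno h.1
      refine hfr ?_
      filter_upwards [hp hO] with k hk hne
      have hg0 : g k (ov (M k) τ p.1 p.2 0) ≠ 0 := by
        intro h0
        refine hne ?_
        simp only [hH, indicator_apply, h0, ite_self]
      obtain ⟨hb, -⟩ := hgne k _ hg0
      have hact : Act (M k) τ p.1 := by
        by_contra hno
        refine hne ?_
        simp only [hH]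
        rw [indicator_of_notMem]
        exact fun h => hno (act_of_actT (M k) τ h.2.1)
      exact hb.2 (hk hact hb.1)
  have key3 : Tendsto (fun k => ∑ τ ∈ S₀, ∫⁻ p : Par τ × PhasePoint, H τ k p) atTop (𝓝 0) := by
    have := tendsto_finsetSum S₀ key2
    simpa using this
  exact tendsto_of_tendsto_of_tendsto_of_le_of_le' tendsto_const_nhds key3
    (Eventually.of_forall fun _ => zero_le) key1

end core

/-- **VL from VC and AE.** -/
theorem vl_of_ae {Φ : Space3 → ℝ} (hΦ : AdmissiblePotential Φ) (hVC : VC Φ) (hAE : AE Φ) :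
    VL Φ := by
  intro J κ _ _ β T C₀ hβ hT M o b S R ς i₀ hM hε hb hS hGen hR hς ho ρ hρ hρ'
  -- reduction to `1 ≤ C`
  set C : ℝ := max C₀ 1 with hCdef
  have hC0 : C₀ ≤ C := le_max_left _ _
  have hC : 1 ≤ C := le_max_right _ _
  have hle : ∀ k, (ENNReal.ofReal ((M k).ε ^ (2 * (Fintype.card J - 1))))⁻¹ *
      ∫⁻ Z, {Z | (M k).Conn C₀ Finset.univ Z ∧
        ¬ (M k).TreeLike C₀ (R k * (M k).ε) (ς k) Finset.univ Z}.indicator (wgt β ρ i₀) Z ≤
      (ENNReal.ofReal ((M k).ε ^ (2 * (Fintype.card J - 1))))⁻¹ *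
        ∫⁻ Z, (bad M C R ς k).indicator (wgt β ρ i₀) Z := by
    intro k
    refine mul_le_mul_right (lintegral_mono fun Z => ?_) _
    refine indicator_le_indicator_of_subset ?_ (fun _ => zero_le) Z
    rintro Z ⟨h1, h2⟩
    exact ⟨Conn_mono hC0 (hM k).2.2.2 h1, fun h => h2 (TreeLike_anti hC0 (hM k).2.2.2 h)⟩
  refine tendsto_of_tendsto_of_tendsto_of_le_of_le tendsto_const_nhds ?_
    (fun _ => zero_le) hle
  obtain ⟨⟨LS, hLS, -⟩, -, -, -⟩ := id hS
  obtain ⟨K, hK⟩ := hVC J κ (β / 2) T C LS (by positivity)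
  have hcore : ∀ V : ℝ, Tendsto (fun k => (ENNReal.ofReal ((M k).ε ^ (2 * (Fintype.card J - 1))))⁻¹ *
      ∫⁻ Z in slow J V, (bad M C R ς k).indicator (wgt β ρ i₀) Z) atTop (𝓝 0) := by
    intro V
    refine core hΦ hβ hT hC hM hε hLS ho hρ hρ' ?_
    exact hAE J κ T C hT hC M o b S R ς hM hε hb hS hGen hR hς
  -- the tail
  have htail : ∀ V : ℝ, 0 ≤ V → ∀ᶠ k in atTop,
      (ENNReal.ofReal ((M k).ε ^ (2 * (Fintype.card J - 1))))⁻¹ *
        ∫⁻ Z in (slow J V)ᶜ, (bad M C R ς k).indicator (wgt β ρ i₀) Z ≤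
      ENNReal.ofReal (Real.exp (-(β / 2) * V ^ 2)) * (K * ∫⁻ x, ρ x) := by
    intro V hV
    have hε1 : ∀ᶠ k in atTop, (M k).ε ≤ 1 := hε.eventually_le_const (by norm_num)
    filter_upwards [hε1, hLS] with k hk1 hkL
    have hpos := (hM k).2.2.2
    have h1 : ∫⁻ Z in (slow J V)ᶜ, (bad M C R ς k).indicator (wgt β ρ i₀) Z ≤
        ENNReal.ofReal (Real.exp (-(β / 2) * V ^ 2)) *
          ∫⁻ Z, {Z | (M k).Conn C Finset.univ Z}.indicator (wgt (β / 2) ρ i₀) Z := by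
      rw [← lintegral_const_mul' _ _ ENNReal.ofReal_ne_top,
        ← lintegral_indicator (measurableSet_slow V).compl]
      refine lintegral_mono fun Z => ?_
      by_cases hs : Z ∈ (slow J V)ᶜ
      · rw [indicator_of_mem hs]
        by_cases hb : Z ∈ bad M C R ς k
        · rw [indicator_of_mem hb, indicator_of_mem (show Z ∈ {Z | (M k).Conn C Finset.univ Z}
            from hb.1)]
          exact tail_le hβ hV ρ i₀ hs
        · rw [indicator_of_notMem hb]
          exact zero_le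
      · rw [indicator_of_notMem hs]
        exact zero_le
    have h2 := hK (M k) (hM k).1 (hM k).2.1 hpos hk1 hkL i₀
      (by rw [(hM k).2.2.1]; exact ho) ρ hρ
    have hc0 : ENNReal.ofReal ((M k).ε ^ (2 * (Fintype.card J - 1))) ≠ 0 :=
      (ENNReal.ofReal_pos.2 (by positivity)).ne'
    have hc1 : ENNReal.ofReal ((M k).ε ^ (2 * (Fintype.card J - 1))) ≠ ⊤ := ENNReal.ofReal_ne_top
    calc _ ≤ (ENNReal.ofReal ((M k).ε ^ (2 * (Fintype.card J - 1))))⁻¹ *
          (ENNReal.ofReal (Real.exp (-(β / 2) * V ^ 2)) *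
            (K * ENNReal.ofReal ((M k).ε ^ (2 * (Fintype.card J - 1))) * ∫⁻ x, ρ x)) :=
          mul_le_mul_right (h1.trans (mul_le_mul_right h2 _)) _
      _ = ((ENNReal.ofReal ((M k).ε ^ (2 * (Fintype.card J - 1))))⁻¹ *
            ENNReal.ofReal ((M k).ε ^ (2 * (Fintype.card J - 1)))) *
          (ENNReal.ofReal (Real.exp (-(β / 2) * V ^ 2)) * (K * ∫⁻ x, ρ x)) := by ring
      _ = _ := by rw [ENNReal.inv_mul_cancel hc0 hc1, one_mul]
  -- conclusion
  rw [ENNReal.tendsto_nhds_zero]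
  intro η hη
  have hfin : (K : ℝ≥0∞) * ∫⁻ x, ρ x ≠ ⊤ := ENNReal.mul_ne_top ENNReal.coe_ne_top hρ'.ne
  have hexp : Tendsto (fun V : ℝ => ENNReal.ofReal (Real.exp (-(β / 2) * V ^ 2)) *
      (K * ∫⁻ x, ρ x)) atTop (𝓝 0) := by
    have h1 : Tendsto (fun V : ℝ => Real.exp (-(β / 2) * V ^ 2)) atTop (𝓝 0) := by
      refine Real.tendsto_exp_atBot.comp ?_
      exact (tendsto_pow_atTop two_ne_zero).const_mul_atTop_of_neg (by linarith)
    have h2 : Tendsto (fun V : ℝ => ENNReal.ofReal (Real.exp (-(β / 2) * V ^ 2))) atTop (𝓝 0) := by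
      have := ENNReal.tendsto_ofReal h1
      rwa [ENNReal.ofReal_zero] at this
    have h3 := ENNReal.Tendsto.mul_const (b := (K : ℝ≥0∞) * ∫⁻ x, ρ x) h2 (Or.inr hfin)
    rwa [zero_mul] at h3
  have hη2 : 0 < η / 2 := ENNReal.half_pos hη.ne'
  obtain ⟨V, hV0, hV⟩ := ((eventually_ge_atTop (0 : ℝ)).and
    ((ENNReal.tendsto_nhds_zero.1 hexp) (η / 2) hη2)).exists
  filter_upwards [htail V hV0, (ENNReal.tendsto_nhds_zero.1 (hcore V)) (η / 2) hη2] with k h1 h2
  rw [← lintegral_add_compl _ (measurableSet_slow V), mul_add]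
  calc _ ≤ η / 2 + η / 2 := add_le_add h2 (h1.trans hV)
    _ = η := ENNReal.add_halves η

end Crest.Agent.R122.VLPar823

end
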