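import Crest.Agent.R122.VLNodeStep_581
import Crest.Agent.R122.VLAEFin_399
import Crest.Agent.R122.VLPar7_823
import Crest.Agent.R122.VLu_664
import Crest.Agent.R122.VCFin_973

/-!
# Row 122, blocks D2 and D3 (helper581): `VC`, `AE`, `VL`, `VLu`

* `vc`  (helper442, helper973, helper581)
* `ae_all` : almost all parameters of a merge tree give tree-like configurations
  (helper581, helper564, helper399, helper442, helper735, helper692)
* `vl`  (helper823, helper581), `vlu` (helper664)
-/

set_option autoImplicit false

open Crest.AnalysisR.Kinetic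
open Crest.Agent.R122.VLPar823

namespace Crest.Agent.R122.VL581

/-- **VC**: crude volume bound of all connected configurations. -/
theorem vc {Φ : Space3 → ℝ} (hΦ : AdmissiblePotential Φ) : VC Φ :=
  Crest.Agent.R122.VC973.vc hΦ

/-- **AE**: almost all parameters give tree-like configurations. -/
theorem ae_all {Φ : Space3 → ℝ} (hΦ : AdmissiblePotential Φ) : AE Φ :=
  Crest.Agent.R122.VLInv399.ae_of_nodeStep hΦ node_step

/-- **VL**: loops are null, sequence form (births, obstacle). -/
theorem vl {Φ : Space3 → ℝ} (hΦ : AdmissiblePotential Φ) : VL Φ :=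
  vl_of_ae hΦ (vc hΦ) (ae_all hΦ)

/-- **VLu**: loops are null, uniformly in the births. -/
theorem vlu {Φ : Space3 → ℝ} (hΦ : AdmissiblePotential Φ) : VLu Φ :=
  Crest.Agent.R122.VLu664.vlu_of_vl (vl hΦ)

end Crest.Agent.R122.VL581
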