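import Crest.Agent.R122.GateCap_973
import Crest.Agent.R122.OSMeas_984
import Crest.Agent.R122.SizeCross_815
import Crest.Agent.R122.PathFlow_968
import Crest.Agent.R122.GateTree_522
import Crest.Agent.R122.BHFin_167
import Crest.Agent.R122.VLMain_581
import Crest.Agent.R122.ClassVL_973

/-!
# Row 122, H11 (helper973): the gateway for the one-contact structures

Structure `θ = (z, l) ~ osM` (helper984's `OSMeas984.osM`, births of `l` in `(0, te]`): a tree and a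
line in contact with its root line. Labels `Idx P ⊕ Unit`, births `osB`, states `osZ`.

* `ct_flux_vol` : flux of the lines through the root line.
* `exists_moment_os` : exponential moments of ALL velocities, uniform in `ε`.
* `gLe_osRun`, `badF_os`, `gNull_osHit` : runs from the groups of members, bad partitions, bad hits.
* `gNull_os` : **the gateway for `osM`**.
-/

set_option autoImplicit false
set_option linter.unusedSectionVars false

open MeasureTheory Set Filter Topology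
open scoped ENNReal Classical
open Crest.AnalysisR.Kinetic
open Crest.Agent.R122.Kin796 Crest.Agent.R122.Kin796.CTree Crest.Agent.R122.Tree674
open Crest.Agent.R122.GC311 Crest.Agent.R122.EDefs602 Crest.Agent.R122.OneC285
open Crest.Agent.R122.ToTree335 Crest.Agent.R122.LN2 Crest.Agent.R122.LinkGas473
open Crest.Agent.R122.TreeLines335 Crest.Agent.R122.LineMeas994
open Crest.Agent.R122.OSMeas984 Crest.Agent.R122.OneC423 Crest.Agent.R122.Gate424

noncomputable section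

namespace Crest.Agent.R122.Gate973

variable {Φ : Space3 → ℝ} {f₀ : PhasePoint → ℝ} {ε : ℝ} {K : ℕ} {Q : EPar} {T' : ℝ}

/-! ### Flux of the lines through the root line -/

/-- The measure on the lines is the superposition of its birth times. -/
theorem lintegral_baseM_dirac (κ : Measure ℝ) [SFinite κ] {F : ML → ℝ≥0∞} (hF : Measurable F) :
    ∫⁻ l, F l ∂(baseM κ) = ∫⁻ τ, (∫⁻ l, F l ∂(baseM (Measure.dirac τ))) ∂κ := by
  rw [lintegral_baseM κ hF]
  refine lintegral_congr fun τ => ?_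
  have h2 : ∀ n : ℕ, Measurable fun q : ℝ × (Space3 × Space3) =>
      F ((q.1, (q.2.2, q.2.1)), n) := fun n =>
    hF.comp (by fun_prop : Measurable fun q : ℝ × (Space3 × Space3) =>
      (((q.1, (q.2.2, q.2.1)), n) : ML))
  have hm : Measurable fun τ : ℝ => ∑' n : ℕ, ∫⁻ v : Space3, ∫⁻ y : Space3, F ((τ, (y, v)), n) := by
    refine Measurable.tsum fun n => ?_
    have h3 : Measurable fun q : (ℝ × Space3) × Space3 => F ((q.1.1, (q.2, q.1.2)), n) :=
      (h2 n).comp (f := fun q : (ℝ × Space3) × Space3 => (q.1.1, (q.1.2, q.2))) (by fun_prop)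
    have h4 : Measurable fun q : ℝ × Space3 => ∫⁻ y : Space3, F ((q.1, (y, q.2)), n) :=
      h3.lintegral_prod_right'
    exact h4.lintegral_prod_right'
  rw [lintegral_baseM _ hF, lintegral_dirac' _ hm]

/-- **Flux of the marked lines born in `(0, te]` through the root line of a tree.** -/
theorem ct_flux_vol (hΦ : AdmissiblePotential Φ) (hε : 0 < ε) {P : CTree}
    (z : PhasePoint × Par P) {te : ℝ} {γ : ℝ → ℝ} (hγ : Measurable γ) {g0 : ℝ}
    (hg : ∀ τ ∈ Ioc (0 : ℝ) te, g0 ≤ γ τ) (ρ : ℝ≥0∞) (K : ℕ) :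
    ∫⁻ l, {l : ML | (z, l.1) ∈ ctSet Φ ε te P}.indicator (lineD γ ρ K) l
        ∂(baseM (volume.restrict (Ioc 0 te))) ≤
      ENNReal.ofReal (ε ^ 2) * (ENNReal.ofReal te * (ENNReal.ofReal te * ENNReal.ofReal Real.pi *
        XC815.cV g0 * (ENNReal.ofReal (1 + ‖z.1.2‖) * ∑' n : ℕ, markW ρ K n))) := by
  have hD : Measurable (lineD γ ρ K) := LN2.measurable_lineD hγ ρ K
  have hms : MeasurableSet {l : ML | (z, l.1) ∈ ctSet Φ ε te P} :=
    (measurable_const.prodMk measurable_fst : Measurable fun l : ML =>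
      ((z, l.1) : (PhasePoint × Par P) × (ℝ × PhasePoint))) (measurableSet_ctSet hΦ ε te P)
  rw [lintegral_baseM_dirac _ (hD.indicator hms)]
  have h1 : ∀ τ ∈ Ioc (0 : ℝ) te, ∫⁻ l, {l : ML | (z, l.1) ∈ ctSet Φ ε te P}.indicator
      (lineD γ ρ K) l ∂(baseM (Measure.dirac τ)) ≤
      ENNReal.ofReal (ε ^ 2) * (ENNReal.ofReal te * ENNReal.ofReal Real.pi *
        XC815.cV g0 * (ENNReal.ofReal (1 + ‖z.1.2‖) * ∑' n : ℕ, markW ρ K n)) := by
    intro τ hτ
    have h2 := XC815.ct_flux_le hΦ hε z (te := te) hτ.1 hγ (hg τ hτ) ρ K (fun _ => 1)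
    simpa only [mul_one] using h2
  refine (setLIntegral_mono' measurableSet_Ioc h1).trans (le_of_eq ?_)
  rw [setLIntegral_const, Real.volume_Ioc, sub_zero]
  ring

/-! ### Moments -/

theorem ofReal_one_add_norm_le {a : ℝ} (ha : 0 < a) (v : Space3) :
    ENNReal.ofReal (1 + ‖v‖) ≤
      ENNReal.ofReal (2 * max 1 (1 / a)) * ENNReal.ofReal (Real.exp (a * ‖v‖ ^ 2)) := by
  rw [← ENNReal.ofReal_mul (by positivity)]
  refine ENNReal.ofReal_le_ofReal ?_
  have h1 := GateT522.one_add_le_exp ha (‖v‖ ^ 2) (sq_nonneg _)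
  have h2 : 1 + ‖v‖ ≤ 2 * (1 + ‖v‖ ^ 2) := by nlinarith [sq_nonneg (‖v‖ - 1), norm_nonneg v]
  nlinarith

/-- Exponential moments of a tree, with the root velocity. -/
theorem exists_tree_moment (hΦ : AdmissiblePotential Φ) (hf : Measurable f₀) {b : ℝ}
    (H : HasSummableGaussianBound b (fun x v => f₀ (x, v))) {β : ℝ} (hβ : β < b)
    (P : CTree) (T : ℝ) :
    ∃ M : ℝ≥0∞, M ≠ ∞ ∧ ∀ ε t : ℝ, 0 < ε → t ≤ T →
      ∫⁻ z, expW β (linesM Φ ε P z.1 z.2) * ENNReal.ofReal (1 + ‖z.1.2‖) ∂(treeM Φ f₀ ε P t)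
        ≤ M := by
  set a : ℝ := (b - β) / 2 with ha
  have ha0 : 0 < a := by rw [ha]; linarith
  have hab : a + β < b := by rw [ha]; linarith
  obtain ⟨M, hM, h⟩ := DomForest998.exists_mass_exp hΦ hf H hab P T
  refine ⟨ENNReal.ofReal (2 * max 1 (1 / a)) * M, ENNReal.mul_ne_top ENNReal.ofReal_ne_top hM,
    fun ε t hε ht => ?_⟩
  have hm : Measurable fun z : PhasePoint × Par P => expW β (linesM Φ ε P z.1 z.2) :=
    (measurable_expW β).comp (measurable_linesM hΦ ε P)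
  have hr : Measurable fun z : PhasePoint × Par P => ENNReal.ofReal (1 + ‖z.1.2‖) := by
    fun_prop
  have hmr : Measurable fun z : PhasePoint × Par P => expW β (linesM Φ ε P z.1 z.2) *
      ENNReal.ofReal (1 + ‖z.1.2‖) := hm.mul hr
  rw [lintegral_treeM hΦ hf ε P t hmr]
  refine le_trans (lintegral_mono (g := fun z => ENNReal.ofReal (2 * max 1 (1 / a)) *
      (Ret424.pf Φ f₀ ε P t z * expW (a + β) (lines Φ ε P z.1 z.2))) fun z => ?_) ?_
  · by_cases hz : Valid Φ ε P t z.1.2 z.2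
    · have hz' : z ∈ {z : PhasePoint × Par P | Valid Φ ε P t z.1.2 z.2} := hz
      simp only
      rw [indicator_of_mem hz', Ret424.pf_of_valid hz]
      have e1 : ToTree335.pf Φ f₀ ε P z =
          ∏ i, ENNReal.ofReal (f₀ (lines Φ ε P z.1 z.2 i)) := rfl
      rw [e1, linesM_of_adm ε hz.1]
      have h2 : ENNReal.ofReal (1 + ‖z.1.2‖) ≤ ENNReal.ofReal (2 * max 1 (1 / a)) *
          expW a (lines Φ ε P z.1 z.2) := by
        refine (ofReal_one_add_norm_le ha0 z.1.2).trans (mul_le_mul_right ?_ _)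
        refine DomForest998.eW_le_expW ha0.le ?_
        have h3 := DomForest998.lineML_sq_le hΦ ε hz.1 (root P)
        have h4 : (lineML Φ ε P z (root P)).1.2.2 = z.1.2 := by
          show (PathFlow968.fin Φ ε P z.1 z.2 (root P)).2 = z.1.2
          rw [PathFlow968.fin_root]
        rwa [h4] at h3
      have h5 : expW β (lines Φ ε P z.1 z.2) * expW a (lines Φ ε P z.1 z.2) =
          expW (a + β) (lines Φ ε P z.1 z.2) := by
        unfold expW
        rw [← Finset.prod_mul_distrib]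
        refine Finset.prod_congr rfl fun j _ => ?_
        rw [← ENNReal.ofReal_mul (Real.exp_pos _).le, ← Real.exp_add]
        congr 2
        ring
      calc _ ≤ wt Φ P z.1.2 z.2 * ((∏ i, ENNReal.ofReal (f₀ (lines Φ ε P z.1 z.2 i))) *
            (expW β (lines Φ ε P z.1 z.2) * (ENNReal.ofReal (2 * max 1 (1 / a)) *
              expW a (lines Φ ε P z.1 z.2)))) :=
            mul_le_mul_right (mul_le_mul_right (mul_le_mul_right h2 _) _) _
        _ = _ := by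
            rw [← h5]
            ring
    · have hz' : z ∉ {z : PhasePoint × Par P | Valid Φ ε P t z.1.2 z.2} := hz
      rw [indicator_of_notMem hz']
      exact bot_le
  · rw [lintegral_const_mul' _ _ ENNReal.ofReal_ne_top]
    exact mul_le_mul_right (h ε t hε.le ht) _

theorem lineD_mul_exp (γ : ℝ → ℝ) (ρ : ℝ≥0∞) (K : ℕ) (β : ℝ) (l : ML) :
    lineD γ ρ K l * ENNReal.ofReal (Real.exp (β * ‖l.1.2.2‖ ^ 2)) =
      lineD (fun τ => γ τ - β) ρ K l := by
  unfold lineD wG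
  rw [mul_right_comm, ← ENNReal.ofReal_mul (Real.exp_pos _).le, ← Real.exp_add]
  congr 3
  ring

theorem expW_osZ (β : ℝ) (P : CTree) (θ : (PhasePoint × Par P) × ML) :
    expW β (osZ Φ ε P θ) = expW β (linesM Φ ε P θ.1.1 θ.1.2) *
      ENNReal.ofReal (Real.exp (β * ‖θ.2.1.2.2‖ ^ 2)) := by
  unfold expW osZ
  rw [Fintype.prod_sum_type]
  simp only [Sum.elim_inl, Sum.elim_inr, Finset.univ_unique, Finset.prod_singleton]
  rfl

/-- **Exponential moments of all the velocities of a one-contact structure**, uniform in `ε`. -/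
theorem exists_moment_os (hΦ : AdmissiblePotential Φ) (hf : Measurable f₀) {b : ℝ}
    (H : HasSummableGaussianBound b (fun x v => f₀ (x, v))) {β g0 : ℝ} (hβ : β < b)
    (hβg : β < g0) (hγ : Measurable Q.γ) (hg : ∀ τ ∈ Ioc (0 : ℝ) Q.te, g0 ≤ Q.γ τ)
    (hρ : Q.ρ ≠ ∞) (K : ℕ) (P : CTree) (T' : ℝ) :
    ∃ M : ℝ≥0∞, M ≠ ∞ ∧ ∀ ε : ℝ, 0 < ε →
      ∫⁻ θ, expW β (osZ Φ ε P θ)
        ∂(osM Φ f₀ ε K Q T' (volume.restrict (Ioc 0 Q.te)) P) ≤ M := by
  obtain ⟨M, hM, h⟩ := exists_tree_moment hΦ hf H hβ P T'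
  set C : ℝ≥0∞ := ENNReal.ofReal Q.te * (ENNReal.ofReal Q.te * ENNReal.ofReal Real.pi *
    XC815.cV (g0 - β) * ∑' n : ℕ, markW Q.ρ K n) with hC
  have hCt : C ≠ ∞ := ENNReal.mul_ne_top ENNReal.ofReal_ne_top (ENNReal.mul_ne_top
    (ENNReal.mul_ne_top (ENNReal.mul_ne_top ENNReal.ofReal_ne_top ENNReal.ofReal_ne_top)
      (XC815.cV_ne_top (sub_pos.2 hβg))) (sum_markW_ne_top hρ K))
  refine ⟨C * M, ENNReal.mul_ne_top hCt hM, fun ε hε => ?_⟩
  have hZ : Measurable fun θ : (PhasePoint × Par P) × ML => expW β (osZ Φ ε P θ) := by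
    simp only [expW_osZ]
    have h1 : Measurable fun θ : (PhasePoint × Par P) × ML =>
        expW β (linesM Φ ε P θ.1.1 θ.1.2) :=
      ((measurable_expW β).comp (measurable_linesM hΦ ε P)).comp measurable_fst
    have h2 : Measurable fun θ : (PhasePoint × Par P) × ML =>
        ENNReal.ofReal (Real.exp (β * ‖θ.2.1.2.2‖ ^ 2)) := by
      have h3 : Measurable fun θ : (PhasePoint × Par P) × ML => θ.2.1.2.2 :=
        measurable_snd.fst.snd.snd
      exact (Real.measurable_exp.comp ((h3.norm.pow_const 2).const_mul β)).ennreal_ofReal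
    exact h1.mul h2
  rw [lintegral_osM hΦ P hZ]
  have hγ' : Measurable fun τ => Q.γ τ - β := hγ.sub_const β
  -- the inner integral
  have hin : ∀ z : PhasePoint × Par P, ∫⁻ l, (ctS Φ ε Q.te P).indicator
      (fun θ => expW β (osZ Φ ε P θ)) (z, l)
        ∂(lineK Q.γ Q.ρ K (volume.restrict (Ioc 0 Q.te))) ≤
      ENNReal.ofReal (ε ^ 2) * (C * (expW β (linesM Φ ε P z.1 z.2) *
        ENNReal.ofReal (1 + ‖z.1.2‖))) := by
    intro z
    have hmi : Measurable fun l : ML => (ctS Φ ε Q.te P).indicator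
        (fun θ => expW β (osZ Φ ε P θ)) (z, l) :=
      (hZ.indicator (measurableSet_ctS hΦ ε Q.te P)).comp measurable_prodMk_left
    rw [lintegral_lineK hγ Q.ρ K _ hmi]
    have hWt : expW β (linesM Φ ε P z.1 z.2) ≠ ∞ := by
      unfold expW
      exact ENNReal.prod_ne_top fun _ _ => ENNReal.ofReal_ne_top
    calc ∫⁻ l, lineD Q.γ Q.ρ K l * (ctS Φ ε Q.te P).indicator
          (fun θ => expW β (osZ Φ ε P θ)) (z, l) ∂(baseM (volume.restrict (Ioc 0 Q.te)))
        = ∫⁻ l, expW β (linesM Φ ε P z.1 z.2) *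
            {l : ML | (z, l.1) ∈ ctSet Φ ε Q.te P}.indicator
              (lineD (fun τ => Q.γ τ - β) Q.ρ K) l ∂(baseM (volume.restrict (Ioc 0 Q.te))) := by
          refine lintegral_congr fun l => ?_
          by_cases hl : (z, l.1) ∈ ctSet Φ ε Q.te P
          · rw [indicator_of_mem (show (z, l) ∈ ctS Φ ε Q.te P from hl),
              indicator_of_mem (show l ∈ {l : ML | (z, l.1) ∈ ctSet Φ ε Q.te P} from hl),
              expW_osZ, ← lineD_mul_exp]
            ring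
          · rw [indicator_of_notMem (show (z, l) ∉ ctS Φ ε Q.te P from hl),
              indicator_of_notMem (show l ∉ {l : ML | (z, l.1) ∈ ctSet Φ ε Q.te P} from hl),
              mul_zero, mul_zero]
      _ = expW β (linesM Φ ε P z.1 z.2) * ∫⁻ l,
            {l : ML | (z, l.1) ∈ ctSet Φ ε Q.te P}.indicator
              (lineD (fun τ => Q.γ τ - β) Q.ρ K) l ∂(baseM (volume.restrict (Ioc 0 Q.te))) :=
          lintegral_const_mul' _ _ hWt
      _ ≤ expW β (linesM Φ ε P z.1 z.2) * (ENNReal.ofReal (ε ^ 2) * (ENNReal.ofReal Q.te *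
            (ENNReal.ofReal Q.te * ENNReal.ofReal Real.pi * XC815.cV (g0 - β) *
              (ENNReal.ofReal (1 + ‖z.1.2‖) * ∑' n : ℕ, markW Q.ρ K n)))) :=
          mul_le_mul_right (ct_flux_vol hΦ hε z hγ' (g0 := g0 - β)
            (fun τ hτ => sub_le_sub_right (hg τ hτ) β) Q.ρ K) _
      _ = _ := by
          rw [hC]
          ring
  have hm1 : Measurable fun z : PhasePoint × Par P => expW β (linesM Φ ε P z.1 z.2) *
      ENNReal.ofReal (1 + ‖z.1.2‖) :=
    ((measurable_expW β).comp (measurable_linesM hΦ ε P)).mul (by fun_prop)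
  calc activity ε * ∫⁻ z, ∫⁻ l, (ctS Φ ε Q.te P).indicator
        (fun θ => expW β (osZ Φ ε P θ)) (z, l)
          ∂(lineK Q.γ Q.ρ K (volume.restrict (Ioc 0 Q.te))) ∂(treeM Φ f₀ ε P T')
      ≤ activity ε * ∫⁻ z, ENNReal.ofReal (ε ^ 2) * (C * (expW β (linesM Φ ε P z.1 z.2) *
          ENNReal.ofReal (1 + ‖z.1.2‖))) ∂(treeM Φ f₀ ε P T') :=
        mul_le_mul_right (lintegral_mono hin) _
    _ = (activity ε * ENNReal.ofReal (ε ^ 2)) * (C * ∫⁻ z, expW β (linesM Φ ε P z.1 z.2) *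
          ENNReal.ofReal (1 + ‖z.1.2‖) ∂(treeM Φ f₀ ε P T')) := by
        rw [lintegral_const_mul' _ _ ENNReal.ofReal_ne_top, lintegral_const_mul' _ _ hCt]
        ring
    _ = C * ∫⁻ z, expW β (linesM Φ ε P z.1 z.2) *
          ENNReal.ofReal (1 + ‖z.1.2‖) ∂(treeM Φ f₀ ε P T') := by
        have h5 := activity_pow_mul_pow hε 1
        rw [pow_one, pow_one] at h5
        rw [h5, one_mul]
    _ ≤ C * M := mul_le_mul_right (h ε T' hε le_rfl) _

/-! ### The three kinds of small events -/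

/-- `ClassNull`, unconditionally. -/
theorem classNull (hΦ : AdmissiblePotential Φ) {T : ℝ} (hT : 0 < T) : VLMeas973.ClassNull Φ T :=
  VLMeas973.classNull_of_vl hΦ hT (VL581.vl hΦ)

/-- Gaussian bound in the form used for the runs. -/
theorem exists_gauss {b : ℝ} (H : HasSummableGaussianBound b (fun x v => f₀ (x, v))) {β : ℝ}
    (hβ : 2 * β ≤ b) : ∃ C₀ : ℝ, 0 ≤ C₀ ∧
      ∀ z : PhasePoint, f₀ z ≤ C₀ * Real.exp (-(2 * β * ‖z.2‖ ^ 2)) := by
  obtain ⟨C₀, hC₀, hb⟩ := exists_gaussian_bound H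
  refine ⟨C₀, hC₀, fun z => (le_abs_self _).trans ((hb z.1 z.2).trans ?_)⟩
  refine mul_le_mul_of_nonneg_left (Real.exp_le_exp.2 ?_) hC₀
  have := mul_le_mul_of_nonneg_right hβ (sq_nonneg ‖z.2‖)
  linarith

/-- Envelope with a smaller Gaussian rate. -/
theorem env_anti {γ γ' : ℝ} {ρ : Space3 → ℝ≥0∞} {C : ℝ≥0∞} (he : Env f₀ γ ρ C) (h : γ' ≤ γ) :
    Env f₀ γ' ρ C := ⟨he.meas, he.le_one, he.int, he.fin, fun z =>
  (he.le z).trans (mul_le_mul_right (mul_le_mul_right (LN2.wG_anti h z.2) _) _)⟩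

theorem measurable_osB (P : CTree) : Measurable (osB P) := by
  refine measurable_pi_iff.2 fun x => ?_
  rcases x with x | x
  · exact measurable_const
  · exact measurable_snd.fst.fst

theorem measurable_osZ (hΦ : AdmissiblePotential Φ) (ε : ℝ) (P : CTree) :
    Measurable (osZ Φ ε P) := by
  refine measurable_pi_iff.2 fun x => ?_
  rcases x with x | x
  · exact (measurable_pi_apply x).comp ((measurable_linesM hΦ ε P).comp measurable_fst)
  · exact LN2.measurable_back.comp measurable_snd.fst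

section gate

variable {b g0 : ℝ}

/-- **Runs from the groups of members of a one-contact structure.** -/
theorem gLe_osRun (hΦ : AdmissiblePotential Φ) (hb : 0 < b) (hf : Measurable f₀)
    (H : HasSummableGaussianBound b (fun x v => f₀ (x, v)))
    (h1 : ∫⁻ z, ENNReal.ofReal (f₀ z) ≤ 1) (hg0 : 0 < g0) (hγ : Measurable Q.γ)
    (hg : ∀ τ ∈ Ioc (0 : ℝ) Q.te, g0 ≤ Q.γ τ) (hρ : Q.ρ ≠ ∞) (K K₂ : ℕ) (P : CTree) (T' : ℝ)
    {t T : ℝ} (hT : 0 ≤ T) (ht : t ≤ T) {δ : ℝ≥0∞} (hδ : 0 < δ) :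
    ∃ L₀ : ℕ, ∀ L, L₀ ≤ L → GLe (I := Unit) f₀
      (fun ε _ => osM Φ f₀ ε K Q T' (volume.restrict (Ioc 0 Q.te)) P)
      (fun ε _ _ θ w => RunS Φ ε t K₂ L (osB P θ) (osZ Φ ε P θ) w) δ := by
  set β : ℝ := min (b / 4) (g0 / 2) with hβ
  have hβ0 : 0 < β := lt_min (by positivity) (by positivity)
  have hβ1 : β ≤ b / 4 := min_le_left _ _
  have hβ2 : β ≤ g0 / 2 := min_le_right _ _
  obtain ⟨C₀, hC₀, hb'⟩ := exists_gauss H (β := β) (by linarith)
  obtain ⟨M, hM, hmom⟩ := exists_moment_os hΦ hf H (β := β) (by linarith) (by linarith) hγ hg hρ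
    K P T'
  exact gLe_runS (I := Unit) (m := fun ε _ => osM Φ f₀ ε K Q T' (volume.restrict (Ioc 0 Q.te)) P)
    hΦ hβ0 hT hC₀ K₂ hf hb' h1 (t := fun _ => t) (fun _ => ht) (b := fun _ _ θ => osB P θ)
    (z := fun ε _ θ => osZ Φ ε P θ) (fun _ _ _ => measurable_osB P)
    (fun ε _ _ => measurable_osZ hΦ ε P) hM (fun ε _ hε => hmom ε hε) hδ

/-- **Bad partitions of a one-contact structure and the gas** (one group). -/
theorem badF_os (hΦ : AdmissiblePotential Φ) (hb : 0 < b) (hf : Measurable f₀)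
    (H : HasSummableGaussianBound b (fun x v => f₀ (x, v)))
    (h1 : ∫⁻ z, ENNReal.ofReal (f₀ z) ≤ 1) (hg0 : 0 < g0) (hγ : Measurable Q.γ)
    (hg : ∀ τ ∈ Ioc (0 : ℝ) Q.te, g0 ≤ Q.γ τ) (hρ : Q.ρ ≠ ∞) (K : ℕ) (P : CTree) (T' : ℝ)
    {T : ℝ} (hT : 0 < T) (C : ℝ) (N : ℕ) :
    BadF (I := Unit) f₀ (fun ε _ => osM Φ f₀ ε K Q T' (volume.restrict (Ioc 0 Q.te)) P)
      (fun R ς ε _ _ θ w => BadGas Φ T C R ς ε N 1 (Finset.univ.disjSum ∅) (osB P θ)
        (osZ Φ ε P θ) w) := by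
  set γ : ℝ := min b g0 with hγd
  have hγ0 : 0 < γ := lt_min hb hg0
  obtain ⟨ρ, C₀, he⟩ := exists_env (le_refl b) H
  have he' : Env f₀ γ ρ C₀ := env_anti he (min_le_left _ _)
  have hs : 1 ≤ Fintype.card (Idx P ⊕ Unit) := Fintype.card_pos_iff.2 ⟨Sum.inr ()⟩
  exact badF_badGas (m := fun ε _ => osM Φ f₀ ε K Q T' (volume.restrict (Ioc 0 Q.te)) P)
    (classNull hΦ hT) hf h1 he' hγ0 C N hs (Finset.univ.disjSum ∅)
    (c := C₀ ^ Fintype.card (Idx P) * ∑' n : ℕ, markW Q.ρ K n)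
    (ENNReal.mul_ne_top (ENNReal.pow_ne_top he.fin) (sum_markW_ne_top hρ K)) (osΛ Q.te P)
    (b := fun _ _ θ => osB P θ) (z := fun ε _ θ => osZ Φ ε P θ) (fun _ _ => inferInstance)
    fun ε _ hε => dom_os hΦ hf he' hε hγ (fun τ hτ => (min_le_right _ _).trans (hg τ hτ)) K T' P

/-- **Bad hits of a one-contact structure and the gas.** -/
theorem gNull_osHit (hΦ : AdmissiblePotential Φ) (hb : 0 < b) (hf : Measurable f₀)
    (H : HasSummableGaussianBound b (fun x v => f₀ (x, v)))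
    (h1 : ∫⁻ z, ENNReal.ofReal (f₀ z) ≤ 1) (hg0 : 0 < g0) (hγ : Measurable Q.γ)
    (hg : ∀ τ ∈ Ioc (0 : ℝ) Q.te, g0 ≤ Q.γ τ) (hρ : Q.ρ ≠ ∞) (K : ℕ) (P : CTree) (T' : ℝ)
    {T T₁ : ℝ} (hT : 0 ≤ T) (te : ℝ) (hT₁ : 0 ≤ T₁) (C R : ℝ) (N N' : ℕ) :
    GNull (I := Unit) f₀ (fun ε _ => osM Φ f₀ ε K Q T' (volume.restrict (Ioc 0 Q.te)) P)
      (fun ε _ _ θ w => BH167.BadHitGas (BH167.bpos Φ T₁ te) Φ T C R ε N N' 1
        (Finset.univ.disjSum ∅) (osB P θ) (osZ Φ ε P θ) w) := by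
  set γ : ℝ := min b g0 with hγd
  have hγ0 : 0 < γ := lt_min hb hg0
  obtain ⟨ρ, C₀, he⟩ := exists_env (le_refl b) H
  have he' : Env f₀ γ ρ C₀ := env_anti he (min_le_left _ _)
  have hs : 1 ≤ Fintype.card (Idx P ⊕ Unit) := Fintype.card_pos_iff.2 ⟨Sum.inr ()⟩
  exact BH167.gNull_badPos (m := fun ε _ => osM Φ f₀ ε K Q T' (volume.restrict (Ioc 0 Q.te)) P)
    hΦ hT te hT₁ hf h1 he' hγ0 C R N N' hs (Finset.univ.disjSum ∅)
    (c := C₀ ^ Fintype.card (Idx P) * ∑' n : ℕ, markW Q.ρ K n)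
    (ENNReal.mul_ne_top (ENNReal.pow_ne_top he.fin) (sum_markW_ne_top hρ K)) (osΛ Q.te P)
    (b := fun _ _ θ => osB P θ) (z := fun ε _ θ => osZ Φ ε P θ) (fun _ _ => inferInstance)
    fun ε _ hε => dom_os hΦ hf he' hε hγ (fun τ hτ => (min_le_right _ _).trans (hg τ hτ)) K T' P

/-- **The gateway for the one-contact structures.** For every `L` the event implies a run of length
`L` from a group of members, a bad partition with at most `N` gas particles, a bad hit, or an event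
null for every fixed `L`. -/
theorem gNull_os (hΦ : AdmissiblePotential Φ) (hb : 0 < b) (hf : Measurable f₀)
    (H : HasSummableGaussianBound b (fun x v => f₀ (x, v)))
    (h1 : ∫⁻ z, ENNReal.ofReal (f₀ z) ≤ 1) (hg0 : 0 < g0) (hγ : Measurable Q.γ)
    (hg : ∀ τ ∈ Ioc (0 : ℝ) Q.te, g0 ≤ Q.γ τ) (hρ : Q.ρ ≠ ∞) (K K₂ : ℕ) (P : CTree) (T' : ℝ)
    {t T : ℝ} (hT : 0 < T) (ht : t ≤ T)
    {E : ℝ → (n : ℕ) → (PhasePoint × Par P) × ML → Config n → Prop}
    {Ht : ℕ → ℝ → (n : ℕ) → (PhasePoint × Par P) × ML → Config n → Prop}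
    (hdet : ∀ L : ℕ, ∃ (N : ℕ) (C : ℝ), ∀ R > 0, ∀ ς > 0, ∃ ε₁ : ℝ, 0 < ε₁ ∧ ∀ ε : ℝ, 0 < ε →
      ε < ε₁ → ∀ n θ (w : Config n), w ∈ PairExcluded ε n → E ε n θ w →
        RunS Φ ε t K₂ L (osB P θ) (osZ Φ ε P θ) w ∨
        BadGas Φ T C R ς ε N 1 (Finset.univ.disjSum ∅) (osB P θ) (osZ Φ ε P θ) w ∨ Ht L ε n θ w)
    (hhit : ∀ L, GNull (I := Unit) f₀
      (fun ε _ => osM Φ f₀ ε K Q T' (volume.restrict (Ioc 0 Q.te)) P)
      (fun ε _ n θ w => Ht L ε n θ w)) :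
    GNull (I := Unit) f₀ (fun ε _ => osM Φ f₀ ε K Q T' (volume.restrict (Ioc 0 Q.te)) P)
      (fun ε _ n θ w => E ε n θ w) := by
  refine gNull_of_fam (I := Unit)
    (m := fun ε _ => osM Φ f₀ ε K Q T' (volume.restrict (Ioc 0 Q.te)) P)
    (E := fun ε _ n θ w => E ε n θ w)
    (Rn := fun L ε _ _ θ w => RunS Φ ε t K₂ L (osB P θ) (osZ Φ ε P θ) w)
    (Ht := fun L ε _ n θ w => Ht L ε n θ w) hf (fun L => ?_) (fun δ hδ =>
      gLe_osRun hΦ hb hf H h1 hg0 hγ hg hρ K K₂ P T' hT.le ht hδ) hhit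
  obtain ⟨N, C, h⟩ := hdet L
  refine ⟨_, badF_os hΦ hb hf H h1 hg0 hγ hg hρ K P T' hT C N, fun R hR ς hς => ?_⟩
  obtain ⟨ε₁, h0, h⟩ := h R hR ς hς
  exact ⟨ε₁, h0, fun ε hε hlt _ n θ w hw hE => h ε hε hlt n θ w hw hE⟩

end gate

end Crest.Agent.R122.Gate973

end
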