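import Crest.Agent.R122.LinkGate_424
import Crest.Agent.R122.LN2Inst_473

/-!
# Row 122, H11 (helper973): functional form of the gateway calculus

On top of helper424's `GLe`, `GNull`:

* `FLe f₀ m F c` : for small `ε` the functional `F ε i n θ w` has a jointly measurable majorant of
  mass `≤ c`; `FNull`.
* `FLe.ofE`, `FNull.ofE` : from `GLe`, `GNull` (indicator).
* `FNull.exists_maj` : ONE measurable majorant for all `ε > 0`, mass `→ 0`.
* `FLe.section`, `FNull.section` : integration over a second parameter (`m.prod ν`).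
* `FLe.withDensity` : weights.
* `FLe.congr_measure`, `FLe.mono_measure`.
-/

set_option autoImplicit false
set_option linter.unusedSectionVars false

open MeasureTheory Set Filter Topology
open scoped Classical ENNReal
open Crest.AnalysisR.Kinetic
open Crest.Agent.R122.GC311 Crest.Agent.R122.EDefs602 Crest.Agent.R122.Gate424

noncomputable section

namespace Crest.Agent.R122.Gate973

variable {f₀ : PhasePoint → ℝ} {I Θ : Type} [MeasurableSpace Θ] {m : ℝ → I → Measure Θ}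

/-- For small `ε` the functional has a jointly measurable majorant of mass at most `c`. -/
def FLe (f₀ : PhasePoint → ℝ) (m : ℝ → I → Measure Θ)
    (F : ℝ → I → (n : ℕ) → Θ → Config n → ℝ≥0∞) (c : ℝ≥0∞) : Prop :=
  ∃ ε₀ : ℝ, 0 < ε₀ ∧ ∀ ε : ℝ, 0 < ε → ε < ε₀ → ∀ i : I,
    ∃ G : (n : ℕ) → Θ × Config n → ℝ≥0∞, (∀ n, Measurable (G n)) ∧
      (∀ n θ (w : Config n), w ∈ PairExcluded ε n → F ε i n θ w ≤ G n (θ, w)) ∧
      ∫⁻ θ, gcE f₀ ε (fun n w => G n (θ, w)) ∂(m ε i) ≤ c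

/-- The functional is null. -/
def FNull (f₀ : PhasePoint → ℝ) (m : ℝ → I → Measure Θ)
    (F : ℝ → I → (n : ℕ) → Θ → Config n → ℝ≥0∞) : Prop :=
  ∀ δ : ℝ≥0∞, 0 < δ → FLe f₀ m F δ

variable {F F' : ℝ → I → (n : ℕ) → Θ → Config n → ℝ≥0∞} {c c' : ℝ≥0∞}

theorem FLe.mono (h : FLe f₀ m F c) (hc : c ≤ c')
    (hF : ∃ ε₁ : ℝ, 0 < ε₁ ∧ ∀ ε : ℝ, 0 < ε → ε < ε₁ → ∀ i n θ (w : Config n),
      w ∈ PairExcluded ε n → F' ε i n θ w ≤ F ε i n θ w) : FLe f₀ m F' c' := by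
  obtain ⟨ε₀, h0, h⟩ := h
  obtain ⟨ε₁, h1, h2⟩ := hF
  refine ⟨min ε₀ ε₁, lt_min h0 h1, fun ε hε hlt i => ?_⟩
  obtain ⟨G, hGm, hG, hGi⟩ := h ε hε (hlt.trans_le (min_le_left _ _)) i
  exact ⟨G, hGm, fun n θ w hw =>
    (h2 ε hε (hlt.trans_le (min_le_right _ _)) i n θ w hw).trans (hG n θ w hw), hGi.trans hc⟩

theorem FNull.mono (h : FNull f₀ m F)
    (hF : ∃ ε₁ : ℝ, 0 < ε₁ ∧ ∀ ε : ℝ, 0 < ε → ε < ε₁ → ∀ i n θ (w : Config n),
      w ∈ PairExcluded ε n → F' ε i n θ w ≤ F ε i n θ w) : FNull f₀ m F' :=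
  fun δ hδ => (h δ hδ).mono le_rfl hF

/-- Events are functionals. -/
theorem FLe.ofE {E : ℝ → I → (n : ℕ) → Θ → Config n → Prop} (h : GLe f₀ m E c) :
    FLe f₀ m (fun ε i n θ w => if E ε i n θ w then 1 else 0) c := by
  obtain ⟨ε₀, h0, h⟩ := h
  refine ⟨ε₀, h0, fun ε hε hlt i => ?_⟩
  obtain ⟨G, hGm, hG, hGi⟩ := h ε hε hlt i
  refine ⟨G, hGm, fun n θ w hw => ?_, hGi⟩
  show (if E ε i n θ w then (1 : ℝ≥0∞) else 0) ≤ G n (θ, w)
  by_cases hE : E ε i n θ w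
  · rw [if_pos hE]
    exact hG n θ w hw hE
  · rw [if_neg hE]
    exact bot_le

theorem FNull.ofE {E : ℝ → I → (n : ℕ) → Θ → Config n → Prop} (h : GNull f₀ m E) :
    FNull f₀ m (fun ε i n θ w => if E ε i n θ w then 1 else 0) :=
  fun δ hδ => FLe.ofE (h δ hδ)

theorem GLe.ofF {E : ℝ → I → (n : ℕ) → Θ → Config n → Prop}
    (h : FLe f₀ m (fun ε i n θ w => if E ε i n θ w then 1 else 0) c) : GLe f₀ m E c := by
  obtain ⟨ε₀, h0, h⟩ := h
  refine ⟨ε₀, h0, fun ε hε hlt i => ?_⟩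
  obtain ⟨G, hGm, hG, hGi⟩ := h ε hε hlt i
  refine ⟨G, hGm, fun n θ w hw hE => ?_, hGi⟩
  have h1 : (if E ε i n θ w then (1 : ℝ≥0∞) else 0) ≤ G n (θ, w) := hG n θ w hw
  rwa [if_pos hE] at h1

/-- **One measurable majorant for all `ε`.** -/
theorem FNull.exists_maj (h : FNull f₀ m F) :
    ∃ G : ℝ → I → (n : ℕ) → Θ × Config n → ℝ≥0∞, (∀ ε i n, Measurable (G ε i n)) ∧
      (∀ ε i n θ (w : Config n), 0 < ε → w ∈ PairExcluded ε n → F ε i n θ w ≤ G ε i n (θ, w)) ∧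
      ∀ δ : ℝ≥0∞, 0 < δ → ∃ ε₀ : ℝ, 0 < ε₀ ∧ ∀ ε : ℝ, 0 < ε → ε < ε₀ → ∀ i,
        ∫⁻ θ, gcE f₀ ε (fun n w => G ε i n (θ, w)) ∂(m ε i) ≤ δ := by
  -- the set of masses of majorants
  set S : ℝ → I → Set ℝ≥0∞ := fun ε i => {x | ∃ G : (n : ℕ) → Θ × Config n → ℝ≥0∞,
    (∀ n, Measurable (G n)) ∧ (∀ n θ (w : Config n), w ∈ PairExcluded ε n →
      F ε i n θ w ≤ G n (θ, w)) ∧ ∫⁻ θ, gcE f₀ ε (fun n w => G n (θ, w)) ∂(m ε i) = x} with hS
  have hex : ∀ ε i, ∃ G : (n : ℕ) → Θ × Config n → ℝ≥0∞, (∀ n, Measurable (G n)) ∧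
      (0 < ε → ∀ n θ (w : Config n), w ∈ PairExcluded ε n → F ε i n θ w ≤ G n (θ, w)) ∧
      (0 < ε → sInf (S ε i) < ∞ →
        ∫⁻ θ, gcE f₀ ε (fun n w => G n (θ, w)) ∂(m ε i) ≤ sInf (S ε i) + ENNReal.ofReal ε) := by
    intro ε i
    by_cases hlt : 0 < ε ∧ sInf (S ε i) < ∞
    · have h1 : sInf (S ε i) < sInf (S ε i) + ENNReal.ofReal ε :=
        ENNReal.lt_add_right hlt.2.ne (by simpa using hlt.1)
      obtain ⟨x, ⟨G, hGm, hG, hx⟩, hx2⟩ := sInf_lt_iff.1 h1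
      exact ⟨G, hGm, fun _ => hG, fun _ _ => by rw [hx]; exact hx2.le⟩
    · refine ⟨fun _ _ => ∞, fun _ => measurable_const, fun _ _ _ _ _ => le_top, fun h1 h2 => ?_⟩
      exact absurd ⟨h1, h2⟩ hlt
  choose G hGm hG hGi using hex
  refine ⟨G, hGm, fun ε i n θ w hε hw => hG ε i hε n θ w hw, fun δ hδ => ?_⟩
  -- half of `δ` (or of one)
  set δ' : ℝ≥0∞ := min δ 1 / 2 with hδ'
  have hδ1 : 0 < min δ 1 := lt_min hδ one_pos
  have hδt : min δ 1 ≠ ∞ := ne_top_of_le_ne_top ENNReal.one_ne_top (min_le_right _ _)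
  have hδ'0 : 0 < δ' := ENNReal.half_pos hδ1.ne'
  have hδ't : δ' ≠ ∞ := ENNReal.div_ne_top hδt (by norm_num)
  obtain ⟨ε₀, h0, hle⟩ := h δ' hδ'0
  refine ⟨min ε₀ δ'.toReal, lt_min h0 (ENNReal.toReal_pos hδ'0.ne' hδ't), fun ε hε hlt i => ?_⟩
  obtain ⟨G', hG'm, hG', hG'i⟩ := hle ε hε (hlt.trans_le (min_le_left _ _)) i
  have hmem : ∫⁻ θ, gcE f₀ ε (fun n w => G' n (θ, w)) ∂(m ε i) ∈ S ε i := ⟨G', hG'm, hG', rfl⟩
  have hinf : sInf (S ε i) ≤ δ' := (sInf_le hmem).trans hG'i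
  have h2 : ENNReal.ofReal ε ≤ δ' := by
    rw [ENNReal.ofReal_le_iff_le_toReal hδ't]
    exact (hlt.trans_le (min_le_right _ _)).le
  calc ∫⁻ θ, gcE f₀ ε (fun n w => G ε i n (θ, w)) ∂(m ε i)
      ≤ sInf (S ε i) + ENNReal.ofReal ε := hGi ε i hε (hinf.trans_lt (lt_top_iff_ne_top.2 hδ't))
    _ ≤ δ' + δ' := add_le_add hinf h2
    _ = min δ 1 := ENNReal.add_halves _
    _ ≤ δ := min_le_left _ _

/-- **One measurable majorant of an event for all `ε`.** -/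
theorem exists_maj {E : ℝ → I → (n : ℕ) → Θ → Config n → Prop} (h : GNull f₀ m E) :
    ∃ G : ℝ → I → (n : ℕ) → Θ × Config n → ℝ≥0∞, (∀ ε i n, Measurable (G ε i n)) ∧
      (∀ ε i n θ (w : Config n), 0 < ε → w ∈ PairExcluded ε n → E ε i n θ w →
        1 ≤ G ε i n (θ, w)) ∧
      ∀ δ : ℝ≥0∞, 0 < δ → ∃ ε₀ : ℝ, 0 < ε₀ ∧ ∀ ε : ℝ, 0 < ε → ε < ε₀ → ∀ i,
        ∫⁻ θ, gcE f₀ ε (fun n w => G ε i n (θ, w)) ∂(m ε i) ≤ δ := by
  obtain ⟨G, h1, h2, h3⟩ := (FNull.ofE h).exists_maj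
  refine ⟨G, h1, fun ε i n θ w hε hw hE => ?_, h3⟩
  have h4 : (if E ε i n θ w then (1 : ℝ≥0∞) else 0) ≤ G ε i n (θ, w) := h2 ε i n θ w hε hw
  rwa [if_pos hE] at h4

/-! ### Products -/

section prod

variable {X : Type} [MeasurableSpace X] {ν : ℝ → I → Measure X}

/-- **Integration over the second parameter.** -/
theorem FLe.section {F : ℝ → I → (n : ℕ) → Θ × X → Config n → ℝ≥0∞} (hf : Measurable f₀)
    (hm : ∀ ε i, SFinite (m ε i)) (hν : ∀ ε i, SFinite (ν ε i))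
    (h : FLe f₀ (fun ε i => (m ε i).prod (ν ε i)) F c) :
    FLe f₀ m (fun ε i n θ w => ∫⁻ x, F ε i n (θ, x) w ∂(ν ε i)) c := by
  obtain ⟨ε₀, h0, h⟩ := h
  refine ⟨ε₀, h0, fun ε hε hlt i => ?_⟩
  obtain ⟨G, hGm, hG, hGi⟩ := h ε hε hlt i
  have := hm ε i
  have := hν ε i
  have hGm' : ∀ n, Measurable fun q : (Θ × Config n) × X => G n ((q.1.1, q.2), q.1.2) := fun n =>
    (hGm n).comp ((measurable_fst.fst.prodMk measurable_snd).prodMk measurable_fst.snd)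
  refine ⟨fun n p => ∫⁻ x, G n ((p.1, x), p.2) ∂(ν ε i), fun n => (hGm' n).lintegral_prod_right',
    fun n θ w hw => lintegral_mono fun x => hG n (θ, x) w hw, ?_⟩
  refine le_trans (le_of_eq ?_) hGi
  have hgm : Measurable fun p : Θ × X => gcE f₀ ε (fun n w => G n (p, w)) :=
    MeasE416.measurable_gcE_of hf ε (F := fun n p w => G n (p, w)) fun n => hGm n
  rw [lintegral_prod _ hgm.aemeasurable]
  refine lintegral_congr fun θ => ?_
  exact (LN2.lintegral_gcE_swap hf ε (ν ε i) (F := fun n x w => G n ((θ, x), w))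
    fun n => (hGm n).comp ((measurable_const.prodMk measurable_fst).prodMk measurable_snd)).symm

theorem FNull.section {F : ℝ → I → (n : ℕ) → Θ × X → Config n → ℝ≥0∞} (hf : Measurable f₀)
    (hm : ∀ ε i, SFinite (m ε i)) (hν : ∀ ε i, SFinite (ν ε i))
    (h : FNull f₀ (fun ε i => (m ε i).prod (ν ε i)) F) :
    FNull f₀ m (fun ε i n θ w => ∫⁻ x, F ε i n (θ, x) w ∂(ν ε i)) :=
  fun δ hδ => FLe.section hf hm hν (h δ hδ)

/-- **The measure of the bad second parameters is null.** -/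
theorem FNull.section_measure {E : ℝ → I → (n : ℕ) → Θ × X → Config n → Prop}
    (hf : Measurable f₀) (hm : ∀ ε i, SFinite (m ε i)) (hν : ∀ ε i, SFinite (ν ε i))
    (h : GNull f₀ (fun ε i => (m ε i).prod (ν ε i)) E)
    (hE : ∀ ε i n θ (w : Config n), MeasurableSet {x | E ε i n (θ, x) w}) :
    FNull f₀ m (fun ε i n θ w => (ν ε i) {x | E ε i n (θ, x) w}) := by
  refine (FNull.section hf hm hν (FNull.ofE h)).mono ⟨1, one_pos, fun ε _ _ i n θ w _ => ?_⟩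
  show (ν ε i) {x | E ε i n (θ, x) w} ≤ ∫⁻ x, (if E ε i n (θ, x) w then 1 else 0) ∂(ν ε i)
  rw [← lintegral_indicator_one (hE ε i n θ w)]
  refine lintegral_mono fun x => ?_
  by_cases hx : E ε i n (θ, x) w
  · rw [indicator_of_mem (show x ∈ {x | E ε i n (θ, x) w} from hx), if_pos hx]
    rfl
  · rw [indicator_of_notMem (show x ∉ {x | E ε i n (θ, x) w} from hx)]
    exact bot_le

end prod

/-! ### Weights and comparison of measures -/

/-- A density of the structure measure is a factor of the functional. -/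
theorem FLe.withDensity {W : ℝ → I → Θ → ℝ≥0∞} (hf : Measurable f₀)
    (hW : ∀ ε i, 0 < ε → Measurable (W ε i))
    (h : FLe f₀ (fun ε i => (m ε i).withDensity (W ε i)) F c) :
    FLe f₀ m (fun ε i n θ w => W ε i θ * F ε i n θ w) c := by
  obtain ⟨ε₀, h0, h⟩ := h
  refine ⟨ε₀, h0, fun ε hε hlt i => ?_⟩
  obtain ⟨G, hGm, hG, hGi⟩ := h ε hε hlt i
  have hWm := hW ε i hε
  refine ⟨fun n p => W ε i p.1 * G n p, fun n => (hWm.comp measurable_fst).mul (hGm n),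
    fun n θ w hw => mul_le_mul_right (hG n θ w hw) _, ?_⟩
  have hgm : Measurable fun θ : Θ => gcE f₀ ε (fun n w => G n (θ, w)) :=
    MeasE416.measurable_gcE_of hf ε (F := fun n p w => G n (p, w)) fun n => hGm n
  refine le_trans (le_of_eq ?_) hGi
  rw [lintegral_withDensity_eq_lintegral_mul _ hWm hgm]
  refine lintegral_congr fun θ => ?_
  simp only [Pi.mul_apply]
  have : (fun n (w : Config n) => W ε i (θ, w).1 * G n (θ, w)) =
      fun n (w : Config n) => W ε i θ * G n (θ, w) := rfl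
  rw [this]
  unfold gcE
  simp only [mul_left_comm _ (W ε i θ)]
  have h1 : ∀ n, ∫⁻ Z : Config n, W ε i θ * (gcWeight f₀ ε n Z * G n (θ, Z)) =
      W ε i θ * ∫⁻ Z : Config n, gcWeight f₀ ε n Z * G n (θ, Z) := fun n =>
    lintegral_const_mul _ ((measurable_gcWeight hf ε n).mul
      ((hGm n).comp measurable_prodMk_left))
  simp only [h1, mul_left_comm _ (W ε i θ)]
  rw [ENNReal.tsum_mul_left, mul_left_comm]

theorem FNull.withDensity {W : ℝ → I → Θ → ℝ≥0∞} (hf : Measurable f₀)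
    (hW : ∀ ε i, 0 < ε → Measurable (W ε i))
    (h : FNull f₀ (fun ε i => (m ε i).withDensity (W ε i)) F) :
    FNull f₀ m (fun ε i n θ w => W ε i θ * F ε i n θ w) :=
  fun δ hδ => FLe.withDensity hf hW (h δ hδ)

end Crest.Agent.R122.Gate973

end
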