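import Crest.Agent.R122.OSMeas_984
import Crest.Agent.R122.GateF_973
import Crest.Agent.R122.GIVChild_383

/-!
# Null slots of the contact structures from gateway null facts (row 122, H2 gates OS / OSx)

* `FLe.add`, `FNull.add`, `FNull.const_mul`, `FNull.finset_sum` : calculus on top of `GateF_973`.
* `fNull_section_measure` : measure of the bad second parameters, no measurability of the event.
* `fNull_cap` : `min 1 (ν {x | E x})` from `E x → S ∨ E' x`, `S` null on `m`, `E'` null on `m.prod ν`.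
* `os_bd_eq` : `OS κ H = ∑_P ∫ gcE H d(osM P)`.
* `null_of_fam` : families over `osM P`, `P.leaves ≤ K` ⟹ one functional `bd` with `MeasSF`, pointwise
  majorant, `Null (OS .. bd)`.
* `null_of_gNull` : the same for events.
* `stmtLink_of` : the literal `StmtLink`.
-/

set_option autoImplicit false
set_option linter.unusedSectionVars false

open MeasureTheory Set Filter Topology
open scoped ENNReal Classical
open Crest.AnalysisR.Kinetic
open Crest.Agent.R122.Kin796 Crest.Agent.R122.Kin796.CTree Crest.Agent.R122.Tree674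
open Crest.Agent.R122.GC311 Crest.Agent.R122.EDefs602 Crest.Agent.R122.OneC285
open Crest.Agent.R122.Gate424 Crest.Agent.R122.Gate973 Crest.Agent.R122.OSMeas984

noncomputable section

namespace Crest.Agent.R122.GateOS434

section calculus

variable {f₀ : PhasePoint → ℝ} {I Θ : Type} [MeasurableSpace Θ] {m : ℝ → I → Measure Θ}
  {F F' : ℝ → I → (n : ℕ) → Θ → Config n → ℝ≥0∞} {c c' : ℝ≥0∞}

theorem FLe.add (hf : Measurable f₀) (h : FLe f₀ m F c) (h' : FLe f₀ m F' c') :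
    FLe f₀ m (fun ε i n θ w => F ε i n θ w + F' ε i n θ w) (c + c') := by
  obtain ⟨ε₀, h0, h⟩ := h
  obtain ⟨ε₁, h1, h'⟩ := h'
  refine ⟨min ε₀ ε₁, lt_min h0 h1, fun ε hε hlt i => ?_⟩
  obtain ⟨G, hGm, hG, hGi⟩ := h ε hε (hlt.trans_le (min_le_left _ _)) i
  obtain ⟨G', hGm', hG', hGi'⟩ := h' ε hε (hlt.trans_le (min_le_right _ _)) i
  refine ⟨fun n p => G n p + G' n p, fun n => (hGm n).add (hGm' n),
    fun n θ w hw => add_le_add (hG n θ w hw) (hG' n θ w hw), ?_⟩
  have e1 : ∀ θ, gcE f₀ ε (fun n w => G n (θ, w) + G' n (θ, w)) =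
      gcE f₀ ε (fun n w => G n (θ, w)) + gcE f₀ ε (fun n w => G' n (θ, w)) := fun θ =>
    gcE_add hf ε (F := fun n w => G n (θ, w)) fun n => (hGm n).comp measurable_prodMk_left
  simp_rw [e1]
  rw [lintegral_add_left]
  · exact add_le_add hGi hGi'
  · exact MeasE416.measurable_gcE_of hf ε (F := fun n θ w => G n (θ, w)) fun n => hGm n

theorem FLe.zero (f₀ : PhasePoint → ℝ) (m : ℝ → I → Measure Θ) :
    FLe f₀ m (fun _ _ _ _ _ => 0) 0 := by
  refine ⟨1, one_pos, fun ε _ _ i => ⟨fun _ _ => 0, fun _ => measurable_const,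
    fun _ _ _ _ => le_rfl, ?_⟩⟩
  simp [gcE_zero]

theorem FNull.zero (f₀ : PhasePoint → ℝ) (m : ℝ → I → Measure Θ) :
    FNull f₀ m (fun _ _ _ _ _ => 0) := fun _ _ =>
  (FLe.zero f₀ m).mono bot_le ⟨1, one_pos, fun _ _ _ _ _ _ _ _ => le_rfl⟩

theorem FNull.add (hf : Measurable f₀) (h : FNull f₀ m F) (h' : FNull f₀ m F') :
    FNull f₀ m (fun ε i n θ w => F ε i n θ w + F' ε i n θ w) := by
  intro δ hδ
  rcases eq_or_ne δ ∞ with rfl | hδt
  · exact (FLe.add hf (h 1 one_pos) (h' 1 one_pos)).mono le_top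
      ⟨1, one_pos, fun _ _ _ _ _ _ _ _ => le_rfl⟩
  · have h2 : 0 < δ / 2 := ENNReal.half_pos hδ.ne'
    have h3 := FLe.add hf (h _ h2) (h' _ h2)
    rwa [ENNReal.add_halves] at h3

theorem FNull.finset_sum (hf : Measurable f₀) {α : Type*} (S : Finset α)
    {G : α → ℝ → I → (n : ℕ) → Θ → Config n → ℝ≥0∞} (h : ∀ a ∈ S, FNull f₀ m (G a)) :
    FNull f₀ m (fun ε i n θ w => ∑ a ∈ S, G a ε i n θ w) := by
  induction S using Finset.induction_on with
  | empty =>
    simp only [Finset.sum_empty]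
    exact FNull.zero f₀ m
  | insert a S ha ih =>
    simp only [Finset.sum_insert ha]
    exact FNull.add hf (h a (Finset.mem_insert_self a S))
      (ih fun b hb => h b (Finset.mem_insert_of_mem hb))

theorem FLe.const_mul {k : ℝ≥0∞} (hk : k ≠ ∞) (h : FLe f₀ m F c) :
    FLe f₀ m (fun ε i n θ w => k * F ε i n θ w) (k * c) := by
  obtain ⟨ε₀, h0, h⟩ := h
  refine ⟨ε₀, h0, fun ε hε hlt i => ?_⟩
  obtain ⟨G, hGm, hG, hGi⟩ := h ε hε hlt i
  refine ⟨fun n p => k * G n p, fun n => (hGm n).const_mul k,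
    fun n θ w hw => mul_le_mul_right (hG n θ w hw) _, ?_⟩
  have e1 : ∀ θ, gcE f₀ ε (fun n w => k * G n (θ, w)) =
      k * gcE f₀ ε (fun n w => G n (θ, w)) := fun θ => gcE_const_mul f₀ ε hk _
  simp_rw [e1]
  rw [lintegral_const_mul' _ _ hk]
  exact mul_le_mul_right hGi _

theorem FNull.const_mul {k : ℝ≥0∞} (hk : k ≠ ∞) (h : FNull f₀ m F) :
    FNull f₀ m (fun ε i n θ w => k * F ε i n θ w) := by
  rcases eq_or_ne k 0 with rfl | hk0
  · simp only [zero_mul]
    exact FNull.zero f₀ m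
  intro δ hδ
  have h1 : 0 < δ / k := ENNReal.div_pos hδ.ne' hk
  refine (FLe.const_mul hk (h _ h1)).mono (le_of_eq ?_)
    ⟨1, one_pos, fun _ _ _ _ _ _ _ _ => le_rfl⟩
  exact ENNReal.mul_div_cancel hk0 hk

/-! ### Sections -/

variable {X : Type} [MeasurableSpace X] {ν : ℝ → I → Measure X}

/-- The measure of the bad second parameters (no measurability of the event is needed). -/
theorem fLe_section_measure {E : ℝ → I → (n : ℕ) → Θ × X → Config n → Prop}
    (hf : Measurable f₀) (hm : ∀ ε i, SFinite (m ε i)) (hν : ∀ ε i, SFinite (ν ε i))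
    (h : GLe f₀ (fun ε i => (m ε i).prod (ν ε i)) E c) :
    FLe f₀ m (fun ε i n θ w => (ν ε i) {x | E ε i n (θ, x) w}) c := by
  obtain ⟨ε₀, h0, h⟩ := h
  refine ⟨ε₀, h0, fun ε hε hlt i => ?_⟩
  obtain ⟨G, hGm, hG, hGi⟩ := h ε hε hlt i
  have := hm ε i
  have := hν ε i
  have hGm' : ∀ n, Measurable fun q : (Θ × Config n) × X => G n ((q.1.1, q.2), q.1.2) := fun n =>
    (hGm n).comp ((measurable_fst.fst.prodMk measurable_snd).prodMk measurable_fst.snd)
  refine ⟨fun n p => ∫⁻ x, G n ((p.1, x), p.2) ∂(ν ε i), fun n => (hGm' n).lintegral_prod_right',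
    fun n θ w hw => ?_, ?_⟩
  · have h1 : {x | E ε i n (θ, x) w} ⊆ {x | (1 : ℝ≥0∞) ≤ G n ((θ, x), w)} :=
      fun x hx => hG n (θ, x) w hw hx
    have h2 : Measurable fun x => G n ((θ, x), w) :=
      (hGm n).comp ((measurable_const.prodMk measurable_id).prodMk measurable_const)
    refine (measure_mono h1).trans ?_
    have h3 := mul_meas_ge_le_lintegral (μ := ν ε i) h2 1
    rwa [one_mul] at h3
  · refine le_trans (le_of_eq ?_) hGi
    have hgm : Measurable fun p : Θ × X => gcE f₀ ε (fun n w => G n (p, w)) :=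
      MeasE416.measurable_gcE_of hf ε (F := fun n p w => G n (p, w)) fun n => hGm n
    rw [lintegral_prod _ hgm.aemeasurable]
    refine lintegral_congr fun θ => ?_
    exact (LN2.lintegral_gcE_swap hf ε (ν ε i) (F := fun n x w => G n ((θ, x), w))
      fun n => (hGm n).comp ((measurable_const.prodMk measurable_fst).prodMk measurable_snd)).symm

theorem fNull_section_measure {E : ℝ → I → (n : ℕ) → Θ × X → Config n → Prop}
    (hf : Measurable f₀) (hm : ∀ ε i, SFinite (m ε i)) (hν : ∀ ε i, SFinite (ν ε i))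
    (h : GNull f₀ (fun ε i => (m ε i).prod (ν ε i)) E) :
    FNull f₀ m (fun ε i n θ w => (ν ε i) {x | E ε i n (θ, x) w}) :=
  fun δ hδ => fLe_section_measure hf hm hν (h δ hδ)

/-- **The capped measure of the bad second parameters.** -/
theorem fNull_cap {S : ℝ → I → (n : ℕ) → Θ → Config n → Prop}
    {E E' : ℝ → I → (n : ℕ) → Θ × X → Config n → Prop}
    (hf : Measurable f₀) (hm : ∀ ε i, SFinite (m ε i)) (hν : ∀ ε i, SFinite (ν ε i))
    (hS : GNull f₀ m S) (hE' : GNull f₀ (fun ε i => (m ε i).prod (ν ε i)) E')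
    (hE : ∃ ε₁ : ℝ, 0 < ε₁ ∧ ∀ ε : ℝ, 0 < ε → ε < ε₁ → ∀ i n θ x (w : Config n),
      w ∈ PairExcluded ε n → E ε i n (θ, x) w → S ε i n θ w ∨ E' ε i n (θ, x) w) :
    FNull f₀ m (fun ε i n θ w => min 1 ((ν ε i) {x | E ε i n (θ, x) w})) := by
  obtain ⟨ε₁, h1, hE⟩ := hE
  refine (FNull.add hf (FNull.ofE hS) (fNull_section_measure hf hm hν hE')).mono
    ⟨ε₁, h1, fun ε hε hlt i n θ w hw => ?_⟩
  show min 1 ((ν ε i) {x | E ε i n (θ, x) w}) ≤
    (if S ε i n θ w then 1 else 0) + (ν ε i) {x | E' ε i n (θ, x) w}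
  by_cases hs : S ε i n θ w
  · rw [if_pos hs]
    exact (min_le_left _ _).trans le_self_add
  · rw [if_neg hs, zero_add]
    refine (min_le_right _ _).trans (measure_mono fun x hx => ?_)
    exact (hE ε hε hlt i n θ x w hw hx).resolve_left hs

/-- Capped event with a side condition on the structure. -/
theorem fNull_cap_on {A : ℝ → I → (n : ℕ) → Θ → Config n → Prop}
    {S : ℝ → I → (n : ℕ) → Θ → Config n → Prop}
    {E E' : ℝ → I → (n : ℕ) → Θ × X → Config n → Prop}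
    (hf : Measurable f₀) (hm : ∀ ε i, SFinite (m ε i)) (hν : ∀ ε i, SFinite (ν ε i))
    (hS : GNull f₀ m S) (hE' : GNull f₀ (fun ε i => (m ε i).prod (ν ε i)) E')
    (hE : ∃ ε₁ : ℝ, 0 < ε₁ ∧ ∀ ε : ℝ, 0 < ε → ε < ε₁ → ∀ i n θ x (w : Config n),
      w ∈ PairExcluded ε n → A ε i n θ w → E ε i n (θ, x) w → S ε i n θ w ∨ E' ε i n (θ, x) w) :
    FNull f₀ m (fun ε i n θ w => if A ε i n θ w then
      min 1 ((ν ε i) {x | E ε i n (θ, x) w}) else 0) := by
  have h1 := fNull_cap (E := fun ε i n p w => A ε i n p.1 w ∧ E ε i n p w) hf hm hν hS hE' (by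
    obtain ⟨ε₁, h1, hE⟩ := hE
    exact ⟨ε₁, h1, fun ε hε hlt i n θ x w hw h => hE ε hε hlt i n θ x w hw h.1 h.2⟩)
  refine h1.mono ⟨1, one_pos, fun ε _ _ i n θ w _ => ?_⟩
  show (if A ε i n θ w then min 1 ((ν ε i) {x | E ε i n (θ, x) w}) else 0) ≤
    min 1 ((ν ε i) {x | A ε i n θ w ∧ E ε i n (θ, x) w})
  by_cases hA : A ε i n θ w
  · rw [if_pos hA]
    refine min_le_min le_rfl (measure_mono fun x hx => ⟨hA, hx⟩)
  · rw [if_neg hA]
    exact bot_le

end calculus

/-! ### The null slot of contact structures -/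

section os

variable {Φ : Space3 → ℝ} {f₀ : PhasePoint → ℝ} {Q : EPar} {T' : ℝ} {κ : Measure ℝ}

theorem OS_eq' (hΦ : AdmissiblePotential Φ) (hf : Measurable f₀) (hγ : Measurable Q.γ) (ε : ℝ)
    (K : ℕ) [SFinite κ] {H : SF} (hH : MeasSF H) :
    OS Φ f₀ ε K Q T' κ H = ∑' P : CTree, ∫⁻ θ, gcE f₀ ε (fun m w => H P θ.1 m w θ.2)
      ∂(osM Φ f₀ ε K Q T' κ P) := by
  rw [OS_eq hΦ hf hγ hH]
  refine tsum_congr fun P => ?_
  refine (LN2.lintegral_gcE_swap hf ε (osM Φ f₀ ε K Q T' κ P)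
    (F := fun m θ w => H P θ.1 m w θ.2) fun m => ?_).symm
  exact (hH P m).comp (measurable_fst.fst.prodMk (measurable_snd.prodMk measurable_fst.snd))

/-- **One functional with null structure integral** from families over the measures `osM`. -/
theorem null_of_fam (hΦ : AdmissiblePotential Φ) (hf : Measurable f₀) (hγ : Measurable Q.γ)
    [SFinite κ] {F : ℕ → ℝ → SF}
    (h : ∀ K (P : CTree), P.leaves ≤ K →
      FNull f₀ (fun ε (_ : Unit) => osM Φ f₀ ε K Q T' κ P)
        (fun ε _ m θ w => F K ε P θ.1 m w θ.2)) :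
    ∃ bd : ℕ → ℝ → SF, (∀ K ε, MeasSF (bd K ε)) ∧
      (∀ (K : ℕ) (ε : ℝ), 0 < ε → ∀ P : CTree, P.leaves ≤ K → ∀ z (m : ℕ) (w : Config m) (l : ML),
        w ∈ PairExcluded ε m → F K ε P z m w l ≤ bd K ε P z m w l) ∧
      (∀ (K : ℕ) (ε : ℝ) (P : CTree), ¬ P.leaves ≤ K → ∀ z (m : ℕ) (w : Config m) (l : ML),
        bd K ε P z m w l = 0) ∧
      Null fun K ε => OS Φ f₀ ε K Q T' κ (bd K ε) := by
  choose G hGm hG hGi using fun (K : ℕ) (P : CTree) (hP : P.leaves ≤ K) =>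
    (h K P hP).exists_maj
  set bd : ℕ → ℝ → SF := fun K ε P z m w l =>
    if hP : P.leaves ≤ K then G K P hP ε () m ((z, l), w) else 0 with hbd
  have hb1 : ∀ (K : ℕ) (ε : ℝ) (P : CTree) (hP : P.leaves ≤ K) z (m : ℕ) (w : Config m) (l : ML),
      bd K ε P z m w l = G K P hP ε () m ((z, l), w) := by
    intro K ε P hP z m w l
    simp only [hbd, dif_pos hP]
  have hb0 : ∀ (K : ℕ) (ε : ℝ) (P : CTree), ¬ P.leaves ≤ K → ∀ z (m : ℕ) (w : Config m) (l : ML),
      bd K ε P z m w l = 0 := by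
    intro K ε P hP z m w l
    simp only [hbd, dif_neg hP]
  have hbm : ∀ K ε, MeasSF (bd K ε) := by
    intro K ε P m
    by_cases hP : P.leaves ≤ K
    · simp only [hb1 K ε P hP]
      have h1 : Measurable fun q : (PhasePoint × Par P) × (Config m × ML) =>
          (((q.1, q.2.2), q.2.1) : ((PhasePoint × Par P) × ML) × Config m) :=
        (measurable_fst.prodMk measurable_snd.snd).prodMk measurable_snd.fst
      exact (hGm K P hP ε () m).comp h1
    · simp only [hb0 K ε P hP]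
      exact measurable_const
  refine ⟨bd, hbm, ?_, hb0, ?_⟩
  · intro K ε hε P hP z m w l hw
    rw [hb1 K ε P hP]
    exact hG K P hP ε () m (z, l) w hε hw
  · intro K δ hδ
    set S := GIVStep383.trees K with hS
    set δ' : ℝ≥0∞ := ENNReal.ofReal δ / (S.card + 1) with hδ'
    have hc : (S.card + 1 : ℝ≥0∞) ≠ ∞ :=
      ENNReal.add_ne_top.2 ⟨ENNReal.natCast_ne_top _, ENNReal.one_ne_top⟩
    have hδ'0 : 0 < δ' := ENNReal.div_pos (ENNReal.ofReal_pos.2 hδ).ne' hc
    -- common radius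
    have hrad : ∀ A : Finset CTree, ∃ ε₀ : ℝ, 0 < ε₀ ∧ ∀ P ∈ A, ∀ hP : P.leaves ≤ K,
        ∀ ε : ℝ, 0 < ε → ε < ε₀ → ∫⁻ θ, gcE f₀ ε (fun n w => G K P hP ε () n (θ, w))
          ∂(osM Φ f₀ ε K Q T' κ P) ≤ δ' := by
      intro A
      induction A using Finset.induction_on with
      | empty => exact ⟨1, one_pos, fun P hP => absurd hP (Finset.notMem_empty P)⟩
      | insert a A _ ih =>
        obtain ⟨ε₀, h0, ih⟩ := ih
        by_cases ha : a.leaves ≤ K
        · obtain ⟨ε₁, h1, h2⟩ := hGi K a ha δ' hδ'0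
          refine ⟨min ε₀ ε₁, lt_min h0 h1, fun P hP hPK ε hε hlt => ?_⟩
          rcases Finset.mem_insert.1 hP with rfl | hP
          · exact h2 ε hε (hlt.trans_le (min_le_right _ _)) ()
          · exact ih P hP hPK ε hε (hlt.trans_le (min_le_left _ _))
        · refine ⟨ε₀, h0, fun P hP hPK ε hε hlt => ?_⟩
          rcases Finset.mem_insert.1 hP with rfl | hP
          · exact absurd hPK ha
          · exact ih P hP hPK ε hε hlt
    obtain ⟨ε₀, h0, hr⟩ := hrad S
    refine ⟨ε₀, h0, fun ε hε hlt => ?_⟩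
    show OS Φ f₀ ε K Q T' κ (bd K ε) ≤ ENNReal.ofReal δ
    rw [OS_eq' hΦ hf hγ ε K (hbm K ε)]
    rw [tsum_eq_sum (s := S) fun P hP => ?_]
    · have h2 : ∀ P ∈ S, ∫⁻ θ, gcE f₀ ε (fun m w => bd K ε P θ.1 m w θ.2)
          ∂(osM Φ f₀ ε K Q T' κ P) ≤ δ' := by
        intro P hP
        have hPK : P.leaves ≤ K := GIVStep383.mem_trees.1 hP
        simp only [hb1 K ε P hPK]
        exact hr P hP hPK ε hε hlt
      refine (Finset.sum_le_sum h2).trans ?_
      rw [Finset.sum_const, nsmul_eq_mul]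
      calc (S.card : ℝ≥0∞) * δ' ≤ (S.card + 1) * δ' := by
            gcongr
            exact le_self_add
        _ = ENNReal.ofReal δ := by
            rw [hδ', ENNReal.mul_div_cancel (by simp) hc]
    · have hPK : ¬ P.leaves ≤ K := fun h' => hP (GIVStep383.mem_trees.2 h')
      simp only [hb0 K ε P hPK, gcE_zero, lintegral_zero]

/-- The same for events. -/
theorem null_of_gNull (hΦ : AdmissiblePotential Φ) (hf : Measurable f₀) (hγ : Measurable Q.γ)
    [SFinite κ]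
    {E : ℕ → ℝ → (P : CTree) → PhasePoint × Par P → (m : ℕ) → Config m → ML → Prop}
    (h : ∀ K (P : CTree), P.leaves ≤ K →
      GNull f₀ (fun ε (_ : Unit) => osM Φ f₀ ε K Q T' κ P)
        (fun ε _ m θ w => E K ε P θ.1 m w θ.2)) :
    ∃ bd : ℕ → ℝ → SF, (∀ K ε, MeasSF (bd K ε)) ∧
      (∀ (K : ℕ) (ε : ℝ), 0 < ε → ∀ P : CTree, P.leaves ≤ K → ∀ z (m : ℕ) (w : Config m) (l : ML),
        w ∈ PairExcluded ε m → E K ε P z m w l → 1 ≤ bd K ε P z m w l) ∧
      (∀ (K : ℕ) (ε : ℝ) (P : CTree), ¬ P.leaves ≤ K → ∀ z (m : ℕ) (w : Config m) (l : ML),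
        bd K ε P z m w l = 0) ∧
      Null fun K ε => OS Φ f₀ ε K Q T' κ (bd K ε) := by
  obtain ⟨bd, h1, h2, h3, h4⟩ := null_of_fam (T' := T') (κ := κ) hΦ hf hγ
    (F := fun K ε P z m w l => if E K ε P z m w l then 1 else 0)
    fun K P hP => FNull.ofE (h K P hP)
  refine ⟨bd, h1, fun K ε hε P hP z m w l hw hE => ?_, h3, h4⟩
  have h5 := h2 K ε hε P hP z m w l hw
  simp only [if_pos hE] at h5
  exact h5

end os

end Crest.Agent.R122.GateOS434

end
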