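import Crest.Agent.R122.ShpOk_581
import Crest.Agent.R122.MomForest_998
import Crest.Agent.R122.LN2Inst2_473

/-!
# Row 122, inequality 3, null facts of the pair laws (helper581): moments of `osP`

* `ct_volume` : volume of the translates of a line which touch the root of a tree.
* `touch_mass` : mass of the structures of an admissible shape whose line `e` touches the root.
* `osP_moment` : `∫ expW β' (lines of the tree) * expW β' (lines of the structure) d(osP) ≤ M`.
-/

set_option autoImplicit false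
set_option linter.unusedSectionVars false

open MeasureTheory Set Filter Topology
open scoped Classical ENNReal
open Crest.AnalysisR.Kinetic

noncomputable section

namespace Crest.Agent.R122.PairRep581

open Crest.Agent.R122.GC311 Crest.Agent.R122.Kin796 Crest.Agent.R122.Kin796.CTree
open Crest.Agent.R122.Tree674 Crest.Agent.R122.EDefs602
open Crest.Agent.R122.Gate424 Crest.Agent.R122.Gate973 Crest.Agent.R122.LN2
open Crest.Agent.R122.Boost969 (LSt)
open Crest.Agent.R122.Pair292 (Lab shP shL shM)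
open Crest.Agent.R122.PairD292

variable {Φ : Space3 → ℝ} {f₀ : PhasePoint → ℝ} {γ β : ℝ} {ρ : Space3 → ℝ≥0∞} {S : Shp}
  {te T' : ℝ} {K : ℕ}

/-- Constant of the flux of a touch. -/
def ctC (te : ℝ) : ℝ≥0∞ := ENNReal.ofReal te * ENNReal.ofReal Real.pi

theorem ctC_ne_top (te : ℝ) : ctC te ≠ ∞ :=
  ENNReal.mul_ne_top ENNReal.ofReal_ne_top ENNReal.ofReal_ne_top

/-- Volume of the translates of a line which touch the root of a tree. -/
theorem ct_volume (hΦ : AdmissiblePotential Φ) {ε : ℝ} (hε : 0 < ε) {P : CTree}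
    (z : PhasePoint × Par P) {e : LSt} (he : 0 ≤ e.1) :
    ∫⁻ a : Space3, {a : Space3 | (z, shL a e) ∈ OneC423.ctSet Φ ε te P}.indicator 1 a ≤
      ENNReal.ofReal (ε ^ 2) * (ENNReal.ofReal ‖e.2.2 - z.1.2‖ * ctC te) := by
  have h1 := OneC423.lintegral_ct_y (te := te) hΦ hε z e.1 e.2.2 0
    (H := fun _ => 1) measurable_const
  have h2 : ∫⁻ a : Space3, {a : Space3 | (z, shL a e) ∈ OneC423.ctSet Φ ε te P}.indicator 1 a =
      ∫⁻ y : Space3, {l : ML | (z, l.1) ∈ OneC423.ctSet Φ ε te P}.indicator (fun _ => 1)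
        (((e.1, (y, e.2.2)), 0) : ML) := by
    rw [← lintegral_add_left_eq_self (fun y : Space3 =>
      {l : ML | (z, l.1) ∈ OneC423.ctSet Φ ε te P}.indicator (fun _ => (1 : ℝ≥0∞))
        (((e.1, (y, e.2.2)), 0) : ML)) e.2.1]
    rfl
  rw [h2, h1]
  by_cases hg : e.2.2 - z.1.2 = 0
  · rw [hg, norm_zero, ENNReal.ofReal_zero, zero_mul, zero_mul]
  refine mul_le_mul_right (mul_le_mul_right ?_ _) _
  have h3 : ∀ s : ℝ, ∫⁻ _b in impactDisc (e.2.2 - z.1.2), (1 : ℝ≥0∞) ∂μHE[2] ≤
      ENNReal.ofReal Real.pi := by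
    intro _
    rw [lintegral_const, one_mul, Measure.restrict_apply_univ]
    exact (Boltz814.hausdorff_impactDisc hg).le
  calc ∫⁻ s in {s | e.1 < s ∧ s ≤ te ∧ Valid Φ ε P s z.1.2 z.2},
        ∫⁻ _b in impactDisc (e.2.2 - z.1.2), (1 : ℝ≥0∞) ∂μHE[2]
      ≤ ∫⁻ _s in {s | e.1 < s ∧ s ≤ te ∧ Valid Φ ε P s z.1.2 z.2}, ENNReal.ofReal Real.pi :=
        lintegral_mono fun s => h3 s
    _ = ENNReal.ofReal Real.pi *
        volume {s | e.1 < s ∧ s ≤ te ∧ Valid Φ ε P s z.1.2 z.2} := by
        rw [lintegral_const, Measure.restrict_apply_univ]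
    _ ≤ ENNReal.ofReal Real.pi * volume (Ioc (0 : ℝ) te) := by
        refine mul_le_mul_right (measure_mono fun s hs => ?_) _
        exact ⟨he.trans_lt hs.1, hs.2.1⟩
    _ = ctC te := by
        rw [Real.volume_Ioc, sub_zero, mul_comm]
        rfl

/-- Product bound of the relative velocity. -/
theorem rel_le (u v : Space3) : ENNReal.ofReal ‖v - u‖ ≤
    ENNReal.ofReal (1 + ‖v‖) * ENNReal.ofReal (1 + ‖u‖) := by
  rw [← ENNReal.ofReal_mul (by positivity)]
  refine ENNReal.ofReal_le_ofReal ?_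
  have h1 := norm_sub_le v u
  nlinarith [norm_nonneg v, norm_nonneg u]

/-- **Mass of the structures whose line `e` touches the root of a tree.** -/
theorem touch_mass (h : ShpOk γ β ρ S) (hΦ : AdmissiblePotential Φ) {β' : ℝ} (hβ : β' < β) :
    ∃ M : ℝ≥0∞, M ≠ ∞ ∧ ∀ ε : ℝ, 0 < ε → ∀ (P : CTree) (z : PhasePoint × Par P),
      ∫⁻ x, {x : S.Θ | (z, (S.th ε x).2) ∈ OneC423.ctSet Φ ε te P}.indicator
        (fun x => expW β' (S.z ε x)) x ∂(S.m ε) ≤
        M * (ENNReal.ofReal (ε ^ 2) * ENNReal.ofReal (1 + ‖z.1.2‖)) := by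
  obtain ⟨j₀, M, hM, hp⟩ := h.pin
  set C1 : ℝ≥0∞ := ENNReal.ofReal (2 * Real.exp (1 / (β - β'))) with hC1
  refine ⟨M * (C1 * ctC te), ENNReal.mul_ne_top hM (ENNReal.mul_ne_top ENNReal.ofReal_ne_top
    (ctC_ne_top te)), fun ε hε P z => ?_⟩
  have hsf := h.sf ε
  have hI := (h.tInv_e hε).invFam j₀
  have hmz := h.mz hε
  have hme := measurable_eLx h hε
  have hexp : Measurable fun x => expW β' (S.z ε x) := (measurable_expW β').comp hmz
  have hset : MeasurableSet {x : S.Θ | (z, (S.th ε x).2) ∈ OneC423.ctSet Φ ε te P} := by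
    have h1 : Measurable fun x : S.Θ => (z, (S.th ε x).2) := measurable_const.prodMk hme
    exact h1 (OneC423.measurableSet_ctSet hΦ ε te P)
  rw [hI.disint measurable_chi lintegral_chi (hexp.indicator hset)]
  set B : ℝ≥0∞ := C1 * ctC te * (ENNReal.ofReal (ε ^ 2) * ENNReal.ofReal (1 + ‖z.1.2‖)) with hB
  have hmB : Measurable fun x => chi (S.z ε x j₀).1 * expW β (S.z ε x) :=
    (measurable_chi.comp ((measurable_pi_apply j₀).comp hmz).fst).mul
      ((measurable_expW β).comp hmz)
  have hB0 : ∫⁻ x, chi (S.z ε x j₀).1 * expW β (S.z ε x) * B ∂(S.m ε) ≤ M * B := by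
    rw [lintegral_mul_const _ hmB]
    exact mul_le_mul_left (hp ε hε) _
  refine le_trans ?_ (hB0.trans (le_of_eq ?_))
  · refine lintegral_mono_ae ?_
    filter_upwards [h.birth ε hε, h.vel ε hε] with x hb hv
    rw [mul_assoc]
    refine mul_le_mul_right ?_ _
    have h1 : ∀ a : Space3, {x : S.Θ | (z, (S.th ε x).2) ∈ OneC423.ctSet Φ ε te P}.indicator
        (fun x => expW β' (S.z ε x)) (S.Tr a x) =
        {a : Space3 | (z, shL a (S.th ε x).2) ∈ OneC423.ctSet Φ ε te P}.indicator 1 a *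
          expW β' (S.z ε x) := by
      intro a
      have e1 : (S.th ε (S.Tr a x)).2 = shL a (S.th ε x).2 := by rw [h.th_tr ε hε]; rfl
      have e2 : expW β' (S.z ε (S.Tr a x)) = expW β' (S.z ε x) := by
        rw [h.z_tr ε hε, expW_shX]
      by_cases hc : (z, shL a (S.th ε x).2) ∈ OneC423.ctSet Φ ε te P
      · rw [indicator_of_mem (show S.Tr a x ∈
          {x : S.Θ | (z, (S.th ε x).2) ∈ OneC423.ctSet Φ ε te P} by
            rw [mem_setOf_eq, e1]; exact hc),
          indicator_of_mem (show a ∈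
            {a : Space3 | (z, shL a (S.th ε x).2) ∈ OneC423.ctSet Φ ε te P} from hc), e2,
          Pi.one_apply, one_mul]
      · rw [indicator_of_notMem (show S.Tr a x ∉
          {x : S.Θ | (z, (S.th ε x).2) ∈ OneC423.ctSet Φ ε te P} by
            rw [mem_setOf_eq, e1]; exact hc),
          indicator_of_notMem (show a ∉
            {a : Space3 | (z, shL a (S.th ε x).2) ∈ OneC423.ctSet Φ ε te P} from hc), zero_mul]
    simp only [h1]
    have hma : Measurable fun a : Space3 =>
        {a : Space3 | (z, shL a (S.th ε x).2) ∈ OneC423.ctSet Φ ε te P}.indicator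
          (1 : Space3 → ℝ≥0∞) a := by
      refine measurable_one.indicator ?_
      have h2 : Measurable fun a : Space3 => (z, shL a (S.th ε x).2) := by
        unfold shL
        fun_prop
      exact h2 (OneC423.measurableSet_ctSet hΦ ε te P)
    rw [lintegral_mul_const _ hma]
    have h3 : ENNReal.ofReal (1 + ‖((S.th ε x).2).2.2‖) ≤ C1 * expW (β - β') (S.z ε x) :=
      one_add_le_expW (sub_pos.2 hβ) hv.2
    calc (∫⁻ a : Space3, {a : Space3 | (z, shL a (S.th ε x).2) ∈
            OneC423.ctSet Φ ε te P}.indicator 1 a) * expW β' (S.z ε x)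
        ≤ (ENNReal.ofReal (ε ^ 2) * (ENNReal.ofReal ‖((S.th ε x).2).2.2 - z.1.2‖ * ctC te)) *
          expW β' (S.z ε x) := mul_le_mul_left (ct_volume hΦ hε z hb.2) _
      _ ≤ (ENNReal.ofReal (ε ^ 2) * (((C1 * expW (β - β') (S.z ε x)) *
          ENNReal.ofReal (1 + ‖z.1.2‖)) * ctC te)) * expW β' (S.z ε x) := by
          gcongr
          exact (rel_le _ _).trans (mul_le_mul_left h3 _)
      _ = (expW (β - β') (S.z ε x) * expW β' (S.z ε x)) * B := by
          rw [hB]
          ring
      _ = expW β (S.z ε x) * B := by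
          rw [← expW_add]
          congr 2
          ring
  · rw [hB]
    ring

theorem lintegral_treeA (hΦ : AdmissiblePotential Φ) (hf : Measurable f₀) (ε : ℝ) (P : CTree)
    {G : PhasePoint × Par P → ℝ≥0∞} (hG : Measurable G) :
    ∫⁻ z, G z ∂(treeA Φ f₀ ε T' P) =
      activity ε * ∫⁻ z, Ret424.pf Φ f₀ ε P T' z * G z := by
  unfold treeA
  rw [lintegral_withDensity_eq_lintegral_mul _ (measurable_treeD hΦ hf ε T' P) hG,
    ← lintegral_const_mul' _ _ (activity_ne_top ε)]
  refine lintegral_congr fun z => ?_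
  rw [Pi.mul_apply]
  unfold treeD
  by_cases hz : Valid Φ ε P T' z.1.2 z.2
  · rw [indicator_of_mem
      (show z ∈ {z : PhasePoint × Par P | Valid Φ ε P T' z.1.2 z.2} from hz),
      Ret424.pf_of_valid hz, mul_assoc]
    rfl
  · rw [indicator_of_notMem
      (show z ∉ {z : PhasePoint × Par P | Valid Φ ε P T' z.1.2 z.2} from hz),
      Ret424.pf_of_not_valid hz, zero_mul, mul_zero]

/-- **Moment of the law of the contact tree and the structure.** -/
theorem osP_moment (h : ShpOk γ β ρ S) (hΦ : AdmissiblePotential Φ) (hf : Measurable f₀)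
    {b : ℝ} (H : HasSummableGaussianBound b (fun x v => f₀ (x, v))) {a β' : ℝ} (hβ : β' < β)
    (ha : a < b) (P : CTree) :
    ∃ M : ℝ≥0∞, M ≠ ∞ ∧ ∀ ε : ℝ, 0 < ε → ∀ i,
      ∫⁻ q, expW a (linesM Φ ε P q.1.1 q.1.2) * expW β' (S.z ε q.2)
        ∂(osP Φ f₀ te T' K P S ε i) ≤ M := by
  obtain ⟨M, hM, hm⟩ := touch_mass (te := te) h hΦ hβ
  obtain ⟨M', hM', hm'⟩ := DomForest998.exists_mass_exp hΦ hf H
    (show (a + b) / 2 < b by linarith) P T'
  set C1 : ℝ≥0∞ := ENNReal.ofReal (2 * Real.exp (1 / ((b - a) / 2))) with hC1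
  refine ⟨M * C1 * M', ENNReal.mul_ne_top (ENNReal.mul_ne_top hM ENNReal.ofReal_ne_top) hM',
    fun ε hε i => ?_⟩
  have hsf := h.sf ε
  have hmz := h.mz hε
  have hml := measurable_linesM hΦ ε P
  have hexp : Measurable fun x => expW β' (S.z ε x) := (measurable_expW β').comp hmz
  have hexl : Measurable fun z : PhasePoint × Par P => expW a (linesM Φ ε P z.1 z.2) :=
    (measurable_expW a).comp hml
  have hG : Measurable fun q : (PhasePoint × Par P) × S.Θ =>
      expW a (linesM Φ ε P q.1.1 q.1.2) * expW β' (S.z ε q.2) :=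
    (hexl.comp measurable_fst).mul (hexp.comp measurable_snd)
  have hct : MeasurableSet {q : (PhasePoint × Par P) × S.Θ |
      (q.1, (S.th ε q.2).2) ∈ OneC423.ctSet Φ ε te P} := by
    have h1 : Measurable fun q : (PhasePoint × Par P) × S.Θ => (q.1, (S.th ε q.2).2) :=
      measurable_fst.prodMk ((measurable_eLx h hε).comp measurable_snd)
    exact h1 (OneC423.measurableSet_ctSet hΦ ε te P)
  calc ∫⁻ q, expW a (linesM Φ ε P q.1.1 q.1.2) * expW β' (S.z ε q.2)
        ∂(osP Φ f₀ te T' K P S ε i)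
      ≤ ∫⁻ q, {q : (PhasePoint × Par P) × S.Θ |
          (q.1, (S.th ε q.2).2) ∈ OneC423.ctSet Φ ε te P}.indicator (fun q =>
          expW a (linesM Φ ε P q.1.1 q.1.2) * expW β' (S.z ε q.2)) q
          ∂((treeA Φ f₀ ε T' P).prod (S.m ε)) := by
        rw [lintegral_indicator hct]
        refine lintegral_mono' (Measure.restrict_mono (fun q hq => ?_) le_rfl) le_rfl
        exact hq.1
    _ = ∫⁻ z, expW a (linesM Φ ε P z.1 z.2) *
          ∫⁻ x, {x : S.Θ | (z, (S.th ε x).2) ∈ OneC423.ctSet Φ ε te P}.indicator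
            (fun x => expW β' (S.z ε x)) x ∂(S.m ε) ∂(treeA Φ f₀ ε T' P) := by
        rw [lintegral_prod _ (hG.indicator hct).aemeasurable]
        refine lintegral_congr fun z => ?_
        have hset : MeasurableSet {x : S.Θ | (z, (S.th ε x).2) ∈ OneC423.ctSet Φ ε te P} :=
          measurable_prodMk_left hct
        rw [← lintegral_const_mul _ (hexp.indicator hset)]
        refine lintegral_congr fun x => ?_
        by_cases hc : (z, (S.th ε x).2) ∈ OneC423.ctSet Φ ε te P
        · rw [indicator_of_mem (show (z, x) ∈ {q : (PhasePoint × Par P) × S.Θ |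
            (q.1, (S.th ε q.2).2) ∈ OneC423.ctSet Φ ε te P} from hc),
            indicator_of_mem (show x ∈
              {x : S.Θ | (z, (S.th ε x).2) ∈ OneC423.ctSet Φ ε te P} from hc)]
        · rw [indicator_of_notMem (show (z, x) ∉ {q : (PhasePoint × Par P) × S.Θ |
            (q.1, (S.th ε q.2).2) ∈ OneC423.ctSet Φ ε te P} from hc),
            indicator_of_notMem (show x ∉
              {x : S.Θ | (z, (S.th ε x).2) ∈ OneC423.ctSet Φ ε te P} from hc), mul_zero]
    _ ≤ ∫⁻ z, expW a (linesM Φ ε P z.1 z.2) *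
          (M * (ENNReal.ofReal (ε ^ 2) * ENNReal.ofReal (1 + ‖z.1.2‖)))
          ∂(treeA Φ f₀ ε T' P) := lintegral_mono fun z => mul_le_mul_right (hm ε hε P z) _
    _ = activity ε * ∫⁻ z, Ret424.pf Φ f₀ ε P T' z * (expW a (linesM Φ ε P z.1 z.2) *
          (M * (ENNReal.ofReal (ε ^ 2) * ENNReal.ofReal (1 + ‖z.1.2‖)))) := by
        refine lintegral_treeA hΦ hf ε P (hexl.mul ?_)
        refine Measurable.const_mul (Measurable.const_mul ?_ _) _
        exact (measurable_const.add measurable_fst.snd.norm).ennreal_ofReal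
    _ ≤ activity ε * ∫⁻ z, (M * ENNReal.ofReal (ε ^ 2) * C1) * (Ret424.pf Φ f₀ ε P T' z *
          expW ((a + b) / 2) (Tree674.lines Φ ε P z.1 z.2)) := by
        refine mul_le_mul_right (lintegral_mono fun z => ?_) _
        by_cases hz : Valid Φ ε P T' z.1.2 z.2
        · have h2 : ENNReal.ofReal (1 + ‖z.1.2‖) ≤
              C1 * expW ((b - a) / 2) (Tree674.lines Φ ε P z.1 z.2) := by
            refine one_add_le_expW (by linarith) ?_
            have h3 := DomForest998.fin_sq_le (Φ := Φ) hΦ ε (ℓ := z.1) hz.1 (root P)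
            rwa [PathFlow968.fin_root] at h3
          rw [linesM_of_adm ε hz.1]
          calc Ret424.pf Φ f₀ ε P T' z * (expW a (Tree674.lines Φ ε P z.1 z.2) *
                (M * (ENNReal.ofReal (ε ^ 2) * ENNReal.ofReal (1 + ‖z.1.2‖))))
              ≤ Ret424.pf Φ f₀ ε P T' z * (expW a (Tree674.lines Φ ε P z.1 z.2) *
                (M * (ENNReal.ofReal (ε ^ 2) *
                  (C1 * expW ((b - a) / 2) (Tree674.lines Φ ε P z.1 z.2))))) := by gcongr
            _ = (M * ENNReal.ofReal (ε ^ 2) * C1) * (Ret424.pf Φ f₀ ε P T' z *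
                (expW a (Tree674.lines Φ ε P z.1 z.2) *
                  expW ((b - a) / 2) (Tree674.lines Φ ε P z.1 z.2))) := by ring
            _ = _ := by
                rw [← expW_add]
                congr 4
                ring
        · rw [Ret424.pf_of_not_valid hz, zero_mul]
          exact zero_le
    _ = (activity ε * ENNReal.ofReal (ε ^ 2)) * (M * C1 * ∫⁻ z, Ret424.pf Φ f₀ ε P T' z *
          expW ((a + b) / 2) (Tree674.lines Φ ε P z.1 z.2)) := by
        rw [lintegral_const_mul' _ _ (ENNReal.mul_ne_top (ENNReal.mul_ne_top hM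
          ENNReal.ofReal_ne_top) ENNReal.ofReal_ne_top)]
        ring
    _ ≤ M * C1 * M' := by
        rw [LN2.activity_mul hε, one_mul]
        exact mul_le_mul_right (hm' ε T' hε.le le_rfl) _

/-- Total mass of the law of the contact tree and the structure. -/
theorem osP_mass (h : ShpOk γ β ρ S) (hΦ : AdmissiblePotential Φ) (hf : Measurable f₀)
    {b : ℝ} (hb : 0 < b) (hβ : 0 < β) (H : HasSummableGaussianBound b (fun x v => f₀ (x, v)))
    (P : CTree) :
    ∃ M : ℝ≥0∞, M ≠ ∞ ∧ ∀ ε : ℝ, 0 < ε → ∀ i, osP Φ f₀ te T' K P S ε i univ ≤ M := by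
  obtain ⟨M, hM, hm⟩ := osP_moment (te := te) (T' := T') (K := K) h hΦ hf H hβ hb P
  refine ⟨M, hM, fun ε hε i => le_trans ?_ (hm ε hε i)⟩
  rw [← lintegral_one]
  refine lintegral_mono fun q => ?_
  calc (1 : ℝ≥0∞) = 1 * 1 := (one_mul 1).symm
    _ ≤ _ := mul_le_mul' (one_le_expW le_rfl _) (one_le_expW le_rfl _)

end Crest.Agent.R122.PairRep581

end
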