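import Crest.Agent.R122.XSplit_692
import Crest.Agent.R122.BHPull_726
import Crest.Agent.R122.BHMainN_167
import Crest.Agent.R122.LinkGate2_424

/-!
# Row 122, LN1, independent lines (helper692): the literal shape S | X | J of `hdet`

A structure (births `b`, states `z` at time `0`, labels `S`) and an independent line `x : ML`.

* `SAlt` : alternatives of the structure alone; `XAlt` : alternatives of the line alone (no anchor);
  `JAlt` : the structure, the line and at most `N` gas particles are connected.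
* `badHit_split` : the alternative `BadHit` of a glued world over the gas, the structure and the line
  is one of the three.
-/

set_option autoImplicit false
set_option linter.unusedSectionVars false

open MeasureTheory Set
open scoped Classical ENNReal
open Crest.AnalysisR.Kinetic
open Crest.Agent.R122.VL581 Crest.Agent.R122.VLMeas973 Crest.Agent.R122.LNg410
open Crest.Agent.R122.LN304 Crest.Agent.R122.LNBridge968 Crest.Agent.R122.LNPart424
open Crest.Agent.R122.EDefs602 Crest.Agent.R122.PWGlue491 Crest.Agent.R122.BH167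
open Crest.Agent.R122.Chain726 (badPos_of_badHit exists_embV)

noncomputable section

namespace Crest.Agent.R122.X692

variable {Φ : Space3 → ℝ} {t T te T₁ ε c C R ς : ℝ} {S : Type} [Fintype S] {n : ℕ} {b : S → ℝ}
  {z : S → PhasePoint} {w : Config n} {N K L : ℕ} {τ : ℝ} {y : PhasePoint}

/-! ### The three alternatives -/

/-- **S**: alternatives of the structure alone. `t` : horizon of the event, `T` : horizon of the
class events. -/
def SAlt (Φ : Space3 → ℝ) (T T₁ t C R ς ε : ℝ) (K L N : ℕ) (A₀ : Finset S) (b : S → ℝ)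
    (z : S → PhasePoint) {n : ℕ} (w : Config n) : Prop :=
  Gate424.RunS Φ ε t K L b z w ∨ LN2.BadGas Φ T C R ς ε N 1 A₀ b z w ∨
    BH167.BadHitGas (bpos Φ T₁ T) Φ T C 1 ε N N 1 A₀ b z w

/-- **X**: alternatives of the independent line alone (`κ = Unit`, no anchor). -/
def XAlt (Φ : Space3 → ℝ) (T T₁ t C R ς ε : ℝ) (K L N : ℕ) (x : ML) {n : ℕ} (w : Config n) :
    Prop :=
  LinkM547.Run Φ ε t K L (MW.line x) () w ∨
    LN2.BadGas Φ T C R ς ε N 1 (∅ : Finset Unit) (fun _ => x.1.1) (fun _ => back x.1) w ∨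
    BH167.BadHitGasN (bpos Φ T₁ T) Φ T C 1 ε N N 1 (∅ : Finset Unit) (fun _ => x.1.1)
      (fun _ => back x.1) w

/-- **J**: the structure, the line and at most `N` gas particles are connected. -/
def JAlt (Φ : Space3 → ℝ) (T C R ς ε : ℝ) (N : ℕ) (A₀ : Finset S) (b : S → ℝ)
    (z : S → PhasePoint) (x : ML) {n : ℕ} (w : Config n) : Prop :=
  LN2.BadGas Φ T C R ς ε N 2 (A₀.map Function.Embedding.inl) (bx b x.1.1) (zx z (back x.1)) w

/-! ### Bad hits -/

/-- A connected set which contains the whole structure and is hit. -/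
theorem hit_one {BP : PosPred} (hΦ : AdmissiblePotential Φ) (hε : 0 < ε) (htT : t ≤ T)
    {G : Finset (Fin n ⊕ S)} (hG : (gsys Φ t ε n b).Conn c G (Sum.elim w z))
    (hS : ∀ y, Sum.inr y ∈ G) (hN : G.card ≤ N) {A' : Finset (Fin n ⊕ S)} (hA' : A' ⊆ G)
    {j : Fin n ⊕ S} (hj : j ∈ A') {v : ℝ} (hok : (gsys Φ t ε n b).ok A' v (Sum.elim w z))
    (hv : v ∈ Ioc 0 t) {k : ℕ} {f : Fin k ↪ Fin n} (hf : ∀ x, Sum.inl (f x) ∉ G) {i₀ : Fin k}
    {x : Space3} (hbad : BP ε k (fun l => w (f l)) i₀ v x)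
    (hd : dist ((gsys Φ t ε n b).st A' v (Sum.elim w z) j).1 x ≤ ε) :
    ∃ g ≤ N, ∃ ι : Fin g ↪ Fin n, (∀ x y, ι x ≠ f y) ∧
      (VLMeas973.vsys Φ T ε (LN2.bS g b)).Conn c Finset.univ (Sum.elim (fun i => w (ι i)) z) ∧
      HitEv BP 1 (VLMeas973.vsys Φ T ε (LN2.bS g b)) Finset.univ (Sum.elim (fun i => w (ι i)) z)
        (fun l => w (f l)) := by
  obtain ⟨g, ι, e, hg, he, hQ⟩ := exists_emb G hS
  have hpull := pull_gsys (Φ := Φ) (T := t) (ε := ε) b he
  have hZe := elim_comp w z he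
  have hmap : (Finset.univ : Finset (Fin g ⊕ S)).map e = G := by
    ext x
    rw [Finset.mem_map, ← hQ x]
    exact ⟨fun ⟨y, _, hy⟩ => ⟨y, hy⟩, fun ⟨y, hy⟩ => ⟨y, Finset.mem_univ _, hy⟩⟩
  refine ⟨g, hg.trans hN, ι, fun x y hxy => ?_, ?_, ?_⟩
  · refine hf y ?_
    rw [← hQ]
    exact ⟨Sum.inl x, by rw [he, ← hxy]; rfl⟩
  · have h6 : (gsys Φ t ε n b).Conn c ((Finset.univ : Finset (Fin g ⊕ S)).map e) (Sum.elim w z) := by
      rwa [hmap]
    have h7 := (hpull.conn hΦ hε).1 h6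
    rw [hZe] at h7
    exact LN2.conn_of_hor (M := gsys Φ T ε g b) (t := t) htT h7
  · have hA'P : A' ⊆ (Finset.univ : Finset (Fin g ⊕ S)).map e := by
      rw [hmap]
      exact hA'
    obtain ⟨B, hB, hBe⟩ := Finset.subset_map_iff.1 hA'P
    rw [hBe] at hj hok hd
    obtain ⟨j', hj', rfl⟩ := Finset.mem_map.1 hj
    refine ⟨B, Finset.subset_univ _, j', hj', (), i₀, v, ⟨hv.1.le, hv.2.trans htT⟩, x, ?_, hbad, ?_⟩
    · have h6 := (hpull.ok hΦ hε v).1 hok
      rw [hZe] at h6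
      exact h6
    · rw [hpull.st hΦ hε, hZe] at hd
      rw [one_mul, dist_comm]
      exact hd

/-- The trivial partition, hit part anchored. -/
theorem badHitP_univ {J κ : Type} [Fintype J] {BP : PosPred} {C R : ℝ} {s : ℕ} (hs : 1 ≤ s)
    {A : Finset J} {M : VSys J κ} {Z : J → PhasePoint} {k : ℕ} {V : Config k}
    (hc : M.Conn C Finset.univ Z) (hA : ∃ x, x ∈ A) (h : HitEv BP R M Finset.univ Z V) :
    BadHitP BP C R s A M Z V := by
  have hne : (Finset.univ : Finset J) ≠ ⊥ := by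
    rw [Finset.bot_eq_empty]
    exact hc.1.ne_empty
  refine ⟨Finpartition.indiscrete hne, ?_, ?_, Finset.univ, ?_, h⟩
  · intro P hP
    rw [Finpartition.indiscrete_parts, Finset.mem_singleton] at hP
    subst hP
    obtain ⟨x, hx⟩ := hA
    exact ⟨hc, x, Finset.mem_univ _, hx⟩
  · rw [Finpartition.indiscrete_parts, Finset.card_singleton]
    exact hs
  · rw [Finpartition.indiscrete_parts]
    exact Finset.mem_singleton_self _

/-- The trivial partition, hit part not anchored. -/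
theorem badHitPN_univ {J κ : Type} [Fintype J] {BP : PosPred} {C R : ℝ} {s : ℕ} (hs : 1 ≤ s)
    {A : Finset J} {M : VSys J κ} {Z : J → PhasePoint} {k : ℕ} {V : Config k}
    (hc : M.Conn C Finset.univ Z) (h : HitEv BP R M Finset.univ Z V) :
    BadHitPN BP C R s A M Z V := by
  have hne : (Finset.univ : Finset J) ≠ ⊥ := by
    rw [Finset.bot_eq_empty]
    exact hc.1.ne_empty
  refine ⟨Finpartition.indiscrete hne, Finset.univ, ?_, ?_, ?_, h⟩
  · rw [Finpartition.indiscrete_parts]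
    exact Finset.mem_singleton_self _
  · intro P hP
    rw [Finpartition.indiscrete_parts, Finset.mem_singleton] at hP
    exact ⟨hP ▸ hc, Or.inl hP⟩
  · rw [Finpartition.indiscrete_parts, Finset.card_singleton]
    exact hs

/-- The conclusion of `badPos_of_badHit` on the gas, the structure and the line. -/
theorem hit_split {BP : PosPred} (hΦ : AdmissiblePotential Φ) (hε : 0 < ε) (htT : t ≤ T)
    {A₀ : Finset S} (hA₀ : A₀.Nonempty)
    (hc : (gsys Φ t ε n (bx b τ)).Conn c (piS n S) (Sum.elim w (zx z y)))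
    {G A' V : Finset (Fin n ⊕ (S ⊕ Unit))} {j k : Fin n ⊕ (S ⊕ Unit)} {v : ℝ} {x : Space3}
    (hG : (gsys Φ t ε n (bx b τ)).Conn c G (Sum.elim w (zx z y)))
    (hπ : ∃ π ∈ Lx (piS n S) (px n S), π ⊆ G)
    (hN : (@Union.union (Finset (Fin n ⊕ (S ⊕ Unit)))
      (@Finset.instUnion (Fin n ⊕ (S ⊕ Unit)) fun a b => Classical.propDecidable (a = b)) G
        (uni (Lx (piS n S) (px n S)))).card ≤ N)
    (hA' : A' ⊆ G) (hj : j ∈ A') (hok : (gsys Φ t ε n (bx b τ)).ok A' v (Sum.elim w (zx z y)))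
    (hv : v ∈ Ioc 0 t) (hVN : V.card ≤ K) (hVG : Disjoint V G)
    (hVu : Disjoint V (uni (Lx (piS n S) (px n S))))
    (hd : dist ((gsys Φ t ε n (bx b τ)).st A' v (Sum.elim w (zx z y)) j).1 x ≤ ε) (hkV : k ∈ V)
    (hbad : ∀ (k' : ℕ) (f : Fin k' ↪ Fin n) (i : Fin k'),
      (∀ x, x ∈ V ↔ x ∈ range (f.trans ⟨Sum.inl, Sum.inl_injective⟩)) → Sum.inl (f i) = k →
        BP ε k' (fun l => w (f l)) i v x) :
    BH167.BadHitGas BP Φ T c 1 ε N K 1 A₀ b z w ∨
    BH167.BadHitGasN BP Φ T c 1 ε N K 1 (∅ : Finset Unit) (fun _ => τ) (fun _ => y) w ∨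
    Joint (gsys Φ t ε n (bx b τ)) c (Sum.elim w (zx z y)) (piS n S) (px n S) N := by
  have hinr : ∀ y : S ⊕ Unit, (Sum.inr y : Fin n ⊕ (S ⊕ Unit)) ∈ uni (Lx (piS n S) (px n S)) := by
    rintro (y | y)
    · exact mem_uni_Lx.2 (Or.inl (mem_piS.2 ⟨y, rfl⟩))
    · exact mem_uni_Lx.2 (Or.inr rfl)
  obtain ⟨f, hf⟩ := exists_embV V fun y hy => Finset.disjoint_left.1 hVu hy (hinr y)
  obtain ⟨i₀, hi₀⟩ := (hf k).1 hkV
  have hb := hbad _ f i₀ hf hi₀
  have hfG : ∀ x, Sum.inl (f x) ∉ G := fun x hx =>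
    Finset.disjoint_left.1 hVG ((hf _).2 ⟨x, rfl⟩) hx
  by_cases hp : px n S ∈ G
  · by_cases hm : ∃ i ∈ piS n S, i ∈ G
    · exact Or.inr (Or.inr (joint_of_meet hc hG hp hm hN))
    · -- the line alone
      refine Or.inr (Or.inl ?_)
      have hmap : ∀ P ⊆ G, ∃ P' : Finset (Fin n ⊕ Unit), P'.map (eL n S) = P := fun P hP =>
        exists_map_eq fun j hj => by
          rcases j with i | i | i
          · exact ⟨Sum.inl i, rfl⟩
          · exact absurd ⟨_, mem_piS.2 ⟨i, rfl⟩, hP hj⟩ hm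
          · exact ⟨Sum.inr i, rfl⟩
      obtain ⟨G', rfl⟩ := hmap G subset_rfl
      obtain ⟨A', rfl⟩ := hmap A' hA'
      obtain ⟨j', hj', rfl⟩ := Finset.mem_map.1 hj
      have hpull := pull_eL (Φ := Φ) (T := t) (ε := ε) (n := n) b τ
      have h1 := (hpull.conn hΦ hε).1 hG
      rw [elim_eL] at h1
      have h2 := (hpull.ok hΦ hε v).1 hok
      rw [elim_eL] at h2
      rw [hpull.st hΦ hε, elim_eL] at hd
      have hpG : (Sum.inr () : Fin n ⊕ Unit) ∈ G' := by
        obtain ⟨x', hx', hxx⟩ := Finset.mem_map.1 hp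
        have : x' = Sum.inr () := (eL n S).injective hxx
        rwa [← this]
      obtain ⟨g, hg, ι, h3, h4, h5⟩ := hit_one (T := T) hΦ hε htT h1 (fun _ => hpG)
        ((Finset.card_map _).symm.le.trans (card_le_of_union hN))
        (Finset.map_subset_map.1 hA') hj' h2 hv (f := f)
        (fun x hx => hfG x (Finset.mem_map_of_mem (eL n S) hx)) hb hd
      exact ⟨g, hg, ι, _, hVN, f, h3, badHitPN_univ le_rfl h4 h5⟩
  · -- the structure alone
    refine Or.inl ?_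
    have hπG : piS n S ⊆ G := by
      obtain ⟨π, hπ, hπG⟩ := hπ
      rcases mem_Lx.1 hπ with rfl | rfl
      · exact hπG
      · exact absurd (hπG (Finset.mem_singleton_self _)) hp
    have hmap : ∀ P ⊆ G, ∃ P' : Finset (Fin n ⊕ S), P'.map (eS n S) = P := fun P hP =>
      exists_map_eq fun j hj => by
        rcases j with i | i | i
        · exact ⟨Sum.inl i, rfl⟩
        · exact ⟨Sum.inr i, rfl⟩
        · exact absurd (hP hj) hp
    obtain ⟨G', rfl⟩ := hmap G subset_rfl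
    obtain ⟨A', rfl⟩ := hmap A' hA'
    obtain ⟨j', hj', rfl⟩ := Finset.mem_map.1 hj
    have hpull := pull_eS (Φ := Φ) (T := t) (ε := ε) (n := n) b τ
    have h1 := (hpull.conn hΦ hε).1 hG
    rw [elim_eS] at h1
    have h2 := (hpull.ok hΦ hε v).1 hok
    rw [elim_eS] at h2
    rw [hpull.st hΦ hε, elim_eS] at hd
    obtain ⟨g, hg, ι, h3, h4, h5⟩ := hit_one (T := T) hΦ hε htT h1 (fun x => by
        obtain ⟨x', hx', hxx⟩ := Finset.mem_map.1 (hπG (mem_piS.2 ⟨x, rfl⟩))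
        have : x' = Sum.inr x := (eS n S).injective hxx
        rwa [← this])
      ((Finset.card_map _).symm.le.trans (card_le_of_union hN))
      (Finset.map_subset_map.1 hA') hj' h2 hv (f := f)
      (fun x hx => hfG x (Finset.mem_map_of_mem (eS n S) hx)) hb hd
    obtain ⟨a, ha⟩ := hA₀
    exact ⟨g, hg, ι, _, hVN, f, h3, badHitP_univ le_rfl h4
      ⟨Sum.inr a, Finset.inr_mem_disjSum.2 ha⟩ h5⟩

/-- **The alternative `BadHit`** of a glued world over the gas, the structure and the line. -/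
theorem badHit_split (hΦ : AdmissiblePotential Φ) (hε : 0 < ε) (htT : t ≤ T) (hTe : T ≤ te)
    (hT₁ : te < T₁) {A₀ : Finset S} (hA₀ : A₀.Nonempty)
    (hP : Parts (gsys Φ t ε n (bx b τ)) c (Sum.elim w (zx z y)) (Lx (piS n S) (px n S)))
    {Sp : Fin n ⊕ (S ⊕ Unit) → Finset (Fin n ⊕ (S ⊕ Unit))} {bD : Fin n ⊕ (S ⊕ Unit) → ℝ}
    {A : Finset (Fin n ⊕ (S ⊕ Unit))} {XD : ℝ → Fin n ⊕ (S ⊕ Unit) → PhasePoint}
    (H : GD (gsys Φ t ε n (bx b τ)) (Sum.elim w (zx z y)) Sp bD A XD)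
    (hSp : ∀ i : Fin n, Sp (Sum.inl i) = ∅)
    (h : BadHit (gsys Φ t ε n (bx b τ)) c (Sum.elim w (zx z y))
      (XG (gsys Φ t ε n (bx b τ)) (Sum.elim w (zx z y)) Sp bD A XD)
      (CG (gsys Φ t ε n (bx b τ)) (Sum.elim w (zx z y)) Sp bD A XD)
      (Lx (piS n S) (px n S)) N) :
    BH167.BadHitGas (bpos Φ T₁ te) Φ T c 1 ε N N 1 A₀ b z w ∨
    BH167.BadHitGasN (bpos Φ T₁ te) Φ T c 1 ε N N 1 (∅ : Finset Unit) (fun _ => τ) (fun _ => y) w ∨
    Joint (gsys Φ t ε n (bx b τ)) c (Sum.elim w (zx z y)) (piS n S) (px n S) N := by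
  have hSp' : ∀ x, (Sp x).Nonempty → x ∈ uni (Lx (piS n S) (px n S)) := by
    rintro (i | y | y) hx
    · rw [hSp i] at hx
      exact absurd hx Finset.not_nonempty_empty
    · exact mem_uni_Lx.2 (Or.inl (mem_piS.2 ⟨y, rfl⟩))
    · exact mem_uni_Lx.2 (Or.inr rfl)
  obtain ⟨G, A', j, k, v, hG, hπ, hN, hA'G, hj, hok, hv, hVN, hVG, hVu, hd, hkV, hbad⟩ :=
    badPos_of_badHit (M := gsys Φ t ε n (bx b τ)) hΦ hε H (htT.trans hTe) hT₁ hP hSp' h
  refine hit_split hΦ hε htT hA₀ (hP.conn _ pi_mem) hG hπ hN hA'G hj hok hv hVN hVG hVu hd hkV ?_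
  intro k' f i hf hi
  exact hbad (Fin k') (f.trans ⟨Sum.inl, Sum.inl_injective⟩) i hf hi

/-- The joint alternative is a bad partition, horizon `T`. -/
theorem jalt_of_joint (hΦ : AdmissiblePotential Φ) (hε : 0 < ε) (htT : t ≤ T) {A₀ : Finset S}
    (hA₀ : A₀.Nonempty) {x : ML}
    (h : Joint (gsys Φ t ε n (bx b x.1.1)) c (Sum.elim w (zx z (back x.1))) (piS n S) (px n S) N) :
    JAlt Φ T c R ς ε N A₀ b z x w :=
  (LN2.badGasW_hor htT (joint_gas (T := t) hΦ hε hA₀ h)).badGas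

/-- **The whole split.** -/
theorem alt_of_not (hΦ : AdmissiblePotential Φ) (hε : 0 < ε) (htT : t ≤ T) (hT₁ : T < T₁)
    {A₀ : Finset S} (hA₀ : A₀.Nonempty) {x : ML}
    (hP : Parts (gsys Φ t ε n (bx b x.1.1)) c (Sum.elim w (zx z (back x.1)))
      (Lx (piS n S) (px n S)))
    (h : ¬ NoBad (gsys Φ t ε n (bx b x.1.1)) c (R * ε) ς (Sum.elim w (zx z (back x.1)))
          (Lx (piS n S) (px n S)) N ∨
      ¬ NoTwo (gsys Φ t ε n (bx b x.1.1)) c (Sum.elim w (zx z (back x.1)))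
          (Lx (piS n S) (px n S)) N ∨
      (∃ (Sp : Fin n ⊕ (S ⊕ Unit) → Finset (Fin n ⊕ (S ⊕ Unit))) (bD : Fin n ⊕ (S ⊕ Unit) → ℝ)
        (A : Finset (Fin n ⊕ (S ⊕ Unit))) (XD : ℝ → Fin n ⊕ (S ⊕ Unit) → PhasePoint),
        GD (gsys Φ t ε n (bx b x.1.1)) (Sum.elim w (zx z (back x.1))) Sp bD A XD ∧
        (∀ i : Fin n, Sp (Sum.inl i) = ∅) ∧
        BadHit (gsys Φ t ε n (bx b x.1.1)) c (Sum.elim w (zx z (back x.1)))
          (XG (gsys Φ t ε n (bx b x.1.1)) (Sum.elim w (zx z (back x.1))) Sp bD A XD)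
          (CG (gsys Φ t ε n (bx b x.1.1)) (Sum.elim w (zx z (back x.1))) Sp bD A XD)
          (Lx (piS n S) (px n S)) N) ∨
      Gate424.RunS Φ ε t K L b z w ∨ LinkM547.Run Φ ε t K L (MW.line x) () w) :
    SAlt Φ T T₁ t c R ς ε K L N A₀ b z w ∨ XAlt Φ T T₁ t c R ς ε K L N x w ∨
      JAlt Φ T c R ς ε N A₀ b z x w := by
  have hc := hP.conn _ pi_mem
  rcases h with h | h | ⟨Sp, bD, A, XD, H, hSp, h⟩ | h | h
  · rcases split_noBad hc h with h | h | h
    · exact Or.inl (Or.inr (Or.inl (LN2.badGasW_hor htT (badS_gas hΦ hε hA₀ h)).badGas))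
    · exact Or.inr (Or.inl (Or.inr (Or.inl (LN2.badGasW_hor htT (badX_gas hΦ hε h)).badGas)))
    · exact Or.inr (Or.inr (jalt_of_joint hΦ hε htT hA₀ h))
  · exact Or.inr (Or.inr (jalt_of_joint hΦ hε htT hA₀ (split_noTwo hc h)))
  · rcases badHit_split hΦ hε htT le_rfl hT₁ hA₀ hP H hSp h with h | h | h
    · exact Or.inl (Or.inr (Or.inr h))
    · exact Or.inr (Or.inl (Or.inr (Or.inr h)))
    · exact Or.inr (Or.inr (jalt_of_joint hΦ hε htT hA₀ h))
  · exact Or.inl (Or.inl h)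
  · exact Or.inr (Or.inl (Or.inl h))

end Crest.Agent.R122.X692

end
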