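import Crest.Agent.R122.GateOsP_424
import Crest.Agent.R122.OsPMom_581
import Crest.Agent.R122.XShape_692
import Crest.Agent.R122.GateOSc_434
import Crest.Agent.R122.GateOS_973

/-!
# Row 122, H11 (helper973): closed gates of (tree, structure) with an independent line

On helper424's `GateOsP_424`, with the moments of helper581 (`osP_moment`, `osP_mass`), the literal
alternatives `SAlt | XAlt | JAlt` of helper692 and the bad hits of helper167.

* `OPX` : the hypotheses; `OPX.gLe_runS`, `gLe_runX`, `badF_S`, `badF_X`, `badF_J`, `gNull_hitS`,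
  `gNull_hitX`, `gNull_hitJ`.
* `OPX.gNull_of_alt` : the plain gate. `OPX.fNull_of_alt` : the capped gate.
* `fNull_lkm` : capped sums of two link measures.
-/

set_option autoImplicit false
set_option linter.unusedSectionVars false

open MeasureTheory Set Filter Topology
open scoped Classical ENNReal
open Crest.AnalysisR.Kinetic
open Crest.Agent.R122.GC311 Crest.Agent.R122.Kin796 Crest.Agent.R122.Kin796.CTree
open Crest.Agent.R122.Tree674 Crest.Agent.R122.EDefs602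
open Crest.Agent.R122.Gate424 Crest.Agent.R122.Gate973 Crest.Agent.R122.LN2
open Crest.Agent.R122.BH167 Crest.Agent.R122.LinkM547
open Crest.Agent.R122.PairRep581 (Shp ShpOk osP treeA ctOkS)
open Crest.Agent.R122.GateOsP424 (osB osZ)
open Crest.Agent.R122.X692 (SAlt XAlt JAlt bx zx)

noncomputable section

namespace Crest.Agent.R122.OPX973

variable {Φ : Space3 → ℝ} {f₀ : PhasePoint → ℝ} {bg γ β T te u : ℝ} {ρ : Space3 → ℝ≥0∞}
  {gl : ℝ → ℝ} {rm : ℝ≥0∞} {P : CTree} {S : Shp}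

/-- **The hypotheses** of the gates. `bg` : exponent of `f₀`; `γ, ρ` : domination; `β` : moments of
the structure; `gl, rm` : independent lines. -/
structure OPX (Φ : Space3 → ℝ) (f₀ : PhasePoint → ℝ) (bg γ β T te : ℝ) (ρ : Space3 → ℝ≥0∞)
    (S : Shp) (gl : ℝ → ℝ) (rm : ℝ≥0∞) : Prop where
  adm : AdmissiblePotential Φ
  meas : Measurable f₀
  gauss : HasSummableGaussianBound bg (fun x v => f₀ (x, v))
  mass : ∫⁻ z, ENNReal.ofReal (f₀ z) ≤ 1
  env : ∃ C : ℝ≥0∞, Env f₀ γ ρ C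
  shp : ShpOk γ β ρ S
  bg_pos : 0 < bg
  γ_pos : 0 < γ
  β_pos : 0 < β
  T_pos : 0 < T
  te_le : te ≤ T
  gl_meas : Measurable gl
  gl_le : ∀ τ ∈ Ioc (0 : ℝ) te, γ ≤ gl τ
  rm_fin : rm ≠ ∞

/-- Anchors: the tree. -/
abbrev anT (P : CTree) (S : Shp) : Finset (Idx P ⊕ S.κ) := Finset.univ.disjSum ∅

section ingr

variable (h : OPX Φ f₀ bg γ β T te ρ S gl rm)

include h

theorem OPX.classNull : VLMeas973.ClassNull Φ T := Gate973.classNull h.adm h.T_pos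

/-- Exponent of the moments. -/
theorem OPX.exists_exp : ∃ b : ℝ, 0 < b ∧ 2 * b ≤ bg ∧ b < bg ∧ b < β := by
  refine ⟨min (bg / 2) (β / 2), lt_min (half_pos h.bg_pos) (half_pos h.β_pos), ?_, ?_, ?_⟩
  · have := min_le_left (bg / 2) (β / 2)
    linarith
  · exact (min_le_left _ _).trans_lt (half_lt_self h.bg_pos)
  · exact (min_le_right _ _).trans_lt (half_lt_self h.β_pos)

theorem OPX.exists_mass (te' T' : ℝ) (K : ℕ) (P : CTree) :
    ∃ M : ℝ≥0∞, M ≠ ∞ ∧ ∀ ε : ℝ, 0 < ε → ∀ i, osP Φ f₀ te' T' K P S ε i univ ≤ M :=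
  PairRep581.osP_mass h.shp h.adm h.meas h.bg_pos h.β_pos h.gauss P

/-- Runs from the tree and the structure. -/
theorem OPX.gLe_runS (hu : u ≤ T) (te' T' : ℝ) (K : ℕ) (P : CTree) (K' : ℕ) {δ : ℝ≥0∞}
    (hδ : 0 < δ) : ∃ L₀ : ℕ, ∀ L, L₀ ≤ L → GLe f₀ (osP Φ f₀ te' T' K P S) (fun ε _ _ q w =>
      RunS Φ ε u K' L (osB P S ε q) (osZ Φ P S ε q) w) δ := by
  obtain ⟨b, hb, hb2, hbg, hbβ⟩ := h.exists_exp
  obtain ⟨M, hM, hm⟩ := PairRep581.osP_moment (te := te') (T' := T') (K := K) h.shp h.adm h.meas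
    h.gauss hbβ hbg P
  obtain ⟨C₀, hC₀, hG⟩ := exists_gauss h.gauss hb2
  exact GateOsP424.gLe_runS_osP h.adm h.meas h.mass h.shp hb h.T_pos.le hC₀ hG hu te' T' K P K' hM
    (fun ε hε => hm ε hε ()) hδ

/-- Runs from the independent line. -/
theorem OPX.gLe_runX (hu : u ≤ T) (Km K' : ℕ) {δ : ℝ≥0∞} (hδ : 0 < δ) :
    ∃ L₀ : ℕ, ∀ L, L₀ ≤ L → GLe f₀ (fun (_ : ℝ) (_ : Unit) => lineM gl rm Km te)
      (fun ε _ _ x w => Run Φ ε u K' L (MW.line x) () w) δ := by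
  set bx : ℝ := min (bg / 2) (γ / 2) with hbx
  have h0 : 0 < bx := lt_min (half_pos h.bg_pos) (half_pos h.γ_pos)
  have h2 : 2 * bx ≤ bg := by
    have := min_le_left (bg / 2) (γ / 2)
    linarith
  have h3 : bx < γ := (min_le_right _ _).trans_lt (half_lt_self h.γ_pos)
  obtain ⟨env, A, hA, hE⟩ := exists_envB h2 h.gauss
  exact Gate973.gLe_runX (I := Unit) h.adm h0 h3 h.te_le h.T_pos.le hA K' h.meas h.mass hE
    h.gl_meas h.gl_le h.rm_fin Km (t := fun _ => u) (fun _ => hu) hδ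

/-! ### Bad partitions -/

theorem OPX.badF_S (te' T' : ℝ) (K : ℕ) (P : CTree) (c : ℝ) (N : ℕ) :
    BadF f₀ (osP Φ f₀ te' T' K P S) (fun R ς ε _ _ q w =>
      BadGas Φ T c R ς ε N 1 (anT P S) (osB P S ε q) (osZ Φ P S ε q) w) := by
  obtain ⟨C, he⟩ := h.env
  exact GateOsP424.badF_osP h.adm h.meas h.mass he h.γ_pos h.shp h.classNull te' T' K P c N

theorem OPX.badF_X (Km : ℕ) (c : ℝ) (N : ℕ) :
    BadF f₀ (fun (_ : ℝ) (_ : Unit) => lineM gl rm Km te) (fun R ς ε _ _ x w =>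
      BadGas Φ T c R ς ε N 1 (∅ : Finset Unit) (fun _ => x.1.1) (fun _ => back x.1) w) := by
  obtain ⟨C, he⟩ := h.env
  exact badF_badX (I := Unit) h.classNull h.meas h.mass he h.γ_pos c N h.gl_meas h.gl_le h.rm_fin
    Km

theorem OPX.badF_J (T' : ℝ) (K : ℕ) (P : CTree) (Km : ℕ) (c : ℝ) (N : ℕ) :
    BadF f₀ (fun ε i => (osP Φ f₀ te T' K P S ε i).prod (lineM gl rm Km te))
      (fun R ς ε _ _ θ w => JAlt Φ T c R ς ε N (anT P S) (osB P S ε θ.1) (osZ Φ P S ε θ.1)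
        θ.2 w) := by
  obtain ⟨C, he⟩ := h.env
  have h1 := GateOsP424.badF_osPX h.adm h.meas h.mass he h.γ_pos h.shp h.classNull te T' K P c N
    h.gl_meas h.gl_le h.rm_fin Km
  simp only [Finset.disjSum_empty] at h1 ⊢
  exact h1

/-! ### Bad hits -/

theorem OPX.gNull_hitS (te' T' : ℝ) (K : ℕ) (P : CTree) {T₁ : ℝ} (hT₁ : 0 ≤ T₁) (tb c R : ℝ)
    (N K₁ : ℕ) :
    GNull f₀ (osP Φ f₀ te' T' K P S) (fun ε _ _ q w =>
      BadHitGas (bpos Φ T₁ tb) Φ T c R ε N K₁ 1 (anT P S) (osB P S ε q) (osZ Φ P S ε q) w) := by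
  obtain ⟨C, he⟩ := h.env
  obtain ⟨c₁, Λ, hc, hΛ, hd⟩ := GateOsP424.dom_osP h.adm h.meas he h.shp te' T' K P
  exact gNull_badPos (m := osP Φ f₀ te' T' K P S) (b := fun ε _ q => osB P S ε q)
    (z := fun ε _ q => osZ Φ P S ε q) h.adm h.T_pos.le tb hT₁ h.meas h.mass he h.γ_pos c R N K₁
    ((by omega : 1 ≤ 2).trans (GateOsP424.card_le h.shp)) _ hc Λ
    (fun ε i => GateOsP424.sf_osP h.shp ε i) fun ε i hε => hd ε hε i

/-- The non-localised form. -/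
theorem OPX.gNull_hitSN (te' T' : ℝ) (K : ℕ) (P : CTree) {T₁ : ℝ} (hT₁ : 0 ≤ T₁) (tb c R : ℝ)
    (N K₁ : ℕ) :
    GNull f₀ (osP Φ f₀ te' T' K P S) (fun ε _ _ q w =>
      BadHitGasN (bpos Φ T₁ tb) Φ T c R ε N K₁ 1 (anT P S) (osB P S ε q) (osZ Φ P S ε q) w) := by
  obtain ⟨C, he⟩ := h.env
  obtain ⟨c₁, Λ, hc, hΛ, hd⟩ := GateOsP424.dom_osP h.adm h.meas he h.shp te' T' K P
  exact gNull_badPosN (m := osP Φ f₀ te' T' K P S) (b := fun ε _ q => osB P S ε q)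
    (z := fun ε _ q => osZ Φ P S ε q) h.adm h.T_pos.le tb hT₁ h.meas h.mass he h.γ_pos c R N K₁
    ((by omega : 1 ≤ 2).trans (GateOsP424.card_le h.shp)) _ hc Λ
    (fun ε i => GateOsP424.sf_osP h.shp ε i) fun ε i hε => hd ε hε i

theorem OPX.gNull_hitX (Km : ℕ) {T₁ : ℝ} (hT₁ : 0 ≤ T₁) (tb c R : ℝ) (N K₁ : ℕ) :
    GNull f₀ (fun (_ : ℝ) (_ : Unit) => lineM gl rm Km te) (fun ε _ _ x w =>
      BadHitGasN (bpos Φ T₁ tb) Φ T c R ε N K₁ 1 (∅ : Finset Unit) (fun _ => x.1.1)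
        (fun _ => back x.1) w) := by
  obtain ⟨C, he⟩ := h.env
  exact gNull_badPosN (I := Unit) (m := fun (_ : ℝ) (_ : Unit) => lineM gl rm Km te)
    (b := fun _ _ x _ => x.1.1) (z := fun _ _ x _ => back x.1) h.adm h.T_pos.le tb hT₁ h.meas
    h.mass he h.γ_pos c R N K₁ (s := 1) le_rfl ∅ (c := ∑' n : ℕ, markW rm Km n)
    (sum_markW_ne_top h.rm_fin Km) (lineΛ te) (fun _ _ => inferInstance)
    (fun ε _ _ => dom_line h.gl_le h.gl_meas rm Km ε)

/-- Bad hits of (tree, structure) and the line, two groups, non-localised form. -/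
theorem OPX.gNull_hitJ (T' : ℝ) (K : ℕ) (P : CTree) (Km : ℕ) {T₁ : ℝ} (hT₁ : 0 ≤ T₁)
    (tb c R : ℝ) (N K₁ : ℕ) :
    GNull f₀ (fun ε i => (osP Φ f₀ te T' K P S ε i).prod (lineM gl rm Km te))
      (fun ε _ _ θ w => BadHitGasN (bpos Φ T₁ tb) Φ T c R ε N K₁ 2
        ((anT P S).map Function.Embedding.inl) (bx (osB P S ε θ.1) θ.2.1.1)
        (zx (osZ Φ P S ε θ.1) (back θ.2.1)) w) := by
  obtain ⟨C, he⟩ := h.env
  obtain ⟨c₁, Λ, hc, hΛ, hd⟩ := GateOsP424.dom_osPX (Km := Km) h.adm h.meas he h.shp te T' K P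
    h.gl_meas h.gl_le h.rm_fin
  have h1 := gNull_badPosN (I := Unit)
    (m := fun ε i => (osP Φ f₀ te T' K P S ε i).prod (lineM gl rm Km te))
    (b := fun ε _ θ => Sum.elim (osB P S ε θ.1) fun _ : Unit => θ.2.1.1)
    (z := fun ε _ θ => Sum.elim (osZ Φ P S ε θ.1) fun _ : Unit => back θ.2.1)
    h.adm h.T_pos.le tb hT₁ h.meas h.mass he h.γ_pos c R N K₁ (s := 2) (by
      have := GateOsP424.card_le (P := P) h.shp
      rw [Fintype.card_sum]
      omega) _ hc Λ (fun ε i => by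
      have := GateOsP424.sf_osP (Φ := Φ) (f₀ := f₀) (te := te) (T' := T') (K := K) (P := P)
        h.shp ε i
      infer_instance) (fun ε i hε => hd ε hε i)
  simp only [Finset.disjSum_empty] at h1 ⊢
  exact h1

/-! ### The gates -/

/-- **The plain gate** for (tree, structure). -/
theorem OPX.gNull_of_alt (hu : u ≤ T) {te' T' : ℝ} {K : ℕ} {P : CTree} (K' : ℕ)
    {E : ℝ → (n : ℕ) → ((PhasePoint × Par P) × S.Θ) → Config n → Prop}
    (hdet : ∀ L : ℕ, ∃ (N : ℕ) (c T₁ tb : ℝ)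
      (B : ℝ → ℝ → ℝ → Unit → (n : ℕ) → ((PhasePoint × Par P) × S.Θ) → Config n → Prop)
      (Ht : ℝ → Unit → (n : ℕ) → ((PhasePoint × Par P) × S.Θ) → Config n → Prop),
      0 ≤ T₁ ∧ BadF f₀ (osP Φ f₀ te' T' K P S) B ∧ GNull f₀ (osP Φ f₀ te' T' K P S) Ht ∧
      ∀ R > 0, ∀ ς > 0, ∃ ε₁ : ℝ, 0 < ε₁ ∧ ∀ ε : ℝ, 0 < ε → ε < ε₁ → ∀ n q (w : Config n),
        w ∈ PairExcluded ε n → E ε n q w →
        RunS Φ ε u K' L (osB P S ε q) (osZ Φ P S ε q) w ∨
        BadGas Φ T c R ς ε N 1 (anT P S) (osB P S ε q) (osZ Φ P S ε q) w ∨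
        BadHitGas (bpos Φ T₁ tb) Φ T c 1 ε N N 1 (anT P S) (osB P S ε q) (osZ Φ P S ε q) w ∨
        B R ς ε () n q w ∨ Ht ε () n q w) :
    GNull f₀ (osP Φ f₀ te' T' K P S) (fun ε _ n q w => E ε n q w) := by
  choose N c T₁ tb B Ht hT₁ hB hH hdet using hdet
  refine gNull_of_fam h.meas (m := osP Φ f₀ te' T' K P S)
    (Rn := fun L ε _ _ q w => RunS Φ ε u K' L (osB P S ε q) (osZ Φ P S ε q) w)
    (Ht := fun L ε i n q w => BadHitGas (bpos Φ (T₁ L) (tb L)) Φ T (c L) 1 ε (N L) (N L) 1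
      (anT P S) (osB P S ε q) (osZ Φ P S ε q) w ∨ Ht L ε i n q w)
    (fun L => ⟨_, (h.badF_S te' T' K P (c L) (N L)).or h.meas (hB L), fun R hR ς hς => ?_⟩)
    (fun δ hδ => h.gLe_runS hu te' T' K P K' hδ)
    fun L => (h.gNull_hitS te' T' K P (hT₁ L) (tb L) (c L) 1 (N L) (N L)).or h.meas (hH L)
  obtain ⟨ε₁, h0, h1⟩ := hdet L R hR ς hς
  refine ⟨ε₁, h0, fun ε hε hlt i n q w hw hE => ?_⟩
  rcases h1 ε hε hlt n q w hw hE with h2 | h2 | h2 | h2 | h2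
  · exact Or.inl h2
  · exact Or.inr (Or.inl (Or.inl h2))
  · exact Or.inr (Or.inr (Or.inl h2))
  · exact Or.inr (Or.inl (Or.inr h2))
  · exact Or.inr (Or.inr (Or.inr h2))

/-- **The capped gate** for (tree, structure) and an independent line. `G` : guard, `lk` : bad
lines. -/
theorem OPX.fNull_of_alt (hu : u ≤ T) {T' : ℝ} {K : ℕ} {P : CTree} (K' Km : ℕ)
    {G : ℝ → (n : ℕ) → ((PhasePoint × Par P) × S.Θ) → Config n → Prop}
    {lk : ℝ → (n : ℕ) → ((PhasePoint × Par P) × S.Θ) → Config n → Set ML}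
    (hdet : ∀ L : ℕ, ∃ (N : ℕ) (c T₁ : ℝ)
      (BS : ℝ → ℝ → ℝ → Unit → (n : ℕ) → ((PhasePoint × Par P) × S.Θ) → Config n → Prop)
      (BX : ℝ → ℝ → ℝ → Unit → (n : ℕ) → ML → Config n → Prop)
      (BJ : ℝ → ℝ → ℝ → Unit → (n : ℕ) → ((PhasePoint × Par P) × S.Θ) × ML → Config n → Prop)
      (HS : ℝ → Unit → (n : ℕ) → ((PhasePoint × Par P) × S.Θ) → Config n → Prop)
      (HX : ℝ → Unit → (n : ℕ) → ML → Config n → Prop)
      (HJ : ℝ → Unit → (n : ℕ) → ((PhasePoint × Par P) × S.Θ) × ML → Config n → Prop),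
      0 ≤ T₁ ∧
      (BadF f₀ (osP Φ f₀ te T' K P S) BS ∧
        BadF f₀ (fun (_ : ℝ) (_ : Unit) => lineM gl rm Km te) BX ∧
        BadF f₀ (fun ε i => (osP Φ f₀ te T' K P S ε i).prod (lineM gl rm Km te)) BJ) ∧
      (GNull f₀ (osP Φ f₀ te T' K P S) HS ∧
        GNull f₀ (fun (_ : ℝ) (_ : Unit) => lineM gl rm Km te) HX ∧
        GNull f₀ (fun ε i => (osP Φ f₀ te T' K P S ε i).prod (lineM gl rm Km te)) HJ) ∧
      ∀ R > 0, ∀ ς > 0, ∃ ε₁ : ℝ, 0 < ε₁ ∧ ∀ ε : ℝ, 0 < ε → ε < ε₁ → ∀ n q x (w : Config n),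
        w ∈ PairExcluded ε n → G ε n q w → x ∈ lk ε n q w →
        (SAlt Φ T T₁ u c R ς ε K' L N (anT P S) (osB P S ε q) (osZ Φ P S ε q) w ∨
          BS R ς ε () n q w ∨ HS ε () n q w) ∨
        (XAlt Φ T T₁ u c R ς ε K' L N x w ∨ BX R ς ε () n x w ∨ HX ε () n x w) ∨
        (JAlt Φ T c R ς ε N (anT P S) (osB P S ε q) (osZ Φ P S ε q) x w ∨
          BJ R ς ε () n (q, x) w ∨ HJ ε () n (q, x) w)) :
    FNull f₀ (osP Φ f₀ te T' K P S) (fun ε _ n q w =>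
      if G ε n q w then min 1 ((lineM gl rm Km te) (lk ε n q w)) else 0) := by
  choose N c T₁ BS BX BJ HS HX HJ hT₁ hB hH hdet using hdet
  obtain ⟨M, hM, hmass⟩ := h.exists_mass te T' K P
  have key := fNull_cap_of_det (m := osP Φ f₀ te T' K P S)
    (ν := fun (_ : ℝ) (_ : Unit) => lineM gl rm Km te) h.meas
    (fun ε i => GateOsP424.sf_osP h.shp ε i) (fun _ _ => inferInstance) hM
    (fun ε i hε => hmass ε hε i)
    (E := fun ε _ n q x w => G ε n q w ∧ x ∈ lk ε n q w)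
    (RS := fun L ε _ _ q w => RunS Φ ε u K' L (osB P S ε q) (osZ Φ P S ε q) w)
    (RX := fun L ε _ _ x w => Run Φ ε u K' L (MW.line x) () w)
    (HS := fun L ε i n q w => BadHitGas (bpos Φ (T₁ L) T) Φ T (c L) 1 ε (N L) (N L) 1
      (anT P S) (osB P S ε q) (osZ Φ P S ε q) w ∨ HS L ε i n q w)
    (HX := fun L ε i n x w => BadHitGasN (bpos Φ (T₁ L) T) Φ T (c L) 1 ε (N L) (N L) 1
      (∅ : Finset Unit) (fun _ => x.1.1) (fun _ => back x.1) w ∨ HX L ε i n x w)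
    (HJ := HJ)
    (fun L => ⟨_, _, _, (h.badF_S te T' K P (c L) (N L)).or h.meas (hB L).1,
      (h.badF_X Km (c L) (N L)).or h.meas (hB L).2.1,
      (h.badF_J T' K P Km (c L) (N L)).or h.meas (hB L).2.2, fun R hR ς hς => ?_⟩)
    (fun δ hδ => h.gLe_runS hu te T' K P K' hδ)
    (fun δ hδ => h.gLe_runX hu Km K' hδ)
    (fun L => (h.gNull_hitS te T' K P (hT₁ L) T (c L) 1 (N L) (N L)).or h.meas (hH L).1)
    (fun L => (h.gNull_hitX Km (hT₁ L) T (c L) 1 (N L) (N L)).or h.meas (hH L).2.1)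
    (fun L => (hH L).2.2)
  · refine key.mono ⟨1, one_pos, fun ε _ _ i n q w _ => ?_⟩
    show (if G ε n q w then min 1 ((lineM gl rm Km te) (lk ε n q w)) else 0) ≤ _
    split_ifs with hG
    · exact min_le_min le_rfl (measure_mono fun x hx => ⟨hG, hx⟩)
    · exact bot_le
  · obtain ⟨ε₁, h0, h1⟩ := hdet L R hR ς hς
    refine ⟨ε₁, h0, fun ε hε hlt i n q x w hw hE => ?_⟩
    rcases h1 ε hε hlt n q x w hw hE.1 hE.2 with (h2 | h2 | h2) | (h2 | h2 | h2) | h2 | h2 | h2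
    · rcases h2 with h2 | h2 | h2
      · exact Or.inl (Or.inl h2)
      · exact Or.inl (Or.inr (Or.inl (Or.inl h2)))
      · exact Or.inl (Or.inr (Or.inr (Or.inl h2)))
    · exact Or.inl (Or.inr (Or.inl (Or.inr h2)))
    · exact Or.inl (Or.inr (Or.inr (Or.inr h2)))
    · rcases h2 with h2 | h2 | h2
      · exact Or.inr (Or.inl (Or.inl h2))
      · exact Or.inr (Or.inl (Or.inr (Or.inl (Or.inl h2))))
      · exact Or.inr (Or.inl (Or.inr (Or.inr (Or.inl h2))))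
    · exact Or.inr (Or.inl (Or.inr (Or.inl (Or.inr h2))))
    · exact Or.inr (Or.inl (Or.inr (Or.inr (Or.inr h2))))
    · exact Or.inr (Or.inr (Or.inl (Or.inl h2)))
    · exact Or.inr (Or.inr (Or.inl (Or.inr h2)))
    · exact Or.inr (Or.inr (Or.inr h2))

end ingr

/-! ### Capped sums -/

section lkm

variable {I Θ : Type} [MeasurableSpace Θ] {m : ℝ → I → Measure Θ}

theorem min_mul_le (k a b : ℝ≥0∞) :
    min 1 (k * (a + b)) ≤ (k + 1) * (min 1 a + min 1 b) := by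
  rcases le_total a 1 with ha | ha
  · rcases le_total b 1 with hb | hb
    · rw [min_eq_right ha, min_eq_right hb]
      exact (min_le_right _ _).trans (by gcongr; exact le_self_add)
    · refine (min_le_left _ _).trans ?_
      rw [min_eq_left hb]
      calc (1 : ℝ≥0∞) = 1 * 1 := (one_mul 1).symm
        _ ≤ _ := mul_le_mul' le_add_self le_add_self
  · refine (min_le_left _ _).trans ?_
    rw [min_eq_left ha]
    calc (1 : ℝ≥0∞) = 1 * 1 := (one_mul 1).symm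
      _ ≤ _ := mul_le_mul' le_add_self le_self_add

/-- **Capped sums of two link measures.** -/
theorem fNull_lkm (hf : Measurable f₀) {k : ℝ≥0∞} (hk : k ≠ ∞)
    {G : ℝ → I → (n : ℕ) → Θ → Config n → Prop}
    {A B : ℝ → I → (n : ℕ) → Θ → Config n → ℝ≥0∞}
    (hA : FNull f₀ m (fun ε i n θ w => if G ε i n θ w then min 1 (A ε i n θ w) else 0))
    (hB : FNull f₀ m (fun ε i n θ w => if G ε i n θ w then min 1 (B ε i n θ w) else 0)) :
    FNull f₀ m (fun ε i n θ w => if G ε i n θ w then min 1 (k * (A ε i n θ w + B ε i n θ w))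
      else 0) := by
  have h1 := GateOS434.FNull.const_mul (ENNReal.add_ne_top.2 ⟨hk, ENNReal.one_ne_top⟩)
    (GateOS434.FNull.add hf hA hB)
  refine h1.mono ⟨1, one_pos, fun ε _ _ i n θ w _ => ?_⟩
  show (if G ε i n θ w then min 1 (k * (A ε i n θ w + B ε i n θ w)) else 0) ≤
    (k + 1) * ((if G ε i n θ w then min 1 (A ε i n θ w) else 0) +
      if G ε i n θ w then min 1 (B ε i n θ w) else 0)
  by_cases hG : G ε i n θ w
  · rw [if_pos hG, if_pos hG, if_pos hG]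
    exact min_mul_le _ _ _
  · rw [if_neg hG]
    exact bot_le

end lkm

end Crest.Agent.R122.OPX973

end
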