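import Crest.Agent.R122.LinkGas2_473
import Crest.Agent.R122.VLDefs_581

/-!
# Row 122, LN2: gas level, estimates at fixed `ε`

* `vsys Φ T ε b` : helper581's virtual system without obstacle.
* `Env f₀ γ ρ C` : `f₀ z ≤ C ρ(x) exp (-γ |v|²)` with `ρ ≤ 1`, `∫ ρ < ∞`; `exists_env`.
* `wgtA γ ρ A Z = ∏_{j ∈ A} ρ (x_j) ∏_j exp (-γ |v_j|²)`.
* `gSet N E n` : some `Y ⊆ w`, `|Y| ≤ N`, is in the bad set `E |Y|` together with the structure
  `(b, z)`.
* `gas_core` : its mass is at most `Λ(univ) ∑_{k ≤ N} a^k C^k D_k`, `D_k` = volume of `E k`.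
* `Dom` : structure data `(Θ, m, b, z)` dominated by `ε^{-2(p-s)} Λ(db) wgtA dz`.
* `gas_mass_le` : mass of the bad set for dominated structures.
-/

set_option autoImplicit false
open MeasureTheory
open scoped Classical ENNReal
open Crest.AnalysisR.Kinetic
noncomputable section

namespace Crest.Agent.R122.LN2

open Crest.Agent.R122.GC311 Crest.Agent.R122.Kin796 Crest.Agent.R122.VL581
open Crest.Agent.R122.LinkGas473

/-- Virtual system without obstacle. -/
def vsys {J : Type} (Φ : Space3 → ℝ) (T ε : ℝ) (b : J → ℝ) : VSys J Unit :=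
  ⟨Φ, T, ε, b, none, ⟨fun _ _ => 0, fun _ => 0⟩⟩

/-! ## Environments -/

/-- Product majorant of the one-particle density. -/
structure Env (f₀ : PhasePoint → ℝ) (γ : ℝ) (ρ : Space3 → ℝ≥0∞) (C : ℝ≥0∞) : Prop where
  meas : Measurable ρ
  le_one : ∀ x, ρ x ≤ 1
  int : ∫⁻ x, ρ x < ∞
  fin : C ≠ ∞
  le : ∀ z : PhasePoint, ENNReal.ofReal (f₀ z) ≤ C * (ρ z.1 * wG γ z.2)

theorem wG_anti {γ γ' : ℝ} (h : γ' ≤ γ) (v : Space3) : wG γ v ≤ wG γ' v := by
  unfold wG
  refine ENNReal.ofReal_le_ofReal (Real.exp_le_exp.2 ?_)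
  have := mul_le_mul_of_nonneg_right h (sq_nonneg ‖v‖)
  linarith

theorem wG_eq (γ : ℝ) (v : Space3) : wG γ v = ENNReal.ofReal (Real.exp (-γ * ‖v‖ ^ 2)) := by
  unfold wG
  rw [neg_mul]

theorem exists_env {γ γ' : ℝ} (hγ : γ' ≤ γ) {f₀ : PhasePoint → ℝ}
    (hb : HasSummableGaussianBound γ (fun x v => f₀ (x, v))) :
    ∃ (ρ : Space3 → ℝ≥0∞) (C : ℝ≥0∞), Env f₀ γ' ρ C := by
  obtain ⟨φ, C, hC, hm⟩ := exists_maj hb
  have h0 : C + 1 ≠ 0 := by simp
  have ht : C + 1 ≠ ∞ := ENNReal.add_ne_top.2 ⟨hC, ENNReal.one_ne_top⟩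
  refine ⟨fun x => (C + 1)⁻¹ * φ x, C + 1, hm.meas.const_mul _, fun x => ?_, ?_, ht, fun z => ?_⟩
  · calc (C + 1)⁻¹ * φ x ≤ (C + 1)⁻¹ * (C + 1) := by
          gcongr
          exact (hm.sup_le x).trans le_self_add
      _ = 1 := ENNReal.inv_mul_cancel h0 ht
  · rw [lintegral_const_mul _ hm.meas]
    exact ENNReal.mul_lt_top (ENNReal.inv_lt_top.2 (pos_iff_ne_zero.2 h0))
      (lt_of_le_of_lt hm.int_le (lt_top_iff_ne_top.2 hC))
  · calc ENNReal.ofReal (f₀ z) ≤ φ z.1 * wG γ z.2 := hm.le z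
      _ ≤ φ z.1 * wG γ' z.2 := by gcongr; exact wG_anti hγ _
      _ = (C + 1) * ((C + 1)⁻¹ * φ z.1 * wG γ' z.2) := by
          rw [← mul_assoc, ← mul_assoc, ENNReal.mul_inv_cancel h0 ht, one_mul]

/-! ## Weights -/

/-- Weight: position densities for the anchors `A`, Gaussian velocities. -/
def wgtA {J : Type} [Fintype J] (γ : ℝ) (ρ : Space3 → ℝ≥0∞) (A : Finset J)
    (Z : J → PhasePoint) : ℝ≥0∞ := (∏ j ∈ A, ρ (Z j).1) * ∏ j, wG γ (Z j).2

theorem measurable_wgtA {J : Type} [Fintype J] {γ : ℝ} {ρ : Space3 → ℝ≥0∞} (hρ : Measurable ρ)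
    (A : Finset J) : Measurable (wgtA γ ρ A) := by
  unfold wgtA
  refine Measurable.mul (Finset.measurable_prod _ fun j _ => ?_)
    (Finset.measurable_prod _ fun j _ => ?_)
  · exact hρ.comp (measurable_pi_apply j).fst
  · exact measurable_wG'.comp (measurable_pi_apply j).snd

/-- Anchors of the union of `k` gas particles and a structure. -/
def anch (k : ℕ) {κ : Type} (A₀ : Finset κ) : Finset (Fin k ⊕ κ) :=
  Finset.univ.disjSum A₀

theorem wgtA_sum {k : ℕ} {κ : Type} [Fintype κ] (γ : ℝ) (ρ : Space3 → ℝ≥0∞) (A₀ : Finset κ)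
    (V : Config k) (z : κ → PhasePoint) :
    wgtA γ ρ (anch k A₀) (Sum.elim V z) =
      (∏ i, ρ (V i).1 * wG γ (V i).2) * wgtA γ ρ A₀ z := by
  unfold wgtA anch
  rw [Finset.prod_disjSum, Fintype.prod_sum_type, Finset.prod_mul_distrib]
  simp only [Sum.elim_inl, Sum.elim_inr]
  ring

/-! ## Splitting the configuration space -/

theorem measurable_sumElim {α κ : Type} {E : Type} [MeasurableSpace E] :
    Measurable (fun p : (α → E) × (κ → E) => (Sum.elim p.1 p.2 : α ⊕ κ → E)) := by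
  refine measurable_pi_iff.2 fun i => ?_
  cases i with
  | inl i => exact (measurable_pi_apply i).comp measurable_fst
  | inr i => exact (measurable_pi_apply i).comp measurable_snd

theorem lintegral_sum_type {α κ : Type} [Fintype α] [Fintype κ] (F : (α ⊕ κ → PhasePoint) → ℝ≥0∞)
    (hF : Measurable F) :
    ∫⁻ Z : α ⊕ κ → PhasePoint, F Z =
      ∫⁻ V : α → PhasePoint, ∫⁻ z : κ → PhasePoint, F (Sum.elim V z) := by
  have h2 := volume_measurePreserving_sumPiEquivProdPi_symm (fun _ : α ⊕ κ => PhasePoint)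
  have e : ∀ p : (α → PhasePoint) × (κ → PhasePoint),
      (MeasurableEquiv.sumPiEquivProdPi (fun _ : α ⊕ κ => PhasePoint)).symm p =
      Sum.elim p.1 p.2 := by
    intro p
    ext i : 1
    cases i with
    | inl j => simp [MeasurableEquiv.sumPiEquivProdPi]
    | inr j => simp [MeasurableEquiv.sumPiEquivProdPi]
  rw [← h2.lintegral_comp hF]
  simp only [e]
  exact lintegral_prod _ (hF.comp measurable_sumElim).aemeasurable

/-! ## The core estimate -/

variable {f₀ : PhasePoint → ℝ} {γ : ℝ} {ρ : Space3 → ℝ≥0∞} {C : ℝ≥0∞}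
variable {κ : Type} [Fintype κ]

/-- Births of the union of `k` gas particles (births `0`) and a structure. -/
def bS (k : ℕ) (b : κ → ℝ) : Fin k ⊕ κ → ℝ := Sum.elim (fun _ => 0) b

/-- Some `Y ⊆ w` with `|Y| ≤ N` is in the bad set together with the structure. -/
def gSet (N : ℕ) (E : (k : ℕ) → Set ((Fin k ⊕ κ → ℝ) × (Fin k ⊕ κ → PhasePoint))) (n : ℕ) :
    Set (Config n × (κ → ℝ) × (κ → PhasePoint)) :=
  {p | ∃ k ≤ N, ∃ ι : Fin k ↪ Fin n,
    (bS k p.2.1, (Sum.elim (fun i => p.1 (ι i)) p.2.2 : Fin k ⊕ κ → PhasePoint)) ∈ E k}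

omit [Fintype κ] in
theorem measurable_bS (k : ℕ) : Measurable (bS (κ := κ) k) :=
  measurable_sumElim.comp (measurable_const.prodMk measurable_id)

omit [Fintype κ] in
theorem measurableSet_gSet {N : ℕ}
    {E : (k : ℕ) → Set ((Fin k ⊕ κ → ℝ) × (Fin k ⊕ κ → PhasePoint))}
    (hE : ∀ k, MeasurableSet (E k)) (n : ℕ) : MeasurableSet (gSet N E n) := by
  have h : gSet N E n = ⋃ k ∈ Finset.range (N + 1), ⋃ ι : Fin k ↪ Fin n,
      (fun p : Config n × (κ → ℝ) × (κ → PhasePoint) =>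
        (bS k p.2.1, (Sum.elim (fun i => p.1 (ι i)) p.2.2 : Fin k ⊕ κ → PhasePoint))) ⁻¹' E k := by
    ext p
    simp [gSet]
  rw [h]
  refine Finset.measurableSet_biUnion _ fun k _ => MeasurableSet.iUnion fun ι => ?_
  refine Measurable.prodMk ?_ ?_ (hE k)
  · exact (measurable_bS k).comp measurable_snd.fst
  · refine measurable_sumElim.comp (Measurable.prodMk ?_ measurable_snd.snd)
    exact measurable_pi_iff.2 fun i => (measurable_pi_apply (ι i)).comp measurable_fst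

theorem gcWeight_le_env (he : Env f₀ γ ρ C) (ε : ℝ) {k : ℕ} (V : Config k) :
    gcWeight f₀ ε k V ≤ C ^ k * ∏ i, ρ (V i).1 * wG γ (V i).2 := by
  unfold gcWeight
  refine (Set.indicator_le_self _ _ _).trans ?_
  calc ∏ i, ENNReal.ofReal (f₀ (V i)) ≤ ∏ i, C * (ρ (V i).1 * wG γ (V i).2) :=
        Finset.prod_le_prod' fun i _ => he.le (V i)
    _ = C ^ k * ∏ i, ρ (V i).1 * wG γ (V i).2 := by
        rw [Finset.prod_mul_distrib, Finset.prod_const, Finset.card_univ, Fintype.card_fin]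

/-- **Core estimate.** -/
theorem gas_core (hf : Measurable f₀) (h1 : ∫⁻ z, ENNReal.ofReal (f₀ z) ≤ 1)
    (he : Env f₀ γ ρ C) (ε : ℝ) (N : ℕ) (A₀ : Finset κ)
    {E : (k : ℕ) → Set ((Fin k ⊕ κ → ℝ) × (Fin k ⊕ κ → PhasePoint))}
    (hE : ∀ k, MeasurableSet (E k)) {D : ℕ → ℝ≥0∞}
    (hD : ∀ k ≤ N, ∀ b : Fin k ⊕ κ → ℝ,
      ∫⁻ Z, {Z | (b, Z) ∈ E k}.indicator (wgtA γ ρ (anch k A₀)) Z ≤ D k)
    (Λ : Measure (κ → ℝ)) [IsFiniteMeasure Λ] :
    gcE f₀ ε (fun n w => ∫⁻ b, (∫⁻ z, wgtA γ ρ A₀ z *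
      (if (w, b, z) ∈ gSet N E n then 1 else 0)) ∂Λ) ≤
      Λ Set.univ * ∑ k ∈ Finset.range (N + 1), activity ε ^ k * (C ^ k * D k) := by
  set σ : Measure ((κ → ℝ) × (κ → PhasePoint)) := Λ.prod volume with hσ
  set φ : (κ → ℝ) × (κ → PhasePoint) → ℝ≥0∞ := fun s => wgtA γ ρ A₀ s.2 with hφ
  have hφm : Measurable φ := (measurable_wgtA he.meas A₀).comp measurable_snd
  set E' : (k : ℕ) → Set (Config k × ((κ → ℝ) × (κ → PhasePoint))) := fun k =>
    {p | (bS k p.2.1, (Sum.elim p.1 p.2.2 : Fin k ⊕ κ → PhasePoint)) ∈ E k} with hE'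
  have hmap : ∀ k, Measurable (fun p : Config k × ((κ → ℝ) × (κ → PhasePoint)) =>
      (bS k p.2.1, (Sum.elim p.1 p.2.2 : Fin k ⊕ κ → PhasePoint))) := fun k =>
    ((measurable_bS k).comp measurable_snd.fst).prodMk
      (measurable_sumElim.comp (measurable_fst.prodMk measurable_snd.snd))
  have hE'm : ∀ k, MeasurableSet (E' k) := fun k => hmap k (hE k)
  have hind : ∀ n, Measurable (fun p : Config n × (κ → ℝ) × (κ → PhasePoint) =>
      wgtA γ ρ A₀ p.2.2 * (if p ∈ gSet N E n then (1 : ℝ≥0∞) else 0)) := fun n =>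
    ((measurable_wgtA he.meas A₀).comp measurable_snd.snd).mul
      (Measurable.ite (measurableSet_gSet hE n) measurable_const measurable_const)
  have e1 : gcE f₀ ε (fun n w => ∫⁻ b, (∫⁻ z, wgtA γ ρ A₀ z *
      (if (w, b, z) ∈ gSet N E n then 1 else 0)) ∂Λ) =
      gcE f₀ ε (fun n w => ∫⁻ s, φ s * (if ∃ k ≤ N, ∃ ι : Fin k ↪ Fin n,
        ((fun i => w (ι i) : Config k), s) ∈ E' k then 1 else 0) ∂σ) := by
    refine gcE_congr f₀ ε fun n w _ => ?_
    have hfun : ∀ s : (κ → ℝ) × (κ → PhasePoint), φ s * (if ∃ k ≤ N, ∃ ι : Fin k ↪ Fin n,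
        ((fun i => w (ι i) : Config k), s) ∈ E' k then (1 : ℝ≥0∞) else 0) =
        wgtA γ ρ A₀ s.2 * (if (w, s) ∈ gSet N E n then 1 else 0) := by
      intro s
      by_cases h : (w, s) ∈ gSet N E n
      · rw [if_pos h, if_pos (show ∃ k ≤ N, ∃ ι : Fin k ↪ Fin n,
          ((fun i => w (ι i) : Config k), s) ∈ E' k from h)]
      · rw [if_neg h, if_neg (show ¬ ∃ k ≤ N, ∃ ι : Fin k ↪ Fin n,
          ((fun i => w (ι i) : Config k), s) ∈ E' k from h)]
    simp only [hfun]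
    rw [hσ, lintegral_prod]
    exact ((hind n).comp (measurable_const.prodMk measurable_id)).aemeasurable
  rw [e1]
  refine (gcE_sub_exists_le hf h1 ε σ N E' (fun k _ => hE'm k) φ hφm).trans ?_
  rw [Finset.mul_sum]
  refine Finset.sum_le_sum fun k hk => ?_
  have hkN : k ≤ N := Nat.lt_succ_iff.1 (Finset.mem_range.1 hk)
  have hgm : Measurable (fun q : (κ → ℝ) × (Fin k ⊕ κ → PhasePoint) =>
      ({Z | (bS k q.1, Z) ∈ E k}.indicator (wgtA γ ρ (anch k A₀)) q.2)) := by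
    have : (fun q : (κ → ℝ) × (Fin k ⊕ κ → PhasePoint) =>
        ({Z | (bS k q.1, Z) ∈ E k}.indicator (wgtA γ ρ (anch k A₀)) q.2)) =
        {q : (κ → ℝ) × (Fin k ⊕ κ → PhasePoint) | (bS k q.1, q.2) ∈ E k}.indicator
          (fun q => wgtA γ ρ (anch k A₀) q.2) := by
      funext q
      by_cases h : (bS k q.1, q.2) ∈ E k
      · rw [Set.indicator_of_mem (show q.2 ∈ {Z | (bS k q.1, Z) ∈ E k} from h),
          Set.indicator_of_mem (show q ∈ {q : (κ → ℝ) × (Fin k ⊕ κ → PhasePoint) |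
            (bS k q.1, q.2) ∈ E k} from h)]
      · rw [Set.indicator_of_notMem (show q.2 ∉ {Z | (bS k q.1, Z) ∈ E k} from h),
          Set.indicator_of_notMem (show q ∉ {q : (κ → ℝ) × (Fin k ⊕ κ → PhasePoint) |
            (bS k q.1, q.2) ∈ E k} from h)]
    rw [this]
    refine ((measurable_wgtA he.meas _).comp measurable_snd).indicator ?_
    exact (((measurable_bS k).comp measurable_fst).prodMk measurable_snd) (hE k)
  -- the inner integrand
  have hkey : ∀ (V : Config k) (s : (κ → ℝ) × (κ → PhasePoint)),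
      (∏ i, ρ (V i).1 * wG γ (V i).2) * (φ s * (if (V, s) ∈ E' k then 1 else 0)) =
      ({Z | (bS k s.1, Z) ∈ E k}.indicator (wgtA γ ρ (anch k A₀)) (Sum.elim V s.2)) := by
    intro V s
    by_cases h : (V, s) ∈ E' k
    · rw [if_pos h, mul_one, Set.indicator_of_mem
        (show (Sum.elim V s.2 : Fin k ⊕ κ → PhasePoint) ∈ {Z | (bS k s.1, Z) ∈ E k} from h),
        wgtA_sum]
    · rw [if_neg h, mul_zero, mul_zero, Set.indicator_of_notMem
        (show (Sum.elim V s.2 : Fin k ⊕ κ → PhasePoint) ∉ {Z | (bS k s.1, Z) ∈ E k} from h)]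
  have hprodm : Measurable (fun V : Config k => ∏ i, ρ (V i).1 * wG γ (V i).2) :=
    Finset.measurable_prod _ fun i _ => (he.meas.comp (measurable_pi_apply i).fst).mul
      (measurable_wG'.comp (measurable_pi_apply i).snd)
  have hjoint : Measurable (fun p : Config k × ((κ → ℝ) × (κ → PhasePoint)) =>
      φ p.2 * (if p ∈ E' k then (1 : ℝ≥0∞) else 0)) :=
    (hφm.comp measurable_snd).mul (Measurable.ite (hE'm k) measurable_const measurable_const)
  calc activity ε ^ k * ∫⁻ V : Config k, gcWeight f₀ ε k V *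
        ∫⁻ s, φ s * (if (V, s) ∈ E' k then 1 else 0) ∂σ
      ≤ activity ε ^ k * ∫⁻ V : Config k, (C ^ k * ∏ i, ρ (V i).1 * wG γ (V i).2) *
        ∫⁻ s, φ s * (if (V, s) ∈ E' k then 1 else 0) ∂σ := by
        gcongr with V
        exact gcWeight_le_env he ε V
    _ = activity ε ^ k * (C ^ k * ∫⁻ V : Config k, ∫⁻ s,
        ({Z | (bS k s.1, Z) ∈ E k}.indicator (wgtA γ ρ (anch k A₀)) (Sum.elim V s.2)) ∂σ) := by
        congr 1
        rw [← lintegral_const_mul' _ _ (ENNReal.pow_ne_top he.fin)]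
        refine lintegral_congr fun V => ?_
        rw [mul_assoc]
        congr 1
        rw [← lintegral_const_mul]
        · exact lintegral_congr fun s => hkey V s
        · exact hjoint.comp (measurable_const.prodMk measurable_id)
    _ = activity ε ^ k * (C ^ k * ∫⁻ b, (∫⁻ Z,
        ({Z | (bS k b, Z) ∈ E k}.indicator (wgtA γ ρ (anch k A₀)) Z)) ∂Λ) := by
        congr 2
        have hm3 : Measurable (fun q : Config k × ((κ → ℝ) × (κ → PhasePoint)) =>
            ({Z | (bS k q.2.1, Z) ∈ E k}.indicator (wgtA γ ρ (anch k A₀))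
              (Sum.elim q.1 q.2.2))) :=
          hgm.comp (measurable_snd.fst.prodMk
            (measurable_sumElim.comp (measurable_fst.prodMk measurable_snd.snd)))
        rw [lintegral_lintegral_swap hm3.aemeasurable, hσ, lintegral_prod]
        · refine lintegral_congr fun b => ?_
          rw [lintegral_sum_type (fun Z => {Z | (bS k b, Z) ∈ E k}.indicator
            (wgtA γ ρ (anch k A₀)) Z) (hgm.comp (measurable_const.prodMk measurable_id))]
          rw [lintegral_lintegral_swap]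
          exact (hgm.comp (measurable_const.prodMk (measurable_sumElim.comp
            (measurable_snd.prodMk measurable_fst)))).aemeasurable
        · have h5 : Measurable (fun q : ((κ → ℝ) × (κ → PhasePoint)) × Config k =>
              ({Z | (bS k q.1.1, Z) ∈ E k}.indicator (wgtA γ ρ (anch k A₀))
                (Sum.elim q.2 q.1.2))) := hm3.comp (measurable_snd.prodMk measurable_fst)
          exact h5.lintegral_prod_right'.aemeasurable
    _ ≤ activity ε ^ k * (C ^ k * ∫⁻ _b : κ → ℝ, D k ∂Λ) := by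
        gcongr with b
        exact hD k hkN (bS k b)
    _ = Λ Set.univ * (activity ε ^ k * (C ^ k * D k)) := by
        rw [lintegral_const]
        ring

/-! ## Dominated structures -/

/-- Structure data `(Θ, m, b, z)` dominated by `c ε^{-2 (p - s)} Λ(db) wgtA dz`. -/
structure Dom (γ : ℝ) (ρ : Space3 → ℝ≥0∞) (ε : ℝ) (s : ℕ) (A₀ : Finset κ) (c : ℝ≥0∞)
    (Λ : Measure (κ → ℝ)) {Θ : Type} [MeasurableSpace Θ] (m : Measure Θ) (b : Θ → κ → ℝ)
    (z : Θ → κ → PhasePoint) : Prop where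
  mb : Measurable b
  mz : Measurable z
  le : ∀ F : (κ → ℝ) × (κ → PhasePoint) → ℝ≥0∞, Measurable F →
    ENNReal.ofReal (ε ^ 2) ^ (Fintype.card κ - s) * ∫⁻ θ, F (b θ, z θ) ∂m ≤
      c * ∫⁻ b, (∫⁻ z, wgtA γ ρ A₀ z * F (b, z)) ∂Λ

theorem activity_pow_mul_pow {ε : ℝ} (hε : 0 < ε) (k : ℕ) :
    activity ε ^ k * ENNReal.ofReal (ε ^ 2) ^ k = 1 := by
  unfold activity
  rw [← mul_pow, ← ENNReal.ofReal_mul (by positivity), inv_mul_cancel₀ (by positivity),
    ENNReal.ofReal_one, one_pow]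

/-- Mass of the bad set for dominated structures: with `D_k = δ ε^{2 (k + p - s)}` it is at most
`c Λ(univ) δ ∑_{k ≤ N} C^k`. -/
theorem gas_mass_le (hf : Measurable f₀) (h1 : ∫⁻ z, ENNReal.ofReal (f₀ z) ≤ 1)
    (he : Env f₀ γ ρ C) {ε : ℝ} (hε : 0 < ε) (N : ℕ) {s : ℕ} (A₀ : Finset κ)
    {E : (k : ℕ) → Set ((Fin k ⊕ κ → ℝ) × (Fin k ⊕ κ → PhasePoint))}
    (hE : ∀ k, MeasurableSet (E k)) {δ : ℝ≥0∞}
    (hD : ∀ k ≤ N, ∀ b : Fin k ⊕ κ → ℝ,
      ∫⁻ Z, {Z | (b, Z) ∈ E k}.indicator (wgtA γ ρ (anch k A₀)) Z ≤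
        δ * ENNReal.ofReal (ε ^ 2) ^ (k + (Fintype.card κ - s)))
    {c : ℝ≥0∞} (hc : c ≠ ∞) (Λ : Measure (κ → ℝ)) [IsFiniteMeasure Λ] {Θ : Type}
    [MeasurableSpace Θ] {m : Measure Θ} [SFinite m] {b : Θ → κ → ℝ} {z : Θ → κ → PhasePoint}
    (hdom : Dom γ ρ ε s A₀ c Λ m b z) :
    gcE f₀ ε (fun n w => m {θ | (w, b θ, z θ) ∈ gSet N E n}) ≤
      c * Λ Set.univ * (δ * ∑ k ∈ Finset.range (N + 1), C ^ k) := by
  set q : ℕ := Fintype.card κ - s with hq
  set a : ℝ≥0∞ := ENNReal.ofReal (ε ^ 2) ^ q with ha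
  have ha1 : activity ε ^ q * a = 1 := activity_pow_mul_pow hε q
  have step : ∀ n (w : Config n), m {θ | (w, b θ, z θ) ∈ gSet N E n} ≤
      activity ε ^ q * (c * ∫⁻ b, (∫⁻ z, wgtA γ ρ A₀ z *
        (if (w, b, z) ∈ gSet N E n then 1 else 0)) ∂Λ) := by
    intro n w
    have hsec : MeasurableSet {p : (κ → ℝ) × (κ → PhasePoint) | (w, p) ∈ gSet N E n} :=
      (measurable_const.prodMk measurable_id) (measurableSet_gSet hE n)
    have hFm : Measurable (fun p : (κ → ℝ) × (κ → PhasePoint) =>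
        if (w, p) ∈ gSet N E n then (1 : ℝ≥0∞) else 0) :=
      Measurable.ite hsec measurable_const measurable_const
    have e1 : m {θ | (w, b θ, z θ) ∈ gSet N E n} =
        ∫⁻ θ, (if (w, b θ, z θ) ∈ gSet N E n then 1 else 0) ∂m := by
      have hset : MeasurableSet {θ | (w, b θ, z θ) ∈ gSet N E n} :=
        (hdom.mb.prodMk hdom.mz) hsec
      rw [← lintegral_indicator_one hset]
      refine lintegral_congr fun θ => ?_
      by_cases h : (w, b θ, z θ) ∈ gSet N E n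
      · rw [if_pos h, Set.indicator_of_mem
          (show θ ∈ {θ | (w, b θ, z θ) ∈ gSet N E n} from h)]
        rfl
      · rw [if_neg h, Set.indicator_of_notMem
          (show θ ∉ {θ | (w, b θ, z θ) ∈ gSet N E n} from h)]
    have h2 := hdom.le (fun p => if (w, p) ∈ gSet N E n then (1 : ℝ≥0∞) else 0) hFm
    calc m {θ | (w, b θ, z θ) ∈ gSet N E n}
        = activity ε ^ q * (a * ∫⁻ θ, (if (w, b θ, z θ) ∈ gSet N E n then 1 else 0) ∂m) := by
          rw [← mul_assoc, ha1, one_mul, e1]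
      _ ≤ activity ε ^ q * (c * ∫⁻ b, (∫⁻ z, wgtA γ ρ A₀ z *
            (if (w, b, z) ∈ gSet N E n then 1 else 0)) ∂Λ) := by
          gcongr
  calc gcE f₀ ε (fun n w => m {θ | (w, b θ, z θ) ∈ gSet N E n})
      ≤ gcE f₀ ε (fun n w => (activity ε ^ q * c) * ∫⁻ b, (∫⁻ z, wgtA γ ρ A₀ z *
          (if (w, b, z) ∈ gSet N E n then 1 else 0)) ∂Λ) :=
        gcE_mono f₀ ε fun n w _ => by
          rw [mul_assoc]
          exact step n w
    _ = (activity ε ^ q * c) * gcE f₀ ε (fun n w => ∫⁻ b, (∫⁻ z, wgtA γ ρ A₀ z *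
          (if (w, b, z) ∈ gSet N E n then 1 else 0)) ∂Λ) :=
        gcE_const_mul f₀ ε (ENNReal.mul_ne_top (ENNReal.pow_ne_top (activity_ne_top ε)) hc) _
    _ ≤ (activity ε ^ q * c) * (Λ Set.univ * ∑ k ∈ Finset.range (N + 1), activity ε ^ k *
          (C ^ k * (δ * ENNReal.ofReal (ε ^ 2) ^ (k + q)))) := by
        gcongr
        exact gas_core hf h1 he ε N A₀ hE hD Λ
    _ = c * Λ Set.univ * (δ * ∑ k ∈ Finset.range (N + 1), C ^ k) := by
        have h3 : ∀ k ∈ Finset.range (N + 1), activity ε ^ k *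
            (C ^ k * (δ * ENNReal.ofReal (ε ^ 2) ^ (k + q))) = a * (δ * C ^ k) := by
          intro k _
          rw [pow_add]
          calc activity ε ^ k * (C ^ k * (δ * (ENNReal.ofReal (ε ^ 2) ^ k *
                ENNReal.ofReal (ε ^ 2) ^ q)))
              = (activity ε ^ k * ENNReal.ofReal (ε ^ 2) ^ k) *
                (ENNReal.ofReal (ε ^ 2) ^ q * (δ * C ^ k)) := by ring
            _ = a * (δ * C ^ k) := by rw [activity_pow_mul_pow hε, one_mul]
        rw [Finset.sum_congr rfl h3, ← Finset.mul_sum, ← Finset.mul_sum]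
        calc activity ε ^ q * c * (Λ Set.univ * (a * (δ * ∑ k ∈ Finset.range (N + 1), C ^ k)))
            = (activity ε ^ q * a) * (c * Λ Set.univ *
              (δ * ∑ k ∈ Finset.range (N + 1), C ^ k)) := by ring
          _ = _ := by rw [ha1, one_mul]

end Crest.Agent.R122.LN2
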