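import Crest.Agent.R122.MargStep_494

/-!
# Row 122, block H4 (helper494): lower levels of the structures `S^(j)`

* `marg_step`, `marg_iter` : **marg_le** : `∫ G (prj x) expW a (z_{k+i} x) dm_{k+i} ≤
  C ∫ G expW a' (z_k) dm_k`, `a < a' ≤ b₀`, uniformly in `ε`.
* `gle_pull` : null events of the lower level are null events of the upper level.
* `TouchHyp.weight` : weights.
-/

set_option autoImplicit false
set_option linter.unusedSectionVars false

open MeasureTheory ProbabilityTheory Set Filter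
open scoped ENNReal Classical Topology
open Crest.AnalysisR.Kinetic

noncomputable section

namespace Crest.Agent.R122.Marg494

open Crest.Agent.R122.GC311
open Crest.Agent.R122.Boost969 (LSt posAt)
open Crest.Agent.R122.Kin416 (gau measurable_gau lintegral_gau_lt_top)
open Crest.Agent.R122.Pair292 hiding ML
open Crest.Agent.R122.PairReal998 Crest.Agent.R122.LN2 Crest.Agent.R122.StrN998
open Crest.Agent.R122.TouchFlux494 (expW_ne_top expW_add exists_one_add_le_expW expW_eq)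
open Crest.Agent.R122.Gate424

/-! ## Levels -/

section levels

variable {Φ : Space3 → ℝ} {ε te b₀ : ℝ} {q : ℕ → ℝ≥0∞}
variable {Θ κ : Type} [MeasurableSpace Θ] [Fintype κ]

/-- The second line is controlled by the velocities of the structure. -/
def VelE (S : SD Θ κ) (B : ℝ) : Prop :=
  ∀ᵐ θ ∂S.m, ‖(S.pr θ).2.2.2‖ ≤ B * (1 + ∑ i, ‖(S.z θ i).2‖)

theorem expW_mono {a a' : ℝ} (h : a ≤ a') (z : κ → PhasePoint) : expW a z ≤ expW a' z := by
  unfold expW
  refine Finset.prod_le_prod' fun j _ => ENNReal.ofReal_le_ofReal (Real.exp_le_exp.2 ?_)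
  exact mul_le_mul_of_nonneg_right h (sq_nonneg _)

theorem expW_zero (z : κ → PhasePoint) : expW 0 z = 1 := by
  unfold expW
  simp

theorem expW_step (a : ℝ) (S : SD Θ κ) (x : Θ × Fr) : expW a ((S.step Φ ε b₀ te q).z x) =
    expW a (S.z x.1) * ENNReal.ofReal (Real.exp (a * ‖x.2.1.2‖ ^ 2)) := by
  unfold expW
  rw [Fintype.prod_sum_type, Fintype.prod_unique (ι := Unit)]
  rfl

/-- Functionals of the old structure and of the fresh particle. -/
theorem lintegral_step_fst {S : SD Θ κ} [SFinite S.m] (hΦ : AdmissiblePotential Φ)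
    (h : Measurable S.pr) {G : Θ × PhasePoint → ℝ≥0∞} (hG : Measurable G) :
    ∫⁻ x, G (x.1, x.2.1) ∂(S.step Φ ε b₀ te q).m = (3 * ∑' m, q m) *
      ∫⁻ θ, activity ε * (∫⁻ c : PhasePoint, (hitS ε te).indicator
        (fun x => gau b₀ x.1.2 * G (θ, x.1)) (c, (S.pr θ).2)) ∂S.m := by
  have hF : Measurable fun x : Θ × Fr => G (x.1, x.2.1) :=
    hG.comp (measurable_fst.prodMk measurable_snd.fst)
  rw [lintegral_step hΦ h hF]
  have hs := measurable_hit (S := S) hΦ h ε te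
  have hFi := hF.indicator hs
  have e1 : ∀ θ, ∫⁻ r, (S.hit ε te).indicator (fun x : Θ × Fr => G (x.1, x.2.1)) (θ, r)
      ∂frM b₀ q = (3 * ∑' m, q m) * ∫⁻ c : PhasePoint, (hitS ε te).indicator
        (fun x => gau b₀ x.1.2 * G (θ, x.1)) (c, (S.pr θ).2) := by
    intro θ
    rw [lintegral_frM (F := fun r => (S.hit ε te).indicator
      (fun x : Θ × Fr => G (x.1, x.2.1)) (θ, r)) (hFi.comp (measurable_const.prodMk measurable_id))]
    have e2 : ∀ (m : ℕ) (k : Option Bool), ∫⁻ c : PhasePoint, gau b₀ c.2 *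
        (S.hit ε te).indicator (fun x : Θ × Fr => G (x.1, x.2.1)) (θ, (c, (m, k))) =
        ∫⁻ c : PhasePoint, (hitS ε te).indicator
          (fun x => gau b₀ x.1.2 * G (θ, x.1)) (c, (S.pr θ).2) := by
      intro m k
      refine lintegral_congr fun c => ?_
      by_cases hc : (c, (S.pr θ).2) ∈ hitS ε te
      · rw [indicator_of_mem hc,
          indicator_of_mem (show ((θ, (c, (m, k))) : Θ × Fr) ∈ S.hit ε te from hc)]
      · rw [indicator_of_notMem hc,
          indicator_of_notMem (show ((θ, (c, (m, k))) : Θ × Fr) ∉ S.hit ε te from hc), mul_zero]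
    simp only [e2, ENNReal.tsum_mul_right, Finset.sum_const, Finset.card_univ,
      Fintype.card_option, Fintype.card_bool, nsmul_eq_mul]
    rw [mul_assoc]
    norm_num
  simp only [e1]
  have hm : Measurable fun θ => ∫⁻ c : PhasePoint, (hitS ε te).indicator
        (fun x => gau b₀ x.1.2 * G (θ, x.1)) (c, (S.pr θ).2) := by
    have hs2 : MeasurableSet {p : Θ × PhasePoint | (p.2, (S.pr p.1).2) ∈ hitS ε te} := by
      have h1 : Measurable fun p : Θ × PhasePoint => ((p.2, (S.pr p.1).2) : PhasePoint × LSt) :=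
        measurable_snd.prodMk (h.comp measurable_fst).snd
      exact h1 (measurableSet_hitS hΦ ε te)
    have h2 : Measurable fun p : Θ × PhasePoint => (hitS ε te).indicator
        (fun x => gau b₀ x.1.2 * G (p.1, x.1)) (p.2, (S.pr p.1).2) := by
      have h3 : (fun p : Θ × PhasePoint => (hitS ε te).indicator
          (fun x => gau b₀ x.1.2 * G (p.1, x.1)) (p.2, (S.pr p.1).2)) =
          {p : Θ × PhasePoint | (p.2, (S.pr p.1).2) ∈ hitS ε te}.indicator
            (fun p => gau b₀ p.2.2 * G p) := by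
        funext p
        by_cases hp : (p.2, (S.pr p.1).2) ∈ hitS ε te
        · rw [indicator_of_mem hp, indicator_of_mem (show p ∈ {p : Θ × PhasePoint |
            (p.2, (S.pr p.1).2) ∈ hitS ε te} from hp)]
        · rw [indicator_of_notMem hp, indicator_of_notMem (show p ∉ {p : Θ × PhasePoint |
            (p.2, (S.pr p.1).2) ∈ hitS ε te} from hp)]
      rw [h3]
      exact ((((measurable_gau b₀).comp measurable_snd.snd)).mul hG).indicator hs2
    exact h2.lintegral_prod_right'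
  rw [lintegral_const_mul _ hm, lintegral_const_mul _ hm]
  ring

/-- **One level.** -/
theorem marg_step (hΦ : AdmissiblePotential Φ) {a a' : ℝ} (ha : a < b₀) (haa : a < a')
    (te B : ℝ) (κ : Type) [Fintype κ] :
    ∃ C : ℝ≥0∞, C ≠ ∞ ∧ ∀ ε : ℝ, 0 < ε → ∀ (q : ℕ → ℝ≥0∞) (Θ : Type) [MeasurableSpace Θ]
      (S : SD Θ κ), S.Ok → VelE S B → ∀ G : Θ → ℝ≥0∞, Measurable G →
        ∫⁻ x, G x.1 * expW a ((S.step Φ ε b₀ te q).z x) ∂(S.step Φ ε b₀ te q).m ≤
          C * (3 * ∑' m, q m) * ∫⁻ θ, G θ * expW a' (S.z θ) ∂S.m := by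
  obtain ⟨C, hC, h⟩ := step_marg hΦ ha haa te B κ
  refine ⟨C, hC, fun ε hε q Θ _ S hS hv G hG => ?_⟩
  have := hS.sf
  have h1 := h ε hε Θ (Θ × Fr) S.m (S.step Φ ε b₀ te q).m Prod.fst (fun x => x.2.1) S.z
    (fun θ => (S.pr θ).2) (3 * ∑' m, q m) hS.mpr.snd hS.mz hv
    (fun G hG => (lintegral_step_fst hΦ hS.mpr hG).le) G hG
  simp only [expW_step]
  exact h1

/-- Projection to a lower level. -/
def prj (Θ : Type) (k : ℕ) : (i : ℕ) → Th Θ (k + i) → Th Θ k
  | 0 => fun x => x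
  | i + 1 => fun x => prj Θ k i x.1

theorem measurable_prj (k i : ℕ) : Measurable (prj Θ k i) := by
  induction i with
  | zero => exact measurable_id
  | succ i ih => exact ih.comp measurable_fst

/-- **marg_le.** -/
theorem marg_iter (hΦ : AdmissiblePotential Φ) (te B : ℝ) {Q : ℝ≥0∞} (hQ : Q ≠ ∞) (k i : ℕ) :
    ∀ {a a' : ℝ}, a < a' → a' ≤ b₀ → ∃ C : ℝ≥0∞, C ≠ ∞ ∧ ∀ ε : ℝ, 0 < ε →
      ∀ (q : ℕ → ℝ≥0∞), ∑' m, q m ≤ Q → ∀ (S : SD Θ κ), S.Ok →
        (∀ l, VelE (S.iter Φ ε b₀ te q l) B) → ∀ G : Th Θ k → ℝ≥0∞, Measurable G →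
        ∫⁻ x, G (prj Θ k i x) * expW a ((S.iter Φ ε b₀ te q (k + i)).z x)
            ∂(S.iter Φ ε b₀ te q (k + i)).m ≤
          C * ∫⁻ θ, G θ * expW a' ((S.iter Φ ε b₀ te q k).z θ) ∂(S.iter Φ ε b₀ te q k).m := by
  induction i with
  | zero =>
    intro a a' haa _
    refine ⟨1, ENNReal.one_ne_top, fun ε hε q hq S hS hv G hG => ?_⟩
    rw [one_mul]
    exact lintegral_mono fun θ => mul_le_mul_right (expW_mono haa.le _) _
  | succ i ih =>
    intro a a' haa hb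
    have h1 : a < (a + a') / 2 := by linarith
    have h2 : (a + a') / 2 < a' := by linarith
    obtain ⟨C₁, hC₁, hstep⟩ := marg_step (b₀ := b₀) hΦ (haa.trans_le hb) h1 te B (Ka κ (k + i))
    obtain ⟨C₂, hC₂, hih⟩ := ih h2 hb
    refine ⟨C₁ * (3 * Q) * C₂, ENNReal.mul_ne_top (ENNReal.mul_ne_top hC₁
      (ENNReal.mul_ne_top (by simp) hQ)) hC₂, fun ε hε q hq S hS hv G hG => ?_⟩
    have hok : (S.iter Φ ε b₀ te q (k + i)).Ok := hS.iter hΦ (k + i)
    calc ∫⁻ x, G (prj Θ k (i + 1) x) * expW a ((S.iter Φ ε b₀ te q (k + (i + 1))).z x)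
            ∂(S.iter Φ ε b₀ te q (k + (i + 1))).m
        ≤ C₁ * (3 * ∑' m, q m) * ∫⁻ θ, G (prj Θ k i θ) *
          expW ((a + a') / 2) ((S.iter Φ ε b₀ te q (k + i)).z θ)
            ∂(S.iter Φ ε b₀ te q (k + i)).m :=
          hstep ε hε q (Th Θ (k + i)) (S.iter Φ ε b₀ te q (k + i)) hok (hv (k + i))
            (fun x => G (prj Θ k i x)) (hG.comp (measurable_prj k i))
      _ ≤ C₁ * (3 * Q) * (C₂ * ∫⁻ θ, G θ * expW a' ((S.iter Φ ε b₀ te q k).z θ)
            ∂(S.iter Φ ε b₀ te q k).m) :=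
          mul_le_mul' (mul_le_mul_right (mul_le_mul_right hq _) _) (hih ε hε q hq S hS hv G hG)
      _ = _ := by ring

/-- **marg_le** without weight at the upper level. -/
theorem marg_le (hΦ : AdmissiblePotential Φ) (te B : ℝ) {Q : ℝ≥0∞} (hQ : Q ≠ ∞) (k i : ℕ)
    {a' : ℝ} (ha' : 0 < a') (hb : a' ≤ b₀) : ∃ C : ℝ≥0∞, C ≠ ∞ ∧ ∀ ε : ℝ, 0 < ε →
      ∀ (q : ℕ → ℝ≥0∞), ∑' m, q m ≤ Q → ∀ (S : SD Θ κ), S.Ok →
        (∀ l, VelE (S.iter Φ ε b₀ te q l) B) → ∀ G : Th Θ k → ℝ≥0∞, Measurable G →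
        ∫⁻ x, G (prj Θ k i x) ∂(S.iter Φ ε b₀ te q (k + i)).m ≤
          C * ∫⁻ θ, G θ ∂((S.iter Φ ε b₀ te q k).m.withDensity
            fun θ => expW a' ((S.iter Φ ε b₀ te q k).z θ)) := by
  obtain ⟨C, hC, h⟩ := marg_iter (Θ := Θ) (κ := κ) hΦ te B hQ k i ha' hb
  refine ⟨C, hC, fun ε hε q hq S hS hv G hG => ?_⟩
  have h1 := h ε hε q hq S hS hv G hG
  simp only [expW_zero, mul_one] at h1
  have hok : (S.iter Φ ε b₀ te q k).Ok := hS.iter hΦ k
  have hm : Measurable fun θ => expW a' ((S.iter Φ ε b₀ te q k).z θ) :=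
    (measurable_expW a').comp hok.mz
  rw [lintegral_withDensity_eq_lintegral_mul _ hm hG]
  refine h1.trans (le_of_eq ?_)
  congr 1
  refine lintegral_congr fun θ => ?_
  rw [Pi.mul_apply, mul_comm]

end levels

/-! ## Null events of lower levels -/

section pull

variable {f₀ : PhasePoint → ℝ} {I Θ Θ' : Type} [MeasurableSpace Θ] [MeasurableSpace Θ']
  {m : ℝ → I → Measure Θ} {m' : ℝ → I → Measure Θ'} {pr : ℝ → I → Θ' → Θ}
  {E : ℝ → I → (n : ℕ) → Θ → Config n → Prop} {C δ : ℝ≥0∞}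

/-- Pull-back of null events. -/
theorem gle_pull (hf : Measurable f₀) (hpr : ∀ ε i, 0 < ε → Measurable (pr ε i))
    (hm : ∀ ε i, 0 < ε → ∀ F : Θ → ℝ≥0∞, Measurable F →
      ∫⁻ x, F (pr ε i x) ∂m' ε i ≤ C * ∫⁻ θ, F θ ∂m ε i) (h : GLe f₀ m E δ) :
    GLe f₀ m' (fun ε i n x w => E ε i n (pr ε i x) w) (C * δ) := by
  obtain ⟨ε₀, h0, h⟩ := h
  refine ⟨ε₀, h0, fun ε hε hlt i => ?_⟩
  obtain ⟨G, hGm, hG, hGi⟩ := h ε hε hlt i
  refine ⟨fun n p => G n (pr ε i p.1, p.2), fun n => ?_, ?_, ?_⟩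
  · exact (hGm n).comp (((hpr ε i hε).comp measurable_fst).prodMk measurable_snd)
  · intro n x w hw hE
    exact hG n _ w hw hE
  · have hgm : Measurable fun θ => gcE f₀ ε (fun n w => G n (θ, w)) :=
      BadHit370.measurable_gcE_param hf ε (F := fun n θ w => G n (θ, w)) fun n => hGm n
    exact (hm ε i hε _ hgm).trans (mul_le_mul_right hGi _)

theorem gnull_pull (hf : Measurable f₀) (hpr : ∀ ε i, 0 < ε → Measurable (pr ε i))
    (hC : C ≠ ∞) (hm : ∀ ε i, 0 < ε → ∀ F : Θ → ℝ≥0∞, Measurable F →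
      ∫⁻ x, F (pr ε i x) ∂m' ε i ≤ C * ∫⁻ θ, F θ ∂m ε i) (h : GNull f₀ m E) :
    GNull f₀ m' (fun ε i n x w => E ε i n (pr ε i x) w) := by
  intro δ hδ
  have hC' : C + 1 ≠ ∞ := ENNReal.add_ne_top.2 ⟨hC, ENNReal.one_ne_top⟩
  have h1 := gle_pull hf hpr hm (h (δ / (C + 1)) (ENNReal.div_pos hδ.ne' hC'))
  refine h1.mono ?_ ⟨1, one_pos, fun _ _ _ _ _ _ _ _ h => h⟩
  calc C * (δ / (C + 1)) ≤ (C + 1) * (δ / (C + 1)) := by gcongr; exact le_self_add
    _ = δ := ENNReal.mul_div_cancel (by simp) hC'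

end pull

/-! ## Weights -/

section weight

variable {T γ a : ℝ} {ρ : Space3 → ℝ≥0∞} {c cv : ℝ≥0∞} {I Θ κ : Type} [MeasurableSpace Θ]
  [Fintype κ] {m : ℝ → I → Measure Θ} {b : ℝ → I → Θ → κ → ℝ} {z : ℝ → I → Θ → κ → PhasePoint}
  {Tr : ℝ → I → Space3 → Θ → Θ} {d : ℝ → I → Θ → LSt} {te : I → ℝ}
  {Λ : Measure (κ → ℝ)}

theorem tinvS_weight {m : Measure Θ} {Tr : Space3 → Θ → Θ} {b : Θ → κ → ℝ}
    {z : Θ → κ → PhasePoint} {d : Θ → LSt} (h : TInvS m Tr b z d) {W : Θ → ℝ≥0∞}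
    (hW : Measurable W) (hWi : ∀ a θ, W (Tr a θ) = W θ) :
    TInvS (m.withDensity W) Tr b z d where
  mT := h.mT
  inv a := by
    have hTa : Measurable (Tr a) := h.mT.comp (measurable_const.prodMk measurable_id)
    refine Measure.ext_of_lintegral _ fun F hF => ?_
    have hFT : Measurable fun x => F (Tr a x) := hF.comp hTa
    rw [lintegral_map hF hTa, lintegral_withDensity_eq_lintegral_mul _ hW hFT,
      lintegral_withDensity_eq_lintegral_mul _ hW hF]
    conv_rhs => rw [← h.inv a]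
    rw [lintegral_map (hW.mul hF) hTa]
    refine lintegral_congr fun θ => ?_
    simp only [Pi.mul_apply, Function.comp_apply, hWi]
  mb := h.mb
  mz := h.mz
  md := h.md
  b_tr := h.b_tr
  z_tr := h.z_tr
  d_tr := h.d_tr

/-- Invariant weights below an exponential of the velocities. -/
theorem _root_.Crest.Agent.R122.LN2.TouchHyp.weight (H : TouchHyp T γ a ρ c cv Λ m b z Tr d te)
    {W : ℝ → I → Θ → ℝ≥0∞} {a' : ℝ} {c' : ℝ≥0∞} (hc' : c' ≠ ∞) (ha : a < γ - a')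
    (hW : ∀ ε i, Measurable (W ε i)) (hWi : ∀ ε i, 0 < ε → ∀ x θ, W ε i (Tr ε i x θ) = W ε i θ)
    (hle : ∀ ε i θ, W ε i θ ≤ c' * expW a' (z ε i θ)) :
    TouchHyp T (γ - a') a ρ (c' * c) cv Λ (fun ε i => (m ε i).withDensity (W ε i)) b z Tr d te where
  sf ε i := by
    have := H.sf ε i
    infer_instance
  dom ε i hε := (H.dom ε i hε).weight a' (hW ε i) (hle ε i) hc'
  tr ε i hε := tinvS_weight (H.tr ε i hε) (hW ε i) (hWi ε i hε)
  birth ε i hε := (withDensity_absolutelyContinuous _ _).ae_le (H.birth ε i hε)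
  vel ε i hε := (withDensity_absolutelyContinuous _ _).ae_le (H.vel ε i hε)
  hor := H.hor
  cf := ENNReal.mul_ne_top hc' H.cf
  cvf := H.cvf
  aγ := ha

end weight

end Crest.Agent.R122.Marg494

end
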