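import Crest.Agent.R122.PairRep_581
import Crest.Agent.R122.LinkGate2_424
import Crest.Agent.R122.LN2Inst_473

/-!
# Row 122, inequality 3, null facts of the pair laws (helper581): admissible shapes

* `ShpOk γ β ρ S` : the facts about the structures of the shape `S` which the null facts use
  (domination, translation invariance, energy of the two lines, pinned exponential moment).
* `ShpOk.tInv_d`, `ShpOk.tInv_e`, `ShpOk.touchHyp` : the forms of helper473.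
-/

set_option autoImplicit false
set_option linter.unusedSectionVars false

open MeasureTheory Set Filter Topology
open scoped Classical ENNReal
open Crest.AnalysisR.Kinetic

noncomputable section

namespace Crest.Agent.R122.PairRep581

open Crest.Agent.R122.GC311 Crest.Agent.R122.Kin796 Crest.Agent.R122.Kin796.CTree
open Crest.Agent.R122.Tree674 Crest.Agent.R122.EDefs602
open Crest.Agent.R122.Gate424 Crest.Agent.R122.Gate973 Crest.Agent.R122.LN2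
open Crest.Agent.R122.Boost969 (LSt)
open Crest.Agent.R122.Pair292 (Lab shP shL shM)
open Crest.Agent.R122.PairD292

/-- **Admissible shape.** -/
structure ShpOk (γ β : ℝ) (ρ : Space3 → ℝ≥0∞) (S : Shp) : Prop where
  sf : ∀ ε, SFinite (S.m ε)
  mth : ∀ ε, 0 < ε → Measurable (S.th ε)
  dom : ∃ (c : ℝ≥0∞) (Λ : Measure (S.κ → ℝ)), c ≠ ∞ ∧ IsFiniteMeasure Λ ∧
    ∀ ε, 0 < ε → Dom γ ρ ε 1 ∅ c Λ (S.m ε) (S.b ε) (S.z ε)
  mT : Measurable fun q : Space3 × S.Θ => S.Tr q.1 q.2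
  inv : ∀ ε, 0 < ε → ∀ a, (S.m ε).map (S.Tr a) = S.m ε
  b_tr : ∀ ε, 0 < ε → ∀ a x, S.b ε (S.Tr a x) = S.b ε x
  z_tr : ∀ ε, 0 < ε → ∀ a x, S.z ε (S.Tr a x) = shX a (S.z ε x)
  th_tr : ∀ ε, 0 < ε → ∀ a x, S.th ε (S.Tr a x) = shP a (S.th ε x)
  birth : ∀ ε, 0 < ε → ∀ᵐ x ∂(S.m ε), 0 ≤ (dL (S.th ε x)).1.1 ∧ 0 ≤ (eL (S.th ε x)).1.1
  vel : ∀ ε, 0 < ε → ∀ᵐ x ∂(S.m ε),
    ‖(dL (S.th ε x)).1.2.2‖ ^ 2 ≤ ∑ i, ‖(S.z ε x i).2‖ ^ 2 ∧
    ‖(eL (S.th ε x)).1.2.2‖ ^ 2 ≤ ∑ i, ‖(S.z ε x i).2‖ ^ 2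
  pin : ∃ (j₀ : S.κ) (M : ℝ≥0∞), M ≠ ∞ ∧ ∀ ε, 0 < ε →
    ∫⁻ x, chi (S.z ε x j₀).1 * expW β (S.z ε x) ∂(S.m ε) ≤ M

variable {γ β : ℝ} {ρ : Space3 → ℝ≥0∞} {S : Shp}

theorem one_add_le_expW {κ : Type} [Fintype κ] {a : ℝ} (ha : 0 < a) {z : κ → PhasePoint}
    {v : Space3} (h : ‖v‖ ^ 2 ≤ ∑ i, ‖(z i).2‖ ^ 2) :
    ENNReal.ofReal (1 + ‖v‖) ≤ ENNReal.ofReal (2 * Real.exp (1 / a)) * expW a z := by
  rw [DomForest998.expW_eq, ← ENNReal.ofReal_mul (by positivity)]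
  refine ENNReal.ofReal_le_ofReal ?_
  have h1 : ‖v‖ ≤ 1 / a + a * ‖v‖ ^ 2 := by
    have h3 : 0 ≤ (a * ‖v‖ - 1) ^ 2 := sq_nonneg _
    have h4 : 0 ≤ ‖v‖ := norm_nonneg v
    have h5 : a * ‖v‖ ≤ 1 + a ^ 2 * ‖v‖ ^ 2 := by nlinarith [mul_nonneg ha.le h4]
    have h6 : ‖v‖ = (a * ‖v‖) / a := by field_simp
    rw [h6]
    calc (a * ‖v‖) / a ≤ (1 + a ^ 2 * ‖v‖ ^ 2) / a := by gcongr
      _ = 1 / a + a * ‖v‖ ^ 2 := by field_simp
      _ = 1 / a + a * (a * ‖v‖ / a) ^ 2 := by rw [← h6]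
  have h2 : a * ‖v‖ ^ 2 ≤ a * ∑ i, ‖(z i).2‖ ^ 2 := mul_le_mul_of_nonneg_left h ha.le
  have h0 : ‖v‖ ≤ Real.exp ‖v‖ := (Real.add_one_le_exp _).trans' (by linarith)
  have h00 : (1 : ℝ) ≤ Real.exp ‖v‖ := Real.one_le_exp (norm_nonneg v)
  calc 1 + ‖v‖ ≤ 2 * Real.exp ‖v‖ := by linarith
    _ ≤ 2 * Real.exp (1 / a + a * ∑ i, ‖(z i).2‖ ^ 2) := by
        have := Real.exp_le_exp.2 (h1.trans (add_le_add le_rfl h2))
        linarith
    _ = 2 * Real.exp (1 / a) * Real.exp (a * ∑ i, ‖(z i).2‖ ^ 2) := by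
        rw [Real.exp_add]
        ring

theorem expW_add (a a' : ℝ) {κ : Type} [Fintype κ] (z : κ → PhasePoint) :
    expW (a + a') z = expW a z * expW a' z := by
  unfold expW
  rw [← Finset.prod_mul_distrib]
  refine Finset.prod_congr rfl fun j _ => ?_
  rw [← ENNReal.ofReal_mul (Real.exp_pos _).le, ← Real.exp_add]
  congr 2
  ring

theorem expW_mono {a a' : ℝ} (h : a ≤ a') {κ : Type} [Fintype κ] (z : κ → PhasePoint) :
    expW a z ≤ expW a' z := by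
  rw [DomForest998.expW_eq, DomForest998.expW_eq]
  exact ENNReal.ofReal_le_ofReal (Real.exp_le_exp.2 (mul_le_mul_of_nonneg_right h
    (Finset.sum_nonneg fun _ _ => sq_nonneg _)))

theorem one_le_expW {a : ℝ} (h : 0 ≤ a) {κ : Type} [Fintype κ] (z : κ → PhasePoint) :
    1 ≤ expW a z := by
  have h1 := expW_mono h z
  have h2 : expW 0 z = 1 := by
    unfold expW
    simp
  rwa [h2] at h1

theorem expW_shX (a : ℝ) {κ : Type} [Fintype κ] (x : Space3) (z : κ → PhasePoint) :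
    expW a (shX x z) = expW a z := by
  unfold expW
  simp only [shX_apply]

theorem measurable_dLx (h : ShpOk γ β ρ S) {ε : ℝ} (hε : 0 < ε) :
    Measurable fun x => (dL (S.th ε x)).1 :=
  (measurable_fst.fst.comp (h.mth ε hε)).fst

theorem measurable_eLx (h : ShpOk γ β ρ S) {ε : ℝ} (hε : 0 < ε) :
    Measurable fun x => (eL (S.th ε x)).1 :=
  measurable_snd.comp (h.mth ε hε)

theorem ShpOk.mb (h : ShpOk γ β ρ S) {ε : ℝ} (hε : 0 < ε) : Measurable (S.b ε) := by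
  obtain ⟨c, Λ, _, _, hd⟩ := h.dom
  exact (hd ε hε).mb

theorem ShpOk.mz (h : ShpOk γ β ρ S) {ε : ℝ} (hε : 0 < ε) : Measurable (S.z ε) := by
  obtain ⟨c, Λ, _, _, hd⟩ := h.dom
  exact (hd ε hε).mz

/-- Translation invariance with the first line. -/
theorem ShpOk.tInv_d (h : ShpOk γ β ρ S) {ε : ℝ} (hε : 0 < ε) :
    TInvS (S.m ε) S.Tr (S.b ε) (S.z ε) (fun x => (dL (S.th ε x)).1) where
  mT := h.mT
  inv := h.inv ε hε
  mb := h.mb hε
  mz := h.mz hε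
  md := measurable_dLx h hε
  b_tr := h.b_tr ε hε
  z_tr := h.z_tr ε hε
  d_tr a x := by rw [h.th_tr ε hε]; rfl

/-- Translation invariance with the second line. -/
theorem ShpOk.tInv_e (h : ShpOk γ β ρ S) {ε : ℝ} (hε : 0 < ε) :
    TInvS (S.m ε) S.Tr (S.b ε) (S.z ε) (fun x => (eL (S.th ε x)).1) where
  mT := h.mT
  inv := h.inv ε hε
  mb := h.mb hε
  mz := h.mz hε
  md := measurable_eLx h hε
  b_tr := h.b_tr ε hε
  z_tr := h.z_tr ε hε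
  d_tr a x := by rw [h.th_tr ε hε]; rfl

/-- The hypotheses of helper473 for the first line. -/
theorem ShpOk.touchHyp (h : ShpOk γ β ρ S) {a : ℝ} (ha : 0 < a) (haγ : a < γ) {T te : ℝ}
    (hte : te ≤ T) : ∃ (c : ℝ≥0∞) (Λ : Measure (S.κ → ℝ)), IsFiniteMeasure Λ ∧
    TouchHyp T γ a ρ c (ENNReal.ofReal (2 * Real.exp (1 / a))) Λ S.mI (fun ε _ => S.b ε)
      (fun ε _ => S.z ε) (fun _ _ => S.Tr) (fun ε _ x => (dL (S.th ε x)).1) fun _ => te := by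
  obtain ⟨c, Λ, hc, hΛ, hd⟩ := h.dom
  exact ⟨c, Λ, hΛ, fun ε _ => h.sf ε, fun ε _ hε => hd ε hε, fun ε _ hε => h.tInv_d hε,
    fun ε _ hε => (h.birth ε hε).mono fun x hx => hx.1,
    fun ε _ hε => (h.vel ε hε).mono fun x hx => one_add_le_expW ha hx.1,
    fun _ => hte, hc, ENNReal.ofReal_ne_top, haγ⟩

/-- The same for the second line. -/
theorem ShpOk.touchHyp_e (h : ShpOk γ β ρ S) {a : ℝ} (ha : 0 < a) (haγ : a < γ) {T te : ℝ}
    (hte : te ≤ T) : ∃ (c : ℝ≥0∞) (Λ : Measure (S.κ → ℝ)), IsFiniteMeasure Λ ∧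
    TouchHyp T γ a ρ c (ENNReal.ofReal (2 * Real.exp (1 / a))) Λ S.mI (fun ε _ => S.b ε)
      (fun ε _ => S.z ε) (fun _ _ => S.Tr) (fun ε _ x => (eL (S.th ε x)).1) fun _ => te := by
  obtain ⟨c, Λ, hc, hΛ, hd⟩ := h.dom
  exact ⟨c, Λ, hΛ, fun ε _ => h.sf ε, fun ε _ hε => hd ε hε, fun ε _ hε => h.tInv_e hε,
    fun ε _ hε => (h.birth ε hε).mono fun x hx => hx.2,
    fun ε _ hε => (h.vel ε hε).mono fun x hx => one_add_le_expW ha hx.2,
    fun _ => hte, hc, ENNReal.ofReal_ne_top, haγ⟩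

end Crest.Agent.R122.PairRep581

end
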