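import Crest.Agent.R122.ShpN_998
import Crest.Agent.R122.ShpOk_581
import Crest.Agent.R122.Marg_494

/-!
# Admissible shapes: all continuations (row 122, block H4), helper998

* `ofShp S ε` : structure data of a shape (helper581); `itS S Φ b₀ te q j` : shape of the `j`-th
  continuation.
* `ShpOk.iter` : `ShpOk γ β ρ S → ShpOk γ β' ρ (itS S Φ b₀ te q j)`, `β' < β ≤ b₀`, `γ ≤ b₀`.
* `rep_itS` : representation of `bindN (ν ε) (K3 ..) j`.
* `pin_iter` : pinned exponential moments.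
-/

set_option autoImplicit false
set_option linter.unusedSectionVars false
set_option maxHeartbeats 400000

open MeasureTheory ProbabilityTheory Set Filter
open scoped ENNReal Classical Topology
open Crest.AnalysisR.Kinetic
open Crest.Agent.R122.Kin796 Crest.Agent.R122.GC311
open Crest.Agent.R122.EDefs602
open Crest.Agent.R122.Boost969 (LSt posAt SprL)
open Crest.Agent.R122.Kin416 (gau measurable_gau)
open Crest.Agent.R122.Pair292 hiding ML
open Crest.Agent.R122.PairD292 (dL eL)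
open Crest.Agent.R122.LN2
open Crest.Agent.R122.PairReal998
open Crest.Agent.R122.PairRep581 hiding one_add_le_expW expW_mono
open Crest.Agent.R122.Marg494

noncomputable section

namespace Crest.Agent.R122.StrN998

variable {Φ : Space3 → ℝ} {ε te b₀ : ℝ} {q : ℕ → ℝ≥0∞}

/-! ## Velocities of the second line -/

section vel

variable {Θ κ : Type} [MeasurableSpace Θ] [Fintype κ] {S : SD Θ κ}

theorem norm_le_sum {v : Space3} {z : κ → PhasePoint} (h : ‖v‖ ^ 2 ≤ ∑ i, ‖(z i).2‖ ^ 2) :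
    ‖v‖ ≤ 1 * (1 + ∑ i, ‖(z i).2‖) := by
  have h1 : ∑ i, ‖(z i).2‖ ^ 2 ≤ (∑ i, ‖(z i).2‖) ^ 2 :=
    Finset.sum_sq_le_sq_sum_of_nonneg fun i _ => norm_nonneg _
  have h0 : 0 ≤ ∑ i, ‖(z i).2‖ := Finset.sum_nonneg fun i _ => norm_nonneg _
  have h2 : ‖v‖ ≤ ∑ i, ‖(z i).2‖ := by
    refine le_of_sq_le_sq ?_ h0
    exact h.trans h1
  linarith

theorem SD.Phys.velE (h : S.Phys) : VelE S 1 := by
  filter_upwards [h.ve] with θ hθ
  exact norm_le_sum hθ

end vel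

/-! ## Pinned moments -/

/-- Old labels after `j` steps. -/
def embK (κ : Type) : (j : ℕ) → κ → Ka κ j
  | 0 => id
  | j + 1 => fun i => Sum.inl (embK κ j i)

section pin

variable {Θ κ : Type} [MeasurableSpace Θ] [Fintype κ]

/-- **Pinned moments of all levels.** -/
theorem pin_iter (hΦ : AdmissiblePotential Φ) (te B : ℝ) {Q : ℝ≥0∞} (hQ : Q ≠ ∞) (j : ℕ) :
    ∀ {a a' : ℝ}, a < a' → a' ≤ b₀ → ∃ C : ℝ≥0∞, C ≠ ∞ ∧ ∀ ε : ℝ, 0 < ε →
      ∀ (q : ℕ → ℝ≥0∞), ∑' m, q m ≤ Q → ∀ (S : SD Θ κ), S.Ok →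
        (∀ l, VelE (S.iter Φ ε b₀ te q l) B) → ∀ g : PhasePoint → ℝ≥0∞, Measurable g →
        ∀ j₀ : κ,
        ∫⁻ x, g ((S.iter Φ ε b₀ te q j).z x (embK κ j j₀)) *
            expW a ((S.iter Φ ε b₀ te q j).z x) ∂(S.iter Φ ε b₀ te q j).m ≤
          C * ∫⁻ θ, g (S.z θ j₀) * expW a' (S.z θ) ∂S.m := by
  induction j with
  | zero =>
    intro a a' haa _
    refine ⟨1, ENNReal.one_ne_top, fun ε hε q hq S hS hv g hg j₀ => ?_⟩
    rw [one_mul]
    exact lintegral_mono fun θ => mul_le_mul_right (expW_mono haa.le _) _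
  | succ j ih =>
    intro a a' haa hb
    have h1 : a < (a + a') / 2 := by linarith
    have h2 : (a + a') / 2 < a' := by linarith
    obtain ⟨C₁, hC₁, hstep⟩ := marg_step (b₀ := b₀) hΦ (haa.trans_le hb) h1 te B (Ka κ j)
    obtain ⟨C₂, hC₂, hih⟩ := ih h2 hb
    refine ⟨C₁ * (3 * Q) * C₂, ENNReal.mul_ne_top (ENNReal.mul_ne_top hC₁
      (ENNReal.mul_ne_top (by simp) hQ)) hC₂, fun ε hε q hq S hS hv g hg j₀ => ?_⟩
    have hok : (S.iter Φ ε b₀ te q j).Ok := hS.iter hΦ j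
    calc ∫⁻ x, g ((S.iter Φ ε b₀ te q (j + 1)).z x (embK κ (j + 1) j₀)) *
            expW a ((S.iter Φ ε b₀ te q (j + 1)).z x) ∂(S.iter Φ ε b₀ te q (j + 1)).m
        ≤ C₁ * (3 * ∑' m, q m) * ∫⁻ θ, g ((S.iter Φ ε b₀ te q j).z θ (embK κ j j₀)) *
          expW ((a + a') / 2) ((S.iter Φ ε b₀ te q j).z θ) ∂(S.iter Φ ε b₀ te q j).m :=
          hstep ε hε q (Th Θ j) (S.iter Φ ε b₀ te q j) hok (hv j)
            (fun x => g ((S.iter Φ ε b₀ te q j).z x (embK κ j j₀)))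
            (hg.comp ((measurable_pi_apply _).comp hok.mz))
      _ ≤ C₁ * (3 * Q) * (C₂ * ∫⁻ θ, g (S.z θ j₀) * expW a' (S.z θ) ∂S.m) :=
          mul_le_mul' (mul_le_mul_right (mul_le_mul_right hq _) _)
            (hih ε hε q hq S hS hv g hg j₀)
      _ = _ := by ring

end pin

/-! ## Shapes as structure data -/

/-- Structure data of a shape. -/
def ofShp (S : Shp) (ε : ℝ) : SD S.Θ S.κ where
  m := S.m ε
  b := S.b ε
  z := S.z ε
  Tr := S.Tr
  pr := S.th ε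

/-- **Shape of the `j`-th continuation.** -/
def itS (S : Shp) (Φ : Space3 → ℝ) (b₀ te : ℝ) (q : ℕ → ℝ≥0∞) (j : ℕ) : Shp :=
  shpN (ofShp S) S.Tr Φ b₀ te q j

theorem itS_zero (S : Shp) (Φ : Space3 → ℝ) (b₀ te : ℝ) (q : ℕ → ℝ≥0∞) :
    itS S Φ b₀ te q 0 = S := rfl

section ok

variable {γ β β' : ℝ} {ρ : Space3 → ℝ≥0∞} {S : Shp}

theorem ShpOk.sd_ok (h : ShpOk γ β ρ S) {ε : ℝ} (hε : 0 < ε) : (ofShp S ε).Ok where
  sf := h.sf ε
  mb := h.mb hε
  mz := h.mz hε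
  mT := h.mT
  mpr := h.mth ε hε
  inv := h.inv ε hε
  b_tr := h.b_tr ε hε
  z_tr := h.z_tr ε hε
  pr_tr := h.th_tr ε hε

theorem ShpOk.sd_phys (h : ShpOk γ β ρ S) {ε : ℝ} (hε : 0 < ε) : (ofShp S ε).Phys where
  bd := (h.birth ε hε).mono fun _ hx => hx.1
  be := (h.birth ε hε).mono fun _ hx => hx.2
  vd := (h.vel ε hε).mono fun _ hx => hx.1
  ve := (h.vel ε hε).mono fun _ hx => hx.2

theorem sfinite_iter {Θ κ : Type} [MeasurableSpace Θ] (S : SD Θ κ) [SFinite S.m] (j : ℕ) :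
    SFinite (S.iter Φ ε b₀ te q j).m := by
  induction j with
  | zero => exact inferInstanceAs (SFinite S.m)
  | succ j ih =>
    have := ih
    exact inferInstanceAs (SFinite ((S.iter Φ ε b₀ te q j).step Φ ε b₀ te q).m)

theorem measurable_TrN {Θ : Type} [MeasurableSpace Θ] {Tr : Space3 → Θ → Θ}
    (h : Measurable fun p : Space3 × Θ => Tr p.1 p.2) (j : ℕ) :
    Measurable fun p : Space3 × Th Θ j => TrN Tr j p.1 p.2 := by
  induction j with
  | zero => exact h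
  | succ j ih =>
    exact (ih.comp (f := fun p : Space3 × (Th Θ j × Fr) => (p.1, p.2.1))
      (measurable_fst.prodMk measurable_snd.fst)).prodMk
      (measurable_shF.comp (f := fun p : Space3 × (Th Θ j × Fr) => (p.1, p.2.2))
      (measurable_fst.prodMk measurable_snd.snd))

/-- **All continuations of an admissible shape are admissible.** -/
theorem ShpOk.iter (h : ShpOk γ β ρ S) (hΦ : AdmissiblePotential Φ) (hρ : Measurable ρ)
    (hγ : γ ≤ b₀) (hβ : β' < β) (hβb : β ≤ b₀) (hq : ∑' m, q m ≠ ∞) (j : ℕ) :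
    ShpOk γ β' ρ (itS S Φ b₀ te q j) where
  sf ε := by
    have h1 : SFinite (ofShp S ε).m := h.sf ε
    exact sfinite_iter (ofShp S ε) j
  mth ε hε := ((ShpOk.sd_ok h hε).iter hΦ j).mpr
  dom := by
    obtain ⟨c, Λ, hc, hΛ, hd⟩ := h.dom
    obtain ⟨j₀, M, hM, hp⟩ := h.pin
    refine ⟨c * (3 * ∑' m, q m) ^ j, LaN Λ j, ENNReal.mul_ne_top hc (ENNReal.pow_ne_top
      (ENNReal.mul_ne_top (by simp) hq)), instFinLaN Λ j, fun ε hε => ?_⟩
    have h1 := SD.dom_iter (te := te) (q := q) (ShpOk.sd_ok h hε) hΦ hρ hγ hε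
      (Fintype.card_pos_iff.2 ⟨j₀⟩) (hd ε hε) j
    rw [anN_empty] at h1
    exact h1
  mT := measurable_TrN h.mT j
  inv ε hε a := by
    have h1 := ((ShpOk.sd_ok h hε).iter (ε := ε) (b₀ := b₀) (te := te) (q := q) hΦ j).inv a
    rw [iter_Tr] at h1
    exact h1
  b_tr ε hε a x := by
    have h1 := ((ShpOk.sd_ok h hε).iter (ε := ε) (b₀ := b₀) (te := te) (q := q) hΦ j).b_tr a x
    rw [iter_Tr] at h1
    exact h1
  z_tr ε hε a x := by
    have h1 := ((ShpOk.sd_ok h hε).iter (ε := ε) (b₀ := b₀) (te := te) (q := q) hΦ j).z_tr a x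
    rw [iter_Tr] at h1
    exact h1
  th_tr ε hε a x := by
    have h1 := ((ShpOk.sd_ok h hε).iter (ε := ε) (b₀ := b₀) (te := te) (q := q) hΦ j).pr_tr a x
    rw [iter_Tr] at h1
    exact h1
  birth ε hε := by
    have h1 := (ShpOk.sd_phys h hε).iter (ε := ε) (b₀ := b₀) (te := te) (q := q)
      (ShpOk.sd_ok h hε) hΦ hε.le j
    filter_upwards [h1.bd, h1.be] with x hx hy using ⟨hx, hy⟩
  vel ε hε := by
    have h1 := (ShpOk.sd_phys h hε).iter (ε := ε) (b₀ := b₀) (te := te) (q := q)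
      (ShpOk.sd_ok h hε) hΦ hε.le j
    filter_upwards [h1.vd, h1.ve] with x hx hy using ⟨hx, hy⟩
  pin := by
    obtain ⟨j₀, M, hM, hp⟩ := h.pin
    obtain ⟨C, hC, hC1⟩ := pin_iter (Θ := S.Θ) (κ := S.κ) (b₀ := b₀) hΦ te 1 hq j hβ hβb
    refine ⟨embK S.κ j j₀, C * M, ENNReal.mul_ne_top hC hM, fun ε hε => ?_⟩
    have h1 := hC1 ε hε q le_rfl (ofShp S ε) (ShpOk.sd_ok h hε)
      (fun l => ((ShpOk.sd_phys h hε).iter (ShpOk.sd_ok h hε) hΦ hε.le l).velE)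
      (fun y => chi y.1) (measurable_chi.comp measurable_fst) j₀
    exact h1.trans (mul_le_mul_right (hp ε hε) _)

end ok

/-! ## Representation -/

/-- **Representation of the continuations.** -/
theorem rep_itS {ι : Type} [Fintype ι] {S : ι → Shp} {γ β : ι → ℝ} {ρ : Space3 → ℝ≥0∞}
    {ν : ℝ → Measure (Lab × LSt)} (h : Rep ν S) (hS : ∀ s, ShpOk (γ s) (β s) ρ (S s))
    (hΦ : AdmissiblePotential Φ) (hq : ∀ m, q m ≠ ∞) (j : ℕ) :
    Rep (fun ε => bindN (ν ε) (K3 Φ ε b₀ te q) j) (fun s => itS (S s) Φ b₀ te q j) :=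
  rep_iter (S := fun s => ofShp (S s)) (Tr := fun s => (S s).Tr)
    (fun s _ hε => ShpOk.sd_ok (hS s) hε) (fun s ε => (hS s).sf ε)
    (fun ε hε F hF => h.le ε hε F hF) hΦ hq j

/-- The same for the kernel of helper292. -/
theorem rep_itS_D {ι : Type} [Fintype ι] {S : ι → Shp} {γ β : ι → ℝ} {ρ : Space3 → ℝ≥0∞}
    {ν : ℝ → Measure (Lab × LSt)} (h : Rep ν S) (hS : ∀ s, ShpOk (γ s) (β s) ρ (S s))
    (hΦ : AdmissiblePotential Φ) (hq : ∀ m, q m ≠ ∞) (j : ℕ) :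
    Rep (fun ε => bindN (ν ε) (PairD292.K3 Φ ε b₀ te q) j) (fun s => itS (S s) Φ b₀ te q j) := by
  simp only [k3_eq]
  exact rep_itS h hS hΦ hq j

/-- **Representation and admissibility of the continuations.** -/
theorem rep_ok_itS {ι : Type} [Fintype ι] {S : ι → Shp} {γ β β' : ℝ} {ρ : Space3 → ℝ≥0∞}
    {ν : ℝ → Measure (Lab × LSt)} (h : Rep ν S) (hS : ∀ s, ShpOk γ β ρ (S s))
    (hΦ : AdmissiblePotential Φ) (hρ : Measurable ρ) (hγ : γ ≤ b₀) (hβ : β' < β) (hβb : β ≤ b₀)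
    (hq : ∑' m, q m ≠ ∞) (j : ℕ) :
    Rep (fun ε => bindN (ν ε) (PairD292.K3 Φ ε b₀ te q) j) (fun s => itS (S s) Φ b₀ te q j) ∧
      ∀ s, ShpOk γ β' ρ (itS (S s) Φ b₀ te q j) :=
  ⟨rep_itS_D (γ := fun _ => γ) (β := fun _ => β) h hS hΦ (fun m => ENNReal.ne_top_of_tsum_ne_top hq m) j,
    fun s => ShpOk.iter (hS s) hΦ hρ hγ hβ hβb hq j⟩

end Crest.Agent.R122.StrN998

end
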