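import Crest.Agent.R122.NuPin_998
import Crest.Agent.R122.ShpOkN_998

/-!
# Base pair law: admissibility of the base shapes from the domination (row 122, block H4), helper998
-/

set_option autoImplicit false
set_option linter.unusedSectionVars false
set_option maxHeartbeats 400000

open MeasureTheory Set Filter
open scoped ENNReal Classical Topology
open Crest.AnalysisR.Kinetic
open Crest.Agent.R122.Kin796 Crest.Agent.R122.Kin796.CTree Crest.Agent.R122.Tree674
open Crest.Agent.R122.GC311 Crest.Agent.R122.EDefs602 Crest.Agent.R122.TreeLines335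
open Crest.Agent.R122.OneC285 Crest.Agent.R122.Disc416
open Crest.Agent.R122.PairRep581 (Shp ShpOk)
open Crest.Agent.R122.Gate424 Crest.Agent.R122.Gate973 Crest.Agent.R122.LN2

noncomputable section

namespace Crest.Agent.R122.NuL735

variable {Φ : Space3 → ℝ} {ε : ℝ} {K : ℕ} {P : CTree}

/-- **The base shapes are admissible** as soon as they are dominated. -/
theorem shpOk_of_dom (hΦ : AdmissiblePotential Φ) (K : ℕ) (N : NPar) {γ β : ℝ}
    {ρ : Space3 → ℝ≥0∞} (hβ : β < N.b) (hβγ : β < N.γe) (hρ : N.ρ ≠ ∞) (P : CTree)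
    (x y : Idx P ⊕ Bool)
    (hdom : ∃ (c : ℝ≥0∞) (Λ : Measure (Idx P ⊕ Unit → ℝ)), c ≠ ∞ ∧ IsFiniteMeasure Λ ∧
      ∀ ε, 0 < ε → Dom γ ρ ε 1 ∅ c Λ (mP Φ ε K N P x y) (fun _ _ => 0) (zE Φ ε)) :
    ShpOk γ β ρ (shpB Φ K N P x y) where
  sf _ := inferInstanceAs (SFinite (mP Φ _ K N P x y))
  mth ε _ := measurable_thE hΦ ε _ x y
  dom := hdom
  mT := measurable_TrS
  inv _ _ a := mP_tr hΦ N x y a
  b_tr _ _ _ _ := rfl
  z_tr ε _ a q := zE_tr ε a q
  th_tr ε _ a q := thE_tr ε _ x y a q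
  birth ε hε := by
    filter_upwards [ae_birth hΦ hε.le N x y x, ae_birth hΦ hε.le N x y y] with q h1 h2
      using ⟨h1, h2⟩
  vel ε hε := by
    filter_upwards [ae_vel (ε := ε) hΦ N x y x, ae_vel (ε := ε) hΦ N x y y] with q h1 h2
      using ⟨h1, h2⟩
  pin := by
    obtain ⟨M, hM, h⟩ := pin_mP hΦ K N hβ hβγ hρ P x y
    exact ⟨Sum.inr (), M, hM, h⟩

end Crest.Agent.R122.NuL735

end
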