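import Crest.Agent.R122.GateF_973

/-!
# Transfer of measurable majorants along a map (row 122, H11)

Gateway majorants live on a structure space `X`, the null slots on the label space `Y`, `T : X → Y`.
For `X` standard Borel the measure `μ` is disintegrated along `T` (`exists_dis`), so that a majorant of
`F ∘ T` on `X` yields a majorant of `F` on `Y` with the same integral (`exists_maj_map`); no
measurability of `F` is needed. `fLe_map`, `fNull_map`, `gNull_map` : the classes of `GateF_973`, with a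
further parameter `a ∈ A` and a measurable contact set `C ⊆ A × Y`; `fNull_map'`, `gNull_map'` :
without parameter.
-/

set_option autoImplicit false
set_option linter.unusedSectionVars false

open MeasureTheory Set Filter ProbabilityTheory
open scoped ENNReal Classical Topology
open Crest.AnalysisR.Kinetic
open Crest.Agent.R122.GC311 Crest.Agent.R122.EDefs602 Crest.Agent.R122.Gate424
open Crest.Agent.R122.Gate973

noncomputable section

namespace Crest.Agent.R122.Dis495

variable {X Y A : Type} [MeasurableSpace X] [StandardBorelSpace X] [MeasurableSpace Y]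
  [MeasurableEq Y] [MeasurableSpace A]

/-- **Disintegration of a finite measure along a map.** -/
theorem exists_dis (μ : Measure X) [IsFiniteMeasure μ] {T : X → Y} (hT : Measurable T) :
    ∃ (κ : Kernel Y X) (N : Set Y), IsSFiniteKernel κ ∧ MeasurableSet N ∧ (μ.map T) N = 0 ∧
      (∀ y, y ∉ N → κ y univ = 1 ∧ κ y {x | T x ≠ y} = 0) ∧
      ∀ h : Y × X → ℝ≥0∞, Measurable h →
        ∫⁻ y, ∫⁻ x, h (y, x) ∂(κ y) ∂(μ.map T) = ∫⁻ x, h (T x, x) ∂μ := by
  rcases isEmpty_or_nonempty X with hX | hX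
  · refine ⟨0, univ, inferInstance, MeasurableSet.univ, ?_, fun y hy => absurd (mem_univ y) hy,
      fun h _ => ?_⟩
    · rw [Measure.eq_zero_of_isEmpty μ, Measure.map_zero]
      rfl
    · rw [Measure.eq_zero_of_isEmpty μ, Measure.map_zero, lintegral_zero_measure,
        lintegral_zero_measure]
  · set ρ : Measure (Y × X) := μ.map fun x => (T x, x) with hρ
    have hTm : Measurable fun x : X => (T x, x) := hT.prodMk measurable_id
    have hfst : ρ.fst = μ.map T := by
      rw [Measure.fst, hρ, Measure.map_map measurable_fst hTm]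
      rfl
    have hdis : ρ.fst ⊗ₘ ρ.condKernel = ρ := ρ.disintegrate ρ.condKernel
    have hint : ∀ h : Y × X → ℝ≥0∞, Measurable h →
        ∫⁻ y, ∫⁻ x, h (y, x) ∂(ρ.condKernel y) ∂(μ.map T) = ∫⁻ x, h (T x, x) ∂μ := by
      intro h hh
      rw [← hfst, ← Measure.lintegral_compProd hh, hdis, hρ, lintegral_map hh hTm]
    have hD : MeasurableSet {q : Y × X | T q.2 ≠ q.1} :=
      (measurableSet_eq_fun (hT.comp measurable_snd) measurable_fst).compl
    have hg : Measurable fun y : Y => ρ.condKernel y {x | T x ≠ y} :=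
      Kernel.measurable_kernel_prodMk_left (κ := ρ.condKernel) hD
    have hz : ∫⁻ y, ρ.condKernel y {x | T x ≠ y} ∂(μ.map T) = 0 := by
      have h1 := hint ({q : Y × X | T q.2 ≠ q.1}.indicator fun _ => 1)
        (measurable_const.indicator hD)
      have h2 : ∀ y, ∫⁻ x, ({q : Y × X | T q.2 ≠ q.1}.indicator (fun _ => (1 : ℝ≥0∞))) (y, x)
          ∂(ρ.condKernel y) = ρ.condKernel y {x | T x ≠ y} := by
        intro y
        have h3 : MeasurableSet {x | T x ≠ y} := measurable_prodMk_left hD
        rw [← lintegral_indicator_one h3]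
        rfl
      simp only [h2] at h1
      rw [h1]
      refine (lintegral_congr fun x => ?_).trans lintegral_zero
      exact indicator_of_notMem
        (show (T x, x) ∉ {q : Y × X | T q.2 ≠ q.1} from fun h => h rfl) _
    have hae := (lintegral_eq_zero_iff hg).1 hz
    refine ⟨ρ.condKernel, {y | ρ.condKernel y {x | T x ≠ y} ≠ 0}, inferInstance,
      hg (measurableSet_singleton 0).compl, ?_, fun y hy => ⟨measure_univ, ?_⟩, hint⟩
    · exact hae
    · by_contra h
      exact hy h

/-- The integral of a function above `F ∘ T` against the conditional law is above `F`. -/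
theorem le_dis {κ : Measure X} {T : X → Y} {y : Y} (h1 : κ univ = 1) (h0 : κ {x | T x ≠ y} = 0)
    {c : ℝ≥0∞} {G : X → ℝ≥0∞} (hG : ∀ x, T x = y → c ≤ G x) : c ≤ ∫⁻ x, G x ∂κ := by
  calc c = ∫⁻ _ : X, c ∂κ := by rw [lintegral_const, h1, mul_one]
    _ ≤ ∫⁻ x, G x ∂κ := by
        refine lintegral_mono_ae ?_
        have h2 : ∀ᵐ x ∂κ, T x = y := h0
        filter_upwards [h2] with x hx
        exact hG x hx

/-- Finite measures. -/
theorem exists_maj_fin {f₀ : PhasePoint → ℝ} (hf : Measurable f₀) (ε : ℝ) (α : Measure A)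
    [SFinite α] (μ : Measure X) [IsFiniteMeasure μ] {T : X → Y} (hT : Measurable T)
    {C : Set (A × Y)} (hC : MeasurableSet C) {F : (n : ℕ) → A × Y → Config n → ℝ≥0∞}
    {G : (n : ℕ) → (A × X) × Config n → ℝ≥0∞} (hG : ∀ n, Measurable (G n))
    (hFG : ∀ n a x (w : Config n), w ∈ PairExcluded ε n → F n (a, T x) w ≤ G n ((a, x), w)) :
    ∃ G' : (n : ℕ) → (A × Y) × Config n → ℝ≥0∞, (∀ n, Measurable (G' n)) ∧
      (∀ n q (w : Config n), w ∈ PairExcluded ε n → F n q w ≤ G' n (q, w)) ∧
      ∫⁻ q, gcE f₀ ε (fun n w => G' n (q, w)) ∂((α.prod (μ.map T)).restrict C) ≤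
        ∫⁻ q, gcE f₀ ε (fun n w => G n (q, w))
          ∂((α.prod μ).restrict {q : A × X | (q.1, T q.2) ∈ C}) := by
  obtain ⟨κ, N, hκ, hNm, hN0, hN, hint⟩ := exists_dis μ hT
  have hGx : ∀ n, Measurable (Function.uncurry fun (q : (A × Y) × Config n) (x : X) =>
      G n ((q.1.1, x), q.2)) := fun n => (hG n).comp
    ((measurable_fst.fst.fst.prodMk measurable_snd).prodMk measurable_fst.snd)
  set H : (n : ℕ) → (A × Y) × Config n → ℝ≥0∞ := fun n q =>
    ∫⁻ x, G n ((q.1.1, x), q.2) ∂(κ q.1.2) with hH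
  have hHm : ∀ n, Measurable (H n) := fun n =>
    Measurable.lintegral_kernel_prod_right
      (κ := κ.comap (fun q : (A × Y) × Config n => q.1.2) measurable_fst.snd) (hGx n)
  have hIm : ∀ n, Measurable fun q : (A × Y) × Config n => if q.1.2 ∈ N then (∞ : ℝ≥0∞) else 0 :=
    fun n => Measurable.ite (measurable_fst.snd hNm) measurable_const measurable_const
  refine ⟨fun n q => H n q + if q.1.2 ∈ N then ∞ else 0, fun n => (hHm n).add (hIm n), ?_, ?_⟩
  · rintro n ⟨a, y⟩ w hw
    show F n (a, y) w ≤ H n ((a, y), w) + if y ∈ N then ∞ else 0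
    by_cases hy : y ∈ N
    · rw [if_pos hy]
      simp
    · rw [if_neg hy, add_zero]
      obtain ⟨h1, h0⟩ := hN y hy
      exact le_dis (c := F n (a, y) w) (G := fun x => G n ((a, x), w)) h1 h0 fun x hx => by
        rw [← hx]; exact hFG n a x w hw
  · -- measurability
    have hC' : MeasurableSet {q : A × X | (q.1, T q.2) ∈ C} :=
      (measurable_fst.prodMk (hT.comp measurable_snd)) hC
    have m1 : Measurable fun q : A × Y => gcE f₀ ε fun n w =>
        H n (q, w) + if q.2 ∈ N then ∞ else 0 :=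
      MeasE416.measurable_gcE_of hf ε (F := fun n q w => H n (q, w) + if q.2 ∈ N then ∞ else 0)
        fun n => (hHm n).add (hIm n)
    have m2 : Measurable fun q : A × X => gcE f₀ ε fun n w => G n (q, w) :=
      MeasE416.measurable_gcE_of hf ε (F := fun n q w => G n (q, w)) fun n => hG n
    rw [← lintegral_indicator hC, ← lintegral_indicator hC',
      lintegral_prod _ (m1.indicator hC).aemeasurable,
      lintegral_prod _ (m2.indicator hC').aemeasurable]
    refine lintegral_mono fun a => ?_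
    -- the integral in `y`
    have hNae : ∀ᵐ y ∂(μ.map T), y ∉ N := by
      rw [ae_iff]
      simpa using hN0
    have hCa : MeasurableSet {q : Y × X | (a, q.1) ∈ C} :=
      (measurable_const.prodMk measurable_fst) hC
    have m3 : Measurable fun q : Y × X => ({q : Y × X | (a, q.1) ∈ C}).indicator
        (fun q => gcE f₀ ε fun n w => G n ((a, q.2), w)) q :=
      (m2.comp (measurable_const.prodMk measurable_snd)).indicator hCa
    have hfin := hint _ m3
    refine le_trans (le_of_eq ?_) (hfin.le.trans (le_of_eq ?_))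
    · refine lintegral_congr_ae ?_
      filter_upwards [hNae] with y hy
      by_cases hc : (a, y) ∈ C
      · rw [indicator_of_mem hc]
        have e1 : ∀ x, ({q : Y × X | (a, q.1) ∈ C}).indicator
            (fun q => gcE f₀ ε fun n w => G n ((a, q.2), w)) (y, x) =
              gcE f₀ ε fun n w => G n ((a, x), w) := fun x =>
          indicator_of_mem (show (y, x) ∈ {q : Y × X | (a, q.1) ∈ C} from hc) _
        simp only [e1, if_neg hy, add_zero]
        have hs : SFinite (κ y) := inferInstance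
        rw [LN2.lintegral_gcE_swap hf ε (κ y) (F := fun n x w => G n ((a, x), w)) fun n =>
          (hG n).comp ((measurable_const.prodMk measurable_fst).prodMk measurable_snd)]
      · rw [indicator_of_notMem hc]
        have e1 : ∀ x, ({q : Y × X | (a, q.1) ∈ C}).indicator
            (fun q => gcE f₀ ε fun n w => G n ((a, q.2), w)) (y, x) = 0 := fun x =>
          indicator_of_notMem (show (y, x) ∉ {q : Y × X | (a, q.1) ∈ C} from hc) _
        simp only [e1, lintegral_zero]
    · refine lintegral_congr fun x => ?_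
      rfl

/-- **Transfer of a measurable majorant along a map**, s-finite measures. -/
theorem exists_maj_map {f₀ : PhasePoint → ℝ} (hf : Measurable f₀) (ε : ℝ) (α : Measure A)
    [SFinite α] (μ : Measure X) [SFinite μ] {T : X → Y} (hT : Measurable T)
    {C : Set (A × Y)} (hC : MeasurableSet C) {F : (n : ℕ) → A × Y → Config n → ℝ≥0∞}
    {G : (n : ℕ) → (A × X) × Config n → ℝ≥0∞} (hG : ∀ n, Measurable (G n))
    (hFG : ∀ n a x (w : Config n), w ∈ PairExcluded ε n → F n (a, T x) w ≤ G n ((a, x), w)) :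
    ∃ G' : (n : ℕ) → (A × Y) × Config n → ℝ≥0∞, (∀ n, Measurable (G' n)) ∧
      (∀ n q (w : Config n), w ∈ PairExcluded ε n → F n q w ≤ G' n (q, w)) ∧
      ∫⁻ q, gcE f₀ ε (fun n w => G' n (q, w)) ∂((α.prod (μ.map T)).restrict C) ≤
        ∫⁻ q, gcE f₀ ε (fun n w => G n (q, w))
          ∂((α.prod μ).restrict {q : A × X | (q.1, T q.2) ∈ C}) := by
  choose G' hG'm hFG' hG'i using fun i : ℕ =>
    exists_maj_fin hf ε α (sfiniteSeq μ i) hT hC hG hFG
  refine ⟨fun n q => ⨅ i, G' i n q, fun n => Measurable.iInf fun i => hG'm i n,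
    fun n q w hw => le_iInf fun i => hFG' i n q w hw, ?_⟩
  have e1 : (α.prod (μ.map T)).restrict C =
      Measure.sum fun i => (α.prod ((sfiniteSeq μ i).map T)).restrict C := by
    conv_lhs => rw [← sum_sfiniteSeq μ]
    rw [Measure.map_sum (by rw [sum_sfiniteSeq]; exact hT.aemeasurable), Measure.prod_sum_right,
      Measure.restrict_sum _ hC]
  have hC' : MeasurableSet {q : A × X | (q.1, T q.2) ∈ C} :=
    (measurable_fst.prodMk (hT.comp measurable_snd)) hC
  have e2 : (α.prod μ).restrict {q : A × X | (q.1, T q.2) ∈ C} =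
      Measure.sum fun i => (α.prod (sfiniteSeq μ i)).restrict {q : A × X | (q.1, T q.2) ∈ C} := by
    conv_lhs => rw [← sum_sfiniteSeq μ]
    rw [Measure.prod_sum_right, Measure.restrict_sum _ hC']
  rw [e1, e2, lintegral_sum_measure, lintegral_sum_measure]
  refine ENNReal.tsum_le_tsum fun i => le_trans (lintegral_mono fun q => ?_) (hG'i i)
  exact gcE_mono f₀ ε fun n w _ => iInf_le _ i

variable {f₀ : PhasePoint → ℝ} {I : Type}

/-- **Transfer of the gateway classes along a map**, with a parameter and a contact set. -/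
theorem fLe_map (hf : Measurable f₀) {α : ℝ → I → Measure A} {m : ℝ → I → Measure X}
    {T : ℝ → I → X → Y} {C : ℝ → I → Set (A × Y)}
    (hα : ∀ ε i, 0 < ε → SFinite (α ε i)) (hm : ∀ ε i, 0 < ε → SFinite (m ε i))
    (hT : ∀ ε i, 0 < ε → Measurable (T ε i)) (hC : ∀ ε i, 0 < ε → MeasurableSet (C ε i))
    {F : ℝ → I → (n : ℕ) → A × Y → Config n → ℝ≥0∞} {c : ℝ≥0∞}
    (h : FLe f₀ (fun ε i => ((α ε i).prod (m ε i)).restrict
        {q : A × X | (q.1, T ε i q.2) ∈ C ε i})
      (fun ε i n q w => F ε i n (q.1, T ε i q.2) w) c) :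
    FLe f₀ (fun ε i => ((α ε i).prod ((m ε i).map (T ε i))).restrict (C ε i)) F c := by
  obtain ⟨ε₀, h0, h⟩ := h
  refine ⟨ε₀, h0, fun ε hε hlt i => ?_⟩
  obtain ⟨G, hGm, hG, hGi⟩ := h ε hε hlt i
  have := hα ε i hε
  have := hm ε i hε
  obtain ⟨G', h1, h2, h3⟩ := exists_maj_map hf ε (α ε i) (m ε i) (hT ε i hε) (hC ε i hε)
    (F := F ε i) hGm (fun n a x w hw => hG n (a, x) w hw)
  exact ⟨G', h1, h2, h3.trans hGi⟩

theorem fNull_map (hf : Measurable f₀) {α : ℝ → I → Measure A} {m : ℝ → I → Measure X}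
    {T : ℝ → I → X → Y} {C : ℝ → I → Set (A × Y)}
    (hα : ∀ ε i, 0 < ε → SFinite (α ε i)) (hm : ∀ ε i, 0 < ε → SFinite (m ε i))
    (hT : ∀ ε i, 0 < ε → Measurable (T ε i)) (hC : ∀ ε i, 0 < ε → MeasurableSet (C ε i))
    {F : ℝ → I → (n : ℕ) → A × Y → Config n → ℝ≥0∞}
    (h : FNull f₀ (fun ε i => ((α ε i).prod (m ε i)).restrict
        {q : A × X | (q.1, T ε i q.2) ∈ C ε i})
      (fun ε i n q w => F ε i n (q.1, T ε i q.2) w)) :
    FNull f₀ (fun ε i => ((α ε i).prod ((m ε i).map (T ε i))).restrict (C ε i)) F :=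
  fun δ hδ => fLe_map hf hα hm hT hC (h δ hδ)

/-- Without parameter. -/
theorem fLe_map' (hf : Measurable f₀) {m : ℝ → I → Measure X} {T : ℝ → I → X → Y}
    (hm : ∀ ε i, 0 < ε → SFinite (m ε i)) (hT : ∀ ε i, 0 < ε → Measurable (T ε i))
    {F : ℝ → I → (n : ℕ) → Y → Config n → ℝ≥0∞} {c : ℝ≥0∞}
    (h : FLe f₀ m (fun ε i n x w => F ε i n (T ε i x) w) c) :
    FLe f₀ (fun ε i => (m ε i).map (T ε i)) F c := by
  obtain ⟨ε₀, h0, h⟩ := h
  refine ⟨ε₀, h0, fun ε hε hlt i => ?_⟩
  obtain ⟨G, hGm, hG, hGi⟩ := h ε hε hlt i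
  have := hm ε i hε
  have hTm := hT ε i hε
  obtain ⟨G', h1, h2, h3⟩ := exists_maj_map hf ε (Measure.dirac ()) (m ε i) (T := T ε i) hTm
    (C := univ) MeasurableSet.univ (F := fun n (q : Unit × Y) w => F ε i n q.2 w)
    (G := fun n (q : (Unit × X) × Config n) => G n (q.1.2, q.2)) (fun n => (hGm n).comp (measurable_fst.snd.prodMk
      measurable_snd)) (fun n _ x w hw => hG n x w hw)
  refine ⟨fun n q => G' n (((), q.1), q.2), fun n => (h1 n).comp
    ((measurable_const.prodMk measurable_fst).prodMk measurable_snd),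
    fun n y w hw => h2 n ((), y) w hw, ?_⟩
  have e0 : {q : Unit × X | (q.1, T ε i q.2) ∈ (univ : Set (Unit × Y))} = univ :=
    eq_univ_of_forall fun _ => mem_univ _
  have m1 : Measurable fun q : Unit × Y => gcE f₀ ε fun n w => G' n (q, w) :=
    MeasE416.measurable_gcE_of hf ε (F := fun n q w => G' n (q, w)) fun n => h1 n
  have m2 : Measurable fun q : Unit × X => gcE f₀ ε fun n w => G n (q.2, w) :=
    MeasE416.measurable_gcE_of hf ε (F := fun n (q : Unit × X) w => G n (q.2, w)) fun n =>
      (hGm n).comp (measurable_fst.snd.prodMk measurable_snd)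
  rw [e0, Measure.restrict_univ, Measure.restrict_univ, lintegral_prod _ m1.aemeasurable,
    lintegral_prod _ m2.aemeasurable, lintegral_dirac, lintegral_dirac] at h3
  exact h3.trans hGi

theorem fNull_map' (hf : Measurable f₀) {m : ℝ → I → Measure X} {T : ℝ → I → X → Y}
    (hm : ∀ ε i, 0 < ε → SFinite (m ε i)) (hT : ∀ ε i, 0 < ε → Measurable (T ε i))
    {F : ℝ → I → (n : ℕ) → Y → Config n → ℝ≥0∞}
    (h : FNull f₀ m (fun ε i n x w => F ε i n (T ε i x) w)) :
    FNull f₀ (fun ε i => (m ε i).map (T ε i)) F :=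
  fun δ hδ => fLe_map' hf hm hT (h δ hδ)

end Crest.Agent.R122.Dis495

end
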