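import Crest.Agent.R122.PairRep_581
import Crest.Agent.R122.Dis_495

/-!
# Null slots of inequality 3 from gateway null facts (row 122, H11 gate OS2)

The gateway works on the structure spaces `Θ_s` of the shapes behind the pair laws (`PairRep_581`), the
functional `bd` of `NullFacts` lives on `(P, z, m, w) × (Lab × LSt)`. For ANY functional `F` (no
measurability) whose pull-backs to the shapes are null, `exists_bd2` gives ONE measurable majorant
`bd` of `F` whose pull-backs are null for all shapes of a countable family; `nullFacts_fam` : the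
literal `NullFacts` for a countable family of pair laws with the same `bd`.
-/

set_option autoImplicit false
set_option linter.unusedSectionVars false

open MeasureTheory Set Filter Topology
open scoped Classical ENNReal
open Crest.AnalysisR.Kinetic
open Crest.Agent.R122.GC311 Crest.Agent.R122.Kin796 Crest.Agent.R122.Kin796.CTree
open Crest.Agent.R122.Tree674 Crest.Agent.R122.EDefs602
open Crest.Agent.R122.Gate424 Crest.Agent.R122.Gate973
open Crest.Agent.R122.Boost969 (LSt)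
open Crest.Agent.R122.Pair292 (Lab)
open Crest.Agent.R122.PairD292 Crest.Agent.R122.PairRep581

noncomputable section

namespace Crest.Agent.R122.GateOS2495

variable {Φ : Space3 → ℝ} {f₀ : PhasePoint → ℝ} {te T' : ℝ}

instance standardBorel_lab : StandardBorelSpace Lab := inferInstance

instance standardBorel_pair : StandardBorelSpace (Lab × LSt) := StandardBorelSpace.prod

/-- The parameters of a tree are a standard Borel space. -/
instance standardBorel_par : ∀ P : CTree, StandardBorelSpace (Par P)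
  | .leaf => by show StandardBorelSpace Unit; infer_instance
  | .node l r => by
    have h1 := standardBorel_par l
    have h2 := standardBorel_par r
    show StandardBorelSpace (NodeP × Par l × Par r)
    infer_instance

/-- A functional restricted to valid trees in contact and admissible labels. -/
def cutS (Φ : Space3 → ℝ) (ε : ℝ) (K : ℕ) (te T' : ℝ) (F : SF2) : SF2 := fun P z m w θ =>
  if Valid Φ ε P T' z.1.2 z.2 ∧ (z, θ) ∈ ctOk Φ ε K te P then F P z m w θ else 0

/-- Pull-back of a functional of the labels to a shape. -/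
abbrev pullS (Φ : Space3 → ℝ) (te T' : ℝ) (K : ℕ) (F : ℝ → SF2) (P : CTree) (S : Shp) :
    ℝ → Unit → (n : ℕ) → (PhasePoint × Par P) × S.Θ → Config n → ℝ≥0∞ := fun ε _ n q w =>
  if Valid Φ ε P T' q.1.1.2 q.1.2 ∧ q ∈ ctOkS Φ ε K te P S then
    F ε P q.1 n w (S.th ε q.2) else 0

/-- Change of variables from the shape to the labels. -/
theorem lintegral_osP_map (hΦ : AdmissiblePotential Φ) {S : Shp} {ε : ℝ} (K : ℕ) (P : CTree)
    (hs : SFinite (S.m ε)) (hth : Measurable (S.th ε))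
    {g : (PhasePoint × Par P) × (Lab × LSt) → ℝ≥0∞} (hg : Measurable g) :
    ∫⁻ q, g q ∂(((treeA Φ f₀ ε T' P).prod ((S.m ε).map (S.th ε))).restrict (ctOk Φ ε K te P)) =
      ∫⁻ q, g (q.1, S.th ε q.2) ∂(osP Φ f₀ te T' K P S ε ()) := by
  have hφ : Measurable fun q : (PhasePoint × Par P) × S.Θ => (q.1, S.th ε q.2) :=
    measurable_fst.prodMk (hth.comp measurable_snd)
  have e1 : (treeA Φ f₀ ε T' P).prod ((S.m ε).map (S.th ε)) =
      ((treeA Φ f₀ ε T' P).prod (S.m ε)).map (fun q => (q.1, S.th ε q.2)) := by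
    have h1 := Measure.map_prod_map (treeA Φ f₀ ε T' P) (S.m ε) measurable_id hth
    rw [Measure.map_id] at h1
    exact h1
  rw [e1, Measure.restrict_map hφ (measurableSet_ctOk hΦ ε K te P), lintegral_map hg hφ]
  rfl

/-- **One measurable majorant for a countable family of shapes.** -/
theorem exists_bd2 (hΦ : AdmissiblePotential Φ) (hf : Measurable f₀) {J : ℕ → Type}
    [∀ K, Countable (J K)] {Sh : ∀ K, J K → Shp}
    (hB : ∀ K j, StandardBorelSpace (Sh K j).Θ) (hsf : ∀ K j ε, SFinite ((Sh K j).m ε))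
    (hth : ∀ K j ε, 0 < ε → Measurable ((Sh K j).th ε)) {F : ℕ → ℝ → SF2}
    (h : ∀ K P j, P.leaves ≤ K → FNull f₀ (osP Φ f₀ te T' K P (Sh K j))
      (pullS Φ te T' K (F K) P (Sh K j))) :
    ∃ bd : ℕ → ℝ → SF2, (∀ K ε, MeasSF2 (bd K ε)) ∧
      (∀ (K : ℕ) (ε : ℝ), 0 < ε → ∀ P : CTree, P.leaves ≤ K →
        ∀ z (m : ℕ) (w : Config m) (θ : Lab × LSt), w ∈ PairExcluded ε m →
          Valid Φ ε P T' z.1.2 z.2 → (z, θ) ∈ ctOk Φ ε K te P →
          F K ε P z m w θ ≤ bd K ε P z m w θ) ∧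
      (∀ (K : ℕ) (ε : ℝ) (P : CTree), ¬ P.leaves ≤ K → ∀ z (m : ℕ) (w : Config m)
        (θ : Lab × LSt), bd K ε P z m w θ = 0) ∧
      ∀ K P j, P.leaves ≤ K → FNull f₀ (osP Φ f₀ te T' K P (Sh K j))
        (fun ε _ n q w => bd K ε P q.1 n w ((Sh K j).th ε q.2)) := by
  -- the labels
  have hL : ∀ K P j, P.leaves ≤ K →
      FNull f₀ (fun ε (_ : Unit) => ((treeA Φ f₀ ε T' P).prod
        (((Sh K j).m ε).map ((Sh K j).th ε))).restrict (ctOk Φ ε K te P))
        (fun ε _ n q w => cutS Φ ε K te T' (F K ε) P q.1 n w q.2) := by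
    intro K P j hP
    have := hB K j
    exact Dis495.fNull_map hf (α := fun ε (_ : Unit) => treeA Φ f₀ ε T' P)
      (m := fun ε _ => (Sh K j).m ε) (T := fun ε _ => (Sh K j).th ε)
      (C := fun ε _ => ctOk Φ ε K te P) (fun ε _ _ => inferInstance) (fun ε _ _ => hsf K j ε)
      (fun ε _ hε => hth K j ε hε) (fun ε _ _ => measurableSet_ctOk hΦ ε K te P) (h K P j hP)
  choose G hGm hG hGi using fun (K : ℕ) (P : CTree) (hP : P.leaves ≤ K) (j : J K) =>
    (hL K P j hP).exists_maj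
  set bd : ℕ → ℝ → SF2 := fun K ε P z m w θ =>
    if hP : P.leaves ≤ K then ⨅ j, G K P hP j ε () m ((z, θ), w) else 0 with hbd
  have hb1 : ∀ (K : ℕ) (ε : ℝ) (P : CTree) (hP : P.leaves ≤ K) z (m : ℕ) (w : Config m)
      (θ : Lab × LSt), bd K ε P z m w θ = ⨅ j, G K P hP j ε () m ((z, θ), w) := by
    intro K ε P hP z m w θ
    simp only [hbd, dif_pos hP]
  have hb0 : ∀ (K : ℕ) (ε : ℝ) (P : CTree), ¬ P.leaves ≤ K → ∀ z (m : ℕ) (w : Config m)
      (θ : Lab × LSt), bd K ε P z m w θ = 0 := by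
    intro K ε P hP z m w θ
    simp only [hbd, dif_neg hP]
  refine ⟨bd, fun K ε P m => ?_, fun K ε hε P hP z m w θ hw hz hc => ?_, hb0,
    fun K P j hP δ hδ => ?_⟩
  · by_cases hP : P.leaves ≤ K
    · simp only [hb1 K ε P hP]
      have h1 : Measurable fun q : (PhasePoint × Par P) × (Config m × (Lab × LSt)) =>
          (((q.1, q.2.2), q.2.1) : ((PhasePoint × Par P) × (Lab × LSt)) × Config m) :=
        (measurable_fst.prodMk measurable_snd.snd).prodMk measurable_snd.fst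
      exact Measurable.iInf fun j => (hGm K P hP j ε () m).comp h1
    · simp only [hb0 K ε P hP]
      exact measurable_const
  · rw [hb1 K ε P hP]
    refine le_iInf fun j => ?_
    have h1 : cutS Φ ε K te T' (F K ε) P z m w θ ≤ G K P hP j ε () m ((z, θ), w) :=
      hG K P hP j ε () m (z, θ) w hε hw
    unfold cutS at h1
    rwa [if_pos ⟨hz, hc⟩] at h1
  · obtain ⟨ε₀, h0, h1⟩ := hGi K P hP j δ hδ
    refine ⟨ε₀, h0, fun ε hε hlt _ =>
      ⟨fun n q => G K P hP j ε () n ((q.1.1, (Sh K j).th ε q.1.2), q.2), fun n => ?_,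
        fun n q w _ => ?_, ?_⟩⟩
    · exact (hGm K P hP j ε () n).comp ((measurable_fst.fst.prodMk
        ((hth K j ε hε).comp measurable_fst.snd)).prodMk measurable_snd)
    · show bd K ε P q.1 n w ((Sh K j).th ε q.2) ≤ _
      rw [hb1 K ε P hP]
      exact iInf_le _ j
    · refine le_trans (le_of_eq ?_) (h1 ε hε hlt ())
      have hg : Measurable fun q : (PhasePoint × Par P) × (Lab × LSt) =>
          gcE f₀ ε fun n w => G K P hP j ε () n (q, w) :=
        MeasE416.measurable_gcE_of hf ε (F := fun n q w => G K P hP j ε () n (q, w))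
          fun n => hGm K P hP j ε () n
      exact (lintegral_osP_map hΦ K P (hsf K j ε) (hth K j ε hε) hg).symm

/-- The same for events. -/
theorem exists_bd2_E (hΦ : AdmissiblePotential Φ) (hf : Measurable f₀) {J : ℕ → Type}
    [∀ K, Countable (J K)] {Sh : ∀ K, J K → Shp}
    (hB : ∀ K j, StandardBorelSpace (Sh K j).Θ) (hsf : ∀ K j ε, SFinite ((Sh K j).m ε))
    (hth : ∀ K j ε, 0 < ε → Measurable ((Sh K j).th ε))
    {E : ℕ → ℝ → (P : CTree) → PhasePoint × Par P → (m : ℕ) → Config m → Lab × LSt → Prop}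
    (h : ∀ K P j, P.leaves ≤ K → GNull f₀ (osP Φ f₀ te T' K P (Sh K j))
      (fun ε _ n q w => Valid Φ ε P T' q.1.1.2 q.1.2 ∧ q ∈ ctOkS Φ ε K te P (Sh K j) ∧
        E K ε P q.1 n w ((Sh K j).th ε q.2))) :
    ∃ bd : ℕ → ℝ → SF2, (∀ K ε, MeasSF2 (bd K ε)) ∧
      (∀ (K : ℕ) (ε : ℝ), 0 < ε → ∀ P : CTree, P.leaves ≤ K →
        ∀ z (m : ℕ) (w : Config m) (θ : Lab × LSt), w ∈ PairExcluded ε m →
          Valid Φ ε P T' z.1.2 z.2 → (z, θ) ∈ ctOk Φ ε K te P →
          E K ε P z m w θ → 1 ≤ bd K ε P z m w θ) ∧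
      (∀ (K : ℕ) (ε : ℝ) (P : CTree), ¬ P.leaves ≤ K → ∀ z (m : ℕ) (w : Config m)
        (θ : Lab × LSt), bd K ε P z m w θ = 0) ∧
      ∀ K P j, P.leaves ≤ K → FNull f₀ (osP Φ f₀ te T' K P (Sh K j))
        (fun ε _ n q w => bd K ε P q.1 n w ((Sh K j).th ε q.2)) := by
  obtain ⟨bd, h1, h2, h3, h4⟩ := exists_bd2 (te := te) (T' := T') hΦ hf hB hsf hth
    (F := fun K ε P z m w θ => if E K ε P z m w θ then 1 else 0) fun K P j hP => by
      refine (FNull.ofE (h K P j hP)).mono ⟨1, one_pos, fun ε _ _ _ n q w _ => ?_⟩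
      dsimp only [pullS]
      split_ifs with ha hb hc hc <;> first
        | exact le_rfl
        | exact bot_le
        | exact absurd ⟨ha.1, ha.2, hb⟩ hc
  refine ⟨bd, h1, fun K ε hε P hP z m w θ hw hz hc hE => ?_, h3, h4⟩
  have h5 := h2 K ε hε P hP z m w θ hw hz hc
  simp only [if_pos hE] at h5
  exact h5

/-- Null structure integral from null pull-backs. -/
theorem null_of_pull (hΦ : AdmissiblePotential Φ) (hf : Measurable f₀) {ι : ℕ → Type}
    [∀ K, Fintype (ι K)] {ν : ℕ → ℝ → Measure (Lab × LSt)} {S : ∀ K, ι K → Shp}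
    (h : ∀ K, Rep (ν K) (S K)) {bd : ℕ → ℝ → SF2} {tw : ℝ}
    (hbd : ∀ K P s, P.leaves ≤ K → FNull f₀ (osP Φ f₀ te T' K P (S K s))
      (fun ε _ n q w => bd K ε P q.1 n w ((S K s).th ε q.2))) :
    Null fun K ε => OS2 Φ f₀ ε te T' (ν K ε) fun P z m w θ =>
      uG Φ ε tw K P z w θ * bd K ε P z m w θ := by
  refine null_os2 hΦ hf h fun K P s hP => (hbd K P s hP).mono
    ⟨1, one_pos, fun ε _ _ _ n q w _ => ?_⟩
  show (if Valid Φ ε P T' q.1.1.2 q.1.2 ∧ q ∈ ctOkS Φ ε K te P (S K s) then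
    bd K ε P q.1 n w ((S K s).th ε q.2) else 0) ≤ bd K ε P q.1 n w ((S K s).th ε q.2)
  split_ifs
  · exact le_rfl
  · exact bot_le

/-- **The null facts of inequality 3 for a countable family of pair laws, one functional `bd`.** -/
theorem nullFacts_fam (hΦ : AdmissiblePotential Φ) (hf : Measurable f₀) {Q : EPar} {T' : ℝ}
    {J : Type} [Countable J] {ι : J → ℕ → Type} [∀ j K, Fintype (ι j K)]
    {ν : J → ℕ → ℝ → Measure (Lab × LSt)} {S : ∀ j K, ι j K → Shp}
    (hR : ∀ j K, Rep (ν j K) (S j K)) (hB : ∀ j K s, StandardBorelSpace (S j K s).Θ)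
    {F : ℕ → ℝ → SF2}
    (hF : ∀ j K P s, P.leaves ≤ K → FNull f₀ (osP Φ f₀ Q.te T' K P (S j K s))
      (pullS Φ Q.te T' K (F K) P (S j K s)))
    (hok : ∀ j K ε, 0 < ε → OkAE Φ ε K (ν j K ε))
    (hbad : ∀ j, Null fun K ε => BAD Φ f₀ ε K Q (ν j K ε)) :
    ∃ bd : ℕ → ℝ → SF2,
      (∀ (K : ℕ) (ε : ℝ), 0 < ε → ∀ P : CTree, P.leaves ≤ K →
        ∀ z (m : ℕ) (w : Config m) (θ : Lab × LSt), w ∈ PairExcluded ε m →
          Valid Φ ε P T' z.1.2 z.2 → (z, θ.2) ∈ OneC423.ctSet Φ ε Q.te P → OkL K θ →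
          F K ε P z m w θ ≤ bd K ε P z m w θ) ∧
      ∀ j, NullFacts Φ f₀ Q T' bd (ν j) := by
  obtain ⟨bd, h1, h2, -, h4⟩ := exists_bd2 (te := Q.te) (T' := T') hΦ hf
    (J := fun K => Σ j, ι j K) (Sh := fun K a => S a.1 K a.2) (fun K a => hB a.1 K a.2)
    (fun K a ε => (hR a.1 K).sf a.2 ε) (fun K a ε hε => (hR a.1 K).mth a.2 ε hε)
    (F := F) (fun K P a hP => hF a.1 K P a.2 hP)
  refine ⟨bd, fun K ε hε P hP z m w θ hw hz hc hL => h2 K ε hε P hP z m w θ hw hz ⟨hc, hL⟩,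
    fun j => ⟨hok j, hbad j, fun K ε _ => h1 K ε, ?_⟩⟩
  exact null_of_pull hΦ hf (hR j) fun K P s hP => h4 K P ⟨j, s⟩ hP

end Crest.Agent.R122.GateOS2495

end
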