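import Crest.Agent.R122.StrN_998
import Crest.Agent.R122.GateOS2_495

/-!
# The structure spaces of the continued pair laws are standard Borel (row 122, H11)

Used with `GateOS2_495` (transfer of majorants from structures to labels).
-/

set_option autoImplicit false

open MeasureTheory
open Crest.AnalysisR.Kinetic
open Crest.Agent.R122.Kin796 Crest.Agent.R122.Kin796.CTree Crest.Agent.R122.Tree674

namespace Crest.Agent.R122.StdB495

open Crest.Agent.R122.StrN998

instance standardBorel_optionBool : StandardBorelSpace (Option Bool) := inferInstance

instance standardBorel_fr : StandardBorelSpace Fr := by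
  have h1 : StandardBorelSpace (ℕ × Option Bool) := StandardBorelSpace.prod
  exact StandardBorelSpace.prod

instance standardBorel_th {Θ : Type} [MeasurableSpace Θ] [StandardBorelSpace Θ] :
    ∀ j : ℕ, StandardBorelSpace (Th Θ j)
  | 0 => by show StandardBorelSpace Θ; infer_instance
  | j + 1 => by
    have h1 : StandardBorelSpace (Th Θ j) := standardBorel_th j
    show StandardBorelSpace (Th Θ j × Fr)
    exact StandardBorelSpace.prod

/-- The base space of helper735. -/
instance standardBorel_base (P : CTree) :
    StandardBorelSpace ((PhasePoint × Par P) × (PhasePoint × ℕ)) := by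
  have h1 : StandardBorelSpace (PhasePoint × Par P) := StandardBorelSpace.prod
  have h2 : StandardBorelSpace (PhasePoint × ℕ) := StandardBorelSpace.prod
  exact StandardBorelSpace.prod

end Crest.Agent.R122.StdB495
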