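import Crest.Agent.R122.NuR_735
import Crest.Agent.R122.NuShp_998
import Crest.Agent.R122.StdB_495

/-!
# Row 122 (helper735), the shapes of the base pair law and of its continuations are admissible

* `shpOk_base` : the shapes `famB` of the base law are admissible.
* `rep_ok_base` : representation and admissibility for all continuations.
* `rep_of_le` : a smaller law has the same representation; `stdB_base` : standard Borel spaces.
-/

set_option autoImplicit false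
set_option maxHeartbeats 400000
set_option linter.unusedSectionVars false

open MeasureTheory Set Filter
open scoped ENNReal Classical Topology
open Crest.AnalysisR.Kinetic
open Crest.Agent.R122.Kin796 Crest.Agent.R122.Kin796.CTree Crest.Agent.R122.Tree674
open Crest.Agent.R122.GC311 Crest.Agent.R122.EDefs602 Crest.Agent.R122.TreeLines335
open Crest.Agent.R122.OneC285
open Crest.Agent.R122.Boost969 (LSt)
open Crest.Agent.R122.Pair292 (Lab shL shM shP bindN)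
open Crest.Agent.R122.LN2 Crest.Agent.R122.StrN998 Crest.Agent.R122.PairRep581

noncomputable section

namespace Crest.Agent.R122.NuL735

variable {Φ : Space3 → ℝ} {ε : ℝ} {K : ℕ} {P : CTree}

/-- **The shapes of the base law are admissible.** -/
theorem shpOk_base (hΦ : AdmissiblePotential Φ) (K : ℕ) (N : NPar) {γ β : ℝ}
    {ρ : Space3 → ℝ≥0∞} (hγb : γ ≤ N.b) (hγe : γ ≤ N.γe) (hβ : β < N.b) (hβγ : β < N.γe)
    (hN : N.ρ ≠ ∞) (hρ : Measurable ρ) (s : Ix N.m₀) : ShpOk γ β ρ (famB Φ K N s) :=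
  shpOk_of_dom hΦ K N hβ hβγ hN _ _ _
    ⟨ENNReal.ofReal N.Cf ^ Fintype.card (Idx s.1.1) * mkC N.ρ K,
      prodΛ (Measure.dirac fun _ : Idx s.1.1 => (0 : ℝ)) (Measure.dirac fun _ : Unit => (0 : ℝ)),
      ENNReal.mul_ne_top (ENNReal.pow_ne_top ENNReal.ofReal_ne_top) (mkC_ne_top hN K),
      inferInstance, fun ε hε => dom_base hΦ N hγb hγe hρ hε _ _⟩

/-- **Representation and admissibility of the base law and of its continuations.** -/
theorem rep_ok_base (hΦ : AdmissiblePotential Φ) (K : ℕ) (N : NPar) {γ β β' b₀ te : ℝ}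
    {q : ℕ → ℝ≥0∞} {ρ : Space3 → ℝ≥0∞} (hγb : γ ≤ N.b) (hγe : γ ≤ N.γe) (hβ : β < N.b)
    (hβγ : β < N.γe) (hN : N.ρ ≠ ∞) (hρ : Measurable ρ) (hγ : γ ≤ b₀) (hβ' : β' < β)
    (hβb : β ≤ b₀) (hq : ∑' m, q m ≠ ∞) (j : ℕ) :
    Rep (fun ε => bindN (nuL Φ ε K N) (PairD292.K3 Φ ε b₀ te q) j)
        (fun s : Ix N.m₀ => itS (famB Φ K N s) Φ b₀ te q j) ∧
      ∀ s : Ix N.m₀, ShpOk γ β' ρ (itS (famB Φ K N s) Φ b₀ te q j) :=
  rep_ok_itS (rep_base hΦ N) (shpOk_base hΦ K N hγb hγe hβ hβγ hN hρ) hΦ hρ hγ hβ' hβb hq j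

/-- **A smaller law has the same representation.** -/
theorem rep_of_le {ι : Type} [Fintype ι] {ν ν' : ℝ → Measure (Lab × LSt)} {S : ι → Shp}
    (h : Rep ν S) (hle : ∀ ε, 0 < ε → ν' ε ≤ ν ε) : Rep ν' S where
  sf := h.sf
  mth := h.mth
  le ε hε F hF := (lintegral_mono' (hle ε hε) le_rfl).trans (h.le ε hε F hF)

/-- The structure spaces of the base law are standard Borel. -/
instance stdB_base (K : ℕ) (N : NPar) (s : Ix N.m₀) : StandardBorelSpace (famB Φ K N s).Θ :=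
  StdB495.standardBorel_base s.1.1

instance stdB_baseN (K : ℕ) (N : NPar) (s : Ix N.m₀) (b₀ te : ℝ) (q : ℕ → ℝ≥0∞) (j : ℕ) :
    StandardBorelSpace (itS (famB Φ K N s) Φ b₀ te q j).Θ :=
  StdB495.standardBorel_th j

/-- **The same for the smaller base laws** (cuts of the base law). -/
theorem rep_ok_base_le (hΦ : AdmissiblePotential Φ) (K : ℕ) (N : NPar) {γ β β' b₀ te : ℝ}
    {q : ℕ → ℝ≥0∞} {ρ : Space3 → ℝ≥0∞} (hγb : γ ≤ N.b) (hγe : γ ≤ N.γe) (hβ : β < N.b)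
    (hβγ : β < N.γe) (hN : N.ρ ≠ ∞) (hρ : Measurable ρ) (hγ : γ ≤ b₀) (hβ' : β' < β)
    (hβb : β ≤ b₀) (hq : ∑' m, q m ≠ ∞) {ν : ℝ → Measure (Lab × LSt)}
    (hle : ∀ ε, 0 < ε → ν ε ≤ nuL Φ ε K N) (j : ℕ) :
    Rep (fun ε => bindN (ν ε) (PairD292.K3 Φ ε b₀ te q) j)
        (fun s : Ix N.m₀ => itS (famB Φ K N s) Φ b₀ te q j) ∧
      ∀ s : Ix N.m₀, ShpOk γ β' ρ (itS (famB Φ K N s) Φ b₀ te q j) :=
  rep_ok_itS (rep_of_le (rep_base hΦ N) hle) (shpOk_base hΦ K N hγb hγe hβ hβγ hN hρ) hΦ hρ hγ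
    hβ' hβb hq j

end Crest.Agent.R122.NuL735

end
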