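import Crest.Agent.R122.NuC_85
import Crest.Agent.R122.NuOk_735
import Crest.Agent.R122.GateOsPX_973
import Crest.Agent.R122.LN2Gas_473

/-!
# Row 122, inequality 3 (helper796): the hypotheses of the gates for the structures of the base law

* `itW` : the structures (tree leaf, second line) of the base law of a window, `j` steps.
* `shpOk_win` : they are admissible; `rep_win` : they represent the iterated base law.
* `opx_win` : the hypotheses `OPX` of the gates of helper973, for all windows.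
-/

set_option autoImplicit false
set_option linter.unusedSectionVars false
set_option maxHeartbeats 400000

open MeasureTheory ProbabilityTheory Set Filter
open scoped ENNReal Classical Topology
open Crest.AnalysisR.Kinetic
open Crest.Agent.R122.GC311 Crest.Agent.R122.EDefs602 Crest.Agent.R122.LN2
open Crest.Agent.R122.Boost969 (LSt)
open Crest.Agent.R122.Pair292 (Lab PPar PX shP bindN)
open Crest.Agent.R122.PairD292 Crest.Agent.R122.Top602
open Crest.Agent.R122.Mark307 (BPar)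
open Crest.Agent.R122.Master566 (KData)
open Crest.Agent.R122.I3In566 (Adm3)
open Crest.Agent.R122.NuL735 (NPar nuL Ix famB)
open Crest.Agent.R122.CaseC658 (qK)
open Crest.Agent.R122.PairRep581 (Shp ShpOk Rep)
open Crest.Agent.R122.StrN998 (itS)
open Crest.Agent.R122.OPX973 (OPX)
open Crest.Agent.R122.NuC85 (nW nuC nuC_le)

noncomputable section

namespace Crest.Agent.R122.OpxWin796

theorem tsum_qK_ne_top (C lam : ℝ) (K : ℕ) : ∑' m, qK C lam K m ≠ ∞ := by
  rw [tsum_eq_sum (s := Finset.range (K + 1)) fun m hm => by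
    have h1 : ¬ (1 ≤ m ∧ m ≤ K) := fun h => hm (Finset.mem_range.2 (by omega))
    exact if_neg h1]
  exact ENNReal.sum_ne_top.2 fun m _ => I3In566.qK_ne_top C lam K m

theorem lintegral_le_one {Φ : Space3 → ℝ} {β T : ℝ} {f₀ : PhasePoint → ℝ}
    {f : ℝ → PhasePoint → ℝ} (hD : KData Φ β T f₀ f) : ∫⁻ z, ENNReal.ofReal (f₀ z) ≤ 1 := by
  rw [← ofReal_integral_eq_lintegral_ofReal hD.integrable (ae_of_all _ hD.nonneg), hD.mass,
    ENNReal.ofReal_one]

variable {Φ : Space3 → ℝ} {β T : ℝ} {f₀ : PhasePoint → ℝ} {f : ℝ → PhasePoint → ℝ}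
  {γ : ℝ → ℝ} {ρ : ℝ≥0∞} {h₀ kap lam C g : ℝ} {B : BPar}

/-- The shapes of the `j`-th iterate of the base law with parameters `N`. -/
abbrev itW (Φ : Space3 → ℝ) (B : BPar) (C lam te : ℝ) (N : NPar) (j K : ℕ) (s : Ix N.m₀) : Shp :=
  itS (famB Φ K N s) Φ B.b₀ te (qK C lam K) j

/-- **Representation and admissibility** of the iterated base laws of the windows: `ShpOk` with
domination rate `B.b₀` and moment rate `B.b₀ / 4`, any measurable density `ρd`. -/
theorem rep_shpOk_win (hΦ : AdmissiblePotential Φ) (hA : Adm3 Φ β T f γ ρ h₀ kap lam C g B)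
    (hρ : ρ ≠ ∞) {ρd : Space3 → ℝ≥0∞} (hρd : Measurable ρd) (hβ : 0 < β) (Cf : ℝ) (m : ℕ)
    (tw te : ℝ) (j K : ℕ) :
    Rep (fun ε => bindN (nuL Φ ε K (nW β Cf g ρ h₀ m tw te))
        (K3 Φ ε B.b₀ te (qK C lam K)) j)
        (fun s : Ix (nW β Cf g ρ h₀ m tw te).m₀ =>
          itW Φ B C lam te (nW β Cf g ρ h₀ m tw te) j K s) ∧
      ∀ s : Ix (nW β Cf g ρ h₀ m tw te).m₀,
        ShpOk B.b₀ (B.b₀ / 4) ρd (itW Φ B C lam te (nW β Cf g ρ h₀ m tw te) j K s) := by
  have hb0 := hA.b0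
  have hbs : B.b₀ ≤ B.bs := hA.ok.b0s
  have h1 := hA.bs
  have h2 := hA.bg
  refine NuL735.rep_ok_base (γ := B.b₀) (β := B.b₀ / 2) (β' := B.b₀ / 4) hΦ K
    (nW β Cf g ρ h₀ m tw te) (b₀ := B.b₀) (te := te) ?_ ?_ ?_ ?_ hρ hρd le_rfl ?_ ?_
    (tsum_qK_ne_top C lam K) j
  · show B.b₀ ≤ 2 * β
    linarith
  · exact h2
  · show B.b₀ / 2 < 2 * β
    linarith
  · show B.b₀ / 2 < g
    linarith
  · linarith
  · linarith

/-- **The hypotheses of the gates** for the structures of all windows: one density `ρd`. -/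
theorem opx_win (hD : KData Φ β T f₀ f) (hA : Adm3 Φ β T f γ ρ h₀ kap lam C g B)
    (hγm : Measurable γ) (hρ : ρ ≠ ∞) (Cf : ℝ) (m : ℕ) :
    ∃ ρd : Space3 → ℝ≥0∞, ∀ {tw te : ℝ}, 0 ≤ tw → tw < te → te ≤ T → te ≤ tw + h₀ →
      ∀ (j K : ℕ) (s : Ix (nW β Cf g ρ h₀ m tw te).m₀),
        OPX Φ f₀ (2 * β) B.b₀ (B.b₀ / 4) (tw + h₀) te ρd
          (itW Φ B C lam te (nW β Cf g ρ h₀ m tw te) j K s) γ ρ := by
  have hb0 := hA.b0
  have hbs : B.b₀ ≤ B.bs := hA.ok.b0s
  have h1 := hA.bs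
  have h2 := hA.bg
  obtain ⟨ρd, C₀, he⟩ := exists_env (γ' := B.b₀) (γ := 2 * β) (by linarith [hD.beta_pos])
    hD.gaussian
  refine ⟨ρd, fun {tw te} htw hlt hteT hth j K s => ?_⟩
  exact {
    adm := hD.adm
    meas := hD.contDiff.continuous.measurable
    gauss := hD.gaussian
    mass := lintegral_le_one hD
    env := ⟨C₀, he⟩
    shp := (rep_shpOk_win hD.adm hA hρ he.meas hD.beta_pos Cf m tw te j K).2 s
    bg_pos := by linarith [hD.beta_pos]
    γ_pos := hb0
    β_pos := by linarith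
    T_pos := by linarith
    te_le := hth
    gl_meas := hγm
    gl_le := fun τ hτ => h2.trans (hA.rate τ (hτ.2.trans hteT))
    rm_fin := hρ }

end Crest.Agent.R122.OpxWin796

end
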