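import Crest.Agent.R122.DLawT_416
import Crest.Agent.R122.OpxWin_796
import Crest.Agent.R122.OkX6N_942

/-!
# Row 122, inequality 3 (helper416): the law of the first line, windows

* `dAc_win` : helper942's `DAc` for all the structures of all windows.
-/

set_option autoImplicit false

open MeasureTheory Set Filter Topology
open scoped Classical ENNReal
open Crest.AnalysisR.Kinetic

noncomputable section

namespace Crest.Agent.R122.DLaw416

open Crest.Agent.R122.NuL735 (Ix)
open Crest.Agent.R122.Mark307 (BPar)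
open Crest.Agent.R122.I3In566 (Adm3)
open Crest.Agent.R122.NuC85 (nW)
open Crest.Agent.R122.OpxWin796 (itW rep_shpOk_win)

variable {Φ : Space3 → ℝ} {β T : ℝ} {f : ℝ → PhasePoint → ℝ} {γ : ℝ → ℝ} {ρ : ℝ≥0∞}
  {h₀ kap lam C g : ℝ} {B : BPar}

/-- **The law of the line `d`** of all the structures of all windows. -/
theorem dAc_win (hΦ : AdmissiblePotential Φ) (hA : Adm3 Φ β T f γ ρ h₀ kap lam C g B)
    (hρ : ρ ≠ ∞) (hβ : 0 < β) (Cf : ℝ) (m : ℕ) (tw te : ℝ) (j K : ℕ)
    (s : Ix (nW β Cf g ρ h₀ m tw te).m₀) :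
    OkInd942.DAc (itW Φ B C lam te (nW β Cf g ρ h₀ m tw te) j K s) (tw + h₀) := fun _ hε =>
  dac_itS_base hΦ K (nW β Cf g ρ h₀ m tw te) (γ := B.b₀) (β := B.b₀ / 4) (ρ := fun _ => 0)
    (fun s => (rep_shpOk_win hΦ hA hρ measurable_const hβ Cf m tw te 0 K).2 s) hε s j

end Crest.Agent.R122.DLaw416

end
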