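import Crest.Agent.R122.NuHit_969
import Crest.Agent.R122.ShpOkN_998

/-!
# Row 122, S^(j) (helper969): almost sure facts of the continued shapes

* `HitS S Φ b₀ te q ε j x` : `HitAll` for the shape `itS S Φ b₀ te q j`, recursive on the level.
* `ae_itS` : the facts of the base and the contact facts of all steps.
* `AllLv P j x` : the property `P` holds at all levels `k ≤ j`; `ae_allLv`.
-/

set_option autoImplicit false
set_option linter.unusedSectionVars false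

open MeasureTheory ProbabilityTheory Set Filter Topology
open scoped ENNReal
open Crest.AnalysisR.Kinetic
open Crest.Agent.R122.Kin796 Crest.Agent.R122.EDefs602
open Crest.Agent.R122.Boost969 (LSt)
open Crest.Agent.R122.Pair292 (Lab)
open Crest.Agent.R122.PairReal998 Crest.Agent.R122.StrN998
open Crest.Agent.R122.PairRep581 (Shp ShpOk)

noncomputable section

namespace Crest.Agent.R122.NuHit969

variable {Φ : Space3 → ℝ} {ε te b₀ : ℝ} {q : ℕ → ℝ≥0∞}

/-- **The contact facts of all steps**, for the continuations of a shape. -/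
def HitS (S : Shp) (Φ : Space3 → ℝ) (b₀ te : ℝ) (q : ℕ → ℝ≥0∞) (ε : ℝ) :
    (j : ℕ) → Th S.Θ j → Prop
  | 0, _ => True
  | j + 1, x => HitS S Φ b₀ te q ε j x.1 ∧
      HitD Φ ε te x.2.1 ((itS S Φ b₀ te q j).th ε x.1).2

theorem hitS_iff (S : Shp) (j : ℕ) (x : Th S.Θ j) :
    HitS S Φ b₀ te q ε j x ↔ HitAll (ofShp S ε) Φ ε b₀ te q j x := by
  induction j with
  | zero => exact Iff.rfl
  | succ j ih => exact and_congr (ih x.1) Iff.rfl

/-- The step of the pair, `itS` form. -/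
theorem itS_th_succ (S : Shp) (j : ℕ) (x : Th S.Θ (j + 1)) :
    (itS S Φ b₀ te q (j + 1)).th ε x =
      (Pair292.incM (fK x.2.2.2) x.2.2.1 ((itS S Φ b₀ te q j).th ε x.1).1,
        hitO (outK Φ ε x.2.2.2) ε x.2.1 ((itS S Φ b₀ te q j).th ε x.1).2) := rfl

theorem itS_b_succ (S : Shp) (j : ℕ) (x : Th S.Θ (j + 1)) :
    (itS S Φ b₀ te q (j + 1)).b ε x =
      (Sum.elim ((itS S Φ b₀ te q j).b ε x.1) (fun _ => 0) : Ka S.κ j ⊕ Unit → ℝ) := rfl

theorem itS_z_succ (S : Shp) (j : ℕ) (x : Th S.Θ (j + 1)) :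
    (itS S Φ b₀ te q (j + 1)).z ε x =
      (Sum.elim ((itS S Φ b₀ te q j).z ε x.1) (fun _ => x.2.1) :
        Ka S.κ j ⊕ Unit → PhasePoint) := rfl

/-- The property `P` holds at all levels `k ≤ j`. -/
def AllLv {Θ : Type} (P : (k : ℕ) → Th Θ k → Prop) : (j : ℕ) → Th Θ j → Prop
  | 0, x => P 0 x
  | j + 1, x => P (j + 1) x ∧ AllLv P j x.1

section shp

variable {γ β : ℝ} {ρ : Space3 → ℝ≥0∞} {S : Shp}

/-- **Almost sure facts of the continued shapes.** -/
theorem ae_itS (h : ShpOk γ β ρ S) (hΦ : AdmissiblePotential Φ) (hε : 0 < ε) {p : S.Θ → Prop}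
    (hp : ∀ᵐ θ ∂(S.m ε), p θ) (j : ℕ) :
    ∀ᵐ x ∂((itS S Φ b₀ te q j).m ε), p (bas S.Θ j x) ∧ HitS S Φ b₀ te q ε j x := by
  have hok := ShpOk.sd_ok h hε
  filter_upwards [ae_bas (b₀ := b₀) (te := te) (q := q) hok hΦ hp j,
    ae_hitAll (b₀ := b₀) (te := te) (q := q) hok hΦ hε j] with x h1 h2
  exact ⟨h1, (hitS_iff S j x).2 h2⟩

/-- Almost sure facts of all levels. -/
theorem ae_allLv (h : ShpOk γ β ρ S) (hΦ : AdmissiblePotential Φ) (hε : 0 < ε)
    {P : (k : ℕ) → Th S.Θ k → Prop} (hP : ∀ k, ∀ᵐ y ∂((itS S Φ b₀ te q k).m ε), P k y) (j : ℕ) :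
    ∀ᵐ x ∂((itS S Φ b₀ te q j).m ε), AllLv P j x := by
  induction j with
  | zero => exact hP 0
  | succ j ih =>
    have hok := ShpOk.sd_ok h hε
    have hokj : ((ofShp S ε).iter Φ ε b₀ te q j).Ok := hok.iter hΦ j
    have := hokj.sf
    have h1 : ∀ᵐ x ∂((itS S Φ b₀ te q (j + 1)).m ε), AllLv P j x.1 :=
      ae_step (Φ := Φ) (ε := ε) (b₀ := b₀) (te := te) (q := q)
        (S := (ofShp S ε).iter Φ ε b₀ te q j) ih
    filter_upwards [hP (j + 1), h1] with x h2 h3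
    exact ⟨h2, h3⟩

end shp

end Crest.Agent.R122.NuHit969

end
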