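import Crest.Agent.R122.StrN_998
import Crest.Agent.R122.PairStep_292
import Crest.Agent.R122.CaseC_658
import Crest.Agent.R122.CollLeg_969

/-!
# Structures of the continued pair laws, part 2 (row 122, block H4), helper998

* `norm_sq_outK` : energy of the output lines.
* `SD.Phys` : births `≥ 0` and energy bounds of the two lines; `Phys.step`, `Phys.iter`.
* `k3_eq`, `stO_mrk_eq`, `K3_eq_sum` : the kernels of helper292 and helper658.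
* `bindN_add`, `bindN_smul`, `bindN_finsum`, `SD.Real.add` ... : finite sums of structures.
-/

set_option autoImplicit false
set_option linter.unusedSectionVars false
set_option maxHeartbeats 400000

open MeasureTheory ProbabilityTheory Set Filter
open scoped ENNReal Classical Topology
open Crest.AnalysisR.Kinetic
open Crest.Agent.R122.Kin796 Crest.Agent.R122.GC311
open Crest.Agent.R122.EDefs602
open Crest.Agent.R122.Boost969 (LSt posAt SprL)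
open Crest.Agent.R122.Kin416 (gau measurable_gau)
open Crest.Agent.R122.Pair292 hiding ML
open Crest.Agent.R122.PairD292 (dL eL)
open Crest.Agent.R122.LN2
open Crest.Agent.R122.PairReal998

noncomputable section

namespace Crest.Agent.R122.StrN998

variable {Φ : Space3 → ℝ} {ε te b₀ : ℝ} {q : ℕ → ℝ≥0∞}

/-! ## Energy of the output lines -/

theorem norm_sq_outK (hΦ : AdmissiblePotential Φ) (ε : ℝ) (k : Option Bool) (s : ℝ) (y : Space3)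
    (d : OCout796.CD) : ‖(outK Φ ε k s y d).2.2‖ ^ 2 ≤ ‖d.1‖ ^ 2 + ‖d.2.1‖ ^ 2 := by
  set a : Space3 := OCout796.cmvel d with ha
  set b : Space3 := (1 / 2 : ℝ) • (Scat818.exitM Φ (OCout796.relB d)).2 with hb
  have hnb : ‖b‖ = 1 / 2 * ‖d.1 - d.2.1‖ := by
    rw [hb, norm_smul, CollLeg969.norm_exitM_snd hΦ]
    norm_num
    rfl
  have hna : ‖a‖ = 1 / 2 * ‖d.1 + d.2.1‖ := by
    rw [ha]
    unfold OCout796.cmvel
    rw [norm_smul]
    norm_num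
  have h1 := parallelogram_law_with_norm ℝ a b
  have h2 := parallelogram_law_with_norm ℝ d.1 d.2.1
  have h3 : ‖a + b‖ ^ 2 + ‖a - b‖ ^ 2 = ‖d.1‖ ^ 2 + ‖d.2.1‖ ^ 2 := by
    have e1 : ‖a‖ * ‖a‖ = 1 / 4 * (‖d.1 + d.2.1‖ * ‖d.1 + d.2.1‖) := by rw [hna]; ring
    have e2 : ‖b‖ * ‖b‖ = 1 / 4 * (‖d.1 - d.2.1‖ * ‖d.1 - d.2.1‖) := by rw [hnb]; ring
    nlinarith [h1, h2]
  rcases k with _ | (_ | _)
  · show ‖d.2.1‖ ^ 2 ≤ _
    nlinarith [sq_nonneg ‖d.1‖]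
  · show ‖a + b‖ ^ 2 ≤ _
    nlinarith [sq_nonneg ‖a - b‖]
  · show ‖a - b‖ ^ 2 ≤ _
    nlinarith [sq_nonneg ‖a + b‖]

theorem birth_outK (hε : 0 ≤ ε) (k : Option Bool) (s : ℝ) (y : Space3) (d : OCout796.CD) :
    s ≤ (outK Φ ε k s y d).1 := by
  have h := OCout796.outT_nonneg (Φ := Φ) hε d
  rcases k with _ | (_ | _)
  · show s ≤ s + OCout796.outT Φ ε d
    linarith
  · show s ≤ s + OCout796.outT Φ ε d
    linarith
  · show s ≤ s + OCout796.outT Φ ε d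
    linarith

/-- Energy of the output of a contact with a fresh particle. -/
theorem norm_sq_hitO (hΦ : AdmissiblePotential Φ) (ε : ℝ) (k : Option Bool) (c : PhasePoint)
    (z : LSt) : ‖(hitO (outK Φ ε k) ε c z).2.2‖ ^ 2 ≤ ‖z.2.2‖ ^ 2 + ‖c.2‖ ^ 2 :=
  norm_sq_outK hΦ ε k _ _ _

theorem birth_hitO (hε : 0 ≤ ε) (k : Option Bool) {c : PhasePoint} {z : LSt}
    (h : (c, z) ∈ hitS ε te) : z.1 < (hitO (outK Φ ε k) ε c z).1 ∧
      0 < (hitO (outK Φ ε k) ε c z).1 := by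
  have h1 := birth_outK (Φ := Φ) hε k (OneC285.cT (P := CTree.leaf) ε (c, ()) (z, 0))
    (OneC285.cX (P := CTree.leaf) ε (c, ()) (z, 0)) (OneC285.cD (P := CTree.leaf) ε (c, ()) (z, 0))
  have h2 : z.1 < OneC285.cT (P := CTree.leaf) ε (c, ()) (z, 0) := h.2.2.1
  have h3 : 0 < OneC285.cT (P := CTree.leaf) ε (c, ()) (z, 0) := h.2.2.2.2
  exact ⟨h2.trans_le h1, h3.trans_le h1⟩

/-! ## Births and energies -/

variable {Θ κ : Type} [MeasurableSpace Θ] [Fintype κ] {S : SD Θ κ}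

/-- Births and energies of the two lines. -/
structure SD.Phys (S : SD Θ κ) : Prop where
  bd : ∀ᵐ θ ∂S.m, 0 ≤ (dL (S.pr θ)).1.1
  be : ∀ᵐ θ ∂S.m, 0 ≤ (eL (S.pr θ)).1.1
  vd : ∀ᵐ θ ∂S.m, ‖(dL (S.pr θ)).1.2.2‖ ^ 2 ≤ ∑ i, ‖(S.z θ i).2‖ ^ 2
  ve : ∀ᵐ θ ∂S.m, ‖(eL (S.pr θ)).1.2.2‖ ^ 2 ≤ ∑ i, ‖(S.z θ i).2‖ ^ 2

theorem ae_step [SFinite S.m] {p : Θ → Prop} (h : ∀ᵐ θ ∂S.m, p θ) :
    ∀ᵐ x ∂(S.step Φ ε b₀ te q).m, p x.1 := by
  have h1 : ∀ᵐ x ∂(S.m.prod (frM b₀ q)), p x.1 :=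
    Measure.quasiMeasurePreserving_fst.ae h
  exact ae_restrict_of_ae (Measure.ae_smul_measure h1 _)

theorem ae_step_hit [SFinite S.m] (hΦ : AdmissiblePotential Φ) (hpr : Measurable S.pr) :
    ∀ᵐ x ∂(S.step Φ ε b₀ te q).m, (x.2.1, (S.pr x.1).2) ∈ hitS ε te :=
  ae_restrict_mem (measurable_hit hΦ hpr ε te)

theorem sum_step (x : Θ × Fr) : ∑ i, ‖((S.step Φ ε b₀ te q).z x i).2‖ ^ 2 =
    ∑ i, ‖(S.z x.1 i).2‖ ^ 2 + ‖x.2.1.2‖ ^ 2 := by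
  rw [Fintype.sum_sum_type]
  congr 1
  exact Fintype.sum_unique _

theorem SD.Phys.step (h : S.Phys) (hS : S.Ok) (hΦ : AdmissiblePotential Φ) (hε : 0 ≤ ε) :
    (S.step Φ ε b₀ te q).Phys := by
  have := hS.sf
  refine ⟨?_, ?_, ?_, ?_⟩
  · exact ae_step h.bd
  · filter_upwards [ae_step_hit (ε := ε) (te := te) (b₀ := b₀) (q := q) hΦ hS.mpr] with x hx
    exact (birth_hitO (Φ := Φ) hε x.2.2.2 hx).2.le
  · filter_upwards [ae_step (Φ := Φ) (ε := ε) (te := te) (b₀ := b₀) (q := q) h.vd] with x hx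
    rw [sum_step]
    have h2 : ‖(dL ((S.step Φ ε b₀ te q).pr x)).1.2.2‖ ^ 2 =
        ‖(dL (S.pr x.1)).1.2.2‖ ^ 2 := rfl
    rw [h2]
    nlinarith [sq_nonneg ‖x.2.1.2‖]
  · filter_upwards [ae_step (Φ := Φ) (ε := ε) (te := te) (b₀ := b₀) (q := q) h.ve] with x hx
    rw [sum_step]
    have h2 := norm_sq_hitO hΦ ε x.2.2.2 x.2.1 (S.pr x.1).2
    have h3 : ‖(eL ((S.step Φ ε b₀ te q).pr x)).1.2.2‖ ^ 2 =
        ‖(hitO (outK Φ ε x.2.2.2) ε x.2.1 (S.pr x.1).2).2.2‖ ^ 2 := rfl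
    have h4 : ‖(eL (S.pr x.1)).1.2.2‖ ^ 2 = ‖(S.pr x.1).2.2.2‖ ^ 2 := rfl
    rw [h3]
    rw [h4] at hx
    linarith

theorem SD.Phys.iter (h : S.Phys) (hS : S.Ok) (hΦ : AdmissiblePotential Φ) (hε : 0 ≤ ε) (j : ℕ) :
    (S.iter Φ ε b₀ te q j).Phys := by
  induction j with
  | zero => exact h
  | succ j ih => exact ih.step (hS.iter hΦ j) hΦ hε

/-- `1 + |v| ≤ cv expW a`. -/
theorem one_add_le_expW {a : ℝ} (ha : 0 < a) {v : Space3} {z : κ → PhasePoint}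
    (h : ‖v‖ ^ 2 ≤ ∑ i, ‖(z i).2‖ ^ 2) :
    ENNReal.ofReal (1 + ‖v‖) ≤ ENNReal.ofReal (1 + 1 / a) * expW a z := by
  have h1 : expW a z = ENNReal.ofReal (Real.exp (a * ∑ i, ‖(z i).2‖ ^ 2)) := by
    unfold expW
    rw [← ENNReal.ofReal_prod_of_nonneg fun i _ => (Real.exp_pos _).le, ← Real.exp_sum,
      Finset.mul_sum]
  rw [h1, ← ENNReal.ofReal_mul (by positivity)]
  refine ENNReal.ofReal_le_ofReal ?_
  have h2 : a * ‖v‖ ^ 2 + 1 ≤ Real.exp (a * ‖v‖ ^ 2) := Real.add_one_le_exp _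
  have h3 : Real.exp (a * ‖v‖ ^ 2) ≤ Real.exp (a * ∑ i, ‖(z i).2‖ ^ 2) :=
    Real.exp_le_exp.2 (mul_le_mul_of_nonneg_left h ha.le)
  have h4 : 1 + ‖v‖ ≤ (1 + 1 / a) * (a * ‖v‖ ^ 2 + 1) := by
    have e1 : (1 + 1 / a) * (a * ‖v‖ ^ 2 + 1) =
        a * ‖v‖ ^ 2 + 1 + ‖v‖ ^ 2 + 1 / a := by field_simp; ring
    rw [e1]
    have e2 : 0 ≤ (a * ‖v‖ - 1 / 2) ^ 2 / a := by positivity
    have e3 : (a * ‖v‖ - 1 / 2) ^ 2 / a = a * ‖v‖ ^ 2 - ‖v‖ + 1 / (4 * a) := by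
      field_simp; ring
    have e4 : 1 / (4 * a) ≤ 1 / a := by
      apply one_div_le_one_div_of_le ha
      linarith
    have e5 : 0 < 1 / a := by positivity
    nlinarith [sq_nonneg ‖v‖]
  calc 1 + ‖v‖ ≤ (1 + 1 / a) * (a * ‖v‖ ^ 2 + 1) := h4
    _ ≤ (1 + 1 / a) * Real.exp (a * ∑ i, ‖(z i).2‖ ^ 2) :=
      mul_le_mul_of_nonneg_left (h2.trans h3) (by positivity)

/-! ## The kernels of helper292 and helper658 -/

theorem outO_eq (k : Option Bool) : PairD292.outO Φ ε k = outK Φ ε k := by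
  rcases k with _ | (_ | _) <;> rfl

theorem outF_eq (k : Option Bool) : PairD292.outF k = fK k := by
  rcases k with _ | _ <;> rfl

theorem KO_eq (k : Option Bool) :
    PairD292.KO Φ ε b₀ te q k = stO ε b₀ te (outK Φ ε k) (fK k) q := by
  unfold PairD292.KO
  rw [outO_eq, outF_eq]

theorem k3_eq : PairD292.K3 Φ ε b₀ te q = PairReal998.K3 Φ ε b₀ te q := by
  unfold PairD292.K3 PairReal998.K3
  rw [KO_eq, KO_eq, KO_eq, add_comm]

end Crest.Agent.R122.StrN998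

end
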