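import Crest.Agent.R122.NuL_735
import Crest.Agent.R122.StrN2_998
import Crest.Agent.R122.OsPMom_581

/-!
# Base pair law: births and energies of the lines of a structure (row 122, block H4), helper998

* `ae_good` : the structures of `mP` are good and their two lines are born before `te`.
* `sum_zE` : energy of the structure; `birth_nonneg`, `norm_sq_le` : every line of a good structure is
  born at a time `≥ 0` and its squared velocity is at most `∑ ‖(zE q i).2‖²`.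
* `ae_birth`, `ae_vel` : the same, almost surely.
-/

set_option autoImplicit false
set_option linter.unusedSectionVars false
set_option maxHeartbeats 400000

open MeasureTheory Set Filter
open scoped ENNReal Classical Topology
open Crest.AnalysisR.Kinetic
open Crest.Agent.R122.Kin796 Crest.Agent.R122.Kin796.CTree Crest.Agent.R122.Tree674
open Crest.Agent.R122.GC311 Crest.Agent.R122.EDefs602 Crest.Agent.R122.TreeLines335
open Crest.Agent.R122.OneC285 Crest.Agent.R122.Disc416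
open Crest.Agent.R122.Boost969 (LSt)
open Crest.Agent.R122.Pair292 (Lab shL shM shP)
open Crest.Agent.R122.Nu0566 (oneLsM oneLsM_of_adm measurable_oneLsM strD measurable_strD strM goodS)

noncomputable section

namespace Crest.Agent.R122.NuL735

variable {Φ : Space3 → ℝ} {f₀ : PhasePoint → ℝ} {ε : ℝ} {K : ℕ} {P : CTree}

theorem dS_of_not_good {N : NPar} {q : Th P} (h : (q.1, lnO q.2) ∉ goodS Φ ε N.te N.T' K P) :
    dS Φ ε K N P q = 0 := by
  unfold dS strD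
  exact indicator_of_notMem h _

theorem ae_mS (hΦ : AdmissiblePotential Φ) (N : NPar) :
    ∀ᵐ q ∂(mS Φ ε K N P), (q.1, lnO q.2) ∈ goodS Φ ε N.te N.T' K P := by
  have h1 : ∀ᵐ q ∂((refM P).withDensity (dS Φ ε K N P)),
      (q.1, lnO q.2) ∈ goodS Φ ε N.te N.T' K P := by
    rw [ae_withDensity_iff (measurable_dS hΦ ε K N P)]
    refine Eventually.of_forall fun q hq => ?_
    by_contra hc
    exact hq (dS_of_not_good hc)
  exact Measure.ae_smul_measure h1 _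

theorem ae_good (hΦ : AdmissiblePotential Φ) (N : NPar) (x y : Idx P ⊕ Bool) :
    ∀ᵐ q ∂(mP Φ ε K N P x y), (q.1, lnO q.2) ∈ goodS Φ ε N.te N.T' K P ∧
      q ∈ bdE Φ ε N.te x y := by
  filter_upwards [ae_restrict_of_ae (s := bdE Φ ε N.te x y ∩ sepE Φ ε N.T' P) (ae_mS hΦ N),
    ae_restrict_mem ((measurableSet_bdE hΦ ε N.te x y).inter
      (measurableSet_sepE hΦ ε N.T' P))] with q h1 h2 using ⟨h1, h2.1⟩

theorem sum_zE {q : Th P} (h : Adm Φ P q.1.1.2 q.1.2) : ∑ i, ‖(zE Φ ε q i).2‖ ^ 2 =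
    ∑ i, ‖(lines Φ ε P q.1.1 q.1.2 i).2‖ ^ 2 + ‖q.2.1.2‖ ^ 2 := by
  rw [Fintype.sum_sum_type]
  congr 1
  · refine Finset.sum_congr rfl fun i _ => ?_
    show ‖(linesE Φ ε q.1 i).2‖ ^ 2 = _
    rw [linesE_of_adm h]
  · exact Fintype.sum_unique _

/-- Energy of the contact data. -/
theorem cD_sq_le (hΦ : AdmissiblePotential Φ) (ε : ℝ) {q : Th P} (h : Adm Φ P q.1.1.2 q.1.2) :
    ‖(cD ε q.1 (lnO q.2)).1‖ ^ 2 + ‖(cD ε q.1 (lnO q.2)).2.1‖ ^ 2 ≤
      ∑ i, ‖(zE Φ ε q i).2‖ ^ 2 := by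
  rw [sum_zE h]
  have h3 := DomForest998.fin_sq_le (Φ := Φ) hΦ ε (ℓ := q.1.1) h (root P)
  rw [PathFlow968.fin_root] at h3
  have e1 : ‖(cD ε q.1 (lnO q.2)).1‖ ^ 2 = ‖q.2.1.2‖ ^ 2 := rfl
  have e2 : ‖(cD ε q.1 (lnO q.2)).2.1‖ ^ 2 = ‖q.1.1.2‖ ^ 2 := rfl
  rw [e1, e2]
  linarith

/-- **Every line of a structure is slow.** -/
theorem norm_sq_le (hΦ : AdmissiblePotential Φ) (ε : ℝ) {q : Th P} (h : Adm Φ P q.1.1.2 q.1.2)
    (x : Idx P ⊕ Bool) : ‖(oneE Φ ε q x).1.2.2‖ ^ 2 ≤ ∑ i, ‖(zE Φ ε q i).2‖ ^ 2 := by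
  rw [oneE_of_adm h]
  have hc := cD_sq_le hΦ ε h
  rcases x with i | b
  · by_cases hi : i = root P
    · simp only [oneLs, if_pos hi]
      exact (StrN998.norm_sq_outK hΦ ε none (cT ε q.1 (lnO q.2)) (cX ε q.1 (lnO q.2))
        (cD ε q.1 (lnO q.2))).trans hc
    · simp only [oneLs, if_neg hi]
      rw [sum_zE h]
      have h1 := DomForest998.lineML_sq_le hΦ ε (z := q.1) h i
      have h2 : 0 ≤ ‖q.2.1.2‖ ^ 2 := sq_nonneg _
      linarith
  · cases b
    · exact (StrN998.norm_sq_outK hΦ ε (some false) (cT ε q.1 (lnO q.2)) (cX ε q.1 (lnO q.2))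
        (cD ε q.1 (lnO q.2))).trans hc
    · exact (StrN998.norm_sq_outK hΦ ε (some true) (cT ε q.1 (lnO q.2)) (cX ε q.1 (lnO q.2))
        (cD ε q.1 (lnO q.2))).trans hc

/-- **Every line of a good structure is born at a time `≥ 0`.** -/
theorem birth_nonneg (hε : 0 ≤ ε) {te T' : ℝ} {q : Th P}
    (h : (q.1, lnO q.2) ∈ goodS Φ ε te T' K P) (x : Idx P ⊕ Bool) :
    0 ≤ (oneE Φ ε q x).1.1 := by
  have hA : Adm Φ P q.1.1.2 q.1.2 := h.1.1
  rw [oneE_of_adm hA]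
  have hT : 0 ≤ cT ε q.1 (lnO q.2) := by
    have h1 : (lnO q.2).1.1 < cT ε q.1 (lnO q.2) := h.2.1.2.2.1
    exact h1.le
  have ho := OCout796.outT_nonneg (Φ := Φ) hε (cD ε q.1 (lnO q.2))
  rcases x with i | b
  · by_cases hi : i = root P
    · simp only [oneLs, if_pos hi]
      show 0 ≤ cT ε q.1 (lnO q.2) + _
      linarith
    · simp only [oneLs, if_neg hi]
      exact rel_nonneg hε h.1.2 i
  · cases b
    · show 0 ≤ cT ε q.1 (lnO q.2) + _
      linarith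
    · show 0 ≤ cT ε q.1 (lnO q.2) + _
      linarith

theorem ae_birth (hΦ : AdmissiblePotential Φ) (hε : 0 ≤ ε) (N : NPar) (x y v : Idx P ⊕ Bool) :
    ∀ᵐ q ∂(mP Φ ε K N P x y), 0 ≤ (oneE Φ ε q v).1.1 := by
  filter_upwards [ae_good hΦ N x y] with q hq
  exact birth_nonneg hε hq.1 v

theorem ae_vel (hΦ : AdmissiblePotential Φ) (N : NPar) (x y v : Idx P ⊕ Bool) :
    ∀ᵐ q ∂(mP Φ ε K N P x y), ‖(oneE Φ ε q v).1.2.2‖ ^ 2 ≤ ∑ i, ‖(zE Φ ε q i).2‖ ^ 2 := by
  filter_upwards [ae_good hΦ N x y] with q hq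
  exact norm_sq_le hΦ ε hq.1.1.1 v

/-! ### The shape -/

/-- **The shape of the pair `x`, `y` of the base law.** -/
def shpB (Φ : Space3 → ℝ) (K : ℕ) (N : NPar) (P : CTree) (x y : Idx P ⊕ Bool) :
    PairRep581.Shp where
  Θ := Th P
  κ := Idx P ⊕ Unit
  m := fun ε => mP Φ ε K N P x y
  b := fun _ _ _ => 0
  z := fun ε => zE Φ ε
  Tr := TrS
  th := fun ε => thE Φ ε (N.σ P x y) x y

end Crest.Agent.R122.NuL735

end
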