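import Crest.Agent.R122.NuS_735
import Crest.Agent.R122.NuPhys_998
import Crest.Agent.R122.PairRep_581

/-!
# Row 122 (helper735), the base pair law as a finite family of shapes

* `finite_leaves`, `trF` : trees with at most `m` leaves; `Ix m` : shapes `(P, x, y)`.
* `famB` : helper998's shapes `shpB`; `rep_base` : the base law is the sum of the images.
-/

set_option autoImplicit false
set_option maxHeartbeats 400000
set_option linter.unusedSectionVars false

open MeasureTheory Set Filter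
open scoped ENNReal Classical Topology
open Crest.AnalysisR.Kinetic
open Crest.Agent.R122.Kin796 Crest.Agent.R122.Kin796.CTree Crest.Agent.R122.Tree674
open Crest.Agent.R122.GC311 Crest.Agent.R122.EDefs602 Crest.Agent.R122.TreeLines335
open Crest.Agent.R122.OneC285
open Crest.Agent.R122.Boost969 (LSt)
open Crest.Agent.R122.Pair292 (Lab shL shM shP)
open Crest.Agent.R122.LN2 Crest.Agent.R122.StrN998 Crest.Agent.R122.PairRep581

noncomputable section

namespace Crest.Agent.R122.NuL735

variable {Φ : Space3 → ℝ} {ε : ℝ} {K : ℕ} {P : CTree}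

/-! ### Trees with at most `m` leaves -/

theorem one_le_leaves : ∀ Q : CTree, 1 ≤ Q.leaves
  | leaf => le_rfl
  | node l r => (one_le_leaves l).trans (Nat.le_add_right _ _)

theorem finite_leaves (m : ℕ) : {P : CTree | P.leaves ≤ m}.Finite := by
  induction m with
  | zero =>
    refine Set.Finite.subset (Set.finite_empty) fun P hP => ?_
    have h1 := one_le_leaves P
    have h2 : P.leaves ≤ 0 := hP
    omega
  | succ m ih =>
    refine Set.Finite.subset ((Set.finite_singleton leaf).union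
      (Set.Finite.image2 node ih ih)) fun P hP => ?_
    cases P with
    | leaf => exact Or.inl rfl
    | node l r =>
      have h1 := one_le_leaves l
      have h2 := one_le_leaves r
      have h3 : l.leaves + r.leaves ≤ m + 1 := hP
      refine Or.inr ⟨l, ?_, r, ?_, rfl⟩
      · show l.leaves ≤ m
        omega
      · show r.leaves ≤ m
        omega

/-- Trees with at most `m` leaves. -/
def trF (m : ℕ) : Finset CTree := (finite_leaves m).toFinset

theorem mem_trF {m : ℕ} {P : CTree} : P ∈ trF m ↔ P.leaves ≤ m := by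
  unfold trF
  rw [Set.Finite.mem_toFinset]
  rfl

/-- Pairs of lines: an exit of the tree and another line. -/
abbrev PrX (P : CTree) : Type :=
  {p : (Idx P ⊕ Bool) × (Idx P ⊕ Bool) // p.1 ∈ exS P ∧ p.2 ≠ p.1}

/-- Shapes of the base law. -/
abbrev Ix (m : ℕ) : Type := Σ P : {P : CTree // P ∈ trF m}, PrX P.1

/-- The family of shapes (the shape of a pair is 998's `shpB`). -/
def famB (Φ : Space3 → ℝ) (K : ℕ) (N : NPar) (s : Ix N.m₀) : Shp :=
  shpB Φ K N s.1.1 s.2.1.1 s.2.1.2

theorem sum_prX (P : CTree) (g : Idx P ⊕ Bool → Idx P ⊕ Bool → ℝ≥0∞) :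
    ∑ x ∈ exS P, ∑ y ∈ Finset.univ.erase x, g x y = ∑ p : PrX P, g p.1.1 p.1.2 := by
  have h1 : ∑ p : PrX P, g p.1.1 p.1.2 =
      ∑ p ∈ (Finset.univ.filter fun p : (Idx P ⊕ Bool) × (Idx P ⊕ Bool) =>
        p.1 ∈ exS P ∧ p.2 ≠ p.1), g p.1 p.2 :=
    (Finset.sum_subtype _ (fun p => by simp) fun p : (Idx P ⊕ Bool) × (Idx P ⊕ Bool) =>
      g p.1 p.2).symm
  rw [h1, Finset.sum_filter, Fintype.sum_prod_type, ← Finset.sum_subset (Finset.subset_univ (exS P))]
  · refine Finset.sum_congr rfl fun x hx => ?_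
    rw [← Finset.sum_subset (Finset.erase_subset x Finset.univ)]
    · refine Finset.sum_congr rfl fun y hy => ?_
      rw [if_pos ⟨hx, Finset.ne_of_mem_erase hy⟩]
    · intro y _ hy
      rw [if_neg]
      rintro ⟨_, h⟩
      exact hy (Finset.mem_erase.2 ⟨h, Finset.mem_univ y⟩)
  · intro x _ hx
    refine Finset.sum_eq_zero fun y _ => ?_
    rw [if_neg fun h => hx h.1]

/-- **The base law is the sum of the images of its shapes.** -/
theorem lintegral_nuL_shp (hΦ : AdmissiblePotential Φ) (N : NPar) {F : Lab × LSt → ℝ≥0∞}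
    (hF : Measurable F) : ∫⁻ p, F p ∂(nuL Φ ε K N) =
      ∑ s : Ix N.m₀, ∫⁻ q, F ((famB Φ K N s).th ε q) ∂((famB Φ K N s).m ε) := by
  rw [lintegral_nuL]
  have h1 : ∑' P : CTree, (if P.leaves ≤ N.m₀ then
      ∑ x ∈ exS P, ∑ y ∈ Finset.univ.erase x, ∫⁻ p, F p ∂(nuP Φ ε K N P x y) else 0) =
      ∑ P ∈ trF N.m₀, ∑ x ∈ exS P, ∑ y ∈ Finset.univ.erase x,
        ∫⁻ q, F (thE Φ ε (N.σ P x y) x y q) ∂(mP Φ ε K N P x y) := by
    rw [tsum_eq_sum (s := trF N.m₀)]
    · refine Finset.sum_congr rfl fun P hP => ?_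
      rw [if_pos (mem_trF.1 hP)]
      refine Finset.sum_congr rfl fun x _ => Finset.sum_congr rfl fun y _ => ?_
      exact lintegral_nuP hΦ N x y hF
    · intro P hP
      rw [if_neg fun h => hP (mem_trF.2 h)]
  rw [h1, ← Finset.sum_coe_sort (trF N.m₀), Fintype.sum_sigma]
  refine Finset.sum_congr rfl fun P _ => ?_
  exact sum_prX P.1 fun x y => ∫⁻ q, F (thE Φ ε (N.σ P.1 x y) x y q) ∂(mP Φ ε K N P.1 x y)

/-- **`Rep` of the base law.** -/
theorem rep_base (hΦ : AdmissiblePotential Φ) (N : NPar) :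
    Rep (fun ε => nuL Φ ε K N) (famB Φ K N) where
  sf s ε := inferInstanceAs (SFinite (mP Φ ε K N s.1.1 s.2.1.1 s.2.1.2))
  mth s ε _ := measurable_thE hΦ ε _ _ _
  le ε _ F hF := (lintegral_nuL_shp hΦ N hF).le

end Crest.Agent.R122.NuL735

end
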