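import Crest.Agent.R122.LinkM6_547
import Crest.Agent.R122.EBasic_602

/-!
# Row 122, H11 (LINK mass), part 7 (helper547): tail of the runs from a line, integrated over it
-/

set_option autoImplicit false
set_option maxHeartbeats 400000

open MeasureTheory Set Filter
open Crest.AnalysisR.Kinetic
open Crest.Agent.R122.Flow671 Crest.Agent.R122.Loc45 Crest.Agent.R122.Causal291
open Crest.Agent.R122.Vol365 Crest.Agent.R122.GC311 Crest.Agent.R122.EDefs602
open Crest.Agent.R122.Ins45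
open scoped ENNReal Classical Nat Topology

noncomputable section

namespace Crest.Agent.R122.LinkM547

variable {Φ : Space3 → ℝ} {ε : ℝ}

/-- Path of a line in its own world. -/
theorem line_path (hΦ : AdmissiblePotential Φ) (hε : 0 < ε) (l : ML) {r : ℝ} (hr : 0 ≤ r) :
    ((MW.line l).path Φ ε r ()).1 = l.1.2.1 + (r - l.1.1) • l.1.2.2 := by
  have hd : ∀ (t : ℝ) (Z : Unit → PhasePoint), BDom Φ (MW.line l).b t Z := by
    intro t Z
    exact Or.inr fun i j hij => absurd (Subsingleton.elim i j) hij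
  have hB : BWorld Φ ε (MW.line l).b 0 (fun t => evo Φ ε (MW.line l).b 0 t (MW.line l).z) :=
    bworld_evo hΦ hε (hd _ _) fun _ _ => hd _ _
  have h := hB.free hΦ hε () (a := 0) (T := r) le_rfl
    (fun t _ _ j hj => absurd (Subsingleton.elim j ()) hj) r ⟨hr, le_rfl⟩
  have h0 : evo Φ ε (MW.line l).b 0 0 (MW.line l).z = (MW.line l).z := evo_self hΦ hε _ _ _
  simp only [h0] at h
  change (evo Φ ε (MW.line l).b 0 r (MW.line l).z ()).1 = _
  rw [h]
  simp only [MW.line, MW.lines, back, sub_zero]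
  rw [sub_smul]
  abel

theorem kin_line (l : ML) : kin (MW.line l).z = (1 / 2) * ‖l.1.2.2‖ ^ 2 := by
  unfold kin MW.line MW.lines back
  simp

theorem tsum_markW_ne_top {ρ : ℝ≥0∞} (hρ : ρ ≠ ∞) (K : ℕ) : ∑' n : ℕ, markW ρ K n ≠ ∞ := by
  have h : ∀ n ∉ Finset.range (K + 1), markW ρ K n = 0 := by
    intro n hn
    unfold markW
    rw [if_neg]
    rintro ⟨-, h⟩
    exact hn (Finset.mem_range.2 (by omega))
  rw [tsum_eq_sum h]
  refine ENNReal.sum_ne_top.2 fun n _ => ?_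
  unfold markW
  split_ifs
  · exact ENNReal.pow_ne_top hρ
  · exact ENNReal.zero_ne_top

/-- Integral over the lines passing near a point at a given time. -/
theorem line_step {β γ₀ T : ℝ} (hβγ : β < γ₀) {γ : ℝ → ℝ} (hγ : Measurable γ)
    (hγ₀ : ∀ τ ∈ Ioc (0 : ℝ) T, γ₀ ≤ γ τ) {ρm : ℝ≥0∞} (hρm : ρm ≠ ∞) (Km : ℕ) :
    ∃ C : ℝ≥0∞, C ≠ ∞ ∧ ∀ (a : Space3) (r ρ : ℝ), 0 ≤ ρ →
      ∫⁻ l, ENNReal.ofReal (Real.exp (β * ‖l.1.2.2‖ ^ 2)) *
        (if dist a (l.1.2.1 + (r - l.1.1) • l.1.2.2) ≤ ρ then 1 else 0) ∂lineM γ ρm Km T ≤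
        C * ENNReal.ofReal ρ ^ 3 := by
  set I : ℝ≥0∞ := ∫⁻ v : Space3, ENNReal.ofReal (Real.exp (-((γ₀ - β) * ‖v‖ ^ 2))) with hI
  have hIne : I ≠ ∞ := (lintegral_gaussian_lt_top (γ := γ₀ - β) (by linarith)).ne
  set S : ℝ≥0∞ := ∑' n : ℕ, markW ρm Km n with hS
  have hSne : S ≠ ∞ := tsum_markW_ne_top hρm Km
  refine ⟨ENNReal.ofReal T * (I * (S * ENNReal.ofReal (4 / 3 * Real.pi))),
    ENNReal.mul_ne_top ENNReal.ofReal_ne_top (ENNReal.mul_ne_top hIne
      (ENNReal.mul_ne_top hSne ENNReal.ofReal_ne_top)), ?_⟩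
  intro a r ρ hρ
  have hF : Measurable fun l : ML => ENNReal.ofReal (Real.exp (β * ‖l.1.2.2‖ ^ 2)) *
      (if dist a (l.1.2.1 + (r - l.1.1) • l.1.2.2) ≤ ρ then (1 : ℝ≥0∞) else 0) := by
    refine Measurable.mul (by fun_prop) (Measurable.ite ?_ measurable_const measurable_const)
    exact measurableSet_le (by fun_prop) measurable_const
  rw [EBasic602.lintegral_lineM hγ hF]
  have hball : ∀ (τ : ℝ) (v : Space3), ∫⁻ y : Space3,
      (if dist a (y + (r - τ) • v) ≤ ρ then (1 : ℝ≥0∞) else 0) =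
        ENNReal.ofReal (4 / 3 * Real.pi) * ENNReal.ofReal ρ ^ 3 := by
    intro τ v
    have e1 : (fun y : Space3 => if dist a (y + (r - τ) • v) ≤ ρ then (1 : ℝ≥0∞) else 0) =
        (Metric.closedBall (a - (r - τ) • v) ρ).indicator 1 := by
      funext y
      have : dist a (y + (r - τ) • v) = dist y (a - (r - τ) • v) := by
        rw [dist_comm, dist_eq_norm, dist_eq_norm]
        congr 1
        abel
      rw [this]
      by_cases h : dist y (a - (r - τ) • v) ≤ ρ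
      · rw [if_pos h, indicator_of_mem (Metric.mem_closedBall.2 h)]; rfl
      · rw [if_neg h, indicator_of_notMem (fun h' => h (Metric.mem_closedBall.1 h'))]
    rw [e1, lintegral_indicator_one Metric.isClosed_closedBall.measurableSet,
      EuclideanSpace.volume_closedBall_fin_three]
    rw [mul_comm]
    congr 2
    ring
  have hin : ∀ (τ : ℝ) (v : Space3), ∫⁻ y : Space3, ∑' n : ℕ, markW ρm Km n *
      (ENNReal.ofReal (Real.exp (β * ‖v‖ ^ 2)) *
        (if dist a (y + (r - τ) • v) ≤ ρ then (1 : ℝ≥0∞) else 0)) =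
      ENNReal.ofReal (Real.exp (β * ‖v‖ ^ 2)) *
        (S * ENNReal.ofReal (4 / 3 * Real.pi) * ENNReal.ofReal ρ ^ 3) := by
    intro τ v
    simp_rw [ENNReal.tsum_mul_right]
    rw [← hS]
    rw [lintegral_const_mul' _ _ hSne, lintegral_const_mul' _ _ ENNReal.ofReal_ne_top, hball]
    ring
  calc ∫⁻ τ in Ioc (0 : ℝ) T, ∫⁻ v : Space3, Kin796.wG (γ τ) v *
        ∫⁻ y : Space3, ∑' n : ℕ, markW ρm Km n *
          (ENNReal.ofReal (Real.exp (β * ‖v‖ ^ 2)) *
            (if dist a (y + (r - τ) • v) ≤ ρ then (1 : ℝ≥0∞) else 0))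
      ≤ ∫⁻ _ in Ioc (0 : ℝ) T, I * (S * ENNReal.ofReal (4 / 3 * Real.pi) *
          ENNReal.ofReal ρ ^ 3) := by
        refine lintegral_mono_ae ?_
        filter_upwards [ae_restrict_mem measurableSet_Ioc] with τ hτ
        simp_rw [hin τ]
        calc ∫⁻ v : Space3, Kin796.wG (γ τ) v * (ENNReal.ofReal (Real.exp (β * ‖v‖ ^ 2)) *
              (S * ENNReal.ofReal (4 / 3 * Real.pi) * ENNReal.ofReal ρ ^ 3))
            ≤ ∫⁻ v : Space3, ENNReal.ofReal (Real.exp (-((γ₀ - β) * ‖v‖ ^ 2))) *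
              (S * ENNReal.ofReal (4 / 3 * Real.pi) * ENNReal.ofReal ρ ^ 3) := by
              refine lintegral_mono fun v => ?_
              simp only
              rw [← mul_assoc]
              refine mul_le_mul_left ?_ _
              unfold Kin796.wG
              rw [← ENNReal.ofReal_mul (Real.exp_pos _).le, ← Real.exp_add]
              refine ENNReal.ofReal_le_ofReal (Real.exp_le_exp.2 ?_)
              have := hγ₀ τ hτ
              have h2 : 0 ≤ ‖v‖ ^ 2 := by positivity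
              nlinarith
          _ = I * (S * ENNReal.ofReal (4 / 3 * Real.pi) * ENNReal.ofReal ρ ^ 3) := by
              rw [hI, lintegral_mul_const _ (by fun_prop)]
    _ = _ := by
        rw [lintegral_const, Measure.restrict_apply_univ, Real.volume_Ioc, sub_zero]
        ring

/-- mass of the first cluster of a run starting at the line `l` -/
def Bl (Φ : Space3 → ℝ) (f₀ : PhasePoint → ℝ) (ε β T : ℝ) (s : Step) (r : ℝ) (l : ML) : ℝ≥0∞ :=
  ∫⁻ V : Config s.k, gcWeight f₀ ε s.k V * ENNReal.ofReal (Real.exp (2 * β * kin V)) *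
    (if AllConn (NContact Φ ε 0 T V) ∧
      dist (flow Φ ε r V s.e).1 (l.1.2.1 + (r - l.1.1) • l.1.2.2) ≤ 3 * ε then 1 else 0)

theorem measurable_blI (hΦ : AdmissiblePotential Φ) (hε : 0 < ε) {f₀ : PhasePoint → ℝ}
    (hf : Measurable f₀) (β T : ℝ) (s : Step) (r : ℝ) :
    Measurable fun p : ML × Config s.k => gcWeight f₀ ε s.k p.2 *
      ENNReal.ofReal (Real.exp (2 * β * kin p.2)) *
      (if AllConn (NContact Φ ε 0 T p.2) ∧
        dist (flow Φ ε r p.2 s.e).1 (p.1.1.2.1 + (r - p.1.1.1) • p.1.1.2.2) ≤ 3 * ε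
        then (1 : ℝ≥0∞) else 0) := by
  refine Measurable.mul (((measurable_gcWeight hf ε s.k).comp measurable_snd).mul ?_) ?_
  · exact ((Real.measurable_exp.comp (measurable_kin.const_mul (2 * β))).ennreal_ofReal).comp
      measurable_snd
  · refine Measurable.ite (MeasurableSet.inter (measurable_snd (measurableSet_allConn hΦ hε T s.k))
      ?_) measurable_const measurable_const
    refine measurableSet_le (Measurable.dist ?_ (by fun_prop)) measurable_const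
    exact (((measurable_pi_apply s.e).comp ((measurable_flow (ι := Fin s.k) hΦ hε r).comp
      measurable_snd))).fst

theorem measurable_bl (hΦ : AdmissiblePotential Φ) (hε : 0 < ε) {f₀ : PhasePoint → ℝ}
    (hf : Measurable f₀) (β T : ℝ) (s : Step) (r : ℝ) : Measurable (Bl Φ f₀ ε β T s r) :=
  (measurable_blI hΦ hε hf β T s r).lintegral_prod_right'

/-- First cluster, integrated over the line. -/
theorem lintegral_bl_le (hΦ : AdmissiblePotential Φ) (hε : 0 < ε) {f₀ : PhasePoint → ℝ}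
    (hf : Measurable f₀) {β T : ℝ} {γ : ℝ → ℝ} {ρm : ℝ≥0∞} {Km : ℕ} {C₁ C₂ : ℝ≥0∞}
    (hC₁ : C₁ ≠ ∞) (hl : ∀ (a : Space3) (r ρ : ℝ), 0 ≤ ρ →
      ∫⁻ l, ENNReal.ofReal (Real.exp (β * ‖l.1.2.2‖ ^ 2)) *
        (if dist a (l.1.2.1 + (r - l.1.1) • l.1.2.2) ≤ ρ then 1 else 0) ∂lineM γ ρm Km T ≤
        C₁ * ENNReal.ofReal ρ ^ 3) (s : Step) (r : ℝ)
    (hc : ∫⁻ V : Config s.k, gcWeight f₀ ε s.k V * ENNReal.ofReal (Real.exp (2 * β * kin V)) *
          (if AllConn (NContact Φ ε 0 T V) then 1 else 0) ≤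
        C₂ * ENNReal.ofReal ε ^ (2 * (s.k - 1))) :
    ∫⁻ l, ENNReal.ofReal (Real.exp (β * ‖l.1.2.2‖ ^ 2)) * Bl Φ f₀ ε β T s r l ∂lineM γ ρm Km T ≤
      (C₁ * C₂) * ENNReal.ofReal ε ^ (2 * (s.k - 1)) * ENNReal.ofReal (3 * ε) ^ 3 := by
  have hm := measurable_blI hΦ hε hf β T s r
  have hm2 : Measurable fun p : ML × Config s.k =>
      ENNReal.ofReal (Real.exp (β * ‖p.1.1.2.2‖ ^ 2)) * (gcWeight f₀ ε s.k p.2 *
      ENNReal.ofReal (Real.exp (2 * β * kin p.2)) *
      (if AllConn (NContact Φ ε 0 T p.2) ∧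
        dist (flow Φ ε r p.2 s.e).1 (p.1.1.2.1 + (r - p.1.1.1) • p.1.1.2.2) ≤ 3 * ε
        then (1 : ℝ≥0∞) else 0)) := Measurable.mul (by fun_prop) hm
  calc ∫⁻ l, ENNReal.ofReal (Real.exp (β * ‖l.1.2.2‖ ^ 2)) * Bl Φ f₀ ε β T s r l
        ∂lineM γ ρm Km T
      = ∫⁻ l : ML, (∫⁻ V : Config s.k, ENNReal.ofReal (Real.exp (β * ‖l.1.2.2‖ ^ 2)) *
          (gcWeight f₀ ε s.k V * ENNReal.ofReal (Real.exp (2 * β * kin V)) *
          (if AllConn (NContact Φ ε 0 T V) ∧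
            dist (flow Φ ε r V s.e).1 (l.1.2.1 + (r - l.1.1) • l.1.2.2) ≤ 3 * ε
            then (1 : ℝ≥0∞) else 0))) ∂lineM γ ρm Km T := by
        refine lintegral_congr fun l => ?_
        unfold Bl
        rw [lintegral_const_mul' _ _ ENNReal.ofReal_ne_top]
    _ = ∫⁻ V : Config s.k, (∫⁻ l : ML, ENNReal.ofReal (Real.exp (β * ‖l.1.2.2‖ ^ 2)) *
          (gcWeight f₀ ε s.k V * ENNReal.ofReal (Real.exp (2 * β * kin V)) *
          (if AllConn (NContact Φ ε 0 T V) ∧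
            dist (flow Φ ε r V s.e).1 (l.1.2.1 + (r - l.1.1) • l.1.2.2) ≤ 3 * ε
            then (1 : ℝ≥0∞) else 0)) ∂lineM γ ρm Km T) :=
        lintegral_lintegral_swap hm2.aemeasurable
    _ ≤ ∫⁻ V : Config s.k, (gcWeight f₀ ε s.k V * ENNReal.ofReal (Real.exp (2 * β * kin V)) *
          (if AllConn (NContact Φ ε 0 T V) then 1 else 0)) *
            (C₁ * ENNReal.ofReal (3 * ε) ^ 3) := by
        refine lintegral_mono fun V => ?_
        simp only
        set g : ℝ≥0∞ := gcWeight f₀ ε s.k V * ENNReal.ofReal (Real.exp (2 * β * kin V)) with hg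
        by_cases hV : AllConn (NContact Φ ε 0 T V)
        · rw [if_pos hV, mul_one]
          have e1 : ∀ l : ML, ENNReal.ofReal (Real.exp (β * ‖l.1.2.2‖ ^ 2)) * (g *
              (if AllConn (NContact Φ ε 0 T V) ∧
                dist (flow Φ ε r V s.e).1 (l.1.2.1 + (r - l.1.1) • l.1.2.2) ≤ 3 * ε
                then (1 : ℝ≥0∞) else 0)) =
              g * (ENNReal.ofReal (Real.exp (β * ‖l.1.2.2‖ ^ 2)) *
              (if dist (flow Φ ε r V s.e).1 (l.1.2.1 + (r - l.1.1) • l.1.2.2) ≤ 3 * ε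
                then (1 : ℝ≥0∞) else 0)) := by
            intro l
            simp only [hV, true_and]
            ring
          simp_rw [e1]
          rw [lintegral_const_mul]
          · exact mul_le_mul_right (hl _ r (3 * ε) (by positivity)) _
          · refine Measurable.mul (by fun_prop) (Measurable.ite ?_ measurable_const
              measurable_const)
            exact measurableSet_le (by fun_prop) measurable_const
        · simp [hV]
    _ = (∫⁻ V : Config s.k, gcWeight f₀ ε s.k V * ENNReal.ofReal (Real.exp (2 * β * kin V)) *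
          (if AllConn (NContact Φ ε 0 T V) then 1 else 0)) *
            (C₁ * ENNReal.ofReal (3 * ε) ^ 3) :=
        lintegral_mul_const' _ _ (ENNReal.mul_ne_top hC₁
          (ENNReal.pow_ne_top ENNReal.ofReal_ne_top))
    _ ≤ (C₂ * ENNReal.ofReal ε ^ (2 * (s.k - 1))) * (C₁ * ENNReal.ofReal (3 * ε) ^ 3) :=
        mul_le_mul_left hc _
    _ = _ := by ring

/-- bound of one grid run from the line `l` -/
def Ub (Φ : Space3 → ℝ) (f₀ : PhasePoint → ℝ) (ε β T : ℝ) (C : ℝ≥0∞) (N : ℕ) (l : ML) :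
    List (Step × ℝ) → ℝ≥0∞
  | [] => ∞
  | (s, r) :: l' => ENNReal.ofReal (Real.exp (-(2 * β * (N - 1)))) *
      activity ε ^ (tot ((s, r) :: l')) *
      (l'.map fun p => C * ENNReal.ofReal ε ^ (2 * (p.1.k - 1)) *
        ENNReal.ofReal (3 * ε) ^ 3).prod *
      (ENNReal.ofReal (Real.exp (β * ‖l.1.2.2‖ ^ 2)) * Bl Φ f₀ ε β T s r l)

theorem measurable_ub (hΦ : AdmissiblePotential Φ) (hε : 0 < ε) {f₀ : PhasePoint → ℝ}
    (hf : Measurable f₀) (β T : ℝ) (C : ℝ≥0∞) (N : ℕ) (L : List (Step × ℝ)) :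
    Measurable fun l => Ub Φ f₀ ε β T C N l L := by
  rcases L with _ | ⟨⟨s, r⟩, l'⟩
  · exact measurable_const
  · unfold Ub
    exact Measurable.const_mul (Measurable.mul (by fun_prop) (measurable_bl hΦ hε hf β T s r)) _

/-- Pointwise bound. -/
theorem gcE_GI_line_le (hΦ : AdmissiblePotential Φ) {f₀ : PhasePoint → ℝ} (hf : Measurable f₀)
    (h1 : ∫⁻ z, ENNReal.ofReal (f₀ z) ≤ 1) (hε : 0 < ε) {T β : ℝ} (hβ : 0 ≤ β) {K : ℕ}
    {C : ℝ≥0∞} (hCtop : C ≠ ∞)
    (hC : ∀ k ≤ K, ∀ (e : Fin k) (r : ℝ), 0 ≤ r → r ≤ T → ∀ a : Space3,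
      ∫⁻ V : Config k, gcWeight f₀ ε k V * ENNReal.ofReal (Real.exp (2 * β * kin V)) *
          (if AllConn (NContact Φ ε 0 T V) ∧ dist (flow Φ ε r V e).1 a ≤ 3 * ε then 1 else 0) ≤
        C * ENNReal.ofReal ε ^ (2 * (k - 1)) * ENNReal.ofReal (3 * ε) ^ 3)
    (l : ML) (N : ℕ) (L : List (Step × ℝ))
    (hk : ∀ p ∈ L, 1 ≤ p.1.k ∧ p.1.k ≤ K) (ht : ∀ p ∈ L, p.2 ∈ Icc (0 : ℝ) T) :
    gcE f₀ ε (fun n w => ∑ ι : Fin (tot L) ↪ Fin n,
      GI Φ ε T Unit (MW.line l) () N L (fun i => w (ι i))) ≤ Ub Φ f₀ ε β T C N l L := by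
  rcases L with _ | ⟨⟨s, r⟩, l'⟩
  · exact le_top
  refine (gcE_sum_emb_le hf h1 ε (GI Φ ε T Unit (MW.line l) () N _)
    (measurable_GI hΦ hε T Unit (MW.line l) () N _)).trans ?_
  have hle : ∀ V : Config (tot ((s, r) :: l')), GI Φ ε T Unit (MW.line l) () N ((s, r) :: l') V ≤
      ENNReal.ofReal (Real.exp (2 * β * (kin (MW.line l).z - (N - 1)))) *
        (ENNReal.ofReal (Real.exp (2 * β * kin V)) *
          (if Ch Φ ε T (3 * ε) ((s, r) :: l') Unit (MW.line l) () V then (1 : ℝ≥0∞) else 0)) := by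
    intro V
    unfold GI
    by_cases h : Ch Φ ε T (3 * ε) ((s, r) :: l') Unit (MW.line l) () V ∧
        (N : ℝ) - 1 ≤ kin (MW.line l).z + kin V
    · rw [if_pos h, if_pos h.1, mul_one, ← ENNReal.ofReal_mul (Real.exp_pos _).le, ← Real.exp_add,
        ENNReal.one_le_ofReal, Real.one_le_exp_iff]
      have := h.2
      have e : 2 * β * (kin (MW.line l).z - (N - 1)) + 2 * β * kin V =
        2 * β * (kin (MW.line l).z + kin V - (N - 1)) := by ring
      rw [e]
      refine mul_nonneg (by positivity) (by linarith)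
    · rw [if_neg h]; exact bot_le
  have hr := ht (s, r) (List.mem_cons_self ..)
  have hstep := lintegral_ch_cons hΦ hf hε (ρ := 3 * ε) (κ := 2 * β) hCtop hC s r l'
    (fun p hp => (hk p (List.mem_cons_of_mem _ hp)).2)
    (fun p hp => ht p (List.mem_cons_of_mem _ hp)) Unit (MW.line l) ()
  rw [line_path hΦ hε l hr.1] at hstep
  have hee : ENNReal.ofReal (Real.exp (2 * β * (kin (MW.line l).z - (N - 1)))) =
      ENNReal.ofReal (Real.exp (-(2 * β * (N - 1)))) *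
        ENNReal.ofReal (Real.exp (β * ‖l.1.2.2‖ ^ 2)) := by
    rw [← ENNReal.ofReal_mul (Real.exp_pos _).le, ← Real.exp_add, kin_line]
    congr 2
    ring
  calc activity ε ^ tot ((s, r) :: l') * ∫⁻ V : Config (tot ((s, r) :: l')),
        gcWeight f₀ ε (tot ((s, r) :: l')) V * GI Φ ε T Unit (MW.line l) () N ((s, r) :: l') V
      ≤ activity ε ^ tot ((s, r) :: l') * ∫⁻ V : Config (tot ((s, r) :: l')),
          ENNReal.ofReal (Real.exp (2 * β * (kin (MW.line l).z - (N - 1)))) *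
          (gcWeight f₀ ε (tot ((s, r) :: l')) V * (ENNReal.ofReal (Real.exp (2 * β * kin V)) *
          (if Ch Φ ε T (3 * ε) ((s, r) :: l') Unit (MW.line l) () V then (1 : ℝ≥0∞) else 0))) := by
        refine mul_le_mul_right (lintegral_mono fun V => ?_) _
        calc gcWeight f₀ ε (tot ((s, r) :: l')) V *
              GI Φ ε T Unit (MW.line l) () N ((s, r) :: l') V
            ≤ gcWeight f₀ ε (tot ((s, r) :: l')) V *
              (ENNReal.ofReal (Real.exp (2 * β * (kin (MW.line l).z - (N - 1)))) *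
              (ENNReal.ofReal (Real.exp (2 * β * kin V)) *
              (if Ch Φ ε T (3 * ε) ((s, r) :: l') Unit (MW.line l) () V
                then (1 : ℝ≥0∞) else 0))) := mul_le_mul_right (hle V) _
          _ = _ := by ring
    _ = ENNReal.ofReal (Real.exp (2 * β * (kin (MW.line l).z - (N - 1)))) *
          (activity ε ^ tot ((s, r) :: l') *
          ∫⁻ V : Config (tot ((s, r) :: l')), gcWeight f₀ ε (tot ((s, r) :: l')) V *
            (ENNReal.ofReal (Real.exp (2 * β * kin V)) *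
            (if Ch Φ ε T (3 * ε) ((s, r) :: l') Unit (MW.line l) () V
              then (1 : ℝ≥0∞) else 0))) := by
        rw [lintegral_const_mul' _ _ ENNReal.ofReal_ne_top]
        ring
    _ ≤ ENNReal.ofReal (Real.exp (2 * β * (kin (MW.line l).z - (N - 1)))) *
          (activity ε ^ tot ((s, r) :: l') * (Bl Φ f₀ ε β T s r l *
          (l'.map fun p => C * ENNReal.ofReal ε ^ (2 * (p.1.k - 1)) *
            ENNReal.ofReal (3 * ε) ^ 3).prod)) :=
        mul_le_mul_right (mul_le_mul_right hstep _) _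
    _ = Ub Φ f₀ ε β T C N l ((s, r) :: l') := by
        rw [hee]
        unfold Ub
        ring

/-- Integral of the bound over the line. -/
theorem lintegral_ub_le (hΦ : AdmissiblePotential Φ) (hε : 0 < ε) {f₀ : PhasePoint → ℝ}
    (hf : Measurable f₀) {β T : ℝ} {γ : ℝ → ℝ} {ρm : ℝ≥0∞} {Km K : ℕ} {C C₁ C₂ : ℝ≥0∞}
    (hCtop : C ≠ ∞) (hC₁ : C₁ ≠ ∞) (hl : ∀ (a : Space3) (r ρ : ℝ), 0 ≤ ρ →
      ∫⁻ l, ENNReal.ofReal (Real.exp (β * ‖l.1.2.2‖ ^ 2)) *
        (if dist a (l.1.2.1 + (r - l.1.1) • l.1.2.2) ≤ ρ then 1 else 0) ∂lineM γ ρm Km T ≤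
        C₁ * ENNReal.ofReal ρ ^ 3)
    (hc : ∀ k, 1 ≤ k → k ≤ K → ∫⁻ V : Config k, gcWeight f₀ ε k V *
        ENNReal.ofReal (Real.exp (2 * β * kin V)) *
          (if AllConn (NContact Φ ε 0 T V) then 1 else 0) ≤
        C₂ * ENNReal.ofReal ε ^ (2 * (k - 1))) (N : ℕ) (L : List (Step × ℝ)) (hL : L ≠ [])
    (hk : ∀ p ∈ L, 1 ≤ p.1.k ∧ p.1.k ≤ K) :
    ∫⁻ l, Ub Φ f₀ ε β T C N l L ∂lineM γ ρm Km T ≤
      ENNReal.ofReal (Real.exp (-(2 * β * (N - 1)))) *
        (27 * (C + C₁ * C₂) * ENNReal.ofReal ε) ^ L.length := by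
  rcases L with _ | ⟨⟨s, r⟩, l'⟩
  · exact absurd rfl hL
  have hks := hk (s, r) (List.mem_cons_self ..)
  have h1 := lintegral_bl_le hΦ hε hf hC₁ hl s r (hc s.k hks.1 hks.2)
  have hPtop : (l'.map fun p => C * ENNReal.ofReal ε ^ (2 * (p.1.k - 1)) *
        ENNReal.ofReal (3 * ε) ^ 3).prod ≠ ∞ := by
    refine list_prod_ne_top _ ?_
    intro x hx
    rw [List.mem_map] at hx
    obtain ⟨p, -, rfl⟩ := hx
    exact ENNReal.mul_ne_top (ENNReal.mul_ne_top hCtop (ENNReal.pow_ne_top ENNReal.ofReal_ne_top))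
      (ENNReal.pow_ne_top ENNReal.ofReal_ne_top)
  have hc0 : ENNReal.ofReal (Real.exp (-(2 * β * (N - 1)))) *
      activity ε ^ (tot ((s, r) :: l')) *
      (l'.map fun p => C * ENNReal.ofReal ε ^ (2 * (p.1.k - 1)) *
        ENNReal.ofReal (3 * ε) ^ 3).prod ≠ ∞ := by
    refine ENNReal.mul_ne_top (ENNReal.mul_ne_top ENNReal.ofReal_ne_top
      (ENNReal.pow_ne_top ?_)) hPtop
    unfold activity
    exact ENNReal.ofReal_ne_top
  change ∫⁻ l, ENNReal.ofReal (Real.exp (-(2 * β * (N - 1)))) *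
      activity ε ^ (tot ((s, r) :: l')) *
      (l'.map fun p => C * ENNReal.ofReal ε ^ (2 * (p.1.k - 1)) *
        ENNReal.ofReal (3 * ε) ^ 3).prod *
      (ENNReal.ofReal (Real.exp (β * ‖l.1.2.2‖ ^ 2)) * Bl Φ f₀ ε β T s r l) ∂lineM γ ρm Km T ≤ _
  rw [lintegral_const_mul' _ _ hc0]
  have ha : activity ε * ENNReal.ofReal (3 * ε) ^ 3 = 27 * ENNReal.ofReal ε := by
    unfold activity
    rw [← ENNReal.ofReal_pow (by positivity), ← ENNReal.ofReal_mul (by positivity)]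
    have : (ε ^ 2)⁻¹ * (3 * ε) ^ 3 = 27 * ε := by field_simp; ring
    rw [this, ENNReal.ofReal_mul (by norm_num)]
    congr 1
    exact ENNReal.ofReal_ofNat 27
  have h2 := activity_pow_mul hε hks.1
  have h3 := activity_tot (C := C) hε l' fun p hp => (hk p (List.mem_cons_of_mem _ hp)).1
  calc ENNReal.ofReal (Real.exp (-(2 * β * (N - 1)))) * activity ε ^ (tot ((s, r) :: l')) *
      (l'.map fun p => C * ENNReal.ofReal ε ^ (2 * (p.1.k - 1)) *
        ENNReal.ofReal (3 * ε) ^ 3).prod *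
      ∫⁻ l, ENNReal.ofReal (Real.exp (β * ‖l.1.2.2‖ ^ 2)) * Bl Φ f₀ ε β T s r l ∂lineM γ ρm Km T
      ≤ ENNReal.ofReal (Real.exp (-(2 * β * (N - 1)))) * activity ε ^ (tot ((s, r) :: l')) *
      (l'.map fun p => C * ENNReal.ofReal ε ^ (2 * (p.1.k - 1)) *
        ENNReal.ofReal (3 * ε) ^ 3).prod *
      ((C₁ * C₂) * ENNReal.ofReal ε ^ (2 * (s.k - 1)) * ENNReal.ofReal (3 * ε) ^ 3) :=
        mul_le_mul_right h1 _
    _ = ENNReal.ofReal (Real.exp (-(2 * β * (N - 1)))) *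
        (activity ε ^ tot l' * (l'.map fun p => C * ENNReal.ofReal ε ^ (2 * (p.1.k - 1)) *
        ENNReal.ofReal (3 * ε) ^ 3).prod) * (activity ε ^ s.k *
          ENNReal.ofReal ε ^ (2 * (s.k - 1)) * (C₁ * C₂) * ENNReal.ofReal (3 * ε) ^ 3) := by
        change ENNReal.ofReal (Real.exp (-(2 * β * (N - 1)))) * activity ε ^ (s.k + tot l') * _ *
          _ = _
        rw [pow_add]
        ring
    _ = ENNReal.ofReal (Real.exp (-(2 * β * (N - 1)))) *
        ((27 * C * ENNReal.ofReal ε) ^ l'.length * (27 * (C₁ * C₂) * ENNReal.ofReal ε)) := by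
        rw [h3, h2]
        have : activity ε * (C₁ * C₂) * ENNReal.ofReal (3 * ε) ^ 3 =
          27 * (C₁ * C₂) * ENNReal.ofReal ε := by
          calc activity ε * (C₁ * C₂) * ENNReal.ofReal (3 * ε) ^ 3
              = (activity ε * ENNReal.ofReal (3 * ε) ^ 3) * (C₁ * C₂) := by ring
            _ = _ := by rw [ha]; ring
        rw [this]
        ring
    _ ≤ ENNReal.ofReal (Real.exp (-(2 * β * (N - 1)))) *
        ((27 * (C + C₁ * C₂) * ENNReal.ofReal ε) ^ l'.length *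
          (27 * (C + C₁ * C₂) * ENNReal.ofReal ε)) := by
        refine mul_le_mul_right (mul_le_mul' (pow_le_pow_left' ?_ _) ?_) _
        · exact mul_le_mul_left (mul_le_mul_right le_self_add _) _
        · exact mul_le_mul_left (mul_le_mul_right le_add_self _) _
    _ = _ := by rw [← pow_succ]; rfl

/-- **Tail of the runs from a line, integrated over the line**, majorant. -/
theorem RM_tail_line (hΦ : AdmissiblePotential Φ) {β γ₀ : ℝ} (hβ : 0 < β) (hβγ : β < γ₀)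
    (T A : ℝ) (hT : 0 ≤ T) (hA : 0 ≤ A) (K : ℕ) {f₀ : PhasePoint → ℝ} (hf : Measurable f₀)
    (h1 : ∫⁻ z, ENNReal.ofReal (f₀ z) ≤ 1) {env : Space3 → ℝ≥0∞} (hE : EnvB β f₀ env A)
    {γ : ℝ → ℝ} (hγ : Measurable γ) (hγ₀ : ∀ τ ∈ Ioc (0 : ℝ) T, γ₀ ≤ γ τ) {ρm : ℝ≥0∞}
    (hρm : ρm ≠ ∞) (Km : ℕ) :
    ∃ η : ℕ → ℝ≥0∞, Tendsto η atTop (𝓝 0) ∧ (∀ L, η L ≠ ∞) ∧
      ∀ L : ℕ, 1 ≤ L → ∃ ε₀ : ℝ, 0 < ε₀ ∧ ∀ ε : ℝ, 0 < ε → ε < ε₀ →
        ∫⁻ l, gcE f₀ ε (fun n w => RM Φ ε T K L (MW.line l) () w)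
          ∂lineM γ ρm Km T ≤ η L := by
  have hfC : ∀ z : PhasePoint, f₀ z ≤ A * Real.exp (-(2 * β * ‖z.2‖ ^ 2)) := by
    intro z
    have h2 : ENNReal.ofReal (f₀ z) ≤ ENNReal.ofReal (A * Real.exp (-(2 * β * ‖z.2‖ ^ 2))) := by
      rw [ENNReal.ofReal_mul hA]
      exact (hE.bound z).trans (mul_le_mul_left (hE.le _) _)
    exact (ENNReal.ofReal_le_ofReal_iff (mul_nonneg hA (Real.exp_pos _).le)).1 h2
  obtain ⟨C, hCtop, hC⟩ := step_bound hΦ hβ T A hA K
  obtain ⟨C', hC'top, hC'⟩ := conn_bound hΦ hβ T A hT K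
  obtain ⟨C₁, hC₁top, hC₁⟩ := line_step (T := T) hβγ hγ hγ₀ hρm Km
  set C₂ : ℝ≥0∞ := C' * ∫⁻ x, env x with hC₂
  have hC₂top : C₂ ≠ ∞ := ENNReal.mul_ne_top hC'top hE.int_ne
  have hB := stabB_nonneg Φ
  obtain ⟨η, hη, hηtop, hsum⟩ := grid_sum hB hβ T hT K 1 (C := C + C₁ * C₂)
    (ENNReal.add_ne_top.2 ⟨hCtop, ENNReal.mul_ne_top hC₁top hC₂top⟩)
  refine ⟨η, hη, hηtop, ?_⟩
  intro L hL
  refine ⟨1 / (L + 1), by positivity, ?_⟩
  intro ε hε hεL
  have hεL' : ε * (L + 1) ≤ 1 := by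
    have : (0 : ℝ) < (L : ℝ) + 1 := by positivity
    have := (lt_div_iff₀ this).1 hεL
    linarith
  have hε1 : ε ≤ 1 := by
    have : (1 : ℝ) / (L + 1) ≤ 1 := by
      rw [div_le_one (by positivity)]
      have : (0 : ℝ) ≤ (L : ℝ) := by positivity
      linarith
    linarith
  have hCf : ∀ k ≤ K, ∀ (e : Fin k) (r : ℝ), 0 ≤ r → r ≤ T → ∀ a : Space3,
      ∫⁻ V : Config k, gcWeight f₀ ε k V * ENNReal.ofReal (Real.exp (2 * β * kin V)) *
        (if AllConn (NContact Φ ε 0 T V) ∧ dist (flow Φ ε r V e).1 a ≤ 3 * ε then 1 else 0) ≤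
      C * ENNReal.ofReal ε ^ (2 * (k - 1)) * ENNReal.ofReal (3 * ε) ^ 3 := by
    intro k hk e r h0 hT' a
    exact hC f₀ hfC ε hε hε1 k hk e r h0 hT' a (3 * ε) (by positivity)
  have hconn : ∀ k, 1 ≤ k → k ≤ K → ∫⁻ V : Config k, gcWeight f₀ ε k V *
      ENNReal.ofReal (Real.exp (2 * β * kin V)) *
        (if AllConn (NContact Φ ε 0 T V) then 1 else 0) ≤
      C₂ * ENNReal.ofReal ε ^ (2 * (k - 1)) := by
    intro k h1' hk
    refine (hC' f₀ env hE ε hε hε1 k h1' hk).trans (le_of_eq ?_)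
    rw [hC₂]
    ring
  set B := stabB Φ with hBdef
  set cG : ℝ := (Fintype.card Unit : ℝ) with hcG
  have hcG1 : cG ≤ ((1 : ℕ) : ℝ) := by rw [hcG]; simp
  have hgl : ∀ (N : ℕ) (σ : Sym (Fin (mN T ε B cG L K N)) L) (st : List.Vector (StepK K) L),
      (∀ p ∈ gl (ε / MN B cG L K N) σ st, 1 ≤ p.1.k ∧ p.1.k ≤ K) ∧
      (∀ p ∈ gl (ε / MN B cG L K N) σ st, p.2 ∈ Icc (0 : ℝ) T) ∧
      gl (ε / MN B cG L K N) σ st ≠ [] := by
    intro N σ st
    refine ⟨fun p hp => ⟨(mem_gl hp).1, (mem_gl hp).2.1⟩, fun p hp => ?_, ?_⟩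
    · have hM0 : 0 < MN B cG L K N := lt_of_lt_of_le one_pos (one_le_MN _ _ _ _ _)
      have hδ : 0 < ε / MN B cG L K N := div_pos hε hM0
      obtain ⟨-, -, a, ha⟩ := mem_gl hp
      rw [ha]
      refine ⟨by positivity, ?_⟩
      have h3 : (a.1 : ℕ) ≤ ⌊T / (ε / MN B cG L K N)⌋₊ := by
        have := a.2
        unfold mN at this
        omega
      calc ε / MN B cG L K N * ((a.1 : ℕ) : ℝ)
          ≤ ε / MN B cG L K N * (⌊T / (ε / MN B cG L K N)⌋₊ : ℝ) := by
            refine mul_le_mul_of_nonneg_left ?_ hδ.le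
            exact_mod_cast h3
        _ ≤ T := (rd_bounds hδ hT).2.1
    · intro h
      have := length_gl (ε / MN B cG L K N) σ st
      rw [h] at this
      simp at this
      omega
  have hmeas : ∀ (l : ML) (n N : ℕ) (σ : Sym (Fin (mN T ε B cG L K N)) L)
      (st : List.Vector (StepK K) L), Measurable fun w : Config n =>
        ∑ ι : Fin (tot (gl (ε / MN B cG L K N) σ st)) ↪ Fin n,
          GI Φ ε T Unit (MW.line l) () N (gl (ε / MN B cG L K N) σ st) (fun i => w (ι i)) := by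
    intro l n N σ st
    refine Finset.measurable_sum _ fun ι _ => ?_
    exact (measurable_GI hΦ hε T Unit (MW.line l) () N _).comp
      (measurable_pi_iff.2 fun i => measurable_pi_apply (ι i))
  have hpt : ∀ l : ML, gcE f₀ ε (fun n w => RM Φ ε T K L (MW.line l) () w) ≤
      ∑' N : ℕ, ∑ σ : Sym (Fin (mN T ε B cG L K N)) L, ∑ st : List.Vector (StepK K) L,
        Ub Φ f₀ ε β T C N l (gl (ε / MN B cG L K N) σ st) := by
    intro l
    calc gcE f₀ ε (fun n w => RM Φ ε T K L (MW.line l) () w)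
        = gcE f₀ ε (fun n w => ∑' N : ℕ, ∑ σ : Sym (Fin (mN T ε B cG L K N)) L,
            ∑ st : List.Vector (StepK K) L,
              ∑ ι : Fin (tot (gl (ε / MN B cG L K N) σ st)) ↪ Fin n,
                GI Φ ε T Unit (MW.line l) () N (gl (ε / MN B cG L K N) σ st)
                  (fun i => w (ι i))) := rfl
      _ = ∑' N : ℕ, ∑ σ : Sym (Fin (mN T ε B cG L K N)) L,
            ∑ st : List.Vector (StepK K) L, gcE f₀ ε (fun n w =>
              ∑ ι : Fin (tot (gl (ε / MN B cG L K N) σ st)) ↪ Fin n,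
                GI Φ ε T Unit (MW.line l) () N (gl (ε / MN B cG L K N) σ st)
                  (fun i => w (ι i))) := by
          rw [gcE_tsum hf ε (F := fun N n w =>
            ∑ σ : Sym (Fin (mN T ε B cG L K N)) L,
            ∑ st : List.Vector (StepK K) L,
              ∑ ι : Fin (tot (gl (ε / MN B cG L K N) σ st)) ↪ Fin n,
                GI Φ ε T Unit (MW.line l) () N (gl (ε / MN B cG L K N) σ st)
                  (fun i => w (ι i)))
            (fun N n => Finset.measurable_sum _ fun σ _ => Finset.measurable_sum _ fun st _ =>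
              hmeas l n N σ st)]
          refine tsum_congr fun N => ?_
          rw [gcE_finset_sum hf ε Finset.univ (F := fun σ n w =>
            ∑ st : List.Vector (StepK K) L,
              ∑ ι : Fin (tot (gl (ε / MN B cG L K N) σ st)) ↪ Fin n,
                GI Φ ε T Unit (MW.line l) () N (gl (ε / MN B cG L K N) σ st)
                  (fun i => w (ι i)))
            (fun σ _ n => Finset.measurable_sum _ fun st _ => hmeas l n N σ st)]
          refine Finset.sum_congr rfl fun σ _ => ?_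
          rw [gcE_finset_sum hf ε Finset.univ (F := fun st n w =>
              ∑ ι : Fin (tot (gl (ε / MN B cG L K N) σ st)) ↪ Fin n,
                GI Φ ε T Unit (MW.line l) () N (gl (ε / MN B cG L K N) σ st)
                  (fun i => w (ι i)))
            (fun st _ n => hmeas l n N σ st)]
      _ ≤ _ := by
          refine ENNReal.tsum_le_tsum fun N => Finset.sum_le_sum fun σ _ =>
            Finset.sum_le_sum fun st _ => ?_
          exact gcE_GI_line_le hΦ hf h1 hε hβ.le hCtop hCf l N _ (hgl N σ st).1 (hgl N σ st).2.1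
  have hmU : ∀ (N : ℕ) (σ : Sym (Fin (mN T ε B cG L K N)) L) (st : List.Vector (StepK K) L),
      Measurable fun l : ML => Ub Φ f₀ ε β T C N l (gl (ε / MN B cG L K N) σ st) :=
    fun N σ st => measurable_ub hΦ hε hf β T C N _
  calc ∫⁻ l, gcE f₀ ε (fun n w => RM Φ ε T K L (MW.line l) () w)
        ∂lineM γ ρm Km T
      ≤ ∫⁻ l, ∑' N : ℕ, ∑ σ : Sym (Fin (mN T ε B cG L K N)) L, ∑ st : List.Vector (StepK K) L,
          Ub Φ f₀ ε β T C N l (gl (ε / MN B cG L K N) σ st) ∂lineM γ ρm Km T :=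
        lintegral_mono hpt
    _ = ∑' N : ℕ, ∑ σ : Sym (Fin (mN T ε B cG L K N)) L, ∑ st : List.Vector (StepK K) L,
          ∫⁻ l, Ub Φ f₀ ε β T C N l (gl (ε / MN B cG L K N) σ st) ∂lineM γ ρm Km T := by
        rw [lintegral_tsum fun N => (Finset.measurable_sum _ fun σ _ =>
          Finset.measurable_sum _ fun st _ => hmU N σ st).aemeasurable]
        refine tsum_congr fun N => ?_
        rw [lintegral_finsetSum _ fun σ _ => Finset.measurable_sum _ fun st _ => hmU N σ st]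
        refine Finset.sum_congr rfl fun σ _ => ?_
        rw [lintegral_finsetSum _ fun st _ => hmU N σ st]
    _ ≤ ∑' N : ℕ, ∑ σ : Sym (Fin (mN T ε B cG L K N)) L, ∑ st : List.Vector (StepK K) L,
          ENNReal.ofReal (Real.exp (-(2 * β * (N - 1)))) *
            (27 * (C + C₁ * C₂) * ENNReal.ofReal ε) ^ L := by
        refine ENNReal.tsum_le_tsum fun N => Finset.sum_le_sum fun σ _ =>
          Finset.sum_le_sum fun st _ => ?_
        have h2 := lintegral_ub_le hΦ hε hf (γ := γ) (ρm := ρm) (Km := Km) hCtop hC₁top hC₁ hconn N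
          (gl (ε / MN B cG L K N) σ st) (hgl N σ st).2.2 (hgl N σ st).1
        rw [length_gl] at h2
        exact h2
    _ ≤ η L := hsum L ε hε hεL' cG hcG1

/-- **Tail of the runs from a line, integrated over the line.** -/
theorem run_tail_line (hΦ : AdmissiblePotential Φ) {β γ₀ : ℝ} (hβ : 0 < β) (hβγ : β < γ₀)
    (T A : ℝ) (hT : 0 ≤ T) (hA : 0 ≤ A) (K : ℕ) {f₀ : PhasePoint → ℝ} (hf : Measurable f₀)
    (h1 : ∫⁻ z, ENNReal.ofReal (f₀ z) ≤ 1) {env : Space3 → ℝ≥0∞} (hE : EnvB β f₀ env A)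
    {γ : ℝ → ℝ} (hγ : Measurable γ) (hγ₀ : ∀ τ ∈ Ioc (0 : ℝ) T, γ₀ ≤ γ τ) {ρm : ℝ≥0∞}
    (hρm : ρm ≠ ∞) (Km : ℕ) :
    ∃ η : ℕ → ℝ≥0∞, Tendsto η atTop (𝓝 0) ∧ (∀ L, η L ≠ ∞) ∧
      ∀ L : ℕ, 1 ≤ L → ∃ ε₀ : ℝ, 0 < ε₀ ∧ ∀ ε : ℝ, 0 < ε → ε < ε₀ →
        ∫⁻ l, gcE f₀ ε (fun n w => if Run Φ ε T K L (MW.line l) () w then 1 else 0)
          ∂lineM γ ρm Km T ≤ η L := by
  obtain ⟨η, e1, e2, e3⟩ := RM_tail_line hΦ hβ hβγ T A hT hA K hf h1 hE hγ hγ₀ hρm Km
  refine ⟨η, e1, e2, fun L hL => ?_⟩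
  obtain ⟨ε₀, h4, h5⟩ := e3 L hL
  refine ⟨ε₀, h4, fun ε hε hε' => ?_⟩
  refine le_trans (lintegral_mono fun l => ?_) (h5 ε hε hε')
  exact gcE_mono f₀ ε fun n w hw => run_le_RM hΦ hε T K L (MW.line l) () hw

end Crest.Agent.R122.LinkM547

end
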