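import Mathlib

/-!
# Smooth stopping weight (row 122, section E, (W2)-(W4) of E_984)

`ν` is a measure on the inserted lines, `θ` their first touch time; `X ν θ s = ν {θ ≤ s}` is the
touched mass at time `s`.  The weight `W L x = exp (-L x)` (zero at `x = ∞`) evaluated just before
the touch time makes the second touch cost `1 / L` and keeps the weight for the first touch.
-/

set_option autoImplicit false

open MeasureTheory Set Filter
open scoped ENNReal Topology

namespace Crest.Agent.R122.Weight984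

/-! ## The weight -/

/-- `exp (-L x)`, zero at infinity. -/
noncomputable def W (L : ℝ) (x : ℝ≥0∞) : ℝ≥0∞ :=
  if x = ∞ then 0 else ENNReal.ofReal (Real.exp (-(L * x.toReal)))

theorem W_top (L : ℝ) : W L ∞ = 0 := by simp [W]

theorem W_of_ne {L : ℝ} {x : ℝ≥0∞} (hx : x ≠ ∞) :
    W L x = ENNReal.ofReal (Real.exp (-(L * x.toReal))) := by simp [W, hx]

theorem W_ofReal {L y : ℝ} (hy : 0 ≤ y) : W L (ENNReal.ofReal y) = ENNReal.ofReal (Real.exp (-(L * y))) := by
  rw [W_of_ne ENNReal.ofReal_ne_top, ENNReal.toReal_ofReal hy]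

theorem W_zero (L : ℝ) : W L 0 = 1 := by simp [W]

theorem W_anti {L : ℝ} (hL : 0 ≤ L) : Antitone (W L) := by
  intro x y hxy
  rcases eq_or_ne y ∞ with rfl | hy
  · simp [W_top]
  · have hx : x ≠ ∞ := ne_top_of_le_ne_top hy hxy
    rw [W_of_ne hx, W_of_ne hy]
    apply ENNReal.ofReal_le_ofReal
    apply Real.exp_le_exp.2
    have := ENNReal.toReal_mono hy hxy
    nlinarith

theorem W_le_one {L : ℝ} (hL : 0 ≤ L) (x : ℝ≥0∞) : W L x ≤ 1 := by
  rw [← W_zero L]; exact W_anti hL bot_le

/-- World consistency: if `x ≤ y + d` then `W L y ≤ exp (L d) * W L x`. -/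
theorem W_le_mul {L d : ℝ} (hL : 0 ≤ L) (hd : 0 ≤ d) {x y : ℝ≥0∞} (h : x ≤ y + ENNReal.ofReal d) :
    W L y ≤ ENNReal.ofReal (Real.exp (L * d)) * W L x := by
  rcases eq_or_ne y ∞ with rfl | hy
  · simp [W_top]
  · have hyd : y + ENNReal.ofReal d ≠ ∞ := ENNReal.add_ne_top.2 ⟨hy, ENNReal.ofReal_ne_top⟩
    have hx : x ≠ ∞ := ne_top_of_le_ne_top hyd h
    rw [W_of_ne hx, W_of_ne hy, ← ENNReal.ofReal_mul (Real.exp_pos _).le, ← Real.exp_add]
    apply ENNReal.ofReal_le_ofReal
    apply Real.exp_le_exp.2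
    have h1 := ENNReal.toReal_mono hyd h
    rw [ENNReal.toReal_add hy ENNReal.ofReal_ne_top, ENNReal.toReal_ofReal hd] at h1
    nlinarith

theorem measurable_W (L : ℝ) : Measurable (W L) := by
  unfold W
  refine Measurable.ite (measurableSet_singleton _) measurable_const ?_
  exact (Real.measurable_exp.comp ((ENNReal.measurable_toReal.const_mul L).neg)).ennreal_ofReal

/-- Layer cake for the weight. -/
theorem W_eq_lintegral {L : ℝ} (hL : 0 < L) (x : ℝ≥0∞) :
    W L x = ∫⁻ y in Ioi (0 : ℝ),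
      {y : ℝ | x < ENNReal.ofReal y}.indicator (fun y => ENNReal.ofReal (L * Real.exp (-(L * y)))) y := by
  rcases eq_or_ne x ∞ with rfl | hx
  · simp [W_top]
  · have hset : {y : ℝ | x < ENNReal.ofReal y} = Ioi x.toReal := by
      ext y
      simp only [mem_ofPred_eq, mem_Ioi]
      rw [← ENNReal.lt_ofReal_iff_toReal_lt hx]
    rw [hset, lintegral_indicator measurableSet_Ioi, Measure.restrict_restrict measurableSet_Ioi]
    have h2 : Ioi x.toReal ∩ Ioi (0 : ℝ) = Ioi x.toReal := by
      ext y; simp only [mem_inter_iff, mem_Ioi, and_iff_left_iff_imp]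
      exact fun h => lt_of_le_of_lt ENNReal.toReal_nonneg h
    rw [h2, W_of_ne hx]
    have hint : IntegrableOn (fun y : ℝ => L * Real.exp (-(L * y))) (Ioi x.toReal) := by
      have := (integrableOn_exp_mul_Ioi (a := -L) (by linarith) x.toReal).const_mul L
      refine IntegrableOn.congr_fun this (fun y _ => ?_) measurableSet_Ioi
      simp only [neg_mul]
    rw [← ofReal_integral_eq_lintegral_ofReal hint
      (ae_of_all _ fun y => mul_nonneg hL.le (Real.exp_pos _).le)]
    congr 1
    have h3 : ∫ y in Ioi x.toReal, L * Real.exp (-(L * y))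
        = L * ∫ y in Ioi x.toReal, Real.exp (-L * y) := by
      rw [← integral_const_mul]
      simp only [neg_mul]
    rw [h3, integral_exp_mul_Ioi (by linarith : -L < 0)]
    field_simp

/-! ## Touched mass -/

section touched

variable {Ω α : Type*} [MeasurableSpace Ω] [CompleteLinearOrder α]

/-- Touched mass at time `s` (right-continuous version). -/
noncomputable def X (ν : Measure Ω) (θ : Ω → α) (s : α) : ℝ≥0∞ := ν {ω | θ ω ≤ s}

/-- Touched mass before time `s`. -/
noncomputable def Xm (ν : Measure Ω) (θ : Ω → α) (s : α) : ℝ≥0∞ := ν {ω | θ ω < s}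

theorem X_mono (ν : Measure Ω) (θ : Ω → α) : Monotone (X ν θ) :=
  fun _ _ h => measure_mono fun _ hω => le_trans hω h

theorem Xm_mono (ν : Measure Ω) (θ : Ω → α) : Monotone (Xm ν θ) :=
  fun _ _ h => measure_mono fun _ hω => lt_of_lt_of_le hω h

theorem Xm_le_X (ν : Measure Ω) (θ : Ω → α) (s : α) : Xm ν θ s ≤ X ν θ s :=
  measure_mono fun _ hω => le_of_lt hω

theorem X_le_Xm (ν : Measure Ω) (θ : Ω → α) {s s' : α} (h : s < s') : X ν θ s ≤ Xm ν θ s' :=
  measure_mono fun _ hω => lt_of_le_of_lt hω h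

theorem X_le_add_atom (ν : Measure Ω) (θ : Ω → α) (s : α) :
    X ν θ s ≤ Xm ν θ s + ν {ω | θ ω = s} := by
  refine le_trans (measure_mono ?_) (measure_union_le _ _)
  intro ω hω
  rcases lt_or_eq_of_le hω with h | h
  · exact Or.inl h
  · exact Or.inr h

variable [TopologicalSpace α] [OrderTopology α] [FirstCountableTopology α]

/-- Mass of the points touched after `s₁` while the touched mass is `< y`. -/
theorem measure_band_le (ν : Measure Ω) (θ : Ω → α) (s₁ : α)
    (hθ : ∀ s, MeasurableSet {ω | θ ω ≤ s}) (y : ℝ≥0∞) :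
    X ν θ s₁ + ν {ω | s₁ < θ ω ∧ X ν θ (θ ω) < y} ≤ max y (X ν θ s₁) := by
  classical
  set S : Set α := {s | s₁ < s ∧ X ν θ s < y} with hS
  have key : ∀ s ∈ S, X ν θ s₁ + ν {ω | s₁ < θ ω ∧ θ ω ≤ s} ≤ y := by
    intro s hs
    have hdisj : Disjoint {ω | θ ω ≤ s₁} {ω | s₁ < θ ω ∧ θ ω ≤ s} := by
      rw [Set.disjoint_left]
      intro ω h1 h2
      exact absurd h1 (not_le.2 h2.1)
    have hun : {ω | θ ω ≤ s₁} ∪ {ω | s₁ < θ ω ∧ θ ω ≤ s} = {ω | θ ω ≤ s} := by
      ext ω
      simp only [mem_union, mem_ofPred_eq]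
      constructor
      · rintro (h | h)
        · exact h.trans hs.1.le
        · exact h.2
      · intro h
        rcases le_or_gt (θ ω) s₁ with h' | h'
        · exact Or.inl h'
        · exact Or.inr ⟨h', h⟩
    have : X ν θ s₁ + ν {ω | s₁ < θ ω ∧ θ ω ≤ s} = X ν θ s := by
      unfold X
      rw [← hun, measure_union' hdisj (hθ s₁)]
    rw [this]
    exact hs.2.le
  rcases S.eq_empty_or_nonempty with hSe | hSn
  · have : {ω | s₁ < θ ω ∧ X ν θ (θ ω) < y} = ∅ := by
      ext ω
      simp only [mem_ofPred_eq, mem_empty_iff_false, iff_false]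
      intro h
      have : θ ω ∈ S := h
      rw [hSe] at this
      exact this
    rw [this, measure_empty, add_zero]
    exact le_max_right _ _
  · refine le_trans ?_ (le_max_left _ _)
    by_cases hmax : sSup S ∈ S
    · refine le_trans (add_le_add_right (measure_mono ?_) _) (key _ hmax)
      intro ω h
      exact ⟨h.1, le_sSup (show θ ω ∈ S from h)⟩
    · obtain ⟨u, hum, _, hut, huS⟩ :=
        (isLUB_sSup S).exists_seq_monotone_tendsto hSn
      have hsub : {ω | s₁ < θ ω ∧ X ν θ (θ ω) < y} ⊆ ⋃ n, {ω | s₁ < θ ω ∧ θ ω ≤ u n} := by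
        intro ω h
        have h1 : θ ω ∈ S := h
        have h2 : θ ω < sSup S := lt_of_le_of_ne (le_sSup h1) fun he => hmax (he ▸ h1)
        obtain ⟨n, hn⟩ := (hut.eventually (lt_mem_nhds h2)).exists
        exact mem_iUnion.2 ⟨n, h.1, hn.le⟩
      have hmono : Monotone fun n => {ω | s₁ < θ ω ∧ θ ω ≤ u n} :=
        fun m n hmn ω h => ⟨h.1, h.2.trans (hum hmn)⟩
      calc X ν θ s₁ + ν {ω | s₁ < θ ω ∧ X ν θ (θ ω) < y}
          ≤ X ν θ s₁ + ν (⋃ n, {ω | s₁ < θ ω ∧ θ ω ≤ u n}) := by gcongr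
        _ = ⨆ n, (X ν θ s₁ + ν {ω | s₁ < θ ω ∧ θ ω ≤ u n}) := by
            rw [hmono.measure_iUnion, ENNReal.add_iSup]
        _ ≤ y := iSup_le fun n => key _ (huS n)

variable [MeasurableSpace α] [BorelSpace α]

/-- **(W2)**, right-continuous version: the weighted mass touched after `s₁`. -/
theorem lintegral_W_X_le {L : ℝ} (hL : 0 < L) (ν : Measure Ω) [SFinite ν] {θ : Ω → α}
    (hθ : Measurable θ) (s₁ : α) :
    ∫⁻ ω in {ω | s₁ < θ ω}, W L (X ν θ (θ ω)) ∂ν ≤ ENNReal.ofReal (1 / L) * W L (X ν θ s₁) := by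
  classical
  have hms : ∀ s, MeasurableSet {ω | θ ω ≤ s} := fun s => hθ measurableSet_Iic
  have hms1 : MeasurableSet {ω | s₁ < θ ω} := hθ measurableSet_Ioi
  have hX : Measurable fun ω => X ν θ (θ ω) := (X_mono ν θ).measurable.comp hθ
  rcases eq_or_ne (X ν θ s₁) ∞ with htop | hfin
  · -- everything vanishes
    rw [setLIntegral_congr_fun hms1 (g := fun _ => 0)]
    · simp
    · intro ω hω
      have : X ν θ (θ ω) = ∞ := top_le_iff.1 (htop ▸ X_mono ν θ (le_of_lt hω))
      simp [this, W_top]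
  have e1 : ∀ ω, W L (X ν θ (θ ω)) = ∫⁻ y in Ioi (0 : ℝ),
      {y : ℝ | X ν θ (θ ω) < ENNReal.ofReal y}.indicator
        (fun y => ENNReal.ofReal (L * Real.exp (-(L * y)))) y := fun ω => W_eq_lintegral hL _
  have hjm : Measurable fun p : Ω × ℝ => {y : ℝ | X ν θ (θ p.1) < ENNReal.ofReal y}.indicator
        (fun y => ENNReal.ofReal (L * Real.exp (-(L * y)))) p.2 := by
    have : (fun p : Ω × ℝ => {y : ℝ | X ν θ (θ p.1) < ENNReal.ofReal y}.indicator
        (fun y => ENNReal.ofReal (L * Real.exp (-(L * y)))) p.2)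
        = {p : Ω × ℝ | X ν θ (θ p.1) < ENNReal.ofReal p.2}.indicator
          (fun p => ENNReal.ofReal (L * Real.exp (-(L * p.2)))) := by
      ext p
      simp only [indicator, mem_ofPred_eq]
    rw [this]
    refine Measurable.indicator ?_ ?_
    · exact (measurable_const.mul (Real.measurable_exp.comp
        ((measurable_snd.const_mul L).neg))).ennreal_ofReal
    · exact measurableSet_lt (hX.comp measurable_fst) measurable_snd.ennreal_ofReal
  calc ∫⁻ ω in {ω | s₁ < θ ω}, W L (X ν θ (θ ω)) ∂ν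
      = ∫⁻ ω in {ω | s₁ < θ ω}, (∫⁻ y in Ioi (0 : ℝ),
          {y : ℝ | X ν θ (θ ω) < ENNReal.ofReal y}.indicator
            (fun y => ENNReal.ofReal (L * Real.exp (-(L * y)))) y) ∂ν := by
        simp_rw [e1]
    _ = ∫⁻ y in Ioi (0 : ℝ), (∫⁻ ω in {ω | s₁ < θ ω},
          {y : ℝ | X ν θ (θ ω) < ENNReal.ofReal y}.indicator
            (fun y => ENNReal.ofReal (L * Real.exp (-(L * y)))) y ∂ν) :=
        lintegral_lintegral_swap hjm.aemeasurable
    _ = ∫⁻ y in Ioi (0 : ℝ), ENNReal.ofReal (L * Real.exp (-(L * y))) *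
          ν {ω | s₁ < θ ω ∧ X ν θ (θ ω) < ENNReal.ofReal y} := by
        refine lintegral_congr fun y => ?_
        have : ∀ ω, {y : ℝ | X ν θ (θ ω) < ENNReal.ofReal y}.indicator
            (fun y => ENNReal.ofReal (L * Real.exp (-(L * y)))) y
            = {ω | X ν θ (θ ω) < ENNReal.ofReal y}.indicator
              (fun _ => ENNReal.ofReal (L * Real.exp (-(L * y)))) ω := by
          intro ω; simp only [indicator, mem_ofPred_eq]
        simp_rw [this]
        rw [lintegral_indicator (measurableSet_lt hX measurable_const), lintegral_const,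
          Measure.restrict_apply MeasurableSet.univ, univ_inter,
          Measure.restrict_apply (measurableSet_lt hX measurable_const)]
        congr 2
        ext ω
        simp only [mem_inter_iff, mem_ofPred_eq]
        tauto
    _ ≤ ∫⁻ y in Ioi (0 : ℝ), ENNReal.ofReal (L * Real.exp (-(L * y))) *
          (ENNReal.ofReal y - X ν θ s₁) := by
        refine lintegral_mono fun y => ?_
        refine mul_le_mul_right ?_ _
        have hb := measure_band_le ν θ s₁ hms (ENNReal.ofReal y)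
        rcases le_total (X ν θ s₁) (ENNReal.ofReal y) with h | h
        · rw [max_eq_left h] at hb
          exact ENNReal.le_sub_of_add_le_left hfin hb
        · rw [max_eq_right h] at hb
          have h0 : ν {ω | s₁ < θ ω ∧ X ν θ (θ ω) < ENNReal.ofReal y} ≤ 0 := by
            have := ENNReal.le_sub_of_add_le_left hfin hb
            simpa using this
          exact h0.trans bot_le
    _ = ENNReal.ofReal (1 / L) * W L (X ν θ s₁) := by
        set a := (X ν θ s₁).toReal with ha
        have ha0 : 0 ≤ a := ENNReal.toReal_nonneg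
        have haX : X ν θ s₁ = ENNReal.ofReal a := (ENNReal.ofReal_toReal hfin).symm
        rw [haX, W_ofReal ha0]
        have e2 : ∀ y ∈ Ioi (0 : ℝ), ENNReal.ofReal (L * Real.exp (-(L * y))) *
            (ENNReal.ofReal y - ENNReal.ofReal a)
            = (Ioi a).indicator (fun y => ENNReal.ofReal (L * Real.exp (-(L * y)) * (y - a))) y := by
          intro y _
          by_cases hy : a < y
          · rw [indicator_of_mem (mem_Ioi.2 hy), ← ENNReal.ofReal_sub _ ha0,
              ENNReal.ofReal_mul (mul_nonneg hL.le (Real.exp_pos _).le)]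
          · rw [indicator_of_notMem (by simpa using hy),
              tsub_eq_zero_of_le (ENNReal.ofReal_le_ofReal (not_lt.1 hy)), mul_zero]
        rw [setLIntegral_congr_fun measurableSet_Ioi e2, lintegral_indicator measurableSet_Ioi,
          Measure.restrict_restrict measurableSet_Ioi]
        have h2 : Ioi a ∩ Ioi (0 : ℝ) = Ioi a := by
          ext y; simp only [mem_inter_iff, mem_Ioi, and_iff_left_iff_imp]
          exact fun h => lt_of_le_of_lt ha0 h
        rw [h2]
        -- antiderivative  G y = - (y - a + 1/L) exp (-L y)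
        have hderiv : ∀ y ∈ Ici a, HasDerivAt (fun y => -((y - a + 1 / L) * Real.exp (-(L * y))))
            (L * Real.exp (-(L * y)) * (y - a)) y := by
          intro y _
          have h1 : HasDerivAt (fun y : ℝ => y - a + 1 / L) 1 y := by
            simpa using ((hasDerivAt_id y).sub_const a).add_const (1 / L)
          have h3 : HasDerivAt (fun y : ℝ => Real.exp (-(L * y))) (Real.exp (-(L * y)) * (-L)) y := by
            have : HasDerivAt (fun y : ℝ => -(L * y)) (-L) y := by
              have h := ((hasDerivAt_id y).const_mul L).neg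
              simp only [mul_one] at h
              exact h
            exact this.exp
          have hL1 : 1 / L * L = 1 := by field_simp
          have h4 := (h1.mul h3).neg
          have e : -(1 * Real.exp (-(L * y)) + (y - a + 1 / L) * (Real.exp (-(L * y)) * -L))
              = L * Real.exp (-(L * y)) * (y - a) := by
            linear_combination (Real.exp (-(L * y))) * hL1
          rw [e] at h4
          exact h4
        have hlim : Tendsto (fun y : ℝ => -((y - a + 1 / L) * Real.exp (-(L * y)))) atTop (𝓝 0) := by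
          have h1 : Tendsto (fun y : ℝ => y * Real.exp (-(L * y))) atTop (𝓝 0) := by
            have := Real.tendsto_pow_mul_exp_neg_atTop_nhds_zero 1
            have h4 : Tendsto (fun y : ℝ => L * y) atTop atTop := tendsto_id.const_mul_atTop hL
            have h5 := (this.comp h4).const_mul (1 / L)
            simp only [mul_zero] at h5
            refine h5.congr fun y => ?_
            simp only [Function.comp, pow_one]
            field_simp
          have h2 : Tendsto (fun y : ℝ => Real.exp (-(L * y))) atTop (𝓝 0) := by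
            refine Real.tendsto_exp_atBot.comp ?_
            exact tendsto_neg_atTop_atBot.comp (tendsto_id.const_mul_atTop hL)
          have h3 := (h1.add (h2.const_mul (-a + 1 / L))).neg
          simp only [mul_zero, add_zero, neg_zero] at h3
          refine h3.congr fun y => ?_
          ring
        have hnn : ∀ y ∈ Ioi a, 0 ≤ L * Real.exp (-(L * y)) * (y - a) := fun y hy =>
          mul_nonneg (mul_nonneg hL.le (Real.exp_pos _).le) (sub_nonneg.2 (le_of_lt hy))
        have hint : IntegrableOn (fun y => L * Real.exp (-(L * y)) * (y - a)) (Ioi a) :=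
          integrableOn_Ioi_deriv_of_nonneg' hderiv hnn hlim
        rw [← ofReal_integral_eq_lintegral_ofReal hint
          ((ae_restrict_iff' measurableSet_Ioi).2 (ae_of_all _ hnn)),
          integral_Ioi_of_hasDerivAt_of_nonneg' hderiv hnn hlim,
          ← ENNReal.ofReal_mul (by positivity)]
        congr 1
        ring

/-- **(W2)**: weight evaluated just before the touch; `D` bounds the atoms of the touched mass. -/
theorem lintegral_W_Xm_le {L D : ℝ} (hL : 0 < L) (hD : 0 ≤ D) (ν : Measure Ω) [SFinite ν]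
    {θ : Ω → α} (hθ : Measurable θ) (s₁ : α)
    (hatom : ∀ s, s₁ < s → ν {ω | θ ω = s} ≤ ENNReal.ofReal D) :
    ∫⁻ ω in {ω | s₁ < θ ω}, W L (Xm ν θ (θ ω)) ∂ν
      ≤ ENNReal.ofReal (Real.exp (L * D) / L) * W L (X ν θ s₁) := by
  have hms1 : MeasurableSet {ω | s₁ < θ ω} := hθ measurableSet_Ioi
  have hX : Measurable fun ω => W L (X ν θ (θ ω)) :=
    (measurable_W L).comp ((X_mono ν θ).measurable.comp hθ)
  calc ∫⁻ ω in {ω | s₁ < θ ω}, W L (Xm ν θ (θ ω)) ∂ν
      ≤ ∫⁻ ω in {ω | s₁ < θ ω}, ENNReal.ofReal (Real.exp (L * D)) * W L (X ν θ (θ ω)) ∂ν := by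
        refine setLIntegral_mono (hX.const_mul _) fun ω hω => ?_
        refine W_le_mul hL.le hD ?_
        refine (X_le_add_atom ν θ (θ ω)).trans ?_
        gcongr
        exact hatom _ hω
    _ = ENNReal.ofReal (Real.exp (L * D)) * ∫⁻ ω in {ω | s₁ < θ ω}, W L (X ν θ (θ ω)) ∂ν :=
        lintegral_const_mul _ hX
    _ ≤ ENNReal.ofReal (Real.exp (L * D)) * (ENNReal.ofReal (1 / L) * W L (X ν θ s₁)) := by
        gcongr
        exact lintegral_W_X_le hL ν hθ s₁
    _ = ENNReal.ofReal (Real.exp (L * D) / L) * W L (X ν θ s₁) := by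
        rw [← mul_assoc, ← ENNReal.ofReal_mul (Real.exp_pos _).le, mul_one_div]

end touched

/-! ## Closing of the linear system -/

/-- **(W3)**: closed linear system. -/
theorem close_system {a x₁ x₂ S c C ρ : ℝ} (ha : 0 ≤ a) (hx₁ : 0 ≤ x₁) (hS : 0 ≤ S)
    (_hc : 0 ≤ c) (hC : 1 ≤ C) (hρ : 0 ≤ ρ) (h1 : a ≤ S + c * a + x₂) (h2 : x₁ ≤ S + c * a + C * x₂)
    (h3 : x₂ ≤ ρ * (x₁ + a) + S) (hc4 : c ≤ 1 / 8) (hρC : C * ρ ≤ 1 / 8) :
    a ≤ 8 * C * S ∧ x₁ ≤ 8 * C * S ∧ x₂ ≤ 3 * C * S := by
  have hρ8 : ρ ≤ 1 / 8 := by nlinarith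
  have hCx : C * x₂ ≤ (1 / 8) * (x₁ + a) + C * S := by
    have := mul_le_mul_of_nonneg_left h3 (by linarith : (0 : ℝ) ≤ C)
    have h4 : C * (ρ * (x₁ + a)) ≤ (1 / 8) * (x₁ + a) := by
      rw [← mul_assoc]; exact mul_le_mul_of_nonneg_right hρC (by linarith)
    nlinarith
  have hx2 : x₂ ≤ (1 / 8) * (x₁ + a) + S := by
    have : ρ * (x₁ + a) ≤ (1 / 8) * (x₁ + a) := mul_le_mul_of_nonneg_right hρ8 (by linarith)
    linarith
  have hca : c * a ≤ (1 / 8) * a := mul_le_mul_of_nonneg_right hc4 ha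
  have hCS : S ≤ C * S := by nlinarith
  have hsum : x₁ + a ≤ 8 * C * S := by nlinarith
  refine ⟨by nlinarith, by nlinarith, by nlinarith⟩

/-- The same in `ℝ≥0∞` (finiteness of the unknowns is the only extra hypothesis). -/
theorem close_system_ennreal {a x₁ x₂ S c C ρ : ℝ≥0∞} (ha : a ≠ ∞) (hx₁ : x₁ ≠ ∞) (hx₂ : x₂ ≠ ∞)
    (hC : 1 ≤ C) (hC' : C ≠ ∞) (h1 : a ≤ S + c * a + x₂) (h2 : x₁ ≤ S + c * a + C * x₂)
    (h3 : x₂ ≤ ρ * (x₁ + a) + S) (hc4 : c ≤ 1 / 8) (hρC : C * ρ ≤ 1 / 8) :
    a ≤ 8 * C * S ∧ x₁ ≤ 8 * C * S ∧ x₂ ≤ 3 * C * S := by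
  rcases eq_or_ne S ∞ with rfl | hS
  · have hC0 : C ≠ 0 := (lt_of_lt_of_le one_pos hC).ne'
    have h8 : 8 * C * ∞ = ∞ := ENNReal.mul_top (by simp [hC0])
    have h38 : 3 * C * ∞ = ∞ := ENNReal.mul_top (by simp [hC0])
    simp [h8, h38]
  have hct : c ≠ ∞ := ne_top_of_le_ne_top (by simp) hc4
  have hρt : ρ ≠ ∞ := by
    have : ρ ≤ C * ρ := by
      calc ρ = 1 * ρ := (one_mul _).symm
        _ ≤ C * ρ := by gcongr
    exact ne_top_of_le_ne_top (by simp) (this.trans hρC)
  have r18 : (1 / 8 : ℝ≥0∞).toReal = 1 / 8 := by simp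
  have key := close_system (a := a.toReal) (x₁ := x₁.toReal) (x₂ := x₂.toReal) (S := S.toReal)
    (c := c.toReal) (C := C.toReal) (ρ := ρ.toReal) ENNReal.toReal_nonneg ENNReal.toReal_nonneg
    ENNReal.toReal_nonneg ENNReal.toReal_nonneg
    (by simpa using ENNReal.toReal_mono hC' hC) ENNReal.toReal_nonneg
    (by
      have := ENNReal.toReal_mono (by finiteness) h1
      rwa [ENNReal.toReal_add (by finiteness) (by finiteness),
        ENNReal.toReal_add (by finiteness) (by finiteness), ENNReal.toReal_mul] at this)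
    (by
      have := ENNReal.toReal_mono (by finiteness) h2
      rwa [ENNReal.toReal_add (by finiteness) (by finiteness),
        ENNReal.toReal_add (by finiteness) (by finiteness), ENNReal.toReal_mul,
        ENNReal.toReal_mul] at this)
    (by
      have := ENNReal.toReal_mono (by finiteness) h3
      rwa [ENNReal.toReal_add (by finiteness) (by finiteness), ENNReal.toReal_mul,
        ENNReal.toReal_add (by finiteness) (by finiteness)] at this)
    (by rw [← r18]; exact ENNReal.toReal_mono (by simp) hc4)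
    (by rw [← r18, ← ENNReal.toReal_mul]; exact ENNReal.toReal_mono (by simp) hρC)
  refine ⟨?_, ?_, ?_⟩
  · rw [← ENNReal.ofReal_toReal ha, ← ENNReal.ofReal_toReal hS, ← ENNReal.ofReal_toReal hC']
    have e : (8 : ℝ≥0∞) = ENNReal.ofReal 8 := by simp
    rw [e, ← ENNReal.ofReal_mul (by norm_num), ← ENNReal.ofReal_mul (by positivity)]
    exact ENNReal.ofReal_le_ofReal key.1
  · rw [← ENNReal.ofReal_toReal hx₁, ← ENNReal.ofReal_toReal hS, ← ENNReal.ofReal_toReal hC']
    have e : (8 : ℝ≥0∞) = ENNReal.ofReal 8 := by simp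
    rw [e, ← ENNReal.ofReal_mul (by norm_num), ← ENNReal.ofReal_mul (by positivity)]
    exact ENNReal.ofReal_le_ofReal key.2.1
  · rw [← ENNReal.ofReal_toReal hx₂, ← ENNReal.ofReal_toReal hS, ← ENNReal.ofReal_toReal hC']
    have e : (3 : ℝ≥0∞) = ENNReal.ofReal 3 := by simp
    rw [e, ← ENNReal.ofReal_mul (by norm_num), ← ENNReal.ofReal_mul (by positivity)]
    exact ENNReal.ofReal_le_ofReal key.2.2

/-! ## Removing the weight -/

/-- **(W4)**: unweighting.  `N` is the counted quantity, `Y` the touched mass at the end of the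
window; the weighted count is at least `N * W L Y`. -/
theorem lintegral_le_unweight {Ω : Type*} [MeasurableSpace Ω] (P : Measure Ω) {L M : ℝ}
    (hL : 0 ≤ L) (hM : 0 ≤ M) {N Y : Ω → ℝ≥0∞} (hN : Measurable N) (hY : Measurable Y) :
    ∫⁻ ω, N ω ∂P ≤ ENNReal.ofReal (Real.exp (L * M)) * ∫⁻ ω, N ω * W L (Y ω) ∂P
      + ∫⁻ ω in {ω | ENNReal.ofReal M < Y ω}, N ω ∂P := by
  have hms : MeasurableSet {ω | ENNReal.ofReal M < Y ω} := measurableSet_lt measurable_const hY
  rw [← lintegral_add_compl N hms, add_comm]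
  gcongr
  calc ∫⁻ ω in {ω | ENNReal.ofReal M < Y ω}ᶜ, N ω ∂P
      ≤ ∫⁻ ω in {ω | ENNReal.ofReal M < Y ω}ᶜ,
          ENNReal.ofReal (Real.exp (L * M)) * (N ω * W L (Y ω)) ∂P := by
        refine setLIntegral_mono ((hN.mul ((measurable_W L).comp hY)).const_mul _) fun ω hω => ?_
        have hY' : Y ω ≤ 0 + ENNReal.ofReal M := by simpa using hω
        have := W_le_mul hL hM hY'
        rw [W_zero] at this
        calc N ω = N ω * 1 := (mul_one _).symm
          _ ≤ N ω * (ENNReal.ofReal (Real.exp (L * M)) * W L (Y ω)) := by gcongr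
          _ = ENNReal.ofReal (Real.exp (L * M)) * (N ω * W L (Y ω)) := by ring
    _ ≤ ∫⁻ ω, ENNReal.ofReal (Real.exp (L * M)) * (N ω * W L (Y ω)) ∂P :=
        setLIntegral_le_lintegral _ _
    _ = ENNReal.ofReal (Real.exp (L * M)) * ∫⁻ ω, N ω * W L (Y ω) ∂P :=
        lintegral_const_mul _ (hN.mul ((measurable_W L).comp hY))

/-- Cauchy-Schwarz form of the remainder in (W4). -/
theorem setLIntegral_le_sqrt {Ω : Type*} [MeasurableSpace Ω] (P : Measure Ω)
    {N : Ω → ℝ≥0∞} (hN : Measurable N) {A : Set Ω} (hA : MeasurableSet A) :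
    ∫⁻ ω in A, N ω ∂P ≤ (∫⁻ ω, N ω ^ 2 ∂P) ^ (1 / 2 : ℝ) * (P A) ^ (1 / 2 : ℝ) := by
  have h := ENNReal.lintegral_mul_le_Lp_mul_Lq P (p := 2) (q := 2)
    (by constructor <;> norm_num) hN.aemeasurable
    ((measurable_one.indicator hA : Measurable (A.indicator (1 : Ω → ℝ≥0∞))).aemeasurable)
  have e1 : ∫⁻ ω, (N * A.indicator (1 : Ω → ℝ≥0∞)) ω ∂P = ∫⁻ ω in A, N ω ∂P := by
    rw [← lintegral_indicator hA]
    refine lintegral_congr fun ω => ?_
    by_cases hω : ω ∈ A <;> simp [hω]
  have e2 : ∫⁻ ω, (A.indicator (1 : Ω → ℝ≥0∞) ω) ^ (2 : ℝ) ∂P = P A := by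
    rw [← lintegral_indicator_one hA]
    refine lintegral_congr fun ω => ?_
    by_cases hω : ω ∈ A <;> simp [hω]
  have e3 : ∫⁻ ω, (N ω) ^ (2 : ℝ) ∂P = ∫⁻ ω, N ω ^ 2 ∂P :=
    lintegral_congr fun ω => by rw [← ENNReal.rpow_natCast]; norm_num
  rw [e1, e2, e3] at h
  exact h

end Crest.Agent.R122.Weight984
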