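import Crest.Agent.R122.GCBounds_311
import Crest.Agent.R122.LocFlow_45
import Crest.Agent.R122.Sweep_815
import Crest.Agent.R122.Weight_984
import Crest.Agent.R122.BoltzGauss_814

/-!
Row 122 (helper974): moments of the gas, uniform integrability, flux of Gaussian lines through the
whole gas (inputs of the unweighting step).

* `kin_flow_le` : kinetic energy at any time from the data at time `0`.
* `gcE_sq_le` : second moment of `activity⁻¹ ∑ φ(z_j)`.
* `gcE_sum_event_le` : uniform integrability.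
* `lines_meet_le`, `lines_meet_int_le`, `gcE_lines_meet_le` : lines which come close to some particle.
-/

set_option autoImplicit false

open MeasureTheory Set
open scoped Classical ENNReal
open Crest.AnalysisR.Kinetic
open Crest.Agent.R122.GC311 Crest.Agent.R122.Flow671 Crest.Agent.R122.Loc45

noncomputable section

namespace Crest.Agent.R122.Mom974

/-! ### Energy at any time -/

/-- kinetic part: `∑ |v_i(t)|² ≤ ∑ |v_i(0)|² + 2 B n`. -/
theorem kin_flow_le {Φ : Space3 → ℝ} (hΦ : AdmissiblePotential Φ) {ε : ℝ} (hε : 0 < ε) {n : ℕ}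
    {Z : Config n} (hZ : Z ∈ PairExcluded ε n) (t : ℝ) :
    ∑ i, ‖(flow Φ ε t Z i).2‖ ^ 2 ≤ ∑ i, ‖(Z i).2‖ ^ 2 + 2 * stabB Φ * n := by
  have hD : Z ∈ Dom Φ (Fin n) := pairExcluded_subset_Dom hε n hZ
  have h1 := kin_le hΦ hε (flow_mem hΦ hε hD t)
  rw [energy_flow hΦ hε, energy_pairExcluded hΦ hε hZ, Fintype.card_fin] at h1
  unfold kin at h1
  linarith

/-- `∑ (1 + |v_i(t)|²) ≤ (1 + 2B) ∑ (1 + |v_i(0)|²)`. -/
theorem weight_flow_le {Φ : Space3 → ℝ} (hΦ : AdmissiblePotential Φ) {ε : ℝ} (hε : 0 < ε) {n : ℕ}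
    {Z : Config n} (hZ : Z ∈ PairExcluded ε n) (t : ℝ) :
    ∑ i, (1 + ‖(flow Φ ε t Z i).2‖ ^ 2) ≤ (1 + 2 * stabB Φ) * ∑ i, (1 + ‖(Z i).2‖ ^ 2) := by
  have h1 := kin_flow_le hΦ hε hZ t
  have hB := stabB_nonneg Φ
  have h2 : 0 ≤ ∑ i, ‖(Z i).2‖ ^ 2 := Finset.sum_nonneg fun i _ => sq_nonneg _
  rw [Finset.sum_add_distrib, Finset.sum_add_distrib]
  simp only [Finset.sum_const, Finset.card_univ, Fintype.card_fin, nsmul_eq_mul, mul_one]
  have h3 : (0 : ℝ) ≤ n := Nat.cast_nonneg n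
  nlinarith

/-- `ENNReal` form. -/
theorem weight_flow_le' {Φ : Space3 → ℝ} (hΦ : AdmissiblePotential Φ) {ε : ℝ} (hε : 0 < ε) {n : ℕ}
    {Z : Config n} (hZ : Z ∈ PairExcluded ε n) (t : ℝ) :
    ∑ i, ENNReal.ofReal (1 + ‖(flow Φ ε t Z i).2‖ ^ 2) ≤
      ENNReal.ofReal (1 + 2 * stabB Φ) * ∑ i, ENNReal.ofReal (1 + ‖(Z i).2‖ ^ 2) := by
  have hB := stabB_nonneg Φ
  rw [← ENNReal.ofReal_sum_of_nonneg fun i _ => by positivity,
    ← ENNReal.ofReal_sum_of_nonneg fun i _ => by positivity,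
    ← ENNReal.ofReal_mul (by positivity)]
  exact ENNReal.ofReal_le_ofReal (weight_flow_le hΦ hε hZ t)

/-- speeds: `∑ (1 + |v_i(t)|) ≤ 2 (1 + 2B) ∑ (1 + |v_i(0)|²)`. -/
theorem speed_flow_le {Φ : Space3 → ℝ} (hΦ : AdmissiblePotential Φ) {ε : ℝ} (hε : 0 < ε) {n : ℕ}
    {Z : Config n} (hZ : Z ∈ PairExcluded ε n) (t : ℝ) :
    ∑ i, ENNReal.ofReal (1 + ‖(flow Φ ε t Z i).2‖) ≤
      2 * ENNReal.ofReal (1 + 2 * stabB Φ) * ∑ i, ENNReal.ofReal (1 + ‖(Z i).2‖ ^ 2) := by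
  have h1 : ∑ i, ENNReal.ofReal (1 + ‖(flow Φ ε t Z i).2‖) ≤
      2 * ∑ i, ENNReal.ofReal (1 + ‖(flow Φ ε t Z i).2‖ ^ 2) := by
    rw [Finset.mul_sum]
    refine Finset.sum_le_sum fun i _ => ?_
    have h2 : ENNReal.ofReal (2 * (1 + ‖(flow Φ ε t Z i).2‖ ^ 2)) =
        2 * ENNReal.ofReal (1 + ‖(flow Φ ε t Z i).2‖ ^ 2) := by
      rw [ENNReal.ofReal_mul (by norm_num), ENNReal.ofReal_ofNat]
    rw [← h2]
    refine ENNReal.ofReal_le_ofReal ?_
    nlinarith [sq_nonneg (‖(flow Φ ε t Z i).2‖ - 1), norm_nonneg (flow Φ ε t Z i).2]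
  refine h1.trans ?_
  rw [mul_assoc]
  exact mul_le_mul_right (weight_flow_le' hΦ hε hZ t) _

/-! ### Velocity moments of the initial density -/

/-- Integration of a velocity weight against the initial density. -/
theorem exists_lintegral_f0_mul_le {γ : ℝ} {f₀ : PhasePoint → ℝ}
    (hb : HasSummableGaussianBound γ (fun x v => f₀ (x, v))) :
    ∃ S : ℝ≥0∞, S ≠ ∞ ∧ ∀ φ : Space3 → ℝ≥0∞, Measurable φ →
      ∫⁻ z, ENNReal.ofReal (f₀ z) * φ z.2 ≤
        S * ∫⁻ v : Space3, ENNReal.ofReal (Real.exp (-γ * ‖v‖ ^ 2)) * φ v := by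
  obtain ⟨M, hM, hb⟩ := hb
  have hnn : ∀ k, 0 ≤ M k := by
    intro k
    refine le_trans ?_ (hb k (latticePoint k) 0 (by simp))
    positivity
  refine ⟨∑' k, ENNReal.ofReal (M k) * volume (Metric.closedBall (latticePoint k) 1), ?_,
    fun φ hφ => ?_⟩
  · have hv : ∀ k : Fin 3 → ℤ, volume (Metric.closedBall (latticePoint k) 1) = Sweep815.c3 := by
      intro k
      rw [Sweep815.vol_closedBall]
      simp
    simp_rw [hv]
    rw [ENNReal.tsum_mul_right]
    refine ENNReal.mul_ne_top ?_ ENNReal.ofReal_ne_top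
    rw [← ENNReal.ofReal_tsum_of_nonneg hnn hM]
    exact ENNReal.ofReal_ne_top
  · have hmk : ∀ k : Fin 3 → ℤ, Measurable fun z : PhasePoint =>
        (Metric.closedBall (latticePoint k) 1).indicator (fun _ => ENNReal.ofReal (M k)) z.1 *
          (ENNReal.ofReal (Real.exp (-γ * ‖z.2‖ ^ 2)) * φ z.2) := by
      intro k
      refine Measurable.mul ?_ ?_
      · exact (measurable_const.indicator Metric.isClosed_closedBall.measurableSet).comp
          measurable_fst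
      · exact (Measurable.ennreal_ofReal (by fun_prop)).mul (hφ.comp measurable_snd)
    calc ∫⁻ z, ENNReal.ofReal (f₀ z) * φ z.2
        ≤ ∫⁻ z : PhasePoint, ∑' k : Fin 3 → ℤ,
          (Metric.closedBall (latticePoint k) 1).indicator (fun _ => ENNReal.ofReal (M k)) z.1 *
            (ENNReal.ofReal (Real.exp (-γ * ‖z.2‖ ^ 2)) * φ z.2) := by
          refine lintegral_mono fun z => ?_
          obtain ⟨k, hk⟩ := exists_lattice_near z.1
          refine le_trans ?_ (ENNReal.le_tsum k)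
          have hmem : z.1 ∈ Metric.closedBall (latticePoint k) 1 := Metric.mem_closedBall.2 hk
          simp only [indicator_of_mem hmem]
          rw [← mul_assoc, ← ENNReal.ofReal_mul (hnn k)]
          refine mul_le_mul_left (ENNReal.ofReal_le_ofReal ?_) _
          have h1 := hb k z.1 z.2 hk
          have h2 : Real.exp (-γ * ‖z.2‖ ^ 2) = (Real.exp (γ * ‖z.2‖ ^ 2))⁻¹ := by
            rw [← Real.exp_neg]; congr 1; ring
          rw [h2, ← div_eq_mul_inv, le_div_iff₀ (Real.exp_pos _), mul_comm]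
          exact (mul_le_mul_of_nonneg_left (le_abs_self _) (Real.exp_pos _).le).trans h1
      _ = ∑' k : Fin 3 → ℤ, ∫⁻ z : PhasePoint,
          (Metric.closedBall (latticePoint k) 1).indicator (fun _ => ENNReal.ofReal (M k)) z.1 *
            (ENNReal.ofReal (Real.exp (-γ * ‖z.2‖ ^ 2)) * φ z.2) :=
          lintegral_tsum fun k => (hmk k).aemeasurable
      _ = ∑' k : Fin 3 → ℤ, (ENNReal.ofReal (M k) * volume (Metric.closedBall (latticePoint k) 1)) *
            ∫⁻ v : Space3, ENNReal.ofReal (Real.exp (-γ * ‖v‖ ^ 2)) * φ v := by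
          refine tsum_congr fun k => ?_
          change ∫⁻ z, _ ∂((volume : Measure Space3).prod (volume : Measure Space3)) = _
          rw [lintegral_prod _ (hmk k).aemeasurable]
          have h3 : ∀ x : Space3, ∫⁻ v : Space3,
              (Metric.closedBall (latticePoint k) 1).indicator (fun _ => ENNReal.ofReal (M k)) x *
              (ENNReal.ofReal (Real.exp (-γ * ‖v‖ ^ 2)) * φ v) =
              (Metric.closedBall (latticePoint k) 1).indicator (fun _ => ENNReal.ofReal (M k)) x *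
              ∫⁻ v : Space3, ENNReal.ofReal (Real.exp (-γ * ‖v‖ ^ 2)) * φ v := by
            intro x
            exact lintegral_const_mul _ ((Measurable.ennreal_ofReal (by fun_prop)).mul hφ)
          simp only [h3]
          rw [lintegral_mul_const _
            (measurable_const.indicator Metric.isClosed_closedBall.measurableSet),
            lintegral_indicator Metric.isClosed_closedBall.measurableSet, lintegral_const,
            Measure.restrict_apply_univ]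
      _ = _ := ENNReal.tsum_mul_right

/-- All velocity moments of `f₀` are finite. -/
theorem lintegral_f0_pow_ne_top {γ : ℝ} (hγ : 0 < γ) {f₀ : PhasePoint → ℝ}
    (hb : HasSummableGaussianBound γ (fun x v => f₀ (x, v))) (k : ℕ) :
    ∫⁻ z, ENNReal.ofReal (f₀ z) * ENNReal.ofReal ((1 + ‖z.2‖) ^ k) ≠ ∞ := by
  obtain ⟨S, hS, h⟩ := exists_lintegral_f0_mul_le hb
  refine ne_top_of_le_ne_top (ENNReal.mul_ne_top hS ?_)
    (h (fun v => ENNReal.ofReal ((1 + ‖v‖) ^ k)) (by fun_prop))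
  have h1 := (Boltz814.integrable_one_add_pow_mul_gauss hγ k).lintegral_lt_top
  refine ne_of_lt (lt_of_eq_of_lt (lintegral_congr fun v => ?_) h1)
  rw [← ENNReal.ofReal_mul (Real.exp_pos _).le, mul_comm]

/-- The weight `1 + |v|²` has finite first and second moment. -/
theorem lintegral_f0_weight_ne_top {γ : ℝ} (hγ : 0 < γ) {f₀ : PhasePoint → ℝ}
    (hb : HasSummableGaussianBound γ (fun x v => f₀ (x, v))) :
    (∫⁻ z, ENNReal.ofReal (f₀ z) * ENNReal.ofReal (1 + ‖z.2‖ ^ 2) ≠ ∞) ∧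
      ∫⁻ z, ENNReal.ofReal (f₀ z) * ENNReal.ofReal (1 + ‖z.2‖ ^ 2) ^ 2 ≠ ∞ := by
  constructor
  · refine ne_top_of_le_ne_top (lintegral_f0_pow_ne_top hγ hb 2) (lintegral_mono fun z => ?_)
    refine mul_le_mul_right (ENNReal.ofReal_le_ofReal ?_) _
    nlinarith [norm_nonneg z.2]
  · refine ne_top_of_le_ne_top (lintegral_f0_pow_ne_top hγ hb 4) (lintegral_mono fun z => ?_)
    refine mul_le_mul_right ?_ _
    rw [← ENNReal.ofReal_pow (by positivity)]
    refine ENNReal.ofReal_le_ofReal ?_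
    have h1 : 1 + ‖z.2‖ ^ 2 ≤ (1 + ‖z.2‖) ^ 2 := by nlinarith [norm_nonneg z.2]
    calc (1 + ‖z.2‖ ^ 2) ^ 2 ≤ ((1 + ‖z.2‖) ^ 2) ^ 2 := by gcongr
      _ = _ := by ring

/-! ### Second moment -/

/-- Second moment of a rescaled additive functional. -/
theorem gcE_sq_le {f₀ : PhasePoint → ℝ} (hf : Measurable f₀)
    (h1 : ∫⁻ z, ENNReal.ofReal (f₀ z) ≤ 1) {ε : ℝ} (hε : 0 < ε)
    (φ : PhasePoint → ℝ≥0∞) (hφ : Measurable φ) :
    gcE f₀ ε (fun _ Z => ((activity ε)⁻¹ * ∑ j, φ (Z j)) ^ 2) ≤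
      (∫⁻ z, ENNReal.ofReal (f₀ z) * φ z) ^ 2 +
        (activity ε)⁻¹ * ∫⁻ z, ENNReal.ofReal (f₀ z) * φ z ^ 2 := by
  have ha0 := activity_ne_zero hε
  have hat := activity_ne_top ε
  -- pair part
  have hpair : ∀ (n : ℕ) (Z : Config n), (∑ j, φ (Z j)) ^ 2 =
      (∑ ι : Fin 2 ↪ Fin n, φ (Z (ι 0)) * φ (Z (ι 1))) + ∑ j, φ (Z j) ^ 2 := by
    intro n Z
    have e1 : (∑ j, φ (Z j)) ^ 2 = ∑ p : Fin n × Fin n, φ (Z p.1) * φ (Z p.2) := by
      rw [sq, Finset.sum_mul_sum, ← Finset.sum_product']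
      rfl
    have e2 : ∑ p : Fin n × Fin n, φ (Z p.1) * φ (Z p.2) =
        (∑ p ∈ (Finset.univ : Finset (Fin n × Fin n)).filter (fun p => p.1 ≠ p.2),
          φ (Z p.1) * φ (Z p.2)) +
        ∑ p ∈ (Finset.univ : Finset (Fin n × Fin n)).filter (fun p => ¬ p.1 ≠ p.2),
          φ (Z p.1) * φ (Z p.2) := (Finset.sum_filter_add_sum_filter_not _ _ _).symm
    rw [e1, e2]
    congr 1
    · symm
      refine Finset.sum_bij (fun (ι : Fin 2 ↪ Fin n) _ => (ι 0, ι 1)) ?_ ?_ ?_ ?_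
      · intro ι _
        rw [Finset.mem_filter]
        exact ⟨Finset.mem_univ _, fun h => absurd (ι.injective h) (by decide)⟩
      · intro ι _ ι' _ h
        ext i
        rw [Prod.mk.injEq] at h
        fin_cases i
        · exact congrArg Fin.val h.1
        · exact congrArg Fin.val h.2
      · intro p hp
        rw [Finset.mem_filter] at hp
        have hinj : Function.Injective ![p.1, p.2] := by
          intro a b hab
          fin_cases a <;> fin_cases b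
          · rfl
          · exact absurd hab hp.2
          · exact absurd hab.symm hp.2
          · rfl
        exact ⟨⟨![p.1, p.2], hinj⟩, Finset.mem_univ _, rfl⟩
      · intro ι _
        rfl
    · refine Finset.sum_bij' (fun p _ => p.1) (fun j _ => (j, j)) ?_ ?_ ?_ ?_ ?_
      · intro p _; exact Finset.mem_univ _
      · intro j _
        rw [Finset.mem_filter]
        exact ⟨Finset.mem_univ _, fun h => h rfl⟩
      · intro p hp
        rw [Finset.mem_filter] at hp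
        have h : p.1 = p.2 := not_not.1 hp.2
        exact Prod.ext rfl h
      · intro j _; rfl
      · intro p hp
        rw [Finset.mem_filter] at hp
        have h : p.1 = p.2 := not_not.1 hp.2
        rw [← h, sq]
  have hm1 : ∀ n, Measurable fun Z : Config n => ∑ ι : Fin 2 ↪ Fin n, φ (Z (ι 0)) * φ (Z (ι 1)) :=
    fun n => Finset.measurable_fun_sum _ fun ι _ =>
      (hφ.comp (measurable_pi_apply _)).mul (hφ.comp (measurable_pi_apply _))
  have hm2 : ∀ n, Measurable fun Z : Config n => ∑ j, φ (Z j) ^ 2 :=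
    fun n => Finset.measurable_fun_sum _ fun j _ => (hφ.comp (measurable_pi_apply _)).pow_const 2
  have e3 : gcE f₀ ε (fun _ Z => ((activity ε)⁻¹ * ∑ j, φ (Z j)) ^ 2) =
      (activity ε)⁻¹ ^ 2 * (gcE f₀ ε (fun n Z => ∑ ι : Fin 2 ↪ Fin n, φ (Z (ι 0)) * φ (Z (ι 1))) +
        gcE f₀ ε (fun n Z => ∑ j, φ (Z j) ^ 2)) := by
    rw [← gcE_add hf ε hm1, ← gcE_const_mul f₀ ε
      (ENNReal.pow_ne_top (ENNReal.inv_ne_top.2 ha0))]
    refine gcE_congr f₀ ε fun n Z _ => ?_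
    rw [mul_pow, hpair]
  rw [e3]
  have h2 := gcE_sum_emb_le hf h1 ε (k := 2) (fun V => φ (V 0) * φ (V 1))
    ((hφ.comp (measurable_pi_apply _)).mul (hφ.comp (measurable_pi_apply _)))
  have h3 := gcE_sum_le hf h1 ε (fun z => φ z ^ 2) (hφ.pow_const 2)
  have h4 : ∫⁻ V : Config 2, gcWeight f₀ ε 2 V * (φ (V 0) * φ (V 1)) ≤
      (∫⁻ z, ENNReal.ofReal (f₀ z) * φ z) ^ 2 := by
    have h5 := lintegral_prod_config (n := 2) (fun z => ENNReal.ofReal (f₀ z) * φ z)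
      (hf.ennreal_ofReal.mul hφ)
    calc ∫⁻ V : Config 2, gcWeight f₀ ε 2 V * (φ (V 0) * φ (V 1))
        ≤ ∫⁻ V : Config 2, ∏ i, (ENNReal.ofReal (f₀ (V i)) * φ (V i)) := by
          refine lintegral_mono fun V => ?_
          have h6 : gcWeight f₀ ε 2 V ≤ ∏ i, ENNReal.ofReal (f₀ (V i)) := by
            unfold gcWeight
            exact indicator_le_self' (fun _ _ => bot_le) V
          rw [Finset.prod_mul_distrib, Fin.prod_univ_two (fun i => φ (V i))]
          exact mul_le_mul_left h6 _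
      _ = _ := h5
  calc (activity ε)⁻¹ ^ 2 * (gcE f₀ ε (fun n Z => ∑ ι : Fin 2 ↪ Fin n, φ (Z (ι 0)) * φ (Z (ι 1))) +
        gcE f₀ ε (fun n Z => ∑ j, φ (Z j) ^ 2))
      ≤ (activity ε)⁻¹ ^ 2 * (activity ε ^ 2 * (∫⁻ z, ENNReal.ofReal (f₀ z) * φ z) ^ 2 +
          activity ε * ∫⁻ z, ENNReal.ofReal (f₀ z) * φ z ^ 2) := by
        refine mul_le_mul_right (add_le_add (h2.trans (mul_le_mul_right h4 _)) h3) _
    _ = ((activity ε)⁻¹ * activity ε) ^ 2 * (∫⁻ z, ENNReal.ofReal (f₀ z) * φ z) ^ 2 +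
          (activity ε)⁻¹ * (((activity ε)⁻¹ * activity ε) *
            ∫⁻ z, ENNReal.ofReal (f₀ z) * φ z ^ 2) := by ring
    _ = _ := by rw [ENNReal.inv_mul_cancel ha0 hat, one_pow, one_mul, one_mul]

/-! ### Uniform integrability -/

/-- the bound of `gcE_sq_le` -/
def sqC (f₀ : PhasePoint → ℝ) (ε : ℝ) (φ : PhasePoint → ℝ≥0∞) : ℝ≥0∞ :=
  (∫⁻ z, ENNReal.ofReal (f₀ z) * φ z) ^ 2 +
    (activity ε)⁻¹ * ∫⁻ z, ENNReal.ofReal (f₀ z) * φ z ^ 2

theorem inv_activity_le_one {ε : ℝ} (hε : 0 < ε) (h1 : ε ≤ 1) : (activity ε)⁻¹ ≤ 1 := by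
  rw [ENNReal.inv_le_one]
  unfold activity
  rw [show (1 : ℝ≥0∞) = ENNReal.ofReal 1 by simp]
  refine ENNReal.ofReal_le_ofReal ?_
  rw [one_le_inv₀ (by positivity)]
  nlinarith

/-- uniform bound of the second moment constant -/
theorem sqC_le {f₀ : PhasePoint → ℝ} {ε : ℝ} (hε : 0 < ε) (h1 : ε ≤ 1) (φ : PhasePoint → ℝ≥0∞) :
    sqC f₀ ε φ ≤ (∫⁻ z, ENNReal.ofReal (f₀ z) * φ z) ^ 2 +
      ∫⁻ z, ENNReal.ofReal (f₀ z) * φ z ^ 2 := by
  unfold sqC
  refine add_le_add le_rfl ?_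
  calc _ ≤ 1 * ∫⁻ z, ENNReal.ofReal (f₀ z) * φ z ^ 2 := mul_le_mul_left (inv_activity_le_one hε h1) _
    _ = _ := one_mul _

/-- The constant for the weight `1 + |v|²` is bounded uniformly in `ε ≤ 1`. -/
theorem exists_sqC_weight_le {γ : ℝ} (hγ : 0 < γ) {f₀ : PhasePoint → ℝ}
    (hb : HasSummableGaussianBound γ (fun x v => f₀ (x, v))) :
    ∃ C : ℝ≥0∞, C ≠ ∞ ∧ ∀ ε : ℝ, 0 < ε → ε ≤ 1 →
      sqC f₀ ε (fun z => ENNReal.ofReal (1 + ‖z.2‖ ^ 2)) ≤ C := by
  obtain ⟨h1, h2⟩ := lintegral_f0_weight_ne_top hγ hb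
  exact ⟨_, ENNReal.add_ne_top.2 ⟨ENNReal.pow_ne_top h1, h2⟩, fun ε hε hε1 => sqC_le hε hε1 _⟩

/-- **Uniform integrability** of a rescaled additive functional on an event of the gas. -/
theorem gcE_sum_event_le {f₀ : PhasePoint → ℝ} (hf : Measurable f₀)
    (h1 : ∫⁻ z, ENNReal.ofReal (f₀ z) ≤ 1) {ε : ℝ} (hε : 0 < ε)
    (φ : PhasePoint → ℝ≥0∞) (hφ : Measurable φ) (A : (n : ℕ) → Set (Config n))
    (hA : ∀ n, MeasurableSet (A n)) :
    gcE f₀ ε (fun n Z => ((activity ε)⁻¹ * ∑ j, φ (Z j)) * (A n).indicator 1 Z) ≤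
      (sqC f₀ ε φ) ^ (1 / 2 : ℝ) *
        (gcE f₀ ε (fun n Z => (A n).indicator 1 Z)) ^ (1 / 2 : ℝ) := by
  have hm : ∀ n, Measurable fun Z : Config n => (activity ε)⁻¹ * ∑ j, φ (Z j) := fun n =>
    (Finset.measurable_fun_sum _ fun j _ => hφ.comp (measurable_pi_apply _)).const_mul _
  have hi : ∀ n, Measurable ((A n).indicator (1 : Config n → ℝ≥0∞)) := fun n =>
    measurable_one.indicator (hA n)
  refine (gcE_cauchySchwarz hf ε (F := fun n Z => (activity ε)⁻¹ * ∑ j, φ (Z j))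
    (G := fun n Z => (A n).indicator 1 Z) hm hi).trans ?_
  refine mul_le_mul' (ENNReal.rpow_le_rpow (gcE_sq_le hf h1 hε φ hφ) (by norm_num)) ?_
  refine ENNReal.rpow_le_rpow (le_of_eq ?_) (by norm_num)
  refine gcE_congr f₀ ε fun n Z _ => ?_
  by_cases h : Z ∈ A n <;> simp [h]

/-- Uniform integrability of number and kinetic energy at any time. -/
theorem gcE_weight_event_le {Φ : Space3 → ℝ} (hΦ : AdmissiblePotential Φ) {f₀ : PhasePoint → ℝ}
    (hf : Measurable f₀) (h1 : ∫⁻ z, ENNReal.ofReal (f₀ z) ≤ 1) {ε : ℝ} (hε : 0 < ε)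
    (A : (n : ℕ) → Set (Config n)) (hA : ∀ n, MeasurableSet (A n)) (t : ℝ) :
    gcE f₀ ε (fun n Z => ((activity ε)⁻¹ * ∑ j, ENNReal.ofReal (1 + ‖(flow Φ ε t Z j).2‖ ^ 2)) *
        (A n).indicator 1 Z) ≤
      ENNReal.ofReal (1 + 2 * stabB Φ) *
        ((sqC f₀ ε (fun z => ENNReal.ofReal (1 + ‖z.2‖ ^ 2))) ^ (1 / 2 : ℝ) *
        (gcE f₀ ε (fun n Z => (A n).indicator 1 Z)) ^ (1 / 2 : ℝ)) := by
  have hφ : Measurable fun z : PhasePoint => ENNReal.ofReal (1 + ‖z.2‖ ^ 2) := by fun_prop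
  refine le_trans ?_ (mul_le_mul_right (gcE_sum_event_le hf h1 hε _ hφ A hA) _)
  rw [← gcE_const_mul f₀ ε ENNReal.ofReal_ne_top]
  refine gcE_mono f₀ ε fun n Z hZ => ?_
  calc ((activity ε)⁻¹ * ∑ j, ENNReal.ofReal (1 + ‖(flow Φ ε t Z j).2‖ ^ 2)) * (A n).indicator 1 Z
      ≤ ((activity ε)⁻¹ * (ENNReal.ofReal (1 + 2 * stabB Φ) *
          ∑ j, ENNReal.ofReal (1 + ‖(Z j).2‖ ^ 2))) * (A n).indicator 1 Z :=
        mul_le_mul_left (mul_le_mul_right (weight_flow_le' hΦ hε hZ t) _) _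
    _ = _ := by ring

/-! ### Lines which meet the gas -/

/-- **Lines meeting some particle of the gas.** -/
theorem lines_meet_le {Φ : Space3 → ℝ} (hΦ : AdmissiblePotential Φ) {ε : ℝ} (hε : 0 < ε) {n : ℕ}
    {Z : Config n} (hZ : Z ∈ PairExcluded ε n) {s0 a b : ℝ} (hab : a ≤ b)
    {G : Space3 → ℝ≥0∞} (hG : Measurable G) :
    ∫⁻ v : Space3, G v * volume {x : Space3 | ∃ i, ∃ s ∈ Icc a b,
        dist (x + (s - s0) • v) (flow Φ ε s Z i).1 ≤ ε} ≤
      16 * ENNReal.ofReal ε ^ 2 * Sweep815.c3 * (∫⁻ v, G v * (1 + ENNReal.ofReal ‖v‖)) *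
        (ENNReal.ofReal ε + ENNReal.ofReal (b - a)) *
        (ENNReal.ofReal (1 + 2 * stabB Φ) * ∑ i, ENNReal.ofReal (1 + ‖(Z i).2‖ ^ 2)) := by
  have hD : Z ∈ Dom Φ (Fin n) := pairExcluded_subset_Dom hε n hZ
  have hB := stabB_nonneg Φ
  have hcf := flow_continuous_time hΦ hε Z
  have hcv : ∀ i, Continuous fun s => (flow Φ ε s Z i).2 := fun i =>
    continuous_snd.comp ((continuous_apply i).comp hcf)
  have hcx : ∀ i, Continuous fun s => (flow Φ ε s Z i).1 := fun i =>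
    continuous_fst.comp ((continuous_apply i).comp hcf)
  set M : ℝ≥0∞ := ∫⁻ v, G v * (1 + ENNReal.ofReal ‖v‖) with hM
  set W : ℝ≥0∞ := ENNReal.ofReal (1 + 2 * stabB Φ) * ∑ i, ENNReal.ofReal (1 + ‖(Z i).2‖ ^ 2) with hW
  have hone : ∀ (i : Fin n) (u : ℝ), 1 + ENNReal.ofReal ‖(flow Φ ε u Z i).2‖ =
      ENNReal.ofReal (1 + ‖(flow Φ ε u Z i).2‖) := by
    intro i u
    rw [ENNReal.ofReal_add zero_le_one (norm_nonneg _), ENNReal.ofReal_one]
  -- the number of particles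
  have hn : (n : ℝ≥0∞) ≤ W := by
    have h1 : (n : ℝ≥0∞) = ∑ _i : Fin n, (1 : ℝ≥0∞) := by simp
    have h2 : ∑ _i : Fin n, (1 : ℝ≥0∞) ≤ ∑ i, ENNReal.ofReal (1 + ‖(Z i).2‖ ^ 2) := by
      refine Finset.sum_le_sum fun i _ => ?_
      rw [← ENNReal.ofReal_one]
      exact ENNReal.ofReal_le_ofReal (by nlinarith [sq_nonneg ‖(Z i).2‖])
    have h3 : (1 : ℝ≥0∞) ≤ ENNReal.ofReal (1 + 2 * stabB Φ) := by
      rw [← ENNReal.ofReal_one]
      exact ENNReal.ofReal_le_ofReal (by linarith)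
    calc (n : ℝ≥0∞) ≤ 1 * ∑ i, ENNReal.ofReal (1 + ‖(Z i).2‖ ^ 2) := by
          rw [h1, one_mul]; exact h2
      _ ≤ W := mul_le_mul_left h3 _
  have hspeed : ∀ u, ∑ i, ENNReal.ofReal (1 + ‖(flow Φ ε u Z i).2‖) ≤ 2 * W := by
    intro u
    have := speed_flow_le hΦ hε hZ u
    rw [mul_assoc] at this
    exact this
  calc ∫⁻ v : Space3, G v * volume {x : Space3 | ∃ i, ∃ s ∈ Icc a b,
        dist (x + (s - s0) • v) (flow Φ ε s Z i).1 ≤ ε}
      ≤ ∫⁻ v : Space3, ∑ i, G v * volume {x : Space3 | ∃ s ∈ Icc a b,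
          dist (x + (s - s0) • v) (flow Φ ε s Z i).1 ≤ ε} := by
        refine lintegral_mono fun v => ?_
        rw [← Finset.mul_sum]
        refine mul_le_mul_right ?_ _
        have : {x : Space3 | ∃ i, ∃ s ∈ Icc a b,
            dist (x + (s - s0) • v) (flow Φ ε s Z i).1 ≤ ε} =
            ⋃ i, {x : Space3 | ∃ s ∈ Icc a b,
              dist (x + (s - s0) • v) (flow Φ ε s Z i).1 ≤ ε} := by
          ext x; simp
        rw [this]
        exact (measure_iUnion_le _).trans (by rw [tsum_fintype])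
    _ = ∑ i, ∫⁻ v : Space3, G v * volume {x : Space3 | ∃ s ∈ Icc a b,
          dist (x + (s - s0) • v) (flow Φ ε s Z i).1 ≤ ε} := by
        refine lintegral_finsetSum' _ fun i _ => Measurable.aemeasurable ?_
        refine hG.mul ?_
        have hcl : IsClosed {p : Space3 × Space3 | ∃ s ∈ Icc a b,
            dist (p.2 + (s - s0) • p.1) (flow Φ ε s Z i).1 ≤ ε} := by
          have h1 : IsClosed {q : (Space3 × Space3) × Icc a b |
              dist (q.1.2 + ((q.2 : ℝ) - s0) • q.1.1) (flow Φ ε q.2 Z i).1 ≤ ε} := by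
            refine isClosed_le ?_ continuous_const
            refine Continuous.dist (by fun_prop) ?_
            exact (hcx i).comp (continuous_subtype_val.comp continuous_snd)
          have h2 := isClosedMap_fst_of_compactSpace (X := Space3 × Space3) (Y := Icc a b) _ h1
          convert h2 using 1
          ext x
          simp
        exact measurable_measure_prodMk_left hcl.measurableSet
    _ ≤ ∑ i, 8 * ENNReal.ofReal ε ^ 2 * Sweep815.c3 * M *
          (ENNReal.ofReal ε + ∫⁻ u in Icc a b, (1 + ENNReal.ofReal ‖(flow Φ ε u Z i).2‖)) := by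
        refine Finset.sum_le_sum fun i _ => ?_
        exact Sweep815.line_le hε hab (fun s _ => hasDerivAt_pos_flow hΦ hε hD s i)
          (hcv i).continuousOn (hcx i).measurable (hcv i).measurable hG
    _ = 8 * ENNReal.ofReal ε ^ 2 * Sweep815.c3 * M *
          (n * ENNReal.ofReal ε +
            ∫⁻ u in Icc a b, ∑ i, ENNReal.ofReal (1 + ‖(flow Φ ε u Z i).2‖)) := by
        rw [← Finset.mul_sum, Finset.sum_add_distrib]
        congr 2
        · simp
        · rw [lintegral_finsetSum' _ fun i _ => ((hcv i).norm.measurable.const_add 1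
            |>.ennreal_ofReal).aemeasurable]
          exact Finset.sum_congr rfl fun i _ => lintegral_congr fun u => hone i u
    _ ≤ 8 * ENNReal.ofReal ε ^ 2 * Sweep815.c3 * M *
          (W * ENNReal.ofReal ε + ∫⁻ _ in Icc a b, 2 * W) := by
        gcongr with u
        exact hspeed u
    _ = 8 * ENNReal.ofReal ε ^ 2 * Sweep815.c3 * M *
          (W * ENNReal.ofReal ε + 2 * W * ENNReal.ofReal (b - a)) := by
        rw [setLIntegral_const, Real.volume_Icc]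
    _ ≤ 8 * ENNReal.ofReal ε ^ 2 * Sweep815.c3 * M *
          (2 * W * ENNReal.ofReal ε + 2 * W * ENNReal.ofReal (b - a)) := by
        refine mul_le_mul_right (add_le_add (mul_le_mul_left ?_ _) le_rfl) _
        calc W = 1 * W := (one_mul _).symm
          _ ≤ 2 * W := mul_le_mul_left (by norm_num) _
    _ = _ := by ring

/-- `activity * ε² = 1`. -/
theorem activity_mul_sq {ε : ℝ} (hε : 0 < ε) : activity ε * ENNReal.ofReal ε ^ 2 = 1 := by
  unfold activity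
  rw [← ENNReal.ofReal_pow hε.le, ← ENNReal.ofReal_mul (by positivity),
    inv_mul_cancel₀ (by positivity), ENNReal.ofReal_one]

/-- Expected mass of the lines (born at any time in `[0, T]`, velocity weight `G`) which meet some
particle of the gas before `T`: an upper bound uniform in `ε`. -/
theorem gcE_lines_meet_le {Φ : Space3 → ℝ} (hΦ : AdmissiblePotential Φ) {f₀ : PhasePoint → ℝ}
    (hf : Measurable f₀) (h1 : ∫⁻ z, ENNReal.ofReal (f₀ z) ≤ 1) {ε : ℝ} (hε : 0 < ε) {T : ℝ}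
    {G : Space3 → ℝ≥0∞} (hG : Measurable G) (hGt : ∫⁻ v, G v * (1 + ENNReal.ofReal ‖v‖) ≠ ∞) :
    gcE f₀ ε (fun _ Z => ∫⁻ τ in Icc 0 T, ∫⁻ v : Space3, G v * volume {x : Space3 | ∃ i,
        ∃ s ∈ Icc τ T, dist (x + (s - τ) • v) (flow Φ ε s Z i).1 ≤ ε}) ≤
      16 * Sweep815.c3 * (∫⁻ v, G v * (1 + ENNReal.ofReal ‖v‖)) * (ENNReal.ofReal ε +
        ENNReal.ofReal T) * ENNReal.ofReal T * ENNReal.ofReal (1 + 2 * stabB Φ) *
        ∫⁻ z, ENNReal.ofReal (f₀ z) * ENNReal.ofReal (1 + ‖z.2‖ ^ 2) := by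
  set M : ℝ≥0∞ := ∫⁻ v, G v * (1 + ENNReal.ofReal ‖v‖) with hM
  have hc3 : Sweep815.c3 ≠ ∞ := ENNReal.ofReal_ne_top
  have hφ : Measurable fun z : PhasePoint => ENNReal.ofReal (1 + ‖z.2‖ ^ 2) := by fun_prop
  set c : ℝ≥0∞ := 16 * ENNReal.ofReal ε ^ 2 * Sweep815.c3 * M *
        (ENNReal.ofReal ε + ENNReal.ofReal T) * ENNReal.ofReal (1 + 2 * stabB Φ) *
        ENNReal.ofReal T with hc
  have hct : c ≠ ∞ := by
    rw [hc]
    refine ENNReal.mul_ne_top (ENNReal.mul_ne_top (ENNReal.mul_ne_top (ENNReal.mul_ne_top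
      (ENNReal.mul_ne_top (ENNReal.mul_ne_top (by norm_num)
      (ENNReal.pow_ne_top ENNReal.ofReal_ne_top)) hc3) hGt) ?_) ENNReal.ofReal_ne_top)
      ENNReal.ofReal_ne_top
    exact ENNReal.add_ne_top.2 ⟨ENNReal.ofReal_ne_top, ENNReal.ofReal_ne_top⟩
  calc gcE f₀ ε (fun _ Z => ∫⁻ τ in Icc 0 T, ∫⁻ v : Space3, G v * volume {x : Space3 | ∃ i,
        ∃ s ∈ Icc τ T, dist (x + (s - τ) • v) (flow Φ ε s Z i).1 ≤ ε})
      ≤ gcE f₀ ε (fun _ Z => c * ∑ i, ENNReal.ofReal (1 + ‖(Z i).2‖ ^ 2)) := by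
        refine gcE_mono f₀ ε fun n Z hZ => ?_
        calc ∫⁻ τ in Icc 0 T, ∫⁻ v : Space3, G v * volume {x : Space3 | ∃ i,
              ∃ s ∈ Icc τ T, dist (x + (s - τ) • v) (flow Φ ε s Z i).1 ≤ ε}
            ≤ ∫⁻ _ in Icc 0 T, 16 * ENNReal.ofReal ε ^ 2 * Sweep815.c3 * M *
              (ENNReal.ofReal ε + ENNReal.ofReal T) *
              (ENNReal.ofReal (1 + 2 * stabB Φ) * ∑ i, ENNReal.ofReal (1 + ‖(Z i).2‖ ^ 2)) := by
              refine setLIntegral_mono' measurableSet_Icc fun τ hτ => ?_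
              refine (lines_meet_le hΦ hε hZ hτ.2 hG).trans ?_
              gcongr
              linarith [hτ.1]
          _ = c * ∑ i, ENNReal.ofReal (1 + ‖(Z i).2‖ ^ 2) := by
              rw [setLIntegral_const, Real.volume_Icc, sub_zero, hc]
              ring
    _ = c * gcE f₀ ε (fun _ Z => ∑ i, ENNReal.ofReal (1 + ‖(Z i).2‖ ^ 2)) :=
        gcE_const_mul f₀ ε hct _
    _ ≤ c * (activity ε * ∫⁻ z, ENNReal.ofReal (f₀ z) * ENNReal.ofReal (1 + ‖z.2‖ ^ 2)) :=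
        mul_le_mul_right (gcE_sum_le hf h1 ε _ hφ) _
    _ = (activity ε * ENNReal.ofReal ε ^ 2) * (16 * Sweep815.c3 * M *
          (ENNReal.ofReal ε + ENNReal.ofReal T) * ENNReal.ofReal T *
          ENNReal.ofReal (1 + 2 * stabB Φ) *
          ∫⁻ z, ENNReal.ofReal (f₀ z) * ENNReal.ofReal (1 + ‖z.2‖ ^ 2)) := by
        rw [hc]; ring
    _ = _ := by rw [activity_mul_sq hε, one_mul]

/-! ### Atoms -/

/-- Abstract atom bound: with probability at least `1 - D⁻² E ∑ I_p²` all influences are `≤ D`. -/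
theorem measure_exists_gt_le {Ω : Type*} [MeasurableSpace Ω] (P : Measure Ω) {D : ℝ≥0∞}
    (hD : D ≠ 0) (hDt : D ≠ ∞) {ι : Ω → Type*} [∀ ω, Fintype (ι ω)] (I : (ω : Ω) → ι ω → ℝ≥0∞)
    (hI : Measurable fun ω => ∑ p, I ω p ^ 2) :
    P {ω | ∃ p, D < I ω p} ≤ (D ^ 2)⁻¹ * ∫⁻ ω, ∑ p, I ω p ^ 2 ∂P := by
  have hD2 : D ^ 2 ≠ 0 := pow_ne_zero 2 hD
  have hD2t : D ^ 2 ≠ ∞ := ENNReal.pow_ne_top hDt
  have h1 : {ω | ∃ p, D < I ω p} ⊆ {ω | D ^ 2 ≤ ∑ p, I ω p ^ 2} := by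
    rintro ω ⟨p, hp⟩
    exact (pow_le_pow_left' hp.le 2).trans
      (Finset.single_le_sum (f := fun p => I ω p ^ 2) (fun _ _ => bot_le) (Finset.mem_univ p))
  have h2 := mul_meas_ge_le_lintegral (μ := P) hI (D ^ 2)
  calc P {ω | ∃ p, D < I ω p} ≤ P {ω | D ^ 2 ≤ ∑ p, I ω p ^ 2} := measure_mono h1
    _ = (D ^ 2)⁻¹ * (D ^ 2 * P {ω | D ^ 2 ≤ ∑ p, I ω p ^ 2}) := by
        rw [← mul_assoc, ENNReal.inv_mul_cancel hD2 hD2t, one_mul]
    _ ≤ _ := mul_le_mul_right h2 _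

end Crest.Agent.R122.Mom974
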