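import Crest.Agent.R122.QDensB_815

/-!
helper815, row 122, block Q (quenched densities), part 1c: `L¹(ds dℓ dp)` convergence of the full
weight `1[Valid] wt ∏ f₀(lines) φ` of a collision tree as `ε → 0`.
-/

set_option autoImplicit false

open MeasureTheory Set Filter
open scoped ENNReal Topology Classical
open Crest.AnalysisR.Kinetic Crest.Agent.R122.Kin796 Crest.Agent.R122.Disc416
  Crest.Agent.R122.Kin416 Crest.Agent.R122.Tree674
  Crest.Agent.R122.Scat818 Crest.Agent.R122.TreeF399 Crest.Agent.R122.TreeEps399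
  Crest.Agent.R122.Hid424 Crest.Agent.R122.Quench815

noncomputable section

namespace Crest.Agent.R122.QDens815

open CTree

variable {Φ : Space3 → ℝ} {f₀ : PhasePoint → ℝ}

/-- full weight of a tree: `1[Valid] wt ∏ f₀(lines) φ` -/
def gw (Φ : Space3 → ℝ) (f₀ : PhasePoint → ℝ) (P : CTree) (φ : ℝ × PhasePoint × Par P → ℝ≥0∞)
    (ε s : ℝ) (ℓ : PhasePoint) (p : Par P) : ℝ≥0∞ :=
  {p | Valid Φ ε P s ℓ.2 p}.indicator
    (fun p => wt Φ P ℓ.2 p * fp Φ f₀ ε P ℓ p * φ (s, ℓ, p)) p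

variable {P : CTree} {φ : ℝ × PhasePoint × Par P → ℝ≥0∞}

theorem gw_of_valid {ε s : ℝ} {ℓ : PhasePoint} {p : Par P} (h : Valid Φ ε P s ℓ.2 p) :
    gw Φ f₀ P φ ε s ℓ p = wt Φ P ℓ.2 p * fp Φ f₀ ε P ℓ p * φ (s, ℓ, p) :=
  indicator_of_mem (show p ∈ {p | Valid Φ ε P s ℓ.2 p} from h) _

theorem gw_of_not_valid {ε s : ℝ} {ℓ : PhasePoint} {p : Par P} (h : ¬ Valid Φ ε P s ℓ.2 p) :
    gw Φ f₀ P φ ε s ℓ p = 0 :=
  indicator_of_notMem (show p ∉ {p | Valid Φ ε P s ℓ.2 p} from h) _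

/-- measurable version of the product of the initial densities -/
def fpM (Φ : Space3 → ℝ) (f₀ : PhasePoint → ℝ) (ε : ℝ) (P : CTree) (ℓ : PhasePoint) (p : Par P) :
    ℝ≥0∞ := ∏ i, ENNReal.ofReal (f₀ (linesM Φ ε P ℓ p i))

theorem measurable_fpM (hΦ : AdmissiblePotential Φ) (hf : Measurable f₀) (ε : ℝ) (P : CTree) :
    Measurable fun z : PhasePoint × Par P => fpM Φ f₀ ε P z.1 z.2 := by
  unfold fpM
  exact Finset.measurable_prod _ fun i _ =>
    (hf.comp ((measurable_pi_apply i).comp (measurable_linesM hΦ ε P))).ennreal_ofReal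

theorem fpM_of_adm {ε : ℝ} {ℓ : PhasePoint} {p : Par P} (h : Adm Φ P ℓ.2 p) :
    fpM Φ f₀ ε P ℓ p = fp Φ f₀ ε P ℓ p := by
  unfold fpM fp
  rw [linesM_of_adm ε h]

/-- joint measurability of the weight -/
theorem measurable_gw (hΦ : AdmissiblePotential Φ) (hf : Measurable f₀) (hφ : Measurable φ)
    (ε : ℝ) :
    Measurable fun q : (ℝ × PhasePoint) × Par P => gw Φ f₀ P φ ε q.1.1 q.1.2 q.2 := by
  have hV : MeasurableSet {q : (ℝ × PhasePoint) × Par P | Valid Φ ε P q.1.1 q.1.2.2 q.2} :=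
    (measurable_fst.fst.prodMk (measurable_fst.snd.snd.prodMk measurable_snd))
      (measurableSet_valid3 hΦ ε P)
  have h1 : Measurable fun q : (ℝ × PhasePoint) × Par P => wtM Φ P q.1.2.2 q.2 :=
    (measurable_wtM hΦ P).comp (measurable_fst.snd.snd.prodMk measurable_snd)
  have h2 : Measurable fun q : (ℝ × PhasePoint) × Par P => fpM Φ f₀ ε P q.1.2 q.2 :=
    (measurable_fpM hΦ hf ε P).comp (measurable_fst.snd.prodMk measurable_snd)
  have h3 : Measurable fun q : (ℝ × PhasePoint) × Par P => φ (q.1.1, q.1.2, q.2) :=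
    hφ.comp (measurable_fst.fst.prodMk (measurable_fst.snd.prodMk measurable_snd))
  have h4 := ((h1.mul h2).mul h3).indicator hV
  convert h4 using 1
  funext q
  by_cases hq : Valid Φ ε P q.1.1 q.1.2.2 q.2
  · rw [gw_of_valid hq, indicator_of_mem
      (show q ∈ {q : (ℝ × PhasePoint) × Par P | Valid Φ ε P q.1.1 q.1.2.2 q.2} from hq)]
    show _ = wtM Φ P q.1.2.2 q.2 * fpM Φ f₀ ε P q.1.2 q.2 * φ (q.1.1, q.1.2, q.2)
    rw [wtM_of_adm hq.1, fpM_of_adm hq.1]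
  · rw [gw_of_not_valid hq, indicator_of_notMem
      (show q ∉ {q : (ℝ × PhasePoint) × Par P | Valid Φ ε P q.1.1 q.1.2.2 q.2} from hq)]

/-- Tonelli: root position innermost. -/
theorem tonelli {κ : Measure ℝ} [SFinite κ] {F : (ℝ × PhasePoint) × Par P → ℝ≥0∞}
    (hF : Measurable F) :
    ∫⁻ y, (∫⁻ p, F (y, p)) ∂(κ.prod volume) =
      ∫⁻ q : ℝ × (Space3 × Par P), (∫⁻ X : Space3, F ((q.1, (X, q.2.1)), q.2.2))
        ∂(κ.prod volume) := by
  have h1 : Measurable fun y : ℝ × PhasePoint => ∫⁻ p, F (y, p) := hF.lintegral_prod_right'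
  have hG : Measurable fun z : (ℝ × (Space3 × Par P)) × Space3 =>
      F ((z.1.1, (z.2, z.1.2.1)), z.1.2.2) :=
    hF.comp ((measurable_fst.fst.prodMk (measurable_snd.prodMk measurable_fst.snd.fst)).prodMk
      measurable_fst.snd.snd)
  have h2 : Measurable fun q : ℝ × (Space3 × Par P) =>
      ∫⁻ X : Space3, F ((q.1, (X, q.2.1)), q.2.2) := hG.lintegral_prod_right'
  rw [lintegral_prod _ h1.aemeasurable, lintegral_prod _ h2.aemeasurable]
  refine lintegral_congr fun s => ?_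
  have h3 : Measurable fun ℓ : PhasePoint => ∫⁻ p, F ((s, ℓ), p) :=
    h1.comp measurable_prodMk_left
  rw [lintegral_pair h3]
  have h4 : ∀ X : Space3, ∫⁻ v : Space3, ∫⁻ p, F ((s, (X, v)), p) =
      ∫⁻ z : Space3 × Par P, F ((s, (X, z.1)), z.2) := by
    intro X
    have h5 : Measurable fun z : Space3 × Par P => F ((s, (X, z.1)), z.2) :=
      hF.comp ((measurable_const.prodMk (measurable_const.prodMk measurable_fst)).prodMk
        measurable_snd)
    rw [lintegral_pair h5]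
  simp_rw [h4]
  rw [lintegral_lintegral_swap]
  refine Measurable.aemeasurable ?_
  exact hF.comp ((measurable_const.prodMk (measurable_fst.prodMk measurable_snd.fst)).prodMk
    measurable_snd.snd)

/-- real inequality for the weights -/
theorem pow_mul_exp_le {c : ℝ} (hc : 0 < c) (n : ℕ) {E : ℝ} (hE : 0 ≤ E) :
    (2 * Real.sqrt E) ^ n * Real.exp (-c * E) ≤
      Real.exp ((n : ℝ) ^ 2 / (2 * (c / 4))) * Real.exp (-(c / 2) * E) := by
  have hr : 0 ≤ 2 * Real.sqrt E := by positivity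
  have h := Boltz814.one_add_pow_mul_exp_le (γ := c / 4) (by positivity) n hr
  have hsq : (2 * Real.sqrt E) ^ 2 = 4 * E := by
    rw [mul_pow, Real.sq_sqrt hE]; norm_num
  rw [hsq] at h
  have e1 : -(c / 4) * (4 * E) = -c * E := by ring
  have e2 : -(c / 4 / 2) * (4 * E) = -(c / 2) * E := by ring
  rw [e1, e2] at h
  refine le_trans ?_ h
  gcongr
  linarith

/-- **domination** of the weight at fixed `(s, v, p)`, integrated over the root position. -/
theorem lintegral_gw_le (hΦ : AdmissiblePotential Φ) {γ a Cφ T₀ : ℝ} {env : Space3 → ℝ≥0∞}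
    {A : ℝ≥0∞} (hE : Env γ f₀ env A) (ha : a < γ) (hf : Measurable f₀)
    (hφb : ∀ s ℓ p, s ≤ T₀ → Valid Φ 0 P s ℓ.2 p → φ (s, ℓ, p) ≤
      ENNReal.ofReal Cφ * ENNReal.ofReal (Real.exp (a * (‖ℓ.2‖ ^ 2 + nodeEn P p))))
    {ε : ℝ} (hε : 0 ≤ ε) {s : ℝ} (hs : s ≤ T₀) (v : Space3) (p : Par P) :
    ∫⁻ X : Space3, gw Φ f₀ P φ ε s (X, v) p ≤
      (ENNReal.ofReal Cφ * ENNReal.ofReal (Real.exp ((P.size : ℝ) ^ 2 / (2 * ((γ - a) / 4)))) *
        ((∫⁻ x, env x) * A ^ P.size)) * (gau ((γ - a) / 2) v * bx T₀ ((γ - a) / 2) P p) := by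
  by_cases hV : Valid Φ ε P s v p
  swap
  · have : ∀ X : Space3, gw Φ f₀ P φ ε s (X, v) p = 0 := fun X => gw_of_not_valid hV
    simp [this]
  have hV0 : Valid Φ 0 P s v p := valid_mono hε le_rfl hV
  set E := ‖v‖ ^ 2 + nodeEn P p with hEdef
  have hE0 : 0 ≤ E := add_nonneg (sq_nonneg _) (nodeEn_nonneg P p)
  have hc : 0 < γ - a := sub_pos.2 ha
  have hwt := wt_le hΦ P v p hV.1
  have h1 : ∀ X : Space3, gw Φ f₀ P φ ε s (X, v) p ≤
      (wt Φ P v p * (ENNReal.ofReal Cφ * ENNReal.ofReal (Real.exp (a * E)))) *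
        fp Φ f₀ ε P (X, v) p := by
    intro X
    rw [gw_of_valid (ℓ := (X, v)) hV]
    have := hφb s (X, v) p hs hV0
    calc wt Φ P v p * fp Φ f₀ ε P (X, v) p * φ (s, (X, v), p)
        ≤ wt Φ P v p * fp Φ f₀ ε P (X, v) p *
          (ENNReal.ofReal Cφ * ENNReal.ofReal (Real.exp (a * E))) := by gcongr
      _ = _ := by ring
  have hbx : ENNReal.ofReal (Real.exp (-((γ - a) / 2) * E)) ≤
      gau ((γ - a) / 2) v * bx T₀ ((γ - a) / 2) P p := by
    have h2 := gau_nodeEn_le_bx ((γ - a) / 2) P hs v p hV0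
    calc ENNReal.ofReal (Real.exp (-((γ - a) / 2) * E))
        = gau ((γ - a) / 2) v * ENNReal.ofReal (Real.exp (-((γ - a) / 2) * nodeEn P p)) := by
          unfold gau
          rw [← ENNReal.ofReal_mul (Real.exp_pos _).le, ← Real.exp_add]
          congr 2
          rw [hEdef]; ring
      _ ≤ _ := by gcongr
  calc ∫⁻ X : Space3, gw Φ f₀ P φ ε s (X, v) p
      ≤ ∫⁻ X : Space3, (wt Φ P v p * (ENNReal.ofReal Cφ *
        ENNReal.ofReal (Real.exp (a * E)))) * fp Φ f₀ ε P (X, v) p := lintegral_mono h1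
    _ = (wt Φ P v p * (ENNReal.ofReal Cφ * ENNReal.ofReal (Real.exp (a * E)))) *
        ∫⁻ X : Space3, fp Φ f₀ ε P (X, v) p :=
        lintegral_const_mul _ (measurable_fp_shift hf ε)
    _ ≤ (ENNReal.ofReal (2 * Real.sqrt E) ^ P.size *
        (ENNReal.ofReal Cφ * ENNReal.ofReal (Real.exp (a * E)))) *
        ((∫⁻ x, env x) * A ^ P.size * ENNReal.ofReal (Real.exp (-γ * E))) := by
        gcongr
        exact lintegral_fp_le hΦ hE ε P v p hV.1
    _ = (ENNReal.ofReal Cφ * ((∫⁻ x, env x) * A ^ P.size)) *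
        ENNReal.ofReal ((2 * Real.sqrt E) ^ P.size * Real.exp (-(γ - a) * E)) := by
        rw [ENNReal.ofReal_mul (p := (2 * Real.sqrt E) ^ P.size) (by positivity),
          ENNReal.ofReal_pow (p := 2 * Real.sqrt E) (by positivity)]
        have : ENNReal.ofReal (Real.exp (-(γ - a) * E)) =
            ENNReal.ofReal (Real.exp (a * E)) * ENNReal.ofReal (Real.exp (-γ * E)) := by
          rw [← ENNReal.ofReal_mul (Real.exp_pos _).le, ← Real.exp_add]
          congr 2; ring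
        rw [this]
        ring
    _ ≤ (ENNReal.ofReal Cφ * ((∫⁻ x, env x) * A ^ P.size)) *
        ENNReal.ofReal (Real.exp ((P.size : ℝ) ^ 2 / (2 * ((γ - a) / 4))) *
          Real.exp (-((γ - a) / 2) * E)) := by
        exact mul_le_mul_right (ENNReal.ofReal_le_ofReal (pow_mul_exp_le hc P.size hE0)) _
    _ = (ENNReal.ofReal Cφ * ENNReal.ofReal (Real.exp ((P.size : ℝ) ^ 2 / (2 * ((γ - a) / 4)))) *
        ((∫⁻ x, env x) * A ^ P.size)) * ENNReal.ofReal (Real.exp (-((γ - a) / 2) * E)) := by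
        rw [ENNReal.ofReal_mul (Real.exp_pos _).le]
        ring
    _ ≤ _ := by gcongr

/-- the dominating function is integrable -/
theorem lintegral_dom_lt_top {κ : Measure ℝ} [IsFiniteMeasure κ] (T₀ : ℝ) {δ : ℝ} (hδ : 0 < δ)
    (P : CTree) {K : ℝ≥0∞} (hK : K ≠ ∞) :
    ∫⁻ q : ℝ × (Space3 × Par P), K * (gau δ q.2.1 * bx T₀ δ P q.2.2) ∂(κ.prod volume) < ∞ := by
  have hm : Measurable fun z : Space3 × Par P => gau δ z.1 * bx T₀ δ P z.2 :=
    ((measurable_gau δ).comp measurable_fst).mul ((measurable_bx T₀ δ P).comp measurable_snd)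
  have hm' : Measurable fun q : ℝ × (Space3 × Par P) => gau δ q.2.1 * bx T₀ δ P q.2.2 :=
    hm.comp measurable_snd
  rw [lintegral_const_mul _ hm', lintegral_prod _ hm'.aemeasurable]
  simp only
  rw [lintegral_const, Measure.volume_eq_prod, lintegral_prod_mul (measurable_gau δ).aemeasurable
    (measurable_bx T₀ δ P).aemeasurable]
  exact ENNReal.mul_lt_top hK.lt_top (ENNReal.mul_lt_top (ENNReal.mul_lt_top
    (lintegral_gau_lt_top hδ) (lintegral_bx_lt_top T₀ hδ P)) (measure_lt_top _ _))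

/-- the weight is integrable -/
theorem lintegral_gw_ne_top (hΦ : AdmissiblePotential Φ) {κ : Measure ℝ} [IsFiniteMeasure κ]
    {γ a Cφ T₀ : ℝ} (hκ : ∀ᵐ s ∂κ, s ≤ T₀) {env : Space3 → ℝ≥0∞}
    {A : ℝ≥0∞} (hE : Env γ f₀ env A) (ha : a < γ) (hf : Measurable f₀) (hφ : Measurable φ)
    (hφb : ∀ s ℓ p, s ≤ T₀ → Valid Φ 0 P s ℓ.2 p → φ (s, ℓ, p) ≤
      ENNReal.ofReal Cφ * ENNReal.ofReal (Real.exp (a * (‖ℓ.2‖ ^ 2 + nodeEn P p))))
    {ε : ℝ} (hε : 0 ≤ ε) :
    ∫⁻ y : ℝ × PhasePoint, (∫⁻ p, gw Φ f₀ P φ ε y.1 y.2 p) ∂(κ.prod volume) ≠ ∞ := by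
  rw [tonelli (F := fun q : (ℝ × PhasePoint) × Par P => gw Φ f₀ P φ ε q.1.1 q.1.2 q.2)
    (measurable_gw hΦ hf hφ ε)]
  refine ne_top_of_le_ne_top (lintegral_dom_lt_top (κ := κ) T₀
    (δ := (γ - a) / 2) (half_pos (sub_pos.2 ha)) P
    (K := ENNReal.ofReal Cφ * ENNReal.ofReal (Real.exp ((P.size : ℝ) ^ 2 /
      (2 * ((γ - a) / 4)))) * ((∫⁻ x, env x) * A ^ P.size)) ?_).ne ?_
  · exact ENNReal.mul_ne_top (ENNReal.mul_ne_top ENNReal.ofReal_ne_top ENNReal.ofReal_ne_top)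
      (ENNReal.mul_ne_top hE.int_ne (ENNReal.pow_ne_top hE.A_ne))
  · have hκ' : ∀ᵐ q : ℝ × (Space3 × Par P) ∂(κ.prod volume), q.1 ≤ T₀ :=
      Measure.quasiMeasurePreserving_fst.ae hκ
    refine lintegral_mono_ae (hκ'.mono fun q hq => ?_)
    exact lintegral_gw_le hΦ hE ha hf hφb hε hq q.2.1 q.2.2

/-- **`L¹` convergence of the weights.** -/
theorem tendsto_gw (hΦ : AdmissiblePotential Φ) {κ : Measure ℝ} [IsFiniteMeasure κ]
    {γ a Cφ T₀ : ℝ} (hκ : ∀ᵐ s ∂κ, s ≤ T₀) {env : Space3 → ℝ≥0∞}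
    {A : ℝ≥0∞} (hE : Env γ f₀ env A) (ha : a < γ) (hf : Continuous f₀) (hφ : Measurable φ)
    (hφb : ∀ s ℓ p, s ≤ T₀ → Valid Φ 0 P s ℓ.2 p → φ (s, ℓ, p) ≤
      ENNReal.ofReal Cφ * ENNReal.ofReal (Real.exp (a * (‖ℓ.2‖ ^ 2 + nodeEn P p)))) :
    Tendsto (fun ε => ∫⁻ y : ℝ × PhasePoint, (∫⁻ p, absd (gw Φ f₀ P φ ε y.1 y.2 p)
      (gw Φ f₀ P φ 0 y.1 y.2 p)) ∂(κ.prod volume)) L (𝓝 0) := by
  have hgm := fun ε => measurable_gw (P := P) hΦ hf.measurable hφ ε
  have hm : ∀ ε, Measurable fun q : (ℝ × PhasePoint) × Par P =>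
      absd (gw Φ f₀ P φ ε q.1.1 q.1.2 q.2) (gw Φ f₀ P φ 0 q.1.1 q.1.2 q.2) := fun ε =>
    measurable_absd (hgm ε) (hgm 0)
  have e1 : ∀ ε, ∫⁻ y : ℝ × PhasePoint, (∫⁻ p, absd (gw Φ f₀ P φ ε y.1 y.2 p)
      (gw Φ f₀ P φ 0 y.1 y.2 p)) ∂(κ.prod volume) =
      ∫⁻ q : ℝ × (Space3 × Par P), (∫⁻ X : Space3, absd (gw Φ f₀ P φ ε q.1 (X, q.2.1) q.2.2)
      (gw Φ f₀ P φ 0 q.1 (X, q.2.1) q.2.2)) ∂(κ.prod volume) := fun ε => tonelli (hm ε)
  simp_rw [e1]
  set δ := (γ - a) / 2 with hδdef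
  have hδ : 0 < δ := half_pos (sub_pos.2 ha)
  set K : ℝ≥0∞ := ENNReal.ofReal Cφ * ENNReal.ofReal (Real.exp ((P.size : ℝ) ^ 2 /
      (2 * ((γ - a) / 4)))) * ((∫⁻ x, env x) * A ^ P.size) with hK
  have hKt : K ≠ ∞ := ENNReal.mul_ne_top (ENNReal.mul_ne_top ENNReal.ofReal_ne_top
    ENNReal.ofReal_ne_top) (ENNReal.mul_ne_top hE.int_ne (ENNReal.pow_ne_top hE.A_ne))
  have hκ' : ∀ᵐ q : ℝ × (Space3 × Par P) ∂(κ.prod volume), q.1 ≤ T₀ :=
    Measure.quasiMeasurePreserving_fst.ae hκ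
  have hmX : ∀ ε, Measurable fun q : ℝ × (Space3 × Par P) =>
      ∫⁻ X : Space3, absd (gw Φ f₀ P φ ε q.1 (X, q.2.1) q.2.2)
      (gw Φ f₀ P φ 0 q.1 (X, q.2.1) q.2.2) := by
    intro ε
    have : Measurable fun z : (ℝ × (Space3 × Par P)) × Space3 =>
        absd (gw Φ f₀ P φ ε z.1.1 (z.2, z.1.2.1) z.1.2.2)
        (gw Φ f₀ P φ 0 z.1.1 (z.2, z.1.2.1) z.1.2.2) :=
      (hm ε).comp (f := fun z : (ℝ × (Space3 × Par P)) × Space3 =>
        (((z.1.1, (z.2, z.1.2.1)), z.1.2.2) : (ℝ × PhasePoint) × Par P))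
        ((measurable_fst.fst.prodMk (measurable_snd.prodMk measurable_fst.snd.fst)).prodMk
        measurable_fst.snd.snd)
    exact this.lintegral_prod_right'
  have key := tendsto_lintegral_filter_of_dominated_convergence
    (μ := κ.prod (volume : Measure (Space3 × Par P)))
    (l := L) (F := fun ε q => ∫⁻ X : Space3, absd (gw Φ f₀ P φ ε q.1 (X, q.2.1) q.2.2)
      (gw Φ f₀ P φ 0 q.1 (X, q.2.1) q.2.2))
    (f := fun _ => 0) (fun q => K * (gau δ q.2.1 * bx T₀ δ P q.2.2) +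
      K * (gau δ q.2.1 * bx T₀ δ P q.2.2))
    (Eventually.of_forall hmX) ?_ ?_ ?_
  · simpa using key
  · filter_upwards [eventually_pos] with ε hε
    filter_upwards [hκ'] with q hq
    have hg0 : Measurable fun X : Space3 => gw Φ f₀ P φ ε q.1 (X, q.2.1) q.2.2 :=
      (hgm ε).comp (f := fun X : Space3 => (((q.1, (X, q.2.1)), q.2.2) :
        (ℝ × PhasePoint) × Par P)) ((measurable_const.prodMk
        (measurable_id.prodMk measurable_const)).prodMk measurable_const)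
    calc ∫⁻ X : Space3, absd (gw Φ f₀ P φ ε q.1 (X, q.2.1) q.2.2)
          (gw Φ f₀ P φ 0 q.1 (X, q.2.1) q.2.2)
        ≤ ∫⁻ X : Space3, (gw Φ f₀ P φ ε q.1 (X, q.2.1) q.2.2 +
          gw Φ f₀ P φ 0 q.1 (X, q.2.1) q.2.2) := lintegral_mono fun X => absd_le_add _ _
      _ = (∫⁻ X : Space3, gw Φ f₀ P φ ε q.1 (X, q.2.1) q.2.2) +
          ∫⁻ X : Space3, gw Φ f₀ P φ 0 q.1 (X, q.2.1) q.2.2 := lintegral_add_left hg0 _
      _ ≤ _ := add_le_add
          (lintegral_gw_le hΦ hE ha hf.measurable hφb hε.le hq q.2.1 q.2.2)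
          (lintegral_gw_le hΦ hE ha hf.measurable hφb le_rfl hq q.2.1 q.2.2)
  · have hmd : Measurable fun q : ℝ × (Space3 × Par P) =>
        K * (gau δ q.2.1 * bx T₀ δ P q.2.2) :=
      (((measurable_gau δ).comp measurable_snd.fst).mul
        ((measurable_bx T₀ δ P).comp measurable_snd.snd)).const_mul _
    rw [lintegral_add_left hmd]
    have := (lintegral_dom_lt_top (κ := κ) T₀ hδ P hKt).ne
    exact ENNReal.add_ne_top.2 ⟨this, this⟩
  · filter_upwards [hκ'] with q hq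
    obtain ⟨s, v, p⟩ := q
    simp only at hq ⊢
    by_cases hV : Valid Φ 0 P s v p
    swap
    · have hz : (fun ε => ∫⁻ X : Space3, absd (gw Φ f₀ P φ ε s (X, v) p)
          (gw Φ f₀ P φ 0 s (X, v) p)) =ᶠ[L] fun _ => 0 := by
        filter_upwards [eventually_pos] with ε hε
        have h1 : ¬ Valid Φ ε P s v p := fun h => hV (valid_mono hε.le le_rfl h)
        have : ∀ X : Space3, absd (gw Φ f₀ P φ ε s (X, v) p) (gw Φ f₀ P φ 0 s (X, v) p) = 0 := by
          intro X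
          rw [gw_of_not_valid (ℓ := (X, v)) h1, gw_of_not_valid (ℓ := (X, v)) hV, absd_self]
        simp [this]
      rw [tendsto_congr' hz]
      exact tendsto_const_nhds
    · set c : ℝ≥0∞ := wt Φ P v p * (ENNReal.ofReal Cφ *
        ENNReal.ofReal (Real.exp (a * (‖v‖ ^ 2 + nodeEn P p)))) with hc
      have hct : c ≠ ∞ := by
        refine ENNReal.mul_ne_top ?_ (ENNReal.mul_ne_top ENNReal.ofReal_ne_top
          ENNReal.ofReal_ne_top)
        exact ne_top_of_le_ne_top (ENNReal.pow_ne_top ENNReal.ofReal_ne_top)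
          (wt_le hΦ P v p hV.1)
      have hlim := ENNReal.Tendsto.const_mul (a := c) (tendsto_fp hΦ hE hf P v p hV.1)
        (Or.inr hct)
      rw [mul_zero] at hlim
      refine tendsto_of_tendsto_of_tendsto_of_le_of_le' tendsto_const_nhds hlim
        (Eventually.of_forall fun _ => bot_le) ?_
      filter_upwards [valid_eventually P v p s hV] with ε hVε
      have hmf : Measurable fun X : Space3 => absd (fp Φ f₀ ε P (X, v) p)
          (fp Φ f₀ 0 P (X, v) p) :=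
        measurable_absd (measurable_fp_shift hf.measurable ε)
          (measurable_fp_shift hf.measurable 0)
      rw [← lintegral_const_mul _ hmf]
      refine lintegral_mono fun X => ?_
      rw [gw_of_valid (ℓ := (X, v)) hVε, gw_of_valid (ℓ := (X, v)) hV]
      have hb := hφb s (X, v) p hq hV
      have r1 : ∀ x : ℝ≥0∞, wt Φ P v p * x * φ (s, (X, v), p) =
          (wt Φ P v p * φ (s, (X, v), p)) * x := fun x => by ring
      simp only [r1]
      refine (absd_mul_le _ _ _).trans ?_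
      have hcc : wt Φ P v p * φ (s, (X, v), p) ≤ c := mul_le_mul_right hb _
      exact mul_le_mul_left hcc _

end Crest.Agent.R122.QDens815

end
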