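import Crest.Agent.R122.TreeMeas_674
import Crest.Agent.R122.TreeEps_399
import Crest.Agent.R122.KinQ_416
import Crest.Agent.R122.Scat4_818

/-!
Row 122, block FT (helper818), part 2: Gaussian domination of tree weights.

* `sum_vels`: energy of a tree, `∑ ‖vels j‖² = ‖v‖² + ∑ nodes ‖w‖²`.
* `wt_le`, `wt_mul_exp_le`: the weight is absorbed by a part of the Gaussian.
* `lintegral_box`: integral over all node parameters in the time box.
-/

set_option autoImplicit false
set_option maxHeartbeats 400000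

open MeasureTheory Set Filter
open Crest.AnalysisR.Kinetic
open scoped ENNReal Classical

noncomputable section

namespace Crest.Agent.R122.Tube818

open Tree674 Kin796 Kin796.CTree Disc416 Kin416

variable {Φ : Space3 → ℝ}

/-- Sum of the squares of the outgoing partner velocities. -/
def wSq : ∀ P : CTree, Par P → ℝ
  | leaf => fun _ => 0
  | node l r => fun p => ‖p.1.2.1‖ ^ 2 + (wSq l p.2.1 + wSq r p.2.2)

theorem wSq_nonneg : ∀ (P : CTree) (p : Par P), 0 ≤ wSq P p
  | leaf, _ => le_rfl
  | node l r, p => by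
      have h1 := wSq_nonneg l p.2.1
      have h2 := wSq_nonneg r p.2.2
      have h3 : 0 ≤ ‖p.1.2.1‖ ^ 2 := by positivity
      show 0 ≤ ‖p.1.2.1‖ ^ 2 + (wSq l p.2.1 + wSq r p.2.2)
      linarith

theorem measurable_wSq : ∀ P : CTree, Measurable (wSq P)
  | leaf => measurable_const
  | node l r => by
      have h1 : Measurable fun p : Par (node l r) => ‖p.1.2.1‖ ^ 2 :=
        ((measurable_fst.comp (measurable_snd.comp (measurable_par1 l r))).norm).pow_const 2
      have h2 : Measurable fun p : Par (node l r) => wSq l p.2.1 :=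
        (measurable_wSq l).comp (measurable_parL l r)
      have h3 : Measurable fun p : Par (node l r) => wSq r p.2.2 :=
        (measurable_wSq r).comp (measurable_parR l r)
      exact h1.add (h2.add h3)

theorem preV_energy (hΦ : AdmissiblePotential Φ) {v : Space3} {a : NodeP} (h : Adm1 Φ v a) :
    ‖(preV Φ v a).1‖ ^ 2 + ‖(preV Φ v a).2‖ ^ 2 = ‖v‖ ^ 2 + ‖a.2.1‖ ^ 2 := by
  have hg : v - a.2.1 ≠ 0 := sub_ne_zero.2 h.2.1
  refine energy_post (Scat818.scatFacts hΦ) h.2.1 ?_
  refine ⟨inner_frameMap_self _ _, ?_⟩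
  show ‖frameMap (v - a.2.1) a.2.2‖ < 1
  rw [norm_frameMap hg]
  exact h.1

/-- **Energy of a tree.** -/
theorem sum_vels (hΦ : AdmissiblePotential Φ) : ∀ (P : CTree) (v : Space3) (p : Par P),
    Adm Φ P v p → ∑ j : Idx P, ‖vels Φ P v p j‖ ^ 2 = ‖v‖ ^ 2 + wSq P p
  | leaf, v, p, _ => by
      show ∑ j : Unit, ‖v‖ ^ 2 = ‖v‖ ^ 2 + 0
      simp
  | node l r, v, p, h => by
      have h1 := sum_vels hΦ l _ _ h.2.1
      have h2 := sum_vels hΦ r _ _ h.2.2
      have h3 := preV_energy hΦ h.1
      have h4 : ∑ j : Idx (node l r), ‖vels Φ (node l r) v p j‖ ^ 2 =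
          ∑ j : Idx l, ‖vels Φ l (preV Φ v p.1).1 p.2.1 j‖ ^ 2 +
          ∑ j : Idx r, ‖vels Φ r (preV Φ v p.1).2 p.2.2 j‖ ^ 2 :=
        Fintype.sum_sum_type (fun j : Idx l ⊕ Idx r => ‖vels Φ (node l r) v p j‖ ^ 2)
      rw [h4, h1, h2]
      show _ = ‖v‖ ^ 2 + (‖p.1.2.1‖ ^ 2 + (wSq l p.2.1 + wSq r p.2.2))
      linarith

theorem wt_le_aux (hΦ : AdmissiblePotential Φ) : ∀ (P : CTree) (v : Space3) (p : Par P) (E : ℝ),
    Adm Φ P v p → ‖v‖ ^ 2 + wSq P p ≤ E →
      wt Φ P v p ≤ ENNReal.ofReal (1 + E) ^ P.size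
  | leaf, v, p, E, _, _ => by
      show (1 : ℝ≥0∞) ≤ ENNReal.ofReal (1 + E) ^ 0
      simp
  | node l r, v, p, E, h, hE => by
      have hE' : ‖v‖ ^ 2 + (‖p.1.2.1‖ ^ 2 + (wSq l p.2.1 + wSq r p.2.2)) ≤ E := hE
      have h3 := preV_energy hΦ h.1
      have hl := wSq_nonneg l p.2.1
      have hr := wSq_nonneg r p.2.2
      have n1 : 0 ≤ ‖(preV Φ v p.1).1‖ ^ 2 := by positivity
      have n2 : 0 ≤ ‖(preV Φ v p.1).2‖ ^ 2 := by positivity
      have h1 := wt_le_aux hΦ l _ p.2.1 E h.2.1 (by linarith)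
      have h2 := wt_le_aux hΦ r _ p.2.2 E h.2.2 (by linarith)
      have h4 : ‖v - p.1.2.1‖ ≤ 1 + E := by
        have e1 := norm_sub_le v p.1.2.1
        have e2 : ‖v‖ ≤ (1 + ‖v‖ ^ 2) / 2 := by nlinarith [sq_nonneg (‖v‖ - 1)]
        have e3 : ‖p.1.2.1‖ ≤ (1 + ‖p.1.2.1‖ ^ 2) / 2 := by nlinarith [sq_nonneg (‖p.1.2.1‖ - 1)]
        nlinarith [norm_nonneg v, norm_nonneg p.1.2.1]
      show ENNReal.ofReal ‖v - p.1.2.1‖ *
        (wt Φ l (preV Φ v p.1).1 p.2.1 * wt Φ r (preV Φ v p.1).2 p.2.2) ≤ _
      calc _ ≤ ENNReal.ofReal (1 + E) * (ENNReal.ofReal (1 + E) ^ l.size *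
            ENNReal.ofReal (1 + E) ^ r.size) :=
            mul_le_mul' (ENNReal.ofReal_le_ofReal h4) (mul_le_mul' h1 h2)
        _ = ENNReal.ofReal (1 + E) ^ (node l r).size := by
            show _ = ENNReal.ofReal (1 + E) ^ (l.size + r.size + 1)
            ring

theorem wt_le (hΦ : AdmissiblePotential Φ) {P : CTree} {v : Space3} {p : Par P}
    (h : Adm Φ P v p) : wt Φ P v p ≤ ENNReal.ofReal (1 + (‖v‖ ^ 2 + wSq P p)) ^ P.size :=
  wt_le_aux hΦ P v p _ h le_rfl

/-- constant in `wt_mul_exp_le` -/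
def cW (a : ℝ) (n : ℕ) : ℝ≥0∞ :=
  ENNReal.ofReal ((n.factorial : ℝ) * (2 / a) ^ n * Real.exp (a / 2))

theorem cW_lt_top (a : ℝ) (n : ℕ) : cW a n < ∞ := ENNReal.ofReal_lt_top

theorem pow_mul_exp_le {a : ℝ} (ha : 0 < a) (n : ℕ) {E : ℝ} (hE : 0 ≤ E) :
    (1 + E) ^ n * Real.exp (-a * E) ≤
      (n.factorial : ℝ) * (2 / a) ^ n * Real.exp (a / 2) * Real.exp (-(a / 2) * E) := by
  have h1 : ((a / 2) * (1 + E)) ^ n / (n.factorial : ℝ) ≤ Real.exp ((a / 2) * (1 + E)) :=
    Real.pow_div_factorial_le_exp _ (by positivity) n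
  have hf : (0 : ℝ) < n.factorial := by positivity
  have h2 : ((a / 2) * (1 + E)) ^ n ≤ n.factorial * Real.exp ((a / 2) * (1 + E)) := by
    rw [div_le_iff₀ hf] at h1
    linarith
  have h3 : (1 + E) ^ n = (2 / a) ^ n * ((a / 2) * (1 + E)) ^ n := by
    rw [← mul_pow]
    congr 1
    field_simp
  rw [h3]
  have h4 : Real.exp ((a / 2) * (1 + E)) * Real.exp (-a * E) =
      Real.exp (a / 2) * Real.exp (-(a / 2) * E) := by
    rw [← Real.exp_add, ← Real.exp_add]
    congr 1
    ring
  calc (2 / a) ^ n * (a / 2 * (1 + E)) ^ n * Real.exp (-a * E)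
      ≤ (2 / a) ^ n * (n.factorial * Real.exp ((a / 2) * (1 + E))) * Real.exp (-a * E) := by
        gcongr
    _ = (n.factorial : ℝ) * (2 / a) ^ n *
        (Real.exp ((a / 2) * (1 + E)) * Real.exp (-a * E)) := by ring
    _ = _ := by rw [h4]; ring

theorem wt_mul_exp_le (hΦ : AdmissiblePotential Φ) {a : ℝ} (ha : 0 < a) {P : CTree} {v : Space3}
    {p : Par P} (h : Adm Φ P v p) :
    wt Φ P v p * ENNReal.ofReal (Real.exp (-a * (‖v‖ ^ 2 + wSq P p))) ≤
      cW a P.size * ENNReal.ofReal (Real.exp (-(a / 2) * (‖v‖ ^ 2 + wSq P p))) := by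
  have hE : 0 ≤ ‖v‖ ^ 2 + wSq P p := by
    have := wSq_nonneg P p
    positivity
  calc _ ≤ ENNReal.ofReal (1 + (‖v‖ ^ 2 + wSq P p)) ^ P.size *
        ENNReal.ofReal (Real.exp (-a * (‖v‖ ^ 2 + wSq P p))) :=
        mul_le_mul' (wt_le hΦ h) le_rfl
    _ = ENNReal.ofReal ((1 + (‖v‖ ^ 2 + wSq P p)) ^ P.size *
        Real.exp (-a * (‖v‖ ^ 2 + wSq P p))) := by
        rw [ENNReal.ofReal_mul (by positivity), ENNReal.ofReal_pow (by positivity)]
    _ ≤ ENNReal.ofReal ((P.size.factorial : ℝ) * (2 / a) ^ P.size * Real.exp (a / 2) *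
        Real.exp (-(a / 2) * (‖v‖ ^ 2 + wSq P p))) :=
        ENNReal.ofReal_le_ofReal (pow_mul_exp_le ha _ hE)
    _ = _ := by
        unfold cW
        rw [ENNReal.ofReal_mul (by positivity)]

/-! ### The box of node parameters -/

/-- all node times in `(0, T)`, all impact parameters in the unit disc -/
def Box (T : ℝ) : ∀ P : CTree, Par P → Prop
  | leaf => fun _ => True
  | node l r => fun p => (p.1.1 ∈ Ioo 0 T ∧ ‖p.1.2.2‖ < 1) ∧ Box T l p.2.1 ∧ Box T r p.2.2

theorem Box.mono {T T' : ℝ} (hT : T ≤ T') : ∀ {P : CTree} {p : Par P}, Box T P p → Box T' P p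
  | leaf, _, _ => trivial
  | node _ _, _, h => ⟨⟨⟨h.1.1.1, h.1.1.2.trans_le hT⟩, h.1.2⟩, Box.mono hT h.2.1, Box.mono hT h.2.2⟩

theorem Valid.box {ε : ℝ} (hε : 0 ≤ ε) : ∀ {P : CTree} {T : ℝ} {v : Space3} {p : Par P},
    Valid Φ ε P T v p → Box T P p
  | leaf, _, _, _, _ => trivial
  | node l r, T, v, p, h => by
      rw [valid_node_iff] at h
      obtain ⟨⟨h1, h2, h3⟩, h4, h5⟩ := h
      have h6 : Tree674.sin Φ ε v p.1 ≤ p.1.1 := TreeEps399.sin_le hε v p.1
      refine ⟨⟨⟨h3.trans_le h6, h2⟩, h1.1⟩, ?_, ?_⟩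
      · exact (Valid.box hε h4).mono (h6.trans h2.le)
      · exact (Valid.box hε h5).mono (h6.trans h2.le)

theorem measurableSet_box (T : ℝ) : ∀ P : CTree, MeasurableSet {p : Par P | Box T P p}
  | leaf => by
      have : {p : Par leaf | Box T leaf p} = univ := eq_univ_of_forall fun _ => trivial
      rw [this]
      exact MeasurableSet.univ
  | node l r => by
      have h1 : MeasurableSet {p : Par (node l r) | p.1.1 ∈ Ioo 0 T} :=
        (measurable_fst.comp (measurable_par1 l r)) measurableSet_Ioo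
      have h2 : MeasurableSet {p : Par (node l r) | ‖p.1.2.2‖ < 1} :=
        measurableSet_lt (measurable_snd.comp (measurable_snd.comp (measurable_par1 l r))).norm
          measurable_const
      have h3 : MeasurableSet {p : Par (node l r) | Box T l p.2.1} :=
        (measurable_parL l r) (measurableSet_box T l)
      have h4 : MeasurableSet {p : Par (node l r) | Box T r p.2.2} :=
        (measurable_parR l r) (measurableSet_box T r)
      exact (h1.inter h2).inter (h3.inter h4)

/-- integral over one node -/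
def kN (T a : ℝ) : ℝ≥0∞ :=
  ∫⁻ x : NodeP, {x : NodeP | x.1 ∈ Ioo 0 T ∧ ‖x.2.2‖ < 1}.indicator (fun x => gau a x.2.1) x

theorem kN_eq (T a : ℝ) : kN T a = ENNReal.ofReal T * (ENNReal.ofReal Real.pi * ∫⁻ w, gau a w) := by
  have hs : MeasurableSet {x : NodeP | x.1 ∈ Ioo 0 T ∧ ‖x.2.2‖ < 1} :=
    (measurable_fst measurableSet_Ioo).inter
      (measurableSet_lt (measurable_snd.comp measurable_snd).norm measurable_const)
  have hm : Measurable ({x : NodeP | x.1 ∈ Ioo 0 T ∧ ‖x.2.2‖ < 1}.indicator
      (fun x : NodeP => gau a x.2.1)) :=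
    ((measurable_gau a).comp (measurable_fst.comp measurable_snd)).indicator hs
  unfold kN
  rw [Measure.volume_eq_prod, lintegral_prod _ hm.aemeasurable]
  have h1 : ∀ s : ℝ, ∫⁻ x : Space3 × Plane,
      {x : NodeP | x.1 ∈ Ioo 0 T ∧ ‖x.2.2‖ < 1}.indicator (fun x : NodeP => gau a x.2.1) (s, x) =
      (Ioo 0 T).indicator (fun _ => ENNReal.ofReal Real.pi * ∫⁻ w, gau a w) s := by
    intro s
    by_cases hs : s ∈ Ioo 0 T
    · rw [indicator_of_mem hs]
      have h2 : ∀ x : Space3 × Plane,
          {x : NodeP | x.1 ∈ Ioo 0 T ∧ ‖x.2.2‖ < 1}.indicator (fun x : NodeP => gau a x.2.1) (s, x) =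
          gau a x.1 * (Metric.ball (0 : Plane) 1).indicator 1 x.2 := by
        intro x
        by_cases hx : ‖x.2‖ < 1
        · rw [indicator_of_mem (show (s, x) ∈ {x : NodeP | x.1 ∈ Ioo 0 T ∧ ‖x.2.2‖ < 1} from
            ⟨hs, hx⟩), indicator_of_mem (show x.2 ∈ Metric.ball (0 : Plane) 1 by simpa using hx)]
          simp
        · rw [indicator_of_notMem (show (s, x) ∉ {x : NodeP | x.1 ∈ Ioo 0 T ∧ ‖x.2.2‖ < 1} from
            fun h => hx h.2), indicator_of_notMem
            (show x.2 ∉ Metric.ball (0 : Plane) 1 by simpa using hx)]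
          simp
      simp only [h2]
      rw [Measure.volume_eq_prod, lintegral_prod_mul (measurable_gau a).aemeasurable
        (measurable_one.indicator measurableSet_ball).aemeasurable,
        lintegral_indicator_one measurableSet_ball, volume_unitDisc, mul_comm]
    · rw [indicator_of_notMem hs]
      rw [← lintegral_zero]
      refine lintegral_congr fun x => ?_
      exact indicator_of_notMem (fun h => hs h.1) _
  simp only [h1]
  rw [lintegral_indicator measurableSet_Ioo, lintegral_const, Measure.restrict_apply_univ,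
    Real.volume_Ioo, sub_zero, mul_comm]

theorem kN_lt_top (T : ℝ) {a : ℝ} (ha : 0 < a) : kN T a < ∞ := by
  rw [kN_eq]
  exact ENNReal.mul_lt_top ENNReal.ofReal_lt_top
    (ENNReal.mul_lt_top ENNReal.ofReal_lt_top (lintegral_gau_lt_top ha))

theorem exp_add_mul (a x y : ℝ) : ENNReal.ofReal (Real.exp (-a * (x + y))) =
    ENNReal.ofReal (Real.exp (-a * x)) * ENNReal.ofReal (Real.exp (-a * y)) := by
  rw [← ENNReal.ofReal_mul (Real.exp_pos _).le, ← Real.exp_add]
  congr 2
  ring

/-- **Integral over the box.** -/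
theorem lintegral_box (T a : ℝ) : ∀ P : CTree,
    ∫⁻ p : Par P, {p : Par P | Box T P p}.indicator
      (fun p => ENNReal.ofReal (Real.exp (-a * wSq P p))) p = kN T a ^ P.size
  | leaf => by
      rw [lintegral_par_leaf]
      have h1 : (({p : Par leaf | Box T leaf p}.indicator
        (fun p => ENNReal.ofReal (Real.exp (-a * wSq leaf p)))) : Par leaf → ℝ≥0∞) =
          fun _ => 1 := by
        funext p
        rw [indicator_of_mem (show p ∈ {p : Par leaf | Box T leaf p} from trivial)]
        show ENNReal.ofReal (Real.exp (-a * 0)) = 1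
        simp
      rw [h1]
      exact (pow_zero _).symm
  | node l r => by
      have hl := lintegral_box T a l
      have hr := lintegral_box T a r
      have ml : Measurable ({p : Par l | Box T l p}.indicator
          (fun p => ENNReal.ofReal (Real.exp (-a * wSq l p)))) :=
        (((measurable_wSq l).const_mul (-a)).exp.ennreal_ofReal).indicator (measurableSet_box T l)
      have mr : Measurable ({p : Par r | Box T r p}.indicator
          (fun p => ENNReal.ofReal (Real.exp (-a * wSq r p)))) :=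
        (((measurable_wSq r).const_mul (-a)).exp.ennreal_ofReal).indicator (measurableSet_box T r)
      have mn : Measurable ({p : Par (node l r) | Box T (node l r) p}.indicator
          (fun p => ENNReal.ofReal (Real.exp (-a * wSq (node l r) p)))) :=
        (((measurable_wSq (node l r)).const_mul (-a)).exp.ennreal_ofReal).indicator
          (measurableSet_box T (node l r))
      rw [lintegral_par_node l r mn]
      have h1 : ∀ (x : NodeP) (y : Par l × Par r),
          {p : Par (node l r) | Box T (node l r) p}.indicator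
            (fun p => ENNReal.ofReal (Real.exp (-a * wSq (node l r) p))) ((x, y) : Par (node l r)) =
          {x : NodeP | x.1 ∈ Ioo 0 T ∧ ‖x.2.2‖ < 1}.indicator (fun x => gau a x.2.1) x *
            ({p : Par l | Box T l p}.indicator
              (fun p => ENNReal.ofReal (Real.exp (-a * wSq l p))) y.1 *
            {p : Par r | Box T r p}.indicator
              (fun p => ENNReal.ofReal (Real.exp (-a * wSq r p))) y.2) := by
        intro x y
        by_cases hx : x ∈ {x : NodeP | x.1 ∈ Ioo 0 T ∧ ‖x.2.2‖ < 1}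
        · by_cases hy1 : y.1 ∈ {p : Par l | Box T l p}
          · by_cases hy2 : y.2 ∈ {p : Par r | Box T r p}
            · rw [indicator_of_mem hx, indicator_of_mem hy1, indicator_of_mem hy2]
              have h5 : ((x, y) : Par (node l r)) ∈
                  {p : Par (node l r) | Box T (node l r) p} := ⟨hx, hy1, hy2⟩
              refine (indicator_of_mem h5 _).trans ?_
              show ENNReal.ofReal (Real.exp (-a * (‖x.2.1‖ ^ 2 + (wSq l y.1 + wSq r y.2)))) = _
              rw [exp_add_mul, exp_add_mul]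
              rfl
            · rw [indicator_of_notMem hy2, mul_zero, mul_zero]
              exact indicator_of_notMem (fun h => hy2 h.2.2) _
          · rw [indicator_of_notMem hy1, zero_mul, mul_zero]
            exact indicator_of_notMem (fun h => hy1 h.2.1) _
        · rw [indicator_of_notMem hx, zero_mul]
          exact indicator_of_notMem (fun h => hx h.1) _
      simp only [h1]
      have hs : MeasurableSet {x : NodeP | x.1 ∈ Ioo 0 T ∧ ‖x.2.2‖ < 1} :=
        (measurable_fst measurableSet_Ioo).inter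
          (measurableSet_lt (measurable_snd.comp measurable_snd).norm measurable_const)
      have mN : Measurable ({x : NodeP | x.1 ∈ Ioo 0 T ∧ ‖x.2.2‖ < 1}.indicator
          (fun x : NodeP => gau a x.2.1)) :=
        ((measurable_gau a).comp (measurable_fst.comp measurable_snd)).indicator hs
      have hN : ∫⁻ x : NodeP, {x : NodeP | x.1 ∈ Ioo 0 T ∧ ‖x.2.2‖ < 1}.indicator
          (fun x : NodeP => gau a x.2.1) x = kN T a := rfl
      generalize ({x : NodeP | x.1 ∈ Ioo 0 T ∧ ‖x.2.2‖ < 1}.indicator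
          (fun x : NodeP => gau a x.2.1)) = Nf at mN hN ⊢
      generalize ({p : Par l | Box T l p}.indicator
          (fun p => ENNReal.ofReal (Real.exp (-a * wSq l p)))) = Lf at ml hl ⊢
      generalize ({p : Par r | Box T r p}.indicator
          (fun p => ENNReal.ofReal (Real.exp (-a * wSq r p)))) = Rf at mr hr ⊢
      have h3 : ∫⁻ y : Par l × Par r, Lf y.1 * Rf y.2 = kN T a ^ l.size * kN T a ^ r.size := by
        have h4 := lintegral_prod_mul (μ := (volume : Measure (Par l)))
          (ν := (volume : Measure (Par r))) ml.aemeasurable mr.aemeasurable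
        rw [hl, hr] at h4
        exact h4
      have h2 : ∀ x : NodeP, ∫⁻ y : Par l × Par r, Nf x * (Lf y.1 * Rf y.2) =
          Nf x * (kN T a ^ l.size * kN T a ^ r.size) := by
        intro x
        have h5 : Measurable fun y : Par l × Par r => Lf y.1 * Rf y.2 :=
          (ml.comp measurable_fst).mul (mr.comp measurable_snd)
        rw [lintegral_const_mul _ h5, h3]
      simp only [h2]
      rw [lintegral_mul_const _ mN, hN]
      show kN T a * (kN T a ^ l.size * kN T a ^ r.size) = kN T a ^ (l.size + r.size + 1)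
      ring

/-- constant in `lintegral_wt_le` -/
def cI (T a : ℝ) (n : ℕ) : ℝ≥0∞ := cW a n * kN T (a / 2) ^ n

theorem cI_lt_top (T : ℝ) {a : ℝ} (ha : 0 < a) (n : ℕ) : cI T a n < ∞ :=
  ENNReal.mul_lt_top (cW_lt_top a n) (ENNReal.pow_lt_top (kN_lt_top T (by positivity)))

/-- **Domination**: the integral of weight times Gaussian over all admissible parameters in the box. -/
theorem lintegral_wt_le (hΦ : AdmissiblePotential Φ) {a : ℝ} (ha : 0 < a) (T : ℝ) (P : CTree)
    (v : Space3) :
    ∫⁻ p : Par P, {p : Par P | Box T P p ∧ Adm Φ P v p}.indicator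
      (fun p => wt Φ P v p * ENNReal.ofReal (Real.exp (-a * (‖v‖ ^ 2 + wSq P p)))) p ≤
      cI T a P.size * gau (a / 2) v := by
  calc _ ≤ ∫⁻ p : Par P, cW a P.size * gau (a / 2) v * {p : Par P | Box T P p}.indicator
        (fun p => ENNReal.ofReal (Real.exp (-(a / 2) * wSq P p))) p := by
        refine lintegral_mono fun p => ?_
        by_cases hp : p ∈ {p : Par P | Box T P p ∧ Adm Φ P v p}
        · rw [indicator_of_mem hp, indicator_of_mem (show p ∈ {p : Par P | Box T P p} from hp.1)]
          refine (wt_mul_exp_le hΦ ha hp.2).trans (le_of_eq ?_)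
          rw [exp_add_mul]
          show _ = cW a P.size * ENNReal.ofReal (Real.exp (-(a / 2) * ‖v‖ ^ 2)) * _
          ring
        · rw [indicator_of_notMem hp]
          exact zero_le
    _ = cW a P.size * gau (a / 2) v * kN T (a / 2) ^ P.size := by
        rw [lintegral_const_mul _ ((((measurable_wSq P).const_mul _).exp.ennreal_ofReal).indicator
          (measurableSet_box T P)), lintegral_box]
    _ = _ := by
        unfold cI
        ring

end Crest.Agent.R122.Tube818
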