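import Crest.Agent.R122.OneCDefs_285
import Crest.Agent.R122.QDensC_815
import Crest.Agent.R122.QExitB_814
import Crest.Agent.R122.GIVChild_383
import Crest.Agent.R122.LinkM7_547
import Crest.Agent.R122.Mom_974

/-!
# Long encounters (row 122, board H1, item (3L))

* `longI Φ R q` : indicator of the contact data `q = (v, u, b)` whose two-body passage is not short:
  microscopic duration `tauM > R` or relative displacement `tauM * |v - u| > R`.
* `kerL`, `tendsto_kerL` : its flux integral against Gaussians tends to `0` as `R → ∞`.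
* `exists_root_mass` : crude mass of a tree with a function of the root velocity, uniform in `ε ≥ 0`.
* `longS`, `measSF_longS`, `OS_longS_le`, `exists_longS` : the structure integral of long encounters is
  small for `R` large, uniformly in `ε`.
-/

set_option autoImplicit false
set_option linter.unusedSectionVars false

open MeasureTheory Set Filter
open scoped ENNReal Classical Topology
open Crest.AnalysisR.Kinetic
open Crest.Agent.R122.Kin796 Crest.Agent.R122.Kin796.CTree Crest.Agent.R122.Tree674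
open Crest.Agent.R122.Relabel674 Crest.Agent.R122.GC311 Crest.Agent.R122.Flow671
open Crest.Agent.R122.EDefs602 Crest.Agent.R122.OneC285 Crest.Agent.R122.OCout796
open Crest.Agent.R122.Disc416 Crest.Agent.R122.Scat818 Crest.Agent.R122.Kin416

noncomputable section

namespace Crest.Agent.R122.Long984

variable {Φ : Space3 → ℝ} {f₀ : PhasePoint → ℝ}

/-! ## The kernel -/

/-- Indicator of the encounters which are not short. -/
def longI (Φ : Space3 → ℝ) (R : ℝ) (q : CD) : ℝ≥0∞ :=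
  if tauM Φ (relB q) ≤ R ∧ tauM Φ (relB q) * ‖q.1 - q.2.1‖ ≤ R then 0 else 1

theorem longI_le_one (R : ℝ) (q : CD) : longI Φ R q ≤ 1 := by
  unfold longI
  split_ifs
  · exact zero_le_one
  · exact le_rfl

theorem longI_eq_zero {R : ℝ} {q : CD} : longI Φ R q = 0 ↔
    tauM Φ (relB q) ≤ R ∧ tauM Φ (relB q) * ‖q.1 - q.2.1‖ ≤ R := by
  unfold longI
  split_ifs with h
  · exact ⟨fun _ => h, fun _ => rfl⟩
  · exact ⟨fun h1 => absurd h1 one_ne_zero, fun h1 => absurd h1 h⟩

theorem longI_anti {R R' : ℝ} (h : R ≤ R') (q : CD) : longI Φ R' q ≤ longI Φ R q := by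
  by_cases hq : tauM Φ (relB q) ≤ R ∧ tauM Φ (relB q) * ‖q.1 - q.2.1‖ ≤ R
  · have h1 : longI Φ R' q = 0 := longI_eq_zero.2 ⟨hq.1.trans h, hq.2.trans h⟩
    rw [h1]
    exact zero_le
  · have h1 : longI Φ R q = 1 := by unfold longI; rw [if_neg hq]
    rw [h1]
    exact longI_le_one R' q

theorem measurable_longI (hΦ : AdmissiblePotential Φ) (R : ℝ) : Measurable (longI Φ R) := by
  have h1 : Measurable fun q : CD => tauM Φ (relB q) := (measurable_tauM hΦ).comp measurable_relB
  have h2 : Measurable fun q : CD => ‖q.1 - q.2.1‖ := by fun_prop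
  exact Measurable.ite ((measurableSet_le h1 measurable_const).inter
    (measurableSet_le (h1.mul h2) measurable_const)) measurable_const measurable_const

/-- Flux integral of the long encounters against Gaussians. -/
def kerL (Φ : Space3 → ℝ) (a g R : ℝ) : ℝ≥0∞ :=
  ∫⁻ u : Space3, wG a u * ∫⁻ v : Space3, wG g v * (ENNReal.ofReal ‖v - u‖ *
    ∫⁻ b in impactDisc (v - u), longI Φ R (v, u, b) ∂μHE[2])

theorem measurable_wGs (a : ℝ) : Measurable fun v : Space3 => wG a v := by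
  have h : (fun v : Space3 => wG a v) = gau a := by
    funext v
    exact QExit814.wG_eq_gau a v
  rw [h]
  exact measurable_gau a

/-- The kernel in planar coordinates. -/
theorem kerL_eq (hΦ : AdmissiblePotential Φ) (a g R : ℝ) :
    kerL Φ a g R = ∫⁻ q, ENNReal.ofReal ‖q.2.1 - q.1‖ *
      ((wG a q.1 * wG g q.2.1) * longI Φ R (toCD q)) ∂muQ := by
  have hH : Measurable fun q : CD => (wG a q.2.1 * wG g q.1) * longI Φ R q := by
    refine Measurable.mul ?_ (measurable_longI hΦ R)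
    exact ((measurable_wGs a).comp (measurable_fst.comp measurable_snd)).mul
      ((measurable_wGs g).comp measurable_fst)
  have h1 := lintegral_muQ hH
  refine Eq.trans ?_ h1
  unfold kerL
  refine lintegral_congr fun u => ?_
  have hwa : wG a u ≠ ∞ := ENNReal.ofReal_ne_top
  rw [← lintegral_const_mul' _ _ hwa]
  refine lintegral_congr fun v => ?_
  have hc : wG a u * wG g v ≠ ∞ := ENNReal.mul_ne_top hwa ENNReal.ofReal_ne_top
  simp only
  rw [lintegral_const_mul' _ _ hc]
  ring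

/-- The bound `(1 + |v|) (1 + |u|)` of the relative speed. -/
theorem norm_sub_le_mul (u v : Space3) : ENNReal.ofReal ‖v - u‖ ≤
    ENNReal.ofReal (1 + ‖v‖) * ENNReal.ofReal (1 + ‖u‖) := by
  rw [← ENNReal.ofReal_mul (by positivity)]
  refine ENNReal.ofReal_le_ofReal ?_
  have h := norm_sub_le v u
  nlinarith [norm_nonneg v, norm_nonneg u, mul_nonneg (norm_nonneg v) (norm_nonneg u)]

theorem lintegral_dom_ne_top {a g : ℝ} (ha : 0 < a) (hg : 0 < g) :
    ∫⁻ q, ENNReal.ofReal ‖q.2.1 - q.1‖ * (wG a q.1 * wG g q.2.1) ∂muQ ≠ ∞ := by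
  have hca := QExit814.cA_ne_top (a / 2)
  have hcg := QExit814.cA_ne_top (g / 2)
  have hm0 : Measurable fun q : Space3 × (Space3 × Plane) =>
      (QExit814.cA (a / 2) * wG (a / 2) q.1) * (QExit814.cA (g / 2) * wG (g / 2) q.2.1) :=
    (((measurable_wGs _).comp measurable_fst).const_mul _).mul
      (((measurable_wGs _).comp (measurable_fst.comp measurable_snd)).const_mul _)
  have h1 : ∀ q : Space3 × (Space3 × Plane), ENNReal.ofReal ‖q.2.1 - q.1‖ *
      (wG a q.1 * wG g q.2.1) ≤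
      (QExit814.cA (a / 2) * wG (a / 2) q.1) * (QExit814.cA (g / 2) * wG (g / 2) q.2.1) := by
    intro q
    have e1 := QExit814.one_add_wG_le (δ := a / 2) (by positivity) a q.1
    have e2 := QExit814.one_add_wG_le (δ := g / 2) (by positivity) g q.2.1
    rw [show a - a / 2 = a / 2 by ring] at e1
    rw [show g - g / 2 = g / 2 by ring] at e2
    calc ENNReal.ofReal ‖q.2.1 - q.1‖ * (wG a q.1 * wG g q.2.1)
        ≤ (ENNReal.ofReal (1 + ‖q.2.1‖) * ENNReal.ofReal (1 + ‖q.1‖)) *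
          (wG a q.1 * wG g q.2.1) := by
          gcongr
          exact norm_sub_le_mul q.1 q.2.1
      _ = (ENNReal.ofReal (1 + ‖q.1‖) * wG a q.1) * (ENNReal.ofReal (1 + ‖q.2.1‖) *
          wG g q.2.1) := by ring
      _ ≤ _ := mul_le_mul' e1 e2
  refine ne_top_of_le_ne_top ?_ (lintegral_mono h1)
  rw [lintegral_muQ' hm0]
  have e1 : ∀ u : Space3, ∫⁻ v : Space3, ∫⁻ _ in Metric.ball (0 : Plane) 1,
      (QExit814.cA (a / 2) * wG (a / 2) u) * (QExit814.cA (g / 2) * wG (g / 2) v) =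
      (QExit814.cA (a / 2) * wG (a / 2) u) *
        ((QExit814.cA (g / 2) * ∫⁻ v : Space3, wG (g / 2) v) *
          volume (Metric.ball (0 : Plane) 1)) := by
    intro u
    have hc : QExit814.cA (a / 2) * wG (a / 2) u ≠ ∞ :=
      ENNReal.mul_ne_top hca ENNReal.ofReal_ne_top
    simp only [lintegral_const, MeasurableSet.univ, Measure.restrict_apply, univ_inter]
    rw [← lintegral_const_mul' _ _ hcg, ← lintegral_mul_const' _ _
      (measure_ball_lt_top (x := (0 : Plane)) (r := 1)).ne, ← lintegral_const_mul' _ _ hc]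
    refine lintegral_congr fun v => ?_
    ring
  simp only [e1]
  have hfin : (QExit814.cA (g / 2) * ∫⁻ v : Space3, wG (g / 2) v) *
      volume (Metric.ball (0 : Plane) 1) ≠ ∞ :=
    ENNReal.mul_ne_top (ENNReal.mul_ne_top hcg (QExit814.lintegral_wG_lt_top (by positivity)).ne)
      (measure_ball_lt_top (x := (0 : Plane)) (r := 1)).ne
  rw [lintegral_mul_const' _ _ hfin, lintegral_const_mul' _ _ hca]
  exact ENNReal.mul_ne_top (ENNReal.mul_ne_top hca
    (QExit814.lintegral_wG_lt_top (by positivity)).ne) hfin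

/-- **The flux of long encounters tends to `0`.** -/
theorem tendsto_kerL (hΦ : AdmissiblePotential Φ) {a g : ℝ} (ha : 0 < a) (hg : 0 < g) :
    Tendsto (kerL Φ a g) atTop (𝓝 0) := by
  have h0 : (0 : ℝ≥0∞) = ∫⁻ _ : Space3 × (Space3 × Plane), (0 : ℝ≥0∞) ∂muQ := by simp
  have hfun : kerL Φ a g = fun R => ∫⁻ q, ENNReal.ofReal ‖q.2.1 - q.1‖ *
      ((wG a q.1 * wG g q.2.1) * longI Φ R (toCD q)) ∂muQ := funext fun R => kerL_eq hΦ a g R
  rw [hfun, h0]
  refine tendsto_lintegral_filter_of_dominated_convergence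
    (fun q : Space3 × (Space3 × Plane) => ENNReal.ofReal ‖q.2.1 - q.1‖ *
      (wG a q.1 * wG g q.2.1)) ?_ ?_ (lintegral_dom_ne_top ha hg) ?_
  · refine Eventually.of_forall fun R => ?_
    refine measurable_rateQ.mul (Measurable.mul ?_ ((measurable_longI hΦ R).comp measurable_toCD))
    exact ((measurable_wGs a).comp measurable_fst).mul
      ((measurable_wGs g).comp (measurable_fst.comp measurable_snd))
  · refine Eventually.of_forall fun R => Eventually.of_forall fun q => ?_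
    refine mul_le_mul' le_rfl ?_
    exact mul_le_of_le_one_right' (longI_le_one R _)
  · refine Eventually.of_forall fun q => ?_
    refine tendsto_const_nhds.congr' ?_
    filter_upwards [eventually_ge_atTop (max (tauM Φ (relB (toCD q)))
      (tauM Φ (relB (toCD q)) * ‖(toCD q).1 - (toCD q).2.1‖))] with R hR
    rw [longI_eq_zero.2 ⟨(le_max_left _ _).trans hR, (le_max_right _ _).trans hR⟩, mul_zero,
      mul_zero]

/-! ## Crude mass of a tree, with a function of the root velocity -/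

theorem exists_root_mass (hΦ : AdmissiblePotential Φ) (hf : Measurable f₀) {γ : ℝ} (hγ : 0 < γ)
    (H : HasSummableGaussianBound γ (fun x v => f₀ (x, v))) (P : CTree) (T : ℝ) :
    ∃ M : ℝ≥0∞, M ≠ ∞ ∧ ∀ ε t : ℝ, 0 ≤ ε → t ≤ T → ∀ h : Space3 → ℝ≥0∞, Measurable h →
      ∫⁻ z : PhasePoint × Par P, {z : PhasePoint × Par P | Valid Φ ε P t z.1.2 z.2}.indicator
        (fun z => wt Φ P z.1.2 z.2 * (ToTree335.pf Φ f₀ ε P z * h z.1.2)) z ≤
        M * ∫⁻ u : Space3, wG (γ / 2) u * h u := by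
  obtain ⟨env, A, hE⟩ := QDens815.exists_env H
  set C : ℝ≥0∞ := ENNReal.ofReal 1 * ENNReal.ofReal (Real.exp ((P.size : ℝ) ^ 2 /
      (2 * ((γ - 0) / 4)))) * ((∫⁻ x, env x) * A ^ P.size) with hC
  have hCt : C ≠ ∞ := ENNReal.mul_ne_top (ENNReal.mul_ne_top ENNReal.ofReal_ne_top
    ENNReal.ofReal_ne_top) (ENNReal.mul_ne_top hE.int_ne (ENNReal.pow_ne_top hE.A_ne))
  have hδ : 0 < (γ - 0) / 2 := by linarith
  refine ⟨C * ∫⁻ p : Par P, QDens815.bx T ((γ - 0) / 2) P p,
    ENNReal.mul_ne_top hCt (QDens815.lintegral_bx_lt_top T hδ P).ne, ?_⟩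
  intro ε t hε ht h hh
  have hφ : Measurable fun _ : ℝ × PhasePoint × Par P => (1 : ℝ≥0∞) := measurable_const
  have hg := QDens815.measurable_gw (P := P) hΦ hf hφ ε
  have hF : Measurable fun q : (ℝ × PhasePoint) × Par P =>
      QDens815.gw Φ f₀ P (fun _ => 1) ε q.1.1 q.1.2 q.2 * h q.1.2.2 :=
    hg.mul (hh.comp (measurable_fst.snd.snd))
  have h1 := QDens815.tonelli (P := P) (κ := Measure.dirac t) hF
  have hg1 : Measurable fun y : ℝ × PhasePoint =>
      ∫⁻ p, QDens815.gw Φ f₀ P (fun _ => 1) ε y.1 y.2 p * h y.2.2 := hF.lintegral_prod_right'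
  have hX : Measurable fun z : (ℝ × (Space3 × Par P)) × Space3 =>
      QDens815.gw Φ f₀ P (fun _ => 1) ε z.1.1 (z.2, z.1.2.1) z.1.2.2 * h z.1.2.1 :=
    hF.comp (f := fun z : (ℝ × (Space3 × Par P)) × Space3 =>
      (((z.1.1, (z.2, z.1.2.1)), z.1.2.2) : (ℝ × PhasePoint) × Par P))
      ((measurable_fst.fst.prodMk (measurable_snd.prodMk measurable_fst.snd.fst)).prodMk
      measurable_fst.snd.snd)
  have hg2 : Measurable fun q : ℝ × (Space3 × Par P) =>
      ∫⁻ X : Space3, QDens815.gw Φ f₀ P (fun _ => 1) ε q.1 (X, q.2.1) q.2.2 * h q.2.1 :=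
    hX.lintegral_prod_right'
  simp only at h1
  rw [lintegral_prod _ hg1.aemeasurable, lintegral_dirac' _ hg1.lintegral_prod_right',
    lintegral_prod _ hg2.aemeasurable, lintegral_dirac' _ hg2.lintegral_prod_right'] at h1
  have hz : Measurable fun z : PhasePoint × Par P =>
      QDens815.gw Φ f₀ P (fun _ => 1) ε t z.1 z.2 * h z.1.2 :=
    hF.comp ((measurable_const.prodMk measurable_fst).prodMk measurable_snd)
  have h2 : ∫⁻ z : PhasePoint × Par P, {z : PhasePoint × Par P | Valid Φ ε P t z.1.2 z.2}.indicator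
        (fun z => wt Φ P z.1.2 z.2 * (ToTree335.pf Φ f₀ ε P z * h z.1.2)) z =
      ∫⁻ ℓ : PhasePoint, ∫⁻ p, QDens815.gw Φ f₀ P (fun _ => 1) ε t ℓ p * h ℓ.2 := by
    rw [Measure.volume_eq_prod, ← lintegral_prod _ hz.aemeasurable]
    refine lintegral_congr fun z => ?_
    by_cases hv : Valid Φ ε P t z.1.2 z.2
    · rw [QDens815.gw_of_valid hv, indicator_of_mem
        (show z ∈ {z : PhasePoint × Par P | Valid Φ ε P t z.1.2 z.2} from hv), mul_one,
        ← mul_assoc]
      rfl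
    · rw [QDens815.gw_of_not_valid hv, indicator_of_notMem
        (show z ∉ {z : PhasePoint × Par P | Valid Φ ε P t z.1.2 z.2} from hv), zero_mul]
  rw [h2, h1]
  have h3 : ∀ y : Space3 × Par P,
      ∫⁻ X : Space3, QDens815.gw Φ f₀ P (fun _ => 1) ε t (X, y.1) y.2 * h y.1 ≤
      (C * (wG (γ / 2) y.1 * h y.1)) * QDens815.bx T ((γ - 0) / 2) P y.2 := by
    intro y
    have hgX : Measurable fun X : Space3 => QDens815.gw Φ f₀ P (fun _ => 1) ε t (X, y.1) y.2 :=
      hg.comp ((measurable_const.prodMk (measurable_id.prodMk measurable_const)).prodMk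
        measurable_const)
    rw [lintegral_mul_const _ hgX]
    have h4 := QDens815.lintegral_gw_le (P := P) (φ := fun _ => 1) hΦ hE (a := 0) (Cφ := 1)
      (T₀ := T) hγ hf (fun s ℓ p _ _ => by simp) hε ht y.1 y.2
    have h5 : gau ((γ - 0) / 2) y.1 = wG (γ / 2) y.1 := by
      rw [QExit814.wG_eq_gau, sub_zero]
    rw [h5] at h4
    calc _ ≤ (C * (wG (γ / 2) y.1 * QDens815.bx T ((γ - 0) / 2) P y.2)) * h y.1 := by gcongr
      _ = _ := by ring
  refine (lintegral_mono h3).trans (le_of_eq ?_)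
  have hm1 : Measurable fun v : Space3 => C * (wG (γ / 2) v * h v) :=
    ((measurable_wGs _).mul hh).const_mul _
  rw [Measure.volume_eq_prod, lintegral_prod_mul hm1.aemeasurable
    (QDens815.measurable_bx T _ P).aemeasurable, lintegral_const_mul' _ _ hCt]
  ring

/-! ## Contact coordinates of `lineAt` -/

theorem relL_lineAt (ε s : ℝ) (ℓ : PhasePoint) (τ : ℝ) (v b : Space3) (n : ℕ) :
    OneC423.relL ℓ (OneC423.lineAt ε s ℓ τ v b n).1 =
      (ε • entrancePoint b (v - ℓ.2) - s • (v - ℓ.2), v - ℓ.2) := by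
  unfold OneC423.relL OneC423.lineAt back
  refine Prod.ext ?_ rfl
  simp only [sub_smul, smul_sub]
  abel

/-- The impact parameter of `lineAt`. -/
theorem entB_lineAt {ε : ℝ} (hε : 0 < ε) (s : ℝ) (ℓ : PhasePoint) (τ : ℝ) {v : Space3}
    (hv : v ≠ ℓ.2) {b : Space3} (hb : b ∈ impactDisc (v - ℓ.2)) (n : ℕ) :
    OC663.entB ε (OneC423.relL ℓ (OneC423.lineAt ε s ℓ τ v b n).1) = b := by
  have hg : v - ℓ.2 ≠ 0 := sub_ne_zero.2 hv
  rw [relL_lineAt]
  set g := v - ℓ.2 with hgdef
  have h1 : ε • entrancePoint b g - s • g =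
      ε • b + (-(ε * (Real.sqrt (1 - ‖b‖ ^ 2) / ‖g‖)) - s) • g := by
    unfold entrancePoint
    rw [smul_sub, smul_smul, sub_smul, neg_smul]
    abel
  rw [h1]
  unfold OC663.entB
  have hb0 : inner ℝ (ε • b) g = 0 := by rw [inner_smul_left, hb.1, mul_zero]
  rw [(Tree674.bline_frame hg hb0 _).1, smul_smul, inv_mul_cancel₀ hε.ne', one_smul]

/-- The contact data of `lineAt`. -/
theorem cD_lineAt {ε : ℝ} (hε : 0 < ε) (s : ℝ) {P : CTree} (z : PhasePoint × Par P) (τ : ℝ)
    {v : Space3} (hv : v ≠ z.1.2) {b : Space3} (hb : b ∈ impactDisc (v - z.1.2)) (n : ℕ) :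
    cD ε z (OneC423.lineAt ε s z.1 τ v b n) = (v, z.1.2, b) := by
  unfold cD cB
  rw [entB_lineAt hε s z.1 τ hv hb n]
  rfl

/-! ## The structure integral -/

/-- Long encounters, as a functional of contact structures. -/
def longS (Φ : Space3 → ℝ) (K : ℕ) (R ε : ℝ) : SF := fun P z _ _ l =>
  smI K P l * longI Φ R (cD ε z l)

theorem measurable_smI (K : ℕ) (P : CTree) : Measurable fun l : ML => smI K P l := by
  unfold smI
  have h : Measurable fun n : ℕ => (if n + P.leaves ≤ K then 1 else 0 : ℝ≥0∞) :=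
    measurable_of_countable _
  exact h.comp measurable_snd

theorem measurable_cD (ε : ℝ) (P : CTree) :
    Measurable fun q : (PhasePoint × Par P) × ML => cD ε q.1 q.2 := by
  unfold cD cB
  have h1 : Measurable fun q : (PhasePoint × Par P) × ML => OneC423.relL q.1.1 q.2.1 :=
    OneC423.measurable_relL.comp (f := fun q : (PhasePoint × Par P) × ML => (q.1.1, q.2.1))
      ((measurable_fst.comp measurable_fst).prodMk (measurable_fst.comp measurable_snd))
  refine Measurable.prodMk ?_ (Measurable.prodMk ?_ ((OC663.measurable_entB ε).comp h1))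
  · exact measurable_snd.comp (measurable_snd.comp (measurable_fst.comp measurable_snd))
  · exact measurable_snd.comp (measurable_fst.comp measurable_fst)

theorem measurable_longS (hΦ : AdmissiblePotential Φ) (K : ℕ) (R ε : ℝ) (P : CTree) :
    Measurable fun q : (PhasePoint × Par P) × ML => smI K P q.2 * longI Φ R (cD ε q.1 q.2) :=
  ((measurable_smI K P).comp measurable_snd).mul
    ((measurable_longI hΦ R).comp (measurable_cD ε P))

theorem measSF_longS (hΦ : AdmissiblePotential Φ) (K : ℕ) (R ε : ℝ) :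
    MeasSF (longS Φ K R ε) := by
  intro P m
  exact (measurable_longS hΦ K R ε P).comp
    (measurable_fst.prodMk (measurable_snd.comp measurable_snd))

/-- Inner flux integral of the long encounters at fixed root velocity. -/
def kU (Φ : Space3 → ℝ) (g R : ℝ) (u : Space3) : ℝ≥0∞ :=
  ∫⁻ v : Space3, wG g v * (ENNReal.ofReal ‖v - u‖ *
    ∫⁻ b in impactDisc (v - u), longI Φ R (v, u, b) ∂μHE[2])

theorem kerL_eq_kU (a g R : ℝ) : kerL Φ a g R = ∫⁻ u : Space3, wG a u * kU Φ g R u := rfl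

theorem measurable_kU (hΦ : AdmissiblePotential Φ) (g R : ℝ) : Measurable (kU Φ g R) := by
  unfold kU
  refine Measurable.lintegral_prod_right' (f := fun q : Space3 × Space3 =>
    wG g q.2 * (ENNReal.ofReal ‖q.2 - q.1‖ *
      ∫⁻ b in impactDisc (q.2 - q.1), longI Φ R (q.2, q.1, b) ∂μHE[2])) ?_
  refine ((measurable_wGs g).comp measurable_snd).mul ?_
  refine measurable_lintegral_disc (α := Space3 × Space3) (G := fun q => q.2 - q.1)
    (by fun_prop) (F := fun q b => longI Φ R (q.2, q.1, b)) ?_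
  exact (measurable_longI hΦ R).comp
    ((measurable_snd.comp measurable_fst).prodMk
      ((measurable_fst.comp measurable_fst).prodMk measurable_snd))

theorem smI_le_one (K : ℕ) (P : CTree) (l : ML) : smI K P l ≤ 1 := by
  unfold smI
  split_ifs
  · exact le_rfl
  · exact zero_le_one

theorem markW_ne_top {ρ : ℝ≥0∞} (hρ : ρ ≠ ∞) (K n : ℕ) : markW ρ K n ≠ ∞ := by
  unfold markW
  split_ifs
  · exact ENNReal.pow_ne_top hρ
  · exact ENNReal.zero_ne_top

/-- Bound of the contact kernel. -/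
theorem ctInt_long_le {ε : ℝ} (hε : 0 < ε) {P : CTree}
    (z : PhasePoint × Par P) {γ : ℝ → ℝ} {ρ : ℝ≥0∞} (hρ : ρ ≠ ∞) {K : ℕ} {R g τ s : ℝ}
    (hg : g ≤ γ τ) :
    OneC423.ctInt ε s z.1 τ (fun l => lineD γ ρ K l * (smI K P l * longI Φ R (cD ε z l))) ≤
      (∑' n : ℕ, markW ρ K n) * kU Φ g R z.1.2 := by
  unfold OneC423.ctInt
  rw [← ENNReal.tsum_mul_right]
  refine ENNReal.tsum_le_tsum fun n => ?_
  have hmk := markW_ne_top hρ K n
  unfold kU
  rw [← lintegral_const_mul' _ _ hmk]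
  refine lintegral_mono fun v => ?_
  by_cases hv : v = z.1.2
  · simp [hv]
  have hc : wG g v * markW ρ K n ≠ ∞ := ENNReal.mul_ne_top ENNReal.ofReal_ne_top hmk
  calc ENNReal.ofReal ‖v - z.1.2‖ *
      ∫⁻ b in impactDisc (v - z.1.2), (lineD γ ρ K (OneC423.lineAt ε s z.1 τ v b n) *
      (smI K P (OneC423.lineAt ε s z.1 τ v b n) *
        longI Φ R (cD ε z (OneC423.lineAt ε s z.1 τ v b n)))) ∂μHE[2]
      ≤ ENNReal.ofReal ‖v - z.1.2‖ * ∫⁻ b in impactDisc (v - z.1.2),
        (wG g v * markW ρ K n) * longI Φ R (v, z.1.2, b) ∂μHE[2] := by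
        refine mul_le_mul' le_rfl ?_
        refine setLIntegral_mono' (measurableSet_impactDisc _) fun b hb => ?_
        rw [cD_lineAt hε s z τ hv hb n]
        refine mul_le_mul' ?_ ?_
        · exact mul_le_mul' (QExit814.wG_mono hg v) le_rfl
        · exact mul_le_of_le_one_left' (smI_le_one K P _)
    _ = _ := by
        rw [lintegral_const_mul' _ _ hc]
        ring

/-- Expectation of a constant. -/
theorem gcE_const_le (hf : Measurable f₀) (h1 : ∫⁻ z, ENNReal.ofReal (f₀ z) ≤ 1) (ε : ℝ)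
    (c : ℝ≥0∞) : gcE f₀ ε (fun _ _ => c) ≤ c := by
  by_cases hc : c = ∞
  · rw [hc]; exact le_top
  · exact (gcE_const f₀ ε hf h1 hc).le

/-- **The structure integral of the long encounters.** -/
theorem OS_longS_le (hΦ : AdmissiblePotential Φ) (hf : Measurable f₀)
    (h1 : ∫⁻ z, ENNReal.ofReal (f₀ z) ≤ 1) {b : ℝ} (hb : 0 < b)
    (H : HasSummableGaussianBound b (fun x v => f₀ (x, v))) (K : ℕ) (T' : ℝ) :
    ∃ M : ℝ≥0∞, M ≠ ∞ ∧ ∀ (Q : EPar) (g R ε : ℝ), 0 < ε → Measurable Q.γ → Q.ρ ≠ ∞ →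
      (∀ τ ∈ Ioc 0 Q.te, g ≤ Q.γ τ) → 0 ≤ Q.te →
      OS Φ f₀ ε K Q T' (volume.restrict (Ioc 0 Q.te)) (longS Φ K R ε) ≤
        M * (ENNReal.ofReal (Q.te ^ 2) * (∑' n : ℕ, markW Q.ρ K n)) * kerL Φ (b / 2) g R := by
  choose M hM hMle using fun P : CTree => exists_root_mass hΦ hf hb H P T'
  refine ⟨∑ P ∈ GIVStep383.trees K, M P, ENNReal.sum_ne_top.2 fun P _ => hM P, ?_⟩
  intro Q g R ε hε hγm hρ hg hte
  set mk : ℝ≥0∞ := ∑' n : ℕ, markW Q.ρ K n with hmk
  -- the inner integral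
  have hin : ∀ (P : CTree) (z : PhasePoint × Par P),
      ∫⁻ l, {l : ML | (z, l.1) ∈ OneC423.ctSet Φ ε Q.te P}.indicator
          (fun l => lineD Q.γ Q.ρ K l * (smI K P l * longI Φ R (cD ε z l))) l
            ∂(OneC423.baseM (volume.restrict (Ioc 0 Q.te))) ≤
        ENNReal.ofReal (ε ^ 2) * (ENNReal.ofReal (Q.te ^ 2) * (mk * kU Φ g R z.1.2)) := by
    intro P z
    have hH : Measurable fun l : ML => lineD Q.γ Q.ρ K l * (smI K P l * longI Φ R (cD ε z l)) :=
      (EBasic602.measurable_lineD hγm).mul ((measurable_longS hΦ K R ε P).comp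
        (measurable_const.prodMk measurable_id))
    rw [OneC423.lintegral_ct hΦ hε z (volume.restrict (Ioc 0 Q.te)) hH]
    refine mul_le_mul' le_rfl ?_
    calc ∫⁻ τ in Ioc 0 Q.te, (∫⁻ s in Ioc τ Q.te,
        {s | s ≤ Q.te ∧ Valid Φ ε P s z.1.2 z.2}.indicator
          (fun s => OneC423.ctInt ε s z.1 τ (fun l => lineD Q.γ Q.ρ K l *
            (smI K P l * longI Φ R (cD ε z l)))) s)
        ≤ ∫⁻ _ in Ioc 0 Q.te, ENNReal.ofReal Q.te * (mk * kU Φ g R z.1.2) := by
          refine setLIntegral_mono' measurableSet_Ioc fun τ hτ => ?_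
          calc ∫⁻ s in Ioc τ Q.te, {s | s ≤ Q.te ∧ Valid Φ ε P s z.1.2 z.2}.indicator
                (fun s => OneC423.ctInt ε s z.1 τ (fun l => lineD Q.γ Q.ρ K l *
                  (smI K P l * longI Φ R (cD ε z l)))) s
              ≤ ∫⁻ _ in Ioc τ Q.te, mk * kU Φ g R z.1.2 := by
                refine lintegral_mono fun s => ?_
                refine (indicator_le_self' (fun _ _ => zero_le) s).trans ?_
                exact ctInt_long_le hε z hρ (hg τ hτ)
            _ = mk * kU Φ g R z.1.2 * ENNReal.ofReal (Q.te - τ) := by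
                rw [setLIntegral_const, Real.volume_Ioc]
            _ ≤ _ := by
                rw [mul_comm]
                gcongr
                linarith [hτ.1]
      _ = (ENNReal.ofReal Q.te * (mk * kU Φ g R z.1.2)) * ENNReal.ofReal Q.te := by
          rw [setLIntegral_const, Real.volume_Ioc, sub_zero]
      _ = _ := by
          rw [pow_two, ENNReal.ofReal_mul hte]
          ring
  have hin0 : ∀ (P : CTree) (z : PhasePoint × Par P), ¬ P.leaves ≤ K →
      ∫⁻ l, {l : ML | (z, l.1) ∈ OneC423.ctSet Φ ε Q.te P}.indicator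
          (fun l => lineD Q.γ Q.ρ K l * (smI K P l * longI Φ R (cD ε z l))) l
            ∂(OneC423.baseM (volume.restrict (Ioc 0 Q.te))) = 0 := by
    intro P z hP
    have h0 : ∀ l : ML, {l : ML | (z, l.1) ∈ OneC423.ctSet Φ ε Q.te P}.indicator
          (fun l => lineD Q.γ Q.ρ K l * (smI K P l * longI Φ R (cD ε z l))) l = 0 := by
      intro l
      refine indicator_apply_eq_zero.2 fun _ => ?_
      have : smI K P l = 0 := by
        unfold smI
        rw [if_neg]
        omega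
      rw [this, zero_mul, mul_zero]
    simp only [h0, lintegral_zero]
  -- one tree
  have htree : ∀ P : CTree, ∫⁻ z : PhasePoint × Par P,
      {z : PhasePoint × Par P | Valid Φ ε P T' z.1.2 z.2}.indicator
        (fun z => wt Φ P z.1.2 z.2 * (ToTree335.pf Φ f₀ ε P z *
          gcE f₀ ε (fun m w => ∫⁻ l, {l : ML | (z, l.1) ∈ OneC423.ctSet Φ ε Q.te P}.indicator
            (fun l => lineD Q.γ Q.ρ K l * longS Φ K R ε P z m w l) l
              ∂(OneC423.baseM (volume.restrict (Ioc 0 Q.te)))))) z ≤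
      if P ∈ GIVStep383.trees K then M P * (ENNReal.ofReal (ε ^ 2) *
        (ENNReal.ofReal (Q.te ^ 2) * mk) * kerL Φ (b / 2) g R) else 0 := by
    intro P
    by_cases hP : P.leaves ≤ K
    · rw [if_pos (GIVStep383.mem_trees.2 hP)]
      set c : ℝ≥0∞ := ENNReal.ofReal (ε ^ 2) * (ENNReal.ofReal (Q.te ^ 2) * mk) with hc
      have hmkt : mk ≠ ∞ := LinkM547.tsum_markW_ne_top hρ K
      have hct : c ≠ ∞ := ENNReal.mul_ne_top ENNReal.ofReal_ne_top
        (ENNReal.mul_ne_top ENNReal.ofReal_ne_top hmkt)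
      have hh : Measurable fun u : Space3 => c * kU Φ g R u := (measurable_kU hΦ g R).const_mul _
      refine le_trans ?_ ((hMle P ε T' hε.le le_rfl _ hh).trans (le_of_eq ?_))
      · refine lintegral_mono fun z => ?_
        refine indicator_le_indicator ?_
        refine mul_le_mul' le_rfl (mul_le_mul' le_rfl ?_)
        refine le_trans (gcE_mono f₀ ε fun m w _ => hin P z) ?_
        refine (gcE_const_le hf h1 ε _).trans (le_of_eq ?_)
        rw [hc]; ring
      · rw [kerL_eq_kU, ← lintegral_const_mul' _ _ hct]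
        congr 1
        refine lintegral_congr fun u => ?_
        ring
    · rw [if_neg fun h => hP (GIVStep383.mem_trees.1 h)]
      refine le_of_eq ?_
      have h0 : ∀ z : PhasePoint × Par P,
          {z : PhasePoint × Par P | Valid Φ ε P T' z.1.2 z.2}.indicator
          (fun z => wt Φ P z.1.2 z.2 * (ToTree335.pf Φ f₀ ε P z *
          gcE f₀ ε (fun m w => ∫⁻ l, {l : ML | (z, l.1) ∈ OneC423.ctSet Φ ε Q.te P}.indicator
            (fun l => lineD Q.γ Q.ρ K l * longS Φ K R ε P z m w l) l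
              ∂(OneC423.baseM (volume.restrict (Ioc 0 Q.te)))))) z = 0 := by
        intro z
        refine indicator_apply_eq_zero.2 fun _ => ?_
        have h2 : gcE f₀ ε (fun m w => ∫⁻ l,
            {l : ML | (z, l.1) ∈ OneC423.ctSet Φ ε Q.te P}.indicator
            (fun l => lineD Q.γ Q.ρ K l * longS Φ K R ε P z m w l) l
              ∂(OneC423.baseM (volume.restrict (Ioc 0 Q.te)))) = 0 := by
          refine le_antisymm ?_ zero_le
          refine (gcE_mono f₀ ε (G := fun _ _ => 0) fun m w _ => (hin0 P z hP).le).trans ?_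
          rw [gcE_zero]
        rw [h2, mul_zero, mul_zero]
      simp only [h0, lintegral_zero]
  unfold OS
  calc _ ≤ activity ε * ∑' P : CTree, (if P ∈ GIVStep383.trees K then
        M P * (ENNReal.ofReal (ε ^ 2) * (ENNReal.ofReal (Q.te ^ 2) * mk) *
          kerL Φ (b / 2) g R) else 0) :=
        mul_le_mul' le_rfl (ENNReal.tsum_le_tsum htree)
    _ = activity ε * ∑ P ∈ GIVStep383.trees K, M P * (ENNReal.ofReal (ε ^ 2) *
          (ENNReal.ofReal (Q.te ^ 2) * mk) * kerL Φ (b / 2) g R) := by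
        rw [tsum_eq_sum (s := GIVStep383.trees K) fun P hP => if_neg hP]
        congr 1
        exact Finset.sum_congr rfl fun P hP => if_pos hP
    _ = (activity ε * ENNReal.ofReal (ε ^ 2)) * ((∑ P ∈ GIVStep383.trees K, M P) *
          (ENNReal.ofReal (Q.te ^ 2) * mk) * kerL Φ (b / 2) g R) := by
        rw [← Finset.sum_mul]
        ring
    _ = _ := by
        rw [ENNReal.ofReal_pow hε.le, Mom974.activity_mul_sq hε, one_mul]

/-- **Long encounters are small for `R` large, uniformly in `ε`.** -/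
theorem exists_longS (hΦ : AdmissiblePotential Φ) (hf : Measurable f₀)
    (h1 : ∫⁻ z, ENNReal.ofReal (f₀ z) ≤ 1) {b : ℝ} (hb : 0 < b)
    (H : HasSummableGaussianBound b (fun x v => f₀ (x, v))) (K : ℕ) (T' : ℝ) {Q : EPar}
    (hγm : Measurable Q.γ) (hρ : Q.ρ ≠ ∞) {g : ℝ} (hg0 : 0 < g)
    (hg : ∀ τ ∈ Ioc 0 Q.te, g ≤ Q.γ τ) (hte : 0 ≤ Q.te) {δ : ℝ} (hδ : 0 < δ) :
    ∃ R₀ : ℝ, ∀ R ≥ R₀, ∀ ε : ℝ, 0 < ε →
      OS Φ f₀ ε K Q T' (volume.restrict (Ioc 0 Q.te)) (longS Φ K R ε) ≤ ENNReal.ofReal δ := by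
  obtain ⟨M, hM, hle⟩ := OS_longS_le hΦ hf h1 hb H K T'
  have hmk : ∑' n : ℕ, markW Q.ρ K n ≠ ∞ := LinkM547.tsum_markW_ne_top hρ K
  have hc : M * (ENNReal.ofReal (Q.te ^ 2) * (∑' n : ℕ, markW Q.ρ K n)) ≠ ∞ :=
    ENNReal.mul_ne_top hM (ENNReal.mul_ne_top ENNReal.ofReal_ne_top hmk)
  have hlim : Tendsto (fun R => M * (ENNReal.ofReal (Q.te ^ 2) * (∑' n : ℕ, markW Q.ρ K n)) *
      kerL Φ (b / 2) g R) atTop (𝓝 0) := by
    have := ENNReal.Tendsto.const_mul (tendsto_kerL hΦ (a := b / 2) (by positivity) hg0)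
      (Or.inr hc)
    simpa using this
  have hev := (tendsto_order.1 hlim).2 (ENNReal.ofReal δ) (by simpa using hδ)
  obtain ⟨R₀, hR₀⟩ := eventually_atTop.1 hev
  exact ⟨R₀, fun R hR ε hε => (hle Q g R ε hε hγm hρ hg hte).trans (hR₀ R hR).le⟩

/-! ## Diagonal choice of the radius -/

/-- If `a n ε` is small for `n` large uniformly in `ε`, and `b n ε → 0` for every fixed `n`, then
there is a choice `r ε → ∞` of the radius for which both are small. -/
theorem exists_radius {a b : ℕ → ℝ → ℝ≥0∞}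
    (ha : ∀ δ : ℝ, 0 < δ → ∃ n₀ : ℕ, ∀ n, n₀ ≤ n → ∀ ε : ℝ, 0 < ε → a n ε ≤ ENNReal.ofReal δ)
    (hb : ∀ n (δ : ℝ), 0 < δ → ∃ ε₀ : ℝ, 0 < ε₀ ∧ ∀ ε : ℝ, 0 < ε → ε < ε₀ →
      b n ε ≤ ENNReal.ofReal δ) :
    ∃ r : ℝ → ℕ, (∀ m : ℕ, ∃ ε₀ : ℝ, 0 < ε₀ ∧ ∀ ε : ℝ, 0 < ε → ε < ε₀ → m ≤ r ε) ∧
      ∀ δ : ℝ, 0 < δ → ∃ ε₀ : ℝ, 0 < ε₀ ∧ ∀ ε : ℝ, 0 < ε → ε < ε₀ →
        a (r ε) ε + b (r ε) ε ≤ ENNReal.ofReal δ := by
  choose e he hbe using fun n : ℕ => hb n (1 / ((n : ℝ) + 1)) (by positivity)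
  set r : ℝ → ℕ := fun ε => Nat.findGreatest (fun n => ε < e n) ⌈1 / ε⌉₊ with hr
  have hrm : ∀ m : ℕ, ∃ ε₀ : ℝ, 0 < ε₀ ∧ ∀ ε : ℝ, 0 < ε → ε < ε₀ → m ≤ r ε := by
    intro m
    refine ⟨min (e m) (1 / ((m : ℝ) + 1)), lt_min (he m) (by positivity), fun ε hε hlt => ?_⟩
    refine Nat.le_findGreatest ?_ (lt_of_lt_of_le hlt (min_le_left _ _))
    have h1 : ε < 1 / ((m : ℝ) + 1) := lt_of_lt_of_le hlt (min_le_right _ _)
    have h2 : (m : ℝ) + 1 < 1 / ε := by
      rw [lt_div_iff₀ hε]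
      rw [lt_div_iff₀ (by positivity)] at h1
      linarith
    have h3 : (m : ℝ) ≤ (⌈1 / ε⌉₊ : ℝ) := by
      have := Nat.le_ceil (1 / ε)
      linarith
    exact_mod_cast h3
  refine ⟨r, hrm, fun δ hδ => ?_⟩
  obtain ⟨n₀, hn₀⟩ := ha (δ / 2) (by positivity)
  obtain ⟨k, hk⟩ := exists_nat_gt (2 / δ)
  obtain ⟨ε₀, hε₀, h0⟩ := hrm (max (max n₀ k) 1)
  refine ⟨ε₀, hε₀, fun ε hε hlt => ?_⟩
  have h1 := h0 ε hε hlt
  have hrn : n₀ ≤ r ε := ((le_max_left _ _).trans (le_max_left _ _)).trans h1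
  have hrk : k ≤ r ε := ((le_max_right _ _).trans (le_max_left _ _)).trans h1
  have hr1 : r ε ≠ 0 := by
    have : 1 ≤ r ε := (le_max_right _ _).trans h1
    omega
  have h2 : ε < e (r ε) := Nat.findGreatest_of_ne_zero (P := fun n => ε < e n) rfl hr1
  have h3 := hbe (r ε) ε hε h2
  have h4 : (1 : ℝ) / ((r ε : ℝ) + 1) ≤ δ / 2 := by
    have h5 : 2 / δ < (r ε : ℝ) + 1 := by
      have : (k : ℝ) ≤ r ε := by exact_mod_cast hrk
      linarith
    rw [div_le_div_iff₀ (by positivity) (by norm_num)]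
    rw [div_lt_iff₀ hδ] at h5
    linarith
  calc a (r ε) ε + b (r ε) ε ≤ ENNReal.ofReal (δ / 2) + ENNReal.ofReal (δ / 2) :=
        add_le_add (hn₀ _ hrn ε hε) (h3.trans (ENNReal.ofReal_le_ofReal h4))
    _ = ENNReal.ofReal δ := by
        rw [← ENNReal.ofReal_add (by positivity) (by positivity)]
        congr 1
        ring

end Crest.Agent.R122.Long984
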