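import Crest.Agent.R122.Line3G_984
import Crest.Agent.R122.LongE_984
import Crest.Agent.R122.ThirdV_796
import Crest.Agent.R122.OSCalc_495
import Crest.Agent.R122.OSMeas_984
import Crest.Agent.R122.GateF_973

/-!
# Assembly of `StmtLink4` (row 122, board H1): selection of the majorant, pieces

* `Gd4` : the structures on which the majorant is asked for.
* `OSLe E c` : for small `ε` the functional `E ε` has on `Gd4` a measurable majorant with structure
  integral `≤ c`. Calculus.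
* `stmtLink4_of` : `StmtLink4` from `OSLe (err4) δ` for every `δ`.
* `osLe_long`, `osNull_third`, `osNull_mem`, `osNull_pass`, `osNull_of_ae` : pieces.
-/

set_option autoImplicit false
set_option linter.unusedSectionVars false

open MeasureTheory Set Filter Topology
open scoped ENNReal Classical
open Crest.AnalysisR.Kinetic
open Crest.Agent.R122.Kin796 Crest.Agent.R122.Kin796.CTree Crest.Agent.R122.Tree674
open Crest.Agent.R122.GC311 Crest.Agent.R122.EDefs602 Crest.Agent.R122.OneC285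
open Crest.Agent.R122.Long984 Crest.Agent.R122.Third741 Crest.Agent.R122.ThirdV796
open Crest.Agent.R122.OSCalc495 Crest.Agent.R122.GSCalc495
open Crest.Agent.R122.Scat818 Crest.Agent.R122.OCout796 Crest.Agent.R122.Ins45

noncomputable section

namespace Crest.Agent.R122.LinkAsm984

variable {Φ : Space3 → ℝ} {f₀ : PhasePoint → ℝ} {K : ℕ} {Q : EPar} {T' : ℝ}

/-- The structures on which the majorant is asked for. -/
structure Gd4 (Φ : Space3 → ℝ) (ε : ℝ) (K : ℕ) (Q : EPar) (T' : ℝ) (P : CTree)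
    (z : PhasePoint × Par P) {m : ℕ} (w : Config m) (l : ML) : Prop where
  small : l.2 + P.leaves ≤ K
  real : Real4 Φ ε K Q.te T' P z w l
  unhit : GIV566.unhit Φ ε (ptube Φ ε P z) Q.tw w

/-- For small `ε` the functional has on `Gd4` a measurable majorant with structure integral
`≤ c`. -/
def OSLe (Φ : Space3 → ℝ) (f₀ : PhasePoint → ℝ) (K : ℕ) (Q : EPar) (T' : ℝ) (E : ℝ → SF)
    (c : ℝ≥0∞) : Prop :=
  ∃ ε₀ : ℝ, 0 < ε₀ ∧ ∀ ε : ℝ, 0 < ε → ε < ε₀ → ∃ M : SF, MeasSF M ∧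
    (∀ (P : CTree) (z : PhasePoint × Par P) (m : ℕ) (w : Config m) (l : ML),
      Gd4 Φ ε K Q T' P z w l → E ε P z m w l ≤ M P z m w l) ∧
    OS Φ f₀ ε K Q T' (volume.restrict (Ioc 0 Q.te)) M ≤ c

/-- Null functional. -/
def OSNull (Φ : Space3 → ℝ) (f₀ : PhasePoint → ℝ) (K : ℕ) (Q : EPar) (T' : ℝ) (E : ℝ → SF) :
    Prop := ∀ δ : ℝ, 0 < δ → OSLe Φ f₀ K Q T' E (ENNReal.ofReal δ)

variable {E E' : ℝ → SF} {c c' : ℝ≥0∞}

theorem OSLe.mono (h : OSLe Φ f₀ K Q T' E c) (hc : c ≤ c')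
    (hE : ∃ ε₁ : ℝ, 0 < ε₁ ∧ ∀ ε : ℝ, 0 < ε → ε < ε₁ → ∀ (P : CTree) (z : PhasePoint × Par P)
      (m : ℕ) (w : Config m) (l : ML), Gd4 Φ ε K Q T' P z w l →
      E' ε P z m w l ≤ E ε P z m w l) : OSLe Φ f₀ K Q T' E' c' := by
  obtain ⟨ε₀, h0, h⟩ := h
  obtain ⟨ε₁, h1, h2⟩ := hE
  refine ⟨min ε₀ ε₁, lt_min h0 h1, fun ε hε hlt => ?_⟩
  obtain ⟨M, hM, hle, hO⟩ := h ε hε (hlt.trans_le (min_le_left _ _))
  exact ⟨M, hM, fun P z m w l hg => (h2 ε hε (hlt.trans_le (min_le_right _ _)) P z m w l hg).trans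
    (hle P z m w l hg), hO.trans hc⟩

theorem OSNull.mono (h : OSNull Φ f₀ K Q T' E)
    (hE : ∃ ε₁ : ℝ, 0 < ε₁ ∧ ∀ ε : ℝ, 0 < ε → ε < ε₁ → ∀ (P : CTree) (z : PhasePoint × Par P)
      (m : ℕ) (w : Config m) (l : ML), Gd4 Φ ε K Q T' P z w l →
      E' ε P z m w l ≤ E ε P z m w l) : OSNull Φ f₀ K Q T' E' :=
  fun δ hδ => (h δ hδ).mono le_rfl hE

theorem OSNull.congr (h : OSNull Φ f₀ K Q T' E)
    (hE : ∀ (ε : ℝ), 0 < ε → ∀ (P : CTree) (z : PhasePoint × Par P)
      (m : ℕ) (w : Config m) (l : ML), Gd4 Φ ε K Q T' P z w l →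
      E' ε P z m w l ≤ E ε P z m w l) : OSNull Φ f₀ K Q T' E' :=
  h.mono ⟨1, one_pos, fun ε hε _ => hE ε hε⟩

theorem OSLe.add (hΦ : AdmissiblePotential Φ) (hf : Measurable f₀) (hγ : Measurable Q.γ)
    (h : OSLe Φ f₀ K Q T' E c) (h' : OSLe Φ f₀ K Q T' E' c') :
    OSLe Φ f₀ K Q T' (fun ε P z m w l => E ε P z m w l + E' ε P z m w l) (c + c') := by
  obtain ⟨ε₀, h0, h⟩ := h
  obtain ⟨ε₁, h1, h'⟩ := h'
  refine ⟨min ε₀ ε₁, lt_min h0 h1, fun ε hε hlt => ?_⟩
  obtain ⟨M, hM, hle, hO⟩ := h ε hε (hlt.trans_le (min_le_left _ _))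
  obtain ⟨M', hM', hle', hO'⟩ := h' ε hε (hlt.trans_le (min_le_right _ _))
  refine ⟨fun P z m w l => M P z m w l + M' P z m w l, fun P m => (hM P m).add (hM' P m),
    fun P z m w l hg => add_le_add (hle P z m w l hg) (hle' P z m w l hg), ?_⟩
  rw [OS_add hΦ hf hγ (MeasSF.measV hΦ hM)]
  exact add_le_add hO hO'

theorem OSNull.add (hΦ : AdmissiblePotential Φ) (hf : Measurable f₀) (hγ : Measurable Q.γ)
    (h : OSNull Φ f₀ K Q T' E) (h' : OSNull Φ f₀ K Q T' E') :
    OSNull Φ f₀ K Q T' (fun ε P z m w l => E ε P z m w l + E' ε P z m w l) := by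
  intro δ hδ
  have h1 := (h (δ / 2) (by positivity)).add hΦ hf hγ (h' (δ / 2) (by positivity))
  rwa [← ENNReal.ofReal_add (by positivity) (by positivity), add_halves] at h1

/-- A family of measurable functionals with null structure integral. -/
theorem OSNull.of_meas (hM : ∀ ε : ℝ, 0 < ε → MeasSF (E ε))
    (h : ∀ δ : ℝ, 0 < δ → ∃ ε₀ : ℝ, 0 < ε₀ ∧ ∀ ε : ℝ, 0 < ε → ε < ε₀ →
      OS Φ f₀ ε K Q T' (volume.restrict (Ioc 0 Q.te)) (E ε) ≤ ENNReal.ofReal δ) :
    OSNull Φ f₀ K Q T' E := by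
  intro δ hδ
  obtain ⟨ε₀, h0, h1⟩ := h δ hδ
  exact ⟨ε₀, h0, fun ε hε hlt => ⟨E ε, hM ε hε, fun _ _ _ _ _ _ => le_rfl, h1 ε hε hlt⟩⟩

/-! ## Selection -/

theorem err4_le_one {ε : ℝ} {P : CTree} {z : PhasePoint × Par P} {m : ℕ} {w : Config m} {l : ML} :
    err4 Φ ε K Q P z w l ≤ 1 := by
  unfold err4
  split_ifs
  · exact min_le_left _ _
  · exact min_le_left _ _
  · exact le_rfl

/-- **Selection of one measurable majorant.** -/
theorem stmtLink4_of (h : ∀ K : ℕ, OSNull Φ f₀ K Q T' fun ε P z _ w l => err4 Φ ε K Q P z w l) :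
    StmtLink4 Φ f₀ Q T' := by
  set S : ℕ → ℝ → Set ℝ≥0∞ := fun K ε => {x | ∃ M : SF, MeasSF M ∧
    (∀ (P : CTree) (z : PhasePoint × Par P) (m : ℕ) (w : Config m) (l : ML),
      Gd4 Φ ε K Q T' P z w l → err4 Φ ε K Q P z w l ≤ M P z m w l) ∧
    OS Φ f₀ ε K Q T' (volume.restrict (Ioc 0 Q.te)) M = x} with hS
  have hex : ∀ (K : ℕ) (ε : ℝ), ∃ M : SF, MeasSF M ∧
      (∀ (P : CTree) (z : PhasePoint × Par P) (m : ℕ) (w : Config m) (l : ML),
        Gd4 Φ ε K Q T' P z w l → err4 Φ ε K Q P z w l ≤ M P z m w l) ∧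
      (0 < ε → sInf (S K ε) < ∞ → OS Φ f₀ ε K Q T' (volume.restrict (Ioc 0 Q.te)) M ≤
        sInf (S K ε) + ENNReal.ofReal ε) := by
    intro K ε
    by_cases hlt : 0 < ε ∧ sInf (S K ε) < ∞
    · have h1 : sInf (S K ε) < sInf (S K ε) + ENNReal.ofReal ε :=
        ENNReal.lt_add_right hlt.2.ne (by simpa using hlt.1)
      obtain ⟨x, ⟨M, hM, hle, hx⟩, hx2⟩ := sInf_lt_iff.1 h1
      exact ⟨M, hM, hle, fun _ _ => by rw [hx]; exact hx2.le⟩
    · refine ⟨fun _ _ _ _ _ => 1, fun _ _ => measurable_const, fun _ _ _ _ _ _ => err4_le_one,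
        fun h1 h2 => absurd ⟨h1, h2⟩ hlt⟩
  choose M hM hle hO using hex
  refine ⟨M, hM, fun K ε _ P z m w l h1 h2 h3 => hle K ε P z m w l ⟨h1, h2, h3⟩, ?_⟩
  intro K δ hδ
  obtain ⟨ε₀, h0, h1⟩ := h K (δ / 2) (by positivity)
  refine ⟨min ε₀ (δ / 2), lt_min h0 (by positivity), fun ε hε hlt => ?_⟩
  obtain ⟨M', hM', hle', hO'⟩ := h1 ε hε (hlt.trans_le (min_le_left _ _))
  have hmem : OS Φ f₀ ε K Q T' (volume.restrict (Ioc 0 Q.te)) M' ∈ S K ε := ⟨M', hM', hle', rfl⟩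
  have hinf : sInf (S K ε) ≤ ENNReal.ofReal (δ / 2) := (sInf_le hmem).trans hO'
  calc OS Φ f₀ ε K Q T' (volume.restrict (Ioc 0 Q.te)) (M K ε)
      ≤ sInf (S K ε) + ENNReal.ofReal ε := hO K ε hε (hinf.trans_lt ENNReal.ofReal_lt_top)
    _ ≤ ENNReal.ofReal (δ / 2) + ENNReal.ofReal (δ / 2) :=
        add_le_add hinf (ENNReal.ofReal_le_ofReal (hlt.trans_le (min_le_right _ _)).le)
    _ = ENNReal.ofReal δ := by
        rw [← ENNReal.ofReal_add (by positivity) (by positivity), add_halves]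

/-! ## Pieces -/

/-- Long encounters. -/
theorem osLe_long (hΦ : AdmissiblePotential Φ) (hf : Measurable f₀)
    (h1 : ∫⁻ z, ENNReal.ofReal (f₀ z) ≤ 1) {b : ℝ} (hb : 0 < b)
    (H : HasSummableGaussianBound b (fun x v => f₀ (x, v))) (K : ℕ) (T' : ℝ) {Q : EPar}
    (hγm : Measurable Q.γ) (hρ : Q.ρ ≠ ∞) {g : ℝ} (hg0 : 0 < g)
    (hg : ∀ τ ∈ Ioc 0 Q.te, g ≤ Q.γ τ) (hte : 0 ≤ Q.te) {δ : ℝ} (hδ : 0 < δ) :
    ∃ R₀ : ℝ, ∀ R ≥ R₀, OSLe Φ f₀ K Q T' (fun ε => longS Φ K R ε) (ENNReal.ofReal δ) := by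
  obtain ⟨R₀, hR₀⟩ := exists_longS hΦ hf h1 hb H K T' hγm hρ hg0 hg hte hδ
  exact ⟨R₀, fun R hR => ⟨1, one_pos, fun ε hε _ => ⟨longS Φ K R ε, measSF_longS hΦ K R ε,
    fun _ _ _ _ _ _ => le_rfl, hR₀ R hR ε hε⟩⟩⟩

/-- Unaltered gas particles near the encounter. -/
def thirdS (Φ : Space3 → ℝ) (K : ℕ) (R ε : ℝ) : SF := sfOf ε K (thirdG Φ ε (2 * (R + 1) * ε))

theorem osNull_third (hΦ : AdmissiblePotential Φ) {A : Space3 → ℝ≥0∞} {C b g0 : ℝ}
    (hF : FOk f₀ A C b) (hQ : QOk Q g0) (K : ℕ) (T' : ℝ) {R : ℝ} (hR : 0 ≤ R) :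
    OSNull Φ f₀ K Q T' fun ε => thirdS Φ K R ε := by
  refine OSNull.of_meas (fun ε hε => measSF_sfOf ε K (measCF_thirdG hΦ hε _)) fun δ hδ => ?_
  obtain ⟨D, hD, hle⟩ := third_OS_le hΦ hF hQ K T'
  have hfin : IsFiniteMeasure (volume.restrict (Ioc (0 : ℝ) Q.te)) :=
    ⟨by rw [Measure.restrict_apply_univ]; exact measure_Ioc_lt_top⟩
  set κ0 : ℝ≥0∞ := (volume.restrict (Ioc (0 : ℝ) Q.te)) univ with hκ0
  have hκt : κ0 ≠ ∞ := measure_ne_top _ _
  have hRpos : 0 < 2 * (R + 1) := by linarith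
  have key : ∀ ε : ℝ, 0 < ε → OS Φ f₀ ε K Q T' (volume.restrict (Ioc 0 Q.te)) (thirdS Φ K R ε) ≤
      (κ0 * D * ENNReal.ofReal (2 * (R + 1)) ^ 3) * ENNReal.ofReal ε := by
    intro ε hε
    refine (hle ε hε (2 * (R + 1) * ε) (by positivity) (volume.restrict (Ioc 0 Q.te))
      (ae_restrict_mem measurableSet_Ioc) (thirdS Φ K R ε) fun _ _ _ _ _ => le_rfl).trans ?_
    rw [ENNReal.ofReal_mul hRpos.le, mul_pow]
    have h1 : activity ε * ENNReal.ofReal ε ^ 3 = ENNReal.ofReal ε := by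
      have h2 := Mom974.activity_mul_sq hε
      calc activity ε * ENNReal.ofReal ε ^ 3 =
          (activity ε * ENNReal.ofReal ε ^ 2) * ENNReal.ofReal ε := by ring
        _ = ENNReal.ofReal ε := by rw [h2, one_mul]
    calc κ0 * D * (activity ε * (ENNReal.ofReal (2 * (R + 1)) ^ 3 * ENNReal.ofReal ε ^ 3))
        = κ0 * D * ENNReal.ofReal (2 * (R + 1)) ^ 3 * (activity ε * ENNReal.ofReal ε ^ 3) := by
          ring
      _ ≤ _ := by rw [h1]
  have hct : κ0 * D * ENNReal.ofReal (2 * (R + 1)) ^ 3 ≠ ∞ :=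
    ENNReal.mul_ne_top (ENNReal.mul_ne_top hκt hD) (ENNReal.pow_ne_top ENNReal.ofReal_ne_top)
  obtain ⟨δ', hδ', hmul⟩ := exists_mul_le hct hδ
  exact ⟨δ', hδ', fun ε hε hlt => (key ε hε).trans
    (hmul _ (ENNReal.ofReal_le_ofReal hlt.le))⟩

/-- Members of the tree near the encounter. -/
theorem osNull_mem (hΦ : AdmissiblePotential Φ) {A : Space3 → ℝ≥0∞} {C b g0 : ℝ}
    (hF : FOk f₀ A C b) (hQ : QOk Q g0) (K : ℕ) (T' : ℝ) (R : ℝ) :
    OSNull Φ f₀ K Q T' fun ε => memS Φ Q.te K (2 * (R + 1) * ε) ε := by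
  have ha : Tendsto (fun ε : ℝ => 2 * (R + 1) * ε) (𝓝[>] 0) (𝓝 0) := by
    have h1 : Tendsto (fun ε : ℝ => 2 * (R + 1) * ε) (𝓝 0) (𝓝 (2 * (R + 1) * 0)) :=
      tendsto_id.const_mul _
    rw [mul_zero] at h1
    exact h1.mono_left nhdsWithin_le_nhds
  have h := null_memS hΦ hF hQ T' ha
  exact OSNull.of_meas (fun ε _ => measSF_memS hΦ Q.te K _ ε) fun δ hδ => h K δ hδ

/-- No passage. -/
def passG (Φ : Space3 → ℝ) : CF := fun _P z _m _w _s v b => if CDpass Φ (v, z.1.2, b) then 0 else 1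

theorem measurableSet_CDpass (hΦ : AdmissiblePotential Φ) : MeasurableSet {q : CD | CDpass Φ q} :=
  measurable_relB (measurableSet_passSet hΦ)

theorem measCF_passG (hΦ : AdmissiblePotential Φ) : MeasCF (passG Φ) := by
  intro P m
  have h1 : Measurable fun q : ((PhasePoint × Par P) × Config m) × (ℝ × (Space3 × Space3)) =>
      ((q.2.2.1, q.1.1.1.2, q.2.2.2) : CD) := by
    refine Measurable.prodMk ?_ (Measurable.prodMk ?_ ?_)
    · exact measurable_fst.comp (measurable_snd.comp measurable_snd)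
    · exact measurable_snd.comp (measurable_fst.comp (measurable_fst.comp measurable_fst))
    · exact measurable_snd.comp (measurable_snd.comp measurable_snd)
  exact Measurable.ite (h1 (measurableSet_CDpass hΦ)) measurable_const measurable_const

/-- No passage, as a functional of contact structures. -/
def passS (Φ : Space3 → ℝ) (K : ℕ) (ε : ℝ) : SF := sfOf ε K (passG Φ)

theorem fluxG_pass (hΦ : AdmissiblePotential Φ) (te g0 : ℝ) (P : CTree) (z : PhasePoint × Par P)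
    (m : ℕ) (w : Config m) : fluxG te g0 (passG Φ) P z m w = 0 := by
  unfold fluxG
  refine (setLIntegral_congr_fun measurableSet_Ioc fun s _ => ?_).trans lintegral_zero
  refine (lintegral_congr_ae ?_).trans lintegral_zero
  filter_upwards [Measure.ae_ne volume z.1.2] with v hv
  have hg : v - z.1.2 ≠ 0 := sub_ne_zero.2 hv
  have h0 : ∫⁻ b in impactDisc (v - z.1.2), passG Φ P z m w s v b ∂μHE[2] = 0 := by
    have hd : MeasurableSet (impactDisc (v - z.1.2)) := Disc416.measurableSet_impactDisc _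
    refine (lintegral_congr_ae ?_).trans lintegral_zero
    rw [Filter.EventuallyEq, ae_restrict_iff' hd]
    have ht := measure_trapped hΦ hg
    rw [measure_eq_zero_iff_ae_notMem] at ht
    filter_upwards [ht] with b hb hbd
    unfold passG
    rw [if_pos]
    refine ⟨⟨hbd, hg⟩, ?_⟩
    by_contra hn
    exact hb ⟨hbd, hn⟩
  show ENNReal.ofReal ‖v - z.1.2‖ * (wG g0 v *
    ∫⁻ b in impactDisc (v - z.1.2), passG Φ P z m w s v b ∂μHE[2]) = 0
  rw [h0, mul_zero, mul_zero]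

theorem osNull_pass (hΦ : AdmissiblePotential Φ) {g0 : ℝ} (hQ : QOk Q g0) (K : ℕ) (T' : ℝ) :
    OSNull Φ f₀ K Q T' fun ε => passS Φ K ε := by
  refine OSNull.of_meas (fun ε _ => measSF_sfOf ε K (measCF_passG hΦ)) fun δ _ => ?_
  refine ⟨1, one_pos, fun ε hε _ => ?_⟩
  have hfin : IsFiniteMeasure (volume.restrict (Ioc (0 : ℝ) Q.te)) :=
    ⟨by rw [Measure.restrict_apply_univ]; exact measure_Ioc_lt_top⟩
  refine (Third741.OS_le hΦ hε hQ.ρ_ne hQ.γ_meas hQ.γ_ge (ae_restrict_mem measurableSet_Ioc)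
    (measCF_passG hΦ) (H := passS Φ K ε) fun _ _ _ _ _ => le_rfl).trans ?_
  have h0 : ∑ P ∈ GIVStep383.trees K, ∫⁻ z : PhasePoint × Par P,
      {z : PhasePoint × Par P | Valid Φ ε P T' z.1.2 z.2}.indicator
        (fun z => wt Φ P z.1.2 z.2 * (ToTree335.pf Φ f₀ ε P z *
          gcE f₀ ε (fun m w => fluxG Q.te g0 (passG Φ) P z m w))) z = 0 := by
    refine Finset.sum_eq_zero fun P _ => ?_
    have h1 : (fun z : PhasePoint × Par P => {z : PhasePoint × Par P |
        Valid Φ ε P T' z.1.2 z.2}.indicator (fun z => wt Φ P z.1.2 z.2 *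
          (ToTree335.pf Φ f₀ ε P z * gcE f₀ ε (fun m w => fluxG Q.te g0 (passG Φ) P z m w))) z) =
        fun _ => 0 := by
      funext z
      have h2 : gcE f₀ ε (fun m w => fluxG Q.te g0 (passG Φ) P z m w) = 0 := by
        simp only [fluxG_pass hΦ]
        exact gcE_zero f₀ ε
      by_cases hz : z ∈ {z : PhasePoint × Par P | Valid Φ ε P T' z.1.2 z.2}
      · rw [indicator_of_mem hz, h2, mul_zero, mul_zero]
      · rw [indicator_of_notMem hz]
    rw [h1, lintegral_zero]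
  rw [h0, mul_zero]
  exact zero_le

/-- Almost sure facts. -/
theorem osNull_of_ae (K : ℕ) (T' : ℝ) {N : (ε : ℝ) → (P : CTree) →
    PhasePoint × Par P → (m : ℕ) → Config m → ML → Prop}
    (h : ∀ ε : ℝ, 0 < ε → ∀ (P : CTree) (m : ℕ), ∀ᵐ q : (PhasePoint × Par P) × (Config m × ML)
      ∂((volume : Measure (PhasePoint × Par P)).prod ((volume : Measure (Config m)).prod
        (OneC423.baseM (volume.restrict (Ioc 0 Q.te))))), ¬ N ε P q.1 m q.2.1 q.2.2) :
    OSNull Φ f₀ K Q T' fun ε P z m w l => if N ε P z m w l then 1 else 0 := by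
  intro δ _
  refine ⟨1, one_pos, fun ε hε _ => ?_⟩
  set μ : (P : CTree) → (m : ℕ) → Measure ((PhasePoint × Par P) × (Config m × ML)) := fun P m =>
    (volume : Measure (PhasePoint × Par P)).prod ((volume : Measure (Config m)).prod
        (OneC423.baseM (volume.restrict (Ioc 0 Q.te)))) with hμ
  set B : (P : CTree) → (m : ℕ) → Set ((PhasePoint × Par P) × (Config m × ML)) := fun P m =>
    toMeasurable (μ P m) {q | N ε P q.1 m q.2.1 q.2.2} with hB
  have hB0 : ∀ P m, μ P m (B P m) = 0 := by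
    intro P m
    rw [hB, measure_toMeasurable]
    have := h ε hε P m
    rw [ae_iff] at this
    simpa using this
  refine ⟨fun P z m w l => (B P m).indicator 1 (z, (w, l)), ?_, ?_, ?_⟩
  · intro P m
    exact measurable_one.indicator (measurableSet_toMeasurable _ _)
  · intro P z m w l _
    show (if N ε P z m w l then (1 : ℝ≥0∞) else 0) ≤ (B P m).indicator 1 (z, (w, l))
    by_cases hN : N ε P z m w l
    · rw [if_pos hN, indicator_of_mem (subset_toMeasurable _ _ (show (z, (w, l)) ∈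
        {q : (PhasePoint × Par P) × (Config m × ML) | N ε P q.1 m q.2.1 q.2.2} from hN))]
      rfl
    · rw [if_neg hN]
      exact bot_le
  · refine le_trans (le_of_eq ?_) bot_le
    unfold OS
    have h1 : ∀ P : CTree, ∫⁻ z : PhasePoint × Par P,
        {z : PhasePoint × Par P | Valid Φ ε P T' z.1.2 z.2}.indicator
          (fun z => wt Φ P z.1.2 z.2 * (ToTree335.pf Φ f₀ ε P z *
            gcE f₀ ε (fun m w => ∫⁻ l, {l : ML | (z, l.1) ∈ OneC423.ctSet Φ ε Q.te P}.indicator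
              (fun l => lineD Q.γ Q.ρ K l * (B P m).indicator 1 (z, (w, l))) l
                ∂(OneC423.baseM (volume.restrict (Ioc 0 Q.te)))))) z = 0 := by
      intro P
      have h2 : ∀ m, ∀ᵐ z : PhasePoint × Par P, ∀ᵐ w : Config m, ∀ᵐ l
          ∂(OneC423.baseM (volume.restrict (Ioc 0 Q.te))), (z, (w, l)) ∉ B P m := by
        intro m
        have h3 : ∀ᵐ q ∂(μ P m), q ∉ B P m := by
          rw [← measure_eq_zero_iff_ae_notMem]
          exact hB0 P m
        have h4 := Measure.ae_ae_of_ae_prod h3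
        filter_upwards [h4] with z hz
        exact Measure.ae_ae_of_ae_prod hz
      have h5 := ae_all_iff.2 h2
      refine (lintegral_congr_ae ?_).trans lintegral_zero
      filter_upwards [h5] with z hz
      have h6 : gcE f₀ ε (fun m w => ∫⁻ l,
          {l : ML | (z, l.1) ∈ OneC423.ctSet Φ ε Q.te P}.indicator
            (fun l => lineD Q.γ Q.ρ K l * (B P m).indicator 1 (z, (w, l))) l
              ∂(OneC423.baseM (volume.restrict (Ioc 0 Q.te)))) = 0 := by
        unfold gcE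
        have h7 : ∀ m, ∫⁻ w : Config m, gcWeight f₀ ε m w * ∫⁻ l,
            {l : ML | (z, l.1) ∈ OneC423.ctSet Φ ε Q.te P}.indicator
              (fun l => lineD Q.γ Q.ρ K l * (B P m).indicator 1 (z, (w, l))) l
                ∂(OneC423.baseM (volume.restrict (Ioc 0 Q.te))) = 0 := by
          intro m
          refine (lintegral_congr_ae ?_).trans lintegral_zero
          filter_upwards [hz m] with w hw
          have h8 : ∫⁻ l, {l : ML | (z, l.1) ∈ OneC423.ctSet Φ ε Q.te P}.indicator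
              (fun l => lineD Q.γ Q.ρ K l * (B P m).indicator 1 (z, (w, l))) l
                ∂(OneC423.baseM (volume.restrict (Ioc 0 Q.te))) = 0 := by
            refine (lintegral_congr_ae ?_).trans lintegral_zero
            filter_upwards [hw] with l hl
            by_cases hc : l ∈ {l : ML | (z, l.1) ∈ OneC423.ctSet Φ ε Q.te P}
            · rw [indicator_of_mem hc, indicator_of_notMem hl, mul_zero]
            · rw [indicator_of_notMem hc]
          show gcWeight f₀ ε m w * _ = 0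
          rw [h8, mul_zero]
        simp only [h7, mul_zero, tsum_zero]
      show {z : PhasePoint × Par P | Valid Φ ε P T' z.1.2 z.2}.indicator _ z = 0
      by_cases hv : z ∈ {z : PhasePoint × Par P | Valid Φ ε P T' z.1.2 z.2}
      · rw [indicator_of_mem hv, h6, mul_zero, mul_zero]
      · rw [indicator_of_notMem hv]
    simp only [h1, tsum_zero, mul_zero]
    rfl

/-! ## From the gateway (trees + test line on the contact) -/

open Crest.Agent.R122.OSMeas984 Crest.Agent.R122.Gate973 Crest.Agent.R122.Gate424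

/-- **From the gateway**: functionals which are null against `osM` for every tree. -/
theorem osNull_of_fNull (hΦ : AdmissiblePotential Φ) (hf : Measurable f₀) (hγ : Measurable Q.γ)
    (K : ℕ) (T' : ℝ) {F : ℝ → SF} (h : ∀ P : CTree, P.leaves ≤ K →
      FNull f₀ (fun ε (_ : Unit) => osM Φ f₀ ε K Q T' (volume.restrict (Ioc 0 Q.te)) P)
        (fun ε _ n θ w => F ε P θ.1 n w θ.2)) :
    OSNull Φ f₀ K Q T' F := by
  intro δ hδ
  set N : ℕ := (GIVStep383.trees K).card with hN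
  set δ' : ℝ := δ / (N + 1) with hδ'
  have hδ'0 : 0 < δ' := by positivity
  have hP : ∀ P : CTree, ∃ ε₀ : ℝ, 0 < ε₀ ∧ ∀ ε : ℝ, 0 < ε → ε < ε₀ →
      ∃ G : (n : ℕ) → ((PhasePoint × Par P) × ML) × Config n → ℝ≥0∞, (∀ n, Measurable (G n)) ∧
        (P.leaves ≤ K → ∀ n θ (w : Config n), w ∈ PairExcluded ε n →
          F ε P θ.1 n w θ.2 ≤ G n (θ, w)) ∧
        ∫⁻ θ, gcE f₀ ε (fun n w => G n (θ, w))
          ∂(osM Φ f₀ ε K Q T' (volume.restrict (Ioc 0 Q.te)) P) ≤ ENNReal.ofReal δ' := by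
    intro P
    by_cases hPK : P.leaves ≤ K
    · obtain ⟨ε₀, h0, h1⟩ := h P hPK (ENNReal.ofReal δ') (by simpa using hδ'0)
      refine ⟨ε₀, h0, fun ε hε hlt => ?_⟩
      obtain ⟨G, hG, hle, hi⟩ := h1 ε hε hlt ()
      exact ⟨G, hG, fun _ => hle, hi⟩
    · refine ⟨1, one_pos, fun ε _ _ => ⟨fun _ _ => 0, fun _ => measurable_const,
        fun h => absurd h hPK, ?_⟩⟩
      simp [gcE_zero]
  choose e he hG using hP
  -- the smallest threshold
  obtain ⟨ε₀, h0, hmin⟩ : ∃ ε₀ : ℝ, 0 < ε₀ ∧ ∀ P ∈ GIVStep383.trees K, ε₀ ≤ e P := by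
    rcases (GIVStep383.trees K).eq_empty_or_nonempty with h1 | h1
    · exact ⟨1, one_pos, fun P hP => by rw [h1] at hP; exact absurd hP (Finset.notMem_empty P)⟩
    · obtain ⟨P₀, hP₀, hmin⟩ := (GIVStep383.trees K).exists_min_image e h1
      exact ⟨e P₀, he P₀, hmin⟩
  refine ⟨ε₀, h0, fun ε hε hlt => ?_⟩
  have hG' : ∀ P : CTree, ∃ G : (n : ℕ) → ((PhasePoint × Par P) × ML) × Config n → ℝ≥0∞,
      (∀ n, Measurable (G n)) ∧ (P ∈ GIVStep383.trees K → ∀ n θ (w : Config n),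
        w ∈ PairExcluded ε n → F ε P θ.1 n w θ.2 ≤ G n (θ, w)) ∧
      (P ∈ GIVStep383.trees K → ∫⁻ θ, gcE f₀ ε (fun n w => G n (θ, w))
          ∂(osM Φ f₀ ε K Q T' (volume.restrict (Ioc 0 Q.te)) P) ≤ ENNReal.ofReal δ') ∧
      (P ∉ GIVStep383.trees K → ∀ n, G n = fun _ => 0) := by
    intro P
    by_cases hP : P ∈ GIVStep383.trees K
    · obtain ⟨G, h1, h2, h3⟩ := hG P ε hε (hlt.trans_le (hmin P hP))
      exact ⟨G, h1, fun _ => h2 (GIVStep383.mem_trees.1 hP), fun _ => h3, fun h => absurd hP h⟩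
    · exact ⟨fun _ _ => 0, fun _ => measurable_const, fun h => absurd h hP,
        fun h => absurd h hP, fun _ _ => rfl⟩
  choose G hGm hGle hGi hG0 using hG'
  refine ⟨fun P z m w l => G P m ((z, l), w), fun P m => ?_, fun P z m w l hg => ?_, ?_⟩
  · exact (hGm P m).comp (f := fun q : (PhasePoint × Par P) × (Config m × ML) =>
      ((q.1, q.2.2), q.2.1)) ((measurable_fst.prodMk measurable_snd.snd).prodMk
        measurable_snd.fst)
  · have hPK : P.leaves ≤ K := le_trans (Nat.le_add_left _ _) hg.small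
    exact hGle P (GIVStep383.mem_trees.2 hPK) m (z, l) w hg.real.exw
  · rw [OS_eq hΦ hf hγ (H := fun P z m w l => G P m ((z, l), w)) fun P m =>
      (hGm P m).comp (f := fun q : (PhasePoint × Par P) × (Config m × ML) =>
        ((q.1, q.2.2), q.2.1)) ((measurable_fst.prodMk measurable_snd.snd).prodMk
          measurable_snd.fst)]
    rw [tsum_eq_sum (s := GIVStep383.trees K)]
    · calc ∑ P ∈ GIVStep383.trees K, gcE f₀ ε (fun m w =>
            ∫⁻ θ, G P m ((θ.1, θ.2), w) ∂(osM Φ f₀ ε K Q T' (volume.restrict (Ioc 0 Q.te)) P))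
          ≤ ∑ _P ∈ GIVStep383.trees K, ENNReal.ofReal δ' := by
            refine Finset.sum_le_sum fun P hP => ?_
            refine le_trans (le_of_eq ?_) (hGi P hP)
            exact (LN2.lintegral_gcE_swap hf ε
              (osM Φ f₀ ε K Q T' (volume.restrict (Ioc 0 Q.te)) P)
              (F := fun m θ w => G P m (θ, w)) fun m => hGm P m).symm
        _ = N * ENNReal.ofReal δ' := by rw [Finset.sum_const, nsmul_eq_mul]
        _ = ENNReal.ofReal (N * δ') := by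
            rw [ENNReal.ofReal_mul (by positivity), ENNReal.ofReal_natCast]
        _ ≤ ENNReal.ofReal δ := by
            refine ENNReal.ofReal_le_ofReal ?_
            rw [hδ', mul_div_assoc', div_le_iff₀ (by positivity)]
            nlinarith [Nat.cast_nonneg (α := ℝ) N]
    · intro P hP
      have h1 : ∀ (m : ℕ) (w : Config m), ∫⁻ θ, G P m ((θ.1, θ.2), w)
          ∂(osM Φ f₀ ε K Q T' (volume.restrict (Ioc 0 Q.te)) P) = 0 := by
        intro m w
        simp only [hG0 P hP m, lintegral_zero]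
      simp only [h1]
      exact gcE_zero f₀ ε

/-- **From the gateway**: events which are null against `osM` for every tree. -/
theorem osNull_of_gNull (hΦ : AdmissiblePotential Φ) (hf : Measurable f₀) (hγ : Measurable Q.γ)
    (K : ℕ) (T' : ℝ) {N : (ε : ℝ) → (P : CTree) → PhasePoint × Par P → (m : ℕ) → Config m → ML →
      Prop} (h : ∀ P : CTree, P.leaves ≤ K →
      GNull f₀ (fun ε (_ : Unit) => osM Φ f₀ ε K Q T' (volume.restrict (Ioc 0 Q.te)) P)
        (fun ε _ n θ w => N ε P θ.1 n w θ.2)) :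
    OSNull Φ f₀ K Q T' fun ε P z m w l => if N ε P z m w l then 1 else 0 :=
  osNull_of_fNull hΦ hf hγ K T' (F := fun ε P z m w l => if N ε P z m w l then 1 else 0)
    fun P hP => FNull.ofE (h P hP)

end Crest.Agent.R122.LinkAsm984

end
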