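import Crest.Agent.R122.ThirdNu2_741
import Crest.Agent.R122.LinkSel_984

/-!
# Bad encounters of pairs (row 122, 13f), helper416: the cheap fields

Uniform over the laws `PX (PP K) Ξ ν c`.

* `simple_OS2_le` : functionals of the contact data with a uniform flux bound.
* `pass_OS2` : the encounter is a passage, almost surely.
* `hor_OS2_le` : the contact is at most `a` before the horizon: `≤ c D a`.
-/

set_option autoImplicit false

open MeasureTheory Set Filter Topology
open scoped ENNReal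
open Crest.AnalysisR.Kinetic
open Crest.Agent.R122.Kin796 Crest.Agent.R122.Kin796.CTree Crest.Agent.R122.Tree674
open Crest.Agent.R122.Disc416 Crest.Agent.R122.Flux663 Crest.Agent.R122.OC663 Crest.Agent.R122.EDefs602
open Crest.Agent.R122.GC311 Crest.Agent.R122.Flow671 Crest.Agent.R122.Loc45 Crest.Agent.R122.Mom974
open Crest.Agent.R122.OneC423 Crest.Agent.R122.TreeDom974 Crest.Agent.R122.OneC285
open Crest.Agent.R122.Pair292 hiding ML
open Crest.Agent.R122.PairD292
open Crest.Agent.R122.Boost969 (LSt posAt)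
open Crest.Agent.R122.Third741
open Crest.Agent.R122.OCout796 Crest.Agent.R122.Scat818 Crest.Agent.R122.Ins45
open Crest.Agent.R122.LinkAsm984 (passG measCF_passG measurableSet_CDpass)

noncomputable section

namespace Crest.Agent.R122.EncNu416

variable {Φ : Space3 → ℝ} {f₀ : PhasePoint → ℝ} {ε : ℝ}

/-- Functionals of the contact data with a uniform flux bound. -/
theorem simple_OS2_le (hΦ : AdmissiblePotential Φ) {A : Space3 → ℝ≥0∞} {C b g0 : ℝ}
    (hF : FOk f₀ A C b) {Q : EPar} (hQ : QOk Q g0) {PP : ℕ → PPar} (hP : PPOk Q PP)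
    {Cv : ℝ≥0∞} (hV : Vel4 Q PP Cv) (K : ℕ) (T' : ℝ) :
    ∃ D : ℝ≥0∞, D ≠ ∞ ∧ ∀ ε : ℝ, 0 < ε → ∀ g : CF, MeasCF g → ∀ B : ℝ≥0∞,
      (∀ (μ : Measure Space3) [SFinite μ] (P : CTree) (z : PhasePoint × Par P) (m : ℕ)
        (w : Config m), fluxM Q.te μ g P z m w ≤ m4 μ * (ENNReal.ofReal (1 + ‖z.1.2‖) * B)) →
      ∀ (Ξ ν : Measure (Lab × LSt)) (c : ℝ≥0∞), c ≠ ∞ → PX (PP K) Ξ ν c → ∀ H : SF2,
      (∀ P z m w θ, (z, θ.2) ∈ ctSet Φ ε Q.te P → H P z m w θ ≤ sf2Of ε K g P z m w θ) →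
      OS2 Φ f₀ ε Q.te T' ν H ≤ c * (D * B) := by
  have hb2 := half_pos hF.b_pos
  choose C' hC' using fun P : CTree => hF.maj.tree hΦ hb2 (half_lt_self hF.b_pos) P
  set IA : ℝ≥0∞ := ∫⁻ x, A x with hIA
  have hIAt : IA ≠ ∞ := hF.maj.fin
  refine ⟨∑ P ∈ GIVStep383.trees K, IA * (Dm4 Q g0 Cv K * ∫⁻ q : Space3 × Par P,
    domG (C' P) (b / 2) T' P q.1 q.2 * ENNReal.ofReal ((1 + ‖q.1‖) ^ 1)), ?_, ?_⟩
  · exact ENNReal.sum_ne_top.2 fun P _ => ENNReal.mul_ne_top hIAt (ENNReal.mul_ne_top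
      (Dm4_ne_top hQ hV.fin K) (lintegral_domG_pow_ne_top (hC' P).C_nonneg hb2 T' P 1))
  intro ε hε g hg B hB Ξ ν c hcν hPX H hH
  have hν := hPX.invFam
  have := hPX.sfν
  have hμ4 := m4_muV_le hQ hP hV hPX
  set μ : Measure Space3 := muV K Q.te ν with hμ
  refine (OS2_le hΦ hε hν hg hH).trans ?_
  rw [Finset.sum_mul, Finset.mul_sum]
  refine Finset.sum_le_sum fun P _ => ?_
  have hC0 := (hC' P).C_nonneg
  have hw1 : Measurable fun q : Space3 × Par P => ENNReal.ofReal (1 + ‖q.1‖) := by fun_prop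
  set F : Space3 × Par P → ℝ≥0∞ := fun q => m4 μ * (ENNReal.ofReal (1 + ‖q.1‖) * B) with hFd
  have hFm : Measurable F := (hw1.mul_const _).const_mul _
  have hgc : ∀ z : PhasePoint × Par P, gcE f₀ ε (fun m w => fluxM Q.te μ g P z m w) ≤
      F (z.1.2, z.2) := by
    intro z
    refine (gcE_mono f₀ ε fun m w _ => hB μ P z m w).trans ?_
    exact Long984.gcE_const_le hF.meas hF.mass ε _
  have hdm : Measurable fun q : Space3 × Par P =>
      domG (C' P) (b / 2) T' P q.1 q.2 * ENNReal.ofReal (1 + ‖q.1‖) :=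
    (measurable_domG hC0 (b / 2) T' P).mul hw1
  calc ∫⁻ z : PhasePoint × Par P, {z : PhasePoint × Par P | Valid Φ ε P T' z.1.2 z.2}.indicator
        (fun z => wt Φ P z.1.2 z.2 * (ToTree335.pf Φ f₀ ε P z *
          gcE f₀ ε (fun m w => fluxM Q.te μ g P z m w))) z
      ≤ ∫⁻ z : PhasePoint × Par P, {z : PhasePoint × Par P |
          Valid Φ ε P T' z.1.2 z.2}.indicator
        (fun z => wt Φ P z.1.2 z.2 * (ToTree335.pf Φ f₀ ε P z * F (z.1.2, z.2))) z := by
        refine lintegral_mono fun z => indicator_le_indicator ?_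
        exact mul_le_mul' le_rfl (mul_le_mul' le_rfl (hgc z))
    _ ≤ IA * ∫⁻ q : Space3 × Par P, domG (C' P) (b / 2) T' P q.1 q.2 * F q :=
        (hC' P).lintegral_u hΦ hε.le T' hFm
    _ = IA * (m4 μ * ((∫⁻ q : Space3 × Par P, domG (C' P) (b / 2) T' P q.1 q.2 *
          ENNReal.ofReal ((1 + ‖q.1‖) ^ 1)) * B)) := by
        have e1 : ∀ q : Space3 × Par P, domG (C' P) (b / 2) T' P q.1 q.2 * F q =
            m4 μ * ((domG (C' P) (b / 2) T' P q.1 q.2 * ENNReal.ofReal (1 + ‖q.1‖)) * B) := by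
          intro q
          rw [hFd]
          ring
        simp only [e1, pow_one]
        rw [lintegral_const_mul _ (hdm.mul_const _), lintegral_mul_const _ hdm]
    _ ≤ IA * ((Dm4 Q g0 Cv K * c) * ((∫⁻ q : Space3 × Par P,
          domG (C' P) (b / 2) T' P q.1 q.2 * ENNReal.ofReal ((1 + ‖q.1‖) ^ 1)) * B)) :=
        mul_le_mul' le_rfl (mul_le_mul' hμ4 le_rfl)
    _ = _ := by ring

/-! ### Passage -/

theorem fluxM_pass (hΦ : AdmissiblePotential Φ) (te : ℝ) (μ : Measure Space3) (P : CTree)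
    (z : PhasePoint × Par P) (m : ℕ) (w : Config m) : fluxM te μ (passG Φ) P z m w = 0 := by
  unfold fluxM
  refine (setLIntegral_congr_fun measurableSet_Ioc fun s _ => ?_).trans lintegral_zero
  refine (lintegral_congr fun v => ?_).trans lintegral_zero
  by_cases hv : v - z.1.2 = 0
  · rw [hv, norm_zero, ENNReal.ofReal_zero, zero_mul]
  have h0 : ∫⁻ b in impactDisc (v - z.1.2), passG Φ P z m w s v b ∂μHE[2] = 0 := by
    have hd : MeasurableSet (impactDisc (v - z.1.2)) := Disc416.measurableSet_impactDisc _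
    refine (lintegral_congr_ae ?_).trans lintegral_zero
    rw [Filter.EventuallyEq, ae_restrict_iff' hd]
    have ht := measure_trapped hΦ hv
    rw [measure_eq_zero_iff_ae_notMem] at ht
    filter_upwards [ht] with b hb hbd
    unfold passG
    rw [if_pos]
    refine ⟨⟨hbd, hv⟩, ?_⟩
    by_contra hn
    exact hb ⟨hbd, hn⟩
  rw [h0, mul_zero]

/-- **Field `pass`** : the contact data are a passage, almost surely. -/
theorem pass_OS2 (hΦ : AdmissiblePotential Φ) (hε : 0 < ε) {K : ℕ} {te T' : ℝ}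
    {ν : Measure (Lab × LSt)} (hν : InvFam shP (fun p : Lab × LSt => p.2) posD ν) {H : SF2}
    (hH : ∀ P z m w θ, (z, θ.2) ∈ ctSet Φ ε te P →
      H P z m w θ ≤ sf2Of ε K (passG Φ) P z m w θ) : OS2 Φ f₀ ε te T' ν H = 0 := by
  refine le_antisymm ((OS2_le hΦ hε hν (measCF_passG hΦ) hH).trans (le_of_eq ?_)) zero_le
  refine Finset.sum_eq_zero fun P _ => ?_
  have h1 : (fun z : PhasePoint × Par P => {z : PhasePoint × Par P |
      Valid Φ ε P T' z.1.2 z.2}.indicator (fun z => wt Φ P z.1.2 z.2 *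
        (ToTree335.pf Φ f₀ ε P z * gcE f₀ ε (fun m w =>
          fluxM te (muV K te ν) (passG Φ) P z m w))) z) = fun _ => 0 := by
    funext z
    have h2 : gcE f₀ ε (fun m w => fluxM te (muV K te ν) (passG Φ) P z m w) = 0 := by
      simp only [fluxM_pass hΦ]
      exact gcE_zero f₀ ε
    by_cases hz : z ∈ {z : PhasePoint × Par P | Valid Φ ε P T' z.1.2 z.2}
    · rw [indicator_of_mem hz, h2, mul_zero, mul_zero]
    · rw [indicator_of_notMem hz]
  rw [h1, lintegral_zero]

/-! ### Contacts close to the horizon -/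

/-- The contact is at most `a` before the horizon `te`. -/
def horG (te a : ℝ) : CF := fun _P _z _m _w s _v _b => if te < s + a then 1 else 0

theorem measCF_horG (te a : ℝ) : MeasCF (horG te a) := by
  intro P m
  have h1 : Measurable fun q : ((PhasePoint × Par P) × Config m) × (ℝ × (Space3 × Space3)) =>
      q.2.1 + a := (measurable_fst.comp measurable_snd).add_const a
  exact Measurable.ite (measurableSet_lt measurable_const h1) measurable_const measurable_const

theorem norm_sub_le_pow (v u : Space3) :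
    ENNReal.ofReal ‖v - u‖ ≤ ENNReal.ofReal ((1 + ‖v‖) ^ 4) * ENNReal.ofReal (1 + ‖u‖) := by
  rw [← ENNReal.ofReal_mul (by positivity)]
  refine ENNReal.ofReal_le_ofReal ?_
  have h1 : ‖v - u‖ ≤ (1 + ‖v‖) * (1 + ‖u‖) := by
    have := norm_sub_le v u
    nlinarith [norm_nonneg v, norm_nonneg u, mul_nonneg (norm_nonneg v) (norm_nonneg u)]
  have h2 : 1 + ‖v‖ ≤ (1 + ‖v‖) ^ 4 :=
    le_self_pow₀ (by linarith [norm_nonneg v]) (by norm_num)
  exact h1.trans (mul_le_mul_of_nonneg_right h2 (by positivity))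

theorem fluxM_hor_le {te a : ℝ} (ha : 0 ≤ a) (μ : Measure Space3) [SFinite μ] (P : CTree)
    (z : PhasePoint × Par P) (m : ℕ) (w : Config m) :
    fluxM te μ (horG te a) P z m w ≤
      m4 μ * (ENNReal.ofReal (1 + ‖z.1.2‖) * (ENNReal.ofReal Real.pi * ENNReal.ofReal a)) := by
  have hpm : Measurable fun v : Space3 => ENNReal.ofReal ((1 + ‖v‖) ^ 4) := by fun_prop
  have h1 : ∀ s : ℝ, ∫⁻ v, ENNReal.ofReal ‖v - z.1.2‖ *
      ∫⁻ b in impactDisc (v - z.1.2), horG te a P z m w s v b ∂μHE[2] ∂μ ≤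
      (m4 μ * (ENNReal.ofReal (1 + ‖z.1.2‖) * ENNReal.ofReal Real.pi)) *
        (Ioc (te - a) te ∪ Ioi te).indicator 1 s := by
    intro s
    by_cases hs : te < s + a
    · have hmem : s ∈ Ioc (te - a) te ∪ Ioi te := by
        rcases le_or_gt s te with h | h
        · exact Or.inl ⟨by linarith, h⟩
        · exact Or.inr h
      rw [indicator_of_mem hmem, Pi.one_apply, mul_one]
      calc ∫⁻ v, ENNReal.ofReal ‖v - z.1.2‖ *
            ∫⁻ b in impactDisc (v - z.1.2), horG te a P z m w s v b ∂μHE[2] ∂μ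
          ≤ ∫⁻ v, ENNReal.ofReal ((1 + ‖v‖) ^ 4) *
            (ENNReal.ofReal (1 + ‖z.1.2‖) * ENNReal.ofReal Real.pi) ∂μ := by
            refine lintegral_mono fun v => ?_
            have e1 : (fun b => horG te a P z m w s v b) = fun _ => 1 := by
              funext b
              unfold horG
              rw [if_pos hs]
            have h := norm_mul_disc_const (v - z.1.2) 1 1
            simp only [one_mul, mul_one] at h
            simp only [e1]
            rw [h]
            calc ENNReal.ofReal Real.pi * ENNReal.ofReal ‖v - z.1.2‖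
                ≤ ENNReal.ofReal Real.pi * (ENNReal.ofReal ((1 + ‖v‖) ^ 4) *
                  ENNReal.ofReal (1 + ‖z.1.2‖)) := mul_le_mul' le_rfl (norm_sub_le_pow v z.1.2)
              _ = _ := by ring
        _ = _ := by
            rw [lintegral_mul_const _ hpm]
            rfl
    · have e1 : ∀ v b, horG te a P z m w s v b = 0 := fun v b => by
        unfold horG
        rw [if_neg hs]
      simp only [e1, lintegral_zero, mul_zero]
      exact zero_le
  unfold fluxM
  calc ∫⁻ s in Ioc 0 te, ∫⁻ v, ENNReal.ofReal ‖v - z.1.2‖ *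
        ∫⁻ b in impactDisc (v - z.1.2), horG te a P z m w s v b ∂μHE[2] ∂μ
      ≤ ∫⁻ s in Ioc 0 te, (m4 μ * (ENNReal.ofReal (1 + ‖z.1.2‖) * ENNReal.ofReal Real.pi)) *
        (Ioc (te - a) te ∪ Ioi te).indicator 1 s := lintegral_mono fun s => h1 s
    _ = (m4 μ * (ENNReal.ofReal (1 + ‖z.1.2‖) * ENNReal.ofReal Real.pi)) *
        ∫⁻ s in Ioc 0 te, (Ioc (te - a) te ∪ Ioi te).indicator 1 s :=
        lintegral_const_mul _ (measurable_one.indicator
          (measurableSet_Ioc.union measurableSet_Ioi))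
    _ ≤ (m4 μ * (ENNReal.ofReal (1 + ‖z.1.2‖) * ENNReal.ofReal Real.pi)) *
        ENNReal.ofReal a := by
        refine mul_le_mul' le_rfl ?_
        rw [lintegral_indicator_one (measurableSet_Ioc.union measurableSet_Ioi),
          Measure.restrict_apply (measurableSet_Ioc.union measurableSet_Ioi)]
        refine (measure_mono (t := Ioc (te - a) te) ?_).trans ?_
        · rintro s ⟨h2 | h2, h3⟩
          · exact h2
          · exact absurd h3.2 (not_le.2 h2)
        · rw [Real.volume_Ioc]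
          refine ENNReal.ofReal_le_ofReal (by linarith)
    _ = _ := by ring

/-- **Field `hor`** : contacts at most `a` before the horizon. -/
theorem hor_OS2_le (hΦ : AdmissiblePotential Φ) {A : Space3 → ℝ≥0∞} {C b g0 : ℝ}
    (hF : FOk f₀ A C b) {Q : EPar} (hQ : QOk Q g0) {PP : ℕ → PPar} (hP : PPOk Q PP)
    {Cv : ℝ≥0∞} (hV : Vel4 Q PP Cv) (K : ℕ) (T' : ℝ) :
    ∃ D : ℝ≥0∞, D ≠ ∞ ∧ ∀ ε : ℝ, 0 < ε → ∀ a : ℝ, 0 ≤ a →
      ∀ (Ξ ν : Measure (Lab × LSt)) (c : ℝ≥0∞), c ≠ ∞ → PX (PP K) Ξ ν c → ∀ H : SF2,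
      (∀ P z m w θ, (z, θ.2) ∈ ctSet Φ ε Q.te P →
        H P z m w θ ≤ sf2Of ε K (horG Q.te a) P z m w θ) →
      OS2 Φ f₀ ε Q.te T' ν H ≤ c * (D * ENNReal.ofReal a) := by
  obtain ⟨D, hD, h⟩ := simple_OS2_le hΦ hF hQ hP hV K T'
  refine ⟨D * ENNReal.ofReal Real.pi, ENNReal.mul_ne_top hD ENNReal.ofReal_ne_top, ?_⟩
  intro ε hε a ha Ξ ν c hc hPX H hH
  refine (h ε hε (horG Q.te a) (measCF_horG _ _) (ENNReal.ofReal Real.pi * ENNReal.ofReal a)
    (fun μ _ P z m w => fluxM_hor_le ha μ P z m w) Ξ ν c hc hPX H hH).trans (le_of_eq ?_)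
  ring

end Crest.Agent.R122.EncNu416

end
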