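import Crest.Agent.R122.OsPMom_581
import Crest.Agent.R122.EncNu_416
import Crest.Agent.R122.MeasOC_434
import Crest.Agent.R122.OneC_423

/-!
# Row 122, inequality 3 (helper416): almost sure facts of the contact under `osP`

The law of a contact tree and a structure of an admissible shape; everything from the translation
invariance of the structure.

* `ct_null` : translates of a line which touch the root with bad contact data have volume zero.
* `ae_of_tr` : almost sure facts under `osP` from the translates.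
* `ae_cd` : the contact data are not in a null set of data; `ae_pass`, `gNull_pass` : the encounter
  is a passage.
* `ae_time` : `cT + o(cD)` is not a given invariant time (measurable `o`); `ae_cT_ne` : `o = 0`.
-/

set_option autoImplicit false
set_option linter.unusedSectionVars false

open MeasureTheory Set Filter Topology
open scoped Classical ENNReal
open Crest.AnalysisR.Kinetic

noncomputable section

namespace Crest.Agent.R122.PassAE416

open Crest.Agent.R122.GC311 Crest.Agent.R122.Kin796 Crest.Agent.R122.Kin796.CTree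
open Crest.Agent.R122.Tree674 Crest.Agent.R122.EDefs602
open Crest.Agent.R122.Gate424 Crest.Agent.R122.Gate973 Crest.Agent.R122.LN2
open Crest.Agent.R122.Boost969 (LSt)
open Crest.Agent.R122.Pair292 (Lab shP shL shM)
open Crest.Agent.R122.PairD292 Crest.Agent.R122.PairRep581
open Crest.Agent.R122.OneC285 (cT cD)
open Crest.Agent.R122.OCout796 Crest.Agent.R122.Scat818 Crest.Agent.R122.Ins45

variable {Φ : Space3 → ℝ} {f₀ : PhasePoint → ℝ} {γ β : ℝ} {ρ : Space3 → ℝ≥0∞} {S : Shp}
  {te T' ε : ℝ} {K : ℕ} {P : CTree}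

/-- Translates of a line which touch the root with bad contact data. -/
theorem ct_null (hΦ : AdmissiblePotential Φ) (hε : 0 < ε) (z : PhasePoint × Par P)
    {H : ML → ℝ≥0∞} (hH : Measurable H) (e : LSt) (n : ℕ)
    (h0 : e.2.2 - z.1.2 ≠ 0 → ∫⁻ s in {s | e.1 < s ∧ s ≤ te ∧ Valid Φ ε P s z.1.2 z.2},
      ∫⁻ b in impactDisc (e.2.2 - z.1.2),
        H (OneC423.lineAt ε s z.1 e.1 e.2.2 b n) ∂μHE[2] = 0) :
    ∫⁻ a : Space3, {a : Space3 | (z, shL a e) ∈ OneC423.ctSet Φ ε te P}.indicator
      (fun a => H (shL a e, n)) a = 0 := by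
  have h1 := OneC423.lintegral_ct_y (te := te) hΦ hε z e.1 e.2.2 n hH
  have h2 : ∫⁻ a : Space3, {a : Space3 | (z, shL a e) ∈ OneC423.ctSet Φ ε te P}.indicator
      (fun a => H (shL a e, n)) a =
      ∫⁻ y : Space3, {l : ML | (z, l.1) ∈ OneC423.ctSet Φ ε te P}.indicator H
        (((e.1, (y, e.2.2)), n) : ML) := by
    rw [← lintegral_add_left_eq_self (fun y : Space3 =>
      {l : ML | (z, l.1) ∈ OneC423.ctSet Φ ε te P}.indicator H
        (((e.1, (y, e.2.2)), n) : ML)) e.2.1]
    rfl
  rw [h2, h1]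
  by_cases hg : e.2.2 - z.1.2 = 0
  · rw [hg, norm_zero, ENNReal.ofReal_zero, zero_mul, mul_zero]
  · rw [h0 hg, mul_zero, mul_zero]

theorem measurableSet_ctOkS' (h : ShpOk γ β ρ S) (hΦ : AdmissiblePotential Φ) (hε : 0 < ε) :
    MeasurableSet (ctOkS Φ ε K te P S) := by
  have h1 : Measurable fun q : (PhasePoint × Par P) × S.Θ => (q.1, S.th ε q.2) :=
    measurable_fst.prodMk ((h.mth ε hε).comp measurable_snd)
  exact h1 (measurableSet_ctOk hΦ ε K te P)

/-- **Almost sure facts under `osP`** from the translates of the structure. -/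
theorem ae_of_tr (h : ShpOk γ β ρ S) (hΦ : AdmissiblePotential Φ) (hε : 0 < ε)
    {E : ((PhasePoint × Par P) × S.Θ) → Prop} (hE : MeasurableSet {q | E q})
    (h0 : ∀ z x, ∫⁻ a : Space3, {a : Space3 | (z, shL a (S.th ε x).2) ∈
      OneC423.ctSet Φ ε te P}.indicator (fun a => if E (z, S.Tr a x) then 1 else 0) a = 0) :
    ∀ᵐ q ∂(osP Φ f₀ te T' K P S ε ()), ¬ E q := by
  have hsf := h.sf ε
  have hct : MeasurableSet {q : (PhasePoint × Par P) × S.Θ |
      (q.1, (S.th ε q.2).2) ∈ OneC423.ctSet Φ ε te P} := by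
    have h1 : Measurable fun q : (PhasePoint × Par P) × S.Θ => (q.1, (S.th ε q.2).2) :=
      measurable_fst.prodMk ((measurable_eLx h hε).comp measurable_snd)
    exact h1 (OneC423.measurableSet_ctSet hΦ ε te P)
  set N : Set ((PhasePoint × Par P) × S.Θ) := {q | (q.1, (S.th ε q.2).2) ∈
    OneC423.ctSet Φ ε te P} ∩ {q | E q} with hN
  have hNm : MeasurableSet N := hct.inter hE
  have key : ∀ z : PhasePoint × Par P, (S.m ε) (Prod.mk z ⁻¹' N) = 0 := by
    intro z
    have hNz : MeasurableSet (Prod.mk z ⁻¹' N) := measurable_prodMk_left hNm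
    obtain ⟨j₀, -⟩ := h.pin
    have hI := (h.tInv_e hε).invFam j₀
    rw [← lintegral_indicator_one hNz,
      hI.disint measurable_chi lintegral_chi (measurable_one.indicator hNz)]
    refine (lintegral_congr fun x => ?_).trans lintegral_zero
    have h1 : ∀ a : Space3, (Prod.mk z ⁻¹' N).indicator (1 : S.Θ → ℝ≥0∞) (S.Tr a x) =
        {a : Space3 | (z, shL a (S.th ε x).2) ∈ OneC423.ctSet Φ ε te P}.indicator
          (fun a => if E (z, S.Tr a x) then 1 else 0) a := by
      intro a
      have e1 : (S.th ε (S.Tr a x)).2 = shL a (S.th ε x).2 := by rw [h.th_tr ε hε]; rfl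
      by_cases hc : (z, shL a (S.th ε x).2) ∈ OneC423.ctSet Φ ε te P
      · rw [indicator_of_mem (show a ∈
          {a : Space3 | (z, shL a (S.th ε x).2) ∈ OneC423.ctSet Φ ε te P} from hc)]
        have hc' : (z, (S.th ε (S.Tr a x)).2) ∈ OneC423.ctSet Φ ε te P := by rw [e1]; exact hc
        by_cases hEa : E (z, S.Tr a x)
        · rw [indicator_of_mem (show S.Tr a x ∈ Prod.mk z ⁻¹' N from ⟨hc', hEa⟩), if_pos hEa]
          rfl
        · rw [indicator_of_notMem (show S.Tr a x ∉ Prod.mk z ⁻¹' N from fun hx => hEa hx.2),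
            if_neg hEa]
      · rw [indicator_of_notMem (show a ∉
          {a : Space3 | (z, shL a (S.th ε x).2) ∈ OneC423.ctSet Φ ε te P} from hc),
          indicator_of_notMem (show S.Tr a x ∉ Prod.mk z ⁻¹' N from fun hx => hc (by
            have h2 : (z, (S.th ε (S.Tr a x)).2) ∈ OneC423.ctSet Φ ε te P := hx.1
            rwa [e1] at h2))]
    simp only [h1]
    rw [h0 z x, mul_zero]
  have h2 : ((treeA Φ f₀ ε T' P).prod (S.m ε)) N = 0 := by
    rw [Measure.prod_apply hNm]
    simp only [key, lintegral_zero]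
  have h3 : ∀ᵐ q ∂((treeA Φ f₀ ε T' P).prod (S.m ε)), q ∉ N :=
    measure_eq_zero_iff_ae_notMem.1 h2
  unfold osP
  have h4 := measurableSet_ctOkS' (K := K) (te := te) (P := P) h hΦ hε
  rw [ae_restrict_iff' h4]
  filter_upwards [h3] with q hq hc hEq
  exact hq ⟨hc.1, hEq⟩

/-- **The contact data are not in a null set.** -/
theorem ae_cd (h : ShpOk γ β ρ S) (hΦ : AdmissiblePotential Φ) (hε : 0 < ε) {B : Set CD}
    (hB : MeasurableSet B)
    (h0 : ∀ v u : Space3, v - u ≠ 0 → ∀ᵐ b ∂(μHE[2] : Measure Space3), b ∈ impactDisc (v - u) →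
      (v, u, b) ∉ B) :
    ∀ᵐ q ∂(osP Φ f₀ te T' K P S ε ()), cD ε q.1 (eL (S.th ε q.2)) ∉ B := by
  have hm : Measurable fun q : (PhasePoint × Par P) × S.Θ => cD ε q.1 (eL (S.th ε q.2)) := by
    have h1 : Measurable fun q : (PhasePoint × Par P) × S.Θ => (q.1, eL (S.th ε q.2)) := by
      refine measurable_fst.prodMk ?_
      have h2 : Measurable fun θ : Lab × LSt => eL θ := by
        unfold eL
        exact measurable_snd.prodMk measurable_fst.snd.snd
      exact h2.comp ((h.mth ε hε).comp measurable_snd)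
    exact (Long984.measurable_cD ε P).comp h1
  refine ae_of_tr (f₀ := f₀) (E := fun q => cD ε q.1 (eL (S.th ε q.2)) ∈ B) h hΦ hε (hm hB)
    fun z x => ?_
  set H : ML → ℝ≥0∞ := fun l => if cD ε z l ∈ B then 1 else 0 with hH
  have hHm : Measurable H := by
    have h1 : Measurable fun l : ML => cD ε z l :=
      (Long984.measurable_cD ε P).comp (measurable_const.prodMk measurable_id)
    exact Measurable.ite (h1 hB) measurable_const measurable_const
  have h1 := ct_null (te := te) hΦ hε z hHm (S.th ε x).2 (S.th ε x).1.2.2 fun hg => by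
    refine (setLIntegral_congr_fun ?_ fun s _ => ?_).trans lintegral_zero
    · have h1 : MeasurableSet {s : ℝ | (S.th ε x).2.1 < s} :=
        measurableSet_lt measurable_const measurable_id
      have hm : Measurable fun s : ℝ => ((s, z) : ℝ × (PhasePoint × Par P)) :=
        measurable_id.prodMk measurable_const
      exact h1.inter (hm (OneC423.measurableSet_validJ hΦ ε te P))
    · refine (lintegral_congr_ae ?_).trans lintegral_zero
      rw [Filter.EventuallyEq, ae_restrict_iff' (Disc416.measurableSet_impactDisc _)]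
      filter_upwards [h0 _ _ hg] with b hb hbd
      rw [hH]
      simp only
      rw [Long984.cD_lineAt hε s z (S.th ε x).2.1 (sub_ne_zero.1 hg) hbd (S.th ε x).1.2.2, if_neg (hb hbd)]
  refine (lintegral_congr fun a => ?_).trans h1
  have e1 : eL (S.th ε (S.Tr a x)) = (shL a (S.th ε x).2, (S.th ε x).1.2.2) := by
    rw [h.th_tr ε hε]; rfl
  by_cases hc : (z, shL a (S.th ε x).2) ∈ OneC423.ctSet Φ ε te P
  · rw [indicator_of_mem (show a ∈
      {a : Space3 | (z, shL a (S.th ε x).2) ∈ OneC423.ctSet Φ ε te P} from hc),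
      indicator_of_mem (show a ∈
      {a : Space3 | (z, shL a (S.th ε x).2) ∈ OneC423.ctSet Φ ε te P} from hc)]
    simp only [e1, hH]
  · rw [indicator_of_notMem (show a ∉
      {a : Space3 | (z, shL a (S.th ε x).2) ∈ OneC423.ctSet Φ ε te P} from hc),
      indicator_of_notMem (show a ∉
      {a : Space3 | (z, shL a (S.th ε x).2) ∈ OneC423.ctSet Φ ε te P} from hc)]

/-- **The encounter is a passage**, almost surely. -/
theorem ae_pass (h : ShpOk γ β ρ S) (hΦ : AdmissiblePotential Φ) (hε : 0 < ε) :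
    ∀ᵐ q ∂(osP Φ f₀ te T' K P S ε ()), CDpass Φ (cD ε q.1 (eL (S.th ε q.2))) := by
  have h1 := ae_cd (f₀ := f₀) (te := te) (T' := T') (K := K) (P := P) h hΦ hε
    (LinkAsm984.measurableSet_CDpass hΦ).compl fun v u hg => by
      have ht := measure_trapped hΦ hg
      rw [measure_eq_zero_iff_ae_notMem] at ht
      filter_upwards [ht] with b hb hbd hcon
      refine hcon ⟨⟨hbd, hg⟩, ?_⟩
      by_contra hn
      exact hb ⟨hbd, hn⟩
  filter_upwards [h1] with q hq
  exact not_not.1 hq

/-- Almost sure facts of (tree, structure) are null events. -/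
theorem gNull_of_aeQ (h : ShpOk γ β ρ S) (hf : Measurable f₀)
    {E : ℝ → ((PhasePoint × Par P) × S.Θ) → Prop}
    (hE : ∀ ε : ℝ, 0 < ε → ∀ᵐ q ∂(osP Φ f₀ te T' K P S ε ()), ¬ E ε q) :
    GNull f₀ (osP Φ f₀ te T' K P S) (fun ε _ _ q _ => E ε q) := by
  have hsf : ∀ ε i, SFinite (osP Φ f₀ te T' K P S ε i) := fun ε i => by
    have := h.sf ε
    unfold osP
    infer_instance
  refine gNull_of_ae hf hsf fun ε hε i n => ?_
  have := hsf ε ()
  have h1 := (Measure.quasiMeasurePreserving_fst (μ := osP Φ f₀ te T' K P S ε ())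
    (ν := (volume : Measure (Config n)))).ae (hE ε hε)
  filter_upwards [h1] with q hq _
  exact hq

/-- **`¬ CDpass` is a null event.** -/
theorem gNull_pass (h : ShpOk γ β ρ S) (hΦ : AdmissiblePotential Φ) (hf : Measurable f₀) :
    GNull f₀ (osP Φ f₀ te T' K P S)
      (fun ε _ _ q _ => ¬ CDpass Φ (cD ε q.1 (eL (S.th ε q.2)))) :=
  gNull_of_aeQ h hf fun ε hε => by
    filter_upwards [ae_pass (f₀ := f₀) (te := te) (T' := T') (K := K) (P := P) h hΦ hε] with q hq
    exact not_not.2 hq

/-! ### Times -/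

theorem measurable_eLq (h : ShpOk γ β ρ S) (hε : 0 < ε) :
    Measurable fun q : (PhasePoint × Par P) × S.Θ => (q.1, eL (S.th ε q.2)) := by
  refine measurable_fst.prodMk ?_
  have h2 : Measurable fun θ : Lab × LSt => eL θ := by
    unfold eL
    exact measurable_snd.prodMk measurable_fst.snd.snd
  exact h2.comp ((h.mth ε hε).comp measurable_snd)

/-- Level sets in the time. -/
theorem lintegral_level {μ : Measure Space3} [SFinite μ] {o : Space3 → ℝ} (ho : Measurable o)
    (J : Set ℝ) (t₀ : ℝ) :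
    ∫⁻ s in J, ∫⁻ b, (if s + o b = t₀ then 1 else 0 : ℝ≥0∞) ∂μ = 0 := by
  have hGm : Measurable fun p : ℝ × Space3 => (if p.1 + o p.2 = t₀ then 1 else 0 : ℝ≥0∞) :=
    Measurable.ite (measurableSet_eq_fun (measurable_fst.add (ho.comp measurable_snd))
      measurable_const) measurable_const measurable_const
  have h1 := lintegral_lintegral_swap (μ := volume.restrict J) (ν := μ)
    (f := fun s b => (if s + o b = t₀ then 1 else 0 : ℝ≥0∞)) hGm.aemeasurable
  rw [h1]
  refine (lintegral_congr fun b => ?_).trans lintegral_zero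
  refine (lintegral_congr_ae ?_).trans lintegral_zero
  have h2 : ∀ᵐ s : ℝ, s ≠ t₀ - o b := by
    rw [ae_iff]
    simp
  filter_upwards [ae_restrict_of_ae h2] with s hs
  rw [if_neg fun h3 => hs (by linarith)]

/-- The indicator of an event of the contact time. -/
def timeH (ε : ℝ) {P : CTree} (z : PhasePoint × Par P) (o : CD → ℝ) (t₀ : ℝ) : ML → ℝ≥0∞ :=
  fun l => if cT ε z l + o (cD ε z l) = t₀ then 1 else 0

theorem measurable_timeH (z : PhasePoint × Par P) {o : CD → ℝ} (ho : Measurable o) (t₀ : ℝ) :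
    Measurable (timeH ε z o t₀) := by
  have h1 : Measurable fun l : ML => cD ε z l :=
    (Long984.measurable_cD ε P).comp (measurable_const.prodMk measurable_id)
  have h2 : Measurable fun l : ML => cT ε z l :=
    (OneNS423.measurable_cT (P := P) (ε := ε)).comp (f := fun l : ML => (z, l))
      (measurable_const.prodMk measurable_id)
  exact Measurable.ite (measurableSet_eq_fun (h2.add (ho.comp h1)) measurable_const)
    measurable_const measurable_const

theorem timeH_lineAt (hε : 0 < ε) (z : PhasePoint × Par P) (o : CD → ℝ) (t₀ s τ : ℝ)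
    {v b : Space3} (hg : v - z.1.2 ≠ 0) (hb : b ∈ impactDisc (v - z.1.2)) (n : ℕ) :
    timeH ε z o t₀ (OneC423.lineAt ε s z.1 τ v b n) =
      if s + o (v, z.1.2, b) = t₀ then 1 else 0 := by
  unfold timeH
  rw [OneNS423.cT_lineAt hε hg hb, Long984.cD_lineAt hε s z τ (sub_ne_zero.1 hg) hb n]

theorem time_null (hΦ : AdmissiblePotential Φ) (hε : 0 < ε) (z : PhasePoint × Par P)
    {o : CD → ℝ} (ho : Measurable o) (t₀ : ℝ) (e : LSt) (n : ℕ) :
    ∫⁻ a : Space3, {a : Space3 | (z, shL a e) ∈ OneC423.ctSet Φ ε te P}.indicator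
      (fun a => timeH ε z o t₀ (shL a e, n)) a = 0 := by
  refine ct_null (te := te) hΦ hε z (measurable_timeH z ho t₀) e n fun hg => ?_
  have hdisc : MeasurableSet (impactDisc (e.2.2 - z.1.2)) := Disc416.measurableSet_impactDisc _
  have hfin : IsFiniteMeasure ((μHE[2] : Measure Space3).restrict
      (impactDisc (e.2.2 - z.1.2))) :=
    ⟨by rw [Measure.restrict_apply_univ, Boltz814.hausdorff_impactDisc hg]
        exact ENNReal.ofReal_lt_top⟩
  have e1 : ∀ s : ℝ, ∫⁻ b in impactDisc (e.2.2 - z.1.2),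
      timeH ε z o t₀ (OneC423.lineAt ε s z.1 e.1 e.2.2 b n) ∂μHE[2] =
      ∫⁻ b in impactDisc (e.2.2 - z.1.2),
        (if s + o (e.2.2, z.1.2, b) = t₀ then 1 else 0 : ℝ≥0∞) ∂μHE[2] := fun s =>
    setLIntegral_congr_fun hdisc fun b hb => timeH_lineAt hε z o t₀ s e.1 hg hb n
  simp only [e1]
  exact lintegral_level (μ := (μHE[2] : Measure Space3).restrict (impactDisc (e.2.2 - z.1.2)))
    (o := fun b => o (e.2.2, z.1.2, b))
    (ho.comp (measurable_const.prodMk (measurable_const.prodMk measurable_id))) _ t₀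

/-- The event of `ae_time`. -/
def TimeE (ε : ℝ) (S : Shp) (P : CTree) (o : CD → ℝ)
    (τ : ((PhasePoint × Par P) × S.Θ) → ℝ) (q : (PhasePoint × Par P) × S.Θ) : Prop :=
  cT ε q.1 (eL (S.th ε q.2)) + o (cD ε q.1 (eL (S.th ε q.2))) = τ q

theorem measurable_timeF (h : ShpOk γ β ρ S) (hε : 0 < ε) {o : CD → ℝ} (ho : Measurable o) :
    Measurable fun q : (PhasePoint × Par P) × S.Θ =>
      cT ε q.1 (eL (S.th ε q.2)) + o (cD ε q.1 (eL (S.th ε q.2))) := by
  have h0 : Measurable fun p : (PhasePoint × Par P) × ML => cT ε p.1 p.2 + o (cD ε p.1 p.2) :=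
    (OneNS423.measurable_cT (P := P) (ε := ε)).add (ho.comp (Long984.measurable_cD ε P))
  exact h0.comp (g := fun p : (PhasePoint × Par P) × ML => cT ε p.1 p.2 + o (cD ε p.1 p.2))
    (f := fun q : (PhasePoint × Par P) × S.Θ => (q.1, eL (S.th ε q.2))) (measurable_eLq h hε)

theorem measurableSet_timeE (h : ShpOk γ β ρ S) (hε : 0 < ε) {o : CD → ℝ}
    (ho : Measurable o) {τ : ((PhasePoint × Par P) × S.Θ) → ℝ} (hτ : Measurable τ) :
    MeasurableSet {q | TimeE ε S P o τ q} :=
  measurableSet_eq_fun (f := fun q : (PhasePoint × Par P) × S.Θ =>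
    cT ε q.1 (eL (S.th ε q.2)) + o (cD ε q.1 (eL (S.th ε q.2)))) (g := τ)
    (measurable_timeF h hε ho) hτ

theorem timeE_tr (h : ShpOk γ β ρ S) (hε : 0 < ε) {o : CD → ℝ}
    {τ : ((PhasePoint × Par P) × S.Θ) → ℝ} (hinv : ∀ z x a, τ (z, S.Tr a x) = τ (z, x))
    (z : PhasePoint × Par P) (x : S.Θ) (a : Space3) :
    (if TimeE ε S P o τ (z, S.Tr a x) then 1 else 0 : ℝ≥0∞) =
      timeH ε z o (τ (z, x)) (shL a (S.th ε x).2, (S.th ε x).1.2.2) := by
  have e1 : eL (S.th ε (S.Tr a x)) = (shL a (S.th ε x).2, (S.th ε x).1.2.2) := by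
    rw [h.th_tr ε hε]; rfl
  unfold TimeE timeH
  simp only [e1, hinv]

/-- **Contact times.** `cT + o(cD)` is almost surely not a given invariant time. -/
theorem ae_time (h : ShpOk γ β ρ S) (hΦ : AdmissiblePotential Φ) (hε : 0 < ε) {o : CD → ℝ}
    (ho : Measurable o) {τ : ((PhasePoint × Par P) × S.Θ) → ℝ} (hτ : Measurable τ)
    (hinv : ∀ z x a, τ (z, S.Tr a x) = τ (z, x)) :
    ∀ᵐ q ∂(osP Φ f₀ te T' K P S ε ()),
      cT ε q.1 (eL (S.th ε q.2)) + o (cD ε q.1 (eL (S.th ε q.2))) ≠ τ q := by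
  refine ae_of_tr (f₀ := f₀) (E := TimeE ε S P o τ) h hΦ hε (measurableSet_timeE h hε ho hτ)
    fun z x => ?_
  have h1 := time_null (te := te) hΦ hε z ho (τ (z, x)) (S.th ε x).2 (S.th ε x).1.2.2
  refine (lintegral_congr fun a => ?_).trans h1
  by_cases hc : a ∈ {a : Space3 | (z, shL a (S.th ε x).2) ∈ OneC423.ctSet Φ ε te P}
  · rw [indicator_of_mem hc, indicator_of_mem hc]
    exact timeE_tr h hε hinv z x a
  · rw [indicator_of_notMem hc, indicator_of_notMem hc]

/-- The contact time is not an invariant time. -/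
theorem ae_cT_ne (h : ShpOk γ β ρ S) (hΦ : AdmissiblePotential Φ) (hε : 0 < ε)
    {τ : ((PhasePoint × Par P) × S.Θ) → ℝ} (hτ : Measurable τ)
    (hinv : ∀ z x a, τ (z, S.Tr a x) = τ (z, x)) :
    ∀ᵐ q ∂(osP Φ f₀ te T' K P S ε ()), cT ε q.1 (eL (S.th ε q.2)) ≠ τ q := by
  filter_upwards [ae_time (f₀ := f₀) (te := te) (T' := T') (K := K) h hΦ hε
    (o := fun _ => 0) measurable_const hτ hinv] with q hq
  rwa [add_zero] at hq

end Crest.Agent.R122.PassAE416

end
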