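import Crest.Agent.R122.BaseAe_45
import Crest.Agent.R122.NuHitS_969
import Crest.Agent.R122.NuR_735
import Crest.Agent.R122.PassAE_416
import Crest.Agent.R122.TransTree_942

/-!
# The birth of the first line (row 122, S^(j), helper45)

* `dL_itS` : the first line of a continued shape is the first line of the base.
* `Good0.dL_birth` : in a base structure it is born in `(0, te)` (an exit of the tree).
* `ae_osP_of_m` : almost sure facts of the structure, over `osP`.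
* `ae_dL_itS`, `gNull_dT` : `0 < birth d ≤ te` at all levels.
-/

set_option autoImplicit false
set_option linter.unusedSectionVars false

open MeasureTheory Set Filter Topology
open scoped NNReal ENNReal
open Crest.AnalysisR.Kinetic
open Crest.Agent.R122.Kin796 Crest.Agent.R122.Kin796.CTree Crest.Agent.R122.Tree674
open Crest.Agent.R122.GC311 Crest.Agent.R122.EDefs602
open Crest.Agent.R122.Boost969 (LSt)
open Crest.Agent.R122.Pair292 (Lab)
open Crest.Agent.R122.OneC285 (cT cB cD cX oneLs exS)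
open Crest.Agent.R122.PairD292 (dL eL)
open Crest.Agent.R122.Ins45 (mem_exS inr_not_mem_exS oneLs_exit)
open Crest.Agent.R122.PairReal998 Crest.Agent.R122.StrN998
open Crest.Agent.R122.PairRep581
open Crest.Agent.R122.NuL735 Crest.Agent.R122.NuHit969
open Crest.Agent.R122.Gate424 Crest.Agent.R122.Gate973
open scoped Classical

noncomputable section

namespace Crest.Agent.R122.BasePair45

variable {Φ : Space3 → ℝ} {f₀ : PhasePoint → ℝ} {ε te T' b₀ : ℝ} {K : ℕ} {P : CTree}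

/-- The first line of a continued shape is the first line of the base. -/
theorem dL_itS (S : Shp) (qq : ℕ → ℝ≥0∞) : ∀ (j : ℕ) (x : Th S.Θ j),
    dL ((itS S Φ b₀ te qq j).th ε x) = dL (S.th ε (bas S.Θ j x))
  | 0, _ => rfl
  | j + 1, x => dL_itS S qq j x.1

/-- **The first line of a base structure is born in `(0, te)`.** -/
theorem Good0.dL_birth {q : NuL735.Th P} (h : Good0 Φ ε te T' P q) (hε : 0 < ε)
    {x : Idx P ⊕ Bool} (hx : x ∈ exS P) (y : Idx P ⊕ Bool) (σ : Bool) :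
    0 < (dL (thE Φ ε σ x y q)).1.1 ∧ (dL (thE Φ ε σ x y q)).1.1 < te := by
  have hadm : Adm Φ P q.1.1.2 q.1.2 := h.ct.2.2.2.2.1
  have hord : Ord Φ ε P (cT ε q.1 (lnO q.2)) q.1.1.2 q.1.2 := h.ct.2.2.2.2.2
  have hpos : 0 < cT ε q.1 (lnO q.2) := lt_of_le_of_lt (le_refl (0 : ℝ)) h.ct.2.2.1
  rcases x with i | b
  · have hi : i ≠ root P := mem_exS.1 hx
    have e1 : dL (thE Φ ε σ (Sum.inl i) y q) = TreeLines335.lineML Φ ε P q.1 i := by
      change oneE Φ ε q (Sum.inl i) = _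
      rw [oneE_of_adm hadm, oneLs_exit hi]
    rw [e1]
    change 0 < TreeLines335.rel P q.1.2 i ∧ TreeLines335.rel P q.1.2 i < te
    exact ⟨TransTree942.rel_pos' hε h.valid (Or.inl hi),
      (TreeLines335.rel_lt hε.le hpos hord i).trans_le h.ct.2.2.2.1⟩
  · exact absurd hx inr_not_mem_exS

/-- Almost every structure of level `j`. -/
theorem ae_dL_itS (hΦ : AdmissiblePotential Φ) (hε : 0 < ε) (N : NPar) {γ β : ℝ}
    {ρ : Space3 → ℝ≥0∞} (s : Ix N.m₀) (hS : ShpOk γ β ρ (famB Φ K N s)) (qq : ℕ → ℝ≥0∞) (j : ℕ) :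
    ∀ᵐ x ∂((itS (famB Φ K N s) Φ b₀ te qq j).m ε),
      0 < (dL ((itS (famB Φ K N s) Φ b₀ te qq j).th ε x)).1.1 ∧
      (dL ((itS (famB Φ K N s) Φ b₀ te qq j).th ε x)).1.1 < N.te := by
  have h0 : ∀ᵐ q ∂((famB Φ K N s).m ε), Good0 Φ ε N.te N.T' s.1.1 q :=
    ae_good0 hΦ hε N s.2.1.1 s.2.1.2
  filter_upwards [ae_itS (b₀ := b₀) (te := te) (q := qq) hS hΦ hε h0 j] with x hx
  rw [dL_itS]
  exact hx.1.dL_birth hε s.2.2.1 s.2.1.2 (N.σ s.1.1 s.2.1.1 s.2.1.2)

/-- Almost sure facts of the structure, over `osP`. -/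
theorem ae_osP_of_m {te₁ T₁ : ℝ} {S : Shp} [SFinite (S.m ε)] {p : S.Θ → Prop}
    (h : ∀ᵐ x ∂(S.m ε), p x) : ∀ᵐ q ∂(osP Φ f₀ te₁ T₁ K P S ε ()), p q.2 := by
  have h1 : ∀ᵐ q ∂((treeA Φ f₀ ε T₁ P).prod (S.m ε)), p q.2 :=
    (Measure.quasiMeasurePreserving_snd (μ := treeA Φ f₀ ε T₁ P) (ν := S.m ε)).ae h
  exact ae_restrict_of_ae h1

/-- **The first line is born in `(0, te]`**, up to a null event, at all levels. -/
theorem gNull_dT (hΦ : AdmissiblePotential Φ) (hf : Measurable f₀) (N : NPar) {γ β : ℝ}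
    {ρ : Space3 → ℝ≥0∞} (s : Ix N.m₀) (hS : ShpOk γ β ρ (famB Φ K N s)) (qq : ℕ → ℝ≥0∞) (j : ℕ)
    {γ' β' : ℝ} {ρ' : Space3 → ℝ≥0∞} (hj : ShpOk γ' β' ρ' (itS (famB Φ K N s) Φ b₀ te qq j))
    (te₁ T₁ : ℝ) (K₁ : ℕ) (P : CTree) :
    GNull f₀ (osP Φ f₀ te₁ T₁ K₁ P (itS (famB Φ K N s) Φ b₀ te qq j)) (fun ε _ _ q _ =>
      ¬ (0 < (dL ((itS (famB Φ K N s) Φ b₀ te qq j).th ε q.2)).1.1 ∧
        (dL ((itS (famB Φ K N s) Φ b₀ te qq j).th ε q.2)).1.1 < N.te)) :=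
  PassAE416.gNull_of_aeQ hj hf fun ε hε => by
    have := hj.sf ε
    filter_upwards [ae_osP_of_m (Φ := Φ) (f₀ := f₀) (K := K₁) (P := P) (te₁ := te₁) (T₁ := T₁)
      (ae_dL_itS hΦ hε N s hS qq j)] with q hq
    exact not_not.2 hq

end Crest.Agent.R122.BasePair45

end
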