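import Crest.Agent.R122.DLaw_416

/-!
# Row 122, inequality 3 (helper416): the birth of the first line of a structure

* `ae_birth`, `gNull_birth` : `0 < τ_d ≤ te'` from `DAC te'`; `gNull_birth_base` : all shapes of
  inequality 3 (`te' = N.T'`).
-/

set_option autoImplicit false
set_option linter.unusedSectionVars false

open MeasureTheory Set Filter Topology
open scoped Classical ENNReal
open Crest.AnalysisR.Kinetic

noncomputable section

namespace Crest.Agent.R122.DLaw416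

open Crest.Agent.R122.GC311 Crest.Agent.R122.Kin796 Crest.Agent.R122.Kin796.CTree
open Crest.Agent.R122.Tree674 Crest.Agent.R122.EDefs602
open Crest.Agent.R122.Gate424 Crest.Agent.R122.LN2
open Crest.Agent.R122.PairD292 Crest.Agent.R122.PairRep581
open Crest.Agent.R122.NuL735 (famB nuL NPar Ix)

variable {Φ : Space3 → ℝ} {f₀ : PhasePoint → ℝ} {γ β : ℝ} {ρ : Space3 → ℝ≥0∞} {S : Shp}
  {te te' T' ε : ℝ} {K : ℕ} {P : CTree}

theorem ae_lineV_birth (te : ℝ) : ∀ᵐ l ∂(lineV te), l.1.1 ∈ Ioc 0 te := by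
  have h1 : ∀ᵐ τ ∂(volume.restrict (Ioc (0 : ℝ) te)), τ ∈ Ioc 0 te :=
    ae_restrict_mem measurableSet_Ioc
  have h2 : ∀ᵐ x ∂((volume.restrict (Ioc (0 : ℝ) te)).prod (volume : Measure PhasePoint)),
      x.1 ∈ Ioc 0 te := Measure.quasiMeasurePreserving_fst.ae h1
  exact Measure.quasiMeasurePreserving_fst.ae h2

/-- **The birth of `d`**, almost surely. -/
theorem ae_birth (hd : DAC te' S ε) : ∀ᵐ x ∂(S.m ε), (dL (S.th ε x)).1.1 ∈ Ioc 0 te' :=
  Measure.QuasiMeasurePreserving.ae hd (ae_lineV_birth te')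

/-- Almost sure facts of the structure are almost sure facts under `osP`. -/
theorem ae_osP_of_ae [SFinite (S.m ε)] {p : S.Θ → Prop} (h : ∀ᵐ x ∂(S.m ε), p x) :
    ∀ᵐ q ∂(osP Φ f₀ te T' K P S ε ()), p q.2 := by
  have h1 : ∀ᵐ q ∂((volume : Measure (PhasePoint × Par P)).prod (S.m ε)), p q.2 :=
    Measure.quasiMeasurePreserving_snd.ae h
  exact osP_ac.ae_le h1

/-- **The birth of `d`** as a null event. -/
theorem gNull_birth (h : ShpOk γ β ρ S) (hf : Measurable f₀)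
    (hd : ∀ ε : ℝ, 0 < ε → DAC te' S ε) :
    GNull f₀ (osP Φ f₀ te T' K P S)
      (fun ε _ _ q _ => ¬ (0 < (dL (S.th ε q.2)).1.1 ∧ (dL (S.th ε q.2)).1.1 ≤ te')) := by
  refine PassAE416.gNull_of_aeQ (E := fun ε q =>
    ¬ (0 < (dL (S.th ε q.2)).1.1 ∧ (dL (S.th ε q.2)).1.1 ≤ te')) h hf fun ε hε => ?_
  have := h.sf ε
  filter_upwards [ae_osP_of_ae (Φ := Φ) (f₀ := f₀) (te := te) (T' := T') (K := K) (P := P)
    (ae_birth (hd ε hε))] with q hq
  exact not_not.2 hq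

/-- **All shapes of inequality 3.** -/
theorem gNull_birth_base (hΦ : AdmissiblePotential Φ) (hf : Measurable f₀) (K₁ : ℕ) (N : NPar)
    {b₀ te₁ : ℝ} {q : ℕ → ℝ≥0∞} {γ' β' : ℝ} {ρ' : Space3 → ℝ≥0∞}
    (h : ∀ s : Ix N.m₀, ShpOk γ β ρ (famB Φ K₁ N s)) (s : Ix N.m₀) (j : ℕ)
    (hj : ShpOk γ' β' ρ' (StrN998.itS (famB Φ K₁ N s) Φ b₀ te₁ q j)) :
    GNull f₀ (osP Φ f₀ te T' K P (StrN998.itS (famB Φ K₁ N s) Φ b₀ te₁ q j))
      (fun ε _ _ r _ =>
        ¬ (0 < (dL ((StrN998.itS (famB Φ K₁ N s) Φ b₀ te₁ q j).th ε r.2)).1.1 ∧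
          (dL ((StrN998.itS (famB Φ K₁ N s) Φ b₀ te₁ q j).th ε r.2)).1.1 ≤ N.T')) :=
  gNull_birth hj hf fun _ hε => dac_itS_base hΦ K₁ N h hε s j

end Crest.Agent.R122.DLaw416

end
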