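import Crest.Agent.R122.PMBind_85
import Crest.Agent.R122.TreeLim_974

/-!
# Row 122, inequality 3 (helper85): the pair measure of the structures with a separated tree

* `nu0R A` : the pair measure `nu0` of 566, structures restricted to the sets `A P`.
* `nu0S`, `nu0N` : structures whose tree is (is not) separated; `nu0_eq : nu0 = nu0S + nu0N`.
* `ae_nu0R`, `nu0R_mono`, `pe_nu0R_le` : the facts of `PMBind_85` for `nu0R`.
-/

set_option autoImplicit false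
set_option linter.unusedSectionVars false

open MeasureTheory Set Filter
open scoped ENNReal Classical Topology
open Crest.AnalysisR.Kinetic
open Crest.Agent.R122.Kin796 Crest.Agent.R122.Kin796.CTree Crest.Agent.R122.Tree674
open Crest.Agent.R122.GC311 Crest.Agent.R122.EDefs602 Crest.Agent.R122.TreeLines335
open Crest.Agent.R122.OneC285 Crest.Agent.R122.Nu0566 Crest.Agent.R122.PairD292
open Crest.Agent.R122.Boost969 (LSt)
open Crest.Agent.R122.Pair292 (Lab)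
open Crest.Agent.R122.PMBind85

noncomputable section

namespace Crest.Agent.R122.NuSep85

variable {Φ : Space3 → ℝ} {f₀ g : PhasePoint → ℝ} {ε : ℝ} {K : ℕ} {P : CTree} {Q : EPar}
  {T' : ℝ} {m₀ : ℕ}

/-- Structures with a valid and separated tree (974's `goodS`). -/
def sepT (Φ : Space3 → ℝ) (ε T' : ℝ) (P : CTree) : Set ((PhasePoint × Par P) × ML) :=
  Prod.fst ⁻¹' TreeLim974.goodS Φ ε P T'

theorem measurableSet_sepT (hΦ : AdmissiblePotential Φ) (hε : 0 < ε) (T' : ℝ) (P : CTree) :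
    MeasurableSet (sepT Φ ε T' P) :=
  measurable_fst (TreeLim974.measurableSet_goodS hΦ hε P T')

/-- Law of the pair of lines `x`, `y` of the structures in `A`. -/
def nuPR (Φ : Space3 → ℝ) (f₀ : PhasePoint → ℝ) (ε : ℝ) (K : ℕ) (Q : EPar) (T' : ℝ) (P : CTree)
    (A : Set ((PhasePoint × Par P) × ML)) (x y : Idx P ⊕ Bool) : Measure (ML × ML) :=
  ((strM Φ f₀ ε K (fun _ => Q.γ Q.te) Q.ρ Q.te T' (Measure.dirac 0) P).restrict A).map
    fun q => (oneLsM Φ ε P q.1 q.2 x, oneLsM Φ ε P q.1 q.2 y)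

/-- **The pair measure of the structures in the sets `A`.** -/
def nu0R (Φ : Space3 → ℝ) (f₀ : PhasePoint → ℝ) (ε : ℝ) (K : ℕ) (Q : EPar) (T' : ℝ) (m₀ : ℕ)
    (A : ∀ P : CTree, Set ((PhasePoint × Par P) × ML)) : Measure (ML × ML) :=
  activity ε • Measure.sum fun P : CTree =>
    if P.leaves ≤ m₀ then ∑ x ∈ exS P, ∑ y ∈ Finset.univ.erase x,
      nuPR Φ f₀ ε K Q T' P (A P) x y else 0

/-- Structures with a separated tree. -/
def nu0S (Φ : Space3 → ℝ) (f₀ : PhasePoint → ℝ) (ε : ℝ) (K : ℕ) (Q : EPar) (T' : ℝ) (m₀ : ℕ) :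
    Measure (ML × ML) := nu0R Φ f₀ ε K Q T' m₀ fun P => sepT Φ ε T' P

/-- Structures whose tree is not separated. -/
def nu0N (Φ : Space3 → ℝ) (f₀ : PhasePoint → ℝ) (ε : ℝ) (K : ℕ) (Q : EPar) (T' : ℝ) (m₀ : ℕ) :
    Measure (ML × ML) := nu0R Φ f₀ ε K Q T' m₀ fun P => (sepT Φ ε T' P)ᶜ

instance sfinite_nuPR (A : Set ((PhasePoint × Par P) × ML)) (x y : Idx P ⊕ Bool) :
    SFinite (nuPR Φ f₀ ε K Q T' P A x y) := by
  unfold nuPR
  infer_instance

instance sfinite_nu0R (A : ∀ P : CTree, Set ((PhasePoint × Par P) × ML)) :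
    SFinite (nu0R Φ f₀ ε K Q T' m₀ A) := by
  unfold nu0R
  have : ∀ P : CTree, SFinite (if P.leaves ≤ m₀ then ∑ x ∈ exS P, ∑ y ∈ Finset.univ.erase x,
      nuPR Φ f₀ ε K Q T' P (A P) x y else 0) := by
    intro P
    split_ifs
    · exact sfinite_finset_sum _ fun x => sfinite_finset_sum _ fun y => inferInstance
    · infer_instance
  infer_instance

instance sfinite_nu0S : SFinite (nu0S Φ f₀ ε K Q T' m₀) := sfinite_nu0R _

instance sfinite_nu0N : SFinite (nu0N Φ f₀ ε K Q T' m₀) := sfinite_nu0R _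

theorem lintegral_nu0R (A : ∀ P : CTree, Set ((PhasePoint × Par P) × ML))
    (F : ML × ML → ℝ≥0∞) : ∫⁻ p, F p ∂(nu0R Φ f₀ ε K Q T' m₀ A) = activity ε * ∑' P : CTree,
      if P.leaves ≤ m₀ then ∑ x ∈ exS P, ∑ y ∈ Finset.univ.erase x,
        ∫⁻ p, F p ∂(nuPR Φ f₀ ε K Q T' P (A P) x y) else 0 := by
  unfold nu0R
  rw [lintegral_smul_measure, lintegral_sum_measure, smul_eq_mul]
  congr 1
  refine tsum_congr fun P => ?_
  split_ifs
  · rw [lintegral_finset_sum_measure]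
    refine Finset.sum_congr rfl fun x _ => ?_
    rw [lintegral_finset_sum_measure]
  · exact lintegral_zero_measure _

/-- Integrals over the structures in `A`, in structure coordinates (measurable versions). -/
theorem lintegral_nuPR (hΦ : AdmissiblePotential Φ) {A : Set ((PhasePoint × Par P) × ML)}
    (hA : MeasurableSet A) (x y : Idx P ⊕ Bool) {F : ML × ML → ℝ≥0∞} (hF : Measurable F) :
    ∫⁻ p, F p ∂(nuPR Φ f₀ ε K Q T' P A x y) =
      ∫⁻ q, A.indicator (fun q => F (oneLsM Φ ε P q.1 q.2 x, oneLsM Φ ε P q.1 q.2 y)) q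
        ∂(strM Φ f₀ ε K (fun _ => Q.γ Q.te) Q.ρ Q.te T' (Measure.dirac 0) P) := by
  unfold nuPR
  rw [lintegral_map hF (measurable_pair hΦ ε P x y), lintegral_indicator hA]

theorem nuPR_le (hΦ : AdmissiblePotential Φ) (A : Set ((PhasePoint × Par P) × ML))
    (x y : Idx P ⊕ Bool) : nuPR Φ f₀ ε K Q T' P A x y ≤
      nuP Φ f₀ ε K (fun _ => Q.γ Q.te) Q.ρ Q.te T' (Measure.dirac 0) P x y :=
  Measure.map_mono Measure.restrict_le_self (measurable_pair hΦ ε P x y)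

theorem nuPR_mono (hΦ : AdmissiblePotential Φ) (hfg : ∀ z, f₀ z ≤ g z)
    {A B : Set ((PhasePoint × Par P) × ML)} (hAB : A ⊆ B)
    (x y : Idx P ⊕ Bool) : nuPR Φ f₀ ε K Q T' P A x y ≤ nuPR Φ g ε K Q T' P B x y :=
  Measure.map_mono (Measure.restrict_mono hAB (strM_mono hfg _ _ _ _ _))
    (measurable_pair hΦ ε P x y)

theorem nuPR_add (hΦ : AdmissiblePotential Φ) {A : Set ((PhasePoint × Par P) × ML)}
    (hA : MeasurableSet A) (x y : Idx P ⊕ Bool) :
    nuPR Φ f₀ ε K Q T' P A x y + nuPR Φ f₀ ε K Q T' P Aᶜ x y =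
      nuP Φ f₀ ε K (fun _ => Q.γ Q.te) Q.ρ Q.te T' (Measure.dirac 0) P x y := by
  unfold nuPR nuP
  rw [← Measure.map_add _ _ (measurable_pair hΦ ε P x y), Measure.restrict_add_restrict_compl hA]

/-- **The pair measure is the sum of the two parts.** -/
theorem nu0_eq_add (hΦ : AdmissiblePotential Φ)
    {A : ∀ P : CTree, Set ((PhasePoint × Par P) × ML)} (hA : ∀ P, MeasurableSet (A P)) :
    nu0 Φ f₀ ε K Q T' m₀ = nu0R Φ f₀ ε K Q T' m₀ A + nu0R Φ f₀ ε K Q T' m₀ fun P => (A P)ᶜ := by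
  unfold nu0 nu0R
  rw [← smul_add, Measure.sum_add_sum]
  congr 2
  funext P
  split_ifs
  · rw [← Finset.sum_add_distrib]
    refine Finset.sum_congr rfl fun x _ => ?_
    rw [← Finset.sum_add_distrib]
    exact Finset.sum_congr rfl fun y _ => (nuPR_add hΦ (hA P) x y).symm
  · exact (add_zero _).symm

theorem nu0_eq (hΦ : AdmissiblePotential Φ) (hε : 0 < ε) :
    nu0 Φ f₀ ε K Q T' m₀ = nu0S Φ f₀ ε K Q T' m₀ + nu0N Φ f₀ ε K Q T' m₀ :=
  nu0_eq_add hΦ fun P => measurableSet_sepT hΦ hε T' P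

theorem lintegral_nu0R_mono (hΦ : AdmissiblePotential Φ) (hfg : ∀ z, f₀ z ≤ g z)
    {A B : ∀ P : CTree, Set ((PhasePoint × Par P) × ML)} (hAB : ∀ P, A P ⊆ B P)
    (F : ML × ML → ℝ≥0∞) :
    ∫⁻ p, F p ∂(nu0R Φ f₀ ε K Q T' m₀ A) ≤ ∫⁻ p, F p ∂(nu0R Φ g ε K Q T' m₀ B) := by
  rw [lintegral_nu0R, lintegral_nu0R]
  refine mul_le_mul_right (ENNReal.tsum_le_tsum fun P => ?_) _
  split_ifs
  · exact Finset.sum_le_sum fun x _ => Finset.sum_le_sum fun y _ =>
      lintegral_mono' (nuPR_mono hΦ hfg (hAB P) x y) le_rfl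
  · exact le_rfl

theorem lintegral_nu0R_le (hΦ : AdmissiblePotential Φ)
    (A : ∀ P : CTree, Set ((PhasePoint × Par P) × ML)) (F : ML × ML → ℝ≥0∞) :
    ∫⁻ p, F p ∂(nu0R Φ f₀ ε K Q T' m₀ A) ≤ ∫⁻ p, F p ∂(nu0 Φ f₀ ε K Q T' m₀) := by
  rw [lintegral_nu0R, lintegral_nu0]
  refine mul_le_mul_right (ENNReal.tsum_le_tsum fun P => ?_) _
  split_ifs
  · exact Finset.sum_le_sum fun x _ => Finset.sum_le_sum fun y _ =>
      lintegral_mono' (nuPR_le hΦ (A P) x y) le_rfl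
  · exact le_rfl

theorem nu0R_le (hΦ : AdmissiblePotential Φ)
    (A : ∀ P : CTree, Set ((PhasePoint × Par P) × ML)) :
    nu0R Φ f₀ ε K Q T' m₀ A ≤ nu0 Φ f₀ ε K Q T' m₀ := by
  refine Measure.le_iff.2 fun s hs => ?_
  have h := lintegral_nu0R_le (f₀ := f₀) (ε := ε) (K := K) (Q := Q) (T' := T') (m₀ := m₀) hΦ A
    (s.indicator 1)
  rwa [lintegral_indicator_one hs, lintegral_indicator_one hs] at h

theorem ae_nu0R (hΦ : AdmissiblePotential Φ) (hε : 0 < ε) (hf : Measurable f₀) (Q : EPar) (T' : ℝ)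
    (m₀ : ℕ) (A : ∀ P : CTree, Set ((PhasePoint × Par P) × ML)) :
    ∀ᵐ p ∂(nu0R Φ f₀ ε K Q T' m₀ A), OkP K p :=
  (Measure.absolutelyContinuous_of_le (nu0R_le hΦ A)).ae_le (ae_nu0 hΦ hε hf Q T' m₀)

/-- **The pair mass of the separated structures.** -/
theorem pe_nu0R_le (hΦ : AdmissiblePotential Φ) (hε : 0 < ε) (hf : Measurable f₀)
    {A : ∀ P : CTree, Set ((PhasePoint × Par P) × ML)} {nuL : Measure (Lab × LSt)}
    (h : Dominates Q (nu0R Φ f₀ ε K Q T' m₀ A) nuL) :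
    PE Φ f₀ ε K Q (nu0R Φ f₀ ε K Q T' m₀ A) ≤ PELK Φ f₀ ε K Q nuL :=
  pe_le_pelk hΦ hε f₀ (ae_nu0R hΦ hε hf Q T' m₀ A) h

/-- It is enough to dominate the law of the structures with the density `g ≥ f₀`. -/
theorem dominates_of_mono (hΦ : AdmissiblePotential Φ) (hfg : ∀ z, f₀ z ≤ g z)
    {A : ∀ P : CTree, Set ((PhasePoint × Par P) × ML)} {nuL : Measure (Lab × LSt)}
    (h : Dominates Q (nu0R Φ g ε K Q T' m₀ A) nuL) :
    Dominates Q (nu0R Φ f₀ ε K Q T' m₀ A) nuL := fun F hF h0 =>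
  (lintegral_nu0R_mono hΦ hfg (fun _ => Subset.rfl) F).trans (h F hF h0)

end Crest.Agent.R122.NuSep85

end
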