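import Crest.Agent.R122.NuLBase_85
import Crest.Agent.R122.NuSepDef_85
import Crest.Agent.R122.NuL_735

/-!
# Row 122, inequality 3 (helper85): the base pair law of helper735

* `lintegral_nuP_strM`, `lintegral_nuL_strM` : integrals against 735's `nuP`, `nuL` as integrals
  against the structure measure of 566; `lintegral_nuL_strI` : at most structure integrals of 307.
* `nuL_px` : `nuL` is in the class, with a constant depending on `m₀` only, and `Aux`.
* `nuL_dom` : `nuL` dominates `nu0S`; `pe_nu0S_le_nuL` : `PE nu0S ≤ PELK nuL`.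
-/

set_option autoImplicit false
set_option linter.unusedSectionVars false

open MeasureTheory ProbabilityTheory Set Filter
open scoped ENNReal Classical Topology
open Crest.AnalysisR.Kinetic
open Crest.Agent.R122.Kin796 Crest.Agent.R122.Kin796.CTree Crest.Agent.R122.Tree674
open Crest.Agent.R122.GC311 Crest.Agent.R122.EDefs602 Crest.Agent.R122.TreeLines335
open Crest.Agent.R122.OneC285 Crest.Agent.R122.Nu0566 Crest.Agent.R122.PairD292
open Crest.Agent.R122.Boost969 (LSt)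
open Crest.Agent.R122.Pair292 (Lab PPar PX shP)
open Crest.Agent.R122.Mark307 (BPar IsPP Aux DomS strI thL sigB)
open Crest.Agent.R122.NuL735 (NPar nuL Th lnO oneE thE gP refM dS mS mP bdE)
open Crest.Agent.R122.NuLBase85 Crest.Agent.R122.PMBind85 Crest.Agent.R122.NuSep85

noncomputable section

namespace Crest.Agent.R122.NuLBind85

variable {Φ : Space3 → ℝ} {f₀ : PhasePoint → ℝ} {ε : ℝ} {K : ℕ} {P : CTree} {N : NPar}

/-! ### The reference measure -/

theorem map_lnO : ((volume : Measure PhasePoint).prod (Measure.count : Measure ℕ)).map lnO =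
    OneC423.baseM (Measure.dirac 0) := by
  unfold OneC423.baseM
  rw [Measure.dirac_prod]
  have h1 := Measure.map_prod_map (volume : Measure PhasePoint) (Measure.count : Measure ℕ)
    (f := Prod.mk (0 : ℝ)) (g := id) measurable_prodMk_left measurable_id
  rw [Measure.map_id] at h1
  rw [h1]
  rfl

/-- Structures in 566's coordinates. -/
def toS (q : Th P) : (PhasePoint × Par P) × ML := (q.1, lnO q.2)

theorem measurable_toS : Measurable (toS : Th P → (PhasePoint × Par P) × ML) :=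
  measurable_fst.prodMk (NuL735.measurable_lnO.comp measurable_snd)

theorem map_toS : (refM P).map toS =
    (volume : Measure (PhasePoint × Par P)).prod (OneC423.baseM (Measure.dirac 0)) := by
  have h1 := Measure.map_prod_map (volume : Measure (PhasePoint × Par P))
    ((volume : Measure PhasePoint).prod (Measure.count : Measure ℕ))
    (f := id) (g := lnO) measurable_id NuL735.measurable_lnO
  rw [Measure.map_id, map_lnO] at h1
  rw [h1]
  rfl

theorem lintegral_mS_toS (hΦ : AdmissiblePotential Φ) (N : NPar)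
    {H : (PhasePoint × Par P) × ML → ℝ≥0∞} (hH : Measurable H) :
    ∫⁻ q, H (toS q) ∂(mS Φ ε K N P) = activity ε *
      ∫⁻ q, H q ∂(strM Φ (gP N.Cf N.b) ε K (fun _ => N.γe) N.ρ N.te N.T' (Measure.dirac 0) P) := by
  have hD : Measurable (strD Φ (gP N.Cf N.b) ε K (fun _ => N.γe) N.ρ N.te N.T' P) :=
    measurable_strD hΦ (NuL735.measurable_gP _ _) ε K measurable_const N.ρ N.te N.T' P
  rw [NuL735.lintegral_mS hΦ N (F := fun q => H (toS q)) (hH.comp measurable_toS)]
  congr 1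
  unfold strM
  rw [lintegral_withDensity_eq_lintegral_mul _ hD hH, ← map_toS,
    lintegral_map (hD.mul hH) measurable_toS]
  rfl

/-! ### Integrals against the base law -/

/-- the labelled pair of lines of 735 in terms of the lines -/
def thσ (σ : Bool) (x y : Idx P ⊕ Bool) (L : Idx P ⊕ Bool → ML) : Lab × LSt :=
  ((L x, ((if σ then (L x).1.1 else (L y).1.1), (L y).2)), (L y).1)

theorem thσ_sigB (x y : Idx P ⊕ Bool) : thσ (sigB P x y) x y = thL P x y := rfl

theorem measurable_thσ (hΦ : AdmissiblePotential Φ) (ε : ℝ) (σ : Bool) (x y : Idx P ⊕ Bool) :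
    Measurable fun q : (PhasePoint × Par P) × ML => thσ σ x y (oneLsM Φ ε P q.1 q.2) := by
  have hx := measurable_oneLsM hΦ ε P x
  have hy := measurable_oneLsM hΦ ε P y
  unfold thσ
  refine (hx.prodMk (Measurable.prodMk ?_ hy.snd)).prodMk hy.fst
  cases σ
  · exact hy.fst.fst
  · exact hx.fst.fst

/-- **Integrals against 735's pair laws**, structure measure of 566. -/
theorem lintegral_nuP_strM (hΦ : AdmissiblePotential Φ) (hε : 0 < ε) (N : NPar)
    (x y : Idx P ⊕ Bool) {F : Lab × LSt → ℝ≥0∞} (hF : Measurable F) :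
    ∫⁻ p, F p ∂(NuL735.nuP Φ ε K N P x y) = activity ε *
      ∫⁻ q, (sepT Φ ε N.T' P).indicator
        (fun q => (early N.te).indicator F (thσ (N.σ P x y) x y (oneLsM Φ ε P q.1 q.2))) q
        ∂(strM Φ (gP N.Cf N.b) ε K (fun _ => N.γe) N.ρ N.te N.T' (Measure.dirac 0) P) := by
  have hFe : Measurable ((early N.te).indicator F) := hF.indicator (measurableSet_early N.te)
  have hth := measurable_thσ (P := P) hΦ ε (N.σ P x y) x y
  have hH : Measurable ((sepT Φ ε N.T' P).indicator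
      (fun q => (early N.te).indicator F (thσ (N.σ P x y) x y (oneLsM Φ ε P q.1 q.2)))) :=
    (hFe.comp hth).indicator (measurableSet_sepT hΦ hε N.T' P)
  rw [NuL735.lintegral_nuP hΦ N x y hF]
  unfold mP
  rw [← lintegral_indicator ((NuL735.measurableSet_bdE hΦ ε N.te x y).inter
    (NuL735.measurableSet_sepE hΦ ε N.T' P)), ← lintegral_mS_toS hΦ N hH]
  have hthE := NuL735.measurable_thE (P := P) hΦ ε (N.σ P x y) x y
  have hL : Measurable ((bdE Φ ε N.te x y ∩ NuL735.sepE Φ ε N.T' P).indicator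
      (fun q : Th P => F (thE Φ ε (N.σ P x y) x y q))) :=
    (hF.comp hthE).indicator ((NuL735.measurableSet_bdE hΦ ε N.te x y).inter
      (NuL735.measurableSet_sepE hΦ ε N.T' P))
  rw [NuL735.lintegral_mS hΦ N hL, NuL735.lintegral_mS hΦ N
    (F := fun q => (sepT Φ ε N.T' P).indicator (fun q => (early N.te).indicator F
      (thσ (N.σ P x y) x y (oneLsM Φ ε P q.1 q.2))) (toS q)) (hH.comp measurable_toS)]
  congr 1
  refine lintegral_congr fun q => ?_
  by_cases hq : (q.1, lnO q.2) ∈ goodS Φ ε N.te N.T' K P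
  · congr 1
    have h3 : thE Φ ε (N.σ P x y) x y q =
        thσ (N.σ P x y) x y (oneLsM Φ ε P (toS q).1 (toS q).2) := by
      unfold thE thσ
      rw [NuL735.oneE_of_adm' hq.1.1, NuL735.oneE_of_adm' hq.1.1]
      rfl
    have h4 : q ∈ bdE Φ ε N.te x y ↔
        thσ (N.σ P x y) x y (oneLsM Φ ε P (toS q).1 (toS q).2) ∈ early N.te := by
      rw [← h3]
      exact Iff.rfl
    by_cases h5 : q ∈ NuL735.sepE Φ ε N.T' P
    · have h6 : toS q ∈ sepT Φ ε N.T' P := h5 hε
      rw [indicator_of_mem h6]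
      by_cases h7 : q ∈ bdE Φ ε N.te x y
      · rw [indicator_of_mem (show q ∈ bdE Φ ε N.te x y ∩ NuL735.sepE Φ ε N.T' P from ⟨h7, h5⟩),
          indicator_of_mem (h4.1 h7), h3]
      · rw [indicator_of_notMem (fun h => h7 h.1), indicator_of_notMem fun h => h7 (h4.2 h)]
    · have h6 : toS q ∉ sepT Φ ε N.T' P := fun h => h5 fun _ => h
      rw [indicator_of_notMem h6, indicator_of_notMem fun h => h5 h.2]
  · have h3 : dS Φ ε K N P q = 0 := by
      unfold dS strD
      exact indicator_of_notMem hq _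
    rw [h3, zero_mul, zero_mul]

/-- **Integrals against 735's pair laws** are at most the structure integrals of 307. -/
theorem lintegral_nuP_strI (hΦ : AdmissiblePotential Φ) (hε : 0 < ε) (N : NPar)
    (x y : Idx P ⊕ Bool) {F : Lab × LSt → ℝ≥0∞} (hF : Measurable F) :
    ∫⁻ p, F p ∂(NuL735.nuP Φ ε K N P x y) ≤
      strI Φ (gP N.Cf N.b) ε K N.γe N.ρ N.te N.T' P fun L =>
        (early N.te).indicator F (thσ (N.σ P x y) x y L) := by
  have hFe : Measurable ((early N.te).indicator F) := hF.indicator (measurableSet_early N.te)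
  have hth := measurable_thσ (P := P) hΦ ε (N.σ P x y) x y
  have hH : Measurable fun q : (PhasePoint × Par P) × ML =>
      (early N.te).indicator F (thσ (N.σ P x y) x y (oneLsM Φ ε P q.1 q.2)) := hFe.comp hth
  rw [lintegral_nuP_strM hΦ hε N x y hF]
  refine (mul_le_mul_right (lintegral_mono fun q => indicator_le_self' (fun _ _ => zero_le) q)
    _).trans (le_of_eq ?_)
  rw [lintegral_strM hΦ (NuL735.measurable_gP _ _)
    measurable_const N.ρ N.te N.T' (Measure.dirac 0) hH]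
  unfold strI
  congr 1
  refine lintegral_congr fun z => ?_
  by_cases hz : Valid Φ ε P N.T' z.1.2 z.2
  · rw [indicator_of_mem (show z ∈ {z : PhasePoint × Par P | Valid Φ ε P N.T' z.1.2 z.2} from hz),
      indicator_of_mem (show z ∈ {z : PhasePoint × Par P | Valid Φ ε P N.T' z.1.2 z.2} from hz)]
    have h4 : ∀ l : ML, oneLsM Φ ε P z l = oneLs Φ ε P z l := fun l =>
      funext fun x => oneLsM_of_adm hz.1 l x
    simp only [h4]
  · rw [indicator_of_notMem (show z ∉ {z : PhasePoint × Par P | Valid Φ ε P N.T' z.1.2 z.2}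
      from hz), indicator_of_notMem (show z ∉ {z : PhasePoint × Par P |
        Valid Φ ε P N.T' z.1.2 z.2} from hz)]

/-- A sum over the trees with at most `m₀` leaves. -/
theorem tsum_trees (m₀ : ℕ) (a : CTree → ℝ≥0∞) :
    (∑' P : CTree, if P.leaves ≤ m₀ then a P else 0) = ∑ P ∈ GIVStep383.trees m₀, a P := by
  rw [tsum_eq_sum (s := GIVStep383.trees m₀)]
  · exact Finset.sum_congr rfl fun P hP => if_pos (GIVStep383.mem_trees.1 hP)
  · exact fun P hP => if_neg fun h => hP (GIVStep383.mem_trees.2 h)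

/-- **Integrals against 735's base law.** -/
theorem lintegral_nuL_strM (hΦ : AdmissiblePotential Φ) (hε : 0 < ε) (N : NPar)
    {F : Lab × LSt → ℝ≥0∞} (hF : Measurable F) :
    ∫⁻ p, F p ∂(nuL Φ ε K N) = activity ε * ∑' P : CTree, if P.leaves ≤ N.m₀ then
      ∑ x ∈ exS P, ∑ y ∈ Finset.univ.erase x, ∫⁻ q, (sepT Φ ε N.T' P).indicator
        (fun q => (early N.te).indicator F (thσ (N.σ P x y) x y (oneLsM Φ ε P q.1 q.2))) q
        ∂(strM Φ (gP N.Cf N.b) ε K (fun _ => N.γe) N.ρ N.te N.T' (Measure.dirac 0) P) else 0 := by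
  rw [NuL735.lintegral_nuL, ← ENNReal.tsum_mul_left]
  refine tsum_congr fun P => ?_
  split_ifs
  · rw [Finset.mul_sum]
    refine Finset.sum_congr rfl fun x _ => ?_
    rw [Finset.mul_sum]
    exact Finset.sum_congr rfl fun y _ => lintegral_nuP_strM hΦ hε N x y hF
  · exact (mul_zero _).symm

theorem lintegral_nuL_strI (hΦ : AdmissiblePotential Φ) (hε : 0 < ε) (N : NPar)
    {F : Lab × LSt → ℝ≥0∞}
    (hF : Measurable F) : ∫⁻ p, F p ∂(nuL Φ ε K N) ≤ sumP N.m₀ fun P x y =>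
      strI Φ (gP N.Cf N.b) ε K N.γe N.ρ N.te N.T' P fun L =>
        (early N.te).indicator F (thσ (N.σ P x y) x y L) := by
  rw [NuL735.lintegral_nuL, tsum_trees N.m₀ fun P => ∑ x ∈ exS P, ∑ y ∈ Finset.univ.erase x,
    ∫⁻ p, F p ∂(NuL735.nuP Φ ε K N P x y)]
  unfold sumP
  exact Finset.sum_le_sum fun P _ => Finset.sum_le_sum fun x _ => Finset.sum_le_sum
    fun y _ => lintegral_nuP_strI hΦ hε N x y hF

/-! ### Class -/

/-- The parameters of the base law. -/
def npar (Cf b g : ℝ) (ρ : ℝ≥0∞) (te T' : ℝ) (m₀ : ℕ) : NPar :=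
  ⟨Cf, b, g, ρ, te, T', m₀, sigB⟩

/-- **The base law of helper735 is in the class**, with a constant which depends on `m₀` only. -/
theorem nuL_px (hΦ : AdmissiblePotential Φ) {B : BPar} (hB : B.Ok) (hρ : B.ρ * B.lam₁ < 1)
    {b : ℝ} (hb : B.bs < b) (Cf : ℝ) (m₀ : ℕ) : ∃ c₀ : ℝ≥0∞, c₀ ≠ ∞ ∧
      ∀ ε T' te : ℝ, 0 < ε → ε ≤ 1 → 0 < te → te ≤ T' → T' ≤ B.T →
      ∀ K : ℕ, ∀ Pp : PPar, IsPP B te K Pp → ∀ g : ℝ, B.b₀ ≤ g →
      ∃ Ξ : Measure (Lab × LSt), PX Pp Ξ (nuL Φ ε K (npar Cf b g B.ρ te T' m₀)) c₀ ∧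
        Aux ε (nuL Φ ε K (npar Cf b g B.ρ te T' m₀)) := by
  obtain ⟨c₀, hc, h⟩ := px_base hΦ hB hρ hb Cf m₀
  refine ⟨c₀, hc, fun ε T' te hε hε1 hte hT' hTB K Pp hPp g hg => ?_⟩
  refine h ε T' te hε hε1 hte hT' hTB K Pp hPp g hg (gP Cf b) (fun _ => le_rfl) _ inferInstance
    (fun a => NuL735.nuL_tr hΦ _ a) fun F hF => ?_
  exact lintegral_nuL_strI hΦ hε (npar Cf b g B.ρ te T' m₀) hF

/-! ### Domination of `nu0S` -/

theorem lineD_anti {γ γ' : ℝ → ℝ} (h : ∀ τ, γ' τ ≤ γ τ) (ρ : ℝ≥0∞) (K : ℕ) (l : ML) :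
    lineD γ ρ K l ≤ lineD γ' ρ K l := mul_le_mul_left (LN2.wG_anti (h _) _) _

theorem strM_anti {γ γ' : ℝ → ℝ} (h : ∀ τ, γ' τ ≤ γ τ) (ρ : ℝ≥0∞) (te T' : ℝ) (κ : Measure ℝ) :
    strM Φ f₀ ε K γ ρ te T' κ P ≤ strM Φ f₀ ε K γ' ρ te T' κ P := by
  refine withDensity_mono (ae_of_all _ fun q => ?_)
  unfold strD
  refine indicator_le_indicator ?_
  gcongr
  exact lineD_anti h ρ K q.2

/-- **The base law dominates the pair measure of the separated structures**, every rate `g` of the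
test line below the rate at `te`. -/
theorem nuL_dom (hΦ : AdmissiblePotential Φ) (hε : 0 < ε) (Cf b : ℝ) (Q : EPar) {g : ℝ}
    (hg : g ≤ Q.γ Q.te) (T' : ℝ) (m₀ : ℕ) : Dominates Q (nu0S Φ (gP Cf b) ε K Q T' m₀)
      (nuL Φ ε K (npar Cf b g Q.ρ Q.te T' m₀)) := by
  intro F hF h0
  have hF' : Measurable fun θ : Lab × LSt => F (dL θ, eL θ) :=
    hF.comp (measurable_dL.prodMk measurable_eL)
  unfold nu0S
  rw [lintegral_nuL_strM hΦ hε _ hF', lintegral_nu0R]
  refine mul_le_mul_right (ENNReal.tsum_le_tsum fun P => ?_) _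
  by_cases hP : P.leaves ≤ m₀
  swap
  · rw [if_neg hP]
    exact zero_le
  rw [if_pos hP, if_pos (show P.leaves ≤ (npar Cf b g Q.ρ Q.te T' m₀).m₀ from hP)]
  refine Finset.sum_le_sum fun x _ => Finset.sum_le_sum fun y _ => ?_
  rw [lintegral_nuPR hΦ (measurableSet_sepT hΦ hε T' P) x y hF]
  refine lintegral_mono' (strM_anti (fun _ => hg) _ _ _ _) fun q =>
    indicator_le_indicator (le_of_eq ?_)
  change F (oneLsM Φ ε P q.1 q.2 x, oneLsM Φ ε P q.1 q.2 y) =
    (early Q.te).indicator (fun θ : Lab × LSt => F (dL θ, eL θ))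
      (thσ (sigB P x y) x y (oneLsM Φ ε P q.1 q.2))
  by_cases hL : (oneLsM Φ ε P q.1 q.2 x).1.1 ≤ Q.te ∧ (oneLsM Φ ε P q.1 q.2 y).1.1 ≤ Q.te
  · rw [indicator_of_mem (show thσ (sigB P x y) x y (oneLsM Φ ε P q.1 q.2) ∈ early Q.te from hL)]
    rfl
  · rw [indicator_of_notMem (show thσ (sigB P x y) x y (oneLsM Φ ε P q.1 q.2) ∉ early Q.te
      from hL)]
    exact h0 _ hL

/-- **The pair mass of the separated structures is at most the pair functional of the base
law.** -/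
theorem pe_nu0S_le_nuL (hΦ : AdmissiblePotential Φ) (hε : 0 < ε) (hf : Measurable f₀) {Cf b : ℝ}
    (hC : ∀ z, f₀ z ≤ Cf * Real.exp (-(b * ‖z.2‖ ^ 2))) (Q : EPar) {g : ℝ}
    (hg : g ≤ Q.γ Q.te) (T' : ℝ) (m₀ : ℕ) :
    PE Φ f₀ ε K Q (nu0S Φ f₀ ε K Q T' m₀) ≤
      PELK Φ f₀ ε K Q (nuL Φ ε K (npar Cf b g Q.ρ Q.te T' m₀)) :=
  pe_nu0R_le hΦ hε hf (dominates_of_mono hΦ hC (nuL_dom hΦ hε Cf b Q hg T' m₀))

/-- The pair mass is the sum of the two parts. -/
theorem pe_nu0_eq (hΦ : AdmissiblePotential Φ) (hε : 0 < ε) (hf : Measurable f₀) (Q : EPar)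
    (T' : ℝ) (m₀ : ℕ) : PE Φ f₀ ε K Q (nu0 Φ f₀ ε K Q T' m₀) =
      PE Φ f₀ ε K Q (nu0S Φ f₀ ε K Q T' m₀) + PE Φ f₀ ε K Q (nu0N Φ f₀ ε K Q T' m₀) := by
  unfold PE
  rw [← gcE_add hf ε]
  · congr 1
    funext n w
    rw [nu0_eq hΦ hε, lintegral_add_measure]
  · exact fun n => (MeasE416.measurable_touchP_cfg hΦ hε K Q n).lintegral_prod_right'

/-- **The pair mass of `nu0`**: the pair functional of the base law and the pair mass of the
structures whose tree is not separated. -/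
theorem pe_nu0_le_nuL (hΦ : AdmissiblePotential Φ) (hε : 0 < ε) (hf : Measurable f₀) {Cf b : ℝ}
    (hC : ∀ z, f₀ z ≤ Cf * Real.exp (-(b * ‖z.2‖ ^ 2))) (Q : EPar) {g : ℝ}
    (hg : g ≤ Q.γ Q.te) (T' : ℝ) (m₀ : ℕ) :
    PE Φ f₀ ε K Q (nu0 Φ f₀ ε K Q T' m₀) ≤
      PELK Φ f₀ ε K Q (nuL Φ ε K (npar Cf b g Q.ρ Q.te T' m₀)) +
        PE Φ f₀ ε K Q (nu0N Φ f₀ ε K Q T' m₀) := by
  rw [pe_nu0_eq hΦ hε hf]
  gcongr
  exact pe_nu0S_le_nuL hΦ hε hf hC Q hg T' m₀

end Crest.Agent.R122.NuLBind85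

end
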