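import Crest.Agent.R122.OkInd_942
import Crest.Agent.R122.NuHitS_969
import Crest.Agent.R122.NuLBind_85
import Crest.Agent.R122.NuOk_735
import Crest.Agent.R122.PassAE_416

/-!
# Row 122, inequality 3 (helper416): the law of the first line of a structure

* `DAC te S ε` : the law of the line `d` of the shape `S` is absolutely continuous w.r.t. `lineV te`.
* `dac_of_px`, `dac_base` : the shapes of the base pair law; `DAC.itS` : their continuations;
  `dac_itS_base` : both.
* `qmp_osPX`, `qmp_osP` : from independent lines to (contact tree, structure, line, gas);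
  `ae_osPX`, `ae_osP` : the almost sure facts.
-/

set_option autoImplicit false
set_option linter.unusedSectionVars false

open MeasureTheory Set Filter Topology
open scoped Classical ENNReal
open Crest.AnalysisR.Kinetic

noncomputable section

namespace Crest.Agent.R122.DLaw416

open Crest.Agent.R122.GC311 Crest.Agent.R122.Kin796 Crest.Agent.R122.Kin796.CTree
open Crest.Agent.R122.Tree674 Crest.Agent.R122.EDefs602
open Crest.Agent.R122.Gate424 Crest.Agent.R122.LN2
open Crest.Agent.R122.Boost969 (LSt)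
open Crest.Agent.R122.Pair292 (Lab PPar PX)
open Crest.Agent.R122.PairD292 Crest.Agent.R122.PairRep581
open Crest.Agent.R122.StrN998 (itS)
open Crest.Agent.R122.NuL735 (famB nuL NPar Ix)

variable {Φ : Space3 → ℝ} {f₀ : PhasePoint → ℝ} {γ β : ℝ} {ρ : Space3 → ℝ≥0∞} {S : Shp}
  {te T' ε : ℝ} {K : ℕ} {P : CTree}

/-- **The law of the line `d`** of the shape is absolutely continuous. -/
def DAC (te : ℝ) (S : Shp) (ε : ℝ) : Prop :=
  Measure.QuasiMeasurePreserving (fun x => dL (S.th ε x)) (S.m ε) (lineV te)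

theorem measurable_dLx (h : ShpOk γ β ρ S) (hε : 0 < ε) :
    Measurable fun x => dL (S.th ε x) := by
  have h1 : Measurable fun θ : Lab × LSt => dL θ := by
    unfold dL
    exact measurable_fst.fst
  exact h1.comp (h.mth ε hε)

theorem dac_of_ae (hm : Measurable fun x => dL (S.th ε x))
    (h : ∀ N : Set ML, MeasurableSet N → lineV te N = 0 → ∀ᵐ x ∂(S.m ε), dL (S.th ε x) ∉ N) :
    DAC te S ε := by
  refine ⟨hm, Measure.AbsolutelyContinuous.mk fun N hN h0 => ?_⟩
  rw [Measure.map_apply hm hN]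
  exact measure_eq_zero_iff_ae_notMem.2 (h N hN h0)

theorem DAC.ae {te : ℝ} (h : DAC te S ε) {N : Set ML} (h0 : lineV te N = 0) :
    ∀ᵐ x ∂(S.m ε), dL (S.th ε x) ∉ N :=
  Measure.QuasiMeasurePreserving.ae h (measure_eq_zero_iff_ae_notMem.1 h0)

/-! ### The base law -/

/-- **The shapes of the base law**, from the class of pair laws. -/
theorem dac_of_px (hΦ : AdmissiblePotential Φ) (N : NPar) {Pp : PPar}
    {Ξ : Measure (Lab × LSt)} {c : ℝ≥0∞} (h : PX Pp Ξ (nuL Φ ε K N) c) (hℓ : Pp.ℓ ≪ lineV te)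
    (hte : N.te ≤ Pp.t') (s : Ix N.m₀) : DAC te (famB Φ K N s) ε := by
  have hmth : Measurable fun x => dL ((famB Φ K N s).th ε x) := by
    have h1 : Measurable fun θ : Lab × LSt => dL θ := by
      unfold dL
      exact measurable_fst.fst
    exact h1.comp (NuL735.measurable_thE hΦ ε _ _ _)
  refine dac_of_ae hmth fun A hA h0 => ?_
  set F : ML × ℝ → ℝ≥0∞ := fun p => A.indicator 1 p.1 with hF
  have hFm : Measurable F := (measurable_one.indicator hA).comp measurable_fst
  set G : Lab × LSt → ℝ≥0∞ := fun p => {p : Lab × LSt | p.2.1 ≤ Pp.t'}.indicator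
    (fun p => F (p.1.1, p.1.2.1)) p with hG
  have hGm : Measurable G := by
    have hset : MeasurableSet {p : Lab × LSt | p.2.1 ≤ Pp.t'} :=
      measurableSet_le (by fun_prop) measurable_const
    exact (hFm.comp (by fun_prop)).indicator hset
  have h1 : ∫⁻ p, G p ∂(nuL Φ ε K N) ≤ volume (Metric.ball (0 : Space3) 1) * (c * Pp.rhs F) :=
    h.le_rhs hFm fun p => by
      rw [hG]
      simp only
      by_cases hp : p.2.1 ≤ Pp.t'
      · rw [if_pos hp, indicator_of_mem (show p ∈ {p : Lab × LSt | p.2.1 ≤ Pp.t'} from hp)]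
      · rw [if_neg hp, indicator_of_notMem (show p ∉ {p : Lab × LSt | p.2.1 ≤ Pp.t'} from hp)]
  have h2 : ∀ᵐ l ∂Pp.ℓ, A.indicator (1 : ML → ℝ≥0∞) l = 0 := by
    filter_upwards [measure_eq_zero_iff_ae_notMem.1 (hℓ h0)] with l hl
    exact indicator_of_notMem hl _
  have h3 : Pp.rhs F = 0 := by
    have e1 : ∫⁻ l, F (l, l.1.1) ∂Pp.ℓ = 0 :=
      (lintegral_congr_ae (g := fun _ => (0 : ℝ≥0∞)) h2).trans lintegral_zero
    have e2 : ∫⁻ l, (∫⁻ s in Icc 0 Pp.t', F (l, s)) ∂Pp.ℓ = 0 := by
      refine (lintegral_congr_ae (g := fun _ => (0 : ℝ≥0∞)) ?_).trans lintegral_zero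
      filter_upwards [h2] with l hl
      show ∫⁻ _s in Icc 0 Pp.t', A.indicator (1 : ML → ℝ≥0∞) l = 0
      rw [hl, lintegral_zero]
    show ∫⁻ l, F (l, l.1.1) ∂Pp.ℓ + ∫⁻ l, (∫⁻ s in Icc 0 Pp.t', F (l, s)) ∂Pp.ℓ = 0
    rw [e1, e2, add_zero]
  rw [h3, mul_zero, mul_zero, nonpos_iff_eq_zero, NuL735.lintegral_nuL_shp hΦ N hGm,
    Finset.sum_eq_zero_iff] at h1
  have h4 := h1 s (Finset.mem_univ s)
  have h5 : Measurable fun q => G ((famB Φ K N s).th ε q) :=
    hGm.comp (NuL735.measurable_thE hΦ ε _ _ _)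
  have h6 := (lintegral_eq_zero_iff h5).1 h4
  have h7 : ∀ᵐ q ∂((famB Φ K N s).m ε), ((famB Φ K N s).th ε q).2.1 ≤ N.te := by
    have hms := (NuL735.measurableSet_bdE hΦ ε N.te s.2.1.1 s.2.1.2).inter
      (NuL735.measurableSet_sepE hΦ ε N.T' s.1.1)
    have h8 : ∀ᵐ q ∂(NuL735.mP Φ ε K N s.1.1 s.2.1.1 s.2.1.2),
        q ∈ (NuL735.bdE Φ ε N.te s.2.1.1 s.2.1.2 ∩ NuL735.sepE Φ ε N.T' s.1.1 :
          Set (NuL735.Th s.1.1)) := ae_restrict_mem hms
    have h9 : ∀ᵐ q ∂(NuL735.mP Φ ε K N s.1.1 s.2.1.1 s.2.1.2),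
        (NuL735.oneE Φ ε q s.2.1.2).1.1 ≤ N.te := by
      filter_upwards [h8] with q hq
      exact hq.1.2
    exact h9
  filter_upwards [h6, h7] with q hq hq2 hqA
  have h10 : G ((famB Φ K N s).th ε q) = 0 := hq
  rw [hG] at h10
  simp only at h10
  rw [indicator_of_mem (show (famB Φ K N s).th ε q ∈ {p : Lab × LSt | p.2.1 ≤ Pp.t'} from
    hq2.trans hte)] at h10
  rw [hF] at h10
  simp only at h10
  rw [indicator_of_mem (show ((famB Φ K N s).th ε q).1.1 ∈ A from hqA)] at h10
  exact one_ne_zero h10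

/-- The exit lines of almost every tree avoid a null set of lines. -/
theorem ae_exit (hΦ : AdmissiblePotential Φ) (hε : 0 < ε) (P : CTree) (T' : ℝ) {A : Set ML}
    (hA : MeasurableSet A) (h0 : lineV T' A = 0) :
    ∀ᵐ z : PhasePoint × Par P, vw Φ ε P T' z ≠ 0 → ∀ m : Mark307.Mk P,
      LineMeas994.lineMM Φ ε P z (Mark307.exIdx m) ∉ A := by
  set k : PhasePoint → ℝ≥0∞ := fun z => ENNReal.ofReal (1 * Real.exp (-2 * ‖z.2‖ ^ 2)) with hk
  have hkm : Measurable k := by
    rw [hk]
    fun_prop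
  have hk0 : ∀ z, k z ≠ 0 := fun z => by
    rw [hk]
    simp only [one_mul, ne_eq, ENNReal.ofReal_eq_zero, not_le]
    exact Real.exp_pos _
  obtain ⟨C', -, H⟩ := Mark307.crude_exit_lineM hΦ (C := 1) (b := 2) (b' := 1) zero_le_one
    one_pos one_lt_two hkm (fun z => le_rfl) P (T := T') (γ := fun _ => 1) measurable_const
    (fun _ _ => le_rfl) (ρ := 1) one_ne_zero le_rfl
  set φ : ML → ℝ≥0∞ := A.indicator 1 with hφ
  have hφm : Measurable φ := measurable_one.indicator hA
  have h1 := H ε T' hε le_rfl P.leaves le_rfl φ hφm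
  have h2 : ∫⁻ l, φ l ∂lineM (fun _ => 1) 1 P.leaves T' = 0 := by
    rw [hφ, lintegral_indicator_one hA]
    exact withDensity_absolutelyContinuous _ _ h0
  rw [h2, mul_zero, nonpos_iff_eq_zero] at h1
  have e : ∀ z : PhasePoint × Par P, vw Φ ε P T' z * ((∏ i, k (lines Φ ε P z.1 z.2 i)) *
      ∑ m : Mark307.Mk P, φ (TreeLines335.lineML Φ ε P z (Mark307.exIdx m))) =
      vw Φ ε P T' z * ((∏ i, k (linesM Φ ε P z.1 z.2 i)) *
      ∑ m : Mark307.Mk P, φ (LineMeas994.lineMM Φ ε P z (Mark307.exIdx m))) := by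
    intro z
    by_cases hz : vw Φ ε P T' z = 0
    · rw [hz, zero_mul, zero_mul]
    · have hV := Mark307.valid_of_vw hz
      rw [linesM_of_adm ε hV.1]
      congr 2
      refine Finset.sum_congr rfl fun m _ => ?_
      rw [LineMeas994.lineMM_of_adm ε hV.1]
  rw [lintegral_congr e] at h1
  have hmeas : Measurable fun z : PhasePoint × Par P => vw Φ ε P T' z *
      ((∏ i, k (linesM Φ ε P z.1 z.2 i)) *
        ∑ m : Mark307.Mk P, φ (LineMeas994.lineMM Φ ε P z (Mark307.exIdx m))) := by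
    refine (measurable_vw hΦ ε P T').mul (Measurable.mul ?_ ?_)
    · exact Finset.measurable_prod _ fun i _ => hkm.comp ((measurable_pi_apply i).comp
        (measurable_linesM hΦ ε P))
    · exact Finset.measurable_sum _ fun m _ => hφm.comp (LineMeas994.measurable_lineMM hΦ ε P _)
  filter_upwards [(lintegral_eq_zero_iff hmeas).1 h1] with z hz hv m hmA
  have hz' : vw Φ ε P T' z * ((∏ i, k (linesM Φ ε P z.1 z.2 i)) *
      ∑ m : Mark307.Mk P, φ (LineMeas994.lineMM Φ ε P z (Mark307.exIdx m))) = 0 := hz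
  rcases mul_eq_zero.1 hz' with h3 | h3
  · exact hv h3
  rcases mul_eq_zero.1 h3 with h4 | h4
  · obtain ⟨i, -, h5⟩ := Finset.prod_eq_zero_iff.1 h4
    exact hk0 _ h5
  · have h5 := Finset.sum_eq_zero_iff.1 h4 m (Finset.mem_univ m)
    rw [hφ, indicator_of_mem hmA] at h5
    exact one_ne_zero h5

/-- **The shapes of the base law**, horizon `T'` of the trees, every `ε` and all parameters. -/
theorem dac_base (hΦ : AdmissiblePotential Φ) (N : NPar) (hε : 0 < ε) (s : Ix N.m₀) :
    DAC N.T' (famB Φ K N s) ε := by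
  have hmth : Measurable fun x => dL ((famB Φ K N s).th ε x) := by
    have h1 : Measurable fun θ : Lab × LSt => dL θ := by
      unfold dL
      exact measurable_fst.fst
    exact h1.comp (NuL735.measurable_thE hΦ ε _ _ _)
  refine dac_of_ae hmth fun A hA h0 => ?_
  obtain ⟨⟨P, hP⟩, ⟨⟨x, y⟩, hx, hy⟩⟩ := s
  change x ∈ OneC285.exS P at hx
  change ∀ᵐ q ∂(NuL735.mP Φ ε K N P x y), NuL735.oneE Φ ε q x ∉ A
  obtain ⟨i, hi, rfl⟩ := Finset.mem_map.1 hx
  obtain ⟨m, hm⟩ := Mark307.exIdx_surj P i (Finset.mem_filter.1 hi).2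
  have h1 : ∀ᵐ q ∂(NuL735.refM P), vw Φ ε P N.T' q.1 ≠ 0 → ∀ m : Mark307.Mk P,
      LineMeas994.lineMM Φ ε P q.1 (Mark307.exIdx m) ∉ A :=
    Measure.quasiMeasurePreserving_fst.ae (ae_exit hΦ hε P N.T' hA h0)
  have h2 : ∀ᵐ q ∂(NuL735.mS Φ ε K N P), NuL735.oneE Φ ε q (Sum.inl i) ∉ A := by
    unfold NuL735.mS
    refine Measure.ae_smul_measure ?_ _
    rw [ae_withDensity_iff (NuL735.measurable_dS hΦ ε K N P)]
    filter_upwards [h1] with q hq hd
    have h3 : (q.1, NuL735.lnO q.2) ∈ Nu0566.goodS Φ ε N.te N.T' K P := by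
      by_contra hc
      refine hd ?_
      unfold NuL735.dS Nu0566.strD
      exact indicator_of_notMem hc _
    have h4 : vw Φ ε P N.T' q.1 ≠ 0 := by
      intro hv
      refine hd ?_
      show Nu0566.strD Φ _ ε K _ N.ρ N.te N.T' P (q.1, NuL735.lnO q.2) = 0
      unfold Nu0566.strD
      rw [indicator_of_mem h3]
      rw [vw_of_valid h3.1] at hv
      show wtM Φ P q.1.1.2 q.1.2 * _ = 0
      rw [wtM_of_adm h3.1.1, hv, zero_mul]
    have h5 := hq h4 m
    rw [hm] at h5
    rw [NuL735.oneE_of_adm' h3.1.1]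
    show ¬ (if i = root P then _ else LineMeas994.lineMM Φ ε P q.1 i) ∈ A
    rw [if_neg (Finset.mem_filter.1 hi).2]
    exact h5
  exact ae_restrict_of_ae h2

/-- **The line `d` of the continuations** is the line `d` of the base. -/
theorem dL_itS (S : Shp) (Φ : Space3 → ℝ) (b₀ te : ℝ) (q : ℕ → ℝ≥0∞) (ε : ℝ) (j : ℕ)
    (x : StrN998.Th S.Θ j) :
    dL ((itS S Φ b₀ te q j).th ε x) = dL (S.th ε (NuHit969.bas S.Θ j x)) := by
  induction j with
  | zero => rfl
  | succ j ih => exact ih x.1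

/-- **The continuations.** -/
theorem DAC.itS {te' b₀ : ℝ} {q : ℕ → ℝ≥0∞} (hd : DAC te S ε) (h : ShpOk γ β ρ S)
    (hΦ : AdmissiblePotential Φ) (hε : 0 < ε) (j : ℕ) :
    DAC te (StrN998.itS S Φ b₀ te' q j) ε := by
  have hok := StrN998.ShpOk.sd_ok h hε
  have hokj : ((StrN998.ofShp S ε).iter Φ ε b₀ te' q j).Ok := hok.iter hΦ j
  have hm : Measurable fun x => dL ((StrN998.itS S Φ b₀ te' q j).th ε x) := by
    have h1 : Measurable fun θ : Lab × LSt => dL θ := by
      unfold dL
      exact measurable_fst.fst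
    exact h1.comp hokj.mpr
  refine dac_of_ae hm fun N hN h0 => ?_
  filter_upwards [NuHit969.ae_itS (b₀ := b₀) (te := te') (q := q) h hΦ hε (hd.ae h0) j]
    with x hx
  have h1 := dL_itS S Φ b₀ te' q ε j x
  show dL ((StrN998.itS S Φ b₀ te' q j).th ε x) ∉ N
  rw [h1]
  exact hx.1

/-- **All shapes of inequality 3.** -/
theorem dac_itS_base (hΦ : AdmissiblePotential Φ) (K : ℕ) (N : NPar) {b₀ te' : ℝ}
    {q : ℕ → ℝ≥0∞} (h : ∀ s : Ix N.m₀, ShpOk γ β ρ (famB Φ K N s)) (hε : 0 < ε) (s : Ix N.m₀)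
    (j : ℕ) : DAC N.T' (StrN998.itS (famB Φ K N s) Φ b₀ te' q j) ε :=
  (dac_base hΦ N hε s).itS (h s) hΦ hε j

/-! ### Transport -/

section transport

variable {n : ℕ} {te' : ℝ} {gl : ℝ → ℝ} {rm : ℝ≥0∞} {Km : ℕ}

theorem treeA_ac : treeA Φ f₀ ε T' P ≪ (volume : Measure (PhasePoint × Par P)) :=
  withDensity_absolutelyContinuous _ _

theorem osP_ac [SFinite (S.m ε)] : osP Φ f₀ te T' K P S ε () ≪
    (volume : Measure (PhasePoint × Par P)).prod (S.m ε) := by
  unfold osP
  exact (Measure.absolutelyContinuous_of_le Measure.restrict_le_self).trans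
    (treeA_ac.prod Measure.AbsolutelyContinuous.rfl)

/-- **From independent lines to (contact tree, structure, gas).** -/
theorem qmp_osP [SFinite (S.m ε)] (hd : DAC te' S ε) :
    Measure.QuasiMeasurePreserving
      (fun r : ((PhasePoint × Par P) × S.Θ) × Config n =>
        (((r.1.1, r.2), dL (S.th ε r.1.2)) : ((PhasePoint × Par P) × Config n) × ML))
      ((osP Φ f₀ te T' K P S ε ()).prod (volume : Measure (Config n)))
      ((volume : Measure ((PhasePoint × Par P) × Config n)).prod (lineV te')) := by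
  have : SFinite (lineV te') := by unfold lineV; infer_instance
  have m1 : Measure.QuasiMeasurePreserving
      (fun r : ((PhasePoint × Par P) × S.Θ) × Config n => ((r.1.1, dL (S.th ε r.1.2)), r.2))
      (((volume : Measure (PhasePoint × Par P)).prod (S.m ε)).prod (volume : Measure (Config n)))
      (((volume : Measure (PhasePoint × Par P)).prod (lineV te')).prod
        (volume : Measure (Config n))) :=
    QuasiMeasurePreserving.prodMap (QuasiMeasurePreserving.prodMap
      (Measure.QuasiMeasurePreserving.id (volume : Measure (PhasePoint × Par P))) hd)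
      (Measure.QuasiMeasurePreserving.id (volume : Measure (Config n)))
  have m2 := (OkInd942.mp_swapR (volume : Measure (PhasePoint × Par P)) (lineV te')
    (volume : Measure (Config n))).quasiMeasurePreserving.comp m1
  exact m2.mono_left (osP_ac.prod Measure.AbsolutelyContinuous.rfl)

/-- **From independent lines to (contact tree, structure, line, gas).** -/
theorem qmp_osPX [SFinite (S.m ε)] (hd : DAC te' S ε) (te₁ : ℝ) :
    Measure.QuasiMeasurePreserving
      (fun r : (((PhasePoint × Par P) × S.Θ) × ML) × Config n =>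
        ((((r.1.1.1, r.2), r.1.2), dL (S.th ε r.1.1.2)) :
          (((PhasePoint × Par P) × Config n) × ML) × ML))
      (((osP Φ f₀ te T' K P S ε ()).prod (lineM gl rm Km te₁)).prod
        (volume : Measure (Config n)))
      (((volume : Measure ((PhasePoint × Par P) × Config n)).prod (lineV te₁)).prod
        (lineV te')) := by
  have : SFinite (lineV te') := by unfold lineV; infer_instance
  have : SFinite (lineV te₁) := by unfold lineV; infer_instance
  have hos : SFinite (osP Φ f₀ te T' K P S ε ()) := by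
    unfold osP
    infer_instance
  -- `(q, x), w` to `(q, w), x`
  have m1 : Measure.QuasiMeasurePreserving
      (fun r : (((PhasePoint × Par P) × S.Θ) × ML) × Config n => ((r.1.1, r.2), r.1.2))
      (((osP Φ f₀ te T' K P S ε ()).prod (lineV te₁)).prod (volume : Measure (Config n)))
      (((osP Φ f₀ te T' K P S ε ()).prod (volume : Measure (Config n))).prod (lineV te₁)) :=
    (OkInd942.mp_swapR (osP Φ f₀ te T' K P S ε ()) (lineV te₁)
      (volume : Measure (Config n))).quasiMeasurePreserving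
  have m2 := QuasiMeasurePreserving.prodMap (qmp_osP (Φ := Φ) (f₀ := f₀) (te := te) (T' := T')
    (K := K) (P := P) (n := n) hd) (Measure.QuasiMeasurePreserving.id (lineV te₁))
  have m3 := (OkInd942.mp_swapR (volume : Measure ((PhasePoint × Par P) × Config n)) (lineV te')
    (lineV te₁)).quasiMeasurePreserving
  have hac : lineM gl rm Km te₁ ≪ lineV te₁ := withDensity_absolutelyContinuous _ _
  exact (m3.comp (m2.comp m1)).mono_left
    ((Measure.AbsolutelyContinuous.rfl.prod hac).prod Measure.AbsolutelyContinuous.rfl)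

/-- **Almost sure facts under `osP`.** -/
theorem ae_osP (h : ShpOk γ β ρ S) (hd : DAC te' S ε)
    {E : ((PhasePoint × Par P) × Config n) × ML → Prop}
    (hE : ∀ᵐ q ∂((volume : Measure ((PhasePoint × Par P) × Config n)).prod (lineV te')), E q) :
    ∀ᵐ r ∂((osP Φ f₀ te T' K P S ε ()).prod (volume : Measure (Config n))),
      E ((r.1.1, r.2), dL (S.th ε r.1.2)) := by
  have := h.sf ε
  exact (qmp_osP hd).ae hE

/-- **Almost sure facts under `osP × lineM`.** -/
theorem ae_osPX (h : ShpOk γ β ρ S) (hd : DAC te' S ε) (te₁ : ℝ)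
    {E : (((PhasePoint × Par P) × Config n) × ML) × ML → Prop}
    (hE : ∀ᵐ q ∂(((volume : Measure ((PhasePoint × Par P) × Config n)).prod (lineV te₁)).prod
      (lineV te')), E q) :
    ∀ᵐ r ∂(((osP Φ f₀ te T' K P S ε ()).prod (lineM gl rm Km te₁)).prod
        (volume : Measure (Config n))),
      E (((r.1.1.1, r.2), r.1.2), dL (S.th ε r.1.1.2)) := by
  have := h.sf ε
  exact (qmp_osPX hd te₁).ae hE

end transport

end Crest.Agent.R122.DLaw416

end
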