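import Crest.Agent.R122.TransD1_151
import Crest.Agent.R122.Rebirth_45

/-!
# Motions with births and deaths: sums and dead particles (row 122), helper167

* `DWorld.congr_d` : the deaths after `T` do not matter.
* `DWorld.sum` : two motions whose living particles stay at distance at least `ε` form one motion.
* `DWorld.of_emb` : adding dead particles.
* `DWorld.line` : a free particle.
* `RelD.sum`, `RelD.mono` : release data.
-/

set_option autoImplicit false
set_option linter.unusedSectionVars false

open MeasureTheory Set Filter Topology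
open scoped ENNReal NNReal
open Crest.AnalysisR.Kinetic
open Crest.Agent.R122.Flow671 Crest.Agent.R122.Loc45 Crest.Agent.R122.Ins45
open Crest.Agent.R122.Simul984

namespace Crest.Agent.R122.TransOk151

noncomputable section

open scoped Classical

variable {Φ : Space3 → ℝ} {ε : ℝ} {α α' : Type*} [Fintype α] [Fintype α']

namespace DWorld

variable {b d d' : α → ℝ} {s T : ℝ} {X : ℝ → α → PhasePoint}

/-- The deaths after `T` do not matter. -/
theorem congr_d (h : DWorld Φ ε b d s T X) (hd : ∀ i, d i = d' i ∨ (T ≤ d i ∧ T ≤ d' i)) :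
    DWorld Φ ε b d' s T X where
  cont i := by
    rcases hd i with h1 | ⟨h1, h2⟩
    · rw [← h1]; exact h.cont i
    · have h3 := h.cont i
      rw [min_eq_left h1] at h3
      rw [min_eq_left h2]
      exact h3
  der t ht htT i hi := by
    have hiff : ∀ j, t < d' j ↔ t < d j := by
      intro j
      rcases hd j with h1 | ⟨h1, h2⟩
      · rw [h1]
      · exact ⟨fun _ => htT.trans_le h1, fun _ => htT.trans_le h2⟩
    have h1 := h.der t ht htT i ((hiff i).1 hi)
    have h2 : bfd Φ ε b d' t (X t) i = bfd Φ ε b d t (X t) i := by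
      unfold bfd
      simp only [hiff]
    rw [h2]
    exact h1
  dom t ht htT := by
    have hiff : ∀ j, t < d' j ↔ t < d j := by
      intro j
      rcases hd j with h1 | ⟨h1, h2⟩
      · rw [h1]
      · exact ⟨fun _ => htT.trans_le h1, fun _ => htT.trans_le h2⟩
    refine (h.dom t ht htT).imp id fun h' i j hij h1 h2 h3 h4 =>
      h' i j hij h1 ((hiff i).1 h2) h3 ((hiff j).1 h4)

/-- Change of the path. -/
theorem congr {X' : ℝ → α → PhasePoint} (h : DWorld Φ ε b d s T X)
    (hX : ∀ t, s ≤ t → t ≤ T → ∀ i, t ≤ d i → X' t i = X t i) : DWorld Φ ε b d s T X' where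
  cont i := (h.cont i).congr fun t ht =>
    hX t ht.1 (ht.2.trans (min_le_left _ _)) i (ht.2.trans (min_le_right _ _))
  der t ht htT i hi := by
    have h3 := h.der t ht htT i hi
    have h4 : bfd Φ ε b d t (X' t) i = bfd Φ ε b d t (X t) i := by
      unfold bfd
      rw [hX t ht htT.le i hi.le]
      congr 3
      refine Finset.sum_congr rfl fun j _ => ?_
      split_ifs with h5
      · rw [hX t ht htT.le j h5.2.le]
      · rfl
    rw [h4]
    refine h3.congr_of_eventuallyEq ?_ (hX t ht htT.le i hi.le)
    have h5 : Icc t (min T (d i)) ∈ 𝓝[≥] t := Icc_mem_nhdsGE (lt_min htT hi)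
    filter_upwards [h5] with u hu
    exact hX u (ht.trans hu.1) (hu.2.trans (min_le_left _ _)) i (hu.2.trans (min_le_right _ _))
  dom t ht htT := by
    refine (h.dom t ht htT).imp id fun h' i j hij h3 h4 h5 h6 => ?_
    rw [hX t ht htT.le i h4.le, hX t ht htT.le j h6.le]
    exact h' i j hij h3 h4 h5 h6

/-- Adding dead particles. -/
theorem of_emb {b : α → ℝ} {d : α → ℝ} {X : ℝ → α → PhasePoint} (e : α' ↪ α)
    (h : DWorld Φ ε (fun i => b (e i)) (fun i => d (e i)) s T (fun t i => X t (e i)))
    (he : ∀ i, i ∉ range e → d i ≤ s) : DWorld Φ ε b d s T X where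
  cont i := by
    by_cases hi : i ∈ range e
    · obtain ⟨k, rfl⟩ := hi
      exact h.cont k
    · have h1 : Icc s (min T (d i)) ⊆ {s} := by
        intro t ht
        exact le_antisymm ((ht.2.trans (min_le_right _ _)).trans (he i hi)) ht.1
      exact (continuousOn_singleton _ _).mono h1
  der t ht htT i hi := by
    by_cases hr : i ∈ range e
    · obtain ⟨k, rfl⟩ := hr
      have h1 := h.der t ht htT k hi
      have h2 : bfd Φ ε (fun i => b (e i)) (fun i => d (e i)) t (fun i => X t (e i)) k =
          bfd Φ ε b d t (X t) (e k) := by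
        unfold bfd
        congr 3
        have h3 : ∑ j : α', (if b (e j) ≤ t ∧ t < d (e j) then
            gradient Φ ((1 / ε) • ((X t (e k)).1 - (X t (e j)).1)) else 0) =
            ∑ j ∈ Finset.univ.map e, (if b j ≤ t ∧ t < d j then
              gradient Φ ((1 / ε) • ((X t (e k)).1 - (X t j).1)) else 0) := by
          rw [Finset.sum_map]
        rw [h3]
        refine Finset.sum_subset (Finset.subset_univ _) fun j _ hj => ?_
        have hj' : j ∉ range e := fun ⟨k, hk⟩ => hj (by simp [← hk])
        rw [if_neg]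
        intro h4
        exact absurd ((he j hj').trans ht) (not_le.2 h4.2)
      rw [← h2]
      exact h1
    · exact absurd ((he i hr).trans ht) (not_le.2 hi)
  dom t ht htT := by
    refine (h.dom t ht htT).imp id fun h' i j hij h1 h2 h3 h4 => ?_
    have hi : i ∈ range e := by
      by_contra hcon
      exact absurd ((he i hcon).trans ht) (not_le.2 h2)
    have hj : j ∈ range e := by
      by_contra hcon
      exact absurd ((he j hcon).trans ht) (not_le.2 h4)
    obtain ⟨k, rfl⟩ := hi
    obtain ⟨l, rfl⟩ := hj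
    exact h' k l (fun h => hij (by rw [h])) h1 h2 h3 h4

/-- **Two motions whose living particles stay at distance at least `ε` form one motion.** -/
theorem sum (hΦ : AdmissiblePotential Φ) (hε : 0 < ε) {b₁ d₁ : α → ℝ} {b₂ d₂ : α' → ℝ}
    {X₁ : ℝ → α → PhasePoint} {X₂ : ℝ → α' → PhasePoint}
    (h₁ : DWorld Φ ε b₁ d₁ s T X₁) (h₂ : DWorld Φ ε b₂ d₂ s T X₂)
    (hfar : ∀ t, s ≤ t → t < T → ∀ i j, b₁ i ≤ t → t < d₁ i → b₂ j ≤ t → t < d₂ j →
      ε ≤ dist (X₁ t i).1 (X₂ t j).1) :
    DWorld Φ ε (Sum.elim b₁ b₂) (Sum.elim d₁ d₂) s T (fun t => Sum.elim (X₁ t) (X₂ t)) where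
  cont i := by
    rcases i with i | i
    · exact h₁.cont i
    · exact h₂.cont i
  der t ht htT i hi := by
    rcases i with i | i
    · have h1 := h₁.der t ht htT i hi
      have h2 : bfd Φ ε (Sum.elim b₁ b₂) (Sum.elim d₁ d₂) t (Sum.elim (X₁ t) (X₂ t)) (Sum.inl i) =
          bfd Φ ε b₁ d₁ t (X₁ t) i := by
        unfold bfd
        simp only [Sum.elim_inl, Fintype.sum_sum_type, Sum.elim_inr]
        by_cases hb : b₁ i ≤ t
        · rw [if_pos hb, if_pos hb]
          congr 2
          refine add_eq_left.2 (Finset.sum_eq_zero fun j _ => ?_)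
          split_ifs with h3
          · exact grad_far hΦ hε (hfar t ht htT i j hb hi h3.1 h3.2)
          · rfl
        · rw [if_neg hb, if_neg hb]
      rw [h2]
      exact h1
    · have h1 := h₂.der t ht htT i hi
      have h2 : bfd Φ ε (Sum.elim b₁ b₂) (Sum.elim d₁ d₂) t (Sum.elim (X₁ t) (X₂ t)) (Sum.inr i) =
          bfd Φ ε b₂ d₂ t (X₂ t) i := by
        unfold bfd
        simp only [Sum.elim_inl, Fintype.sum_sum_type, Sum.elim_inr]
        by_cases hb : b₂ i ≤ t
        · rw [if_pos hb, if_pos hb]
          congr 2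
          refine add_eq_right.2 (Finset.sum_eq_zero fun j _ => ?_)
          split_ifs with h3
          · refine grad_far hΦ hε ?_
            rw [dist_comm]
            exact hfar t ht htT j i h3.1 h3.2 hb hi
          · rfl
        · rw [if_neg hb, if_neg hb]
      rw [h2]
      exact h1
  dom t ht htT := by
    rcases h₁.dom t ht htT with h | h1
    · exact Or.inl h
    rcases h₂.dom t ht htT with h | h2
    · exact Or.inl h
    refine Or.inr ?_
    rintro (i | i) (j | j) hij hbi hdi hbj hdj
    · exact h1 i j (fun h => hij (by rw [h])) hbi hdi hbj hdj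
    · intro h
      have h3 := hfar t ht htT i j hbi hdi hbj hdj
      simp only [Sum.elim_inl, Sum.elim_inr] at h
      rw [h, dist_self] at h3
      exact absurd h3 (not_le.2 hε)
    · intro h
      have h3 := hfar t ht htT j i hbj hdj hbi hdi
      simp only [Sum.elim_inl, Sum.elim_inr] at h
      rw [← h, dist_self] at h3
      exact absurd h3 (not_le.2 hε)
    · exact h2 i j (fun h => hij (by rw [h])) hbi hdi hbj hdj

/-- A world with births, everybody dies at the same time. -/
theorem of_bworld_const (hΦ : AdmissiblePotential Φ) (hε : 0 < ε) (h : BWorld Φ ε b s X)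
    (δ : ℝ) (T : ℝ) : DWorld Φ ε b (fun _ => δ) s T X :=
  DWorld.of_bworld hΦ hε h fun _ _ _ _ _ _ h1 _ h2 => absurd h2 (not_le.2 h1)

/-- A free particle. -/
theorem line (hΦ : AdmissiblePotential Φ) (hε : 0 < ε) (τ : ℝ) (z : PhasePoint) (δ s T : ℝ) :
    DWorld Φ ε (fun _ : Unit => τ) (fun _ => δ) s T (fun t _ => lineAt τ z t) :=
  of_bworld_const hΦ hε (bworld_line hΦ τ z s) δ T

end DWorld

/-- Release data of a sum. -/
theorem RelD.sum {b₁ d₁ : α → ℝ} {b₂ d₂ : α' → ℝ} {T : ℝ}
    {X₁ : ℝ → α → PhasePoint} {X₂ : ℝ → α' → PhasePoint}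
    (h₁ : RelD ε b₁ d₁ T X₁) (h₂ : RelD ε b₂ d₂ T X₂) :
    RelD ε (Sum.elim b₁ b₂) (Sum.elim d₁ d₂) T (fun t => Sum.elim (X₁ t) (X₂ t)) where
  pos i hi := by
    rcases i with i | i
    · exact h₁.pos i hi
    · exact h₂.pos i hi
  born i hi := by
    rcases i with i | i
    · exact h₁.born i hi
    · exact h₂.born i hi
  exit i hi := by
    rcases i with i | i
    · obtain ⟨p, h1, h2, h3, h4, h5⟩ := h₁.exit i hi
      exact ⟨Sum.inl p, fun h => h1 (Sum.inl_injective h), h2, h3, h4, h5⟩
    · obtain ⟨p, h1, h2, h3, h4, h5⟩ := h₂.exit i hi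
      exact ⟨Sum.inr p, fun h => h1 (Sum.inr_injective h), h2, h3, h4, h5⟩

end

end Crest.Agent.R122.TransOk151
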