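import Mathlib

/-!
# Row 122, section E: order-theoretic core of INEQUALITY 1 (and of INEQUALITY 3)

`θ A b` is the touch time of the line `b` in the world `Z + A`, where `Z` is a fixed base world and
`A` a finite set of lines. `Unl θ F` collects the three superposition facts (S1), (S2), (S3) of two
unlinked lines of the family `F` in the worlds `Z + G`, `G ⊆ F`.

* `Unl.le_touch`, `Unl.touch_le`, `Unl.touch_le_iff`: iterated versions for finite families.
* `decomp1`: case list of INEQUALITY 1 (E_FINAL E4).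
* `decomp3`: case list of INEQUALITY 3 (E_FINAL E6), for the pair `(d, e)` once `e` has contacted
  the fresh cluster `D2`.
-/

set_option autoImplicit false

namespace Crest.Agent.R122.Decomp285

variable {Ob : Type*} [DecidableEq Ob] {T : Type*} [LinearOrder T]

/-- The superposition facts for two unlinked lines `a ≠ b` in the world `Z + G`, for all `s` up to
and including the touch time of `a`. -/
structure Unl2 (θ : Finset Ob → Ob → T) (G : Finset Ob) (a b : Ob) : Prop where
  s1 : ∀ s, s ≤ θ G a → s ≤ θ G b → s ≤ θ (insert a G) b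
  s2 : ∀ s, s ≤ θ G a → θ G b ≤ s → θ (insert a G) b ≤ θ G b
  s3 : ∀ s, s ≤ θ G a → θ (insert a G) b ≤ s → θ G b ≤ s

/-- All pairs of lines of the family `F` are unlinked in all worlds `Z + G`, `G ⊆ F`. -/
def Unl (θ : Finset Ob → Ob → T) (F : Finset Ob) : Prop :=
  ∀ G ⊆ F, ∀ a ∈ F, ∀ b ∈ F, a ∉ G → b ∉ G → a ≠ b → Unl2 θ G a b

/-- The family `F` and the additional line `b` (not in `F`) are unlinked in all worlds `Z + G`. -/
def UnlTest (θ : Finset Ob → Ob → T) (F : Finset Ob) (b : Ob) : Prop :=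
  ∀ G ⊆ F, ∀ a ∈ F, a ∉ G → Unl2 θ G a b

theorem Unl.mono {θ : Finset Ob → Ob → T} {F F' : Finset Ob} (h : Unl θ F) (hF : F' ⊆ F) :
    Unl θ F' := fun G hG a ha b hb haG hbG hab =>
  h G (hG.trans hF) a (hF ha) b (hF hb) haG hbG hab

theorem UnlTest.mono {θ : Finset Ob → Ob → T} {F F' : Finset Ob} {b : Ob} (h : UnlTest θ F b)
    (hF : F' ⊆ F) : UnlTest θ F' b := fun G hG a ha haG => h G (hG.trans hF) a (hF ha) haG

/-- Iterated (S1): if no line of `F` touches `Z + A₀` before `s`, then no line of `F` touches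
`Z + A₀ + G` before `s`, `G ⊆ F`. -/
theorem Unl.le_touch {θ : Finset Ob → Ob → T} {F A₀ : Finset Ob} (h : Unl θ F) (hA : A₀ ⊆ F)
    {s : T} (hs : ∀ a ∈ F, a ∉ A₀ → s ≤ θ A₀ a) :
    ∀ G : Finset Ob, G ⊆ F → ∀ b ∈ F, b ∉ A₀ → b ∉ G → s ≤ θ (G ∪ A₀) b := by
  intro G
  induction G using Finset.induction_on with
  | empty =>
    intro _ b hb hbA _
    rw [Finset.empty_union]
    exact hs b hb hbA
  | insert a G haG ih =>
    intro hG b hb hbA hbG
    have hGF : G ⊆ F := (Finset.subset_insert a G).trans hG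
    have haF : a ∈ F := hG (Finset.mem_insert_self a G)
    rw [Finset.mem_insert, not_or] at hbG
    by_cases haA : a ∈ A₀
    · rw [Finset.insert_union, Finset.insert_eq_of_mem (Finset.mem_union_right _ haA)]
      exact ih hGF b hb hbA hbG.2
    · rw [Finset.insert_union]
      refine (h (G ∪ A₀) (Finset.union_subset hGF hA) a haF b hb ?_ ?_ (Ne.symm hbG.1)).s1 s
        (ih hGF a haF haA haG) (ih hGF b hb hbA hbG.2)
      · rw [Finset.mem_union, not_or]; exact ⟨haG, haA⟩
      · rw [Finset.mem_union, not_or]; exact ⟨hbG.2, hbA⟩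

/-- Iterated (S3): up to (and including) the first touch `s` of `F`, a line of `F` which touches
`Z + A₀ + G` by `s` touches `Z + A₀` by `s`. -/
theorem Unl.touch_of_touch {θ : Finset Ob → Ob → T} {F A₀ : Finset Ob} (h : Unl θ F) (hA : A₀ ⊆ F)
    {s : T} (hs : ∀ a ∈ F, a ∉ A₀ → s ≤ θ A₀ a) :
    ∀ G : Finset Ob, G ⊆ F → ∀ b ∈ F, b ∉ A₀ → b ∉ G → θ (G ∪ A₀) b ≤ s → θ A₀ b ≤ s := by
  intro G
  induction G using Finset.induction_on with
  | empty =>
    intro _ b _ _ _ hb'
    rwa [Finset.empty_union] at hb'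
  | insert a G haG ih =>
    intro hG b hb hbA hbG hle
    have hGF : G ⊆ F := (Finset.subset_insert a G).trans hG
    have haF : a ∈ F := hG (Finset.mem_insert_self a G)
    rw [Finset.mem_insert, not_or] at hbG
    by_cases haA : a ∈ A₀
    · rw [Finset.insert_union, Finset.insert_eq_of_mem (Finset.mem_union_right _ haA)] at hle
      exact ih hGF b hb hbA hbG.2 hle
    · rw [Finset.insert_union] at hle
      refine ih hGF b hb hbA hbG.2 ?_
      refine (h (G ∪ A₀) (Finset.union_subset hGF hA) a haF b hb ?_ ?_ (Ne.symm hbG.1)).s3 s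
        (h.le_touch hA hs G hGF a haF haA haG) hle
      · rw [Finset.mem_union, not_or]; exact ⟨haG, haA⟩
      · rw [Finset.mem_union, not_or]; exact ⟨hbG.2, hbA⟩

/-- Iterated (S2) for a test line: if no line of `F` touches `Z + A₀` before `s` and the unlinked
test line `b` touches `Z + A₀` by `s`, then it touches `Z + A₀ + G` not later. -/
theorem Unl.test_touch {θ : Finset Ob → Ob → T} {F A₀ : Finset Ob} (h : Unl θ F) (hA : A₀ ⊆ F)
    {s : T} (hs : ∀ a ∈ F, a ∉ A₀ → s ≤ θ A₀ a) {b : Ob} (hb : UnlTest θ F b)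
    (hbs : θ A₀ b ≤ s) :
    ∀ G : Finset Ob, G ⊆ F → θ (G ∪ A₀) b ≤ θ A₀ b := by
  intro G
  induction G using Finset.induction_on with
  | empty =>
    intro _
    rw [Finset.empty_union]
  | insert a G haG ih =>
    intro hG
    have hGF : G ⊆ F := (Finset.subset_insert a G).trans hG
    have haF : a ∈ F := hG (Finset.mem_insert_self a G)
    by_cases haA : a ∈ A₀
    · rw [Finset.insert_union, Finset.insert_eq_of_mem (Finset.mem_union_right _ haA)]
      exact ih hGF
    · rw [Finset.insert_union]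
      have h1 := ih hGF
      refine le_trans ((hb (G ∪ A₀) (Finset.union_subset hGF hA) a haF ?_).s2 s
        (h.le_touch hA hs G hGF a haF haA haG) (h1.trans hbs)) h1
      rw [Finset.mem_union, not_or]; exact ⟨haG, haA⟩

/-- Iterated (S2) for a line of `F`. -/
theorem Unl.touch_touch {θ : Finset Ob → Ob → T} {F A₀ : Finset Ob} (h : Unl θ F) (hA : A₀ ⊆ F)
    {s : T} (hs : ∀ a ∈ F, a ∉ A₀ → s ≤ θ A₀ a) {b : Ob} (hb : b ∈ F) (hbA : b ∉ A₀)
    (hbs : θ A₀ b ≤ s) :
    ∀ G : Finset Ob, G ⊆ F → b ∉ G → θ (G ∪ A₀) b ≤ θ A₀ b := by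
  intro G
  induction G using Finset.induction_on with
  | empty =>
    intro _ _
    rw [Finset.empty_union]
  | insert a G haG ih =>
    intro hG hbG
    have hGF : G ⊆ F := (Finset.subset_insert a G).trans hG
    have haF : a ∈ F := hG (Finset.mem_insert_self a G)
    rw [Finset.mem_insert, not_or] at hbG
    by_cases haA : a ∈ A₀
    · rw [Finset.insert_union, Finset.insert_eq_of_mem (Finset.mem_union_right _ haA)]
      exact ih hGF hbG.2
    · rw [Finset.insert_union]
      have h1 := ih hGF hbG.2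
      refine le_trans ((h (G ∪ A₀) (Finset.union_subset hGF hA) a haF b hb ?_ ?_
        (Ne.symm hbG.1)).s2 s (h.le_touch hA hs G hGF a haF haA haG) (h1.trans hbs)) h1
      · rw [Finset.mem_union, not_or]; exact ⟨haG, haA⟩
      · rw [Finset.mem_union, not_or]; exact ⟨hbG.2, hbA⟩

omit [DecidableEq Ob] in
/-- The first line of a nonempty family to touch. -/
theorem exists_first (θ : Ob → T) (F : Finset Ob) (hF : F.Nonempty) :
    ∃ k ∈ F, ∀ a ∈ F, θ k ≤ θ a := F.exists_min_image θ hF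

/-- **Case list of INEQUALITY 1.** `E` = exit lines of the fresh cluster, `c, l', c'` the three
successors of the contact, `θl` = touch time of `l` in the world `w = Z + E + c`, `hOne` = one-contact
lemma (1.6). Either a successor touches `Z` first among all lines and not later than `θl`, or an
exit `d` touches first, strictly before `θl`, and the first line touching `Z + d` afterwards does so
not later than `θl`. -/
theorem decomp1 {θ : Finset Ob → Ob → T} {E : Finset Ob} {c l' c' : Ob}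
    (hc : c ∉ E) (hl' : l' ∉ E) (hc' : c' ∉ E) (hlc : l' ≠ c')
    {F : Finset Ob} (hF : F = insert c (insert l' (insert c' E))) (hU1 : Unl θ (insert c E))
    (hU2 : Unl θ (insert l' (insert c' E)))
    {θl : T} (hOne : min (θ E c) (min (θ E l') (θ (insert l' E) c')) ≤ θl) :
    (∃ k, (k = c ∨ k = l' ∨ k = c') ∧ (∀ a ∈ F, θ ∅ k ≤ θ ∅ a) ∧ θ ∅ k ≤ θl) ∨
    (∃ d ∈ E, (∀ a ∈ F, θ ∅ d ≤ θ ∅ a) ∧ θ ∅ d < θl ∧
      ∃ e ∈ F, e ≠ d ∧ (∀ a ∈ F, a ≠ d → θ {d} e ≤ θ {d} a) ∧
        θ ∅ d ≤ θ {d} e ∧ θ {d} e ≤ θl) := by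
  have hcF : c ∈ F := by rw [hF]; simp
  have hl'F : l' ∈ F := by rw [hF]; simp
  have hc'F : c' ∈ F := by rw [hF]; simp
  have hEF : E ⊆ F := by
    rw [hF]
    exact fun x hx => Finset.mem_insert_of_mem (Finset.mem_insert_of_mem
      (Finset.mem_insert_of_mem hx))
  -- the two sub-families
  have hcF1 : c ∈ insert c E := Finset.mem_insert_self _ _
  have hl'F2 : l' ∈ insert l' (insert c' E) := Finset.mem_insert_self _ _
  have hc'F2 : c' ∈ insert l' (insert c' E) :=
    Finset.mem_insert_of_mem (Finset.mem_insert_self _ _)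
  have hEF1 : E ⊆ insert c E := Finset.subset_insert _ _
  have hEF2 : E ⊆ insert l' (insert c' E) := fun x hx =>
    Finset.mem_insert_of_mem (Finset.mem_insert_of_mem hx)
  have hF1F : insert c E ⊆ F := Finset.insert_subset hcF hEF
  have hF2F : insert l' (insert c' E) ⊆ F :=
    Finset.insert_subset hl'F (Finset.insert_subset hc'F hEF)
  obtain ⟨k, hkF, hk⟩ := exists_first (θ ∅) F ⟨c, hcF⟩
  -- the first touch is not later than `θl`
  have key : ∀ (A₀ : Finset Ob), A₀ ⊆ E → ∀ s, (∀ a ∈ F, a ∉ A₀ → s ≤ θ A₀ a) → s ≤ θl ∧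
      (θl ≤ s → ∃ k, (k = c ∨ k = l' ∨ k = c') ∧ θ A₀ k ≤ s) := by
    intro A₀ hA₀ s hs
    have hA₀F := hA₀.trans hEF
    have hA1 := hA₀.trans hEF1
    have hA2 := hA₀.trans hEF2
    have hs1 : ∀ a ∈ insert c E, a ∉ A₀ → s ≤ θ A₀ a := fun a ha => hs a (hF1F ha)
    have hs2 : ∀ a ∈ insert l' (insert c' E), a ∉ A₀ → s ≤ θ A₀ a := fun a ha => hs a (hF2F ha)
    have e1 : E ∪ A₀ = E := Finset.union_eq_left.2 hA₀
    have e2 : (insert l' E) ∪ A₀ = insert l' E := by
      rw [Finset.insert_union, e1]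
    have g1 := hU1.le_touch hA1 hs1 E hEF1 c hcF1 (fun h => hc (hA₀ h)) hc
    have g2 := hU2.le_touch hA2 hs2 E hEF2 l' hl'F2 (fun h => hl' (hA₀ h)) hl'
    have hsub : insert l' E ⊆ insert l' (insert c' E) := Finset.insert_subset hl'F2 hEF2
    have hc'n : c' ∉ insert l' E := by
      rw [Finset.mem_insert, not_or]; exact ⟨Ne.symm hlc, hc'⟩
    have g3 := hU2.le_touch hA2 hs2 (insert l' E) hsub c' hc'F2 (fun h => hc' (hA₀ h)) hc'n
    rw [e1] at g1 g2
    rw [e2] at g3
    refine ⟨(le_min g1 (le_min g2 g3)).trans hOne, fun hle => ?_⟩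
    have h4 := hOne.trans hle
    rcases min_le_iff.1 h4 with h5 | h5
    · refine ⟨c, Or.inl rfl, ?_⟩
      refine hU1.touch_of_touch hA1 hs1 E hEF1 c hcF1 (fun h => hc (hA₀ h)) hc ?_
      rwa [e1]
    · rcases min_le_iff.1 h5 with h6 | h6
      · refine ⟨l', Or.inr (Or.inl rfl), ?_⟩
        refine hU2.touch_of_touch hA2 hs2 E hEF2 l' hl'F2 (fun h => hl' (hA₀ h)) hl' ?_
        rwa [e1]
      · refine ⟨c', Or.inr (Or.inr rfl), ?_⟩
        refine hU2.touch_of_touch hA2 hs2 (insert l' E) hsub c' hc'F2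
          (fun h => hc' (hA₀ h)) hc'n ?_
        rwa [e2]
  have hk1 := key ∅ (Finset.empty_subset _) (θ ∅ k) (fun a ha _ => hk a ha)
  by_cases hsucc : ∃ k', (k' = c ∨ k' = l' ∨ k' = c') ∧ θ ∅ k' ≤ θ ∅ k
  · obtain ⟨k', hk', hle⟩ := hsucc
    exact Or.inl ⟨k', hk', fun a ha => hle.trans (hk a ha), hle.trans hk1.1⟩
  · right
    have hkE : k ∈ E := by
      have h := hkF
      rw [hF, Finset.mem_insert, Finset.mem_insert, Finset.mem_insert] at h
      rcases h with h | h | h | h
      · exact absurd ⟨c, Or.inl rfl, (congrArg (θ ∅) h).ge⟩ hsucc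
      · exact absurd ⟨l', Or.inr (Or.inl rfl), (congrArg (θ ∅) h).ge⟩ hsucc
      · exact absurd ⟨c', Or.inr (Or.inr rfl), (congrArg (θ ∅) h).ge⟩ hsucc
      · exact h
    have hlt : θ ∅ k < θl := by
      by_contra hcon
      exact hsucc (hk1.2 (not_lt.1 hcon))
    refine ⟨k, hkE, hk, hlt, ?_⟩
    -- the first line touching `Z + k`
    have hck : c ≠ k := fun h => hc (h ▸ hkE)
    obtain ⟨e, heF, he⟩ := exists_first (θ {k}) (F.erase k)
      ⟨c, Finset.mem_erase.2 ⟨hck, hcF⟩⟩
    rw [Finset.mem_erase] at heF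
    have he' : ∀ a ∈ F, a ≠ k → θ {k} e ≤ θ {k} a := fun a ha hak =>
      he a (Finset.mem_erase.2 ⟨hak, ha⟩)
    refine ⟨e, heF.2, heF.1, he', ?_, ?_⟩
    · by_cases heF1 : e ∈ insert c E
      · have h1 := (hU1 ∅ (Finset.empty_subset _) k (hEF1 hkE) e heF1 (Finset.notMem_empty _)
          (Finset.notMem_empty _) (Ne.symm heF.1)).s1 (θ ∅ k) le_rfl (hk e heF.2)
        simpa using h1
      · have heF2 : e ∈ insert l' (insert c' E) := by
          have h := heF.2
          rw [hF, Finset.mem_insert] at h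
          rcases h with h | h
          · exact absurd (h ▸ hcF1) heF1
          · exact h
        have h1 := (hU2 ∅ (Finset.empty_subset _) k (hEF2 hkE) e heF2 (Finset.notMem_empty _)
          (Finset.notMem_empty _) (Ne.symm heF.1)).s1 (θ ∅ k) le_rfl (hk e heF.2)
        simpa using h1
    · refine (key {k} (Finset.singleton_subset_iff.2 hkE) (θ {k} e) fun a ha hak => ?_).1
      exact he' a ha (fun h => hak (Finset.mem_singleton.2 h))

/-- **Case list of INEQUALITY 3** after the line `e` has contacted the fresh cluster `D2`.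
Base world `Z = w₂`; `d` the first line, `E` = exits of `D2`, `c` its root line (undeflected),
`e', c'` the outgoing lines. `θ₁` = touch time of `d` in `w = w₂ + E + c`; `θ₂` = touch time of `e`
in `w + d`, one-contact lemma `hOne` in the world `w₂ + d + E`.

* (A) a line of `D2` touches `w₂` strictly before `θ₁`;
* otherwise `θ₁ = θ ∅ d`, and (B) an exit of `D2` touches `w₂ + d` first, at a time in
  `[θ₁, θ₂)`, or (C) a successor touches `w₂ + d` first, at the time `θ₂` (this uses the reverse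
  one-contact lemma (1.6'), `hRev`). -/
theorem decomp3 {θ : Finset Ob → Ob → T} {E : Finset Ob} {d c e' c' : Ob}
    (hd : d ∉ E) (hc : c ∉ E) (he' : e' ∉ E) (hc' : c' ∉ E)
    (hdc : d ≠ c) (hde : d ≠ e') (hdc' : d ≠ c') (hec : e' ≠ c')
    {F : Finset Ob} (hF : F = insert d (insert c (insert e' (insert c' E)))) (hU : Unl θ F)
    {θ₁ θ₂ : T} (h1 : θ₁ = θ (insert c E) d)
    (hOne : min (θ (insert d E) c) (min (θ (insert d E) e') (θ (insert e' (insert d E)) c')) ≤ θ₂)
    (hRev : θ₂ ≤ min (θ (insert d E) c) (min (θ (insert d E) e')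
      (θ (insert e' (insert d E)) c'))) :
    (∃ k, (k = c ∨ k ∈ E) ∧ (∀ a, (a = d ∨ a = c ∨ a ∈ E) → θ ∅ k ≤ θ ∅ a) ∧ θ ∅ k < θ₁) ∨
    (θ₁ = θ ∅ d ∧ (∀ a, (a = c ∨ a ∈ E) → θ ∅ d ≤ θ ∅ a) ∧
      ((∃ k ∈ E, (∀ a ∈ F, a ≠ d → θ {d} k ≤ θ {d} a) ∧ (∀ a, (a = c ∨ a = e' ∨ a = c') →
          θ {d} k < θ {d} a) ∧ θ₁ ≤ θ {d} k ∧ θ {d} k < θ₂) ∨
       (∃ k, (k = c ∨ k = e' ∨ k = c') ∧ (∀ a ∈ F, a ≠ d → θ {d} k ≤ θ {d} a) ∧
          θ {d} k = θ₂))) := by
  have hdF : d ∈ F := by rw [hF]; simp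
  have hcF : c ∈ F := by rw [hF]; simp
  have he'F : e' ∈ F := by rw [hF]; simp
  have hc'F : c' ∈ F := by rw [hF]; simp
  have hEF : E ⊆ F := by
    rw [hF]
    exact fun x hx => Finset.mem_insert_of_mem (Finset.mem_insert_of_mem
      (Finset.mem_insert_of_mem (Finset.mem_insert_of_mem hx)))
  -- the subfamily `d, c, E`
  set F₁ : Finset Ob := insert d (insert c E) with hF₁
  have hF₁F : F₁ ⊆ F := Finset.insert_subset hdF (Finset.insert_subset hcF hEF)
  have hU₁ : Unl θ F₁ := hU.mono hF₁F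
  have hdF₁ : d ∈ F₁ := Finset.mem_insert_self _ _
  have hcF₁ : c ∈ F₁ := Finset.mem_insert_of_mem (Finset.mem_insert_self _ _)
  have hEF₁ : E ⊆ F₁ := fun x hx => Finset.mem_insert_of_mem (Finset.mem_insert_of_mem hx)
  have hcE : insert c E ⊆ F₁ := Finset.insert_subset hcF₁ hEF₁
  have hdn : d ∉ insert c E := by
    rw [Finset.mem_insert, not_or]; exact ⟨hdc, hd⟩
  have mem₁ : ∀ a, a ∈ F₁ ↔ (a = d ∨ a = c ∨ a ∈ E) := by
    intro a; rw [hF₁, Finset.mem_insert, Finset.mem_insert]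
  obtain ⟨k, hkF, hk⟩ := exists_first (θ ∅) F₁ ⟨d, hdF₁⟩
  have hs : ∀ a ∈ F₁, a ∉ (∅ : Finset Ob) → θ ∅ k ≤ θ ∅ a := fun a ha _ => hk a ha
  have hge := hU₁.le_touch (Finset.empty_subset _) hs (insert c E) hcE d hdF₁
    (Finset.notMem_empty _) hdn
  rw [Finset.union_empty, ← h1] at hge
  by_cases hdk : θ ∅ d ≤ θ ∅ k
  · right
    -- `d` touches first
    have hdmin : ∀ a ∈ F₁, θ ∅ d ≤ θ ∅ a := fun a ha => hdk.trans (hk a ha)
    have hs' : ∀ a ∈ F₁, a ∉ (∅ : Finset Ob) → θ ∅ d ≤ θ ∅ a := fun a ha _ => hdmin a ha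
    have hge' := hU₁.le_touch (Finset.empty_subset _) hs' (insert c E) hcE d hdF₁
      (Finset.notMem_empty _) hdn
    have hle' := hU₁.touch_touch (Finset.empty_subset _) hs' hdF₁ (Finset.notMem_empty _) le_rfl
      (insert c E) hcE hdn
    rw [Finset.union_empty] at hge' hle'
    have hθ₁ : θ₁ = θ ∅ d := by rw [h1]; exact le_antisymm hle' hge'
    refine ⟨hθ₁, fun a ha => hdmin a ((mem₁ a).2 (Or.inr ha)), ?_⟩
    -- world `Z + d`
    obtain ⟨e, heF, he⟩ := exists_first (θ {d}) (F.erase d)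
      ⟨c, Finset.mem_erase.2 ⟨Ne.symm hdc, hcF⟩⟩
    rw [Finset.mem_erase] at heF
    have hemin : ∀ a ∈ F, a ≠ d → θ {d} e ≤ θ {d} a := fun a ha had =>
      he a (Finset.mem_erase.2 ⟨had, ha⟩)
    have hdsub : ({d} : Finset Ob) ⊆ F := Finset.singleton_subset_iff.2 hdF
    have hs2 : ∀ a ∈ F, a ∉ ({d} : Finset Ob) → θ {d} e ≤ θ {d} a := fun a ha had =>
      hemin a ha (fun h => had (Finset.mem_singleton.2 h))
    have e1 : E ∪ {d} = insert d E := by rw [Finset.union_comm]; rfl
    have e2 : (insert e' E) ∪ {d} = insert e' (insert d E) := by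
      rw [Finset.insert_union, e1]
    have nd : ∀ {a}, a ≠ d → a ∉ ({d} : Finset Ob) := fun h h' => h (Finset.mem_singleton.1 h')
    have g1 := hU.le_touch hdsub hs2 E hEF c hcF (nd (Ne.symm hdc)) hc
    have g2 := hU.le_touch hdsub hs2 E hEF e' he'F (nd (Ne.symm hde)) he'
    have hsub : insert e' E ⊆ F := Finset.insert_subset he'F hEF
    have hc'n : c' ∉ insert e' E := by
      rw [Finset.mem_insert, not_or]; exact ⟨Ne.symm hec, hc'⟩
    have g3 := hU.le_touch hdsub hs2 (insert e' E) hsub c' hc'F (nd (Ne.symm hdc')) hc'n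
    rw [e1] at g1 g2
    rw [e2] at g3
    have hle2 : θ {d} e ≤ θ₂ := (le_min g1 (le_min g2 g3)).trans hOne
    have hback : θ₂ ≤ θ {d} e → ∃ a, (a = c ∨ a = e' ∨ a = c') ∧ θ {d} a ≤ θ {d} e := by
      intro hle
      have h4 := hOne.trans hle
      rcases min_le_iff.1 h4 with h5 | h5
      · refine ⟨c, Or.inl rfl, ?_⟩
        refine hU.touch_of_touch hdsub hs2 E hEF c hcF (nd (Ne.symm hdc)) hc ?_
        rwa [e1]
      · rcases min_le_iff.1 h5 with h6 | h6
        · refine ⟨e', Or.inr (Or.inl rfl), ?_⟩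
          refine hU.touch_of_touch hdsub hs2 E hEF e' he'F (nd (Ne.symm hde)) he' ?_
          rwa [e1]
        · refine ⟨c', Or.inr (Or.inr rfl), ?_⟩
          refine hU.touch_of_touch hdsub hs2 (insert e' E) hsub c' hc'F (nd (Ne.symm hdc')) hc'n ?_
          rwa [e2]
    by_cases hsucc : ∃ a, (a = c ∨ a = e' ∨ a = c') ∧ θ {d} a ≤ θ {d} e
    · obtain ⟨a, ha, hae⟩ := hsucc
      have hmin : ∀ b ∈ F, b ≠ d → θ {d} a ≤ θ {d} b := fun b hb hbd => hae.trans (hemin b hb hbd)
      refine Or.inr ⟨a, ha, hmin, le_antisymm (hae.trans hle2) ?_⟩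
      have hs3 : ∀ b ∈ F, b ∉ ({d} : Finset Ob) → θ {d} a ≤ θ {d} b := fun b hb hbd =>
        hmin b hb (fun h => hbd (Finset.mem_singleton.2 h))
      rcases ha with rfl | rfl | rfl
      · have h6 := hU.touch_touch hdsub hs3 hcF (nd (Ne.symm hdc)) le_rfl E hEF hc
        rw [e1] at h6
        exact (hRev.trans (min_le_left _ _)).trans h6
      · have h6 := hU.touch_touch hdsub hs3 he'F (nd (Ne.symm hde)) le_rfl E hEF he'
        rw [e1] at h6
        exact (hRev.trans ((min_le_right _ _).trans (min_le_left _ _))).trans h6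
      · have h6 := hU.touch_touch hdsub hs3 hc'F (nd (Ne.symm hdc')) le_rfl (insert e' E) hsub hc'n
        rw [e2] at h6
        exact (hRev.trans ((min_le_right _ _).trans (min_le_right _ _))).trans h6
    · left
      have heE : e ∈ E := by
        have h := heF.2
        rw [hF, Finset.mem_insert, Finset.mem_insert, Finset.mem_insert, Finset.mem_insert] at h
        rcases h with h | h | h | h | h
        · exact absurd h heF.1
        · exact absurd ⟨c, Or.inl rfl, (congrArg (θ {d}) h).ge⟩ hsucc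
        · exact absurd ⟨e', Or.inr (Or.inl rfl), (congrArg (θ {d}) h).ge⟩ hsucc
        · exact absurd ⟨c', Or.inr (Or.inr rfl), (congrArg (θ {d}) h).ge⟩ hsucc
        · exact h
      refine ⟨e, heE, hemin, fun a ha => ?_, ?_, ?_⟩
      · by_contra hcon
        exact hsucc ⟨a, ha, not_lt.1 hcon⟩
      · rw [hθ₁]
        have hed : d ≠ e := Ne.symm heF.1
        have h5 := (hU₁ ∅ (Finset.empty_subset _) d hdF₁ e (hEF₁ heE) (Finset.notMem_empty _)
          (Finset.notMem_empty _) hed).s1 (θ ∅ d) le_rfl (hdmin e (hEF₁ heE))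
        simpa using h5
      · by_contra hcon
        exact hsucc (hback (not_lt.1 hcon))
  · left
    push Not at hdk
    have hkd : k ≠ d := by
      rintro rfl
      exact lt_irrefl _ hdk
    have hkcE : k = c ∨ k ∈ E := by
      rcases (mem₁ k).1 hkF with h | h | h
      · exact absurd h hkd
      · exact Or.inl h
      · exact Or.inr h
    refine ⟨k, hkcE, fun a ha => hk a ((mem₁ a).2 ha), ?_⟩
    by_contra hcon
    have h5 := hU₁.touch_of_touch (Finset.empty_subset _) hs (insert c E) hcE d hdF₁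
      (Finset.notMem_empty _) hdn (by rw [Finset.union_empty, ← h1]; exact not_lt.1 hcon)
    exact absurd h5 (not_le.2 hdk)

end Crest.Agent.R122.Decomp285
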