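import Crest.Agent.R122.Weight2_984

/-!
# Section E, inequality 3: the deterministic case list (row 122, H4/H5), helper811

Touch times are real numbers (`T + 1` = never, as in 291's `theta`).

* `W1 zA zB zAB` : closed-end world consistency for `zA = θ(Z, A)`, `zB = θ(Z, B)`,
  `zAB = θ(Z + A, B)` (E_FINAL (1.5)); equivalent to (S2), (S3) below, and to
  `∀ s ≤ zA, (zAB ≤ s ↔ zB ≤ s)`; it implies (S1).
* `Times` : the touch times which occur in E6 for a contact of the second line `e` with a fresh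
  clean cluster `D₂` (`L` = its lines, `E` = its exits, `c` = its root line), `w = w₂ + L`.
* `Times.Facts` : what the deterministic theory gives off LINK.
* `Times.cases3` : the trichotomy (A), (B), (C) of E6 in 285's form: ties are allowed, no tie is
  excluded.
* `Times.cases3_weight` : the same with the comparison of the weights
  `min (W_w(θ₁) inclusive, W_{w+d}(θ₂ -) left limit)`.
-/

set_option autoImplicit false

open MeasureTheory Set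
open scoped ENNReal

namespace Crest.Agent.R122.Decomp811

/-- Closed-end world consistency: `zA = θ(Z, A)`, `zB = θ(Z, B)`, `zAB = θ(Z + A, B)`. -/
structure W1 (zA zB zAB : ℝ) : Prop where
  eq : zB ≤ zA → zAB = zB
  lt : zA < zB → zA < zAB

namespace W1

variable {zA zB zAB : ℝ}

theorem iff_le (h : W1 zA zB zAB) {s : ℝ} (hs : s ≤ zA) : zAB ≤ s ↔ zB ≤ s := by
  rcases le_or_gt zB zA with h1 | h1
  · rw [h.eq h1]
  · have h2 := h.lt h1
    constructor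
    · intro h3; linarith
    · intro h3; linarith

theorem iff_lt (h : W1 zA zB zAB) {s : ℝ} (hs : s ≤ zA) : zAB < s ↔ zB < s := by
  rcases le_or_gt zB zA with h1 | h1
  · rw [h.eq h1]
  · have h2 := h.lt h1
    constructor
    · intro h3; linarith
    · intro h3; linarith

theorem of_iff (h : ∀ s, s ≤ zA → (zAB ≤ s ↔ zB ≤ s)) : W1 zA zB zAB where
  eq h1 := by
    have h2 : zAB ≤ zB := (h zB h1).2 le_rfl
    exact le_antisymm h2 ((h zAB (h2.trans h1)).1 le_rfl)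
  lt h1 := by
    by_contra h2
    push Not at h2
    have h3 := (h zAB h2).1 le_rfl
    linarith

/-- From the closed end (S2) and its converse (S3). -/
theorem of_S (s2 : zB ≤ zA → zAB ≤ zB) (s3 : zAB ≤ zA → zB ≤ zAB) : W1 zA zB zAB where
  eq h1 := le_antisymm (s2 h1) (s3 ((s2 h1).trans h1))
  lt h1 := by
    by_contra h2
    push Not at h2
    have h3 := s3 h2
    linarith

/-- (S1) -/
theorem min_le (h : W1 zA zB zAB) : min zA zB ≤ zAB := by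
  rcases le_or_gt zB zA with h1 | h1
  · rw [h.eq h1]; exact min_le_right _ _
  · exact (min_le_left _ _).trans (h.lt h1).le

theorem le_of_le (h : W1 zA zB zAB) (h1 : zAB ≤ zA) : zB ≤ zAB := (h.iff_le h1).1 le_rfl

/-- Smaller horizon. -/
theorem mono {zA' : ℝ} (h : W1 zA zB zAB) (hA : zA' ≤ zA) : W1 zA' zB zAB :=
  of_iff fun _ hs => h.iff_le (hs.trans hA)

/-- Two steps: `Z → Z + A → Z + A + A'` (`zA' = θ(Z, A')`, `zAA' = θ(Z + A, A')`). -/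
theorem trans {zA' zAA' zAA'B : ℝ} (hB : W1 zA zB zAB) (hA' : W1 zA zA' zAA')
    (hAB : W1 zAA' zAB zAA'B) : W1 (min zA zA') zB zAA'B := by
  refine of_iff fun s hs => ?_
  have h1 : s ≤ zA := hs.trans (min_le_left _ _)
  have h2 : s ≤ zA' := hs.trans (min_le_right _ _)
  have h3 : s ≤ zAA' := (le_min h1 h2).trans hA'.min_le
  rw [hAB.iff_le h3, hB.iff_le h1]

end W1

/-- Touch times of E6. -/
structure Times where
  /-- `θ(w, d)`, `w = w₂ + L` -/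
  θ₁ : ℝ
  /-- `θ(w + d, e)` -/
  θ₂ : ℝ
  /-- `θ(w₂, L)` -/
  tL : ℝ
  /-- first touch time of a line of `L` in `w₂` -/
  fA : ℝ
  /-- `θ(w₂, d)` -/
  td : ℝ
  /-- `θ(w₂ + d, E)` -/
  uE : ℝ
  /-- first touch time of an exit in `w₂ + d` -/
  fE : ℝ
  /-- `θ(w₂ + d, L)` -/
  uL : ℝ
  /-- `θ(w₂ + d, c)` -/
  bc : ℝ
  /-- `θ(w₂ + d, e')` -/
  be : ℝ
  /-- `θ(w₂ + d, c')` -/
  bc' : ℝ
  /-- `θ(Z₀, c)`, `Z₀ = w₂ + d + E` -/
  zc : ℝ
  /-- `θ(Z₀, e')` -/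
  ze : ℝ
  /-- `θ(Z₀, c')` -/
  zc' : ℝ
  /-- `θ(Z₀ + e', c')` -/
  zec' : ℝ

/-- What holds off LINK. -/
structure Times.Facts (t : Times) : Prop where
  /-- (1.5) for `Z = w₂`, `A = L`, `B = d` -/
  w_Ld : W1 t.tL t.td t.θ₁
  /-- a family does not touch before its first line (`w₂`, all lines) -/
  fA_le : t.fA ≤ t.tL
  /-- (S1) for `Z = w₂`, `A = d`, `B = ` an exit -/
  fE_ge : min t.td t.fA ≤ t.fE
  /-- (S1) for `Z = w₂`, `A = d`, `B = c` -/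
  bc_ge : min t.td t.fA ≤ t.bc
  /-- a family does not touch before its first line (`w₂ + d`, exits) -/
  fE_le : t.fE ≤ t.uE
  /-- a family does not touch before its first line (`w₂ + d`, exits and root) -/
  uL : min t.fE t.bc ≤ t.uL
  /-- (1.5) for `Z = w₂ + d`, `A = E`, `B = c` -/
  w_Ec : W1 t.uE t.bc t.zc
  /-- (1.5) for `Z = w₂ + d`, `A = E`, `B = e'` -/
  w_Ee : W1 t.uE t.be t.ze
  /-- (1.5) for `Z = w₂ + d`, `A = E`, `B = c'` -/
  w_Ec' : W1 t.uE t.bc' t.zc'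
  /-- (1.5) for `Z = w₂ + d`, `A = E + e'`, `B = c'` -/
  w_ec' : W1 (min t.uE t.be) t.bc' t.zec'
  /-- (1.6): one of the three successors touches not later than `e` -/
  one : min t.zc (min t.ze t.zec') ≤ t.θ₂
  /-- (1.6'): `e` or `c` touches not later than the outgoing successors of `e` (triangle inequality
  for `Z₀`, `Z₀ + c`, `Z₀ + e' + c'`; only the siblings `e'`, `c'` have to be unlinked, NOT `c` and
  `{e', c'}`); only at times not later than all single touch times in `w₂ + d` -/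
  re : t.ze ≤ t.fE → t.ze ≤ t.bc' → min t.θ₂ t.zc ≤ t.ze
  rc' : t.zc' ≤ t.fE → t.zc' ≤ t.be → min t.θ₂ t.zc ≤ t.zc'

namespace Times

variable {t : Times}

/-- **E6, trichotomy.** (A) a line of `D₂` touches `w₂` strictly before `θ₁`; (B) an exit of `D₂`
touches `w₂ + d` strictly before `θ₂`; (C) a successor `k` touches `w₂ + d` at a time in
`[θ₁, θ₂]`, not later than the lines of `D₂`. -/
theorem cases3 (h : t.Facts) (h12 : t.θ₁ ≤ t.θ₂) :
    (t.fA < t.θ₁) ∨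
    (t.td = t.θ₁ ∧ t.θ₁ ≤ t.fA ∧ t.θ₁ ≤ t.fE ∧ t.fE < t.θ₂ ∧ t.fE ≤ t.uL) ∨
    (t.td = t.θ₁ ∧ t.θ₁ ≤ t.fA ∧
      ((t.θ₁ ≤ t.bc ∧ t.bc ≤ t.θ₂ ∧ t.bc ≤ t.uL) ∨
        (t.θ₁ ≤ t.be ∧ t.be ≤ t.θ₂ ∧ t.be ≤ t.uL) ∨
        (t.θ₁ ≤ t.bc' ∧ t.bc' ≤ t.θ₂ ∧ t.bc' ≤ t.uL))) := by
  rcases lt_or_ge t.fA t.θ₁ with hA | hA
  · exact Or.inl hA
  right
  have hAL : t.θ₁ ≤ t.tL := hA.trans h.fA_le
  -- `θ(w₂, d) = θ₁`
  have htd : t.td = t.θ₁ := by
    rcases le_or_gt t.td t.tL with h1 | h1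
    · exact (h.w_Ld.eq h1).symm
    · have := h.w_Ld.lt h1
      linarith
  have hfE : t.θ₁ ≤ t.fE := (le_min htd.ge hA).trans h.fE_ge
  have huE : t.θ₁ ≤ t.uE := hfE.trans h.fE_le
  have hbc : t.θ₁ ≤ t.bc := (le_min htd.ge hA).trans h.bc_ge
  have hzc : t.θ₁ ≤ min t.θ₂ t.zc := le_min h12 ((le_min huE hbc).trans h.w_Ec.min_le)
  obtain ⟨hbe, hbc'⟩ : t.θ₁ ≤ t.be ∧ t.θ₁ ≤ t.bc' := by
    by_contra hno
    rcases le_total t.be t.bc' with h0 | h0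
    · have hlt : t.be < t.θ₁ := by
        by_contra hge
        push Not at hge
        exact hno ⟨hge, hge.trans h0⟩
      have h1 := h.w_Ee.eq (hlt.le.trans huE)
      have h2 := hzc.trans (h.re (by rw [h1]; exact hlt.le.trans hfE) (by rw [h1]; exact h0))
      linarith
    · have hlt : t.bc' < t.θ₁ := by
        by_contra hge
        push Not at hge
        exact hno ⟨hge.trans h0, hge⟩
      have h1 := h.w_Ec'.eq (hlt.le.trans huE)
      have h2 := hzc.trans (h.rc' (by rw [h1]; exact hlt.le.trans hfE) (by rw [h1]; exact h0))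
      linarith
  -- if `θ₂ ≤ uE` then one of the successors touches `w₂ + d` not later than `θ₂`
  have hsucc : t.θ₂ ≤ t.uE → t.bc ≤ t.θ₂ ∨ t.be ≤ t.θ₂ ∨ t.bc' ≤ t.θ₂ := by
    intro hle
    rcases min_le_iff.1 h.one with h2 | h2
    · exact Or.inl ((h.w_Ec.iff_le hle).1 h2)
    · rcases min_le_iff.1 h2 with h3 | h3
      · exact Or.inr (Or.inl ((h.w_Ee.iff_le hle).1 h3))
      · rcases le_or_gt t.be t.θ₂ with h4 | h4
        · exact Or.inr (Or.inl h4)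
        · exact Or.inr (Or.inr ((h.w_ec'.iff_le (le_min hle h4.le)).1 h3))
  -- the smallest of the three successor times
  obtain ⟨m, hm1, hm2, hm3, hm⟩ : ∃ m, m ≤ t.bc ∧ m ≤ t.be ∧ m ≤ t.bc' ∧
      (m = t.bc ∨ m = t.be ∨ m = t.bc') := by
    refine ⟨min t.bc (min t.be t.bc'), min_le_left _ _,
      (min_le_right _ _).trans (min_le_left _ _), (min_le_right _ _).trans (min_le_right _ _), ?_⟩
    rcases min_choice t.bc (min t.be t.bc') with h1 | h1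
    · exact Or.inl h1
    · rcases min_choice t.be t.bc' with h2 | h2
      · exact Or.inr (Or.inl (h1.trans h2))
      · exact Or.inr (Or.inr (h1.trans h2))
  rcases lt_or_ge t.fE m with hB | hC
  · -- (B)
    left
    refine ⟨htd, hA, hfE, ?_, (le_min le_rfl (hB.le.trans hm1)).trans h.uL⟩
    by_contra hle
    push Not at hle
    rcases hsucc (hle.trans h.fE_le) with h1 | h1 | h1 <;> linarith
  · -- (C)
    right
    have hmθ : m ≤ t.θ₂ := by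
      rcases le_or_gt t.fE t.θ₂ with h1 | h1
      · exact hC.trans h1
      · rcases hsucc (h1.le.trans h.fE_le) with h2 | h2 | h2 <;> linarith
    have hmL : m ≤ t.uL := (le_min hC hm1).trans h.uL
    refine ⟨htd, hA, ?_⟩
    rcases hm with rfl | rfl | rfl
    · exact Or.inl ⟨hbc, hmθ, hmL⟩
    · exact Or.inr (Or.inl ⟨hbe, hmθ, hmL⟩)
    · exact Or.inr (Or.inr ⟨hbc', hmθ, hmL⟩)

end Times

/-! ## Weights -/

section weights

open Crest.Agent.R122.Weight984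

variable {Ω : Type*} [MeasurableSpace Ω]

/-- The weight of a touched pair (285): the smaller of the inclusive weight at the first touch and
the left limit at the second touch. -/
noncomputable def om (L : ℝ) (ν : Measure Ω) (τw τwd : Ω → ℝ) (θ₁ θ₂ : ℝ) : ℝ≥0∞ :=
  min (W L (XR ν τw θ₁)) (W L (XRm ν τwd θ₂))

/-- Conclusion (A). -/
def CaseA (L : ℝ) (ν : Measure Ω) (τw τw₂ : Ω → ℝ) (N₂ : Set Ω) (t : Times)
    (om : ℝ≥0∞) : Prop :=
  t.fA < t.θ₁ ∧ om ≤ W L (XR ν τw t.θ₁) ∧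
    W L (XR ν τw t.fA) ≤ W L (XR ν τw₂ t.fA) + ENNReal.ofReal L * ν N₂

/-- Conclusion (B). -/
def CaseB (L : ℝ) (ν : Measure Ω) (τw₂ τw₂d : Ω → ℝ) (N₂ N₃ N₄ : Set Ω) (t : Times)
    (om : ℝ≥0∞) : Prop :=
  t.td = t.θ₁ ∧ t.θ₁ ≤ t.fA ∧ t.θ₁ ≤ t.fE ∧ t.fE < t.θ₂ ∧
    om ≤ min (W L (XR ν τw₂ t.td)) (W L (XR ν τw₂d t.fE)) + ENNReal.ofReal L * (ν N₂ + ν N₄) ∧
    W L (XRm ν τw₂d t.θ₁) ≤ W L (XRm ν τw₂ t.θ₁) + ENNReal.ofReal L * ν N₃

/-- Conclusion (C) for a successor which touches `w₂ + d` at `b`. -/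
def CaseC (L : ℝ) (ν : Measure Ω) (τw₂ τw₂d : Ω → ℝ) (N₂ N₄ : Set Ω) (t : Times)
    (omv : ℝ≥0∞) (b : ℝ) : Prop :=
  t.td = t.θ₁ ∧ t.θ₁ ≤ b ∧ b ≤ t.θ₂ ∧ b ≤ t.uL ∧
    omv ≤ om L ν τw₂ τw₂d t.td b + ENNReal.ofReal L * (ν N₂ + ν N₄)

/-- **E6, trichotomy with weights** (285's form). `τw, τwd, τw₂, τw₂d` = touch times of the test
lines in the worlds `w`, `w + d`, `w₂`, `w₂ + d`; `N₂, N₃, N₄` = link sets of `(w₂; L)`, `(w₂; d)`,
`(w₂ + d; L)`. -/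
theorem Times.cases3_weight {t : Times} (h : t.Facts) (h12 : t.θ₁ ≤ t.θ₂) {ν : Measure Ω}
    {L : ℝ} (hL : 0 < L) {τw τwd τw₂ τw₂d : Ω → ℝ} {N₂ N₃ N₄ : Set Ω}
    (c₂ : Cons1 τw₂ τw t.tL N₂) (c₃ : Cons1 τw₂ τw₂d t.td N₃) (c₄ : Cons1 τw₂d τwd t.uL N₄) :
    CaseA L ν τw τw₂ N₂ t (om L ν τw τwd t.θ₁ t.θ₂) ∨
    CaseB L ν τw₂ τw₂d N₂ N₃ N₄ t (om L ν τw τwd t.θ₁ t.θ₂) ∨
    CaseC L ν τw₂ τw₂d N₂ N₄ t (om L ν τw τwd t.θ₁ t.θ₂) t.bc ∨
    CaseC L ν τw₂ τw₂d N₂ N₄ t (om L ν τw τwd t.θ₁ t.θ₂) t.be ∨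
    CaseC L ν τw₂ τw₂d N₂ N₄ t (om L ν τw τwd t.θ₁ t.θ₂) t.bc' := by
  have hC : ∀ b, t.td = t.θ₁ → t.θ₁ ≤ t.fA → t.θ₁ ≤ b → b ≤ t.θ₂ → b ≤ t.uL →
      CaseC L ν τw₂ τw₂d N₂ N₄ t (om L ν τw τwd t.θ₁ t.θ₂) b := by
    intro b h1 h2 h3 h4 h5
    refine ⟨h1, h3, h4, h5, ?_⟩
    unfold om
    have e1 : W L (XR ν τw t.θ₁) ≤ W L (XR ν τw₂ t.θ₁) + ENNReal.ofReal L * ν N₂ :=
      c₂.W_XR_le hL (h2.trans h.fA_le)
    have e2 : W L (XRm ν τwd t.θ₂) ≤ W L (XRm ν τw₂d b) + ENNReal.ofReal L * ν N₄ :=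
      (W_anti hL.le (XRm_mono h4)).trans (c₄.W_XRm_le hL h5)
    rw [h1, ← min_add_add_right]
    refine min_le_min (e1.trans ?_) (e2.trans ?_)
    · gcongr; exact le_self_add
    · gcongr; exact le_add_self
  rcases t.cases3 h h12 with h1 | ⟨h1, h2, h3, h4, h5⟩ | ⟨h1, h2, h3⟩
  · exact Or.inl ⟨h1, min_le_left _ _, c₂.W_XR_le hL h.fA_le⟩
  · refine Or.inr (Or.inl ⟨h1, h2, h3, h4, ?_, c₃.W_XRm_le hL h1.ge⟩)
    unfold om
    have e1 : W L (XR ν τw t.θ₁) ≤ W L (XR ν τw₂ t.θ₁) + ENNReal.ofReal L * ν N₂ :=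
      c₂.W_XR_le hL (h2.trans h.fA_le)
    have e2 : W L (XRm ν τwd t.θ₂) ≤ W L (XR ν τw₂d t.fE) + ENNReal.ofReal L * ν N₄ :=
      (W_anti hL.le (XR_le_XRm h4)).trans (c₄.W_XR_le hL h5)
    rw [h1, ← min_add_add_right]
    refine min_le_min (e1.trans ?_) (e2.trans ?_)
    · gcongr; exact le_self_add
    · gcongr; exact le_add_self
  · rcases h3 with ⟨h5, h6, h7⟩ | ⟨h5, h6, h7⟩ | ⟨h5, h6, h7⟩
    · exact Or.inr (Or.inr (Or.inl (hC _ h1 h2 h5 h6 h7)))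
    · exact Or.inr (Or.inr (Or.inr (Or.inl (hC _ h1 h2 h5 h6 h7))))
    · exact Or.inr (Or.inr (Or.inr (Or.inr (hC _ h1 h2 h5 h6 h7))))

end weights

end Crest.Agent.R122.Decomp811
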