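import Crest.Agent.R122.EDefs_602
import Crest.Agent.R122.Decomp3_811

/-!
# Section E, inequality 3: case list for the worlds of `EDefs_602` (row 122, H4/H5), helper811

`w₂ : MW ι` = environment, `F : κ → ML` = the marked lines of the fresh cluster `D₂` (root line
`F r`, exits `exF F r`), `d` first line, `e` second line, `e'`, `c'` the outgoing lines of the contact
of `e` with the root of `D₂`.

The cluster `D₂` itself is present as an arbitrary inserted world `A` (`MW.lines F`, or the real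
cluster `MW.cfg V`): only `θ₁, θ₂` and the two sets `badF` of test lines see it. World consistency
for `A` is asked only up to the first touch `firstT` of the single lines `F`.

* `W1E Z A B` : closed-end world consistency for `θ(Z,A), θ(Z,B), θ(Z+A,B)`.
* `E6FactsA` : the deterministic facts (all true off LINK), literally on `MW`;
  `E6Facts` = the case `A = MW.lines F`.
* `touchP_leA` : `touchP (w₂ + A) d e ≤ (A) + (B) + Σ_k (C_k)`, the pointwise inequality which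
  is integrated in E6: the sum over the lines of `D₂` is inside; `touchP_le` = the case
  `A = MW.lines F`.
-/

set_option autoImplicit false

open MeasureTheory Set
open scoped ENNReal
open Crest.AnalysisR.Kinetic
open Crest.Agent.R122.EDefs602 Crest.Agent.R122.Weight984

namespace Crest.Agent.R122.Decomp811

noncomputable section

open scoped Classical

variable {ι κ lam ξ : Type} [Fintype ι] [Fintype κ] [Fintype lam] [Fintype ξ]

/-- Closed-end world consistency (E_FINAL (1.5)) for the worlds `Z`, `Z + A`, `Z + B`, `Z + A + B`. -/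
def W1E (Φ : Space3 → ℝ) (ε : ℝ) (K : ℕ) (T : ℝ) (Z : MW ι) (A : MW κ) (B : MW lam) : Prop :=
  W1 (Z.theta Φ ε K T A) (Z.theta Φ ε K T B) ((Z.add A).theta Φ ε K T B)

/-- The exits of a family of lines with root `r`. -/
def exF (F : κ → ML) (r : κ) : {k : κ // k ≠ r} → ML := fun k => F k

/-- First touch time of the lines of a family (each line alone in `Z`); `T + 1` = never. -/
def firstT (Φ : Space3 → ℝ) (ε : ℝ) (K : ℕ) (T : ℝ) (Z : MW ι) (F : κ → ML) : ℝ :=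
  Finset.univ.fold min (T + 1) (fun k => Z.thetaL Φ ε K T (F k))

theorem firstT_le (Φ : Space3 → ℝ) (ε : ℝ) (K : ℕ) (T : ℝ) (Z : MW ι) (F : κ → ML) (k : κ) :
    firstT Φ ε K T Z F ≤ Z.thetaL Φ ε K T (F k) := by
  unfold firstT
  exact (Finset.fold_min_le (b := T + 1) _).2 (Or.inr ⟨k, Finset.mem_univ _, le_rfl⟩)

theorem firstT_le_top (Φ : Space3 → ℝ) (ε : ℝ) (K : ℕ) (T : ℝ) (Z : MW ι) (F : κ → ML) :
    firstT Φ ε K T Z F ≤ T + 1 := by
  unfold firstT
  exact (Finset.fold_min_le (b := T + 1) _).2 (Or.inl le_rfl)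

theorem le_firstT {Φ : Space3 → ℝ} {ε : ℝ} {K : ℕ} {T : ℝ} {Z : MW ι} {F : κ → ML} {x : ℝ}
    (h0 : x ≤ T + 1) (h : ∀ k, x ≤ Z.thetaL Φ ε K T (F k)) : x ≤ firstT Φ ε K T Z F := by
  unfold firstT
  exact (Finset.le_fold_min (b := T + 1) _).2 ⟨h0, fun k _ => h k⟩

theorem exists_firstT {Φ : Space3 → ℝ} {ε : ℝ} {K : ℕ} {T : ℝ} {Z : MW ι} {F : κ → ML}
    (h : firstT Φ ε K T Z F < T + 1) : ∃ k, Z.thetaL Φ ε K T (F k) = firstT Φ ε K T Z F := by
  have h1 : firstT Φ ε K T Z F ≤ firstT Φ ε K T Z F := le_rfl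
  rcases (Finset.fold_min_le (b := T + 1) _).1 h1 with h2 | ⟨k, _, h2⟩
  · exact absurd h (not_lt.2 h2)
  · exact ⟨k, le_antisymm h2 (firstT_le Φ ε K T Z F k)⟩

/-- Lines linked to `A` in `Z` (complement of the set on which world consistency holds). -/
def badN (Φ : Space3 → ℝ) (ε : ℝ) (K : ℕ) (T : ℝ) (Z : MW ι) (A : MW κ) : Set ML :=
  {l | ¬ W1E Φ ε K T Z A (MW.line l)}

theorem cons1_badN (Φ : Space3 → ℝ) (ε : ℝ) (K : ℕ) (T : ℝ) (Z : MW ι) (A : MW κ) :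
    Cons1 (Z.thetaL Φ ε K T) ((Z.add A).thetaL Φ ε K T) (Z.theta Φ ε K T A)
      (badN Φ ε K T Z A) where
  le l hl hle := by
    have h : W1E Φ ε K T Z A (MW.line l) := by
      by_contra hno
      exact hl hno
    exact (h.eq hle).le

/-- Lines `l` for which world consistency of `Z`, `Z + A` fails before the first touch of the single
lines `F` in `Z`. -/
def badF (Φ : Space3 → ℝ) (ε : ℝ) (K : ℕ) (T : ℝ) (Z : MW ι) (A : MW ξ) (F : κ → ML) : Set ML :=
  {l | ¬ W1 (firstT Φ ε K T Z F) (Z.thetaL Φ ε K T l) ((Z.add A).thetaL Φ ε K T l)}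

theorem cons1_badF (Φ : Space3 → ℝ) (ε : ℝ) (K : ℕ) (T : ℝ) (Z : MW ι) (A : MW ξ)
    (F : κ → ML) :
    Cons1 (Z.thetaL Φ ε K T) ((Z.add A).thetaL Φ ε K T) (firstT Φ ε K T Z F)
      (badF Φ ε K T Z A F) where
  le l hl hle := by
    have h : W1 (firstT Φ ε K T Z F) (Z.thetaL Φ ε K T l) ((Z.add A).thetaL Φ ε K T l) := by
      by_contra hno
      exact hl hno
    exact (h.eq hle).le

theorem badF_subset_badN {Φ : Space3 → ℝ} {ε : ℝ} {K : ℕ} {T : ℝ} {Z : MW ι} {A : MW ξ}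
    {F : κ → ML} (h : firstT Φ ε K T Z F ≤ Z.theta Φ ε K T A) :
    badF Φ ε K T Z A F ⊆ badN Φ ε K T Z A := fun _ hl hW => hl (hW.mono h)

/-- The world `Z₀ = w₂ + d + exits`. -/
def Z0 (w₂ : MW ι) (F : κ → ML) (r : κ) (d : ML) : MW ((ι ⊕ Unit) ⊕ {k : κ // k ≠ r}) :=
  (w₂.ins d).add (MW.lines (exF F r))

/-- Touch times of E6 for `EDefs_602` worlds. -/
def timesA (Φ : Space3 → ℝ) (ε : ℝ) (K : ℕ) (T : ℝ) (w₂ : MW ι) (A : MW ξ) (F : κ → ML) (r : κ)
    (d e e' c' : ML) : Times where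
  θ₁ := (w₂.add A).thetaL Φ ε K T d
  θ₂ := ((w₂.add A).ins d).thetaL Φ ε K T e
  tL := firstT Φ ε K T w₂ F
  fA := firstT Φ ε K T w₂ F
  td := w₂.thetaL Φ ε K T d
  uE := (w₂.ins d).theta Φ ε K T (MW.lines (exF F r))
  fE := firstT Φ ε K T (w₂.ins d) (exF F r)
  uL := firstT Φ ε K T (w₂.ins d) F
  bc := (w₂.ins d).thetaL Φ ε K T (F r)
  be := (w₂.ins d).thetaL Φ ε K T e'
  bc' := (w₂.ins d).thetaL Φ ε K T c'
  zc := (Z0 w₂ F r d).thetaL Φ ε K T (F r)
  ze := (Z0 w₂ F r d).thetaL Φ ε K T e'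
  zc' := (Z0 w₂ F r d).thetaL Φ ε K T c'
  zec' := ((Z0 w₂ F r d).ins e').thetaL Φ ε K T c'

/-- The deterministic facts used in E6, all true off LINK. -/
structure E6FactsA (Φ : Space3 → ℝ) (ε : ℝ) (K : ℕ) (T : ℝ) (w₂ : MW ι) (A : MW ξ) (F : κ → ML)
    (r : κ)
    (d e e' c' : ML) : Prop where
  /-- (1.5) `Z = w₂`, `A`, `B = d`, up to the first touch of the single lines -/
  w_Ld : W1 (firstT Φ ε K T w₂ F) (w₂.thetaL Φ ε K T d) ((w₂.add A).thetaL Φ ε K T d)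
  /-- (1.5) `Z = w₂`, `A = d`, `B = ` a line of `D₂` -/
  w_dk : ∀ k, W1E Φ ε K T w₂ (MW.line d) (MW.line (F k))
  /-- (1.5) `Z = w₂ + d`, `A = exits`, `B = c, e', c'` -/
  w_Ec : W1E Φ ε K T (w₂.ins d) (MW.lines (exF F r)) (MW.line (F r))
  w_Ee : W1E Φ ε K T (w₂.ins d) (MW.lines (exF F r)) (MW.line e')
  w_Ec' : W1E Φ ε K T (w₂.ins d) (MW.lines (exF F r)) (MW.line c')
  /-- (1.5) `Z = w₂ + d`, `A = exits + e'`, `B = c'` -/
  w_ec' : W1 (min ((w₂.ins d).theta Φ ε K T (MW.lines (exF F r)))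
      ((w₂.ins d).thetaL Φ ε K T e')) ((w₂.ins d).thetaL Φ ε K T c')
    (((Z0 w₂ F r d).ins e').thetaL Φ ε K T c')
  /-- a family does not touch before its first line -/
  fE : firstT Φ ε K T (w₂.ins d) (exF F r) ≤
    (w₂.ins d).theta Φ ε K T (MW.lines (exF F r))
  /-- (1.6) one-contact lemma for `e` in `w₂ + lines F + d` -/
  one : min ((Z0 w₂ F r d).thetaL Φ ε K T (F r)) (min ((Z0 w₂ F r d).thetaL Φ ε K T e')
    (((Z0 w₂ F r d).ins e').thetaL Φ ε K T c')) ≤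
      ((w₂.add A).ins d).thetaL Φ ε K T e
  /-- (1.6'), with the alternative that `c` touches; only at times not later than all single touch
  times of the exits and of `e'`, `c'` in `w₂ + d` -/
  re : (Z0 w₂ F r d).thetaL Φ ε K T e' ≤ firstT Φ ε K T (w₂.ins d) (exF F r) →
    (Z0 w₂ F r d).thetaL Φ ε K T e' ≤ (w₂.ins d).thetaL Φ ε K T c' →
    min (((w₂.add A).ins d).thetaL Φ ε K T e) ((Z0 w₂ F r d).thetaL Φ ε K T (F r)) ≤
      (Z0 w₂ F r d).thetaL Φ ε K T e'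
  rc' : (Z0 w₂ F r d).thetaL Φ ε K T c' ≤ firstT Φ ε K T (w₂.ins d) (exF F r) →
    (Z0 w₂ F r d).thetaL Φ ε K T c' ≤ (w₂.ins d).thetaL Φ ε K T e' →
    min (((w₂.add A).ins d).thetaL Φ ε K T e) ((Z0 w₂ F r d).thetaL Φ ε K T (F r)) ≤
      (Z0 w₂ F r d).thetaL Φ ε K T c'

/-- The deterministic facts with `D₂` replaced by its lines. -/
abbrev E6Facts (Φ : Space3 → ℝ) (ε : ℝ) (K : ℕ) (T : ℝ) (w₂ : MW ι) (F : κ → ML) (r : κ)
    (d e e' c' : ML) : Prop :=
  E6FactsA Φ ε K T w₂ (MW.lines F) F r d e e' c'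

/-- `w_ec'` from (1.5) for `Z = Z₀`, `A = e'`, `B = c'`. -/
theorem W1E.ec' {Φ : Space3 → ℝ} {ε : ℝ} {K : ℕ} {T : ℝ} {w₂ : MW ι} {F : κ → ML} {r : κ}
    {d e' c' : ML} (h : W1E Φ ε K T (Z0 w₂ F r d) (MW.line e') (MW.line c'))
    (he : W1E Φ ε K T (w₂.ins d) (MW.lines (exF F r)) (MW.line e'))
    (hc : W1E Φ ε K T (w₂.ins d) (MW.lines (exF F r)) (MW.line c')) :
    W1 (min ((w₂.ins d).theta Φ ε K T (MW.lines (exF F r)))
      ((w₂.ins d).thetaL Φ ε K T e')) ((w₂.ins d).thetaL Φ ε K T c')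
    (((Z0 w₂ F r d).ins e').thetaL Φ ε K T c') :=
  hc.trans he h

variable {Φ : Space3 → ℝ} {ε : ℝ} {K : ℕ} {T : ℝ} {w₂ : MW ι} {A : MW ξ} {F : κ → ML} {r : κ}
  {d e e' c' : ML}

theorem E6FactsA.facts (h : E6FactsA Φ ε K T w₂ A F r d e e' c') :
    (timesA Φ ε K T w₂ A F r d e e' c').Facts where
  w_Ld := h.w_Ld
  fA_le := le_rfl
  fE_ge := le_firstT ((min_le_right _ _).trans (firstT_le_top ..)) fun k =>
    (min_le_min_left _ (firstT_le Φ ε K T w₂ F k)).trans (h.w_dk k).min_le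
  bc_ge := (min_le_min_left _ (firstT_le Φ ε K T w₂ F r)).trans (h.w_dk r).min_le
  fE_le := h.fE
  uL := by
    refine le_firstT ((min_le_left _ _).trans (firstT_le_top ..)) fun k => ?_
    by_cases hk : k = r
    · subst hk
      exact min_le_right _ _
    · exact (min_le_left _ _).trans (firstT_le Φ ε K T (w₂.ins d) (exF F r) ⟨k, hk⟩)
  w_Ec := h.w_Ec
  w_Ee := h.w_Ee
  w_Ec' := h.w_Ec'
  w_ec' := h.w_ec'
  one := h.one
  re := h.re
  rc' := h.rc'

/-- Link masses of the comparison of weights. -/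
def lk (Φ : Space3 → ℝ) (ε : ℝ) (K : ℕ) (P : EPar) (Z : MW ι) (A : MW ξ) (F : κ → ML) : ℝ≥0∞ :=
  ENNReal.ofReal P.L * lineM P.γ P.ρ K P.te (badF Φ ε K P.te Z A F)

/-- Term (A): `d` touches `w = w₂ + A` strictly after a line of `D₂` touched `w₂`. -/
def termA (Φ : Space3 → ℝ) (ε : ℝ) (K : ℕ) (P : EPar) (w₂ : MW ι) (A : MW ξ) (F : κ → ML)
    (d : ML) : ℝ≥0∞ :=
  if firstT Φ ε K P.te w₂ F < (w₂.add A).thetaL Φ ε K P.te d ∧
      (w₂.add A).thetaL Φ ε K P.te d ≤ P.te then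
    (w₂.add A).W Φ ε K P ((w₂.add A).thetaL Φ ε K P.te d) else 0

/-- Term (B) for a line `k` (an exit of `D₂`): `k` touches `w₂ + d` after `d` touched `w₂`; both
weights are inclusive. -/
def termB (Φ : Space3 → ℝ) (ε : ℝ) (K : ℕ) (P : EPar) (w₂ : MW ι) (d k : ML) : ℝ≥0∞ :=
  if P.tw < w₂.thetaL Φ ε K P.te d ∧
      w₂.thetaL Φ ε K P.te d ≤ (w₂.ins d).thetaL Φ ε K P.te k ∧
      (w₂.ins d).thetaL Φ ε K P.te k ≤ P.te then
    min (w₂.W Φ ε K P (w₂.thetaL Φ ε K P.te d))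
      ((w₂.ins d).W Φ ε K P ((w₂.ins d).thetaL Φ ε K P.te k)) else 0

/-- Indicator of the touch of `d` in the window. -/
def touch1 (Φ : Space3 → ℝ) (ε : ℝ) (K : ℕ) (P : EPar) (w₂ : MW ι) (d : ML) : ℝ≥0∞ :=
  if P.tw < w₂.thetaL Φ ε K P.te d ∧ w₂.thetaL Φ ε K P.te d ≤ P.te then 1 else 0

/-- The weights of `(w₂ + A) + d` and of `(w₂ + d) + A` agree (relabelling). -/
def RelW (Φ : Space3 → ℝ) (ε : ℝ) (K : ℕ) (T : ℝ) (w₂ : MW ι) (A : MW ξ) (d : ML) : Prop :=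
  ∀ l, ((w₂.add A).ins d).thetaL Φ ε K T l =
    ((w₂.ins d).add A).thetaL Φ ε K T l

/-- **E6, pointwise inequality**, for an arbitrary inserted object `A` of `D₂`; the root line may be
replaced by a line `cr` with the same touch time in `w₂ + d` (if this is not later than the touch
times of the exits). -/
theorem touchP_leR {P : EPar} (hL : 0 < P.L) (h : E6FactsA Φ ε K P.te w₂ A F r d e e' c')
    (hrel : RelW Φ ε K P.te w₂ A d) {cr : ML}
    (hcr : (w₂.ins d).thetaL Φ ε K P.te (F r) ≤ P.te →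
      (w₂.ins d).thetaL Φ ε K P.te (F r) ≤ firstT Φ ε K P.te (w₂.ins d) F →
      (w₂.ins d).thetaL Φ ε K P.te cr = (w₂.ins d).thetaL Φ ε K P.te (F r)) :
    (w₂.add A).touchP Φ ε K P d e ≤
      termA Φ ε K P w₂ A F d +
      ∑ k ∈ Finset.univ.filter (fun k => k ≠ r), termB Φ ε K P w₂ d (F k) +
      (w₂.touchP Φ ε K P d cr + w₂.touchP Φ ε K P d e' + w₂.touchP Φ ε K P d c') +
      (lk Φ ε K P w₂ A F + lk Φ ε K P (w₂.ins d) A F) *
        touch1 Φ ε K P w₂ d := by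
  set t := timesA Φ ε K P.te w₂ A F r d e e' c' with ht
  set ν := lineM P.γ P.ρ K P.te with hν
  by_cases hc : P.tw < (w₂.add A).thetaL Φ ε K P.te d ∧
      (w₂.add A).thetaL Φ ε K P.te d ≤
        ((w₂.add A).ins d).thetaL Φ ε K P.te e ∧
      ((w₂.add A).ins d).thetaL Φ ε K P.te e ≤ P.te
  swap
  · have h0 : (w₂.add A).touchP Φ ε K P d e = 0 := by
      unfold MW.touchP
      rw [if_neg hc]
    rw [h0]
    exact bot_le
  obtain ⟨hc1, hc2, hc3⟩ := hc
  have h12 : t.θ₁ ≤ t.θ₂ := hc2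
  have c₂ : Cons1 (w₂.thetaL Φ ε K P.te) ((w₂.add A).thetaL Φ ε K P.te) t.tL
      (badF Φ ε K P.te w₂ A F) := cons1_badF ..
  have c₃ : Cons1 (w₂.thetaL Φ ε K P.te) ((w₂.ins d).thetaL Φ ε K P.te) t.td
      (badN Φ ε K P.te w₂ (MW.line d)) := cons1_badN ..
  have c₄ : Cons1 ((w₂.ins d).thetaL Φ ε K P.te)
      (((w₂.add A).ins d).thetaL Φ ε K P.te) t.uL
      (badF Φ ε K P.te (w₂.ins d) A F) := by
    have h1 := cons1_badF Φ ε K P.te (w₂.ins d) A F
    refine ⟨fun l hl hle => ?_⟩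
    rw [hrel l]
    exact h1.le l hl hle
  have hom : (w₂.add A).touchP Φ ε K P d e =
      om P.L ν ((w₂.add A).thetaL Φ ε K P.te)
        (((w₂.add A).ins d).thetaL Φ ε K P.te) t.θ₁ t.θ₂ := by
    unfold MW.touchP
    rw [if_pos ⟨hc1, hc2, hc3⟩]
    rfl
  rw [hom]
  have hCgen : ∀ (l : ML) (b : ℝ), (b ≤ P.te → b ≤ t.uL →
      (w₂.ins d).thetaL Φ ε K P.te l = b) →
      CaseC P.L ν (w₂.thetaL Φ ε K P.te) ((w₂.ins d).thetaL Φ ε K P.te)
        (badF Φ ε K P.te w₂ A F) (badF Φ ε K P.te (w₂.ins d) A F) t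
        (om P.L ν ((w₂.add A).thetaL Φ ε K P.te)
        (((w₂.add A).ins d).thetaL Φ ε K P.te) t.θ₁ t.θ₂) b →
      om P.L ν ((w₂.add A).thetaL Φ ε K P.te)
        (((w₂.add A).ins d).thetaL Φ ε K P.te) t.θ₁ t.θ₂ ≤
      w₂.touchP Φ ε K P d l + (lk Φ ε K P w₂ A F +
        lk Φ ε K P (w₂.ins d) A F) * touch1 Φ ε K P w₂ d := by
    rintro l b hb ⟨h1, h2, h3, h0, h4⟩
    have hbl := hb (h3.trans hc3) h0
    subst hbl
    have htd : w₂.thetaL Φ ε K P.te d = (w₂.add A).thetaL Φ ε K P.te d := h1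
    have hP : w₂.touchP Φ ε K P d l = om P.L ν (w₂.thetaL Φ ε K P.te)
        ((w₂.ins d).thetaL Φ ε K P.te) t.td ((w₂.ins d).thetaL Φ ε K P.te l) := by
      unfold MW.touchP
      rw [if_pos ⟨by rw [htd]; exact hc1, by rw [htd]; exact h2, h3.trans hc3⟩]
      rfl
    have h1' : touch1 Φ ε K P w₂ d = 1 := by
      unfold touch1
      rw [if_pos ⟨by rw [htd]; exact hc1, by rw [htd]; exact hc2.trans hc3⟩]
    rw [hP, h1', mul_one]
    refine h4.trans (le_of_eq ?_)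
    unfold lk
    rw [← hν, mul_add]
  rcases t.cases3_weight h.facts h12 hL (ν := ν) c₂ c₃ c₄ with h1 | h1 | h1 | h1 | h1
  · -- (A)
    obtain ⟨h2, h3, _⟩ := h1
    have hA : om P.L ν ((w₂.add A).thetaL Φ ε K P.te)
        (((w₂.add A).ins d).thetaL Φ ε K P.te) t.θ₁ t.θ₂ ≤ termA Φ ε K P w₂ A F d := by
      unfold termA
      rw [if_pos ⟨h2, hc2.trans hc3⟩]
      exact h3
    calc _ ≤ termA Φ ε K P w₂ A F d := hA
      _ ≤ _ := by
        rw [add_assoc, add_assoc]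
        exact le_self_add
  · -- (B)
    obtain ⟨h2, h2', h3, h4, h5, _⟩ := h1
    have htd : w₂.thetaL Φ ε K P.te d = (w₂.add A).thetaL Φ ε K P.te d := h2
    have hfT : t.fE ≤ P.te := h4.le.trans hc3
    obtain ⟨⟨k, hkr⟩, hk⟩ := exists_firstT (Z := w₂.ins d) (F := exF F r) (Φ := Φ) (ε := ε)
      (K := K) (T := P.te) (lt_of_le_of_lt hfT (by linarith))
    have hk' : (w₂.ins d).thetaL Φ ε K P.te (F k) = t.fE := hk
    have hdk : w₂.thetaL Φ ε K P.te d ≤ (w₂.ins d).thetaL Φ ε K P.te (F k) := by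
      rw [hk', htd]
      exact h3
    have h1' : touch1 Φ ε K P w₂ d = 1 := by
      unfold touch1
      rw [if_pos ⟨by rw [htd]; exact hc1, by rw [htd]; exact hc2.trans hc3⟩]
    have hB : min (W P.L (XR ν (w₂.thetaL Φ ε K P.te) t.td))
        (W P.L (XR ν ((w₂.ins d).thetaL Φ ε K P.te) t.fE)) ≤ termB Φ ε K P w₂ d (F k) := by
      unfold termB
      rw [if_pos ⟨by rw [htd]; exact hc1, hdk, hk'.le.trans hfT⟩]
      exact min_le_min le_rfl (W_anti hL.le (XR_mono hk'.le))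
    have hsum : termB Φ ε K P w₂ d (F k) ≤
        ∑ k ∈ Finset.univ.filter (fun k => k ≠ r), termB Φ ε K P w₂ d (F k) :=
      Finset.single_le_sum (f := fun k => termB Φ ε K P w₂ d (F k)) (fun _ _ => zero_le)
        (by simp [hkr])
    calc _ ≤ min (W P.L (XR ν (w₂.thetaL Φ ε K P.te) t.td))
            (W P.L (XR ν ((w₂.ins d).thetaL Φ ε K P.te) t.fE)) +
          ENNReal.ofReal P.L * (ν (badF Φ ε K P.te w₂ A F) +
            ν (badF Φ ε K P.te (w₂.ins d) A F)) := h5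
      _ ≤ (∑ k ∈ Finset.univ.filter (fun k => k ≠ r), termB Φ ε K P w₂ d (F k)) +
          (lk Φ ε K P w₂ A F + lk Φ ε K P (w₂.ins d) A F) *
            touch1 Φ ε K P w₂ d := by
          rw [h1', mul_one]
          refine add_le_add (hB.trans hsum) (le_of_eq ?_)
          unfold lk
          rw [← hν, mul_add]
      _ ≤ _ := by
          gcongr ?_ + _
          rw [add_assoc]
          exact le_add_of_nonneg_of_le zero_le le_self_add
  · have h2 := hCgen cr t.bc (fun h3 h4 => hcr h3 h4) h1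
    refine h2.trans ?_
    gcongr ?_ + _
    refine le_trans ?_ le_add_self
    rw [add_assoc]
    exact le_self_add
  · have h2 := hCgen e' t.be (fun _ _ => rfl) h1
    refine h2.trans ?_
    gcongr ?_ + _
    refine le_trans ?_ le_add_self
    exact le_add_self.trans le_self_add
  · have h2 := hCgen c' t.bc' (fun _ _ => rfl) h1
    refine h2.trans ?_
    gcongr ?_ + _
    exact le_add_self.trans le_add_self

/-- **E6, pointwise inequality**, for an arbitrary inserted object `A` of `D₂`. -/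
theorem touchP_leA {P : EPar} (hL : 0 < P.L) (h : E6FactsA Φ ε K P.te w₂ A F r d e e' c')
    (hrel : RelW Φ ε K P.te w₂ A d) :
    (w₂.add A).touchP Φ ε K P d e ≤
      termA Φ ε K P w₂ A F d +
      ∑ k ∈ Finset.univ.filter (fun k => k ≠ r), termB Φ ε K P w₂ d (F k) +
      (w₂.touchP Φ ε K P d (F r) + w₂.touchP Φ ε K P d e' + w₂.touchP Φ ε K P d c') +
      (lk Φ ε K P w₂ A F + lk Φ ε K P (w₂.ins d) A F) *
        touch1 Φ ε K P w₂ d :=
  touchP_leR hL h hrel fun _ _ => rfl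

/-- **E6, pointwise inequality**, `D₂` replaced by its lines. -/
theorem touchP_le {P : EPar} (hL : 0 < P.L) (h : E6Facts Φ ε K P.te w₂ F r d e e' c')
    (hrel : RelW Φ ε K P.te w₂ (MW.lines F) d) :
    (w₂.add (MW.lines F)).touchP Φ ε K P d e ≤
      termA Φ ε K P w₂ (MW.lines F) F d +
      ∑ k ∈ Finset.univ.filter (fun k => k ≠ r), termB Φ ε K P w₂ d (F k) +
      (w₂.touchP Φ ε K P d (F r) + w₂.touchP Φ ε K P d e' + w₂.touchP Φ ε K P d c') +
      (lk Φ ε K P w₂ (MW.lines F) F + lk Φ ε K P (w₂.ins d) (MW.lines F) F) *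
        touch1 Φ ε K P w₂ d :=
  touchP_leA hL h hrel

/-- **E6, pointwise inequality for young links**: only (1.5) for `w₂`, `A`, `d`. -/
theorem touchP_le_youngA {P : EPar} (hL : 0 < P.L)
    (w_Ld : W1 (firstT Φ ε K P.te w₂ F) (w₂.thetaL Φ ε K P.te d)
      ((w₂.add A).thetaL Φ ε K P.te d)) :
    (w₂.add A).touchP Φ ε K P d e ≤
      termA Φ ε K P w₂ A F d + w₂.touchW Φ ε K P d +
      lk Φ ε K P w₂ A F * touch1 Φ ε K P w₂ d := by
  by_cases hc : P.tw < (w₂.add A).thetaL Φ ε K P.te d ∧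
      (w₂.add A).thetaL Φ ε K P.te d ≤ ((w₂.add A).ins d).thetaL Φ ε K P.te e ∧
      ((w₂.add A).ins d).thetaL Φ ε K P.te e ≤ P.te
  swap
  · have h0 : (w₂.add A).touchP Φ ε K P d e = 0 := by
      unfold MW.touchP
      rw [if_neg hc]
    rw [h0]
    exact bot_le
  have hc1 := hc.1
  have hc2 := hc.2.1.trans hc.2.2
  have hle : (w₂.add A).touchP Φ ε K P d e ≤
      (w₂.add A).W Φ ε K P ((w₂.add A).thetaL Φ ε K P.te d) := by
    unfold MW.touchP
    rw [if_pos hc]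
    exact min_le_left _ _
  refine hle.trans ?_
  rcases lt_or_ge (firstT Φ ε K P.te w₂ F) ((w₂.add A).thetaL Φ ε K P.te d) with hA | hA
  · have h1 : termA Φ ε K P w₂ A F d =
        (w₂.add A).W Φ ε K P ((w₂.add A).thetaL Φ ε K P.te d) := by
      unfold termA
      rw [if_pos ⟨hA, hc2⟩]
    rw [h1, add_assoc]
    exact le_self_add
  · have hAL : (w₂.add A).thetaL Φ ε K P.te d ≤ firstT Φ ε K P.te w₂ F := hA
    have htd : w₂.thetaL Φ ε K P.te d = (w₂.add A).thetaL Φ ε K P.te d :=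
      le_antisymm (w_Ld.le_of_le hAL) ((w_Ld.eq ((w_Ld.le_of_le hAL).trans hAL)).le)
    have h1 : touch1 Φ ε K P w₂ d = 1 := by
      unfold touch1
      rw [if_pos ⟨by rw [htd]; exact hc1, by rw [htd]; exact hc2⟩]
    have h2 : w₂.touchW Φ ε K P d = w₂.Wm Φ ε K P (w₂.thetaL Φ ε K P.te d) := by
      unfold MW.touchW
      rw [if_pos ⟨by rw [htd]; exact hc1, by rw [htd]; exact hc2⟩]
    have h3 : (w₂.add A).W Φ ε K P ((w₂.add A).thetaL Φ ε K P.te d) ≤
        w₂.W Φ ε K P ((w₂.add A).thetaL Φ ε K P.te d) + lk Φ ε K P w₂ A F :=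
      (cons1_badF Φ ε K P.te w₂ A F).W_XR_le (ν := lineM P.γ P.ρ K P.te) hL hAL
    have h4 : w₂.W Φ ε K P (w₂.thetaL Φ ε K P.te d) ≤
        w₂.Wm Φ ε K P (w₂.thetaL Φ ε K P.te d) :=
      W_anti hL.le (XRm_le_XR _)
    rw [h1, h2, mul_one, add_assoc]
    refine (h3.trans ?_).trans le_add_self
    rw [← htd]
    gcongr

/-- **E6, pointwise inequality for young links**, `D₂` replaced by its lines. -/
theorem touchP_le_young {P : EPar} (hL : 0 < P.L)
    (w_Ld : W1E Φ ε K P.te w₂ (MW.lines F) (MW.line d))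
    (fL : firstT Φ ε K P.te w₂ F ≤ w₂.theta Φ ε K P.te (MW.lines F)) :
    (w₂.add (MW.lines F)).touchP Φ ε K P d e ≤
      termA Φ ε K P w₂ (MW.lines F) F d + w₂.touchW Φ ε K P d +
      lk Φ ε K P w₂ (MW.lines F) F * touch1 Φ ε K P w₂ d :=
  touchP_le_youngA hL (W1.mono w_Ld fL)

/-- The weight in `w = w₂ + A` at the first touch of the lines, in terms of `w₂` (case (A)). -/
theorem W_firstT_le {P : EPar} (hL : 0 < P.L) :
    (w₂.add A).W Φ ε K P (firstT Φ ε K P.te w₂ F) ≤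
      w₂.W Φ ε K P (firstT Φ ε K P.te w₂ F) + lk Φ ε K P w₂ A F :=
  (cons1_badF Φ ε K P.te w₂ A F).W_XR_le (ν := lineM P.γ P.ρ K P.te) hL le_rfl

/-- Sum form of `W_firstT_le`: one of the lines of the family touches first. -/
theorem W_firstT_le_sum {P : EPar} (hL : 0 < P.L) (hT : firstT Φ ε K P.te w₂ F ≤ P.te) :
    (w₂.add A).W Φ ε K P (firstT Φ ε K P.te w₂ F) ≤
      ∑ k, (if w₂.thetaL Φ ε K P.te (F k) ≤ P.te then
        w₂.W Φ ε K P (w₂.thetaL Φ ε K P.te (F k)) else 0) + lk Φ ε K P w₂ A F := by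
  refine (W_firstT_le hL).trans ?_
  gcongr ?_ + _
  obtain ⟨k, hk⟩ := exists_firstT (Z := w₂) (F := F) (Φ := Φ) (ε := ε)
    (K := K) (T := P.te) (lt_of_le_of_lt hT (by linarith))
  have h1 : (if w₂.thetaL Φ ε K P.te (F k) ≤ P.te then
      w₂.W Φ ε K P (w₂.thetaL Φ ε K P.te (F k)) else 0) =
      w₂.W Φ ε K P (firstT Φ ε K P.te w₂ F) := by
    rw [if_pos (hk.le.trans hT), hk]
  rw [← h1]
  exact Finset.single_le_sum (f := fun k => if w₂.thetaL Φ ε K P.te (F k) ≤ P.te then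
      w₂.W Φ ε K P (w₂.thetaL Φ ε K P.te (F k)) else 0) (fun _ _ => zero_le)
      (Finset.mem_univ k)

end

end Crest.Agent.R122.Decomp811
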