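import Crest.Agent.R122.Direct1_658
import Crest.Agent.R122.MeasEDefs_416

/-!
# Row 122, section E, direct terms (helper658), part 2: the world with one inserted line

* `hasDerivAt_pos` : positions of a world with births are differentiable.
* `sum_speed_ins` : energy bound of the world `w + d`, if `d` is not born in contact.
* `Dirty` : the first contact of the free line `e` with the world `Z` is with an infected particle.
* `touchP_le_of_dirty` : deterministic bound of `touchP` for a direct touch.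
* measurability of the paths of `w + d` in `(d, s)`.
-/

set_option autoImplicit false
set_option linter.unusedSectionVars false

open MeasureTheory Set Filter Topology
open scoped ENNReal
open Crest.AnalysisR.Kinetic
open Crest.Agent.R122.Flow671 Crest.Agent.R122.Loc45 Crest.Agent.R122.Causal291
open Crest.Agent.R122.Inf879 Crest.Agent.R122.EDefs602 Crest.Agent.R122.Ins45
open Crest.Agent.R122.GC311 Crest.Agent.R122.Unw410 Crest.Agent.R122.Energy410
open Crest.Agent.R122.MeasE416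

namespace Crest.Agent.R122.Direct658

noncomputable section

open scoped Classical

/-! ### Positions are differentiable -/

section world

variable {ι : Type*} [Fintype ι] {Φ : Space3 → ℝ} {ε : ℝ} {b : ι → ℝ} {t₀ : ℝ}
  {X : ℝ → ι → PhasePoint}

theorem hasDerivAt_pos (hX : BWorld Φ ε b t₀ X) {t : ℝ} (ht : t₀ < t) (i : ι) :
    HasDerivAt (fun s => (X s i).1) (X t i).2 t := by
  have hv : ContinuousOn (fun s => (X s i).2) (Ici t₀) := (hX.cont_apply i).snd
  have hx : ContinuousOn (fun s => (X s i).1) (Ici t₀) := hX.cont_pos i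
  have hder : ∀ s, t₀ ≤ s → HasDerivWithinAt (fun s => (X s i).1) (X s i).2 (Ici s) s := by
    intro s hs
    have h2 : HasDerivWithinAt (fun s => X s i) (bf Φ ε b s (X s) i) (Ici s) s :=
      (hasDerivWithinAt_pi.1 (hX.der s hs)) i
    exact (ContinuousLinearMap.fst ℝ Space3 Space3).hasFDerivAt.comp_hasDerivWithinAt s h2
  have hint : ∀ u, t₀ ≤ u → IntervalIntegrable (fun s => (X s i).2) volume t₀ u := by
    intro u hu
    refine ContinuousOn.intervalIntegrable (hv.mono ?_)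
    rw [uIcc_of_le hu]
    exact fun s hs => hs.1
  have hF : ∀ u, t₀ ≤ u → (X u i).1 = (X t₀ i).1 + ∫ s in t₀..u, (X s i).2 := by
    intro u hu
    rw [intervalIntegral.integral_eq_sub_of_hasDeriv_right_of_le hu (hx.mono fun s hs => hs.1)
      (fun s hs => (hder s hs.1.le).mono Ioi_subset_Ici_self) (hint u hu)]
    abel
  have hcont : ContinuousAt (fun s => (X s i).2) t := hv.continuousAt (Ici_mem_nhds ht)
  have hmeas : StronglyMeasurableAtFilter (fun s => (X s i).2) (𝓝 t) volume :=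
    ContinuousOn.stronglyMeasurableAtFilter isOpen_Ioi (hv.mono Ioi_subset_Ici_self) t ht
  have h1 : HasDerivAt (fun u => (X t₀ i).1 + ∫ s in t₀..u, (X s i).2) (X t i).2 t :=
    (intervalIntegral.integral_hasDerivAt_right (hint t ht.le) hmeas hcont).const_add _
  refine h1.congr_of_eventuallyEq ?_
  filter_upwards [Ioi_mem_nhds ht] with u hu
  exact hF u (le_of_lt hu)

end world

/-! ### The world `w + d` -/

variable {Φ : Space3 → ℝ} {f₀ : PhasePoint → ℝ} {ε : ℝ} {K : ℕ} {P : EPar}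

/-- Lines not born in contact with the gas. -/
def goodB (Φ : Space3 → ℝ) (ε : ℝ) {n : ℕ} (w : Config n) : Set ML :=
  {d | 0 < d.1.1 ∧ ∀ i, ε < dist (flow Φ ε d.1.1 w i).1 d.1.2.1}

theorem measurableSet_goodB (hΦ : AdmissiblePotential Φ) (hε : 0 < ε) {n : ℕ} (w : Config n) :
    MeasurableSet (goodB Φ ε w) := by
  have hcont : Continuous fun s => flow Φ ε s w := flow_continuous_time hΦ hε w
  have h1 : goodB Φ ε w = {d : ML | 0 < d.1.1} ∩
      ⋂ i : Fin n, {d : ML | ε < dist (flow Φ ε d.1.1 w i).1 d.1.2.1} := by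
    ext d
    simp only [goodB, mem_ofPred_eq, mem_inter_iff, mem_iInter]
  rw [h1]
  refine (measurableSet_lt measurable_const (by fun_prop)).inter (MeasurableSet.iInter fun i => ?_)
  refine measurableSet_lt measurable_const (Measurable.dist ?_ (by fun_prop))
  exact (((continuous_apply i).comp hcont).fst.measurable).comp (by fun_prop)

theorem ins_ok' (hΦ : AdmissiblePotential Φ) (hε : 0 < ε) {n : ℕ} {w : Config n}
    (hw : w ∈ PairExcluded ε n) {d : ML} (hd : d ∈ goodB Φ ε w) : ((MW.cfg w).ins d).Ok Φ ε := by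
  refine ins_ok hΦ hε hw hd.1 fun i h => ?_
  have := hd.2 i
  rw [h, dist_self] at this
  linarith

/-- The births of `w + d` are separated. -/
theorem sepBirths_ins (hΦ : AdmissiblePotential Φ) (hε : 0 < ε) {n : ℕ} {w : Config n}
    (hw : w ∈ PairExcluded ε n) {d : ML} (hd : d ∈ goodB Φ ε w) (T : ℝ) :
    SepBirths ε ((MW.cfg w).ins d).b T (((MW.cfg w).ins d).path Φ ε) where
  init := by
    rintro (i | x) (j | y) hij hi hj
    · rw [path_ins_of_le hΦ hε w hd.1 hd.1.le, path_ins_of_le hΦ hε w hd.1 hd.1.le,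
        flow_zero hΦ hε]
      exact (hw i j fun h => hij (by rw [h])).le
    · exact absurd hj (not_le.2 hd.1)
    · exact absurd hi (not_le.2 hd.1)
    · exact absurd rfl hij
  birth := by
    rintro (i | x) (j | y) hij h0 hT hj
    · exact absurd h0 (lt_irrefl _)
    · exact absurd h0 (lt_irrefl _)
    · have hb : ((MW.cfg w).ins d).b (Sum.inr x) = d.1.1 := rfl
      rw [hb, path_ins_of_le hΦ hε w hd.1 le_rfl, path_ins_birth Φ ε w hd.1 le_rfl]
      simp only [sub_self, zero_smul, add_zero]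
      rw [dist_comm]
      exact (hd.2 j).le
    · exact absurd rfl hij

/-- **Energy of the world `w + d`**, if `d` is not born in contact. -/
theorem sum_speed_ins (hΦ : AdmissiblePotential Φ) (hε : 0 < ε) {n : ℕ} {w : Config n}
    (hw : w ∈ PairExcluded ε n) {d : ML} (hd : d ∈ goodB Φ ε w) {s : ℝ} (hs : 0 ≤ s) :
    ∑ x : Fin n ⊕ Unit, (1 + ‖(((MW.cfg w).ins d).path Φ ε s x).2‖) ≤
      totE Φ w + ((1 / 2) * ‖d.1.2.2‖ ^ 2 + (stabB Φ + 3 / 2)) := by
  have hZ := ins_ok' hΦ hε hw hd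
  have h1 := total_speed_leB hΦ hε hZ.bw (sepBirths_ins hΦ hε hw hd s) hs le_rfl
  refine h1.trans (le_of_eq ?_)
  rw [Fintype.sum_sum_type, MW.path_zero hΦ hε]
  unfold totE
  congr 1
  simp only [Finset.univ_unique, Finset.sum_singleton]
  rfl

/-- Velocity weight of the line `d`. -/
def enD (Φ : Space3 → ℝ) (d : ML) : ℝ≥0∞ :=
  ENNReal.ofReal ((1 / 2) * ‖d.1.2.2‖ ^ 2 + (stabB Φ + 3 / 2))

theorem measurable_enD : Measurable (enD Φ) := by unfold enD; fun_prop

theorem totE_nonneg {n : ℕ} (w : Config n) : 0 ≤ totE Φ w := by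
  have := stabB_nonneg Φ
  unfold totE
  exact Finset.sum_nonneg fun i _ => by positivity

theorem sum_speed_ins' (hΦ : AdmissiblePotential Φ) (hε : 0 < ε) {n : ℕ} {w : Config n}
    (hw : w ∈ PairExcluded ε n) {d : ML} (hd : d ∈ goodB Φ ε w) {s : ℝ} (hs : 0 ≤ s) :
    ∑ x : Fin n ⊕ Unit, (1 + ENNReal.ofReal ‖(((MW.cfg w).ins d).path Φ ε s x).2‖) ≤
      ENNReal.ofReal (totE Φ w) + enD Φ d := by
  have hB := stabB_nonneg Φ
  unfold enD
  rw [← ENNReal.ofReal_add (totE_nonneg w) (by positivity)]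
  refine le_trans (le_of_eq ?_) (ENNReal.ofReal_le_ofReal (sum_speed_ins hΦ hε hw hd hs))
  rw [ENNReal.ofReal_sum_of_nonneg fun i _ => by positivity]
  refine Finset.sum_congr rfl fun i _ => ?_
  rw [ENNReal.ofReal_add zero_le_one (norm_nonneg _), ENNReal.ofReal_one]

/-! ### Dirty first contacts -/

/-- The first contact (before `T`) of the free line `e` with the world `Z` is with an infected
particle. -/
def Dirty (Φ : Space3 → ℝ) (ε : ℝ) (K : ℕ) (T : ℝ) {ι : Type} [Fintype ι] (Z : MW ι) (e : ML) :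
    Prop :=
  ∃ (s : ℝ) (x : ι), e.1.1 ≤ s ∧ s ≤ T ∧ Z.b x ≤ s ∧ (Z.b x < s ∨ e.1.1 < s) ∧
    dist (fpos e s) (Z.path Φ ε s x).1 ≤ ε ∧ Z.Inf Φ ε K s x ∧
    ∀ s' k, e.1.1 ≤ s' → s' < s → Z.b k ≤ s' → (Z.b k < s' ∨ e.1.1 < s') →
      ε < dist (fpos e s') (Z.path Φ ε s' k).1

/-- Weighted touch of the first line, inclusive weight. -/
def tW (Φ : Space3 → ℝ) (ε : ℝ) (K : ℕ) (P : EPar) {n : ℕ} (w : Config n) (d : ML) : ℝ≥0∞ :=
  if P.tw < (MW.cfg w).thetaL Φ ε K P.te d ∧ (MW.cfg w).thetaL Φ ε K P.te d ≤ P.te then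
    (MW.cfg w).W Φ ε K P ((MW.cfg w).thetaL Φ ε K P.te d) else 0

theorem tW_le_one (hL : 0 ≤ P.L) {n : ℕ} (w : Config n) (d : ML) : tW Φ ε K P w d ≤ 1 := by
  unfold tW
  split_ifs
  · exact Weight984.W_le_one hL _
  · exact bot_le

theorem tW_le_touchW (hL : 0 ≤ P.L) {n : ℕ} (w : Config n) (d : ML) :
    tW Φ ε K P w d ≤ (MW.cfg w).touchW Φ ε K P d := by
  unfold tW MW.touchW
  split_ifs
  · exact Weight984.W_anti hL (Weight984.XRm_le_XR _)
  · exact bot_le

theorem measurable_tW (hΦ : AdmissiblePotential Φ) (hε : 0 < ε) (K : ℕ) (P : EPar) (n : ℕ) :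
    Measurable fun p : Config n × ML => tW Φ ε K P p.1 p.2 := by
  have h1 : Measurable fun p : Config n × ML => (MW.cfg p.1).thetaL Φ ε K P.te p.2 :=
    measurable_thetaL_cfg hΦ hε K P.te n
  unfold tW
  refine Measurable.ite ?_ ((MeasW.cfg measurable_fst).W hΦ hε K P h1) measurable_const
  exact (measurableSet_lt measurable_const h1).inter (measurableSet_le h1 measurable_const)

/-- The free line `e` comes within `ε` of a particle of `w + d` at a time after the touch time of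
`d` minus the slack `a`, and after its birth. -/
def NearT (Φ : Space3 → ℝ) (ε : ℝ) (K : ℕ) (T a : ℝ) {n : ℕ} (w : Config n) (d e : ML) : Prop :=
  ∃ (s : ℝ) (x : Fin n ⊕ Unit), e.1.1 ≤ s ∧ (MW.cfg w).thetaL Φ ε K T d - a ≤ s ∧ s ≤ T ∧
    dist (fpos e s) (((MW.cfg w).ins d).path Φ ε s x).1 ≤ ε

/-- Bound of `touchP` if the free second line comes close to `w + d` after the touch of `d`. -/
theorem touchP_le_of_near {a : ℝ} {n : ℕ} {w : Config n} {d e : ML}
    (h : NearT Φ ε K P.te a w d e) :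
    (MW.cfg w).touchP Φ ε K P d e ≤
      ⨆ x : Fin n ⊕ Unit, ⨆ s ∈ Icc ((MW.cfg w).thetaL Φ ε K P.te d - a) P.te,
        ⨆ (_ : dist (fpos e s) (((MW.cfg w).ins d).path Φ ε s x).1 ≤ ε), tW Φ ε K P w d := by
  obtain ⟨s, x, h1, h2, h3, h4⟩ := h
  refine le_trans ?_ (le_iSup_of_le x (le_iSup₂_of_le s ⟨h2, h3⟩ (le_iSup_of_le h4 le_rfl)))
  unfold MW.touchP tW
  split_ifs with h5 h6 h6
  · exact min_le_left _ _
  · exact absurd ⟨h5.1, h5.2.1.trans h5.2.2⟩ h6
  · exact bot_le
  · exact le_rfl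

/-- **Direct touches of a pair, deterministic.** -/
theorem touchP_le_of_dirty (hΦ : AdmissiblePotential Φ) (hε : 0 < ε) {a : ℝ} (ha : 0 ≤ a) {n : ℕ}
    {w : Config n} {d e : ML} (hd : ((MW.cfg w).ins d).Ok Φ ε)
    (he : (((MW.cfg w).ins d).ins e).Ok Φ ε)
    (hb : 0 ≤ e.1.1) (hm : e.2 ≤ K) (h : Dirty Φ ε K P.te ((MW.cfg w).ins d) e) :
    (MW.cfg w).touchP Φ ε K P d e ≤
      ⨆ x : Fin n ⊕ Unit, ⨆ s ∈ Icc ((MW.cfg w).thetaL Φ ε K P.te d - a) P.te,
        ⨆ (_ : dist (fpos e s) (((MW.cfg w).ins d).path Φ ε s x).1 ≤ ε), tW Φ ε K P w d := by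
  obtain ⟨s, x, h1, h2, h3, h4, h5, h6, h7⟩ := h
  have hθ : ((MW.cfg w).ins d).thetaL Φ ε K P.te e = s :=
    theta_eq_of_dirty hΦ hε hd he hb hm (fun s' k => h7 s' k) h1 h2 h3 h4 h5 h6
  by_cases hc : P.tw < (MW.cfg w).thetaL Φ ε K P.te d ∧
      (MW.cfg w).thetaL Φ ε K P.te d ≤ s ∧ s ≤ P.te
  · exact touchP_le_of_near ⟨s, x, h1, (sub_le_self _ ha).trans hc.2.1, hc.2.2, h5⟩
  · unfold MW.touchP
    rw [hθ, if_neg hc]
    exact bot_le

theorem touchP_le_tW {n : ℕ} (w : Config n) (d e : ML) :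
    (MW.cfg w).touchP Φ ε K P d e ≤ tW Φ ε K P w d := by
  unfold MW.touchP tW
  split_ifs with h1 h2 h2
  · exact min_le_left _ _
  · exact absurd ⟨h1.1, h1.2.1.trans h1.2.2⟩ h2
  · exact bot_le
  · exact le_rfl

theorem touchP_eq_zero_of {n : ℕ} (w : Config n) {d e : ML} (h : tW Φ ε K P w d = 0) :
    (MW.cfg w).touchP Φ ε K P d e = 0 := by
  have := touchP_le_tW (Φ := Φ) (ε := ε) (K := K) (P := P) w d e
  rw [h] at this
  exact le_antisymm this bot_le

/-! ### Measurability of the paths of `w + d` -/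

theorem measurable_path_ins (hΦ : AdmissiblePotential Φ) (hε : 0 < ε) {n : ℕ} (w : Config n)
    {Λ : Type*} [MeasurableSpace Λ] {d : Λ → ML} (hd : Measurable d) (x : Fin n ⊕ Unit) :
    Measurable fun p : Λ × ℝ => ((MW.cfg w).ins (d p.1)).path Φ ε p.2 x := by
  have h1 : MeasW fun p : Λ × ℝ => (MW.cfg w).ins (d p.1) :=
    (MeasW.const (MW.cfg w)).ins (hd.comp measurable_fst)
  have h2 : Measurable fun p : Λ × ℝ => evo Φ ε ((MW.cfg w).ins (d p.1)).b 0 p.2
      ((MW.cfg w).ins (d p.1)).z :=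
    measurable_evo hΦ hε h1.b measurable_const measurable_snd (measurable_pi_iff.2 h1.z)
  exact (measurable_pi_apply x).comp h2

end

end Crest.Agent.R122.Direct658
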