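import Crest.Agent.R122.UnwE_410
import Crest.Agent.R122.Mom_974
import Crest.Agent.R122.EBasic_602
import Crest.Agent.R122.SmallNull_566
import Crest.Agent.R122.MeasEDefs_416

/-!
# Unweighting (row 122, item H16, part 4)

* `Y1` : rescaled number and kinetic energy at time `0`; `X_le_Y1`; `exists_sqY_le` : its second
  moment is bounded uniformly in `ε ≤ 1`.
* `JE_te_le` : (U4) `JE te ≤ JE tw + C e^{LM} aE + C / M`.
* `tnMass_te_le` : (U5) `tnMass te ≤ tnMass tw + e^{LM} XI + C / M`.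
* `JS_te`, `TN_te` : the small versions.
-/

set_option autoImplicit false
set_option linter.unusedSectionVars false

open MeasureTheory Set Filter Topology
open scoped ENNReal
open Crest.AnalysisR.Kinetic
open Crest.Agent.R122.Flow671 Crest.Agent.R122.Loc45 Crest.Agent.R122.Causal291
open Crest.Agent.R122.Ins45
open Crest.Agent.R122.Inf879 Crest.Agent.R122.GC311 Crest.Agent.R122.Master566
open Crest.Agent.R122.Energy410 Crest.Agent.R122.EDefs602 Crest.Agent.R122.EW370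
open Crest.Agent.R122.Mom974 Crest.Agent.R122.MeasE416

namespace Crest.Agent.R122.Unw410

noncomputable section

variable {Φ : Space3 → ℝ} {f₀ : PhasePoint → ℝ} {ε : ℝ} {K : ℕ}

/-! ## The total energy and its second moment -/

/-- Rescaled number and kinetic energy at time `0`. -/
def Y1 (ε : ℝ) {n : ℕ} (w : Config n) : ℝ≥0∞ :=
  (activity ε)⁻¹ * ∑ i, ENNReal.ofReal (1 + ‖(w i).2‖ ^ 2)

/-- Second moment of `Y1`. -/
def sqY (f₀ : PhasePoint → ℝ) (ε : ℝ) : ℝ≥0∞ := gcE f₀ ε fun _ w => Y1 ε w ^ 2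

/-- The constant `B + 3/2`. -/
def c1 (Φ : Space3 → ℝ) : ℝ≥0∞ := ENNReal.ofReal (stabB Φ + 3 / 2)

theorem inv_activity (hε : 0 < ε) : (activity ε)⁻¹ = ENNReal.ofReal ε ^ 2 := by
  have h := activity_mul_sq hε
  rw [mul_comm] at h
  exact (ENNReal.eq_inv_of_mul_eq_one_left h).symm

theorem ofReal_totE_le {n : ℕ} (w : Config n) : ENNReal.ofReal (totE Φ w) ≤
    c1 Φ * ∑ i, ENNReal.ofReal (1 + ‖(w i).2‖ ^ 2) := by
  have hB := stabB_nonneg Φ
  unfold c1 totE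
  rw [← ENNReal.ofReal_sum_of_nonneg fun i _ => by positivity,
    ← ENNReal.ofReal_mul (by positivity)]
  refine ENNReal.ofReal_le_ofReal ?_
  rw [Finset.mul_sum]
  refine Finset.sum_le_sum fun i _ => ?_
  nlinarith [sq_nonneg ‖(w i).2‖, mul_nonneg hB (sq_nonneg ‖(w i).2‖)]

theorem act_totE_le {n : ℕ} (w : Config n) :
    (activity ε)⁻¹ * ENNReal.ofReal (totE Φ w) ≤ c1 Φ * Y1 ε w := by
  unfold Y1
  calc (activity ε)⁻¹ * ENNReal.ofReal (totE Φ w)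
      ≤ (activity ε)⁻¹ * (c1 Φ * ∑ i, ENNReal.ofReal (1 + ‖(w i).2‖ ^ 2)) := by
        gcongr; exact ofReal_totE_le w
    _ = _ := by ring

theorem Yf_le (hε : 0 < ε) {n : ℕ} (w : Config n) : Yf Φ ε w ≤ c1 Φ * Y1 ε w := by
  unfold Yf
  rw [← inv_activity hε]
  exact act_totE_le w

/-- The quenched touched measure is bounded by the energy at time `0`. -/
theorem X_le_Y1 (hΦ : AdmissiblePotential Φ) (hε : 0 < ε) (hε1 : ε ≤ 1) {n : ℕ}
    {w : Config n} (hw : w ∈ PairExcluded ε n) {P : EPar} (hte : 0 ≤ P.te) {γ₀ : ℝ}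
    (hγm : Measurable P.γ) (hγ : ∀ τ ∈ Ioc 0 P.te, γ₀ ≤ P.γ τ) {s : ℝ} (hs : s ≤ P.te) :
    (MW.cfg w).X Φ ε K P s ≤ cX γ₀ P.ρ P.te * c1 Φ * Y1 ε w := by
  refine (X_le hΦ hε hε1 hw hte hγm hγ hs).trans ?_
  rw [mul_assoc]
  gcongr
  exact Yf_le hε w

theorem measurable_Y1 (ε : ℝ) (n : ℕ) : Measurable fun w : Config n => Y1 ε w := by
  unfold Y1
  refine Measurable.const_mul (Finset.measurable_sum _ fun i _ => ?_) _
  exact (((measurable_pi_apply i).snd.norm.pow_const 2).const_add 1).ennreal_ofReal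

/-- The second moment of `Y1` is bounded uniformly in `ε ≤ 1`. -/
theorem exists_sqY_le {g : ℝ} (hg : 0 < g) (hf : Measurable f₀)
    (h1 : ∫⁻ z, ENNReal.ofReal (f₀ z) ≤ 1)
    (hb : HasSummableGaussianBound g (fun x v => f₀ (x, v))) :
    ∃ C : ℝ≥0∞, C ≠ ∞ ∧ ∀ ε : ℝ, 0 < ε → ε ≤ 1 → sqY f₀ ε ≤ C := by
  obtain ⟨C, hC, h⟩ := exists_sqC_weight_le hg hb
  refine ⟨C, hC, fun ε hε hε1 => le_trans ?_ (h ε hε hε1)⟩
  exact gcE_sq_le hf h1 hε (fun z => ENNReal.ofReal (1 + ‖z.2‖ ^ 2)) (by fun_prop)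

/-! ## The weight on the event `X ≤ M` -/

theorem exp_mul_exp (x : ℝ) : ENNReal.ofReal (Real.exp x) * ENNReal.ofReal (Real.exp (-x)) = 1 := by
  rw [← ENNReal.ofReal_mul (Real.exp_pos _).le, ← Real.exp_add]
  simp

theorem le_exp_mul {x : ℝ} {a b : ℝ≥0∞} (h : ENNReal.ofReal (Real.exp (-x)) * a ≤ b) :
    a ≤ ENNReal.ofReal (Real.exp x) * b := by
  calc a = ENNReal.ofReal (Real.exp x) * (ENNReal.ofReal (Real.exp (-x)) * a) := by
        rw [← mul_assoc, exp_mul_exp, one_mul]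
    _ ≤ _ := by gcongr

/-- On the event `X(te) ≤ M` the left-limit weight is at least `exp (-L M)` up to `te`. -/
theorem Wm_ge {P : EPar} (hL : 0 ≤ P.L) {n : ℕ} {w : Config n} {M : ℝ} (hM : 0 ≤ M)
    (hX : (MW.cfg w).X Φ ε K P P.te ≤ ENNReal.ofReal M) {s : ℝ} (hs : s ≤ P.te) :
    ENNReal.ofReal (Real.exp (-(P.L * M))) ≤ (MW.cfg w).Wm Φ ε K P s := by
  rw [← Weight984.W_ofReal hM]
  refine Weight984.W_anti hL (le_trans ?_ hX)
  exact (Weight984.XRm_le_XR s).trans (Weight984.XR_mono hs)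

theorem one_le_of_lt {M : ℝ} (hM : 0 < M) {x y : ℝ≥0∞} (h : ENNReal.ofReal M < x) (hxy : x ≤ y) :
    1 ≤ y / ENNReal.ofReal M := by
  rw [ENNReal.le_div_iff_mul_le (Or.inl (by simpa using hM)) (Or.inl ENNReal.ofReal_ne_top),
    one_mul]
  exact h.le.trans hxy

/-! ## (U4) -/

/-- **(U4)**: the energy of the infected family at the end of the window. -/
theorem JE_te_le (hΦ : AdmissiblePotential Φ) (hf : Measurable f₀) (hε : 0 < ε) (hε1 : ε ≤ 1)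
    {P : EPar} (hL : 0 ≤ P.L) (htw : 0 ≤ P.tw) (hte : P.tw ≤ P.te) {γ₀ : ℝ}
    (hγm : Measurable P.γ) (hγ : ∀ τ ∈ Ioc 0 P.te, γ₀ ≤ P.γ τ) {M : ℝ} (hM : 0 < M) (hρ : P.ρ < 1)
    (hγ0 : 0 < γ₀) :
    JE Φ f₀ ε K P.te ≤ JE Φ f₀ ε K P.tw +
      ENNReal.ofReal (cB Φ) * ENNReal.ofReal (Real.exp (P.L * M)) * aE Φ f₀ ε K P +
      (c1 Φ * (cX γ₀ P.ρ P.te * c1 Φ)) / ENNReal.ofReal M * sqY f₀ ε := by
  have hcX : cX γ₀ P.ρ P.te ≠ ∞ := (cX_lt_top hγ0 hρ _).ne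
  have hc1 : c1 Φ ≠ ∞ := ENNReal.ofReal_ne_top
  have hMt : (c1 Φ * (cX γ₀ P.ρ P.te * c1 Φ)) / ENNReal.ofReal M ≠ ∞ :=
    ENNReal.div_ne_top (ENNReal.mul_ne_top hc1 (ENNReal.mul_ne_top hcX hc1)) (by simpa using hM)
  have hpt : ∀ n, ∀ w ∈ PairExcluded ε n, (activity ε)⁻¹ *
      ENNReal.ofReal (Jeng Φ ε (bad Φ ε K (w : Config n) P.te) (flow Φ ε P.te w)) ≤
      (activity ε)⁻¹ *
        ENNReal.ofReal (Jeng Φ ε (bad Φ ε K (w : Config n) P.tw) (flow Φ ε P.tw w)) +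
      ENNReal.ofReal (cB Φ) * ENNReal.ofReal (Real.exp (P.L * M)) * ((activity ε)⁻¹ *
        aW Φ ε K P (w : Config n) ((MW.cfg w).Wm Φ ε K P)) +
      (c1 Φ * (cX γ₀ P.ρ P.te * c1 Φ)) / ENNReal.ofReal M * Y1 ε w ^ 2 := by
    intro n w hw
    rcases le_or_gt ((MW.cfg w).X Φ ε K P P.te) (ENNReal.ofReal M) with hX | hX
    · refine le_trans ?_ (le_self_add)
      have h1 := ofReal_Jeng_bad_le (K := K) hΦ hε hw htw hte (le_refl P.te)
      have h2 : ∑ p ∈ bad Φ ε K w P.te \ bad Φ ε K w P.tw,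
          eW w (preC Φ ε w (iTime Φ ε K P.te w p) p) ≤ ENNReal.ofReal (Real.exp (P.L * M)) *
            aW Φ ε K P w ((MW.cfg w).Wm Φ ε K P) := by
        refine le_exp_mul (sum_window_le hΦ hε w htw hte le_rfl fun p hp => ?_)
        exact Wm_ge hL hM.le hX (mem_window hΦ hε w htw hte le_rfl hp).2
      calc _ ≤ (activity ε)⁻¹ *
            (ENNReal.ofReal (Jeng Φ ε (bad Φ ε K w P.tw) (flow Φ ε P.tw w)) +
              ENNReal.ofReal (cB Φ) * (ENNReal.ofReal (Real.exp (P.L * M)) *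
            aW Φ ε K P w ((MW.cfg w).Wm Φ ε K P))) := by
            gcongr
            exact h1.trans (by gcongr)
        _ = _ := by ring
    · refine le_trans ?_ (le_add_self)
      have h1 : ENNReal.ofReal (Jeng Φ ε (bad Φ ε K w P.te) (flow Φ ε P.te w)) ≤
          ENNReal.ofReal (totE Φ w) := ENNReal.ofReal_le_ofReal
        (Jeng_le_total hΦ hε (far_of_mem hw) (htw.trans hte)
          fun i hi j hj => (bad_iso w P.te i hi j hj).le)
      have h2 := one_le_of_lt hM hX (X_le_Y1 hΦ hε hε1 hw (htw.trans hte) hγm hγ le_rfl)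
      calc _ ≤ (activity ε)⁻¹ * ENNReal.ofReal (totE Φ w) := by gcongr
        _ ≤ c1 Φ * Y1 ε w := act_totE_le w
        _ ≤ c1 Φ * Y1 ε w * (cX γ₀ P.ρ P.te * c1 Φ * Y1 ε w / ENNReal.ofReal M) :=
            le_mul_of_one_le_right' h2
        _ = _ := by simp only [div_eq_mul_inv]; ring
  have hm1 : ∀ n, Measurable fun w : Config n => (activity ε)⁻¹ *
        ENNReal.ofReal (Jeng Φ ε (bad Φ ε K (w : Config n) P.tw) (flow Φ ε P.tw w)) := fun n =>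
    (measurable_Jeng_bad hΦ hε n P.tw).ennreal_ofReal.const_mul _
  have hm2 : ∀ n, Measurable fun w : Config n => (activity ε)⁻¹ *
        aW Φ ε K P (w : Config n) ((MW.cfg w).Wm Φ ε K P) := fun n =>
    measurable_aE_integrand hΦ hε K P n
  calc JE Φ f₀ ε K P.te ≤ gcE f₀ ε (fun n w => ((activity ε)⁻¹ *
        ENNReal.ofReal (Jeng Φ ε (bad Φ ε K (w : Config n) P.tw) (flow Φ ε P.tw w)) +
      ENNReal.ofReal (cB Φ) * ENNReal.ofReal (Real.exp (P.L * M)) * ((activity ε)⁻¹ *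
        aW Φ ε K P (w : Config n) ((MW.cfg w).Wm Φ ε K P))) +
      (c1 Φ * (cX γ₀ P.ρ P.te * c1 Φ)) / ENNReal.ofReal M * Y1 ε w ^ 2) := by
        rw [JE_eq]
        exact gcE_mono f₀ ε hpt
    _ = _ := by
        rw [gcE_add hf ε (F := fun n w => (activity ε)⁻¹ *
        ENNReal.ofReal (Jeng Φ ε (bad Φ ε K (w : Config n) P.tw) (flow Φ ε P.tw w)) +
      ENNReal.ofReal (cB Φ) * ENNReal.ofReal (Real.exp (P.L * M)) * ((activity ε)⁻¹ *
        aW Φ ε K P (w : Config n) ((MW.cfg w).Wm Φ ε K P)))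
          (fun n => (hm1 n).add ((hm2 n).const_mul _)), gcE_add hf ε hm1,
          gcE_const_mul f₀ ε (ENNReal.mul_ne_top ENNReal.ofReal_ne_top ENNReal.ofReal_ne_top),
          gcE_const_mul f₀ ε hMt]
        rfl

/-! ## (U5) -/

theorem lineV_restrict {tw te : ℝ} (h : tw ≤ te) :
    (lineV te).restrict {l : ML | l.1.1 ≤ tw} = lineV tw := by
  have h1 : {l : ML | l.1.1 ≤ tw} = (Iic tw ×ˢ (univ : Set PhasePoint)) ×ˢ (univ : Set ℕ) := by
    ext l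
    simp
  unfold lineV
  rw [h1, ← Measure.prod_restrict, Measure.restrict_univ, ← Measure.prod_restrict,
    Measure.restrict_univ, Measure.restrict_restrict measurableSet_Iic]
  congr 3
  ext x
  simp only [mem_inter_iff, mem_Iic, mem_Ioc]
  constructor
  · exact fun h => ⟨h.2.1, h.1⟩
  · exact fun h' => ⟨h'.2, h'.1, h'.2.trans h⟩

theorem measurableSet_birth (tw : ℝ) : MeasurableSet {l : ML | l.1.1 ≤ tw} :=
  measurableSet_le measurable_fst.fst measurable_const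

theorem lineM_restrict {tw te : ℝ} (h : tw ≤ te) (γ : ℝ → ℝ) (ρ : ℝ≥0∞) (K : ℕ) :
    (lineM γ ρ K te).restrict {l : ML | l.1.1 ≤ tw} = lineM γ ρ K tw := by
  unfold lineM
  rw [restrict_withDensity (measurableSet_birth tw), lineV_restrict h]

/-- Lines touching before `tw`. -/
theorem lineM_le_tw (hΦ : AdmissiblePotential Φ) (hε : 0 < ε) {n : ℕ} {w : Config n}
    (hw : w ∈ PairExcluded ε n) {tw te : ℝ} (htw : 0 ≤ tw) (hte : tw ≤ te) (γ : ℝ → ℝ)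
    (ρ : ℝ≥0∞) :
    lineM γ ρ K te {l | (MW.cfg w).thetaL Φ ε K te l ≤ tw} ≤
      lineM γ ρ K tw {l | (MW.cfg w).thetaL Φ ε K tw l ≤ tw} := by
  have h1 : lineM γ ρ K tw {l | (MW.cfg w).thetaL Φ ε K tw l ≤ tw} =
      lineM γ ρ K te ({l | (MW.cfg w).thetaL Φ ε K tw l ≤ tw} ∩ {l : ML | l.1.1 ≤ tw}) := by
    rw [← lineM_restrict hte γ ρ K, Measure.restrict_apply' (measurableSet_birth tw)]
  rw [h1]
  refine measure_mono_ae ?_
  filter_upwards [ae_lineM hΦ hε w γ ρ K te] with l hl hθ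
  have hθ' : (MW.cfg w).thetaL Φ ε K te l ≤ tw := hθ
  obtain ⟨s', hs', h2, i, h3⟩ := hit_of_theta_le hΦ hε hw (htw.trans hte) hl.1.1.1 hl.2.2 hl.1.2
    (hθ'.trans hte)
  refine ⟨?_, h2.trans (hs'.2.trans hθ')⟩
  exact (MW.theta_le_iff_horizon hΦ hε (cfg_ok hΦ hε hw)
    (ins_ok hΦ hε hw hl.1.1.1 hl.1.2) htw le_rfl hte).2 hθ'

/-- **(U5)**: the touched mass at the end of the window. -/
theorem tnMass_te_le (hΦ : AdmissiblePotential Φ) (hf : Measurable f₀) (hε : 0 < ε) (hε1 : ε ≤ 1)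
    {P : EPar} (hL : 0 ≤ P.L) (htw : 0 ≤ P.tw) (hte : P.tw ≤ P.te) {γ₀ : ℝ}
    (hγm : Measurable P.γ) (hγ : ∀ τ ∈ Ioc 0 P.te, γ₀ ≤ P.γ τ) {M : ℝ} (hM : 0 < M) (hρ : P.ρ < 1)
    (hγ0 : 0 < γ₀) :
    tnMass Φ f₀ P.γ P.ρ ε K P.te ≤ tnMass Φ f₀ P.γ P.ρ ε K P.tw +
      ENNReal.ofReal (Real.exp (P.L * M)) * XI Φ f₀ ε K P +
      (cX γ₀ P.ρ P.te * c1 Φ) * (cX γ₀ P.ρ P.te * c1 Φ) / ENNReal.ofReal M * sqY f₀ ε := by
  have hcX : cX γ₀ P.ρ P.te ≠ ∞ := (cX_lt_top hγ0 hρ _).ne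
  have hc1 : c1 Φ ≠ ∞ := ENNReal.ofReal_ne_top
  have hcY : cX γ₀ P.ρ P.te * c1 Φ ≠ ∞ := ENNReal.mul_ne_top hcX hc1
  have hMt : (cX γ₀ P.ρ P.te * c1 Φ) * (cX γ₀ P.ρ P.te * c1 Φ) / ENNReal.ofReal M ≠ ∞ :=
    ENNReal.div_ne_top (ENNReal.mul_ne_top hcY hcY) (by simpa using hM)
  have hm0 : ∀ n, Measurable fun p : Config n × ML => (MW.cfg p.1).touchW Φ ε K P p.2 :=
    fun n => measurable_touchW_cfg hΦ hε K P n
  have hpt : ∀ n, ∀ w ∈ PairExcluded ε n,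
      lineM P.γ P.ρ K P.te {l | (MW.cfg (w : Config n)).thetaL Φ ε K P.te l ≤ P.te} ≤
      lineM P.γ P.ρ K P.tw {l | (MW.cfg (w : Config n)).thetaL Φ ε K P.tw l ≤ P.tw} +
      ENNReal.ofReal (Real.exp (P.L * M)) *
        (∫⁻ l, (MW.cfg (w : Config n)).touchW Φ ε K P l ∂lineM P.γ P.ρ K P.te) +
      (cX γ₀ P.ρ P.te * c1 Φ) * (cX γ₀ P.ρ P.te * c1 Φ) / ENNReal.ofReal M * Y1 ε w ^ 2 := by
    intro n w hw
    rcases le_or_gt ((MW.cfg w).X Φ ε K P P.te) (ENNReal.ofReal M) with hX | hX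
    · refine le_trans ?_ (le_self_add)
      set A : Set ML := {l | P.tw < (MW.cfg w).thetaL Φ ε K P.te l ∧
        (MW.cfg w).thetaL Φ ε K P.te l ≤ P.te} with hA
      have h1 : {l : ML | (MW.cfg w).thetaL Φ ε K P.te l ≤ P.te} ⊆
          {l : ML | (MW.cfg w).thetaL Φ ε K P.te l ≤ P.tw} ∪ A := by
        intro l hl
        rcases le_or_gt ((MW.cfg w).thetaL Φ ε K P.te l) P.tw with h | h
        · exact Or.inl h
        · exact Or.inr ⟨h, hl⟩
      have hθm : Measurable fun l : ML => (MW.cfg w).thetaL Φ ε K P.te l :=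
        (MeasW.const (MW.cfg w)).thetaL hΦ hε measurable_id K measurable_const
      have hAm : MeasurableSet A := (measurableSet_lt measurable_const hθm).inter
        (measurableSet_le hθm measurable_const)
      have h2 : ENNReal.ofReal (Real.exp (-(P.L * M))) * lineM P.γ P.ρ K P.te A ≤
          ∫⁻ l, (MW.cfg w).touchW Φ ε K P l ∂lineM P.γ P.ρ K P.te := by
        calc ENNReal.ofReal (Real.exp (-(P.L * M))) * lineM P.γ P.ρ K P.te A
            = ∫⁻ _ in A, ENNReal.ofReal (Real.exp (-(P.L * M))) ∂lineM P.γ P.ρ K P.te := by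
              rw [setLIntegral_const]
          _ ≤ ∫⁻ l in A, (MW.cfg w).touchW Φ ε K P l ∂lineM P.γ P.ρ K P.te := by
              refine setLIntegral_mono_ae' hAm (Eventually.of_forall fun l hl => ?_)
              unfold MW.touchW
              have hl' : P.tw < (MW.cfg w).thetaL Φ ε K P.te l ∧
                (MW.cfg w).thetaL Φ ε K P.te l ≤ P.te := hl
              rw [if_pos hl']
              exact Wm_ge hL hM.le hX hl.2
          _ ≤ _ := setLIntegral_le_lintegral _ _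
      calc _ ≤ lineM P.γ P.ρ K P.te {l : ML | (MW.cfg w).thetaL Φ ε K P.te l ≤ P.tw} +
            lineM P.γ P.ρ K P.te A := (measure_mono h1).trans (measure_union_le _ _)
        _ ≤ _ := add_le_add (lineM_le_tw hΦ hε hw htw hte P.γ P.ρ) (le_exp_mul h2)
    · refine le_trans ?_ (le_add_self)
      have h1 := X_le_Y1 (K := K) hΦ hε hε1 hw (htw.trans hte) hγm hγ (le_refl P.te)
      have h2 := one_le_of_lt hM hX h1
      calc _ ≤ cX γ₀ P.ρ P.te * c1 Φ * Y1 ε w := h1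
        _ ≤ cX γ₀ P.ρ P.te * c1 Φ * Y1 ε w *
            (cX γ₀ P.ρ P.te * c1 Φ * Y1 ε w / ENNReal.ofReal M) := le_mul_of_one_le_right' h2
        _ = _ := by simp only [div_eq_mul_inv]; ring
  have hm1 : ∀ n, Measurable fun w : Config n =>
      lineM P.γ P.ρ K P.tw {l | (MW.cfg (w : Config n)).thetaL Φ ε K P.tw l ≤ P.tw} := fun n =>
    measurable_tnMass_integrand hΦ hε K P.tw _ n
  have hm2 : ∀ n, Measurable fun w : Config n =>
      ∫⁻ l, (MW.cfg (w : Config n)).touchW Φ ε K P l ∂lineM P.γ P.ρ K P.te := fun n =>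
    Measurable.lintegral_prod_right' (hm0 n)
  calc tnMass Φ f₀ P.γ P.ρ ε K P.te ≤ gcE f₀ ε (fun n w =>
      (lineM P.γ P.ρ K P.tw {l | (MW.cfg (w : Config n)).thetaL Φ ε K P.tw l ≤ P.tw} +
      ENNReal.ofReal (Real.exp (P.L * M)) *
        (∫⁻ l, (MW.cfg (w : Config n)).touchW Φ ε K P l ∂lineM P.γ P.ρ K P.te)) +
      (cX γ₀ P.ρ P.te * c1 Φ) * (cX γ₀ P.ρ P.te * c1 Φ) / ENNReal.ofReal M * Y1 ε w ^ 2) :=
        gcE_mono f₀ ε hpt
    _ = _ := by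
        rw [gcE_add hf ε (F := fun n w =>
      lineM P.γ P.ρ K P.tw {l | (MW.cfg (w : Config n)).thetaL Φ ε K P.tw l ≤ P.tw} +
      ENNReal.ofReal (Real.exp (P.L * M)) *
        (∫⁻ l, (MW.cfg (w : Config n)).touchW Φ ε K P l ∂lineM P.γ P.ρ K P.te))
          (fun n => (hm1 n).add ((hm2 n).const_mul _)), gcE_add hf ε hm1,
          gcE_const_mul f₀ ε ENNReal.ofReal_ne_top, gcE_const_mul f₀ ε hMt,
          EBasic602.XI_eq hf hγm hm0]
        rfl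

/-! ## The small versions -/

/-- The parameters of the window satisfy the standing conditions. -/
structure PGood (P : EPar) : Prop where
  L : 0 ≤ P.L
  tw : 0 ≤ P.tw
  te : P.tw ≤ P.te
  meas : Measurable P.γ
  rho : P.ρ < 1
  gam : ∃ γ₀ : ℝ, 0 < γ₀ ∧ ∀ τ ∈ Ioc 0 P.te, γ₀ ≤ P.γ τ

theorem exists_M_le {c : ℝ≥0∞} (hc : c ≠ ∞) {C : ℝ≥0∞} (hC : C ≠ ∞) {δ : ℝ} (hδ : 0 < δ) :
    ∃ M : ℝ, 0 < M ∧ c / ENNReal.ofReal M * C ≤ ENNReal.ofReal δ := by
  refine ⟨(c.toReal * C.toReal + 1) / δ, by positivity, ?_⟩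
  have h1 : 0 < (c.toReal * C.toReal + 1) / δ := by positivity
  calc c / ENNReal.ofReal ((c.toReal * C.toReal + 1) / δ) * C
      = ENNReal.ofReal (c.toReal / ((c.toReal * C.toReal + 1) / δ) * C.toReal) := by
        rw [ENNReal.ofReal_mul (by positivity), ENNReal.ofReal_div_of_pos h1,
          ENNReal.ofReal_toReal hc, ENNReal.ofReal_toReal hC]
    _ ≤ _ := by
        refine ENNReal.ofReal_le_ofReal ?_
        rw [div_div_eq_mul_div, div_mul_eq_mul_div, div_le_iff₀ (by positivity)]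
        nlinarith [mul_nonneg (ENNReal.toReal_nonneg (a := c)) (ENNReal.toReal_nonneg (a := C))]

/-- **The energy-weighted no-escape property propagates through the window.** -/
theorem JS_te (hΦ : AdmissiblePotential Φ) (hf : Measurable f₀)
    (h1 : ∫⁻ z, ENNReal.ofReal (f₀ z) ≤ 1) {g : ℝ} (hg : 0 < g)
    (hb : HasSummableGaussianBound g (fun x v => f₀ (x, v))) {P : EPar} (hP : PGood P)
    (hJ : JS Φ f₀ P.tw) (ha : Small fun K ε => aE Φ f₀ ε K P) : JS Φ f₀ P.te := by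
  obtain ⟨γ₀, hγ0, hγ⟩ := hP.gam
  obtain ⟨C, hC, hCε⟩ := exists_sqY_le hg hf h1 hb
  have hc : c1 Φ * (cX γ₀ P.ρ P.te * c1 Φ) ≠ ∞ :=
    ENNReal.mul_ne_top ENNReal.ofReal_ne_top
      (ENNReal.mul_ne_top (cX_lt_top hγ0 hP.rho _).ne ENNReal.ofReal_ne_top)
  choose M hM hMle using fun (δ : ℝ) (hδ : 0 < δ) => exists_M_le hc hC hδ
  refine Small.of_forall_le (Q := fun δ K ε => JE Φ f₀ ε K P.tw + ENNReal.ofReal (cB Φ) *
    ENNReal.ofReal (Real.exp (P.L * if hδ : 0 < δ then M δ hδ else 0)) * aE Φ f₀ ε K P) ?_ ?_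
  · intro δ hδ
    exact Small.add hJ (ha.const_mul
      (ENNReal.mul_ne_top ENNReal.ofReal_ne_top ENNReal.ofReal_ne_top))
  · intro δ hδ
    refine (EvK.of_eps one_pos fun K ε hε hε1 => ?_).ev
    rw [dif_pos hδ]
    refine (JE_te_le hΦ hf hε hε1.le hP.L hP.tw hP.te hP.meas hγ (hM δ hδ) hP.rho hγ0).trans ?_
    rw [add_comm (ENNReal.ofReal δ)]
    gcongr
    refine le_trans ?_ (hMle δ hδ)
    gcongr
    exact hCε ε hε hε1.le

/-- **Touch-negligibility propagates through the window.** -/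
theorem TN_te (hΦ : AdmissiblePotential Φ) (hf : Measurable f₀)
    (h1 : ∫⁻ z, ENNReal.ofReal (f₀ z) ≤ 1) {g : ℝ} (hg : 0 < g)
    (hb : HasSummableGaussianBound g (fun x v => f₀ (x, v))) {P : EPar} (hP : PGood P)
    (hT : TN Φ f₀ P.γ P.ρ P.tw) (hx : Small fun K ε => XI Φ f₀ ε K P) :
    TN Φ f₀ P.γ P.ρ P.te := by
  obtain ⟨γ₀, hγ0, hγ⟩ := hP.gam
  obtain ⟨C, hC, hCε⟩ := exists_sqY_le hg hf h1 hb
  have hc : (cX γ₀ P.ρ P.te * c1 Φ) * (cX γ₀ P.ρ P.te * c1 Φ) ≠ ∞ :=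
    ENNReal.mul_ne_top
      (ENNReal.mul_ne_top (cX_lt_top hγ0 hP.rho _).ne ENNReal.ofReal_ne_top)
      (ENNReal.mul_ne_top (cX_lt_top hγ0 hP.rho _).ne ENNReal.ofReal_ne_top)
  choose M hM hMle using fun (δ : ℝ) (hδ : 0 < δ) => exists_M_le hc hC hδ
  refine Small.of_forall_le (Q := fun δ K ε => tnMass Φ f₀ P.γ P.ρ ε K P.tw +
    ENNReal.ofReal (Real.exp (P.L * if hδ : 0 < δ then M δ hδ else 0)) * XI Φ f₀ ε K P) ?_ ?_
  · intro δ hδ
    exact Small.add hT (hx.const_mul ENNReal.ofReal_ne_top)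
  · intro δ hδ
    refine (EvK.of_eps one_pos fun K ε hε hε1 => ?_).ev
    rw [dif_pos hδ]
    refine (tnMass_te_le hΦ hf hε hε1.le hP.L hP.tw hP.te hP.meas hγ (hM δ hδ) hP.rho
      hγ0).trans ?_
    rw [add_comm (ENNReal.ofReal δ)]
    gcongr
    refine le_trans ?_ (hMle δ hδ)
    gcongr
    exact hCε ε hε hε1.le

end

end Crest.Agent.R122.Unw410
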