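import Crest.Agent.R122.Direct2_658
import Crest.Agent.R122.PairC_292
import Crest.Agent.R122.Boost8_969
import Crest.Agent.R122.Conc_984
import Crest.Agent.R122.UnwF_410

/-!
# Row 122, section E, E6-direct (helper658)

* `dirP` : functional of a pair `(d, e)`: direct touch of `e` in the world `w + d`.
* `direct6_world` : bound in one world, for a spread pair law (`PX` of helper292).
-/

set_option autoImplicit false
set_option linter.unusedSectionVars false

open MeasureTheory Set Filter Topology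
open scoped ENNReal
open Crest.AnalysisR.Kinetic
open Crest.Agent.R122.Flow671 Crest.Agent.R122.Loc45 Crest.Agent.R122.Causal291
open Crest.Agent.R122.Inf879 Crest.Agent.R122.EDefs602 Crest.Agent.R122.Ins45
open Crest.Agent.R122.GC311 Crest.Agent.R122.Unw410 Crest.Agent.R122.Energy410
open Crest.Agent.R122.MeasE416 Crest.Agent.R122.Boost969
open Crest.Agent.R122.Pair292 hiding ML

namespace Crest.Agent.R122.Direct658

noncomputable section

open scoped Classical

variable {Φ : Space3 → ℝ} {f₀ : PhasePoint → ℝ} {ε : ℝ} {K : ℕ} {P : EPar}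

/-- Direct part of the pair functional: `d = p.1.1`, `e = (p.2, p.1.2.2)`. -/
def dirP (Φ : Space3 → ℝ) (ε : ℝ) (K : ℕ) (P : EPar) (a : ℝ) {n : ℕ} (w : Config n)
    (p : Lab × LSt) : ℝ≥0∞ :=
  if ((MW.cfg w).ins p.1.1).Ok Φ ε ∧ (((MW.cfg w).ins p.1.1).ins (p.2, p.1.2.2)).Ok Φ ε ∧
      0 ≤ p.2.1 ∧ p.1.2.2 ≤ K ∧ (Dirty Φ ε K P.te ((MW.cfg w).ins p.1.1) (p.2, p.1.2.2) ∨
        NearT Φ ε K P.te a w p.1.1 (p.2, p.1.2.2)) then
    (MW.cfg w).touchP Φ ε K P p.1.1 (p.2, p.1.2.2) else 0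

/-- Labels of the old part. -/
def oldL (Φ : Space3 → ℝ) (ε : ℝ) (K : ℕ) (P : EPar) (r : ℝ) {n : ℕ} (w : Config n) : Set Lab :=
  {ℓ | (P.tw < (MW.cfg w).thetaL Φ ε K P.te ℓ.1 ∧ (MW.cfg w).thetaL Φ ε K P.te ℓ.1 ≤ P.te) ∧
    (0 ≤ sig ℓ ∧ sig ℓ + r ≤ P.tw) ∧ ℓ.1 ∈ goodB Φ ε w}

theorem measurable_thetaL_one (hΦ : AdmissiblePotential Φ) (hε : 0 < ε) (K : ℕ) (T : ℝ) {n : ℕ}
    (w : Config n) : Measurable fun l : ML => (MW.cfg w).thetaL Φ ε K T l :=
  (MeasW.const (MW.cfg w)).thetaL (l := fun l => l) (T := fun _ => T) hΦ hε measurable_id K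
    measurable_const

theorem measurable_tW_one (hΦ : AdmissiblePotential Φ) (hε : 0 < ε) (K : ℕ) (P : EPar) {n : ℕ}
    (w : Config n) : Measurable fun l : ML => tW Φ ε K P w l := by
  have h1 := measurable_thetaL_one hΦ hε K P.te w
  unfold tW
  refine Measurable.ite ?_ ((MeasW.const (MW.cfg w)).W hΦ hε K P h1) measurable_const
  exact (measurableSet_lt measurable_const h1).inter (measurableSet_le h1 measurable_const)

theorem measurableSet_oldL (hΦ : AdmissiblePotential Φ) (hε : 0 < ε) (K : ℕ) (P : EPar) (r : ℝ)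
    {n : ℕ} (w : Config n) : MeasurableSet (oldL Φ ε K P r w) := by
  have h1 : Measurable fun ℓ : Lab => (MW.cfg w).thetaL Φ ε K P.te ℓ.1 :=
    (measurable_thetaL_one hΦ hε K P.te w).comp measurable_fst
  refine ((measurableSet_lt measurable_const h1).inter
    (measurableSet_le h1 measurable_const)).inter
    (((measurableSet_le measurable_const measurable_sig).inter
      (measurableSet_le (measurable_sig.add_const r) measurable_const)).inter ?_)
  exact measurable_fst (measurableSet_goodB hΦ hε w)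

/-- Young or badly born part of the bound: functional of `(d, turning time)`. -/
def yF (Φ : Space3 → ℝ) (ε : ℝ) (K : ℕ) (P : EPar) (r : ℝ) {n : ℕ} (w : Config n)
    (q : ML × ℝ) : ℝ≥0∞ :=
  {q : ML × ℝ | P.tw - r < q.2}.indicator (fun q => tW Φ ε K P w q.1) q +
    ({q : ML × ℝ | q.1 ∉ goodB Φ ε w}.indicator 1 q +
      {q : ML × ℝ | q.2 < 0}.indicator (fun _ => ∞) q)

theorem measurable_yF (hΦ : AdmissiblePotential Φ) (hε : 0 < ε) (K : ℕ) (P : EPar) (r : ℝ)
    {n : ℕ} (w : Config n) : Measurable (yF Φ ε K P r w) := by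
  unfold yF
  refine Measurable.add ?_ (Measurable.add ?_ ?_)
  · refine ((measurable_tW_one hΦ hε K P w).comp measurable_fst).indicator ?_
    exact measurableSet_lt measurable_const measurable_snd
  · exact measurable_one.indicator (measurable_fst (measurableSet_goodB hΦ hε w).compl)
  · exact measurable_const.indicator (measurableSet_lt measurable_snd measurable_const)

theorem posAt_eq_fpos (z : LSt) (m : ℕ) (s : ℝ) : posAt s z = fpos (z, m) s := by
  rw [fpos_eq]
  rfl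

theorem natCast_le_speed (hΦ : AdmissiblePotential Φ) (hε : 0 < ε) {n : ℕ} {w : Config n}
    (hw : w ∈ PairExcluded ε n) {d : ML} (hd : d ∈ goodB Φ ε w) :
    ∑ _x : Fin n ⊕ Unit, (1 : ℝ≥0∞) ≤ ENNReal.ofReal (totE Φ w) + enD Φ d := by
  refine le_trans ?_ (sum_speed_ins' hΦ hε hw hd le_rfl)
  exact Finset.sum_le_sum fun x _ => le_self_add

set_option maxHeartbeats 1000000 in
/-- **E6-direct, one world, old part.** -/
theorem old_world (hΦ : AdmissiblePotential Φ) (hε : 0 < ε) {n : ℕ} {w : Config n}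
    (hw : w ∈ PairExcluded ε n) {Q : PPar} {Ξ ν : Measure (Lab × LSt)} {c : ℝ≥0∞}
    (h : PX Q Ξ ν c) (hQt : Q.t' = P.te)
    (hQW : ∀ z : LSt, z.1 ≤ Q.t' → ENNReal.ofReal (1 + ‖z.2.2‖) ≤ Q.W z) {r a : ℝ} (hr : 0 < r)
    (ha0 : 0 ≤ a) (har : a ≤ r / 2) (htw : 0 ≤ P.tw) :
    ∃ g : Lab × LSt → ℝ≥0∞, Measurable g ∧
      (∀ p : Lab × LSt, p.1 ∈ oldL Φ ε K P r w → p.2.1 ≤ P.te →
        (⨆ x : Fin n ⊕ Unit, ⨆ s ∈ Icc ((MW.cfg w).thetaL Φ ε K P.te p.1.1 - a) P.te,
          ⨆ (_ : dist (posAt s p.2) (((MW.cfg w).ins p.1.1).path Φ ε s x).1 ≤ ε),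
            tW Φ ε K P w p.1.1) ≤ g p) ∧
      ∫⁻ p, g p ∂ν ≤ 8 * ENNReal.ofReal ε ^ 2 * Sweep815.c3 * ENNReal.ofReal ((r / 2)⁻¹ ^ 3) *
        (2 * ENNReal.ofReal (ε + (a + (P.te - P.tw))) * (c * ((1 + ENNReal.ofReal P.te) *
          ∫⁻ l, tW Φ ε K P w l * (ENNReal.ofReal (totE Φ w) + enD Φ l) ∂Q.ℓ))) := by
  set Z : Lab → MW (Fin n ⊕ Unit) := fun ℓ => (MW.cfg w).ins ℓ.1 with hZ
  set θ : Lab → ℝ := fun ℓ => (MW.cfg w).thetaL Φ ε K P.te ℓ.1 - a with hθ
  have hθm : Measurable θ :=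
    ((measurable_thetaL_one hΦ hε K P.te w).comp measurable_fst).sub_const a
  have hθpos : ∀ ℓ ∈ oldL Φ ε K P r w, 0 < θ ℓ := by
    intro ℓ hℓ
    have h1 := hℓ.1.1
    have h2 := hℓ.2.1.1
    have h3 := hℓ.2.1.2
    simp only [hθ]
    linarith
  have hθsig : ∀ ℓ ∈ oldL Φ ε K P r w, sig ℓ + r / 2 ≤ θ ℓ := by
    intro ℓ hℓ
    have h1 := hℓ.1.1
    have h3 := hℓ.2.1.2
    simp only [hθ]
    linarith
  have hOm := measurableSet_oldL hΦ hε K P r w
  set aS : Fin n ⊕ Unit → Lab → ℝ := fun _ ℓ => if ℓ ∈ oldL Φ ε K P r w then θ ℓ else P.te + 1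
    with haS
  have haSm : ∀ x, Measurable (aS x) := fun x => Measurable.ite hOm hθm measurable_const
  have haS_iff : ∀ x ℓ, aS x ℓ ≤ P.te → ℓ ∈ oldL Φ ε K P r w ∧ aS x ℓ = θ ℓ := by
    intro x ℓ h1
    simp only [haS] at h1 ⊢
    by_cases h2 : ℓ ∈ oldL Φ ε K P r w
    · rw [if_pos h2] at h1 ⊢
      exact ⟨h2, rfl⟩
    · rw [if_neg h2] at h1
      linarith
  set ψ : Lab × (ℝ × Space3) → ℝ≥0∞ := fun q => if q.2.1 ≤ P.te then 1 else 0 with hψ
  set Ψ : Lab × (ℝ × Space3) → ℝ≥0∞ := fun q =>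
    if q.2.1 ≤ P.te then 2 + ENNReal.ofReal ‖q.2.2‖ else 0 with hΨ
  have hpm := fun x => measurable_path_ins hΦ hε w (Λ := Lab) measurable_fst x
  obtain ⟨g, hg, hle, hint⟩ := h.spr.fluxW (ι := Fin n ⊕ Unit) (half_pos hr) hε
    (c := fun x ℓ s => ((Z ℓ).path Φ ε s x).1) (c' := fun x ℓ s => ((Z ℓ).path Φ ε s x).2)
    (aS := aS) (bE := fun _ => P.te) (ω := fun ℓ _ => tW Φ ε K P w ℓ.1)
    haSm measurable_const
    (by
      have : Measurable fun p : Lab × ℝ => tW Φ ε K P w p.1.1 :=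
        (measurable_tW_one hΦ hε K P w).comp (measurable_fst.comp measurable_fst)
      exact this)
    (fun x => (hpm x).fst) (fun x => (hpm x).snd)
    (by
      intro x ℓ s hs
      obtain ⟨h1, h2⟩ := haS_iff x ℓ (hs.1.trans hs.2)
      have h3 : 0 < s := by
        have : θ ℓ ≤ s := h2 ▸ hs.1
        exact (hθpos ℓ h1).trans_le this
      exact hasDerivAt_pos (ins_ok' hΦ hε hw h1.2.2).bw h3 x)
    (by
      intro x ℓ
      by_cases h1 : ℓ ∈ oldL Φ ε K P r w
      · refine ((ins_ok' hΦ hε hw h1.2.2).bw.cont_apply x).snd.mono fun s hs => ?_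
        obtain ⟨h1, h2⟩ := haS_iff x ℓ (hs.1.trans hs.2)
        have : θ ℓ ≤ s := h2 ▸ hs.1
        exact ((hθpos ℓ h1).trans_le this).le
      · have : Icc (aS x ℓ) P.te = ∅ := by
          rw [Icc_eq_empty]
          exact fun h2 => h1 (haS_iff x ℓ h2).1
        simp only [this]
        exact continuousOn_empty _)
    (fun x ℓ => fun _ _ _ _ _ => le_rfl)
    (by
      intro x ℓ h1
      obtain ⟨h2, h3⟩ := haS_iff x ℓ h1
      rw [h3]
      exact hθsig ℓ h2)
    (ψ := ψ) (Ψ := Ψ)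
    (Measurable.ite (measurableSet_le (by fun_prop) measurable_const) measurable_const
      measurable_const)
    (Measurable.ite (measurableSet_le (by fun_prop) measurable_const) (by fun_prop)
      measurable_const)
    (by
      intro ℓ τ u v hu
      simp only [hψ, hΨ]
      split_ifs with h1
      · rw [one_mul]
        calc 1 + ENNReal.ofReal ‖v + u‖ ≤ 1 + ENNReal.ofReal (‖v‖ + 1) := by
              gcongr
              exact (norm_add_le v u).trans (by linarith)
          _ = 2 + ENNReal.ofReal ‖v‖ := by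
              rw [ENNReal.ofReal_add (norm_nonneg _) zero_le_one, ENNReal.ofReal_one,
                add_comm (ENNReal.ofReal ‖v‖), ← add_assoc, one_add_one_eq_two]
      · rw [zero_mul])
  refine ⟨g, hg, fun p hp hp2 => ?_, hint.trans ?_⟩
  · refine le_trans (le_of_eq ?_) (hle p)
    simp only [hψ, haS, if_pos hp, if_pos hp2, one_mul, hZ, hθ]
  -- the bound of the integral
  refine mul_le_mul_right ?_ _
  set F3 : ML × ℝ → ℝ≥0∞ := fun q =>
    tW Φ ε K P w q.1 * (ENNReal.ofReal (totE Φ w) + enD Φ q.1) with hF3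
  have hF3m : Measurable F3 := ((measurable_tW_one hΦ hε K P w).comp measurable_fst).mul
    (measurable_const.add (measurable_enD.comp measurable_fst))
  have key : ∀ ℓ : Lab, ∑ x, (ENNReal.ofReal ε * {ℓ | aS x ℓ ≤ P.te}.indicator
        (fun ℓ => tW Φ ε K P w ℓ.1) ℓ + ∫⁻ s in Icc (aS x ℓ) P.te,
          tW Φ ε K P w ℓ.1 * (1 + ENNReal.ofReal ‖((Z ℓ).path Φ ε s x).2‖)) ≤
      ENNReal.ofReal (ε + (a + (P.te - P.tw))) * F3 (ℓ.1, ℓ.2.1) := by
    intro ℓ
    by_cases h1 : ℓ ∈ oldL Φ ε K P r w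
    · have e1 : ∀ x, aS x ℓ = θ ℓ := fun x => by simp only [haS, if_pos h1]
      have h2 : θ ℓ ≤ P.te := (sub_le_self _ ha0).trans h1.1.2
      have hsp : ∀ x, Measurable fun s : ℝ => ((Z ℓ).path Φ ε s x).2 := fun x =>
        ((hpm x).snd).comp (measurable_const.prodMk measurable_id)
      have e2 : ∑ x, (ENNReal.ofReal ε * {ℓ | aS x ℓ ≤ P.te}.indicator
          (fun ℓ => tW Φ ε K P w ℓ.1) ℓ + ∫⁻ s in Icc (aS x ℓ) P.te,
            tW Φ ε K P w ℓ.1 * (1 + ENNReal.ofReal ‖((Z ℓ).path Φ ε s x).2‖)) =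
          ENNReal.ofReal ε * tW Φ ε K P w ℓ.1 * ∑ _x : Fin n ⊕ Unit, (1 : ℝ≥0∞) +
            tW Φ ε K P w ℓ.1 * ∫⁻ s in Icc (θ ℓ) P.te,
              ∑ x, (1 + ENNReal.ofReal ‖((Z ℓ).path Φ ε s x).2‖) := by
        have hspm : ∀ x, Measurable fun s : ℝ =>
            1 + ENNReal.ofReal ‖((Z ℓ).path Φ ε s x).2‖ := fun x =>
          measurable_const.add (hsp x).norm.ennreal_ofReal
        rw [Finset.sum_add_distrib, Finset.mul_sum,
          lintegral_finsetSum _ (fun x _ => hspm x), Finset.mul_sum]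
        congr 1
        · refine Finset.sum_congr rfl fun x _ => ?_
          rw [indicator_of_mem (show ℓ ∈ {ℓ | aS x ℓ ≤ P.te} from (e1 x).le.trans h2), mul_one]
        · refine Finset.sum_congr rfl fun x _ => ?_
          rw [e1 x, lintegral_const_mul _ (hspm x)]
      rw [e2]
      set E := ENNReal.ofReal (totE Φ w) + enD Φ ℓ.1 with hE
      have h3 : ∫⁻ s in Icc (θ ℓ) P.te,
              ∑ x, (1 + ENNReal.ofReal ‖((Z ℓ).path Φ ε s x).2‖) ≤
          ENNReal.ofReal (a + (P.te - P.tw)) * E := by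
        calc ∫⁻ s in Icc (θ ℓ) P.te,
              ∑ x, (1 + ENNReal.ofReal ‖((Z ℓ).path Φ ε s x).2‖)
            ≤ ∫⁻ _s in Icc (θ ℓ) P.te, E := by
              refine setLIntegral_mono' measurableSet_Icc fun s hs => ?_
              exact sum_speed_ins' hΦ hε hw h1.2.2 ((hθpos ℓ h1).le.trans hs.1)
          _ = ENNReal.ofReal (P.te - θ ℓ) * E := by
              rw [setLIntegral_const, Real.volume_Icc, mul_comm]
          _ ≤ _ := by
              refine mul_le_mul_left (ENNReal.ofReal_le_ofReal ?_) _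
              have h6 := h1.1.1
              simp only [hθ]
              linarith
      have h4 : ∑ _x : Fin n ⊕ Unit, (1 : ℝ≥0∞) ≤ E := natCast_le_speed hΦ hε hw h1.2.2
      have h5 : 0 ≤ a + (P.te - P.tw) := by
        have := h1.1.1.trans_le h1.1.2
        linarith
      rw [ENNReal.ofReal_add hε.le h5]
      calc _ ≤ ENNReal.ofReal ε * tW Φ ε K P w ℓ.1 * E +
            tW Φ ε K P w ℓ.1 * (ENNReal.ofReal (a + (P.te - P.tw)) * E) := by gcongr
        _ = _ := by
            simp only [hF3]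
            ring
    · have e1 : ∀ x, ¬ aS x ℓ ≤ P.te := fun x h2 => h1 (haS_iff x ℓ h2).1
      refine le_trans (le_of_eq (Finset.sum_eq_zero fun x _ => ?_)) bot_le
      rw [indicator_of_notMem (show ℓ ∉ {ℓ | aS x ℓ ≤ P.te} from e1 x), mul_zero, zero_add,
        Icc_eq_empty (e1 x), Measure.restrict_empty, lintegral_zero_measure]
  have hmF : Measurable fun p : Lab × LSt =>
      F3 (p.1.1, p.1.2.1) * (Q.lam₁ ^ p.1.2.2 * Q.W p.2) := by
    refine (hF3m.comp (by fun_prop)).mul (Measurable.mul ?_ (Q.hW.comp measurable_snd))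
    exact (Measurable.of_discrete (f := fun n : ℕ => Q.lam₁ ^ n)).comp (by fun_prop)
  calc ∫⁻ p : Lab × LSt, Ψ (p.1, (p.2.1, p.2.2.2)) *
        ∑ x, (ENNReal.ofReal ε * {ℓ | aS x ℓ ≤ P.te}.indicator
          (fun ℓ => tW Φ ε K P w ℓ.1) p.1 + ∫⁻ s in Icc (aS x p.1) P.te,
            tW Φ ε K P w p.1.1 * (1 + ENNReal.ofReal ‖((Z p.1).path Φ ε s x).2‖)) ∂Ξ
      ≤ ∫⁻ p : Lab × LSt, (2 * ENNReal.ofReal (ε + (a + (P.te - P.tw)))) *
          (F3 (p.1.1, p.1.2.1) * (Q.lam₁ ^ p.1.2.2 * Q.W p.2)) ∂Ξ := by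
        refine lintegral_mono fun p => ?_
        refine (mul_le_mul_right (key p.1) _).trans ?_
        have h6 : Ψ (p.1, (p.2.1, p.2.2.2)) ≤ 2 * (Q.lam₁ ^ p.1.2.2 * Q.W p.2) := by
          simp only [hΨ]
          split_ifs with h7
          · have h8 := hQW p.2 (hQt ▸ h7)
            calc 2 + ENNReal.ofReal ‖p.2.2.2‖ ≤ 2 * ENNReal.ofReal (1 + ‖p.2.2.2‖) := by
                  rw [ENNReal.ofReal_add zero_le_one (norm_nonneg _), ENNReal.ofReal_one, mul_add,
                    mul_one]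
                  gcongr
                  rw [two_mul]
                  exact le_self_add
              _ ≤ 2 * (1 * Q.W p.2) := by rw [one_mul]; gcongr
              _ ≤ _ := by
                  gcongr
                  exact one_le_pow_of_one_le' Q.hlam₁ _
          · exact bot_le
        calc _ ≤ 2 * (Q.lam₁ ^ p.1.2.2 * Q.W p.2) *
              (ENNReal.ofReal (ε + (a + (P.te - P.tw))) * F3 (p.1.1, p.1.2.1)) :=
              mul_le_mul_left h6 _
          _ = _ := by ring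
    _ = (2 * ENNReal.ofReal (ε + (a + (P.te - P.tw)))) *
          ∫⁻ p : Lab × LSt, F3 (p.1.1, p.1.2.1) * (Q.lam₁ ^ p.1.2.2 * Q.W p.2) ∂Ξ :=
        lintegral_const_mul _ hmF
    _ ≤ _ := by
        refine mul_le_mul_right ((h.marg F3 hF3m).trans (le_of_eq ?_)) _
        congr 1
        unfold PPar.rhs
        have e3 : ∀ l : Pair292.ML, ∫⁻ _s in Icc 0 Q.t', F3 (l, _s) = ENNReal.ofReal P.te *
            (tW Φ ε K P w l * (ENNReal.ofReal (totE Φ w) + enD Φ l)) := by
          intro l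
          simp only [hF3]
          rw [setLIntegral_const, Real.volume_Icc, sub_zero, hQt, mul_comm]
        have hm4 : Measurable fun l : Pair292.ML =>
            tW Φ ε K P w l * (ENNReal.ofReal (totE Φ w) + enD Φ l) :=
          (measurable_tW_one hΦ hε K P w).mul (measurable_const.add measurable_enD)
        rw [lintegral_congr e3, lintegral_const_mul _ hm4, add_mul, one_mul]

/-- The young part of the bound. -/
theorem rhs_yF_le (hΦ : AdmissiblePotential Φ) (hε : 0 < ε) {n : ℕ} (w : Config n) {Q : PPar}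
    (hQt : Q.t' = P.te) (hQ0 : Q.ℓ {l : ML | l.1.1 < 0} = 0) (r : ℝ) :
    Q.rhs (yF Φ ε K P r w) ≤
      ∫⁻ l, {l : ML | P.tw - r < l.1.1}.indicator (fun l => tW Φ ε K P w l) l ∂Q.ℓ +
        ENNReal.ofReal (r + (P.te - P.tw)) * ∫⁻ l, tW Φ ε K P w l ∂Q.ℓ +
        (1 + ENNReal.ofReal P.te) * Q.ℓ (goodB Φ ε w)ᶜ := by
  have htWm := measurable_tW_one hΦ hε K P w
  have hgm := measurableSet_goodB hΦ hε w
  have hyI : Measurable fun l : ML => {l : ML | P.tw - r < l.1.1}.indicator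
      (fun l => tW Φ ε K P w l) l :=
    htWm.indicator (measurableSet_lt measurable_const (by fun_prop))
  have h1 : ∀ l : ML, yF Φ ε K P r w (l, l.1.1) =
      {l : ML | P.tw - r < l.1.1}.indicator (fun l => tW Φ ε K P w l) l +
        ((goodB Φ ε w)ᶜ.indicator 1 l + {l : ML | l.1.1 < 0}.indicator (fun _ => ∞) l) := by
    intro l
    rfl
  have h2 : ∀ l : ML, ∫⁻ s in Icc 0 P.te, yF Φ ε K P r w (l, s) ≤
      ENNReal.ofReal (r + (P.te - P.tw)) * tW Φ ε K P w l +
        ENNReal.ofReal P.te * (goodB Φ ε w)ᶜ.indicator 1 l := by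
    intro l
    have e1 : ∀ s : ℝ, yF Φ ε K P r w (l, s) =
        (Ioi (P.tw - r)).indicator (fun _ => tW Φ ε K P w l) s +
          ((goodB Φ ε w)ᶜ.indicator 1 l + (Iio (0 : ℝ)).indicator (fun _ => ∞) s) := by
      intro s
      rfl
    have e2 : ∫⁻ s in Icc 0 P.te, yF Φ ε K P r w (l, s) = ∫⁻ s in Icc 0 P.te,
        ((Ioi (P.tw - r)).indicator (fun _ => tW Φ ε K P w l) s +
          (goodB Φ ε w)ᶜ.indicator 1 l) := by
      refine setLIntegral_congr_fun measurableSet_Icc fun s hs => ?_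
      simp only [e1]
      rw [indicator_of_notMem (show s ∉ Iio (0 : ℝ) from not_lt.2 hs.1), add_zero]
    rw [e2, lintegral_add_right _ measurable_const, setLIntegral_const, Real.volume_Icc, sub_zero,
      mul_comm ((goodB Φ ε w)ᶜ.indicator 1 l)]
    refine add_le_add ?_ le_rfl
    rw [lintegral_indicator measurableSet_Ioi, setLIntegral_const, mul_comm,
      Measure.restrict_apply measurableSet_Ioi]
    refine mul_le_mul_left ?_ _
    calc volume (Ioi (P.tw - r) ∩ Icc 0 P.te) ≤ volume (Ioc (P.tw - r) P.te) :=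
          measure_mono fun s hs => ⟨hs.1, hs.2.2⟩
      _ = _ := by
          rw [Real.volume_Ioc]
          congr 1
          ring
  unfold PPar.rhs
  rw [hQt]
  calc ∫⁻ l, yF Φ ε K P r w (l, l.1.1) ∂Q.ℓ + ∫⁻ l, (∫⁻ s in Icc 0 P.te, yF Φ ε K P r w (l, s)) ∂Q.ℓ
      ≤ ∫⁻ l, ({l : ML | P.tw - r < l.1.1}.indicator (fun l => tW Φ ε K P w l) l +
          ((goodB Φ ε w)ᶜ.indicator 1 l + {l : ML | l.1.1 < 0}.indicator (fun _ => ∞) l)) ∂Q.ℓ +
        ∫⁻ l, (ENNReal.ofReal (r + (P.te - P.tw)) * tW Φ ε K P w l +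
          ENNReal.ofReal P.te * (goodB Φ ε w)ᶜ.indicator 1 l) ∂Q.ℓ :=
        add_le_add (le_of_eq (lintegral_congr h1)) (lintegral_mono h2)
    _ = _ := by
        have h0 : ∫⁻ l, {l : ML | l.1.1 < 0}.indicator (fun _ => (∞ : ℝ≥0∞)) l ∂Q.ℓ = 0 := by
          rw [lintegral_indicator_const (measurableSet_lt (by fun_prop) measurable_const), hQ0,
            mul_zero]
        rw [lintegral_add_left hyI, lintegral_add_left (htWm.const_mul _),
          lintegral_add_left (measurable_one.indicator hgm.compl), h0, add_zero,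
          lintegral_const_mul _ htWm, lintegral_const_mul _ (measurable_one.indicator hgm.compl),
          lintegral_indicator_one hgm.compl]
        ring

set_option maxHeartbeats 1000000 in
/-- **E6-direct, one world.** -/
theorem direct6_world (hΦ : AdmissiblePotential Φ) (hε : 0 < ε) {n : ℕ} {w : Config n}
    (hw : w ∈ PairExcluded ε n) {Q : PPar} {Ξ ν : Measure (Lab × LSt)} {c : ℝ≥0∞}
    (h : PX Q Ξ ν c) (hQt : Q.t' = P.te)
    (hQW : ∀ z : LSt, z.1 ≤ Q.t' → ENNReal.ofReal (1 + ‖z.2.2‖) ≤ Q.W z)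
    (hQ0 : Q.ℓ {l : ML | l.1.1 < 0} = 0) {r a : ℝ} (hr : 0 < r)
    (ha0 : 0 ≤ a) (har : a ≤ r / 2) (hL : 0 ≤ P.L) (htw : 0 ≤ P.tw) :
    ∫⁻ p, dirP Φ ε K P a w p ∂ν ≤
      volume (Metric.ball (0 : Space3) 1) * (c *
        (∫⁻ l, {l : ML | P.tw - r < l.1.1}.indicator (fun l => tW Φ ε K P w l) l ∂Q.ℓ +
          ENNReal.ofReal (r + (P.te - P.tw)) * ∫⁻ l, tW Φ ε K P w l ∂Q.ℓ +
          (1 + ENNReal.ofReal P.te) * Q.ℓ (goodB Φ ε w)ᶜ)) +
      8 * ENNReal.ofReal ε ^ 2 * Sweep815.c3 * ENNReal.ofReal ((r / 2)⁻¹ ^ 3) *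
        (2 * ENNReal.ofReal (ε + (a + (P.te - P.tw))) * (c * ((1 + ENNReal.ofReal P.te) *
          ∫⁻ l, tW Φ ε K P w l * (ENNReal.ofReal (totE Φ w) + enD Φ l) ∂Q.ℓ))) := by
  obtain ⟨g, hg, hle, hint⟩ := old_world (K := K) (P := P) hΦ hε hw h hQt hQW hr ha0 har htw
  set G : Lab × LSt → ℝ≥0∞ := fun p => if p.2.1 ≤ Q.t' then yF Φ ε K P r w (p.1.1, p.1.2.1) else 0
    with hG
  have hpt : ∀ p, dirP Φ ε K P a w p ≤ G p + g p := by
    intro p
    unfold dirP
    split_ifs with hc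
    · obtain ⟨h1, h2, h3, h4, h5⟩ := hc
      have h6 : p.2.1 ≤ P.te := by
        rcases h5 with h5 | h5
        · obtain ⟨s, x, h6, h7, _⟩ := h5
          exact h6.trans h7
        · obtain ⟨s, x, h6, _, h7, _⟩ := h5
          exact h6.trans h7
      have hG1 : G p = yF Φ ε K P r w (p.1.1, p.1.2.1) := by
        simp only [hG]
        rw [if_pos (hQt ▸ h6)]
      by_cases ha : P.tw - r < p.1.2.1
      · refine le_trans (touchP_le_tW w _ _) (le_trans ?_ le_self_add)
        rw [hG1]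
        unfold yF
        rw [indicator_of_mem (show (p.1.1, p.1.2.1) ∈ {q : ML × ℝ | P.tw - r < q.2} from ha)]
        exact le_self_add
      · by_cases hb : p.1.1 ∈ goodB Φ ε w
        · by_cases ht : P.tw < (MW.cfg w).thetaL Φ ε K P.te p.1.1 ∧
              (MW.cfg w).thetaL Φ ε K P.te p.1.1 ≤ P.te
          · by_cases hs0 : p.1.2.1 < 0
            · refine le_trans le_top (le_trans ?_ le_self_add)
              rw [hG1]
              unfold yF
              rw [indicator_of_mem (show (p.1.1, p.1.2.1) ∈ {q : ML × ℝ | q.2 < 0} from hs0),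
                add_top, add_top]
            refine le_trans ?_ le_add_self
            refine le_trans (h5.elim (touchP_le_of_dirty hΦ hε ha0 h1 h2 h3 h4)
              touchP_le_of_near) ?_
            have ho : p.1 ∈ oldL Φ ε K P r w := by
              refine ⟨ht, ⟨not_lt.1 hs0, ?_⟩, hb⟩
              have : ¬ P.tw - r < sig p.1 := ha
              linarith
            refine le_trans (le_of_eq ?_) (hle p ho h6)
            simp only [posAt_eq_fpos p.2 p.1.2.2]
          · have : tW Φ ε K P w p.1.1 = 0 := by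
              unfold tW
              rw [if_neg ht]
            rw [touchP_eq_zero_of w this]
            exact bot_le
        · refine le_trans (touchP_le_tW w _ _) (le_trans ?_ le_self_add)
          rw [hG1]
          unfold yF
          rw [indicator_of_mem (show (p.1.1, p.1.2.1) ∈ {q : ML × ℝ | q.1 ∉ goodB Φ ε w} from hb)]
          exact (tW_le_one hL w _).trans (le_self_add.trans le_add_self)
    · exact bot_le
  calc ∫⁻ p, dirP Φ ε K P a w p ∂ν ≤ ∫⁻ p, (G p + g p) ∂ν := lintegral_mono hpt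
    _ = ∫⁻ p, G p ∂ν + ∫⁻ p, g p ∂ν := lintegral_add_right _ hg
    _ ≤ _ := by
        refine add_le_add ?_ hint
        refine (h.le_rhs (measurable_yF hΦ hε K P r w) (G := G) fun p => le_rfl).trans ?_
        gcongr
        exact rhs_yF_le hΦ hε w hQt hQ0 r

end

end Crest.Agent.R122.Direct658
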