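import Crest.Agent.R122.Direct6_658
import Crest.Agent.R122.Direct4_658
import Crest.Agent.R122.SmallNull_566

/-!
# Row 122, section E, E6-direct (helper658), gas level

* `direct6` : **E6-direct** for a spread pair law.
* `nul6`, `tendsto_nul6` : the null remainder.
-/

set_option autoImplicit false
set_option linter.unusedSectionVars false

open MeasureTheory Set Filter Topology
open scoped ENNReal
open Crest.AnalysisR.Kinetic
open Crest.Agent.R122.Flow671 Crest.Agent.R122.Loc45 Crest.Agent.R122.Causal291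
open Crest.Agent.R122.Inf879 Crest.Agent.R122.EDefs602 Crest.Agent.R122.Ins45
open Crest.Agent.R122.GC311 Crest.Agent.R122.Unw410 Crest.Agent.R122.Energy410
open Crest.Agent.R122.MeasE416 Crest.Agent.R122.Boost969 Crest.Agent.R122.EBasic602
open Crest.Agent.R122.Pair292 hiding ML
open Crest.Agent.R122.Conc984

namespace Crest.Agent.R122.Direct658

noncomputable section

open scoped Classical

variable {Φ : Space3 → ℝ} {f₀ : PhasePoint → ℝ} {ε : ℝ} {K : ℕ} {P : EPar}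

/-! ### The four integrals -/

theorem measurable_int (hΦ : AdmissiblePotential Φ) (hε : 0 < ε) (K : ℕ) (P : EPar)
    {ℓ : Measure ML} [SFinite ℓ] {F : ML → ℝ≥0∞} (hF : Measurable F) (n : ℕ) :
    Measurable fun w : Config n => ∫⁻ l, tW Φ ε K P w l * F l ∂ℓ := by
  have h1 : Measurable fun p : Config n × ML => tW Φ ε K P p.1 p.2 * F p.2 :=
    (measurable_tW hΦ hε K P n).mul (hF.comp measurable_snd)
  exact h1.lintegral_prod_right'

/-- Young lines. -/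
theorem int1_le (hΦ : AdmissiblePotential Φ) (hf : Measurable f₀) (hε : 0 < ε) (hL : 0 ≤ P.L)
    (hγ : Measurable P.γ) (r : ℝ) :
    gcE f₀ ε (fun _ w => ∫⁻ l, {l : ML | P.tw - r < l.1.1}.indicator
      (fun l => tW Φ ε K P w l) l ∂lineM P.γ P.ρ K P.te) ≤
      XJ Φ f₀ ε K P (Ioc (max 0 (P.tw - r)) P.te) := by
  rw [XJ_eq hf hγ (fun n => measurable_touchW_cfg hΦ hε K P n)]
  refine gcE_mono f₀ ε fun n w _ => ?_
  have htm : Measurable fun l : ML => (MW.cfg w).touchW Φ ε K P l :=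
    (MeasW.const (MW.cfg w)).touchW hΦ hε measurable_id K P
  have hset : MeasurableSet {l : ML | P.tw - r < l.1.1} :=
    measurableSet_lt measurable_const (by fun_prop)
  calc ∫⁻ l, {l : ML | P.tw - r < l.1.1}.indicator (fun l => tW Φ ε K P w l) l
        ∂lineM P.γ P.ρ K P.te
      ≤ ∫⁻ l, {l : ML | P.tw - r < l.1.1}.indicator
          (fun l => (MW.cfg w).touchW Φ ε K P l) l ∂lineM P.γ P.ρ K P.te := by
        refine lintegral_mono fun l => ?_
        exact indicator_le_indicator (tW_le_touchW hL w l)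
    _ = ∫⁻ τ in Ioc (0 : ℝ) P.te, (Ioi (P.tw - r)).indicator (fun τ =>
          ∫⁻ v : Space3, Kin796.wG (P.γ τ) v * ∫⁻ y : Space3, ∑' n : ℕ, markW P.ρ K n *
            (MW.cfg w).touchW Φ ε K P ((τ, (y, v)), n)) τ := by
        rw [lintegral_lineM hγ (htm.indicator hset)]
        refine lintegral_congr fun τ => ?_
        by_cases h : P.tw - r < τ
        · rw [indicator_of_mem (show τ ∈ Ioi (P.tw - r) from h)]
          refine lintegral_congr fun v => ?_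
          congr 1
          refine lintegral_congr fun y => tsum_congr fun m => ?_
          rw [indicator_of_mem (show ((τ, (y, v)), m) ∈ {l : ML | P.tw - r < l.1.1} from h)]
        · rw [indicator_of_notMem (show τ ∉ Ioi (P.tw - r) from h)]
          have e1 : ∀ (v y : Space3) (m : ℕ), {l : ML | P.tw - r < l.1.1}.indicator
              (fun l => (MW.cfg w).touchW Φ ε K P l) ((τ, (y, v)), m) = 0 := by
            intro v y m
            exact indicator_of_notMem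
              (show ((τ, (y, v)), m) ∉ {l : ML | P.tw - r < l.1.1} from h) _
          simp [e1]
    _ = _ := by
        rw [lintegral_indicator measurableSet_Ioi, Measure.restrict_restrict measurableSet_Ioi]
        have : Ioi (P.tw - r) ∩ Ioc 0 P.te = Ioc (max 0 (P.tw - r)) P.te := by
          ext τ
          simp only [mem_inter_iff, mem_Ioi, mem_Ioc, max_lt_iff]
          tauto
        rw [this]

/-- All lines. -/
theorem int2_le (hΦ : AdmissiblePotential Φ) (hf : Measurable f₀) (hε : 0 < ε) (hL : 0 ≤ P.L)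
    (hγ : Measurable P.γ) :
    gcE f₀ ε (fun _ w => ∫⁻ l, tW Φ ε K P w l ∂lineM P.γ P.ρ K P.te) ≤ XI Φ f₀ ε K P := by
  rw [XI_eq hf hγ (fun n => measurable_touchW_cfg hΦ hε K P n)]
  exact gcE_mono f₀ ε fun n w _ => lintegral_mono fun l => tW_le_touchW hL w l

/-- Quenched bound by `1 / L`. -/
theorem int2_quenched (hΦ : AdmissiblePotential Φ) (hε : 0 < ε) (hL : 0 < P.L) {n : ℕ}
    (w : Config n) :
    ∫⁻ l, tW Φ ε K P w l ∂lineM P.γ P.ρ K P.te ≤ ENNReal.ofReal (1 / P.L) := by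
  have hθ := measurable_thetaL_one hΦ hε K P.te w
  have h := Weight984.stieltjes_lt hL (lineM P.γ P.ρ K P.te) hθ P.tw
  have hs : MeasurableSet {l : ML | P.tw < (MW.cfg w).thetaL Φ ε K P.te l} :=
    measurableSet_lt measurable_const hθ
  calc ∫⁻ l, tW Φ ε K P w l ∂lineM P.γ P.ρ K P.te
      ≤ ∫⁻ l, {l : ML | P.tw < (MW.cfg w).thetaL Φ ε K P.te l}.indicator (fun l =>
          Weight984.W P.L (Weight984.XR (lineM P.γ P.ρ K P.te)
            (fun l => (MW.cfg w).thetaL Φ ε K P.te l) ((MW.cfg w).thetaL Φ ε K P.te l))) l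
          ∂lineM P.γ P.ρ K P.te := by
        refine lintegral_mono fun l => ?_
        unfold tW
        split_ifs with h1
        · rw [indicator_of_mem
            (show l ∈ {l : ML | P.tw < (MW.cfg w).thetaL Φ ε K P.te l} from h1.1)]
          exact le_rfl
        · exact bot_le
    _ = ∫⁻ l in {l : ML | P.tw < (MW.cfg w).thetaL Φ ε K P.te l},
          Weight984.W P.L (Weight984.XR (lineM P.γ P.ρ K P.te)
            (fun l => (MW.cfg w).thetaL Φ ε K P.te l) ((MW.cfg w).thetaL Φ ε K P.te l))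
          ∂lineM P.γ P.ρ K P.te := lintegral_indicator hs _
    _ ≤ _ := h.trans (mul_le_of_le_one_right bot_le (Weight984.W_le_one hL.le _))

/-- Lines born in contact, one world. -/
theorem int3_world {n : ℕ} (hΦ : AdmissiblePotential Φ) (hε : 0 < ε) (w : Config n) {γ₀ : ℝ}
    (hγ : Measurable P.γ) (hγ₀ : ∀ τ ∈ Ioc 0 P.te, γ₀ ≤ P.γ τ) :
    lineM P.γ P.ρ K P.te (goodB Φ ε w)ᶜ ≤
      ENNReal.ofReal P.te * (rhoS P.ρ * gI γ₀ * (ENNReal.ofReal ε ^ 3 * Sweep815.c3)) * n := by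
  have hgm := (measurableSet_goodB hΦ hε w).compl
  rw [← lintegral_indicator_one hgm, lintegral_lineM hγ (measurable_one.indicator hgm)]
  calc ∫⁻ τ in Ioc (0 : ℝ) P.te, ∫⁻ v : Space3, Kin796.wG (P.γ τ) v *
        ∫⁻ y : Space3, ∑' m : ℕ, markW P.ρ K m * (goodB Φ ε w)ᶜ.indicator 1 ((τ, (y, v)), m)
      ≤ ∫⁻ _τ in Ioc (0 : ℝ) P.te,
          rhoS P.ρ * gI γ₀ * (ENNReal.ofReal ε ^ 3 * Sweep815.c3) * n := by
        refine setLIntegral_mono' measurableSet_Ioc fun τ hτ => ?_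
        have h1 : ∫⁻ v : Space3, Kin796.wG (P.γ τ) v * ∫⁻ y : Space3,
            ∑' m : ℕ, markW P.ρ K m * (goodB Φ ε w)ᶜ.indicator 1 ((τ, (y, v)), m) ≤
            ∫⁻ v : Space3, Kin796.wG (P.γ τ) v * ∫⁻ y : Space3,
              ∑' m : ℕ, markW P.ρ K m *
                (if ∃ i, dist y (flow Φ ε τ w i).1 ≤ ε then 1 else 0) := by
          refine lintegral_mono fun v => mul_le_mul_right (lintegral_mono fun y =>
            ENNReal.tsum_le_tsum fun m => mul_le_mul_right ?_ _) _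
          refine indicator_apply_le' (fun hc => ?_) (fun _ => bot_le)
          have : ∃ i, dist y (flow Φ ε τ w i).1 ≤ ε := by
            by_contra hno
            push Not at hno
            exact hc ⟨hτ.1, fun i => by rw [dist_comm]; exact hno i⟩
          rw [if_pos this]
          exact le_rfl
        refine h1.trans ((born4_world w τ (Kin796.meas_wG _) P.ρ).trans ?_)
        calc (∑' m : ℕ, markW P.ρ K m) * (∫⁻ v : Space3, Kin796.wG (P.γ τ) v) *
              (ENNReal.ofReal ε ^ 3 * Sweep815.c3 * n)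
            ≤ rhoS P.ρ * gI γ₀ * (ENNReal.ofReal ε ^ 3 * Sweep815.c3 * n) := by
              gcongr
              · exact tsum_markW_le_rhoS _ _
              · refine le_trans ?_ (gI_anti (hγ₀ τ hτ))
                unfold gI
                refine lintegral_mono fun v => le_mul_of_one_le_right' le_self_add
          _ = _ := by ring
    _ = _ := by
        rw [setLIntegral_const, Real.volume_Ioc, sub_zero]
        ring

theorem gcE_card_le (hf : Measurable f₀) (h1 : ∫⁻ z, ENNReal.ofReal (f₀ z) ≤ 1) (ε : ℝ) :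
    gcE f₀ ε (fun n (_ : Config n) => (n : ℝ≥0∞)) ≤ activity ε := by
  have h := gcE_sum_le hf h1 ε (fun _ => 1) measurable_const
  have e : (fun (n : ℕ) (Z : Config n) => ∑ j : Fin n, (1 : ℝ≥0∞)) =
      fun (n : ℕ) (_ : Config n) => (n : ℝ≥0∞) := by
    funext n Z
    simp
  rw [e] at h
  refine h.trans ?_
  simp only [mul_one]
  exact mul_le_of_le_one_right bot_le h1

theorem c3_ne_top : Sweep815.c3 ≠ ∞ := by
  unfold Sweep815.c3
  exact ENNReal.ofReal_ne_top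

theorem activity_mul_sq' (hε : 0 < ε) : activity ε * ENNReal.ofReal ε ^ 2 = 1 := by
  rw [← InEq2U263.activity_inv hε, ENNReal.mul_inv_cancel (activity_ne_zero hε)
    (activity_ne_top ε)]

/-- Lines born in contact: mass `O(ε)`. -/
theorem int3_le (hΦ : AdmissiblePotential Φ) (hf : Measurable f₀)
    (h1 : ∫⁻ z, ENNReal.ofReal (f₀ z) ≤ 1) (hε : 0 < ε) {γ₀ : ℝ} (hγp : 0 < γ₀)
    (hγ : Measurable P.γ) (hγ₀ : ∀ τ ∈ Ioc 0 P.te, γ₀ ≤ P.γ τ) (hρ : P.ρ < 1) :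
    gcE f₀ ε (fun _ w => lineM P.γ P.ρ K P.te (goodB Φ ε w)ᶜ) ≤
      ENNReal.ofReal P.te * (rhoS P.ρ * gI γ₀ * (ENNReal.ofReal ε * Sweep815.c3)) := by
  have hc : ENNReal.ofReal P.te * (rhoS P.ρ * gI γ₀ *
      (ENNReal.ofReal ε ^ 3 * Sweep815.c3)) ≠ ∞ :=
    ENNReal.mul_ne_top ENNReal.ofReal_ne_top (ENNReal.mul_ne_top
      (ENNReal.mul_ne_top (rhoS_lt_top hρ).ne (gI_lt_top hγp).ne)
      (ENNReal.mul_ne_top (ENNReal.pow_ne_top ENNReal.ofReal_ne_top) c3_ne_top))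
  calc gcE f₀ ε (fun _ w => lineM P.γ P.ρ K P.te (goodB Φ ε w)ᶜ)
      ≤ gcE f₀ ε (fun n (_ : Config n) => (ENNReal.ofReal P.te * (rhoS P.ρ * gI γ₀ *
          (ENNReal.ofReal ε ^ 3 * Sweep815.c3))) * n) :=
        gcE_mono f₀ ε fun n w _ => int3_world hΦ hε w hγ hγ₀
    _ = (ENNReal.ofReal P.te * (rhoS P.ρ * gI γ₀ *
          (ENNReal.ofReal ε ^ 3 * Sweep815.c3))) * gcE f₀ ε (fun n (_ : Config n) => (n : ℝ≥0∞)) :=
        gcE_const_mul f₀ ε hc _
    _ ≤ (ENNReal.ofReal P.te * (rhoS P.ρ * gI γ₀ *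
          (ENNReal.ofReal ε ^ 3 * Sweep815.c3))) * activity ε :=
        mul_le_mul_right (gcE_card_le hf h1 ε) _
    _ = ENNReal.ofReal P.te * (rhoS P.ρ * gI γ₀ * (ENNReal.ofReal ε * Sweep815.c3)) *
          (activity ε * ENNReal.ofReal ε ^ 2) := by ring
    _ = _ := by rw [activity_mul_sq' hε, mul_one]

/-! ### Velocity weight -/

/-- Constant of the velocity weight. -/
def cV (Φ : Space3 → ℝ) (γ₀ : ℝ) : ℝ≥0∞ := ENNReal.ofReal (1 / γ₀ + (stabB Φ + 3 / 2))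

theorem wG_mul_enD_le {γ₀ γ : ℝ} (hγ₀ : 0 < γ₀) (d : ML) :
    Kin796.wG γ d.1.2.2 * enD Φ d ≤ cV Φ γ₀ * Kin796.wG (γ - γ₀ / 2) d.1.2.2 := by
  have hB := stabB_nonneg Φ
  unfold Kin796.wG enD cV
  rw [← ENNReal.ofReal_mul (Real.exp_pos _).le, ← ENNReal.ofReal_mul (by positivity)]
  refine ENNReal.ofReal_le_ofReal ?_
  set x := ‖d.1.2.2‖ ^ 2 with hx
  have hx0 : 0 ≤ x := sq_nonneg _
  have h1 : Real.exp (-(γ * x)) = Real.exp (-((γ - γ₀ / 2) * x)) * Real.exp (-(γ₀ / 2 * x)) := by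
    rw [← Real.exp_add]
    congr 1
    ring
  have h2 : Real.exp (-(γ₀ / 2 * x)) ≤ 1 := Real.exp_le_one_iff.2 (by
    have : 0 ≤ γ₀ / 2 * x := by positivity
    linarith)
  have h3 : γ₀ / 2 * x * Real.exp (-(γ₀ / 2 * x)) ≤ 1 := by
    have h4 : γ₀ / 2 * x ≤ Real.exp (γ₀ / 2 * x) := by
      have := Real.add_one_le_exp (γ₀ / 2 * x)
      linarith
    rw [Real.exp_neg]
    exact mul_inv_le_one_of_le₀ h4 (Real.exp_pos _).le
  have h5 : Real.exp (-(γ₀ / 2 * x)) * ((1 / 2) * x + (stabB Φ + 3 / 2)) ≤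
      1 / γ₀ + (stabB Φ + 3 / 2) := by
    have h6 : Real.exp (-(γ₀ / 2 * x)) * ((1 / 2) * x) =
        (1 / γ₀) * (γ₀ / 2 * x * Real.exp (-(γ₀ / 2 * x))) := by
      field_simp
    have h7 : (1 / γ₀) * (γ₀ / 2 * x * Real.exp (-(γ₀ / 2 * x))) ≤ 1 / γ₀ :=
      mul_le_of_le_one_right (by positivity) h3
    have h8 : Real.exp (-(γ₀ / 2 * x)) * (stabB Φ + 3 / 2) ≤ stabB Φ + 3 / 2 :=
      mul_le_of_le_one_left (by positivity) h2
    calc _ = Real.exp (-(γ₀ / 2 * x)) * ((1 / 2) * x) +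
          Real.exp (-(γ₀ / 2 * x)) * (stabB Φ + 3 / 2) := by ring
      _ ≤ _ := by rw [h6]; exact add_le_add h7 h8
  rw [h1]
  calc Real.exp (-((γ - γ₀ / 2) * x)) * Real.exp (-(γ₀ / 2 * x)) *
        ((1 / 2) * x + (stabB Φ + 3 / 2))
      = Real.exp (-((γ - γ₀ / 2) * x)) *
        (Real.exp (-(γ₀ / 2 * x)) * ((1 / 2) * x + (stabB Φ + 3 / 2))) := by ring
    _ ≤ Real.exp (-((γ - γ₀ / 2) * x)) * (1 / γ₀ + (stabB Φ + 3 / 2)) :=
        mul_le_mul_of_nonneg_left h5 (Real.exp_pos _).le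
    _ = _ := by ring

/-- Velocity-weighted touched mass, quenched. -/
theorem int4_world (hΦ : AdmissiblePotential Φ) (hε : 0 < ε) (hε1 : ε ≤ 1) {n : ℕ}
    {w : Config n} (hw : w ∈ PairExcluded ε n) (hL : 0 ≤ P.L) (hte : 0 ≤ P.te) {γ₀ : ℝ}
    (hγp : 0 < γ₀) (hγ : Measurable P.γ) (hγ₀ : ∀ τ ∈ Ioc 0 P.te, γ₀ ≤ P.γ τ) :
    ∫⁻ l, tW Φ ε K P w l * enD Φ l ∂lineM P.γ P.ρ K P.te ≤
      cV Φ γ₀ * (cX (γ₀ / 2) P.ρ P.te * Yf Φ ε w) := by
  have hθ := measurable_thetaL_one hΦ hε K P.te w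
  have hs : MeasurableSet {l : ML | (MW.cfg w).thetaL Φ ε K P.te l ≤ P.te} :=
    measurableSet_le hθ measurable_const
  have hγ' : Measurable fun τ => P.γ τ - γ₀ / 2 := hγ.sub_const _
  have h1 : lineM (fun τ => P.γ τ - γ₀ / 2) P.ρ K P.te
      {l : ML | (MW.cfg w).thetaL Φ ε K P.te l ≤ P.te} ≤
      cX (γ₀ / 2) P.ρ P.te * Yf Φ ε w :=
    lineM_theta_le hΦ hε hε1 hw hte hγ' (fun τ hτ => by
      have := hγ₀ τ hτ
      linarith) P.ρ le_rfl
  have hm : Measurable fun l : ML => {l : ML | (MW.cfg w).thetaL Φ ε K P.te l ≤ P.te}.indicator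
      (fun l => enD Φ l) l := measurable_enD.indicator hs
  calc ∫⁻ l, tW Φ ε K P w l * enD Φ l ∂lineM P.γ P.ρ K P.te
      ≤ ∫⁻ l, {l : ML | (MW.cfg w).thetaL Φ ε K P.te l ≤ P.te}.indicator
          (fun l => enD Φ l) l ∂lineM P.γ P.ρ K P.te := by
        refine lintegral_mono fun l => ?_
        by_cases hc : P.tw < (MW.cfg w).thetaL Φ ε K P.te l ∧
            (MW.cfg w).thetaL Φ ε K P.te l ≤ P.te
        · rw [indicator_of_mem
            (show l ∈ {l : ML | (MW.cfg w).thetaL Φ ε K P.te l ≤ P.te} from hc.2)]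
          exact mul_le_of_le_one_left bot_le (tW_le_one hL w l)
        · have : tW Φ ε K P w l = 0 := by
            unfold tW
            rw [if_neg hc]
          rw [this, zero_mul]
          exact bot_le
    _ = ∫⁻ l, lineD P.γ P.ρ K l * {l : ML | (MW.cfg w).thetaL Φ ε K P.te l ≤ P.te}.indicator
          (fun l => enD Φ l) l ∂lineV P.te := by
        unfold lineM
        rw [lintegral_withDensity_eq_lintegral_mul _ (EBasic602.measurable_lineD hγ) hm]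
        rfl
    _ ≤ ∫⁻ l, cV Φ γ₀ * (lineD (fun τ => P.γ τ - γ₀ / 2) P.ρ K l *
          {l : ML | (MW.cfg w).thetaL Φ ε K P.te l ≤ P.te}.indicator 1 l) ∂lineV P.te := by
        refine lintegral_mono fun l => ?_
        by_cases hc : (MW.cfg w).thetaL Φ ε K P.te l ≤ P.te
        · rw [indicator_of_mem
            (show l ∈ {l : ML | (MW.cfg w).thetaL Φ ε K P.te l ≤ P.te} from hc),
            indicator_of_mem
            (show l ∈ {l : ML | (MW.cfg w).thetaL Φ ε K P.te l ≤ P.te} from hc)]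
          unfold lineD
          have h2 := wG_mul_enD_le (Φ := Φ) (γ := P.γ l.1.1) hγp l
          calc Kin796.wG (P.γ l.1.1) l.1.2.2 * markW P.ρ K l.2 * enD Φ l
              = (Kin796.wG (P.γ l.1.1) l.1.2.2 * enD Φ l) * markW P.ρ K l.2 := by ring
            _ ≤ (cV Φ γ₀ * Kin796.wG (P.γ l.1.1 - γ₀ / 2) l.1.2.2) * markW P.ρ K l.2 :=
                mul_le_mul_left h2 _
            _ = _ := by
                simp only [Pi.one_apply, mul_one]
                ring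
        · rw [indicator_of_notMem
            (show l ∉ {l : ML | (MW.cfg w).thetaL Φ ε K P.te l ≤ P.te} from hc), mul_zero]
          exact bot_le
    _ = cV Φ γ₀ * lineM (fun τ => P.γ τ - γ₀ / 2) P.ρ K P.te
          {l : ML | (MW.cfg w).thetaL Φ ε K P.te l ≤ P.te} := by
        have hmm : Measurable fun l : ML => lineD (fun τ => P.γ τ - γ₀ / 2) P.ρ K l *
            {l : ML | (MW.cfg w).thetaL Φ ε K P.te l ≤ P.te}.indicator (1 : ML → ℝ≥0∞) l :=
          (EBasic602.measurable_lineD hγ').mul (measurable_one.indicator hs)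
        rw [lintegral_const_mul _ hmm, ← lintegral_indicator_one hs]
        congr 1
        unfold lineM
        rw [lintegral_withDensity_eq_lintegral_mul _ (EBasic602.measurable_lineD hγ')
          (measurable_one.indicator hs)]
        rfl
    _ ≤ _ := mul_le_mul_right h1 _

theorem gcE_Y_le (hf : Measurable f₀) (h1 : ∫⁻ z, ENNReal.ofReal (f₀ z) ≤ 1) (hε : 0 < ε)
    {φ : PhasePoint → ℝ≥0∞} (hφ : Measurable φ) : gcE f₀ ε (Y ε φ) ≤ mean f₀ φ := by
  have ha0 := activity_ne_zero hε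
  have hat := activity_ne_top ε
  unfold Y
  rw [gcE_const_mul f₀ ε (ENNReal.inv_ne_top.2 ha0)]
  calc (activity ε)⁻¹ * gcE f₀ ε (fun n Z => ∑ j, φ (Z j))
      ≤ (activity ε)⁻¹ * (activity ε * ∫⁻ z, ENNReal.ofReal (f₀ z) * φ z) :=
        mul_le_mul_right (gcE_sum_le hf h1 ε φ hφ) _
    _ = _ := by
        rw [← mul_assoc, ENNReal.inv_mul_cancel ha0 hat, one_mul]
        rfl

/-- The energy-weighted touched mass. -/
theorem int4_le (hΦ : AdmissiblePotential Φ) (hf : Measurable f₀)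
    (h1 : ∫⁻ z, ENNReal.ofReal (f₀ z) ≤ 1) (hmean : mean f₀ en ≠ ∞) (hε : 0 < ε) (hε1 : ε ≤ 1)
    (hL : 0 < P.L) (hte : 0 ≤ P.te) {γ₀ : ℝ} (hγp : 0 < γ₀)
    (hγ : Measurable P.γ) (hγ₀ : ∀ τ ∈ Ioc 0 P.te, γ₀ ≤ P.γ τ) (hρ : P.ρ < 1) :
    gcE f₀ ε (fun _ w => ENNReal.ofReal ε ^ 2 * ∫⁻ l, tW Φ ε K P w l *
        (ENNReal.ofReal (totE Φ w) + enD Φ l) ∂lineM P.γ P.ρ K P.te) ≤
      c1 Φ * (mean f₀ en * XI Φ f₀ ε K P + ENNReal.ofReal (1 / P.L) * gcE f₀ ε (exc f₀ ε en)) +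
        ENNReal.ofReal ε ^ 2 * (cV Φ γ₀ * (cX (γ₀ / 2) P.ρ P.te * (c1 Φ * mean f₀ en))) := by
  have htW : ∀ (n : ℕ) (w : Config n), Measurable fun l : ML => tW Φ ε K P w l := fun n w =>
    measurable_tW_one hΦ hε K P w
  set C := ENNReal.ofReal ε ^ 2 * (cV Φ γ₀ * (cX (γ₀ / 2) P.ρ P.te * c1 Φ)) with hC
  have hCt : C ≠ ∞ := ENNReal.mul_ne_top (ENNReal.pow_ne_top ENNReal.ofReal_ne_top)
    (ENNReal.mul_ne_top ENNReal.ofReal_ne_top (ENNReal.mul_ne_top
      (cX_lt_top (half_pos hγp) hρ _).ne ENNReal.ofReal_ne_top))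
  have hI2m : ∀ n, Measurable fun w : Config n =>
      ∫⁻ l, tW Φ ε K P w l ∂lineM P.γ P.ρ K P.te := by
    intro n
    have := measurable_int hΦ hε K P (ℓ := lineM P.γ P.ρ K P.te) (F := fun _ => 1)
      measurable_const n
    simpa only [mul_one] using this
  have hYm : ∀ n, Measurable fun w : Config n => Y ε en n w *
      ∫⁻ l, tW Φ ε K P w l ∂lineM P.γ P.ρ K P.te := fun n =>
    (measurable_Y measurable_en n).mul (hI2m n)
  have hpt : ∀ n, ∀ w ∈ PairExcluded ε n, ENNReal.ofReal ε ^ 2 * ∫⁻ l, tW Φ ε K P w l *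
        (ENNReal.ofReal (totE Φ w) + enD Φ l) ∂lineM P.γ P.ρ K P.te ≤
      c1 Φ * (Y ε en n w * ∫⁻ l, tW Φ ε K P w l ∂lineM P.γ P.ρ K P.te) + C * Y ε en n w := by
    intro n w hw
    have e1 : ∫⁻ l, tW Φ ε K P w l * (ENNReal.ofReal (totE Φ w) + enD Φ l)
        ∂lineM P.γ P.ρ K P.te =
        ENNReal.ofReal (totE Φ w) * ∫⁻ l, tW Φ ε K P w l ∂lineM P.γ P.ρ K P.te +
          ∫⁻ l, tW Φ ε K P w l * enD Φ l ∂lineM P.γ P.ρ K P.te := by
      rw [← lintegral_const_mul _ (htW n w), ← lintegral_add_left ((htW n w).const_mul _)]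
      refine lintegral_congr fun l => ?_
      ring
    have e2 : Yf Φ ε w ≤ c1 Φ * Y ε en n w := Yf_le hε w
    have e3 := int4_world (K := K) hΦ hε hε1 hw hL.le hte hγp hγ hγ₀
    rw [e1, mul_add]
    refine add_le_add ?_ ?_
    · calc ENNReal.ofReal ε ^ 2 * (ENNReal.ofReal (totE Φ w) *
            ∫⁻ l, tW Φ ε K P w l ∂lineM P.γ P.ρ K P.te)
          = Yf Φ ε w * ∫⁻ l, tW Φ ε K P w l ∂lineM P.γ P.ρ K P.te := by
            unfold Yf
            ring
        _ ≤ (c1 Φ * Y ε en n w) * ∫⁻ l, tW Φ ε K P w l ∂lineM P.γ P.ρ K P.te :=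
            mul_le_mul_left e2 _
        _ = _ := by ring
    · calc ENNReal.ofReal ε ^ 2 * ∫⁻ l, tW Φ ε K P w l * enD Φ l ∂lineM P.γ P.ρ K P.te
          ≤ ENNReal.ofReal ε ^ 2 * (cV Φ γ₀ * (cX (γ₀ / 2) P.ρ P.te * (c1 Φ * Y ε en n w))) := by
            gcongr
            exact e3.trans (by gcongr)
        _ = _ := by rw [hC]; ring
  calc _ ≤ gcE f₀ ε (fun n w => c1 Φ * (Y ε en n w *
          ∫⁻ l, tW Φ ε K P w l ∂lineM P.γ P.ρ K P.te) + C * Y ε en n w) :=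
        gcE_mono f₀ ε hpt
    _ = c1 Φ * gcE f₀ ε (fun n w => Y ε en n w *
          ∫⁻ l, tW Φ ε K P w l ∂lineM P.γ P.ρ K P.te) + C * gcE f₀ ε (Y ε en) := by
        have hc1 : c1 Φ ≠ ∞ := ENNReal.ofReal_ne_top
        rw [gcE_add hf ε fun n => (hYm n).const_mul _]
        rw [gcE_const_mul f₀ ε hc1, gcE_const_mul f₀ ε hCt]
    _ ≤ c1 Φ * (mean f₀ en * XI Φ f₀ ε K P +
          ENNReal.ofReal (1 / P.L) * gcE f₀ ε (exc f₀ ε en)) + C * mean f₀ en := by
        gcongr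
        · refine (gcE_mul_le hf measurable_en hmean ENNReal.ofReal_ne_top
            fun n Z _ => int2_quenched hΦ hε hL Z).trans ?_
          gcongr
          exact int2_le hΦ hf hε hL.le hγ
        · exact gcE_Y_le hf h1 hε measurable_en
    _ = _ := by rw [hC]; ring

/-! ### The final bound -/

/-- Constant of the old part. -/
def cO (T r : ℝ) : ℝ≥0∞ :=
  16 * Sweep815.c3 * ENNReal.ofReal (r⁻¹ ^ 3) * (1 + ENNReal.ofReal T)

theorem cO_ne_top (T r : ℝ) : cO T r ≠ ∞ := by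
  unfold cO
  refine ENNReal.mul_ne_top (ENNReal.mul_ne_top (ENNReal.mul_ne_top ENNReal.ofNat_ne_top
    c3_ne_top) ENNReal.ofReal_ne_top) (ENNReal.add_ne_top.2 ⟨ENNReal.one_ne_top,
      ENNReal.ofReal_ne_top⟩)

/-- Volume of the unit ball. -/
def v1 : ℝ≥0∞ := volume (Metric.ball (0 : Space3) 1)

theorem v1_ne_top : v1 ≠ ∞ := measure_ball_lt_top.ne

/-- Null remainder of E6-direct. -/
def nul6 (Φ : Space3 → ℝ) (f₀ : PhasePoint → ℝ) (γ₀ : ℝ) (ρ : ℝ≥0∞) (L T r ε : ℝ) : ℝ≥0∞ :=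
  v1 * ((1 + ENNReal.ofReal T) *
      (ENNReal.ofReal T * (rhoS ρ * gI γ₀ * (ENNReal.ofReal ε * Sweep815.c3)))) +
    cO T (r / 2) * ENNReal.ofReal (ε + (T + T)) * (c1 Φ * (ENNReal.ofReal (1 / L) * gcE f₀ ε (exc f₀ ε en)) +
      ENNReal.ofReal ε ^ 2 * (cV Φ γ₀ * (cX (γ₀ / 2) ρ T * (c1 Φ * mean f₀ en))))

theorem cX_mono (γ₀ : ℝ) (ρ : ℝ≥0∞) {T T' : ℝ} (h : T ≤ T') : cX γ₀ ρ T ≤ cX γ₀ ρ T' := by
  unfold cX
  gcongr

set_option maxHeartbeats 1000000 in
theorem lineM_neg (γ : ℝ → ℝ) (ρ : ℝ≥0∞) (K : ℕ) (te : ℝ) :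
    lineM γ ρ K te {l : ML | l.1.1 < 0} = 0 := by
  have h1 : lineV te {l : ML | l.1.1 < 0} = 0 := by
    have hs : {l : ML | l.1.1 < 0} = ({z : LSt | z.1 < 0} ×ˢ (univ : Set ℕ)) := by
      ext l
      simp
    have hs2 : {z : LSt | z.1 < 0} = (Iio (0 : ℝ)) ×ˢ (univ : Set PhasePoint) := by
      ext z
      simp
    unfold lineV
    rw [hs]
    refine le_antisymm ?_ bot_le
    refine (Measure.prod_prod_le _ _).trans ?_
    rw [hs2]
    have h2 : ((volume.restrict (Ioc 0 te)).prod (volume : Measure PhasePoint))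
        ((Iio (0 : ℝ)) ×ˢ (univ : Set PhasePoint)) = 0 := by
      rw [Measure.prod_prod, Measure.restrict_apply measurableSet_Iio]
      have : Iio (0 : ℝ) ∩ Ioc 0 te = ∅ := by
        ext s
        simp only [mem_inter_iff, mem_Iio, mem_Ioc, mem_empty_iff_false, iff_false, not_and]
        intro h3 h4
        exact absurd h4 (not_lt.2 h3.le)
      rw [this, measure_empty, zero_mul]
    rw [h2, zero_mul]
  unfold lineM
  exact withDensity_absolutelyContinuous _ _ h1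

/-- **E6-direct.** -/
theorem direct6 (hΦ : AdmissiblePotential Φ) (hf : Measurable f₀)
    (h1 : ∫⁻ z, ENNReal.ofReal (f₀ z) ≤ 1) (hmean : mean f₀ en ≠ ∞) (hε : 0 < ε) (hε1 : ε ≤ 1)
    (hL : 0 < P.L) (htw : 0 ≤ P.tw) (hte : P.tw ≤ P.te) {T : ℝ} (hT : P.te ≤ T) {γ₀ : ℝ}
    (hγp : 0 < γ₀) (hγ : Measurable P.γ) (hγ₀ : ∀ τ ∈ Ioc 0 P.te, γ₀ ≤ P.γ τ) (hρ : P.ρ < 1)
    {Q : PPar} {Ξ ν : Measure (Lab × LSt)} {c : ℝ≥0∞} (hc : c ≠ ∞) (h : PX Q Ξ ν c)
    (hQℓ : Q.ℓ = lineM P.γ P.ρ K P.te) (hQt : Q.t' = P.te)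
    (hQW : ∀ z : LSt, z.1 ≤ Q.t' → ENNReal.ofReal (1 + ‖z.2.2‖) ≤ Q.W z) {r a : ℝ} (hr : 0 < r)
    (ha0 : 0 ≤ a) (har : a ≤ r / 2) (hah : a ≤ P.te - P.tw) :
    gcE f₀ ε (fun _ w => ∫⁻ p, dirP Φ ε K P a w p ∂ν) ≤
      c * (v1 * (XJ Φ f₀ ε K P (Ioc (max 0 (P.tw - r)) P.te) +
          ENNReal.ofReal (r + (P.te - P.tw)) * XI Φ f₀ ε K P) +
        cO T (r / 2) * (c1 Φ * mean f₀ en) * ENNReal.ofReal (ε + (a + (P.te - P.tw))) *
          XI Φ f₀ ε K P +
        nul6 Φ f₀ γ₀ P.ρ P.L T r ε) := by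
  have hte0 : 0 ≤ P.te := htw.trans hte
  set ℓ := lineM P.γ P.ρ K P.te with hℓ
  set h' := P.te - P.tw with hh'
  set m := 1 + ENNReal.ofReal P.te with hm
  have hmt : m ≠ ∞ := ENNReal.add_ne_top.2 ⟨ENNReal.one_ne_top, ENNReal.ofReal_ne_top⟩
  set C1 : ℝ≥0∞ := v1 * c with hC1
  have hC1t : C1 ≠ ∞ := ENNReal.mul_ne_top v1_ne_top hc
  set C2 : ℝ≥0∞ := 8 * Sweep815.c3 * ENNReal.ofReal ((r / 2)⁻¹ ^ 3) *
    (2 * ENNReal.ofReal (ε + (a + h')) * (c * m)) with hC2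
  have hC2t : C2 ≠ ∞ := by
    refine ENNReal.mul_ne_top (ENNReal.mul_ne_top (ENNReal.mul_ne_top ENNReal.ofNat_ne_top
      c3_ne_top) ENNReal.ofReal_ne_top) (ENNReal.mul_ne_top (ENNReal.mul_ne_top
        ENNReal.ofNat_ne_top ENNReal.ofReal_ne_top) (ENNReal.mul_ne_top hc hmt))
  -- the four functionals
  set I1 : (n : ℕ) → Config n → ℝ≥0∞ := fun _ w => ∫⁻ l, {l : ML | P.tw - r < l.1.1}.indicator
      (fun l => tW Φ ε K P w l) l ∂ℓ with hI1
  set I2 : (n : ℕ) → Config n → ℝ≥0∞ := fun _ w => ∫⁻ l, tW Φ ε K P w l ∂ℓ with hI2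
  set I3 : (n : ℕ) → Config n → ℝ≥0∞ := fun _ w => ℓ (goodB Φ ε w)ᶜ with hI3
  set I4 : (n : ℕ) → Config n → ℝ≥0∞ := fun _ w => ENNReal.ofReal ε ^ 2 *
      ∫⁻ l, tW Φ ε K P w l * (ENNReal.ofReal (totE Φ w) + enD Φ l) ∂ℓ with hI4
  have hset : MeasurableSet {l : ML | P.tw - r < l.1.1} :=
    measurableSet_lt measurable_const (by fun_prop)
  have hI1m : ∀ n, Measurable (I1 n) := by
    intro n
    have h2 := measurable_int hΦ hε K P (ℓ := ℓ)
      (F := {l : ML | P.tw - r < l.1.1}.indicator 1) (measurable_one.indicator hset) n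
    have e : I1 n = fun w : Config n => ∫⁻ l, tW Φ ε K P w l *
        {l : ML | P.tw - r < l.1.1}.indicator 1 l ∂ℓ := by
      funext w
      refine lintegral_congr fun l => ?_
      by_cases hl : l ∈ {l : ML | P.tw - r < l.1.1}
      · rw [indicator_of_mem hl, indicator_of_mem hl, Pi.one_apply, mul_one]
      · rw [indicator_of_notMem hl, indicator_of_notMem hl, mul_zero]
    rw [e]
    exact h2
  have hI2m : ∀ n, Measurable (I2 n) := by
    intro n
    have := measurable_int hΦ hε K P (ℓ := ℓ) (F := fun _ => 1) measurable_const n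
    simpa only [mul_one] using this
  have hI4m : ∀ n, Measurable (I4 n) := by
    intro n
    have h3 : Measurable fun p : Config n × ML => tW Φ ε K P p.1 p.2 *
        (ENNReal.ofReal (totE Φ p.1) + enD Φ p.2) := by
      refine (measurable_tW hΦ hε K P n).mul (Measurable.add ?_
        (measurable_enD.comp measurable_snd))
      unfold totE
      fun_prop
    exact (h3.lintegral_prod_right').const_mul _
  have hpt : ∀ n, ∀ w ∈ PairExcluded ε n, ∫⁻ p, dirP Φ ε K P a w p ∂ν ≤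
      C1 * I1 n w + (C1 * ENNReal.ofReal (r + h') * I2 n w + (C2 * I4 n w +
        C1 * m * I3 n w)) := by
    intro n w hw
    refine (direct6_world (K := K) (P := P) hΦ hε hw h hQt hQW
      (by rw [hQℓ]; exact lineM_neg _ _ _ _) hr ha0 har hL.le htw).trans (le_of_eq ?_)
    rw [hQℓ]
    simp only [hI1, hI2, hI3, hI4, hC1, hC2, hm, v1, hh']
    ring
  have hb1 := int1_le (K := K) hΦ hf hε hL.le hγ r
  have hb2 := int2_le (K := K) hΦ hf hε hL.le hγ
  have hb3 := int3_le (K := K) hΦ hf h1 hε hγp hγ hγ₀ hρ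
  have hb4 := int4_le (K := K) hΦ hf h1 hmean hε hε1 hL hte0 hγp hγ hγ₀ hρ
  have hC1r : C1 * ENNReal.ofReal (r + h') ≠ ∞ := ENNReal.mul_ne_top hC1t ENNReal.ofReal_ne_top
  have hC1m : C1 * m ≠ ∞ := ENNReal.mul_ne_top hC1t hmt
  calc gcE f₀ ε (fun _ w => ∫⁻ p, dirP Φ ε K P a w p ∂ν)
      ≤ gcE f₀ ε (fun n w => C1 * I1 n w + (C1 * ENNReal.ofReal (r + h') * I2 n w +
          (C2 * I4 n w + C1 * m * I3 n w))) := gcE_mono f₀ ε hpt
    _ = C1 * gcE f₀ ε I1 + (C1 * ENNReal.ofReal (r + h') * gcE f₀ ε I2 +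
          (C2 * gcE f₀ ε I4 + C1 * m * gcE f₀ ε I3)) := by
        rw [gcE_add hf ε fun n => (hI1m n).const_mul _,
          gcE_add hf ε fun n => (hI2m n).const_mul _,
          gcE_add hf ε fun n => (hI4m n).const_mul _,
          gcE_const_mul f₀ ε hC1t, gcE_const_mul f₀ ε hC1r, gcE_const_mul f₀ ε hC2t,
          gcE_const_mul f₀ ε hC1m]
    _ ≤ C1 * XJ Φ f₀ ε K P (Ioc (max 0 (P.tw - r)) P.te) +
          (C1 * ENNReal.ofReal (r + h') * XI Φ f₀ ε K P +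
          (C2 * (c1 Φ * (mean f₀ en * XI Φ f₀ ε K P +
            ENNReal.ofReal (1 / P.L) * gcE f₀ ε (exc f₀ ε en)) +
            ENNReal.ofReal ε ^ 2 * (cV Φ γ₀ * (cX (γ₀ / 2) P.ρ P.te * (c1 Φ * mean f₀ en)))) +
          C1 * m * (ENNReal.ofReal P.te * (rhoS P.ρ * gI γ₀ *
            (ENNReal.ofReal ε * Sweep815.c3))))) := by
        gcongr
    _ ≤ C1 * XJ Φ f₀ ε K P (Ioc (max 0 (P.tw - r)) P.te) +
          (C1 * ENNReal.ofReal (r + h') * XI Φ f₀ ε K P +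
          (c * (cO T (r / 2) * ENNReal.ofReal (ε + (a + h')) * (c1 Φ * mean f₀ en) *
              XI Φ f₀ ε K P) +
            c * (cO T (r / 2) * ENNReal.ofReal (ε + (T + T)) * (c1 Φ * (ENNReal.ofReal (1 / P.L) *
              gcE f₀ ε (exc f₀ ε en)) + ENNReal.ofReal ε ^ 2 *
                (cV Φ γ₀ * (cX (γ₀ / 2) P.ρ T * (c1 Φ * mean f₀ en))))) +
          C1 * (1 + ENNReal.ofReal T) * (ENNReal.ofReal T * (rhoS P.ρ * gI γ₀ *
            (ENNReal.ofReal ε * Sweep815.c3))))) := by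
        have hmT : m ≤ 1 + ENNReal.ofReal T := by rw [hm]; gcongr
        have hC2le : C2 ≤ c * (cO T (r / 2) * ENNReal.ofReal (ε + (a + h'))) := by
          rw [hC2]
          unfold cO
          calc 8 * Sweep815.c3 * ENNReal.ofReal ((r / 2)⁻¹ ^ 3) *
                (2 * ENNReal.ofReal (ε + (a + h')) * (c * m))
              ≤ 8 * Sweep815.c3 * ENNReal.ofReal ((r / 2)⁻¹ ^ 3) *
                (2 * ENNReal.ofReal (ε + (a + h')) * (c * (1 + ENNReal.ofReal T))) := by gcongr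
            _ = (8 * 2) * (Sweep815.c3 * ENNReal.ofReal ((r / 2)⁻¹ ^ 3) *
                (ENNReal.ofReal (ε + (a + h')) * (c * (1 + ENNReal.ofReal T)))) := by ring
            _ = 16 * (Sweep815.c3 * ENNReal.ofReal ((r / 2)⁻¹ ^ 3) *
                (ENNReal.ofReal (ε + (a + h')) * (c * (1 + ENNReal.ofReal T)))) := by norm_num
            _ = _ := by ring
        have hC2le' : C2 ≤ c * (cO T (r / 2) * ENNReal.ofReal (ε + (T + T))) := by
          refine hC2le.trans (mul_le_mul_right (mul_le_mul_right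
            (ENNReal.ofReal_le_ofReal ?_) _) _)
          rw [hh']
          linarith
        have hcX := cX_mono (γ₀ / 2) P.ρ hT
        have hteT : ENNReal.ofReal P.te ≤ ENNReal.ofReal T := ENNReal.ofReal_le_ofReal hT
        refine add_le_add le_rfl (add_le_add le_rfl (add_le_add ?_ ?_))
        · calc C2 * (c1 Φ * (mean f₀ en * XI Φ f₀ ε K P +
                ENNReal.ofReal (1 / P.L) * gcE f₀ ε (exc f₀ ε en)) +
                ENNReal.ofReal ε ^ 2 * (cV Φ γ₀ * (cX (γ₀ / 2) P.ρ P.te *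
                  (c1 Φ * mean f₀ en))))
              = C2 * ((c1 Φ * mean f₀ en) * XI Φ f₀ ε K P) +
                C2 * (c1 Φ * (ENNReal.ofReal (1 / P.L) * gcE f₀ ε (exc f₀ ε en)) +
                ENNReal.ofReal ε ^ 2 * (cV Φ γ₀ * (cX (γ₀ / 2) P.ρ P.te *
                  (c1 Φ * mean f₀ en)))) := by ring
            _ ≤ (c * (cO T (r / 2) * ENNReal.ofReal (ε + (a + h')))) * ((c1 Φ * mean f₀ en) *
                  XI Φ f₀ ε K P) +
                (c * (cO T (r / 2) * ENNReal.ofReal (ε + (T + T)))) *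
                  (c1 Φ * (ENNReal.ofReal (1 / P.L) *
                  gcE f₀ ε (exc f₀ ε en)) +
                ENNReal.ofReal ε ^ 2 * (cV Φ γ₀ * (cX (γ₀ / 2) P.ρ T *
                  (c1 Φ * mean f₀ en)))) := by gcongr
            _ = _ := by ring
        · gcongr
    _ = _ := by
        unfold nul6
        rw [hC1]
        ring

/-- The null remainder is null. -/
theorem tendsto_nul6 (hf : Measurable f₀) (h1 : ∫⁻ z, ENNReal.ofReal (f₀ z) ≤ 1) {R : ℝ≥0∞}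
    (hRt : R ≠ ∞) (hR : ∀ x : Space3, ∫⁻ v : Space3, ENNReal.ofReal (f₀ (x, v)) ≤ R)
    (hmean : mean f₀ en ≠ ∞) (h2 : ∫⁻ z, ENNReal.ofReal (f₀ z) * en z ^ 2 ≠ ∞) {γ₀ : ℝ}
    (hγp : 0 < γ₀) {ρ : ℝ≥0∞} (hρ : ρ < 1) (L T r : ℝ) :
    Tendsto (fun ε => nul6 Φ f₀ γ₀ ρ L T r ε) (𝓝[>] 0) (𝓝 0) := by
  have ht0 : Tendsto (fun ε : ℝ => ENNReal.ofReal ε) (𝓝[>] 0) (𝓝 0) := by
    have := (ENNReal.continuous_ofReal.tendsto 0).mono_left
      (nhdsWithin_le_nhds : (𝓝[>] (0 : ℝ)) ≤ 𝓝 0)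
    rwa [ENNReal.ofReal_zero] at this
  have htT : Tendsto (fun ε : ℝ => ENNReal.ofReal (ε + (T + T))) (𝓝[>] 0)
      (𝓝 (ENNReal.ofReal (T + T))) := by
    have h3 : Tendsto (fun ε : ℝ => ε + (T + T)) (𝓝 0) (𝓝 (0 + (T + T))) :=
      (continuous_id.add continuous_const).tendsto 0
    rw [zero_add] at h3
    exact (ENNReal.continuous_ofReal.tendsto (T + T)).comp (h3.mono_left nhdsWithin_le_nhds)
  have hexc := tendsto_gcE_exc hf h1 hRt hR measurable_en hmean h2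
  have hA : Tendsto (fun ε : ℝ => v1 * ((1 + ENNReal.ofReal T) *
      (ENNReal.ofReal T * (rhoS ρ * gI γ₀ * (ENNReal.ofReal ε * Sweep815.c3)))))
      (𝓝[>] 0) (𝓝 0) := by
    have hk : v1 * (1 + ENNReal.ofReal T) * (ENNReal.ofReal T * (rhoS ρ * gI γ₀ *
        Sweep815.c3)) ≠ ∞ :=
      ENNReal.mul_ne_top (ENNReal.mul_ne_top v1_ne_top
        (ENNReal.add_ne_top.2 ⟨ENNReal.one_ne_top, ENNReal.ofReal_ne_top⟩))
        (ENNReal.mul_ne_top ENNReal.ofReal_ne_top (ENNReal.mul_ne_top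
          (ENNReal.mul_ne_top (rhoS_lt_top hρ).ne (gI_lt_top hγp).ne) c3_ne_top))
    have h3 := ENNReal.Tendsto.const_mul ht0 (Or.inr hk)
    rw [mul_zero] at h3
    refine h3.congr fun ε => ?_
    ring
  have hB1 : Tendsto (fun ε : ℝ => c1 Φ * (ENNReal.ofReal (1 / L) * gcE f₀ ε (exc f₀ ε en)))
      (𝓝[>] 0) (𝓝 0) := by
    have hk : c1 Φ * ENNReal.ofReal (1 / L) ≠ ∞ :=
      ENNReal.mul_ne_top ENNReal.ofReal_ne_top ENNReal.ofReal_ne_top
    have h3 := ENNReal.Tendsto.const_mul hexc (Or.inr hk)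
    rw [mul_zero] at h3
    refine h3.congr fun ε => ?_
    ring
  have hB2 : Tendsto (fun ε : ℝ => ENNReal.ofReal ε ^ 2 *
      (cV Φ γ₀ * (cX (γ₀ / 2) ρ T * (c1 Φ * mean f₀ en)))) (𝓝[>] 0) (𝓝 0) := by
    have hk : cV Φ γ₀ * (cX (γ₀ / 2) ρ T * (c1 Φ * mean f₀ en)) ≠ ∞ :=
      ENNReal.mul_ne_top ENNReal.ofReal_ne_top (ENNReal.mul_ne_top
        (cX_lt_top (half_pos hγp) hρ _).ne (ENNReal.mul_ne_top ENNReal.ofReal_ne_top hmean))
    have h3 := ENNReal.Tendsto.mul_const (ENNReal.Tendsto.pow (n := 2) ht0) (Or.inr hk)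
    rw [zero_pow two_ne_zero, zero_mul] at h3
    exact h3
  have hB := hB1.add hB2
  rw [add_zero] at hB
  have hC : Tendsto (fun ε : ℝ => cO T (r / 2) * ENNReal.ofReal (ε + (T + T))) (𝓝[>] 0)
      (𝓝 (cO T (r / 2) * ENNReal.ofReal (T + T))) :=
    ENNReal.Tendsto.const_mul htT (Or.inr (cO_ne_top T (r / 2)))
  have hD := ENNReal.Tendsto.mul hC
    (Or.inr ENNReal.zero_ne_top) hB
    (Or.inr (ENNReal.mul_ne_top (cO_ne_top T (r / 2)) ENNReal.ofReal_ne_top))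
  rw [mul_zero] at hD
  have hE := hA.add hD
  rw [add_zero] at hE
  exact hE

theorem null_nul6 (hf : Measurable f₀) (h1 : ∫⁻ z, ENNReal.ofReal (f₀ z) ≤ 1) {R : ℝ≥0∞}
    (hRt : R ≠ ∞) (hR : ∀ x : Space3, ∫⁻ v : Space3, ENNReal.ofReal (f₀ (x, v)) ≤ R)
    (hmean : mean f₀ en ≠ ∞) (h2 : ∫⁻ z, ENNReal.ofReal (f₀ z) * en z ^ 2 ≠ ∞) {γ₀ : ℝ}
    (hγp : 0 < γ₀) {ρ : ℝ≥0∞} (hρ : ρ < 1) (L T r : ℝ) :
    Null fun _ ε => nul6 Φ f₀ γ₀ ρ L T r ε :=
  Null.of_tendsto (tendsto_nul6 hf h1 hRt hR hmean h2 hγp hρ L T r)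

end

end Crest.Agent.R122.Direct658
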