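import Crest.Agent.R122.GhostErr_370

/-!
# First discrepancy of the real and the ghost world (row 122, helper370), item F3

`exists_discAt` : if the cluster `V` is good (hitter `j` at time `σ`) and the conditions on the rest
in the real world `V ∪ w` and in the world `w` alone are not equivalent, then there is a first time
`v < σ` at which exactly one of the two conditions fails. Up to `v` the protected legs of `V` are
isolated in the real world and everything is unhit in both worlds; at the time `v` a particle of `w`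
is near the obstacle (test family or protected tubes) in exactly one of the two worlds, or a
RELEASED particle of `V` is near the obstacle in the real world.
-/

set_option autoImplicit false
open MeasureTheory Set Filter
open scoped Classical ENNReal Topology
open Crest.AnalysisR.Kinetic
open Crest.Agent.R122.GC311 Crest.Agent.R122.Causal291 Crest.Agent.R122.Hit167
open Crest.Agent.R122.GhostErr370 Crest.Agent.R122.Flow671 Crest.Agent.R122.Loc45
noncomputable section

namespace Crest.Agent.R122.Disc370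

section disc

/-- First discrepancy at time `v`. -/
structure DiscAt (Φ : Space3 → ℝ) (ε : ℝ) {α : Type} (c : α → ℝ → Space3) (θ : α → ℝ) {k m : ℕ}
    (V : Config k) (w : Config m) (j : Fin k) (σ v : ℝ) : Prop where
  mem : v ∈ Ico 0 σ
  dom : (Fin.append V w : Config (k + m)) ∈ Dom Φ (Fin (k + m))
  /-- the protected legs are isolated in the real world before `v` -/
  iso : Iso (pth Φ ε (Fin.append V w : Config (k + m))) ε
    (fun s => Fin.castAdd m '' fam (tauPre (pth Φ ε V) ε j σ) s) v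
  /-- the test family is unhit in the real world before `v` -/
  unhit : Unhit (pth Φ ε (Fin.append V w : Config (k + m))) ε c θ v
  /-- the test family and the protected tubes are unhit in the world `w` before `v` -/
  ghost : Unhit (pth Φ ε w) ε (cS Φ ε c V) (thS Φ ε θ V j σ) v
  /-- the protected legs have the same states in the two worlds up to `v` -/
  agree : ∀ s ∈ Icc 0 v, ∀ i, s ≤ tauPre (pth Φ ε V) ε j σ i →
    pth Φ ε V s i = pth Φ ε (Fin.append V w : Config (k + m)) s (Fin.castAdd m i)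
  /-- the discrepancy -/
  odd : (∃ q : Fin m, ¬ (HitsAt (pth Φ ε w) ε (cS Φ ε c V) (thS Φ ε θ V j σ) v q ↔
      HitsAt (pth Φ ε (Fin.append V w : Config (k + m))) ε (cS Φ ε c V) (thS Φ ε θ V j σ) v
        (Fin.natAdd k q))) ∨
    ∃ i : Fin k, tauPre (pth Φ ε V) ε j σ i < v ∧
      HitsAt (pth Φ ε (Fin.append V w : Config (k + m))) ε (cS Φ ε c V) (thS Φ ε θ V j σ) v
        (Fin.castAdd m i)

variable {Φ : Space3 → ℝ} {ε : ℝ} {α : Type} {c : α → ℝ → Space3} {θ : α → ℝ} {𝒢 : Cls}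
  {k m : ℕ} {V : Config k} {w : Config m} {j : Fin k} {σ : ℝ}

theorem hitsAt_sum {ι : Type*} {z : ℝ → ι → PhasePoint} {s : ℝ} {q : ι} :
    HitsAt z ε (cS Φ ε c V) (thS Φ ε θ V j σ) s q ↔ HitsAt z ε c θ s q ∨
      HitsAt z ε (fun i s => (pth Φ ε V s i).1) (tauPre (pth Φ ε V) ε j σ) s q := by
  constructor
  · rintro ⟨a | i, h1, h2⟩
    · exact Or.inl ⟨a, h1, h2⟩
    · exact Or.inr ⟨i, h1, h2⟩
  · rintro (⟨a, h1, h2⟩ | ⟨i, h1, h2⟩)
    · exact ⟨Sum.inl a, h1, h2⟩
    · exact ⟨Sum.inr i, h1, h2⟩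

/-- The protected family is isolated in its own world. -/
theorem iso_fam (hΦ : AdmissiblePotential Φ) (hε : 0 < ε) (hσ : 0 < σ)
    (h : GoodV Φ ε c θ 𝒢 V j σ) : Iso (pth Φ ε V) ε (fam (tauPre (pth Φ ε V) ε j σ)) σ :=
  (iso_preAct (z := pth Φ ε V) (j := j)).congr fun _ hs =>
    preAct_eq_fam (continuous_pth hΦ hε V) hσ h.good.full h.alone hs

theorem tauPre_nonneg (hσ : 0 < σ) (h : GoodV Φ ε c θ 𝒢 V j σ) (i : Fin k) :
    0 ≤ tauPre (pth Φ ε V) ε j σ i := by
  have h0 : i ∈ preAct (pth Φ ε V) ε j σ 0 := by rw [h.good.full]; exact mem_univ i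
  exact le_csSup ⟨σ, fun u hu => hu.1.le⟩ ⟨hσ, h0⟩

/-- Without mutual exclusion there is a ghost hit at time `0`. -/
theorem perp_of_ghost (hΦ : AdmissiblePotential Φ) (hε : 0 < ε) (hσ : 0 < σ)
    (h : GoodV Φ ε c θ 𝒢 V j σ) (hg : Ghost Φ ε c θ V j σ w) : Perp ε V w := by
  intro i q
  by_contra hle
  push Not at hle
  refine hg 0 ⟨le_rfl, hσ⟩ q ⟨Sum.inr i, tauPre_nonneg hσ h i, ?_⟩
  have h1 : pth Φ ε V 0 = V := flow_zero hΦ hε V
  have h2 : pth Φ ε w 0 = w := flow_zero hΦ hε w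
  show dist (pth Φ ε V 0 i).1 (pth Φ ε w 0 q).1 ≤ ε
  rw [h1, h2]
  exact hle

/-- **First discrepancy.** -/
theorem exists_discAt [Finite α] (hΦ : AdmissiblePotential Φ) (hε : 0 < ε)
    (hc : ∀ a, Continuous (c a)) (hσ : 0 < σ) (hV : V ∈ PairExcluded ε k)
    (hw : w ∈ PairExcluded ε m) (h : GoodV Φ ε c θ 𝒢 V j σ) (hD : Disc Φ ε c θ V j σ w) :
    ∃ v, DiscAt Φ ε c θ V w j σ v := by
  set X : Config (k + m) := Fin.append V w with hX
  set τ := tauPre (pth Φ ε V) ε j σ with hτ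
  -- mutual exclusion
  have hperp : Perp ε V w := by
    by_contra hp
    refine hD ⟨fun h1 => absurd h1.1 hp, fun h2 => absurd (perp_of_ghost hΦ hε hσ h h2) hp⟩
  have hXe : X ∈ PairExcluded ε (k + m) := (append_mem_pairExcluded_iff V w).2 ⟨hV, hw, hperp⟩
  have hXD : X ∈ Dom Φ (Fin (k + m)) := pairExcluded_subset_Dom hε _ hXe
  have hVD : V ∈ Dom Φ (Fin k) := pairExcluded_subset_Dom hε _ hV
  have hloc : LocUniq ε σ (pth Φ ε V) (pth Φ ε X) := locUniq_pth hΦ hε σ hVD hXD
  have hzV : ∀ i, ContinuousOn (fun s => pth Φ ε V s i) (Icc 0 σ) :=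
    fun i => (continuous_pth hΦ hε V i).continuousOn
  have hzX : ∀ i, ContinuousOn (fun s => pth Φ ε X s i) (Icc 0 σ) :=
    fun i => (continuous_pth hΦ hε X i).continuousOn
  have hinj : Function.Injective (Fin.castAdd m : Fin k → Fin (k + m)) :=
    Fin.castAdd_injective k m
  have h0 : ∀ i ∈ fam τ 0, pth Φ ε V 0 i = pth Φ ε X 0 (Fin.castAdd m i) := by
    intro i _
    have e1 : pth Φ ε V 0 = V := flow_zero hΦ hε V
    have e2 : pth Φ ε X 0 = X := flow_zero hΦ hε X
    rw [e1, e2, hX, Fin.append_left]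
  have hI1 : Iso (pth Φ ε V) ε (fam τ) σ := iso_fam hΦ hε hσ h
  have hA : Anti (fam τ) σ := fam_anti τ σ
  have hag : ∀ v, v ≤ σ → Iso (pth Φ ε X) ε (fun s => Fin.castAdd m '' fam τ s) v →
      ∀ s ∈ Icc 0 v, ∀ i ∈ fam τ s, pth Φ ε V s i = pth Φ ε X s (Fin.castAdd m i) := by
    intro v hv hI2
    exact Iso.agree hzV hzX hloc hinj hv (hA.mono hv) h0 (hI1.mono hv) hI2
  -- a failing particle of the real world, seen from the obstacle
  have hsplit : ∀ l : Fin (k + m), (∃ i, l = Fin.castAdd m i) ∨ ∃ q, l = Fin.natAdd k q := by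
    intro l
    refine Fin.addCases (fun i => Or.inl ⟨i, rfl⟩) (fun q => Or.inr ⟨q, rfl⟩) l
  have hgi : ∀ (q : Fin m) (s : ℝ), Fin.natAdd k q ∉ Fin.castAdd m '' fam τ s := by
    rintro q s ⟨i, _, hi⟩
    have := congrArg Fin.val hi
    simp at this
    omega
  by_cases hR : Real1 Φ ε c θ V j σ w
  · -- the ghost world fails first
    have hG : ¬ Ghost Φ ε c θ V j σ w := fun h2 => hD ⟨fun _ => h2, fun _ => hR⟩
    obtain ⟨-, hR2⟩ := hR
    have hRi : Iso (pth Φ ε X) ε (fun s => Fin.castAdd m '' fam τ s) σ := by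
      have := hR2.iso
      rwa [append_comp_castAdd] at this
    have hcS : ∀ a, Continuous (cS Φ ε c V a) := by
      rintro (a | i)
      · exact hc a
      · exact (continuous_pth hΦ hε V i).fst
    obtain ⟨v, hv, -, hU, q, hq⟩ := exists_first_hit (z := pth Φ ε w) (θ := thS Φ ε θ V j σ)
      (continuous_pth hΦ hε w) hcS (t₀ := 0)
      (fun s hs => absurd hs.1 (not_le.2 hs.2)) hG
    refine ⟨v, hv, hXD, hRi.mono hv.2.le, hR2.unhit.mono hv.2.le, hU,
      hag v hv.2.le (hRi.mono hv.2.le), Or.inl ⟨q, fun hiff => ?_⟩⟩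
    rcases hitsAt_sum.1 (hiff.1 hq) with h1 | ⟨i, h1, h2⟩
    · exact hR2.unhit v hv _ h1
    · have h3 := hRi v hv (Fin.castAdd m i) ⟨i, h1, rfl⟩ (Fin.natAdd k q) (hgi q v)
      rw [← hag v hv.2.le (hRi.mono hv.2.le) v ⟨hv.1, le_rfl⟩ i h1] at h3
      exact absurd h2 (not_le.2 h3)
  · -- the real world fails first
    have hG : Ghost Φ ε c θ V j σ w := by
      by_contra hG
      exact hD ⟨fun h1 => absurd h1 hR, fun h2 => absurd h2 hG⟩
    -- first failure: `v` with isolation and no hit before and a failure at `v`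
    obtain ⟨v, hv, hvI, hvU, hfail⟩ : ∃ v ∈ Ico 0 σ,
        Iso (pth Φ ε X) ε (fun s => Fin.castAdd m '' fam τ s) v ∧ Unhit (pth Φ ε X) ε c θ v ∧
        ((∃ l, TouchAt (pth Φ ε X) ε (fun s => Fin.castAdd m '' fam τ s) v l) ∨
          ∃ l, HitsAt (pth Φ ε X) ε c θ v l) := by
      have hU0 : Unhit (pth Φ ε X) ε c θ 0 := fun s hs => absurd hs.1 (not_le.2 hs.2)
      rcases iso_or_first_touch hzV hzX hloc hinj le_rfl hA h0 hI1 with hI | ⟨v₁, hv₁, hI₁, l, hl⟩
      · have hnU : ¬ Unhit (pth Φ ε X) ε c θ σ := by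
          intro hU
          refine hR ⟨hperp, ?_, hU⟩
          rw [append_comp_castAdd]
          exact hI
        obtain ⟨v, hv, -, hU, l, hl⟩ := exists_first_hit (z := pth Φ ε X) (θ := θ)
          (continuous_pth hΦ hε X) hc hU0 hnU
        exact ⟨v, hv, hI.mono hv.2.le, hU, Or.inr ⟨l, hl⟩⟩
      · by_cases hU : Unhit (pth Φ ε X) ε c θ v₁
        · exact ⟨v₁, hv₁, hI₁, hU, Or.inl ⟨l, hl⟩⟩
        · obtain ⟨v, hv, -, hU, l', hl'⟩ := exists_first_hit (z := pth Φ ε X) (θ := θ)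
            (continuous_pth hΦ hε X) hc hU0 hU
          exact ⟨v, ⟨hv.1, hv.2.trans hv₁.2⟩, hI₁.mono hv.2.le, hU, Or.inr ⟨l', hl'⟩⟩
    have hagv := hag v hv.2.le hvI
    refine ⟨v, hv, hXD, hvI, hvU, hG.mono hv.2.le, hagv, ?_⟩
    -- the failing particle is near the obstacle
    have hnear : ∃ l, HitsAt (pth Φ ε X) ε (cS Φ ε c V) (thS Φ ε θ V j σ) v l ∧
        ∀ i, l = Fin.castAdd m i → τ i < v := by
      rcases hfail with ⟨l, hl, i', hi', hd⟩ | ⟨l, hl⟩
      · obtain ⟨i, hi, rfl⟩ := hi'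
        refine ⟨l, hitsAt_sum.2 (Or.inr ⟨i, hi, ?_⟩), ?_⟩
        · show dist (pth Φ ε V v i).1 _ ≤ ε
          rw [hagv v ⟨hv.1, le_rfl⟩ i hi]
          exact hd
        · rintro i'' rfl
          by_contra hle
          push Not at hle
          exact hl ⟨i'', hle, rfl⟩
      · refine ⟨l, hitsAt_sum.2 (Or.inl hl), ?_⟩
        rintro i rfl
        by_contra hle
        push Not at hle
        obtain ⟨a, ha, hd⟩ := hl
        refine h.good.unhit v hv i ?_ ⟨a, ha, ?_⟩
        · rw [preAct_eq_fam (continuous_pth hΦ hε V) hσ h.good.full h.alone hv]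
          exact hle
        · rw [hagv v ⟨hv.1, le_rfl⟩ i hle]
          exact hd
    obtain ⟨l, hl, hrel⟩ := hnear
    rcases hsplit l with ⟨i, rfl⟩ | ⟨q, rfl⟩
    · exact Or.inr ⟨i, hrel i rfl, hl⟩
    · exact Or.inl ⟨q, fun hiff => hG v hv q (hiff.2 hl)⟩

end disc

end Crest.Agent.R122.Disc370
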