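import Crest.Agent.R122.FinalDefs_973

/-!
# Row 122, block FP (helper973): lower bound of the factorial marginals by ghost-avoidance forests

* `count_tree` : Σ over a finite set of forest types of the real-avoidance tree integrals is at most
  the factorial marginal.
* `H973` : the same with ghost avoidance, up to an error which vanishes by `RetNull`.
-/

set_option autoImplicit false

open MeasureTheory Set Filter Topology Crest.AnalysisR.Kinetic
open scoped Classical ENNReal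

noncomputable section

namespace Crest.Agent.R122.Final973

open Kin796 Kin796.CTree Disc416 Tree674 Causal291 GC311 Flow671 Loc45
open Forest399 (FPar flines fpath FValid FSep FVS flinesM FSkelS finv fsize)
open GIV566 Hid424

variable {Φ : Space3 → ℝ} {f₀ : PhasePoint → ℝ} {ε : ℝ} {s : ℕ} {Ps : Fin s → CTree} {t T : ℝ}
  {q : FPar Ps}

theorem card_FIdx (Ps : Fin s → CTree) : Fintype.card (FIdx Ps) = fsize Ps + s := by
  unfold FIdx fsize
  rw [Fintype.card_sigma]
  have : ∀ i, Fintype.card (Idx (Ps i)) = (Ps i).size + 1 := fun i => by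
    rw [card_idx, CTree.leaves_eq]
  simp only [this, Finset.sum_add_distrib, Finset.sum_const, Finset.card_univ, Fintype.card_fin,
    smul_eq_mul, mul_one]

theorem activity_mul_sq (hε : 0 < ε) : activity ε * ENNReal.ofReal (ε ^ 2) = 1 := by
  unfold activity
  rw [← ENNReal.ofReal_mul (by positivity), inv_mul_cancel₀ (by positivity), ENNReal.ofReal_one]

theorem activity_ne_zero (hε : 0 < ε) : activity ε ≠ 0 := by
  unfold activity
  rw [Ne, ENNReal.ofReal_eq_zero, not_le]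
  positivity

theorem activity_ne_top : activity ε ≠ ∞ := ENNReal.ofReal_ne_top

/-- The roots of a forest at time `t`. -/
def froots (Ps : Fin s → CTree) (t : ℝ) (q : FPar Ps) : Config s := fun i => onLine (q i).1 t

theorem measurable_froots (Ps : Fin s → CTree) (t : ℝ) : Measurable (froots Ps t) := by
  refine measurable_pi_lambda _ fun i => ?_
  exact (Tree674.measurable_onLine t).comp (measurable_pi_apply i).fst

theorem measurable_FVS_ind (hΦ : AdmissiblePotential Φ) (hε : 0 < ε) (Ps : Fin s → CTree) (t : ℝ)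
    {G : (FIdx Ps → PhasePoint) → ℝ≥0∞} (hG : Measurable G) {H : FPar Ps → ℝ≥0∞}
    (hH : Measurable H) : Measurable fun q : FPar Ps => (FVS Φ ε Ps t).indicator (fun q =>
      (∏ i, wt Φ (Ps i) (q i).1.2 (q i).2) * (G (flines Φ ε Ps q) * H q)) q := by
  have h : (fun q : FPar Ps => (FVS Φ ε Ps t).indicator (fun q =>
      (∏ i, wt Φ (Ps i) (q i).1.2 (q i).2) * (G (flines Φ ε Ps q) * H q)) q) =
      fun q : FPar Ps => (FVS Φ ε Ps t).indicator (fun q =>
        Forest399.fvw Φ ε Ps t q * (G (flinesM Φ ε Ps q) * H q)) q := by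
    funext q
    by_cases hq : q ∈ FVS Φ ε Ps t
    · rw [indicator_of_mem hq, indicator_of_mem hq, Forest399.fvw_of_valid hq.1,
        Forest399.flinesM_of_valid hq.1]
    · rw [indicator_of_notMem hq, indicator_of_notMem hq]
  rw [h]
  exact ((Forest399.measurable_fvw hΦ ε Ps t).mul
    ((hG.comp (Forest399.measurable_flinesM hΦ ε Ps)).mul hH)).indicator
    (Forest399.measurableSet_FVS hΦ hε Ps t)

/-- **Real-avoidance forests are counted by the factorial marginal.** -/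
theorem count_tree (hf : Measurable f₀) (hΦ : AdmissiblePotential Φ) (hε : 0 < ε)
    (ht : 0 ≤ t) {A : Set (Config s)} (hA : MeasurableSet A) (Fs : Finset (Fin s → CTree)) :
    ∑ Ps ∈ Fs, ∫⁻ q : FPar Ps, (FVS Φ ε Ps t).indicator (fun q =>
      (∏ i, wt Φ (Ps i) (q i).1.2 (q i).2) * (wt0 f₀ ε (flines Φ ε Ps q) *
        uRF Φ f₀ ε Ps t q * (froots Ps t ⁻¹' A).indicator 1 q)) q ≤
      factorialMarginal f₀ ε (Master566.flowEv Φ ε) s t A := by
  have ha0 := activity_ne_zero hε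
  have haT : activity ε ^ s ≠ ∞ := ENNReal.pow_ne_top activity_ne_top
  have ha0' : activity ε ^ s ≠ 0 := pow_ne_zero _ ha0
  rw [← ENNReal.mul_le_mul_iff_right ha0' haT]
  refine le_trans ?_ (count_le (f₀ := f₀) (s := s) hf hΦ hε ht hA Fs)
  rw [Finset.mul_sum]
  refine Finset.sum_le_sum fun Ps _ => ?_
  have hH : Measurable fun z : FPar Ps × (FIdx Ps → PhasePoint) =>
      wt0 f₀ ε z.2 * uRF Φ f₀ ε Ps t z.1 * (froots Ps t ⁻¹' A).indicator (1 : FPar Ps → ℝ≥0∞) z.1 :=
    (((measurable_wt0 hf).comp measurable_snd).mul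
      ((measurable_uRF hf hΦ hε ht Ps).comp measurable_fst)).mul
      ((measurable_one.indicator (measurable_froots Ps t hA)).comp measurable_fst)
  have key := Forest399.forestMeasure_sep hΦ hε Ps t hH
  rw [card_FIdx, pow_add, mul_comm (activity ε ^ fsize Ps), mul_assoc]
  refine mul_le_mul_right ?_ _
  have h1 : (∫⁻ q : FPar Ps, (FVS Φ ε Ps t).indicator (fun q =>
      (∏ i, wt Φ (Ps i) (q i).1.2 (q i).2) * (wt0 f₀ ε (flines Φ ε Ps q) *
        uRF Φ f₀ ε Ps t q * (froots Ps t ⁻¹' A).indicator 1 q)) q) =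
      activity ε ^ fsize Ps * (ENNReal.ofReal (ε ^ 2) ^ fsize Ps *
        ∫⁻ q : FPar Ps, (FVS Φ ε Ps t).indicator (fun q =>
      (∏ i, wt Φ (Ps i) (q i).1.2 (q i).2) * (wt0 f₀ ε (flines Φ ε Ps q) *
        uRF Φ f₀ ε Ps t q * (froots Ps t ⁻¹' A).indicator 1 q)) q) := by
    rw [← mul_assoc, ← mul_pow, activity_mul_sq hε, one_pow, one_mul]
  rw [h1, key]
  refine mul_le_mul_right ?_ _
  refine lintegral_mono fun V => ?_
  by_cases hV : V ∈ FSkelS Φ ε Ps t
  · rw [indicator_of_mem hV]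
    obtain ⟨q, hq, rfl⟩ := hV
    simp only [Forest399.finv_flines hΦ hε hq.1 le_rfl]
    rw [mul_assoc]
    refine mul_le_mul_right ?_ _
    unfold fw uRF
    have hqm : q ∈ FVS Φ ε Ps t := hq
    rw [indicator_of_mem hqm]
    have hroot : (fun i => pth Φ ε (flines Φ ε Ps q) t (froot Ps i)) = froots Ps t q := by
      funext i
      exact pth_froot hΦ hε ht hq.1 hq.2 i
    by_cases hA' : froots Ps t q ∈ A
    · rw [if_pos ⟨mem_pat_flines hΦ hε hq.1 hq.2, by rw [hroot]; exact hA'⟩,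
        indicator_of_mem (by exact hA')]
      simp
    · rw [indicator_of_notMem (by exact hA'), mul_zero]
      exact bot_le
  · rw [indicator_of_notMem hV]
    exact bot_le

theorem wt0_le : wt0 f₀ ε (flines Φ ε Ps q) ≤ ∏ k, ENNReal.ofReal (f₀ (flines Φ ε Ps q k)) := by
  unfold wt0
  split_ifs
  · exact le_rfl
  · exact bot_le

theorem wt0_flines (hε : 0 < ε) (ht : 0 ≤ t) (hq : q ∈ FVS Φ ε Ps t) :
    wt0 f₀ ε (flines Φ ε Ps q) = ∏ k, ENNReal.ofReal (f₀ (flines Φ ε Ps q k)) := by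
  unfold wt0
  rw [if_pos]
  intro k k' hkk
  exact Forest399.FSep.zero Ps hε.le ht hq.1 hq.2 hkk

/-- **Ghost-avoidance forests are counted by the factorial marginal**, with an error. -/
theorem ghost_le (hf : Measurable f₀) (hΦ : AdmissiblePotential Φ) (hε : 0 < ε)
    (ht : 0 ≤ t) {A : Set (Config s)} (hA : MeasurableSet A) (Fs : Finset (Fin s → CTree)) :
    ∑ Ps ∈ Fs, ∫⁻ q : FPar Ps, (FVS Φ ε Ps t).indicator (fun q =>
      (∏ i, wt Φ (Ps i) (q i).1.2 (q i).2) * (∏ k, ENNReal.ofReal (f₀ (flines Φ ε Ps q k))) *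
        uG Φ f₀ ε (FT Φ ε Ps t q) t * (froots Ps t ⁻¹' A).indicator 1 q) q ≤
      factorialMarginal f₀ ε (Master566.flowEv Φ ε) s t A +
      ∑ Ps ∈ Fs, ∫⁻ q : FPar Ps, (FVS Φ ε Ps t).indicator (fun q =>
        (∏ i, wt Φ (Ps i) (q i).1.2 (q i).2) * (wt0 f₀ ε (flines Φ ε Ps q) *
          retF Φ f₀ ε Ps t q)) q := by
  refine le_trans ?_ (add_le_add_left (count_tree hf hΦ hε ht hA Fs) _)
  rw [← Finset.sum_add_distrib]
  refine Finset.sum_le_sum fun Ps _ => ?_
  rw [← lintegral_add_left]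
  · refine lintegral_mono fun q => ?_
    by_cases hq : q ∈ FVS Φ ε Ps t
    · simp only [indicator_of_mem hq]
      rw [← wt0_flines hε ht hq, ← mul_add, mul_assoc, mul_assoc]
      refine mul_le_mul_right ?_ _
      rw [mul_assoc, ← mul_add]
      refine mul_le_mul_right ?_ _
      have h1 := uG_le_uR_add (f₀ := f₀) hf hΦ hε ht hq
      have h2 : uRF Φ f₀ ε Ps t q = uR Φ f₀ ε (flines Φ ε Ps q) (froot Ps) t := by
        unfold uRF
        rw [indicator_of_mem hq]
      rw [h2]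
      by_cases hA' : q ∈ froots Ps t ⁻¹' A
      · rw [indicator_of_mem hA']
        simpa using h1
      · rw [indicator_of_notMem hA']
        simp
    · simp only [indicator_of_notMem hq]
      simp
  · have h := measurable_FVS_ind hΦ hε Ps t (measurable_wt0 (κ := FIdx Ps) (ε := ε) hf)
      ((measurable_uRF hf hΦ hε ht Ps).mul
        (measurable_one.indicator (measurable_froots Ps t hA)))
    simpa only [Pi.mul_apply, mul_assoc] using h

/-- **(H973), sequential form.** -/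
theorem H973 (hf : Measurable f₀) (hΦ : AdmissiblePotential Φ) (hR : RetNull Φ f₀ T)
    (Fs : Finset (Fin s → CTree)) {e τ : ℕ → ℝ} {t₀ : ℝ} (he : ∀ n, 0 < e n)
    (he0 : Tendsto e atTop (𝓝 0)) (hτ : ∀ n, τ n ∈ Icc 0 T) (hτ0 : Tendsto τ atTop (𝓝 t₀)) :
    ∃ r : ℕ → ℝ≥0∞, Tendsto r atTop (𝓝 0) ∧ ∀ n (A : Set (Config s)), MeasurableSet A →
      ∑ Ps ∈ Fs, ∫⁻ q : FPar Ps, (FVS Φ (e n) Ps (τ n)).indicator (fun q =>
        (∏ i, wt Φ (Ps i) (q i).1.2 (q i).2) *
          (∏ k, ENNReal.ofReal (f₀ (flines Φ (e n) Ps q k))) *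
          uG Φ f₀ (e n) (FT Φ (e n) Ps (τ n) q) (τ n) *
          (froots Ps (τ n) ⁻¹' A).indicator 1 q) q ≤
      factorialMarginal f₀ (e n) (Master566.flowEv Φ (e n)) s (τ n) A + r n := by
  refine ⟨fun n => ∑ Ps ∈ Fs, ∫⁻ q : FPar Ps, (FVS Φ (e n) Ps (τ n)).indicator (fun q =>
        (∏ i, wt Φ (Ps i) (q i).1.2 (q i).2) * (wt0 f₀ (e n) (flines Φ (e n) Ps q) *
          retF Φ f₀ (e n) Ps (τ n) q)) q, ?_, fun n A hA => ghost_le hf hΦ (he n) (hτ n).1 hA Fs⟩
  have := tendsto_finsetSum Fs fun Ps _ => hR s Ps e τ t₀ he he0 hτ hτ0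
  simpa using this

/-- **(H973), uniform form.** -/
theorem H973' (hf : Measurable f₀) (hΦ : AdmissiblePotential Φ) (hR : RetNull Φ f₀ T)
    (Fs : Finset (Fin s → CTree)) {δ : ℝ≥0∞} (hδ : 0 < δ) :
    ∃ ε₀ > 0, ∀ ε, 0 < ε → ε < ε₀ → ∀ t ∈ Icc 0 T, ∀ A : Set (Config s), MeasurableSet A →
      ∑ Ps ∈ Fs, ∫⁻ q : FPar Ps, (FVS Φ ε Ps t).indicator (fun q =>
        (∏ i, wt Φ (Ps i) (q i).1.2 (q i).2) *
          (∏ k, ENNReal.ofReal (f₀ (flines Φ ε Ps q k))) *
          uG Φ f₀ ε (FT Φ ε Ps t q) t *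
          (froots Ps t ⁻¹' A).indicator 1 q) q ≤
      factorialMarginal f₀ ε (Master566.flowEv Φ ε) s t A + δ := by
  by_contra hcon
  push Not at hcon
  have h1 : ∀ n : ℕ, ∃ ε, 0 < ε ∧ ε < 1 / ((n : ℝ) + 1) ∧ ∃ t ∈ Icc 0 T, ∃ A : Set (Config s),
      MeasurableSet A ∧ factorialMarginal f₀ ε (Master566.flowEv Φ ε) s t A + δ <
      ∑ Ps ∈ Fs, ∫⁻ q : FPar Ps, (FVS Φ ε Ps t).indicator (fun q =>
        (∏ i, wt Φ (Ps i) (q i).1.2 (q i).2) *
          (∏ k, ENNReal.ofReal (f₀ (flines Φ ε Ps q k))) *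
          uG Φ f₀ ε (FT Φ ε Ps t q) t *
          (froots Ps t ⁻¹' A).indicator 1 q) q := fun n => hcon _ (by positivity)
  choose e he1 he2 τ hτ A hA hlt using h1
  obtain ⟨t₀, -, φ, hφ, hφt⟩ := isCompact_Icc.tendsto_subseq hτ
  have he0 : Tendsto e atTop (𝓝 0) := squeeze_zero (fun n => (he1 n).le) (fun n => (he2 n).le)
    tendsto_one_div_add_atTop_nhds_zero_nat
  obtain ⟨r, hr, hrle⟩ := H973 (s := s) hf hΦ hR Fs (e := e ∘ φ) (τ := τ ∘ φ) (t₀ := t₀)
    (fun n => he1 _) (he0.comp hφ.tendsto_atTop) (fun n => hτ _) hφt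
  have h2 : ∀ᶠ n in atTop, r n < δ := hr.eventually_lt_const hδ
  obtain ⟨n, hn⟩ := h2.exists
  have h3 := hrle n (A (φ n)) (hA _)
  have h4 := hlt (φ n)
  have h5 : factorialMarginal f₀ (e (φ n)) (Master566.flowEv Φ (e (φ n))) s (τ (φ n)) (A (φ n)) +
      r n ≤ factorialMarginal f₀ (e (φ n)) (Master566.flowEv Φ (e (φ n))) s (τ (φ n)) (A (φ n)) +
      δ := add_le_add_right hn.le _
  exact absurd (h4.trans_le (h3.trans h5)) (lt_irrefl _)

end Crest.Agent.R122.Final973
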