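import Crest.Agent.R122.ForestMeas_399

/-!
Row 122, block C (helper399): Theorem E (Fatou and one-sided Scheffé) for forests, along any
countably generated filter on which `ε → 0+` and the final time tends to `t₀`.
-/

set_option autoImplicit false

open MeasureTheory Set Filter Topology Crest.AnalysisR.Kinetic
open scoped Classical ENNReal

noncomputable section

namespace Crest.Agent.R122.Forest399

open Kin796 Kin796.CTree Disc416 Tree674 TreeEps399 PiTrans399 TreeFatou399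

variable {Φ : Space3 → ℝ} {s : ℕ} {ε : ℝ}

theorem wt_ne_top : ∀ (P : CTree) (v : Space3) (p : Par P), wt Φ P v p ≠ ∞
  | leaf, _, _ => ENNReal.one_ne_top
  | node l r, v, p => ENNReal.mul_ne_top ENNReal.ofReal_ne_top
      (ENNReal.mul_ne_top (wt_ne_top l _ _) (wt_ne_top r _ _))

theorem fvw_ne_top (ε : ℝ) (Ps : Fin s → CTree) (T : ℝ) (q : FPar Ps) : fvw Φ ε Ps T q ≠ ∞ := by
  by_cases hq : FValid Φ ε Ps T q
  · rw [fvw_of_valid hq]
    exact ENNReal.prod_ne_top fun i _ => wt_ne_top _ _ _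
  · rw [fvw_of_not_valid hq]
    exact ENNReal.zero_ne_top

/-! ### Monotonicity in the final time -/

theorem valid_mono {ε : ℝ} {P : CTree} {T T' : ℝ} {v : Space3} {p : Par P} (hT : T' ≤ T)
    (h : Valid Φ ε P T' v p) : Valid Φ ε P T v p := ((valid_iff_top hT).1 h).1

theorem fvalid_mono {Ps : Fin s → CTree} {T T' : ℝ} {q : FPar Ps} (hT : T' ≤ T)
    (h : FValid Φ ε Ps T' q) : FValid Φ ε Ps T q := fun i => valid_mono hT (h i)

theorem sep_mono {ε : ℝ} {P : CTree} {T T' : ℝ} {ℓ : PhasePoint} {p : Par P} (hT : T' ≤ T)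
    (h : Tree674.Sep Φ ε P T ℓ p) : Tree674.Sep Φ ε P T' ℓ p :=
  fun i j hij u hu => h i j hij u ⟨hu.1, hu.2.trans hT⟩

theorem fsep_mono {Ps : Fin s → CTree} {T T' : ℝ} {q : FPar Ps} (hT : T' ≤ T)
    (h : FSep Φ ε Ps T q) : FSep Φ ε Ps T' q :=
  ⟨fun i => sep_mono hT (h.1 i), fun i i' hii j j' u hu => h.2 i i' hii j j' u ⟨hu.1, hu.2.trans hT⟩⟩

/-- validity before a slightly smaller final time -/
theorem valid_open {ε : ℝ} (P : CTree) (T : ℝ) (v : Space3) (p : Par P)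
    (h : Valid Φ ε P T v p) : ∃ κ > 0, Valid Φ ε P (T - κ) v p := by
  have h2 : TopLt P T p := ((valid_iff_top le_rfl).1 h).2
  have h3 : ∃ κ > 0, TopLt P (T - κ) p := by
    cases P with
    | leaf => exact ⟨1, one_pos, trivial⟩
    | node l r =>
      have h4 : p.1.1 < T := h2
      exact ⟨(T - p.1.1) / 2, by linarith, by show p.1.1 < T - (T - p.1.1) / 2; linarith⟩
  obtain ⟨κ, hκ, h4⟩ := h3
  exact ⟨κ, hκ, (valid_iff_top (by linarith : T - κ ≤ T)).2 ⟨h, h4⟩⟩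

/-! ### Along a filter -/

section filt

variable {β : Type*} {F : Filter β} {e τ : β → ℝ} {t₀ : ℝ}

theorem valid_filter (he : Tendsto e F L) (hτ : Tendsto τ F (𝓝 t₀)) (P : CTree) (v : Space3)
    (p : Par P) (h : Valid Φ 0 P t₀ v p) : ∀ᶠ b in F, Valid Φ (e b) P (τ b) v p := by
  obtain ⟨κ, hκ, h1⟩ := valid_open P t₀ v p h
  have h2 := he.eventually (valid_eventually P v p (t₀ - κ) h1)
  have h3 : ∀ᶠ b in F, t₀ - κ < τ b := hτ.eventually (lt_mem_nhds (by linarith))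
  filter_upwards [h2, h3] with b a1 a2
  exact valid_mono a2.le a1

theorem fvalid_filter (he : Tendsto e F L) (hτ : Tendsto τ F (𝓝 t₀)) (Ps : Fin s → CTree)
    {q : FPar Ps} (hV : FValid Φ 0 Ps t₀ q) : ∀ᶠ b in F, FValid Φ (e b) Ps (τ b) q :=
  eventually_all.2 fun i => valid_filter he hτ (Ps i) (q i).1.2 (q i).2 (hV i)

/-- **validity and separation along the filter** -/
theorem fsep_filter (hΦ : AdmissiblePotential Φ) (he : Tendsto e F L) (hτ : Tendsto τ F (𝓝 t₀))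
    (Ps : Fin s → CTree) {q : FPar Ps} (hV : FValid Φ 0 Ps t₀ q) (hG : FGen Φ Ps q) :
    ∀ᶠ b in F, FValid Φ (e b) Ps (τ b) q ∧ FSep Φ (e b) Ps (τ b) q := by
  have h1 := he.eventually (fsep_eventually hΦ Ps (t₀ + 1) (fvalid_mono (by linarith) hV) hG)
  have h2 : ∀ᶠ b in F, τ b < t₀ + 1 := hτ.eventually (gt_mem_nhds (by linarith))
  filter_upwards [h1, h2, fvalid_filter he hτ Ps hV] with b a1 a2 a3
  exact ⟨a3, fsep_mono a2.le a1.2⟩

/-- the weight does not depend on `ε`, `T` on valid parameters -/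
theorem fvw_filter (he : Tendsto e F L) (hτ : Tendsto τ F (𝓝 t₀)) (Ps : Fin s → CTree)
    {q : FPar Ps} (hV : FValid Φ 0 Ps t₀ q) :
    ∀ᶠ b in F, fvw Φ (e b) Ps (τ b) q = fvw Φ 0 Ps t₀ q := by
  filter_upwards [fvalid_filter he hτ Ps hV] with b h
  rw [fvw_of_valid h, fvw_of_valid hV]

theorem flinesM_filter (he : Tendsto e F L) (hτ : Tendsto τ F (𝓝 t₀)) (Ps : Fin s → CTree)
    {q : FPar Ps} (hV : FValid Φ 0 Ps t₀ q) :
    ∀ᶠ b in F, flinesM Φ (e b) Ps q = flines Φ (e b) Ps q := by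
  filter_upwards [fvalid_filter he hτ Ps hV] with b h
  exact flinesM_of_valid h

/-- pointwise part of Theorem E -/
theorem le_liminf_forest [F.NeBot] (hΦ : AdmissiblePotential Φ) (he : Tendsto e F L)
    (hτ : Tendsto τ F (𝓝 t₀)) (Ps : Fin s → CTree)
    {H : β → FPar Ps × (FIdx Ps → PhasePoint) → ℝ≥0∞} {G0 : FPar Ps → ℝ≥0∞}
    (hG : ∀ᵐ q : FPar Ps, FValid Φ 0 Ps t₀ q → FGen Φ Ps q →
      G0 q ≤ liminf (fun b => H b (q, flines Φ (e b) Ps q)) F) :
    ∀ᵐ q : FPar Ps, fvw Φ 0 Ps t₀ q * G0 q ≤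
      liminf (fun b => fvw Φ (e b) Ps (τ b) q * H b (q, flinesM Φ (e b) Ps q)) F := by
  filter_upwards [hG, fgen_ae hΦ Ps t₀] with q h1 h2
  by_cases hV : FValid Φ 0 Ps t₀ q
  · have h3 := h1 hV (h2 hV)
    have h4 : liminf (fun b => fvw Φ (e b) Ps (τ b) q * H b (q, flinesM Φ (e b) Ps q)) F =
        liminf (fun b => fvw Φ 0 Ps t₀ q * H b (q, flines Φ (e b) Ps q)) F := by
      refine liminf_congr ?_
      filter_upwards [fvw_filter he hτ Ps hV, flinesM_filter he hτ Ps hV] with b a1 a2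
      rw [a1, a2]
    rw [h4, ENNReal.liminf_const_mul_of_ne_top (fvw_ne_top 0 Ps t₀ q)]
    gcongr
  · rw [fvw_of_not_valid hV, zero_mul]
    exact bot_le

theorem aemeasurable_forest (hΦ : AdmissiblePotential Φ) (Ps : Fin s → CTree) (ε T : ℝ)
    {H : FPar Ps × (FIdx Ps → PhasePoint) → ℝ≥0∞} (hH : Measurable H) :
    AEMeasurable (fun q => fvw Φ ε Ps T q * H (q, flinesM Φ ε Ps q))
      (volume : Measure (FPar Ps)) :=
  ((measurable_fvw hΦ ε Ps T).mul
    (hH.comp (measurable_id.prodMk (measurable_flinesM hΦ ε Ps)))).aemeasurable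

/-- **Theorem E (Fatou).** -/
theorem forest_fatou [F.NeBot] [F.IsCountablyGenerated] (hΦ : AdmissiblePotential Φ)
    (he : Tendsto e F L) (hτ : Tendsto τ F (𝓝 t₀)) (Ps : Fin s → CTree)
    {H : β → FPar Ps × (FIdx Ps → PhasePoint) → ℝ≥0∞} (hH : ∀ᶠ b in F, Measurable (H b))
    {G0 : FPar Ps → ℝ≥0∞}
    (hG : ∀ᵐ q : FPar Ps, FValid Φ 0 Ps t₀ q → FGen Φ Ps q →
      G0 q ≤ liminf (fun b => H b (q, flines Φ (e b) Ps q)) F) :
    ∫⁻ q : FPar Ps, fvw Φ 0 Ps t₀ q * G0 q ≤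
      liminf (fun b => (ENNReal.ofReal (e b ^ 2) ^ fsize Ps)⁻¹ * ∫⁻ V : FIdx Ps → PhasePoint,
        (FSkel Φ (e b) Ps (τ b)).indicator (fun V => H b (finv Φ (e b) Ps (τ b) V, V)) V) F := by
  have h1 := fatou_filter (L := F) (μ := (volume : Measure (FPar Ps)))
    (f := fun b q => fvw Φ (e b) Ps (τ b) q * H b (q, flinesM Φ (e b) Ps q))
    (g := fun q => fvw Φ 0 Ps t₀ q * G0 q) (by
      filter_upwards [hH] with b h
      exact aemeasurable_forest hΦ Ps _ _ h)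
    (le_liminf_forest hΦ he hτ Ps hG)
  refine h1.trans (le_of_eq (liminf_congr ?_))
  filter_upwards [hH, he.eventually eventually_pos] with b h hε
  rw [← forestMeasure hΦ hε Ps (τ b) h, ← mul_assoc, ENNReal.inv_mul_cancel, one_mul]
  · exact pow_ne_zero _ (ENNReal.ofReal_pos.2 (by positivity)).ne'
  · exact ENNReal.pow_ne_top ENNReal.ofReal_ne_top

/-- **Theorem E (one-sided Scheffé).** -/
theorem forest_scheffe [F.NeBot] [F.IsCountablyGenerated] (hΦ : AdmissiblePotential Φ)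
    (he : Tendsto e F L) (hτ : Tendsto τ F (𝓝 t₀)) (Ps : Fin s → CTree)
    {H : β → FPar Ps × (FIdx Ps → PhasePoint) → ℝ≥0∞} (hH : ∀ᶠ b in F, Measurable (H b))
    {G0 : FPar Ps → ℝ≥0∞} (hG0 : AEMeasurable (fun q => fvw Φ 0 Ps t₀ q * G0 q))
    (hfin : ∫⁻ q : FPar Ps, fvw Φ 0 Ps t₀ q * G0 q ≠ ∞)
    (hG : ∀ᵐ q : FPar Ps, FValid Φ 0 Ps t₀ q → FGen Φ Ps q →
      G0 q ≤ liminf (fun b => H b (q, flines Φ (e b) Ps q)) F) :
    Tendsto (fun b => ∫⁻ q : FPar Ps, (fvw Φ 0 Ps t₀ q * G0 q -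
      fvw Φ (e b) Ps (τ b) q * H b (q, flinesM Φ (e b) Ps q))) F (𝓝 0) :=
  scheffe_low (by
      filter_upwards [hH] with b h
      exact aemeasurable_forest hΦ Ps _ _ h)
    hG0 hfin (le_liminf_forest hΦ he hτ Ps hG)

end filt

end Crest.Agent.R122.Forest399

end
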