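import Crest.Agent.R122.RetPi_424
import Crest.Agent.R122.Mark6_307
import Crest.Agent.R122.QDensC_815
import Crest.Agent.R122.LineMeas_994
import Crest.Agent.R122.MeasEDefs_416
import Crest.Agent.R122.EBasic_602
import Crest.Agent.R122.GCBounds_311
import Crest.Agent.R122.ForestFatou_399
import Crest.Agent.R122.BadHit_370

/-!
# Row 122 (helper424): masses of trees and of touched exit lines

* `pf Φ f₀ ε P t z` : weight `1[Valid] wt ∏ f₀(lines)` of a tree; `measurable_pf`.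
* `exists_mass` : total mass bounded uniformly in `ε ≥ 0`, `t ≤ T`.
* `exists_exit` : (MT2) of helper307 for `pf`.
* `tauch Φ f₀ ε K t l` : probability that the line `l` has touched before `t`.
* `exists_touch_mass` : mass of the trees with a touched exit line `≤ C * tnMass`.
-/

set_option autoImplicit false

open MeasureTheory Set Filter Topology
open scoped ENNReal
open Crest.AnalysisR.Kinetic Crest.Agent.R122.Kin796 Crest.Agent.R122.Disc416
  Crest.Agent.R122.Kin416 Crest.Agent.R122.Tree674 Crest.Agent.R122.GC311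
  Crest.Agent.R122.EDefs602 Crest.Agent.R122.QDens815 Crest.Agent.R122.TreeLines335
  Crest.Agent.R122.LineMeas994

noncomputable section

open scoped Classical

namespace Crest.Agent.R122.Ret424

open CTree

variable {Φ : Space3 → ℝ} {f₀ : PhasePoint → ℝ} {P : CTree} {ε t T : ℝ}

/-- Weight of a tree. -/
def pf (Φ : Space3 → ℝ) (f₀ : PhasePoint → ℝ) (ε : ℝ) (P : CTree) (t : ℝ)
    (z : PhasePoint × Par P) : ℝ≥0∞ := gw Φ f₀ P (fun _ => 1) ε t z.1 z.2

theorem pf_of_valid {z : PhasePoint × Par P} (h : Valid Φ ε P t z.1.2 z.2) :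
    pf Φ f₀ ε P t z =
      wt Φ P z.1.2 z.2 * ∏ i, ENNReal.ofReal (f₀ (Tree674.lines Φ ε P z.1 z.2 i)) := by
  unfold pf
  rw [gw_of_valid h, mul_one]
  rfl

theorem pf_of_not_valid {z : PhasePoint × Par P} (h : ¬ Valid Φ ε P t z.1.2 z.2) :
    pf Φ f₀ ε P t z = 0 := gw_of_not_valid h

theorem measurable_pf (hΦ : AdmissiblePotential Φ) (hf : Measurable f₀) (ε : ℝ) (P : CTree)
    (t : ℝ) : Measurable (pf Φ f₀ ε P t) := by
  have h := measurable_gw (P := P) (φ := fun _ => 1) hΦ hf measurable_const ε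
  have h2 : Measurable fun z : PhasePoint × Par P => (((t, z.1), z.2) : (ℝ × PhasePoint) × Par P) :=
    (measurable_const.prodMk measurable_fst).prodMk measurable_snd
  exact h.comp h2

theorem pf_ne_top (z : PhasePoint × Par P) : pf Φ f₀ ε P t z ≠ ∞ := by
  by_cases h : Valid Φ ε P t z.1.2 z.2
  · rw [pf_of_valid h]
    exact ENNReal.mul_ne_top (Forest399.wt_ne_top P _ _)
      (ENNReal.prod_ne_top fun _ _ => ENNReal.ofReal_ne_top)
  · rw [pf_of_not_valid h]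
    exact ENNReal.zero_ne_top

/-- **Total mass of a tree**, uniform in `ε ≥ 0` and `t ≤ T`. -/
theorem exists_mass (hΦ : AdmissiblePotential Φ) (hf : Measurable f₀) {γ : ℝ} (hγ : 0 < γ)
    (H : HasSummableGaussianBound γ (fun x v => f₀ (x, v))) (P : CTree) (T : ℝ) :
    ∃ M : ℝ≥0∞, M ≠ ∞ ∧ ∀ ε t : ℝ, 0 ≤ ε → t ≤ T → ∫⁻ z, pf Φ f₀ ε P t z ≤ M := by
  obtain ⟨env, A, hE⟩ := exists_env H
  set K : ℝ≥0∞ := ENNReal.ofReal 1 * ENNReal.ofReal (Real.exp ((P.size : ℝ) ^ 2 /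
      (2 * ((γ - 0) / 4)))) * ((∫⁻ x, env x) * A ^ P.size) with hK
  have hKt : K ≠ ∞ := ENNReal.mul_ne_top (ENNReal.mul_ne_top ENNReal.ofReal_ne_top
    ENNReal.ofReal_ne_top) (ENNReal.mul_ne_top hE.int_ne (ENNReal.pow_ne_top hE.A_ne))
  have hδ : 0 < (γ - 0) / 2 := by linarith
  have hκ : ∀ t : ℝ, IsFiniteMeasure (Measure.dirac t) := fun t => inferInstance
  refine ⟨∫⁻ y : Space3 × Par P, K * (gau ((γ - 0) / 2) y.1 * bx T ((γ - 0) / 2) P y.2), ?_, ?_⟩
  · have h1 := lintegral_dom_lt_top (κ := Measure.dirac (0 : ℝ)) T hδ P hKt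
    have h2 : Measurable fun q : ℝ × (Space3 × Par P) =>
        K * (gau ((γ - 0) / 2) q.2.1 * bx T ((γ - 0) / 2) P q.2.2) :=
      (((measurable_gau _).comp measurable_snd.fst).mul
        ((measurable_bx T _ P).comp measurable_snd.snd)).const_mul _
    rw [lintegral_prod _ h2.aemeasurable] at h1
    rw [lintegral_dirac' _ h2.lintegral_prod_right'] at h1
    exact h1.ne
  · intro ε t hε ht
    have hφ : Measurable fun _ : ℝ × PhasePoint × Par P => (1 : ℝ≥0∞) := measurable_const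
    have hg := measurable_gw (P := P) hΦ hf hφ ε
    have h1 := tonelli (P := P) (κ := Measure.dirac t)
      (F := fun q : (ℝ × PhasePoint) × Par P => gw Φ f₀ P (fun _ => 1) ε q.1.1 q.1.2 q.2) hg
    have hg1 : Measurable fun y : ℝ × PhasePoint =>
        ∫⁻ p, gw Φ f₀ P (fun _ => 1) ε y.1 y.2 p := hg.lintegral_prod_right'
    have hX : Measurable fun z : (ℝ × (Space3 × Par P)) × Space3 =>
        gw Φ f₀ P (fun _ => 1) ε z.1.1 (z.2, z.1.2.1) z.1.2.2 :=
      hg.comp (f := fun z : (ℝ × (Space3 × Par P)) × Space3 =>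
        (((z.1.1, (z.2, z.1.2.1)), z.1.2.2) : (ℝ × PhasePoint) × Par P))
        ((measurable_fst.fst.prodMk (measurable_snd.prodMk measurable_fst.snd.fst)).prodMk
        measurable_fst.snd.snd)
    have hg2 : Measurable fun q : ℝ × (Space3 × Par P) =>
        ∫⁻ X : Space3, gw Φ f₀ P (fun _ => 1) ε q.1 (X, q.2.1) q.2.2 := hX.lintegral_prod_right'
    simp only at h1
    rw [lintegral_prod _ hg1.aemeasurable, lintegral_dirac' _ hg1.lintegral_prod_right',
      lintegral_prod _ hg2.aemeasurable, lintegral_dirac' _ hg2.lintegral_prod_right'] at h1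
    have h2 : ∫⁻ z : PhasePoint × Par P, pf Φ f₀ ε P t z =
        ∫⁻ ℓ : PhasePoint, ∫⁻ p, gw Φ f₀ P (fun _ => 1) ε t ℓ p := by
      rw [Measure.volume_eq_prod, lintegral_prod _ (measurable_pf hΦ hf ε P t).aemeasurable]
      rfl
    rw [h2, h1]
    refine lintegral_mono fun y => ?_
    exact lintegral_gw_le (φ := fun _ => 1) hΦ hE (a := 0) (Cφ := 1) hγ hf
      (fun s ℓ p _ _ => by simp) hε ht y.1 y.2

/-- **(MT2)** of helper307. -/
theorem exists_exit (hΦ : AdmissiblePotential Φ) (hf : Measurable f₀) {b : ℝ}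
    (H : HasSummableGaussianBound b (fun x v => f₀ (x, v))) {b' : ℝ} (hb' : 0 < b')
    (hbb : b' < b) (P : CTree) (T : ℝ) :
    ∃ C : ℝ≥0∞, C ≠ ∞ ∧ ∀ ε t : ℝ, 0 < ε → t ≤ T → ∀ x : Idx P, x ≠ root P →
      ∀ F : ML → ℝ≥0∞, Measurable F →
      ∫⁻ z : PhasePoint × Par P, pf Φ f₀ ε P t z * F (lineML Φ ε P z x) ≤
        C * ∫⁻ τ in Ioc 0 t, ∫⁻ z : PhasePoint,
          ENNReal.ofReal (Real.exp (-b' * ‖z.2‖ ^ 2)) * F ((τ, z), TreeLines335.mk P x) := by
  obtain ⟨C, hC, hb⟩ := exists_gaussian_bound H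
  obtain ⟨C', hC', h⟩ := Mark307.exit_mass hΦ hf hC (b := b)
    (fun z => (le_abs_self _).trans (by rw [neg_mul]; exact hb z.1 z.2)) hb' hbb P T
  refine ⟨C', hC', fun ε t hε ht x hx F hF => ?_⟩
  refine le_trans (le_of_eq ?_) ((h ε t hε ht x hx F hF).trans ?_)
  · refine lintegral_congr fun z => ?_
    by_cases hz : Valid Φ ε P t z.1.2 z.2
    · rw [pf_of_valid hz]
      rw [indicator_of_mem (s := {z : PhasePoint × Par P | Valid Φ ε P t z.1.2 z.2}) hz]
    · rw [pf_of_not_valid hz, zero_mul,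
        indicator_of_notMem (s := {z : PhasePoint × Par P | Valid Φ ε P t z.1.2 z.2}) hz]
  · refine mul_le_mul_right ?_ _
    exact lintegral_mono_set Ioo_subset_Ioc_self

/-- Probability that the line `l` has touched before `t`. -/
def touchP1 (Φ : Space3 → ℝ) (f₀ : PhasePoint → ℝ) (ε : ℝ) (K : ℕ) (t : ℝ) (l : ML) : ℝ≥0∞ :=
  gcE f₀ ε fun _ w => if (MW.cfg w).thetaL Φ ε K t l ≤ t then 1 else 0

theorem measurable_touchI (hΦ : AdmissiblePotential Φ) (hε : 0 < ε) (K : ℕ) (t : ℝ) (n : ℕ) :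
    Measurable fun p : ML × Config n =>
      (if (MW.cfg p.2).thetaL Φ ε K t p.1 ≤ t then 1 else 0 : ℝ≥0∞) :=
by
  have h : Measurable fun p : ML × Config n => (MW.cfg p.2).thetaL Φ ε K t p.1 :=
    (MeasE416.MeasW.cfg measurable_snd).thetaL hΦ hε measurable_fst K measurable_const
  exact Measurable.ite (measurableSet_le h measurable_const) measurable_const measurable_const

theorem measurable_touchP1 (hf : Measurable f₀) (hΦ : AdmissiblePotential Φ) (hε : 0 < ε) (K : ℕ)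
    (t : ℝ) : Measurable (touchP1 Φ f₀ ε K t) :=
  MeasE416.measurable_gcE_of hf ε (F := fun _ l w =>
    if (MW.cfg w).thetaL Φ ε K t l ≤ t then 1 else 0) fun n => measurable_touchI hΦ hε K t n

/-- The touched mass is the integral of the touch probability. -/
theorem tnMass_eq (hf : Measurable f₀) (hΦ : AdmissiblePotential Φ) (hε : 0 < ε) (γ : ℝ → ℝ)
    (ρ : ℝ≥0∞) (K : ℕ) (t : ℝ) : tnMass Φ f₀ γ ρ ε K t =
      ∫⁻ l, touchP1 Φ f₀ ε K t l ∂lineM γ ρ K t := by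
  unfold touchP1
  rw [BadHit370.lintegral_gcE hf ε (lineM γ ρ K t)
    (F := fun _ l w => if (MW.cfg w).thetaL Φ ε K t l ≤ t then 1 else 0)
    (fun n => measurable_touchI hΦ hε K t n)]
  unfold tnMass
  refine gcE_congr f₀ ε fun n w _ => ?_
  have h2 : Measurable fun l : ML => (MW.cfg w).thetaL Φ ε K t l :=
    (MeasE416.MeasW.const (MW.cfg w)).thetaL hΦ hε measurable_id K measurable_const
  have hm : MeasurableSet {l : ML | (MW.cfg w).thetaL Φ ε K t l ≤ t} :=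
    measurableSet_le h2 measurable_const
  rw [← lintegral_indicator_one hm]
  refine lintegral_congr fun l => ?_
  simp only [indicator_apply, mem_ofPred_eq, Pi.one_apply]

/-- Comparison of the line measure with one mark. -/
theorem line_le {γ' : ℝ → ℝ} (hγm : Measurable γ') {ρ : ℝ≥0∞} (hρ0 : ρ ≠ 0) (hρt : ρ ≠ ∞) {b' : ℝ}
    (hγ : ∀ τ ∈ Ioc 0 t, γ' τ ≤ b') {K n : ℕ} (hn : 1 ≤ n) (hnK : n ≤ K) {F : ML → ℝ≥0∞}
    (hF : Measurable F) :
    ∫⁻ τ in Ioc 0 t, ∫⁻ z : PhasePoint,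
      ENNReal.ofReal (Real.exp (-b' * ‖z.2‖ ^ 2)) * F ((τ, z), n) ≤
      (ρ ^ n)⁻¹ * ∫⁻ l, F l ∂lineM γ' ρ K t := by
  have hρn0 : ρ ^ n ≠ 0 := pow_ne_zero _ hρ0
  have hρnt : ρ ^ n ≠ ∞ := ENNReal.pow_ne_top hρt
  rw [EBasic602.lintegral_lineM hγm hF, ← lintegral_const_mul' _ _ (ENNReal.inv_ne_top.2 hρn0)]
  refine setLIntegral_mono_ae' measurableSet_Ioc (Eventually.of_forall fun τ hτ => ?_)
  have hFn : Measurable fun z : PhasePoint => F ((τ, z), n) :=
    hF.comp ((measurable_const.prodMk measurable_id).prodMk measurable_const)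
  have hm : Measurable fun z : PhasePoint =>
      ENNReal.ofReal (Real.exp (-b' * ‖z.2‖ ^ 2)) * F ((τ, z), n) := by
    refine Measurable.mul ?_ hFn
    fun_prop
  rw [Measure.volume_eq_prod, lintegral_prod_symm _ hm.aemeasurable,
    ← lintegral_const_mul' _ _ (ENNReal.inv_ne_top.2 hρn0)]
  refine lintegral_mono fun v => ?_
  have hFy : Measurable fun y : Space3 => F ((τ, (y, v)), n) :=
    hFn.comp (measurable_id.prodMk measurable_const)
  have e1 : ∫⁻ y : Space3, ENNReal.ofReal (Real.exp (-b' * ‖v‖ ^ 2)) * F ((τ, (y, v)), n) =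
      ENNReal.ofReal (Real.exp (-b' * ‖v‖ ^ 2)) * ∫⁻ y : Space3, F ((τ, (y, v)), n) :=
    lintegral_const_mul _ hFy
  change ∫⁻ y : Space3, ENNReal.ofReal (Real.exp (-b' * ‖v‖ ^ 2)) * F ((τ, (y, v)), n) ≤ _
  rw [e1]
  have e2 : ∫⁻ y : Space3, F ((τ, (y, v)), n) ≤
      (ρ ^ n)⁻¹ * ∫⁻ y : Space3, ∑' m : ℕ, markW ρ K m * F ((τ, (y, v)), m) := by
    rw [← lintegral_const_mul' _ _ (ENNReal.inv_ne_top.2 hρn0)]
    refine lintegral_mono fun y => ?_
    have h1 : markW ρ K n * F ((τ, (y, v)), n) ≤ ∑' m : ℕ, markW ρ K m * F ((τ, (y, v)), m) :=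
      ENNReal.le_tsum n
    have h2 : markW ρ K n = ρ ^ n := by
      unfold markW
      rw [if_pos ⟨hn, hnK⟩]
    rw [h2] at h1
    calc F ((τ, (y, v)), n) = (ρ ^ n)⁻¹ * (ρ ^ n * F ((τ, (y, v)), n)) := by
          rw [← mul_assoc, ENNReal.inv_mul_cancel hρn0 hρnt, one_mul]
      _ ≤ _ := mul_le_mul_right h1 _
  have e3 : ENNReal.ofReal (Real.exp (-b' * ‖v‖ ^ 2)) ≤ Kin796.wG (γ' τ) v := by
    unfold Kin796.wG
    refine ENNReal.ofReal_le_ofReal (Real.exp_le_exp.2 ?_)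
    have := hγ τ hτ
    nlinarith [sq_nonneg ‖v‖]
  calc ENNReal.ofReal (Real.exp (-b' * ‖v‖ ^ 2)) * ∫⁻ y : Space3, F ((τ, (y, v)), n)
      ≤ Kin796.wG (γ' τ) v * ((ρ ^ n)⁻¹ *
          ∫⁻ y : Space3, ∑' m : ℕ, markW ρ K m * F ((τ, (y, v)), m)) := by gcongr
    _ = _ := by ring

/-- **Mass of the trees with a touched exit line.** -/
theorem exists_touch_mass (hΦ : AdmissiblePotential Φ) (hf : Measurable f₀) {b : ℝ}
    (H : HasSummableGaussianBound b (fun x v => f₀ (x, v))) {b' : ℝ} (hb' : 0 < b')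
    (hbb : b' < b) {γ' : ℝ → ℝ} (hγm : Measurable γ') (hγ : ∀ τ ∈ Ioc 0 T, γ' τ ≤ b')
    {ρ : ℝ≥0∞} (hρ0 : ρ ≠ 0) (hρt : ρ ≠ ∞) (P : CTree) :
    ∃ C : ℝ≥0∞, C ≠ ∞ ∧ ∀ (ε t : ℝ) (K : ℕ), 0 < ε → t ≤ T → P.leaves ≤ K →
      ∀ x : Idx P, x ≠ root P →
      ∫⁻ z : PhasePoint × Par P, pf Φ f₀ ε P t z * touchP1 Φ f₀ ε K t (lineML Φ ε P z x) ≤
        C * tnMass Φ f₀ γ' ρ ε K t := by
  obtain ⟨C, hC, h⟩ := exists_exit hΦ hf H hb' hbb P T
  refine ⟨C * ∑ x : Idx P, (ρ ^ TreeLines335.mk P x)⁻¹, ENNReal.mul_ne_top hC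
    (ENNReal.sum_ne_top.2 fun x _ => ENNReal.inv_ne_top.2 (pow_ne_zero _ hρ0)),
    fun ε t K hε ht hK x hx => ?_⟩
  have hF := measurable_touchP1 (f₀ := f₀) hf hΦ hε K t
  refine (h ε t hε ht x hx _ hF).trans ?_
  rw [tnMass_eq hf hΦ hε, mul_assoc]
  refine mul_le_mul_right ?_ _
  refine (line_le hγm hρ0 hρt (fun τ hτ => hγ τ ⟨hτ.1, hτ.2.trans ht⟩) (one_le_mk P x)
    ((mk_le P x).trans hK) hF).trans ?_
  refine mul_le_mul_left ?_ _
  exact Finset.single_le_sum (f := fun x : Idx P => (ρ ^ TreeLines335.mk P x)⁻¹)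
    (fun _ _ => bot_le) (Finset.mem_univ x)

end Crest.Agent.R122.Ret424

end
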