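import Crest.Agent.R122.LN2Inst_473
import Crest.Agent.R122.RetNull_424

/-!
# Row 122 (helper998): the law of a forest is dominated

* `forM Φ f₀ ε Ps t` : the law `1[valid, separated] ∏ wt ∏ f₀ (lines) dq` of a forest (density `fD` of
  helper424).
* `dom_forest` : `forM` is dominated in the sense of helper473's `Dom` : `s` groups, births `0`, all
  particles are anchors, structure map `flinesM`.
* `dom_forest_exp` : the same with exponential velocity weights.
-/

set_option autoImplicit false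
open MeasureTheory Set
open scoped Classical ENNReal
open Crest.AnalysisR.Kinetic
noncomputable section

namespace Crest.Agent.R122.DomForest998

open Crest.Agent.R122.GC311 Crest.Agent.R122.Kin796 Crest.Agent.R122.Kin796.CTree
open Crest.Agent.R122.LN2 Crest.Agent.R122.Ret424 Crest.Agent.R122.Tree674
open Crest.Agent.R122.Forest399 (FIdx FPar flines flinesM FValid FVS fsize FSkelS finv
  flinesM_of_valid measurable_flinesM forestMeasure_sep)
open Crest.Agent.R122.Final973 (wt0)

variable {Φ : Space3 → ℝ} {f₀ : PhasePoint → ℝ} {ε γ t : ℝ} {ρ : Space3 → ℝ≥0∞} {C : ℝ≥0∞} {s : ℕ}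

/-- The law of a forest. -/
def forM (Φ : Space3 → ℝ) (f₀ : PhasePoint → ℝ) (ε : ℝ) (Ps : Fin s → CTree) (t : ℝ) :
    Measure (FPar Ps) := (volume : Measure (FPar Ps)).withDensity (fD Φ f₀ ε Ps t)

instance instSFiniteForM (Ps : Fin s → CTree) (t : ℝ) : SFinite (forM Φ f₀ ε Ps t) := by
  unfold forM; infer_instance

theorem lintegral_forM (hΦ : AdmissiblePotential Φ) (hf : Measurable f₀) (hε : 0 < ε)
    (Ps : Fin s → CTree) (t : ℝ) {G : FPar Ps → ℝ≥0∞} (hG : Measurable G) :
    ∫⁻ q, G q ∂(forM Φ f₀ ε Ps t) = ∫⁻ q : FPar Ps, fD Φ f₀ ε Ps t q * G q := by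
  unfold forM
  rw [lintegral_withDensity_eq_lintegral_mul _ (measurable_fD hf hΦ hε Ps t) hG]
  rfl

theorem one_le_card_idx (P : CTree) : 1 ≤ Fintype.card (Idx P) :=
  Fintype.card_pos_iff.2 ⟨root P⟩

theorem card_FIdx (Ps : Fin s → CTree) : Fintype.card (FIdx Ps) = fsize Ps + s := by
  have h1 : ∀ i, Fintype.card (Idx (Ps i)) = (Ps i).size + 1 := by
    intro i
    have h2 := size_eq (Ps i)
    have h3 := one_le_card_idx (Ps i)
    omega
  unfold fsize
  rw [Fintype.card_sigma]
  simp only [h1]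
  rw [Finset.sum_add_distrib]
  simp

theorem fsize_eq (Ps : Fin s → CTree) : Fintype.card (FIdx Ps) - s = fsize Ps := by
  rw [card_FIdx]; omega

theorem wt0_le_wgtA (he : Env f₀ γ ρ C) {κ : Type} [Fintype κ] (V : κ → PhasePoint) :
    wt0 f₀ ε V ≤ C ^ Fintype.card κ * wgtA γ ρ Finset.univ V := by
  have h1 : wt0 f₀ ε V ≤ ∏ k, ENNReal.ofReal (f₀ (V k)) := by
    unfold wt0
    split_ifs
    · exact le_rfl
    · exact bot_le
  refine h1.trans ?_
  calc ∏ i, ENNReal.ofReal (f₀ (V i)) ≤ ∏ i, C * (ρ (V i).1 * wG γ (V i).2) :=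
        Finset.prod_le_prod' fun i _ => he.le (V i)
    _ = C ^ Fintype.card κ * wgtA γ ρ Finset.univ V := by
        unfold wgtA
        rw [Finset.prod_mul_distrib, Finset.prod_const, Finset.card_univ,
          Finset.prod_mul_distrib]

/-- **The law of a forest is dominated**: `s` groups, births `0`, all particles are anchors. -/
theorem dom_forest (hΦ : AdmissiblePotential Φ) (hf : Measurable f₀) (he : Env f₀ γ ρ C)
    (hε : 0 < ε) (Ps : Fin s → CTree) (t : ℝ) :
    Dom γ ρ ε s Finset.univ (C ^ Fintype.card (FIdx Ps))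
      (Measure.dirac fun _ : FIdx Ps => (0 : ℝ)) (forM Φ f₀ ε Ps t) (fun _ _ => 0)
      (flinesM Φ ε Ps) where
  mb := measurable_const
  mz := measurable_flinesM hΦ ε Ps
  le F hF := by
    set b0 : FIdx Ps → ℝ := fun _ => 0 with hb0
    have hF0 : Measurable fun z : FIdx Ps → PhasePoint => F (b0, z) :=
      hF.comp (measurable_const.prodMk measurable_id)
    have hw0 : Measurable (wt0 f₀ ε : (FIdx Ps → PhasePoint) → ℝ≥0∞) :=
      Final973.measurable_wt0 hf
    have hH : Measurable fun z : FPar Ps × (FIdx Ps → PhasePoint) =>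
        wt0 f₀ ε z.2 * F (b0, z.2) :=
      (hw0.comp measurable_snd).mul (hF0.comp measurable_snd)
    have hout : Measurable fun b : FIdx Ps → ℝ => ∫⁻ z, wgtA γ ρ Finset.univ z * F (b, z) := by
      have h1 : Measurable fun p : (FIdx Ps → ℝ) × (FIdx Ps → PhasePoint) =>
          wgtA γ ρ Finset.univ p.2 * F p := ((measurable_wgtA he.meas _).comp measurable_snd).mul hF
      exact h1.lintegral_prod_right'
    rw [lintegral_dirac' _ hout, fsize_eq, lintegral_forM hΦ hf hε Ps t
      (G := fun q => F (b0, flinesM Φ ε Ps q)) (hF0.comp (measurable_flinesM hΦ ε Ps))]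
    have e1 : ∀ q : FPar Ps, fD Φ f₀ ε Ps t q * F (b0, flinesM Φ ε Ps q) =
        (FVS Φ ε Ps t).indicator (fun q => (∏ i, wt Φ (Ps i) (q i).1.2 (q i).2) *
          (fun z : FPar Ps × (FIdx Ps → PhasePoint) => wt0 f₀ ε z.2 * F (b0, z.2))
            (q, flines Φ ε Ps q)) q := by
      intro q
      unfold fD
      by_cases hq : q ∈ FVS Φ ε Ps t
      · rw [indicator_of_mem hq, indicator_of_mem hq, flinesM_of_valid hq.1, mul_assoc]
      · rw [indicator_of_notMem hq, indicator_of_notMem hq, zero_mul]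
    rw [lintegral_congr e1, forestMeasure_sep hΦ hε Ps t hH]
    calc ∫⁻ V : FIdx Ps → PhasePoint, (FSkelS Φ ε Ps t).indicator
          (fun V => wt0 f₀ ε V * F (b0, V)) V
        ≤ ∫⁻ V : FIdx Ps → PhasePoint, C ^ Fintype.card (FIdx Ps) *
            (wgtA γ ρ Finset.univ V * F (b0, V)) := by
          refine lintegral_mono fun V => ?_
          refine (indicator_le_self _ _ _).trans ?_
          rw [← mul_assoc]
          exact mul_le_mul_left (wt0_le_wgtA he V) _
      _ = C ^ Fintype.card (FIdx Ps) * ∫⁻ V, wgtA γ ρ Finset.univ V * F (b0, V) := by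
          rw [lintegral_const_mul' _ _ (ENNReal.pow_ne_top he.fin)]

/-- The law of a forest with exponential velocity weights. -/
theorem dom_forest_exp (hΦ : AdmissiblePotential Φ) (hf : Measurable f₀) (he : Env f₀ γ ρ C)
    (hε : 0 < ε) (Ps : Fin s → CTree) (t a : ℝ) {W : FPar Ps → ℝ≥0∞} {c' : ℝ≥0∞}
    (hW : Measurable W) (hle : ∀ q, W q ≤ c' * expW a (flinesM Φ ε Ps q)) (hc' : c' ≠ ∞) :
    Dom (γ - a) ρ ε s Finset.univ (c' * C ^ Fintype.card (FIdx Ps))
      (Measure.dirac fun _ : FIdx Ps => (0 : ℝ)) ((forM Φ f₀ ε Ps t).withDensity W)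
      (fun _ _ => 0) (flinesM Φ ε Ps) :=
  (dom_forest hΦ hf he hε Ps t).weight a hW hle hc'

end Crest.Agent.R122.DomForest998

end
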