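import Crest.Agent.R122.LinkRel_879
import Crest.Agent.R122.MWFam2_255

/-!
# Links in a larger base world (row 122, section E, A8)

`Y` base world, `A`, `B`, `C` groups of inserted particles, `s` a time not later than the touch times
of `A`, `B`, `C` in `Y`, up to which no two of the three groups are linked in `Y`. Then `B` and `C` are
not linked in the world `Y + A` up to `s` (`MW.not_link_lift`).

* `LinkU255.cfl_of_lift` : the clean closure of `L` in `Z + A` is the clean closure of `L` in `Z`.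
* `MW.not_link_lift`, `MW.not_link_lift_sub` : the same for families of pairwise unlinked lines.
-/

set_option autoImplicit false
set_option linter.unusedSectionVars false

open MeasureTheory Set Filter Topology
open scoped ENNReal
open Crest.AnalysisR.Kinetic
open Crest.Agent.R122.Flow671 Crest.Agent.R122.Ins45 Crest.Agent.R122.Causal291
open Crest.Agent.R122.Inf879 Crest.Agent.R122.GC311

namespace Crest.Agent.R122.LinkU255

open Crest.Agent.R122.Causal291 Crest.Agent.R122.CausalGen291 Crest.Agent.R122.CausalGen291.Four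

variable {κ ιA ιL ι : Type} {X : Type*}
variable {F : Four κ ιA ιL ι X} {a T : ℝ} {P₀ : ℝ → κ → Prop} {PA : ℝ → ιA → Prop}
  {PL : ℝ → ιL → Prop} {P : ℝ → ι → Prop}
variable [Finite κ] [Finite ιA] [Finite ιL] [Finite ι]

/-- Clean before `u` with respect to `Z+A`, `Z+A+L` implies clean with respect to `Z`, `Z+L`. -/
theorem cleanL_of_lift (hd : F.Dyn T) (hR : F.Rules a T P₀ PA PL P) (ha : 0 ≤ a) {s : ℝ}
    (hs : s ∈ Icc 0 T) (h : NoLink F a P₀ PA PL s) {u : ℝ} (hu : u ≤ s) {k : κ}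
    (hk : CleanB a PA P id F.fA u (F.eA k)) : CleanB a P₀ PL id F.eL u k := by
  intro v hav hvu
  have hvs := hvu.trans_le hu
  have h0 : ¬ P₀ v k := fun h' =>
    (hk v hav hvu).1 ((infected_iffA hd hR ha hs.2 h.untA hav hvs k).1 h')
  exact ⟨h0, fun h' => h0 ((infected_iffL hd hR ha hs.2 h.untL hav hvs k).2 h')⟩

/-- A particle of the clean closure of `L` is clean before `u` with respect to `Z`, `Z + A`. -/
theorem cleanA_of_cfl (hd : F.Dyn T) (hR : F.Rules a T P₀ PA PL P) (ha : 0 ≤ a) {s : ℝ}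
    (hs : s ∈ Icc 0 T) (h : NoLink F a P₀ PA PL s) {u : ℝ} (hu : u ≤ s) {k : κ}
    (hk : k ∈ F.CFL a P₀ PL u) : CleanB a P₀ PA id F.eA u k := by
  have key : CleanB a P₀ PL id F.eL u k := by
    change CFut F.C₀ F.z₀ F.CL F.zL id F.eL a P₀ PL u k at hk
    have early : ∀ {v : ℝ}, v ≤ u → CFut F.C₀ F.z₀ F.CL F.zL id F.eL a P₀ PL v k →
        CleanB a P₀ PL id F.eL v k → CleanB a P₀ PL id F.eL u k := by
      intro v hvu hf hcl
      rcases hvu.lt_or_eq with h1 | h1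
      · exact (cleanB_of_fut_lt hR.r₀ hR.rL hs.2 h.untL (h1.trans_le hu) hf.fut).mono hu
      · rw [← h1]
        exact hcl
    cases hk with
    | init hz h0 => exact absurd (init₀ hd hs.1 h.nl k).2 hz
    | new₁ j hj hc h0 huu hcl => exact absurd ⟨j, rfl⟩ hj
    | new₂ j hj hc h0 huu hcl => exact early huu (.new₂ j hj hc h0 le_rfl hcl) hcl
    | chain₁ hl hc huu hcl => exact early huu (.chain₁ hl hc le_rfl hcl) hcl
    | chain₂ hl hc huu hcl => exact early huu (.chain₂ hl hc le_rfl hcl) hcl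
  intro v hav hvu
  have hvs := hvu.trans_le hu
  exact ⟨(key v hav hvu).1, fun h' =>
    (key v hav hvu).1 ((infected_iffA hd hR ha hs.2 h.untA hav hvs k).2 h')⟩

/-- **The clean closure of `L` in `Z + A` is the clean closure of `L` in `Z`.** -/
theorem cfl_of_lift (hd : F.Dyn T) (hR : F.Rules a T P₀ PA PL P) (ha : 0 ≤ a) {s : ℝ}
    (hs : s ∈ Icc 0 T) (h : NoLink F a P₀ PA PL s) {u : ℝ} (hu : u ≤ s) {x : ιA}
    (hx : CFut F.CA F.zA F.C F.z id F.fA a PA P u x) :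
    ∃ k, x = F.eA k ∧ k ∈ F.CFL a P₀ PL u := by
  -- outside the clean closure of `A`
  have out : ∀ {u : ℝ} {x : ιA}, u ≤ s → x ∉ F.CIA a P₀ PA u →
      ∃ k, x = F.eA k ∧ ∀ v, v < u → k ∉ F.FA v := by
    intro u x hu hx
    simp only [CIA, mem_ofPred_eq, not_forall] at hx
    obtain ⟨k, rfl, hk⟩ := hx
    exact ⟨k, rfl, fun v hv hkA => hk ((cfa_of_fa hR hs.2 h.untA (hv.trans_le hu) hkA).mono hv.le)⟩
  have stL : ∀ {u : ℝ} {k : κ}, u ∈ Icc 0 s → (∀ v, v < u → k ∉ F.FA v) →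
      F.zL u (F.eL k) = F.z u (F.fL (F.eL k)) := by
    intro u k hu hk
    refine glueL_closed hd hR hs h.untA h.untL h.nl hu fun v hv k' hk' => ?_
    rw [← F.eL_inj hk']
    exact hk v hv
  have nlL : ∀ {u : ℝ} {k : κ}, u ≤ s → k ∈ F.CFL a P₀ PL u → ∀ v, v < u → k ∉ F.FA v :=
    fun hu hk => not_fa_of_cfl hR hs h.untA h.nl hu hk
  have cil : ∀ {u : ℝ} {k : κ}, k ∈ F.CFL a P₀ PL u → F.eL k ∈ F.CIL a P₀ PL u := by
    intro u k hk k' hk'
    rw [← F.eL_inj hk']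
    exact hk
  induction hx with
  | @init u x hz h0 => exact absurd (hd.initA _) hz
  | new₁ j hj _ _ _ _ => exact absurd ⟨j, rfl⟩ hj
  | @new₂ u u' x j hj hc h0 huu hcl =>
    have hu's : u' ≤ s := huu.trans hu
    have hu'I : u' ∈ Icc 0 s := ⟨h0, hu's⟩
    have hu'T : u' ∈ Icc 0 T := ⟨h0, hu's.trans hs.2⟩
    rcases F.cover j with ⟨x', rfl⟩ | ⟨y, rfl⟩
    · exact absurd ⟨x', rfl⟩ hj
    have hy : y ∉ range F.eL := by
      rintro ⟨k', rfl⟩
      exact hj ⟨F.eA k', F.comm k'⟩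
    have hyL : y ∈ F.CIL a P₀ PL u' := fun k' hk' => absurd ⟨k', hk'.symm⟩ hy
    have e1 : F.zL u' y = F.z u' (F.fL y) := glue_of_cil hd hR hs h hu'I hyL
    by_cases hxA : x ∈ F.CIA a P₀ PA u'
    · exfalso
      have e2 := glue_of_cia hd hR hs h hu'I hxA
      exact h.nl ⟨u', hu'I, Or.inr ⟨x, y, hxA, hyL,
        hd.cohX u' hu'T x y e2 e1 (hd.pA.symm₂ _ _ _ hc)⟩⟩
    · obtain ⟨k, rfl, hk⟩ := out hu's hxA
      refine ⟨k, rfl, ?_⟩
      have hc' : F.C u' (F.fL y) (F.fL (F.eL k)) := by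
        rw [← F.comm k]; exact hc
      exact .new₂ y hy ((hd.pL.coh u' hu'T y (F.eL k) e1 (stL hu'I hk)).2 hc') h0 huu
        (cleanL_of_lift hd hR ha hs h hu's hcl)
  | @chain₁ u u' x l hl hc huu hcl ih =>
    have hu's : u' ≤ s := huu.trans hu
    have h0 : 0 ≤ u' := CFut.nonneg hl
    have hu'I : u' ∈ Icc 0 s := ⟨h0, hu's⟩
    have hu'T : u' ∈ Icc 0 T := ⟨h0, hu's.trans hs.2⟩
    obtain ⟨k', rfl, hk'⟩ := ih hu's
    by_cases hxA : x ∈ F.CIA a P₀ PA u'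
    · exfalso
      have hcl' := cleanA_of_cfl hd hR ha hs h hu's hk'
      have hc' : F.CA u' x (F.eA k') := hd.p₀A.symm₂ _ _ _ hc
      have hkA : k' ∈ F.CFA a P₀ PA u' := by
        by_cases hxr : x ∈ range F.eA
        · obtain ⟨k'', rfl⟩ := hxr
          exact .chain₂ (hxA k'' rfl) hc' le_rfl hcl'
        · exact .new₂ x hxr hc' h0 le_rfl hcl'
      exact h.nl ⟨u', hu'I, Or.inl ⟨k', hkA, hk'⟩⟩
    · obtain ⟨k, rfl, hk⟩ := out hu's hxA
      refine ⟨k, rfl, .chain₁ hk' ?_ huu (cleanL_of_lift hd hR ha hs h hu's hcl)⟩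
      exact (hd.p₀A.coh u' hu'T k' k
        (agreeA_closed hd hs h.nl hu'I (nlL hu's hk'))
        (agreeA_closed hd hs h.nl hu'I hk)).2 hc
  | @chain₂ u u' x l hl hc huu hcl ih =>
    have hu's : u' ≤ s := huu.trans hu
    have h0 : 0 ≤ u' := CFut.nonneg hl
    have hu'I : u' ∈ Icc 0 s := ⟨h0, hu's⟩
    have hu'T : u' ∈ Icc 0 T := ⟨h0, hu's.trans hs.2⟩
    obtain ⟨k', rfl, hk'⟩ := ih hu's
    have e1 : F.zL u' (F.eL k') = F.z u' (F.fL (F.eL k')) := stL hu'I (nlL hu's hk')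
    by_cases hxA : x ∈ F.CIA a P₀ PA u'
    · exfalso
      have e2 := glue_of_cia hd hR hs h hu'I hxA
      have hc' : F.C u' (F.fA x) (F.fL (F.eL k')) := by
        rw [← F.comm k']
        exact hd.pA.symm₂ _ _ _ hc
      exact h.nl ⟨u', hu'I, Or.inr ⟨x, F.eL k', hxA, cil hk', hd.cohX u' hu'T x _ e2 e1 hc'⟩⟩
    · obtain ⟨k, rfl, hk⟩ := out hu's hxA
      refine ⟨k, rfl, .chain₂ hk' ?_ huu (cleanL_of_lift hd hR ha hs h hu's hcl)⟩
      have hc' : F.C u' (F.fL (F.eL k')) (F.fL (F.eL k)) := by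
        rw [← F.comm k, ← F.comm k']; exact hc
      exact (hd.pL.coh u' hu'T (F.eL k') (F.eL k) e1 (stL hu'I hk)).2 hc'

end Crest.Agent.R122.LinkU255

namespace Crest.Agent.R122.EDefs602

namespace MW

open MWAlg255 (sub)

variable {ι κ κ₀ κ₁ κ₂ : Type} [Fintype ι] [Fintype κ] [Fintype κ₀] [Fintype κ₁] [Fintype κ₂]
variable {Φ : Space3 → ℝ} {ε T s : ℝ} {K : ℕ} {Y : MW ι} {A : MW κ₀} {B : MW κ₁} {C : MW κ₂}

/-- The clean closure of `B` in `Y + A`. -/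
theorem cf_of_lift (hΦ : AdmissiblePotential Φ) (hε : 0 < ε) (h4 : MWFam255.Ok4 Φ ε Y A B)
    (hs0 : 0 ≤ s) (hsT : s ≤ T) (hA : s ≤ Y.theta Φ ε K T A) (hB : s ≤ Y.theta Φ ε K T B)
    (hlk : ¬ Y.LINK Φ ε K A B s) {u : ℝ} (hu : u ≤ s) {x : ι ⊕ κ₀}
    (hx : MWFam255.CF Φ ε K (Y.add A) B u x) :
    ∃ k, x = Sum.inl k ∧ MWFam255.CF Φ ε K Y B u k :=
  LinkU255.cfl_of_lift (four_dyn hΦ hε h4.z h4.a h4.b h4.ab T)
    (four_rules h4.z h4.a h4.b h4.ab K 0 T) le_rfl ⟨hs0, hsT⟩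
    (h4.noLink hΦ hε hsT hA hB hlk) hu hx

/-- `B` and its clean closure in `Y + A`, with the states. -/
theorem ci_of_lift (hΦ : AdmissiblePotential Φ) (hε : 0 < ε) (h4 : MWFam255.Ok4 Φ ε Y A B)
    (hs0 : 0 ≤ s) (hsT : s ≤ T) (hA : s ≤ Y.theta Φ ε K T A) (hB : s ≤ Y.theta Φ ε K T B)
    (hlk : ¬ Y.LINK Φ ε K A B s) {u : ℝ} (hu : u ∈ Icc 0 s) {x : (ι ⊕ κ₀) ⊕ κ₁}
    (hx : MWFam255.CI Φ ε K (Y.add A) B u x) :
    ∃ x' : ι ⊕ κ₁, x = Sum.elim (Sum.inl ∘ Sum.inl) Sum.inr x' ∧ MWFam255.CI Φ ε K Y B u x' ∧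
      (Y.add B).path Φ ε u x' = ((Y.add A).add B).path Φ ε u x := by
  have hd := four_dyn hΦ hε h4.z h4.a h4.b h4.ab T
  have hR := four_rules h4.z h4.a h4.b h4.ab K 0 T
  have hn := h4.noLink hΦ hε hsT hA hB hlk
  have hex : ∃ x' : ι ⊕ κ₁, x = Sum.elim (Sum.inl ∘ Sum.inl) Sum.inr x' ∧
      MWFam255.CI Φ ε K Y B u x' := by
    rcases x with x | x
    · obtain ⟨k, rfl, hk⟩ := cf_of_lift hΦ hε h4 hs0 hsT hA hB hlk hu.2 hx.inl
      exact ⟨Sum.inl k, rfl, MWFam255.ci_inl hk⟩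
    · exact ⟨Sum.inr x, rfl, MWFam255.ci_inr⟩
  obtain ⟨x', rfl, hx'⟩ := hex
  exact ⟨x', rfl, hx', LinkU255.glue_of_cil hd hR ⟨hs0, hsT⟩ hn hu hx'⟩

/-- **Links in a larger base world.** -/
theorem not_link_lift (hΦ : AdmissiblePotential Φ) (hε : 0 < ε) (h4 : MWFam255.Ok4 Φ ε Y A B)
    (h4' : MWFam255.Ok4 Φ ε Y A C) (hs0 : 0 ≤ s) (hsT : s ≤ T) (hA : s ≤ Y.theta Φ ε K T A)
    (hB : s ≤ Y.theta Φ ε K T B) (hC : s ≤ Y.theta Φ ε K T C) (hAB : ¬ Y.LINK Φ ε K A B s)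
    (hAC : ¬ Y.LINK Φ ε K A C s) (hBC : ¬ Y.LINK Φ ε K B C s) :
    ¬ (Y.add A).LINK Φ ε K B C s := by
  rw [MWFam255.link_iff]
  rintro ⟨u, hu, ⟨x, hx, hx'⟩ | ⟨x, y, hx, hy, hc⟩⟩
  · obtain ⟨k, rfl, hk⟩ := cf_of_lift hΦ hε h4 hs0 hsT hA hB hAB hu.2 hx
    obtain ⟨k', hkk, hk'⟩ := cf_of_lift hΦ hε h4' hs0 hsT hA hC hAC hu.2 hx'
    rw [← Sum.inl_injective hkk] at hk'
    exact hBC (MWFam255.link_iff.2 ⟨u, hu, Or.inl ⟨k, hk, hk'⟩⟩)
  · obtain ⟨x', rfl, hx', hxp⟩ := ci_of_lift hΦ hε h4 hs0 hsT hA hB hAB hu hx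
    obtain ⟨y', rfl, hy', hyp⟩ := ci_of_lift hΦ hε h4' hs0 hsT hA hC hAC hu hy
    obtain ⟨c1, c2, c3, c4⟩ := hc
    have hbx : ((Y.add A).add B).b (Sum.elim (Sum.inl ∘ Sum.inl) Sum.inr x') = (Y.add B).b x' := by
      rcases x' with x' | x' <;> rfl
    have hby : ((Y.add A).add C).b (Sum.elim (Sum.inl ∘ Sum.inl) Sum.inr y') = (Y.add C).b y' := by
      rcases y' with y' | y' <;> rfl
    rw [hbx] at c1 c3
    rw [hby] at c2 c3
    rw [← hxp, ← hyp] at c4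
    refine hBC (MWFam255.link_iff.2 ⟨u, hu, Or.inr ⟨x', y', hx', hy', c1, c2, ?_, c4⟩⟩)
    refine c3.imp (fun h5 => ?_) id
    rcases x' with x' | x' <;> rcases y' with y' | y'
    · have h6 := Sum.inl_injective (Sum.inl_injective (Sum.inl_injective h5))
      exact congrArg _ (congrArg _ h6)
    · cases h5
    · cases h5
    · cases h5

/-- Touches in a larger base world (closed end). -/
theorem touched_lift (hΦ : AdmissiblePotential Φ) (hε : 0 < ε) (h4 : MWFam255.Ok4 Φ ε Y A B)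
    (hs0 : 0 ≤ s) (hsT : s ≤ T) (hA : s ≤ Y.theta Φ ε K T A) (hB : s ≤ Y.theta Φ ε K T B)
    (hlk : ¬ Y.LINK Φ ε K A B s) :
    (Y.add A).Touched Φ ε K B s ↔ Y.Touched Φ ε K B s := by
  have hn := h4.noLink hΦ hε hsT hA hB hlk
  exact (CausalGen291.Four.touched_iff_closed (four_dyn hΦ hε h4.z h4.a h4.b h4.ab T)
    (four_cohX Φ ε Y A B T) (four_rules h4.z h4.a h4.b h4.ab K 0 T) le_rfl ⟨hs0, hsT⟩ hn.untA
    hn.untL hn.nl).symm

end MW

end Crest.Agent.R122.EDefs602
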