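import Crest.Agent.R122.Line2B_879
import Crest.Agent.R122.LinkLift_879
import Crest.Agent.R122.MWFam2_255

/-!
# The link interface of inequality 1 (row 122, H1)

* `E4Hyp Φ ε K T Z ls E F` : the lines `ls a`, `a ∈ F`, can be inserted together in `Z`; they are
  pairwise unlinked in `Z`, and pairwise unlinked in `Z + d` for every exit `d ∈ E`.
* `E4Hyp.unlB` : helper285's superposition facts.
-/

set_option autoImplicit false
set_option linter.unusedSectionVars false

open MeasureTheory Set Filter Topology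
open scoped ENNReal
open Crest.AnalysisR.Kinetic
open Crest.Agent.R122.EDefs602 Crest.Agent.R122.MWAlg255 Crest.Agent.R122.MWFam255
open Crest.Agent.R122.Decomp285 Crest.Agent.R122.Line285

namespace Crest.Agent.R122.E4Hyp879

noncomputable section

open scoped Classical

variable {ι κ : Type} [Fintype ι] [Fintype κ]
variable {Φ : Space3 → ℝ} {ε T : ℝ} {K : ℕ} {Z : MW ι} {ls : κ → ML} {E F : Finset κ}

/-- World consistency of a sub-family and a line. -/
theorem w1_sub (hΦ : AdmissiblePotential Φ) (hε : 0 < ε) (hT : 0 ≤ T)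
    (hok : MW.OkFam Φ ε Z (fun x : F => ls x)) (hnl : PairNL Φ ε K T Z (fun x : F => ls x))
    {G : Finset κ} (hG : G ⊆ F) {b : κ} (hb : b ∈ F) (hbG : b ∉ G) :
    Decomp811.W1E Φ ε K T Z (sub ls G) (MW.line (ls b)) :=
  w1E_lines_line hΦ hε hT hok hnl
    (⟨fun i : G => (⟨i.1, hG i.2⟩ : F), fun i j h => Subtype.ext (congrArg (fun y : F => y.1) h)⟩ :
      G ↪ F) ⟨b, hb⟩
    fun i h => hbG (by
      have h1 : (i : κ) = b := congrArg (fun y : F => y.1) h
      rw [← h1]
      exact i.2)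

/-- A sub-family does not touch before its first line. -/
theorem le_theta_sub' (hΦ : AdmissiblePotential Φ) (hε : 0 < ε) (hT : 0 ≤ T)
    (hok : MW.OkFam Φ ε Z (fun x : F => ls x)) (hnl : PairNL Φ ε K T Z (fun x : F => ls x))
    {G : Finset κ} (hG : G ⊆ F) {s : ℝ} (hs1 : s ≤ T + 1)
    (hs : ∀ a ∈ G, s ≤ Z.thetaL Φ ε K T (ls a)) : s ≤ Z.theta Φ ε K T (sub ls G) := by
  have h1 := theta_lines_eq hΦ hε hT hok hnl
    (⟨fun i : G => (⟨i.1, hG i.2⟩ : F), fun i j h => Subtype.ext (congrArg (fun y : F => y.1) h)⟩ :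
      G ↪ F)
  have h2 : Z.theta Φ ε K T (sub ls G) = Decomp811.firstT Φ ε K T Z (fun i : G => ls i) := h1
  rw [h2]
  exact Decomp811.le_firstT hs1 fun k => hs k k.2

theorem thF_empty (hΦ : AdmissiblePotential Φ) (hε : 0 < ε) (K : ℕ) (T : ℝ) (Z : MW ι)
    (ls : κ → ML) (b : κ) : thF Φ ε K T Z ls ∅ b = Z.thetaL Φ ε K T (ls b) :=
  thX_empty hΦ hε K T Z ls (ls b)

/-- Superposition facts in the base world `Z`. -/
theorem unlAt_empty (hΦ : AdmissiblePotential Φ) (hε : 0 < ε) (hT : 0 ≤ T)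
    (hok : MW.OkFam Φ ε Z (fun x : F => ls x)) (hnl : PairNL Φ ε K T Z (fun x : F => ls x)) :
    UnlAt (thF Φ ε K T Z ls) ∅ F := by
  have key : ∀ s, (∀ a ∈ F, a ∉ (∅ : Finset κ) → s ≤ thF Φ ε K T Z ls ∅ a) → ∀ G ⊆ F, ∀ b ∈ F,
      b ∉ G → s ≤ Z.theta Φ ε K T (sub ls G) := by
    intro s hs G hG b hb hbG
    have hs' : ∀ a ∈ F, s ≤ Z.thetaL Φ ε K T (ls a) := fun a ha => by
      have h1 := hs a ha (Finset.notMem_empty a)
      rwa [thF_empty hΦ hε] at h1
    exact le_theta_sub' hΦ hε hT hok hnl hG ((hs' b hb).trans MW.theta_le) fun a ha => hs' a (hG ha)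
  refine ⟨fun s hs G hG b hb _ hbG => ?_, fun s hs G hG b hb _ hbG hle => ?_⟩
  · rw [Finset.union_empty]
    have h1 := w1_sub hΦ hε hT hok hnl hG hb hbG
    have h2 := hs b hb (Finset.notMem_empty b)
    rw [thF_empty hΦ hε] at h2
    exact (le_min (key s hs G hG b hb hbG) h2).trans h1.min_le
  · rw [Finset.union_empty] at hle
    have h1 := w1_sub hΦ hε hT hok hnl hG hb hbG
    rw [thF_empty hΦ hε]
    exact (h1.iff_le (key s hs G hG b hb hbG)).1 hle

/-- The line `ls d` goes to the base world. -/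
theorem sub_insert_base {d : κ} {G : Finset κ} (hd : d ∉ G) :
    (Z.ins (ls d)).add (sub ls G) = (Z.add (sub ls (insert d G))).comap
      ((Equiv.sumAssoc ι Unit G).trans (Equiv.sumCongr (Equiv.refl ι)
        ((Equiv.sumComm Unit G).trans (insertEquiv hd)))) := by
  unfold MW.ins MW.add MW.comap sub MW.line MW.lines
  congr 1 <;> · funext x; rcases x with (x | x) | x <;> rfl

theorem thX_insert_base (hΦ : AdmissiblePotential Φ) (hε : 0 < ε) (K : ℕ) (T : ℝ) (Z : MW ι)
    (ls : κ → ML) (x : ML) {d : κ} {G : Finset κ} (hd : d ∉ G) :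
    thX Φ ε K T Z ls x (insert d G) = thX Φ ε K T (Z.ins (ls d)) ls x G := by
  unfold thX
  rw [sub_insert_base hd]
  exact (EquivE416.thetaL_comap hΦ hε K T _ x _).symm

theorem okFam_ins (hΦ : AdmissiblePotential Φ) (hε : 0 < ε)
    (hok : MW.OkFam Φ ε Z (fun x : F => ls x)) {d : κ} (hd : d ∈ F) :
    MW.OkFam Φ ε (Z.ins (ls d)) (fun x : (F.erase d : Finset κ) => ls x) := by
  intro S
  have h1 := ok_lines_add hΦ hε hok
    (⟨fun _ : Unit => (⟨d, hd⟩ : F), fun _ _ _ => rfl⟩ : Unit ↪ F)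
    (⟨fun i : S => (⟨i.1.1, Finset.mem_of_mem_erase i.1.2⟩ : F),
      fun i j h => Subtype.ext (Subtype.ext (congrArg (fun y : F => y.1) h))⟩ : S ↪ F)
    (fun _ i h => by
      have h2 : d = (i.1.1 : κ) := congrArg (fun y : F => y.1) h
      exact (Finset.mem_erase.1 i.1.2).1 h2.symm)
  exact h1

/-- Superposition facts in the base world `Z + d`. -/
theorem unlAt_singleton (hΦ : AdmissiblePotential Φ) (hε : 0 < ε) (hT : 0 ≤ T)
    (hok : MW.OkFam Φ ε Z (fun x : F => ls x)) {d : κ} (hd : d ∈ F)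
    (hnl : PairNL Φ ε K T (Z.ins (ls d)) (fun x : (F.erase d : Finset κ) => ls x)) :
    UnlAt (thF Φ ε K T Z ls) {d} F := by
  have h1 := unlAt_empty hΦ hε hT (okFam_ins hΦ hε hok hd) hnl
  have e0 : ∀ b, thF Φ ε K T Z ls {d} b = thF Φ ε K T (Z.ins (ls d)) ls ∅ b := fun b =>
    thX_insert_base hΦ hε K T Z ls (ls b) (d := d) (G := ∅) (Finset.notMem_empty d)
  have e1 : ∀ (G : Finset κ) (b : κ), thF Φ ε K T Z ls (G ∪ {d}) b =
      thF Φ ε K T (Z.ins (ls d)) ls (G.erase d) b := by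
    intro G b
    have h2 : G ∪ {d} = insert d (G.erase d) := by
      ext x
      simp only [Finset.mem_union, Finset.mem_singleton, Finset.mem_insert, Finset.mem_erase]
      by_cases hx : x = d <;> simp [hx]
    rw [h2]
    exact thX_insert_base hΦ hε K T Z ls (ls b) (Finset.notMem_erase d G)
  refine ⟨fun s hs G hG b hb hbd hbG => ?_, fun s hs G hG b hb hbd hbG hle => ?_⟩
  · rw [e1]
    have hbd' : b ≠ d := fun h => hbd (Finset.mem_singleton.2 h)
    have h2 := h1.ge s (fun a ha _ => by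
      rw [← e0]
      exact hs a (Finset.mem_of_mem_erase ha)
        fun h => (Finset.mem_erase.1 ha).1 (Finset.mem_singleton.1 h)) (G.erase d)
      (Finset.erase_subset_erase d hG) b (Finset.mem_erase.2 ⟨hbd', hb⟩) (Finset.notMem_empty b)
      (fun h => hbG (Finset.mem_of_mem_erase h))
    rwa [Finset.union_empty] at h2
  · rw [e1] at hle
    rw [e0]
    have hbd' : b ≠ d := fun h => hbd (Finset.mem_singleton.2 h)
    exact h1.of_le s (fun a ha _ => by
      rw [← e0]
      exact hs a (Finset.mem_of_mem_erase ha)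
        fun h => (Finset.mem_erase.1 ha).1 (Finset.mem_singleton.1 h)) (G.erase d)
      (Finset.erase_subset_erase d hG) b (Finset.mem_erase.2 ⟨hbd', hb⟩) (Finset.notMem_empty b)
      (fun h => hbG (Finset.mem_of_mem_erase h)) (by rwa [Finset.union_empty])

/-- The link interface of inequality 1 for one family of coexisting lines. -/
structure E4Hyp (Φ : Space3 → ℝ) (ε : ℝ) (K : ℕ) (T : ℝ) (Z : MW ι) (ls : κ → ML)
    (E F : Finset κ) : Prop where
  /-- the sub-families of `F` can be inserted -/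
  ok : MW.OkFam Φ ε Z (fun x : F => ls x)
  /-- pairwise unlinked in `Z` -/
  nl : PairNL Φ ε K T Z (fun x : F => ls x)
  /-- pairwise unlinked in `Z + d`, `d ∈ E` -/
  nld : ∀ d ∈ E, PairNL Φ ε K T (Z.ins (ls d)) (fun x : (F.erase d : Finset κ) => ls x)

theorem E4Hyp.unlB (hΦ : AdmissiblePotential Φ) (hε : 0 < ε) (hT : 0 ≤ T) (hE : E ⊆ F)
    (h : E4Hyp Φ ε K T Z ls E F) : UnlB (thF Φ ε K T Z ls) E F := by
  rintro A₀ (rfl | ⟨d, hd, rfl⟩)
  · exact unlAt_empty hΦ hε hT h.ok h.nl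
  · exact unlAt_singleton hΦ hε hT h.ok (hE hd) (h.nld d hd)

end

end Crest.Agent.R122.E4Hyp879
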