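import Crest.Agent.R122.CausalOC_291
import Crest.Agent.R122.InfGen_879

/-!
# One contact: transfer of touches (row 122, E_FINAL (1.6), (1.6')), abstract version

`Z` (over `ι₁ = κ ∪ {c}`), `Z+l` (over `ι₃`), `W = Z₀+l'+c'` (over `ιW = κ ∪ {n false, n true}`),
`φ : ιW → ι₃` the bijection `l' ↦ l`, `c' ↦ c`. The hypotheses concern only contacts (`Transfer`).
In `W` we use the *transported* infection status `P₃ s (φ x)`.

* `Transfer.touched_iff`: `Touched (Z, Z+l; s) ↔ Touched (Z, W; s)` (transported status in `W`).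
* `Transfer.size_le`, `Transfer.size_eq`: comparison of the marked sizes.
* `Transfer.rule`: the transported status is a rule in `W`.
* `Transfer.coh`: coherence with the sub-worlds of `W` which contain at most one of `l'`, `c'`.
-/

set_option autoImplicit false
set_option linter.unusedSectionVars false

open Set Filter Topology

namespace Crest.Agent.R122.CausalGen291

open Crest.Agent.R122.Causal291 Crest.Agent.R122.Inf879

/-- Contact hypotheses of the one-contact transfer. -/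
structure Transfer {κ ι₁ ι₃ ιW : Type} (T s₁ σ : ℝ) (C₁ : ℝ → ι₁ → ι₁ → Prop)
    (C₃ : ℝ → ι₃ → ι₃ → Prop) (CW : ℝ → ιW → ιW → Prop) (f : ι₁ → ι₃) (e₁ : κ → ι₁)
    (eW : κ → ιW) (φ : ιW → ι₃) (c : ι₁) (n : Bool → ιW) : Prop where
  φ_bij : Function.Bijective φ
  f_inj : Function.Injective f
  φe : ∀ k, φ (eW k) = f (e₁ k)
  φc : φ (n true) = f c
  φl : φ (n false) ∉ range f
  cov₁ : ∀ x : ι₁, x = c ∨ x ∈ range e₁
  covW : ∀ x : ιW, (∃ b, x = n b) ∨ x ∈ range eW
  c_new : c ∉ range e₁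
  n_new : ∀ b, n b ∉ range eW
  n_ne : n true ≠ n false
  s₁_nonneg : 0 ≤ s₁
  s₁_le : s₁ ≤ σ
  /-- contact of `l` and `c` at time `s₁` -/
  hit : C₃ s₁ (φ (n false)) (φ (n true))
  symm₃ : ∀ s x y, C₃ s x y → C₃ s y x
  symmW : ∀ s x y, CW s x y → CW s y x
  /-- contacts of `W` are contacts of `Z+l` -/
  W3 : ∀ s ∈ Icc 0 T, ∀ x y, CW s x y → C₃ s (φ x) (φ y)
  /-- contacts of `Z+l` are contacts of `W`, except the early ones between `l` and `c` -/
  cW : ∀ s ∈ Icc 0 T, ∀ x y, C₃ s (φ x) (φ y) → CW s x y ∨ (x ∉ range eW ∧ y ∉ range eW ∧ s ≤ σ)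
  /-- contacts of the undeflected `c` happen after `s₁` -/
  late₁ : ∀ s ∈ Icc 0 T, ∀ k, C₁ s c (e₁ k) → s₁ ≤ s
  /-- contacts of `l`, `c` in `Z+l` with other particles happen after `σ` -/
  late₃ : ∀ s ∈ Icc 0 T, ∀ b k, C₃ s (φ (n b)) (φ (eW k)) → σ < s
  /-- contacts of `l'`, `c'` happen after their births -/
  lateW : ∀ s ∈ Icc 0 T, ∀ b y, CW s (n b) y → σ ≤ s

namespace Transfer

variable {κ ι₁ ι₃ ιW : Type} {X : Type*} {T s₁ σ a : ℝ} {C₁ : ℝ → ι₁ → ι₁ → Prop}
  {C₃ : ℝ → ι₃ → ι₃ → Prop} {CW : ℝ → ιW → ιW → Prop} {f : ι₁ → ι₃} {e₁ : κ → ι₁}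
  {eW : κ → ιW} {φ : ιW → ι₃} {c : ι₁} {n : Bool → ιW}
  {z₁ : ℝ → ι₁ → X} {z₃ : ℝ → ι₃ → X} {zW : ℝ → ιW → X}

/-- Contacts of `W` with a particle of `Z₀` are contacts of `Z+l`, and conversely. -/
theorem contact_iff (h : Transfer T s₁ σ C₁ C₃ CW f e₁ eW φ c n) {s : ℝ} (hs : s ∈ Icc 0 T)
    (x : ιW) (k : κ) : C₃ s (φ x) (f (e₁ k)) ↔ CW s x (eW k) := by
  rw [← h.φe k]
  constructor
  · intro hc
    rcases h.cW s hs x (eW k) hc with h1 | h1
    · exact h1
    · exact absurd ⟨k, rfl⟩ h1.2.1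
  · exact h.W3 s hs x (eW k)

/-- Influence in `Z+l` implies influence in `W`. -/
theorem fut_of_fut (h : Transfer T s₁ σ C₁ C₃ CW f e₁ eW φ c n)
    (hi : ∀ k, zW 0 (eW k) = z₃ 0 (f (e₁ k))) {s : ℝ} (hs : s ≤ T) {y : ι₁}
    (hy : Fut C₁ z₁ C₃ z₃ id f s y) :
    ∀ k, y = e₁ k → Fut C₁ z₁ CW zW e₁ eW s k := by
  induction hy with
  | @init s y h0 hs0 =>
    intro k hk
    subst hk
    refine .init ?_ hs0
    rw [hi]
    exact h0
  | new₁ j hj _ _ _ => exact absurd ⟨j, rfl⟩ hj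
  | @new₂ s s' y j hj hc h0 hss' =>
    intro k hk
    subst hk
    have hs'T : s' ∈ Icc 0 T := ⟨h0, hss'.trans hs⟩
    obtain ⟨x, rfl⟩ := h.φ_bij.2 j
    refine .new₂ x ?_ ((h.contact_iff hs'T x k).1 hc) h0 hss'
    rintro ⟨k', rfl⟩
    exact hj ⟨e₁ k', (h.φe k').symm⟩
  | @chain₁ s s' y y' h' hc hss' ih =>
    intro k hk
    subst hk
    rcases h.cov₁ y' with rfl | ⟨k', rfl⟩
    · exact .new₁ y' h.c_new hc h'.nonneg hss'
    · exact .chain₁ (ih (hss'.trans hs) k' rfl) hc hss'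
  | @chain₂ s s' y y' h' hc hss' ih =>
    intro k hk
    subst hk
    have hs'T : s' ∈ Icc 0 T := ⟨h'.nonneg, hss'.trans hs⟩
    rcases h.cov₁ y' with rfl | ⟨k', rfl⟩
    · rw [← h.φc] at hc
      exact .new₂ (n true) (h.n_new true) ((h.contact_iff hs'T _ k).1 hc) h'.nonneg hss'
    · rw [← h.φe k'] at hc
      exact .chain₂ (ih (hss'.trans hs) k' rfl) ((h.contact_iff hs'T _ k).1 hc) hss'

/-- From `s₁` on the particle `c` is influenced by `l`. -/
theorem fut_c (h : Transfer T s₁ σ C₁ C₃ CW f e₁ eW φ c n) {s : ℝ} (hs : s₁ ≤ s) :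
    Fut C₁ z₁ C₃ z₃ id f s c := by
  refine .new₂ (φ (n false)) h.φl ?_ h.s₁_nonneg hs
  rw [← h.φc]
  exact h.hit

/-- Influence in `W` implies influence in `Z+l`. -/
theorem fut_of_futW (h : Transfer T s₁ σ C₁ C₃ CW f e₁ eW φ c n)
    (hi : ∀ k, zW 0 (eW k) = z₃ 0 (f (e₁ k))) {s : ℝ} (hs : s ≤ T) {k : κ}
    (hk : Fut C₁ z₁ CW zW e₁ eW s k) : Fut C₁ z₁ C₃ z₃ id f s (e₁ k) := by
  induction hk with
  | @init s k h0 hs0 =>
    refine .init ?_ hs0
    rw [← hi]
    exact h0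
  | @new₁ s s' k j hj hc h0 hss' =>
    have hs'T : s' ∈ Icc 0 T := ⟨h0, hss'.trans hs⟩
    rcases h.cov₁ j with rfl | h1
    · exact .chain₁ (e₁ := id) (h.fut_c (h.late₁ s' hs'T k hc)) hc hss'
    · exact absurd h1 hj
  | @new₂ s s' k j hj hc h0 hss' =>
    have hs'T : s' ∈ Icc 0 T := ⟨h0, hss'.trans hs⟩
    rcases h.covW j with ⟨b, rfl⟩ | h1
    · cases b with
      | true =>
        have h1 : s₁ ≤ s' := h.s₁_le.trans (h.lateW s' hs'T true _ hc)
        refine .chain₂ (h.fut_c h1) ?_ hss'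
        rw [← h.φc]
        exact (h.contact_iff hs'T _ k).2 hc
      | false => exact .new₂ (φ (n false)) h.φl ((h.contact_iff hs'T _ k).2 hc) h0 hss'
    · exact absurd h1 hj
  | @chain₁ s s' k k' h' hc hss' ih =>
    exact .chain₁ (e₁ := id) (ih (hss'.trans hs)) hc hss'
  | @chain₂ s s' k k' h' hc hss' ih =>
    have hs'T : s' ∈ Icc 0 T := ⟨h'.nonneg, hss'.trans hs⟩
    refine .chain₂ (ih (hss'.trans hs)) ?_ hss'
    have := (h.contact_iff hs'T (eW k') k).2 hc
    rwa [h.φe k'] at this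

/-- **Exact transfer of touches**, with the transported infection status in `W`. -/
theorem touched_iff (h : Transfer T s₁ σ C₁ C₃ CW f e₁ eW φ c n)
    (hi : ∀ k, zW 0 (eW k) = z₃ 0 (f (e₁ k))) {P₁ : ℝ → ι₁ → Prop} {P₃ : ℝ → ι₃ → Prop} {s : ℝ}
    (hs : s ≤ T) (hc₁ : P₁ s c → s₁ ≤ s) (hc₃ : P₃ s (f c) → s₁ ≤ s) :
    Touched C₁ z₁ C₃ z₃ id f P₁ P₃ s ↔
      Touched C₁ z₁ CW zW e₁ eW P₁ (fun s x => P₃ s (φ x)) s := by
  constructor
  · rintro (⟨y, hy, hP⟩ | ⟨j, hj, _⟩ | ⟨j, hj, hP⟩)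
    · rcases h.cov₁ y with rfl | ⟨k, rfl⟩
      · rcases hP with hP | hP
        · exact Or.inr (Or.inl ⟨y, h.c_new, hP⟩)
        · refine Or.inr (Or.inr ⟨n true, h.n_new true, ?_⟩)
          change P₃ s (φ (n true))
          rw [h.φc]
          exact hP
      · refine Or.inl ⟨k, h.fut_of_fut hi hs hy k rfl, ?_⟩
        rcases hP with hP | hP
        · exact Or.inl hP
        · right
          change P₃ s (φ (eW k))
          rw [h.φe]
          exact hP
    · exact absurd ⟨j, rfl⟩ hj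
    · obtain ⟨x, rfl⟩ := h.φ_bij.2 j
      refine Or.inr (Or.inr ⟨x, ?_, hP⟩)
      rintro ⟨k, rfl⟩
      exact hj ⟨e₁ k, (h.φe k).symm⟩
  · rintro (⟨k, hk, hP⟩ | ⟨j, hj, hP⟩ | ⟨j, hj, hP⟩)
    · refine Or.inl ⟨e₁ k, h.fut_of_futW hi hs hk, ?_⟩
      rcases hP with hP | hP
      · exact Or.inl hP
      · right
        rw [← h.φe]
        exact hP
    · rcases h.cov₁ j with rfl | h1
      · exact Or.inl ⟨j, h.fut_c (hc₁ hP), Or.inl hP⟩
      · exact absurd h1 hj
    · rcases h.covW j with ⟨b, rfl⟩ | h1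
      · cases b with
        | true =>
          have hP' : P₃ s (f c) := by
            have : P₃ s (φ (n true)) := hP
            rwa [h.φc] at this
          exact Or.inl ⟨c, h.fut_c (hc₃ hP'), Or.inr hP'⟩
        | false => exact Or.inr (Or.inr ⟨φ (n false), h.φl, hP⟩)
      · exact absurd h1 hj

/-- Explorations of `W` are explorations of `Z+l`. -/
theorem past_of_pastW (h : Transfer T s₁ σ C₁ C₃ CW f e₁ eW φ c n) {t s : ℝ} (ht : t ≤ T)
    {i x : ιW} (hx : Past CW t i s x) (hs : 0 ≤ s) : Past C₃ t (φ i) s (φ x) := by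
  induction hx with
  | root h' => exact .root h'
  | @step s s' j k h' hc hss' ih =>
    exact .step (ih (hs.trans hss')) (h.W3 s' ⟨hs.trans hss', h'.le.trans ht⟩ _ _ hc) hss'

/-- Explorations of `Z+l` are explorations of `W`, except the early visits of `l` and `c`. -/
theorem pastW_of_past (h : Transfer T s₁ σ C₁ C₃ CW f e₁ eW φ c n) {t s : ℝ} (ht : t ≤ T)
    {i : ιW} {y : ι₃} (hy : Past C₃ t (φ i) s y) (hs : 0 ≤ s) :
    ∀ x, y = φ x → Past CW t i s x ∨
      (x ∉ range eW ∧ s ≤ σ ∧ ∃ w, w ∉ range eW ∧ Past CW t i s w) := by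
  induction hy with
  | root h' =>
    intro x hx
    rw [h.φ_bij.1 hx]
    exact Or.inl (.root h')
  | @step s s' j k h' hc hss' ih =>
    intro x hx
    subst hx
    have hs' : 0 ≤ s' := hs.trans hss'
    have hs'T : s' ∈ Icc 0 T := ⟨hs', h'.le.trans ht⟩
    obtain ⟨xj, rfl⟩ := h.φ_bij.2 j
    rcases ih hs' xj rfl with h1 | ⟨h1, h2, w, hw, hw'⟩
    · rcases h.cW s' hs'T xj x hc with h3 | ⟨h3, h4, h5⟩
      · exact Or.inl (.step h1 h3 hss')
      · exact Or.inr ⟨h4, hss'.trans h5, xj, h3, h1.mono hss'⟩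
    · rcases h.covW x with ⟨b, rfl⟩ | ⟨k, rfl⟩
      · exact Or.inr ⟨h.n_new b, hss'.trans h2, w, hw, hw'.mono hss'⟩
      · rcases h.covW xj with ⟨b, rfl⟩ | h3
        · exact absurd (h.late₃ s' hs'T b k hc) (not_lt.2 h2)
        · exact absurd h3 h1

/-- The transported status is a rule of `W`. -/
theorem rule (h : Transfer T s₁ σ C₁ C₃ CW f e₁ eW φ c n) {P₃ : ℝ → ι₃ → Prop}
    (hP : IsRule C₃ a T P₃) (ha : 0 ≤ a) : IsRule CW a T (fun s x => P₃ s (φ x)) where
  hered _ _ _ _ hs ht hp hj := hP.hered _ _ _ _ hs ht (h.past_of_pastW ht hp (ha.trans hs)) hj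
  closed i := hP.closed (φ i)

section size

variable [Fintype ι₃] [Fintype ιW] {m₃ : ι₃ → ℕ} {mW : ιW → ℕ}

theorem mem_iff (h : Transfer T s₁ σ C₁ C₃ CW f e₁ eW φ c n) {t : ℝ} (ht : t ≤ T) (i : ιW)
    (k : κ) : φ (eW k) ∈ BC C₃ t (φ i) ↔ eW k ∈ BC CW t i := by
  constructor
  · intro hk
    rcases h.pastW_of_past ht hk le_rfl (eW k) rfl with h1 | h1
    · exact h1
    · exact absurd ⟨k, rfl⟩ h1.1
  · exact fun hk => h.past_of_pastW ht hk le_rfl

theorem exists_of_mem (h : Transfer T s₁ σ C₁ C₃ CW f e₁ eW φ c n) {t : ℝ} (ht : t ≤ T) (i : ιW)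
    {b : Bool} (hb : φ (n b) ∈ BC C₃ t (φ i)) : ∃ b', n b' ∈ BC CW t i := by
  rcases h.pastW_of_past ht hb le_rfl (n b) rfl with h1 | ⟨_, _, w, hw, hw'⟩
  · exact ⟨b, h1⟩
  · rcases h.covW w with ⟨b', rfl⟩ | h2
    · exact ⟨b', hw'⟩
    · exact absurd h2 hw

open scoped Classical in
/-- The size in `Z+l` as a sum over the particles of `W`. -/
theorem msize_eq (h : Transfer T s₁ σ C₁ C₃ CW f e₁ eW φ c n) (t : ℝ) (i : ιW) :
    msize C₃ m₃ t (φ i) = ∑ x : ιW, if φ x ∈ BC C₃ t (φ i) then m₃ (φ x) else 0 := by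
  unfold msize
  rw [← (Equiv.ofBijective φ h.φ_bij).sum_comp]
  refine Finset.sum_congr rfl fun x _ => ?_
  rw [Equiv.ofBijective_apply]

open scoped Classical in
theorem sum_split (h : Transfer T s₁ σ C₁ C₃ CW f e₁ eW φ c n) (g : ιW → ℕ) :
    ∑ x : ιW, g x = (g (n true) + g (n false)) + ∑ x ∈ Finset.univ.filter (fun x => x ∈ range eW),
      g x := by
  have h1 : (Finset.univ : Finset ιW) = {n true, n false} ∪
      Finset.univ.filter (fun x => x ∈ range eW) := by
    ext x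
    simp only [Finset.mem_univ, Finset.mem_union, Finset.mem_insert, Finset.mem_singleton,
      Finset.mem_filter, true_and, true_iff]
    rcases h.covW x with ⟨b, rfl⟩ | h1
    · cases b
      · exact Or.inl (Or.inr rfl)
      · exact Or.inl (Or.inl rfl)
    · exact Or.inr h1
  conv_lhs => rw [h1]
  rw [Finset.sum_union]
  · congr 1
    rw [Finset.sum_insert, Finset.sum_singleton]
    simpa using h.n_ne
  · rw [Finset.disjoint_left]
    intro x hx hx'
    simp only [Finset.mem_insert, Finset.mem_singleton] at hx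
    rw [Finset.mem_filter] at hx'
    rcases hx with rfl | rfl
    · exact h.n_new true hx'.2
    · exact h.n_new false hx'.2

/-- The size in `Z+l` is at most the size in `W`. -/
theorem size_le (h : Transfer T s₁ σ C₁ C₃ CW f e₁ eW φ c n)
    (hm : ∀ k, mW (eW k) = m₃ (φ (eW k)))
    (hn : ∀ b, mW (n b) = m₃ (φ (n false)) + m₃ (φ (n true))) {t : ℝ} (ht : t ≤ T) (i : ιW) :
    msize C₃ m₃ t (φ i) ≤ msize CW mW t i := by
  classical
  rw [h.msize_eq t i]
  unfold msize
  rw [h.sum_split, h.sum_split]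
  refine add_le_add ?_ (le_of_eq ?_)
  · by_cases hex : ∃ b', n b' ∈ BC CW t i
    · obtain ⟨b', hb'⟩ := hex
      have hN : m₃ (φ (n false)) + m₃ (φ (n true)) ≤
          (if n true ∈ BC CW t i then mW (n true) else 0) +
            (if n false ∈ BC CW t i then mW (n false) else 0) := by
        cases b' with
        | true =>
          rw [if_pos hb', hn true]
          exact Nat.le_add_right _ _
        | false =>
          rw [if_pos hb', hn false]
          exact Nat.le_add_left _ _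
      refine le_trans ?_ hN
      have h1 : (if φ (n true) ∈ BC C₃ t (φ i) then m₃ (φ (n true)) else 0) ≤ m₃ (φ (n true)) := by
        split_ifs
        · exact le_rfl
        · exact Nat.zero_le _
      have h2 : (if φ (n false) ∈ BC C₃ t (φ i) then m₃ (φ (n false)) else 0) ≤
          m₃ (φ (n false)) := by
        split_ifs
        · exact le_rfl
        · exact Nat.zero_le _
      omega
    · have h1 : ∀ b, φ (n b) ∉ BC C₃ t (φ i) := fun b hb => hex (h.exists_of_mem ht i hb)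
      rw [if_neg (h1 true), if_neg (h1 false)]
      exact Nat.zero_le _
  · refine Finset.sum_congr rfl fun x hx => ?_
    rw [Finset.mem_filter] at hx
    obtain ⟨k, rfl⟩ := hx.2
    by_cases hk : eW k ∈ BC CW t i
    · rw [if_pos hk, if_pos ((h.mem_iff ht i k).2 hk), hm]
    · rw [if_neg hk, if_neg fun h' => hk ((h.mem_iff ht i k).1 h')]

/-- If one of the two lines is not in the past, the sizes are equal. -/
theorem size_eq (h : Transfer T s₁ σ C₁ C₃ CW f e₁ eW φ c n)
    (hm : ∀ k, mW (eW k) = m₃ (φ (eW k)))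
    (hn : ∀ b, mW (n b) = m₃ (φ (n false)) + m₃ (φ (n true))) {t : ℝ} (ht : t ≤ T) {i : ιW}
    {b : Bool} (hb : n (!b) ∉ BC CW t i) (hi : i ≠ n b ∨ σ ≤ t) :
    msize C₃ m₃ t (φ i) = msize CW mW t i := by
  classical
  rw [h.msize_eq t i]
  unfold msize
  rw [h.sum_split, h.sum_split]
  refine congrArg₂ (· + ·) ?_ ?_
  · by_cases hbb : n b ∈ BC CW t i
    · -- `n b` is in the past at time `σ`
      have h1 : Past CW t i σ (n b) := by
        rcases Past.cases' hbb with h2 | ⟨s', j, h2, _, h3, h4⟩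
        · rcases hi with hi | hi
          · exact absurd h2.symm hi
          · rw [h2]; exact .root hi
        · have h5 : σ ≤ s' := h.lateW s' ⟨h2, h3.le.trans ht⟩ b j (h.symmW _ _ _ h4)
          exact (Past.contact h3 h4).mono h5
      have hσ : 0 ≤ σ := h.s₁_nonneg.trans h.s₁_le
      have h2 : Past C₃ t (φ i) s₁ (φ (n b)) := (h.past_of_pastW ht h1 hσ).mono h.s₁_le
      have hc : C₃ s₁ (φ (n b)) (φ (n (!b))) := by
        cases b with
        | false => exact h.hit
        | true => exact h.symm₃ _ _ _ h.hit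
      have h3 : φ (n (!b)) ∈ BC C₃ t (φ i) := (Past.contact h2 hc).mono h.s₁_nonneg
      have h4 : φ (n b) ∈ BC C₃ t (φ i) := h2.mono h.s₁_nonneg
      cases b with
      | false =>
        simp only [Bool.not_false] at hb h3
        rw [if_pos h3, if_pos h4, if_neg hb, if_pos hbb, hn false]
        omega
      | true =>
        simp only [Bool.not_true] at hb h3
        rw [if_pos h3, if_pos h4, if_neg hb, if_pos hbb, hn true]
        omega
    · have hnone : ∀ b', n b' ∉ BC CW t i := by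
        intro b'
        by_cases hbb' : b' = b
        · rw [hbb']; exact hbb
        · have : b' = !b := by cases b <;> cases b' <;> simp_all
          rw [this]; exact hb
      have h1 : ∀ b', φ (n b') ∉ BC C₃ t (φ i) := by
        intro b' hb'
        obtain ⟨b'', h2⟩ := h.exists_of_mem ht i hb'
        exact hnone b'' h2
      rw [if_neg (h1 true), if_neg (h1 false), if_neg (hnone true), if_neg (hnone false)]
  · refine Finset.sum_congr rfl fun x hx => ?_
    rw [Finset.mem_filter] at hx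
    obtain ⟨k, rfl⟩ := hx.2
    by_cases hk : eW k ∈ BC CW t i
    · rw [if_pos hk, if_pos ((h.mem_iff ht i k).2 hk), hm]
    · rw [if_neg hk, if_neg fun h' => hk ((h.mem_iff ht i k).1 h')]

/-- Before `σ` the size of the lines `l'`, `c'` in `W` is their mark. -/
theorem size_early (h : Transfer T s₁ σ C₁ C₃ CW f e₁ eW φ c n) {t : ℝ} (ht0 : 0 ≤ t)
    (ht : t ≤ T) (htσ : t < σ) (b : Bool) : msize CW mW t (n b) = mW (n b) := by
  classical
  have h1 : BC CW t (n b) = {n b} := by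
    ext k
    constructor
    · intro hk
      have key : ∀ (r : ℝ) (l : ιW), Past CW t (n b) r l → 0 ≤ r → l = n b := by
        intro r l hl
        induction hl with
        | root _ => exact fun _ => rfl
        | @step r r' l' l hl' hc hrr' ih =>
          intro hr
          have h2 : l' = n b := ih (hr.trans hrr')
          subst h2
          exact absurd (h.lateW r' ⟨hr.trans hrr', hl'.le.trans ht⟩ b l hc)
            (not_le.2 (hl'.le.trans_lt htσ))
      exact key 0 k hk le_rfl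
    · rintro rfl
      exact root_mem_BC ht0
  unfold msize
  rw [h1]
  simp

/-- Coherence of the transported status with worlds which have a common part with `W` that does not
contain one of the two lines. -/
theorem coh_gen (h : Transfer T s₁ σ C₁ C₃ CW f e₁ eW φ c n)
    (hm : ∀ k, mW (eW k) = m₃ (φ (eW k)))
    (hn : ∀ b, mW (n b) = m₃ (φ (n false)) + m₃ (φ (n true))) {K : ℕ}
    (hK : m₃ (φ (n false)) + m₃ (φ (n true)) ≤ K)
    {ι' κ' : Type} [Fintype ι'] [Finite κ'] {C' : ℝ → ι' → ι' → Prop} {z' : ℝ → ι' → X}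
    {m' : ι' → ℕ}
    {e' : κ' → ι'} {g : κ' → ιW} (he' : Function.Injective e') (hg : Function.Injective g)
    (hm' : ∀ x, m' (e' x) = mW (g x)) {b : Bool}
    (hb : n (!b) ∉ range g) {t : ℝ} (ht : t ∈ Icc 0 T) {x : κ'}
    (hx : HistEq C' z' CW zW e' g t x) :
    Infd C' m' K t (e' x) ↔ Infd C₃ m₃ K t (φ (g x)) := by
  have h1 : msize C' m' t (e' x) = msize CW mW t (g x) :=
    msize_eq_of_histEqG he' hg (fun x => hm' x) hx
  have h2 : n (!b) ∉ BC CW t (g x) := fun h' => hb (hx.sub₂ 0 _ le_rfl h')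
  unfold Infd
  by_cases hi : g x ≠ n b ∨ σ ≤ t
  · rw [h1, h.size_eq hm hn ht.2 h2 hi]
  · push Not at hi
    have h3 : msize CW mW t (g x) ≤ K := by
      rw [hi.1, h.size_early ht.1 ht.2 hi.2, hn]
      exact hK
    rw [h1]
    constructor
    · intro h4
      exact absurd h4 (not_lt.2 h3)
    · intro h4
      exact absurd h4 (not_lt.2 ((h.size_le hm hn ht.2 (g x)).trans h3))

/-- Coherence of the transported status with sub-worlds of `W` which do not contain one of the two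
lines. -/
theorem coh (h : Transfer T s₁ σ C₁ C₃ CW f e₁ eW φ c n)
    (hm : ∀ k, mW (eW k) = m₃ (φ (eW k)))
    (hn : ∀ b, mW (n b) = m₃ (φ (n false)) + m₃ (φ (n true))) {K : ℕ}
    (hK : m₃ (φ (n false)) + m₃ (φ (n true)) ≤ K)
    {ι' : Type} [Fintype ι'] {C' : ℝ → ι' → ι' → Prop} {z' : ℝ → ι' → X} {m' : ι' → ℕ}
    {g : ι' → ιW} (hg : Function.Injective g) (hm' : ∀ x, m' x = mW (g x)) {b : Bool}
    (hb : n (!b) ∉ range g) {t : ℝ} (ht : t ∈ Icc 0 T) {x : ι'}
    (hx : HistEq C' z' CW zW id g t x) :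
    Infd C' m' K t x ↔ Infd C₃ m₃ K t (φ (g x)) :=
  h.coh_gen hm hn hK (e' := (id : ι' → ι')) Function.injective_id hg hm' hb ht hx

/-- The transported status implies the status given by the marks of `W`. -/
theorem infd_of_infd (h : Transfer T s₁ σ C₁ C₃ CW f e₁ eW φ c n)
    (hm : ∀ k, mW (eW k) = m₃ (φ (eW k)))
    (hn : ∀ b, mW (n b) = m₃ (φ (n false)) + m₃ (φ (n true))) {K : ℕ} {t : ℝ} (ht : t ≤ T)
    {x : ιW} (hx : Infd C₃ m₃ K t (φ x)) : Infd CW mW K t x :=
  lt_of_lt_of_le hx (h.size_le hm hn ht x)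

end size

end Transfer

end Crest.Agent.R122.CausalGen291
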