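import Crest.Agent.R122.OneMW_45
import Crest.Agent.R122.EFam_879
import Crest.Agent.R122.LinkU_255
import Crest.Agent.R122.TransferG_291

/-!
# One contact, reverse direction and equality (row 122, E_FINAL (1.6'), (1.7)), marked worlds

`h : Hit Φ ε Z l c s₁ s₁'` (helper45): the first contact of `l` in `Z + l` is with `c`.
`Z₀` = `Z` without `c` (any labels `a : ι₀ ≃ Oth c`), `l' = outL`, `c' = outC`.

* `NoCross Φ ε K T Z A B`: no particle of `Z` lies in both clean closures of `A` and `B` up to the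
  first touch (no condition on direct contacts between `A` and `B`).
* `transfer`: the abstract transfer between `Z`, `Z + l` and `W = Z₀ + l' + c'`.
* `theta_eq`: `θ(Z,l) = min (θ(Z₀,c)) (min (θ(Z₀,l')) (θ(Z₀,c')))` if `l'`, `c'` are not linked in
  `Z₀`, and neither `l'` nor `c'` has a common particle with the undeflected `c`.
* `le_of_out_le`, `le_of_out_le_fam`: single time form.
* `min_le_min`: `min (θ(Z,l)) (θ(Z₀,c)) ≤ min (θ(Z₀,l')) (θ(Z₀,c'))` if `l'`, `c'` are not linked in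
  `Z₀` (nothing about `c`); `min_le_min_fam` = the fields `re`, `rc'` of `E6Facts` (helper811).
-/

set_option autoImplicit false
set_option linter.unusedSectionVars false

open MeasureTheory Set Filter Topology
open scoped ENNReal
open Crest.AnalysisR.Kinetic
open Crest.Agent.R122.Flow671 Crest.Agent.R122.Loc45
open Crest.Agent.R122.Causal291 (Past BC)
open Crest.Agent.R122.Inf879 Crest.Agent.R122.EDefs602 Crest.Agent.R122.Lines255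
open Crest.Agent.R122.Repl302 Crest.Agent.R122.MWAlg255 Crest.Agent.R122.Ins45
open Crest.Agent.R122.CausalGen291

namespace Crest.Agent.R122.OneRev291

noncomputable section

open scoped Classical

/-! ### Common particles of two clean closures -/

section cross

variable {ι κ₁ κ₂ : Type} [Fintype ι] [Fintype κ₁] [Fintype κ₂]

/-- The clean closure of `A` in the world `Z` at time `u`. -/
def CC (Φ : Space3 → ℝ) (ε : ℝ) (K : ℕ) (Z : MW ι) (A : MW κ₁) (u : ℝ) (k : ι) : Prop :=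
  CFut (Z.C Φ ε) (Z.path Φ ε) ((Z.add A).C Φ ε) ((Z.add A).path Φ ε) id Sum.inl 0
    (Z.Inf Φ ε K) ((Z.add A).Inf Φ ε K) u k

/-- A particle of `Z` lies in both clean closures up to and including time `s`. -/
def Cross (Φ : Space3 → ℝ) (ε : ℝ) (K : ℕ) (Z : MW ι) (A : MW κ₁) (B : MW κ₂) (s : ℝ) : Prop :=
  ∃ u ∈ Icc 0 s, ∃ k, CC Φ ε K Z A u k ∧ CC Φ ε K Z B u k

variable {Φ : Space3 → ℝ} {ε T s : ℝ} {K : ℕ} {Z : MW ι} {A : MW κ₁} {B : MW κ₂}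

theorem Cross.link (h : Cross Φ ε K Z A B s) : Z.LINK Φ ε K A B s := by
  obtain ⟨u, hu, k, h1, h2⟩ := h
  exact ⟨u, hu, Or.inl ⟨k, h1, h2⟩⟩

theorem Cross.mono {s' : ℝ} (h : Cross Φ ε K Z A B s) (hs : s ≤ s') : Cross Φ ε K Z A B s' := by
  obtain ⟨u, hu, h⟩ := h
  exact ⟨u, ⟨hu.1, hu.2.trans hs⟩, h⟩

theorem Cross.symm (h : Cross Φ ε K Z A B s) : Cross Φ ε K Z B A s := by
  obtain ⟨u, hu, k, h1, h2⟩ := h
  exact ⟨u, hu, k, h2, h1⟩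

/-- No common particle of the clean closures of `A` and `B` up to the first touch. -/
def NoCross (Φ : Space3 → ℝ) (ε : ℝ) (K : ℕ) (T : ℝ) (Z : MW ι) (A : MW κ₁) (B : MW κ₂) : Prop :=
  ∀ s, 0 ≤ s → s ≤ T → s ≤ Z.theta Φ ε K T A → s ≤ Z.theta Φ ε K T B → ¬ Cross Φ ε K Z A B s

theorem NoCross.of_noLink (h : MW.NoLink Φ ε K T Z A B) : NoCross Φ ε K T Z A B :=
  fun s h0 h1 h2 h3 h' => h s h0 h1 h2 h3 h'.link

theorem NoCross.symm (h : NoCross Φ ε K T Z A B) : NoCross Φ ε K T Z B A :=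
  fun s h0 h1 h2 h3 h' => h s h0 h1 h3 h2 h'.symm

end cross

/-! ### Equality of thetas -/

section congr

variable {ι₁ ι₂ κ ι₁' ι₂' κ' : Type} {X X' : Type*}
variable {C₁ : ℝ → ι₁ → ι₁ → Prop} {C₂ : ℝ → ι₂ → ι₂ → Prop} {z₁ : ℝ → ι₁ → X} {z₂ : ℝ → ι₂ → X}
  {e₁ : κ → ι₁} {e₂ : κ → ι₂} {P₁ : ℝ → ι₁ → Prop} {P₂ : ℝ → ι₂ → Prop}
  {C₁' : ℝ → ι₁' → ι₁' → Prop} {C₂' : ℝ → ι₂' → ι₂' → Prop} {z₁' : ℝ → ι₁' → X'}
  {z₂' : ℝ → ι₂' → X'} {e₁' : κ' → ι₁'} {e₂' : κ' → ι₂'} {P₁' : ℝ → ι₁' → Prop}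
  {P₂' : ℝ → ι₂' → Prop}

theorem theta_congr {a T : ℝ} (h : ∀ s ∈ Icc a T, Touched C₁ z₁ C₂ z₂ e₁ e₂ P₁ P₂ s ↔
    Touched C₁' z₁' C₂' z₂' e₁' e₂' P₁' P₂' s) :
    theta C₁ z₁ C₂ z₂ e₁ e₂ a T P₁ P₂ = theta C₁' z₁' C₂' z₂' e₁' e₂' a T P₁' P₂' := by
  unfold theta
  have h1 : (∃ s ∈ Icc a T, Touched C₁ z₁ C₂ z₂ e₁ e₂ P₁ P₂ s) ↔
      ∃ s ∈ Icc a T, Touched C₁' z₁' C₂' z₂' e₁' e₂' P₁' P₂' s :=
    exists_congr fun s => and_congr_right fun hs => h s hs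
  have h2 : {s | s ∈ Icc a T ∧ Touched C₁ z₁ C₂ z₂ e₁ e₂ P₁ P₂ s} =
      {s | s ∈ Icc a T ∧ Touched C₁' z₁' C₂' z₂' e₁' e₂' P₁' P₂' s} := by
    ext s
    exact and_congr_right fun hs => h s hs
  simp only [h1, h2]

end congr

/-! ### The transfer -/

section hit

variable {ι ι₀ : Type} [Fintype ι] [Fintype ι₀] {Φ : Space3 → ℝ} {ε : ℝ} {Z : MW ι} {l : ML}
  {c : ι} {s₁ s₁' : ℝ} {K : ℕ} {Z₀ : MW ι₀} {a : ι₀ ≃ Oth c}

/-- The world `W = Z₀ + l' + c'`. -/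
abbrev WW (Φ : Space3 → ℝ) (ε : ℝ) (Z : MW ι) (l : ML) (c : ι) (s₁' : ℝ) (Z₀ : MW ι₀) :
    MW ((ι₀ ⊕ Unit) ⊕ Unit) :=
  (Z₀.ins (outL Φ ε Z l c s₁')).ins (outC Φ ε Z l c s₁')

/-- The labels of `W` in `Z + l`. -/
def phi (a : ι₀ ≃ Oth c) : (ι₀ ⊕ Unit) ⊕ Unit ≃ ι ⊕ Unit :=
  (Equiv.sumCongr (Equiv.sumCongr a (Equiv.refl Unit)) (Equiv.refl Unit)).trans (encE c)

/-- The labels of `l'` and `c'`. -/
def nn (ι₀ : Type) (b : Bool) : (ι₀ ⊕ Unit) ⊕ Unit :=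
  cond b (Sum.inr ()) (Sum.inl (Sum.inr ()))

/-- The embedding of the common part in `Z`. -/
def e1 (a : ι₀ ≃ Oth c) (k : ι₀) : ι := (a k).1

theorem e1_inj (a : ι₀ ≃ Oth c) : Function.Injective (e1 a) :=
  Subtype.val_injective.comp a.injective

theorem e1_ne (a : ι₀ ≃ Oth c) (k : ι₀) : e1 a k ≠ c := (a k).2

theorem exists_e1 (a : ι₀ ≃ Oth c) {k : ι} (hk : k ≠ c) : ∃ k₀, e1 a k₀ = k :=
  ⟨a.symm ⟨k, hk⟩, by unfold e1; rw [Equiv.apply_symm_apply]⟩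

theorem phi_inl_inl (a : ι₀ ≃ Oth c) (k : ι₀) :
    phi a (Sum.inl (Sum.inl k)) = Sum.inl (e1 a k) := rfl

theorem phi_nn_true (a : ι₀ ≃ Oth c) : phi a (nn ι₀ true) = Sum.inl c := rfl

theorem phi_nn_false (a : ι₀ ≃ Oth c) : phi a (nn ι₀ false) = Sum.inr () := rfl

theorem comap_comap' {ι₁ ι₂ ι₃ : Type} (W : MW ι₃) (f : ι₂ → ι₃) (g : ι₁ → ι₂) :
    (W.comap f).comap g = W.comap (f ∘ g) := rfl

section

variable (h : Hit Φ ε Z l c s₁ s₁') (hΦ : AdmissiblePotential Φ) (hε : 0 < ε)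
  (hZ : Z.Ok Φ ε) (hZl : (Z.ins l).Ok Φ ε) (hZ₀ : (rest Z c).comap a = Z₀)

include h hΦ hε hZ hZl hZ₀ in
theorem comap_phi : (encW Φ ε Z l c s₁').comap (phi a) = WW Φ ε Z l c s₁' Z₀ := by
  have h1 := ins_comap a hZ₀ (outL Φ ε Z l c s₁')
  have h2 := ins_comap _ h1 (outC Φ ε Z l c s₁')
  rw [← h.comap_encW hΦ hε hZ hZl] at h2
  exact h2

include h hΦ hε hZ hZl hZ₀ in
theorem C_WW (s : ℝ) (x y : (ι₀ ⊕ Unit) ⊕ Unit) : (WW Φ ε Z l c s₁' Z₀).C Φ ε s x y ↔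
    (encW Φ ε Z l c s₁').C Φ ε s (phi a x) (phi a y) := by
  rw [← comap_phi h hΦ hε hZ hZl hZ₀]
  exact C_comap hΦ hε _ (phi a) s x y

include h hΦ hε hZ hZl hZ₀ in
theorem okWW : (WW Φ ε Z l c s₁' Z₀).Ok Φ ε := by
  rw [← comap_phi h hΦ hε hZ hZl hZ₀]
  exact MW.Ok.comap hΦ hε (h.ok hΦ hε hZ hZl) (phi a)

include hZ₀ in
theorem b_Z₀ (k : ι₀) : Z₀.b k = Z.b (e1 a k) := by rw [← hZ₀]; rfl

include hZ₀ in
theorem z_Z₀ (k : ι₀) : Z₀.z k = Z.z (e1 a k) := by rw [← hZ₀]; rfl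

include hZ₀ in
theorem m_Z₀ (k : ι₀) : Z₀.m k = Z.m (e1 a k) := by rw [← hZ₀]; rfl

include hZ₀ in
theorem com_Z₀ : MW.Com Z₀ Z id (e1 a) :=
  ⟨Function.injective_id, e1_inj a, fun k => b_Z₀ hZ₀ k, fun k => m_Z₀ hZ₀ k⟩

include hZ₀ in
theorem com_ZW : MW.Com Z (WW Φ ε Z l c s₁' Z₀) (e1 a) (Sum.inl ∘ Sum.inl) :=
  ⟨e1_inj a, Sum.inl_injective.comp Sum.inl_injective, fun k => (b_Z₀ hZ₀ k).symm,
    fun k => (m_Z₀ hZ₀ k).symm⟩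

include h hΦ hε hZ hZl in
theorem inside {s : ℝ} {x y : ι ⊕ Unit} (hx : x ∈ encD c) (hs : s ≤ s₁')
    (hc : (Z.ins l).C Φ ε s x y) : y ∈ encD c :=
  (h.closed hΦ hε hZ hZl s x y hx (by rw [encB_of_mem hx]; exact hs) hc).1

include h hΦ hε hZ hZl hZ₀ in
/-- **The transfer.** -/
theorem transfer (T : ℝ) : Transfer T s₁ s₁' (Z.C Φ ε) ((Z.ins l).C Φ ε)
    ((WW Φ ε Z l c s₁' Z₀).C Φ ε) Sum.inl (e1 a) (Sum.inl ∘ Sum.inl) (phi a) c (nn ι₀) where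
  φ_bij := (phi a).bijective
  f_inj := Sum.inl_injective
  φe _ := rfl
  φc := rfl
  φl := by
    rintro ⟨k, hk⟩
    rw [phi_nn_false] at hk
    cases hk
  cov₁ x := by
    by_cases hx : x = c
    · exact Or.inl hx
    · exact Or.inr (exists_e1 a hx)
  covW x := by
    rcases x with (x | u) | u
    · exact Or.inr ⟨x, rfl⟩
    · exact Or.inl ⟨false, rfl⟩
    · exact Or.inl ⟨true, rfl⟩
  c_new := by
    rintro ⟨k, hk⟩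
    exact e1_ne a k hk
  n_new b := by
    rintro ⟨k, hk⟩
    cases b
    · exact Sum.inl_ne_inr (Sum.inl_injective hk)
    · exact Sum.inl_ne_inr hk
  n_ne := fun hk => Sum.inr_ne_inl hk
  s₁_nonneg := h.nonneg
  s₁_le := h.le
  hit := h.hit
  symm₃ _ _ _ hc := MW.C_symm _ hc
  symmW _ _ _ hc := MW.C_symm _ hc
  W3 s _ x y hc :=
    (h.lines hΦ hε hZ hZl).sub s _ _ ((C_WW h hΦ hε hZ hZl hZ₀ s x y).1 hc)
  cW s _ x y hc := by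
    by_cases hx : phi a x ∈ encD c
    · by_cases hs : s ≤ s₁'
      · right
        have hy : phi a y ∈ encD c := inside h hΦ hε hZ hZl hx hs hc
        have key : ∀ z : (ι₀ ⊕ Unit) ⊕ Unit, phi a z ∈ encD c →
            z ∉ range (Sum.inl ∘ Sum.inl : ι₀ → (ι₀ ⊕ Unit) ⊕ Unit) := by
          rintro z hz ⟨k, rfl⟩
          have hz' : (Sum.inl (e1 a k) : ι ⊕ Unit) ∈ encD c := hz
          exact e1_ne a k (inl_mem_encD.1 hz')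
        exact ⟨key x hx, key y hy, hs⟩
      · left
        rw [not_le] at hs
        refine (C_WW h hΦ hε hZ hZl hZ₀ s x y).2 ?_
        exact (h.lines hΦ hε hZ hZl).of_strict s _ _ hc
          (fun hx => by rw [encB_of_mem hx]; exact hs) (fun hx => by rw [encB_of_mem hx]; exact hs)
    · left
      refine (C_WW h hΦ hε hZ hZl hZ₀ s x y).2 ?_
      refine (h.lines hΦ hε hZ hZl).of_strict s _ _ hc (fun hx' => absurd hx' hx) fun hy => ?_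
      rw [encB_of_mem hy]
      by_contra hs
      exact hx (inside h hΦ hε hZ hZl hy (not_lt.1 hs) (MW.C_symm _ hc))
  late₁ s _ k hc := by
    by_contra hs
    exact e1_ne a k (h.free s _ (not_le.1 hs).le hc)
  late₃ s _ b k hc := by
    by_contra hs
    have hx : phi a (nn ι₀ b) ∈ encD c := by
      cases b
      · exact inr_mem_encD
      · exact inl_mem_encD.2 rfl
    have hy : (Sum.inl (e1 a k) : ι ⊕ Unit) ∈ encD c :=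
      inside h hΦ hε hZ hZl hx (not_lt.1 hs) hc
    exact e1_ne a k (inl_mem_encD.1 hy)
  lateW s _ b y hc := by
    have hx : phi a (nn ι₀ b) ∈ encD c := by
      cases b
      · exact inr_mem_encD
      · exact inl_mem_encD.2 rfl
    have h1 := (h.lines hΦ hε hZ hZl).left s _ _ ((C_WW h hΦ hε hZ hZl hZ₀ s _ y).1 hc) hx
    rwa [encB_of_mem hx] at h1

include hZ₀ in
theorem m_WW (k : ι₀) : (WW Φ ε Z l c s₁' Z₀).m ((Sum.inl ∘ Sum.inl) k) =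
    (Z.ins l).m (phi a ((Sum.inl ∘ Sum.inl) k)) := m_Z₀ hZ₀ k

theorem m_nn (b : Bool) : (WW Φ ε Z l c s₁' Z₀).m (nn ι₀ b) =
    (Z.ins l).m (phi a (nn ι₀ false)) + (Z.ins l).m (phi a (nn ι₀ true)) := by
  cases b <;> rfl

/-- The transported infection status of `W`. -/
def PW (Φ : Space3 → ℝ) (ε : ℝ) (K : ℕ) (Z : MW ι) (l : ML) (a : ι₀ ≃ Oth c) (s : ℝ)
    (x : (ι₀ ⊕ Unit) ⊕ Unit) : Prop :=
  (Z.ins l).Inf Φ ε K s (phi a x)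

include h in
theorem late_c (hK : l.2 + Z.m c ≤ K) {s : ℝ} (hs : 0 ≤ s) (hc : Z.Inf Φ ε K s c) : s₁ ≤ s := by
  by_contra hlt
  push Not at hlt
  have h1 : msize (Z.C Φ ε) Z.m s c = Z.m c :=
    msize_of_no_contact hs fun r _ hr j hj => h.free r j (hr.trans hlt.le) hj
  have h2 : K < msize (Z.C Φ ε) Z.m s c := hc
  omega

include h hΦ hε hZ hZl in
theorem late_c' (hK : l.2 + Z.m c ≤ K) {s : ℝ} (hc : (Z.ins l).Inf Φ ε K s (Sum.inl c)) :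
    s₁ ≤ s := by
  by_contra hlt
  push Not at hlt
  have h1 : msize ((Z.ins l).C Φ ε) (Z.ins l).m s (Sum.inl c) ≤
      msize ((Z.ins l).C Φ ε) (Z.ins l).m s₁' (Sum.inl c) :=
    msize_mono (hlt.le.trans h.le) _
  rw [h.msize_eq hΦ hε hZ hZl (inl_mem_encD.2 rfl)] at h1
  have h2 : K < msize ((Z.ins l).C Φ ε) (Z.ins l).m s (Sum.inl c) := hc
  omega

include hZ₀ hΦ hε in
theorem path_zero_WW (k : ι₀) : (WW Φ ε Z l c s₁' Z₀).path Φ ε 0 ((Sum.inl ∘ Sum.inl) k) =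
    (Z.ins l).path Φ ε 0 (Sum.inl (e1 a k)) := by
  rw [MW.path_zero hΦ hε, MW.path_zero hΦ hε]
  exact z_Z₀ hZ₀ k

include h hΦ hε hZ hZl hZ₀ in
/-- A touch of `Z` by `l` is a touch of the pair `(Z, W)` with the transported status. -/
theorem touched_iff_W (hK : l.2 + Z.m c ≤ K) {s : ℝ} (hs : 0 ≤ s) :
    Z.Touched Φ ε K (MW.line l) s ↔
      Touched (Z.C Φ ε) (Z.path Φ ε) ((WW Φ ε Z l c s₁' Z₀).C Φ ε)
        ((WW Φ ε Z l c s₁' Z₀).path Φ ε) (e1 a) (Sum.inl ∘ Sum.inl) (Z.Inf Φ ε K)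
        (PW Φ ε K Z l a) s :=
  (transfer h hΦ hε hZ hZl hZ₀ s).touched_iff (fun k => path_zero_WW hΦ hε hZ₀ k) le_rfl
    (fun hc => late_c h hK hs hc) (fun hc => late_c' h hΦ hε hZ hZl hK hc)

include h hΦ hε hZ hZl hZ₀ in
theorem thetaL_eq_W (hK : l.2 + Z.m c ≤ K) (T : ℝ) :
    Z.thetaL Φ ε K T l = theta (Z.C Φ ε) (Z.path Φ ε) ((WW Φ ε Z l c s₁' Z₀).C Φ ε)
        ((WW Φ ε Z l c s₁' Z₀).path Φ ε) (e1 a) (Sum.inl ∘ Sum.inl) 0 T (Z.Inf Φ ε K)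
        (PW Φ ε K Z l a) :=
  theta_congr fun _ hs => touched_iff_W h hΦ hε hZ hZl hZ₀ hK hs.1

include h hΦ hε hZ hZl hZ₀ in
/-- The transported status is a rule. -/
theorem rule_PW (T : ℝ) : IsRule ((WW Φ ε Z l c s₁' Z₀).C Φ ε) 0 T (PW Φ ε K Z l a) :=
  (transfer h hΦ hε hZ hZl hZ₀ T).rule (hZl.rule 0 T K) le_rfl

include h hΦ hε hZ hZl hZ₀ in
/-- Coherence with sub-worlds which contain at most one of the two lines. -/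
theorem coh_PW (hK : l.2 + Z.m c ≤ K) {ι' : Type} [Fintype ι'] {Z' : MW ι'}
    {g : ι' → (ι₀ ⊕ Unit) ⊕ Unit} (hg : Function.Injective g)
    (hm : ∀ x, Z'.m x = (WW Φ ε Z l c s₁' Z₀).m (g x)) {b : Bool} (hb : nn ι₀ (!b) ∉ range g)
    {t : ℝ} (ht : 0 ≤ t) {x : ι'}
    (hx : HistEq (Z'.C Φ ε) (Z'.path Φ ε) ((WW Φ ε Z l c s₁' Z₀).C Φ ε)
      ((WW Φ ε Z l c s₁' Z₀).path Φ ε) id g t x) :
    Z'.Inf Φ ε K t x ↔ PW Φ ε K Z l a t (g x) :=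
  (transfer h hΦ hε hZ hZl hZ₀ t).coh (fun k => m_WW hZ₀ k) (fun b => m_nn (a := a) b)
    (show l.2 + Z.m c ≤ K from hK) hg hm hb ⟨ht, le_rfl⟩ hx

end

/-! ### The equality -/

section eq

variable (h : Hit Φ ε Z l c s₁ s₁') (hΦ : AdmissiblePotential Φ) (hε : 0 < ε)
  (hZ : Z.Ok Φ ε) (hZl : (Z.ins l).Ok Φ ε) (hZ₀ : (rest Z c).comap a = Z₀)

theorem inr_not_mem_inl : nn ι₀ (!false) ∉ range (Sum.inl : ι₀ ⊕ Unit → (ι₀ ⊕ Unit) ⊕ Unit) := by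
  rintro ⟨k, hk⟩
  exact Sum.inl_ne_inr hk

theorem nn_not_mem_fL : nn ι₀ (!true) ∉
    range (Sum.elim (Sum.inl ∘ Sum.inl) Sum.inr : ι₀ ⊕ Unit → (ι₀ ⊕ Unit) ⊕ Unit) := by
  rintro ⟨k | k, hk⟩
  · exact Sum.inl_ne_inr (Sum.inl_injective hk)
  · exact Sum.inr_ne_inl hk

theorem nn_not_mem_inl_inl (b : Bool) :
    nn ι₀ b ∉ range (Sum.inl ∘ Sum.inl : ι₀ → (ι₀ ⊕ Unit) ⊕ Unit) := by
  rintro ⟨k, hk⟩
  cases b
  · exact Sum.inl_ne_inr (Sum.inl_injective hk)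
  · exact Sum.inl_ne_inr hk

include h hΦ hε hZ hZl hZ₀ in
/-- The rules in the four worlds `Z₀`, `Z₀ + l'`, `Z₀ + c'`, `W`, transported status in `W`. -/
theorem four_rules_PW (hK : l.2 + Z.m c ≤ K) (hR : Z₀.Ok Φ ε)
    (hRl : (Z₀.ins (outL Φ ε Z l c s₁')).Ok Φ ε) (hRc : (Z₀.ins (outC Φ ε Z l c s₁')).Ok Φ ε)
    (T : ℝ) :
    (MW.four Φ ε Z₀ (MW.line (outL Φ ε Z l c s₁')) (MW.line (outC Φ ε Z l c s₁'))).Rules 0 T
      (Z₀.Inf Φ ε K) ((Z₀.ins (outL Φ ε Z l c s₁')).Inf Φ ε K)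
      ((Z₀.ins (outC Φ ε Z l c s₁')).Inf Φ ε K) (PW Φ ε K Z l a) where
  r₀ := hR.rule 0 T K
  rA := hRl.rule 0 T K
  rL := hRc.rule 0 T K
  r := rule_PW h hΦ hε hZ hZl hZ₀ T
  st :=
    { coh₀A := fun _ _ _ hk => (MW.com_add Z₀ (MW.line (outL Φ ε Z l c s₁'))).coh hk
      coh₀L := fun _ _ _ hk => (MW.com_add Z₀ (MW.line (outC Φ ε Z l c s₁'))).coh hk
      cohA := fun s hs x hx =>
        coh_PW h hΦ hε hZ hZl hZ₀ hK (Z' := Z₀.ins (outL Φ ε Z l c s₁')) Sum.inl_injective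
          (fun _ => rfl) inr_not_mem_inl hs.1 hx
      cohL := fun s hs x hx =>
        coh_PW h hΦ hε hZ hZl hZ₀ hK (Z' := Z₀.ins (outC Φ ε Z l c s₁'))
          (MW.four (fun _ => 0) 0 Z₀ (MW.line (outL Φ ε Z l c s₁'))
            (MW.line (outC Φ ε Z l c s₁'))).fL_inj
          (by rintro (x | x) <;> rfl) nn_not_mem_fL hs.1 hx }

/-- The three worlds `Z₀`, `Z₀ + c`, `W`, no direct contacts between `c` and `l'`, `c'`. -/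
def tri (Φ : Space3 → ℝ) (ε : ℝ) (Z : MW ι) (l : ML) (c : ι) (s₁' : ℝ) (Z₀ : MW ι₀) (cl : ML) :
    Three ι₀ (ι₀ ⊕ Unit) ((ι₀ ⊕ Unit) ⊕ Unit) PhasePoint where
  C₀ := Z₀.C Φ ε
  CA := (Z₀.ins cl).C Φ ε
  CL := (WW Φ ε Z l c s₁' Z₀).C Φ ε
  CX _ _ _ := False
  z₀ := Z₀.path Φ ε
  zA := (Z₀.ins cl).path Φ ε
  zL := (WW Φ ε Z l c s₁' Z₀).path Φ ε
  eA := Sum.inl
  eL := Sum.inl ∘ Sum.inl

include h hΦ hε hZ hZl hZ₀ in
theorem tri_dyn (hR : Z₀.Ok Φ ε) {cl : ML} (hRcl : (Z₀.ins cl).Ok Φ ε) (T : ℝ) :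
    (tri Φ ε Z l c s₁' Z₀ cl).Dyn T where
  p₀A := (MW.com_add Z₀ (MW.line cl)).pair hΦ hε hR hRcl T
  p₀L := (MW.com_add_add Z₀ (MW.line (outL Φ ε Z l c s₁'))
    (MW.line (outC Φ ε Z l c s₁'))).pair hΦ hε hR (okWW h hΦ hε hZ hZl hZ₀) T
  pAL := (show MW.Com (Z₀.ins cl) (WW Φ ε Z l c s₁' Z₀) Sum.inl (Sum.inl ∘ Sum.inl) from
    ⟨Sum.inl_injective, Sum.inl_injective.comp Sum.inl_injective, fun _ => rfl,
      fun _ => rfl⟩).pair hΦ hε hRcl (okWW h hΦ hε hZ hZl hZ₀) T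
  initA k := by
    change Z₀.path Φ ε 0 k = (Z₀.ins cl).path Φ ε 0 (Sum.inl k)
    rw [MW.path_zero hΦ hε, MW.path_zero hΦ hε]
    rfl
  initL k := by
    change Z₀.path Φ ε 0 k = (WW Φ ε Z l c s₁' Z₀).path Φ ε 0 (Sum.inl (Sum.inl k))
    rw [MW.path_zero hΦ hε, MW.path_zero hΦ hε]
    rfl
  cohXL _ _ _ _ _ hc := hc.elim
  cohXA _ _ _ _ _ hc := hc.elim

include h hΦ hε hZ hZl hZ₀ in
theorem tri_rules (hK : l.2 + Z.m c ≤ K) (hR : Z₀.Ok Φ ε) {cl : ML}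
    (hRcl : (Z₀.ins cl).Ok Φ ε) (T : ℝ) :
    (tri Φ ε Z l c s₁' Z₀ cl).Rules 0 T (Z₀.Inf Φ ε K) ((Z₀.ins cl).Inf Φ ε K)
      (PW Φ ε K Z l a) where
  r₀ := hR.rule 0 T K
  rA := hRcl.rule 0 T K
  rL := rule_PW h hΦ hε hZ hZl hZ₀ T
  coh₀A _ _ _ hk := (MW.com_add Z₀ (MW.line cl)).coh hk
  coh₀L _ hs _ hk := coh_PW h hΦ hε hZ hZl hZ₀ hK (Z' := Z₀)
    (Sum.inl_injective.comp Sum.inl_injective) (fun _ => rfl) (nn_not_mem_inl_inl (!false)) hs.1 hk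

/-- The labels of `Z₀ + c` in `Z`. -/
def ac (a : ι₀ ≃ Oth c) : ι₀ ⊕ Unit ≃ ι :=
  (Equiv.sumCongr a (Equiv.refl Unit)).trans (splitOff c)

include hZ₀ in
theorem comap_ac {cl : ML} (hcl : IsLine Z c cl) : Z.comap (ac a) = Z₀.ins cl := by
  have h1 := ins_comap a hZ₀ cl
  rw [← comap_splitOff hcl] at h1
  exact h1

include hΦ hε hZ₀ in
/-- The pairs `(Z, W)` and `(Z₀ + c, W)` differ by a relabelling. -/
theorem theta_Z_eq {cl : ML} (hcl : IsLine Z c cl) (T : ℝ) :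
    theta (Z.C Φ ε) (Z.path Φ ε) ((WW Φ ε Z l c s₁' Z₀).C Φ ε)
        ((WW Φ ε Z l c s₁' Z₀).path Φ ε) (e1 a) (Sum.inl ∘ Sum.inl) 0 T (Z.Inf Φ ε K)
        (PW Φ ε K Z l a) =
      theta ((Z₀.ins cl).C Φ ε) ((Z₀.ins cl).path Φ ε) ((WW Φ ε Z l c s₁' Z₀).C Φ ε)
        ((WW Φ ε Z l c s₁' Z₀).path Φ ε) Sum.inl (Sum.inl ∘ Sum.inl) 0 T
        ((Z₀.ins cl).Inf Φ ε K) (PW Φ ε K Z l a) := by
  have hc := comap_ac hZ₀ hcl
  have hrel : Rel (Z.C Φ ε) (Z.path Φ ε) ((WW Φ ε Z l c s₁' Z₀).C Φ ε)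
      ((WW Φ ε Z l c s₁' Z₀).path Φ ε) (e1 a) (Sum.inl ∘ Sum.inl) ((Z₀.ins cl).C Φ ε)
      ((Z₀.ins cl).path Φ ε) ((WW Φ ε Z l c s₁' Z₀).C Φ ε) ((WW Φ ε Z l c s₁' Z₀).path Φ ε)
      Sum.inl (Sum.inl ∘ Sum.inl) (Equiv.refl ι₀) (ac a) (Equiv.refl _) :=
    { c₁ := fun s j k => by rw [← hc]; exact C_comap hΦ hε Z (ac a) s j k
      c₂ := fun _ _ _ => Iff.rfl
      s₁ := fun s j => by rw [← hc]; exact path_comap hΦ hε Z (ac a) s j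
      s₂ := fun _ _ => rfl
      m₁ := fun _ => rfl
      m₂ := fun _ => rfl }
  refine (hrel.theta_eq (t₀ := 0) (T := T) (fun s j => ?_) fun _ _ => Iff.rfl).symm
  rw [← hc]
  exact Inf_comap hΦ hε K Z (ac a) s j

include hΦ hε hZ hZ₀ in
theorem ok_ins_cl {cl : ML} (hcl : IsLine Z c cl) : (Z₀.ins cl).Ok Φ ε := by
  rw [← comap_ac hZ₀ hcl]
  exact MW.Ok.comap hΦ hε hZ (ac a)

include h hΦ hε hZ hZl hZ₀ in
/-- `W` touches `Z₀` with the first of `l'`, `c'` (no link up to the minimum). -/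
theorem theta_W_eq' (hK : l.2 + Z.m c ≤ K) (hR : Z₀.Ok Φ ε)
    (hRl : (Z₀.ins (outL Φ ε Z l c s₁')).Ok Φ ε) (hRc : (Z₀.ins (outC Φ ε Z l c s₁')).Ok Φ ε)
    {T : ℝ} (hT : 0 ≤ T)
    (hlk : ¬ Z₀.LINK Φ ε K (MW.line (outL Φ ε Z l c s₁')) (MW.line (outC Φ ε Z l c s₁'))
      (min T (min (Z₀.thetaL Φ ε K T (outL Φ ε Z l c s₁'))
        (Z₀.thetaL Φ ε K T (outC Φ ε Z l c s₁'))))) :
    theta (Z₀.C Φ ε) (Z₀.path Φ ε) ((WW Φ ε Z l c s₁' Z₀).C Φ ε)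
        ((WW Φ ε Z l c s₁' Z₀).path Φ ε) id (Sum.inl ∘ Sum.inl) 0 T (Z₀.Inf Φ ε K)
        (PW Φ ε K Z l a) =
      min (Z₀.thetaL Φ ε K T (outL Φ ε Z l c s₁')) (Z₀.thetaL Φ ε K T (outC Φ ε Z l c s₁')) :=
  LinkU255.theta_union (MW.four_dyn hΦ hε hR hRl hRc (okWW h hΦ hε hZ hZl hZ₀) T)
    (MW.four_cohX Φ ε Z₀ _ _ T) (four_rules_PW h hΦ hε hZ hZl hZ₀ hK hR hRl hRc T) le_rfl hT hlk

include h hΦ hε hZ hZl hZ₀ in
theorem theta_W_eq (hK : l.2 + Z.m c ≤ K) (hR : Z₀.Ok Φ ε)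
    (hRl : (Z₀.ins (outL Φ ε Z l c s₁')).Ok Φ ε) (hRc : (Z₀.ins (outC Φ ε Z l c s₁')).Ok Φ ε)
    {T : ℝ} (hT : 0 ≤ T) (hlk : MW.NoLink Φ ε K T Z₀ (MW.line (outL Φ ε Z l c s₁'))
      (MW.line (outC Φ ε Z l c s₁'))) :
    theta (Z₀.C Φ ε) (Z₀.path Φ ε) ((WW Φ ε Z l c s₁' Z₀).C Φ ε)
        ((WW Φ ε Z l c s₁' Z₀).path Φ ε) id (Sum.inl ∘ Sum.inl) 0 T (Z₀.Inf Φ ε K)
        (PW Φ ε K Z l a) =
      min (Z₀.thetaL Φ ε K T (outL Φ ε Z l c s₁')) (Z₀.thetaL Φ ε K T (outC Φ ε Z l c s₁')) :=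
  theta_W_eq' h hΦ hε hZ hZl hZ₀ hK hR hRl hRc hT
    (hlk _ (le_min hT (le_min (MW.theta_nonneg hT) (MW.theta_nonneg hT))) (min_le_left _ _)
      ((min_le_right _ _).trans (min_le_left _ _)) ((min_le_right _ _).trans (min_le_right _ _)))

/-- `Three.theta_mid` with the link event cut at `T`. -/
theorem theta_mid_cut {κ ιA ιL : Type} {X : Type*} [Finite κ] [Finite ιA] [Finite ιL]
    {F : Three κ ιA ιL X} {a T : ℝ} {P₀ : ℝ → κ → Prop} {PA : ℝ → ιA → Prop}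
    {PL : ℝ → ιL → Prop} (hd : F.Dyn T) (hR : F.Rules a T P₀ PA PL)
    (ha : 0 ≤ a) (haT : a ≤ T)
    (hlk : ¬ F.Link a P₀ PA PL (min T (min (theta F.C₀ F.z₀ F.CA F.zA id F.eA a T P₀ PA)
      (theta F.C₀ F.z₀ F.CL F.zL id F.eL a T P₀ PL)))) :
    theta F.CA F.zA F.CL F.zL F.eA F.eL a T PA PL =
      min (theta F.C₀ F.z₀ F.CA F.zA id F.eA a T P₀ PA)
        (theta F.C₀ F.z₀ F.CL F.zL id F.eL a T P₀ PL) := by
  by_cases hm : min (theta F.C₀ F.z₀ F.CA F.zA id F.eA a T P₀ PA)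
      (theta F.C₀ F.z₀ F.CL F.zL id F.eL a T P₀ PL) ≤ T
  · rw [min_eq_right hm] at hlk
    exact Three.theta_mid hd hR ha haT hlk
  · push Not at hm
    rw [lt_min_iff] at hm
    have h1 := (Four.theta_dich (C₁ := F.C₀) (z₁ := F.z₀) (C₂ := F.CA) (z₂ := F.zA) (e₁ := id)
        (e₂ := F.eA) (P₁ := P₀) (P₂ := PA) a T).resolve_left (not_le.2 hm.1)
    have h2 := (Four.theta_dich (C₁ := F.C₀) (z₁ := F.z₀) (C₂ := F.CL) (z₂ := F.zL) (e₁ := id)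
        (e₂ := F.eL) (P₁ := P₀) (P₂ := PL) a T).resolve_left (not_le.2 hm.2)
    rw [h1, h2, min_self]
    rcases Four.theta_dich (C₁ := F.CA) (z₁ := F.zA) (C₂ := F.CL) (z₂ := F.zL) (e₁ := F.eA)
        (e₂ := F.eL) (P₁ := PA) (P₂ := PL) a T with h3 | h3
    · exfalso
      have h0 : a ≤ theta F.CA F.zA F.CL F.zL F.eA F.eL a T PA PL := le_theta haT
      have ht := (touched_iff_theta_le hd.pAL ha hR.rA hR.rL ⟨h0, h3⟩).2 le_rfl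
      rcases touched_mid hd.p₀A hd.p₀L ha hR.coh₀A hR.coh₀L ⟨h0, h3⟩ ht with h4 | h4
      · have h5 := (touched_iff_theta_le hd.p₀A ha hR.r₀ hR.rA ⟨h0, h3⟩).1 h4
        rw [h1] at h5
        linarith
      · have h5 := (touched_iff_theta_le hd.p₀L ha hR.r₀ hR.rL ⟨h0, h3⟩).1 h4
        rw [h2] at h5
        linarith
    · exact h3

include h hΦ hε hZ hZl hZ₀ in
/-- **(1.6'), equality.** If `l'` and `c'` are not linked in `Z₀` and have no common particle with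
the undeflected `c`, then `θ(Z,l) = min (θ(Z₀,c)) (min (θ(Z₀,l')) (θ(Z₀,c')))`. -/
theorem theta_eq (hK : l.2 + Z.m c ≤ K) (hR : Z₀.Ok Φ ε)
    (hRl : (Z₀.ins (outL Φ ε Z l c s₁')).Ok Φ ε) (hRc : (Z₀.ins (outC Φ ε Z l c s₁')).Ok Φ ε)
    {cl : ML} (hcl : IsLine Z c cl) {T : ℝ} (hT : 0 ≤ T)
    (hlk : MW.NoLink Φ ε K T Z₀ (MW.line (outL Φ ε Z l c s₁')) (MW.line (outC Φ ε Z l c s₁')))
    (hxl : NoCross Φ ε K T Z₀ (MW.line cl) (MW.line (outL Φ ε Z l c s₁')))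
    (hxc : NoCross Φ ε K T Z₀ (MW.line cl) (MW.line (outC Φ ε Z l c s₁'))) :
    Z.thetaL Φ ε K T l = min (Z₀.thetaL Φ ε K T cl)
      (min (Z₀.thetaL Φ ε K T (outL Φ ε Z l c s₁'))
        (Z₀.thetaL Φ ε K T (outC Φ ε Z l c s₁'))) := by
  have hRcl : (Z₀.ins cl).Ok Φ ε := ok_ins_cl hΦ hε hZ hZ₀ hcl
  have hW := theta_W_eq h hΦ hε hZ hZl hZ₀ hK hR hRl hRc hT hlk
  rw [thetaL_eq_W h hΦ hε hZ hZl hZ₀ hK T, theta_Z_eq hΦ hε hZ₀ hcl T, ← hW]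
  refine theta_mid_cut (tri_dyn h hΦ hε hZ hZl hZ₀ hR hRcl T)
    (tri_rules h hΦ hε hZ hZl hZ₀ hK hR hRcl T) le_rfl hT ?_
  -- a link of `c` with `W` is a link of `c` with `l'` or with `c'`
  set sm := min T (min (Z₀.thetaL Φ ε K T cl) (theta (Z₀.C Φ ε) (Z₀.path Φ ε)
    ((WW Φ ε Z l c s₁' Z₀).C Φ ε) ((WW Φ ε Z l c s₁' Z₀).path Φ ε) id (Sum.inl ∘ Sum.inl) 0 T
    (Z₀.Inf Φ ε K) (PW Φ ε K Z l a))) with hsm
  change ¬ (tri Φ ε Z l c s₁' Z₀ cl).Link 0 (Z₀.Inf Φ ε K) ((Z₀.ins cl).Inf Φ ε K)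
    (PW Φ ε K Z l a) sm
  rw [hW] at hsm
  have h0 : 0 ≤ sm := by
    rw [hsm]
    exact le_min hT (le_min (MW.theta_nonneg hT)
      (le_min (MW.theta_nonneg hT) (MW.theta_nonneg hT)))
  have hsT : sm ≤ T := by rw [hsm]; exact min_le_left _ _
  have hs1 : sm ≤ Z₀.thetaL Φ ε K T cl := by
    rw [hsm]; exact (min_le_right _ _).trans (min_le_left _ _)
  have hs2 : sm ≤ Z₀.thetaL Φ ε K T (outL Φ ε Z l c s₁') := by
    rw [hsm]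
    exact (min_le_right _ _).trans ((min_le_right _ _).trans (min_le_left _ _))
  have hs3 : sm ≤ Z₀.thetaL Φ ε K T (outC Φ ε Z l c s₁') := by
    rw [hsm]
    exact (min_le_right _ _).trans ((min_le_right _ _).trans (min_le_right _ _))
  have hd := MW.four_dyn hΦ hε hR hRl hRc (okWW h hΦ hε hZ hZl hZ₀) T
  have hr := four_rules_PW h hΦ hε hZ hZl hZ₀ hK hR hRl hRc T
  rintro ⟨u, hu, ⟨k, hk1, hk2⟩ | ⟨x, y, _, _, hc⟩⟩
  · have hno := LinkU255.noLink_of_le hd hr le_rfl hsT hs2 hs3 (hlk sm h0 hsT hs2 hs3)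
    rcases LinkU255.cfut_union hd hr le_rfl ⟨h0, hsT⟩ hno hu.2 hk2 with h4 | h4
    · exact hxl sm h0 hsT hs1 hs2 ⟨u, hu, k, hk1, h4⟩
    · exact hxc sm h0 hsT hs1 hs3 ⟨u, hu, k, hk1, h4⟩
  · exact hc

include h hΦ hε hZ hZl hZ₀ in
/-- Coherence of the worlds `Z₀ + c` and `W`. -/
theorem coh_VW (hK : l.2 + Z.m c ≤ K) (cl : ML) {t : ℝ} (ht : 0 ≤ t) {k : ι₀}
    (hk : HistEq ((Z₀.ins cl).C Φ ε) ((Z₀.ins cl).path Φ ε) ((WW Φ ε Z l c s₁' Z₀).C Φ ε)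
      ((WW Φ ε Z l c s₁' Z₀).path Φ ε) (Sum.inl : ι₀ → ι₀ ⊕ Unit) (Sum.inl ∘ Sum.inl) t k) :
    (Z₀.ins cl).Inf Φ ε K t (Sum.inl k) ↔ PW Φ ε K Z l a t ((Sum.inl ∘ Sum.inl) k) :=
  (transfer h hΦ hε hZ hZl hZ₀ t).coh_gen (fun k => m_WW hZ₀ k) (fun b => m_nn (a := a) b)
    (show l.2 + Z.m c ≤ K from hK) (mW := (WW Φ ε Z l c s₁' Z₀).m)
    (C' := (Z₀.ins cl).C Φ ε) (m' := (Z₀.ins cl).m)
    (e' := (Sum.inl : ι₀ → ι₀ ⊕ Unit)) (g := (Sum.inl ∘ Sum.inl : ι₀ → (ι₀ ⊕ Unit) ⊕ Unit))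
    Sum.inl_injective (Sum.inl_injective.comp Sum.inl_injective) (fun _ => rfl)
    (nn_not_mem_inl_inl (!false)) ⟨ht, le_rfl⟩ hk

include h hΦ hε hZ hZl hZ₀ in
/-- **Triangle inequality** (no hypothesis on links): `W = Z₀ + l' + c'` touches `Z₀` not before `l`
touches `Z` or the undeflected `c` touches `Z₀`. -/
theorem min_le_theta_W (hK : l.2 + Z.m c ≤ K) (hR : Z₀.Ok Φ ε) {cl : ML} (hcl : IsLine Z c cl)
    {T : ℝ} (hT : 0 ≤ T) :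
    min (Z.thetaL Φ ε K T l) (Z₀.thetaL Φ ε K T cl) ≤
      theta (Z₀.C Φ ε) (Z₀.path Φ ε) ((WW Φ ε Z l c s₁' Z₀).C Φ ε)
        ((WW Φ ε Z l c s₁' Z₀).path Φ ε) id (Sum.inl ∘ Sum.inl) 0 T (Z₀.Inf Φ ε K)
        (PW Φ ε K Z l a) := by
  have hRcl : (Z₀.ins cl).Ok Φ ε := ok_ins_cl hΦ hε hZ hZ₀ hcl
  have hd := tri_dyn h hΦ hε hZ hZl hZ₀ hR hRcl T
  have hr := tri_rules h hΦ hε hZ hZl hZ₀ hK hR hRcl T
  rcases Four.theta_dich (C₁ := Z₀.C Φ ε) (z₁ := Z₀.path Φ ε)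
    (C₂ := (WW Φ ε Z l c s₁' Z₀).C Φ ε) (z₂ := (WW Φ ε Z l c s₁' Z₀).path Φ ε)
    (e₁ := id) (e₂ := Sum.inl ∘ Sum.inl) (P₁ := Z₀.Inf Φ ε K) (P₂ := PW Φ ε K Z l a) 0 T
    with h1 | h1
  · have h0 := le_theta (C₁ := Z₀.C Φ ε) (z₁ := Z₀.path Φ ε)
      (C₂ := (WW Φ ε Z l c s₁' Z₀).C Φ ε) (z₂ := (WW Φ ε Z l c s₁' Z₀).path Φ ε)
      (e₁ := id) (e₂ := Sum.inl ∘ Sum.inl) (P₁ := Z₀.Inf Φ ε K) (P₂ := PW Φ ε K Z l a) hT
    have ht := (touched_iff_theta_le hd.p₀L le_rfl hr.r₀ hr.rL ⟨h0, h1⟩).2 le_rfl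
    have htri : Ins45.Tri (Sum.inl : ι₀ → ι₀ ⊕ Unit) (Sum.inl : ι₀ → ι₀ ⊕ Unit)
        (id : ι₀ → ι₀) (id : ι₀ → ι₀) :=
      ⟨fun _ => rfl, fun y w hyw => ⟨y, rfl, Sum.inl_injective hyw⟩⟩
    rcases touched_triangle (P₁ := Z₀.Inf Φ ε K) (P₂ := (Z₀.ins cl).Inf Φ ε K)
      (P₃ := PW Φ ε K Z l a) hd.p₀A hd.pAL htri ⟨h0, h1⟩
      (fun k hk => hr.coh₀A _ ⟨h0, h1⟩ k hk)
      (fun k hk => coh_VW h hΦ hε hZ hZl hZ₀ hK cl h0 hk) ht with h2 | h2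
    · exact (min_le_right _ _).trans
        ((touched_iff_theta_le hd.p₀A le_rfl hr.r₀ hr.rA ⟨h0, h1⟩).1 h2)
    · refine (min_le_left _ _).trans ?_
      rw [thetaL_eq_W h hΦ hε hZ hZl hZ₀ hK T, theta_Z_eq hΦ hε hZ₀ hcl T]
      exact (touched_iff_theta_le hd.pAL le_rfl hr.rA hr.rL ⟨h0, h1⟩).1 h2
  · rw [h1]
    exact (min_le_left _ _).trans theta_le

include h hΦ hε hZ hZl hZ₀ in
/-- **(1.6')** with the alternative that the undeflected `c` touches: only `l'` and `c'` have to be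
unlinked, up to the minimum of their touch times. -/
theorem min_le_min' (hK : l.2 + Z.m c ≤ K) (hR : Z₀.Ok Φ ε)
    (hRl : (Z₀.ins (outL Φ ε Z l c s₁')).Ok Φ ε) (hRc : (Z₀.ins (outC Φ ε Z l c s₁')).Ok Φ ε)
    {cl : ML} (hcl : IsLine Z c cl) {T : ℝ} (hT : 0 ≤ T)
    (hlk : ¬ Z₀.LINK Φ ε K (MW.line (outL Φ ε Z l c s₁')) (MW.line (outC Φ ε Z l c s₁'))
      (min T (min (Z₀.thetaL Φ ε K T (outL Φ ε Z l c s₁'))
        (Z₀.thetaL Φ ε K T (outC Φ ε Z l c s₁'))))) :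
    min (Z.thetaL Φ ε K T l) (Z₀.thetaL Φ ε K T cl) ≤
      min (Z₀.thetaL Φ ε K T (outL Φ ε Z l c s₁')) (Z₀.thetaL Φ ε K T (outC Φ ε Z l c s₁')) := by
  rw [← theta_W_eq' h hΦ hε hZ hZl hZ₀ hK hR hRl hRc hT hlk]
  exact min_le_theta_W h hΦ hε hZ hZl hZ₀ hK hR hcl hT

include h hΦ hε hZ hZl hZ₀ in
theorem min_le_min (hK : l.2 + Z.m c ≤ K) (hR : Z₀.Ok Φ ε)
    (hRl : (Z₀.ins (outL Φ ε Z l c s₁')).Ok Φ ε) (hRc : (Z₀.ins (outC Φ ε Z l c s₁')).Ok Φ ε)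
    {cl : ML} (hcl : IsLine Z c cl) {T : ℝ} (hT : 0 ≤ T)
    (hlk : MW.NoLink Φ ε K T Z₀ (MW.line (outL Φ ε Z l c s₁')) (MW.line (outC Φ ε Z l c s₁'))) :
    min (Z.thetaL Φ ε K T l) (Z₀.thetaL Φ ε K T cl) ≤
      min (Z₀.thetaL Φ ε K T (outL Φ ε Z l c s₁')) (Z₀.thetaL Φ ε K T (outC Φ ε Z l c s₁')) :=
  min_le_min' h hΦ hε hZ hZl hZ₀ hK hR hRl hRc hcl hT
    (hlk _ (le_min hT (le_min (MW.theta_nonneg hT) (MW.theta_nonneg hT))) (min_le_left _ _)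
      ((min_le_right _ _).trans (min_le_left _ _)) ((min_le_right _ _).trans (min_le_right _ _)))

include h hΦ hε hZ hZl hZ₀ in
/-- **Single time form.** If `l'` or `c'` has touched `Z₀` at time `s ≤ T` and there is no link
between them up to and including `s`, then `l` has touched `Z` or `c` has touched `Z₀` at time
`s`. -/
theorem le_of_out_le (hK : l.2 + Z.m c ≤ K) (hR : Z₀.Ok Φ ε)
    (hRl : (Z₀.ins (outL Φ ε Z l c s₁')).Ok Φ ε) (hRc : (Z₀.ins (outC Φ ε Z l c s₁')).Ok Φ ε)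
    {cl : ML} (hcl : IsLine Z c cl) {T : ℝ} (hT : 0 ≤ T) {s : ℝ}
    (hs : Z₀.thetaL Φ ε K T (outL Φ ε Z l c s₁') ≤ s ∨
      Z₀.thetaL Φ ε K T (outC Φ ε Z l c s₁') ≤ s)
    (hlk : ¬ Z₀.LINK Φ ε K (MW.line (outL Φ ε Z l c s₁')) (MW.line (outC Φ ε Z l c s₁')) s) :
    Z.thetaL Φ ε K T l ≤ s ∨ Z₀.thetaL Φ ε K T cl ≤ s := by
  have h1 : min (Z₀.thetaL Φ ε K T (outL Φ ε Z l c s₁'))
      (Z₀.thetaL Φ ε K T (outC Φ ε Z l c s₁')) ≤ s := min_le_iff.2 hs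
  have h2 := min_le_min' h hΦ hε hZ hZl hZ₀ hK hR hRl hRc hcl hT
    fun h' => hlk (h'.mono ((min_le_right _ _).trans h1))
  exact min_le_iff.1 (h2.trans h1)

end eq

/-! ### The family form -/

/-- **(1.6') for E6**, only `e'` and `c'` unlinked. -/
theorem min_le_min_fam {κ : Type} [Fintype κ] {w : MW ι} {F : κ → ML} {r : κ} {d e : ML}
    (h : Hit Φ ε ((w.add (MW.lines F)).ins d) e (Sum.inl (Sum.inr r)) s₁ s₁')
    (hΦ : AdmissiblePotential Φ) (hε : 0 < ε) (hZ : ((w.add (MW.lines F)).ins d).Ok Φ ε)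
    (hZl : (((w.add (MW.lines F)).ins d).ins e).Ok Φ ε) {Z₀ : MW ((ι ⊕ Unit) ⊕ {k : κ // k ≠ r})}
    (hZ₀ : Z₀ = (w.ins d).add (MW.lines fun k : {k : κ // k ≠ r} => F k)) {e' c' : ML}
    (he' : e' = outL Φ ε ((w.add (MW.lines F)).ins d) e (Sum.inl (Sum.inr r)) s₁')
    (hc' : c' = outC Φ ε ((w.add (MW.lines F)).ins d) e (Sum.inl (Sum.inr r)) s₁')
    (hR : Z₀.Ok Φ ε) (hRl : (Z₀.ins e').Ok Φ ε) (hRc : (Z₀.ins c').Ok Φ ε)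
    (hK : e.2 + (F r).2 ≤ K) {T : ℝ} (hT : 0 ≤ T)
    (hlk : MW.NoLink Φ ε K T Z₀ (MW.line e') (MW.line c')) :
    min (((w.add (MW.lines F)).ins d).thetaL Φ ε K T e) (Z₀.thetaL Φ ε K T (F r)) ≤
      min (Z₀.thetaL Φ ε K T e') (Z₀.thetaL Φ ε K T c') := by
  subst hZ₀ he' hc'
  exact min_le_min (a := famE ι κ r) h hΦ hε hZ hZl (rest_fam w F r d) hK hR hRl hRc
    ⟨rfl, rfl, rfl⟩ hT hlk

/-- **(1.6') for E6**, single time form: `e'` or `c'` has touched `Z₀` at time `s`, no link between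
`e'` and `c'` up to and including `s`. -/
theorem le_of_out_le_fam {κ : Type} [Fintype κ] {w : MW ι} {F : κ → ML} {r : κ} {d e : ML}
    (h : Hit Φ ε ((w.add (MW.lines F)).ins d) e (Sum.inl (Sum.inr r)) s₁ s₁')
    (hΦ : AdmissiblePotential Φ) (hε : 0 < ε) (hZ : ((w.add (MW.lines F)).ins d).Ok Φ ε)
    (hZl : (((w.add (MW.lines F)).ins d).ins e).Ok Φ ε) {Z₀ : MW ((ι ⊕ Unit) ⊕ {k : κ // k ≠ r})}
    (hZ₀ : Z₀ = (w.ins d).add (MW.lines fun k : {k : κ // k ≠ r} => F k)) {e' c' : ML}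
    (he' : e' = outL Φ ε ((w.add (MW.lines F)).ins d) e (Sum.inl (Sum.inr r)) s₁')
    (hc' : c' = outC Φ ε ((w.add (MW.lines F)).ins d) e (Sum.inl (Sum.inr r)) s₁')
    (hR : Z₀.Ok Φ ε) (hRl : (Z₀.ins e').Ok Φ ε) (hRc : (Z₀.ins c').Ok Φ ε)
    (hK : e.2 + (F r).2 ≤ K) {T : ℝ} (hT : 0 ≤ T) {s : ℝ}
    (hs : Z₀.thetaL Φ ε K T e' ≤ s ∨ Z₀.thetaL Φ ε K T c' ≤ s)
    (hlk : ¬ Z₀.LINK Φ ε K (MW.line e') (MW.line c') s) :
    ((w.add (MW.lines F)).ins d).thetaL Φ ε K T e ≤ s ∨ Z₀.thetaL Φ ε K T (F r) ≤ s := by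
  subst hZ₀ he' hc'
  exact le_of_out_le (a := famE ι κ r) h hΦ hε hZ hZl (rest_fam w F r d) hK hR hRl hRc
    ⟨rfl, rfl, rfl⟩ hT hs hlk

/-- **(1.6') for E6** (equality). -/
theorem theta_eq_fam {κ : Type} [Fintype κ] {w : MW ι} {F : κ → ML} {r : κ} {d e : ML}
    (h : Hit Φ ε ((w.add (MW.lines F)).ins d) e (Sum.inl (Sum.inr r)) s₁ s₁')
    (hΦ : AdmissiblePotential Φ) (hε : 0 < ε) (hZ : ((w.add (MW.lines F)).ins d).Ok Φ ε)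
    (hZl : (((w.add (MW.lines F)).ins d).ins e).Ok Φ ε) {Z₀ : MW ((ι ⊕ Unit) ⊕ {k : κ // k ≠ r})}
    (hZ₀ : Z₀ = (w.ins d).add (MW.lines fun k : {k : κ // k ≠ r} => F k)) {e' c' : ML}
    (he' : e' = outL Φ ε ((w.add (MW.lines F)).ins d) e (Sum.inl (Sum.inr r)) s₁')
    (hc' : c' = outC Φ ε ((w.add (MW.lines F)).ins d) e (Sum.inl (Sum.inr r)) s₁')
    (hR : Z₀.Ok Φ ε) (hRl : (Z₀.ins e').Ok Φ ε) (hRc : (Z₀.ins c').Ok Φ ε)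
    (hK : e.2 + (F r).2 ≤ K) {T : ℝ} (hT : 0 ≤ T)
    (hlk : MW.NoLink Φ ε K T Z₀ (MW.line e') (MW.line c'))
    (hxl : NoCross Φ ε K T Z₀ (MW.line (F r)) (MW.line e'))
    (hxc : NoCross Φ ε K T Z₀ (MW.line (F r)) (MW.line c')) :
    ((w.add (MW.lines F)).ins d).thetaL Φ ε K T e =
      min (Z₀.thetaL Φ ε K T (F r)) (min (Z₀.thetaL Φ ε K T e') (Z₀.thetaL Φ ε K T c')) := by
  subst hZ₀ he' hc'
  exact theta_eq (a := famE ι κ r) h hΦ hε hZ hZl (rest_fam w F r d) hK hR hRl hRc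
    ⟨rfl, rfl, rfl⟩ hT hlk hxl hxc

end hit

end

end Crest.Agent.R122.OneRev291
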