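import Crest.Agent.R122.EFam_879
import Crest.Agent.R122.OneRev_291
import Crest.Agent.R122.LinkLift_879
import Crest.Agent.R122.MWFam2_255
import Crest.Agent.R122.Decomp3E_811

/-!
# The deterministic facts of inequality 3 (row 122, E_FINAL E6), v2

* `E6Hyp`: the link interface of inequality 3: good worlds and absence of links between single lines,
  in `w₂` (lines `F` of the fresh cluster, `d`) and in `w₂ + d` (`F`; exits, `e'`, `c'`). The lines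
  `F r` and `e'`, `c'` never coexist.
* `E6Hyp.w_Ld`, …, `E6Hyp.fdL`: the world consistencies of `E6FactsA` (helper811).
* `E6Hyp.not_link_Z0`: `e'` and `c'` are unlinked in `Z₀ = w₂ + d + exits` up to the first touch.
* `E6Hyp.factsA`: `E6FactsA` for an arbitrary inserted object `A`, from the facts about `A`, the
  one-contact lemma and its single time reverse form.
* `E6Hyp.facts`, `E6Hyp.facts_hit`: `E6Facts` (object = lines), the second from a `Hit` (helper45).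
-/

set_option autoImplicit false
set_option linter.unusedSectionVars false

open MeasureTheory Set Filter Topology
open scoped ENNReal
open Crest.AnalysisR.Kinetic
open Crest.Agent.R122.EDefs602 Crest.Agent.R122.MWAlg255 Crest.Agent.R122.MWFam255
open Crest.Agent.R122.Decomp811 Crest.Agent.R122.Ins45

namespace Crest.Agent.R122.E6Hyp879

noncomputable section

open scoped Classical

variable {ι κ ξ : Type} [Fintype ι] [Fintype κ] [Fintype ξ]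
variable {Φ : Space3 → ℝ} {ε T : ℝ} {K : ℕ}

/-- The lines `F` and the line `d`. -/
def withD (F : κ → ML) (d : ML) : κ ⊕ Unit → ML := Sum.elim F fun _ => d

/-- The lines `F` and two more lines. -/
def plus (F : κ → ML) (e' c' : ML) : κ ⊕ Bool → ML := Sum.elim F fun b => cond b e' c'

/-- Good worlds and absence of links between single lines, for the structure of E6. -/
structure E6Hyp (Φ : Space3 → ℝ) (ε : ℝ) (K : ℕ) (T : ℝ) (w₂ : MW ι) (F : κ → ML) (r : κ)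
    (d e' c' : ML) : Prop where
  /-- the lines `F`, `d` can be inserted together in `w₂` -/
  ok₁ : MW.OkFam Φ ε w₂ (withD F d)
  /-- the exits, `e'`, `c'` can be inserted together in `w₂ + d` -/
  ok₂ : MW.OkFam Φ ε (w₂.ins d) (plus (exF F r) e' c')
  /-- `F`, `d` pairwise unlinked in `w₂` -/
  nl₀ : PairNL Φ ε K T w₂ (withD F d)
  /-- `F` pairwise unlinked in `w₂ + d` -/
  nl₁ : PairNL Φ ε K T (w₂.ins d) F
  /-- exits, `e'`, `c'` pairwise unlinked in `w₂ + d` -/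
  nl₂ : PairNL Φ ε K T (w₂.ins d) (plus (exF F r) e' c')

/-- The exits in the family `F`. -/
def exEmb (r : κ) : {k : κ // k ≠ r} ↪ κ := Function.Embedding.subtype _

/-- The exits in the family `plus`. -/
def inlEmb (α β : Type) : α ↪ α ⊕ β := ⟨Sum.inl, Sum.inl_injective⟩

/-- The exits and `e'`. -/
def exeEmb (α : Type) : α ⊕ Unit ↪ α ⊕ Bool :=
  ⟨Sum.map id fun _ => true, by
    rintro (x | x) (y | y) h
    · exact congrArg Sum.inl (Sum.inl_injective h)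
    · cases h
    · cases h
    · rfl⟩

namespace E6Hyp

variable {w₂ : MW ι} {F : κ → ML} {r : κ} {d e e' c' : ML}

/-- The family `F` can be inserted in `w₂ + d`. -/
theorem okE (hΦ : AdmissiblePotential Φ) (hε : 0 < ε) (h : E6Hyp Φ ε K T w₂ F r d e' c') :
    MW.OkFam Φ ε (w₂.ins d) F := by
  intro S
  have h1 := ok_lines_add hΦ hε h.ok₁
    (⟨fun _ : Unit => Sum.inr (), fun _ _ _ => rfl⟩ : Unit ↪ κ ⊕ Unit)
    (⟨fun i : S => Sum.inl i.1, fun i j h => Subtype.ext (Sum.inl_injective h)⟩ : S ↪ κ ⊕ Unit)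
    (fun _ _ h => by cases h)
  exact h1

/-- The world `Z₀`. -/
theorem okZ0 (hΦ : AdmissiblePotential Φ) (hε : 0 < ε) (h : E6Hyp Φ ε K T w₂ F r d e' c') :
    (Z0 w₂ F r d).Ok Φ ε := (okFam_comp hΦ hε (h.okE hΦ hε) (exEmb r)).lines hΦ hε

theorem okZ0c (hΦ : AdmissiblePotential Φ) (hε : 0 < ε) (h : E6Hyp Φ ε K T w₂ F r d e' c') :
    ((Z0 w₂ F r d).add (MW.line (F r))).Ok Φ ε :=
  ok_lines_add hΦ hε (h.okE hΦ hε) (exEmb r) (⟨fun _ : Unit => r, fun _ _ _ => rfl⟩ : Unit ↪ κ)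
    fun i _ => i.2

theorem okZ0e (hΦ : AdmissiblePotential Φ) (hε : 0 < ε) (h : E6Hyp Φ ε K T w₂ F r d e' c') :
    ((Z0 w₂ F r d).add (MW.line e')).Ok Φ ε :=
  ok_lines_add hΦ hε h.ok₂ (inlEmb _ Bool)
    (⟨fun _ : Unit => Sum.inr true, fun _ _ _ => rfl⟩ : Unit ↪ {k : κ // k ≠ r} ⊕ Bool)
    fun i _ h => by cases h

theorem okZ0c' (hΦ : AdmissiblePotential Φ) (hε : 0 < ε) (h : E6Hyp Φ ε K T w₂ F r d e' c') :
    ((Z0 w₂ F r d).add (MW.line c')).Ok Φ ε :=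
  ok_lines_add hΦ hε h.ok₂ (inlEmb _ Bool)
    (⟨fun _ : Unit => Sum.inr false, fun _ _ _ => rfl⟩ : Unit ↪ {k : κ // k ≠ r} ⊕ Bool)
    fun i _ h => by cases h

/-! ### World consistency -/

theorem w_Ld (hΦ : AdmissiblePotential Φ) (hε : 0 < ε) (hT : 0 ≤ T)
    (h : E6Hyp Φ ε K T w₂ F r d e' c') : W1E Φ ε K T w₂ (MW.lines F) (MW.line d) :=
  w1E_lines_line hΦ hε hT h.ok₁ h.nl₀ (inlEmb κ Unit) (Sum.inr ()) fun _ h => by cases h

theorem w_dk (hΦ : AdmissiblePotential Φ) (hε : 0 < ε) (hT : 0 ≤ T)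
    (h : E6Hyp Φ ε K T w₂ F r d e' c') (k : κ) : W1E Φ ε K T w₂ (MW.line d) (MW.line (F k)) :=
  w1E_line_line hΦ hε hT h.ok₁ h.nl₀ (j := Sum.inr ()) (k := Sum.inl k) (by simp)

theorem w_Ec (hΦ : AdmissiblePotential Φ) (hε : 0 < ε) (hT : 0 ≤ T)
    (h : E6Hyp Φ ε K T w₂ F r d e' c') :
    W1E Φ ε K T (w₂.ins d) (MW.lines (exF F r)) (MW.line (F r)) :=
  w1E_lines_line hΦ hε hT (h.okE hΦ hε) h.nl₁ (exEmb r) r fun i => i.2

theorem w_Ee (hΦ : AdmissiblePotential Φ) (hε : 0 < ε) (hT : 0 ≤ T)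
    (h : E6Hyp Φ ε K T w₂ F r d e' c') :
    W1E Φ ε K T (w₂.ins d) (MW.lines (exF F r)) (MW.line e') :=
  w1E_lines_line hΦ hε hT h.ok₂ h.nl₂ (inlEmb _ Bool) (Sum.inr true) fun _ h => by cases h

theorem w_Ec' (hΦ : AdmissiblePotential Φ) (hε : 0 < ε) (hT : 0 ≤ T)
    (h : E6Hyp Φ ε K T w₂ F r d e' c') :
    W1E Φ ε K T (w₂.ins d) (MW.lines (exF F r)) (MW.line c') :=
  w1E_lines_line hΦ hε hT h.ok₂ h.nl₂ (inlEmb _ Bool) (Sum.inr false) fun _ h => by cases h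

/-- The exits do not touch before the first of them. -/
theorem uE_eq (hΦ : AdmissiblePotential Φ) (hε : 0 < ε) (hT : 0 ≤ T)
    (h : E6Hyp Φ ε K T w₂ F r d e' c') :
    (w₂.ins d).theta Φ ε K T (MW.lines (exF F r)) = firstT Φ ε K T (w₂.ins d) (exF F r) :=
  theta_lines_eq hΦ hε hT (h.okE hΦ hε) h.nl₁ (exEmb r)

theorem fL_eq (hΦ : AdmissiblePotential Φ) (hε : 0 < ε) (hT : 0 ≤ T)
    (h : E6Hyp Φ ε K T w₂ F r d e' c') :
    w₂.theta Φ ε K T (MW.lines F) = firstT Φ ε K T w₂ F :=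
  theta_lines_eq hΦ hε hT h.ok₁ h.nl₀ (inlEmb κ Unit)

theorem fdL_eq (hΦ : AdmissiblePotential Φ) (hε : 0 < ε) (hT : 0 ≤ T)
    (h : E6Hyp Φ ε K T w₂ F r d e' c') :
    (w₂.ins d).theta Φ ε K T (MW.lines F) = firstT Φ ε K T (w₂.ins d) F :=
  theta_lines_eq hΦ hε hT (h.okE hΦ hε) h.nl₁ (Function.Embedding.refl κ)

theorem lines_ex_e (F : κ → ML) (r : κ) (e' c' : ML) :
    MW.lines (fun i => plus (exF F r) e' c' (exeEmb _ i)) =
      (MW.lines (exF F r)).add (MW.line e') := by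
  unfold MW.lines MW.add MW.line
  congr 1 <;> · funext x; rcases x with x | x <;> rfl

theorem w_ec' (hΦ : AdmissiblePotential Φ) (hε : 0 < ε) (hT : 0 ≤ T)
    (h : E6Hyp Φ ε K T w₂ F r d e' c') :
    W1 (min ((w₂.ins d).theta Φ ε K T (MW.lines (exF F r)))
      ((w₂.ins d).thetaL Φ ε K T e')) ((w₂.ins d).thetaL Φ ε K T c')
    (((Z0 w₂ F r d).ins e').thetaL Φ ε K T c') := by
  have h1 : W1E Φ ε K T (w₂.ins d) (MW.lines fun i => plus (exF F r) e' c' (exeEmb _ i))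
      (MW.line c') := w1E_lines_line hΦ hε hT h.ok₂ h.nl₂ (exeEmb _) (Sum.inr false) (by
        rintro (i | i) h
        · cases h
        · cases h)
  rw [lines_ex_e] at h1
  have h2 : (w₂.ins d).theta Φ ε K T ((MW.lines (exF F r)).add (MW.line e')) =
      min ((w₂.ins d).theta Φ ε K T (MW.lines (exF F r)))
        ((w₂.ins d).theta Φ ε K T (MW.line e')) :=
    MW.theta_add_eq hΦ hε (h.ok₂.base hΦ hε) (h.okZ0 hΦ hε) (h.ok₂.line hΦ hε (Sum.inr true))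
      (h.okZ0e hΦ hε) hT (noLink_lines hΦ hε hT h.ok₂ h.nl₂ (inlEmb _ Bool)
        (⟨fun _ : Unit => Sum.inr true, fun _ _ _ => rfl⟩ : Unit ↪ {k : κ // k ≠ r} ⊕ Bool)
        fun _ _ h => by cases h)
  have h3 : ((Z0 w₂ F r d).add (MW.line e')).theta Φ ε K T (MW.line c') =
      ((w₂.ins d).add ((MW.lines (exF F r)).add (MW.line e'))).theta Φ ε K T (MW.line c') :=
    theta_base_assoc hΦ hε K T (w₂.ins d) (MW.lines (exF F r)) (MW.line e') (MW.line c')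
  have h4 : W1 ((w₂.ins d).theta Φ ε K T ((MW.lines (exF F r)).add (MW.line e')))
      ((w₂.ins d).theta Φ ε K T (MW.line c'))
      (((w₂.ins d).add ((MW.lines (exF F r)).add (MW.line e'))).theta Φ ε K T (MW.line c')) := h1
  rw [h2, ← h3] at h4
  exact h4

/-! ### The world `Z₀` -/

/-- Up to the first touch of the exits, `e'` and `c'` are unlinked in `Z₀`. -/
theorem not_link_Z0 (hΦ : AdmissiblePotential Φ) (hε : 0 < ε) (h : E6Hyp Φ ε K T w₂ F r d e' c')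
    {s : ℝ} (hs0 : 0 ≤ s) (hsT : s ≤ T) (hE : s ≤ firstT Φ ε K T (w₂.ins d) (exF F r))
    (he : s ≤ (w₂.ins d).thetaL Φ ε K T e') (hc : s ≤ (w₂.ins d).thetaL Φ ε K T c') :
    ¬ (Z0 w₂ F r d).LINK Φ ε K (MW.line e') (MW.line c') s := by
  have hT : 0 ≤ T := hs0.trans hsT
  have hE' : s ≤ (w₂.ins d).theta Φ ε K T (MW.lines (exF F r)) := by
    rw [h.uE_eq hΦ hε hT]
    exact hE
  have hne : MW.NoLink Φ ε K T (w₂.ins d) (MW.lines (exF F r)) (MW.line e') :=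
    noLink_lines hΦ hε hT h.ok₂ h.nl₂ (inlEmb _ Bool)
        (⟨fun _ : Unit => Sum.inr true, fun _ _ _ => rfl⟩ : Unit ↪ {k : κ // k ≠ r} ⊕ Bool)
        fun _ _ h => by cases h
  have hnc : MW.NoLink Φ ε K T (w₂.ins d) (MW.lines (exF F r)) (MW.line c') :=
    noLink_lines hΦ hε hT h.ok₂ h.nl₂ (inlEmb _ Bool)
        (⟨fun _ : Unit => Sum.inr false, fun _ _ _ => rfl⟩ : Unit ↪ {k : κ // k ≠ r} ⊕ Bool)
        fun _ _ h => by cases h
  exact MW.not_link_lift hΦ hε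
    ⟨h.ok₂.base hΦ hε, h.okZ0 hΦ hε, h.ok₂.line hΦ hε (Sum.inr true), h.okZ0e hΦ hε⟩
    ⟨h.ok₂.base hΦ hε, h.okZ0 hΦ hε, h.ok₂.line hΦ hε (Sum.inr false), h.okZ0c' hΦ hε⟩
    hs0 hsT hE' he hc (hne s hs0 hsT hE' he) (hnc s hs0 hsT hE' hc)
    (h.nl₂ (Sum.inr true) (Sum.inr false) (by simp) s hs0 hsT he hc)

/-- The reverse one-contact inequality for `e'`, from its single time form. -/
theorem re_of_rev (hΦ : AdmissiblePotential Φ) (hε : 0 < ε) (hT : 0 ≤ T)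
    (h : E6Hyp Φ ε K T w₂ F r d e' c') {θ₂ : ℝ} (hθ : θ₂ ≤ T + 1)
    (rev : ∀ s, 0 ≤ s → s ≤ T → ((Z0 w₂ F r d).thetaL Φ ε K T e' ≤ s ∨
        (Z0 w₂ F r d).thetaL Φ ε K T c' ≤ s) →
      ¬ (Z0 w₂ F r d).LINK Φ ε K (MW.line e') (MW.line c') s →
      θ₂ ≤ s ∨ (Z0 w₂ F r d).thetaL Φ ε K T (F r) ≤ s)
    (h1 : (Z0 w₂ F r d).thetaL Φ ε K T e' ≤ firstT Φ ε K T (w₂.ins d) (exF F r))
    (h2 : (Z0 w₂ F r d).thetaL Φ ε K T e' ≤ (w₂.ins d).thetaL Φ ε K T c') :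
    min θ₂ ((Z0 w₂ F r d).thetaL Φ ε K T (F r)) ≤ (Z0 w₂ F r d).thetaL Φ ε K T e' := by
  rcases MW.theta_le_or (K := K) (T := T) hΦ hε (h.okZ0 hΦ hε) (h.okZ0e hΦ hε) with h3 | h3
  · have h4 : (Z0 w₂ F r d).thetaL Φ ε K T e' ≤ (w₂.ins d).theta Φ ε K T (MW.lines (exF F r)) := by
      rw [h.uE_eq hΦ hε hT]
      exact h1
    have h5 : (w₂.ins d).thetaL Φ ε K T e' = (Z0 w₂ F r d).thetaL Φ ε K T e' := by
      have h6 := (h.w_Ee hΦ hε hT).le_of_le h4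
      exact ((h.w_Ee hΦ hε hT).eq (h6.trans h4)).symm
    exact min_le_iff.2 (rev _ (MW.theta_nonneg hT) h3 (Or.inl le_rfl)
      (h.not_link_Z0 hΦ hε (MW.theta_nonneg hT) h3 h1 h5.ge h2))
  · have h4 : (Z0 w₂ F r d).thetaL Φ ε K T e' = T + 1 := h3
    rw [h4]
    exact (min_le_left _ _).trans hθ

/-- The reverse one-contact inequality for `c'`, from its single time form. -/
theorem rc'_of_rev (hΦ : AdmissiblePotential Φ) (hε : 0 < ε) (hT : 0 ≤ T)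
    (h : E6Hyp Φ ε K T w₂ F r d e' c') {θ₂ : ℝ} (hθ : θ₂ ≤ T + 1)
    (rev : ∀ s, 0 ≤ s → s ≤ T → ((Z0 w₂ F r d).thetaL Φ ε K T e' ≤ s ∨
        (Z0 w₂ F r d).thetaL Φ ε K T c' ≤ s) →
      ¬ (Z0 w₂ F r d).LINK Φ ε K (MW.line e') (MW.line c') s →
      θ₂ ≤ s ∨ (Z0 w₂ F r d).thetaL Φ ε K T (F r) ≤ s)
    (h1 : (Z0 w₂ F r d).thetaL Φ ε K T c' ≤ firstT Φ ε K T (w₂.ins d) (exF F r))
    (h2 : (Z0 w₂ F r d).thetaL Φ ε K T c' ≤ (w₂.ins d).thetaL Φ ε K T e') :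
    min θ₂ ((Z0 w₂ F r d).thetaL Φ ε K T (F r)) ≤ (Z0 w₂ F r d).thetaL Φ ε K T c' := by
  rcases MW.theta_le_or (K := K) (T := T) hΦ hε (h.okZ0 hΦ hε) (h.okZ0c' hΦ hε) with h3 | h3
  · have h4 : (Z0 w₂ F r d).thetaL Φ ε K T c' ≤ (w₂.ins d).theta Φ ε K T (MW.lines (exF F r)) := by
      rw [h.uE_eq hΦ hε hT]
      exact h1
    have h5 : (w₂.ins d).thetaL Φ ε K T c' = (Z0 w₂ F r d).thetaL Φ ε K T c' := by
      have h6 := (h.w_Ec' hΦ hε hT).le_of_le h4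
      exact ((h.w_Ec' hΦ hε hT).eq (h6.trans h4)).symm
    exact min_le_iff.2 (rev _ (MW.theta_nonneg hT) h3 (Or.inr le_rfl)
      (h.not_link_Z0 hΦ hε (MW.theta_nonneg hT) h3 h1 h2 h5.ge))
  · have h4 : (Z0 w₂ F r d).thetaL Φ ε K T c' = T + 1 := h3
    rw [h4]
    exact (min_le_left _ _).trans hθ

/-! ### The facts -/

/-- **The facts of E6** for an arbitrary inserted object `A`. -/
theorem factsA {A : MW ξ} (hΦ : AdmissiblePotential Φ) (hε : 0 < ε) (hT : 0 ≤ T)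
    (h : E6Hyp Φ ε K T w₂ F r d e' c')
    (w_Ld : W1E Φ ε K T w₂ A (MW.line d))
    (fL : firstT Φ ε K T w₂ F ≤ w₂.theta Φ ε K T A)
    (one : min ((Z0 w₂ F r d).thetaL Φ ε K T (F r)) (min ((Z0 w₂ F r d).thetaL Φ ε K T e')
      (((Z0 w₂ F r d).ins e').thetaL Φ ε K T c')) ≤ ((w₂.add A).ins d).thetaL Φ ε K T e)
    (rev : ∀ s, 0 ≤ s → s ≤ T → ((Z0 w₂ F r d).thetaL Φ ε K T e' ≤ s ∨
        (Z0 w₂ F r d).thetaL Φ ε K T c' ≤ s) →
      ¬ (Z0 w₂ F r d).LINK Φ ε K (MW.line e') (MW.line c') s →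
      ((w₂.add A).ins d).thetaL Φ ε K T e ≤ s ∨ (Z0 w₂ F r d).thetaL Φ ε K T (F r) ≤ s) :
    E6FactsA Φ ε K T w₂ A F r d e e' c' where
  w_Ld := W1.mono w_Ld fL
  w_dk := h.w_dk hΦ hε hT
  w_Ec := h.w_Ec hΦ hε hT
  w_Ee := h.w_Ee hΦ hε hT
  w_Ec' := h.w_Ec' hΦ hε hT
  w_ec' := h.w_ec' hΦ hε hT
  fE := (h.uE_eq hΦ hε hT).ge
  one := one
  re := h.re_of_rev hΦ hε hT MW.theta_le rev
  rc' := h.rc'_of_rev hΦ hε hT MW.theta_le rev

/-- **The facts of E6**, the fresh cluster replaced by its lines. -/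
theorem facts (hΦ : AdmissiblePotential Φ) (hε : 0 < ε) (hT : 0 ≤ T)
    (h : E6Hyp Φ ε K T w₂ F r d e' c')
    (one : min ((Z0 w₂ F r d).thetaL Φ ε K T (F r)) (min ((Z0 w₂ F r d).thetaL Φ ε K T e')
      (((Z0 w₂ F r d).ins e').thetaL Φ ε K T c')) ≤
        ((w₂.add (MW.lines F)).ins d).thetaL Φ ε K T e)
    (rev : ∀ s, 0 ≤ s → s ≤ T → ((Z0 w₂ F r d).thetaL Φ ε K T e' ≤ s ∨
        (Z0 w₂ F r d).thetaL Φ ε K T c' ≤ s) →
      ¬ (Z0 w₂ F r d).LINK Φ ε K (MW.line e') (MW.line c') s →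
      ((w₂.add (MW.lines F)).ins d).thetaL Φ ε K T e ≤ s ∨
        (Z0 w₂ F r d).thetaL Φ ε K T (F r) ≤ s) :
    E6Facts Φ ε K T w₂ F r d e e' c' :=
  h.factsA hΦ hε hT (h.w_Ld hΦ hε hT) (h.fL_eq hΦ hε hT).ge one rev

/-- The world `w₂ + F + d`. -/
theorem okLd (hΦ : AdmissiblePotential Φ) (hε : 0 < ε) (h : E6Hyp Φ ε K T w₂ F r d e' c') :
    ((w₂.add (MW.lines F)).ins d).Ok Φ ε :=
  ok_lines_add hΦ hε h.ok₁ (inlEmb κ Unit)
    (⟨fun _ : Unit => Sum.inr (), fun _ _ _ => rfl⟩ : Unit ↪ κ ⊕ Unit) fun _ _ h => by cases h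

/-- **The facts of E6**: the first contact of `e` in `w₂ + F + d` is with the root line `F r`. -/
theorem facts_hit (hΦ : AdmissiblePotential Φ) (hε : 0 < ε) (hT : 0 ≤ T)
    (h : E6Hyp Φ ε K T w₂ F r d e' c') {s₁ s₁' : ℝ}
    (hit : Hit Φ ε ((w₂.add (MW.lines F)).ins d) e (Sum.inl (Sum.inr r)) s₁ s₁')
    (he' : e' = outL Φ ε ((w₂.add (MW.lines F)).ins d) e (Sum.inl (Sum.inr r)) s₁')
    (hc' : c' = outC Φ ε ((w₂.add (MW.lines F)).ins d) e (Sum.inl (Sum.inr r)) s₁')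
    (hZl : (((w₂.add (MW.lines F)).ins d).ins e).Ok Φ ε) (hK : e.2 + (F r).2 ≤ K) :
    E6Facts Φ ε K T w₂ F r d e e' c' := by
  refine h.facts hΦ hε hT ?_ fun s _ _ hs hlk => ?_
  · have hRl := h.okZ0e hΦ hε
    subst he' hc'
    exact hit.one_fam hΦ hε (h.okLd hΦ hε) hZl rfl (h.okZ0 hΦ hε) hRl hK T
  · exact OneRev291.le_of_out_le_fam hit hΦ hε (h.okLd hΦ hε) hZl rfl he' hc' (h.okZ0 hΦ hε)
      (h.okZ0e hΦ hε) (h.okZ0c' hΦ hε) hK hT hs hlk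

end E6Hyp

end

end Crest.Agent.R122.E6Hyp879
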