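import Crest.Agent.R122.NDE_811

/-!
# The deterministic facts of E6 for the real cluster (row 122), helper811

* `nd_fam` : `ND` from `FamNL` with arbitrary labels.
* `RealHit` : the world `w₂ + A + d (+ e)` is real, the lines `F` of the cluster `A`, `e` meets first
  the root line.
* `RealHit.one`, `RealHit.rev` : the one-contact inequality and its single time reverse form for the
  real cluster.
* `E6Hyp.facts_real` : `E6FactsA` for the real cluster.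
-/

set_option autoImplicit false
set_option linter.unusedSectionVars false

open MeasureTheory Set Filter Topology
open scoped ENNReal
open Crest.AnalysisR.Kinetic
open Crest.Agent.R122.Flow671 Crest.Agent.R122.Loc45 Crest.Agent.R122.Ins45
open Crest.Agent.R122.Causal291 Crest.Agent.R122.Inf879 Crest.Agent.R122.EDefs602
open Crest.Agent.R122.Lines255 Crest.Agent.R122.MWAlg255 Crest.Agent.R122.Decomp811
open Crest.Agent.R122.MWFam255 (FamNL)
open Crest.Agent.R122.E6Hyp879 (E6Hyp plus)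

namespace Crest.Agent.R122.RealL811

noncomputable section

open scoped Classical

section ndf

variable {α ι κ' : Type} [Fintype α] [Fintype ι] [Fintype κ'] {Φ : Space3 → ℝ}
  {ε T s v t : ℝ} {K : ℕ} {L W : MW α} {Z : MW ι} {ls : κ' → ML}
  {φ : ι ⊕ κ' ≃ α} {D : Set α}

/-- **No double lines from pairwise absence of links**, arbitrary labels. -/
theorem nd_fam (hΦ : AdmissiblePotential Φ) (hε : 0 < ε) (h : FamNL Φ ε K T Z ls s)
    (hφ : L.comap φ = Z.add (MW.lines ls)) (hR : RL Φ ε K W L D v) (hsv : s ≤ v)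
    (hD : ∀ x ∈ D, φ.symm x ∈ range Sum.inr)
    (hm : ∀ x ∈ D, L.b x ≤ v → msize (W.C Φ ε) W.m (L.b x) x = L.m x)
    (ht0 : 0 ≤ t) (ht : t ≤ s) : ND Φ ε K W L D t := by
  have key : ∀ (t : ℝ) (x : α), (BC ((Z.add (MW.lines ls)).C Φ ε) t (φ.symm x) ∩
      range Sum.inr).Subsingleton → (BC (L.C Φ ε) t x ∩ D).Subsingleton := by
    rintro t x hu j ⟨hj, hjD⟩ j' ⟨hj', hjD'⟩
    have h1 : ∀ j, j ∈ BC (L.C Φ ε) t x →
        φ.symm j ∈ BC ((Z.add (MW.lines ls)).C Φ ε) t (φ.symm x) := by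
      intro j hj
      have h1 := EquivE416.past_comap hΦ hε L φ (t := t) (s := 0)
        (i := φ.symm x) (k := φ.symm j)
      rw [hφ, Equiv.apply_symm_apply, Equiv.apply_symm_apply] at h1
      exact h1.2 hj
    exact φ.symm.injective (hu ⟨h1 _ hj, hD j hjD⟩ ⟨h1 _ hj', hD j' hjD'⟩)
  intro i hi hcl
  refine key t i (MWFam255.past_unique hΦ hε h ht0 ht ?_)
  intro v' y hp hv0 r hr hrv hI
  have hrs : r < s := (hrv.trans_le hp.le).trans_le ht
  have hy1 : L.Inf Φ ε K r (φ y) := by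
    have h0 := MWAlg255.Inf_comap hΦ hε K L φ r y
    rw [hφ] at h0
    exact h0.1 hI
  have hreal : W.Inf Φ ε K r (φ y) := (hR.inf_iff hΦ hε hm (hrs.le.trans hsv)
    fun _ _ => key r _ (MWFam255.past_unique_lt hΦ hε h hr hrs _)).2 hy1
  have hvis : φ y ∈ D → L.b (φ y) ≤ r := hR.born_of_inf hΦ hε (hrs.le.trans hsv) hy1
  have hp' : Past (L.C Φ ε) t i r (φ y) := by
    have h1 := EquivE416.past_comap hΦ hε L φ (t := t) (s := r) (i := φ.symm i) (k := y)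
    rw [hφ, Equiv.apply_symm_apply] at h1
    exact h1.1 (hp.mono hrv.le)
  have hpast : Past (W.C Φ ε) t i r (φ y) := hR.past_real hΦ hε (ht.trans hsv) hi hp' hvis
  exact hcl (Infd.of_past hpast hreal)

end ndf

/-! ### Insertion of a line in both worlds -/

theorem compat_ins {α : Type} [Fintype α] {Φ : Space3 → ℝ} {ε : ℝ} (hΦ : AdmissiblePotential Φ)
    (hε : 0 < ε) {W W' : MW α} {D : Set α} (e : ML) (hz : ∀ x, x ∉ D → W'.z x = W.z x) :
    Compat (W.path Φ ε) (W'.path Φ ε) ((W.ins e).path Φ ε) ((W'.ins e).path Φ ε)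
      (id : α → α) Sum.inl D ((Sum.inl : α → α ⊕ Unit) '' D) W'.b (W'.ins e).b where
  mem_iff k := by
    constructor
    · exact fun hk => ⟨k, hk, rfl⟩
    · rintro ⟨x, hx, hxk⟩
      exact Sum.inl_injective hxk ▸ hx
  exit k _ := rfl
  new₁ j _ hj := absurd ⟨j, rfl⟩ hj
  new₂ j hj hj' := by
    obtain ⟨x, _, rfl⟩ := hj
    exact absurd ⟨_, rfl⟩ hj'
  out₁ k hk := by
    rw [MW.path_zero hΦ hε, MW.path_zero hΦ hε]
    exact hz k hk
  out₂ k hk := by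
    rw [MW.path_zero hΦ hε, MW.path_zero hΦ hε]
    exact hz k fun hk' => hk ⟨k, hk', rfl⟩
  fam k _ := by
    rw [MW.path_zero hΦ hε, MW.path_zero hΦ hε]
    rfl
  fam' k _ := by
    rw [MW.path_zero hΦ hε, MW.path_zero hΦ hε]
    rfl

/-! ### The real cluster -/

section real

variable {ι κ : Type} [Fintype ι] [Fintype κ] {Φ : Space3 → ℝ} {ε T v s s₁ s₁' : ℝ} {K : ℕ}
  {w₂ : MW ι} {A : MW κ} {F : κ → ML} {r : κ} {d e e' c' : ML}

/-- The lines `F` in the world `w₂ + F + d`. -/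
def DF (ι κ : Type) : Set ((ι ⊕ κ) ⊕ Unit) := range fun k : κ => Sum.inl (Sum.inr k)

theorem mem_DF {x : (ι ⊕ κ) ⊕ Unit} : x ∈ DF ι κ ↔ ∃ k, Sum.inl (Sum.inr k) = x := Iff.rfl

/-- The real world `w₂ + A + d (+ e)` and the world with lines; `e` meets first the root line. -/
structure RealHit (Φ : Space3 → ℝ) (ε : ℝ) (K : ℕ) (v : ℝ) (w₂ : MW ι) (A : MW κ) (F : κ → ML)
    (r : κ) (d e e' c' : ML) (s₁ s₁' : ℝ) : Prop where
  hit : Hit Φ ε ((w₂.add (MW.lines F)).ins d) e (Sum.inl (Sum.inr r)) s₁ s₁'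
  out_e : e' = outL Φ ε ((w₂.add (MW.lines F)).ins d) e (Sum.inl (Sum.inr r)) s₁'
  out_c : c' = outC Φ ε ((w₂.add (MW.lines F)).ins d) e (Sum.inl (Sum.inr r)) s₁'
  hK : e.2 + (F r).2 ≤ K
  rl₁ : RL Φ ε K ((w₂.add A).ins d) ((w₂.add (MW.lines F)).ins d) (DF ι κ) v
  rl₂ : RL Φ ε K (((w₂.add A).ins d).ins e) (((w₂.add (MW.lines F)).ins d).ins e)
    ((Sum.inl : (ι ⊕ κ) ⊕ Unit → _) '' DF ι κ) v
  m₁ : ∀ x ∈ DF ι κ, ((w₂.add (MW.lines F)).ins d).b x ≤ v →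
    msize (((w₂.add A).ins d).C Φ ε) ((w₂.add A).ins d).m
      (((w₂.add (MW.lines F)).ins d).b x) x = ((w₂.add (MW.lines F)).ins d).m x
  m₂ : ∀ x ∈ (Sum.inl : (ι ⊕ κ) ⊕ Unit → _) '' DF ι κ,
    (((w₂.add (MW.lines F)).ins d).ins e).b x ≤ v →
    msize ((((w₂.add A).ins d).ins e).C Φ ε) (((w₂.add A).ins d).ins e).m
      ((((w₂.add (MW.lines F)).ins d).ins e).b x) x = (((w₂.add (MW.lines F)).ins d).ins e).m x

/-- Labels of `w₂ + F + d`. -/
def phi1 (ι κ : Type) : (ι ⊕ Unit) ⊕ κ ≃ (ι ⊕ κ) ⊕ Unit where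
  toFun := Sum.elim (Sum.elim (fun i => Sum.inl (Sum.inl i)) Sum.inr) fun k => Sum.inl (Sum.inr k)
  invFun := Sum.elim (Sum.elim (fun i => Sum.inl (Sum.inl i)) Sum.inr) fun u => Sum.inl (Sum.inr u)
  left_inv := by rintro ((i | u) | k) <;> rfl
  right_inv := by rintro ((i | k) | u) <;> rfl

theorem comap_phi1 (w₂ : MW ι) (F : κ → ML) (d : ML) :
    ((w₂.add (MW.lines F)).ins d).comap (phi1 ι κ) = (w₂.ins d).add (MW.lines F) := by
  unfold MW.ins MW.add MW.comap MW.line MW.lines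
  congr 1 <;> · funext x; rcases x with (x | x) | x <;> rfl

/-- Labels of the world after the encounter. -/
def phi2 (ι κ : Type) (r : κ) :
    (ι ⊕ Unit) ⊕ ({k : κ // k ≠ r} ⊕ Bool) ≃ ((ι ⊕ κ) ⊕ Unit) ⊕ Unit where
  toFun := Sum.elim (Sum.elim (fun i => Sum.inl (Sum.inl (Sum.inl i))) fun u => Sum.inl (Sum.inr u))
    (Sum.elim (fun k => Sum.inl (Sum.inl (Sum.inr k.1)))
      fun b => cond b (Sum.inr ()) (Sum.inl (Sum.inl (Sum.inr r))))
  invFun := Sum.elim (Sum.elim (Sum.elim (fun i => Sum.inl (Sum.inl i))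
    (fun k => if hk : k = r then Sum.inr (Sum.inr false) else Sum.inr (Sum.inl ⟨k, hk⟩)))
      fun u => Sum.inl (Sum.inr u)) fun _ => Sum.inr (Sum.inr true)
  left_inv := by
    rintro ((i | u) | (⟨k, hk⟩ | b))
    · rfl
    · rfl
    · simp [hk]
    · cases b
      · simp
      · rfl
  right_inv := by
    rintro (((i | k) | u) | u)
    · rfl
    · by_cases hk : k = r
      · simp [hk]
      · simp [hk]
    · rfl
    · rfl

namespace RealHit

variable (h : RealHit Φ ε K v w₂ A F r d e e' c' s₁ s₁')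
  (hΦ : AdmissiblePotential Φ) (hε : 0 < ε)

include h hΦ hε in
/-- The world after the encounter. -/
theorem comap_phi2 : (encW Φ ε ((w₂.add (MW.lines F)).ins d) e (Sum.inl (Sum.inr r)) s₁').comap
    (phi2 ι κ r) = (w₂.ins d).add (MW.lines (plus (exF F r) e' c')) := by
  have h1 := OneRev291.comap_phi (a := famE ι κ r) h.hit hΦ hε h.rl₁.ok' h.rl₂.ok'
    (rest_fam w₂ F r d)
  let ψ : (ι ⊕ Unit) ⊕ ({k : κ // k ≠ r} ⊕ Bool) →
      (((ι ⊕ Unit) ⊕ {k : κ // k ≠ r}) ⊕ Unit) ⊕ Unit :=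
    Sum.elim (fun x => Sum.inl (Sum.inl (Sum.inl x)))
      (Sum.elim (fun k => Sum.inl (Sum.inl (Sum.inr k)))
        fun b => cond b (Sum.inl (Sum.inr ())) (Sum.inr ()))
  have h2 : (phi2 ι κ r : (ι ⊕ Unit) ⊕ ({k : κ // k ≠ r} ⊕ Bool) → ((ι ⊕ κ) ⊕ Unit) ⊕ Unit) =
      OneRev291.phi (famE ι κ r) ∘ ψ := by
    funext x
    rcases x with (i | u) | (k | b)
    · rfl
    · rfl
    · rfl
    · cases b <;> rfl
  rw [h2, ← OneRev291.comap_comap', h1]
  unfold OneRev291.WW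
  rw [← h.out_e, ← h.out_c]
  unfold MW.ins MW.add MW.comap MW.line MW.lines
  congr 1 <;> · funext x; rcases x with (i | u) | (k | (_ | _)) <;> rfl

include h hΦ hε in
/-- **The one-contact inequality for the real cluster** (horizon `T ≤ v`). -/
theorem one {T : ℝ} (hT : T ≤ v) (hR : (Z0 w₂ F r d).Ok Φ ε)
    (hRl : ((Z0 w₂ F r d).ins e').Ok Φ ε) (hz : ∀ x, x ∉ DF ι κ →
      ((w₂.add (MW.lines F)).ins d).z x = ((w₂.add A).ins d).z x) :
    min ((Z0 w₂ F r d).thetaL Φ ε K T (F r)) (min ((Z0 w₂ F r d).thetaL Φ ε K T e')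
      (((Z0 w₂ F r d).ins e').thetaL Φ ε K T c')) ≤ ((w₂.add A).ins d).thetaL Φ ε K T e := by
  have h1 : min ((Z0 w₂ F r d).thetaL Φ ε K T (F r)) (min ((Z0 w₂ F r d).thetaL Φ ε K T e')
      (((Z0 w₂ F r d).ins e').thetaL Φ ε K T c')) ≤
        ((w₂.add (MW.lines F)).ins d).thetaL Φ ε K T e := by
    have e1 := h.out_e
    have e2 := h.out_c
    subst e1 e2
    exact h.hit.one_fam hΦ hε h.rl₁.ok' h.rl₂.ok' rfl hR hRl h.hK T
  refine h1.trans (CausalGen291.theta_le_theta fun t ht htc => ?_)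
  exact touched_lines hΦ hε h.rl₁ h.rl₂ (compat_ins hΦ hε e hz) (ht.2.trans hT) htc

include h hΦ hε in
/-- **The reverse inequality for the real cluster**, single time form. -/
theorem rev {T : ℝ} (hT : 0 ≤ T) (hTv : T ≤ v) (hE : E6Hyp Φ ε K T w₂ F r d e' c')
    (hz : ∀ x, x ∉ DF ι κ → ((w₂.add (MW.lines F)).ins d).z x = ((w₂.add A).ins d).z x)
    {s : ℝ} (hs0 : 0 ≤ s) (hsT : s ≤ T) (hEx : s ≤ firstT Φ ε K T (w₂.ins d) (exF F r))
    (he : s ≤ (w₂.ins d).thetaL Φ ε K T e') (hc : s ≤ (w₂.ins d).thetaL Φ ε K T c')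
    (hs : (Z0 w₂ F r d).thetaL Φ ε K T e' ≤ s ∨ (Z0 w₂ F r d).thetaL Φ ε K T c' ≤ s) :
    ((w₂.add A).ins d).thetaL Φ ε K T e ≤ s ∨ (Z0 w₂ F r d).thetaL Φ ε K T (F r) ≤ s := by
  have hlk := hE.not_link_Z0 hΦ hε hs0 hsT hEx he hc
  rcases le_or_gt ((Z0 w₂ F r d).thetaL Φ ε K T (F r)) s with h0 | h0
  · exact Or.inr h0
  left
  have h1 := (OneRev291.le_of_out_le_fam h.hit hΦ hε h.rl₁.ok' h.rl₂.ok' rfl h.out_e h.out_c
    (hE.okZ0 hΦ hε) (hE.okZ0e hΦ hε) (hE.okZ0c' hΦ hε) h.hK hT hs hlk).resolve_right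
      (not_le.2 h0)
  -- the single line `F r` in `w₂ + d` has not touched before `s`
  have hbc : s ≤ (w₂.ins d).thetaL Φ ε K T (F r) := by
    by_contra hlt
    push Not at hlt
    have hE' : (w₂.ins d).thetaL Φ ε K T (F r) ≤
        (w₂.ins d).theta Φ ε K T (MW.lines (exF F r)) := by
      rw [hE.uE_eq hΦ hε hT]
      exact hlt.le.trans hEx
    have h2 := (hE.w_Ec hΦ hε hT).eq hE'
    have h3 : (Z0 w₂ F r d).thetaL Φ ε K T (F r) = (w₂.ins d).thetaL Φ ε K T (F r) := h2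
    rw [h3] at h0
    exact absurd h0 (not_lt.2 hlt.le)
  have hf1 : FamNL Φ ε K T (w₂.ins d) F s :=
    MWFam255.famNL_of_pair (hE.okE hΦ hε) hE.nl₁ hs0 hsT fun k => by
      by_cases hk : k = r
      · rw [hk]
        exact hbc
      · exact hEx.trans (firstT_le Φ ε K T (w₂.ins d) (exF F r) ⟨k, hk⟩)
  have hf2 : FamNL Φ ε K T (w₂.ins d) (plus (exF F r) e' c') s :=
    MWFam255.famNL_of_pair hE.ok₂ hE.nl₂ hs0 hsT fun k => by
      rcases k with k | b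
      · exact hEx.trans (firstT_le Φ ε K T (w₂.ins d) (exF F r) k)
      · cases b
        · exact hc
        · exact he
  have hT1 : ((w₂.add (MW.lines F)).ins d).Touched Φ ε K (MW.line e) s :=
    (MW.touched_iff hΦ hε h.rl₁.ok' h.rl₂.ok' ⟨hs0, hsT⟩).2 h1
  have hsv : s ≤ v := hsT.trans hTv
  have hN₁ : ND Φ ε K ((w₂.add A).ins d) ((w₂.add (MW.lines F)).ins d) (DF ι κ) s :=
    nd_fam hΦ hε hf1 (comap_phi1 w₂ F d) h.rl₁ hsv (by
      rintro _ ⟨k, rfl⟩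
      exact ⟨k, rfl⟩) h.m₁ hs0 le_rfl
  have hN₂ : ND Φ ε K (((w₂.add A).ins d).ins e) (((w₂.add (MW.lines F)).ins d).ins e)
      ((Sum.inl : (ι ⊕ κ) ⊕ Unit → _) '' DF ι κ) s := by
    have hrt : ∀ k, (phi2 ι κ r).symm (Sum.inl (Sum.inl (Sum.inr k))) ∈
        range (Sum.inr : {k : κ // k ≠ r} ⊕ Bool → _) := by
      intro k
      by_cases hk : k = r
      · exact ⟨Sum.inr false, by simp [phi2, hk]⟩
      · exact ⟨Sum.inl ⟨k, hk⟩, by simp [phi2, hk]⟩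
    refine nde h.hit hΦ hε h.rl₁.ok' h.rl₂.ok' h.hK hf2 (h.comap_phi2 hΦ hε) ?_ h.rl₂ hsv ?_ ?_
      h.m₂ hs0 le_rfl
    · rintro x (rfl | rfl)
      · exact ⟨Sum.inr true, rfl⟩
      · exact hrt r
    · rintro _ ⟨_, ⟨k, rfl⟩, rfl⟩
      exact hrt k
    · rintro _ ⟨_, ⟨k, rfl⟩, rfl⟩ hk
      exact congrArg Sum.inl (inl_mem_encD.1 hk)
  have hT2 : ((w₂.add A).ins d).Touched Φ ε K (MW.line e) s :=
    (touched_lines_iff hΦ hε h.rl₁ h.rl₂ (compat_ins hΦ hε e hz) hsv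
      (fun x => h.rl₁.inf_iff hΦ hε h.m₁ hsv (hN₁ x))
      (fun x => h.rl₂.inf_iff hΦ hε h.m₂ hsv (hN₂ x))).2 hT1
  exact (MW.touched_iff hΦ hε h.rl₁.ok h.rl₂.ok ⟨hs0, hsT⟩).1 hT2

end RealHit

/-- **The facts of E6 for the real cluster.** -/
theorem facts_real {T : ℝ} (h : RealHit Φ ε K v w₂ A F r d e e' c' s₁ s₁')
    (hΦ : AdmissiblePotential Φ) (hε : 0 < ε) (hT : 0 ≤ T) (hTv : T ≤ v)
    (hE : E6Hyp Φ ε K T w₂ F r d e' c')
    (hz : ∀ x, x ∉ DF ι κ → ((w₂.add (MW.lines F)).ins d).z x = ((w₂.add A).ins d).z x)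
    (w_Ld : W1 (firstT Φ ε K T w₂ F) (w₂.thetaL Φ ε K T d) ((w₂.add A).thetaL Φ ε K T d)) :
    E6FactsA Φ ε K T w₂ A F r d e e' c' where
  w_Ld := w_Ld
  w_dk := hE.w_dk hΦ hε hT
  w_Ec := hE.w_Ec hΦ hε hT
  w_Ee := hE.w_Ee hΦ hε hT
  w_Ec' := hE.w_Ec' hΦ hε hT
  w_ec' := hE.w_ec' hΦ hε hT
  fE := (hE.uE_eq hΦ hε hT).ge
  one := h.one hΦ hε hTv (hE.okZ0 hΦ hε) (hE.okZ0e hΦ hε) hz
  re h1 h2 := by
    rcases MW.theta_le_or (K := K) (T := T) hΦ hε (hE.okZ0 hΦ hε) (hE.okZ0e hΦ hε) with h3 | h3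
    · have h4 : (Z0 w₂ F r d).thetaL Φ ε K T e' ≤
          (w₂.ins d).theta Φ ε K T (MW.lines (exF F r)) := by
        rw [hE.uE_eq hΦ hε hT]
        exact h1
      have h5 : (w₂.ins d).thetaL Φ ε K T e' = (Z0 w₂ F r d).thetaL Φ ε K T e' := by
        have h6 := (hE.w_Ee hΦ hε hT).le_of_le h4
        exact ((hE.w_Ee hΦ hε hT).eq (h6.trans h4)).symm
      exact min_le_iff.2 (h.rev hΦ hε hT hTv hE hz (MW.theta_nonneg hT) h3 h1 h5.ge h2
        (Or.inl le_rfl))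
    · have h4 : (Z0 w₂ F r d).thetaL Φ ε K T e' = T + 1 := h3
      rw [h4]
      exact (min_le_left _ _).trans MW.theta_le
  rc' h1 h2 := by
    rcases MW.theta_le_or (K := K) (T := T) hΦ hε (hE.okZ0 hΦ hε) (hE.okZ0c' hΦ hε) with h3 | h3
    · have h4 : (Z0 w₂ F r d).thetaL Φ ε K T c' ≤
          (w₂.ins d).theta Φ ε K T (MW.lines (exF F r)) := by
        rw [hE.uE_eq hΦ hε hT]
        exact h1
      have h5 : (w₂.ins d).thetaL Φ ε K T c' = (Z0 w₂ F r d).thetaL Φ ε K T c' := by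
        have h6 := (hE.w_Ec' hΦ hε hT).le_of_le h4
        exact ((hE.w_Ec' hΦ hε hT).eq (h6.trans h4)).symm
      exact min_le_iff.2 (h.rev hΦ hε hT hTv hE hz (MW.theta_nonneg hT) h3 h1 h2 h5.ge
        (Or.inr le_rfl))
    · have h4 : (Z0 w₂ F r d).thetaL Φ ε K T c' = T + 1 := h3
      rw [h4]
      exact (min_le_left _ _).trans MW.theta_le

end real

end

end Crest.Agent.R122.RealL811
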