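import Crest.Agent.R122.TopDefs_602

/-!
# Row 122: the top skeleton

`ih_of_steps` : induction over windows.
`result_of_steps` : the statement of S0162 from `EStep`, `FStep`, `FinStep`.
-/

set_option autoImplicit false

open MeasureTheory Set Filter Topology
open scoped ENNReal
open Crest.AnalysisR.Kinetic
open Crest.Agent.R122.Master566 Crest.Agent.R122.EDefs602 Crest.Agent.R122.GIV566

namespace Crest.Agent.R122.Top602

noncomputable section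

section base

variable {Φ : Space3 → ℝ} {β T : ℝ} {f₀ : PhasePoint → ℝ} {f : ℝ → PhasePoint → ℝ} {γ : ℝ → ℝ}
  {ρ : ℝ≥0∞}

/-- `JSup` at time `0`. -/
theorem JSup_zero (hΦ : AdmissiblePotential Φ) : JSup Φ f₀ 0 := by
  intro δ _
  refine ⟨1, fun K hK => ⟨1, one_pos, fun ε hε _ => ?_⟩⟩
  refine iSup₂_le fun s hs => ?_
  have h0 : s = 0 := le_antisymm hs.2 hs.1
  subst h0
  exact (EBasic602.JE_zero hΦ hε hK).le.trans zero_le

theorem JSup.mono {t t' : ℝ} (h : t ≤ t') (ht : JSup Φ f₀ t') : JSup Φ f₀ t :=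
  Small.mono ht fun _ _ _ => iSup₂_le fun s hs =>
    le_iSup₂_of_le (f := fun (s : ℝ) (_ : s ∈ Icc 0 t') => JE Φ f₀ _ _ s) s
      ⟨hs.1, hs.2.trans h⟩ le_rfl

theorem JSup.je {s t : ℝ} (ht : JSup Φ f₀ t) (hs : s ∈ Icc 0 t) : JS Φ f₀ s :=
  Small.mono ht fun _ _ _ =>
    le_iSup₂_of_le (f := fun (s : ℝ) (_ : s ∈ Icc 0 t) => JE Φ f₀ _ _ s) s hs le_rfl

/-- The base case. -/
theorem IH_zero (hD : KData Φ β T f₀ f) : IH Φ f₀ f T γ ρ 0 :=
  ⟨JSup_zero hD.adm, EBasic602.TN_zero, GIV_zero hD⟩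

/-- Induction over windows. -/
theorem ih_of_steps (hD : KData Φ β T f₀ f) (hE : EStep Φ f₀ f T γ ρ)
    (hF : FStep Φ f₀ f T γ ρ) : IH Φ f₀ f T γ ρ T := by
  obtain ⟨h₁, hh₁, hE⟩ := hE
  obtain ⟨h₂, hh₂, hF⟩ := hF
  set h := min h₁ h₂ with hh
  have hpos : 0 < h := lt_min hh₁ hh₂
  have hT := hD.T_pos
  have step : ∀ tw te : ℝ, Win h T tw te → IH Φ f₀ f T γ ρ tw → IH Φ f₀ f T γ ρ te := by
    intro tw te hw hI
    have w₁ : Win h₁ T tw te := ⟨hw.nonneg, hw.le, hw.le_T,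
      hw.short.trans (by linarith [min_le_left h₁ h₂])⟩
    have w₂ : Win h₂ T tw te := ⟨hw.nonneg, hw.le, hw.le_T,
      hw.short.trans (by linarith [min_le_right h₁ h₂])⟩
    obtain ⟨h1, h2⟩ := hE tw te w₁ hI
    exact ⟨h1, h2, hF tw te w₂ hI h1 h2⟩
  obtain ⟨N, hN⟩ := exists_nat_gt (T / h)
  have key : ∀ m : ℕ, IH Φ f₀ f T γ ρ (min (m * h) T) := by
    intro m
    induction m with
    | zero =>
      have : min ((0 : ℕ) * h) T = 0 := by simp [hT.le]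
      rw [this]
      exact IH_zero hD
    | succ m ih =>
      refine step _ _ ⟨le_min (by positivity) hT.le, ?_, min_le_right _ _, ?_⟩ ih
      · refine min_le_min_right _ ?_
        push_cast
        nlinarith
      · rcases le_total (m * h) T with h1 | h1
        · rw [min_eq_left h1]
          refine (min_le_left _ _).trans ?_
          push_cast
          linarith
        · rw [min_eq_right h1]
          exact (min_le_right _ _).trans (by linarith)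
  have h3 := key N
  rwa [min_eq_right] at h3
  rw [div_lt_iff₀ hpos] at hN
  exact hN.le

end base

/-- **The statement of S0162 from the three steps.** -/
theorem result_of_steps
    (H : ∀ (Φ : Space3 → ℝ) (β T : ℝ) (f₀ : PhasePoint → ℝ) (f : ℝ → PhasePoint → ℝ),
      KData Φ β T f₀ f → ∃ (γ : ℝ → ℝ) (ρ : ℝ≥0∞),
        EStep Φ f₀ f T γ ρ ∧ FStep Φ f₀ f T γ ρ ∧ FinStep Φ f₀ f T γ ρ)
    (Φ : Space3 → ℝ) (hΦ : AdmissiblePotential Φ) (β : ℝ) (hβ : 0 < β) (T : ℝ) (hT : 0 < T)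
    (f₀ : PhasePoint → ℝ) (hf₀ : ∀ z, 0 ≤ f₀ z) (hf₀d : ContDiff ℝ 1 f₀)
    (hf₀i : Integrable f₀) (hf₀m : ∫ z, f₀ z = 1)
    (hf₀b : HasSummableGaussianBound (2 * β) (fun x v => f₀ (x, v)))
    (hf₀g : HasSummableGaussianBound (2 * β) (fun x v => fderiv ℝ (fun y => f₀ (y, v)) x))
    (f : ℝ → PhasePoint → ℝ) (hf : IsRegularKineticSolution Φ β T f₀ f)
    (Ψ : ℝ → (n : ℕ) → ℝ → Config n → Config n)
    (hΨ : ∀ ε : ℝ, 0 < ε → IsNewtonianEvolution Φ ε (Ψ ε))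
    (s : ℕ) (hs : 1 ≤ s) (δ : ℝ) (hδ : 0 < δ) :
    ∃ ε₀ : ℝ, 0 < ε₀ ∧ ∀ ε : ℝ, 0 < ε → ε < ε₀ → ∀ t ∈ Set.Icc 0 T,
      ∀ A : Set (Config s), MeasurableSet A →
        factorialMarginal f₀ ε (Ψ ε) s t A ≤
            (∫⁻ Z in A, ∏ k, ENNReal.ofReal (f t (Z k))) + ENNReal.ofReal δ ∧
          (∫⁻ Z in A, ∏ k, ENNReal.ofReal (f t (Z k))) ≤
            factorialMarginal f₀ ε (Ψ ε) s t A + ENNReal.ofReal δ := by
  have hD : KData Φ β T f₀ f := ⟨hΦ, hβ, hT, hf₀, hf₀d, hf₀i, hf₀m, hf₀b, hf₀g, hf⟩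
  obtain ⟨γ, ρ, hE, hF, hFin⟩ := H Φ β T f₀ f hD
  have hI := ih_of_steps hD hE hF
  have hL : FM167.LowerTV f₀ f T Ψ s := lowerTV_congr hΦ hΨ (hFin hI s hs)
  exact FM167.conclusion_of_lowerTV Φ β T f₀ hf₀ hf₀d hf₀i hf₀m f hf Ψ hΨ s hL δ hδ

end

end Crest.Agent.R122.Top602
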