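import Crest.Agent.R122.EMDefs_602
import Crest.Agent.R122.UnwSup_984
import Crest.Agent.R122.Fin_410

/-!
# Row 122: closing of section E (helper602)

`eStep_of_ineqs` : the window step `EStep` from the three inequalities.
-/

set_option autoImplicit false

open MeasureTheory Set Filter Topology
open scoped ENNReal
open Crest.AnalysisR.Kinetic
open Crest.Agent.R122.Master566 Crest.Agent.R122.EDefs602 Crest.Agent.R122.GIV566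
open Crest.Agent.R122.Unw410

namespace Crest.Agent.R122.Top602

noncomputable section

variable {Φ : Space3 → ℝ} {β T : ℝ} {f₀ : PhasePoint → ℝ} {f : ℝ → PhasePoint → ℝ} {γ : ℝ → ℝ}
  {ρ : ℝ≥0∞}

theorem pGood_epar {g1 : ℝ} {r1 : ℝ≥0∞} (hl : LinePar g1 r1 T γ ρ) {L tw te : ℝ} (hL : 0 ≤ L)
    (h0 : 0 ≤ tw) (h1 : tw ≤ te) (h2 : te ≤ T) : PGood (epar γ ρ L tw te) := by
  obtain ⟨γ₀, hγ0, hγ⟩ := hl.lower
  exact ⟨hL, h0, h1, hl.measurable, hl.hi, γ₀, hγ0, fun τ hτ => hγ τ (hτ.2.trans h2)⟩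

/-- the arithmetic of the closing -/
theorem cols {tau C β' α o1 o2 s : ℝ≥0∞} (hτ : tau ≤ 8⁻¹) (h1 : o1 ≤ 8⁻¹) (h1' : o1 ≤ α * 8⁻¹)
    (hα : α * C ≤ 8⁻¹) (h2 : o2 ≤ 8⁻¹) (h3 : β' * s ≤ 8⁻¹) (h3' : β' * s ≤ α * 8⁻¹)
    {C' : ℝ≥0∞} (hC' : C' ≤ β' * 4⁻¹) (hs : s ≤ 4⁻¹) :
    ((tau + o1) + α * C + β' * s ≤ 1 / 2) ∧ (o1 + α * o2 + β' * s ≤ α / 2) ∧
      (C' + α * 0 + β' * s ≤ β' / 2) := by
  have e8 : (8⁻¹ : ℝ≥0∞) + 8⁻¹ = 4⁻¹ := by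
    rw [← two_mul, show (8 : ℝ≥0∞) = 2 * 4 by norm_num, ENNReal.mul_inv (by norm_num) (by norm_num),
      ← mul_assoc, ENNReal.mul_inv_cancel (by norm_num) (by norm_num), one_mul]
  have e4 : (4⁻¹ : ℝ≥0∞) + 4⁻¹ = 1 / 2 := by
    rw [← two_mul, show (4 : ℝ≥0∞) = 2 * 2 by norm_num, ENNReal.mul_inv (by norm_num) (by norm_num),
      ← mul_assoc, ENNReal.mul_inv_cancel (by norm_num) (by norm_num), one_mul, one_div]
  refine ⟨?_, ?_, ?_⟩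
  · calc (tau + o1) + α * C + β' * s ≤ (8⁻¹ + 8⁻¹) + 8⁻¹ + 8⁻¹ := by gcongr
      _ = (8⁻¹ + 8⁻¹) + (8⁻¹ + 8⁻¹) := by ring
      _ = 1 / 2 := by rw [e8, e4]
  · calc o1 + α * o2 + β' * s ≤ α * 8⁻¹ + α * 8⁻¹ + α * 8⁻¹ := by gcongr
      _ ≤ α * 8⁻¹ + α * 8⁻¹ + α * 8⁻¹ + α * 8⁻¹ := le_self_add
      _ = α * ((8⁻¹ + 8⁻¹) + (8⁻¹ + 8⁻¹)) := by ring
      _ = α / 2 := by rw [e8, e4, mul_div, mul_one]
  · calc C' + α * 0 + β' * s ≤ β' * 4⁻¹ + 0 + β' * 4⁻¹ := by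
          rw [mul_zero]
          gcongr
      _ = β' * (4⁻¹ + 4⁻¹) := by ring
      _ = β' / 2 := by rw [e4, mul_div, mul_one]

/-- **The window step of section E from the three inequalities.** -/
theorem eStep_of_ineqs (hD : KData Φ β T f₀ f) {g1 : ℝ} {r1 : ℝ≥0∞} (hl : LinePar g1 r1 T γ ρ)
    {PM : PMass} (hI1 : Ineq1 Φ f₀ f T γ ρ PM) (hI2 : Ineq2 Φ f₀ f T γ ρ)
    (hI3 : Ineq3 Φ f₀ f T γ ρ PM) (hF : FinPM Φ f₀ f T γ ρ PM) : EStep Φ f₀ f T γ ρ := by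
  -- the constants
  obtain ⟨τ, hτ, hI1⟩ := hI1
  have h8 : (0 : ℝ≥0∞) < 8⁻¹ := by simp
  obtain ⟨m, hm⟩ : ∃ m, τ m ≤ 8⁻¹ := ((hτ.eventually (gt_mem_nhds h8)).exists).imp fun _ h => h.le
  obtain ⟨C1, hC1, o1, ho1, hI1⟩ := hI1 m
  obtain ⟨C2, hC2, o2, ho2, hI2⟩ := hI2
  have hC2' : C2 + 1 ≠ ∞ := by simpa using hC2
  set α : ℝ≥0∞ := (8 * (C2 + 1))⁻¹ with hα
  have hα0 : α ≠ 0 := by
    rw [hα, Ne, ENNReal.inv_eq_zero]
    exact ENNReal.mul_ne_top (by norm_num) hC2'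
  have hαt : α ≠ ∞ := by
    rw [hα, Ne, ENNReal.inv_eq_top]
    simp
  have hαC : α * C2 ≤ 8⁻¹ := by
    rw [hα, ENNReal.mul_inv (by norm_num) (by norm_num)]
    calc 8⁻¹ * (C2 + 1)⁻¹ * C2 ≤ 8⁻¹ * (C2 + 1)⁻¹ * (C2 + 1) := by gcongr; exact le_self_add
      _ = 8⁻¹ := by rw [mul_assoc, ENNReal.inv_mul_cancel (by simp) hC2', mul_one]
  set β' : ℝ≥0∞ := 4 * C1 + 1 with hβ'
  have hβt : β' ≠ ∞ := by
    rw [hβ']
    exact ENNReal.add_ne_top.2 ⟨ENNReal.mul_ne_top (by norm_num) hC1, by norm_num⟩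
  have hβ0 : β' ≠ 0 := by simp [hβ']
  have hC1β : C1 ≤ β' * 4⁻¹ := by
    rw [hβ', add_mul, mul_comm 4 C1, mul_assoc, ENNReal.mul_inv_cancel (by norm_num) (by norm_num),
      mul_one]
    exact le_self_add
  -- the bound for the coefficients of the third inequality
  set η : ℝ≥0∞ := min (8⁻¹ / β') (min (α * 8⁻¹ / β') 4⁻¹) / 2 with hη
  have hη0 : 0 < η := by
    refine ENNReal.div_pos (ne_of_gt ?_) (by norm_num)
    refine lt_min (ENNReal.div_pos h8.ne' hβt) (lt_min (ENNReal.div_pos ?_ hβt) (by simp))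
    exact mul_ne_zero hα0 h8.ne'
  have hs : ∀ s : ℝ≥0∞, s ≤ η + η → β' * s ≤ 8⁻¹ ∧ β' * s ≤ α * 8⁻¹ ∧ s ≤ 4⁻¹ := by
    intro s hs
    have h2 : s ≤ min (8⁻¹ / β') (min (α * 8⁻¹ / β') 4⁻¹) := by
      rwa [hη, ENNReal.add_halves] at hs
    refine ⟨?_, ?_, h2.trans ((min_le_right _ _).trans (min_le_right _ _))⟩
    · calc β' * s ≤ β' * (8⁻¹ / β') := by gcongr; exact h2.trans (min_le_left _ _)
        _ = 8⁻¹ := ENNReal.mul_div_cancel hβ0 hβt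
    · calc β' * s ≤ β' * (α * 8⁻¹ / β') := by
            gcongr
            exact h2.trans ((min_le_right _ _).trans (min_le_left _ _))
        _ = α * 8⁻¹ := ENNReal.mul_div_cancel hβ0 hβt
  obtain ⟨σ, hσ, hI3⟩ := hI3 m
  obtain ⟨r, hr0, hr1, hσr⟩ : ∃ r : ℝ, 0 < r ∧ r ≤ 1 ∧ σ r ≤ η := by
    have h1 : ∀ᶠ r in 𝓝[>] (0 : ℝ), σ r < η := hσ.eventually (gt_mem_nhds hη0)
    have h2 : ∀ᶠ r in 𝓝[>] (0 : ℝ), r ∈ Ioc (0 : ℝ) 1 := Ioc_mem_nhdsGT one_pos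
    obtain ⟨r, h1, h2⟩ := (h1.and h2).exists
    exact ⟨r, h2.1, h2.2, h1.le⟩
  obtain ⟨o3, ho3, hI3⟩ := hI3 r hr0 hr1
  obtain ⟨h₁, hh₁, L₁, hI⟩ := ((hI1.and hI2).and hI3).and (hF m)
  have hηα : 0 < α * 8⁻¹ := pos_iff_ne_zero.2 (mul_ne_zero hα0 h8.ne')
  obtain ⟨ha, ha0, La, hLa⟩ := ho1 (min 8⁻¹ (α * 8⁻¹)) (lt_min h8 hηα)
  obtain ⟨hb, hb0, Lb, hLb⟩ := ho2 8⁻¹ h8
  obtain ⟨hc, hc0, Lc, hLc⟩ := ho3 η hη0
  set h : ℝ := min h₁ (min ha (min hb hc)) with hh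
  have hpos : 0 < h := lt_min hh₁ (lt_min ha0 (lt_min hb0 hc0))
  set L : ℝ := max (max 1 L₁) (max La (max Lb Lc)) with hL
  have hL1 : 1 ≤ L := (le_max_left _ _).trans (le_max_left _ _)
  have hL2 : L₁ ≤ L := (le_max_right _ _).trans (le_max_left _ _)
  have hh1 : h ≤ h₁ := min_le_left _ _
  have k1 := hLa h L hpos ((min_le_right _ _).trans (min_le_left _ _))
    ((le_max_left _ _).trans (le_max_right _ _))
  have k2 := hLb h L hpos ((min_le_right _ _).trans ((min_le_right _ _).trans (min_le_left _ _)))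
    ((le_max_left _ _).trans ((le_max_right _ _).trans (le_max_right _ _)))
  have k3 := hLc h L hpos ((min_le_right _ _).trans ((min_le_right _ _).trans (min_le_right _ _)))
    ((le_max_right _ _).trans ((le_max_right _ _).trans (le_max_right _ _)))
  obtain ⟨s1, s2, s3⟩ := hs (σ r + o3 h L) (add_le_add hσr k3)
  obtain ⟨c1, c2, c3⟩ := cols hm (k1.trans (min_le_left _ _)) (k1.trans (min_le_right _ _)) hαC k2
    s1 s2 hC1β s3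
  refine ⟨h, hpos, fun tw te hw hIH => ?_⟩
  obtain ⟨⟨⟨hi1, hi2⟩, hi3⟩, hi4⟩ := hI h L tw te hpos hh1 hL2 hL1 hw
  obtain ⟨S1, hS1, hE1⟩ := hi1 hIH
  obtain ⟨S2, hS2, hE2⟩ := hi2 hIH
  obtain ⟨S3, hS3, hE3⟩ := hi3 hIH
  have hP : PGood (epar γ ρ L tw te) :=
    pGood_epar hl (zero_le_one.trans hL1) hw.nonneg hw.le hw.le_T
  have hf : Measurable f₀ := hD.contDiff.continuous.measurable
  have hmass : ∫⁻ z, ENNReal.ofReal (f₀ z) ≤ 1 :=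
    (FM167.lintegral_density_eq_one hD.nonneg hD.integrable hD.mass).le
  have hg : 0 < 2 * β := by linarith [hD.beta_pos]
  have hfinX : Ev fun K ε => XI Φ f₀ ε K (epar γ ρ L tw te) ≠ ∞ :=
    (EvK.of_eps one_pos fun K ε hε hε1 =>
      XI_ne_top hD.adm hf hmass hg hD.gaussian hε hε1.le hP).ev
  have hfinA : Ev fun K ε => aE Φ f₀ ε K (epar γ ρ L tw te) ≠ ∞ :=
    Ev.of_forall fun K ε hε => aE_ne_top hf hmass hg hD.gaussian hε hP.L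
  have hfinP := hi4 hIH
  have hSs : Small fun K ε => 2 * (S1 K ε + α * S2 K ε + β' * S3 K ε) :=
    ((hS1.add (hS2.const_mul hαt)).add (hS3.const_mul hβt)).const_mul (by norm_num)
  have key : Ev fun K ε => XI Φ f₀ ε K (epar γ ρ L tw te) +
      α * aE Φ f₀ ε K (epar γ ρ L tw te) + β' * PM m L tw te K ε ≤
        2 * (S1 K ε + α * S2 K ε + β' * S3 K ε) := by
    refine ((((hE1.and hE2).and hE3).and (hfinX.and hfinA)).and hfinP).mono ?_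
    rintro K ε - ⟨⟨⟨⟨h1, h2⟩, h3⟩, hx, ha⟩, hp⟩
    refine column_bound (c11 := τ m + o1 h L) (c12 := o1 h L) (c13 := C1) (c21 := C2)
      (c22 := o2 h L) (c23 := 0) (c31 := σ r + o3 h L) (c32 := σ r + o3 h L)
      (c33 := σ r + o3 h L) hx ha hp hαt hβt h1 ?_ ?_ c1 c2 c3
    · rw [zero_mul, add_zero]
      exact h2
    · rw [← mul_add, ← mul_add]
      exact h3
  have hX : Small fun K ε => XI Φ f₀ ε K (epar γ ρ L tw te) :=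
    hSs.of_ev_le (key.mono fun K ε _ hk => (le_self_add.trans le_self_add).trans hk)
  have hA : Small fun K ε => aE Φ f₀ ε K (epar γ ρ L tw te) := by
    have h1 : Small fun K ε => α * aE Φ f₀ ε K (epar γ ρ L tw te) :=
      hSs.of_ev_le (key.mono fun K ε _ hk => (le_add_self.trans le_self_add).trans hk)
    have h2 := h1.const_mul (ENNReal.inv_ne_top.2 hα0)
    refine h2.mono fun K ε _ => ?_
    rw [← mul_assoc, ENNReal.inv_mul_cancel hα0 hαt, one_mul]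
  exact Unw984.JSup_TN_te hD hP hIH hA hX

/-- **Section E.** -/
theorem eStep_of_eIn (hD : KData Φ β T f₀ f) (h : EIn Φ f₀ f T) :
    ∃ g1 : ℝ, 0 < g1 ∧ ∃ r1 : ℝ≥0∞, r1 < 1 ∧ ∀ (γ : ℝ → ℝ) (ρ : ℝ≥0∞), LinePar g1 r1 T γ ρ →
      EStep Φ f₀ f T γ ρ := by
  obtain ⟨g1, hg, r1, hr, h⟩ := h
  refine ⟨g1, hg, r1, hr, fun γ ρ hl => ?_⟩
  obtain ⟨PM, h1, h2, h3, h4⟩ := h γ ρ hl
  exact eStep_of_ineqs hD hl h1 h2 h3 h4

end

end Crest.Agent.R122.Top602
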