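import Crest.Agent.R122.EInf_879
import Crest.Agent.R122.CausalW1_291
import Crest.Agent.R122.Decomp3E_811

/-!
# World consistency for marked worlds (row 122, section E, E_FINAL (1.5))

* `MW.LINK Φ ε K Z A B s`: the clean link of helper291 between `A` and `B` in `Z` up to and including
  time `s`.
* `MW.four_cohX`, `MW.four_rules`.
* `MW.theta_eq_of_not_link`: `min (θ(Z,B)) (θ(Z+A,B)) ≤ θ(Z,A)`, no link: `θ(Z,B) = θ(Z+A,B)`.
* `MW.W1_of_not_link`: the predicate `W1E` of helper811.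
* `MW.min_theta_le`: `min (θ(Z,A)) (θ(Z+A,B)) ≤ θ(Z,A+B)` (no link needed), for the family
  `A.add B` over the index type `κ₁ ⊕ κ₂`.
-/

set_option autoImplicit false
set_option linter.unusedSectionVars false

open MeasureTheory Set Filter Topology
open scoped ENNReal
open Crest.AnalysisR.Kinetic
open Crest.Agent.R122.Flow671 Crest.Agent.R122.Ins45 Crest.Agent.R122.Causal291
open Crest.Agent.R122.Inf879 Crest.Agent.R122.GC311

namespace Crest.Agent.R122.EDefs602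

namespace MW

variable {ι κ₁ κ₂ : Type} [Fintype ι] [Fintype κ₁] [Fintype κ₂]
variable {Φ : Space3 → ℝ} {ε T s : ℝ} {K : ℕ} {Z : MW ι} {A : MW κ₁} {B : MW κ₂}

/-- Clean link between `A` and `B` in the world `Z` up to and including time `s` (helper291). -/
def LINK (Φ : Space3 → ℝ) (ε : ℝ) (K : ℕ) (Z : MW ι) (A : MW κ₁) (B : MW κ₂) (s : ℝ) : Prop :=
  (four Φ ε Z A B).Link 0 (Z.Inf Φ ε K) ((Z.add A).Inf Φ ε K) ((Z.add B).Inf Φ ε K) s

theorem LINK.mono {s s' : ℝ} (h : Z.LINK Φ ε K A B s) (hs : s ≤ s') : Z.LINK Φ ε K A B s' :=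
  CausalGen291.Four.Link.mono h hs

theorem four_cohX (Φ : Space3 → ℝ) (ε : ℝ) (Z : MW ι) (A : MW κ₁) (B : MW κ₂) (T : ℝ) :
    (four Φ ε Z A B).CohX T where
  cohXL s _ k y h hc := by
    obtain ⟨h1, h2, h3, h4⟩ := hc
    have h' : (Z.add A).path Φ ε s (Sum.inl k) = (Z.add B).path Φ ε s (Sum.inl k) := h
    refine ⟨h1, h2, ?_, ?_⟩
    · rcases h3 with h3 | h3 | h3
      · left
        rcases y with y | y
        · have h5 : (Sum.inl (Sum.inl k) : (ι ⊕ κ₁) ⊕ κ₂) = Sum.inl (Sum.inl y) := h3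
          exact congrArg Sum.inl (Sum.inl_injective (Sum.inl_injective h5))
        · have h5 : (Sum.inl (Sum.inl k) : (ι ⊕ κ₁) ⊕ κ₂) = Sum.inr y := h3
          cases h5
      · exact Or.inr (Or.inl h3)
      · exact Or.inr (Or.inr h3)
    · have h5 : dist ((Z.add A).path Φ ε s (Sum.inl k)).1 ((Z.add B).path Φ ε s y).1 ≤ ε := h4
      rw [h'] at h5
      exact h5
  cohXA s _ x k h hc := by
    obtain ⟨h1, h2, h3, h4⟩ := hc
    have h' : (Z.add A).path Φ ε s (Sum.inl k) = (Z.add B).path Φ ε s (Sum.inl k) := h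
    refine ⟨h1, h2, ?_, ?_⟩
    · rcases h3 with h3 | h3 | h3
      · left
        have h5 : (Sum.inl x : (ι ⊕ κ₁) ⊕ κ₂) = Sum.inl (Sum.inl k) := h3
        exact Sum.inl_injective h5
      · exact Or.inr (Or.inl h3)
      · exact Or.inr (Or.inr h3)
    · have h5 : dist ((Z.add A).path Φ ε s x).1 ((Z.add B).path Φ ε s (Sum.inl k)).1 ≤ ε := h4
      rw [← h'] at h5
      exact h5

theorem four_rules (hZ : Z.Ok Φ ε) (hA : (Z.add A).Ok Φ ε) (hB : (Z.add B).Ok Φ ε)
    (hAB : ((Z.add A).add B).Ok Φ ε) (K : ℕ) (a T : ℝ) :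
    (four Φ ε Z A B).Rules a T (Z.Inf Φ ε K) ((Z.add A).Inf Φ ε K) ((Z.add B).Inf Φ ε K)
      (((Z.add A).add B).Inf Φ ε K) where
  r₀ := hZ.rule a T K
  rA := hA.rule a T K
  rL := hB.rule a T K
  r := hAB.rule a T K
  st := four_status Φ ε K Z A B a T

/-- **World consistency for touch times.** -/
theorem theta_eq_of_not_link (hΦ : AdmissiblePotential Φ) (hε : 0 < ε) (hZ : Z.Ok Φ ε)
    (hA : (Z.add A).Ok Φ ε) (hB : (Z.add B).Ok Φ ε) (hAB : ((Z.add A).add B).Ok Φ ε) (hT : 0 ≤ T)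
    (hm : min (Z.theta Φ ε K T B) ((Z.add A).theta Φ ε K T B) ≤ Z.theta Φ ε K T A)
    (hlk : min (Z.theta Φ ε K T B) ((Z.add A).theta Φ ε K T B) ≤ T →
      ¬ Z.LINK Φ ε K A B (min (Z.theta Φ ε K T B) ((Z.add A).theta Φ ε K T B))) :
    Z.theta Φ ε K T B = (Z.add A).theta Φ ε K T B := by
  by_cases h : min (Z.theta Φ ε K T B) ((Z.add A).theta Φ ε K T B) ≤ T
  · exact CausalGen291.Four.theta_eq (four_dyn hΦ hε hZ hA hB hAB T) (four_cohX Φ ε Z A B T)
      (four_rules hZ hA hB hAB K 0 T) le_rfl hT hm (hlk h)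
  · push Not at h
    rw [lt_min_iff] at h
    have h1 := (theta_le_or (K := K) (T := T) hΦ hε hZ hB).resolve_left (not_le.2 h.1)
    have h2 := (theta_le_or (K := K) (T := T) hΦ hε hA hAB).resolve_left (not_le.2 h.2)
    rw [h1, h2]

/-- **World consistency** in the form used in the case lists of helper811. -/
theorem W1_of_not_link (hΦ : AdmissiblePotential Φ) (hε : 0 < ε) (hZ : Z.Ok Φ ε)
    (hA : (Z.add A).Ok Φ ε) (hB : (Z.add B).Ok Φ ε) (hAB : ((Z.add A).add B).Ok Φ ε) (hT : 0 ≤ T)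
    (hlk : ∀ s, 0 ≤ s → s ≤ T → s ≤ Z.theta Φ ε K T A → s ≤ Z.theta Φ ε K T B →
      s ≤ (Z.add A).theta Φ ε K T B → ¬ Z.LINK Φ ε K A B s) :
    Decomp811.W1E Φ ε K T Z A B where
  eq h := by
    refine (theta_eq_of_not_link hΦ hε hZ hA hB hAB hT ((min_le_left _ _).trans h) ?_).symm
    intro hmT
    exact hlk _ (le_min (theta_nonneg hT) (theta_nonneg hT)) hmT ((min_le_left _ _).trans h)
      (min_le_left _ _) (min_le_right _ _)
  lt h := by
    by_contra hno
    push Not at hno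
    have := theta_eq_of_not_link hΦ hε hZ hA hB hAB hT ((min_le_right _ _).trans hno)
      (fun hmT => hlk _ (le_min (theta_nonneg hT) (theta_nonneg hT)) hmT
        ((min_le_right _ _).trans hno) (min_le_left _ _) (min_le_right _ _))
    rw [this] at h
    exact absurd h (not_lt.2 hno)

/-- The same with the link event at the horizon. -/
theorem W1_of_not_link' (hΦ : AdmissiblePotential Φ) (hε : 0 < ε) (hZ : Z.Ok Φ ε)
    (hA : (Z.add A).Ok Φ ε) (hB : (Z.add B).Ok Φ ε) (hAB : ((Z.add A).add B).Ok Φ ε) (hT : 0 ≤ T)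
    (hlk : ¬ Z.LINK Φ ε K A B T) : Decomp811.W1E Φ ε K T Z A B :=
  W1_of_not_link hΦ hε hZ hA hB hAB hT fun _ _ hsT _ _ _ h => hlk (h.mono hsT)

end MW

end Crest.Agent.R122.EDefs602
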