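import Crest.Agent.R122.OneEXW_837
import Crest.Agent.R122.Line3G_984

/-!
# Binding of `StmtEXW` (row 122, INEQUALITY 1)

The two literal forms of `StmtEXW` (helper837's `OneEXW_837`, helper984's `Line3G_984`) agree.
-/

set_option autoImplicit false

open MeasureTheory Set Filter
open scoped ENNReal Classical Topology
open Crest.AnalysisR.Kinetic
open Crest.Agent.R122.Kin796 Crest.Agent.R122.Kin796.CTree Crest.Agent.R122.Tree674
open Crest.Agent.R122.EDefs602 Crest.Agent.R122.TreeLines335 Crest.Agent.R122.OneC285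

namespace Crest.Agent.R122.OneC285

variable {Φ : Space3 → ℝ} {f₀ : PhasePoint → ℝ} {Q : EPar} {T' : ℝ}

theorem stmtEXW_of_837 {m₀ : ℕ} {C : ℝ≥0∞} (h : QExit837.StmtEXW Φ f₀ Q T' m₀ C) :
    StmtEXW Φ f₀ Q T' m₀ C := by
  obtain ⟨δ, hδ, h⟩ := h
  refine ⟨δ, hδ, fun K ε hε G hG hG1 τ hτ => ?_⟩
  refine le_of_eq_of_le ?_ (h K ε hε G hG hG1 τ hτ)
  congr 1
  funext P z m w l
  unfold QExit837.exWF
  congr 1
  refine if_congr ?_ rfl rfl
  tauto

end Crest.Agent.R122.OneC285
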