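import Crest.Agent.R122.EncFar_45
import Crest.Agent.R122.RealOne_796
import Crest.Agent.R122.E6Facts_879
import Crest.Agent.R122.R6Tree_974

/-!
# No third particle near the encounter, inequality 3 (row 122, E6, helper45)

* `far_Z0` : in the world `Z0 = w₂ + d + exits` all particles are far from a point `p` which is far
  from the particles of `w₂`, from the free lines (exits, `d`) and from the altered particles in the
  worlds `w₂ + one line`.
* `EncE.of_parts` : the encounter event of the contact structures of inequality 3; `EncE.of_real6` :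
  the same from `Real6` and `E6Hyp`.
-/

set_option autoImplicit false
set_option linter.unusedSectionVars false

open MeasureTheory Set Filter Topology
open scoped ENNReal
open Crest.AnalysisR.Kinetic
open Crest.Agent.R122.Flow671 hiding rel
open Crest.Agent.R122.Loc45 Crest.Agent.R122.Causal291 Crest.Agent.R122.MWAlg255
open Crest.Agent.R122.Inf879 Crest.Agent.R122.EDefs602 Crest.Agent.R122.MWFam255
open Crest.Agent.R122.Kin796 Crest.Agent.R122.Kin796.CTree Crest.Agent.R122.Tree674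
open Crest.Agent.R122.PathFlow968 Crest.Agent.R122.TreeLines335 Crest.Agent.R122.Relabel674
open Crest.Agent.R122.GC311 Crest.Agent.R122.Line285
open Crest.Agent.R122.Scat818 Crest.Agent.R122.OCout796
open Crest.Agent.R122.OneC285 (lpos cfT rt cT cB cD cX)
open Crest.Agent.R122.Decomp811 (Z0 firstT)
open Crest.Agent.R122.E6Hyp879 (withD)

namespace Crest.Agent.R122.Ins45

noncomputable section

open scoped Classical

section fam

variable {ι κ : Type} [Fintype ι] [Fintype κ] {Φ : Space3 → ℝ} {ε : ℝ} {K : ℕ} {T t : ℝ}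
  {w₂ : MW ι} {F : κ → ML} {r : κ} {d : ML}

/-- Labels of `w₂ + (exits, d)`, and of `Z0`. -/
def eqZ0 (ι : Type) (κ : Type) (r : κ) :
    ι ⊕ ({k : κ // k ≠ r} ⊕ Unit) ≃ (ι ⊕ Unit) ⊕ {k : κ // k ≠ r} :=
  (Equiv.sumCongr (Equiv.refl ι) (Equiv.sumComm _ _)).trans (Equiv.sumAssoc ι Unit _).symm

theorem comap_Z0 (w₂ : MW ι) (F : κ → ML) (r : κ) (d : ML) :
    (Z0 w₂ F r d).comap (eqZ0 ι κ r) = w₂.add (MW.lines (withD (Decomp811.exF F r) d)) := by
  unfold Z0 MW.ins MW.add MW.comap MW.line MW.lines withD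
  congr 1 <;> · funext x; rcases x with x | x | x <;> rfl

/-- The exits and `d`, in the family `F`, `d`. -/
def exdEmb (r : κ) : {k : κ // k ≠ r} ⊕ Unit ↪ κ ⊕ Unit :=
  ⟨Sum.map Subtype.val id, by
    rintro (⟨x, hx⟩ | x) (⟨y, hy⟩ | y) h
    · have h' : x = y := Sum.inl_injective h
      subst h'
      rfl
    · cases h
    · cases h
    · rfl⟩

theorem withD_exd (F : κ → ML) (r : κ) (d : ML) :
    (fun x => withD F d (exdEmb r x)) = withD (Decomp811.exF F r) d := by
  funext x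
  rcases x with x | x <;> rfl

/-- **Far from all particles of `Z0`.** -/
theorem far_Z0 (hΦ : AdmissiblePotential Φ) (hε : 0 < ε) (hok : MW.OkFam Φ ε w₂ (withD F d))
    (hnl : PairNL Φ ε K T w₂ (withD F d)) (ht : t ∈ Icc 0 T)
    (hlt : ∀ j, j ≠ r → t < w₂.thetaL Φ ε K T (F j)) (hltd : t < w₂.thetaL Φ ε K T d)
    {p : Space3} {ρ : ℝ} (h0 : ∀ k, w₂.b k ≤ t → ρ < dist (w₂.path Φ ε t k).1 p)
    (hfree : ∀ j, j ≠ r → (F j).1.1 ≤ t → ρ < dist (lpos (F j) t) p)
    (hfreed : d.1.1 ≤ t → ρ < dist (lpos d t) p)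
    (hcf : ∀ j, j ≠ r → ∀ k, CF Φ ε K w₂ (MW.line (F j)) t k →
      ρ < dist ((w₂.ins (F j)).path Φ ε t (Sum.inl k)).1 p)
    (hcfd : ∀ k, CF Φ ε K w₂ (MW.line d) t k → ρ < dist ((w₂.ins d).path Φ ε t (Sum.inl k)).1 p)
    (hline : ∀ j, j ≠ r → (F j).1.1 ≤ t →
      (∃ s k, s < t ∧ (w₂.ins (F j)).C Φ ε s (Sum.inr ()) (Sum.inl k)) →
      ρ < dist ((w₂.ins (F j)).path Φ ε t (Sum.inr ())).1 p)
    (hlined : d.1.1 ≤ t → (∃ s k, s < t ∧ (w₂.ins d).C Φ ε s (Sum.inr ()) (Sum.inl k)) →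
      ρ < dist ((w₂.ins d).path Φ ε t (Sum.inr ())).1 p)
    (x : (ι ⊕ Unit) ⊕ {k : κ // k ≠ r}) (hx : (Z0 w₂ F r d).b x ≤ t) :
    ρ < dist ((Z0 w₂ F r d).path Φ ε t x).1 p := by
  have hok' : MW.OkFam Φ ε w₂ (withD (Decomp811.exF F r) d) := by
    rw [← withD_exd]
    exact okFam_comp hΦ hε hok (exdEmb r)
  have hnl' : PairNL Φ ε K T w₂ (withD (Decomp811.exF F r) d) := by
    rw [← withD_exd]
    exact hnl.comp (exdEmb r)
  obtain ⟨y, rfl⟩ := (eqZ0 ι κ r).surjective x
  have h1 : (Z0 w₂ F r d).path Φ ε t (eqZ0 ι κ r y) =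
      (w₂.add (MW.lines (withD (Decomp811.exF F r) d))).path Φ ε t y := by
    rw [← comap_Z0, path_comap hΦ hε]
  have h2 : (w₂.add (MW.lines (withD (Decomp811.exF F r) d))).b y ≤ t := by
    rw [← comap_Z0]
    exact hx
  rw [h1]
  refine far_of_parts (K := K) (T := T) hΦ hε hok' hnl' ht ?_ h0 ?_ ?_ ?_ y h2
  · rintro (j | j)
    · exact hlt _ j.2
    · exact hltd
  · rintro (j | j) hj
    · exact hfree _ j.2 hj
    · exact hfreed hj
  · rintro (j | j) k hk
    · exact hcf _ j.2 k hk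
    · exact hcfd k hk
  · rintro (j | j) hj hk
    · exact hline _ j.2 hj hk
    · exact hlined hj hk

end fam

/-! ### The contact structures of inequality 3 -/

section two

variable {Φ : Space3 → ℝ} {ε te T' R : ℝ} {K : ℕ} {P : CTree} {z : PhasePoint × Par P} {m : ℕ}
  {w : Config m} {d e : ML}

/-- **The parts of the encounter event of inequality 3.** The encounter of the second line `e` with
the root; `d` is the first line. -/
structure EncParts6 (Φ : Space3 → ℝ) (ε R : ℝ) (K : ℕ) (te : ℝ) (P : CTree)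
    (z : PhasePoint × Par P) {m : ℕ} (w : Config m) (d e : ML) : Prop where
  /-- the encounter is a passage, short -/
  pass : CDpass Φ (cD ε z e)
  tau : tauM Φ (relB (cD ε z e)) ≤ R
  disp : tauM Φ (relB (cD ε z e)) * ‖(relB (cD ε z e)).2‖ ≤ R
  /-- it ends before the horizon -/
  hor : cT ε z e + ε * R ≤ te
  /-- no exit has touched the gas before its end -/
  unt : ∀ j, j ≠ root P → cT ε z e + ε * R < (MW.cfg w).thetaL Φ ε K te (lineML Φ ε P z j)
  /-- `d` has not touched the gas before its end -/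
  untd : cT ε z e + ε * R < (MW.cfg w).thetaL Φ ε K te d
  /-- no gas particle near the root line -/
  gas : ∀ t, cT ε z e ≤ t → t ≤ cT ε z e + ε * R → ∀ i : Fin m,
    (R + 2) * ε < dist ((MW.cfg w).path Φ ε t i).1 (z.1.1 + t • z.1.2)
  /-- no free exit near the root line -/
  mem : ∀ t, cT ε z e ≤ t → t ≤ cT ε z e + ε * R → ∀ j, j ≠ root P →
    (R + 2) * ε < dist (lpos (lineML Φ ε P z j) t) (z.1.1 + t • z.1.2)
  /-- the free line `d` is not near the root line -/
  memd : ∀ t, cT ε z e ≤ t → t ≤ cT ε z e + ε * R → d.1.1 ≤ t →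
    (R + 2) * ε < dist (lpos d t) (z.1.1 + t • z.1.2)
  /-- no particle of the clean closure of an exit near the root line (LINK class) -/
  cf : ∀ t, cT ε z e ≤ t → t ≤ cT ε z e + ε * R → ∀ j, j ≠ root P → ∀ k,
    CF Φ ε K (MW.cfg w) (MW.line (lineML Φ ε P z j)) t k →
    (R + 2) * ε < dist (((MW.cfg w).ins (lineML Φ ε P z j)).path Φ ε t (Sum.inl k)).1
      (z.1.1 + t • z.1.2)
  /-- no particle of the clean closure of `d` near the root line (LINK class) -/
  cfd : ∀ t, cT ε z e ≤ t → t ≤ cT ε z e + ε * R → ∀ k, CF Φ ε K (MW.cfg w) (MW.line d) t k →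
    (R + 2) * ε < dist (((MW.cfg w).ins d).path Φ ε t (Sum.inl k)).1 (z.1.1 + t • z.1.2)
  /-- no deflected exit near the root line (LINK class) -/
  line : ∀ t, cT ε z e ≤ t → t ≤ cT ε z e + ε * R → ∀ j, j ≠ root P →
    (∃ s k, s < t ∧ ((MW.cfg w).ins (lineML Φ ε P z j)).C Φ ε s (Sum.inr ()) (Sum.inl k)) →
    (R + 2) * ε < dist (((MW.cfg w).ins (lineML Φ ε P z j)).path Φ ε t (Sum.inr ())).1
      (z.1.1 + t • z.1.2)
  /-- the deflected `d` is not near the root line (LINK class) -/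
  lined : ∀ t, cT ε z e ≤ t → t ≤ cT ε z e + ε * R → d.1.1 ≤ t →
    (∃ s k, s < t ∧ ((MW.cfg w).ins d).C Φ ε s (Sum.inr ()) (Sum.inl k)) →
    (R + 2) * ε < dist (((MW.cfg w).ins d).path Φ ε t (Sum.inr ())).1 (z.1.1 + t • z.1.2)
  /-- `d` is not born at the exit time of the encounter (null event) -/
  nobd : d.1.1 ≠ cT ε z e + outT Φ ε (cD ε z e)

/-- **The encounter event of inequality 3 from its parts.** -/
theorem EncE.of_parts (hΦ : AdmissiblePotential Φ) (hε : 0 < ε)
    (h : EncParts6 Φ ε R K te P z w d e) (h0 : 0 < cT ε z e)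
    (hrel : ∀ j, rel P z.2 j ≤ cT ε z e)
    (hok : MW.OkFam Φ ε (MW.cfg w) (withD (lineML Φ ε P z) d))
    (hnl : PairNL Φ ε K te (MW.cfg w) (withD (lineML Φ ε P z) d)) :
    One796.EncE Φ ε R (Z0 (MW.cfg w) (lineML Φ ε P z) (root P) d) z.1 (cT ε z e)
      (cD ε z e) where
  pass := h.pass
  tau := h.tau
  disp := h.disp
  far t ht ht' x hx :=
    far_Z0 (K := K) (T := te) hΦ hε hok hnl ⟨h0.le.trans ht, ht'.trans h.hor⟩
      (fun j hj => ht'.trans_lt (h.unt j hj)) (ht'.trans_lt h.untd) (fun k _ => h.gas t ht ht' k)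
      (fun j hj _ => h.mem t ht ht' j hj) (h.memd t ht ht') (h.cf t ht ht') (h.cfd t ht ht')
      (fun j hj _ => h.line t ht ht' j hj) (h.lined t ht ht') x hx
  noborn x hx := by
    have hout : 0 < outT Φ ε (cD ε z e) := by
      have h1 := h.pass.hasExit.1
      have h2 : outT Φ ε (cD ε z e) = ε * tauM Φ (relB (cD ε z e)) := rfl
      rw [h2]
      exact mul_pos hε h1
    rcases x with (x | x) | x
    · have h2 : (0 : ℝ) = cT ε z e + outT Φ ε (cD ε z e) := hx
      linarith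
    · exact h.nobd hx
    · have h2 : rel P z.2 x.1 = cT ε z e + outT Φ ε (cD ε z e) := hx
      have h3 := hrel x.1
      linarith

/-- **The encounter event of inequality 3**, from `Real6`, `E6Hyp` and the parts. -/
theorem EncE.of_real6 (hΦ : AdmissiblePotential Φ) (hε : 0 < ε)
    {θ : Pair292.Lab × Boost969.LSt} {e' c' : ML} (hR : PairD292.Real6 Φ ε K te T' P z w θ)
    (hE : E6Hyp879.E6Hyp Φ ε K te (MW.cfg w) (lineML Φ ε P z) (root P) (PairD292.dL θ) e' c')
    (h : EncParts6 Φ ε R K te P z w (PairD292.dL θ) (PairD292.eL θ)) :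
    One796.EncE Φ ε R (Z0 (MW.cfg w) (lineML Φ ε P z) (root P) (PairD292.dL θ)) z.1
      (cT ε z (PairD292.eL θ)) (cD ε z (PairD292.eL θ)) :=
  EncE.of_parts hΦ hε h (R6Tree974.R6.cT_pos hR)
    (fun j => (TreeLines335.rel_lt hε.le (R6Tree974.R6.cT_pos hR) hR.real.valid.2 j).le)
    hE.ok₁ hE.nl₀

end two

end

end Crest.Agent.R122.Ins45
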