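import Crest.Agent.R122.GateOS2_495
import Crest.Agent.R122.EncNull_741
import Crest.Agent.R122.Master_566

/-!
# Null facts of inequality 3 with a radius (row 122, E6, board 13f), helper741

* `FOk.of_kdata` : the standing hypotheses `FOk` from `KData`.
* `nullFacts_sel` : **selection over the radius.** For a countable family of pair laws, a family
  `F R` of arbitrary functionals null in the gateway for every fixed radius `R : ℕ`, and a family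
  `G R` of measurable functionals with `OS2 ≤ D K * η R + δ_R K ε`, `η R → 0`, one functional `bd`
  with the literal `NullFacts`, above everything which is below `F R + G R` for all
  `R` with `ε * R ≤ σ ε`.
* `nullFacts_enc` : the same with `G = encM`, the encounter event; `nullFacts_encB` : with one more
  measurable functional, null uniformly over the laws `PX`.
-/

set_option autoImplicit false
set_option linter.unusedSectionVars false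

open MeasureTheory Set Filter Topology
open scoped Classical ENNReal
open Crest.AnalysisR.Kinetic
open Crest.Agent.R122.GC311 Crest.Agent.R122.Kin796 Crest.Agent.R122.Kin796.CTree
open Crest.Agent.R122.Tree674 Crest.Agent.R122.EDefs602 Crest.Agent.R122.GSCalc495
open Crest.Agent.R122.Gate424 Crest.Agent.R122.Gate973 Crest.Agent.R122.OS2Calc495
open Crest.Agent.R122.Boost969 (LSt)
open Crest.Agent.R122.Pair292 (Lab PPar PX)
open Crest.Agent.R122.PairD292 Crest.Agent.R122.PairRep581 Crest.Agent.R122.GateOS2495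

noncomputable section

namespace Crest.Agent.R122.Third741

variable {Φ : Space3 → ℝ} {f₀ : PhasePoint → ℝ} {ε : ℝ}

/-! ### The initial density -/

/-- Finite moment of a majorized density. -/
theorem MajF.mom_ne_top {A : Space3 → ℝ≥0∞} {C b : ℝ} (h : MajF f₀ A C b) (hb : 0 < b) :
    ∫⁻ z, ENNReal.ofReal (f₀ z) * ENNReal.ofReal (1 + ‖z.2‖ ^ 2) ≠ ∞ := by
  have hm : Measurable fun v : Space3 => wG b v * ENNReal.ofReal ((1 + ‖v‖) ^ 4) :=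
    (measurable_wG1 b).mul (by fun_prop)
  have h1 : ∫⁻ z, ENNReal.ofReal (f₀ z) * ENNReal.ofReal (1 + ‖z.2‖ ^ 2) ≤
      ∫⁻ z : PhasePoint, A z.1 * (wG b z.2 * ENNReal.ofReal ((1 + ‖z.2‖) ^ 4)) := by
    refine lintegral_mono fun z => ?_
    have h2 : (1 : ℝ) + ‖z.2‖ ^ 2 ≤ (1 + ‖z.2‖) ^ 4 := by
      have h0 : 0 ≤ ‖z.2‖ := norm_nonneg _
      nlinarith [mul_nonneg h0 h0, mul_nonneg (mul_nonneg h0 h0) h0,
        mul_nonneg (mul_nonneg h0 h0) (mul_nonneg h0 h0)]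
    refine (mul_le_mul' (h.le z) (ENNReal.ofReal_le_ofReal h2)).trans (le_of_eq ?_)
    rw [mul_assoc]
    unfold wG
    rw [neg_mul]
  refine ne_top_of_le_ne_top ?_ h1
  have hvol : (volume : Measure PhasePoint) =
      (volume : Measure Space3).prod (volume : Measure Space3) := rfl
  rw [hvol, lintegral_prod_mul h.meas.aemeasurable hm.aemeasurable]
  exact ENNReal.mul_ne_top h.fin (mom4_wG_ne_top hb)

/-- **The standing hypotheses on the initial density from the data of S0162.** -/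
theorem FOk.of_kdata {β T : ℝ} {f : ℝ → PhasePoint → ℝ}
    (hD : Master566.KData Φ β T f₀ f) :
    ∃ (A : Space3 → ℝ≥0∞) (C : ℝ), FOk f₀ A C (2 * β) := by
  obtain ⟨A, C, hC, hA, hfin, hle, hmaj⟩ := exists_majorant hD.gaussian
  have hb : 0 < 2 * β := by linarith [hD.beta_pos]
  have hM : MajF f₀ A C (2 * β) := ⟨hC, hA, hfin, hle, hmaj⟩
  refine ⟨A, C, ⟨hD.contDiff.continuous.measurable, ?_, hb, hM, hM.mom_ne_top hb⟩⟩
  rw [← ofReal_integral_eq_lintegral_ofReal hD.integrable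
    (Filter.Eventually.of_forall hD.nonneg), hD.mass, ENNReal.ofReal_one]

/-! ### Selection -/

/-- A family of functionals with a radius whose structure integrals are small for large radius. -/
def RSlot (Φ : Space3 → ℝ) (f₀ : PhasePoint → ℝ) (Q : EPar) (T' : ℝ)
    (ν : ℕ → ℝ → Measure (Lab × LSt)) (G : ℕ → ℕ → ℝ → SF2) : Prop :=
  ∃ (D η : ℕ → ℝ≥0∞), (∀ K, D K ≠ ∞) ∧ Tendsto η atTop (𝓝 0) ∧
    ∀ R, ∃ δ : ℕ → ℝ → ℝ≥0∞, Null δ ∧ ∃ ε₁ : ℝ, 0 < ε₁ ∧ ∀ K ε, 0 < ε → ε < ε₁ →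
      OS2 Φ f₀ ε Q.te T' (ν K ε) (fun P z m w θ =>
        uG Φ ε Q.tw K P z w θ * G R K ε P z m w θ) ≤ D K * η R + δ K ε

/-- **Null facts with a radius.** -/
theorem nullFacts_sel (hΦ : AdmissiblePotential Φ) (hf : Measurable f₀) {Q : EPar} {T' : ℝ}
    {J : Type} [Countable J] {ι : J → ℕ → Type} [∀ j K, Fintype (ι j K)]
    {ν : J → ℕ → ℝ → Measure (Lab × LSt)} {S : ∀ j K, ι j K → Shp}
    (hR : ∀ j K, Rep (ν j K) (S j K)) (hB : ∀ j K s, StandardBorelSpace (S j K s).Θ)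
    (hν : ∀ j K ε, 0 < ε → SFinite (ν j K ε)) {F G : ℕ → ℕ → ℝ → SF2}
    (hF : ∀ (R : ℕ) j K P s, P.leaves ≤ K → FNull f₀ (osP Φ f₀ Q.te T' K P (S j K s))
      (pullS Φ Q.te T' K (F R K) P (S j K s)))
    (hGm : ∀ R K ε, 0 < ε → MeasSF2 (G R K ε))
    (hG : ∀ j, RSlot Φ f₀ Q T' (ν j) G)
    {σ : ℝ → ℝ} (hσ : ∀ R : ℕ, ∃ ε₀ : ℝ, 0 < ε₀ ∧ ∀ ε, 0 < ε → ε < ε₀ → ε * R ≤ σ ε)
    (hok : ∀ j K ε, 0 < ε → OkAE Φ ε K (ν j K ε))
    (hbad : ∀ j, Null fun K ε => BAD Φ f₀ ε K Q (ν j K ε)) :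
    ∃ bd : ℕ → ℝ → SF2,
      (∀ (K : ℕ) (ε : ℝ), 0 < ε → ∀ P : CTree, P.leaves ≤ K →
        ∀ z (m : ℕ) (w : Config m) (θ : Lab × LSt), w ∈ PairExcluded ε m →
          Valid Φ ε P T' z.1.2 z.2 → (z, θ.2) ∈ OneC423.ctSet Φ ε Q.te P → OkL K θ →
          ∀ c : ℝ≥0∞, (∀ R : ℕ, ε * R ≤ σ ε →
            c ≤ F R K ε P z m w θ + G R K ε P z m w θ) → c ≤ bd K ε P z m w θ) ∧
      ∀ j, NullFacts Φ f₀ Q T' bd (ν j) := by
  choose b hb1 hb2 using fun R : ℕ => nullFacts_fam hΦ hf hR hB (F := F R) (hF R) hok hbad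
  refine ⟨fun K ε P z m w θ => ⨅ R : ℕ, if ε * (R : ℝ) ≤ σ ε then
    b R K ε P z m w θ + G R K ε P z m w θ else ∞, ?_, fun j => ⟨hok j, hbad j, ?_, ?_⟩⟩
  · intro K ε hε P hP z m w θ hw hz hc hL c h
    refine le_iInf fun R => ?_
    split_ifs with h1
    · exact (h R h1).trans (add_le_add (hb1 R K ε hε P hP z m w θ hw hz hc hL) le_rfl)
    · exact le_top
  · intro K ε hε P m
    refine Measurable.iInf fun R => ?_
    by_cases h1 : ε * (R : ℝ) ≤ σ ε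
    · simp only [if_pos h1]
      exact ((hb2 R j).meas K ε hε P m).add (hGm R K ε hε P m)
    · simp only [if_neg h1]
      exact measurable_const
  · intro K δ hδ
    obtain ⟨D, η, hD, hη, hGle⟩ := hG j
    have h3 : 0 < δ / 3 := by positivity
    have hDη : Tendsto (fun R => D K * η R) atTop (𝓝 0) := by
      have h4 := ENNReal.Tendsto.const_mul (a := D K) hη (Or.inr (hD K))
      rwa [mul_zero] at h4
    have h5 : ∀ᶠ R in atTop, D K * η R ≤ ENNReal.ofReal (δ / 3) :=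
      (ENNReal.tendsto_nhds_zero.1 hDη) _ (ENNReal.ofReal_pos.2 h3)
    obtain ⟨R, hRle⟩ := h5.exists
    obtain ⟨δ', hδ', ε₁, hε₁, hle⟩ := hGle R
    obtain ⟨ε₂, hε₂, h2⟩ := hδ' K (δ / 3) h3
    obtain ⟨ε₃, hε₃, h3'⟩ := (hb2 R j).link K (δ / 3) h3
    obtain ⟨ε₄, hε₄, h4'⟩ := hσ R
    refine ⟨min (min ε₁ ε₂) (min ε₃ ε₄), by positivity, fun ε hε hlt => ?_⟩
    have l1 : ε < ε₁ := hlt.trans_le ((min_le_left _ _).trans (min_le_left _ _))
    have l2 : ε < ε₂ := hlt.trans_le ((min_le_left _ _).trans (min_le_right _ _))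
    have l3 : ε < ε₃ := hlt.trans_le ((min_le_right _ _).trans (min_le_left _ _))
    have l4 : ε < ε₄ := hlt.trans_le ((min_le_right _ _).trans (min_le_right _ _))
    have hs := hν j K ε hε
    calc OS2 Φ f₀ ε Q.te T' (ν j K ε) (fun P z m w θ => uG Φ ε Q.tw K P z w θ *
          ⨅ R : ℕ, if ε * (R : ℝ) ≤ σ ε then
            b R K ε P z m w θ + G R K ε P z m w θ else ∞)
        ≤ OS2 Φ f₀ ε Q.te T' (ν j K ε) (fun P z m w θ =>
            uG Φ ε Q.tw K P z w θ * b R K ε P z m w θ +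
              uG Φ ε Q.tw K P z w θ * G R K ε P z m w θ) := by
          refine OS2_mono fun P z m w θ => ?_
          rw [← mul_add]
          refine mul_le_mul' le_rfl ((iInf_le _ R).trans (le_of_eq ?_))
          exact if_pos (h4' ε hε l4)
      _ = OS2 Φ f₀ ε Q.te T' (ν j K ε) (fun P z m w θ =>
            uG Φ ε Q.tw K P z w θ * b R K ε P z m w θ) +
          OS2 Φ f₀ ε Q.te T' (ν j K ε) (fun P z m w θ =>
            uG Φ ε Q.tw K P z w θ * G R K ε P z m w θ) :=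
          OS2_add hΦ hf ((measV_uG hΦ hε Q.tw K).mul
            (MeasSF2.measV hΦ ((hb2 R j).meas K ε hε))) _
      _ ≤ ENNReal.ofReal (δ / 3) + (ENNReal.ofReal (δ / 3) + ENNReal.ofReal (δ / 3)) :=
          add_le_add (h3' ε hε l3) ((hle K ε hε l1).trans (add_le_add hRle (h2 ε hε l2)))
      _ = ENNReal.ofReal δ := by
          rw [← ENNReal.ofReal_add h3.le h3.le, ← ENNReal.ofReal_add h3.le (by positivity)]
          congr 1
          ring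

/-- The slack `√ε` allows every fixed radius. -/
theorem sqrt_slot (R : ℕ) : ∃ ε₀ : ℝ, 0 < ε₀ ∧ ∀ ε : ℝ, 0 < ε → ε < ε₀ → ε * R ≤ Real.sqrt ε := by
  have hR : (0 : ℝ) < (R : ℝ) + 1 := by positivity
  refine ⟨(((R : ℝ) + 1) ^ 2)⁻¹, by positivity, fun ε hε hlt => ?_⟩
  have hs := Real.sqrt_nonneg ε
  have h1 : Real.sqrt ε * Real.sqrt ε = ε := Real.mul_self_sqrt hε.le
  have h2 : Real.sqrt ε ≤ ((R : ℝ) + 1)⁻¹ := by
    rw [Real.sqrt_le_left (by positivity), inv_pow]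
    exact hlt.le
  have h3 : Real.sqrt ε * R ≤ 1 := by
    calc Real.sqrt ε * R ≤ ((R : ℝ) + 1)⁻¹ * ((R : ℝ) + 1) :=
          mul_le_mul h2 (by linarith) (Nat.cast_nonneg R) (by positivity)
      _ = 1 := inv_mul_cancel₀ hR.ne'
  calc ε * R = Real.sqrt ε * (Real.sqrt ε * R) := by rw [← mul_assoc, h1]
    _ ≤ Real.sqrt ε * 1 := mul_le_mul_of_nonneg_left h3 hs
    _ = Real.sqrt ε := mul_one _

/-- Sum of a functional with a radius and a null measurable functional. -/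
theorem RSlot.add_null (hΦ : AdmissiblePotential Φ) (hf : Measurable f₀) {Q : EPar} {T' : ℝ}
    {ν : ℕ → ℝ → Measure (Lab × LSt)} (hν : ∀ K ε, 0 < ε → SFinite (ν K ε))
    {G : ℕ → ℕ → ℝ → SF2} (hG : RSlot Φ f₀ Q T' ν G) {B : ℕ → ℝ → SF2}
    (hBm : ∀ K ε, 0 < ε → MeasSF2 (B K ε)) {δB : ℕ → ℝ → ℝ≥0∞} (hδB : Null δB) {ε₁ : ℝ}
    (hε₁ : 0 < ε₁)
    (hB : ∀ K ε, 0 < ε → ε < ε₁ → OS2 Φ f₀ ε Q.te T' (ν K ε) (B K ε) ≤ δB K ε) :
    RSlot Φ f₀ Q T' ν fun R K ε P z m w θ => B K ε P z m w θ + G R K ε P z m w θ := by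
  obtain ⟨D, η, hD, hη, h⟩ := hG
  refine ⟨D, η, hD, hη, fun R => ?_⟩
  obtain ⟨δ, hδ, ε₂, hε₂, h2⟩ := h R
  refine ⟨fun K ε => δB K ε + δ K ε, hδB.add hδ, min ε₁ ε₂, lt_min hε₁ hε₂,
    fun K ε hε hlt => ?_⟩
  have hs := hν K ε hε
  calc OS2 Φ f₀ ε Q.te T' (ν K ε) (fun P z m w θ => uG Φ ε Q.tw K P z w θ *
        (B K ε P z m w θ + G R K ε P z m w θ))
      = OS2 Φ f₀ ε Q.te T' (ν K ε) (fun P z m w θ => uG Φ ε Q.tw K P z w θ * B K ε P z m w θ) +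
        OS2 Φ f₀ ε Q.te T' (ν K ε) (fun P z m w θ =>
          uG Φ ε Q.tw K P z w θ * G R K ε P z m w θ) := by
        simp only [mul_add]
        exact OS2_add hΦ hf ((measV_uG hΦ hε Q.tw K).mul (MeasSF2.measV hΦ (hBm K ε hε))) _
    _ ≤ δB K ε + (D K * η R + δ K ε) := by
        refine add_le_add ?_ (h2 K ε hε (hlt.trans_le (min_le_right _ _)))
        exact (OS2_mono fun P z m w θ => mul_le_of_le_one_left bot_le uG_le_one).trans
          (hB K ε hε (hlt.trans_le (min_le_left _ _)))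
    _ = D K * η R + (δB K ε + δ K ε) := by ring

/-- The slot `hG` of `nullFacts_sel` for the encounter functional. -/
theorem encM_slot (hΦ : AdmissiblePotential Φ) {A : Space3 → ℝ≥0∞} {C b g0 : ℝ}
    (hF : FOk f₀ A C b) {Q : EPar} (hQ : QOk Q g0) {PP : ℕ → PPar} (hP : PPOk Q PP) (T' : ℝ)
    {ν Ξ : ℕ → ℝ → Measure (Lab × LSt)} {c : ℝ≥0∞} (hc : c ≠ ∞) {ε₁ : ℝ} (hε₁ : 0 < ε₁)
    (hPX : ∀ K ε, 0 < ε → ε < ε₁ → PX (PP K) (Ξ K ε) (ν K ε) c) :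
    RSlot Φ f₀ Q T' ν fun R K ε => encM Φ (R : ℝ) K Q.te ε := by
  obtain ⟨D, hD, h⟩ := encM_OS2_le hΦ hF hQ hP T'
  refine ⟨fun K => c * D K, fun R => lamR Φ (b / 2) (R : ℝ), fun K => ENNReal.mul_ne_top hc (hD K),
    (tendsto_lamR hΦ (half_pos hF.b_pos)).comp tendsto_natCast_atTop_atTop, fun R => ?_⟩
  obtain ⟨δ, hδ, hle⟩ := h R (Nat.cast_nonneg R)
  refine ⟨fun K ε => c * δ K ε, hδ.const_mul hc, ε₁, hε₁, fun K ε hε hlt => ?_⟩
  refine ((OS2_mono fun P z m w θ => mul_le_of_le_one_left bot_le uG_le_one).trans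
    (hle K ε hε _ _ c hc (hPX K ε hε hlt))).trans (le_of_eq ?_)
  rw [mul_add, mul_assoc]

/-- **Null facts of inequality 3, encounter event included.** -/
theorem nullFacts_enc (hΦ : AdmissiblePotential Φ) {A : Space3 → ℝ≥0∞} {C b g0 : ℝ}
    (hF₀ : FOk f₀ A C b) {Q : EPar} (hQ : QOk Q g0) {PP : ℕ → PPar} (hP : PPOk Q PP) {T' : ℝ}
    {J : Type} [Countable J] {ι : J → ℕ → Type} [∀ j K, Fintype (ι j K)]
    {ν Ξ : J → ℕ → ℝ → Measure (Lab × LSt)} {S : ∀ j K, ι j K → Shp}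
    (hR : ∀ j K, Rep (ν j K) (S j K)) (hB : ∀ j K s, StandardBorelSpace (S j K s).Θ)
    (hν : ∀ j K ε, 0 < ε → SFinite (ν j K ε)) {c : J → ℝ≥0∞} (hc : ∀ j, c j ≠ ∞)
    {ε₁ : J → ℝ} (hε₁ : ∀ j, 0 < ε₁ j)
    (hPX : ∀ j K ε, 0 < ε → ε < ε₁ j → PX (PP K) (Ξ j K ε) (ν j K ε) (c j))
    {F : ℕ → ℕ → ℝ → SF2}
    (hF : ∀ (R : ℕ) j K P s, P.leaves ≤ K → FNull f₀ (osP Φ f₀ Q.te T' K P (S j K s))
      (pullS Φ Q.te T' K (F R K) P (S j K s)))
    {σ : ℝ → ℝ} (hσ : ∀ R : ℕ, ∃ ε₀ : ℝ, 0 < ε₀ ∧ ∀ ε, 0 < ε → ε < ε₀ → ε * R ≤ σ ε)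
    (hok : ∀ j K ε, 0 < ε → OkAE Φ ε K (ν j K ε))
    (hbad : ∀ j, Null fun K ε => BAD Φ f₀ ε K Q (ν j K ε)) :
    ∃ bd : ℕ → ℝ → SF2,
      (∀ (K : ℕ) (ε : ℝ), 0 < ε → ∀ P : CTree, P.leaves ≤ K →
        ∀ z (m : ℕ) (w : Config m) (θ : Lab × LSt), w ∈ PairExcluded ε m →
          Valid Φ ε P T' z.1.2 z.2 → (z, θ.2) ∈ OneC423.ctSet Φ ε Q.te P → OkL K θ →
          ∀ c : ℝ≥0∞, (∀ R : ℕ, ε * R ≤ σ ε →
            c ≤ F R K ε P z m w θ + encM Φ (R : ℝ) K Q.te ε P z m w θ) →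
            c ≤ bd K ε P z m w θ) ∧
      ∀ j, NullFacts Φ f₀ Q T' bd (ν j) :=
  nullFacts_sel hΦ hF₀.meas hR hB hν (F := F) (G := fun R K ε => encM Φ (R : ℝ) K Q.te ε) hF
    (fun R K ε hε => measSF2_encM hΦ hε (R : ℝ) K Q.te)
    (fun j => encM_slot hΦ hF₀ hQ hP T' (hc j) (hε₁ j) (hPX j)) hσ hok hbad

/-- **Null facts of inequality 3, encounter event and one more measurable functional `B`, null
uniformly over the laws `PX`, included** (`B` : births near the gas). -/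
theorem nullFacts_encB (hΦ : AdmissiblePotential Φ) {A : Space3 → ℝ≥0∞} {C b g0 : ℝ}
    (hF₀ : FOk f₀ A C b) {Q : EPar} (hQ : QOk Q g0) {PP : ℕ → PPar} (hP : PPOk Q PP) {T' : ℝ}
    {J : Type} [Countable J] {ι : J → ℕ → Type} [∀ j K, Fintype (ι j K)]
    {ν Ξ : J → ℕ → ℝ → Measure (Lab × LSt)} {S : ∀ j K, ι j K → Shp}
    (hR : ∀ j K, Rep (ν j K) (S j K)) (hB : ∀ j K s, StandardBorelSpace (S j K s).Θ)
    (hν : ∀ j K ε, 0 < ε → SFinite (ν j K ε)) {c : J → ℝ≥0∞} (hc : ∀ j, c j ≠ ∞)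
    {ε₁ : J → ℝ} (hε₁ : ∀ j, 0 < ε₁ j)
    (hPX : ∀ j K ε, 0 < ε → ε < ε₁ j → PX (PP K) (Ξ j K ε) (ν j K ε) (c j))
    {F : ℕ → ℕ → ℝ → SF2}
    (hF : ∀ (R : ℕ) j K P s, P.leaves ≤ K → FNull f₀ (osP Φ f₀ Q.te T' K P (S j K s))
      (pullS Φ Q.te T' K (F R K) P (S j K s)))
    {B : ℕ → ℝ → SF2} (hBm : ∀ K ε, 0 < ε → MeasSF2 (B K ε)) {δB : ℕ → ℝ → ℝ≥0∞}
    (hδB : Null δB) (hBle : ∀ K ε, 0 < ε → ∀ (Ξ ν : Measure (Lab × LSt)) (c : ℝ≥0∞), c ≠ ∞ →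
      PX (PP K) Ξ ν c → OS2 Φ f₀ ε Q.te T' ν (B K ε) ≤ c * δB K ε)
    {σ : ℝ → ℝ} (hσ : ∀ R : ℕ, ∃ ε₀ : ℝ, 0 < ε₀ ∧ ∀ ε, 0 < ε → ε < ε₀ → ε * R ≤ σ ε)
    (hok : ∀ j K ε, 0 < ε → OkAE Φ ε K (ν j K ε))
    (hbad : ∀ j, Null fun K ε => BAD Φ f₀ ε K Q (ν j K ε)) :
    ∃ bd : ℕ → ℝ → SF2,
      (∀ (K : ℕ) (ε : ℝ), 0 < ε → ∀ P : CTree, P.leaves ≤ K →
        ∀ z (m : ℕ) (w : Config m) (θ : Lab × LSt), w ∈ PairExcluded ε m →
          Valid Φ ε P T' z.1.2 z.2 → (z, θ.2) ∈ OneC423.ctSet Φ ε Q.te P → OkL K θ →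
          ∀ c : ℝ≥0∞, (∀ R : ℕ, ε * R ≤ σ ε →
            c ≤ F R K ε P z m w θ + (B K ε P z m w θ +
              encM Φ (R : ℝ) K Q.te ε P z m w θ)) →
            c ≤ bd K ε P z m w θ) ∧
      ∀ j, NullFacts Φ f₀ Q T' bd (ν j) :=
  nullFacts_sel hΦ hF₀.meas hR hB hν (F := F)
    (G := fun R K ε P z m w θ => B K ε P z m w θ + encM Φ (R : ℝ) K Q.te ε P z m w θ) hF
    (fun R K ε hε => MeasSF2.add' (hBm K ε hε) (measSF2_encM hΦ hε (R : ℝ) K Q.te))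
    (fun j => (encM_slot hΦ hF₀ hQ hP T' (hc j) (hε₁ j) (hPX j)).add_null hΦ hF₀.meas (hν j) hBm
      (hδB.const_mul (hc j)) (hε₁ j) fun K ε hε hlt => hBle K ε hε _ _ (c j) (hc j)
        (hPX j K ε hε hlt)) hσ hok hbad

end Crest.Agent.R122.Third741

end
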