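import Crest.Agent.R122.NewtonFlow_671
import Crest.Agent.R122.Loc_45
import Crest.Agent.R122.CausalDyn_291

/-!
# Energy of sub-families and of the infected set (row 122, block EN)

* `eng Φ ε A Z`: energy of the sub-family `A` (kinetic plus interaction inside `A`).
* `eng_union`: additivity over far groups; `eng_const`: conservation for an isolated group.
* `antitone_family`: along an antitone isolated family the quantity `eng + B * card` decreases.
* `eng_root_le`: the energy of an isolated group is at most the initial weight of its backward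
  clusters.
* `infected_energy_le`: the energy of a monotone isolated family (the infected set) is at most the
  sum of the weights of the backward clusters of its members just before they enter.
-/

set_option autoImplicit false
set_option linter.unusedSectionVars false

open Set Filter Topology
open scoped NNReal ENNReal
open Crest.AnalysisR.Kinetic
open Crest.Agent.R122.Flow671 Crest.Agent.R122.Loc45 Crest.Agent.R122.Causal291

namespace Crest.Agent.R122.Energy410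

/-! ## Real induction and eventually constant monotone families -/

/-- Real induction on `[0, T]`. -/
theorem real_induction {T : ℝ} {P : ℝ → Prop} (h0 : P 0)
    (hr : ∀ t, 0 ≤ t → t < T → P t → ∃ δ > 0, ∀ s, t < s → s < t + δ → s ≤ T → P s)
    (hl : ∀ t, 0 < t → t ≤ T → (∀ s, 0 ≤ s → s < t → P s) → P t) :
    ∀ t, 0 ≤ t → t ≤ T → P t := by
  intro t ht htT
  set A : Set ℝ := {s | 0 ≤ s ∧ s ≤ t ∧ ∀ r, 0 ≤ r → r ≤ s → P r} with hA
  have hA0 : (0 : ℝ) ∈ A := ⟨le_rfl, ht, fun r h1 h2 => by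
    have : r = 0 := le_antisymm h2 h1
    rw [this]; exact h0⟩
  have hbdd : BddAbove A := ⟨t, fun s hs => hs.2.1⟩
  set σ := sSup A with hσ
  have hσ0 : 0 ≤ σ := le_csSup hbdd hA0
  have hσt : σ ≤ t := csSup_le ⟨0, hA0⟩ fun s hs => hs.2.1
  have hlt : ∀ r, 0 ≤ r → r < σ → P r := by
    intro r h1 h2
    obtain ⟨s, hs, hrs⟩ := exists_lt_of_lt_csSup ⟨0, hA0⟩ h2
    exact hs.2.2 r h1 hrs.le
  have hPσ : P σ := by
    rcases hσ0.eq_or_lt with h | h
    · rw [← h]; exact h0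
    · exact hl σ h (hσt.trans htT) hlt
  rcases hσt.eq_or_lt with h | h
  · rw [← h]; exact hPσ
  · exfalso
    obtain ⟨δ, hδ, hδ'⟩ := hr σ hσ0 (h.trans_le htT) hPσ
    set s := min t (σ + δ / 2) with hs
    have hs1 : σ < s := lt_min h (by linarith)
    have hs2 : s ≤ t := min_le_left _ _
    have hs3 : s ≤ σ + δ / 2 := min_le_right _ _
    have hsA : s ∈ A := by
      refine ⟨hσ0.trans hs1.le, hs2, fun r h1 h2 => ?_⟩
      rcases lt_trichotomy r σ with h3 | h3 | h3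
      · exact hlt r h1 h3
      · rw [h3]; exact hPσ
      · exact hδ' r h3 (by linarith) (by linarith)
    exact absurd (le_csSup hbdd hsA) (not_le.2 hs1)

section families

variable {ι : Type*}

/-- A monotone family of finite sets is constant just after every time. -/
theorem ev_const_right {T : ℝ} {S : ℝ → Finset ι}
    (hS : ∀ s s', 0 ≤ s → s ≤ s' → s' ≤ T → S s ⊆ S s') {t : ℝ} (ht : 0 ≤ t) (htT : t < T) :
    ∃ δ > 0, ∃ A : Finset ι, ∀ s, t < s → s < t + δ → s ≤ T → S s = A := by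
  have hne : (Finset.card '' (S '' Ioc t T)).Nonempty :=
    (Nonempty.image _ (Nonempty.image _ (nonempty_Ioc.2 htT)))
  obtain ⟨_, ⟨s0, hs0, rfl⟩, hcard⟩ := Nat.sInf_mem hne
  refine ⟨s0 - t, sub_pos.2 hs0.1, S s0, fun s h1 h2 h3 => ?_⟩
  have h4 : s ≤ s0 := by linarith
  refine Finset.eq_of_subset_of_card_le (hS s s0 (by linarith) h4 hs0.2) ?_
  rw [hcard]
  exact Nat.sInf_le ⟨_, ⟨s, ⟨h1, h3⟩, rfl⟩, rfl⟩

/-- A monotone family of finite subsets of a finite type is constant just before every time. -/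
theorem ev_const_left [Fintype ι] [DecidableEq ι] {T : ℝ} {S : ℝ → Finset ι}
    (hS : ∀ s s', 0 ≤ s → s ≤ s' → s' ≤ T → S s ⊆ S s') {t : ℝ} (ht : 0 < t) (htT : t ≤ T) :
    ∃ δ > 0, ∃ A : Finset ι, ∀ s, t - δ < s → s < t → 0 ≤ s → S s = A := by
  have hne : ((fun A : Finset ι => Finset.card Aᶜ) '' (S '' Ico 0 t)).Nonempty :=
    (Nonempty.image _ (Nonempty.image _ (nonempty_Ico.2 ht)))
  obtain ⟨_, ⟨s0, hs0, rfl⟩, hcard⟩ := Nat.sInf_mem hne
  refine ⟨t - s0, sub_pos.2 hs0.2, S s0, fun s h1 h2 h3 => ?_⟩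
  have h4 : s0 ≤ s := by linarith
  have h5 : (S s)ᶜ = (S s0)ᶜ := by
    refine Finset.eq_of_subset_of_card_le
      (Finset.compl_subset_compl.2 (hS s0 s hs0.1 h4 (h2.le.trans htT))) ?_
    simp only at hcard
    rw [hcard]
    exact Nat.sInf_le ⟨_, ⟨s, ⟨h3, h2⟩, rfl⟩, rfl⟩
  exact compl_injective h5

end families

/-! ## Energy of a sub-family -/

section energy

variable {ι : Type*}

/-- The energy of the sub-family `A`. -/
noncomputable def eng (Φ : Space3 → ℝ) (ε : ℝ) (A : Finset ι) (Z : ι → PhasePoint) : ℝ :=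
  (1 / 2) * ∑ i ∈ A, ‖(Z i).2‖ ^ 2 +
    (1 / 2) * (∑ i ∈ A, ∑ j ∈ A, Φ ((1 / ε) • ((Z i).1 - (Z j).1)) - A.card * Φ 0)

@[simp] theorem eng_empty (Φ : Space3 → ℝ) (ε : ℝ) (Z : ι → PhasePoint) : eng Φ ε ∅ Z = 0 := by
  simp [eng]

theorem energy_subtype (Φ : Space3 → ℝ) (ε : ℝ) (A : Finset ι) (Z : ι → PhasePoint) :
    energy Φ ε (fun i : A => Z i) = eng Φ ε A Z := by
  unfold energy eng
  congr 2
  · exact Finset.sum_coe_sort A fun i => ‖(Z i).2‖ ^ 2
  · rw [Fintype.card_coe]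
    congr 1
    rw [← Finset.sum_coe_sort A]
    exact Finset.sum_congr rfl fun i _ =>
      Finset.sum_coe_sort A fun j => Φ ((1 / ε) • ((Z i).1 - (Z j).1))

theorem eng_univ [Fintype ι] (Φ : Space3 → ℝ) (ε : ℝ) (Z : ι → PhasePoint) :
    eng Φ ε Finset.univ Z = energy Φ ε Z := rfl

theorem far_zero {Φ : Space3 → ℝ} (hΦ : AdmissiblePotential Φ) {ε : ℝ} (hε : 0 < ε) {x y : Space3}
    (h : ε ≤ dist x y) : Φ ((1 / ε) • (x - y)) = 0 :=
  hΦ.eq_zero_of_one_le_norm _ (one_le_norm_smul hε h)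

/-- Additivity over groups at mutual distance at least `ε`. -/
theorem eng_union {Φ : Space3 → ℝ} (hΦ : AdmissiblePotential Φ) {ε : ℝ} (hε : 0 < ε)
    [DecidableEq ι] {A B : Finset ι} (hAB : Disjoint A B) {Z : ι → PhasePoint}
    (h : ∀ i ∈ A, ∀ j ∈ B, ε ≤ dist (Z i).1 (Z j).1) :
    eng Φ ε (A ∪ B) Z = eng Φ ε A Z + eng Φ ε B Z := by
  unfold eng
  have h1 : ∑ i ∈ A, ∑ j ∈ B, Φ ((1 / ε) • ((Z i).1 - (Z j).1)) = 0 :=
    Finset.sum_eq_zero fun i hi => Finset.sum_eq_zero fun j hj => far_zero hΦ hε (h i hi j hj)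
  have h2 : ∑ i ∈ B, ∑ j ∈ A, Φ ((1 / ε) • ((Z i).1 - (Z j).1)) = 0 :=
    Finset.sum_eq_zero fun i hi => Finset.sum_eq_zero fun j hj =>
      far_zero hΦ hε (by rw [dist_comm]; exact h j hj i hi)
  simp only [Finset.sum_union hAB, Finset.sum_add_distrib, Finset.card_union_of_disjoint hAB,
    Nat.cast_add, h1, h2]
  ring

theorem eng_eq_kin {Φ : Space3 → ℝ} (hΦ : AdmissiblePotential Φ) {ε : ℝ} (hε : 0 < ε)
    {A : Finset ι} {Z : ι → PhasePoint}
    (h : ∀ i ∈ A, ∀ j ∈ A, i ≠ j → ε ≤ dist (Z i).1 (Z j).1) :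
    eng Φ ε A Z = (1 / 2) * ∑ i ∈ A, ‖(Z i).2‖ ^ 2 := by
  classical
  induction A using Finset.induction_on with
  | empty => simp
  | insert a A ha ih =>
    have h1 : insert a A = {a} ∪ A := rfl
    rw [h1, eng_union hΦ hε (Finset.disjoint_singleton_left.2 ha), ih, Finset.sum_union
      (Finset.disjoint_singleton_left.2 ha)]
    · simp [eng]
      ring
    · intro i hi j hj hij
      exact h i (Finset.mem_insert_of_mem hi) j (Finset.mem_insert_of_mem hj) hij
    · intro i hi j hj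
      rw [Finset.mem_singleton] at hi
      subst hi
      exact h i (Finset.mem_insert_self _ _) j (Finset.mem_insert_of_mem hj)
        (fun h => ha (h ▸ hj))

/-- The sub-family `A` is isolated (non-strictly) at the configuration `Z`. -/
def Iso (ε : ℝ) (A : Finset ι) (Z : ι → PhasePoint) : Prop :=
  ∀ i ∈ A, ∀ j ∉ A, ε ≤ dist (Z i).1 (Z j).1

variable [Fintype ι]

theorem eng_hasDerivAt {Φ : Space3 → ℝ} (hΦ : AdmissiblePotential Φ) {ε : ℝ} (hε : 0 < ε)
    {z : ℝ → ι → PhasePoint} {t : ℝ} (hz : HasDerivAt z (nf Φ ε (z t)) t)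
    (hD : z t ∈ Dom Φ ι) {A : Finset ι} (hA : Iso ε A (z t)) :
    HasDerivAt (fun s => eng Φ ε A (z s)) 0 t := by
  have h1 : HasDerivAt (fun s => (fun i : A => z s i)) (nf Φ ε (fun i : A => z t i)) t := by
    have h2 : HasDerivAt (fun s => (fun i : A => z s i)) (fun i : A => nf Φ ε (z t) i) t := by
      rw [hasDerivAt_pi]
      exact fun i => (hasDerivAt_pi.1 hz) i
    have h3 := nf_comp hΦ hε (Function.Embedding.subtype fun i => i ∈ A) (z t) (by
      rintro ⟨i, hi⟩ j hj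
      refine hA i hi j fun hjA => hj ⟨⟨j, hjA⟩, rfl⟩)
    have h4 : nf Φ ε (fun i : A => z t i) = fun i : A => nf Φ ε (z t) i := h3
    rw [h4]
    exact h2
  have h5 := energy_hasDerivAt_zero (γ := fun s => (fun i : A => z s i)) (grad_neg hΦ) h1 (by
    intro i j hij
    rcases hD with hD | hD
    · exact (hD.differentiable (by norm_num)) _
    · have hne : (1 / ε) • ((z t i).1 - (z t j).1) ≠ 0 := by
        rw [smul_ne_zero_iff]
        exact ⟨by positivity, sub_ne_zero.2 (hD i j fun h => hij (Subtype.ext h))⟩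
      exact (hΦ.contDiff_away_from_origin.contDiffAt (isOpen_ne.mem_nhds hne)).differentiableAt
        (by norm_num))
  have h6 : (fun s => energy Φ ε (fun i : A => z s i)) = fun s => eng Φ ε A (z s) :=
    funext fun s => energy_subtype Φ ε A (z s)
  rw [← h6]
  exact h5

/-- Energy conservation for an isolated group. -/
theorem eng_const {Φ : Space3 → ℝ} (hΦ : AdmissiblePotential Φ) {ε : ℝ} (hε : 0 < ε)
    {z : ℝ → ι → PhasePoint} {a b : ℝ} (hab : a ≤ b)
    (hz : ∀ t ∈ Icc a b, HasDerivAt z (nf Φ ε (z t)) t) (hD : ∀ t ∈ Icc a b, z t ∈ Dom Φ ι)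
    {A : Finset ι} (hA : ∀ t ∈ Icc a b, Iso ε A (z t)) : eng Φ ε A (z b) = eng Φ ε A (z a) := by
  have h1 : ∀ t ∈ Icc a b, HasDerivAt (fun s => eng Φ ε A (z s)) 0 t := fun t ht =>
    eng_hasDerivAt hΦ hε (hz t ht) (hD t ht) (hA t ht)
  exact constant_of_has_deriv_right_zero
    (fun t ht => (h1 t ht).continuousAt.continuousWithinAt)
    (fun t ht => (h1 t (Ico_subset_Icc_self ht)).hasDerivWithinAt) b (right_mem_Icc.2 hab)

end energy

/-! ## Worlds -/

section world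

variable {ι : Type*} [Fintype ι]

/-- The dynamical input: a solution of Newton's equations on `[0, T]` from pairwise excluded data,
with the stability lower bound for all sub-families. -/
structure World (Φ : Space3 → ℝ) (ε T B : ℝ) (z : ℝ → ι → PhasePoint) : Prop where
  der : ∀ t ∈ Icc 0 T, HasDerivAt z (nf Φ ε (z t)) t
  dom : ∀ t ∈ Icc 0 T, z t ∈ Dom Φ ι
  stab : ∀ t ∈ Icc 0 T, ∀ A : Finset ι,
    (1 / 2) * ∑ i ∈ A, ‖(z t i).2‖ ^ 2 - B * A.card ≤ eng Φ ε A (z t)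
  init : ∀ i j, i ≠ j → ε ≤ dist (z 0 i).1 (z 0 j).1
  nonneg : 0 ≤ B

theorem World.mono {Φ : Space3 → ℝ} {ε T T' B : ℝ} {z : ℝ → ι → PhasePoint}
    (W : World Φ ε T B z) (h : T' ≤ T) : World Φ ε T' B z where
  der t ht := W.der t ⟨ht.1, ht.2.trans h⟩
  dom t ht := W.dom t ⟨ht.1, ht.2.trans h⟩
  stab t ht := W.stab t ⟨ht.1, ht.2.trans h⟩
  init := W.init
  nonneg := W.nonneg

variable {Φ : Space3 → ℝ} {ε T B : ℝ} {z : ℝ → ι → PhasePoint}

theorem World.neg_le (W : World Φ ε T B z) {t : ℝ} (ht : t ∈ Icc 0 T) (A : Finset ι) :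
    -(B * A.card) ≤ eng Φ ε A (z t) := by
  have h1 := W.stab t ht A
  have h2 : 0 ≤ ∑ i ∈ A, ‖(z t i).2‖ ^ 2 := Finset.sum_nonneg fun i _ => by positivity
  linarith

theorem World.continuousAt_dist (W : World Φ ε T B z) {t : ℝ} (ht : t ∈ Icc 0 T) (i j : ι) :
    ContinuousAt (fun s => dist (z s i).1 (z s j).1) t := by
  have h1 : ContinuousAt z t := (W.der t ht).continuousAt
  have h2 : ∀ i, ContinuousAt (fun s => (z s i).1) t := fun i => ((continuousAt_pi.1 h1) i).fst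
  exact (h2 i).dist (h2 j)

theorem World.le_of_right (W : World Φ ε T B z) {t δ : ℝ} (ht : 0 ≤ t) (htT : t < T) (hδ : 0 < δ)
    {i j : ι} (h : ∀ s, t < s → s < t + δ → s ≤ T → ε < dist (z s i).1 (z s j).1) :
    ε ≤ dist (z t i).1 (z t j).1 := by
  have h1 : Tendsto (fun s => dist (z s i).1 (z s j).1) (𝓝[>] t) (𝓝 (dist (z t i).1 (z t j).1)) :=
    (W.continuousAt_dist ⟨ht, htT.le⟩ i j).tendsto.mono_left nhdsWithin_le_nhds
  refine ge_of_tendsto h1 ?_
  have h2 : Ioo t (min (t + δ) T) ∈ 𝓝[>] t := Ioo_mem_nhdsGT (lt_min (by linarith) htT)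
  filter_upwards [h2] with s hs
  exact (h s hs.1 (hs.2.trans_le (min_le_left _ _)) (hs.2.le.trans (min_le_right _ _))).le

theorem World.le_of_left (W : World Φ ε T B z) {t δ : ℝ} (ht : 0 < t) (htT : t ≤ T) (hδ : 0 < δ)
    {i j : ι} (h : ∀ s, t - δ < s → s < t → 0 ≤ s → ε < dist (z s i).1 (z s j).1) :
    ε ≤ dist (z t i).1 (z t j).1 := by
  have h1 : Tendsto (fun s => dist (z s i).1 (z s j).1) (𝓝[<] t) (𝓝 (dist (z t i).1 (z t j).1)) :=
    (W.continuousAt_dist ⟨ht.le, htT⟩ i j).tendsto.mono_left nhdsWithin_le_nhds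
  refine ge_of_tendsto h1 ?_
  have h2 : Ioo (max (t - δ) 0) t ∈ 𝓝[<] t := Ioo_mem_nhdsLT (max_lt (by linarith) ht)
  filter_upwards [h2] with s hs
  exact (h s ((le_max_left _ _).trans_lt hs.1) hs.2 ((le_max_right _ _).trans hs.1.le)).le

theorem World.eng_const (hΦ : AdmissiblePotential Φ) (hε : 0 < ε) (W : World Φ ε T B z) {a b : ℝ}
    (ha : 0 ≤ a) (hab : a ≤ b) (hb : b ≤ T) {A : Finset ι}
    (hA : ∀ t ∈ Icc a b, Iso ε A (z t)) : eng Φ ε A (z b) = eng Φ ε A (z a) :=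
  Energy410.eng_const hΦ hε hab (fun t ht => W.der t ⟨ha.trans ht.1, ht.2.trans hb⟩)
    (fun t ht => W.dom t ⟨ha.trans ht.1, ht.2.trans hb⟩) hA

variable [DecidableEq ι]

/-- **Release of particles.** Along an antitone isolated family the energy plus `B` times the number
of particles does not increase. -/
theorem antitone_family (hΦ : AdmissiblePotential Φ) (hε : 0 < ε) (W : World Φ ε T B z)
    {A : ℝ → Finset ι} (hA : ∀ s s', 0 ≤ s → s ≤ s' → s' ≤ T → A s' ⊆ A s)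
    (hiso : ∀ s, 0 ≤ s → s ≤ T → ∀ i ∈ A s, ∀ j ∉ A s, ε < dist (z s i).1 (z s j).1) :
    ∀ t, 0 ≤ t → t ≤ T →
      eng Φ ε (A t) (z t) + B * (A t).card ≤ eng Φ ε (A 0) (z 0) + B * (A 0).card := by
  have hmono : ∀ s s', 0 ≤ s → s ≤ s' → s' ≤ T → (A s)ᶜ ⊆ (A s')ᶜ := fun s s' h1 h2 h3 =>
    Finset.compl_subset_compl.2 (hA s s' h1 h2 h3)
  refine real_induction le_rfl ?_ ?_
  · intro t ht htT hP
    obtain ⟨δ, hδ, C, hC⟩ := ev_const_right hmono ht htT
    refine ⟨δ, hδ, fun s h1 h2 h3 => ?_⟩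
    set A' := Cᶜ with hA'
    have hAs : ∀ r, t < r → r < t + δ → r ≤ T → A r = A' := fun r h4 h5 h6 => by
      rw [hA', ← hC r h4 h5 h6, compl_compl]
    have hsub : A' ⊆ A t := by
      rw [← hAs s h1 h2 h3]; exact hA t s ht h1.le h3
    have hisot : Iso ε A' (z t) := fun i hi j hj => W.le_of_right ht htT hδ fun r h4 h5 h6 => by
      have h7 := hAs r h4 h5 h6
      exact hiso r (ht.trans h4.le) h6 i (h7 ▸ hi) j (h7 ▸ hj)
    have hcons : eng Φ ε A' (z s) = eng Φ ε A' (z t) := W.eng_const hΦ hε ht h1.le h3 (by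
      intro r hr
      rcases hr.1.eq_or_lt with h4 | h4
      · rw [← h4]; exact hisot
      · have h5 : r < t + δ := hr.2.trans_lt h2
        have h7 := hAs r h4 h5 (hr.2.trans h3)
        exact fun i hi j hj => (hiso r (ht.trans h4.le) (hr.2.trans h3) i (h7 ▸ hi) j (h7 ▸ hj)).le)
    set R := A t \ A' with hR
    have hun : A' ∪ R = A t := Finset.union_sdiff_of_subset hsub
    have hdis : Disjoint A' R := Finset.disjoint_sdiff
    have hadd : eng Φ ε (A t) (z t) = eng Φ ε A' (z t) + eng Φ ε R (z t) := by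
      rw [← hun]
      exact eng_union hΦ hε hdis fun i hi j hj => hisot i hi j (Finset.mem_sdiff.1 hj).2
    have hcard : ((A t).card : ℝ) = A'.card + R.card := by
      rw [← hun, Finset.card_union_of_disjoint hdis, Nat.cast_add]
    have hR' := W.neg_le ⟨ht, htT.le⟩ R
    rw [hAs s h1 h2 h3, hcons]
    have : eng Φ ε A' (z t) + B * A'.card ≤ eng Φ ε (A t) (z t) + B * (A t).card := by
      rw [hadd, hcard]
      nlinarith
    exact this.trans hP
  · intro t ht htT hP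
    obtain ⟨δ, hδ, C, hC⟩ := ev_const_left hmono ht htT
    set A' := Cᶜ with hA'
    have hAs : ∀ r, t - δ < r → r < t → 0 ≤ r → A r = A' := fun r h4 h5 h6 => by
      rw [hA', ← hC r h4 h5 h6, compl_compl]
    set s := max 0 (t - δ / 2) with hs
    have hs0 : 0 ≤ s := le_max_left _ _
    have hst : s < t := max_lt ht (by linarith)
    have hsδ : t - δ < s := lt_of_lt_of_le (by linarith) (le_max_right _ _)
    have hsub : A t ⊆ A' := by
      rw [← hAs s hsδ hst hs0]; exact hA s t hs0 hst.le htT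
    have hisot : Iso ε A' (z t) := fun i hi j hj => W.le_of_left ht htT hδ fun r h4 h5 h6 => by
      have h7 := hAs r h4 h5 h6
      exact hiso r h6 (h5.le.trans htT) i (h7 ▸ hi) j (h7 ▸ hj)
    have hcons : eng Φ ε A' (z t) = eng Φ ε A' (z s) := W.eng_const hΦ hε hs0 hst.le htT (by
      intro r hr
      rcases hr.2.eq_or_lt with h4 | h4
      · rw [h4]; exact hisot
      · have h5 : t - δ < r := hsδ.trans_le hr.1
        have h7 := hAs r h5 h4 (hs0.trans hr.1)
        exact fun i hi j hj =>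
          (hiso r (hs0.trans hr.1) (h4.le.trans htT) i (h7 ▸ hi) j (h7 ▸ hj)).le)
    set R := A' \ A t with hR
    have hun : A t ∪ R = A' := Finset.union_sdiff_of_subset hsub
    have hdis : Disjoint (A t) R := Finset.disjoint_sdiff
    have hadd : eng Φ ε A' (z t) = eng Φ ε (A t) (z t) + eng Φ ε R (z t) := by
      rw [← hun]
      exact eng_union hΦ hε hdis fun i hi j hj =>
        (hiso t ht.le htT i hi j (Finset.mem_sdiff.1 hj).2).le
    have hcard : (A'.card : ℝ) = (A t).card + R.card := by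
      rw [← hun, Finset.card_union_of_disjoint hdis, Nat.cast_add]
    have hR' := W.neg_le ⟨ht.le, htT⟩ R
    have hPs := hP s hs0 hst
    rw [hAs s hsδ hst hs0] at hPs
    rw [← hcons, hadd, hcard] at hPs
    nlinarith

omit [DecidableEq ι]

/-- The weight of a set of particles: initial kinetic energies plus `B` times the number. -/
noncomputable def Wt (B : ℝ) (Z : ι → PhasePoint) (A : Set ι) : ℝ :=
  ∑ b, A.indicator (fun b => (1 / 2) * ‖(Z b).2‖ ^ 2 + B) b

theorem Wt_nonneg {Bc : ℝ} (hB : 0 ≤ Bc) (Z : ι → PhasePoint) (A : Set ι) : 0 ≤ Wt Bc Z A :=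
  Finset.sum_nonneg fun b _ => Set.indicator_nonneg (fun b _ => by positivity) b

theorem Wt_mono {Bc : ℝ} (hB : 0 ≤ Bc) (Z : ι → PhasePoint) {A A' : Set ι} (h : A ⊆ A') :
    Wt Bc Z A ≤ Wt Bc Z A' :=
  Finset.sum_le_sum fun b _ =>
    Set.indicator_le_indicator_of_subset h (fun b => by positivity) b

theorem Wt_biUnion_le {Bc : ℝ} (hB : 0 ≤ Bc) (Z : ι → PhasePoint) (G : Finset ι) (A : ι → Set ι) :
    Wt Bc Z (⋃ p ∈ G, A p) ≤ ∑ p ∈ G, Wt Bc Z (A p) := by
  unfold Wt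
  rw [Finset.sum_comm]
  refine Finset.sum_le_sum fun b _ => ?_
  by_cases hb : b ∈ ⋃ p ∈ G, A p
  · rw [Set.indicator_of_mem hb]
    simp only [mem_iUnion] at hb
    obtain ⟨p, hp, hbp⟩ := hb
    have h1 := Finset.single_le_sum (f := fun p => (A p).indicator
      (fun b => (1 / 2) * ‖(Z b).2‖ ^ 2 + Bc) b)
      (fun p _ => Set.indicator_nonneg (fun b _ => by positivity) b) hp
    simp only [Set.indicator_of_mem hbp] at h1
    exact h1
  · rw [Set.indicator_of_notMem hb]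
    exact Finset.sum_nonneg fun p _ => Set.indicator_nonneg (fun b _ => by positivity) b

theorem Wt_coe (Bc : ℝ) (Z : ι → PhasePoint) (A : Finset ι) :
    Wt Bc Z (A : Set ι) = ∑ b ∈ A, ((1 / 2) * ‖(Z b).2‖ ^ 2 + Bc) := by
  unfold Wt
  exact Finset.sum_indicator_subset _ (Finset.subset_univ A)

theorem Wt_singleton (Bc : ℝ) (Z : ι → PhasePoint) (p : ι) :
    Wt Bc Z {p} = (1 / 2) * ‖(Z p).2‖ ^ 2 + Bc := by
  have := Wt_coe Bc Z {p}
  rwa [Finset.coe_singleton, Finset.sum_singleton] at this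

/-- The energy of an isolated group is at most the weight of its backward clusters. -/
theorem eng_root_le (hΦ : AdmissiblePotential Φ) (hε : 0 < ε) (W : World Φ ε T B z) {s : ℝ}
    (hs : 0 ≤ s) (hsT : s ≤ T) {G : Finset ι} (hG : Iso ε G (z s)) :
    eng Φ ε G (z s) ≤ Wt B (z 0) (⋃ p ∈ G, BC (Ct z ε) s p) := by
  classical
  set A : ℝ → Finset ι := fun r => Finset.univ.filter fun k => ∃ p ∈ G, Past (Ct z ε) s p r k
    with hA
  have hmem : ∀ r k, k ∈ A r ↔ ∃ p ∈ G, Past (Ct z ε) s p r k := by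
    intro r k; simp [hA]
  have hanti : ∀ r r', 0 ≤ r → r ≤ r' → r' ≤ s → A r' ⊆ A r := by
    intro r r' _ h2 _ k hk
    rw [hmem] at hk ⊢
    obtain ⟨p, hp, hk⟩ := hk
    exact ⟨p, hp, hk.mono h2⟩
  have hiso : ∀ r, 0 ≤ r → r ≤ s → ∀ i ∈ A r, ∀ j ∉ A r, ε < dist (z r i).1 (z r j).1 := by
    intro r _ _ i hi j hj
    by_contra hle
    push Not at hle
    rw [hmem] at hi hj
    obtain ⟨p, hp, hi⟩ := hi
    exact hj ⟨p, hp, hi.contact hle⟩
  have h1 := antitone_family hΦ hε (W.mono hsT) hanti hiso s hs le_rfl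
  have hGA : G ⊆ A s := fun p hp => (hmem s p).2 ⟨p, hp, .root le_rfl⟩
  have h0 : eng Φ ε (A 0) (z 0) + B * (A 0).card = Wt B (z 0) (⋃ p ∈ G, BC (Ct z ε) s p) := by
    have h2 : (⋃ p ∈ G, BC (Ct z ε) s p) = ((A 0 : Finset ι) : Set ι) := by
      ext k
      simp only [mem_iUnion, mem_BC, Finset.mem_coe, hmem, exists_prop]
    rw [h2, Wt_coe, eng_eq_kin hΦ hε fun i _ j _ hij => W.init i j hij, Finset.sum_add_distrib,
      Finset.mul_sum, Finset.sum_const, nsmul_eq_mul]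
    ring
  rw [h0] at h1
  set R := A s \ G with hR
  have hun : G ∪ R = A s := Finset.union_sdiff_of_subset hGA
  have hdis : Disjoint G R := Finset.disjoint_sdiff
  have hadd : eng Φ ε (A s) (z s) = eng Φ ε G (z s) + eng Φ ε R (z s) := by
    rw [← hun]
    exact eng_union hΦ hε hdis fun i hi j hj => hG i hi j (Finset.mem_sdiff.1 hj).2
  have hcard : ((A s).card : ℝ) = G.card + R.card := by
    rw [← hun, Finset.card_union_of_disjoint hdis, Nat.cast_add]
  have hR' := W.neg_le ⟨hs, hsT⟩ R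
  have hB := W.nonneg
  have hGc : 0 ≤ B * (G.card : ℝ) := by positivity
  rw [hadd, hcard] at h1
  nlinarith

/-- **Energy of the infected set.** `S` is a monotone isolated family; `w p` bounds the weight of
all backward clusters of `p` at times at which `p` does not belong to `S`. -/
theorem infected_energy_le (hΦ : AdmissiblePotential Φ) (hε : 0 < ε) (W : World Φ ε T B z)
    {S : ℝ → Finset ι} (hmono : ∀ s s', 0 ≤ s → s ≤ s' → s' ≤ T → S s ⊆ S s')
    (hiso : ∀ s, 0 ≤ s → s ≤ T → ∀ i ∈ S s, ∀ j ∉ S s, ε < dist (z s i).1 (z s j).1)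
    {w : ι → ℝ} (hw0 : ∀ p ∈ S 0, (1 / 2) * ‖(z 0 p).2‖ ^ 2 ≤ w p)
    (hw : ∀ s, 0 ≤ s → s ≤ T → ∀ p ∉ S s, p ∈ S T → Wt B (z 0) (BC (Ct z ε) s p) ≤ w p) :
    ∀ t, 0 ≤ t → t ≤ T → eng Φ ε (S t) (z t) ≤ ∑ p ∈ S t, w p := by
  classical
  refine real_induction ?_ ?_ ?_
  · rw [eng_eq_kin hΦ hε fun i _ j _ hij => W.init i j hij, Finset.mul_sum]
    exact Finset.sum_le_sum hw0
  · intro t ht htT hP
    obtain ⟨δ, hδ, A', hAs⟩ := ev_const_right hmono ht htT
    refine ⟨δ, hδ, fun s h1 h2 h3 => ?_⟩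
    have hsub : S t ⊆ A' := by
      rw [← hAs s h1 h2 h3]; exact hmono t s ht h1.le h3
    have hA'T : A' ⊆ S T := by
      rw [← hAs s h1 h2 h3]; exact hmono s T (ht.trans h1.le) h3 le_rfl
    have hisot : Iso ε A' (z t) := fun i hi j hj => W.le_of_right ht htT hδ fun r h4 h5 h6 => by
      have h7 := hAs r h4 h5 h6
      exact hiso r (ht.trans h4.le) h6 i (h7 ▸ hi) j (h7 ▸ hj)
    have hcons : eng Φ ε A' (z s) = eng Φ ε A' (z t) := W.eng_const hΦ hε ht h1.le h3 (by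
      intro r hr
      rcases hr.1.eq_or_lt with h4 | h4
      · rw [← h4]; exact hisot
      · have h5 : r < t + δ := hr.2.trans_lt h2
        have h7 := hAs r h4 h5 (hr.2.trans h3)
        exact fun i hi j hj => (hiso r (ht.trans h4.le) (hr.2.trans h3) i (h7 ▸ hi) j (h7 ▸ hj)).le)
    set G := A' \ S t with hG
    have hun : S t ∪ G = A' := Finset.union_sdiff_of_subset hsub
    have hdis : Disjoint (S t) G := Finset.disjoint_sdiff
    have hcross : ∀ i ∈ S t, ∀ j ∈ G, ε ≤ dist (z t i).1 (z t j).1 := fun i hi j hj =>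
      (hiso t ht htT.le i hi j (Finset.mem_sdiff.1 hj).2).le
    have hadd : eng Φ ε A' (z t) = eng Φ ε (S t) (z t) + eng Φ ε G (z t) := by
      rw [← hun]
      exact eng_union hΦ hε hdis hcross
    have hGiso : Iso ε G (z t) := by
      intro i hi j hj
      by_cases hjS : j ∈ S t
      · rw [dist_comm]; exact hcross j hjS i hi
      · exact hisot i (Finset.mem_sdiff.1 hi).1 j fun hjA => hj (Finset.mem_sdiff.2 ⟨hjA, hjS⟩)
    have hGle := eng_root_le hΦ hε W ht htT.le hGiso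
    have hGle' : Wt B (z 0) (⋃ p ∈ G, BC (Ct z ε) t p) ≤ ∑ p ∈ G, w p :=
      (Wt_biUnion_le W.nonneg _ _ _).trans (Finset.sum_le_sum fun p hp =>
        hw t ht htT.le p (Finset.mem_sdiff.1 hp).2 (hA'T (Finset.mem_sdiff.1 hp).1))
    rw [hAs s h1 h2 h3, hcons, hadd]
    rw [← hun, Finset.sum_union hdis]
    linarith
  · intro t ht htT hP
    obtain ⟨δ, hδ, A', hAs⟩ := ev_const_left hmono ht htT
    have hs0' : 0 ≤ max 0 (t - δ / 2) := le_max_left _ _
    have hst' : max 0 (t - δ / 2) < t := max_lt ht (by linarith)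
    have hsδ' : t - δ < max 0 (t - δ / 2) := lt_of_lt_of_le (by linarith) (le_max_right _ _)
    have hsub : A' ⊆ S t := by
      rw [← hAs _ hsδ' hst' hs0']; exact hmono _ t hs0' hst'.le htT
    have hStT : S t ⊆ S T := hmono t T ht.le htT le_rfl
    have hisot : Iso ε A' (z t) := fun i hi j hj => W.le_of_left ht htT hδ fun r h4 h5 h6 => by
      have h7 := hAs r h4 h5 h6
      exact hiso r h6 (h5.le.trans htT) i (h7 ▸ hi) j (h7 ▸ hj)
    -- strict isolation of `S t` just before `t`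
    obtain ⟨η, hη, hηiso⟩ : ∃ η > 0, ∀ r, t - η < r → r ≤ t → ∀ i ∈ S t, ∀ j ∉ S t,
        ε < dist (z r i).1 (z r j).1 := by
      have hev : ∀ᶠ r in 𝓝 t, ∀ i ∈ S t, ∀ j ∈ (S t)ᶜ, ε < dist (z r i).1 (z r j).1 := by
        rw [Filter.eventually_all_finset]
        intro i hi
        rw [Filter.eventually_all_finset]
        intro j hj
        exact (W.continuousAt_dist ⟨ht.le, htT⟩ i j).eventually
          (lt_mem_nhds (hiso t ht.le htT i hi j (Finset.mem_compl.1 hj)))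
      obtain ⟨η, hη, h⟩ := Metric.eventually_nhds_iff.1 hev
      refine ⟨η, hη, fun r h1 h2 i hi j hj => h ?_ i hi j (Finset.mem_compl.2 hj)⟩
      rw [Real.dist_eq, abs_of_nonpos (by linarith)]
      linarith
    set s := max (max 0 (t - δ / 2)) (t - η / 2) with hs
    have hs0 : 0 ≤ s := hs0'.trans (le_max_left _ _)
    have hst : s < t := max_lt hst' (by linarith)
    have hsδ : t - δ < s := hsδ'.trans_le (le_max_left _ _)
    have hsη : t - η < s := lt_of_lt_of_le (by linarith) (le_max_right _ _)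
    have hsS : S s = A' := hAs s hsδ hst hs0
    have hcons : eng Φ ε A' (z t) = eng Φ ε A' (z s) := W.eng_const hΦ hε hs0 hst.le htT (by
      intro r hr
      rcases hr.2.eq_or_lt with h4 | h4
      · rw [h4]; exact hisot
      · have h5 : t - δ < r := hsδ.trans_le hr.1
        have h7 := hAs r h5 h4 (hs0.trans hr.1)
        exact fun i hi j hj =>
          (hiso r (hs0.trans hr.1) (h4.le.trans htT) i (h7 ▸ hi) j (h7 ▸ hj)).le)
    set G := S t \ A' with hG
    have hun : A' ∪ G = S t := Finset.union_sdiff_of_subset hsub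
    have hdis : Disjoint A' G := Finset.disjoint_sdiff
    have hcross : ∀ r, s ≤ r → r ≤ t → ∀ i ∈ A', ∀ j ∈ G, ε ≤ dist (z r i).1 (z r j).1 := by
      intro r h1 h2 i hi j hj
      rcases h2.eq_or_lt with h4 | h4
      · rw [h4]; exact hisot i hi j (Finset.mem_sdiff.1 hj).2
      · have h7 := hAs r (hsδ.trans_le h1) h4 (hs0.trans h1)
        exact (hiso r (hs0.trans h1) (h4.le.trans htT) i (h7 ▸ hi) j
          (h7 ▸ (Finset.mem_sdiff.1 hj).2)).le
    have hadd : eng Φ ε (S t) (z t) = eng Φ ε A' (z t) + eng Φ ε G (z t) := by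
      rw [← hun]
      exact eng_union hΦ hε hdis (hcross t hst.le le_rfl)
    have hGiso : ∀ r ∈ Icc s t, Iso ε G (z r) := by
      intro r hr i hi j hj
      by_cases hjS : j ∈ A'
      · rw [dist_comm]; exact hcross r hr.1 hr.2 j hjS i hi
      · exact (hηiso r (hsη.trans_le hr.1) hr.2 i (Finset.mem_sdiff.1 hi).1 j
          fun hjA => hj (Finset.mem_sdiff.2 ⟨hjA, hjS⟩)).le
    have hGcons : eng Φ ε G (z t) = eng Φ ε G (z s) := W.eng_const hΦ hε hs0 hst.le htT hGiso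
    have hGle := eng_root_le hΦ hε W hs0 (hst.le.trans htT) (hGiso s ⟨le_rfl, hst.le⟩)
    have hGle' : Wt B (z 0) (⋃ p ∈ G, BC (Ct z ε) s p) ≤ ∑ p ∈ G, w p :=
      (Wt_biUnion_le W.nonneg _ _ _).trans (Finset.sum_le_sum fun p hp =>
        hw s hs0 (hst.le.trans htT) p (by rw [hsS]; exact (Finset.mem_sdiff.1 hp).2)
          (hStT (Finset.mem_sdiff.1 hp).1))
    have hPs := hP s hs0 hst
    rw [hsS] at hPs
    rw [hadd, hcons, hGcons]
    rw [← hun, Finset.sum_union hdis]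
    linarith

/-- Kinetic energy of the infected set. -/
theorem infected_kin_le (hΦ : AdmissiblePotential Φ) (hε : 0 < ε) (W : World Φ ε T B z)
    {S : ℝ → Finset ι} (hmono : ∀ s s', 0 ≤ s → s ≤ s' → s' ≤ T → S s ⊆ S s')
    (hiso : ∀ s, 0 ≤ s → s ≤ T → ∀ i ∈ S s, ∀ j ∉ S s, ε < dist (z s i).1 (z s j).1)
    {w : ι → ℝ} (hw0 : ∀ p ∈ S 0, (1 / 2) * ‖(z 0 p).2‖ ^ 2 ≤ w p)
    (hw : ∀ s, 0 ≤ s → s ≤ T → ∀ p ∉ S s, p ∈ S T → Wt B (z 0) (BC (Ct z ε) s p) ≤ w p)
    {t : ℝ} (ht : 0 ≤ t) (htT : t ≤ T) :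
    (1 / 2) * ∑ i ∈ S t, ‖(z t i).2‖ ^ 2 ≤ ∑ p ∈ S t, (w p + B) := by
  have h1 := infected_energy_le hΦ hε W hmono hiso hw0 hw t ht htT
  have h2 := W.stab t ⟨ht, htT⟩ (S t)
  rw [Finset.sum_add_distrib, Finset.sum_const, nsmul_eq_mul]
  linarith

/-- The first moment of the speeds of the infected set, in the form used for fluxes. -/
theorem infected_speed_le (hΦ : AdmissiblePotential Φ) (hε : 0 < ε) (W : World Φ ε T B z)
    {S : ℝ → Finset ι} (hmono : ∀ s s', 0 ≤ s → s ≤ s' → s' ≤ T → S s ⊆ S s')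
    (hiso : ∀ s, 0 ≤ s → s ≤ T → ∀ i ∈ S s, ∀ j ∉ S s, ε < dist (z s i).1 (z s j).1)
    {w : ι → ℝ} (hw0 : ∀ p ∈ S 0, (1 / 2) * ‖(z 0 p).2‖ ^ 2 ≤ w p)
    (hw : ∀ s, 0 ≤ s → s ≤ T → ∀ p ∉ S s, p ∈ S T → Wt B (z 0) (BC (Ct z ε) s p) ≤ w p)
    {t : ℝ} (ht : 0 ≤ t) (htT : t ≤ T) :
    ∑ i ∈ S t, (1 + ‖(z t i).2‖) ≤ ∑ p ∈ S t, (w p + (B + 3 / 2)) := by
  have h1 := infected_kin_le hΦ hε W hmono hiso hw0 hw ht htT
  have h2 : ∑ i ∈ S t, (1 + ‖(z t i).2‖) ≤ ∑ i ∈ S t, (3 / 2 + (1 / 2) * ‖(z t i).2‖ ^ 2) :=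
    Finset.sum_le_sum fun i _ => by nlinarith [sq_nonneg (‖(z t i).2‖ - 1)]
  have h4 : ∑ i ∈ S t, (3 / 2 + (1 / 2) * ‖(z t i).2‖ ^ 2)
      = ∑ i ∈ S t, (3 / 2 : ℝ) + (1 / 2) * ∑ i ∈ S t, ‖(z t i).2‖ ^ 2 := by
    rw [Finset.sum_add_distrib, Finset.mul_sum]
  rw [h4] at h2
  refine h2.trans ?_
  have h3 : ∑ p ∈ S t, (w p + (B + 3 / 2)) = ∑ p ∈ S t, (w p + B) + ∑ p ∈ S t, (3 / 2 : ℝ) := by
    rw [← Finset.sum_add_distrib]
    exact Finset.sum_congr rfl fun p _ => by ring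
  rw [h3]
  linarith

end world

end Crest.Agent.R122.Energy410
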