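import Crest.Agent.R122.ErrA_815
import Crest.Agent.R122.BadX_974
import Crest.Agent.R122.ExclNull_302

/-!
helper815, row 122, the error term `errA` of SP-A (helper994), deterministic part.

`(z, w)` valid, separated up to `te`, excluded at time `0`, the tree real in `w + V` up to `te`, its
lines pairwise unlinked in `w` : the test lines of `badF` are not good in helper335's sense.
-/

set_option autoImplicit false
set_option linter.unusedSectionVars false

open MeasureTheory Set Filter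
open scoped ENNReal Topology
open Crest.AnalysisR.Kinetic
open Crest.Agent.R122.Kin796 Crest.Agent.R122.Kin796.CTree Crest.Agent.R122.Tree674
open Crest.Agent.R122.EDefs602 Crest.Agent.R122.TreeLines335 Crest.Agent.R122.LineMeas994
open Crest.Agent.R122.GC311 Crest.Agent.R122.Decomp811 Crest.Agent.R122.Master566
open Crest.Agent.R122.InEq2 Crest.Agent.R122.InEq2T Crest.Agent.R122.H5994
open Crest.Agent.R122.Weight984 Crest.Agent.R122.RealX974 Crest.Agent.R122.RetIn974
open Crest.Agent.R122.BadX974 Crest.Agent.R122.R6Tree974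
open Crest.Agent.R122.MWFam255 (FamNL PairNL)
open Crest.Agent.R122.E6Hyp879 (withD)
open Crest.Agent.R122.RtG302 (TNull TMaj)

noncomputable section

namespace Crest.Agent.R122.ErrAB815

open scoped Classical

variable {Φ : Space3 → ℝ} {f₀ : PhasePoint → ℝ} {ε te : ℝ} {K : ℕ} {P : CTree}
  {z : PhasePoint × Par P} {m : ℕ} {w : Config m} {l : ML}

/-- The tree and the gas exclude each other at time `0`. -/
theorem perp_lines (hV : Valid Φ ε P te z.1.2 z.2) (hp : PerpT Φ ε P z w) (k : Idx P)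
    (i : Fin m) : ε < dist (Tree674.lines Φ ε P z.1 z.2 k).1 (w i).1 := by
  have h := hp k i
  rwa [linesM_of_adm ε hV.1] at h

/-- The world of the tree and the gas is good. -/
theorem ok_treeW (hΦ : AdmissiblePotential Φ) (hε : 0 < ε) (hte : 0 ≤ te)
    (hV : Valid Φ ε P te z.1.2 z.2) (hS : Sep Φ ε P te z.1 z.2) (hw : w ∈ PairExcluded ε m)
    (hp : PerpT Φ ε P z w) : ((MW.cfg w).add (RealL811.treeW Φ ε P z)).Ok Φ ε := by
  rw [← comap1]
  refine MWFam255.Ok.relabel hΦ hε (Unw410.cfg_ok hΦ hε ?_) _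
  refine FM167.pairExcluded_append_iff.2 ⟨?_, hw, ?_⟩
  · exact Relabel674.confOf_excluded hε hte ⟨z.1, z.2, hV, hS, rfl⟩
  · intro i j
    have h := perp_lines hV hp ((Relabel674.eP P).symm i) j
    rwa [← cfT_apply, Equiv.apply_symm_apply] at h

/-- **World consistency of a good line**, tree real up to `te`. -/
theorem w1_good (hΦ : AdmissiblePotential Φ) (hε : 0 < ε) (hte : 0 < te) (hK : P.leaves ≤ K)
    (hV : Valid Φ ε P te z.1.2 z.2) (hS : Sep Φ ε P te z.1 z.2) (hw : w ∈ PairExcluded ε m)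
    (hp : PerpT Φ ε P z w)
    (ht : RealL811.TreeIn Φ ε ((MW.cfg w).add (RealL811.treeW Φ ε P z)) P z Sum.inr te)
    (hnl : PairNL Φ ε K te (MW.cfg w) (lineML Φ ε P z)) (hl : 0 ≤ l.1.1)
    (hg : GoodX Φ ε K te P z w l) :
    W1 (firstT Φ ε K te (MW.cfg w) (lineML Φ ε P z)) ((MW.cfg w).thetaL Φ ε K te l)
      (((MW.cfg w).add (RealL811.treeW Φ ε P z)).thetaL Φ ε K te l) := by
  have hg' := goodX_iff.1 hg
  have hok := ok_treeW hΦ hε hte.le hV hS hw hp
  have hnl' := pairNL_withD hnl hg'.nl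
  refine w1_treeAt (T' := te) hΦ hε hte.le hV hS hte hK (fun _ => le_rfl) hl
    (fun s _ _ _ _ => ht.mono (min_le_right _ _)) (fun s hs0 hsT hsF hsl => ?_) hok hg'.okr hg'.ok
    hnl'
  have hfam : FamNL Φ ε K te (MW.cfg w) (withD (lineML Φ ε P z) l) s :=
    MWFam255.famNL_of_pair hg'.ok hnl' hs0 hsT fun k => by
      rcases k with k | u
      · exact hsF.trans (firstT_le Φ ε K te (MW.cfg w) (lineML Φ ε P z) k)
      · exact hsl
  have hm0 : 0 ≤ min s te := le_min hs0 hte.le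
  have hR : RetHypX Φ ε K te te (min s te) (MW.cfg w) P z l :=
    ⟨hV, hS, min_le_right _ _, hK, fun _ => le_rfl, hl, ht.mono (min_le_right _ _), hok, hg'.okr,
      hfam.mono hm0 (min_le_left _ _), hg'.ret, fun k x _ => perp_lines hV hp k x⟩
  exact hR.treeIn_ins hΦ hε

/-- **The measure of `badF`.** -/
theorem lineM_badF_le (hΦ : AdmissiblePotential Φ) (hε : 0 < ε) (hte : 0 < te)
    (hK : P.leaves ≤ K) {γ : ℝ → ℝ} (hγ : Measurable γ) {ρ : ℝ≥0∞}
    (hV : Valid Φ ε P te z.1.2 z.2) (hS : Sep Φ ε P te z.1 z.2) (hw : w ∈ PairExcluded ε m)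
    (hp : PerpT Φ ε P z w)
    (ht : RealL811.TreeIn Φ ε ((MW.cfg w).add (RealL811.treeW Φ ε P z)) P z Sum.inr te)
    (hnl : PairNL Φ ε K te (MW.cfg w) (lineML Φ ε P z)) :
    lineM γ ρ K te (badF Φ ε K te (MW.cfg w) (RealL811.treeW Φ ε P z) (lineMM Φ ε P z)) ≤
      lineM γ ρ K te (lkX Φ ε K te P z w) := by
  have e : lineMM Φ ε P z = lineML Φ ε P z := by
    funext i
    exact lineMM_of_adm ε hV.1 i
  rw [e]
  refine measure_mono_ae ?_
  filter_upwards [EBasic602.lineM_ae hγ] with l hl hbad hg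
  exact hbad (w1_good hΦ hε hte hK hV hS hw hp ht hnl hl.1.le hg)

/-! ### The null fact -/

/-- Null majorants of the exceptional events of the tree (helper335's `ExMajR`). -/
def ExNull (Φ : Space3 → ℝ) (f₀ : PhasePoint → ℝ) (T te : ℝ) : Prop :=
  ∀ K : ℕ, ∀ δ : ℝ, 0 < δ → ∃ ε₀ : ℝ, 0 < ε₀ ∧ ∀ ε : ℝ, 0 < ε → ε < ε₀ →
    ∃ N : (P : CTree) → PhasePoint × Par P → (m : ℕ) → Config m → ℝ≥0∞, MeasTS N ∧
      ExMajR Φ ε K T te N ∧
      TS Φ f₀ ε T (fun P z m w => wQ Φ ε P z * N P z m w) ≤ ENNReal.ofReal δ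

/-- helper302's form of the exceptional events. -/
theorem exNull_of_tNull {T te : ℝ} (h : ∀ K, TNull Φ f₀ T K fun ε P z _ w =>
    ¬ GoodT Φ ε K te P z w) : ExNull Φ f₀ T te := by
  intro K δ hδ
  obtain ⟨ε₀, hε₀, H⟩ := h K δ hδ
  refine ⟨ε₀, hε₀, fun ε hε hlt => ?_⟩
  obtain ⟨G, hG, hle⟩ := H ε hε hlt
  exact ⟨G, hG.meas, fun P z m w hP hV hS hw _ hno => hG.maj P z m w hP hV hS hw hno, hle⟩

/-- The set of test lines of `errA`, on the trees which are real up to `te`. -/
def lkA (Φ : Space3 → ℝ) (te : ℝ) (K : ℕ) (ε : ℝ) (P : CTree) (z : PhasePoint × Par P) (m : ℕ)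
    (w : Config m) : Set ML :=
  {l | RealL811.TreeIn Φ ε ((MW.cfg w).add (RealL811.treeW Φ ε P z)) P z Sum.inr te ∧
    l ∈ badF Φ ε K te (MW.cfg w) (RealL811.treeW Φ ε P z) (lineMM Φ ε P z)}

/-- **Null majorants of the test lines of `errA`.** -/
theorem xNull_lkA (hΦ : AdmissiblePotential Φ) (hf : Measurable f₀) (hte : 0 < te) {γ : ℝ → ℝ}
    (hγ : Measurable γ) {ρ : ℝ≥0∞}
    (hX : XNull Φ f₀ te te γ ρ fun K ε P z _ w => lkX Φ ε K te P z w)
    (hN : ExNull Φ f₀ te te) : XNull Φ f₀ te te γ ρ (lkA Φ te) := by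
  intro K δ hδ
  obtain ⟨ε₁, hε₁, H₁⟩ := hX K (δ / 2) (by positivity)
  obtain ⟨ε₂, hε₂, H₂⟩ := hN K (δ / 2) (by positivity)
  refine ⟨min ε₁ ε₂, lt_min hε₁ hε₂, fun ε hε hlt => ?_⟩
  obtain ⟨NL, hNL, hmaj, hle⟩ := H₁ ε hε (hlt.trans_le (min_le_left _ _))
  obtain ⟨N, hN1, hmajN, hleN⟩ := H₂ ε hε (hlt.trans_le (min_le_right _ _))
  refine ⟨fun P z m w => NL P z m w + N P z m w, fun P m => (hNL P m).add (hN1 P m), ?_, ?_⟩
  · intro P z m w hP hV hS hw hp
    by_cases hG : GoodT Φ ε K te P z w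
    swap
    · exact (min_le_left _ _).trans ((hmajN P z m w hP hV hS hw hp hG).trans le_add_self)
    refine le_trans ?_ ((hmaj P z m w hP hV hS hw hp).trans le_self_add)
    refine min_le_min_left _ ?_
    by_cases ht : RealL811.TreeIn Φ ε ((MW.cfg w).add (RealL811.treeW Φ ε P z)) P z Sum.inr te
    · refine le_trans (measure_mono ?_)
        (lineM_badF_le hΦ hε hte hP hγ hV hS hw hp ht hG.2)
      exact fun l hl => hl.2
    · have e : lkA Φ te K ε P z m w = ∅ := by
        ext l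
        exact ⟨fun h => ht h.1, fun h => h.elim⟩
      rw [e, measure_empty]
      exact bot_le
  · have h1 : MeasTS fun P z m w => wQ Φ ε P z * NL P z m w := fun P m =>
      ((measurable_wQ hΦ P).comp measurable_fst).mul (hNL P m)
    calc TS Φ f₀ ε te (fun P z m w => wQ Φ ε P z * (NL P z m w + N P z m w))
        = TS Φ f₀ ε te (fun P z m w => wQ Φ ε P z * NL P z m w) +
            TS Φ f₀ ε te (fun P z m w => wQ Φ ε P z * N P z m w) := by
          rw [← TS_add hΦ hf h1]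
          congr 1
          funext P z m w
          ring
      _ ≤ ENNReal.ofReal (δ / 2) + ENNReal.ofReal (δ / 2) := add_le_add hle hleN
      _ = ENNReal.ofReal δ := by
          rw [← ENNReal.ofReal_add (by positivity) (by positivity)]
          congr 1
          ring

end Crest.Agent.R122.ErrAB815

end
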