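import Crest.Agent.R122.LinkGate_424
import Crest.Agent.R122.GateTree_522

/-!
# Gateway form of class statements (row 122, BadHit), helper522

`ClassLe f₀ γ ρ s A₀ c Λ B δ` : the shape of `LN2.ln2_gas` for an arbitrary event `B ε n b z w` of a
structure `(b, z)` and the gas `w`.

* `gLe_of_class`, `gNull_of_class` : class statement to `GLe` / `GNull` of helper424, uniformly in the
  index.
* `gNull_class_tree` : instance for the law of a tree with the energy weight.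
-/

set_option autoImplicit false
set_option linter.unusedSectionVars false

open MeasureTheory Set Filter Topology
open scoped Classical ENNReal
open Crest.AnalysisR.Kinetic
open Crest.Agent.R122.GC311 Crest.Agent.R122.EDefs602 Crest.Agent.R122.LN2
open Crest.Agent.R122.Gate424

noncomputable section

namespace Crest.Agent.R122.HitGate522

variable {f₀ : PhasePoint → ℝ} {γ : ℝ} {ρ : Space3 → ℝ≥0∞} {κ : Type} [Fintype κ]

/-- The shape of `ln2_gas` for an event `B` of a structure and the gas. -/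
def ClassLe (f₀ : PhasePoint → ℝ) (γ : ℝ) (ρ : Space3 → ℝ≥0∞) (s : ℕ) (A₀ : Finset κ) (c : ℝ≥0∞)
    (Λ : Measure (κ → ℝ))
    (B : ℝ → (n : ℕ) → (κ → ℝ) → (κ → PhasePoint) → Config n → Prop) (δ : ℝ≥0∞) : Prop :=
  ∃ ε₀ > 0, ∀ ε : ℝ, 0 < ε → ε < ε₀ →
    ∃ G : (n : ℕ) → Set (Config n × (κ → ℝ) × (κ → PhasePoint)),
      (∀ n, MeasurableSet (G n)) ∧
      (∀ n (w : Config n) b z, w ∈ PairExcluded ε n → B ε n b z w → (w, b, z) ∈ G n) ∧
      ∀ (Θ : Type) [MeasurableSpace Θ] (m : Measure Θ) [SFinite m] (b : Θ → κ → ℝ)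
        (z : Θ → κ → PhasePoint), Dom γ ρ ε s A₀ c Λ m b z →
        gcE f₀ ε (fun n w => m {θ | (w, b θ, z θ) ∈ G n}) ≤ δ

variable {s : ℕ} {A₀ : Finset κ} {c : ℝ≥0∞} {Λ : Measure (κ → ℝ)}
  {B B' : ℝ → (n : ℕ) → (κ → ℝ) → (κ → PhasePoint) → Config n → Prop} {δ : ℝ≥0∞}

theorem ClassLe.mono (h : ClassLe f₀ γ ρ s A₀ c Λ B δ)
    (hB : ∃ ε₁ > 0, ∀ ε : ℝ, 0 < ε → ε < ε₁ → ∀ n b z (w : Config n), w ∈ PairExcluded ε n →
      B' ε n b z w → B ε n b z w) : ClassLe f₀ γ ρ s A₀ c Λ B' δ := by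
  obtain ⟨ε₀, h0, h⟩ := h
  obtain ⟨ε₁, h1, hB⟩ := hB
  refine ⟨min ε₀ ε₁, lt_min h0 h1, fun ε hε hlt => ?_⟩
  obtain ⟨G, hGm, hG, hGi⟩ := h ε hε (hlt.trans_le (min_le_left _ _))
  exact ⟨G, hGm, fun n w b z hw hB' => hG n w b z hw
    (hB ε hε (hlt.trans_le (min_le_right _ _)) n b z w hw hB'), hGi⟩

variable {I Θ : Type} [MeasurableSpace Θ] {m : ℝ → I → Measure Θ}

/-- **Class statement to `GLe`**, uniformly in the index. -/
theorem gLe_of_class (hf : Measurable f₀) (h : ClassLe f₀ γ ρ s A₀ c Λ B δ)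
    {b : ℝ → I → Θ → κ → ℝ} {z : ℝ → I → Θ → κ → PhasePoint} (hm : ∀ ε i, SFinite (m ε i))
    (hdom : ∀ ε i, 0 < ε → Dom γ ρ ε s A₀ c Λ (m ε i) (b ε i) (z ε i)) :
    GLe f₀ m (fun ε i n θ w => B ε n (b ε i θ) (z ε i θ) w) δ := by
  obtain ⟨ε₀, h0, h⟩ := h
  refine ⟨ε₀, h0, fun ε hε hlt i => ?_⟩
  obtain ⟨G, hGm, hG, hGi⟩ := h ε hε hlt
  have hd := hdom ε i hε
  have := hm ε i
  have hmap : ∀ n, Measurable fun p : Θ × Config n => (p.2, b ε i p.1, z ε i p.1) := fun n =>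
    measurable_snd.prodMk ((hd.mb.comp measurable_fst).prodMk (hd.mz.comp measurable_fst))
  have hGm' : ∀ n, Measurable fun p : Θ × Config n =>
      (if (p.2, b ε i p.1, z ε i p.1) ∈ G n then 1 else 0 : ℝ≥0∞) := fun n =>
    Measurable.ite (hmap n (hGm n)) measurable_const measurable_const
  refine ⟨fun n p => if (p.2, b ε i p.1, z ε i p.1) ∈ G n then 1 else 0, hGm', ?_, ?_⟩
  · intro n θ w hw hB
    simp only
    rw [if_pos (hG n w _ _ hw hB)]
  · have e1 := BadHit370.lintegral_gcE hf ε (m ε i)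
      (F := fun n θ w => (if (w, b ε i θ, z ε i θ) ∈ G n then 1 else 0 : ℝ≥0∞)) hGm'
    refine (le_of_eq e1).trans ?_
    refine le_trans (le_of_eq (gcE_congr f₀ ε fun n w _ => ?_)) (hGi Θ (m ε i) (b ε i) (z ε i) hd)
    have hset : MeasurableSet {θ | (w, b ε i θ, z ε i θ) ∈ G n} := by
      have h5 : Measurable fun θ : Θ => (w, b ε i θ, z ε i θ) :=
        measurable_const.prodMk (hd.mb.prodMk hd.mz)
      exact h5 (hGm n)
    rw [← lintegral_indicator_one hset]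
    refine lintegral_congr fun θ => ?_
    simp only [indicator_apply, mem_ofPred_eq, Pi.one_apply]

/-- **Class statement to `GNull`.** -/
theorem gNull_of_class (hf : Measurable f₀)
    (h : ∀ δ : ℝ≥0∞, 0 < δ → ClassLe f₀ γ ρ s A₀ c Λ B δ)
    {b : ℝ → I → Θ → κ → ℝ} {z : ℝ → I → Θ → κ → PhasePoint} (hm : ∀ ε i, SFinite (m ε i))
    (hdom : ∀ ε i, 0 < ε → Dom γ ρ ε s A₀ c Λ (m ε i) (b ε i) (z ε i)) :
    GNull f₀ m (fun ε i n θ w => B ε n (b ε i θ) (z ε i θ) w) :=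
  fun δ hδ => gLe_of_class hf (h δ hδ) hm hdom

end Crest.Agent.R122.HitGate522

end
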