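import Crest.Agent.R122.HitClass_416
import Crest.Agent.R122.BadVolP_350

/-!
# Row 122 (helper416): `HitClass`, unconditional
-/

set_option autoImplicit false

open Crest.AnalysisR.Kinetic

namespace Crest.Agent.R122.HitClass416

/-- **Mass of the bad hits.** -/
theorem hitClass {Φ : Space3 → ℝ} (hΦ : AdmissiblePotential Φ) (T te : ℝ) {T' : ℝ}
    (hT' : 0 ≤ T') : BadPos416.HitClass Φ T te T' :=
  hitClass_of hΦ fun _ hγ K => Flux350.badVolP hΦ te hT' hγ K

end Crest.Agent.R122.HitClass416
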