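import Crest.Agent.R122.LN2Main_473

/-!
# Row 122, LN2 at gas level, uniform in the horizon and in the birth law (helper473)

* `TLW` : tree-likeness without separation of the contact times from the horizon; `BadPartW`,
  `BadGasW` : the bad partitions with `TLW`. They are monotone in the horizon
  (`badPart_of_hor`): a bad partition at the horizon `t ≤ T` is one at the horizon `T`.
* `ln2_gas_hor` : `ln2_gas` with majorants which are independent of the horizon `t ∈ [0, T]` and of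
  the law `Λ` of the births (mass at most `L`).
-/

set_option autoImplicit false
set_option linter.unusedSectionVars false
open MeasureTheory Set
open scoped Classical ENNReal
open Crest.AnalysisR.Kinetic
noncomputable section

namespace Crest.Agent.R122.LN2

open Crest.Agent.R122.GC311 Crest.Agent.R122.Kin796
open Crest.Agent.R122.VL581 Crest.Agent.R122.LinkGas473 Crest.Agent.R122.VLMeas973

section hor

variable {J κ' : Type} [Fintype J]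

/-- The system with horizon `t`. -/
def atT (M : VSys J κ') (t : ℝ) : VSys J κ' := { M with T := t }

/-- Tree-like without separation from the horizon (births of the part only). -/
def TLW (M : VSys J κ') (C ℓ ς : ℝ) (P : Finset J) (Z : J → PhasePoint) : Prop :=
  (∀ A ⊆ P, M.ok A M.T Z) ∧
  ∃ (E : Finset (J × J)) (σ : J × J → ℝ), E.card + 1 = P.card ∧
    (∀ e ∈ E, e.1 ∈ P ∧ e.2 ∈ P ∧ e.1 ≠ e.2) ∧
    (∀ e ∈ E, ς < σ e) ∧
    (∀ e ∈ E, ∀ i ∈ P, ς < |σ e - M.b i|) ∧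
    (∀ e ∈ E, ∀ e' ∈ E, e ≠ e' → ς < |σ e - σ e'|) ∧
    (∀ i ∈ P, ∀ j ∈ P, i ≠ j → ∀ t ∈ Icc 0 M.T, M.VCt C P i j t Z →
      ∃ e ∈ E, (e = (i, j) ∨ e = (j, i)) ∧ |t - σ e| ≤ ℓ)

theorem TLW.of_tlp {M : VSys J κ'} {C ℓ ς : ℝ} {P : Finset J} {Z : J → PhasePoint}
    (h : TLP M C ℓ ς P Z) : TLW M C ℓ ς P Z := by
  obtain ⟨h1, E, σ, h2, h3, h4, h5, h6, h7⟩ := h
  exact ⟨h1, E, σ, h2, h3, fun e he => (h4 e he).1, h5, h6, h7⟩

theorem TLW.of_treeLike {M : VSys J κ'} {C ℓ ς : ℝ} {P : Finset J} {Z : J → PhasePoint}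
    (h : M.TreeLike C ℓ ς P Z) : TLW M C ℓ ς P Z := TLW.of_tlp (TLP.of_treeLike h)

/-- Bad partition with `TLW`. -/
def BadPartW (M : VSys J κ') (C ℓ ς : ℝ) (s : ℕ) (A : Finset J) (Z : J → PhasePoint) : Prop :=
  ∃ π : Finpartition (Finset.univ : Finset J),
    (∀ P ∈ π.parts, M.Conn C P Z ∧ ∃ x ∈ P, x ∈ A) ∧
    (π.parts.card < s ∨ (π.parts.card = s ∧ ∃ P ∈ π.parts, ¬ TLW M C ℓ ς P Z))

theorem BadPartW.badPart {M : VSys J κ'} {C ℓ ς : ℝ} {s : ℕ} {A : Finset J}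
    {Z : J → PhasePoint} (h : BadPartW M C ℓ ς s A Z) : M.BadPart C ℓ ς s A Z := by
  obtain ⟨π, h1, h2⟩ := h
  refine ⟨π, h1, h2.imp_right ?_⟩
  rintro ⟨h3, P, hP, h4⟩
  exact ⟨h3, P, hP, fun h5 => h4 (TLW.of_tlp h5)⟩

/-! ### Change of the horizon -/

theorem st_atT (M : VSys J κ') (t : ℝ) : (atT M t).st = M.st := rfl

theorem ok_atT (M : VSys J κ') (t : ℝ) : (atT M t).ok = M.ok := rfl

theorem ok_mono {M : VSys J κ'} {A : Finset J} {s t : ℝ} (hst : s ≤ t) {Z : J → PhasePoint}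
    (h : M.ok A t Z) : M.ok A s Z :=
  fun i hi hio hit j hj hjo hji hbb => h i hi hio (hit.trans_le hst) j hj hjo hji hbb

theorem vct_atT {M : VSys J κ'} {t : ℝ} (htT : t ≤ M.T) {C : ℝ} {P : Finset J} {i j : J} {s : ℝ}
    (hs : s ∈ Icc 0 t) {Z : J → PhasePoint} : (atT M t).VCt C P i j s Z ↔ M.VCt C P i j s Z := by
  have h1 : min s t = min s M.T := by
    rw [min_eq_left hs.2, min_eq_left (hs.2.trans htT)]
  have hpos : ∀ (A : Finset J) (k : κ') (x : J), (atT M t).pos A k s Z x = M.pos A k s Z x := by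
    intro A k x
    show (if M.o = some x then (Z x).1 + M.S.c k (max 0 (min s t)) else (M.st A s Z x).1) = _
    rw [h1]
    rfl
  unfold VSys.VCt VSys.Ct
  simp only [hpos]
  exact Iff.rfl

theorem conn_of_hor {M : VSys J κ'} {t : ℝ} (htT : t ≤ M.T) {C : ℝ} {P : Finset J}
    {Z : J → PhasePoint} (h : (atT M t).Conn C P Z) : M.Conn C P Z := by
  refine ⟨h.1, fun Q hQ hQn hQP => ?_⟩
  obtain ⟨i, hi, j, hj, s, hs, hc⟩ := h.2 Q hQ hQn hQP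
  exact ⟨i, hi, j, hj, s, ⟨hs.1, hs.2.trans htT⟩, (vct_atT htT hs).1 hc⟩

theorem tlw_hor {M : VSys J κ'} {t : ℝ} (htT : t ≤ M.T) {C ℓ ς : ℝ} {P : Finset J}
    {Z : J → PhasePoint} (h : TLW M C ℓ ς P Z) : TLW (atT M t) C ℓ ς P Z := by
  obtain ⟨h1, E, σ, h2, h3, h4, h5, h6, h7⟩ := h
  refine ⟨fun A hA => ok_mono htT (h1 A hA), E, σ, h2, h3, h4, h5, h6,
    fun i hi j hj hij s hs hv => ?_⟩
  exact h7 i hi j hj hij s ⟨hs.1, hs.2.trans htT⟩ ((vct_atT htT hs).1 hv)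

/-- A bad partition at the horizon `t ≤ T` is a bad partition at the horizon `T`. -/
theorem badPartW_of_hor {M : VSys J κ'} {t : ℝ} (htT : t ≤ M.T) {C ℓ ς : ℝ} {s : ℕ}
    {A : Finset J} {Z : J → PhasePoint} (h : BadPartW (atT M t) C ℓ ς s A Z) :
    BadPartW M C ℓ ς s A Z := by
  obtain ⟨π, h1, h2⟩ := h
  refine ⟨π, fun P hP => ⟨conn_of_hor htT (h1 P hP).1, (h1 P hP).2⟩, h2.imp_right ?_⟩
  rintro ⟨h3, P, hP, h4⟩
  exact ⟨h3, P, hP, fun h5 => h4 (tlw_hor htT h5)⟩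

end hor

variable {Φ : Space3 → ℝ} {f₀ : PhasePoint → ℝ} {T γ : ℝ} {ρ : Space3 → ℝ≥0∞} {C₀ : ℝ≥0∞}
variable {κ : Type} [Fintype κ]

/-- `BadGas` with `TLW`. -/
def BadGasW (Φ : Space3 → ℝ) (T C R ς ε : ℝ) (N s : ℕ) (A₀ : Finset κ) (b : κ → ℝ)
    (z : κ → PhasePoint) {n : ℕ} (w : Config n) : Prop :=
  ∃ k ≤ N, ∃ ι : Fin k ↪ Fin n, BadPartW (VLMeas973.vsys Φ T ε (bS k b)) C (R * ε) ς s (anch k A₀)
    (Sum.elim (fun i => w (ι i)) z)

theorem BadGasW.badGas {C R ς ε : ℝ} {N s : ℕ} {A₀ : Finset κ} {b : κ → ℝ} {z : κ → PhasePoint}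
    {n : ℕ} {w : Config n} (h : BadGasW Φ T C R ς ε N s A₀ b z w) :
    BadGas Φ T C R ς ε N s A₀ b z w := by
  obtain ⟨k, hk, ι, h⟩ := h
  exact ⟨k, hk, ι, h.badPart⟩

/-- `BadGasW` is monotone in the horizon. -/
theorem badGasW_hor {t C R ς ε : ℝ} (htT : t ≤ T) {N s : ℕ} {A₀ : Finset κ} {b : κ → ℝ}
    {z : κ → PhasePoint} {n : ℕ} {w : Config n} (h : BadGasW Φ t C R ς ε N s A₀ b z w) :
    BadGasW Φ T C R ς ε N s A₀ b z w := by
  obtain ⟨k, hk, ι, h⟩ := h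
  exact ⟨k, hk, ι, badPartW_of_hor (M := VLMeas973.vsys Φ T ε (bS k b)) htT h⟩

/-- **LN2 at gas level**, majorants independent of the horizon `t ∈ [0, T]` and of the law of the
births. -/
theorem ln2_gas_hor (hCN : ClassNull Φ T) (hf : Measurable f₀)
    (h1 : ∫⁻ z, ENNReal.ofReal (f₀ z) ≤ 1) (he : Env f₀ γ ρ C₀) (hγ : 0 < γ) (C : ℝ) (N : ℕ)
    {s : ℕ} (hs : s ≤ Fintype.card κ) (A₀ : Finset κ) {c : ℝ≥0∞} (hc : c ≠ ∞) {L : ℝ≥0∞}
    (hL : L ≠ ∞) {δ : ℝ≥0∞} (hδ : 0 < δ) :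
    ∃ R > 0, ∃ ς > 0, ∃ ε₀ > 0, ∀ ε : ℝ, 0 < ε → ε < ε₀ →
      ∃ G : (n : ℕ) → Set (Config n × (κ → ℝ) × (κ → PhasePoint)),
        (∀ n, MeasurableSet (G n)) ∧
        (∀ (R' ς' : ℝ), R ≤ R' → ς' ≤ ς → ∀ n (w : Config n) b z,
          BadGas Φ T C R' ς' ε N s A₀ b z w → (w, b, z) ∈ G n) ∧
        (∀ (t R' ς' : ℝ), t ≤ T → R ≤ R' → ς' ≤ ς → ∀ n (w : Config n) b z,
          BadGasW Φ t C R' ς' ε N s A₀ b z w → (w, b, z) ∈ G n) ∧
        ∀ (Λ : Measure (κ → ℝ)) [IsFiniteMeasure Λ] (Θ : Type) [MeasurableSpace Θ] (m : Measure Θ)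
          [SFinite m] (b : Θ → κ → ℝ) (z : Θ → κ → PhasePoint), Λ univ ≤ L →
          Dom γ ρ ε s A₀ c Λ m b z →
          gcE f₀ ε (fun n w => m {θ | (w, b θ, z θ) ∈ G n}) ≤ δ := by
  set K : ℝ≥0∞ := c * L * ∑ k ∈ Finset.range (N + 1), C₀ ^ k with hK
  have hKt : K ≠ ∞ := by
    refine ENNReal.mul_ne_top (ENNReal.mul_ne_top hc hL) ?_
    exact ENNReal.sum_ne_top.2 fun k _ => ENNReal.pow_ne_top he.fin
  have hK0 : K + 1 ≠ 0 := by simp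
  have hKt' : K + 1 ≠ ∞ := ENNReal.add_ne_top.2 ⟨hKt, ENNReal.one_ne_top⟩
  set δ' : ℝ≥0∞ := δ / (K + 1) with hδ'
  have hδ'0 : 0 < δ' := ENNReal.div_pos hδ.ne' hKt'
  have hcard : ∀ k, s ≤ Fintype.card (Fin k ⊕ κ) := fun k => by
    rw [Fintype.card_sum, Fintype.card_fin]; omega
  choose R hR ς hς ε₀ hε₀ hE using fun k => hCN (Fin k ⊕ κ) γ C s (anch k A₀) ρ hγ (hcard k)
    he.meas he.le_one he.int δ' hδ'0
  obtain ⟨Rm, hRm, hRm'⟩ := exists_ge N R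
  obtain ⟨ςm, hςm, hςm'⟩ := exists_pos_le N hς
  obtain ⟨εm, hεm, hεm'⟩ := exists_pos_le N hε₀
  refine ⟨Rm, hRm, ςm, hςm, εm, hεm, fun ε hε hεlt => ?_⟩
  -- the bad sets
  have hex : ∀ k : ℕ, ∃ E : Set ((Fin k ⊕ κ → ℝ) × (Fin k ⊕ κ → PhasePoint)), MeasurableSet E ∧
      (k ≤ N → (∀ b Z, (VLMeas973.vsys Φ T ε b).BadPart C (R k * ε) (ς k) s (anch k A₀) Z →
        (b, Z) ∈ E) ∧
        ∀ b, ∫⁻ Z, {Z | (b, Z) ∈ E}.indicator (fun Z => (∏ j ∈ anch k A₀, ρ (Z j).1) *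
          ∏ j, ENNReal.ofReal (Real.exp (-γ * ‖(Z j).2‖ ^ 2))) Z ≤
          δ' * ENNReal.ofReal (ε ^ 2) ^ (Fintype.card (Fin k ⊕ κ) - s)) := by
    intro k
    by_cases hk : k ≤ N
    · obtain ⟨E, hEm, hE1, hE2⟩ := hE k ε hε (hεlt.trans_le (hεm' k hk))
      exact ⟨E, hEm, fun _ => ⟨hE1, hE2⟩⟩
    · exact ⟨∅, MeasurableSet.empty, fun h => absurd h hk⟩
  choose E hEm hE' using hex
  have hmaj : ∀ (R' ς' : ℝ), Rm ≤ R' → ς' ≤ ςm → ∀ n (w : Config n) (b : κ → ℝ)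
      (z : κ → PhasePoint), BadGas Φ T C R' ς' ε N s A₀ b z w → (w, b, z) ∈ gSet N E n := by
    rintro R' ς' hR' hς' n w b z ⟨k, hk, ι, h⟩
    refine ⟨k, hk, ι, (hE' k hk).1 _ _ (badPart_mono ?_ (hς'.trans (hςm' k hk)) h)⟩
    exact mul_le_mul_of_nonneg_right ((hRm' k hk).trans hR') hε.le
  refine ⟨gSet N E, measurableSet_gSet hEm, hmaj, ?_, ?_⟩
  · intro t R' ς' htT hR' hς' n w b z h
    exact hmaj R' ς' hR' hς' n w b z (badGasW_hor htT h).badGas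
  · intro Λ _ Θ _ m _ b z hΛ hdom
    have hD : ∀ k ≤ N, ∀ b : Fin k ⊕ κ → ℝ,
        ∫⁻ Z, {Z | (b, Z) ∈ E k}.indicator (wgtA γ ρ (anch k A₀)) Z ≤
          δ' * ENNReal.ofReal (ε ^ 2) ^ (k + (Fintype.card κ - s)) := by
      intro k hk b
      have h2 := (hE' k hk).2 b
      have h3 : Fintype.card (Fin k ⊕ κ) - s = k + (Fintype.card κ - s) := by
        rw [Fintype.card_sum, Fintype.card_fin]; omega
      rw [h3] at h2
      have h4 : wgtA γ ρ (anch k A₀) = fun Z : Fin k ⊕ κ → PhasePoint =>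
          (∏ j ∈ anch k A₀, ρ (Z j).1) *
            ∏ j, ENNReal.ofReal (Real.exp (-γ * ‖(Z j).2‖ ^ 2)) := by
        funext Z
        unfold wgtA
        simp only [wG_eq]
      rw [h4]
      exact h2
    calc gcE f₀ ε (fun n w => m {θ | (w, b θ, z θ) ∈ gSet N E n})
        ≤ c * Λ univ * (δ' * ∑ k ∈ Finset.range (N + 1), C₀ ^ k) :=
          gas_mass_le hf h1 he hε N A₀ hEm hD hc Λ hdom
      _ ≤ c * L * (δ' * ∑ k ∈ Finset.range (N + 1), C₀ ^ k) := by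
          refine mul_le_mul_left (mul_le_mul_right hΛ c) _
      _ = K * δ' := by rw [hK]; ring
      _ ≤ (K + 1) * δ' := by gcongr; exact le_self_add
      _ = δ := by rw [hδ', ENNReal.mul_div_cancel hK0 hKt']

end Crest.Agent.R122.LN2
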