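import Crest.Agent.R122.ForGate_424
import Crest.Agent.R122.HitGate_522
import Crest.Agent.R122.BHMain_167
import Crest.Agent.R122.HitMain_416
import Crest.Agent.R122.LN2Hor_473

/-!
# Row 122, H11 (helper424): the gateway with bad hits

* `badHitGas_hor` : the bad hits at a horizon `t ≤ T` are bad hits at the horizon `T`.
* `BPos` : the real positions of bad roots (helper726's `BadPos`), all times in `[0, T]`.
* `gNull_badHit` : bad hits of a dominated structure are null.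
* `forNull_of_det2` : the gateway for forests, with bad hits.
-/

set_option autoImplicit false
set_option linter.unusedSectionVars false

open MeasureTheory Set Filter Topology
open scoped Classical ENNReal
open Crest.AnalysisR.Kinetic
open Crest.Agent.R122.GC311 Crest.Agent.R122.EDefs602
open Crest.Agent.R122.LN2 Crest.Agent.R122.Kin796 Crest.Agent.R122.VL581
open Crest.Agent.R122.Ret424 Crest.Agent.R122.DomForest998 Crest.Agent.R122.BH167
open Crest.Agent.R122.RtG302 (AllOk)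
open Crest.Agent.R122.Forest399 (FIdx FPar flines flinesM FValid FVS flinesM_of_valid
  measurable_flinesM)
open Crest.Agent.R122.Final973 (PerpC)

noncomputable section

namespace Crest.Agent.R122.Gate424

variable {Φ : Space3 → ℝ} {f₀ : PhasePoint → ℝ} {T : ℝ}

/-- Real positions of the roots of bad gas-only pasts. -/
def BPos (Φ : Space3 → ℝ) (T : ℝ) : PosPred := fun ε _ V i t x =>
  Chain726.BadPos Φ ε (T + 1) T V i t x

theorem hitClass_bPos (hΦ : AdmissiblePotential Φ) (hT : 0 ≤ T) : BH167.HitClass T (BPos Φ T) :=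
  HitClass416.hitClass hΦ T T (T' := T + 1) (by linarith)

/-- Bad hits at a horizon `t ≤ T` are bad hits at the horizon `T`. -/
theorem badHitGas_hor {κ : Type} [Fintype κ] {BP : PosPred} {t C R ε : ℝ} (htT : t ≤ T)
    {N K s : ℕ} {A₀ : Finset κ} {b : κ → ℝ} {z : κ → PhasePoint} {n : ℕ} {w : Config n}
    (h : BadHitGas BP Φ t C R ε N K s A₀ b z w) : BadHitGas BP Φ T C R ε N K s A₀ b z w := by
  obtain ⟨g, hg, ι, k, hk, f, hd, π, h1, h2, P, hP, B, hB, j, hj, q, i, u, hu, x, hok, hBP, hx⟩ := h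
  refine ⟨g, hg, ι, k, hk, f, hd, π, fun P hP => ⟨?_, (h1 P hP).2⟩, h2, P, hP, B, hB, j, hj, q,
    i, u, ⟨hu.1, hu.2.trans htT⟩, x, hok, hBP, hx⟩
  exact LN2.conn_of_hor (M := VLMeas973.vsys Φ T ε (bS g b)) htT (h1 P hP).1

/-- **Bad hits of a dominated structure are null.** -/
theorem gNull_badHit {I Θ : Type} [MeasurableSpace Θ] {m : ℝ → I → Measure Θ} {κ : Type}
    [Fintype κ] (hΦ : AdmissiblePotential Φ) (hT : 0 ≤ T) (hf : Measurable f₀)
    (h1 : ∫⁻ z, ENNReal.ofReal (f₀ z) ≤ 1) {γ : ℝ} {ρ : Space3 → ℝ≥0∞} {C₀ : ℝ≥0∞}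
    (he : Env f₀ γ ρ C₀) (hγ : 0 < γ) {s : ℕ} (hs : s ≤ Fintype.card κ) (A₀ : Finset κ)
    {c : ℝ≥0∞} (hc : c ≠ ∞) (Λ : Measure (κ → ℝ)) [IsFiniteMeasure Λ]
    {b : ℝ → I → Θ → κ → ℝ} {z : ℝ → I → Θ → κ → PhasePoint} (hm : ∀ ε i, SFinite (m ε i))
    (hdom : ∀ ε i, 0 < ε → Dom γ ρ ε s A₀ c Λ (m ε i) (b ε i) (z ε i)) (C R : ℝ) (N K : ℕ) :
    GNull f₀ m (fun ε i _ θ w =>
      BadHitGas (BPos Φ T) Φ T C R ε N K s A₀ (b ε i θ) (z ε i θ) w) :=
  HitGate522.gNull_of_class hf (B := fun ε _ b z w =>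
      BadHitGas (BPos Φ T) Φ T C R ε N K s A₀ b z w) (fun _ hδ =>
    ln2_badHit hΦ (VL581.vc hΦ) hT (hitClass_bPos hΦ hT) hf h1 he hγ C R N K hs A₀ hc Λ hδ)
    hm hdom

variable {s : ℕ} {Ps : Fin s → CTree}

/-- **The gateway for forests, with bad hits.** -/
theorem forNull_of_det2 {β : ℝ} {f : ℝ → PhasePoint → ℝ} (hD : Master566.KData Φ β T f₀ f)
    {K : ℕ} {E : (ε t : ℝ) → (m : ℕ) → FPar Ps → Config m → Prop}
    (hdet : ∀ L : ℕ, ∃ (N : ℕ) (C R' : ℝ) (N' K' : ℕ), ∀ R > 0, ∀ ς > 0, ∃ ε₁ : ℝ, 0 < ε₁ ∧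
      ∀ ε : ℝ, 0 < ε → ε < ε₁ → ∀ (t : Icc (0 : ℝ) T) (n : ℕ) (q : FPar Ps) (w : Config n),
        w ∈ PairExcluded ε n → q ∈ FVS Φ ε Ps t → PerpC ε (flines Φ ε Ps q) w →
        AllOk Φ ε w (fexL Φ ε Ps q) → E ε t n q w →
        RunS Φ ε t K L (b0 Ps) (flines Φ ε Ps q) w ∨
          BadGas Φ T C R ς ε N s Finset.univ (b0 Ps) (flines Φ ε Ps q) w ∨
          BadHitGas (BPos Φ T) Φ T C R' ε N' K' s Finset.univ (b0 Ps) (flines Φ ε Ps q) w) :
    ForNull Φ f₀ T Ps E := by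
  have hΦ := hD.adm
  have hf : Measurable f₀ := hD.contDiff.continuous.measurable
  have h1 : ∫⁻ z, ENNReal.ofReal (f₀ z) ≤ 1 := (Q1815.lintegral_mass hD).le
  obtain ⟨ρ, Ce, he⟩ := LN2.exists_env (γ := 2 * β) (γ' := β) (by linarith [hD.beta_pos])
    hD.gaussian
  choose N C R' N' K' hdet using hdet
  refine forNull_of_det hD (K := K) (Ht := fun L ε t n q w =>
    BadHitGas (BPos Φ T) Φ T (C L) (R' L) ε (N' L) (K' L) s Finset.univ (b0 Ps)
      (flinesM Φ ε Ps q) w) (fun L => ⟨N L, C L, fun R hR ς hς => ?_⟩) fun L => ?_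
  · obtain ⟨ε₁, h0, h⟩ := hdet L R hR ς hς
    refine ⟨ε₁, h0, fun ε hε hlt t n q w hw hq hp hok hE => ?_⟩
    have h2 := h ε hε hlt t n q w hw hq hp hok hE
    rw [flinesM_of_valid hq.1]
    exact h2
  · refine gNull_badHit (I := Icc (0 : ℝ) T) (m := fun ε (t : Icc (0 : ℝ) T) =>
      forM Φ f₀ ε Ps t) (κ := FIdx Ps) hΦ hD.T_pos.le hf h1 he hD.beta_pos ?_ Finset.univ
      (c := Ce ^ Fintype.card (FIdx Ps)) (ENNReal.pow_ne_top he.fin)
      (Measure.dirac fun _ : FIdx Ps => (0 : ℝ)) (b := fun _ _ _ => b0 Ps)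
      (z := fun ε _ q => flinesM Φ ε Ps q) (fun ε t => inferInstance)
      (fun ε t hε => dom_forest hΦ hf he hε Ps t) (C L) (R' L) (N' L) (K' L)
    rw [card_FIdx]
    omega

end Crest.Agent.R122.Gate424

end
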