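import Crest.Agent.R122.LinkG1_547
import Crest.Agent.R122.RetMass_424
import Crest.Agent.R122.UnwF_410
import Crest.Agent.R122.ToTree_335

/-!
# Row 122, H11 (LINK mass): gateway (helper547), calculus of majorants

* `Maj f₀ ε m E δ` : the event `E` (gas configuration, structure) has a measurable majorant of mass at
  most `δ` for the structure measure `m`; `Maj.or`, `Maj.mono`, `maj_run`.
* `tree_run` : long runs from an exit line of a tree, integrated over the tree.
* `ui` : uniform integrability, weight `Y1`.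
-/

set_option autoImplicit false
set_option maxHeartbeats 400000

open MeasureTheory Set Filter Topology
open Crest.AnalysisR.Kinetic
open Crest.Agent.R122.Flow671 Crest.Agent.R122.Vol365 Crest.Agent.R122.EDefs602
open Crest.Agent.R122.Loc45 Crest.Agent.R122.Ins45
open Crest.Agent.R122.GC311 Crest.Agent.R122.Kin796 Crest.Agent.R122.Kin796.CTree
open Crest.Agent.R122.Tree674 Crest.Agent.R122.TreeLines335
open scoped ENNReal Classical

noncomputable section

namespace Crest.Agent.R122.LinkM547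

variable {Φ : Space3 → ℝ} {ε : ℝ} {f₀ : PhasePoint → ℝ}

/-! ## Majorants of events -/

/-- `E` has a measurable majorant of mass at most `δ`. -/
def Maj (f₀ : PhasePoint → ℝ) (ε : ℝ) {Θ : Type} [MeasurableSpace Θ] (m : Measure Θ)
    (E : (n : ℕ) → Config n → Θ → Prop) (δ : ℝ≥0∞) : Prop :=
  ∃ G : (n : ℕ) → Θ × Config n → ℝ≥0∞, (∀ n, Measurable (G n)) ∧
    (∀ (n : ℕ) (w : Config n) (θ : Θ), w ∈ PairExcluded ε n → E n w θ → 1 ≤ G n (θ, w)) ∧
    ∫⁻ θ, gcE f₀ ε (fun n w => G n (θ, w)) ∂m ≤ δ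

section maj

variable {Θ : Type} [MeasurableSpace Θ] {m : Measure Θ} {E E' : (n : ℕ) → Config n → Θ → Prop}
  {δ δ' : ℝ≥0∞}

theorem Maj.mono (h : Maj f₀ ε m E δ)
    (hE : ∀ (n : ℕ) (w : Config n) (θ : Θ), w ∈ PairExcluded ε n → E' n w θ → E n w θ)
    (hδ : δ ≤ δ') : Maj f₀ ε m E' δ' := by
  obtain ⟨G, h1, h2, h3⟩ := h
  exact ⟨G, h1, fun n w θ hw h => h2 n w θ hw (hE n w θ hw h), h3.trans hδ⟩

theorem Maj.or (hf : Measurable f₀) (h : Maj f₀ ε m E δ) (h' : Maj f₀ ε m E' δ') :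
    Maj f₀ ε m (fun n w θ => E n w θ ∨ E' n w θ) (δ + δ') := by
  obtain ⟨G, h1, h2, h3⟩ := h
  obtain ⟨G', h1', h2', h3'⟩ := h'
  refine ⟨fun n p => G n p + G' n p, fun n => (h1 n).add (h1' n), ?_, ?_⟩
  · rintro n w θ hw (h | h)
    · exact (h2 n w θ hw h).trans le_self_add
    · exact (h2' n w θ hw h).trans le_add_self
  · have e1 : ∀ θ, gcE f₀ ε (fun n w => G n (θ, w) + G' n (θ, w)) =
        gcE f₀ ε (fun n w => G n (θ, w)) + gcE f₀ ε (fun n w => G' n (θ, w)) := fun θ =>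
      gcE_add hf ε fun n => (h1 n).comp (measurable_const.prodMk measurable_id)
    simp only [e1]
    rw [lintegral_add_left]
    · exact add_le_add h3 h3'
    · exact ToTree335.measurable_gcE_par hf (F := fun θ n w => G n (θ, w)) h1

theorem Maj.false : Maj f₀ ε m (fun _ _ _ => False) 0 := by
  refine ⟨fun _ _ => 0, fun _ => measurable_const, fun _ _ _ _ h => h.elim, ?_⟩
  simp [gcE_zero]

theorem Maj.finset (hf : Measurable f₀) {ι : Type*} (s : Finset ι)
    {E : ι → (n : ℕ) → Config n → Θ → Prop} {δ : ι → ℝ≥0∞}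
    (h : ∀ i ∈ s, Maj f₀ ε m (E i) (δ i)) :
    Maj f₀ ε m (fun n w θ => ∃ i ∈ s, E i n w θ) (∑ i ∈ s, δ i) := by
  induction s using Finset.induction_on with
  | empty => simpa using Maj.false
  | insert a s ha ih =>
    rw [Finset.sum_insert ha]
    refine ((h a (Finset.mem_insert_self a s)).or hf
      (ih fun i hi => h i (Finset.mem_insert_of_mem hi))).mono ?_ le_rfl
    rintro n w θ _ ⟨i, hi, hE⟩
    rcases Finset.mem_insert.1 hi with rfl | hi
    · exact Or.inl hE
    · exact Or.inr ⟨i, hi, hE⟩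

theorem Maj.fintype (hf : Measurable f₀) {ι : Type*} [Fintype ι]
    {E : ι → (n : ℕ) → Config n → Θ → Prop} {δ : ι → ℝ≥0∞}
    (h : ∀ i, Maj f₀ ε m (E i) (δ i)) :
    Maj f₀ ε m (fun n w θ => ∃ i, E i n w θ) (∑ i, δ i) :=
  (Maj.finset hf Finset.univ fun i _ => h i).mono
    (fun _ _ _ _ ⟨i, hi⟩ => ⟨i, Finset.mem_univ i, hi⟩) le_rfl

/-- Measurable sets, order of integration gas first. -/
theorem Maj.of_set (hf : Measurable f₀) [SFinite m] {S : (n : ℕ) → Set (Config n × Θ)}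
    (hS : ∀ n, MeasurableSet (S n))
    (hE : ∀ (n : ℕ) (w : Config n) (θ : Θ), w ∈ PairExcluded ε n → E n w θ → (w, θ) ∈ S n)
    (h : gcE f₀ ε (fun n w => m {θ | (w, θ) ∈ S n}) ≤ δ) : Maj f₀ ε m E δ := by
  have hG : ∀ n, Measurable (fun p : Θ × Config n => if (p.2, p.1) ∈ S n then (1 : ℝ≥0∞) else 0) :=
    fun n => Measurable.ite ((measurable_snd.prodMk measurable_fst) (hS n)) measurable_const
      measurable_const
  refine ⟨fun n p => if (p.2, p.1) ∈ S n then 1 else 0, hG, fun n w θ hw hh => ?_, ?_⟩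
  · simp only
    rw [if_pos (hE n w θ hw hh)]
  · have h2 : ∫⁻ θ, gcE f₀ ε (fun n w => if (w, θ) ∈ S n then (1 : ℝ≥0∞) else 0) ∂m =
        gcE f₀ ε (fun n w => ∫⁻ θ, (if (w, θ) ∈ S n then (1 : ℝ≥0∞) else 0) ∂m) := by
      unfold gcE
      have h1 : ∀ n, Measurable fun p : Θ × Config n => gcWeight f₀ ε n p.2 *
          (if (p.2, p.1) ∈ S n then (1 : ℝ≥0∞) else 0) := fun n =>
        ((measurable_gcWeight hf ε n).comp measurable_snd).mul (hG n)
      have h2 : ∀ n, Measurable fun x : Θ => ∫⁻ Z : Config n, gcWeight f₀ ε n Z *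
          (if (Z, x) ∈ S n then (1 : ℝ≥0∞) else 0) := fun n => (h1 n).lintegral_prod_right'
      rw [lintegral_const_mul _ (Measurable.tsum fun n => (h2 n).const_mul _),
        lintegral_tsum fun n => ((h2 n).const_mul _).aemeasurable]
      congr 1
      refine tsum_congr fun n => ?_
      rw [lintegral_const_mul _ (h2 n)]
      congr 1
      rw [lintegral_lintegral_swap (f := fun (x : Θ) (Z : Config n) => gcWeight f₀ ε n Z *
        (if (Z, x) ∈ S n then (1 : ℝ≥0∞) else 0)) (h1 n).aemeasurable]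
      refine lintegral_congr fun Z => ?_
      exact lintegral_const_mul _ ((hG n).comp (measurable_id.prodMk measurable_const))
    refine le_trans (le_of_eq h2) (le_trans (le_of_eq ?_) h)
    refine gcE_congr f₀ ε fun n w _ => ?_
    have hm : MeasurableSet {θ | (w, θ) ∈ S n} := (measurable_const.prodMk measurable_id) (hS n)
    rw [← lintegral_indicator_one hm]
    refine lintegral_congr fun θ => ?_
    by_cases hθ : (w, θ) ∈ S n
    · rw [if_pos hθ, indicator_of_mem (show θ ∈ {θ | (w, θ) ∈ S n} from hθ)]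
      rfl
    · rw [if_neg hθ, indicator_of_notMem (show θ ∉ {θ | (w, θ) ∈ S n} from hθ)]

/-- Null events. -/
theorem Maj.of_ae (hf : Measurable f₀) [SFinite m]
    (h : ∀ n, ∃ N : Set (Θ × Config n), MeasurableSet N ∧ (m.prod volume) N = 0 ∧
      ∀ θ w, w ∈ PairExcluded ε n → E n w θ → (θ, w) ∈ N) : Maj f₀ ε m E 0 := by
  choose N hN h0 hE using h
  have hG : ∀ n, Measurable (fun p : Θ × Config n => if p ∈ N n then (1 : ℝ≥0∞) else 0) :=
    fun n => Measurable.ite (hN n) measurable_const measurable_const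
  refine ⟨fun n p => if p ∈ N n then 1 else 0, hG, fun n w θ hw hh => ?_, ?_⟩
  · simp only
    rw [if_pos (hE n θ w hw hh)]
  · have h1 : ∀ n, ∀ᵐ θ ∂m, ∀ᵐ w : Config n, (θ, w) ∉ N n := fun n =>
      Measure.ae_ae_of_ae_prod (measure_eq_zero_iff_ae_notMem.1 (h0 n))
    have h2 : ∀ᵐ θ ∂m, gcE f₀ ε (fun n w => if (θ, w) ∈ N n then (1 : ℝ≥0∞) else 0) = 0 := by
      filter_upwards [ae_all_iff.2 h1] with θ hθ
      unfold gcE
      rw [mul_eq_zero]
      right
      rw [ENNReal.tsum_eq_zero]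
      intro n
      rw [mul_eq_zero]
      right
      rw [lintegral_eq_zero_iff' ?_]
      · filter_upwards [hθ n] with w hw
        simp only [Pi.zero_apply, mul_eq_zero]
        right
        rw [if_neg hw]
      · exact ((measurable_gcWeight hf ε n).mul ((hG n).comp
          (measurable_const.prodMk measurable_id))).aemeasurable
    rw [lintegral_congr_ae h2]
    simp

/-- Runs. -/
theorem maj_run (hΦ : AdmissiblePotential Φ) (hε : 0 < ε) (T : ℝ) (K L : ℕ) {G : Type} [Fintype G]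
    {Z : Θ → MW G} (hZ : MeasMW Z) (q : G)
    (h : ∫⁻ θ, gcE f₀ ε (fun _ w => RM Φ ε T K L (Z θ) q w) ∂m ≤ δ) :
    Maj f₀ ε m (fun _ w θ => Run Φ ε T K L (Z θ) q w) δ := by
  refine ⟨fun n p => RM Φ ε T K L (Z p.1) q p.2, fun n => measurable_RM_param hΦ hε T K L hZ q n,
    fun n w θ hw hR => ?_, h⟩
  have := run_le_RM hΦ hε T K L (Z θ) q hw
  rwa [if_pos hR] at this

end maj

/-! ## Envelopes -/

theorem exists_envB {b β : ℝ} (hβ : 2 * β ≤ b)
    (H : HasSummableGaussianBound b (fun x v => f₀ (x, v))) :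
    ∃ (env : Space3 → ℝ≥0∞) (A : ℝ), 0 ≤ A ∧ EnvB β f₀ env A := by
  obtain ⟨env, A, hE⟩ := QDens815.exists_env H
  refine ⟨env, A.toReal, ENNReal.toReal_nonneg, hE.meas, hE.int_ne, fun x => ?_, fun z => ?_⟩
  · rw [ENNReal.ofReal_toReal hE.A_ne]
    exact hE.le_A x
  · refine (hE.bound z.1 z.1 z.2 (by simp)).trans (mul_le_mul_right ?_ _)
    unfold Kin416.gau
    refine ENNReal.ofReal_le_ofReal (Real.exp_le_exp.2 ?_)
    have := mul_le_mul_of_nonneg_right hβ (sq_nonneg ‖z.2‖)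
    linarith

/-- The datum with an exponential weight. -/
def fW (f₀ : PhasePoint → ℝ) (a : ℝ) (z : PhasePoint) : ℝ := f₀ z * Real.exp (a * ‖z.2‖ ^ 2)

theorem measurable_fW (hf : Measurable f₀) (a : ℝ) : Measurable (fW f₀ a) := by
  unfold fW; fun_prop

theorem fW_bound {b : ℝ} (H : HasSummableGaussianBound b (fun x v => f₀ (x, v))) (a : ℝ) :
    HasSummableGaussianBound (b - a) (fun x v => fW f₀ a (x, v)) := by
  obtain ⟨M, hM, h⟩ := H
  refine ⟨M, hM, fun k x v hx => ?_⟩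
  refine le_trans (le_of_eq ?_) (h k x v hx)
  unfold fW
  rw [norm_mul, Real.norm_eq_abs (Real.exp _), abs_of_pos (Real.exp_pos _)]
  have : Real.exp (b * ‖v‖ ^ 2) = Real.exp ((b - a) * ‖v‖ ^ 2) * Real.exp (a * ‖v‖ ^ 2) := by
    rw [← Real.exp_add]; congr 1; ring
  rw [this]
  ring

end Crest.Agent.R122.LinkM547

end
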