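import Crest.Agent.R122.EFam_879
import Crest.Agent.R122.MWFam2_255

/-!
# Relabelling of links; families inserted along injections (row 122, section E, A8)

* `MW.link_relabel`: clean links do not depend on the labels of the base world and of the two
  inserted groups.
* `MW.noLink_relabel`, `MW.w1E_relabel`.
* `MW.subEquiv`, `MW.sub_map_comap`: the sub-family `S = g(κ₁)` and the family `ls ∘ g`.
-/

set_option autoImplicit false
set_option linter.unusedSectionVars false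

open MeasureTheory Set Filter Topology
open scoped ENNReal
open Crest.AnalysisR.Kinetic
open Crest.Agent.R122.Flow671 Crest.Agent.R122.Ins45 Crest.Agent.R122.Causal291
open Crest.Agent.R122.Inf879 Crest.Agent.R122.GC311

namespace Crest.Agent.R122.EDefs602

namespace MW

open MWAlg255 (sub)

variable {ι ι' κ κ₁ κ₂ κ₁' κ₂' : Type} [Fintype ι] [Fintype ι'] [Fintype κ] [Fintype κ₁]
  [Fintype κ₂] [Fintype κ₁'] [Fintype κ₂']
variable {Φ : Space3 → ℝ} {ε T s : ℝ} {K : ℕ} {Z : MW ι} {A : MW κ₁} {B : MW κ₂}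

theorem cf_relabel (hΦ : AdmissiblePotential Φ) (hε : 0 < ε) (Z : MW ι) (A : MW κ₁) (e : ι' ≃ ι)
    (f : κ₁' ≃ κ₁) (s : ℝ) (k : ι') :
    MWFam255.CF Φ ε K (Z.comap e) (A.comap f) s k ↔ MWFam255.CF Φ ε K Z A s (e k) :=
  MWFam255.cfut_iff (MWAlg255.rel_comap hΦ hε Z A e f) (MWAlg255.Inf_comap hΦ hε K Z e)
    fun s j => by
      rw [MWAlg255.add_comap]
      exact MWAlg255.Inf_comap hΦ hε K (Z.add A) (Equiv.sumCongr e f) s j

theorem ci_relabel (hΦ : AdmissiblePotential Φ) (hε : 0 < ε) (Z : MW ι) (A : MW κ₁) (e : ι' ≃ ι)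
    (f : κ₁' ≃ κ₁) (s : ℝ) (x : ι' ⊕ κ₁') :
    MWFam255.CI Φ ε K (Z.comap e) (A.comap f) s x ↔
      MWFam255.CI Φ ε K Z A s (Equiv.sumCongr e f x) := by
  constructor
  · intro h k hk
    rcases x with x | x
    · have h1 : e x = k := Sum.inl_injective hk
      rw [← h1]
      exact (cf_relabel hΦ hε Z A e f s x).1 (h x rfl)
    · cases hk
  · intro h k hk
    rw [hk] at h
    exact (cf_relabel hΦ hε Z A e f s k).2 (h (e k) rfl)

theorem cx_relabel (hΦ : AdmissiblePotential Φ) (hε : 0 < ε) (Z : MW ι) (A : MW κ₁) (B : MW κ₂)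
    (e : ι' ≃ ι) (f : κ₁' ≃ κ₁) (g : κ₂' ≃ κ₂) (s : ℝ) (x : ι' ⊕ κ₁') (y : ι' ⊕ κ₂') :
    CX Φ ε (Z.comap e) (A.comap f) (B.comap g) s x y ↔
      CX Φ ε Z A B s (Equiv.sumCongr e f x) (Equiv.sumCongr e g y) := by
  have hx : ((Z.comap e).add (A.comap f)).path Φ ε s x =
      (Z.add A).path Φ ε s (Equiv.sumCongr e f x) := by
    rw [MWAlg255.add_comap]
    exact MWAlg255.path_comap hΦ hε (Z.add A) _ s x
  have hy : ((Z.comap e).add (B.comap g)).path Φ ε s y =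
      (Z.add B).path Φ ε s (Equiv.sumCongr e g y) := by
    rw [MWAlg255.add_comap]
    exact MWAlg255.path_comap hΦ hε (Z.add B) _ s y
  have hbx : ((Z.comap e).add (A.comap f)).b x = (Z.add A).b (Equiv.sumCongr e f x) := by
    rcases x with x | x <;> rfl
  have hby : ((Z.comap e).add (B.comap g)).b y = (Z.add B).b (Equiv.sumCongr e g y) := by
    rcases y with y | y <;> rfl
  have hxy : ((Sum.inl x : (ι' ⊕ κ₁') ⊕ κ₂') = Sum.elim (Sum.inl ∘ Sum.inl) Sum.inr y) ↔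
      ((Sum.inl (Equiv.sumCongr e f x) : (ι ⊕ κ₁) ⊕ κ₂) =
        Sum.elim (Sum.inl ∘ Sum.inl) Sum.inr (Equiv.sumCongr e g y)) := by
    rcases x with x | x <;> rcases y with y | y <;> simp
  unfold CX
  rw [hx, hy, hbx, hby, hxy]

/-- **Links do not depend on the labels.** -/
theorem link_relabel (hΦ : AdmissiblePotential Φ) (hε : 0 < ε) (e : ι' ≃ ι) (f : κ₁' ≃ κ₁)
    (g : κ₂' ≃ κ₂) :
    (Z.comap e).LINK Φ ε K (A.comap f) (B.comap g) s ↔ Z.LINK Φ ε K A B s := by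
  rw [MWFam255.link_iff, MWFam255.link_iff]
  constructor
  · rintro ⟨u, hu, ⟨k, hk, hk'⟩ | ⟨x, y, hx, hy, hc⟩⟩
    · exact ⟨u, hu, Or.inl ⟨e k, (cf_relabel hΦ hε Z A e f u k).1 hk,
        (cf_relabel hΦ hε Z B e g u k).1 hk'⟩⟩
    · exact ⟨u, hu, Or.inr ⟨_, _, (ci_relabel hΦ hε Z A e f u x).1 hx,
        (ci_relabel hΦ hε Z B e g u y).1 hy, (cx_relabel hΦ hε Z A B e f g u x y).1 hc⟩⟩
  · rintro ⟨u, hu, ⟨k, hk, hk'⟩ | ⟨x, y, hx, hy, hc⟩⟩
    · refine ⟨u, hu, Or.inl ⟨e.symm k, (cf_relabel hΦ hε Z A e f u _).2 ?_,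
        (cf_relabel hΦ hε Z B e g u _).2 ?_⟩⟩
      · rwa [Equiv.apply_symm_apply]
      · rwa [Equiv.apply_symm_apply]
    · refine ⟨u, hu, Or.inr ⟨(Equiv.sumCongr e f).symm x, (Equiv.sumCongr e g).symm y,
        (ci_relabel hΦ hε Z A e f u _).2 ?_, (ci_relabel hΦ hε Z B e g u _).2 ?_,
        (cx_relabel hΦ hε Z A B e f g u _ _).2 ?_⟩⟩
      · rwa [Equiv.apply_symm_apply]
      · rwa [Equiv.apply_symm_apply]
      · rwa [Equiv.apply_symm_apply, Equiv.apply_symm_apply]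

theorem noLink_relabel (hΦ : AdmissiblePotential Φ) (hε : 0 < ε) (e : ι' ≃ ι) (f : κ₁' ≃ κ₁)
    (g : κ₂' ≃ κ₂) :
    NoLink Φ ε K T (Z.comap e) (A.comap f) (B.comap g) ↔ NoLink Φ ε K T Z A B := by
  unfold NoLink
  rw [MWAlg255.theta_comap hΦ hε, MWAlg255.theta_comap hΦ hε]
  simp only [link_relabel hΦ hε]

theorem noLink_of_isEmpty (hΦ : AdmissiblePotential Φ) (hε : 0 < ε) [IsEmpty κ₁] :
    NoLink Φ ε K T Z A B := fun _ _ _ _ _ => MWFam255.not_link_empty hΦ hε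

/-- World consistency does not depend on the labels. -/
theorem w1E_relabel (hΦ : AdmissiblePotential Φ) (hε : 0 < ε) (e : ι' ≃ ι) (f : κ₁' ≃ κ₁)
    (g : κ₂' ≃ κ₂) :
    Decomp811.W1E Φ ε K T (Z.comap e) (A.comap f) (B.comap g) ↔ Decomp811.W1E Φ ε K T Z A B := by
  unfold Decomp811.W1E
  rw [MWAlg255.theta_comap hΦ hε, MWAlg255.theta_comap hΦ hε, MWAlg255.add_comap,
    MWAlg255.theta_comap hΦ hε]

/-! ### Sub-families along injections -/

/-- The image of an injection. -/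
noncomputable def subEquiv {g : κ₁ → κ} (hg : Function.Injective g) :
    κ₁ ≃ (Finset.univ.map ⟨g, hg⟩ : Finset κ) :=
  Equiv.ofBijective (fun x => ⟨g x, Finset.mem_map.2 ⟨x, Finset.mem_univ x, rfl⟩⟩)
    ⟨fun x y hxy => hg (congrArg Subtype.val hxy), fun y => by
      obtain ⟨x, _, hxy⟩ := Finset.mem_map.1 y.2
      exact ⟨x, Subtype.ext hxy⟩⟩

theorem sub_comap_subEquiv (ls : κ → ML) {g : κ₁ → κ} (hg : Function.Injective g) :
    (sub ls (Finset.univ.map ⟨g, hg⟩)).comap (subEquiv hg) = MW.lines (ls ∘ g) := rfl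

theorem sub_eq_lines (ls : κ → ML) (S : Finset κ) :
    sub ls S = MW.lines (ls ∘ (Subtype.val : S → κ)) := rfl

theorem line_eq_lines (l : ML) : MW.line l = MW.lines fun _ : Unit => l := rfl

/-- The base world `Z + ls ∘ g`. -/
theorem noLink_sub_iff (hΦ : AdmissiblePotential Φ) (hε : 0 < ε) {κ₀ : Type} [Fintype κ₀]
    {Z : MW ι} {ls : κ → ML} {g₀ : κ₀ → κ} (h₀ : Function.Injective g₀) {g₁ : κ₁ → κ}
    (h₁ : Function.Injective g₁) {g₂ : κ₂ → κ} (h₂ : Function.Injective g₂) :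
    NoLink Φ ε K T (Z.add (MW.lines (ls ∘ g₀))) (MW.lines (ls ∘ g₁)) (MW.lines (ls ∘ g₂)) ↔
      NoLink Φ ε K T (Z.add (sub ls (Finset.univ.map ⟨g₀, h₀⟩)))
        (sub ls (Finset.univ.map ⟨g₁, h₁⟩)) (sub ls (Finset.univ.map ⟨g₂, h₂⟩)) := by
  rw [← sub_comap_subEquiv ls h₀, ← sub_comap_subEquiv ls h₁, ← sub_comap_subEquiv ls h₂,
    MWFam255.add_comap_right]
  exact noLink_relabel hΦ hε _ _ _

end MW

end Crest.Agent.R122.EDefs602
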