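import Crest.Agent.R122.InEq2TDet_335
import Crest.Agent.R122.LinkRel_879

/-!
# Row 122, INEQUALITY 2', touched half (helper335): tree functionals

* `treeW` : the leaves of a tree as a world; `lkT` : the lines linked to the leaves, `lkV = lkT`.
* `gI` : ghost indicator (protected tubes up to the release times, helper994).
* `HT` : tree functional of the touched half; `HL` : tree functional of the weight comparison.
* `measTS_HT`, `measTS_HL`; `FT_le`, `FL_le` : pointwise bounds by the tree functionals.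
-/

set_option autoImplicit false
set_option linter.unusedSectionVars false

open MeasureTheory Set Filter Topology
open scoped ENNReal
open Crest.AnalysisR.Kinetic
open Crest.Agent.R122.Flow671 Crest.Agent.R122.Causal291 Crest.Agent.R122.Loc45
open Crest.Agent.R122.Inf879 Crest.Agent.R122.GC311 Crest.Agent.R122.EDefs602
open Crest.Agent.R122.InEq2 Crest.Agent.R122.EBasic602
open Crest.Agent.R122.Kin796 Crest.Agent.R122.Kin796.CTree Crest.Agent.R122.Tree674
open Crest.Agent.R122.PathFlow968 Crest.Agent.R122.TreeLines335 Crest.Agent.R122.LineMeas994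
open Crest.Agent.R122.RtG302 Crest.Agent.R122.Weight984 Crest.Agent.R122.MeasE416
open Crest.Agent.R122.Decomp811 Crest.Agent.R122.GIV566 Crest.Agent.R122.Hid424
open Crest.Agent.R122.TreeBound335

namespace Crest.Agent.R122.InEq2T

noncomputable section

open scoped Classical

variable {Φ : Space3 → ℝ} {ε : ℝ} {K : ℕ} {Q : EPar} {T' : ℝ}

/-! ### The leaves as a world -/

/-- The leaves of a tree as a world (gas particles). -/
def treeW (Φ : Space3 → ℝ) (ε : ℝ) (P : CTree) (z : PhasePoint × Par P) : MW (Idx P) :=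
  ⟨fun _ => 0, linesM Φ ε P z.1 z.2, fun _ => 1⟩

theorem measW_treeW (hΦ : AdmissiblePotential Φ) (ε : ℝ) (P : CTree) :
    MeasW fun z : PhasePoint × Par P => treeW Φ ε P z :=
  ⟨fun _ => measurable_const, fun i => (measurable_pi_apply i).comp (measurable_linesM hΦ ε P),
    fun _ => measurable_const⟩

theorem cfg_comap_tree {k : ℕ} {V : Config k} {P : CTree} {z : PhasePoint × Par P}
    (e : Idx P ≃ Fin k) (h : Adm Φ P z.1.2 z.2) (hV : ∀ x, V (e x) = lines Φ ε P z.1 z.2 x) :
    (MW.cfg V).comap e = treeW Φ ε P z := by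
  unfold MW.comap MW.cfg treeW
  rw [linesM_of_adm ε h]
  simp only [hV]

/-- The lines linked to the leaves of the tree in the gas `w`. -/
def lkT (Φ : Space3 → ℝ) (ε : ℝ) (K : ℕ) (T : ℝ) (P : CTree) (z : PhasePoint × Par P) {m : ℕ}
    (w : Config m) : Set ML := badN Φ ε K T (MW.cfg w) (treeW Φ ε P z)

theorem lkV_eq (hΦ : AdmissiblePotential Φ) (hε : 0 < ε) {k m : ℕ} {V : Config k} {w : Config m}
    {P : CTree} {z : PhasePoint × Par P} (e : Idx P ≃ Fin k) (h : Adm Φ P z.1.2 z.2)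
    (hV : ∀ x, V (e x) = lines Φ ε P z.1 z.2 x) (T : ℝ) :
    lkV Φ ε K T V w = lkT Φ ε K T P z w := by
  unfold lkV lkT badN
  rw [← cfg_comap_tree e h hV]
  ext l
  rw [mem_ofPred_eq, mem_ofPred_eq]
  exact not_congr (MW.w1E_relabel (Z := MW.cfg w) (A := MW.cfg V) (B := MW.line l) hΦ hε
    (Equiv.refl _) e (Equiv.refl Unit)).symm

theorem measurableSet_w1 {Ω : Type*} [MeasurableSpace Ω] {a b c : Ω → ℝ} (ha : Measurable a)
    (hb : Measurable b) (hc : Measurable c) : MeasurableSet {ω | W1 (a ω) (b ω) (c ω)} := by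
  have h : {ω | W1 (a ω) (b ω) (c ω)} = ({ω | b ω ≤ a ω}ᶜ ∪ {ω | c ω = b ω}) ∩
      ({ω | a ω < b ω}ᶜ ∪ {ω | a ω < c ω}) := by
    ext ω
    constructor
    · intro h
      refine ⟨?_, ?_⟩
      · by_cases h1 : b ω ≤ a ω
        · exact Or.inr (h.eq h1)
        · exact Or.inl h1
      · by_cases h1 : a ω < b ω
        · exact Or.inr (h.lt h1)
        · exact Or.inl h1
    · rintro ⟨h1, h2⟩
      exact ⟨fun h3 => h1.resolve_left fun h4 => h4 h3, fun h3 => h2.resolve_left fun h4 => h4 h3⟩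
  rw [h]
  exact ((measurableSet_le hb ha).compl.union (measurableSet_eq_fun hc hb)).inter
    ((measurableSet_lt ha hb).compl.union (measurableSet_lt ha hc))

/-- The measure of the linked lines is jointly measurable. -/
theorem measurable_lkT (hΦ : AdmissiblePotential Φ) (hε : 0 < ε) (γ : ℝ → ℝ) (ρ : ℝ≥0∞) (K : ℕ)
    (T : ℝ) (P : CTree) (m : ℕ) : Measurable fun q : (PhasePoint × Par P) × Config m =>
      lineM γ ρ K T (lkT Φ ε K T P q.1 q.2) := by
  have hw : MeasW fun p : ((PhasePoint × Par P) × Config m) × ML => MW.cfg p.1.2 :=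
    MeasW.cfg measurable_fst.snd
  have hA : MeasW fun p : ((PhasePoint × Par P) × Config m) × ML => treeW Φ ε P p.1.1 :=
    (measW_treeW hΦ ε P).comp measurable_fst.fst
  have h1 : Measurable fun p : ((PhasePoint × Par P) × Config m) × ML =>
      (MW.cfg p.1.2).theta Φ ε K T (treeW Φ ε P p.1.1) := hw.theta hΦ hε hA K measurable_const
  have h2 : Measurable fun p : ((PhasePoint × Par P) × Config m) × ML =>
      (MW.cfg p.1.2).thetaL Φ ε K T p.2 := hw.thetaL hΦ hε measurable_snd K measurable_const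
  have h3 : Measurable fun p : ((PhasePoint × Par P) × Config m) × ML =>
      ((MW.cfg p.1.2).add (treeW Φ ε P p.1.1)).thetaL Φ ε K T p.2 :=
    (hw.add hA).thetaL hΦ hε measurable_snd K measurable_const
  have h4 : MeasurableSet {p : ((PhasePoint × Par P) × Config m) × ML |
      p.2 ∈ lkT Φ ε K T P p.1.1 p.1.2} := (measurableSet_w1 h1 h2 h3).compl
  exact measurable_measure_prodMk_left (ν := lineM γ ρ K T) h4

/-! ### Ghost -/

/-- Ghost indicator: the protected tubes (up to the release times) are not hit by the gas alone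
before `tw`. -/
def gI (Φ : Space3 → ℝ) (ε tw : ℝ) (P : CTree) (z : PhasePoint × Par P) {m : ℕ} (w : Config m) :
    ℝ≥0∞ := unhitInd Φ ε (H5994.ghTM Φ ε P z) tw w

theorem measurable_gI (hΦ : AdmissiblePotential Φ) (hε : 0 < ε) (tw : ℝ) (P : CTree) (m : ℕ) :
    Measurable fun q : (PhasePoint × Par P) × Config m => gI Φ ε tw P q.1 q.2 := by
  unfold gI
  refine GIV566.measurable_unhitInd (Ω := (PhasePoint × Par P) × Config m) (T := max tw 0) hΦ hε
    (le_max_right _ _) (S := fun q => H5994.ghTM Φ ε P q.1) (fun q i => ?_) (fun i s => ?_)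
    (fun i => ?_) (t := fun _ => tw) measurable_const (fun _ => le_max_left _ _)
    (w := fun q => q.2) measurable_snd
  · exact (continuous_curveM hΦ hε P q.1.1 q.1.2 i).continuousOn
  · exact (measurable_curveM hΦ hε P i).comp (f := fun q : (PhasePoint × Par P) × Config m =>
      (s, q.1)) (measurable_const.prodMk measurable_fst)
  · exact (measurable_rel P i).comp (measurable_fst.snd)

theorem gI_eq_one (hΦ : AdmissiblePotential Φ) (hε : 0 < ε) {P : CTree} {z : PhasePoint × Par P}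
    (hV : Valid Φ ε P T' z.1.2 z.2) (hS : Sep Φ ε P T' z.1 z.2) {tw : ℝ} (htw : tw ≤ T') {m : ℕ}
    {w : Config m} (h : unhit Φ ε (protT Φ ε P T' z) tw w) : gI Φ ε tw P z w = 1 := by
  unfold gI unhitInd
  rw [if_pos]
  rw [H5994.ghTM_of_adm hV.1]
  intro i j s hs
  have hs1 : s ≤ rel P z.2 i := hs.2.trans (min_le_left _ _)
  have hs2 : s ≤ tw := hs.2.trans (min_le_right _ _)
  have hs3 : s ≤ prot P T' z.2 i := by
    by_cases hi : i = root P
    · rw [hi, PathFlow968.prot_root]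
      exact hs2.trans htw
    · rw [← rel_eq_prot P T' z.2 i hi]
      exact hs1
  have h1 := h i j s ⟨hs.1, le_min hs3 hs2⟩
  have h2 : curve Φ ε P z.1 z.2 i s = (path Φ ε P z.1 z.2 s i).1 :=
    curve_eq_path (X := z.1.1) (v := z.1.2) hΦ hε hV hS ⟨hs.1, hs2.trans htw⟩ i
  show ε < dist (curve Φ ε P z.1 z.2 i s) _
  rw [h2]
  exact h1

/-! ### The tree functionals -/

/-- Exceptional events of the exit lines: a world is not good, or two exit lines are linked. -/
def exE (Φ : Space3 → ℝ) (ε : ℝ) (K : ℕ) (u₀ : ℝ) (P : CTree) (z : PhasePoint × Par P) {m : ℕ}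
    (w : Config m) : ℝ≥0∞ :=
  if AllOk Φ ε w (exL Φ ε P z) ∧ ¬ LinkEx Φ ε K u₀ w (exL Φ ε P z) then 0 else 1

/-- Valid and separated trees with at most `K` leaves. -/
def vsI (Φ : Space3 → ℝ) (ε : ℝ) (K : ℕ) (T : ℝ) (P : CTree) (z : PhasePoint × Par P) : ℝ≥0∞ :=
  if P.leaves ≤ K ∧ Valid Φ ε P T z.1.2 z.2 ∧ Sep Φ ε P T z.1 z.2 then 1 else 0

theorem measurable_vsI (hΦ : AdmissiblePotential Φ) (hε : 0 < ε) (K : ℕ) (T : ℝ) (P : CTree) :
    Measurable (vsI Φ ε K T P) := by
  unfold vsI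
  exact Measurable.ite ((MeasurableSet.const _).inter (measurableSet_validSep hΦ hε P T))
    measurable_const measurable_const

/-- The leaves of the tree and the gas exclude each other. -/
def PerpT (Φ : Space3 → ℝ) (ε : ℝ) (P : CTree) (z : PhasePoint × Par P) {m : ℕ}
    (w : Config m) : Prop :=
  ∀ (x : Idx P) (i : Fin m), ε < dist (linesM Φ ε P z.1 z.2 x).1 (w i).1

/-- Indicator of `PerpT`. -/
def pI (Φ : Space3 → ℝ) (ε : ℝ) (P : CTree) (z : PhasePoint × Par P) {m : ℕ}
    (w : Config m) : ℝ≥0∞ := if PerpT Φ ε P z w then 1 else 0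

theorem measurableSet_perpT (hΦ : AdmissiblePotential Φ) (ε : ℝ) (P : CTree) (m : ℕ) :
    MeasurableSet {q : (PhasePoint × Par P) × Config m | PerpT Φ ε P q.1 q.2} := by
  have h1 : {q : (PhasePoint × Par P) × Config m | PerpT Φ ε P q.1 q.2} =
      ⋂ x : Idx P, ⋂ i : Fin m, {q : (PhasePoint × Par P) × Config m |
        ε < dist (linesM Φ ε P q.1.1 q.1.2 x).1 (q.2 i).1} := by
    ext q
    simp [PerpT]
  rw [h1]
  refine MeasurableSet.iInter fun x => MeasurableSet.iInter fun i => ?_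
  have h2 : Measurable fun q : (PhasePoint × Par P) × Config m =>
      (linesM Φ ε P q.1.1 q.1.2 x).1 :=
    ((measurable_pi_apply x).comp ((measurable_linesM hΦ ε P).comp measurable_fst)).fst
  have h3 : Measurable fun q : (PhasePoint × Par P) × Config m => (q.2 i).1 :=
    ((measurable_pi_apply i).comp measurable_snd).fst
  exact measurableSet_lt measurable_const (h2.dist h3)

theorem measurable_pI (hΦ : AdmissiblePotential Φ) (ε : ℝ) (P : CTree) (m : ℕ) :
    Measurable fun q : (PhasePoint × Par P) × Config m => pI Φ ε P q.1 q.2 := by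
  unfold pI
  exact Measurable.ite (measurableSet_perpT hΦ ε P m) measurable_const measurable_const

theorem pI_eq_one {k m : ℕ} {V : Config k} {w : Config m} {P : CTree} {z : PhasePoint × Par P}
    (e : Idx P → Fin k) (h : Adm Φ P z.1.2 z.2) (hV : ∀ x, V (e x) = lines Φ ε P z.1 z.2 x)
    (hp : Perp ε V w) : pI Φ ε P z w = 1 := by
  unfold pI
  rw [if_pos]
  intro x i
  rw [linesM_of_adm ε h, ← hV x]
  exact hp (e x) i

/-- Sum over the exit lines (measurable version of the lines). -/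
def exS (Φ : Space3 → ℝ) (ε : ℝ) (φ : (m : ℕ) → Config m → ML → ℝ≥0∞) (P : CTree)
    (z : PhasePoint × Par P) {m : ℕ} (w : Config m) : ℝ≥0∞ :=
  ∑ x : {x : Idx P // x ≠ root P}, φ m w (lineMM Φ ε P z x)

theorem measurable_exS (hΦ : AdmissiblePotential Φ) {φ : (m : ℕ) → Config m → ML → ℝ≥0∞}
    (hφ : ∀ m, Measurable fun p : Config m × ML => φ m p.1 p.2) (P : CTree) (m : ℕ) :
    Measurable fun q : (PhasePoint × Par P) × Config m => exS Φ ε φ P q.1 q.2 := by
  unfold exS
  refine Finset.measurable_sum _ fun x _ => ?_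
  exact (hφ m).comp (measurable_snd.prodMk ((measurable_lineMM hΦ ε P x).comp measurable_fst))

theorem exS_eq {φ : (m : ℕ) → Config m → ML → ℝ≥0∞} {P : CTree} {z : PhasePoint × Par P}
    (h : Adm Φ P z.1.2 z.2) {m : ℕ} (w : Config m) :
    exS Φ ε φ P z w = ∑ x, φ m w (exL Φ ε P z x) := by
  unfold exS
  refine Finset.sum_congr rfl fun x _ => ?_
  rw [lineMM_of_adm ε h]
  rfl

/-- Main part of the tree functional of the touched half: touches by the exit lines. -/
def HX (Φ : Space3 → ℝ) (ε : ℝ) (K : ℕ) (T tw : ℝ) (φ : (m : ℕ) → Config m → ML → ℝ≥0∞)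
    (P : CTree) (z : PhasePoint × Par P) (m : ℕ) (w : Config m) : ℝ≥0∞ :=
  vsI Φ ε K T P z * (wQ Φ ε P z * (gI Φ ε tw P z w * exS Φ ε φ P z w))

/-- Error part: linked lines. -/
def HLn (Φ : Space3 → ℝ) (ε : ℝ) (K : ℕ) (T : ℝ) (Q : EPar)
    (P : CTree) (z : PhasePoint × Par P) (m : ℕ) (w : Config m) : ℝ≥0∞ :=
  vsI Φ ε K T P z * (pI Φ ε P z w *
    (wQ Φ ε P z * lineM Q.γ Q.ρ K Q.te (lkT Φ ε K Q.te P z w)))

/-- Error part: exceptional events of the exit lines. -/
def HEx (Φ : Space3 → ℝ) (ε : ℝ) (K : ℕ) (T u₀ : ℝ)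
    (P : CTree) (z : PhasePoint × Par P) (m : ℕ) (w : Config m) : ℝ≥0∞ :=
  vsI Φ ε K T P z * (pI Φ ε P z w * (wQ Φ ε P z * exE Φ ε K u₀ P z w))

theorem measTS_HX (hΦ : AdmissiblePotential Φ) (hε : 0 < ε) (K : ℕ) (T tw : ℝ)
    {φ : (m : ℕ) → Config m → ML → ℝ≥0∞}
    (hφ : ∀ m, Measurable fun p : Config m × ML => φ m p.1 p.2) :
    MeasTS (HX Φ ε K T tw φ) := by
  intro P m
  unfold HX
  exact ((measurable_vsI hΦ hε K T P).comp measurable_fst).mul
    (((measurable_wQ hΦ P).comp measurable_fst).mul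
      ((measurable_gI hΦ hε tw P m).mul (measurable_exS hΦ hφ P m)))

theorem measTS_HLn (hΦ : AdmissiblePotential Φ) (hε : 0 < ε) (K : ℕ) (T : ℝ) (Q : EPar) :
    MeasTS (HLn Φ ε K T Q) := by
  intro P m
  unfold HLn
  exact ((measurable_vsI hΦ hε K T P).comp measurable_fst).mul
    ((measurable_pI hΦ ε P m).mul (((measurable_wQ hΦ P).comp measurable_fst).mul
      (measurable_lkT hΦ hε Q.γ Q.ρ K Q.te P m)))

theorem measurable_phi1 (hΦ : AdmissiblePotential Φ) (hε : 0 < ε) (K : ℕ) (Q : EPar) (m : ℕ) :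
    Measurable fun p : Config m × ML => phi1 Φ ε K Q m p.1 p.2 := by
  unfold phi1
  exact Measurable.ite (measurableSet_le measurable_snd.fst.fst measurable_const)
    (measurable_touchW_cfg hΦ hε K Q m) measurable_const

theorem measurable_phi2 (hΦ : AdmissiblePotential Φ) (hε : 0 < ε) (K : ℕ) (Q : EPar) (m : ℕ) :
    Measurable fun p : Config m × ML => phi2 Φ ε K Q m p.1 p.2 := by
  unfold phi2
  exact Measurable.ite ((measurableSet_le measurable_snd.fst.fst measurable_const).inter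
    (measurableSet_le (measurable_thetaL_cfg hΦ hε K Q.tw m) measurable_const))
    measurable_const measurable_const

theorem phi1_le_one (hL : 0 ≤ Q.L) (m : ℕ) (w : Config m) (l : ML) : phi1 Φ ε K Q m w l ≤ 1 := by
  unfold phi1 MW.touchW
  split_ifs
  · exact W_le_one hL _
  · exact zero_le_one
  · exact zero_le_one

theorem phi2_le_one (m : ℕ) (w : Config m) (l : ML) : phi2 Φ ε K Q m w l ≤ 1 := by
  unfold phi2
  split_ifs
  · exact le_rfl
  · exact zero_le_one

/-! ### Pointwise bounds -/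

/-- The cluster strictly before the infection time is the block `V` and the particle joins the
infection in the window. -/
def JT (Φ : Space3 → ℝ) (ε : ℝ) (K : ℕ) (Q : EPar) {k m : ℕ} (V : Config k) (w : Config m)
    (j : Fin k) : Prop :=
  preC Φ ε (Fin.append V w : Config (k + m))
    (iTime Φ ε K Q.te (Fin.append V w : Config (k + m)) (Fin.castAdd m j)) (Fin.castAdd m j) =
      block k m ∧ Joins Φ ε K Q (Fin.append V w : Config (k + m)) (Fin.castAdd m j)

/-- Some history of `(j, σ-)` is a tree whose protected tubes are not hit by `w` alone before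
`tw`. -/
def HisG (Φ : Space3 → ℝ) (ε : ℝ) (K : ℕ) (Q : EPar) (T' : ℝ) {k m : ℕ} (V : Config k)
    (w : Config m) (j : Fin k) : Prop :=
  ∃ (P : CTree) (z : PhasePoint × Par P) (e : Idx P → Fin (k + m)),
    HTreeP Φ ε T' (iTime Φ ε K Q.te (Fin.append V w : Config (k + m)) (Fin.castAdd m j))
      (Fin.append V w : Config (k + m)) (Fin.castAdd m j) P z.1 z.2 e ∧
    unhit Φ ε (protT Φ ε P T' z) Q.tw w

/-- `V` has touched the gas `w` before the infection time. -/
def TchB (Φ : Space3 → ℝ) (ε : ℝ) (K : ℕ) (Q : EPar) {k m : ℕ} (V : Config k) (w : Config m)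
    (j : Fin k) : Prop :=
  ∃ s < iTime Φ ε K Q.te (Fin.append V w : Config (k + m)) (Fin.castAdd m j), TchV Φ ε K V w s

/-- Some history of `(j, σ-)` is a tree. -/
def HisP (Φ : Space3 → ℝ) (ε : ℝ) (K : ℕ) (Q : EPar) (T' : ℝ) {k m : ℕ} (V : Config k)
    (w : Config m) (j : Fin k) : Prop :=
  ∃ (P : CTree) (z : PhasePoint × Par P) (e : Idx P → Fin (k + m)),
    HTreeP Φ ε T' (iTime Φ ε K Q.te (Fin.append V w : Config (k + m)) (Fin.castAdd m j))
      (Fin.append V w : Config (k + m)) (Fin.castAdd m j) P z.1 z.2 e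

theorem exists_equiv_block {k m : ℕ} {P : CTree} {e' : Idx P → Fin (k + m)}
    (hi : Function.Injective e') (hr : range e' = {x | x ∈ block k m}) :
    ∃ e : Idx P ≃ Fin k, e' = Fin.castAdd m ∘ e := by
  have h1 : ∀ x, ∃ j : Fin k, Fin.castAdd m j = e' x := by
    intro x
    have : e' x ∈ {x | x ∈ block k m} := by rw [← hr]; exact ⟨x, rfl⟩
    exact mem_block.1 this
  choose f hf using h1
  have hfi : Function.Injective f := by
    intro x y hxy
    exact hi (by rw [← hf, ← hf, hxy])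
  have hfs : Function.Surjective f := by
    intro j
    have : Fin.castAdd m j ∈ range e' := by rw [hr]; exact castAdd_mem_block j
    obtain ⟨x, hx⟩ := this
    refine ⟨x, Fin.castAdd_injective k m ?_⟩
    rw [hf, hx]
  exact ⟨Equiv.ofBijective f ⟨hfi, hfs⟩, funext fun x => (hf x).symm⟩

theorem card_preC_le {n : ℕ} {w : Config n} {q : Fin n} {T : ℝ}
    (h0 : 0 < iTime Φ ε K T w q) :
    (preC Φ ε w (iTime Φ ε K T w q) q).card ≤ K := by
  have h1 : ∀ u < iTime Φ ε K T w q, ¬ Infd (Ct (pth Φ ε w) ε) (fun _ => 1) K u q :=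
    fun u hu hi => not_gInfB_sig (b := T + 1) ⟨u, hu, hi⟩
  have h2 := (msizePre_le_iff h0 q).2 h1
  refine le_trans (le_of_eq ?_) h2
  unfold msizePre
  rw [← Finset.sum_filter, Finset.sum_const, smul_eq_mul, mul_one]
  congr 1
  ext k
  rw [Finset.mem_filter, mem_preC_iff_pre w h0]
  simp

section pointwise

variable {k m : ℕ} {V : Config k} {w : Config m} {j : Fin k}

/-- The data of the tree. -/
theorem tree_data (hΦ : AdmissiblePotential Φ) (hε : 0 < ε) (hT : 0 ≤ T') (htw : 0 ≤ Q.tw)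
    (hJ : JT Φ ε K Q V w j) {P : CTree} {z : PhasePoint × Par P} {e' : Idx P → Fin (k + m)}
    (h : HTreeP Φ ε T' (iTime Φ ε K Q.te (Fin.append V w : Config (k + m)) (Fin.castAdd m j))
      (Fin.append V w : Config (k + m)) (Fin.castAdd m j) P z.1 z.2 e') :
    P.leaves ≤ K ∧ ∃ e : Idx P ≃ Fin k, e' = Fin.castAdd m ∘ e ∧ e (root P) = j ∧
      ∀ x, V (e x) = lines Φ ε P z.1 z.2 x := by
  set σ := iTime Φ ε K Q.te (Fin.append V w : Config (k + m)) (Fin.castAdd m j) with hσ
  have hσ0 : 0 < σ := htw.trans_lt hJ.2.1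
  have hr : range e' = {x | x ∈ block k m} := by
    rw [h.range_eq hε hT hσ0, ← hJ.1]
    ext x
    rw [mem_ofPred_eq]
    exact (mem_preC_iff_pre _ hσ0 _ x).symm
  obtain ⟨e, he⟩ := exists_equiv_block h.inj hr
  have hk : k ≤ K := by
    have h1 := card_preC_le (Φ := Φ) (ε := ε) (K := K) (T := Q.te)
      (w := (Fin.append V w : Config (k + m))) (q := Fin.castAdd m j) hσ0
    rw [← hσ, hJ.1, card_block] at h1
    exact h1
  refine ⟨?_, e, he, ?_, fun x => ?_⟩
  · rw [← card_idx, Fintype.card_congr e, Fintype.card_fin]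
    exact hk
  · have h1 := h.root
    rw [he] at h1
    exact Fin.castAdd_injective k m h1
  · have h1 := h.lines_eq hΦ hε hT hσ0 x
    rw [he] at h1
    rw [← h1]
    show V (e x) = Fin.append V w (Fin.castAdd m (e x))
    rw [Fin.append_left]

theorem append_mem (hV : V ∈ PairExcluded ε k) (hw : w ∈ PairExcluded ε m) (hp : Perp ε V w) :
    (Fin.append V w : Config (k + m)) ∈ PairExcluded ε (k + m) :=
  (append_mem_pairExcluded_iff V w).2 ⟨hV, hw, hp⟩

/-- Touched part of the integrand of `aI`. -/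
def FTg (Φ : Space3 → ℝ) (ε : ℝ) (K : ℕ) (Q : EPar) (T' : ℝ) (k m : ℕ) (V : Config k)
    (w : Config m) (j : Fin k) : ℝ≥0∞ :=
  if JT Φ ε K Q V w j ∧ TchB Φ ε K Q V w j ∧ HisG Φ ε K Q T' V w j then
    (activity ε)⁻¹ * (eW (Fin.append V w : Config (k + m)) (block k m) *
      (MW.cfg (Fin.append V w : Config (k + m))).Wm Φ ε K Q
        (iTime Φ ε K Q.te (Fin.append V w : Config (k + m)) (Fin.castAdd m j)))
  else 0

/-- **Touched half, pointwise.** -/
theorem FTg_le (hΦ : AdmissiblePotential Φ) (hε : 0 < ε) (hT : 0 ≤ T') (hL : 0 < Q.L)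
    (htw : 0 ≤ Q.tw) (htwe : Q.tw ≤ Q.te) (hteT : Q.te ≤ T')
    (hV : V ∈ PairExcluded ε k) (hw : w ∈ PairExcluded ε m) (hp : Perp ε V w) :
    FTg Φ ε K Q T' k m V w j ≤ ways Φ ε T' (fun P z => (activity ε)⁻¹ *
      (HX Φ ε K T' Q.tw (phi1 Φ ε K Q) P z m w + HX Φ ε K T' Q.tw (phi2 Φ ε K Q) P z m w +
        ENNReal.ofReal Q.L * HLn Φ ε K T' Q P z m w + HEx Φ ε K T' Q.te P z m w)) V j := by
  unfold FTg
  split_ifs with hall
  swap
  · exact bot_le
  obtain ⟨hJ, ⟨s, hs, hts⟩, P, z, e', h, hun⟩ := hall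
  obtain ⟨hPK, e, he, hroot, hlines⟩ := tree_data hΦ hε hT htw hJ h
  have hX := append_mem hV hw hp
  refine le_trans ?_ (le_ways (Φ := Φ) (V := V) (j := j) (P := P) (e := e) (ℓ := z.1) (p := z.2)
    hΦ hε hroot h.valid hlines)
  refine mul_le_mul_right ?_ _
  have hvs : vsI Φ ε K T' P z = 1 := by
    unfold vsI
    rw [if_pos ⟨hPK, h.valid, h.sep⟩]
  have hg : gI Φ ε Q.tw P z w = 1 := gI_eq_one hΦ hε h.valid h.sep (htwe.trans hteT) hun
  show _ ≤ HX Φ ε K T' Q.tw (phi1 Φ ε K Q) P z m w + HX Φ ε K T' Q.tw (phi2 Φ ε K Q) P z m w +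
    ENNReal.ofReal Q.L * HLn Φ ε K T' Q P z m w + HEx Φ ε K T' Q.te P z m w
  unfold HX HLn HEx
  rw [hvs, hg, pI_eq_one e h.valid.1 hlines hp, exS_eq h.valid.1, exS_eq h.valid.1, eW_block e h.valid.1 hlines,
    ← lkV_eq hΦ hε e h.valid.1 hlines]
  simp only [one_mul]
  set a := wQ Φ ε P z with ha
  by_cases hgood : AllOk Φ ε w (exL Φ ε P z) ∧ ¬ LinkEx Φ ε K Q.te w (exL Φ ε P z)
  · rw [he] at h
    have h1 := wm_touched_le (Q := Q) hΦ hε hT hL htw htwe hteT hX hw e h hPK hJ.2.2 hgood.1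
      hgood.2 hs hts
    rw [Finset.sum_add_distrib] at h1
    refine (mul_le_mul_right h1 a).trans ?_
    rw [mul_add, mul_add]
    refine le_trans (le_of_eq ?_) le_self_add
    ring
  · have hex : exE Φ ε K Q.te P z w = 1 := by
      unfold exE
      rw [if_neg hgood]
    rw [hex, mul_one]
    refine le_trans ?_ le_add_self
    refine (mul_le_mul_right (wm_le_one hL.le _ _) a).trans ?_
    rw [mul_one]

/-- Weight comparison, untouched case. -/
def FLg (Φ : Space3 → ℝ) (ε : ℝ) (K : ℕ) (Q : EPar) (T' : ℝ) (k m : ℕ) (V : Config k)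
    (w : Config m) (j : Fin k) : ℝ≥0∞ :=
  if JT Φ ε K Q V w j ∧ ¬ TchB Φ ε K Q V w j ∧ HisP Φ ε K Q T' V w j then
    (activity ε)⁻¹ * (eW (Fin.append V w : Config (k + m)) (block k m) *
      ((MW.cfg (Fin.append V w : Config (k + m))).Wm Φ ε K Q
        (iTime Φ ε K Q.te (Fin.append V w : Config (k + m)) (Fin.castAdd m j)) -
      (MW.cfg w).Wm Φ ε K Q
        (iTime Φ ε K Q.te (Fin.append V w : Config (k + m)) (Fin.castAdd m j))))
  else 0

/-- **Weight comparison, pointwise.** -/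
theorem FLg_le (hΦ : AdmissiblePotential Φ) (hε : 0 < ε) (hT : 0 ≤ T') (hL : 0 < Q.L)
    (htw : 0 ≤ Q.tw)
    (hV : V ∈ PairExcluded ε k) (hw : w ∈ PairExcluded ε m) (hp : Perp ε V w) :
    FLg Φ ε K Q T' k m V w j ≤ ways Φ ε T' (fun P z => (activity ε)⁻¹ *
      (ENNReal.ofReal Q.L * HLn Φ ε K T' Q P z m w)) V j := by
  unfold FLg
  split_ifs with hall
  swap
  · exact bot_le
  obtain ⟨hJ, hnt, P, z, e', h⟩ := hall
  obtain ⟨hPK, e, he, hroot, hlines⟩ := tree_data hΦ hε hT htw hJ h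
  have hX := append_mem hV hw hp
  refine le_trans ?_ (le_ways (Φ := Φ) (V := V) (j := j) (P := P) (e := e) (ℓ := z.1) (p := z.2)
    hΦ hε hroot h.valid hlines)
  refine mul_le_mul_right ?_ _
  have hvs : vsI Φ ε K T' P z = 1 := by
    unfold vsI
    rw [if_pos ⟨hPK, h.valid, h.sep⟩]
  unfold HLn
  rw [hvs, pI_eq_one e h.valid.1 hlines hp, eW_block e h.valid.1 hlines, ← lkV_eq hΦ hε e h.valid.1 hlines]
  simp only [one_mul]
  rw [mul_left_comm]
  refine mul_le_mul_right ?_ _
  rw [tsub_le_iff_left]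
  have hσ0 : 0 ≤ iTime Φ ε K Q.te (Fin.append V w : Config (k + m)) (Fin.castAdd m j) :=
    htw.trans hJ.2.1.le
  have hle : iTime Φ ε K Q.te (Fin.append V w : Config (k + m)) (Fin.castAdd m j) ≤
      thV Φ ε K Q.te V w :=
    le_thV hΦ hε hw hX hσ0 hJ.2.2 fun s hs ht => hnt ⟨s, hs, ht⟩
  exact wm_append_le (P := Q) hΦ hε hL hle le_rfl

end pointwise

end

end Crest.Agent.R122.InEq2T
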