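import Crest.Agent.R122.TreeGate_302
import Crest.Agent.R122.GateTree_522
import Crest.Agent.R122.GateCap_973
import Crest.Agent.R122.ForGate2_424
import Crest.Agent.R122.InEq2TPt_335
import Crest.Agent.R122.EMDefs_602

/-!
# Row 122, H11 (helper311): the gateway for a tree and an independent line

Instance `m = treeQ` (law of a tree with the energy weight), `ν = lineM` of helper973's capped
gateway.

* `gNull_of_ae` : null sets are null events.
* `exists_small` : for small `ε` the masses of finitely many trees.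
* `Ctx` : the constants; `mass_treeQ`, `gLe_runT`, `gLe_runL`, `badF_T`, `badF_L`, `badF_J`,
  `gNull_hitT`, `gNull_hitL`, `gNull_hitJ` : all ingredients of the gateway.
* `TSN` : null functionals on trees; `tsn_of_fNull`; `tsn_cap_of_det` : **the gateway**.
-/

set_option autoImplicit false
set_option linter.unusedSectionVars false

open MeasureTheory Set Filter Topology
open scoped Classical ENNReal
open Crest.AnalysisR.Kinetic
open Crest.Agent.R122.GC311 Crest.Agent.R122.EDefs602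
open Crest.Agent.R122.Kin796 Crest.Agent.R122.Kin796.CTree Crest.Agent.R122.Tree674
open Crest.Agent.R122.InEq2 Crest.Agent.R122.TreeLines335 Crest.Agent.R122.LineMeas994
open Crest.Agent.R122.ToTree335 Crest.Agent.R122.LinkM547 Crest.Agent.R122.LN2
open Crest.Agent.R122.Gate424 Crest.Agent.R122.Gate973 Crest.Agent.R122.BH167

noncomputable section

namespace Crest.Agent.R122.TL311

/-! ### Null sets -/

section ae

variable {f₀ : PhasePoint → ℝ} {I Θ : Type} [MeasurableSpace Θ] {m : ℝ → I → Measure Θ}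
  {E : ℝ → I → (n : ℕ) → Θ → Config n → Prop}

/-- Null sets are null events. -/
theorem gNull_of_ae (hf : Measurable f₀) (hm : ∀ ε i, SFinite (m ε i))
    (h : ∀ ε i, 0 < ε → ∀ n, ∀ᵐ p ∂((m ε i).prod (volume : Measure (Config n))),
      p.2 ∈ PairExcluded ε n → ¬ E ε i n p.1 p.2) : GNull f₀ m E := by
  intro δ _
  refine ⟨1, one_pos, fun ε hε _ i => ?_⟩
  have := hm ε i
  set N : (n : ℕ) → Set (Θ × Config n) := fun n =>
    toMeasurable ((m ε i).prod volume) {p | p.2 ∈ PairExcluded ε n ∧ E ε i n p.1 p.2} with hN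
  have hN0 : ∀ n, ((m ε i).prod (volume : Measure (Config n))) (N n) = 0 := by
    intro n
    rw [hN]
    simp only
    rw [measure_toMeasurable]
    refine measure_mono_null ?_ (ae_iff.1 (h ε i hε n))
    rintro p ⟨h1, h2⟩ h3
    exact h3 h1 h2
  have hNm : ∀ n, MeasurableSet (N n) := fun n => measurableSet_toMeasurable _ _
  have hGm : ∀ n, Measurable ((N n).indicator (fun _ => (1 : ℝ≥0∞))) := fun n =>
    measurable_const.indicator (hNm n)
  refine ⟨fun n => (N n).indicator fun _ => 1, hGm, fun n θ w hw hE => ?_, ?_⟩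
  · have h3 : (θ, w) ∈ N n := subset_toMeasurable _ _ (show (θ, w) ∈ {p : Θ × Config n |
      p.2 ∈ PairExcluded ε n ∧ E ε i n p.1 p.2} from ⟨hw, hE⟩)
    show 1 ≤ (N n).indicator (fun _ => (1 : ℝ≥0∞)) (θ, w)
    rw [indicator_of_mem h3]
  · have e1 := LN2.lintegral_gcE_swap hf ε (m ε i)
      (F := fun n θ w => (N n).indicator (fun _ => (1 : ℝ≥0∞)) (θ, w)) hGm
    rw [e1]
    refine le_trans (b := 0) (le_of_eq ?_) bot_le
    unfold gcE
    have h2 : ∀ n, ∫⁻ Z : Config n, gcWeight f₀ ε n Z *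
        ∫⁻ θ, (N n).indicator (fun _ => (1 : ℝ≥0∞)) (θ, Z) ∂(m ε i) = 0 := by
      intro n
      have h3 : ∀ᵐ Z : Config n, (m ε i) ((fun θ => (θ, Z)) ⁻¹' N n) = 0 := by
        have h4 : ((volume : Measure (Config n)).prod (m ε i)) (Prod.swap ⁻¹' N n) = 0 := by
          rw [← Measure.map_apply measurable_swap (hNm n), Measure.prod_swap]
          exact hN0 n
        exact Measure.measure_ae_null_of_prod_null h4
      refine lintegral_eq_zero_of_ae_eq_zero ?_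
      filter_upwards [h3] with Z hZ
      have h5 : ∫⁻ θ, (N n).indicator (fun _ => (1 : ℝ≥0∞)) (θ, Z) ∂(m ε i) = 0 := by
        have h6 : (fun θ => (N n).indicator (fun _ => (1 : ℝ≥0∞)) (θ, Z)) =
            ((fun θ => (θ, Z)) ⁻¹' N n).indicator fun _ => 1 := by
          funext θ
          rfl
        rw [h6, lintegral_indicator_const (measurable_prodMk_right (hNm n)), one_mul, hZ]
      show gcWeight f₀ ε n Z * _ = 0
      rw [h5, mul_zero]
    simp only [h2, mul_zero, tsum_zero]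

end ae

/-! ### The ingredients -/

/-- The constants of the gateway for a tree and an independent line. -/
structure Ctx (Φ : Space3 → ℝ) (f₀ : PhasePoint → ℝ) (β T te g : ℝ) (γ : ℝ → ℝ)
    (ρ : ℝ≥0∞) : Prop where
  adm : AdmissiblePotential Φ
  cont : Continuous f₀
  gauss : HasSummableGaussianBound (2 * β) (fun x v => f₀ (x, v))
  mass : ∫⁻ z, ENNReal.ofReal (f₀ z) ≤ 1
  T_nonneg : 0 ≤ T
  te_le : te ≤ T
  g_pos : 0 < g
  g_le : g ≤ β
  rate : ∀ τ ∈ Ioc (0 : ℝ) te, g ≤ γ τ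
  meas : Measurable γ
  mark : ρ ≠ ∞

variable {Φ : Space3 → ℝ} {f₀ : PhasePoint → ℝ} {β T te g : ℝ} {γ : ℝ → ℝ} {ρ : ℝ≥0∞}
  {K : ℕ} {P : CTree}

/-- The law of a tree as a family. -/
def mT (Φ : Space3 → ℝ) (f₀ : PhasePoint → ℝ) (T : ℝ) (P : CTree) : ℝ → Unit →
    Measure (PhasePoint × Par P) := fun ε _ => TreeGate302.treeQ Φ f₀ ε P T

/-- The law of the lines as a family. -/
def nL (γ : ℝ → ℝ) (ρ : ℝ≥0∞) (K : ℕ) (te : ℝ) : ℝ → Unit → Measure ML := fun _ _ =>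
  lineM γ ρ K te

theorem sf_mT (P : CTree) (ε : ℝ) (i : Unit) : SFinite (mT Φ f₀ T P ε i) := by
  unfold mT; infer_instance

theorem sf_nL (ε : ℝ) (i : Unit) : SFinite (nL γ ρ K te ε i) := by
  unfold nL; infer_instance

/-- Leaves of the tree (measurable version) as states of the structure. -/
abbrev zT (Φ : Space3 → ℝ) (ε : ℝ) (P : CTree) (z : PhasePoint × Par P) : Idx P → PhasePoint :=
  linesM Φ ε P z.1 z.2

section ingr

variable (h : Ctx Φ f₀ β T te g γ ρ)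

include h

theorem Ctx.hf : Measurable f₀ := h.cont.measurable

theorem Ctx.exists_env : ∃ (r : Space3 → ℝ≥0∞) (C : ℝ≥0∞), Env f₀ (2 * β) r C ∧ Env f₀ g r C := by
  obtain ⟨r, C, he⟩ := LN2.exists_env (le_refl (2 * β)) h.gauss
  have h1 : g ≤ 2 * β := by
    have := h.g_pos
    have := h.g_le
    linarith
  exact ⟨r, C, he, ⟨he.meas, he.le_one, he.int, he.fin, fun z =>
    (he.le z).trans (mul_le_mul_right (mul_le_mul_right (LN2.wG_anti h1 z.2) _) _)⟩⟩

/-- The law of a tree is dominated at the rate `g`. -/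
theorem Ctx.dom_T {r : Space3 → ℝ≥0∞} {C : ℝ≥0∞} (he : Env f₀ (2 * β) r C) {ε : ℝ} (hε : 0 < ε)
    (P : CTree) :
    Dom g r ε 1 Finset.univ (ENNReal.ofReal (Fintype.card (Idx P) + 1 / (2 * β - g)) *
        C ^ Fintype.card (Idx P)) (Measure.dirac fun _ : Idx P => (0 : ℝ))
      (mT Φ f₀ T P ε ()) (fun _ _ => 0) (zT Φ ε P) := by
  have ha : 0 < 2 * β - g := by
    have := h.g_pos
    have := h.g_le
    linarith
  have h1 := TreeGate302.dom_treeQ h.adm h.hf he hε ha P T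
  rw [show 2 * β - (2 * β - g) = g by ring] at h1
  exact h1

/-- The law of the lines is dominated at the rate `g`. -/
theorem Ctx.dom_L (r : Space3 → ℝ≥0∞) (K : ℕ) (ε : ℝ) :
    Dom g r ε 1 (∅ : Finset Unit) (∑' n : ℕ, markW ρ K n) (lineΛ te) (nL γ ρ K te ε ())
      (fun l _ => l.1.1) (fun l _ => back l.1) :=
  dom_line h.rate h.meas ρ K ε

/-- A tree and an independent line: two groups. -/
theorem Ctx.dom_J {r : Space3 → ℝ≥0∞} {C : ℝ≥0∞} (he : Env f₀ (2 * β) r C) {ε : ℝ} (hε : 0 < ε)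
    (P : CTree) (K : ℕ) :
    Dom g r ε 2 ((Finset.univ : Finset (Idx P)).disjSum (∅ : Finset Unit))
      (ENNReal.ofReal (Fintype.card (Idx P) + 1 / (2 * β - g)) * C ^ Fintype.card (Idx P) *
        ∑' n : ℕ, markW ρ K n)
      (prodΛ (Measure.dirac fun _ : Idx P => (0 : ℝ)) (lineΛ te))
      ((mT Φ f₀ T P ε ()).prod (nL γ ρ K te ε ()))
      (fun θ => Sum.elim (fun _ => 0) fun _ : Unit => θ.2.1.1)
      (fun θ => Sum.elim (zT Φ ε P θ.1) fun _ : Unit => back θ.2.1) := by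
  have := sf_mT (Φ := Φ) (f₀ := f₀) (T := T) P ε ()
  have := sf_nL (γ := γ) (ρ := ρ) (K := K) (te := te) ε ()
  exact Dom.prod he.meas (h.dom_T he hε P) (h.dom_L r K ε)
    (Fintype.card_pos_iff.2 ⟨root P⟩) le_rfl

/-- Moments of the leaves. -/
theorem Ctx.exists_moment (P : CTree) : ∃ M : ℝ≥0∞, M ≠ ∞ ∧ ∀ (ε : ℝ) (i : Unit), 0 < ε →
    ∫⁻ z, expW (g / 2) (zT Φ ε P z) ∂(mT Φ f₀ T P ε i) ≤ M := by
  have h1 : g / 2 < 2 * β := by
    have := h.g_pos
    have := h.g_le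
    linarith
  obtain ⟨M, hM, h2⟩ := GateT522.exists_moment_expW h.adm h.hf h.gauss h1 P T
  exact ⟨M, hM, fun ε _ hε => h2 ε T hε le_rfl⟩

/-- The law of a tree is finite, uniformly in `ε`. -/
theorem Ctx.exists_mass (P : CTree) : ∃ M : ℝ≥0∞, M ≠ ∞ ∧ ∀ (ε : ℝ) (i : Unit), 0 < ε →
    mT Φ f₀ T P ε i univ ≤ M := by
  obtain ⟨M, hM, h1⟩ := h.exists_moment P
  refine ⟨M, hM, fun ε i hε => le_trans ?_ (h1 ε i hε)⟩
  rw [← setLIntegral_one, Measure.restrict_univ]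
  refine lintegral_mono fun z => ?_
  have h2 := h.g_pos
  rw [DomForest998.expW_eq, ← ENNReal.ofReal_one]
  exact ENNReal.ofReal_le_ofReal (Real.one_le_exp (by positivity))

theorem Ctx.exists_bound : ∃ C₀ : ℝ, 0 ≤ C₀ ∧
    ∀ z : PhasePoint, f₀ z ≤ C₀ * Real.exp (-(2 * (g / 2) * ‖z.2‖ ^ 2)) := by
  obtain ⟨C₀, hC₀, hb⟩ := exists_gaussian_bound h.gauss
  refine ⟨C₀, hC₀, fun z => ?_⟩
  refine (le_abs_self _).trans ((hb z.1 z.2).trans ?_)
  refine mul_le_mul_of_nonneg_left (Real.exp_le_exp.2 ?_) hC₀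
  have h1 := h.g_pos
  have h2 := h.g_le
  have h3 : g * ‖z.2‖ ^ 2 ≤ 2 * β * ‖z.2‖ ^ 2 :=
    mul_le_mul_of_nonneg_right (by linarith) (sq_nonneg _)
  have h4 : 2 * (g / 2) * ‖z.2‖ ^ 2 = g * ‖z.2‖ ^ 2 := by ring
  rw [h4]
  linarith

/-- Runs from the groups of the tree. -/
theorem Ctx.gLe_runT (P : CTree) (K₂ : ℕ) {δ : ℝ≥0∞} (hδ : 0 < δ) : ∃ L₀ : ℕ, ∀ L, L₀ ≤ L →
    GLe f₀ (mT Φ f₀ T P) (fun ε _ _ z w => RunS Φ ε T K₂ L (fun _ => 0) (zT Φ ε P z) w) δ := by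
  obtain ⟨C₀, hC₀, hb⟩ := h.exists_bound
  obtain ⟨M, hM, hmom⟩ := h.exists_moment P
  exact gLe_runS (I := Unit) (m := mT Φ f₀ T P) h.adm (β := g / 2) (half_pos h.g_pos)
    h.T_nonneg hC₀ K₂ h.hf hb h.mass (t := fun _ => T) (fun _ => le_rfl)
    (b := fun _ _ _ _ => 0) (z := fun ε _ z => zT Φ ε P z) (fun _ _ _ => measurable_const)
    (fun ε _ _ => measurable_linesM h.adm ε P) hM hmom hδ

/-- Runs from the line. -/
theorem Ctx.gLe_runL (K K₂ : ℕ) {δ : ℝ≥0∞} (hδ : 0 < δ) : ∃ L₀ : ℕ, ∀ L, L₀ ≤ L →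
    GLe f₀ (nL γ ρ K te) (fun ε _ _ l w => Run Φ ε T K₂ L (MW.line l) () w) δ := by
  have h1 : 2 * (g / 2) ≤ 2 * β := by
    have := h.g_pos
    have := h.g_le
    linarith
  obtain ⟨env, A, hA, hE⟩ := exists_envB h1 h.gauss
  exact gLe_runX (I := Unit) h.adm (half_pos h.g_pos) (half_lt_self h.g_pos) h.te_le h.T_nonneg hA
    K₂ h.hf h.mass hE h.meas h.rate h.mark K (t := fun _ => T) (fun _ => le_rfl) hδ

/-- Bad partitions of the tree. -/
theorem Ctx.badF_T (hCN : VLMeas973.ClassNull Φ T) (P : CTree) (C : ℝ) (N : ℕ) :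
    BadF f₀ (mT Φ f₀ T P) (fun R ς ε _ _ z w => BadGas Φ T C R ς ε N 1 Finset.univ
      (fun _ : Idx P => 0) (zT Φ ε P z) w) := by
  obtain ⟨r, C₀, he, heg⟩ := h.exists_env
  exact badF_badGas (I := Unit) (m := mT Φ f₀ T P) hCN h.hf h.mass heg h.g_pos C N
    (s := 1) (Fintype.card_pos_iff.2 ⟨root P⟩) Finset.univ
    (c := ENNReal.ofReal (Fintype.card (Idx P) + 1 / (2 * β - g)) * C₀ ^ Fintype.card (Idx P))
    (ENNReal.mul_ne_top ENNReal.ofReal_ne_top (ENNReal.pow_ne_top he.fin))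
    (Measure.dirac fun _ : Idx P => (0 : ℝ)) (b := fun _ _ _ _ => 0) (z := fun ε _ z => zT Φ ε P z)
    (sf_mT P) fun ε _ hε => h.dom_T he hε P

/-- Bad clusters of the line. -/
theorem Ctx.badF_L (hCN : VLMeas973.ClassNull Φ T) (K : ℕ) (C : ℝ) (N : ℕ) :
    BadF f₀ (nL γ ρ K te) (fun R ς ε _ _ l w => BadGas Φ T C R ς ε N 1 (∅ : Finset Unit)
      (fun _ => l.1.1) (fun _ => back l.1) w) := by
  obtain ⟨r, C₀, he, heg⟩ := h.exists_env
  exact badF_badX (I := Unit) hCN h.hf h.mass heg h.g_pos C N h.meas h.rate h.mark K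

/-- Bad partitions of the tree and the line. -/
theorem Ctx.badF_J (hCN : VLMeas973.ClassNull Φ T) (P : CTree) (K : ℕ) (C : ℝ) (N : ℕ) :
    BadF f₀ (fun ε i => (mT Φ f₀ T P ε i).prod (nL γ ρ K te ε i)) (fun R ς ε _ _ p w =>
      BadGas Φ T C R ς ε N 2 ((Finset.univ : Finset (Idx P)).disjSum (∅ : Finset Unit))
        (Sum.elim (fun _ => 0) fun _ : Unit => p.2.1.1)
        (Sum.elim (zT Φ ε P p.1) fun _ : Unit => back p.2.1) w) := by
  obtain ⟨r, C₀, he, heg⟩ := h.exists_env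
  refine badF_badGas (I := Unit) (m := fun ε i => (mT Φ f₀ T P ε i).prod (nL γ ρ K te ε i))
    hCN h.hf h.mass heg h.g_pos C N (s := 2) ?_
    ((Finset.univ : Finset (Idx P)).disjSum (∅ : Finset Unit))
    (c := ENNReal.ofReal (Fintype.card (Idx P) + 1 / (2 * β - g)) *
      C₀ ^ Fintype.card (Idx P) * ∑' n : ℕ, markW ρ K n)
    (ENNReal.mul_ne_top (ENNReal.mul_ne_top ENNReal.ofReal_ne_top (ENNReal.pow_ne_top he.fin))
      (sum_markW_ne_top h.mark K))
    (prodΛ (Measure.dirac fun _ : Idx P => (0 : ℝ)) (lineΛ te))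
    (b := fun _ _ p => Sum.elim (fun _ => 0) fun _ : Unit => p.2.1.1)
    (z := fun ε _ p => Sum.elim (zT Φ ε P p.1) fun _ : Unit => back p.2.1)
    (fun ε i => ?_) fun ε _ hε => h.dom_J he hε P K
  · have : 0 < Fintype.card (Idx P) := Fintype.card_pos_iff.2 ⟨root P⟩
    rw [Fintype.card_sum, Fintype.card_unit]
    omega
  · have := sf_mT (Φ := Φ) (f₀ := f₀) (T := T) P ε i
    have := sf_nL (γ := γ) (ρ := ρ) (K := K) (te := te) ε i
    infer_instance

/-- Bad hits of the tree. -/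
theorem Ctx.gNull_hitT (P : CTree) (C R : ℝ) (N K₁ : ℕ) :
    GNull f₀ (mT Φ f₀ T P) (fun ε _ _ z w => BadHitGas (BPos Φ T) Φ T C R ε N K₁ 1 Finset.univ
      (fun _ : Idx P => 0) (zT Φ ε P z) w) := by
  obtain ⟨r, C₀, he, heg⟩ := h.exists_env
  exact gNull_badHit (I := Unit) (m := mT Φ f₀ T P) h.adm h.T_nonneg h.hf h.mass heg h.g_pos
    (s := 1) (Fintype.card_pos_iff.2 ⟨root P⟩) Finset.univ
    (c := ENNReal.ofReal (Fintype.card (Idx P) + 1 / (2 * β - g)) * C₀ ^ Fintype.card (Idx P))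
    (ENNReal.mul_ne_top ENNReal.ofReal_ne_top (ENNReal.pow_ne_top he.fin))
    (Measure.dirac fun _ : Idx P => (0 : ℝ)) (b := fun _ _ _ _ => 0) (z := fun ε _ z => zT Φ ε P z)
    (sf_mT P) (fun ε _ hε => h.dom_T he hε P) C R N K₁

/-- Bad hits of the tree and the line. -/
theorem Ctx.gNull_hitJ (P : CTree) (K : ℕ) (C R : ℝ) (N K₁ : ℕ) :
    GNull f₀ (fun ε i => (mT Φ f₀ T P ε i).prod (nL γ ρ K te ε i)) (fun ε _ _ p w =>
      BadHitGas (BPos Φ T) Φ T C R ε N K₁ 2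
        ((Finset.univ : Finset (Idx P)).disjSum (∅ : Finset Unit))
        (Sum.elim (fun _ => 0) fun _ : Unit => p.2.1.1)
        (Sum.elim (zT Φ ε P p.1) fun _ : Unit => back p.2.1) w) := by
  obtain ⟨r, C₀, he, heg⟩ := h.exists_env
  refine gNull_badHit (I := Unit) (m := fun ε i => (mT Φ f₀ T P ε i).prod (nL γ ρ K te ε i))
    h.adm h.T_nonneg h.hf h.mass heg h.g_pos (s := 2) ?_
    ((Finset.univ : Finset (Idx P)).disjSum (∅ : Finset Unit))
    (c := ENNReal.ofReal (Fintype.card (Idx P) + 1 / (2 * β - g)) *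
      C₀ ^ Fintype.card (Idx P) * ∑' n : ℕ, markW ρ K n)
    (ENNReal.mul_ne_top (ENNReal.mul_ne_top ENNReal.ofReal_ne_top (ENNReal.pow_ne_top he.fin))
      (sum_markW_ne_top h.mark K))
    (prodΛ (Measure.dirac fun _ : Idx P => (0 : ℝ)) (lineΛ te))
    (b := fun _ _ p => Sum.elim (fun _ => 0) fun _ : Unit => p.2.1.1)
    (z := fun ε _ p => Sum.elim (zT Φ ε P p.1) fun _ : Unit => back p.2.1)
    (fun ε i => ?_) (fun ε _ hε => h.dom_J he hε P K) C R N K₁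
  · have : 0 < Fintype.card (Idx P) := Fintype.card_pos_iff.2 ⟨root P⟩
    rw [Fintype.card_sum, Fintype.card_unit]
    omega
  · have := sf_mT (Φ := Φ) (f₀ := f₀) (T := T) P ε i
    have := sf_nL (γ := γ) (ρ := ρ) (K := K) (te := te) ε i
    infer_instance

/-- Bad hits of the line (the part which is hit is anchored by the gas). -/
theorem Ctx.gNull_hitL (K : ℕ) (C R : ℝ) (N K₁ : ℕ) :
    GNull f₀ (nL γ ρ K te) (fun ε _ _ l w => BadHitGas (BPos Φ T) Φ T C R ε N K₁ 1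
      (∅ : Finset Unit) (fun _ => l.1.1) (fun _ => back l.1) w) := by
  obtain ⟨r, C₀, he, heg⟩ := h.exists_env
  exact gNull_badHit (I := Unit) (m := nL γ ρ K te) h.adm h.T_nonneg h.hf h.mass heg h.g_pos
    (s := 1) le_rfl ∅ (c := ∑' n : ℕ, markW ρ K n) (sum_markW_ne_top h.mark K) (lineΛ te)
    (b := fun _ _ l _ => l.1.1) (z := fun _ _ l _ => back l.1) sf_nL
    (fun ε _ _ => h.dom_L r K ε) C R N K₁

end ingr

/-! ### Null functionals on trees -/

/-- The functional `F` on trees with at most `K` leaves and the gas is null: for small `ε` it has a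
measurable majorant whose tree integral with the energy weight is small. -/
def TSN (Φ : Space3 → ℝ) (f₀ : PhasePoint → ℝ) (T : ℝ) (K : ℕ)
    (F : ℝ → (P : CTree) → PhasePoint × Par P → (m : ℕ) → Config m → ℝ≥0∞) : Prop :=
  ∀ δ : ℝ≥0∞, 0 < δ → ∃ ε₀ : ℝ, 0 < ε₀ ∧ ∀ ε : ℝ, 0 < ε → ε < ε₀ →
    ∃ N : (P : CTree) → PhasePoint × Par P → (m : ℕ) → Config m → ℝ≥0∞, MeasTS N ∧
      (∀ P z m (w : Config m), P.leaves ≤ K → w ∈ PairExcluded ε m → F ε P z m w ≤ N P z m w) ∧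
      TS Φ f₀ ε T (fun P z m w => wQ Φ ε P z * N P z m w) ≤ δ

variable {F F' : ℝ → (P : CTree) → PhasePoint × Par P → (m : ℕ) → Config m → ℝ≥0∞}

theorem TSN.mono (h : TSN Φ f₀ T K F) (hF : ∃ ε₁ : ℝ, 0 < ε₁ ∧ ∀ ε : ℝ, 0 < ε → ε < ε₁ →
    ∀ P z m (w : Config m), P.leaves ≤ K → w ∈ PairExcluded ε m → F' ε P z m w ≤ F ε P z m w) :
    TSN Φ f₀ T K F' := by
  intro δ hδ
  obtain ⟨ε₀, h0, h⟩ := h δ hδ
  obtain ⟨ε₁, h1, hF⟩ := hF
  refine ⟨min ε₀ ε₁, lt_min h0 h1, fun ε hε hlt => ?_⟩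
  obtain ⟨N, hN, hNF, hi⟩ := h ε hε (hlt.trans_le (min_le_left _ _))
  exact ⟨N, hN, fun P z m w hP hw => (hF ε hε (hlt.trans_le (min_le_right _ _)) P z m w hP hw).trans
    (hNF P z m w hP hw), hi⟩

theorem exists_min_pos {e : CTree → ℝ} (K : ℕ) (he : ∀ P : CTree, P.leaves ≤ K → 0 < e P) :
    ∃ ε₀ : ℝ, 0 < ε₀ ∧ ∀ P : CTree, P.leaves ≤ K → ε₀ ≤ e P := by
  have h1 : ∀ S : Finset CTree, ∃ ε₀ : ℝ, 0 < ε₀ ∧ ∀ P ∈ S, P.leaves ≤ K → ε₀ ≤ e P := by
    intro S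
    induction S using Finset.induction_on with
    | empty => exact ⟨1, one_pos, fun P hP => absurd hP (Finset.notMem_empty P)⟩
    | insert a S ha ih =>
      obtain ⟨ε₀, h0, ih⟩ := ih
      by_cases hP : a.leaves ≤ K
      · refine ⟨min ε₀ (e a), lt_min h0 (he a hP), fun P hPS hPK => ?_⟩
        rcases Finset.mem_insert.1 hPS with rfl | h2
        · exact min_le_right _ _
        · exact (min_le_left _ _).trans (ih P h2 hPK)
      · refine ⟨ε₀, h0, fun P hPS hPK => ?_⟩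
        rcases Finset.mem_insert.1 hPS with rfl | h2
        · exact absurd hPK hP
        · exact ih P h2 hPK
  obtain ⟨ε₀, h0, h1⟩ := h1 (GIVStep383.trees K)
  exact ⟨ε₀, h0, fun P hP => h1 P (GIVStep383.mem_trees.2 hP) hP⟩

/-- The tree integral of a family of functionals. -/
theorem ts_le_of_family (hΦ : AdmissiblePotential Φ) (hf : Measurable f₀) {ε : ℝ} {δ : ℝ≥0∞}
    {G : (P : CTree) → (n : ℕ) → (PhasePoint × Par P) × Config n → ℝ≥0∞}
    (hG : ∀ P n, Measurable (G P n))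
    (hi : ∀ P, P.leaves ≤ K → ∫⁻ z, gcE f₀ ε (fun n w => G P n (z, w)) ∂(mT Φ f₀ T P ε ()) ≤ δ) :
    TS Φ f₀ ε T (fun P z m w => wQ Φ ε P z * if P.leaves ≤ K then G P m (z, w) else 0) ≤
      (GIVStep383.trees K).card * δ := by
  unfold InEq2.TS
  rw [tsum_eq_sum (s := GIVStep383.trees K)]
  · calc _ ≤ ∑ _P ∈ GIVStep383.trees K, δ := by
          refine Finset.sum_le_sum fun P hP => ?_
          have hP' : P.leaves ≤ K := GIVStep383.mem_trees.1 hP
          refine le_trans (le_of_eq ?_) (hi P hP')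
          have hgm : Measurable fun z : PhasePoint × Par P =>
              gcE f₀ ε fun n w => G P n (z, w) :=
            MeasE416.measurable_gcE_of hf ε (F := fun n z w => G P n (z, w)) fun n => hG P n
          unfold mT
          rw [TreeGate302.lintegral_treeQ hΦ hf ε P T hgm]
          refine lintegral_congr fun z => ?_
          congr 1
          funext z
          simp only [if_pos hP']
          rw [gcE_const_mul f₀ ε (Small302.wQ_ne_top z)]
      _ = _ := by rw [Finset.sum_const, nsmul_eq_mul]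
  · intro P hP
    have hP' : ¬ P.leaves ≤ K := fun h => hP (GIVStep383.mem_trees.2 h)
    refine (lintegral_congr fun z => ?_).trans lintegral_zero
    by_cases hz : z ∈ {z : PhasePoint × Par P | Valid Φ ε P T z.1.2 z.2}
    · rw [indicator_of_mem hz]
      simp only [if_neg hP', mul_zero]
      simp [gcE_zero]
    · rw [indicator_of_notMem hz]

/-- From helper973's `FNull` for every tree. -/
theorem tsn_of_fNull (hΦ : AdmissiblePotential Φ) (hf : Measurable f₀)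
    (h : ∀ P : CTree, P.leaves ≤ K → FNull f₀ (mT Φ f₀ T P) (fun ε _ n z w => F ε P z n w)) :
    TSN Φ f₀ T K F := by
  intro δ hδ
  obtain ⟨δ', hδ', hle⟩ := TreeGate302.exists_div (GIVStep383.trees K).card hδ
  have h1 : ∀ P : CTree, ∃ e : ℝ, (P.leaves ≤ K → 0 < e ∧ ∀ ε : ℝ, 0 < ε → ε < e →
      ∃ G : (n : ℕ) → (PhasePoint × Par P) × Config n → ℝ≥0∞, (∀ n, Measurable (G n)) ∧
        (∀ n z (w : Config n), w ∈ PairExcluded ε n → F ε P z n w ≤ G n (z, w)) ∧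
        ∫⁻ z, gcE f₀ ε (fun n w => G n (z, w)) ∂(mT Φ f₀ T P ε ()) ≤ δ') := by
    intro P
    by_cases hP : P.leaves ≤ K
    · obtain ⟨e, he, h2⟩ := h P hP δ' hδ'
      exact ⟨e, fun _ => ⟨he, fun ε hε hlt => h2 ε hε hlt ()⟩⟩
    · exact ⟨1, fun h => absurd h hP⟩
  choose e he using h1
  obtain ⟨ε₀, h0, hε₀⟩ := exists_min_pos K (e := e) fun P hP => (he P hP).1
  refine ⟨ε₀, h0, fun ε hε hlt => ?_⟩
  have h2 : ∀ P : CTree, ∃ G : (n : ℕ) → (PhasePoint × Par P) × Config n → ℝ≥0∞,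
      (∀ n, Measurable (G n)) ∧ (P.leaves ≤ K →
        (∀ n z (w : Config n), w ∈ PairExcluded ε n → F ε P z n w ≤ G n (z, w)) ∧
        ∫⁻ z, gcE f₀ ε (fun n w => G n (z, w)) ∂(mT Φ f₀ T P ε ()) ≤ δ') := by
    intro P
    by_cases hP : P.leaves ≤ K
    · obtain ⟨G, hGm, hG, hGi⟩ := (he P hP).2 ε hε (hlt.trans_le (hε₀ P hP))
      exact ⟨G, hGm, fun _ => ⟨hG, hGi⟩⟩
    · exact ⟨fun _ _ => 0, fun _ => measurable_const, fun h => absurd h hP⟩
  choose G hGm hG using h2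
  refine ⟨fun P z m w => if P.leaves ≤ K then G P m (z, w) else 0, fun P m => ?_,
    fun P z m w hP hw => ?_, ?_⟩
  · by_cases hP : P.leaves ≤ K
    · simp only [if_pos hP]
      exact hGm P m
    · simp only [if_neg hP]
      exact measurable_const
  · simp only [if_pos hP]
    exact (hG P hP).1 m z w hw
  · exact (ts_le_of_family hΦ hf hGm fun P hP => (hG P hP).2).trans hle

/-- **The gateway for a tree and an independent line.** -/
theorem tsn_cap_of_det (h : Ctx Φ f₀ β T te g γ ρ) (K Km K₂ : ℕ)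
    {lk : ℝ → (P : CTree) → PhasePoint × Par P → (m : ℕ) → Config m → Set ML}
    (hdet : ∀ P : CTree, P.leaves ≤ K → ∀ L : ℕ,
      ∃ (BS : ℝ → ℝ → ℝ → Unit → (n : ℕ) → PhasePoint × Par P → Config n → Prop)
        (BX : ℝ → ℝ → ℝ → Unit → (n : ℕ) → ML → Config n → Prop)
        (BJ : ℝ → ℝ → ℝ → Unit → (n : ℕ) → (PhasePoint × Par P) × ML → Config n → Prop),
      BadF f₀ (mT Φ f₀ T P) BS ∧ BadF f₀ (nL γ ρ Km te) BX ∧
      BadF f₀ (fun ε i => (mT Φ f₀ T P ε i).prod (nL γ ρ Km te ε i)) BJ ∧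
      ∀ R > 0, ∀ ς > 0, ∃ ε₁ : ℝ, 0 < ε₁ ∧ ∀ ε : ℝ, 0 < ε → ε < ε₁ →
        ∀ n z x (w : Config n), w ∈ PairExcluded ε n → Valid Φ ε P T z.1.2 z.2 →
        Sep Φ ε P T z.1 z.2 → InEq2T.PerpT Φ ε P z w → x ∈ lk ε P z n w →
        (RunS Φ ε T K₂ L (fun _ => 0) (zT Φ ε P z) w ∨ BS R ς ε () n z w) ∨
        (Run Φ ε T K₂ L (MW.line x) () w ∨ BX R ς ε () n x w) ∨ BJ R ς ε () n (z, x) w) :
    TSN Φ f₀ T K (fun ε P z m w => if Valid Φ ε P T z.1.2 z.2 ∧ Sep Φ ε P T z.1 z.2 ∧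
      InEq2T.PerpT Φ ε P z w then min 1 (lineM γ ρ Km te (lk ε P z m w)) else 0) := by
  refine tsn_of_fNull h.adm h.hf fun P hP => ?_
  obtain ⟨M, hM, hmass⟩ := h.exists_mass P
  have h1 := fNull_cap_of_det (I := Unit) (m := mT Φ f₀ T P) (ν := nL γ ρ Km te) h.hf (sf_mT P)
    sf_nL hM hmass
    (E := fun ε _ n z x w => Valid Φ ε P T z.1.2 z.2 ∧ Sep Φ ε P T z.1 z.2 ∧
      InEq2T.PerpT Φ ε P z w ∧ x ∈ lk ε P z n w)
    (RS := fun L ε _ _ z w => RunS Φ ε T K₂ L (fun _ => 0) (zT Φ ε P z) w)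
    (HS := fun _ _ _ _ _ _ => False)
    (RX := fun L ε _ _ l w => Run Φ ε T K₂ L (MW.line l) () w)
    (HX := fun _ _ _ _ _ _ => False) (HJ := fun _ _ _ _ _ _ => False)
    (fun L => ?_) (fun δ hδ => h.gLe_runT P K₂ hδ) (fun δ hδ => h.gLe_runL Km K₂ hδ)
    (fun _ δ _ => (GLe.zero f₀ _).mono bot_le ⟨1, one_pos, fun _ _ _ _ _ _ _ _ h => h⟩)
    (fun _ δ _ => (GLe.zero f₀ _).mono bot_le ⟨1, one_pos, fun _ _ _ _ _ _ _ _ h => h⟩)
    (fun _ δ _ => (GLe.zero f₀ _).mono bot_le ⟨1, one_pos, fun _ _ _ _ _ _ _ _ h => h⟩)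
  · refine h1.mono ⟨1, one_pos, fun ε _ _ i n z w _ => ?_⟩
    show (if Valid Φ ε P T z.1.2 z.2 ∧ Sep Φ ε P T z.1 z.2 ∧ InEq2T.PerpT Φ ε P z w then
      min 1 (lineM γ ρ Km te (lk ε P z n w)) else 0) ≤ _
    split_ifs with hc
    · refine min_le_min le_rfl (measure_mono fun x hx => ?_)
      exact ⟨hc.1, hc.2.1, hc.2.2, hx⟩
    · exact bot_le
  · obtain ⟨BS, BX, BJ, hBS, hBX, hBJ, hd⟩ := hdet P hP L
    refine ⟨BS, BX, BJ, hBS, hBX, hBJ, fun R hR ς hς => ?_⟩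
    obtain ⟨ε₁, h0, hd⟩ := hd R hR ς hς
    refine ⟨ε₁, h0, fun ε hε hlt i n z x w hw hE => ?_⟩
    rcases hd ε hε hlt n z x w hw hE.1 hE.2.1 hE.2.2.1 hE.2.2.2 with (h2 | h2) | (h2 | h2) | h2
    · exact Or.inl (Or.inl h2)
    · exact Or.inl (Or.inr (Or.inl h2))
    · exact Or.inr (Or.inl (Or.inl h2))
    · exact Or.inr (Or.inl (Or.inr (Or.inl h2)))
    · exact Or.inr (Or.inr (Or.inl h2))

end Crest.Agent.R122.TL311

end
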