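import Crest.Agent.R122.ErrA2_815
import Crest.Agent.R122.TLGate_311

/-!
helper815, row 122: `XNull` from helper311's gateway (tree and an independent line).
-/

set_option autoImplicit false
set_option linter.unusedSectionVars false

open MeasureTheory Set Filter
open scoped ENNReal Topology
open Crest.AnalysisR.Kinetic
open Crest.Agent.R122.Kin796 Crest.Agent.R122.Kin796.CTree Crest.Agent.R122.Tree674
open Crest.Agent.R122.EDefs602 Crest.Agent.R122.InEq2 Crest.Agent.R122.InEq2T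
open Crest.Agent.R122.Master566 Crest.Agent.R122.TL311

noncomputable section

namespace Crest.Agent.R122.ErrAB815

open scoped Classical

variable {Φ : Space3 → ℝ} {f₀ : PhasePoint → ℝ} {T te : ℝ} {γ : ℝ → ℝ} {ρ : ℝ≥0∞}

/-- **`XNull` from helper311's null functionals.** -/
theorem xNull_of_tsn {X : ℕ → ℝ → ∀ P : CTree, PhasePoint × Par P → ∀ m : ℕ, Config m → Set ML}
    (h : ∀ K : ℕ, TSN Φ f₀ T K fun ε P z m w => if Valid Φ ε P T z.1.2 z.2 ∧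
      Sep Φ ε P T z.1 z.2 ∧ PerpT Φ ε P z w then min 1 (lineM γ ρ K te (X K ε P z m w)) else 0) :
    XNull Φ f₀ T te γ ρ X := by
  intro K δ hδ
  obtain ⟨ε₀, hε₀, H⟩ := h K (ENNReal.ofReal δ) (ENNReal.ofReal_pos.2 hδ)
  refine ⟨ε₀, hε₀, fun ε hε hlt => ?_⟩
  obtain ⟨N, hN, hle, hi⟩ := H ε hε hlt
  refine ⟨N, hN, fun P z m w hP hV hS hw hp => ?_, hi⟩
  have h1 := hle P z m w hP hw
  beta_reduce at h1
  rwa [if_pos ⟨hV, hS, hp⟩] at h1

/-- helper335's majorants. -/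
theorem lnMaj_of_xNull (h : XNull Φ f₀ T te γ ρ fun K ε P z _ w => lkX Φ ε K te P z w) (K : ℕ)
    {δ : ℝ} (hδ : 0 < δ) : ∃ ε₀ : ℝ, 0 < ε₀ ∧ ∀ ε : ℝ, 0 < ε → ε < ε₀ →
      ∃ NL : (P : CTree) → PhasePoint × Par P → (m : ℕ) → Config m → ℝ≥0∞, MeasTS NL ∧
        LnMaj Φ ε K T te γ ρ NL ∧
        TS Φ f₀ ε T (fun P z m w => wQ Φ ε P z * NL P z m w) ≤ ENNReal.ofReal δ := by
  obtain ⟨ε₀, hε₀, H⟩ := h K δ hδ
  refine ⟨ε₀, hε₀, fun ε hε hlt => ?_⟩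
  obtain ⟨NL, h1, h2, h3⟩ := H ε hε hlt
  exact ⟨NL, h1, fun P z m w hP hV hS hw hp => h2 P z m w hP hV hS hw hp, h3⟩

end Crest.Agent.R122.ErrAB815

end
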