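import Crest.Agent.R122.QExitE_814

/-!
Row 122 (helper814), item G1exit: densities of the **exit lines** of collision trees, part F: the
final theorem `qexit`.
-/

set_option autoImplicit false
set_option synthInstance.maxSize 1024

open MeasureTheory Set Filter Topology
open Crest.AnalysisR.Kinetic
open scoped ENNReal Classical

noncomputable section

namespace Crest.Agent.R122.QExit814

open Kin796 Kin796.CTree Disc416 Kin416 Scat818 Flow671 Flux663 Tree674 Mark307 TreeF399 TreeEps399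
  Quench815 QDens815 GC311 Hid424 Master566

variable {Φ : Space3 → ℝ} {f₀ : PhasePoint → ℝ} {f : ℝ → PhasePoint → ℝ} {β T : ℝ}

/-! ### The main term as an integral over marked lines -/

theorem succ_mul_pow_le {x : ℝ≥0∞} (hx : x ≤ 1) (m : ℕ) :
    ((m : ℝ≥0∞) + 1) * x ^ m ≤ ∑' j : ℕ, x ^ j := by
  calc ((m : ℝ≥0∞) + 1) * x ^ m = ∑ _j ∈ Finset.range (m + 1), x ^ m := by
        rw [Finset.sum_const, Finset.card_range, nsmul_eq_mul]
        push_cast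
        ring
    _ ≤ ∑ j ∈ Finset.range (m + 1), x ^ j := by
        refine Finset.sum_le_sum fun j hj => pow_le_pow_right_of_le_one' hx ?_
        rw [Finset.mem_range] at hj
        omega
    _ ≤ _ := ENNReal.sum_le_tsum _

/-- integral over the lines of mark `m` -/
def LJ (T g : ℝ) (φ : ML → ℝ≥0∞) (m : ℕ) : ℝ≥0∞ :=
  ∫⁻ d : ℝ × PhasePoint, wG g d.2.2 * φ (d, m) ∂((volume.restrict (Ioc 0 T)).prod volume)

theorem sum_LJ_le {g : ℝ} {ρ₁ ρ : ℝ≥0∞} (hρ : ρ₁ ≤ ρ) {T' : ℝ} {γ : ℝ → ℝ}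
    (hγ : ∀ τ ∈ Ioc 0 T', γ τ ≤ g) {φ : ML → ℝ≥0∞} (hφ : Measurable φ) (K : ℕ) :
    ∑ m ∈ Finset.Icc 1 K, ρ₁ ^ m * LJ T' g φ m ≤
      ∫⁻ l, φ l ∂EDefs602.lineM γ ρ K T' := by
  have h1 : EDefs602.lineM (fun _ => g) ρ₁ K T' ≤ EDefs602.lineM γ ρ K T' := by
    unfold EDefs602.lineM
    refine withDensity_mono ?_
    have h1 : ∀ᵐ l ∂EDefs602.lineV T', l.1.1 ∈ Ioc 0 T' := by
      unfold EDefs602.lineV
      have h2 : ∀ᵐ x ∂((volume.restrict (Ioc (0 : ℝ) T')).prod (volume : Measure PhasePoint)),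
          x.1 ∈ Ioc 0 T' :=
        Measure.quasiMeasurePreserving_fst.ae (ae_restrict_mem measurableSet_Ioc)
      exact Measure.quasiMeasurePreserving_fst.ae h2
    filter_upwards [h1] with l hl
    unfold EDefs602.lineD EDefs602.markW
    refine mul_le_mul' (wG_mono (hγ _ hl) _) ?_
    split_ifs
    · exact pow_le_pow_left' hρ _
    · exact le_rfl
  refine le_trans ?_ (lintegral_mono' h1 le_rfl)
  unfold EDefs602.lineM
  have hD : Measurable (EDefs602.lineD (fun _ => g) ρ₁ K) :=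
    EBasic602.measurable_lineD measurable_const
  rw [lintegral_withDensity_eq_lintegral_mul _ hD hφ]
  have hm : Measurable fun l : ML => EDefs602.lineD (fun _ => g) ρ₁ K l * φ l := hD.mul hφ
  have e1 : ∫⁻ l, (EDefs602.lineD (fun _ => g) ρ₁ K * φ) l ∂EDefs602.lineV T' =
      ∫⁻ d : ℝ × PhasePoint, ∑' n : ℕ, EDefs602.lineD (fun _ => g) ρ₁ K (d, n) * φ (d, n)
        ∂((volume.restrict (Ioc 0 T')).prod volume) := by
    have e2 : ∫⁻ l, (EDefs602.lineD (fun _ => g) ρ₁ K * φ) l ∂EDefs602.lineV T' =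
      ∫⁻ l, EDefs602.lineD (fun _ => g) ρ₁ K l * φ l ∂EDefs602.lineV T' := rfl
    rw [e2]
    unfold EDefs602.lineV
    rw [lintegral_prod _ hm.aemeasurable]
    refine lintegral_congr fun d => ?_
    rw [lintegral_count]
  rw [e1]
  have hmn : ∀ n : ℕ, Measurable fun d : ℝ × PhasePoint =>
      EDefs602.lineD (fun _ => g) ρ₁ K (d, n) * φ (d, n) := fun n =>
    hm.comp (measurable_id.prodMk measurable_const)
  rw [lintegral_tsum fun n => (hmn n).aemeasurable]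
  refine le_trans (Finset.sum_le_sum fun m hm => ?_) (ENNReal.sum_le_tsum (Finset.Icc 1 K))
  rw [Finset.mem_Icc] at hm
  have hmeas : Measurable fun d : ℝ × PhasePoint => wG g d.2.2 * φ (d, m) :=
    ((measurable_wG' g).comp measurable_snd.snd).mul
      (hφ.comp (measurable_id.prodMk measurable_const))
  unfold LJ
  rw [← lintegral_const_mul _ hmeas]
  refine lintegral_mono fun d => ?_
  unfold EDefs602.lineD EDefs602.markW
  rw [if_pos hm]
  refine le_of_eq ?_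
  show _ = wG g d.2.2 * ρ₁ ^ m * φ (d, m)
  ring

theorem LI_le {b δ : ℝ} (hδ : 0 < δ) {T' : ℝ} {φ : ML → ℝ≥0∞} (hφ : Measurable φ) (m : ℕ) :
    LI T' b φ m ≤ cA δ * LJ T' (b - δ) φ m := by
  have hmeas : Measurable fun d : ℝ × PhasePoint => wG (b - δ) d.2.2 * φ (d, m) :=
    ((measurable_wG' (b - δ)).comp measurable_snd.snd).mul
      (hφ.comp (measurable_id.prodMk measurable_const))
  have e1 : LJ T' (b - δ) φ m = ∫⁻ d : ℝ × PhasePoint, (Ioc 0 T' ×ˢ (univ : Set PhasePoint)).indicator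
      (fun d => wG (b - δ) d.2.2 * φ (d, m)) d := by
    unfold LJ
    rw [lintegral_indicator (measurableSet_Ioc.prod MeasurableSet.univ)]
    have h : (volume.restrict (Ioc 0 T')).prod (volume : Measure PhasePoint) =
        ((volume : Measure ℝ).prod (volume : Measure PhasePoint)).restrict (Ioc 0 T' ×ˢ univ) := by
      rw [← Measure.prod_restrict, Measure.restrict_univ]
    rw [h]
    rfl
  rw [e1, ← lintegral_const_mul _ (hmeas.indicator (measurableSet_Ioc.prod MeasurableSet.univ))]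
  unfold LI
  refine lintegral_mono fun d => ?_
  by_cases hd : d.1 ∈ Ioo 0 T'
  · have h1 : (Ioc 0 T' ×ˢ (univ : Set PhasePoint)).indicator
      (fun d => wG (b - δ) d.2.2 * φ (d, m)) d = wG (b - δ) d.2.2 * φ (d, m) :=
      indicator_of_mem (show d ∈ Ioc 0 T' ×ˢ (univ : Set PhasePoint) from
        ⟨⟨hd.1, hd.2.le⟩, trivial⟩) _
    rw [h1, indicator_of_mem hd, Pi.one_apply, one_mul, ← mul_assoc]
    exact mul_le_mul_left (one_add_wG_le hδ b d.2.2) _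
  · rw [indicator_of_notMem hd, zero_mul]
    exact bot_le

/-- **main term** -/
theorem MT_le {r r₁ b δ : ℝ} (hr : 0 ≤ r) (hr₁ : r < r₁) (hδ : 0 < δ) {T' : ℝ} {γ : ℝ → ℝ}
    (hγ : ∀ τ ∈ Ioc 0 T', γ τ ≤ b - δ) {ρ : ℝ≥0∞} (hρ : ENNReal.ofReal r₁ ≤ ρ)
    {φ : ML → ℝ≥0∞} (hφ : Measurable φ) (K : ℕ) :
    MT (ENNReal.ofReal r) T' b φ K ≤
      ((∑' j : ℕ, ENNReal.ofReal (r / r₁) ^ j) * cA δ) * ∫⁻ l, φ l ∂EDefs602.lineM γ ρ K T' := by
  have h0 : 0 < r₁ := hr.trans_lt hr₁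
  set x := ENNReal.ofReal (r / r₁) with hx
  have hx1 : x ≤ 1 := by
    rw [hx, ← ENNReal.ofReal_one]
    exact ENNReal.ofReal_le_ofReal ((div_le_one h0).2 hr₁.le)
  have hxr : ENNReal.ofReal r = x * ENNReal.ofReal r₁ := by
    rw [hx, ← ENNReal.ofReal_mul (div_nonneg hr h0.le), div_mul_cancel₀ r h0.ne']
  refine le_trans ?_ (mul_le_mul' le_rfl (sum_LJ_le hρ hγ hφ K))
  unfold MT
  rw [Finset.mul_sum]
  refine Finset.sum_le_sum fun m _ => ?_
  calc ((m : ℝ≥0∞) + 1) * (ENNReal.ofReal r ^ m * LI T' b φ m)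
      = (((m : ℝ≥0∞) + 1) * x ^ m) * (ENNReal.ofReal r₁ ^ m * LI T' b φ m) := by
        rw [hxr, mul_pow]; ring
    _ ≤ (∑' j : ℕ, x ^ j) * (ENNReal.ofReal r₁ ^ m * (cA δ * LJ T' (b - δ) φ m)) := by
        gcongr
        · exact succ_mul_pow_le hx1 m
        · exact LI_le hδ hφ m
    _ = _ := by ring

/-! ### The excess -/

/-- the factor of the excess -/
def cE (κ T : ℝ) (ℓ : PhasePoint) : ℝ≥0∞ := ENNReal.ofReal (1 + ‖ℓ.2‖) * eG (κ * T) ℓ.2

theorem cE_ne_top (κ T : ℝ) (ℓ : PhasePoint) : cE κ T ℓ ≠ ∞ :=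
  ENNReal.mul_ne_top ENNReal.ofReal_ne_top ENNReal.ofReal_ne_top

theorem measurable_cE (κ T : ℝ) : Measurable (cE κ T) := by
  unfold cE
  exact (by fun_prop : Measurable fun ℓ : PhasePoint => ENNReal.ofReal (1 + ‖ℓ.2‖)).mul
    ((measurable_eG (κ * T)).comp measurable_snd)

theorem EI_le {κ : ℝ} {E : ℝ × PhasePoint → ℝ≥0∞} (hE : Measurable E) :
    EI κ T E ≤ ∫⁻ y : ℝ × PhasePoint, cE κ T y.2 * E y ∂((volume.restrict (Ioc 0 T)).prod volume) := by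
  have hm : Measurable fun y : ℝ × PhasePoint => cE κ T y.2 * E y :=
    ((measurable_cE κ T).comp measurable_snd).mul hE
  have h1 : (volume.restrict (Ioo 0 T)).prod (volume : Measure PhasePoint) ≤
      (volume.restrict (Ioc 0 T)).prod volume :=
    Measure.prod_mono (Measure.restrict_mono_set _ Ioo_subset_Ioc_self) le_rfl
  refine le_trans (le_of_eq ?_) (lintegral_mono' h1 le_rfl)
  rw [lintegral_prod_symm' _ hm]
  unfold EI
  refine lintegral_congr fun ℓ => ?_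
  rw [lintegral_indicator measurableSet_Ioo]
  have h2 : Measurable fun t : ℝ => E (t, ℓ) := hE.comp (measurable_id.prodMk measurable_const)
  exact (lintegral_const_mul _ h2).symm

theorem measurable_EI {α : Type*} [MeasurableSpace α] {κ : ℝ} {E : α × (ℝ × PhasePoint) → ℝ≥0∞}
    (hE : Measurable E) : Measurable fun w : α => EI κ T fun y => E (w, y) := by
  unfold EI
  have h1 : Measurable fun q : (α × PhasePoint) × ℝ =>
      (Ioo 0 T).indicator (fun t => E (q.1.1, (t, q.1.2))) q.2 := by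
    have h2 : Measurable fun q : (α × PhasePoint) × ℝ => E (q.1.1, (q.2, q.1.2)) :=
      hE.comp (measurable_fst.fst.prodMk (measurable_snd.prodMk measurable_fst.snd))
    have h3 : MeasurableSet {q : (α × PhasePoint) × ℝ | q.2 ∈ Ioo 0 T} :=
      measurable_snd measurableSet_Ioo
    have h4 := h2.indicator h3
    have h7 : (fun q : (α × PhasePoint) × ℝ =>
        (Ioo 0 T).indicator (fun t => E (q.1.1, (t, q.1.2))) q.2) =
        {q : (α × PhasePoint) × ℝ | q.2 ∈ Ioo 0 T}.indicator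
          (fun q => E (q.1.1, (q.2, q.1.2))) := by
      funext q
      by_cases hq : q.2 ∈ Ioo 0 T
      · rw [indicator_of_mem hq, indicator_of_mem
          (show q ∈ {q : (α × PhasePoint) × ℝ | q.2 ∈ Ioo 0 T} from hq)]
      · rw [indicator_of_notMem hq, indicator_of_notMem
          (show q ∉ {q : (α × PhasePoint) × ℝ | q.2 ∈ Ioo 0 T} from hq)]
    rw [h7]
    exact h4
  have h5 : Measurable fun q : α × PhasePoint => ∫⁻ t : ℝ, (Ioo 0 T).indicator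
      (fun t => E (q.1, (t, q.2))) t := h1.lintegral_prod_right'
  have h6 : Measurable fun q : α × PhasePoint => (ENNReal.ofReal (1 + ‖q.2.2‖) *
      eG (κ * T) q.2.2) * ∫⁻ t : ℝ, (Ioo 0 T).indicator (fun t => E (q.1, (t, q.2))) t := by
    have h8 : Measurable fun q : α × PhasePoint => ENNReal.ofReal (1 + ‖q.2.2‖) := by fun_prop
    have h9 : Measurable fun q : α × PhasePoint => eG (κ * T) q.2.2 :=
      (measurable_eG (κ * T)).comp measurable_snd.snd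
    exact (h8.mul h9).mul h5
  exact h6.lintegral_prod_right'

/-- the error of `(Q1)` with the factor of the excess -/
theorem err_cE {tw κ lam kap T' ε : ℝ} (Q : CTree) :
    Q1815.err Φ f₀ f T Q
        (fun q => cE κ T' q.2.1 * phE Φ lam kap Q q) (volume.restrict (Ioc 0 T')) tw ε =
      gcE f₀ ε fun _ w => ∫⁻ y : ℝ × PhasePoint, cE κ T' y.2 *
        absd (Q1815.Dw Φ f₀ Q (phE Φ lam kap Q) ε tw y.1 y.2 w)
        (Q1815.D0 Φ f₀ f T Q (phE Φ lam kap Q) tw y.1 y.2)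
          ∂((volume.restrict (Ioc 0 T')).prod volume) :=
  Q1815.err_mul_left (φ := phE Φ lam kap Q) (c := fun _ ℓ => cE κ T' ℓ)
    (fun _ ℓ => cE_ne_top κ T' ℓ)

theorem measurable_cE_absd {T₀ tw : ℝ} (X : Q1815.Ctx Φ β T f₀ f T₀ tw) (κ lam kap T' : ℝ) {ε : ℝ}
    (hε : 0 < ε) (Q : CTree) (n : ℕ) : Measurable fun q : Config n × (ℝ × PhasePoint) =>
      cE κ T' q.2.2 * absd (Q1815.Dw Φ f₀ Q (phE Φ lam kap Q) ε tw q.2.1 q.2.2 q.1)
        (Q1815.D0 Φ f₀ f T Q (phE Φ lam kap Q) tw q.2.1 q.2.2) := by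
  have h1 : Measurable fun q : Config n × (ℝ × PhasePoint) => cE κ T' q.2.2 :=
    (measurable_cE κ T').comp measurable_snd.snd
  have h2 : Measurable fun q : Config n × (ℝ × PhasePoint) =>
      Q1815.Dw Φ f₀ Q (phE Φ lam kap Q) ε tw q.2.1 q.2.2 q.1 :=
    Q1815.measurable_Dw_n X.hΦ X.cont.measurable (measurable_phE X.hΦ lam kap Q) hε tw n
  have h3 : Measurable fun q : Config n × (ℝ × PhasePoint) =>
      Q1815.D0 Φ f₀ f T Q (phE Φ lam kap Q) tw q.2.1 q.2.2 :=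
    (Q1815.measurable_D0 X.hΦ X.hβ X.hT X.sol X.htw.1
        (measurable_phE X.hΦ lam kap Q)).comp measurable_snd
  exact h1.mul (measurable_absd h2 h3)

/-- summand of the excess -/
def xE (Φ : Space3 → ℝ) (f₀ : PhasePoint → ℝ) (f : ℝ → PhasePoint → ℝ) (T κ lam kap T' ε tw : ℝ)
    (Q : CTree) (n : ℕ) (w : Config n) (y : ℝ × PhasePoint) : ℝ≥0∞ :=
  cE κ T' y.2 * absd (Q1815.Dw Φ f₀ Q (phE Φ lam kap Q) ε tw y.1 y.2 w)
        (Q1815.D0 Φ f₀ f T Q (phE Φ lam kap Q) tw y.1 y.2)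

theorem measurable_xE {T₀ tw : ℝ} (X : Q1815.Ctx Φ β T f₀ f T₀ tw) (κ lam kap T' : ℝ) {ε : ℝ}
    (hε : 0 < ε) (Q : CTree) (n : ℕ) : Measurable fun q : Config n × (ℝ × PhasePoint) =>
      xE Φ f₀ f T κ lam kap T' ε tw Q n q.1 q.2 :=
  measurable_cE_absd X κ lam kap T' hε Q n

theorem measurable_EX {T₀ tw : ℝ} (X : Q1815.Ctx Φ β T f₀ f T₀ tw) (lam kap : ℝ) (K : ℕ) {ε : ℝ}
    (hε : 0 < ε) {n : ℕ} (w : Config n) : Measurable (EX Φ f₀ f T lam kap K ε tw w) := by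
  have h := measurable_EX2 X lam kap K hε n
  have h2 := h.comp
    (g := fun q : Config n × (ℝ × PhasePoint) => EX Φ f₀ f T lam kap K ε tw q.1 q.2)
    (f := fun y : ℝ × PhasePoint => (w, y)) measurable_prodMk_left
  exact h2

theorem measurable_xE1 {T₀ tw : ℝ} (X : Q1815.Ctx Φ β T f₀ f T₀ tw) (κ lam kap T' : ℝ) {ε : ℝ}
    (hε : 0 < ε) (Q : CTree) (n : ℕ) (w : Config n) :
    Measurable (xE Φ f₀ f T κ lam kap T' ε tw Q n w) := by
  have h := measurable_xE X κ lam kap T' hε Q n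
  have h2 := h.comp
    (g := fun q : Config n × (ℝ × PhasePoint) => xE Φ f₀ f T κ lam kap T' ε tw Q n q.1 q.2)
    (f := fun y : ℝ × PhasePoint => (w, y)) measurable_prodMk_left
  exact h2

theorem EI_EX_le {T₀ tw : ℝ} (X : Q1815.Ctx Φ β T f₀ f T₀ tw) (κ lam kap T' : ℝ) (K : ℕ) {ε : ℝ}
    (hε : 0 < ε) (n : ℕ) (w : Config n) :
    EI κ T' (EX Φ f₀ f T lam kap K ε tw w) ≤ ∑ Q ∈ GIVStep383.trees K,
      ∫⁻ y : ℝ × PhasePoint, xE Φ f₀ f T κ lam kap T' ε tw Q n w y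
        ∂((volume.restrict (Ioc 0 T')).prod volume) := by
  refine (EI_le (measurable_EX X lam kap K hε w)).trans (le_of_eq ?_)
  have hmy : ∀ Q ∈ GIVStep383.trees K, AEMeasurable (fun y : ℝ × PhasePoint =>
      xE Φ f₀ f T κ lam kap T' ε tw Q n w y)
          ((volume.restrict (Ioc 0 T')).prod volume) := fun Q _ =>
    (measurable_xE1 X κ lam kap T' hε Q n w).aemeasurable
  rw [← lintegral_finsetSum' _ hmy]
  refine lintegral_congr fun y => ?_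
  unfold EX xE
  rw [Finset.mul_sum]

/-- the excess is the error of `(Q1)` -/
theorem gcE_EI_le {T₀ tw : ℝ} (X : Q1815.Ctx Φ β T f₀ f T₀ tw) (κ lam kap T' : ℝ) (K : ℕ) {ε : ℝ}
    (hε : 0 < ε) :
    gcE f₀ ε (fun _ w => EI κ T' (EX Φ f₀ f T lam kap K ε tw w)) ≤
      ∑ Q ∈ GIVStep383.trees K, Q1815.err Φ f₀ f T Q
        (fun q => cE κ T' q.2.1 * phE Φ lam kap Q q) (volume.restrict (Ioc 0 T')) tw ε := by
  have e1 : ∑ Q ∈ GIVStep383.trees K, Q1815.err Φ f₀ f T Q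
        (fun q => cE κ T' q.2.1 * phE Φ lam kap Q q) (volume.restrict (Ioc 0 T')) tw ε =
      ∑ Q ∈ GIVStep383.trees K, gcE f₀ ε fun n w => ∫⁻ y : ℝ × PhasePoint,
        xE Φ f₀ f T κ lam kap T' ε tw Q n w y ∂((volume.restrict (Ioc 0 T')).prod volume) :=
    Finset.sum_congr rfl fun Q _ => err_cE Q
  rw [e1, ← gcE_finset_sum X.cont.measurable ε (GIVStep383.trees K)
    (F := fun Q n w => ∫⁻ y : ℝ × PhasePoint, xE Φ f₀ f T κ lam kap T' ε tw Q n w y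
          ∂((volume.restrict (Ioc 0 T')).prod volume))
    (fun Q _ n => (measurable_xE X κ lam kap T' hε Q n).lintegral_prod_right')]
  exact gcE_mono f₀ ε fun n w _ => EI_EX_le X κ lam kap T' K hε n w

/-- the weights of the excess are admissible -/
theorem wgt_cE (hΦ : AdmissiblePotential Φ) {lam kap κ T' T₀ δ : ℝ} (hδ : 0 < δ)
    (hκ : 0 ≤ κ * T') (h : kap + κ * T' + δ < 2 * β) (Q : CTree) :
    Q1815.Wgt Φ β Q (fun q => cE κ T' q.2.1 * phE Φ lam kap Q q) T₀ := by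
  refine Q1815.Wgt.of_le (kap := kap + κ * T' + δ) (lam := lam)
    (M := ENNReal.ofReal (2 + 1 / δ) * ENNReal.ofReal lam)
    (((measurable_cE κ T').comp measurable_snd.fst).mul (measurable_phE hΦ lam kap Q)) h
    (ENNReal.mul_ne_top ENNReal.ofReal_ne_top ENNReal.ofReal_ne_top) fun s ℓ p ha => ?_
  have h1 := phE_le (lam := lam) (kap := kap) (s := s) hΦ ha
  have h2 : ‖ℓ.2‖ ^ 2 ≤ Seg814.eng Φ Q ℓ.2 p := by
    rw [Q1815.eng_eq hΦ ha]
    have := nodeEn_nonneg Q p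
    linarith
  set G := Seg814.eng Φ Q ℓ.2 p with hG
  have h3 : cE κ T' ℓ ≤ ENNReal.ofReal (2 + 1 / δ) * ENNReal.ofReal (Real.exp ((κ * T' + δ) * G)) := by
    unfold cE eG
    rw [← ENNReal.ofReal_mul (by positivity), ← ENNReal.ofReal_mul (by positivity)]
    refine ENNReal.ofReal_le_ofReal ?_
    calc (1 + ‖ℓ.2‖) * Real.exp (κ * T' * ‖ℓ.2‖ ^ 2) ≤
        ((2 + 1 / δ) * Real.exp (δ * ‖ℓ.2‖ ^ 2)) * Real.exp (κ * T' * ‖ℓ.2‖ ^ 2) :=
          mul_le_mul_of_nonneg_right (one_add_le_exp hδ) (Real.exp_pos _).le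
      _ = (2 + 1 / δ) * Real.exp ((κ * T' + δ) * ‖ℓ.2‖ ^ 2) := by
          rw [mul_assoc, ← Real.exp_add]
          congr 2
          ring
      _ ≤ _ := by
          refine mul_le_mul_of_nonneg_left (Real.exp_le_exp.2 ?_) (by positivity)
          exact mul_le_mul_of_nonneg_left h2 (by linarith)
  show cE κ T' ℓ * phE Φ lam kap Q (s, ℓ, p) ≤ _
  calc cE κ T' ℓ * phE Φ lam kap Q (s, ℓ, p)
      ≤ (ENNReal.ofReal (2 + 1 / δ) * ENNReal.ofReal (Real.exp ((κ * T' + δ) * G))) *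
        (ENNReal.ofReal lam * ENNReal.ofReal lam ^ Q.size *
          ENNReal.ofReal (Real.exp (kap * G))) := mul_le_mul' h3 h1
    _ = ENNReal.ofReal (2 + 1 / δ) * ENNReal.ofReal lam * ENNReal.ofReal lam ^ Q.size *
        (ENNReal.ofReal (Real.exp ((κ * T' + δ) * G)) * ENNReal.ofReal (Real.exp (kap * G))) := by
        ring
    _ = _ := by
        rw [← ENNReal.ofReal_mul (Real.exp_pos _).le, ← Real.exp_add]
        congr 3
        ring

/-! ### The exits with a weight against the weighted exit sums -/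

theorem mV_mono {b κ T' : ℝ} (hκ : 0 ≤ κ) (h : T' ≤ T) : mV b κ T' ≤ mV b κ T := by
  unfold mV eG
  refine lintegral_mono fun u => ?_
  refine mul_le_mul' le_rfl (mul_le_mul' (ENNReal.ofReal_le_ofReal (Real.exp_le_exp.2 ?_)) le_rfl)
  exact mul_le_mul_of_nonneg_right (mul_le_mul_of_nonneg_left h hκ) (sq_nonneg _)

theorem exists_eta {q : ℝ≥0∞} (hq : q ≠ ∞) :
    ∃ η : ℝ, 0 < η ∧ 4 * (q * ENNReal.ofReal η) ≤ 1 := by
  have h0 : (0 : ℝ) ≤ q.toReal := ENNReal.toReal_nonneg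
  refine ⟨1 / (4 * (q.toReal + 1)), by positivity, ?_⟩
  have e : (4 : ℝ≥0∞) * (q * ENNReal.ofReal (1 / (4 * (q.toReal + 1)))) =
      ENNReal.ofReal (4 * (q.toReal * (1 / (4 * (q.toReal + 1))))) := by
    rw [ENNReal.ofReal_mul (by norm_num), ENNReal.ofReal_mul h0, ENNReal.ofReal_toReal hq,
      ENNReal.ofReal_ofNat]
  rw [e, ← ENNReal.ofReal_one]
  refine ENNReal.ofReal_le_ofReal ?_
  have h1 : 4 * (q.toReal * (1 / (4 * (q.toReal + 1)))) = q.toReal / (q.toReal + 1) := by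
    field_simp
  rw [h1, div_le_one (by positivity)]
  linarith

theorem bt_le {ε T' : ℝ} (hT' : 0 ≤ T') : ∀ {P : CTree} {v : Space3} {p : Par P}
    (_ : Valid Φ ε P T' v p), bt P p ≤ T'
  | leaf, _, _, _ => hT'
  | node _ _, _, _, h => (valid_node_iff.1 h).1.2.1.le

/-- the exits of a tree with a weight -/
theorem exit_le_XX (hΦ : AdmissiblePotential Φ) {ε T' lam₁ kap ν κ : ℝ} (hT' : 0 ≤ T')
    (h1 : 1 ≤ lam₁) (hν : 0 ≤ ν) (hκ : 0 ≤ κ)
    {U : ∀ P : CTree, PhasePoint × Par P → ℝ≥0∞} {φ : ML → ℝ≥0∞} (P : CTree)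
    {M : ℝ≥0∞} (hM : M ≠ ∞) {th : PhasePoint × Par P → ℝ≥0∞}
    (hth : ∀ z, Valid Φ ε P T' z.1.2 z.2 → th z ≤ M * ENNReal.ofReal lam₁ ^ P.size *
      ENNReal.ofReal (Real.exp (kap * Seg814.eng Φ P z.1.2 z.2))) :
    ∫⁻ z : PhasePoint × Par P, {z : PhasePoint × Par P | Valid Φ ε P T' z.1.2 z.2}.indicator
      (fun z => wt Φ P z.1.2 z.2 * (∏ i, ENNReal.ofReal (f₀ (lines Φ ε P z.1 z.2 i))) * th z *
        ES Φ ε U φ P z) z ≤
      M * XX Φ ε T' (kE f₀ lam₁ kap) U φ P (Wf ν κ T') := by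
  unfold XX
  rw [← lintegral_const_mul' _ _ hM]
  refine lintegral_mono fun z => ?_
  by_cases hV : Valid Φ ε P T' z.1.2 z.2
  · rw [indicator_of_mem (show z ∈ {z : PhasePoint × Par P | Valid Φ ε P T' z.1.2 z.2} from hV),
      vw_of_valid hV]
    have e1 : kw Φ ε (kE f₀ lam₁ kap) P z = phE Φ lam₁ kap P (0, z.1, z.2) *
        fp Φ f₀ ε P z.1 z.2 := kw_kE (ℓ := z.1) (p := z.2) hΦ hV.1
    have e2 : phE Φ lam₁ kap P (0, z.1, z.2) = ENNReal.ofReal lam₁ ^ P.leaves *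
        ENNReal.ofReal (Real.exp (kap * Seg814.eng Φ P z.1.2 z.2)) := by
      rw [phE_of_adm hV.1, Q1815.eng_eq hΦ hV.1]
    have h3 : (1 : ℝ≥0∞) ≤ ENNReal.ofReal lam₁ := by
      rw [← ENNReal.ofReal_one]
      exact ENNReal.ofReal_le_ofReal h1
    have h4 : ENNReal.ofReal lam₁ ^ P.size ≤ ENNReal.ofReal lam₁ ^ P.leaves :=
      pow_le_pow_right₀ h3 (by rw [CTree.leaves_eq]; omega)
    have h5 : (1 : ℝ≥0∞) ≤ Wf ν κ T' (bt P z.2, z.1) := one_le_Wf hν hκ (bt_le hT' hV)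
    rw [e1, e2]
    show wt Φ P z.1.2 z.2 * fp Φ f₀ ε P z.1 z.2 * th z * ES Φ ε U φ P z ≤ _
    calc wt Φ P z.1.2 z.2 * fp Φ f₀ ε P z.1 z.2 * th z * ES Φ ε U φ P z
        ≤ wt Φ P z.1.2 z.2 * fp Φ f₀ ε P z.1 z.2 * (M * ENNReal.ofReal lam₁ ^ P.leaves *
          ENNReal.ofReal (Real.exp (kap * Seg814.eng Φ P z.1.2 z.2))) * ES Φ ε U φ P z * 1 := by
          rw [mul_one]
          gcongr
          exact (hth z hV).trans (by gcongr)
      _ ≤ wt Φ P z.1.2 z.2 * fp Φ f₀ ε P z.1 z.2 * (M * ENNReal.ofReal lam₁ ^ P.leaves *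
          ENNReal.ofReal (Real.exp (kap * Seg814.eng Φ P z.1.2 z.2))) * ES Φ ε U φ P z *
            Wf ν κ T' (bt P z.2, z.1) := mul_le_mul' le_rfl h5
      _ = _ := by ring
  · rw [indicator_of_notMem
      (show z ∉ {z : PhasePoint × Par P | Valid Φ ε P T' z.1.2 z.2} from hV)]
    exact bot_le

/-! ### The final theorem -/

/-- **Densities of the exit lines.** The quenched exit sums with a weight `th`, against a test
function `φ ≤ 1` of the marked exit line, are at most a constant times the integral of `φ` for the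
measure on marked lines, up to a null error that does not depend on the test function and the
weight. The horizon `T' ≤ tw + h₀` may exceed `T`. -/
theorem qexit_gen (hD : KData Φ β T f₀ f) {h₀ kap lam C b : ℝ}
    (hK : Seg814.KinC Φ T f h₀ kap lam C b) (hkap : kap ≤ β) {lam₁ : ℝ} (h1 : 1 < lam₁)
    (h2 : lam₁ < lam) :
    ∃ g₁ : ℝ, 0 < g₁ ∧ ∃ ρ₁ : ℝ≥0∞, ρ₁ < 1 ∧ ∃ C₁ : ℝ≥0∞, C₁ ≠ ∞ ∧
      ∀ (γ : ℝ → ℝ) (ρ : ℝ≥0∞), ρ₁ ≤ ρ → ∀ tw ∈ Icc 0 T, GIV566.GIV Φ f₀ f T tw →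
      ∀ T' : ℝ, 0 < T' → T' ≤ tw + h₀ → (∀ τ ∈ Ioc 0 T', γ τ ≤ g₁) → ∀ K : ℕ,
      ∃ δ : ℝ → ℝ≥0∞, Tendsto δ (𝓝[>] 0) (𝓝 0) ∧ ∀ ε : ℝ, 0 < ε →
      ∀ φ : (n : ℕ) → Config n → ML → ℝ≥0∞, (∀ n w, Measurable (φ n w)) →
        (∀ n w l, φ n w l ≤ 1) →
      ∀ M : ℝ≥0∞, M ≠ ∞ →
      ∀ th : (n : ℕ) → Config n → (P : CTree) → PhasePoint × Par P → ℝ≥0∞,
        (∀ n w P z, Valid Φ ε P T' z.1.2 z.2 → th n w P z ≤ M * ENNReal.ofReal lam₁ ^ P.size *
          ENNReal.ofReal (Real.exp (kap * Seg814.eng Φ P z.1.2 z.2))) →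
      gcE f₀ ε (fun n w => ∑' P : CTree, if P.leaves ≤ K then ∫⁻ z : PhasePoint × Par P,
        {z : PhasePoint × Par P | Valid Φ ε P T' z.1.2 z.2}.indicator
          (fun z => wt Φ P z.1.2 z.2 * (∏ i, ENNReal.ofReal (f₀ (lines Φ ε P z.1 z.2 i))) *
            th n w P z * ES Φ ε (fun Q y => GIV566.unhitInd Φ ε (Q1815.hidM Φ ε Q y.1 y.2) tw w)
              (φ n w) P z) z else 0) ≤
        M * (C₁ * gcE f₀ ε (fun n w => ∫⁻ l, φ n w l ∂EDefs602.lineM γ ρ K T') + δ ε) := by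
  have hΦ := hD.adm
  have hβ := hD.beta_pos
  have hT := hD.T_pos
  have hf := hD.contDiff.continuous.measurable
  obtain ⟨hh₀, hkap0, hlam, hC, hb, -⟩ := id hK
  have h10 : 0 < lam₁ := by linarith
  set r : ℝ := lam₁ / lam with hr
  have hr0 : 0 ≤ r := by positivity
  have hr1 : r < 1 := (div_lt_one (by linarith)).2 h2
  set r₁ : ℝ := (1 + r) / 2 with hr₁
  have hrr : r < r₁ := by rw [hr₁]; linarith
  have hr₁1 : r₁ < 1 := by rw [hr₁]; linarith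
  set T₂ : ℝ := T + h₀ with hT₂d
  have hT₂ : 0 < T₂ := by rw [hT₂d]; linarith
  set κ : ℝ := min b β / (8 * T₂) with hκ
  have hm : 0 < min b β := lt_min hb hβ
  have hκ0 : 0 < κ := by rw [hκ]; positivity
  have hκT : κ * T₂ = min b β / 8 := by rw [hκ]; field_simp
  have hκb : κ * T₂ < b := by rw [hκT]; have := min_le_left b β; linarith
  have hκβ : κ * T₂ ≤ β / 8 := by rw [hκT]; have := min_le_right b β; linarith
  set c₀ : ℝ≥0∞ := ENNReal.ofReal lam₁ * (ENNReal.ofReal (lam / lam₁) * ENNReal.ofReal C) with hc₀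
  have hc₀t : c₀ ≠ ∞ := ENNReal.mul_ne_top ENNReal.ofReal_ne_top
    (ENNReal.mul_ne_top ENNReal.ofReal_ne_top ENNReal.ofReal_ne_top)
  set ρ₀ : ℝ≥0∞ := ENNReal.ofReal r with hρ₀
  have hρ₀1 : ρ₀ < 1 := by
    rw [hρ₀, ← ENNReal.ofReal_one]
    exact (ENNReal.ofReal_lt_ofReal_iff one_pos).2 hr1
  have hgeo : ∀ {x : ℝ≥0∞}, x < 1 → ∑' m : ℕ, x ^ m ≠ ∞ := fun {x} hx => by
    rw [ENNReal.tsum_geometric]
    exact ENNReal.inv_ne_top.2 (tsub_pos_of_lt hx).ne'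
  have hQ0 : (c₀ * ∑' m : ℕ, ρ₀ ^ m) * (mV b κ T₂ * vD) ≠ ∞ :=
    ENNReal.mul_ne_top (ENNReal.mul_ne_top hc₀t (hgeo hρ₀1))
      (ENNReal.mul_ne_top (mV_ne_top hκb) vD_ne_top)
  obtain ⟨η, hη, hq⟩ := exists_eta hQ0
  obtain ⟨ν, hν, hνη⟩ := exists_nu hκ0 hη
  have hx1 : ENNReal.ofReal (r / r₁) < 1 := by
    rw [← ENNReal.ofReal_one]
    exact (ENNReal.ofReal_lt_ofReal_iff one_pos).2 ((div_lt_one (hr0.trans_lt hrr)).2 hrr)
  set C₁ : ℝ≥0∞ := 2 * ((c₀ ^ 2 * (ENNReal.ofReal (Real.exp (ν * T₂)) * (mV b κ T₂ * vD))) *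
    ((∑' j : ℕ, ENNReal.ofReal (r / r₁) ^ j) * cA (b / 2))) with hC₁
  refine ⟨b / 2, by positivity, ENNReal.ofReal r₁, ?_, C₁, ?_, ?_⟩
  · rw [← ENNReal.ofReal_one]
    exact (ENNReal.ofReal_lt_ofReal_iff one_pos).2 hr₁1
  · exact ENNReal.mul_ne_top ENNReal.ofNat_ne_top (ENNReal.mul_ne_top
      (ENNReal.mul_ne_top (ENNReal.pow_ne_top hc₀t) (ENNReal.mul_ne_top ENNReal.ofReal_ne_top
        (ENNReal.mul_ne_top (mV_ne_top hκb) vD_ne_top)))
      (ENNReal.mul_ne_top (hgeo hx1) (cA_ne_top _)))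
  intro γ ρ hρ tw htw hG T' hT'0 hT'h hγ K
  have hT'T : T' ≤ T₂ := by rw [hT₂d]; linarith [htw.2]
  have X : Q1815.Ctx Φ β T f₀ f T' tw := Q1815.Ctx.of_kdata hD htw hG hT'0
  have hκT' : κ * T' ≤ κ * T₂ := mul_le_mul_of_nonneg_left hT'T hκ0.le
  have hκT'0 : 0 ≤ κ * T' := by positivity
  have hmV : mV b κ T' ≤ mV b κ T₂ := mV_mono hκ0.le hT'T
  have hexp : ENNReal.ofReal (Real.exp (ν * T')) ≤ ENNReal.ofReal (Real.exp (ν * T₂)) :=
    ENNReal.ofReal_le_ofReal (Real.exp_le_exp.2 (mul_le_mul_of_nonneg_left hT'T hν.le))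
  have hq' : 4 * (((c₀ * ∑' m : ℕ, ρ₀ ^ m) * (mV b κ T' * vD)) * ENNReal.ofReal η) ≤ 1 := by
    refine le_trans ?_ hq
    gcongr
  obtain ⟨c, hc, hcr⟩ := exists_crude (f₀ := f₀) hΦ hD.gaussian lam₁
    (show kap < 2 * β by linarith) T₂ K
  obtain ⟨B, hB, hcore⟩ := core (T := T') (k := kE f₀ lam₁ kap) (b := b)
    (b₂ := (2 * β - kap) / 2) hΦ
    (measurable_kE hf lam₁ kap) hν hκ0.le (hκT'.trans_lt hκb) (by linarith) hνη hc₀t hρ₀1 hq' K hc
    K le_rfl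
  have hwgt : ∀ Q ∈ GIVStep383.trees K, Q1815.Wgt Φ β Q
      (fun q => cE κ T' q.2.1 * phE Φ lam₁ kap Q q) T' := fun Q _ =>
    wgt_cE hΦ (δ := β / 8) (by positivity) hκT'0 (by linarith) Q
  have hae : ∀ᵐ s ∂(volume.restrict (Ioc 0 T') : Measure ℝ), s ≤ T' :=
    (ae_restrict_mem measurableSet_Ioc).mono fun s hs => hs.2
  refine ⟨fun ε => B * ∑ Q ∈ GIVStep383.trees K, Q1815.err Φ f₀ f T Q
        (fun q => cE κ T' q.2.1 * phE Φ lam₁ kap Q q) (volume.restrict (Ioc 0 T')) tw ε, ?_, ?_⟩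
  · have h := ENNReal.Tendsto.const_mul (a := B)
      (Q1815.tendsto_err_sum X hae (GIVStep383.trees K)
        (φ := fun Q q => cE κ T' q.2.1 * phE Φ lam₁ kap Q q) hwgt) (Or.inr hB)
    rw [mul_zero] at h
    exact h
  intro ε hε φ hφ hφ1 M hM th hth
  -- the pointwise estimate
  have key : ∀ (n : ℕ) (w : Config n), (∑' P : CTree, if P.leaves ≤ K then
      ∫⁻ z : PhasePoint × Par P,
        {z : PhasePoint × Par P | Valid Φ ε P T' z.1.2 z.2}.indicator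
          (fun z => wt Φ P z.1.2 z.2 * (∏ i, ENNReal.ofReal (f₀ (lines Φ ε P z.1 z.2 i))) *
            th n w P z * ES Φ ε (fun Q y => GIV566.unhitInd Φ ε (Q1815.hidM Φ ε Q y.1 y.2) tw w)
              (φ n w) P z) z else 0) ≤
      M * (B * EI κ T' (EX Φ f₀ f T lam₁ kap K ε tw w) +
        C₁ * ∫⁻ l, φ n w l ∂EDefs602.lineM γ ρ K T') := by
    intro n w
    set U : ∀ Q : CTree, PhasePoint × Par Q → ℝ≥0∞ :=
      fun Q y => GIV566.unhitInd Φ ε (Q1815.hidM Φ ε Q y.1 y.2) tw w with hU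
    have hUm : ∀ Q, Measurable (U Q) := fun Q => by
      have h := Q1815.measurable_unhit_hidM hΦ hε Q (tw := tw) (W := PhasePoint × Par Q)
        (ℓ := fun z => z.1) measurable_fst (p := fun z => z.2) measurable_snd
      exact h.comp (f := fun z : PhasePoint × Par Q => (((⟨n, w⟩ : Σ n : ℕ, Config n)), z))
        (measurable_const.prodMk measurable_id)
    have hU1 : ∀ Q z, U Q z ≤ 1 := fun Q z => GIV566.unhitInd_le_one
    have s1 : (∑' P : CTree, if P.leaves ≤ K then ∫⁻ z : PhasePoint × Par P,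
        {z : PhasePoint × Par P | Valid Φ ε P T' z.1.2 z.2}.indicator
          (fun z => wt Φ P z.1.2 z.2 * (∏ i, ENNReal.ofReal (f₀ (lines Φ ε P z.1 z.2 i))) *
            th n w P z * ES Φ ε U (φ n w) P z) z else 0) ≤
        M * XS Φ ε T' (kE f₀ lam₁ kap) U (φ n w) K (Wf ν κ T') := by
      unfold XS
      rw [← ENNReal.tsum_mul_left]
      refine ENNReal.tsum_le_tsum fun P => ?_
      by_cases hP : P.leaves ≤ K
      · rw [if_pos hP, if_pos hP]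
        exact exit_le_XX hΦ hT'0.le h1.le hν.le hκ0.le P hM (fun z hz => hth n w P z hz)
      · rw [if_neg hP]
        exact bot_le
    refine s1.trans (mul_le_mul' le_rfl ?_)
    have s2 := hcore ε hε U hUm hU1 (φ n w) (hφ n w) (hφ1 n w)
      (EX Φ f₀ f T lam₁ kap K ε tw w) (measurable_EX X lam₁ kap K hε w)
      (hcr ε hε.le T' hT'T) (ctrl X hK h10 h2.le hT'h K ε w)
    refine s2.trans ?_
    rw [add_comm]
    refine add_le_add le_rfl ?_
    have s3 := MT_le (r := r) (r₁ := r₁) (b := b) (δ := b / 2) hr0 hrr (by positivity)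
      (T' := T') (γ := γ) (ρ := ρ) (fun τ hτ => (hγ τ hτ).trans (by linarith))
      hρ (hφ n w) K
    calc 2 * ((c₀ ^ 2 * (ENNReal.ofReal (Real.exp (ν * T')) * (mV b κ T' * vD))) *
          MT ρ₀ T' b (φ n w) K)
        ≤ 2 * ((c₀ ^ 2 * (ENNReal.ofReal (Real.exp (ν * T₂)) * (mV b κ T₂ * vD))) *
          (((∑' j : ℕ, ENNReal.ofReal (r / r₁) ^ j) * cA (b / 2)) *
            ∫⁻ l, φ n w l ∂EDefs602.lineM γ ρ K T')) := by gcongr
      _ = _ := by rw [hC₁]; ring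
  have hC₁t : C₁ ≠ ∞ := by
    exact ENNReal.mul_ne_top ENNReal.ofNat_ne_top (ENNReal.mul_ne_top
      (ENNReal.mul_ne_top (ENNReal.pow_ne_top hc₀t) (ENNReal.mul_ne_top ENNReal.ofReal_ne_top
        (ENNReal.mul_ne_top (mV_ne_top hκb) vD_ne_top)))
      (ENNReal.mul_ne_top (hgeo hx1) (cA_ne_top _)))
  refine (gcE_mono f₀ ε fun n w _ => key n w).trans ?_
  rw [gcE_const_mul f₀ ε hM]
  refine mul_le_mul' le_rfl ?_
  have hmE : ∀ n : ℕ, Measurable fun w : Config n =>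
      B * EI κ T' (EX Φ f₀ f T lam₁ kap K ε tw w) := fun n =>
    (measurable_EI (α := Config n) (κ := κ) (T := T')
      (E := fun q => EX Φ f₀ f T lam₁ kap K ε tw q.1 q.2)
      (measurable_EX2 X lam₁ kap K hε n)).const_mul B
  have hadd := gcE_add hf ε (F := fun n w => B * EI κ T' (EX Φ f₀ f T lam₁ kap K ε tw w))
    (G := fun n w => C₁ * ∫⁻ l, φ n w l ∂EDefs602.lineM γ ρ K T') hmE
  rw [hadd, gcE_const_mul f₀ ε hB, gcE_const_mul f₀ ε hC₁t, add_comm]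
  exact add_le_add le_rfl (mul_le_mul' le_rfl (gcE_EI_le X κ lam₁ kap T' K hε))

/-- the case `T' ≤ T` -/
theorem qexit (hD : KData Φ β T f₀ f) {h₀ kap lam C b : ℝ}
    (hK : Seg814.KinC Φ T f h₀ kap lam C b) (hkap : kap ≤ β) {lam₁ : ℝ} (h1 : 1 < lam₁)
    (h2 : lam₁ < lam) :
    ∃ g₁ : ℝ, 0 < g₁ ∧ ∃ ρ₁ : ℝ≥0∞, ρ₁ < 1 ∧ ∃ C₁ : ℝ≥0∞, C₁ ≠ ∞ ∧
      ∀ (γ : ℝ → ℝ) (ρ : ℝ≥0∞), (∀ τ ∈ Ioc 0 T, γ τ ≤ g₁) → ρ₁ ≤ ρ →
      ∀ tw ∈ Icc 0 T, GIV566.GIV Φ f₀ f T tw →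
      ∀ T' : ℝ, 0 < T' → T' ≤ T → T' ≤ tw + h₀ → ∀ K : ℕ,
      ∃ δ : ℝ → ℝ≥0∞, Tendsto δ (𝓝[>] 0) (𝓝 0) ∧ ∀ ε : ℝ, 0 < ε →
      ∀ φ : (n : ℕ) → Config n → ML → ℝ≥0∞, (∀ n w, Measurable (φ n w)) →
        (∀ n w l, φ n w l ≤ 1) →
      ∀ M : ℝ≥0∞, M ≠ ∞ →
      ∀ th : (n : ℕ) → Config n → (P : CTree) → PhasePoint × Par P → ℝ≥0∞,
        (∀ n w P z, Valid Φ ε P T' z.1.2 z.2 → th n w P z ≤ M * ENNReal.ofReal lam₁ ^ P.size *
          ENNReal.ofReal (Real.exp (kap * Seg814.eng Φ P z.1.2 z.2))) →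
      gcE f₀ ε (fun n w => ∑' P : CTree, if P.leaves ≤ K then ∫⁻ z : PhasePoint × Par P,
        {z : PhasePoint × Par P | Valid Φ ε P T' z.1.2 z.2}.indicator
          (fun z => wt Φ P z.1.2 z.2 * (∏ i, ENNReal.ofReal (f₀ (lines Φ ε P z.1 z.2 i))) *
            th n w P z * ES Φ ε (fun Q y => GIV566.unhitInd Φ ε (Q1815.hidM Φ ε Q y.1 y.2) tw w)
              (φ n w) P z) z else 0) ≤
        M * (C₁ * gcE f₀ ε (fun n w => ∫⁻ l, φ n w l ∂EDefs602.lineM γ ρ K T') + δ ε) := by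
  obtain ⟨g₁, hg₁, ρ₁, hρ₁, C₁, hC₁, h⟩ := qexit_gen hD hK hkap h1 h2
  refine ⟨g₁, hg₁, ρ₁, hρ₁, C₁, hC₁, fun γ ρ hγ hρ tw htw hG T' hT'0 hT'T hT'h K => ?_⟩
  exact h γ ρ hρ tw htw hG T' hT'0 hT'h (fun τ hτ => hγ τ ⟨hτ.1, hτ.2.trans hT'T⟩) K

end Crest.Agent.R122.QExit814

end
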