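import Crest.Agent.R122.QExitBind2_837
import Crest.Agent.R122.QExitF_814
import Crest.Agent.R122.Q1Wgt_815

/-!
# Row 122 (helper837): quenched marked exits, consumer forms

* `QX` : conclusion of helper814's `qexit_gen` at fixed `ε`.
* `QX.ts` : tree-integral form: `TS H ≤ M (C₁ gcE ∫ φ dlineM + δ)` whenever `H ≤ th * ES` on the
  valid trees with at most `K` leaves.
* `ts_exit_prot`, `ts_exit_rel` : `H = th * ghost * ∑_{x ≠ root} φ (lineML P z x)`, ghost =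
  avoidance of the protected tubes (`protT`), or of `(curve, b)` with `b ≥ rel`.
* `exists_wQ` : the weights `wQ` (energy of the leaves) with a size factor.
-/

set_option autoImplicit false

open MeasureTheory Set Filter Topology
open Crest.AnalysisR.Kinetic
open scoped ENNReal

noncomputable section

open scoped Classical

namespace Crest.Agent.R122.QExit837

open Kin796 Kin796.CTree Disc416 Scat818 Flow671 Flux663 Tree674 Mark307
open Crest.Agent.R122.GIV566 Crest.Agent.R122.TreeLines335 Crest.Agent.R122.QExit814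
open Crest.Agent.R122.Hid424 Crest.Agent.R122.RtG302 Crest.Agent.R122.GC311
open Crest.Agent.R122.InEq2 Crest.Agent.R122.ToTree335 Crest.Agent.R122.Boltz814
open Crest.Agent.R122.EDefs602 Crest.Agent.R122.Master566

variable {Φ : Space3 → ℝ} {f₀ : PhasePoint → ℝ} {f : ℝ → PhasePoint → ℝ} {ε : ℝ}

/-- Conclusion of `qexit_gen` at fixed `ε`. -/
def QX (Φ : Space3 → ℝ) (f₀ : PhasePoint → ℝ) (ε : ℝ) (K : ℕ) (T' tw lam₁ kap : ℝ) (γ : ℝ → ℝ)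
    (ρ C₁ δ : ℝ≥0∞) : Prop :=
  ∀ φ : (n : ℕ) → Config n → QExit814.ML → ℝ≥0∞, (∀ n w, Measurable (φ n w)) →
    (∀ n w l, φ n w l ≤ 1) →
  ∀ M : ℝ≥0∞, M ≠ ∞ →
  ∀ th : (n : ℕ) → Config n → (P : CTree) → PhasePoint × Par P → ℝ≥0∞,
    (∀ n w P z, Valid Φ ε P T' z.1.2 z.2 → th n w P z ≤ M * ENNReal.ofReal lam₁ ^ P.size *
      ENNReal.ofReal (Real.exp (kap * Seg814.eng Φ P z.1.2 z.2))) →
  gcE f₀ ε (fun n w => ∑' P : CTree, if P.leaves ≤ K then ∫⁻ z : PhasePoint × Par P,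
    {z : PhasePoint × Par P | Valid Φ ε P T' z.1.2 z.2}.indicator
      (fun z => wt Φ P z.1.2 z.2 * (∏ i, ENNReal.ofReal (f₀ (lines Φ ε P z.1 z.2 i))) *
        th n w P z * ES Φ ε (fun Q y => GIV566.unhitInd Φ ε (Q1815.hidM Φ ε Q y.1 y.2) tw w)
          (φ n w) P z) z else 0) ≤
    M * (C₁ * gcE f₀ ε (fun n w => ∫⁻ l, φ n w l ∂EDefs602.lineM γ ρ K T') + δ)

/-- The set-up of the consumers: constants uniform in the windows and the horizons `T' ≤ tw + h₀`. -/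
theorem exists_qx {β T : ℝ} (hD : KData Φ β T f₀ f) {h₀ kap lam C b : ℝ}
    (hK : Seg814.KinC Φ T f h₀ kap lam C b) (hkap : kap ≤ β) {lam₁ : ℝ} (h1 : 1 < lam₁)
    (h2 : lam₁ < lam) :
    ∃ g₁ : ℝ, 0 < g₁ ∧ ∃ ρ₁ : ℝ≥0∞, ρ₁ < 1 ∧ ∃ C₁ : ℝ≥0∞, C₁ ≠ ∞ ∧
      ∀ (γ : ℝ → ℝ) (ρ : ℝ≥0∞), ρ₁ ≤ ρ → ∀ tw ∈ Icc 0 T, GIV566.GIV Φ f₀ f T tw →
      ∀ T' : ℝ, 0 < T' → T' ≤ tw + h₀ → (∀ τ ∈ Ioc 0 T', γ τ ≤ g₁) → ∀ K : ℕ,
      ∃ δ : ℝ → ℝ≥0∞, Tendsto δ (𝓝[>] 0) (𝓝 0) ∧ ∀ ε : ℝ, 0 < ε →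
        QX Φ f₀ ε K T' tw lam₁ kap γ ρ C₁ (δ ε) :=
  qexit_gen hD hK hkap h1 h2

section ts

variable {K : ℕ} {T' tw lam₁ kap : ℝ} {γ : ℝ → ℝ} {ρ C₁ δ : ℝ≥0∞}

/-- **Tree-integral form.** -/
theorem QX.ts (h : QX Φ f₀ ε K T' tw lam₁ kap γ ρ C₁ δ) (hΦ : AdmissiblePotential Φ)
    (hf : Measurable f₀) (hε : 0 < ε)
    {φ : (m : ℕ) → Config m → QExit814.ML → ℝ≥0∞}
    (hφ : ∀ m, Measurable fun q : Config m × QExit814.ML => φ m q.1 q.2)
    (hφ1 : ∀ m w l, φ m w l ≤ 1) {M : ℝ≥0∞} (hM : M ≠ ∞)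
    {th : ∀ P : CTree, PhasePoint × Par P → ℝ≥0∞} (hth : ∀ P, Measurable (th P))
    (hthM : ∀ P z, Valid Φ ε P T' z.1.2 z.2 → th P z ≤ M * ENNReal.ofReal lam₁ ^ P.size *
      ENNReal.ofReal (Real.exp (kap * Seg814.eng Φ P z.1.2 z.2)))
    {H : (P : CTree) → PhasePoint × Par P → (m : ℕ) → Config m → ℝ≥0∞}
    (hH : ∀ P z m w, Valid Φ ε P T' z.1.2 z.2 → H P z m w ≤
      if P.leaves ≤ K then th P z * ES Φ ε (U814 Φ ε tw w) (φ m w) P z else 0) :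
    InEq2.TS Φ f₀ ε T' H ≤
      M * (C₁ * gcE f₀ ε (fun m w => ∫⁻ l, φ m w l ∂EDefs602.lineM γ ρ K T') + δ) := by
  refine (TS_le_gcE hΦ hf hε hth hφ hH).trans ?_
  refine le_trans (gcE_mono f₀ ε fun m w _ => ?_) (h φ (fun m w => (hφ m).comp
    (measurable_const.prodMk measurable_id)) hφ1 M hM (fun _ _ P z => th P z)
    (fun _ _ P z hz => hthM P z hz))
  unfold QI
  refine ENNReal.tsum_le_tsum fun P => ?_
  by_cases hP : P.leaves ≤ K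
  · rw [if_pos hP, if_pos hP]
    refine lintegral_mono fun z => ?_
    by_cases hz : Valid Φ ε P T' z.1.2 z.2
    · rw [indicator_of_mem (show z ∈ {z : PhasePoint × Par P | Valid Φ ε P T' z.1.2 z.2} from hz),
        indicator_of_mem (show z ∈ {z : PhasePoint × Par P | Valid Φ ε P T' z.1.2 z.2} from hz)]
      refine le_of_eq ?_
      show _ = wt Φ P z.1.2 z.2 * pf Φ f₀ ε P z * th P z * ES Φ ε (U814 Φ ε tw w) (φ m w) P z
      ring
    · rw [indicator_of_notMem (show z ∉ {z : PhasePoint × Par P | Valid Φ ε P T' z.1.2 z.2} from hz)]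
      exact bot_le
  · rw [if_neg hP]
    exact bot_le

/-- Ghost = avoidance of the protected tubes `protT` (helper302), separated trees. -/
theorem QX.ts_prot (h : QX Φ f₀ ε K T' tw lam₁ kap γ ρ C₁ δ) (hΦ : AdmissiblePotential Φ)
    (hf : Measurable f₀) (hε : 0 < ε)
    {φ : (m : ℕ) → Config m → QExit814.ML → ℝ≥0∞}
    (hφ : ∀ m, Measurable fun q : Config m × QExit814.ML => φ m q.1 q.2)
    (hφ1 : ∀ m w l, φ m w l ≤ 1) {M : ℝ≥0∞} (hM : M ≠ ∞)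
    {th : ∀ P : CTree, PhasePoint × Par P → ℝ≥0∞} (hth : ∀ P, Measurable (th P))
    (hthM : ∀ P z, Valid Φ ε P T' z.1.2 z.2 → th P z ≤ M * ENNReal.ofReal lam₁ ^ P.size *
      ENNReal.ofReal (Real.exp (kap * Seg814.eng Φ P z.1.2 z.2)))
    {H : (P : CTree) → PhasePoint × Par P → (m : ℕ) → Config m → ℝ≥0∞}
    (hH : ∀ P z m w, Valid Φ ε P T' z.1.2 z.2 → H P z m w ≤
      if P.leaves ≤ K ∧ Sep Φ ε P T' z.1 z.2 then
        th P z * (unhitInd Φ ε (protT Φ ε P T' z) tw w *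
          ∑ x : {i : Idx P // i ≠ root P}, φ m w (lineML Φ ε P z x)) else 0) :
    InEq2.TS Φ f₀ ε T' H ≤
      M * (C₁ * gcE f₀ ε (fun m w => ∫⁻ l, φ m w l ∂EDefs602.lineM γ ρ K T') + δ) := by
  refine h.ts hΦ hf hε hφ hφ1 hM hth hthM fun P z m w hz => (hH P z m w hz).trans ?_
  by_cases hP : P.leaves ≤ K
  · by_cases hs : Sep Φ ε P T' z.1 z.2
    · rw [if_pos ⟨hP, hs⟩, if_pos hP]
      exact mul_le_mul' le_rfl (ghostT_sum_le hΦ hε hz hs (φ m w))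
    · rw [if_neg (fun hh => hs hh.2)]
      exact bot_le
  · rw [if_neg (fun hh => hP hh.1)]
    exact bot_le

/-- Ghost = avoidance of the tubes `(curve, b)`, `b ≥ rel`, separated trees. -/
theorem QX.ts_rel (h : QX Φ f₀ ε K T' tw lam₁ kap γ ρ C₁ δ) (hΦ : AdmissiblePotential Φ)
    (hf : Measurable f₀) (hε : 0 < ε)
    {φ : (m : ℕ) → Config m → QExit814.ML → ℝ≥0∞}
    (hφ : ∀ m, Measurable fun q : Config m × QExit814.ML => φ m q.1 q.2)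
    (hφ1 : ∀ m w l, φ m w l ≤ 1) {M : ℝ≥0∞} (hM : M ≠ ∞)
    {th : ∀ P : CTree, PhasePoint × Par P → ℝ≥0∞} (hth : ∀ P, Measurable (th P))
    (hthM : ∀ P z, Valid Φ ε P T' z.1.2 z.2 → th P z ≤ M * ENNReal.ofReal lam₁ ^ P.size *
      ENNReal.ofReal (Real.exp (kap * Seg814.eng Φ P z.1.2 z.2)))
    {b : (P : CTree) → PhasePoint × Par P → Idx P → ℝ} (hb : ∀ P z i, TreeLines335.rel P z.2 i ≤ b P z i)
    {H : (P : CTree) → PhasePoint × Par P → (m : ℕ) → Config m → ℝ≥0∞}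
    (hH : ∀ P z m w, Valid Φ ε P T' z.1.2 z.2 → H P z m w ≤
      if P.leaves ≤ K ∧ Sep Φ ε P T' z.1 z.2 then
        th P z * (unhitInd Φ ε (treeT Φ ε P z.1 z.2 (b P z)) tw w *
          ∑ x : {i : Idx P // i ≠ root P}, φ m w (lineML Φ ε P z x)) else 0) :
    InEq2.TS Φ f₀ ε T' H ≤
      M * (C₁ * gcE f₀ ε (fun m w => ∫⁻ l, φ m w l ∂EDefs602.lineM γ ρ K T') + δ) := by
  refine h.ts hΦ hf hε hφ hφ1 hM hth hthM fun P z m w hz => (hH P z m w hz).trans ?_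
  by_cases hP : P.leaves ≤ K
  · by_cases hs : Sep Φ ε P T' z.1 z.2
    · rw [if_pos ⟨hP, hs⟩, if_pos hP]
      exact mul_le_mul' le_rfl (ghost_sum_le hΦ hε hz hs (hb P z) (φ m w))
    · rw [if_neg (fun hh => hs hh.2)]
      exact bot_le
  · rw [if_neg (fun hh => hP hh.1)]
    exact bot_le

end ts

/-! ### Weights -/

/-- energy weight with a size factor `1[m ≤ size]`: geometric gain in `m` -/
theorem exists_wQ (Φ : Space3 → ℝ) {lam₀ lam₁ kap : ℝ} (h0 : 1 < lam₀) (h1 : lam₀ < lam₁)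
    (hkap : 0 < kap) : ∃ M₀ : ℝ≥0∞, M₀ ≠ ∞ ∧ ∀ (m : ℕ) (ε T' : ℝ) (P : CTree)
      (z : PhasePoint × Par P), Valid Φ ε P T' z.1.2 z.2 →
      (if m ≤ P.size then wQ Φ ε P z else 0) ≤
        (M₀ * ENNReal.ofReal (lam₀ / lam₁) ^ m) * ENNReal.ofReal lam₁ ^ P.size *
          ENNReal.ofReal (Real.exp (kap * Seg814.eng Φ P z.1.2 z.2)) := by
  obtain ⟨M, hM, h⟩ := Seg814.exists_additive_le (Φ := Φ) h0 hkap
  refine ⟨ENNReal.ofReal M, ENNReal.ofReal_ne_top, fun m ε T' P z hz => ?_⟩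
  split_ifs with hm
  · have e1 : wQ Φ ε P z = ∑ i : Idx P, ENNReal.ofReal (1 + ‖vels Φ P z.1.2 z.2 i‖ ^ 2) := by
      rw [wQ_eq hz.1]
      refine Finset.sum_congr rfl fun i _ => ?_
      rw [Hid424.lines_vel]
    rw [e1]
    refine (h P z.1.2 z.2).trans ?_
    refine mul_le_mul' ?_ le_rfl
    rw [mul_assoc]
    refine mul_le_mul' le_rfl ?_
    have p0 : (0 : ℝ) < lam₀ := by linarith
    have p1 : (0 : ℝ) < lam₁ := by linarith
    obtain ⟨j, hj⟩ := Nat.exists_eq_add_of_le hm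
    rw [hj, pow_add, pow_add, ← mul_assoc]
    refine mul_le_mul' ?_ (pow_le_pow_left' (ENNReal.ofReal_le_ofReal h1.le) j)
    rw [← mul_pow, ← ENNReal.ofReal_mul (by positivity), div_mul_cancel₀ _ p1.ne']
  · exact bot_le

/-- `1 + |v|` of the root is below `2 wQ` -/
theorem root_le_wQ (hΦ : AdmissiblePotential Φ) {P : CTree} {T' : ℝ} {z : PhasePoint × Par P}
    (hz : Valid Φ ε P T' z.1.2 z.2) : ENNReal.ofReal (1 + ‖z.1.2‖) ≤ 2 * wQ Φ ε P z := by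
  have h := Q1815.rootA_le_wtA (s := (0 : ℝ)) (ℓ := z.1) hΦ hz.1
  have e : Q1815.wtA Φ P ((0 : ℝ), z.1, z.2) = wQ Φ ε P z := by
    rw [Q1815.wtA_eq_lines (ε := ε), wQ_eq hz.1]
  rw [e] at h
  exact h

end Crest.Agent.R122.QExit837

end
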