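import Crest.Agent.R122.H5A_994
import Crest.Agent.R122.InEq2TPt_335
import Crest.Agent.R122.QExitBind3_837

/-!
helper815, row 122, the error term `errA` of SP-A (helper994) from a majorant of the linked lines.

* `XNull` : majorants of the capped mass of a set of test lines over the valid, separated trees;
* `perpT_of_gh` : the ghost indicator gives the exclusion of the leaves and the gas;
* `errA_null` : `XNull` for `badF` gives `Null (TS te errA)`.
-/

set_option autoImplicit false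

open MeasureTheory Set Filter
open scoped ENNReal Topology
open Crest.AnalysisR.Kinetic
open Crest.Agent.R122.Kin796 Crest.Agent.R122.Kin796.CTree Crest.Agent.R122.Tree674
open Crest.Agent.R122.EDefs602 Crest.Agent.R122.TreeLines335 Crest.Agent.R122.LineMeas994
open Crest.Agent.R122.GC311 Crest.Agent.R122.Decomp811 Crest.Agent.R122.Master566
open Crest.Agent.R122.InEq2 Crest.Agent.R122.InEq2T Crest.Agent.R122.H5994

noncomputable section

namespace Crest.Agent.R122.ErrAB815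

open scoped Classical

variable {Φ : Space3 → ℝ} {f₀ : PhasePoint → ℝ} {ε : ℝ} {K : ℕ}

/-- Majorants of the capped mass of a set `X` of test lines over the valid, separated trees with at
most `K` leaves (horizon `T'`), whose energy weighted tree integral is null. -/
def XNull (Φ : Space3 → ℝ) (f₀ : PhasePoint → ℝ) (T' te : ℝ) (γ : ℝ → ℝ) (ρ : ℝ≥0∞)
    (X : ℕ → ℝ → ∀ P : CTree, PhasePoint × Par P → ∀ m : ℕ, Config m → Set ML) : Prop :=
  ∀ K : ℕ, ∀ δ : ℝ, 0 < δ → ∃ ε₀ : ℝ, 0 < ε₀ ∧ ∀ ε : ℝ, 0 < ε → ε < ε₀ →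
    ∃ NL : (P : CTree) → PhasePoint × Par P → (m : ℕ) → Config m → ℝ≥0∞, MeasTS NL ∧
      (∀ P z m w, P.leaves ≤ K → Valid Φ ε P T' z.1.2 z.2 → Sep Φ ε P T' z.1 z.2 →
        w ∈ PairExcluded ε m → PerpT Φ ε P z w →
        min 1 (lineM γ ρ K te (X K ε P z m w)) ≤ NL P z m w) ∧
      TS Φ f₀ ε T' (fun P z m w => wQ Φ ε P z * NL P z m w) ≤ ENNReal.ofReal δ

theorem XNull.mono {T' te : ℝ} {γ : ℝ → ℝ} {ρ : ℝ≥0∞}
    {X Y : ℕ → ℝ → ∀ P : CTree, PhasePoint × Par P → ∀ m : ℕ, Config m → Set ML}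
    (h : XNull Φ f₀ T' te γ ρ Y)
    (hle : ∀ (K : ℕ) (ε : ℝ), 0 < ε → ∀ P z m w, P.leaves ≤ K → Valid Φ ε P T' z.1.2 z.2 →
      Sep Φ ε P T' z.1 z.2 → w ∈ PairExcluded ε m → PerpT Φ ε P z w →
      lineM γ ρ K te (X K ε P z m w) ≤ lineM γ ρ K te (Y K ε P z m w)) :
    XNull Φ f₀ T' te γ ρ X := by
  intro K δ hδ
  obtain ⟨ε₀, hε₀, H⟩ := h K δ hδ
  refine ⟨ε₀, hε₀, fun ε hε hlt => ?_⟩
  obtain ⟨NL, h1, h2, h3⟩ := H ε hε hlt
  exact ⟨NL, h1, fun P z m w hP hV hS hw hp =>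
    (min_le_min_left _ (hle K ε hε P z m w hP hV hS hw hp)).trans (h2 P z m w hP hV hS hw hp), h3⟩

/-- The ghost indicator gives the exclusion of the leaves and the gas. -/
theorem perpT_of_gh (hΦ : AdmissiblePotential Φ) (hε : 0 < ε) {tw : ℝ} (htw : 0 ≤ tw) {P : CTree} {T : ℝ}
    {z : PhasePoint × Par P} (hV : Valid Φ ε P T z.1.2 z.2) {m : ℕ} {w : Config m}
    (h : gh Φ ε tw P z ⟨m, w⟩ ≠ 0) : PerpT Φ ε P z w := by
  have hu : GIV566.unhit Φ ε (ghTM Φ ε P z) tw w := by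
    by_contra hno
    refine h ?_
    unfold gh GIV566.unhitInd
    rw [if_neg hno]
  intro x i
  have h1 := hu x i 0 ⟨le_rfl, le_min (rel_nonneg hε.le hV.2 x) htw⟩
  have h2 : (ghTM Φ ε P z).c x 0 = (linesM Φ ε P z.1 z.2 x).1 := by
    show (Flow671.flow Φ ε 0 (linesM Φ ε P z.1 z.2) x).1 = _
    rw [Flow671.flow_zero hΦ hε]
  have h3 : Causal291.pth Φ ε w 0 i = w i := by
    show Flow671.flow Φ ε 0 w i = _
    rw [Flow671.flow_zero hΦ hε]
  rw [h2, h3] at h1
  exact h1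

theorem min_one_mul_le {a x : ℝ≥0∞} : min 1 (a * x) ≤ (1 + a) * min 1 x := by
  rcases le_total 1 x with h | h
  · rw [min_eq_left h, mul_one]
    exact (min_le_left _ _).trans le_self_add
  · rw [min_eq_right h]
    exact (min_le_right _ _).trans (mul_le_mul' le_add_self le_rfl)

/-- **The errors of SP-A are null** if the capped mass of `badF`, on the good structures `GG`, has
null majorants. -/
theorem errA_null {ξ : CTree → Type} [∀ P, Fintype (ξ P)]
    {AA : ℝ → ∀ P : CTree, PhasePoint × Par P → MW (ξ P)}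
    {GG : ℝ → (P : CTree) → (Σ n : ℕ, Config n) → PhasePoint × Par P → Prop}
    (hΦ : AdmissiblePotential Φ) {Q : EPar} (htw : 0 ≤ Q.tw)
    (h : XNull Φ f₀ Q.te Q.te Q.γ Q.ρ fun K ε P z m w =>
      {l | GG ε P ⟨m, w⟩ z ∧ l ∈ badF Φ ε K Q.te (MW.cfg w) (AA ε P z) (lineMM Φ ε P z)}) :
    Null fun K ε => TS Φ f₀ ε Q.te (errA (AA ε) (GG ε) Φ ε K Q) := by
  intro K η hη
  set c : ℝ := 2 * (1 + Q.L ⊔ 0) with hc
  have hc0 : 0 < c := by positivity
  obtain ⟨ε₀, hε₀, H⟩ := h K (η / c) (by positivity)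
  refine ⟨ε₀, hε₀, fun ε hε hlt => ?_⟩
  obtain ⟨NL, hNL, hmaj, hle⟩ := H ε hε hlt
  have hcE : ENNReal.ofReal c = 2 * (1 + ENNReal.ofReal Q.L) := by
    have e : ENNReal.ofReal Q.L = ENNReal.ofReal (Q.L ⊔ 0) := by
      rcases le_total Q.L 0 with h0 | h0
      · rw [sup_eq_right.2 h0, ENNReal.ofReal_zero, ENNReal.ofReal_of_nonpos h0]
      · rw [sup_eq_left.2 h0]
    rw [hc, e, ENNReal.ofReal_mul (by norm_num), ENNReal.ofReal_add zero_le_one le_sup_right,
      ENNReal.ofReal_one]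
    norm_num
  calc TS Φ f₀ ε Q.te (errA (AA ε) (GG ε) Φ ε K Q)
      ≤ TS Φ f₀ ε Q.te (fun P z m w => ENNReal.ofReal c * (wQ Φ ε P z * NL P z m w)) := by
        refine TS_mono fun P z m w hV hw => ?_
        unfold errA
        by_cases hP : P.leaves ≤ K ∧ Sep Φ ε P Q.te z.1 z.2
        swap
        · rw [if_neg hP]
          exact bot_le
        rw [if_pos hP]
        by_cases hg : gh Φ ε Q.tw P z ⟨m, w⟩ = 0
        · rw [hg, zero_mul, mul_zero]
          exact bot_le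
        by_cases hgg : GG ε P ⟨m, w⟩ z
        swap
        · rw [if_neg hgg, mul_zero, mul_zero]
          exact bot_le
        rw [if_pos hgg]
        have hp := perpT_of_gh hΦ hε htw hV hg
        have h1 := hmaj P z m w hP.1 hV hP.2 hw hp
        have e1 : {l | GG ε P ⟨m, w⟩ z ∧
            l ∈ badF Φ ε K Q.te (MW.cfg w) (AA ε P z) (lineMM Φ ε P z)} =
            badF Φ ε K Q.te (MW.cfg w) (AA ε P z) (lineMM Φ ε P z) := by
          ext l
          exact ⟨fun h => h.2, fun h => ⟨hgg, h⟩⟩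
        beta_reduce at h1
        rw [e1] at h1
        have h2 : ENNReal.ofReal (1 + ‖z.1.2‖) ≤ 2 * wQ Φ ε P z := QExit837.root_le_wQ hΦ hV
        have h3 : min 1 (lk Φ ε K Q (MW.cfg w) (AA ε P z) (lineMM Φ ε P z)) ≤
            (1 + ENNReal.ofReal Q.L) * NL P z m w := by
          unfold lk
          exact min_one_mul_le.trans (mul_le_mul' le_rfl h1)
        calc ENNReal.ofReal (1 + ‖z.1.2‖) * (gh Φ ε Q.tw P z ⟨m, w⟩ *
              min 1 (lk Φ ε K Q (MW.cfg w) (AA ε P z) (lineMM Φ ε P z)))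
            ≤ (2 * wQ Φ ε P z) * (1 * ((1 + ENNReal.ofReal Q.L) * NL P z m w)) :=
              mul_le_mul' h2 (mul_le_mul' gh_le_one h3)
          _ = _ := by rw [hcE]; ring
    _ = ENNReal.ofReal c * TS Φ f₀ ε Q.te (fun P z m w => wQ Φ ε P z * NL P z m w) :=
        TS_const_mul ENNReal.ofReal_ne_top _
    _ ≤ ENNReal.ofReal c * ENNReal.ofReal (η / c) := mul_le_mul' le_rfl hle
    _ = ENNReal.ofReal η := by
        rw [← ENNReal.ofReal_mul hc0.le, mul_div_cancel₀ _ hc0.ne']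

end Crest.Agent.R122.ErrAB815

end
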