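import Crest.Agent.R122.ErrBFam_823
import Crest.Agent.R122.TLGate_311
import Crest.Agent.R122.XShape_692
import Crest.Agent.R122.GateOS_973

/-!
# Row 122 (helper823): binding of the gate of `errB`

The structure and the independent line are two lines of law `lineM`.

* `gLe_runX_t`, `badF_two`, `gNull_hitN_line` : runs, bad partitions of two lines, bad hits of a line.
* `ErrBAlt` : the pure deterministic statement (helper818's `err_alt`): not world consistent implies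
  `XAlt` of `d`, `XAlt` of `x`, a direct meeting, or a bad partition of the two lines and the gas.
* `errBFam_of_alt`, `null_errB_of_alt` : `ErrBAlt` gives `Null (fun K ε => H5994.errB ..)`.
-/

set_option autoImplicit false
set_option linter.unusedSectionVars false

open MeasureTheory Set Filter Topology
open scoped ENNReal
open Crest.AnalysisR.Kinetic
open Crest.Agent.R122.GC311 Crest.Agent.R122.EDefs602 Crest.Agent.R122.Decomp811
open Crest.Agent.R122.TouchFlux494 (Near near_of_thetaL_le')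
open Crest.Agent.R122.Gate424 Crest.Agent.R122.Gate973 Crest.Agent.R122.LN2
open Crest.Agent.R122.LinkM547 Crest.Agent.R122.BH167 Crest.Agent.R122.X692
open Crest.Agent.R122.TL311

noncomputable section

namespace Crest.Agent.R122.ErrB823

variable {Φ : Space3 → ℝ} {f₀ : PhasePoint → ℝ} {β T te g : ℝ} {γ : ℝ → ℝ} {ρ : ℝ≥0∞}

/-! ### Ingredients -/

/-- Runs from the line, horizon `te`. -/
theorem gLe_runX_t (h : Ctx Φ f₀ β T te g γ ρ) (K K₂ : ℕ) {δ : ℝ≥0∞} (hδ : 0 < δ) :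
    ∃ L₀ : ℕ, ∀ L, L₀ ≤ L → GLe f₀ (fun _ (_ : Unit) => lineM γ ρ K te)
      (fun ε _ _ l w => Run Φ ε te K₂ L (MW.line l) () w) δ := by
  have h1 : 2 * (g / 2) ≤ 2 * β := by
    have := h.g_pos
    have := h.g_le
    linarith
  obtain ⟨env, A, hA, hE⟩ := exists_envB h1 h.gauss
  exact gLe_runX (I := Unit) h.adm (half_pos h.g_pos) (half_lt_self h.g_pos) h.te_le h.T_nonneg hA
    K₂ h.hf h.mass hE h.meas h.rate h.mark K (t := fun _ => te) (fun _ => h.te_le) hδ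

/-- Two lines are dominated: two groups, no anchor. -/
theorem dom_two (h : Ctx Φ f₀ β T te g γ ρ) {r : Space3 → ℝ≥0∞} {C : ℝ≥0∞} (he : Env f₀ g r C)
    (K : ℕ) (ε : ℝ) :
    Dom g r ε 2 (∅ : Finset (Unit ⊕ Unit)) ((∑' n : ℕ, markW ρ K n) * ∑' n : ℕ, markW ρ K n)
      (prodΛ (lineΛ te) (lineΛ te)) ((lineM γ ρ K te).prod (lineM γ ρ K te))
      (fun θ => bx (fun _ : Unit => θ.1.1.1) θ.2.1.1)
      (fun θ => zx (fun _ : Unit => back θ.1.1) (back θ.2.1)) := by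
  have := sf_nL (γ := γ) (ρ := ρ) (K := K) (te := te) ε ()
  exact Dom.prod he.meas (h.dom_L r K ε) (h.dom_L r K ε) le_rfl le_rfl

/-- **Bad partitions of two lines.** -/
theorem badF_two (h : Ctx Φ f₀ β T te g γ ρ) (hCN : VLMeas973.ClassNull Φ T) (K : ℕ) (C : ℝ)
    (N : ℕ) :
    BadF f₀ (fun _ (_ : Unit) => (lineM γ ρ K te).prod (lineM γ ρ K te)) (fun R ς ε _ _ p w =>
      BadGas Φ T C R ς ε N 2 (∅ : Finset (Unit ⊕ Unit)) (bx (fun _ : Unit => p.1.1.1) p.2.1.1)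
        (zx (fun _ : Unit => back p.1.1) (back p.2.1)) w) := by
  obtain ⟨r, C₀, he, heg⟩ := h.exists_env
  refine badF_badGas (I := Unit) (m := fun _ _ => (lineM γ ρ K te).prod (lineM γ ρ K te))
    hCN h.hf h.mass heg h.g_pos C N (s := 2) ?_ (∅ : Finset (Unit ⊕ Unit))
    (c := (∑' n : ℕ, markW ρ K n) * ∑' n : ℕ, markW ρ K n)
    (ENNReal.mul_ne_top (sum_markW_ne_top h.mark K) (sum_markW_ne_top h.mark K))
    (prodΛ (lineΛ te) (lineΛ te))
    (b := fun _ _ p => bx (fun _ : Unit => p.1.1.1) p.2.1.1)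
    (z := fun _ _ p => zx (fun _ : Unit => back p.1.1) (back p.2.1))
    (fun _ _ => inferInstance) fun ε _ _ => dom_two h heg K ε
  rw [Fintype.card_sum, Fintype.card_unit]

/-- Bad hits of a line, non-localised form. -/
theorem gNull_hitN_line (h : Ctx Φ f₀ β T te g γ ρ) {T₁ : ℝ} (hT₁ : 0 ≤ T₁) (K : ℕ) (C R : ℝ)
    (N K₁ : ℕ) :
    GNull f₀ (fun _ (_ : Unit) => lineM γ ρ K te) (fun ε _ _ l w =>
      BadHitGasN (bpos Φ T₁ T) Φ T C R ε N K₁ 1 (∅ : Finset Unit) (fun _ => l.1.1)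
        (fun _ => back l.1) w) := by
  obtain ⟨r, C₀, he, heg⟩ := h.exists_env
  exact gNull_badPosN (I := Unit) (m := fun _ _ => lineM γ ρ K te) h.adm h.T_nonneg T hT₁ h.hf
    h.mass heg h.g_pos C R N K₁ (s := 1) le_rfl ∅ (c := ∑' n : ℕ, markW ρ K n)
    (sum_markW_ne_top h.mark K) (lineΛ te)
    (b := fun _ _ l _ => l.1.1) (z := fun _ _ l _ => back l.1) (fun _ _ => inferInstance)
    (fun ε _ _ => h.dom_L r K ε)

/-! ### The deterministic statement -/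

/-- **The pure deterministic statement** for the two lines `d`, `x` of `errB`. `Kr` : bound of the
sizes in the runs (may depend on `K`). -/
def ErrBAlt (Φ : Space3 → ℝ) (T T₁ : ℝ) (Q : EPar) (K Kr : ℕ) : Prop :=
  ∀ L : ℕ, ∃ (N : ℕ) (C : ℝ), ∀ R > 0, ∀ ς > 0, ∃ R' ε₁ : ℝ, 0 < R' ∧ 0 < ε₁ ∧
    ∀ ε : ℝ, 0 < ε → ε < ε₁ → ∀ (n : ℕ), ∀ w ∈ PairExcluded ε n,
    ∀ᵐ d ∂lineM Q.γ Q.ρ K Q.te, ∀ᵐ x ∂lineM Q.γ Q.ρ K Q.te,
      WinTch Φ ε K Q w d → Near Φ ε 1 Q.te w d.1 →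
      ¬ W1E Φ ε K Q.te (MW.cfg w) (MW.line d) (MW.line x) →
      XAlt Φ T T₁ Q.te C R ς ε Kr L N d w ∨ XAlt Φ T T₁ Q.te C R ς ε Kr L N x w ∨
      Meet ε R' T d.1 x.1 ∨
      BadGas Φ T C R ς ε N 2 (∅ : Finset (Unit ⊕ Unit)) (bx (fun _ : Unit => d.1.1) x.1.1)
        (zx (fun _ : Unit => back d.1) (back x.1)) w

/-- **The binding.** -/
theorem errBFam_of_alt {Q : EPar} (h : Ctx Φ f₀ β T Q.te g Q.γ Q.ρ)
    (hCN : VLMeas973.ClassNull Φ T) {T₁ : ℝ} (hT₁ : 0 ≤ T₁) {K Kr : ℕ}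
    (halt : ErrBAlt Φ T T₁ Q K Kr) : ErrBFam Φ f₀ Q K := by
  choose N C halt using halt
  refine ⟨fun L ε _ n d w => Run Φ ε Q.te Kr L (MW.line d) () w,
    fun L ε _ n d w => BadHitGasN (bpos Φ T₁ T) Φ T (C L) 1 ε (N L) (N L) 1 (∅ : Finset Unit)
      (fun _ => d.1.1) (fun _ => back d.1) w,
    fun L ε _ n d w => Run Φ ε Q.te Kr L (MW.line d) () w,
    fun L ε _ n d w => BadHitGasN (bpos Φ T₁ T) Φ T (C L) 1 ε (N L) (N L) 1 (∅ : Finset Unit)
      (fun _ => d.1.1) (fun _ => back d.1) w, fun _ _ _ _ _ _ => False, ?_, ?_, ?_, ?_, ?_, ?_⟩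
  · exact fun δ hδ => gLe_runX_t h K Kr hδ
  · exact fun δ hδ => gLe_runX_t h K Kr hδ
  · exact fun L => gNull_hitN_line h hT₁ K (C L) 1 (N L) (N L)
  · exact fun L => gNull_hitN_line h hT₁ K (C L) 1 (N L) (N L)
  · intro L δ _
    exact (GLe.zero f₀ _).mono bot_le ⟨1, one_pos, fun _ _ _ _ _ _ _ _ h => h⟩
  · intro L
    refine ⟨fun R ς ε _ _ l w => BadGas Φ T (C L) R ς ε (N L) 1 (∅ : Finset Unit)
      (fun _ => l.1.1) (fun _ => back l.1) w,
      fun R ς ε _ _ l w => BadGas Φ T (C L) R ς ε (N L) 1 (∅ : Finset Unit)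
      (fun _ => l.1.1) (fun _ => back l.1) w, fun R ς ε _ _ p w =>
      BadGas Φ T (C L) R ς ε (N L) 2 (∅ : Finset (Unit ⊕ Unit))
        (bx (fun _ : Unit => p.1.1.1) p.2.1.1) (zx (fun _ : Unit => back p.1.1) (back p.2.1)) w,
      h.badF_L hCN K (C L) (N L), h.badF_L hCN K (C L) (N L), badF_two h hCN K (C L) (N L), ?_⟩
    intro R hR ς hς
    obtain ⟨R', ε₁, hR', h0, hd⟩ := halt L R hR ς hς
    refine ⟨R', T, ε₁, hR', h.T_nonneg, h0, fun ε hε hlt n w hw => ?_⟩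
    filter_upwards [hd ε hε hlt n w hw] with d hd ht hn
    by_cases hX : XAlt Φ T T₁ Q.te (C L) R ς ε Kr L (N L) d w
    · exact Or.inl hX
    · refine Or.inr ?_
      filter_upwards [hd] with x hx hE
      rcases hx ht hn hE with h | h | h | h
      · exact absurd h hX
      · exact Or.inl h
      · exact Or.inr (Or.inl h)
      · exact Or.inr (Or.inr (Or.inl h))

/-- **`errB` is null for the data of the theorem**, from the pure deterministic statement. -/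
theorem null_errB_of_alt {β T : ℝ} {f : ℝ → PhasePoint → ℝ} (hD : Master566.KData Φ β T f₀ f)
    {g1 : ℝ} {r1 : ℝ≥0∞} {γ : ℝ → ℝ} {ρ : ℝ≥0∞} (hl : Top602.LinePar g1 r1 T γ ρ)
    {L tw te h : ℝ} (hw : Top602.Win h T tw te) {T₁ : ℝ} (hT₁ : 0 ≤ T₁)
    (halt : ∀ K, ∃ Kr, ErrBAlt Φ T T₁ (Top602.epar γ ρ L tw te) K Kr) :
    Null fun K ε => H5994.errB Φ f₀ ε K (Top602.epar γ ρ L tw te) := by
  obtain ⟨hγ, γ₀, hγp, hγ₀⟩ := Direct658.exists_rate hl
  have hb := hD.beta_pos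
  have hctx : Ctx Φ f₀ β T te (min γ₀ β) γ ρ := by
    refine ⟨hD.adm, hD.contDiff.continuous, hD.gaussian, (Q1815.lintegral_mass hD).le,
      hD.T_pos.le, hw.le_T, lt_min hγp hb, min_le_right _ _, fun τ hτ => ?_, hγ,
      (hl.hi.trans_le le_top).ne⟩
    exact (min_le_left _ _).trans (hγ₀ τ (hτ.2.trans hw.le_T))
  refine null_errB_fam_of_kdata hD hl hw fun K => ?_
  obtain ⟨Kr, hK⟩ := halt K
  exact errBFam_of_alt (Q := Top602.epar γ ρ L tw te) hctx (Gate973.classNull hD.adm hD.T_pos)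
    hT₁ hK

end Crest.Agent.R122.ErrB823

end
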