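import Crest.Agent.R122.PairOk2_735
import Crest.Agent.R122.UnwE_410
import Crest.Agent.R122.EBasic_602

/-!
# Row 122 (helper522): two independent lines, good worlds almost surely

For EVERY admissible gas `w`, the worlds `w + d`, `w + x`, `w + d + x` are good for almost all pairs
of lines `(d, x)` of law `lineM ⊗ lineM`.
-/

set_option autoImplicit false
set_option linter.unusedSectionVars false
set_option maxHeartbeats 400000

open MeasureTheory Set Filter Topology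
open scoped ENNReal
open Crest.AnalysisR.Kinetic
open Crest.Agent.R122.Ins45 Crest.Agent.R122.EDefs602 Crest.Agent.R122.PairOk735

noncomputable section

namespace Crest.Agent.R122.OkPair522

variable {Φ : Space3 → ℝ} {ε : ℝ} {γ : ℝ → ℝ} {ρ : ℝ≥0∞} {K n : ℕ} {T : ℝ} {w : Config n}

theorem lineM_ac : lineM γ ρ K T ≪ lineV T := withDensity_absolutelyContinuous _ _

/-- A line is almost surely not born on a moving point. -/
theorem ae_ne {q : ℝ → Space3} (hq : Measurable q) :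
    ∀ᵐ l ∂lineM γ ρ K T, q l.1.1 ≠ l.1.2.1 := by
  refine lineM_ac.ae_le ?_
  have h1 : ∀ᵐ y ∂((volume.restrict (Ioc (0 : ℝ) T)).prod (volume : Measure PhasePoint)),
      q y.1 ≠ y.2.1 := by
    have hm : MeasurableSet {y : ℝ × PhasePoint | q y.1 = y.2.1} :=
      measurableSet_eq_fun (hq.comp measurable_fst) measurable_snd.fst
    rw [ae_iff]
    simp only [ne_eq, not_not]
    rw [Measure.measure_prod_null hm]
    refine Eventually.of_forall fun τ => ?_
    have h2 : (Prod.mk τ ⁻¹' {y : ℝ × PhasePoint | q y.1 = y.2.1}) =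
        ({q τ} : Set Space3) ×ˢ (univ : Set Space3) := by
      ext z
      simp only [mem_preimage, mem_prod, mem_singleton_iff, mem_univ, and_true]
      exact ⟨fun h => Eq.symm h, fun h => Eq.symm h⟩
    change ((volume : Measure Space3).prod (volume : Measure Space3))
      (Prod.mk τ ⁻¹' {y : ℝ × PhasePoint | q y.1 = y.2.1}) = 0
    rw [h2, Measure.prod_prod, measure_singleton, zero_mul]
  exact Measure.quasiMeasurePreserving_fst.ae h1

/-- The birth time is almost surely different from a given time. -/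
theorem ae_time_ne (a : ℝ) : ∀ᵐ l ∂lineM γ ρ K T, l.1.1 ≠ a := by
  refine lineM_ac.ae_le ?_
  have h0 : ∀ᵐ τ ∂(volume.restrict (Ioc (0 : ℝ) T)), τ ≠ a :=
    ae_restrict_of_ae (by
      rw [ae_iff]
      simp)
  have h1 : ∀ᵐ y ∂((volume.restrict (Ioc (0 : ℝ) T)).prod (volume : Measure PhasePoint)),
      y.1 ≠ a := Measure.quasiMeasurePreserving_fst.ae h0
  exact Measure.quasiMeasurePreserving_fst.ae h1

theorem ae_prod_of {A B : Type} [MeasurableSpace A] [MeasurableSpace B] {μ : Measure A}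
    {ν : Measure B} [SFinite ν] {P : A × B → Prop} (hP : MeasurableSet {p | P p})
    (h : ∀ a, ∀ᵐ b ∂ν, P (a, b)) : ∀ᵐ p ∂μ.prod ν, P p := by
  have hP' : MeasurableSet {p | ¬ P p} := hP.compl
  rw [ae_iff, Measure.measure_prod_null hP']
  refine Eventually.of_forall fun a => ?_
  exact ae_iff.1 (h a)

theorem meas_path (hΦ : AdmissiblePotential Φ) (hε : 0 < ε) (w : Config n) {δ : Type}
    [MeasurableSpace δ] {l : δ → ML} {t : δ → ℝ} (hl : Measurable l) (ht : Measurable t)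
    (i : Fin n ⊕ Unit) :
    Measurable fun a : δ => (((MW.cfg w).ins (l a)).path Φ ε (t a) i).1 := by
  have h1 : Measurable fun a : δ => ((MW.cfg w).ins (l a)).path Φ ε (t a) :=
    measurable_path_ins (w := fun _ : δ => w) (l := l) (t := t) hΦ hε measurable_const hl ht
  exact (measurable_pi_iff.1 h1 i).fst

theorem ae_pair_ne_one (hΦ : AdmissiblePotential Φ) (hε : 0 < ε) (w : Config n)
    (i : Fin n ⊕ Unit) : ∀ᵐ p ∂(lineM γ ρ K T).prod (lineM γ ρ K T),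
      (((MW.cfg w).ins p.1).path Φ ε p.2.1.1 i).1 ≠ p.2.1.2.1 := by
  have ht : Measurable fun p : ML × ML => p.2.1.1 := by fun_prop
  have hs : Measurable fun p : ML × ML => p.2.1.2.1 := by fun_prop
  have hm : Measurable fun p : ML × ML => (((MW.cfg w).ins p.1).path Φ ε p.2.1.1 i).1 :=
    meas_path hΦ hε w measurable_fst ht i
  have hP : MeasurableSet {p : ML × ML |
      (((MW.cfg w).ins p.1).path Φ ε p.2.1.1 i).1 ≠ p.2.1.2.1} :=
    (measurableSet_eq_fun hm hs).compl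
  exact ae_prod_of (P := fun p : ML × ML =>
    (((MW.cfg w).ins p.1).path Φ ε p.2.1.1 i).1 ≠ p.2.1.2.1) hP fun d =>
      ae_ne (q := fun τ => (((MW.cfg w).ins d).path Φ ε τ i).1)
        (meas_path hΦ hε w measurable_const measurable_id i)

/-- The second line is not born on a particle of `w + d`. -/
theorem ae_pair_ne (hΦ : AdmissiblePotential Φ) (hε : 0 < ε) (w : Config n) :
    ∀ᵐ p ∂(lineM γ ρ K T).prod (lineM γ ρ K T),
      ∀ i, (((MW.cfg w).ins p.1).path Φ ε p.2.1.1 i).1 ≠ p.2.1.2.1 :=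
  ae_all_iff.2 fun i => ae_pair_ne_one hΦ hε w i

/-- **Good worlds**: for every admissible gas and almost all pairs of lines. -/
theorem ae_ok (hΦ : AdmissiblePotential Φ) (hε : 0 < ε) (hw : w ∈ PairExcluded ε n) :
    ∀ᵐ p ∂(lineM γ ρ K T).prod (lineM γ ρ K T),
      (0 < p.1.1.1 ∧ p.1.1.1 ≤ T) ∧ (0 < p.2.1.1 ∧ p.2.1.1 ≤ T) ∧ ((MW.cfg w).ins p.1).Ok Φ ε ∧
        ((MW.cfg w).ins p.2).Ok Φ ε ∧ (((MW.cfg w).ins p.1).ins p.2).Ok Φ ε := by
  have h0 := Unw410.ae_lineM hΦ hε w γ ρ K T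
  have h1 : ∀ᵐ p ∂(lineM γ ρ K T).prod (lineM γ ρ K T), ((0 < p.1.1.1 ∧ p.1.1.1 ≤ T) ∧
      ∀ i, (Flow671.flow Φ ε p.1.1.1 w i).1 ≠ p.1.1.2.1) ∧ 1 ≤ p.1.2 ∧ p.1.2 ≤ K :=
    Measure.quasiMeasurePreserving_fst.ae h0
  have h2 : ∀ᵐ p ∂(lineM γ ρ K T).prod (lineM γ ρ K T), ((0 < p.2.1.1 ∧ p.2.1.1 ≤ T) ∧
      ∀ i, (Flow671.flow Φ ε p.2.1.1 w i).1 ≠ p.2.1.2.1) ∧ 1 ≤ p.2.2 ∧ p.2.2 ≤ K :=
    Measure.quasiMeasurePreserving_snd.ae h0
  have h3 := ae_pair_ne (γ := γ) (ρ := ρ) (K := K) (T := T) hΦ hε w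
  have h4 : ∀ᵐ p ∂(lineM γ ρ K T).prod (lineM γ ρ K T),
      ∀ i, (((MW.cfg w).ins p.2).path Φ ε p.1.1.1 i).1 ≠ p.1.1.2.1 :=
    (Measure.measurePreserving_swap (μ := lineM γ ρ K T)
      (ν := lineM γ ρ K T)).quasiMeasurePreserving.ae h3
  have h5 : ∀ᵐ p ∂(lineM γ ρ K T).prod (lineM γ ρ K T), p.1.1.1 ≠ p.2.1.1 := by
    have hs1 : Measurable fun p : ML × ML => p.1.1.1 := by fun_prop
    have hs2 : Measurable fun p : ML × ML => p.2.1.1 := by fun_prop
    have hP : MeasurableSet {p : ML × ML | p.1.1.1 ≠ p.2.1.1} :=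
      (measurableSet_eq_fun hs1 hs2).compl
    refine ae_prod_of (P := fun p : ML × ML => p.1.1.1 ≠ p.2.1.1) hP fun d => ?_
    filter_upwards [ae_time_ne (γ := γ) (ρ := ρ) (K := K) (T := T) d.1.1] with x hx h
    exact hx h.symm
  filter_upwards [h1, h2, h3, h4, h5] with p g1 g2 g3 g4 g5
  have hpath : ∀ (t : ℝ), (MW.cfg w).path Φ ε t = Flow671.flow Φ ε t w := fun t => by
    rw [EBasic602.cfg_path hΦ hε w]
    rfl
  have e1 : ∀ i, ((MW.cfg w).path Φ ε p.1.1.1 i).1 ≠ p.1.1.2.1 := fun i => by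
    rw [hpath]
    exact g1.1.2 i
  have e2 : ∀ i, ((MW.cfg w).path Φ ε p.2.1.1 i).1 ≠ p.2.1.2.1 := fun i => by
    rw [hpath]
    exact g2.1.2 i
  refine ⟨g1.1.1, g2.1.1, (ok_one hΦ hε hw g1.1.1.1 e1).1, (ok_one hΦ hε hw g2.1.1.1 e2).1, ?_⟩
  rcases le_total p.1.1.1 p.2.1.1 with h | h
  · exact ok_two hΦ hε hw g1.1.1.1 h e1 e2 (fun _ => g3) fun h' => absurd h' g5
  · have h6 : (((MW.cfg w).ins p.2).ins p.1).Ok Φ ε :=
      ok_two hΦ hε hw g2.1.1.1 h e2 e1 (fun _ => g4) fun h' => absurd h'.symm g5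
    have h7 : (((MW.cfg w).ins p.1).ins p.2) =
        (((MW.cfg w).ins p.2).ins p.1).comap (exch (Fin n)) := by
      unfold MW.ins MW.add MW.comap
      congr 1 <;> funext x <;> rcases x with (i | y) | y <;> rfl
    rw [h7]
    exact MWFam255.Ok.relabel hΦ hε h6 _

/-- The same, line by line. -/
theorem ae_ae_ok (hΦ : AdmissiblePotential Φ) (hε : 0 < ε) (hw : w ∈ PairExcluded ε n) :
    ∀ᵐ d ∂lineM γ ρ K T, ∀ᵐ x ∂lineM γ ρ K T,
      (0 < d.1.1 ∧ d.1.1 ≤ T) ∧ (0 < x.1.1 ∧ x.1.1 ≤ T) ∧ ((MW.cfg w).ins d).Ok Φ ε ∧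
        ((MW.cfg w).ins x).Ok Φ ε ∧ (((MW.cfg w).ins d).ins x).Ok Φ ε :=
  Measure.ae_ae_of_ae_prod (ae_ok hΦ hε hw)

end Crest.Agent.R122.OkPair522

end
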