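import Crest.Agent.R122.LNLL_522
import Crest.Agent.R122.OkPair_522
import Crest.Agent.R122.ErrBBind_823

/-!
# Row 122 (helper522): helper823's `ErrBAlt`, and `errB` is null

* `errBAlt` : `ErrB823.ErrBAlt Φ T T₁ Q K K` for `Q.te ≤ T < T₁`.
* `errBFam` : `ErrB823.ErrBFam Φ f₀ Q K`.
* `null_errB` : `errB` is null for the data of the theorem.
-/

set_option autoImplicit false
set_option linter.unusedSectionVars false
set_option maxHeartbeats 400000

open MeasureTheory Set Filter Topology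
open scoped ENNReal
open Crest.AnalysisR.Kinetic
open Crest.Agent.R122.Ins45 Crest.Agent.R122.EDefs602 Crest.Agent.R122.Decomp811
open Crest.Agent.R122.GC311 Crest.Agent.R122.X692 Crest.Agent.R122.Gate973

noncomputable section

namespace Crest.Agent.R122.ErrBAlt522

variable {Φ : Space3 → ℝ}

theorem meet_mono {ε R t T : ℝ} (htT : t ≤ T) {l l' : ℝ × PhasePoint}
    (h : ErrB823.Meet ε R t l l') : ErrB823.Meet ε R T l l' := by
  obtain ⟨s, hs, h⟩ := h
  exact ⟨s, ⟨hs.1, hs.2.trans htT⟩, h⟩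

/-- **The deterministic statement of `errB`.** -/
theorem errBAlt (hΦ : AdmissiblePotential Φ) {T T₁ : ℝ} {Q : EPar} (hte : Q.te ≤ T) (hT₁ : T < T₁)
    (K : ℕ) : ErrB823.ErrBAlt Φ T T₁ Q K K := by
  intro L
  refine ⟨1 + 2 * K * (L + 2) + 1 + (1 + 2 * K * (L + 2) + 1), 1, fun R hR ς hς => ?_⟩
  refine ⟨1, ς / (2 * R), one_pos, by positivity, fun ε hε hlt n w hw => ?_⟩
  have hς' : 2 * (R * ε) ≤ ς := by
    rw [lt_div_iff₀ (by positivity)] at hlt
    nlinarith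
  filter_upwards [OkPair522.ae_ae_ok (γ := Q.γ) (ρ := Q.ρ) (K := K) (T := Q.te) hΦ hε hw] with d hd
  filter_upwards [hd] with x hx _ _ hE
  obtain ⟨hd0, hx0, hok1, hok2, hok3⟩ := hx
  have ht : 0 < Q.te := hd0.1.trans_le hd0.2
  have hN1 : 1 + 2 * K * (L + 2) ≤ 1 + 2 * K * (L + 2) + 1 + (1 + 2 * K * (L + 2) + 1) := by omega
  rcases LNLL522.det_ll (T := T) (T₁ := T₁) (c := 1) (R := R) (ς := ς) hΦ hε ht hte hT₁ le_rfl hς'
    hw hd0.1.le hx0.1.le hok1 hok2 hok3 hN1 le_rfl hE with h | h | h | h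
  · exact Or.inl h
  · exact Or.inr (Or.inl h)
  · exact Or.inr (Or.inr (Or.inl (meet_mono hte h)))
  · exact Or.inr (Or.inr (Or.inr h))

/-- **The family gate of `errB`.** -/
theorem errBFam {f₀ : PhasePoint → ℝ} {β T g : ℝ} {Q : EPar}
    (h : TL311.Ctx Φ f₀ β T Q.te g Q.γ Q.ρ) (hT : 0 < T) (K : ℕ) : ErrB823.ErrBFam Φ f₀ Q K :=
  ErrB823.errBFam_of_alt (T₁ := T + 1) h (Gate973.classNull h.adm hT)
    (by linarith [h.T_nonneg]) (errBAlt h.adm h.te_le (by linarith) K)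

/-- **`errB` is null for the data of the theorem.** -/
theorem null_errB {f₀ : PhasePoint → ℝ} {β T : ℝ} {f : ℝ → PhasePoint → ℝ}
    (hD : Master566.KData Φ β T f₀ f) {g1 : ℝ} {r1 : ℝ≥0∞} {γ : ℝ → ℝ} {ρ : ℝ≥0∞}
    (hl : Top602.LinePar g1 r1 T γ ρ) {L tw te h : ℝ} (hw : Top602.Win h T tw te) :
    Null fun K ε => H5994.errB Φ f₀ ε K (Top602.epar γ ρ L tw te) := by
  refine ErrB823.null_errB_of_alt (T₁ := T + 1) hD hl hw (by linarith [hD.T_pos]) fun K =>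
    ⟨K, errBAlt hD.adm ?_ (by linarith) K⟩
  exact hw.le_T

end Crest.Agent.R122.ErrBAlt522

end
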