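import Crest.Agent.R122.TouchFlux2_494
import Crest.Agent.R122.LinkGate_424
import Crest.Agent.R122.Conc_984
import Crest.Agent.R122.BoltzGauss_814
import Crest.Agent.R122.Direct6b_658

/-!
# Row 122 (helper823): the gate of `ErrB`, a base line `d` and a test line `x`, both not localised

`d, x ~ lineM γ ρ K te`, the gas is `w`. The base line is touched, hence near the gas (`nearN` of
helper494).

* `near_mass` : `∫ nearN (w, d) (1 + |v_d|)^k dlineM ≤ C Y(w)`.
* `Meet`, `meet_mass` : `lineM {x | x meets d} ≤ C ε² (1 + |v_d|)`.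
* `errB_gate` : if, for a touched `d`, the event `E` implies a `d`-only alternative `S`, an `x`-only
  alternative `Sx`, a direct meeting, or an alternative `E'` of both lines (connected through the
  gas), all null, then `gcE ∫_d 1[touched] min 1 (c lineM {x | E}) → 0`.
-/

set_option autoImplicit false
set_option linter.unusedSectionVars false

open MeasureTheory Set Filter Topology
open scoped ENNReal
open Crest.AnalysisR.Kinetic
open Crest.Agent.R122.GC311 Crest.Agent.R122.EDefs602 Crest.Agent.R122.EBasic602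
open Crest.Agent.R122.Loc45 Crest.Agent.R122.Sweep815 Crest.Agent.R122.TouchFlux494
open Crest.Agent.R122.Boost969 (LSt posAt)
open Crest.Agent.R122.Pair292 (shL)
open Crest.Agent.R122.Gate424

noncomputable section

namespace Crest.Agent.R122.ErrB823

variable {Φ : Space3 → ℝ} {f₀ : PhasePoint → ℝ} {ε R te T : ℝ} {γ : ℝ → ℝ} {ρm : ℝ≥0∞} {K : ℕ}
  {g0 : ℝ}

/-- Gaussian moment. -/
def mk (g0 : ℝ) (k : ℕ) : ℝ≥0∞ := ∫⁻ v : Space3, Kin796.wG g0 v * ENNReal.ofReal (1 + ‖v‖) ^ k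

theorem mk_ne_top (hg : 0 < g0) (k : ℕ) : mk g0 k ≠ ∞ := by
  have h1 := (Boltz814.integrable_one_add_pow_mul_gauss hg k).lintegral_lt_top
  refine ne_of_lt (lt_of_eq_of_lt (lintegral_congr fun v => ?_) h1)
  unfold Kin796.wG
  rw [← ENNReal.ofReal_pow (by positivity), ← ENNReal.ofReal_mul (Real.exp_pos _).le, mul_comm,
    neg_mul]

/-- Mass of the marks. -/
def mS (ρm : ℝ≥0∞) (K : ℕ) : ℝ≥0∞ := ∑' n : ℕ, markW ρm K n

theorem mS_ne_top (hρ : ρm ≠ ∞) (K : ℕ) : mS ρm K ≠ ∞ := LinkM547.tsum_markW_ne_top hρ K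

/-- Integral of a function of the line with bounded averages over the positions. -/
theorem lineM_int_le (hγ : Measurable γ) (hγ₀ : ∀ τ ∈ Ioc (0 : ℝ) te, g0 ≤ γ τ)
    {G : LSt → ℝ≥0∞} (hG : Measurable G) {D : ℝ≥0∞} {k : ℕ}
    (h : ∀ τ ∈ Ioc (0 : ℝ) te, ∀ v : Space3, ∫⁻ y : Space3, G (τ, (y, v)) ≤
      D * ENNReal.ofReal (1 + ‖v‖) ^ k) :
    ∫⁻ l : ML, G l.1 ∂lineM γ ρm K te ≤ ENNReal.ofReal te * (mS ρm K * (mk g0 k * D)) := by
  have hG1 : Measurable fun l : ML => G l.1 := hG.comp measurable_fst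
  rw [EBasic602.lintegral_lineM hγ hG1]
  have h1 : ∀ τ ∈ Ioc (0 : ℝ) te, ∫⁻ v : Space3, Kin796.wG (γ τ) v *
      ∫⁻ y : Space3, ∑' n : ℕ, markW ρm K n * G (τ, (y, v)) ≤ mS ρm K * (mk g0 k * D) := by
    intro τ hτ
    have hmw : Measurable fun v : Space3 => Kin796.wG g0 v * ENNReal.ofReal (1 + ‖v‖) ^ k := by
      unfold Kin796.wG
      fun_prop
    calc ∫⁻ v : Space3, Kin796.wG (γ τ) v *
          ∫⁻ y : Space3, ∑' n : ℕ, markW ρm K n * G (τ, (y, v))
        ≤ ∫⁻ v : Space3, mS ρm K * D * (Kin796.wG g0 v * ENNReal.ofReal (1 + ‖v‖) ^ k) := by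
          refine lintegral_mono fun v => ?_
          have e1 : ∫⁻ y : Space3, ∑' n : ℕ, markW ρm K n * G (τ, (y, v)) =
              mS ρm K * ∫⁻ y : Space3, G (τ, (y, v)) := by
            have hG2 : Measurable fun y : Space3 => G (τ, (y, v)) := hG.comp (by fun_prop)
            unfold mS
            rw [← lintegral_const_mul _ hG2]
            exact lintegral_congr fun y => ENNReal.tsum_mul_right
          rw [e1]
          calc Kin796.wG (γ τ) v * (mS ρm K * ∫⁻ y : Space3, G (τ, (y, v)))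
              ≤ Kin796.wG g0 v * (mS ρm K * (D * ENNReal.ofReal (1 + ‖v‖) ^ k)) :=
                mul_le_mul' (Kin796.wG_anti (hγ₀ τ hτ) v) (mul_le_mul_right (h τ hτ v) _)
            _ = _ := by ring
      _ = mS ρm K * (mk g0 k * D) := by
          rw [lintegral_const_mul _ hmw]
          unfold mk
          ring
  calc ∫⁻ τ in Ioc (0 : ℝ) te, ∫⁻ v : Space3, Kin796.wG (γ τ) v *
        ∫⁻ y : Space3, ∑' n : ℕ, markW ρm K n * G (τ, (y, v))
      ≤ ∫⁻ _τ in Ioc (0 : ℝ) te, mS ρm K * (mk g0 k * D) :=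
        setLIntegral_mono measurable_const h1
    _ = _ := by
        rw [setLIntegral_const, Real.volume_Ioc, sub_zero]
        ring

theorem shL_zero (a : Space3) (τ : ℝ) (v : Space3) : shL a (τ, ((0 : Space3), v)) = (τ, (a, v)) := by
  unfold shL
  simp

/-! ## Touched lines -/

/-- Constant of `near_mass`. -/
def cNear (Φ : Space3 → ℝ) (R te : ℝ) (ρm : ℝ≥0∞) (K : ℕ) (g0 : ℝ) (k : ℕ) : ℝ≥0∞ :=
  ENNReal.ofReal te * (mS ρm K * (mk g0 (k + 1) * (8 * ENNReal.ofReal R ^ 2 * c3 *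
    (ENNReal.ofReal R + ENNReal.ofReal te * (2 * ENNReal.ofReal (1 + 2 * stabB Φ))))))

theorem cNear_ne_top (hg : 0 < g0) (hρ : ρm ≠ ∞) (k : ℕ) : cNear Φ R te ρm K g0 k ≠ ∞ := by
  have hc3 : c3 ≠ ∞ := by
    unfold c3
    exact ENNReal.ofReal_ne_top
  unfold cNear
  refine ENNReal.mul_ne_top ENNReal.ofReal_ne_top (ENNReal.mul_ne_top (mS_ne_top hρ K)
    (ENNReal.mul_ne_top (mk_ne_top hg _) (ENNReal.mul_ne_top (ENNReal.mul_ne_top
      (ENNReal.mul_ne_top (by norm_num) (ENNReal.pow_ne_top ENNReal.ofReal_ne_top)) hc3)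
      (ENNReal.add_ne_top.2 ⟨ENNReal.ofReal_ne_top, ENNReal.mul_ne_top ENNReal.ofReal_ne_top
        (ENNReal.mul_ne_top (by norm_num) ENNReal.ofReal_ne_top)⟩))))

/-- **Mass of the lines near the gas.** -/
theorem near_mass (hΦ : AdmissiblePotential Φ) (hε : 0 < ε) (hε1 : ε ≤ 1) (hR : 0 < R)
    (hγ : Measurable γ) (hγ₀ : ∀ τ ∈ Ioc (0 : ℝ) te, g0 ≤ γ τ) (k : ℕ) {n : ℕ} {w : Config n}
    (hw : w ∈ PairExcluded ε n) :
    ∫⁻ d : ML, nearN Φ ε R te n (w, d.1) * ENNReal.ofReal (1 + ‖d.1.2.2‖) ^ k ∂lineM γ ρm K te ≤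
      cNear Φ R te ρm K g0 k * Conc984.Y ε Conc984.en n w := by
  set D : ℝ≥0∞ := 8 * ENNReal.ofReal R ^ 2 * c3 *
    (ENNReal.ofReal R + ENNReal.ofReal te * (2 * ENNReal.ofReal (1 + 2 * stabB Φ))) with hD
  have hG : Measurable fun l : LSt => nearN Φ ε R te n (w, l) * ENNReal.ofReal (1 + ‖l.2.2‖) ^ k := by
    refine Measurable.mul ((measurable_nearN hΦ hε R te n).comp (by fun_prop)) ?_
    fun_prop
  have h := lineM_int_le (ρm := ρm) (K := K) hγ hγ₀ hG (D := D * Conc984.Y ε Conc984.en n w)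
    (k := k + 1) (fun τ hτ v => ?_)
  · refine h.trans (le_of_eq ?_)
    unfold cNear
    rw [← hD]
    ring
  · have h2 := lintegral_nearN_le (R := R) hΦ hε hR hw (τ, ((0 : Space3), v)) te
    simp only [shL_zero] at h2
    have h3 : ∫⁻ y : Space3, nearN Φ ε R te n (w, (τ, (y, v))) * ENNReal.ofReal (1 + ‖v‖) ^ k =
        (∫⁻ y : Space3, nearN Φ ε R te n (w, (τ, (y, v)))) * ENNReal.ofReal (1 + ‖v‖) ^ k :=
      lintegral_mul_const' _ _ (ENNReal.pow_ne_top ENNReal.ofReal_ne_top)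
    rw [h3]
    have hv1 : (1 : ℝ≥0∞) ≤ ENNReal.ofReal (1 + ‖v‖) := by
      rw [← ENNReal.ofReal_one]
      exact ENNReal.ofReal_le_ofReal (by linarith [norm_nonneg v])
    have hkin : ENNReal.ofReal ε ^ 2 * kin n w = Conc984.Y ε Conc984.en n w := by
      have h5 : ENNReal.ofReal ε ^ 2 = (activity ε)⁻¹ := by
        rw [← ENNReal.ofReal_pow hε.le]
        exact ENNReal.eq_inv_of_mul_eq_one_left (ofReal_sq_mul_activity hε)
      rw [h5]
      rfl
    have h4 : 8 * ENNReal.ofReal (R * ε) ^ 2 * c3 * (ENNReal.ofReal (R * ε) +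
        ENNReal.ofReal (te - τ) * (ENNReal.ofReal (1 + ‖v‖) *
          (2 * ENNReal.ofReal (1 + 2 * stabB Φ)))) * kin n w ≤
        D * ENNReal.ofReal (1 + ‖v‖) * Conc984.Y ε Conc984.en n w := by
      have e1 : ENNReal.ofReal (R * ε) = ENNReal.ofReal R * ENNReal.ofReal ε :=
        ENNReal.ofReal_mul hR.le
      have e2 : ENNReal.ofReal (R * ε) ≤ ENNReal.ofReal R * ENNReal.ofReal (1 + ‖v‖) := by
        rw [e1]
        refine mul_le_mul_right ?_ _
        refine le_trans ?_ hv1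
        rw [← ENNReal.ofReal_one]
        exact ENNReal.ofReal_le_ofReal hε1
      have e3 : ENNReal.ofReal (te - τ) ≤ ENNReal.ofReal te :=
        ENNReal.ofReal_le_ofReal (by linarith [hτ.1])
      calc 8 * ENNReal.ofReal (R * ε) ^ 2 * c3 * (ENNReal.ofReal (R * ε) +
            ENNReal.ofReal (te - τ) * (ENNReal.ofReal (1 + ‖v‖) *
              (2 * ENNReal.ofReal (1 + 2 * stabB Φ)))) * kin n w
          ≤ 8 * ENNReal.ofReal (R * ε) ^ 2 * c3 * (ENNReal.ofReal R * ENNReal.ofReal (1 + ‖v‖) +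
            ENNReal.ofReal te * (ENNReal.ofReal (1 + ‖v‖) *
              (2 * ENNReal.ofReal (1 + 2 * stabB Φ)))) * kin n w :=
            mul_le_mul_left (mul_le_mul_right (add_le_add e2 (mul_le_mul_left e3 _)) _) _
        _ = D * ENNReal.ofReal (1 + ‖v‖) * (ENNReal.ofReal ε ^ 2 * kin n w) := by
            rw [e1, hD]
            ring
        _ = _ := by rw [hkin]
    calc (∫⁻ y : Space3, nearN Φ ε R te n (w, (τ, (y, v)))) * ENNReal.ofReal (1 + ‖v‖) ^ k
        ≤ D * ENNReal.ofReal (1 + ‖v‖) * Conc984.Y ε Conc984.en n w *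
          ENNReal.ofReal (1 + ‖v‖) ^ k := mul_le_mul_left (h2.trans h4) _
      _ = D * Conc984.Y ε Conc984.en n w * ENNReal.ofReal (1 + ‖v‖) ^ (k + 1) := by
          rw [pow_succ]
          ring

/-! ## Direct meeting of two lines -/

/-- The two free lines come within `R ε` during `[0, T]`. -/
def Meet (ε R T : ℝ) (d x : LSt) : Prop := ∃ s ∈ Icc (0 : ℝ) T, dist (posAt s x) (posAt s d) ≤ R * ε

theorem measurableSet_meet (ε R T : ℝ) : MeasurableSet {p : LSt × LSt | Meet ε R T p.1 p.2} := by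
  refine Causal291.measurableSet_exists_Icc (α := fun _ : LSt × LSt => (0 : ℝ)) (β := fun _ => T)
    measurable_const measurable_const
    (g := fun q s => dist (posAt s q.2) (posAt s q.1)) (fun q => ?_) (fun s => ?_) (R * ε)
  · unfold posAt
    fun_prop
  · unfold posAt
    fun_prop

/-- Constant of `meet_mass`. -/
def cMeet (R te T : ℝ) (ρm : ℝ≥0∞) (K : ℕ) (g0 : ℝ) : ℝ≥0∞ :=
  ENNReal.ofReal te * (mS ρm K * (mk g0 1 * (8 * ENNReal.ofReal R ^ 2 * c3 *
    (ENNReal.ofReal R + ENNReal.ofReal T))))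

theorem cMeet_ne_top (hg : 0 < g0) (hρ : ρm ≠ ∞) : cMeet R te T ρm K g0 ≠ ∞ := by
  have hc3 : c3 ≠ ∞ := by
    unfold c3
    exact ENNReal.ofReal_ne_top
  unfold cMeet
  exact ENNReal.mul_ne_top ENNReal.ofReal_ne_top (ENNReal.mul_ne_top (mS_ne_top hρ K)
    (ENNReal.mul_ne_top (mk_ne_top hg _) (ENNReal.mul_ne_top (ENNReal.mul_ne_top
      (ENNReal.mul_ne_top (by norm_num) (ENNReal.pow_ne_top ENNReal.ofReal_ne_top)) hc3)
      (ENNReal.add_ne_top.2 ⟨ENNReal.ofReal_ne_top, ENNReal.ofReal_ne_top⟩))))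

/-- **Mass of the lines which meet a given line.** -/
theorem meet_mass (hε : 0 < ε) (hε1 : ε ≤ 1) (hR : 0 < R) (hT : 0 ≤ T) (hγ : Measurable γ)
    (hγ₀ : ∀ τ ∈ Ioc (0 : ℝ) te, g0 ≤ γ τ) (d : LSt) :
    lineM γ ρm K te {x : ML | Meet ε R T d x.1} ≤
      cMeet R te T ρm K g0 * ENNReal.ofReal ε ^ 2 * ENNReal.ofReal (1 + ‖d.2.2‖) := by
  have hm : MeasurableSet {x : LSt | Meet ε R T d x} := by
    have h1 : Measurable fun x : LSt => (d, x) := by fun_prop
    exact h1 (measurableSet_meet ε R T)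
  have hG : Measurable ({x : LSt | Meet ε R T d x}.indicator (1 : LSt → ℝ≥0∞)) :=
    measurable_one.indicator hm
  have e0 : lineM γ ρm K te {x : ML | Meet ε R T d x.1} =
      ∫⁻ l : ML, {x : LSt | Meet ε R T d x}.indicator (1 : LSt → ℝ≥0∞) l.1 ∂lineM γ ρm K te := by
    have hm' : MeasurableSet {x : ML | Meet ε R T d x.1} := measurable_fst hm
    rw [← lintegral_indicator_one hm']
    rfl
  rw [e0]
  set D : ℝ≥0∞ := 8 * ENNReal.ofReal R ^ 2 * c3 * (ENNReal.ofReal R + ENNReal.ofReal T) with hD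
  have h := lineM_int_le (ρm := ρm) (K := K) hγ hγ₀ hG
    (D := D * ENNReal.ofReal ε ^ 2 * ENNReal.ofReal (1 + ‖d.2.2‖)) (k := 1) (fun τ hτ v => ?_)
  · refine h.trans (le_of_eq ?_)
    unfold cMeet
    rw [← hD]
    ring
  · have hr : 0 < R * ε := mul_pos hR hε
    have hr0 : ENNReal.ofReal (R * ε) ≠ 0 := (ENNReal.ofReal_pos.2 hr).ne'
    have hrt : ENNReal.ofReal (R * ε) ≠ ∞ := ENNReal.ofReal_ne_top
    have h2 := volume_translate_le (a := 0) (b := T) hr
      (γ := fun s => (s - τ) • v) (y := fun s => posAt s d)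
      (γ' := fun _ => v) (y' := fun _ => d.2.2)
      (fun s _ => by
        have h1 : HasDerivAt (fun s : ℝ => (s - τ) • v) ((1 : ℝ) • v) s :=
          ((hasDerivAt_id s).sub_const τ).smul_const v
        rwa [one_smul] at h1)
      (fun s _ => by
        have h1 : HasDerivAt (fun s : ℝ => (s - d.1) • d.2.2) ((1 : ℝ) • d.2.2) s :=
          ((hasDerivAt_id s).sub_const d.1).smul_const d.2.2
        rw [one_smul] at h1
        exact h1.const_add d.2.1)
      continuous_const continuous_const (by fun_prop) (by unfold posAt; fun_prop)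
    have h3 : ∫⁻ y : Space3, {x : LSt | Meet ε R T d x}.indicator (1 : LSt → ℝ≥0∞) (τ, (y, v)) =
        volume {y : Space3 | ∃ s ∈ Icc (0 : ℝ) T, dist (y + (s - τ) • v) (posAt s d) ≤ R * ε} := by
      have hm2 : MeasurableSet {y : Space3 | ∃ s ∈ Icc (0 : ℝ) T,
          dist (y + (s - τ) • v) (posAt s d) ≤ R * ε} := by
        have h1 : Measurable fun y : Space3 => ((τ, (y, v)) : LSt) := by fun_prop
        exact h1 hm
      rw [← lintegral_indicator_one hm2]
      rfl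
    rw [h3]
    refine h2.trans ?_
    have h4 : ∫⁻ _u in Icc (0 : ℝ) T, ENNReal.ofReal ‖v - d.2.2‖ ≤
        ENNReal.ofReal T * (ENNReal.ofReal (1 + ‖v‖) * ENNReal.ofReal (1 + ‖d.2.2‖)) := by
      rw [setLIntegral_const, Real.volume_Icc, sub_zero, mul_comm,
        ← ENNReal.ofReal_mul (by positivity : (0 : ℝ) ≤ 1 + ‖v‖)]
      refine mul_le_mul_right (ENNReal.ofReal_le_ofReal ?_) _
      have h5 := norm_sub_le v d.2.2
      nlinarith [norm_nonneg v, norm_nonneg d.2.2, mul_nonneg (norm_nonneg v) (norm_nonneg d.2.2)]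
    have hv1 : (1 : ℝ≥0∞) ≤ ENNReal.ofReal (1 + ‖v‖) * ENNReal.ofReal (1 + ‖d.2.2‖) := by
      rw [← ENNReal.ofReal_mul (by positivity), ← ENNReal.ofReal_one]
      refine ENNReal.ofReal_le_ofReal ?_
      nlinarith [norm_nonneg v, norm_nonneg d.2.2, mul_nonneg (norm_nonneg v) (norm_nonneg d.2.2)]
    have e1 : ENNReal.ofReal (R * ε) = ENNReal.ofReal R * ENNReal.ofReal ε :=
      ENNReal.ofReal_mul hR.le
    have hε1' : ENNReal.ofReal ε ≤ 1 := by
      rw [← ENNReal.ofReal_one]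
      exact ENNReal.ofReal_le_ofReal hε1
    have e2 : ENNReal.ofReal (2 * (R * ε)) ^ 3 * c3 =
        8 * ENNReal.ofReal (R * ε) ^ 2 * c3 * ENNReal.ofReal (R * ε) := by
      rw [ENNReal.ofReal_mul (by norm_num : (0 : ℝ) ≤ 2), mul_pow, ENNReal.ofReal_ofNat]
      ring
    have e3 : (ENNReal.ofReal (R * ε))⁻¹ * (ENNReal.ofReal (2 * (R * ε)) ^ 3 * c3) =
        8 * ENNReal.ofReal (R * ε) ^ 2 * c3 := by
      rw [e2, mul_comm _ (ENNReal.ofReal (R * ε)), ← mul_assoc, ENNReal.inv_mul_cancel hr0 hrt,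
        one_mul]
    rw [e3, e2]
    calc 8 * ENNReal.ofReal (R * ε) ^ 2 * c3 * ENNReal.ofReal (R * ε) +
          8 * ENNReal.ofReal (R * ε) ^ 2 * c3 * ∫⁻ _u in Icc (0 : ℝ) T, ENNReal.ofReal ‖v - d.2.2‖
        ≤ 8 * ENNReal.ofReal (R * ε) ^ 2 * c3 * (ENNReal.ofReal R *
            (ENNReal.ofReal (1 + ‖v‖) * ENNReal.ofReal (1 + ‖d.2.2‖))) +
          8 * ENNReal.ofReal (R * ε) ^ 2 * c3 * (ENNReal.ofReal T *
            (ENNReal.ofReal (1 + ‖v‖) * ENNReal.ofReal (1 + ‖d.2.2‖))) := by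
          refine add_le_add (mul_le_mul_right ?_ _) (mul_le_mul_right h4 _)
          rw [e1]
          exact mul_le_mul_right (hε1'.trans hv1) _
      _ = D * ENNReal.ofReal ε ^ 2 * ENNReal.ofReal (1 + ‖d.2.2‖) *
            ENNReal.ofReal (1 + ‖v‖) ^ 1 := by
          rw [e1, hD]
          ring

/-! ## The gate -/

theorem min_one_mul_add_le (c a b e : ℝ≥0∞) :
    min 1 (c * (a + b + e)) ≤ (1 + c) * min 1 a + c * b + c * e := by
  rcases le_total a 1 with h | h
  · rw [min_eq_right h]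
    refine (min_le_right _ _).trans ?_
    rw [mul_add, mul_add]
    exact add_le_add (add_le_add (mul_le_mul_left le_add_self _) le_rfl) le_rfl
  · rw [min_eq_left h]
    refine (min_le_left _ _).trans ?_
    rw [mul_one]
    exact le_self_add.trans (le_self_add.trans le_self_add)

/-- **The gate at fixed `ε`.** -/
theorem errB_le (hΦ : AdmissiblePotential Φ) (hf : Measurable f₀)
    (h1 : ∫⁻ z, ENNReal.ofReal (f₀ z) ≤ 1) (hmean : Conc984.mean f₀ Conc984.en ≠ ∞) (hε : 0 < ε)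
    (hε1 : ε ≤ 1) (hR : 0 < R) {R' : ℝ} (hR' : 0 < R') (hT : 0 ≤ T) (hγ : Measurable γ)
    (hγ₀ : ∀ τ ∈ Ioc (0 : ℝ) te, g0 ≤ γ τ) (hg : 0 < g0) (hρ : ρm ≠ ∞) {c : ℝ≥0∞} (hc : c ≠ ∞)
    {Tch : (n : ℕ) → ML → Config n → Prop} {E : (n : ℕ) → ML → ML → Config n → Prop}
    {GS GX : (n : ℕ) → ML × Config n → ℝ≥0∞} {GE : (n : ℕ) → (ML × ML) × Config n → ℝ≥0∞}
    (hGS : ∀ n, Measurable (GS n)) (hGX : ∀ n, Measurable (GX n)) (hGE : ∀ n, Measurable (GE n))
    (hdet : ∀ n, ∀ w ∈ PairExcluded ε n, ∀ᵐ d ∂lineM γ ρm K te, Tch n d w →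
      1 ≤ GS n (d, w) ∨ (Near Φ ε R te w d.1 ∧ ∀ᵐ x ∂lineM γ ρm K te, E n d x w →
        1 ≤ GX n (x, w) ∨ Meet ε R' T d.1 x.1 ∨ 1 ≤ GE n ((d, x), w))) :
    gcE f₀ ε (fun n w => ∫⁻ d, (open Classical in if Tch n d w then
        min 1 (c * lineM γ ρm K te {x | E n d x w}) else 0) ∂lineM γ ρm K te) ≤
      (∫⁻ d, gcE f₀ ε (fun n w => GS n (d, w)) ∂lineM γ ρm K te) +
      (1 + c) * (cNear Φ R te ρm K g0 0 * (Conc984.mean f₀ Conc984.en *
        (∫⁻ x, gcE f₀ ε (fun n w => GX n (x, w)) ∂lineM γ ρm K te) +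
          gcE f₀ ε (Conc984.exc f₀ ε Conc984.en))) +
      c * cMeet R' te T ρm K g0 * ENNReal.ofReal ε ^ 2 *
        (cNear Φ R te ρm K g0 1 * Conc984.mean f₀ Conc984.en) +
      c * ∫⁻ p, gcE f₀ ε (fun n w => GE n (p, w)) ∂(lineM γ ρm K te).prod (lineM γ ρm K te) := by
  classical
  set μ := lineM γ ρm K te with hμ
  set A : (n : ℕ) → Config n → ℝ≥0∞ := fun n w => ∫⁻ x, GX n (x, w) ∂μ with hA
  set B : (n : ℕ) → ML → Config n → ℝ≥0∞ := fun n d w => ∫⁻ x, GE n ((d, x), w) ∂μ with hB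
  set cN0 := cNear Φ R te ρm K g0 0 with hcN0
  set cN1 := cNear Φ R te ρm K g0 1 with hcN1
  set cM := cMeet R' te T ρm K g0 with hcM
  have hcN0t : cN0 ≠ ∞ := cNear_ne_top hg hρ 0
  have hcN1t : cN1 ≠ ∞ := cNear_ne_top hg hρ 1
  have hcMt : cM ≠ ∞ := cMeet_ne_top hg hρ
  have hAm : ∀ n, Measurable (A n) := fun n => by
    have h2 : Measurable fun p : Config n × ML => GX n (p.2, p.1) :=
      (hGX n).comp (measurable_snd.prodMk measurable_fst)
    exact h2.lintegral_prod_right'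
  have hBm : ∀ n, Measurable fun p : ML × Config n => B n p.1 p.2 := fun n => by
    have h2 : Measurable fun p : (ML × Config n) × ML => GE n ((p.1.1, p.2), p.1.2) :=
      (hGE n).comp ((measurable_fst.fst.prodMk measurable_snd).prodMk measurable_fst.snd)
    exact h2.lintegral_prod_right'
  have hNm : ∀ n (w : Config n), Measurable fun d : ML => nearN Φ ε R te n (w, d.1) := fun n w =>
    (measurable_nearN hΦ hε R te n).comp (measurable_const.prodMk measurable_fst)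
  -- pointwise in the gas
  have hpt : ∀ n, ∀ w ∈ PairExcluded ε n, ∫⁻ d, (if Tch n d w then
        min 1 (c * μ {x | E n d x w}) else 0) ∂μ ≤
      (∫⁻ d, GS n (d, w) ∂μ) + ((1 + c) * cN0 * (Conc984.Y ε Conc984.en n w * min 1 (A n w)) +
        (c * cM * ENNReal.ofReal ε ^ 2 * cN1 * Conc984.Y ε Conc984.en n w +
          c * ∫⁻ d, B n d w ∂μ)) := by
    intro n w hw
    have h2 : ∀ᵐ d ∂μ, (if Tch n d w then min 1 (c * μ {x | E n d x w}) else 0) ≤
        GS n (d, w) + (nearN Φ ε R te n (w, d.1) * ((1 + c) * min 1 (A n w)) +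
          (c * cM * ENNReal.ofReal ε ^ 2 *
            (nearN Φ ε R te n (w, d.1) * ENNReal.ofReal (1 + ‖d.1.2.2‖) ^ 1) + c * B n d w)) := by
      filter_upwards [hdet n w hw] with d hd
      by_cases ht : Tch n d w
      swap
      · rw [if_neg ht]
        exact bot_le
      rw [if_pos ht]
      rcases hd ht with h3 | ⟨h3, h4⟩
      · exact (min_le_left _ _).trans (h3.trans le_self_add)
      refine le_trans ?_ le_add_self
      have h5 : nearN Φ ε R te n (w, d.1) = 1 :=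
        le_antisymm (nearN_le_one _) (one_le_nearN hΦ hε h3)
      have h6 : μ {x | E n d x w} ≤ A n w + cM * ENNReal.ofReal ε ^ 2 *
          ENNReal.ofReal (1 + ‖d.1.2.2‖) + B n d w := by
        have h7 : μ {x | E n d x w} ≤ μ (({x | 1 ≤ GX n (x, w)} ∪ {x | Meet ε R' T d.1 x.1}) ∪
            {x | 1 ≤ GE n ((d, x), w)}) := by
          refine measure_mono_ae ?_
          filter_upwards [h4] with x hx hE
          rcases hx hE with h | h | h
          · exact Or.inl (Or.inl h)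
          · exact Or.inl (Or.inr h)
          · exact Or.inr h
        refine h7.trans ((measure_union_le _ _).trans (add_le_add ((measure_union_le _ _).trans
          (add_le_add ?_ ?_)) ?_))
        · have h8 := mul_meas_ge_le_lintegral (μ := μ) (f := fun x => GX n (x, w))
            ((hGX n).comp (measurable_id.prodMk measurable_const)) 1
          rwa [one_mul] at h8
        · exact meet_mass hε hε1 hR' hT hγ hγ₀ d.1
        · have h8 := mul_meas_ge_le_lintegral (μ := μ) (f := fun x => GE n ((d, x), w))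
            ((hGE n).comp ((measurable_const.prodMk measurable_id).prodMk measurable_const)) 1
          rwa [one_mul] at h8
      rw [h5, one_mul, one_mul, pow_one]
      calc min 1 (c * μ {x | E n d x w})
          ≤ min 1 (c * (A n w + cM * ENNReal.ofReal ε ^ 2 * ENNReal.ofReal (1 + ‖d.1.2.2‖) +
              B n d w)) := min_le_min le_rfl (mul_le_mul_right h6 _)
        _ ≤ _ := min_one_mul_add_le _ _ _ _
        _ = _ := by ring
    refine (lintegral_mono_ae h2).trans ?_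
    have m1 : Measurable fun d : ML => GS n (d, w) :=
      (hGS n).comp (measurable_id.prodMk measurable_const)
    have m2 : Measurable fun d : ML => nearN Φ ε R te n (w, d.1) * ((1 + c) * min 1 (A n w)) :=
      (hNm n w).mul_const _
    have m3 : Measurable fun d : ML => c * cM * ENNReal.ofReal ε ^ 2 *
        (nearN Φ ε R te n (w, d.1) * ENNReal.ofReal (1 + ‖d.1.2.2‖) ^ 1) := by
      refine Measurable.const_mul ((hNm n w).mul ?_) _
      fun_prop
    rw [lintegral_add_left m1, lintegral_add_left m2, lintegral_add_left m3]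
    refine add_le_add le_rfl (add_le_add ?_ (add_le_add ?_ ?_))
    · rw [lintegral_mul_const _ (hNm n w)]
      have h3 := near_mass (ρm := ρm) (K := K) hΦ hε hε1 hR hγ hγ₀ 0 hw
      simp only [pow_zero, mul_one] at h3
      calc (∫⁻ d : ML, nearN Φ ε R te n (w, d.1) ∂μ) * ((1 + c) * min 1 (A n w))
          ≤ cN0 * Conc984.Y ε Conc984.en n w * ((1 + c) * min 1 (A n w)) := mul_le_mul_left h3 _
        _ = _ := by ring
    · rw [lintegral_const_mul' _ _ (ENNReal.mul_ne_top (ENNReal.mul_ne_top hc hcMt)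
        (ENNReal.pow_ne_top ENNReal.ofReal_ne_top))]
      have h3 := near_mass (ρm := ρm) (K := K) hΦ hε hε1 hR hγ hγ₀ 1 hw
      calc c * cM * ENNReal.ofReal ε ^ 2 *
            ∫⁻ d : ML, nearN Φ ε R te n (w, d.1) * ENNReal.ofReal (1 + ‖d.1.2.2‖) ^ 1 ∂μ
          ≤ c * cM * ENNReal.ofReal ε ^ 2 * (cN1 * Conc984.Y ε Conc984.en n w) :=
            mul_le_mul_right h3 _
        _ = _ := by ring
    · rw [lintegral_const_mul' _ _ hc]
  refine (gcE_mono f₀ ε hpt).trans ?_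
  -- expectations
  have n1 : ∀ n, Measurable fun w : Config n => ∫⁻ d, GS n (d, w) ∂μ := fun n => by
    have h2 : Measurable fun p : Config n × ML => GS n (p.2, p.1) :=
      (hGS n).comp (measurable_snd.prodMk measurable_fst)
    exact h2.lintegral_prod_right'
  have n2 : ∀ n, Measurable fun w : Config n =>
      (1 + c) * cN0 * (Conc984.Y ε Conc984.en n w * min 1 (A n w)) := fun n =>
    ((Conc984.measurable_Y Conc984.measurable_en n).mul
      (measurable_const.min (hAm n))).const_mul _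
  have n3 : ∀ n, Measurable fun w : Config n =>
      c * cM * ENNReal.ofReal ε ^ 2 * cN1 * Conc984.Y ε Conc984.en n w := fun n =>
    (Conc984.measurable_Y Conc984.measurable_en n).const_mul _
  rw [gcE_add hf ε n1, gcE_add hf ε n2, gcE_add hf ε n3, gcE_const_mul f₀ ε
    (ENNReal.mul_ne_top (ENNReal.add_ne_top.2 ⟨ENNReal.one_ne_top, hc⟩) hcN0t),
    gcE_const_mul f₀ ε (ENNReal.mul_ne_top (ENNReal.mul_ne_top (ENNReal.mul_ne_top hc hcMt)
      (ENNReal.pow_ne_top ENNReal.ofReal_ne_top)) hcN1t), gcE_const_mul f₀ ε hc,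
    add_assoc, add_assoc]
  refine add_le_add (le_of_eq ?_) (add_le_add ?_ (add_le_add ?_ (mul_le_mul_right (le_of_eq ?_) _)))
  · exact (LN2.lintegral_gcE_swap hf ε μ (F := fun n d w => GS n (d, w)) hGS).symm
  · rw [mul_assoc]
    refine mul_le_mul_right (mul_le_mul_right ?_ _) _
    have h2 := Conc984.gcE_mul_le (ε := ε) hf Conc984.measurable_en hmean
      (F := fun n w => min 1 (A n w)) (B := 1) ENNReal.one_ne_top
      (fun n Z _ => min_le_left _ _)
    rw [one_mul] at h2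
    refine h2.trans (add_le_add (mul_le_mul_right ?_ _) le_rfl)
    refine (gcE_mono f₀ ε fun n w _ => min_le_right _ _).trans (le_of_eq ?_)
    exact (LN2.lintegral_gcE_swap hf ε μ (F := fun n x w => GX n (x, w)) hGX).symm
  · rw [mul_assoc (c * cM * ENNReal.ofReal ε ^ 2)]
    refine mul_le_mul_right (mul_le_mul_right ?_ _) _
    exact Direct658.gcE_Y_le hf h1 hε Conc984.measurable_en
  · have h2 : ∀ n, Measurable (Function.uncurry fun (p : ML × ML) (w : Config n) => GE n (p, w)) :=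
      fun n => hGE n
    rw [LN2.lintegral_gcE_swap hf ε (μ.prod μ) (F := fun n p w => GE n (p, w)) h2]
    refine gcE_congr f₀ ε fun n w _ => ?_
    have h3 : Measurable fun p : ML × ML => GE n (p, w) :=
      (hGE n).comp (measurable_id.prodMk measurable_const)
    rw [lintegral_prod _ h3.aemeasurable]

/-- **The gate.** Base line and test line of law `lineM`. If, for a touched base line `d`, the event
`E` implies a `d`-only alternative `S`, or (`d` is near the gas and) an `x`-only alternative `Sx`, a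
direct meeting of the two lines, or an alternative `E'` of the pair, and `S`, `Sx`, `E'` are null, then
the capped functional is null. -/
theorem errB_gate {I : Type} (hΦ : AdmissiblePotential Φ) (hf : Measurable f₀)
    (h1 : ∫⁻ z, ENNReal.ofReal (f₀ z) ≤ 1) (hmean : Conc984.mean f₀ Conc984.en ≠ ∞)
    (hexc : Tendsto (fun ε => gcE f₀ ε (Conc984.exc f₀ ε Conc984.en)) (𝓝[>] 0) (𝓝 0))
    (hR : 0 < R) {R' : ℝ} (hR' : 0 < R') (hT : 0 ≤ T) (hγ : Measurable γ)
    (hγ₀ : ∀ τ ∈ Ioc (0 : ℝ) te, g0 ≤ γ τ) (hg : 0 < g0) (hρ : ρm ≠ ∞) {c : ℝ≥0∞} (hc : c ≠ ∞)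
    {S Sx Tch : ℝ → I → (n : ℕ) → ML → Config n → Prop}
    {E' : ℝ → I → (n : ℕ) → ML × ML → Config n → Prop}
    {E : ℝ → I → (n : ℕ) → ML → ML → Config n → Prop}
    (hS : GNull f₀ (fun _ (_ : I) => lineM γ ρm K te) S)
    (hX : GNull f₀ (fun _ (_ : I) => lineM γ ρm K te) Sx)
    (hE : GNull f₀ (fun _ (_ : I) => (lineM γ ρm K te).prod (lineM γ ρm K te)) E')
    (hdet : ∃ ε₁ : ℝ, 0 < ε₁ ∧ ∀ ε : ℝ, 0 < ε → ε < ε₁ → ∀ i n, ∀ w ∈ PairExcluded ε n,
      ∀ᵐ d ∂lineM γ ρm K te, Tch ε i n d w → S ε i n d w ∨ (Near Φ ε R te w d.1 ∧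
        ∀ᵐ x ∂lineM γ ρm K te, E ε i n d x w →
          Sx ε i n x w ∨ Meet ε R' T d.1 x.1 ∨ E' ε i n (d, x) w)) {δ : ℝ≥0∞} (hδ : 0 < δ) :
    ∃ ε₀ : ℝ, 0 < ε₀ ∧ ∀ ε : ℝ, 0 < ε → ε < ε₀ → ∀ i : I,
      gcE f₀ ε (fun n w => ∫⁻ d, (open Classical in if Tch ε i n d w then
        min 1 (c * lineM γ ρm K te {x | E ε i n d x w}) else 0) ∂lineM γ ρm K te) ≤ δ := by
  classical
  set μ := lineM γ ρm K te with hμ
  set cN0 := cNear Φ R te ρm K g0 0 with hcN0
  set cN1 := cNear Φ R te ρm K g0 1 with hcN1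
  set cM := cMeet R' te T ρm K g0 with hcM
  set mn := Conc984.mean f₀ Conc984.en with hmn
  have hcN0t : cN0 ≠ ∞ := cNear_ne_top hg hρ 0
  have hcN1t : cN1 ≠ ∞ := cNear_ne_top hg hρ 1
  have hcMt : cM ≠ ∞ := cMeet_ne_top hg hρ
  -- the constants
  set A : ℝ≥0∞ := 1 + (1 + c) * cN0 * mn + (1 + c) * cN0 + c * cM * (cN1 * mn) + c with hA
  have h1c : 1 + c ≠ ∞ := ENNReal.add_ne_top.2 ⟨ENNReal.one_ne_top, hc⟩
  have hAt : A ≠ ∞ := by
    refine ENNReal.add_ne_top.2 ⟨ENNReal.add_ne_top.2 ⟨ENNReal.add_ne_top.2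
      ⟨ENNReal.add_ne_top.2 ⟨ENNReal.one_ne_top, ?_⟩, ?_⟩, ?_⟩, hc⟩
    · exact ENNReal.mul_ne_top (ENNReal.mul_ne_top h1c hcN0t) hmean
    · exact ENNReal.mul_ne_top h1c hcN0t
    · exact ENNReal.mul_ne_top (ENNReal.mul_ne_top hc hcMt) (ENNReal.mul_ne_top hcN1t hmean)
  have hA0 : A ≠ 0 := by
    rw [hA]
    intro h
    simp at h
  rcases eq_or_ne δ ∞ with rfl | hδt
  · exact ⟨1, one_pos, fun _ _ _ _ => le_top⟩
  set η : ℝ≥0∞ := δ / A with hη
  have hη0 : 0 < η := ENNReal.div_pos hδ.ne' hAt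
  have hAη : A * η = δ := by
    rw [hη]
    exact ENNReal.mul_div_cancel hA0 hAt
  obtain ⟨ε₁, e1, hS⟩ := hS η hη0
  obtain ⟨ε₂, e2, hX⟩ := hX η hη0
  obtain ⟨ε₃, e3, hE⟩ := hE η hη0
  obtain ⟨ε₄, e4, hdet⟩ := hdet
  have h5 : ∀ᶠ ε : ℝ in 𝓝[>] 0, gcE f₀ ε (Conc984.exc f₀ ε Conc984.en) < η :=
    hexc.eventually_lt_const hη0
  have h6 : ∀ᶠ ε : ℝ in 𝓝[>] 0, ENNReal.ofReal ε ^ 2 < η := by
    have h7 : Tendsto (fun ε : ℝ => ENNReal.ofReal ε ^ 2) (𝓝[>] 0) (𝓝 0) := by
      have h8 : Tendsto (fun ε : ℝ => ENNReal.ofReal ε ^ 2) (𝓝 0) (𝓝 (ENNReal.ofReal 0 ^ 2)) :=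
        ((ENNReal.continuous_pow 2).comp ENNReal.continuous_ofReal).tendsto 0
      rw [ENNReal.ofReal_zero, zero_pow two_ne_zero] at h8
      exact h8.mono_left nhdsWithin_le_nhds
    exact h7.eventually_lt_const hη0
  obtain ⟨ε₅, e5, h56⟩ := mem_nhdsGT_iff_exists_Ioo_subset.1 (h5.and h6)
  have e5' : (0 : ℝ) < ε₅ := e5
  refine ⟨min (min (min ε₁ ε₂) (min ε₃ ε₄)) (min ε₅ 1), by positivity, fun ε hε hlt i => ?_⟩
  have l1 : ε < ε₁ := hlt.trans_le ((min_le_left _ _).trans ((min_le_left _ _).trans (min_le_left _ _)))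
  have l2 : ε < ε₂ := hlt.trans_le ((min_le_left _ _).trans ((min_le_left _ _).trans (min_le_right _ _)))
  have l3 : ε < ε₃ := hlt.trans_le ((min_le_left _ _).trans ((min_le_right _ _).trans (min_le_left _ _)))
  have l4 : ε < ε₄ := hlt.trans_le ((min_le_left _ _).trans ((min_le_right _ _).trans (min_le_right _ _)))
  have l5 : ε < ε₅ := hlt.trans_le ((min_le_right _ _).trans (min_le_left _ _))
  have l6 : ε ≤ 1 := (hlt.trans_le ((min_le_right _ _).trans (min_le_right _ _))).le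
  obtain ⟨GS, s1, s2, s3⟩ := hS ε hε l1 i
  obtain ⟨GX, x1, x2, x3⟩ := hX ε hε l2 i
  obtain ⟨GE, g1, g2, g3⟩ := hE ε hε l3 i
  obtain ⟨h7, h8⟩ := h56 ⟨hε, l5⟩
  have key := errB_le (f₀ := f₀) (ε := ε) (c := c) (Tch := fun n d w => Tch ε i n d w)
    (E := fun n d x w => E ε i n d x w) hΦ hf h1 hmean hε l6 hR hR' hT hγ hγ₀ hg hρ hc s1 x1 g1
    (fun n w hw => by
      filter_upwards [hdet ε hε l4 i n w hw] with d hd ht
      rcases hd ht with h | ⟨h, h'⟩
      · exact Or.inl (s2 n d w hw h)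
      · refine Or.inr ⟨h, ?_⟩
        filter_upwards [h'] with x hx hEx
        rcases hx hEx with h | h | h
        · exact Or.inl (x2 n x w hw h)
        · exact Or.inr (Or.inl h)
        · exact Or.inr (Or.inr (g2 n (d, x) w hw h)))
  refine key.trans ?_
  calc (∫⁻ d, gcE f₀ ε (fun n w => GS n (d, w)) ∂μ) +
        (1 + c) * (cN0 * (mn * (∫⁻ x, gcE f₀ ε (fun n w => GX n (x, w)) ∂μ) +
          gcE f₀ ε (Conc984.exc f₀ ε Conc984.en))) +
        c * cM * ENNReal.ofReal ε ^ 2 * (cN1 * mn) +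
        c * ∫⁻ p, gcE f₀ ε (fun n w => GE n (p, w)) ∂μ.prod μ
      ≤ η + (1 + c) * (cN0 * (mn * η + η)) + c * cM * η * (cN1 * mn) + c * η := by
        refine add_le_add (add_le_add (add_le_add s3 ?_) ?_) (mul_le_mul_right g3 _)
        · exact mul_le_mul_right (mul_le_mul_right (add_le_add (mul_le_mul_right x3 _) h7.le) _) _
        · exact mul_le_mul_left (mul_le_mul_right h8.le _) _
    _ = A * η := by
        rw [hA]
        ring
    _ = δ := hAη

end Crest.Agent.R122.ErrB823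

end
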