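import Crest.Agent.R122.LNGraft_410
import Crest.Agent.R122.RealOne_796

/-!
# Row 122, LN1 (helper410): the graft data of a tree hit by a line

* `fl_back`, `st_single`, `st_line` : the isolated world of one label.
* `cdok_of_ct`, `cdok_of_pass` : the contact data.
* `graftH_ct` : a class `S` with an exit `a` on the line `l` and a tree whose root line is met by `l`
  at time `cT` give the graft data `GraftH`.
* `graftH_line` : the same for one label `j` (a free line).
-/

set_option autoImplicit false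
set_option linter.unusedSectionVars false

open MeasureTheory Set Filter Topology
open Crest.AnalysisR.Kinetic
open Crest.Agent.R122.Flow671 hiding rel
open Crest.Agent.R122.Loc45 Crest.Agent.R122.Ins45
open Crest.Agent.R122.Kin796 Crest.Agent.R122.Kin796.CTree Crest.Agent.R122.Tree674
open Crest.Agent.R122.PathFlow968 Crest.Agent.R122.TreeLines335 Crest.Agent.R122.EDefs602
open Crest.Agent.R122.VL581 Crest.Agent.R122.VL581.VSys Crest.Agent.R122.VLInst442
open Crest.Agent.R122.LNInst491 Crest.Agent.R122.LN304 Crest.Agent.R122.LNg410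
open Crest.Agent.R122.LNTree410 Crest.Agent.R122.OCout796 Crest.Agent.R122.Scat818
open Crest.Agent.R122.LNGraft410 Crest.Agent.R122.OneC285 Crest.Agent.R122.OneC423
open Crest.Agent.R122.Flux663 Crest.Agent.R122.OC663
open scoped Classical

noncomputable section

namespace Crest.Agent.R122.LNGraft410

variable {J κ : Type} [Fintype J] {M : VSys J κ} {Z : J → PhasePoint}

/-- The free line through the back extension. -/
theorem fl_back (e : ℝ × PhasePoint) (t : ℝ) : fl t (back e) = Ins45.lineAt e.1 e.2 t := by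
  rw [back_eq_lineAt]
  have h1 := lineAt_lineAt e.1 0 t e.2
  rw [← h1]
  unfold fl Ins45.lineAt
  simp

theorem fl_eq_onLine (z : PhasePoint) (t : ℝ) : fl t z = onLine z t := rfl

/-- One label flies freely. -/
theorem st_single (hΦ : AdmissiblePotential M.Φ) (hε : 0 < M.ε) {j : J} (ho : M.o ≠ some j)
    {t : ℝ} (ht : t ≤ M.T) : M.st {j} t Z j = fl t (Z j) := by
  rcases le_total t (M.bb j) with h | h
  · exact st_unborn M h Z
  · have h1 := (Cls.single (Z := Z) ho (bD := M.bb) rfl).line hΦ hε (Finset.mem_singleton_self j)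
      (u := M.bb j) le_rfl h ht
    rw [h1, st_unborn M le_rfl Z]
    unfold fl Ins45.lineAt
    refine Prod.ext ?_ rfl
    simp only
    rw [add_assoc, ← add_smul, add_sub_cancel]

/-- One label on the free line `l`. -/
theorem st_line (hΦ : AdmissiblePotential M.Φ) (hε : 0 < M.ε) {j : J} (ho : M.o ≠ some j)
    {l : ℝ × PhasePoint} (hZ : Z j = back l) {t : ℝ} (ht : t ≤ M.T) :
    M.st {j} t Z j = Ins45.lineAt l.1 l.2 t := by
  rw [st_single hΦ hε ho ht, hZ, fl_back]

section ct

variable {ε : ℝ} {P : CTree} {z : PhasePoint × Par P} {l : ML}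

theorem cdok_of_ct (hε : 0 < ε) (h0 : (relL z.1 l.1).2 ≠ 0) (h : ‖bline (relL z.1 l.1)‖ < ε) :
    CDok (cD ε z l) :=
  ⟨entB_mem hε h0 h, h0⟩

end ct

variable {P : CTree} {z : PhasePoint × Par P} {l : ML} {S : Finset J} {bD : J → ℝ} {a : J}
  {g : Idx P ↪ J} {te : ℝ}

/-- **Graft data of a tree hit by the line of an exit.** -/
theorem graftH_ct (hΦ : AdmissiblePotential M.Φ) (hε : 0 < M.ε) (hS : Cls M Z S bD) (ha : a ∈ S)
    (hba : bD a ≤ l.1.1) (hl : ∀ t ∈ Icc l.1.1 M.T, M.st S t Z a = Ins45.lineAt l.1.1 l.1.2 t)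
    (hg : TreeIn M Z M.T P z.1 z.2 g) (hbg : ∀ i, bD (g i) = rel P z.2 i)
    (hd : Disjoint S (part g)) (hct : (z, l.1) ∈ ctSet M.Φ M.ε te P) (hte : te < M.T)
    (hcd : CDok (cD M.ε z l)) (hrel : rel P z.2 (root P) < cT M.ε z l) :
    GraftH M Z S (part g) bD a (g (root P)) (cT M.ε z l) (cX M.ε z l) (cD M.ε z l) := by
  have h1 : l.1.1 < cT M.ε z l := hct.2.2.1
  have h2 : cT M.ε z l ≤ te := hct.2.2.2.1
  have h3 : cT M.ε z l < M.T := h2.trans_lt hte
  have h0 : 0 ≤ bD a := hS.bb_nonneg' ha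
  have hT : 0 < M.T := (h0.trans (hba.trans h1.le)).trans_lt h3
  refine ⟨hS, Cls.of_tree hΦ hε hT hg hbg, hd, ha, mem_part_self _, hba.trans_lt h1, ?_, hcd, ?_,
    ?_, h3⟩
  · rw [hbg]
    exact hrel
  · rw [hl _ ⟨h1.le, h3.le⟩]
    exact One796.state_l hε z l
  · rw [hg.line_tree hΦ hε (root P) hrel.le h3.le, fin_root]
    rfl

/-- **Graft data of a tree hit by the free line of one label.** -/
theorem graftH_line (hΦ : AdmissiblePotential M.Φ) (hε : 0 < M.ε) {j : J} (ho : M.o ≠ some j)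
    (hj : M.bb j = l.1.1) (hZ : Z j = back l.1) (hbj : bD j = l.1.1)
    (hg : TreeIn M Z M.T P z.1 z.2 g) (hbg : ∀ i, bD (g i) = rel P z.2 i)
    (hd : ∀ i, g i ≠ j) (hct : (z, l.1) ∈ ctSet M.Φ M.ε te P) (hte : te < M.T)
    (hcd : CDok (cD M.ε z l)) (hrel : rel P z.2 (root P) < cT M.ε z l) :
    GraftH M Z {j} (part g) bD j (g (root P)) (cT M.ε z l) (cX M.ε z l) (cD M.ε z l) :=
  graftH_ct hΦ hε (Cls.single ho (by rw [hbj, hj])) (Finset.mem_singleton_self j) hbj.le
    (fun t ht => st_line hΦ hε ho hZ ht.2) hg hbg (by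
      rw [Finset.disjoint_singleton_left, mem_part]
      rintro ⟨i, hi⟩
      exact hd i hi) hct hte hcd hrel

end Crest.Agent.R122.LNGraft410

end
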