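import Crest.Agent.R122.XSplit_692
import Crest.Agent.R122.LNRetT_383

/-!
# Row 122, LN1 (helper547): independent lines are not linked to a structure, off the bad events

Parts `Lx π p = {π, {p}}` (`XSplit_692`): the structure `π` and one independent line `x` with the
label `p`; everything from `ReachAll (Reach ..)` (818, 968) of the exits (part `π`) and of the line
(part `{p}`) and `¬ Joint`, over an arbitrary base world.

* `not_noTwo`, `noTwo_of_not_joint` : `¬ Joint → NoTwo`.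
* `noLink_x` : (X2) an exit of the structure and the line are not linked.
* `not_retD_x`, `not_retC_x`, `not_retA_x`, `not_retB_x` : (X3) no return of the line or of its
  influence to the tubes of the structure.
-/

set_option autoImplicit false
set_option linter.unusedSectionVars false
set_option maxHeartbeats 400000

open MeasureTheory Set Filter Topology
open scoped ENNReal
open Crest.AnalysisR.Kinetic
open Crest.Agent.R122.Ins45 Crest.Agent.R122.EDefs602 Crest.Agent.R122.CausalGen291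
open Crest.Agent.R122.MWFam255 Crest.Agent.R122.GIV566
open Crest.Agent.R122.VL581 Crest.Agent.R122.LN304 Crest.Agent.R122.LNg410
open Crest.Agent.R122.LNEv968 Crest.Agent.R122.LNEv818 Crest.Agent.R122.LNEv383
open Crest.Agent.R122.RtG302 (near)
open scoped Classical

noncomputable section

namespace Crest.Agent.R122.XG547

variable {ι κ ξ J : Type} [Fintype ι] [Fintype J]
variable {Φ : Space3 → ℝ} {ε T r : ℝ} {K : ℕ} {Z : MW ι} {M : VSys J κ} {c : ℝ}
  {Zc : J → PhasePoint} {π : Finset J} {p q : J} {N N' : ℕ} {lab : ι → J} {l x : ML}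
  {O : Tubes ξ} {m : ξ → J}

/-- No joint set: no two parts. -/
theorem noTwo_of_not_joint (hc : M.Conn c π Zc) (h : ¬ X692.Joint M c Zc π p N) :
    NoTwo M c Zc (X692.Lx π p) N := by
  by_contra h1
  exact h (X692.split_noTwo hc h1)

theorem ne_singleton (hp : p ∉ π) : π ≠ {p} := fun h => hp (by
  rw [h]
  exact Finset.mem_singleton_self _)

section

variable [Nonempty κ] (hΦ : AdmissiblePotential Φ) (hε : 0 < ε)
include hΦ hε

/-- **(X2)** An exit of the structure and the independent line are not linked. -/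
theorem noLink_x (hMε : M.ε = ε) (hTM : T ≤ M.T) (h1c : 1 ≤ c) (hc : M.Conn c π Zc) (hq : q ∈ π)
    (hp : p ∉ π) (hJ : ¬ X692.Joint M c Zc π p (N + N')) (hlab : Function.Injective lab)
    (ha : ReachAll (Reach M c Zc (X692.Lx π p) π q N) Φ ε K T Z lab l q)
    (hx : ReachAll (Reach M c Zc (X692.Lx π p) {p} p N') Φ ε K T Z lab x p) :
    MW.NoLink Φ ε K T Z (MW.line l) (MW.line x) := by
  have hNT := noTwo_of_not_joint hc hJ
  have hc' : M.Conn c {p} Zc := LNg410.conn_singleton p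
  have hne : π ≠ {p} := ne_singleton hp
  have hpp : p ∈ ({p} : Finset J) := Finset.mem_singleton_self p
  have hM0 : ∀ {u}, u ∈ Icc 0 T → u ∈ Icc 0 M.T := fun hu => ⟨hu.1, hu.2.trans hTM⟩
  have hcε : ∀ {d : ℝ}, d ≤ ε → d ≤ c * M.ε := by
    intro d hd
    rw [hMε]
    nlinarith
  refine noLink_of_reachAll hΦ hε hlab ha hx ?_ ?_ ?_ ?_
  · intro k u y y' hu h h'
    exact Reach.two_common h h' X692.pi_mem X692.p_mem hc hc' hq hpp hne hNT
  · intro k j u y y' hu _ h h' hd
    exact Reach.two_contact h h' X692.pi_mem X692.p_mem hc hc' hq hpp hne (hM0 hu) (hcε hd) hNT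
  · intro k u y y' hu h h' hd
    exact Reach.two_contact h h' X692.pi_mem X692.p_mem hc hc' hq hpp hne (hM0 hu) (hcε hd) hNT
  · intro u hu _ _ _ _ _ h h'
    by_contra hcon
    exact Reach.two_contact h h' X692.pi_mem X692.p_mem hc hc' hq hpp hne (hM0 hu)
      (hcε (not_lt.1 hcon)) hNT

/-- A label reached from the line is not near the tubes of the structure. -/
theorem not_near_x (hTM : T ≤ M.T) (hr : r ≤ c * M.ε) (hc : M.Conn c π Zc) (hp : p ∉ π)
    (hJ : ¬ X692.Joint M c Zc π p N) (hO : TubeOf M Zc (X692.Lx π p) O T (fun _ => π) m)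
    {i : J} {v : ℝ} {y : Space3} (hv : v ∈ Icc 0 T)
    (h : Reach M c Zc (X692.Lx π p) {p} p N i v y) : ¬ near r O v y := by
  rintro ⟨k, hk, hd⟩
  obtain ⟨B, hB, hkB, hok, hpos⟩ := hO.path k v hv hk
  have hne : ({p} : Finset J) ≠ π := (ne_singleton hp).symm
  refine Reach.ret_other h X692.p_mem X692.pi_mem (LNg410.conn_singleton p) hc
    (Finset.mem_singleton_self p) hkB hB hne ⟨hv.1, hv.2.trans hTM⟩ hok (hO.obs k) ?_
    (noTwo_of_not_joint hc hJ)
  rw [← hpos, dist_comm]
  exact hd.trans hr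

/-- **(X3)** No return of the line and of its influence (closed form, both worlds). -/
theorem not_retD_x (hTM : T ≤ M.T) (hr : r ≤ c * M.ε) (hc : M.Conn c π Zc) (hp : p ∉ π)
    (hJ : ¬ X692.Joint M c Zc π p N) (hO : TubeOf M Zc (X692.Lx π p) O T (fun _ => π) m)
    (hx : ReachAll (Reach M c Zc (X692.Lx π p) {p} p N) Φ ε K T Z lab x p) :
    ¬ RetD Φ ε r K T Z x O :=
  LNEv383.not_retD hΦ hε hx (fun _ _ _ hv h => not_near_x hΦ hε hTM hr hc hp hJ hO hv h)
    fun _ _ hv _ h => not_near_x hΦ hε hTM hr hc hp hJ hO hv h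

/-- **(X3)** `RetC`. -/
theorem not_retC_x (hTM : T ≤ M.T) (hr : r ≤ c * M.ε) (hc : M.Conn c π Zc) (hp : p ∉ π)
    (hJ : ¬ X692.Joint M c Zc π p N) (hO : TubeOf M Zc (X692.Lx π p) O T (fun _ => π) m)
    (hx : ReachAll (Reach M c Zc (X692.Lx π p) {p} p N) Φ ε K T Z lab x p) :
    ¬ RetC Φ ε r K T Z x O := fun h =>
  not_retD_x hΦ hε hTM hr hc hp hJ hO hx (retC_retD h)

/-- `RetA` (open form, helper302's `RetL`). -/
theorem not_retA_x (hTM : T ≤ M.T) (hr : r ≤ c * M.ε) (hc : M.Conn c π Zc) (hp : p ∉ π)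
    (hJ : ¬ X692.Joint M c Zc π p N) (hO : TubeOf M Zc (X692.Lx π p) O T (fun _ => π) m)
    (hx : ReachAll (Reach M c Zc (X692.Lx π p) {p} p N) Φ ε K T Z lab x p) (hZ : Z.Ok Φ ε)
    (hZx : (Z.ins x).Ok Φ ε) : ¬ RetA Φ ε r K T Z x O := fun h =>
  not_retD_x hΦ hε hTM hr hc hp hJ hO hx (retD_of_retA hΦ hε hZ hZx h)

/-- `RetB` (open form, helper302's `RetM`). -/
theorem not_retB_x (hTM : T ≤ M.T) (hr : r ≤ c * M.ε) (hc : M.Conn c π Zc) (hp : p ∉ π)
    (hJ : ¬ X692.Joint M c Zc π p N) (hO : TubeOf M Zc (X692.Lx π p) O T (fun _ => π) m)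
    (hx : ReachAll (Reach M c Zc (X692.Lx π p) {p} p N) Φ ε K T Z lab x p) (hZ : Z.Ok Φ ε)
    (hZx : (Z.ins x).Ok Φ ε) : ¬ RetB Φ ε r K T Z x O := fun h =>
  not_retD_x hΦ hε hTM hr hc hp hJ hO hx (retD_of_retB hΦ hε hZ hZx h)

end

end Crest.Agent.R122.XG547

end
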