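import Crest.Agent.R122.LNGraft_410
import Crest.Agent.R122.LNBridge2_968
import Crest.Agent.R122.LNExit_968

/-!
# Row 122, LN1 (helper410): transfer along an embedding of labels

`Pull M' M e` (helper968): `M'` is `M` seen through the injection `e`.

* `tlg_map` : tree-like timed contacts; `tl_iff` : `TL M C ℓ ς (P.map e) Z ↔ TL M' C ℓ ς P (Z ∘ e)`.
* `cls_iff` : classes with exit data; `Cls.map`, `Cls.comap`.
* `TreeIn.map`, `TreeIn.comap`; `fam_map`.
-/

set_option autoImplicit false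
set_option linter.unusedSectionVars false

open MeasureTheory Set Filter Topology
open Crest.AnalysisR.Kinetic
open Crest.Agent.R122.Kin796 Crest.Agent.R122.Kin796.CTree Crest.Agent.R122.Tree674
open Crest.Agent.R122.PathFlow968 Crest.Agent.R122.TreeLines335
open Crest.Agent.R122.VL581 Crest.Agent.R122.VL581.VSys Crest.Agent.R122.VLInst442
open Crest.Agent.R122.LNInst491 Crest.Agent.R122.LN304 Crest.Agent.R122.LNg410
open Crest.Agent.R122.LNTree410 Crest.Agent.R122.LNGraft410 Crest.Agent.R122.LNBridge968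
open Crest.Agent.R122.LNEv968
open scoped Classical

noncomputable section

namespace Crest.Agent.R122.LNEmb410

variable {J J' κ : Type} [Fintype J] [Fintype J'] {M : VSys J κ} {M' : VSys J' κ} {e : J' ↪ J}
  {Z : J → PhasePoint} {C ℓ ς c : ℝ}

/-- Connectedness is transported back along an injection. -/
theorem cutConn_comap {S : Finset J'} {R : J → J → Prop} {R' : J' → J' → Prop}
    (h : CutConn (S.map e) R) (hR : ∀ i ∈ S, ∀ j ∈ S, R (e i) (e j) → R' i j) : CutConn S R' := by
  refine ⟨Finset.map_nonempty.1 h.1, fun Q hQ hne hneP => ?_⟩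
  obtain ⟨i, hi, j, hj, hjQ, h1⟩ := h.2 (Q.map e) (Finset.map_subset_map.2 hQ)
    (Finset.map_nonempty.2 hne) (fun h' => hneP (Finset.map_injective e h'))
  obtain ⟨i, hi', rfl⟩ := Finset.mem_map.1 hi
  obtain ⟨j, hj', rfl⟩ := Finset.mem_map.1 hj
  refine ⟨i, hi', j, hj', fun h' => hjQ (Finset.mem_map_of_mem e h'), ?_⟩
  rcases h1 with h1 | h1
  · exact Or.inl (hR i (hQ hi') j hj' h1)
  · exact Or.inr (hR j hj' i (hQ hi') h1)

/-- Tree-like timed contacts along an injection. -/
theorem tlg_map {P : Finset J'} {k : J → J → ℝ → Prop} {k' : J' → J' → ℝ → Prop}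
    (hk : ∀ i ∈ P, ∀ j ∈ P, ∀ t, k (e i) (e j) t ↔ k' i j t) :
    TLg (P.map e) k ℓ ς ↔ TLg P k' ℓ ς := by
  set p : J' × J' ↪ J × J := e.prodMap e with hp
  have hpx : ∀ x, p x = (e x.1, e x.2) := fun x => rfl
  constructor
  · rintro ⟨E, σ, h1, h2, h3, h4⟩
    have hrange : ∀ x ∈ E, ∃ y, p y = x := by
      intro x hx
      obtain ⟨h5, h6, _⟩ := h2 x hx
      obtain ⟨a, _, ha⟩ := Finset.mem_map.1 h5
      obtain ⟨b, _, hb⟩ := Finset.mem_map.1 h6
      exact ⟨(a, b), Prod.ext ha hb⟩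
    have hE : (E.preimage p p.injective.injOn).map p = E := by
      ext x
      rw [Finset.mem_map]
      constructor
      · rintro ⟨y, hy, rfl⟩
        exact Finset.mem_preimage.1 hy
      · intro hx
        obtain ⟨y, rfl⟩ := hrange x hx
        exact ⟨y, Finset.mem_preimage.2 hx, rfl⟩
    refine ⟨E.preimage p p.injective.injOn, fun x => σ (p x), ?_, ?_, ?_, ?_⟩
    · rw [← Finset.card_map p, hE, h1, Finset.card_map]
    · intro x hx
      obtain ⟨h5, h6, h7⟩ := h2 _ (Finset.mem_preimage.1 hx)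
      exact ⟨(Finset.mem_map' e).1 h5, (Finset.mem_map' e).1 h6, fun h' => h7 (congrArg e h')⟩
    · intro x hx y hy hxy
      exact h3 _ (Finset.mem_preimage.1 hx) _ (Finset.mem_preimage.1 hy)
        fun h' => hxy (p.injective h')
    · intro i hi j hj hij t ht
      obtain ⟨x, hx, hxx, hd⟩ := h4 (e i) (Finset.mem_map_of_mem e hi) (e j)
        (Finset.mem_map_of_mem e hj) (fun h' => hij (e.injective h')) t ((hk i hi j hj t).2 ht)
      obtain ⟨y, rfl⟩ := hrange x hx
      refine ⟨y, Finset.mem_preimage.2 hx, ?_, hd⟩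
      rcases hxx with h' | h'
      · exact Or.inl (p.injective (by rw [h', hpx]))
      · exact Or.inr (p.injective (by rw [h', hpx]))
  · rintro ⟨E, σ, h1, h2, h3, h4⟩
    set τ : J × J → ℝ := Function.extend p σ 0 with hτ
    have hτp : ∀ x, τ (p x) = σ x := fun x => p.injective.extend_apply σ 0 x
    refine ⟨E.map p, τ, ?_, ?_, ?_, ?_⟩
    · rw [Finset.card_map, Finset.card_map, h1]
    · intro x hx
      obtain ⟨y, hy, rfl⟩ := Finset.mem_map.1 hx
      obtain ⟨h5, h6, h7⟩ := h2 y hy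
      exact ⟨Finset.mem_map_of_mem e h5, Finset.mem_map_of_mem e h6, fun h' => h7 (e.injective h')⟩
    · intro x hx y hy hxy
      obtain ⟨x, hx', rfl⟩ := Finset.mem_map.1 hx
      obtain ⟨y, hy', rfl⟩ := Finset.mem_map.1 hy
      rw [hτp, hτp]
      exact h3 x hx' y hy' fun h' => hxy (by rw [h'])
    · intro i hi j hj hij t ht
      obtain ⟨i, hi', rfl⟩ := Finset.mem_map.1 hi
      obtain ⟨j, hj', rfl⟩ := Finset.mem_map.1 hj
      obtain ⟨x, hx, hxx, hd⟩ := h4 i hi' j hj' (fun h' => hij (congrArg e h')) t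
        ((hk i hi' j hj' t).1 ht)
      refine ⟨p x, Finset.mem_map_of_mem p hx, ?_, by rw [hτp]; exact hd⟩
      rcases hxx with rfl | rfl
      · exact Or.inl rfl
      · exact Or.inr rfl

variable (h : Pull M' M e) (hΦ : AdmissiblePotential M.Φ) (hε : 0 < M.ε)
include h hΦ hε

/-- Tree-likeness along an injection. -/
theorem tl_iff {P : Finset J'} :
    TL M C ℓ ς (P.map e) Z ↔ TL M' C ℓ ς P (fun k => Z (e k)) := by
  unfold TL
  refine and_congr ?_ (tlg_map fun i _ j _ t => ?_)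
  · constructor
    · intro h1 A hA
      rw [h.T]
      exact (h.ok hΦ hε _).1 (h1 _ (Finset.map_subset_map.2 hA))
    · intro h1 A hA
      obtain ⟨A', hA', rfl⟩ := Finset.subset_map_iff.1 hA
      rw [← h.T]
      exact (h.ok hΦ hε _).2 (h1 A' hA')
  · unfold vc
    rw [h.T]
    exact and_congr Iff.rfl (h.vct hΦ hε)

theorem rct_iff {S : Finset J'} {i j : J'} :
    RCt M Z (S.map e) (e i) (e j) ↔ RCt M' (fun k => Z (e k)) S i j := by
  unfold RCt
  rw [h.T, h.ε, h.bb, h.bb]
  refine exists_congr fun r => and_congr_right fun _ => ?_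
  rw [h.st hΦ hε, h.st hΦ hε]

/-- **Classes with exit data along an injection of labels.** -/
theorem cls_iff {S : Finset J'} {bD : J → ℝ} :
    Cls M Z (S.map e) bD ↔ Cls M' (fun k => Z (e k)) S (fun k => bD (e k)) := by
  constructor
  · intro H
    refine ⟨fun i hi h' => H.obs _ (Finset.mem_map_of_mem e hi) ((h.o i).1 h'), ?_,
      fun i hi => ?_, fun i hi t ht htT k hk hki hbk => ?_, fun i hi hiT => ?_, ?_⟩
    · rw [h.T]
      exact (h.ok hΦ hε _).1 H.ok
    · rw [h.bb]
      exact H.bb_le _ (Finset.mem_map_of_mem e hi)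
    · have h1 := H.exit (e i) (Finset.mem_map_of_mem e hi) t ht (by rw [← h.T]; exact htT) (e k)
        (Finset.mem_map_of_mem e hk) (fun h' => hki (e.injective h')) (by rw [← h.bb]; exact hbk)
      rw [h.st hΦ hε, h.st hΦ hε, ← h.ε] at h1
      exact h1
    · rcases H.last (e i) (Finset.mem_map_of_mem e hi) (by rw [← h.T]; exact hiT) with
        h1 | ⟨k, hk, hki, hbk, hd⟩
      · left
        rw [h.bb]
        exact h1
      · obtain ⟨k, hk', rfl⟩ := Finset.mem_map.1 hk
        rw [h.st hΦ hε, h.st hΦ hε, ← h.ε] at hd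
        exact Or.inr ⟨k, hk', fun h' => hki (congrArg e h'), by rw [h.bb]; exact hbk, hd⟩
    · exact cutConn_comap H.conn fun i _ j _ h' => (rct_iff h hΦ hε).1 h'
  · intro H
    refine ⟨fun i hi h' => ?_, ?_, fun i hi => ?_, fun i hi t ht htT k hk hki hbk => ?_,
      fun i hi hiT => ?_, ?_⟩
    · obtain ⟨i, hi', rfl⟩ := Finset.mem_map.1 hi
      exact H.obs i hi' ((h.o i).2 h')
    · rw [← h.T]
      exact (h.ok hΦ hε _).2 H.ok
    · obtain ⟨i, hi', rfl⟩ := Finset.mem_map.1 hi
      rw [← h.bb]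
      exact H.bb_le i hi'
    · obtain ⟨i, hi', rfl⟩ := Finset.mem_map.1 hi
      obtain ⟨k, hk', rfl⟩ := Finset.mem_map.1 hk
      rw [h.st hΦ hε, h.st hΦ hε, ← h.ε]
      exact H.exit i hi' t ht (by rw [h.T]; exact htT) k hk' (fun h' => hki (congrArg e h'))
        (by rw [h.bb]; exact hbk)
    · obtain ⟨i, hi', rfl⟩ := Finset.mem_map.1 hi
      rcases H.last i hi' (by rw [h.T]; exact hiT) with h1 | ⟨k, hk, hki, hbk, hd⟩
      · left
        rw [← h.bb]
        exact h1
      · refine Or.inr ⟨e k, Finset.mem_map_of_mem e hk, fun h' => hki (e.injective h'), by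
          rw [← h.bb]; exact hbk, ?_⟩
        rw [h.st hΦ hε, h.st hΦ hε, ← h.ε]
        exact hd
    · exact H.conn.map e fun i _ j _ _ h' => Or.inl ((rct_iff h hΦ hε).2 h')

theorem cls_map {S : Finset J'} {bD : J → ℝ} {bD' : J' → ℝ}
    (H : Cls M' (fun k => Z (e k)) S bD') (hb : ∀ i ∈ S, bD (e i) = bD' i) :
    Cls M Z (S.map e) bD :=
  (cls_iff h hΦ hε).2 (H.congr hb)

omit hε in
theorem treeIn_iff {T' : ℝ} {P : CTree} {ll : PhasePoint} {p : Par P} {g : Idx P ↪ J'} :
    TreeIn M Z T' P ll p (g.trans e) ↔ TreeIn M' (fun k => Z (e k)) T' P ll p g := by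
  constructor
  · intro H
    refine ⟨fun i => ?_, fun i => ?_, fun i h' => H.o i ((h.o _).1 h'), ?_, ?_⟩
    · rw [h.b]; exact H.b i
    · rw [h.Φ, h.ε]; exact H.Z i
    · rw [h.Φ, h.ε]; exact H.valid
    · rw [h.Φ, h.ε]; exact H.sep
  · intro H
    refine ⟨fun i => ?_, fun i => ?_, fun i h' => H.o i ((h.o _).2 h'), ?_, ?_⟩
    · have := H.b i
      rw [h.b] at this
      exact this
    · have := H.Z i
      rw [h.Φ, h.ε] at this
      exact this
    · have := H.valid
      rw [h.Φ, h.ε] at this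
      exact this
    · have := H.sep
      rw [h.Φ, h.ε] at this
      exact this

/-- The image of a family of contacts. -/
def mapR (e : J' ↪ J) (R : ℝ → J' → J' → Prop) (r : ℝ) (j k : J) : Prop :=
  ∃ j' k', e j' = j ∧ e k' = k ∧ R r j' k'

omit h hΦ hε in
theorem mapR_iff {R : ℝ → J' → J' → Prop} {r : ℝ} {j k : J'} :
    mapR e R r (e j) (e k) ↔ R r j k := by
  constructor
  · rintro ⟨j', k', h1, h2, h3⟩
    rw [e.injective h1, e.injective h2] at h3
    exact h3
  · exact fun h => ⟨j, k, rfl, rfl, h⟩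

/-- Connecting families of contacts along an injection. -/
theorem fam_map {π : Finset J'} {R : ℝ → J' → J' → Prop}
    (H : Fam M' c (fun k => Z (e k)) π R) : Fam M c Z (π.map e) (mapR e R) := by
  refine ⟨H.conn.map e fun i _ j _ _ h' => Or.inl ?_, fun r j k => ?_,
    fun r hr j hj k hk hjk h' => ?_⟩
  · obtain ⟨r, hr, h1⟩ := h'
    rw [h.T] at hr
    exact ⟨r, hr, mapR_iff.2 h1⟩
  · rintro ⟨j', k', rfl, rfl, h1⟩
    exact ⟨k', j', rfl, rfl, H.symm _ _ _ h1⟩
  · obtain ⟨j, hj', rfl⟩ := Finset.mem_map.1 hj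
    obtain ⟨k, hk', rfl⟩ := Finset.mem_map.1 hk
    exact (h.vct hΦ hε).2 (H.vct r (by rw [h.T]; exact hr) j hj' k hk'
      (fun h' => hjk (congrArg e h')) (mapR_iff.1 h'))

end Crest.Agent.R122.LNEmb410

end
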