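import Crest.Agent.R122.XGood_547
import Crest.Agent.R122.LNEmb_410

/-!
# Row 122, LN1 (helper547): groups, `Reach` and `ReachAll` along an embedding of labels

`Pull M' M e` (helper968): `M'` is the master system `M` seen through the injection `e`.

* `grp_map`, `reach_map`, `reachAll_map` : groups, reached positions, `ReachAll`.
* `reachAll_eS` : from the gas and the structure (`Fin n ⊕ S`) to the gas, the structure and an
  independent line (`Fin n ⊕ (S ⊕ Unit)`, parts `Lx (piS n S) (px n S)`).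
* `reachAll_eL` : from the gas and the line (`Fin n ⊕ Unit`).
-/

set_option autoImplicit false
set_option linter.unusedSectionVars false
set_option maxHeartbeats 400000

open MeasureTheory Set Filter Topology
open scoped ENNReal
open Crest.AnalysisR.Kinetic
open Crest.Agent.R122.Ins45 Crest.Agent.R122.EDefs602 Crest.Agent.R122.CausalGen291
open Crest.Agent.R122.MWFam255 Crest.Agent.R122.GIV566
open Crest.Agent.R122.VL581 Crest.Agent.R122.LN304 Crest.Agent.R122.LNg410
open Crest.Agent.R122.LNBridge968 Crest.Agent.R122.LNPart424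
open Crest.Agent.R122.LNEv968 Crest.Agent.R122.LNEv818 Crest.Agent.R122.LNEv383
open scoped Classical

noncomputable section

namespace Crest.Agent.R122.XG547

section map

variable {J J' κ : Type} [Fintype J] [Fintype J'] {M : VSys J κ} {M' : VSys J' κ} {e : J' ↪ J}
  {Z : J → PhasePoint} {c : ℝ} {Λ' : Finset (Finset J')} {Λ : Finset (Finset J)}
  {π' : Finset J'} {a i : J'} {N d : ℕ}

/-- At most `d` members of parts are outside the image of the members of the parts `Λ'`. -/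
def Few (e : J' ↪ J) (Λ' : Finset (Finset J')) (Λ : Finset (Finset J)) (d : ℕ) : Prop :=
  (∀ i, e i ∈ uni Λ → i ∈ uni Λ') ∧
    ∃ D : Finset J, D.card ≤ d ∧ ∀ i ∈ uni Λ, i ∉ (uni Λ').map e → i ∈ D

/-- Groups along an embedding. -/
theorem grp_map (h : Pull M' M e) (hΦ : AdmissiblePotential M.Φ) (hε : 0 < M.ε)
    (hd : Few e Λ' Λ d) {Y : Finset J'} (hY : Grp M' c (fun k => Z (e k)) Λ' π' a N Y) :
    Grp M c Z Λ (π'.map e) (e a) (N + d) (Y.map e) where
  root := Finset.mem_map_of_mem e hY.root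
  gas k hk := by
    obtain ⟨k', hk', rfl⟩ := Finset.mem_map.1 hk
    rcases hY.gas k' hk' with h1 | h1
    · exact Or.inl (by rw [h1])
    · exact Or.inr fun h2 => h1 (hd.1 k' h2)
  obs k hk := by
    obtain ⟨k', hk', rfl⟩ := Finset.mem_map.1 hk
    exact fun h1 => hY.obs k' hk' ((h.o k').2 h1)
  card := by
    obtain ⟨D, hD, hDm⟩ := hd.2
    have h1 : Y.map e ∪ uni Λ ⊆ (Y ∪ uni Λ').map e ∪ D := by
      intro z hz
      simp only [Finset.mem_union] at hz ⊢
      by_cases h2 : z ∈ (uni Λ').map e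
      · obtain ⟨a, ha, haz⟩ := Finset.mem_map.1 h2
        exact Or.inl (Finset.mem_map.2 ⟨a, Finset.mem_union_right _ ha, haz⟩)
      · rcases hz with hz | hz
        · obtain ⟨a, ha, haz⟩ := Finset.mem_map.1 hz
          exact Or.inl (Finset.mem_map.2 ⟨a, Finset.mem_union_left _ ha, haz⟩)
        · exact Or.inr (hDm z hz h2)
    refine (Finset.card_le_card h1).trans ((Finset.card_union_le _ _).trans ?_)
    rw [Finset.card_map]
    exact Nat.add_le_add hY.card hD
  conn := by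
    refine hY.conn.map e fun i _ j _ _ h' => Or.inl ?_
    obtain ⟨h1, t, ht, h2⟩ := h'
    refine ⟨h1.imp (fun h3 h4 => h3 ((Finset.mem_map' e).1 h4))
      (fun h3 h4 => h3 ((Finset.mem_map' e).1 h4)), t, by rwa [h.T] at ht, ?_⟩
    rw [← Finset.map_union]
    exact (h.vct hΦ hε).2 h2

/-- Reached positions along an embedding. -/
theorem reach_map (h : Pull M' M e) (hΦ : AdmissiblePotential M.Φ) (hε : 0 < M.ε)
    (hd : Few e Λ' Λ d) {v : ℝ}
    {q : Space3} (hR : Reach M' c (fun k => Z (e k)) Λ' π' a N i v q) :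
    Reach M c Z Λ (π'.map e) (e a) (N + d) (e i) v q := by
  obtain ⟨Y, hY, hi, A, hA, hiA, hok, hq⟩ := hR
  refine ⟨Y.map e, grp_map h hΦ hε hd hY, Finset.mem_map_of_mem e hi, A.map e, ?_,
    Finset.mem_map_of_mem e hiA, (h.ok hΦ hε _).2 hok, ?_⟩
  · rw [← Finset.map_union]
    exact Finset.map_subset_map.2 hA
  · rw [h.st hΦ hε]
    exact hq

/-- `ReachAll` along a map of labels. -/
theorem reachAll_imp {ι : Type} [Fintype ι] {Φ : Space3 → ℝ} {ε T : ℝ} {K : ℕ} {W : MW ι} {l : ML}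
    {lab : ι → J'} {lab' : ι → J} {a : J'} {a' : J} {R : J' → ℝ → Space3 → Prop}
    {R' : J → ℝ → Space3 → Prop} (hR : ∀ j v q, R j v q → R' (e j) v q)
    (hl : ∀ k, lab' k = e (lab k)) (ha : a' = e a) (h : ReachAll R Φ ε K T W lab l a) :
    ReachAll R' Φ ε K T W lab' l a' := by
  intro u hu hθ x hx hb
  obtain ⟨h1, h2⟩ := h u hu hθ x hx hb
  refine ⟨?_, fun k hk => ?_⟩
  · have h3 := hR _ _ _ h1
    have h4 : Sum.elim lab' (fun _ => a') x = e (Sum.elim lab (fun _ => a) x) := by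
      rcases x with k | k
      · exact hl k
      · exact ha
    rwa [h4]
  · rw [hl k]
    exact hR _ _ _ (h2 k hk)

theorem reachAll_map {ι : Type} [Fintype ι] {Φ : Space3 → ℝ} {ε T : ℝ} {K : ℕ} {W : MW ι} {l : ML}
    {lab : ι → J'} {lab' : ι → J} {a' : J} (h : Pull M' M e) (hΦ : AdmissiblePotential M.Φ)
    (hε : 0 < M.ε) (hd : Few e Λ' Λ d) (hl : ∀ k, lab' k = e (lab k)) (ha : a' = e a)
    (hR : ReachAll (Reach M' c (fun k => Z (e k)) Λ' π' a N) Φ ε K T W lab l a) :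
    ReachAll (Reach M c Z Λ (π'.map e) a' (N + d)) Φ ε K T W lab' l a' := by
  subst ha
  exact reachAll_imp (fun _ _ _ h1 => reach_map h hΦ hε hd h1) hl rfl hR

end map

/-! ### The gas, a structure and an independent line -/

section gas

variable {Φ : Space3 → ℝ} {T ε c : ℝ} {S : Type} [Fintype S] {n N : ℕ} {b : S → ℝ}
  {z : S → PhasePoint} {w : Config n} {τ : ℝ} {y : PhasePoint}

theorem map_eS_univ : ((Finset.univ.map ⟨Sum.inr, Sum.inr_injective⟩ : Finset (Fin n ⊕ S)).map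
    (X692.eS n S)) = X692.piS n S := by
  ext j
  rw [X692.mem_piS, Finset.map_map, Finset.mem_map]
  constructor
  · rintro ⟨x, _, rfl⟩
    exact ⟨x, rfl⟩
  · rintro ⟨x, rfl⟩
    exact ⟨x, Finset.mem_univ _, rfl⟩

theorem few_eS {Λ' : Finset (Finset (Fin n ⊕ S))}
    (hcov : ∀ x : S, (Sum.inr x : Fin n ⊕ S) ∈ uni Λ') :
    Few (X692.eS n S) Λ' (X692.Lx (X692.piS n S) (X692.px n S)) 1 := by
  refine ⟨fun i hi => ?_, {X692.px n S}, (Finset.card_singleton _).le, fun j hj h' => ?_⟩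
  · rcases i with i | x
    · exfalso
      rcases X692.mem_uni_Lx.1 hi with h | h
      · exact X692.inl_notMem_piS (S := S) i h
      · cases h
    · exact hcov x
  · rcases X692.mem_uni_Lx.1 hj with h | h
    · obtain ⟨x, rfl⟩ := X692.mem_piS.1 h
      exact absurd (Finset.mem_map_of_mem (X692.eS n S) (hcov x)) h'
    · exact Finset.mem_singleton.2 h

/-- **From the structure to the structure and the line.** -/
theorem reachAll_eS (hΦ : AdmissiblePotential Φ) (hε : 0 < ε) {Λ' : Finset (Finset (Fin n ⊕ S))}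
    (hcov : ∀ x : S, (Sum.inr x : Fin n ⊕ S) ∈ uni Λ')
    {π' : Finset (Fin n ⊕ S)} (hπ' : ∀ j, j ∈ π' ↔ ∃ x, j = Sum.inr x) {a : S} {ι : Type}
    [Fintype ι] {ε' T' : ℝ} {Φ' : Space3 → ℝ} {K : ℕ} {W : MW ι} {l : ML} {lab : ι → Fin n ⊕ S}
    {lab' : ι → Fin n ⊕ (S ⊕ Unit)} (hl : ∀ k, lab' k = X692.eS n S (lab k))
    (hR : ReachAll (Reach (gsys Φ T ε n b) c (Sum.elim w z) Λ' π' (Sum.inr a) N) Φ' ε' K T' W lab l
      (Sum.inr a)) :
    ReachAll (Reach (gsys Φ T ε n (X692.bx b τ)) c (Sum.elim w (X692.zx z y))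
      (X692.Lx (X692.piS n S) (X692.px n S)) (X692.piS n S) (Sum.inr (Sum.inl a)) (N + 1))
      Φ' ε' K T' W lab' l (Sum.inr (Sum.inl a)) := by
  have hπ : π' = (Finset.univ.map ⟨Sum.inr, Sum.inr_injective⟩ : Finset (Fin n ⊕ S)) := by
    ext j
    rw [hπ' j, Finset.mem_map]
    exact ⟨fun ⟨x, hx⟩ => ⟨x, Finset.mem_univ _, hx.symm⟩, fun ⟨x, _, hx⟩ => ⟨x, hx.symm⟩⟩
  subst hπ
  have h1 := reachAll_map (M := gsys Φ T ε n (X692.bx b τ)) (c := c)
    (Z := Sum.elim w (X692.zx z y)) (Λ := X692.Lx (X692.piS n S) (X692.px n S)) (Λ' := Λ')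
    (π' := (Finset.univ.map ⟨Sum.inr, Sum.inr_injective⟩ : Finset (Fin n ⊕ S))) (d := 1)
    (X692.pull_eS (Φ := Φ) (T := T) (ε := ε) (n := n) b τ) hΦ hε
    (few_eS hcov) hl (a := Sum.inr a) (a' := Sum.inr (Sum.inl a)) rfl (N := N) (by
      rw [X692.elim_eS]
      exact hR)
  rw [map_eS_univ] at h1
  exact h1

theorem few_eL {Λ' : Finset (Finset (Fin n ⊕ Unit))}
    (hcov : (Sum.inr () : Fin n ⊕ Unit) ∈ uni Λ') :
    Few (X692.eL n S) Λ' (X692.Lx (X692.piS n S) (X692.px n S)) (Fintype.card S) := by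
  refine ⟨fun i hi => ?_, X692.piS n S, ?_, fun j hj h' => ?_⟩
  · rcases i with i | x
    · exfalso
      rcases X692.mem_uni_Lx.1 hi with h | h
      · exact X692.inl_notMem_piS (S := S) i h
      · cases h
    · exact hcov
  · unfold X692.piS
    rw [Finset.card_map, Finset.card_univ]
  · rcases X692.mem_uni_Lx.1 hj with h | h
    · exact h
    · exact absurd (h ▸ Finset.mem_map_of_mem (X692.eL n S) hcov) h'

/-- **From the line to the structure and the line.** -/
theorem reachAll_eL (hΦ : AdmissiblePotential Φ) (hε : 0 < ε)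
    {Λ' : Finset (Finset (Fin n ⊕ Unit))} (hcov : (Sum.inr () : Fin n ⊕ Unit) ∈ uni Λ')
    {ι : Type} [Fintype ι] {ε' T' : ℝ} {Φ' : Space3 → ℝ} {K : ℕ} {W : MW ι} {l : ML}
    {lab : ι → Fin n ⊕ Unit} {lab' : ι → Fin n ⊕ (S ⊕ Unit)}
    (hl : ∀ k, lab' k = X692.eL n S (lab k))
    (hR : ReachAll (Reach (gsys Φ T ε n fun _ : Unit => τ) c (Sum.elim w fun _ => y) Λ'
      {Sum.inr ()} (Sum.inr ()) N) Φ' ε' K T' W lab l (Sum.inr ())) :
    ReachAll (Reach (gsys Φ T ε n (X692.bx b τ)) c (Sum.elim w (X692.zx z y))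
      (X692.Lx (X692.piS n S) (X692.px n S)) {X692.px n S} (X692.px n S) (N + Fintype.card S))
      Φ' ε' K T' W lab' l (X692.px n S) := by
  have h1 := reachAll_map (M := gsys Φ T ε n (X692.bx b τ)) (c := c)
    (Z := Sum.elim w (X692.zx z y)) (Λ := X692.Lx (X692.piS n S) (X692.px n S)) (Λ' := Λ')
    (π' := {Sum.inr ()}) (d := Fintype.card S)
    (X692.pull_eL (Φ := Φ) (T := T) (ε := ε) (n := n) (S := S) b τ) hΦ hε
    (few_eL hcov) hl (a := Sum.inr ()) (a' := X692.px n S) rfl (N := N) (by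
      rw [X692.elim_eL]
      exact hR)
  rw [Finset.map_singleton] at h1
  exact h1

end gas

end Crest.Agent.R122.XG547

end
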