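import Crest.Agent.R122.LNLine_522
import Crest.Agent.R122.XMap_547
import Crest.Agent.R122.XGood_547
import Crest.Agent.R122.LNGraftCt_410
import Crest.Agent.R122.ErrBGate_823
import Crest.Agent.R122.EFam_879

/-!
# Row 122, LN1 (helper818): two independent lines, the deterministic statement of `errB`

* `meet_of_conn` : two labels without obstacle which are connected alone have free lines which come
  within `c ε`.
* `noLink_dx` : two independent lines are not linked in the gas, off the alternatives of the lines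
  alone, `Meet` and a bad partition of the two lines with gas.
* `w1E_alt` : the same for `W1E` (helper823's hypothesis of `errB`).
-/

set_option autoImplicit false
set_option linter.unusedSectionVars false

open MeasureTheory Set Filter Topology
open scoped Classical ENNReal
open Crest.AnalysisR.Kinetic
open Crest.Agent.R122.Ins45 Crest.Agent.R122.EDefs602
open Crest.Agent.R122.VL581 Crest.Agent.R122.VL581.VSys Crest.Agent.R122.VLInst442
open Crest.Agent.R122.LN304 Crest.Agent.R122.LNBridge968 Crest.Agent.R122.LNPart424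
open Crest.Agent.R122.LNEv818 Crest.Agent.R122.LNEv968 Crest.Agent.R122.Causal291
open Crest.Agent.R122.X692 Crest.Agent.R122.Line522 Crest.Agent.R122.ErrB823

noncomputable section

namespace Crest.Agent.R122.ErrB818

section two

variable {J κ : Type} [Fintype J] {M : VSys J κ} {Z : J → PhasePoint} {c : ℝ} {p q : J}

/-- Two labels which never come within `ε` fly freely in every sub-world of the two. -/
theorem st_of_far (hΦ : AdmissiblePotential M.Φ) (hε : 0 < M.ε) (hpq : p ≠ q)
    (hp : M.o ≠ some p) (hq : M.o ≠ some q)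
    (hfar : ∀ s ∈ Icc 0 M.T, M.ε ≤ dist (fl s (Z p)).1 (fl s (Z q)).1) {A : Finset J}
    (hA : A ⊆ {p, q}) (hpA : p ∈ A) {t : ℝ} (ht : t ≤ M.T) : M.st A t Z p = fl t (Z p) := by
  by_cases hqA : q ∈ A
  · have h1 : A = {p} ∪ {q} := by
      ext j
      rw [Finset.mem_union, Finset.mem_singleton, Finset.mem_singleton]
      constructor
      · intro hj
        simpa using hA hj
      · rintro (rfl | rfl)
        · exact hpA
        · exact hqA
    rw [h1]
    have hok : ∀ (j : J) (u : ℝ), M.ok {j} u Z := by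
      intro j u i hi _ _ k hk _ hki _
      rw [Finset.mem_singleton] at hi hk
      exact absurd (hk.trans hi.symm) hki
    have h2 := st_union hΦ hε (Finset.disjoint_singleton.2 hpq) (hok p t) (hok q t) (Z := Z)
      (fun s hs i hi j hj _ _ _ _ => by
        rw [Finset.mem_singleton] at hi hj
        subst hi hj
        rw [LNGraft410.st_single hΦ hε hp (hs.2.le.trans ht),
          LNGraft410.st_single hΦ hε hq (hs.2.le.trans ht)]
        exact hfar s ⟨hs.1, hs.2.le.trans ht⟩) t le_rfl
    rw [h2.1 p (Finset.mem_singleton_self p)]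
    exact LNGraft410.st_single hΦ hε hp ht
  · have h1 : A = {p} := by
      ext j
      rw [Finset.mem_singleton]
      constructor
      · intro hj
        have h2 := hA hj
        rw [Finset.mem_insert, Finset.mem_singleton] at h2
        rcases h2 with h2 | h2
        · exact h2
        · exact absurd (h2 ▸ hj) hqA
      · rintro rfl
        exact hpA
    rw [h1]
    exact LNGraft410.st_single hΦ hε hp ht

/-- **Two labels connected alone** : their free lines come within `c ε`. -/
theorem meet_of_conn (hΦ : AdmissiblePotential M.Φ) (hε : 0 < M.ε) (hc : 1 ≤ c) (hpq : p ≠ q)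
    (hp : M.o ≠ some p) (hq : M.o ≠ some q) {P : Finset J} (hP : ∀ j, j ∈ P ↔ j = p ∨ j = q)
    (h : M.Conn c P Z) : ∃ s ∈ Icc 0 M.T, dist (fl s (Z p)).1 (fl s (Z q)).1 ≤ c * M.ε := by
  have hP' : P = {p, q} := by
    ext j
    rw [hP]
    simp
  subst hP'
  by_cases hfar : ∀ s ∈ Icc 0 M.T, M.ε ≤ dist (fl s (Z p)).1 (fl s (Z q)).1
  swap
  · push Not at hfar
    obtain ⟨s, hs, h1⟩ := hfar
    exact ⟨s, hs, h1.le.trans (le_mul_of_one_le_left hε.le hc)⟩
  obtain ⟨i, hi, j, hj, t, ht, A, hA, B, hB, k, l, hiA, hjB, -, -, -, -, hd⟩ := h.2 {p}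
    (by simp) (Finset.singleton_nonempty p) (fun h1 => hpq (by
      have h2 : q ∈ ({p} : Finset J) := by
        rw [h1]
        simp
      exact (Finset.mem_singleton.1 h2).symm))
  rw [Finset.mem_singleton] at hi
  subst hi
  have hjq : j = q := by
    rw [Finset.mem_sdiff, Finset.mem_insert, Finset.mem_singleton, Finset.mem_singleton] at hj
    exact hj.1.resolve_left hj.2
  subst hjq
  refine ⟨t, ht, ?_⟩
  unfold VSys.pos at hd
  rw [if_neg hp, if_neg hq, st_of_far hΦ hε hpq hp hq hfar hA hiA ht.2,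
    st_of_far hΦ hε hpq.symm hq hp (fun s hs => by
      rw [dist_comm]
      exact hfar s hs) (hB.trans (by rw [Finset.pair_comm])) hjB ht.2] at hd
  exact hd

end two

variable {Φ : Space3 → ℝ} {ε t T T₁ c R ς : ℝ} {n N K L m : ℕ} {w : Config n} {d x : ML}

theorem fl_back_posAt (l : ML) (s : ℝ) : (fl s (back l.1)).1 = Boost969.posAt s l.1 := by
  unfold fl back Boost969.posAt
  simp only
  rw [sub_smul]
  abel

theorem piS_unit : piS n Unit = {(Sum.inr (Sum.inl ()) : Fin n ⊕ (Unit ⊕ Unit))} := by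
  ext j
  rw [mem_piS, Finset.mem_singleton]
  exact ⟨fun ⟨_, h⟩ => h, fun h => ⟨(), h⟩⟩

/-- Births of the two lines. -/
abbrev bdx (d x : ML) : Unit ⊕ Unit → ℝ := bx (fun _ : Unit => d.1.1) x.1.1

/-- States at time `0` of the two lines. -/
abbrev zdx (d x : ML) : Unit ⊕ Unit → PhasePoint := zx (fun _ : Unit => back d.1) (back x.1)

/-- **Two independent lines are not linked** (off the alternatives). -/
theorem noLink_dx (hΦ : AdmissiblePotential Φ) (hε : 0 < ε) (ht : 0 < t) (htT : t ≤ T)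
    (hT₁ : T < T₁) (hc : 1 ≤ c) (hς : 2 * (R * ε) ≤ ς) (hw : w ∈ PairExcluded ε n)
    (hd0 : 0 ≤ d.1.1) (hx0 : 0 ≤ x.1.1) (hW : (MW.cfg w).Ok Φ ε) (hWd : ((MW.cfg w).ins d).Ok Φ ε)
    (hWx : ((MW.cfg w).ins x).Ok Φ ε) (hN : 4 * (1 + K * (m + 2)) ≤ N) :
    MW.NoLink Φ ε K t (MW.cfg w) (MW.line d) (MW.line x) ∨
      XAlt Φ T T₁ t c R ς ε K m N d w ∨ XAlt Φ T T₁ t c R ς ε K m N x w ∨
        Meet ε c t d.1 x.1 ∨
          LN2.BadGas Φ T c R ς ε N 2 (∅ : Finset (Unit ⊕ Unit)) (bdx d x) (zdx d x) w := by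
  have hN1 : 1 + 2 * K * (m + 2) ≤ N := by
    have h1 : 2 * K * (m + 2) = 2 * (K * (m + 2)) := by ring
    omega
  rcases rAll1_or (K := K) (m := m) (N := N) (c := c) (T := T) (T₁ := T₁) (t := t) (x := d) hΦ hε
    hd0 hW hWd ht htT hT₁ hc hς hw hN1 with hd | hd
  swap
  · exact Or.inr (Or.inl hd)
  rcases rAll1_or (K := K) (m := m) (N := N) (c := c) (T := T) (T₁ := T₁) (t := t) (x := x) hΦ hε
    hx0 hW hWx ht htT hT₁ hc hς hw hN1 with hx | hx
  swap
  · exact Or.inr (Or.inr (Or.inl hx))
  set M := gsys Φ t ε n (bdx d x) with hM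
  set Zc : Fin n ⊕ (Unit ⊕ Unit) → PhasePoint := Sum.elim w (zdx d x) with hZc
  have hconn : M.Conn c (piS n Unit) Zc := by
    rw [piS_unit]
    exact LNg410.conn_singleton _
  have hno : ∀ j, M.o ≠ some j := by
    intro j h
    have h1 : (none : Option (Fin n ⊕ (Unit ⊕ Unit))) = some _ := h
    exact absurd h1 (by simp)
  by_cases hJ : Joint M c Zc (piS n Unit) (px n Unit) N
  · right; right; right
    rcases joint_gas' (R := R) (ς := ς) hΦ hε hJ with h | h
    · left
      obtain ⟨s, hs, hsd⟩ := meet_of_conn (M := M) (p := Sum.inr (Sum.inl ())) (q := px n Unit)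
        hΦ hε hc (fun h => absurd (Sum.inr_injective h) Sum.inl_ne_inr) (hno _) (hno _)
        (fun j => by
          simp only [Finset.mem_insert, piS_unit, Finset.mem_singleton]
          exact or_comm) h
      refine ⟨s, hs, ?_⟩
      rw [← fl_back_posAt, ← fl_back_posAt, dist_comm]
      exact hsd
    · exact Or.inr (LN2.badGasW_hor htT h).badGas
  · left
    refine XG547.noLink_x (M := M) (Zc := Zc) (π := piS n Unit) (p := px n Unit)
      (q := Sum.inr (Sum.inl ())) (lab := fun i : Fin n => Sum.inl i)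
      (N := 1 + 2 * K * (m + 2) + 1) (N' := 1 + 2 * K * (m + 2) + 1) hΦ hε rfl le_rfl hc hconn
      (mem_piS.2 ⟨(), rfl⟩) px_notMem_piS (fun h => hJ (h.mono ?_)) (fun _ _ h =>
        Sum.inl_injective h) ?_ ?_
    · have h1 : 2 * K * (m + 2) = 2 * (K * (m + 2)) := by ring
      omega
    · exact XG547.reachAll_eS (b := fun _ : Unit => d.1.1) (z := fun _ : Unit => back d.1)
        (τ := x.1.1) (y := back x.1) hΦ hε (Λ' := L1 n) (fun _ => by
          rw [uni_L1]
          exact Finset.mem_singleton_self _) (π' := {p1 n}) (fun j => by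
          rw [Finset.mem_singleton]
          exact ⟨fun h => ⟨(), h⟩, fun ⟨_, h⟩ => h⟩) (a := ()) (lab := Sum.inl) (fun _ => rfl) hd
    · have h1 := XG547.reachAll_eL (S := Unit) (b := fun _ : Unit => d.1.1)
        (z := fun _ : Unit => back d.1) (τ := x.1.1) (y := back x.1) (w := w) hΦ hε (Λ' := L1 n) (by
          rw [uni_L1]
          exact Finset.mem_singleton_self _) (lab := Sum.inl)
          (lab' := fun i : Fin n => Sum.inl i) (fun _ => rfl) hx
      rw [Fintype.card_unit] at h1
      exact h1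

/-- **The deterministic statement of `errB`.** -/
theorem w1E_alt (hΦ : AdmissiblePotential Φ) (hε : 0 < ε) (ht : 0 < t) (htT : t ≤ T)
    (hT₁ : T < T₁) (hc : 1 ≤ c) (hς : 2 * (R * ε) ≤ ς) (hw : w ∈ PairExcluded ε n)
    (hd0 : 0 ≤ d.1.1) (hx0 : 0 ≤ x.1.1) (hW : (MW.cfg w).Ok Φ ε) (hWd : ((MW.cfg w).ins d).Ok Φ ε)
    (hWx : ((MW.cfg w).ins x).Ok Φ ε) (hWdx : (((MW.cfg w).ins d).ins x).Ok Φ ε)
    (hN : 4 * (1 + K * (m + 2)) ≤ N)
    (h : ¬ Decomp811.W1E Φ ε K t (MW.cfg w) (MW.line d) (MW.line x)) :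
    XAlt Φ T T₁ t c R ς ε K m N d w ∨ XAlt Φ T T₁ t c R ς ε K m N x w ∨
      Meet ε c t d.1 x.1 ∨
        LN2.BadGas Φ T c R ς ε N 2 (∅ : Finset (Unit ⊕ Unit)) (bdx d x) (zdx d x) w := by
  rcases noLink_dx (R := R) (ς := ς) (m := m) hΦ hε ht htT hT₁ hc hς hw hd0 hx0 hW hWd hWx hN
    with h1 | h1
  · exact absurd (MW.W1_of_noLink hΦ hε hW hWd hWx hWdx ht.le h1) h
  · exact h1

end Crest.Agent.R122.ErrB818

end
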