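import Crest.Agent.R122.ErrBNull_823
import Crest.Agent.R122.GateCap_973

/-!
# Row 122 (helper823): the gate of `errB` with families of bad events

* `errB_gate_le` : the gate with alternatives of small mass (instead of null ones), chosen after `δ`.
* `ErrBFam` : the literal det shape of helper973's `fNull_cap_of_det` for the two lines of `errB`.
* `null_errB_fam` : `ErrBFam` for every `K` gives `Null (fun K ε => H5994.errB Φ f₀ ε K Q)`.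
-/

set_option autoImplicit false

open MeasureTheory Set Filter Topology
open scoped ENNReal
open Crest.AnalysisR.Kinetic
open Crest.Agent.R122.GC311 Crest.Agent.R122.EDefs602 Crest.Agent.R122.Decomp811
open Crest.Agent.R122.TouchFlux494 (Near near_of_thetaL_le')
open Crest.Agent.R122.Gate424 Crest.Agent.R122.Gate973

noncomputable section

namespace Crest.Agent.R122.ErrB823

variable {Φ : Space3 → ℝ} {f₀ : PhasePoint → ℝ} {R te : ℝ} {γ : ℝ → ℝ} {ρm : ℝ≥0∞} {K : ℕ}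
  {g0 : ℝ}

/-- **The gate**, alternatives of small mass, chosen after `δ`. -/
theorem errB_gate_le {I : Type} (hΦ : AdmissiblePotential Φ) (hf : Measurable f₀)
    (h1 : ∫⁻ z, ENNReal.ofReal (f₀ z) ≤ 1) (hmean : Conc984.mean f₀ Conc984.en ≠ ∞)
    (hexc : Tendsto (fun ε => gcE f₀ ε (Conc984.exc f₀ ε Conc984.en)) (𝓝[>] 0) (𝓝 0))
    (hR : 0 < R) (hγ : Measurable γ)
    (hγ₀ : ∀ τ ∈ Ioc (0 : ℝ) te, g0 ≤ γ τ) (hg : 0 < g0) (hρ : ρm ≠ ∞) {c : ℝ≥0∞} (hc : c ≠ ∞)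
    {Tch : ℝ → I → (n : ℕ) → ML → Config n → Prop}
    {E : ℝ → I → (n : ℕ) → ML → ML → Config n → Prop}
    (hdet : ∀ η : ℝ≥0∞, 0 < η → ∃ (R' T : ℝ) (S Sx : ℝ → I → (n : ℕ) → ML → Config n → Prop)
      (E' : ℝ → I → (n : ℕ) → ML × ML → Config n → Prop), 0 < R' ∧ 0 ≤ T ∧
      GLe f₀ (fun _ (_ : I) => lineM γ ρm K te) S η ∧
      GLe f₀ (fun _ (_ : I) => lineM γ ρm K te) Sx η ∧
      GLe f₀ (fun _ (_ : I) => (lineM γ ρm K te).prod (lineM γ ρm K te)) E' η ∧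
      ∃ ε₁ : ℝ, 0 < ε₁ ∧ ∀ ε : ℝ, 0 < ε → ε < ε₁ → ∀ i n, ∀ w ∈ PairExcluded ε n,
      ∀ᵐ d ∂lineM γ ρm K te, Tch ε i n d w → S ε i n d w ∨ (Near Φ ε R te w d.1 ∧
        ∀ᵐ x ∂lineM γ ρm K te, E ε i n d x w →
          Sx ε i n x w ∨ Meet ε R' T d.1 x.1 ∨ E' ε i n (d, x) w)) {δ : ℝ≥0∞} (hδ : 0 < δ) :
    ∃ ε₀ : ℝ, 0 < ε₀ ∧ ∀ ε : ℝ, 0 < ε → ε < ε₀ → ∀ i : I,
      gcE f₀ ε (fun n w => ∫⁻ d, (open Classical in if Tch ε i n d w then
        min 1 (c * lineM γ ρm K te {x | E ε i n d x w}) else 0) ∂lineM γ ρm K te) ≤ δ := by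
  classical
  set μ := lineM γ ρm K te with hμ
  set cN0 := cNear Φ R te ρm K g0 0 with hcN0
  set cN1 := cNear Φ R te ρm K g0 1 with hcN1
  set mn := Conc984.mean f₀ Conc984.en with hmn
  have hcN0t : cN0 ≠ ∞ := cNear_ne_top hg hρ 0
  have hcN1t : cN1 ≠ ∞ := cNear_ne_top hg hρ 1
  -- the constants
  set A : ℝ≥0∞ := 1 + (1 + c) * cN0 * mn + (1 + c) * cN0 + 1 + c with hA
  have h1c : 1 + c ≠ ∞ := ENNReal.add_ne_top.2 ⟨ENNReal.one_ne_top, hc⟩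
  have hAt : A ≠ ∞ := by
    refine ENNReal.add_ne_top.2 ⟨ENNReal.add_ne_top.2 ⟨ENNReal.add_ne_top.2
      ⟨ENNReal.add_ne_top.2 ⟨ENNReal.one_ne_top, ?_⟩, ?_⟩, ENNReal.one_ne_top⟩, hc⟩
    · exact ENNReal.mul_ne_top (ENNReal.mul_ne_top h1c hcN0t) hmean
    · exact ENNReal.mul_ne_top h1c hcN0t
  have hA0 : A ≠ 0 := by
    rw [hA]
    intro h
    simp at h
  rcases eq_or_ne δ ∞ with rfl | hδt
  · exact ⟨1, one_pos, fun _ _ _ _ => le_top⟩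
  set η : ℝ≥0∞ := δ / A with hη
  have hη0 : 0 < η := ENNReal.div_pos hδ.ne' hAt
  have hAη : A * η = δ := by
    rw [hη]
    exact ENNReal.mul_div_cancel hA0 hAt
  obtain ⟨R', T, S, Sx, E', hR', hT, hS, hX, hE, hdet⟩ := hdet η hη0
  obtain ⟨ε₁, e1, hS⟩ := hS
  obtain ⟨ε₂, e2, hX⟩ := hX
  obtain ⟨ε₃, e3, hE⟩ := hE
  obtain ⟨ε₄, e4, hdet⟩ := hdet
  set cM := cMeet R' te T ρm K g0 with hcM
  have hcMt : cM ≠ ∞ := cMeet_ne_top hg hρ
  have h5 : ∀ᶠ ε : ℝ in 𝓝[>] 0, gcE f₀ ε (Conc984.exc f₀ ε Conc984.en) < η :=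
    hexc.eventually_lt_const hη0
  have h6 : ∀ᶠ ε : ℝ in 𝓝[>] 0, c * cM * ENNReal.ofReal ε ^ 2 * (cN1 * mn) < η := by
    have h7 : Tendsto (fun ε : ℝ => c * cM * ENNReal.ofReal ε ^ 2 * (cN1 * mn)) (𝓝[>] 0)
        (𝓝 0) := by
      have h8 : Tendsto (fun ε : ℝ => ENNReal.ofReal ε ^ 2) (𝓝 0) (𝓝 (ENNReal.ofReal 0 ^ 2)) :=
        ((ENNReal.continuous_pow 2).comp ENNReal.continuous_ofReal).tendsto 0
      rw [ENNReal.ofReal_zero, zero_pow two_ne_zero] at h8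
      have h10 : Tendsto (fun ε : ℝ => ENNReal.ofReal ε ^ 2) (𝓝[>] 0) (𝓝 0) :=
        h8.mono_left nhdsWithin_le_nhds
      have h9 := ENNReal.Tendsto.mul_const (ENNReal.Tendsto.const_mul (a := c * cM)
        h10 (Or.inr (ENNReal.mul_ne_top hc hcMt)))
        (b := cN1 * mn) (Or.inr (ENNReal.mul_ne_top hcN1t hmean))
      rwa [mul_zero, zero_mul] at h9
    exact h7.eventually_lt_const hη0
  obtain ⟨ε₅, e5, h56⟩ := mem_nhdsGT_iff_exists_Ioo_subset.1 (h5.and h6)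
  have e5' : (0 : ℝ) < ε₅ := e5
  refine ⟨min (min (min ε₁ ε₂) (min ε₃ ε₄)) (min ε₅ 1), by positivity, fun ε hε hlt i => ?_⟩
  have l1 : ε < ε₁ := hlt.trans_le ((min_le_left _ _).trans ((min_le_left _ _).trans (min_le_left _ _)))
  have l2 : ε < ε₂ := hlt.trans_le ((min_le_left _ _).trans ((min_le_left _ _).trans (min_le_right _ _)))
  have l3 : ε < ε₃ := hlt.trans_le ((min_le_left _ _).trans ((min_le_right _ _).trans (min_le_left _ _)))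
  have l4 : ε < ε₄ := hlt.trans_le ((min_le_left _ _).trans ((min_le_right _ _).trans (min_le_right _ _)))
  have l5 : ε < ε₅ := hlt.trans_le ((min_le_right _ _).trans (min_le_left _ _))
  have l6 : ε ≤ 1 := (hlt.trans_le ((min_le_right _ _).trans (min_le_right _ _))).le
  obtain ⟨GS, s1, s2, s3⟩ := hS ε hε l1 i
  obtain ⟨GX, x1, x2, x3⟩ := hX ε hε l2 i
  obtain ⟨GE, g1, g2, g3⟩ := hE ε hε l3 i
  obtain ⟨h7, h8⟩ := h56 ⟨hε, l5⟩
  have key := errB_le (f₀ := f₀) (ε := ε) (c := c) (Tch := fun n d w => Tch ε i n d w)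
    (E := fun n d x w => E ε i n d x w) hΦ hf h1 hmean hε l6 hR hR' hT hγ hγ₀ hg hρ hc s1 x1 g1
    (fun n w hw => by
      filter_upwards [hdet ε hε l4 i n w hw] with d hd ht
      rcases hd ht with h | ⟨h, h'⟩
      · exact Or.inl (s2 n d w hw h)
      · refine Or.inr ⟨h, ?_⟩
        filter_upwards [h'] with x hx hEx
        rcases hx hEx with h | h | h
        · exact Or.inl (x2 n x w hw h)
        · exact Or.inr (Or.inl h)
        · exact Or.inr (Or.inr (g2 n (d, x) w hw h)))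
  refine key.trans ?_
  calc (∫⁻ d, gcE f₀ ε (fun n w => GS n (d, w)) ∂μ) +
        (1 + c) * (cN0 * (mn * (∫⁻ x, gcE f₀ ε (fun n w => GX n (x, w)) ∂μ) +
          gcE f₀ ε (Conc984.exc f₀ ε Conc984.en))) +
        c * cM * ENNReal.ofReal ε ^ 2 * (cN1 * mn) +
        c * ∫⁻ p, gcE f₀ ε (fun n w => GE n (p, w)) ∂μ.prod μ
      ≤ η + (1 + c) * (cN0 * (mn * η + η)) + η + c * η := by
        refine add_le_add (add_le_add (add_le_add s3 ?_) h8.le) (mul_le_mul_right g3 _)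
        exact mul_le_mul_right (mul_le_mul_right (add_le_add (mul_le_mul_right x3 _) h7.le) _) _
    _ = A * η := by
        rw [hA]
        ring
    _ = δ := hAη

/-- The link alternatives of `errB` for one `K`, in the shape of helper973's `fNull_cap_of_det`:
structure = the base line `d` (touched in the window, near the gas), independent line `x`. -/
def ErrBFam (Φ : Space3 → ℝ) (f₀ : PhasePoint → ℝ) (Q : EPar) (K : ℕ) : Prop :=
  ∃ (RS HS RX HX : ℕ → ℝ → Unit → (n : ℕ) → ML → Config n → Prop)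
    (HJ : ℕ → ℝ → Unit → (n : ℕ) → ML × ML → Config n → Prop),
    (∀ δ : ℝ≥0∞, 0 < δ → ∃ L₀ : ℕ, ∀ L, L₀ ≤ L →
      GLe f₀ (fun _ (_ : Unit) => lineM Q.γ Q.ρ K Q.te) (RS L) δ) ∧
    (∀ δ : ℝ≥0∞, 0 < δ → ∃ L₀ : ℕ, ∀ L, L₀ ≤ L →
      GLe f₀ (fun _ (_ : Unit) => lineM Q.γ Q.ρ K Q.te) (RX L) δ) ∧
    (∀ L, GNull f₀ (fun _ (_ : Unit) => lineM Q.γ Q.ρ K Q.te) (HS L)) ∧
    (∀ L, GNull f₀ (fun _ (_ : Unit) => lineM Q.γ Q.ρ K Q.te) (HX L)) ∧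
    (∀ L, GNull f₀ (fun _ (_ : Unit) => (lineM Q.γ Q.ρ K Q.te).prod (lineM Q.γ Q.ρ K Q.te))
      (HJ L)) ∧
    ∀ L : ℕ, ∃ (BS BX : ℝ → ℝ → ℝ → Unit → (n : ℕ) → ML → Config n → Prop)
      (BJ : ℝ → ℝ → ℝ → Unit → (n : ℕ) → ML × ML → Config n → Prop),
      BadF f₀ (fun _ (_ : Unit) => lineM Q.γ Q.ρ K Q.te) BS ∧
      BadF f₀ (fun _ (_ : Unit) => lineM Q.γ Q.ρ K Q.te) BX ∧
      BadF f₀ (fun _ (_ : Unit) => (lineM Q.γ Q.ρ K Q.te).prod (lineM Q.γ Q.ρ K Q.te)) BJ ∧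
      ∀ R > 0, ∀ ς > 0, ∃ R' T ε₁ : ℝ, 0 < R' ∧ 0 ≤ T ∧ 0 < ε₁ ∧ ∀ ε : ℝ, 0 < ε → ε < ε₁ →
        ∀ (n : ℕ), ∀ w ∈ PairExcluded ε n, ∀ᵐ d ∂lineM Q.γ Q.ρ K Q.te,
        WinTch Φ ε K Q w d → Near Φ ε 1 Q.te w d.1 →
        (RS L ε () n d w ∨ BS R ς ε () n d w ∨ HS L ε () n d w) ∨
        ∀ᵐ x ∂lineM Q.γ Q.ρ K Q.te, ¬ W1E Φ ε K Q.te (MW.cfg w) (MW.line d) (MW.line x) →
          (RX L ε () n x w ∨ BX R ς ε () n x w ∨ HX L ε () n x w) ∨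
          (Meet ε R' T d.1 x.1 ∨ BJ R ς ε () n (d, x) w ∨ HJ L ε () n (d, x) w)

/-- **`errB` is null**, family form. -/
theorem null_errB_fam (hΦ : AdmissiblePotential Φ) (hf : Measurable f₀)
    (h1 : ∫⁻ z, ENNReal.ofReal (f₀ z) ≤ 1) (hmean : Conc984.mean f₀ Conc984.en ≠ ∞)
    (hexc : Tendsto (fun ε => gcE f₀ ε (Conc984.exc f₀ ε Conc984.en)) (𝓝[>] 0) (𝓝 0))
    {Q : EPar} (hte : 0 ≤ Q.te) (hγ : Measurable Q.γ)
    (hγ₀ : ∀ τ ∈ Ioc (0 : ℝ) Q.te, g0 ≤ Q.γ τ) (hg : 0 < g0) (hρ : Q.ρ ≠ ∞)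
    (hdet : ∀ K, ErrBFam Φ f₀ Q K) : Null fun K ε => H5994.errB Φ f₀ ε K Q := by
  classical
  intro K δ hδ
  obtain ⟨RS, HS, RX, HX, HJ, hRS, hRX, hHS, hHX, hHJ, hdet⟩ := hdet K
  obtain ⟨ε₀, e0, h⟩ := errB_gate_le (I := Unit) (R := 1) (te := Q.te)
    (γ := Q.γ) (ρm := Q.ρ) (K := K) (c := ENNReal.ofReal Q.L)
    (Tch := fun ε _ n d w => WinTch Φ ε K Q w d)
    (E := fun ε _ n d x w => ¬ W1E Φ ε K Q.te (MW.cfg w) (MW.line d) (MW.line x))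
    hΦ hf h1 hmean hexc one_pos hγ hγ₀ hg hρ ENNReal.ofReal_ne_top
    (fun η hη => by
      obtain ⟨δ', hδ', hle⟩ : ∃ δ' : ℝ≥0∞, 0 < δ' ∧ δ' + (δ' + δ') ≤ η := by
        rcases eq_or_ne η ∞ with rfl | hηt
        · exact ⟨1, one_pos, le_top⟩
        · refine ⟨η / 3, ENNReal.div_pos hη.ne' (by norm_num), le_of_eq ?_⟩
          have h3 : η / 3 + (η / 3 + η / 3) = 3 * (η / 3) := by ring
          rw [h3]
          exact ENNReal.mul_div_cancel (by norm_num) (by norm_num)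
      obtain ⟨L₁, hL₁⟩ := hRS δ' hδ'
      obtain ⟨L₂, hL₂⟩ := hRX δ' hδ'
      set L := max L₁ L₂ with hL
      obtain ⟨BS, BX, BJ, hBS, hBX, hBJ, hdet⟩ := hdet L
      obtain ⟨R₁, hR₁, ς₁, hς₁, hBS⟩ := hBS δ' hδ'
      obtain ⟨R₂, hR₂, ς₂, hς₂, hBX⟩ := hBX δ' hδ'
      obtain ⟨R₃, hR₃, ς₃, hς₃, hBJ⟩ := hBJ δ' hδ'
      set R := max R₁ (max R₂ R₃) with hR
      set ς := min ς₁ (min ς₂ ς₃) with hς
      have hR0 : 0 < R := lt_max_of_lt_left hR₁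
      have hς0 : 0 < ς := lt_min hς₁ (lt_min hς₂ hς₃)
      obtain ⟨R', T, ε₁, hR', hT, h0, hd⟩ := hdet R hR0 ς hς0
      have gS := (hL₁ L (le_max_left _ _)).or hf
        ((hBS R ς (le_max_left _ _) hς0 (min_le_left _ _)).or hf (hHS L δ' hδ'))
      have gX := (hL₂ L (le_max_right _ _)).or hf
        ((hBX R ς ((le_max_left _ _).trans (le_max_right _ _)) hς0
          ((min_le_right _ _).trans (min_le_left _ _))).or hf (hHX L δ' hδ'))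
      have gJ := (hBJ R ς ((le_max_right _ _).trans (le_max_right _ _)) hς0
          ((min_le_right _ _).trans (min_le_right _ _))).or hf (hHJ L δ' hδ')
      refine ⟨R', T, _, _, _, hR', hT, gS.mono hle ⟨1, one_pos, fun _ _ _ _ _ _ _ _ h => h⟩,
        gX.mono hle ⟨1, one_pos, fun _ _ _ _ _ _ _ _ h => h⟩,
        gJ.mono (le_add_self.trans hle) ⟨1, one_pos, fun _ _ _ _ _ _ _ _ h => h⟩,
        ε₁, h0, fun ε hε hlt _ n w hw => ?_⟩
      filter_upwards [hd ε hε hlt n w hw, Unw410.ae_lineM hΦ hε w Q.γ Q.ρ K Q.te]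
        with d hd hd2 ht
      have hn : Near Φ ε 1 Q.te w d.1 :=
        near_of_thetaL_le' hΦ hε hw (Unw410.ins_ok hΦ hε hw hd2.1.1.1 hd2.1.2) hd2.1.1.1.le
          hd2.2.2 hte ht.2
      rcases hd ht hn with h | h
      · exact Or.inl h
      · refine Or.inr ⟨hn, ?_⟩
        filter_upwards [h] with x hx hE
        rcases hx hE with h | h | h | h
        · exact Or.inl h
        · exact Or.inr (Or.inl h)
        · exact Or.inr (Or.inr (Or.inl h))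
        · exact Or.inr (Or.inr (Or.inr h))) (ENNReal.ofReal_pos.2 hδ)
  refine ⟨ε₀, e0, fun ε hε hlt => ?_⟩
  exact (errB_eq hΦ hε K Q).le.trans (h ε hε hlt ())

/-- **`errB` is null for the data of the theorem**, family form. -/
theorem null_errB_fam_of_kdata {β T : ℝ} {f : ℝ → PhasePoint → ℝ}
    (hD : Master566.KData Φ β T f₀ f)
    {g1 : ℝ} {r1 : ℝ≥0∞} {γ : ℝ → ℝ} {ρ : ℝ≥0∞} (hl : Top602.LinePar g1 r1 T γ ρ)
    {L tw te h : ℝ} (hw : Top602.Win h T tw te)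
    (hdet : ∀ K, ErrBFam Φ f₀ (Top602.epar γ ρ L tw te) K) :
    Null fun K ε => H5994.errB Φ f₀ ε K (Top602.epar γ ρ L tw te) := by
  obtain ⟨hγ, γ₀, hγp, hγ₀⟩ := Direct658.exists_rate hl
  have hβ : 0 < 2 * β := by linarith [hD.beta_pos]
  obtain ⟨R, hRt, hR⟩ := exists_position_density_bound hD.beta_pos hD.gaussian
  obtain ⟨hmean, h2⟩ := Conc984.mean_en_ne_top hβ hD.gaussian
  have hf : Measurable f₀ := hD.contDiff.continuous.measurable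
  exact null_errB_fam hD.adm hf (Q1815.lintegral_mass hD).le hmean
    (Conc984.tendsto_gcE_exc hf (Q1815.lintegral_mass hD).le hRt hR Conc984.measurable_en hmean h2)
    (hw.nonneg.trans hw.le) hγ (fun τ hτ => hγ₀ τ (hτ.2.trans hw.le_T)) hγp
    (hl.hi.trans_le le_top).ne hdet

end Crest.Agent.R122.ErrB823

end
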