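import Crest.Agent.R122.ErrBBind_823
import Crest.Agent.R122.ErrBDet_818

/-!
# Row 122 (helper823): `errB` is null

* `ErrBAlt'` : `ErrBAlt` with the additional alternative that the world with both lines is not good;
* `errBFam_of_alt'` : it is enough, if this alternative is almost surely excluded (`OkTwo`);
* `null_errB` : `Null (fun K ε => H5994.errB Φ f₀ ε K (epar γ ρ L tw te))` for the data of the theorem.
-/

set_option autoImplicit false
set_option linter.unusedSectionVars false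

open MeasureTheory Set Filter Topology
open scoped ENNReal
open Crest.AnalysisR.Kinetic
open Crest.Agent.R122.GC311 Crest.Agent.R122.EDefs602 Crest.Agent.R122.Decomp811
open Crest.Agent.R122.TouchFlux494 (Near near_of_thetaL_le')
open Crest.Agent.R122.Gate424 Crest.Agent.R122.Gate973 Crest.Agent.R122.LN2
open Crest.Agent.R122.LinkM547 Crest.Agent.R122.BH167 Crest.Agent.R122.X692
open Crest.Agent.R122.TL311

noncomputable section

namespace Crest.Agent.R122.ErrB823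

variable {Φ : Space3 → ℝ} {f₀ : PhasePoint → ℝ} {β T te g : ℝ} {γ : ℝ → ℝ} {ρ : ℝ≥0∞}

/-- Almost surely the world with two independent lines is good. -/
def OkTwo (Φ : Space3 → ℝ) (γ : ℝ → ℝ) (ρ : ℝ≥0∞) (te : ℝ) : Prop :=
  ∀ (ε : ℝ), 0 < ε → ∀ K n : ℕ,
    ∀ᵐ p ∂(((lineM γ ρ K te).prod (lineM γ ρ K te)).prod (volume : Measure (Config n))),
      p.2 ∈ PairExcluded ε n → (((MW.cfg p.2).ins p.1.1).ins p.1.2).Ok Φ ε

/-- `ErrBAlt` with the alternative that the world with both lines is not good. -/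
def ErrBAlt' (Φ : Space3 → ℝ) (T T₁ : ℝ) (Q : EPar) (K Kr : ℕ) : Prop :=
  ∀ L : ℕ, ∃ (N : ℕ) (C : ℝ), ∀ R > 0, ∀ ς > 0, ∃ R' ε₁ : ℝ, 0 < R' ∧ 0 < ε₁ ∧
    ∀ ε : ℝ, 0 < ε → ε < ε₁ → ∀ (n : ℕ), ∀ w ∈ PairExcluded ε n,
    ∀ᵐ d ∂lineM Q.γ Q.ρ K Q.te, ∀ᵐ x ∂lineM Q.γ Q.ρ K Q.te,
      WinTch Φ ε K Q w d → Near Φ ε 1 Q.te w d.1 →
      ¬ W1E Φ ε K Q.te (MW.cfg w) (MW.line d) (MW.line x) →
      XAlt Φ T T₁ Q.te C R ς ε Kr L N d w ∨ XAlt Φ T T₁ Q.te C R ς ε Kr L N x w ∨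
      Meet ε R' T d.1 x.1 ∨
      BadGas Φ T C R ς ε N 2 (∅ : Finset (Unit ⊕ Unit)) (bx (fun _ : Unit => d.1.1) x.1.1)
        (zx (fun _ : Unit => back d.1) (back x.1)) w ∨
      ¬ (((MW.cfg w).ins d).ins x).Ok Φ ε

/-- **The binding.** -/
theorem errBFam_of_alt' {Q : EPar} (h : Ctx Φ f₀ β T Q.te g Q.γ Q.ρ)
    (hCN : VLMeas973.ClassNull Φ T) (hok : OkTwo Φ Q.γ Q.ρ Q.te) {T₁ : ℝ} (hT₁ : 0 ≤ T₁)
    {K Kr : ℕ} (halt : ErrBAlt' Φ T T₁ Q K Kr) : ErrBFam Φ f₀ Q K := by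
  choose N C halt using halt
  refine ⟨fun L ε _ n d w => Run Φ ε Q.te Kr L (MW.line d) () w,
    fun L ε _ n d w => BadHitGasN (bpos Φ T₁ T) Φ T (C L) 1 ε (N L) (N L) 1 (∅ : Finset Unit)
      (fun _ => d.1.1) (fun _ => back d.1) w,
    fun L ε _ n d w => Run Φ ε Q.te Kr L (MW.line d) () w,
    fun L ε _ n d w => BadHitGasN (bpos Φ T₁ T) Φ T (C L) 1 ε (N L) (N L) 1 (∅ : Finset Unit)
      (fun _ => d.1.1) (fun _ => back d.1) w,
    fun _ ε _ _ p w => ¬ (((MW.cfg w).ins p.1).ins p.2).Ok Φ ε, ?_, ?_, ?_, ?_, ?_, ?_⟩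
  · exact fun δ hδ => gLe_runX_t h K Kr hδ
  · exact fun δ hδ => gLe_runX_t h K Kr hδ
  · exact fun L => gNull_hitN_line h hT₁ K (C L) 1 (N L) (N L)
  · exact fun L => gNull_hitN_line h hT₁ K (C L) 1 (N L) (N L)
  · intro L
    refine gNull_of_ae h.hf (fun _ _ => inferInstance) fun ε _ hε n => ?_
    filter_upwards [hok ε hε K n] with p hp hw hno
    exact hno (hp hw)
  · intro L
    refine ⟨fun R ς ε _ _ l w => BadGas Φ T (C L) R ς ε (N L) 1 (∅ : Finset Unit)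
      (fun _ => l.1.1) (fun _ => back l.1) w,
      fun R ς ε _ _ l w => BadGas Φ T (C L) R ς ε (N L) 1 (∅ : Finset Unit)
      (fun _ => l.1.1) (fun _ => back l.1) w, fun R ς ε _ _ p w =>
      BadGas Φ T (C L) R ς ε (N L) 2 (∅ : Finset (Unit ⊕ Unit))
        (bx (fun _ : Unit => p.1.1.1) p.2.1.1) (zx (fun _ : Unit => back p.1.1) (back p.2.1)) w,
      h.badF_L hCN K (C L) (N L), h.badF_L hCN K (C L) (N L), badF_two h hCN K (C L) (N L), ?_⟩
    intro R hR ς hς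
    obtain ⟨R', ε₁, hR', h0, hd⟩ := halt L R hR ς hς
    refine ⟨R', T, ε₁, hR', h.T_nonneg, h0, fun ε hε hlt n w hw => ?_⟩
    filter_upwards [hd ε hε hlt n w hw] with d hd ht hn
    by_cases hX : XAlt Φ T T₁ Q.te (C L) R ς ε Kr L (N L) d w
    · exact Or.inl hX
    · refine Or.inr ?_
      filter_upwards [hd] with x hx hE
      rcases hx ht hn hE with h | h | h | h | h
      · exact absurd h hX
      · exact Or.inl h
      · exact Or.inr (Or.inl h)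
      · exact Or.inr (Or.inr (Or.inl h))
      · exact Or.inr (Or.inr (Or.inr h))

/-- **The deterministic statement holds** (helper818's `w1E_alt`). -/
theorem errBAlt' (hΦ : AdmissiblePotential Φ) {T T₁ : ℝ} {Q : EPar} (hte : 0 < Q.te)
    (hteT : Q.te ≤ T) (hT₁ : T < T₁) (K : ℕ) : ErrBAlt' Φ T T₁ Q K K := by
  intro L
  refine ⟨4 * (1 + K * (L + 2)), 1, fun R hR ς hς => ⟨1, ς / (2 * R), one_pos, by positivity,
    fun ε hε hlt n w hw => ?_⟩⟩
  have hς2 : 2 * (R * ε) ≤ ς := by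
    rw [lt_div_iff₀ (by positivity)] at hlt
    nlinarith
  filter_upwards [Unw410.ae_lineM hΦ hε w Q.γ Q.ρ K Q.te] with d hd
  filter_upwards [Unw410.ae_lineM hΦ hε w Q.γ Q.ρ K Q.te] with x hx _ _ hW
  by_cases hok : (((MW.cfg w).ins d).ins x).Ok Φ ε
  swap
  · exact Or.inr (Or.inr (Or.inr (Or.inr hok)))
  rcases ErrB818.w1E_alt (T := T) (T₁ := T₁) (R := R) (ς := ς) (c := 1) (K := K) (m := L) hΦ hε
    hte hteT hT₁ le_rfl hς2 hw hd.1.1.1.le hx.1.1.1.le (Unw410.cfg_ok hΦ hε hw)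
    (Unw410.ins_ok hΦ hε hw hd.1.1.1 hd.1.2) (Unw410.ins_ok hΦ hε hw hx.1.1.1 hx.1.2) hok le_rfl hW
    with h | h | h | h
  · exact Or.inl h
  · exact Or.inr (Or.inl h)
  · obtain ⟨s, hs, h⟩ := h
    exact Or.inr (Or.inr (Or.inl ⟨s, ⟨hs.1, hs.2.trans hteT⟩, h⟩))
  · exact Or.inr (Or.inr (Or.inr (Or.inl h)))

/-- For an empty window nothing is touched. -/
theorem errB_zero {ε : ℝ} {K : ℕ} {Q : EPar} (h : Q.te ≤ 0) : H5994.errB Φ f₀ ε K Q = 0 := by
  have h1 : lineM Q.γ Q.ρ K Q.te = 0 := by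
    have h2 : lineV Q.te = 0 := by
      unfold lineV
      rw [Ioc_eq_empty (not_lt.2 h), Measure.restrict_empty, Measure.zero_prod, Measure.zero_prod]
    unfold lineM
    rw [h2]
    simp
  unfold H5994.errB
  rw [h1]
  simp only [Measure.restrict_zero, lintegral_zero_measure]
  exact gcE_zero f₀ ε

/-- **`errB` is null for the data of the theorem.** -/
theorem null_errB_of_okTwo {β T : ℝ} {f : ℝ → PhasePoint → ℝ} (hD : Master566.KData Φ β T f₀ f)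
    {g1 : ℝ} {r1 : ℝ≥0∞} {γ : ℝ → ℝ} {ρ : ℝ≥0∞} (hl : Top602.LinePar g1 r1 T γ ρ)
    {L tw te h : ℝ} (hw : Top602.Win h T tw te) (hok : OkTwo Φ γ ρ te) :
    Null fun K ε => H5994.errB Φ f₀ ε K (Top602.epar γ ρ L tw te) := by
  rcases le_or_gt te 0 with hte | hte
  · intro K δ hδ
    refine ⟨1, one_pos, fun ε _ _ => ?_⟩
    show H5994.errB Φ f₀ ε K (Top602.epar γ ρ L tw te) ≤ _
    rw [errB_zero (Q := Top602.epar γ ρ L tw te) hte]
    exact bot_le
  obtain ⟨hγ, γ₀, hγp, hγ₀⟩ := Direct658.exists_rate hl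
  have hb := hD.beta_pos
  have hctx : Ctx Φ f₀ β T te (min γ₀ β) γ ρ := by
    refine ⟨hD.adm, hD.contDiff.continuous, hD.gaussian, (Q1815.lintegral_mass hD).le,
      hD.T_pos.le, hw.le_T, lt_min hγp hb, min_le_right _ _, fun τ hτ => ?_, hγ,
      (hl.hi.trans_le le_top).ne⟩
    exact (min_le_left _ _).trans (hγ₀ τ (hτ.2.trans hw.le_T))
  refine null_errB_fam_of_kdata hD hl hw fun K => ?_
  exact errBFam_of_alt' (Q := Top602.epar γ ρ L tw te) hctx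
    (Gate973.classNull hD.adm hD.T_pos) hok (T₁ := T + 1) (by linarith [hD.T_pos])
    (errBAlt' hD.adm (Q := Top602.epar γ ρ L tw te) hte hw.le_T (lt_add_one T) K)

end Crest.Agent.R122.ErrB823

end
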