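import Crest.Agent.R122.H5A2_994

/-!
# SP-B at gas level (row 122, helper994)

* `ΘBg` : test function of SP-B; `gcE_ΘBg_le` : its mass is at most `XI + errB`;
* `errB` : two independent lines `d`, `x`, linked in the gas world before both touches (capped by 1);
* `spb_total` : `Σ_P ∫∫∫ 1[old link] gh (B) ≤ c₆/L (C_Q (XI + errB) + δ_Q)`.
-/

set_option autoImplicit false

open MeasureTheory Set Filter
open scoped ENNReal Topology
open Crest.AnalysisR.Kinetic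
open Crest.Agent.R122.Kin796 Crest.Agent.R122.Kin796.CTree Crest.Agent.R122.Tree674
open Crest.Agent.R122.EDefs602 Crest.Agent.R122.TreeLines335 Crest.Agent.R122.LineMeas994
open Crest.Agent.R122.GC311 Crest.Agent.R122.QDens815 Crest.Agent.R122.Q1815
open Crest.Agent.R122.SPV994 Crest.Agent.R122.Decomp811 Crest.Agent.R122.Weight984
open Crest.Agent.R122.MeasE416
open Crest.Agent.R122.Boost969 (LSt posAt)
open Crest.Agent.R122.Pair292 (Lab PPar PX sig shM)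

namespace Crest.Agent.R122.H5994

noncomputable section

open scoped Classical

section general

variable {Λ Ω : Type*} [MeasurableSpace Λ]

/-- `lintegral_ΘB_le` with a general error -/
theorem lintegral_ΘB_cap {lam : Measure Λ} [SFinite lam] {L : ℝ} (hL : 0 < L)
    {θ₀ : Ω → Λ → ℝ} {θd : Ω → Λ → Λ → ℝ} (tw te : ℝ) (w : Ω)
    (hΨ : Measurable fun q : Λ × Λ => Ψv lam L tw te θ₀ θd w q.1 q.2)
    (hθ₀ : Measurable (θ₀ w))
    (hθd : ∀ d, Measurable (θd w d)) {er : Λ → ℝ≥0∞}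
    (her : ∀ d, tw < θ₀ w d → θ₀ w d ≤ te →
      W L (lam {l | θd w d l < θ₀ w d}) ≤ W L (lam {l | θ₀ w l < θ₀ w d}) + er d) :
    ∫⁻ k, ΘB lam L tw te θ₀ θd w k ∂lam ≤ ∫⁻ l, Tw lam L tw te θ₀ w l ∂lam +
      ∫⁻ l in {l | tw < θ₀ w l ∧ θ₀ w l ≤ te}, er l ∂lam := by
  have hms : MeasurableSet {l | tw < θ₀ w l ∧ θ₀ w l ≤ te} :=
    (hθ₀ measurableSet_Ioi).inter (hθ₀ measurableSet_Iic)
  have hTm : Measurable fun l => Tw lam L tw te θ₀ w l := by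
    unfold Tw
    refine Measurable.ite hms ?_ measurable_const
    exact (measurable_W L).comp (measurable_touched_lt (Ξ := Λ) lam (θ := fun _ l => θ₀ w l)
      (hθ₀.comp measurable_snd) hθ₀)
  calc ∫⁻ k, ΘB lam L tw te θ₀ θd w k ∂lam
      = ENNReal.ofReal L * ∫⁻ k, ∫⁻ d, Ψv lam L tw te θ₀ θd w d k ∂lam ∂lam := by
        unfold ΘB
        exact lintegral_const_mul _
          (Measurable.lintegral_prod_right' (f := fun q : Λ × Λ =>
            Ψv lam L tw te θ₀ θd w q.2 q.1) (hΨ.comp measurable_swap))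
    _ = ENNReal.ofReal L * ∫⁻ d, ∫⁻ k, Ψv lam L tw te θ₀ θd w d k ∂lam ∂lam := by
        congr 1
        exact lintegral_lintegral_swap (f := fun k d => Ψv lam L tw te θ₀ θd w d k)
          (hΨ.comp measurable_swap).aemeasurable
    _ ≤ ENNReal.ofReal L * ∫⁻ d, ENNReal.ofReal (1 / L) *
        (if tw < θ₀ w d ∧ θ₀ w d ≤ te then W L (lam {l | θd w d l < θ₀ w d}) else 0) ∂lam := by
        gcongr with d
        exact lintegral_Ψv_second_le hL θ₀ tw te w d (hθd d)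
    _ = (ENNReal.ofReal L * ENNReal.ofReal (1 / L)) * ∫⁻ d,
        (if tw < θ₀ w d ∧ θ₀ w d ≤ te then W L (lam {l | θd w d l < θ₀ w d}) else 0) ∂lam := by
        rw [lintegral_const_mul' _ _ ENNReal.ofReal_ne_top, mul_assoc]
    _ = ∫⁻ d,
        (if tw < θ₀ w d ∧ θ₀ w d ≤ te then W L (lam {l | θd w d l < θ₀ w d}) else 0) ∂lam := by
        rw [ofReal_mul_inv hL, one_mul]
    _ ≤ ∫⁻ d, (Tw lam L tw te θ₀ w d +
          {l | tw < θ₀ w l ∧ θ₀ w l ≤ te}.indicator (fun l => er l) d) ∂lam := by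
        refine lintegral_mono fun d => ?_
        split_ifs with h
        · rw [indicator_of_mem (show d ∈ {l | tw < θ₀ w l ∧ θ₀ w l ≤ te} from h)]
          unfold Tw
          rw [if_pos h]
          exact her d h.1 h.2
        · exact bot_le
    _ = _ := by
        rw [lintegral_add_left hTm, lintegral_indicator hms]

end general

section mass

variable {Φ : Space3 → ℝ} {f₀ : PhasePoint → ℝ} {ε : ℝ} {K : ℕ} {Q : EPar}

/-- test function of SP-B -/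
def ΘBg (Φ : Space3 → ℝ) (ε : ℝ) (K : ℕ) (Q : EPar) (n : ℕ) (w : Config n) (l : ML) : ℝ≥0∞ :=
  ΘB (lineM Q.γ Q.ρ K Q.te) Q.L Q.tw Q.te (θ₀ Φ ε K Q.te) (θd Φ ε K Q.te) ⟨n, w⟩ l

/-- errors of SP-B: independent lines `d`, `x`, linked in the gas world -/
def errB (Φ : Space3 → ℝ) (f₀ : PhasePoint → ℝ) (ε : ℝ) (K : ℕ) (Q : EPar) : ℝ≥0∞ :=
  gcE f₀ ε fun n w => ∫⁻ d in {d | Q.tw < (MW.cfg w).thetaL Φ ε K Q.te d ∧
    (MW.cfg w).thetaL Φ ε K Q.te d ≤ Q.te},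
    min 1 (ENNReal.ofReal Q.L * lineM Q.γ Q.ρ K Q.te
      (badN Φ ε K Q.te (MW.cfg w) (MW.line d))) ∂lineM Q.γ Q.ρ K Q.te

theorem termB_eq (w : Σ n : ℕ, Config n) (d k : ML) : termB Φ ε K Q (MW.cfg w.2) d k =
    Ψv (lineM Q.γ Q.ρ K Q.te) Q.L Q.tw Q.te (θ₀ Φ ε K Q.te) (θd Φ ε K Q.te) w d k := rfl

theorem measurable_ΘBg (hΦ : AdmissiblePotential Φ) (hε : 0 < ε) (n : ℕ) :
    Measurable fun q : Config n × ML => ΘBg Φ ε K Q n q.1 q.2 := by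
  have h := measurable_ΘB (lineM Q.γ Q.ρ K Q.te) Q.L Q.tw Q.te (measurable_θ₀ hΦ hε K Q.te)
    (measurable_θd hΦ hε K Q.te)
  have hq : Measurable fun q : Config n × ML => ((⟨n, q.1⟩ : Σ n : ℕ, Config n), q.2) :=
    ((Q1815.measurableEmbedding_sigmaMk n).measurable.comp measurable_fst).prodMk measurable_snd
  exact h.comp hq

theorem measurable_θ₀w (hΦ : AdmissiblePotential Φ) (hε : 0 < ε) (w : Σ n : ℕ, Config n) :
    Measurable (θ₀ Φ ε K Q.te w) := by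
  have hq : Measurable fun l : ML => (w, l) := measurable_const.prodMk measurable_id
  exact (measurable_θ₀ hΦ hε K Q.te).comp hq

theorem measurable_θdw (hΦ : AdmissiblePotential Φ) (hε : 0 < ε) (w : Σ n : ℕ, Config n) (d : ML) :
    Measurable (θd Φ ε K Q.te w d) := by
  have hq : Measurable fun l : ML => ((w, d), l) := measurable_const.prodMk measurable_id
  exact (measurable_θd hΦ hε K Q.te).comp hq

theorem ΘBg_le_one (hΦ : AdmissiblePotential Φ) (hε : 0 < ε) (hL : 0 < Q.L) {n : ℕ}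
    (w : Config n) (l : ML) : ΘBg Φ ε K Q n w l ≤ 1 := by
  unfold ΘBg
  exact ΘB_le_one hL _ (measurable_θ₀w hΦ hε _) _ _ _ _

/-- the left-limit weight of the touch of `d`, in the world with `d` -/
theorem W_window_le (hL : 0 < Q.L) (w : Σ n : ℕ, Config n) (d : ML) :
    W Q.L (lineM Q.γ Q.ρ K Q.te {l | θd Φ ε K Q.te w d l < θ₀ Φ ε K Q.te w d}) ≤
      W Q.L (lineM Q.γ Q.ρ K Q.te {l | θ₀ Φ ε K Q.te w l < θ₀ Φ ε K Q.te w d}) +
      min 1 (ENNReal.ofReal Q.L * lineM Q.γ Q.ρ K Q.te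
        (badN Φ ε K Q.te (MW.cfg w.2) (MW.line d))) := by
  rcases le_total 1 (ENNReal.ofReal Q.L * lineM Q.γ Q.ρ K Q.te
        (badN Φ ε K Q.te (MW.cfg w.2) (MW.line d))) with h | h
  · rw [min_eq_left h]
    exact (W_le_one hL.le _).trans le_add_self
  · rw [min_eq_right h]
    have h1 : Cons1 (θ₀ Φ ε K Q.te w) (θd Φ ε K Q.te w d) (θ₀ Φ ε K Q.te w d)
        (badN Φ ε K Q.te (MW.cfg w.2) (MW.line d)) := cons1_badN ..
    exact h1.W_XRm_le (ν := lineM Q.γ Q.ρ K Q.te) hL le_rfl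

/-- mass of the test function of SP-B -/
theorem lintegral_ΘBg_le (hΦ : AdmissiblePotential Φ) (hε : 0 < ε) (hL : 0 < Q.L)
    {n : ℕ} (w : Config n) :
    ∫⁻ l, ΘBg Φ ε K Q n w l ∂lineM Q.γ Q.ρ K Q.te ≤
      (∫⁻ l, (MW.cfg w).touchW Φ ε K Q l ∂lineM Q.γ Q.ρ K Q.te) +
        ∫⁻ d in {d | Q.tw < (MW.cfg w).thetaL Φ ε K Q.te d ∧
          (MW.cfg w).thetaL Φ ε K Q.te d ≤ Q.te},
          min 1 (ENNReal.ofReal Q.L * lineM Q.γ Q.ρ K Q.te
            (badN Φ ε K Q.te (MW.cfg w) (MW.line d))) ∂lineM Q.γ Q.ρ K Q.te := by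
  have hΨ : Measurable fun q : ML × ML =>
      Ψv (lineM Q.γ Q.ρ K Q.te) Q.L Q.tw Q.te (θ₀ Φ ε K Q.te) (θd Φ ε K Q.te) ⟨n, w⟩ q.1 q.2 := by
    have hq : Measurable fun q : ML × ML => (((⟨n, w⟩ : Σ n : ℕ, Config n), q.1), q.2) :=
      (measurable_const.prodMk measurable_fst).prodMk measurable_snd
    exact (measurable_Ψv (lineM Q.γ Q.ρ K Q.te) Q.L Q.tw Q.te (measurable_θ₀ hΦ hε K Q.te)
      (measurable_θd hΦ hε K Q.te)).comp hq
  exact lintegral_ΘB_cap hL (Q.tw) (Q.te) (⟨n, w⟩ : Σ n : ℕ, Config n) hΨ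
    (measurable_θ₀w hΦ hε _) (fun d => measurable_θdw hΦ hε _ d)
    (er := fun d => min 1 (ENNReal.ofReal Q.L * lineM Q.γ Q.ρ K Q.te
            (badN Φ ε K Q.te (MW.cfg w) (MW.line d)))) (fun d _ _ => W_window_le hL _ d)

theorem gcE_ΘBg_le (hΦ : AdmissiblePotential Φ) (hf : Measurable f₀) (hε : 0 < ε)
    (hγ : Measurable Q.γ) (hL : 0 < Q.L) :
    gcE f₀ ε (fun n w => ∫⁻ l, ΘBg Φ ε K Q n w l ∂lineM Q.γ Q.ρ K Q.te) ≤
      XI Φ f₀ ε K Q + errB Φ f₀ ε K Q := by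
  refine (gcE_mono f₀ ε fun n w _ => lintegral_ΘBg_le hΦ hε hL w).trans (le_of_eq ?_)
  have hm1 : ∀ n, Measurable fun w : Config n =>
      ∫⁻ l, (MW.cfg w).touchW Φ ε K Q l ∂lineM Q.γ Q.ρ K Q.te := fun n =>
    (measurable_touchW_cfg hΦ hε K Q n).lintegral_prod_right'
  rw [EBasic602.XI_eq hf hγ (fun n => measurable_touchW_cfg hΦ hε K Q n)]
  unfold errB
  rw [gcE_add hf ε hm1]

end mass

section total

variable {Φ : Space3 → ℝ} (hΦ : AdmissiblePotential Φ) {f₀ : PhasePoint → ℝ}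
  (hf : Measurable f₀) {ε : ℝ} (hε : 0 < ε) {K : ℕ} {Q : EPar} {r : ℝ} {ν : Measure (Lab × LSt)}
  {c₆ : ℝ≥0∞}

/-- integrand of SP-B -/
def FBt (Φ : Space3 → ℝ) (f₀ : PhasePoint → ℝ) (ε : ℝ) (K : ℕ) (Q : EPar) (P : CTree)
    (w : Σ n : ℕ, Config n) (z : PhasePoint × Par P) (p : Lab × LSt) : ℝ≥0∞ :=
  tws Φ f₀ ε Q.te P z * (gh Φ ε Q.tw P z w * tB6 Φ Q K ε P z w p)

/-- SP-B for one shape -/
theorem spb_one [SFinite ν] (hL : 0 < Q.L) (hc : c₆ * ENNReal.ofReal (1 / Q.L) ≠ ∞) (P : CTree)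
    (h6 : ∀ z, S6 ν (fun p => p.1.1) (lineM Q.γ Q.ρ K Q.te) volume c₆
      ((shape hΦ hf hε Q.te Q.tw Q.te r P).lt z) ((shape hΦ hf hε Q.te Q.tw Q.te r P).Bo z)
      ((shape hΦ hf hε Q.te Q.tw Q.te r P).rd z)) :
    ∫⁻ z, ∫⁻ w, ∫⁻ p in (shape hΦ hf hε Q.te Q.tw Q.te r P).Bo z,
        FBt Φ f₀ ε K Q P w z p ∂ν ∂gcM f₀ ε ≤
      c₆ * ENNReal.ofReal (1 / Q.L) *
        (shape hΦ hf hε Q.te Q.tw Q.te r P).EI (gcM f₀ ε) volume volume
          (sigF (ΘBg Φ ε K Q)) := by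
  have h1 := spB (shape hΦ hf hε Q.te Q.tw Q.te r P) (gcM f₀ ε) volume volume ν
    (d := fun p => p.1.1) measurable_fst.fst (lineM Q.γ Q.ρ K Q.te) (L := Q.L) (tw := Q.tw)
    (te := Q.te) hL hc h6 (measurable_θ₀ hΦ hε K Q.te) (measurable_θd hΦ hε K Q.te)
    (FB := fun w z p => FBt Φ f₀ ε K Q P w z p) (bad := fun _ _ _ => 0) (by
      intro w z p _
      rw [add_zero]
      show tws Φ f₀ ε Q.te P z * (gh Φ ε Q.tw P z w * tB6 Φ Q K ε P z w p) ≤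
        ∑ i : Idx P, tws Φ f₀ ε Q.te P z * gh Φ ε Q.tw P z w *
          Ψv (lineM Q.γ Q.ρ K Q.te) Q.L Q.tw Q.te (θ₀ Φ ε K Q.te) (θd Φ ε K Q.te) w p.1.1
            (lineU Φ ε P z (hitT ε z.1 p.2) i)
      rw [← Finset.mul_sum, ← mul_assoc]
      refine mul_le_mul_right ?_ _
      unfold tB6
      refine le_trans (le_of_eq ?_) (Finset.sum_le_univ_sum_of_nonneg
        (s := Finset.univ.filter fun i => i ≠ root P) fun i => zero_le)
      refine Finset.sum_congr rfl fun i hi => ?_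
      rw [Finset.mem_filter] at hi
      rw [termB_eq]
      unfold lineU
      rw [if_neg hi.2])
  simp only [lintegral_zero, add_zero] at h1
  exact h1

/-- **SP-B, all shapes.** -/
theorem spb_total [SFinite ν] (hL : 0 < Q.L) (hc : c₆ * ENNReal.ofReal (1 / Q.L) ≠ ∞)
    (h6 : ∀ P z, S6 ν (fun p => p.1.1) (lineM Q.γ Q.ρ K Q.te) volume c₆
      ((shape hΦ hf hε Q.te Q.tw Q.te r P).lt z) ((shape hΦ hf hε Q.te Q.tw Q.te r P).Bo z)
      ((shape hΦ hf hε Q.te Q.tw Q.te r P).rd z))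
    {CR δR CE δE : ℝ≥0∞}
    (hR : ∑ P ∈ GIVStep383.trees K, ∫⁻ z : PhasePoint × Par P, ∫⁻ w, ∫⁻ u,
          rootI Φ f₀ ε Q.tw Q.te P (ΘBg Φ ε K Q) w z u ∂volume ∂gcM f₀ ε ≤
        CR * gcE f₀ ε (fun n w => ∫⁻ l, ΘBg Φ ε K Q n w l ∂lineM Q.γ Q.ρ K Q.te) + δR)
    (hE : InEq2.TS Φ f₀ ε Q.te (exitH Φ ε Q.tw Q.te K (ΘBg Φ ε K Q)) ≤
        CE * gcE f₀ ε (fun n w => ∫⁻ l, ΘBg Φ ε K Q n w l ∂lineM Q.γ Q.ρ K Q.te) + δE)
    (hγ : Measurable Q.γ) :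
    ∑ P ∈ GIVStep383.trees K, ∫⁻ z, ∫⁻ w,
        ∫⁻ p in {p | p ∈ LinkS ε Q.te P z ∧ r ≤ hitT ε z.1 p.2 - sig p.1},
        FBt Φ f₀ ε K Q P w z p ∂ν ∂gcM f₀ ε ≤
      c₆ * ENNReal.ofReal (1 / Q.L) *
        ((CR + ENNReal.ofReal Q.te * CE) * (XI Φ f₀ ε K Q + errB Φ f₀ ε K Q) +
          (δR + ENNReal.ofReal Q.te * δE)) := by
  refine (Finset.sum_le_sum fun P _ => spb_one hΦ hf hε hL hc P (h6 P)).trans ?_
  rw [← Finset.mul_sum]
  refine mul_le_mul_right ?_ _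
  have h1 := EI_sum_le hΦ hf hε Q.tw Q.te r (K := K) (Θ := ΘBg Φ ε K Q)
    (fun n => measurable_ΘBg hΦ hε n)
  have h2 := gcE_ΘBg_le (K := K) (Q := Q) hΦ hf hε hγ hL
  refine h1.trans ?_
  calc _ ≤ (CR * gcE f₀ ε (fun n w => ∫⁻ l, ΘBg Φ ε K Q n w l ∂lineM Q.γ Q.ρ K Q.te) + δR) +
        ENNReal.ofReal Q.te * (CE * gcE f₀ ε (fun n w => ∫⁻ l, ΘBg Φ ε K Q n w l
          ∂lineM Q.γ Q.ρ K Q.te) + δE) := add_le_add hR (mul_le_mul_right hE _)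
    _ = (CR + ENNReal.ofReal Q.te * CE) * gcE f₀ ε (fun n w => ∫⁻ l, ΘBg Φ ε K Q n w l
          ∂lineM Q.γ Q.ρ K Q.te) + (δR + ENNReal.ofReal Q.te * δE) := by ring
    _ ≤ _ := by gcongr

end total

end

end Crest.Agent.R122.H5994
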