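import Crest.Agent.R122.ErrBGate_823
import Crest.Agent.R122.H5B_994
import Crest.Agent.R122.Direct6c_658

/-!
# Row 122 (helper823): `errB` of helper994 is null, modulo the link events

* `WinTch` : `d` is touched in the window; `ErrBDet` : the deterministic hypothesis and the null events
  for one `K`.
* `null_errB` : `Null (fun K ε => H5994.errB Φ f₀ ε K Q)`; `null_errB_of_kdata` : for the data of the
  theorem.
-/

set_option autoImplicit false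

open MeasureTheory Set Filter Topology
open scoped ENNReal
open Crest.AnalysisR.Kinetic
open Crest.Agent.R122.GC311 Crest.Agent.R122.EDefs602 Crest.Agent.R122.Decomp811
open Crest.Agent.R122.TouchFlux494 (Near near_of_thetaL_le')
open Crest.Agent.R122.Gate424

noncomputable section

namespace Crest.Agent.R122.ErrB823

variable {Φ : Space3 → ℝ} {f₀ : PhasePoint → ℝ} {g0 : ℝ}

/-- The line is touched in the window. -/
def WinTch (Φ : Space3 → ℝ) (ε : ℝ) (K : ℕ) (Q : EPar) {n : ℕ} (w : Config n) (d : ML) : Prop :=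
  Q.tw < (MW.cfg w).thetaL Φ ε K Q.te d ∧ (MW.cfg w).thetaL Φ ε K Q.te d ≤ Q.te

/-- The link alternatives of `errB` for one `K`: base line `d` touched in the window (hence near the
gas), test line `x`, both of law `lineM`; null events `S` (of `d`), `Sx` (of `x`), `E'` (of both). -/
def ErrBDet (Φ : Space3 → ℝ) (f₀ : PhasePoint → ℝ) (Q : EPar) (K : ℕ) : Prop :=
  ∃ (R' T : ℝ) (S Sx : ℝ → Unit → (n : ℕ) → ML → Config n → Prop)
    (E' : ℝ → Unit → (n : ℕ) → ML × ML → Config n → Prop), 0 < R' ∧ 0 ≤ T ∧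
    GNull f₀ (fun _ (_ : Unit) => lineM Q.γ Q.ρ K Q.te) S ∧
    GNull f₀ (fun _ (_ : Unit) => lineM Q.γ Q.ρ K Q.te) Sx ∧
    GNull f₀ (fun _ (_ : Unit) => (lineM Q.γ Q.ρ K Q.te).prod (lineM Q.γ Q.ρ K Q.te)) E' ∧
    ∃ ε₁ : ℝ, 0 < ε₁ ∧ ∀ ε : ℝ, 0 < ε → ε < ε₁ → ∀ n, ∀ w ∈ PairExcluded ε n,
      ∀ᵐ d ∂lineM Q.γ Q.ρ K Q.te, WinTch Φ ε K Q w d → Near Φ ε 1 Q.te w d.1 →
        S ε () n d w ∨ ∀ᵐ x ∂lineM Q.γ Q.ρ K Q.te, ¬ W1E Φ ε K Q.te (MW.cfg w) (MW.line d) (MW.line x) →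
          Sx ε () n x w ∨ Meet ε R' T d.1 x.1 ∨ E' ε () n (d, x) w

theorem errB_eq (hΦ : AdmissiblePotential Φ) {ε : ℝ} (hε : 0 < ε) (K : ℕ) (Q : EPar) :
    H5994.errB Φ f₀ ε K Q = gcE f₀ ε (fun n w => ∫⁻ d, (open Classical in
      if WinTch Φ ε K Q w d then min 1 (ENNReal.ofReal Q.L * lineM Q.γ Q.ρ K Q.te
        {x | ¬ W1E Φ ε K Q.te (MW.cfg w) (MW.line d) (MW.line x)}) else 0)
          ∂lineM Q.γ Q.ρ K Q.te) := by
  classical
  unfold H5994.errB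
  refine gcE_congr f₀ ε fun n w _ => ?_
  have hθ : Measurable fun d : ML => (MW.cfg w).thetaL Φ ε K Q.te d :=
    H5994.measurable_θ₀w hΦ hε (⟨n, w⟩ : Σ n : ℕ, Config n)
  have hs : MeasurableSet {d : ML | Q.tw < (MW.cfg w).thetaL Φ ε K Q.te d ∧
      (MW.cfg w).thetaL Φ ε K Q.te d ≤ Q.te} :=
    (hθ measurableSet_Ioi).inter (hθ measurableSet_Iic)
  rw [← lintegral_indicator hs]
  refine lintegral_congr fun d => ?_
  by_cases h : WinTch Φ ε K Q w d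
  · rw [if_pos h, indicator_of_mem (show d ∈ {d : ML | Q.tw < (MW.cfg w).thetaL Φ ε K Q.te d ∧
      (MW.cfg w).thetaL Φ ε K Q.te d ≤ Q.te} from h)]
    rfl
  · rw [if_neg h, indicator_of_notMem (show d ∉ {d : ML | Q.tw < (MW.cfg w).thetaL Φ ε K Q.te d ∧
      (MW.cfg w).thetaL Φ ε K Q.te d ≤ Q.te} from h)]

/-- **`errB` is null.** -/
theorem null_errB (hΦ : AdmissiblePotential Φ) (hf : Measurable f₀)
    (h1 : ∫⁻ z, ENNReal.ofReal (f₀ z) ≤ 1) (hmean : Conc984.mean f₀ Conc984.en ≠ ∞)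
    (hexc : Tendsto (fun ε => gcE f₀ ε (Conc984.exc f₀ ε Conc984.en)) (𝓝[>] 0) (𝓝 0))
    {Q : EPar} (hte : 0 ≤ Q.te) (hγ : Measurable Q.γ)
    (hγ₀ : ∀ τ ∈ Ioc (0 : ℝ) Q.te, g0 ≤ Q.γ τ) (hg : 0 < g0) (hρ : Q.ρ ≠ ∞)
    (hdet : ∀ K, ErrBDet Φ f₀ Q K) : Null fun K ε => H5994.errB Φ f₀ ε K Q := by
  classical
  intro K δ hδ
  obtain ⟨R', T, S, Sx, E', hR', hT, hS, hX, hE, ε₁, h0, hdet⟩ := hdet K
  obtain ⟨ε₀, e0, h⟩ := errB_gate (I := Unit) (R := 1) (te := Q.te) (T := T)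
    (γ := Q.γ) (ρm := Q.ρ) (K := K) (c := ENNReal.ofReal Q.L)
    (Tch := fun ε _ n d w => WinTch Φ ε K Q w d)
    (E := fun ε _ n d x w => ¬ W1E Φ ε K Q.te (MW.cfg w) (MW.line d) (MW.line x))
    hΦ hf h1 hmean hexc one_pos hR' hT hγ hγ₀ hg hρ ENNReal.ofReal_ne_top hS hX hE
    ⟨ε₁, h0, fun ε hε hlt _ n w hw => by
      filter_upwards [hdet ε hε hlt n w hw, Unw410.ae_lineM hΦ hε w Q.γ Q.ρ K Q.te]
        with d hd hd2 ht
      have hn : Near Φ ε 1 Q.te w d.1 :=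
        near_of_thetaL_le' hΦ hε hw (Unw410.ins_ok hΦ hε hw hd2.1.1.1 hd2.1.2) hd2.1.1.1.le
          hd2.2.2 hte ht.2
      rcases hd ht hn with h | h
      · exact Or.inl h
      · exact Or.inr ⟨hn, h⟩⟩ (ENNReal.ofReal_pos.2 hδ)
  refine ⟨ε₀, e0, fun ε hε hlt => ?_⟩
  exact (errB_eq hΦ hε K Q).le.trans (h ε hε hlt ())

/-- **`errB` is null for the data of the theorem.** -/
theorem null_errB_of_kdata {β T : ℝ} {f : ℝ → PhasePoint → ℝ} (hD : Master566.KData Φ β T f₀ f)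
    {g1 : ℝ} {r1 : ℝ≥0∞} {γ : ℝ → ℝ} {ρ : ℝ≥0∞} (hl : Top602.LinePar g1 r1 T γ ρ)
    {L tw te h : ℝ} (hw : Top602.Win h T tw te)
    (hdet : ∀ K, ErrBDet Φ f₀ (Top602.epar γ ρ L tw te) K) :
    Null fun K ε => H5994.errB Φ f₀ ε K (Top602.epar γ ρ L tw te) := by
  obtain ⟨hγ, γ₀, hγp, hγ₀⟩ := Direct658.exists_rate hl
  have hβ : 0 < 2 * β := by linarith [hD.beta_pos]
  obtain ⟨R, hRt, hR⟩ := exists_position_density_bound hD.beta_pos hD.gaussian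
  obtain ⟨hmean, h2⟩ := Conc984.mean_en_ne_top hβ hD.gaussian
  have hf : Measurable f₀ := hD.contDiff.continuous.measurable
  exact null_errB hD.adm hf (Q1815.lintegral_mass hD).le hmean
    (Conc984.tendsto_gcE_exc hf (Q1815.lintegral_mass hD).le hRt hR Conc984.measurable_en hmean h2)
    (hw.nonneg.trans hw.le) hγ (fun τ hτ => hγ₀ τ (hτ.2.trans hw.le_T)) hγp
    (hl.hi.trans_le le_top).ne hdet

end Crest.Agent.R122.ErrB823

end
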