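import Crest.Agent.R122.F3Fin_370
import Crest.Agent.R122.IStep3_317

/-!
# `ErrSmall` from the null statements of helper370 (row 122, helper317)

* `TubeConv.clip'`, `TubeConv.comp_add` : clipped and shifted sequences of tube families;
* `exists_errC_maj` : measurable majorant in the translation of error (c), from a majorant of the
  discrepancy event;
* `errSmall_of`, `errSmall_of_null` : `ErrSmall` of `IStep3_317` from `F3Input`, resp. `TreeNull` and
  `ObNull`.
-/

set_option autoImplicit false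

open MeasureTheory Set Filter
open scoped Classical ENNReal NNReal Topology
open Crest.AnalysisR.Kinetic

noncomputable section

namespace Crest.Agent.R122.ErrBind317

open GC311 Hit167 GhostErr370 Flow671 Causal291 GIV566 IStep317 XAvg370 BadHit370

variable {Φ : Space3 → ℝ} {f₀ : PhasePoint → ℝ} {ε : ℝ}

/-! ### Sequences of tube families -/

theorem tubeConv_clip {T : ℝ} {ι : Type} {Sk : ℕ → Tubes ι} {S : Tubes ι}
    (hT : 0 ≤ T) (h : TubeConv T Sk S) : TubeConv T (fun k => clip T (Sk k)) S := by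
  have hc : ∀ (S' : Tubes ι) i, EqOn ((clip T S').c i) (S'.c i) (Icc 0 T) := fun S' i s hs =>
    clip_c hs
  obtain ⟨M, hM, hM'⟩ := h.lip
  refine ⟨⟨M, ?_, hM'⟩, fun i => ?_, fun i => h.active i, ?_⟩
  · filter_upwards [hM] with k hk i
    exact (clip_lip hT (hk i)).lipschitzOnWith
  · refine (h.curves i).congr (Eventually.of_forall fun k => ?_)
    exact fun s hs => (hc (Sk k) i hs).symm
  · obtain ⟨B, hB, hv⟩ := h.vel
    refine ⟨B, hB, fun s hs hsB i hi => ?_⟩
    obtain ⟨v, U, hU, h1, h2⟩ := hv s hs hsB i hi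
    refine ⟨v, U ∩ Ioo 0 T, Filter.inter_mem hU (Ioo_mem_nhds hs.1 hs.2),
      fun u hu => h1 u hu.1, ?_⟩
    filter_upwards [h2] with k hk u hu
    refine (hk u hu.1).congr_of_eventuallyEq ?_
    filter_upwards [Ioo_mem_nhds hu.2.1 hu.2.2] with r hr
    exact hc (Sk k) i (Ioo_subset_Icc_self hr)

theorem tubeConv_comp {T : ℝ} {ι : Type} {Sk : ℕ → Tubes ι} {S : Tubes ι}
    (h : TubeConv T Sk S) {φ : ℕ → ℕ} (hφ : Tendsto φ atTop atTop) :
    TubeConv T (fun k => Sk (φ k)) S := by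
  obtain ⟨M, hM, hM'⟩ := h.lip
  refine ⟨⟨M, hφ.eventually hM, hM'⟩, fun i u hu => hφ.eventually (h.curves i u hu),
    fun i => (h.active i).comp hφ, ?_⟩
  obtain ⟨B, hB, hv⟩ := h.vel
  refine ⟨B, hB, fun s hs hsB i hi => ?_⟩
  obtain ⟨v, U, hU, h1, h2⟩ := hv s hs hsB i hi
  exact ⟨v, U, hU, h1, hφ.eventually h2⟩

/-! ### Majorant of error (c) -/

variable {ι : Type} [Fintype ι] {S : Tubes ι} {𝒢 : Cls} {tw t : ℝ} {K : ℕ} {R : ℝ}
  {B₁ : (k : ℕ) → Config k → Fin k → (m : ℕ) → Config m → ℝ≥0∞}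
  {B₂ : (k : ℕ) → Space3 → Config k → Fin k → (m : ℕ) → Config m → ℝ≥0∞}

/-- **Majorant of error (c)**, measurable in the translation. -/
theorem exists_errC_maj (hf : Measurable f₀) (hΦ : AdmissiblePotential Φ) (hε : 0 < ε)
    (hε1 : ε ≤ 1) {M : ℝ} (hM : 0 ≤ M) (htw : 0 ≤ tw) (ht : 0 ≤ t) (hc : ∀ i, Continuous (S.c i))
    (hγ : ∀ a, ∀ s ∈ Icc 0 t, ∀ s' ∈ Icc 0 t, dist (S.c a s) (S.c a s') ≤ M * |s - s'|)
    (hB : DiscMaj Φ ε S 𝒢 tw t K R B₁ B₂) {k : ℕ} (hk : k ≤ K) :
    ∃ maj : Space3 → ℝ≥0∞, Measurable maj ∧ (∀ x, errC Φ f₀ ε (S.shift x) 𝒢 tw t k ≤ maj x) ∧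
      ∫⁻ x in Metric.closedBall (0 : Space3) R, maj x ≤
        2 * (cX Φ (Fintype.card ι) M t * evMass f₀ ε K B₁) + 2 * obMass f₀ ε K R B₂ := by
  set A : Space3 → ℝ≥0∞ := fun x => activity ε ^ k / (k.factorial : ℝ≥0∞) *
    ∫⁻ V : Config k, gcWeight f₀ ε k V * ∑ j : Fin k,
      ind (GoodH Φ ε (S.shift x).c (S.shift x).b 𝒢 tw t V j) *
        gcE f₀ ε fun m w => B₁ k V j m w with hA
  set D : ℕ → Space3 → ℝ≥0∞ := fun k x => activity ε ^ k / (k.factorial : ℝ≥0∞) *
    ∫⁻ V : Config k, gcWeight f₀ ε k V * ∑ j : Fin k, gcE f₀ ε fun m w => B₂ k x V j m w with hD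
  have hmE₂ : ∀ k j, Measurable fun p : Space3 × Config k =>
      gcE f₀ ε fun m w => B₂ k p.1 p.2 j m w := by
    intro k j
    exact measurable_gcE_param hf ε (F := fun m (p : Space3 × Config k) w =>
      B₂ k p.1 p.2 j m w) fun m => hB.meas₂ k j m
  have hmD : ∀ k, Measurable (D k) := by
    intro k
    have h0 : Measurable fun p : Space3 × Config k => gcWeight f₀ ε k p.2 :=
      (measurable_gcWeight hf ε k).comp measurable_snd
    have h1 : Measurable fun p : Space3 × Config k => gcWeight f₀ ε k p.2 *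
        ∑ j : Fin k, gcE f₀ ε fun m w => B₂ k p.1 p.2 j m w :=
      h0.mul (Finset.measurable_sum _ fun j _ => hmE₂ k j)
    have h2 : Measurable fun x : Space3 => ∫⁻ V : Config k, gcWeight f₀ ε k V *
        ∑ j : Fin k, gcE f₀ ε fun m w => B₂ k x V j m w := h1.lintegral_prod_right'
    exact h2.const_mul _
  have hpt : ∀ x ∈ Metric.closedBall (0 : Space3) R,
      errC Φ f₀ ε (S.shift x) 𝒢 tw t k ≤ 2 * A x + 2 * D k x := by
    intro x hx
    rw [errC_eq hΦ hε htw fun i => (hc i).add continuous_const]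
    unfold errMass
    rw [hA, hD]
    simp only
    rw [mul_left_comm, mul_left_comm 2 (activity ε ^ k / _), ← mul_add]
    refine mul_le_mul_right ?_ _
    have h2 : (2 : ℝ≥0∞) ≠ ∞ := ENNReal.ofNat_ne_top
    rw [← lintegral_const_mul' _ _ h2, ← lintegral_const_mul' _ _ h2, ← lintegral_add_right]
    · refine lintegral_mono fun V => ?_
      by_cases hV : V ∈ PairExcluded ε k
      · rw [mul_left_comm, mul_left_comm 2, ← mul_add]
        refine mul_le_mul_right ?_ _
        rw [Finset.mul_sum, Finset.mul_sum, ← Finset.sum_add_distrib]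
        exact Finset.sum_le_sum fun j _ =>
          errMass_integrand_le (f₀ := f₀) hf hΦ hε hc hB hk hx j hV
      · simp [gcWeight, indicator_of_notMem hV]
    · have h0 : Measurable fun V : Config k => (x, V) := measurable_const.prodMk measurable_id
      refine Measurable.const_mul ((measurable_gcWeight hf ε k).mul
        (Finset.measurable_sum _ fun j _ => ?_)) _
      have h := (hmE₂ k j).comp h0
      exact h
  obtain ⟨g, hgm, hgA, hgI⟩ : ∃ g : Space3 → ℝ≥0∞, Measurable g ∧ (∀ x, A x ≤ g x) ∧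
      ∫⁻ x, g x ≤ cX Φ (Fintype.card ι) M t *
      ((activity ε)⁻¹ * (activity ε ^ k / (k.factorial : ℝ≥0∞) *
        ∫⁻ V : Config k, gcWeight f₀ ε k V * ∑ j : Fin k, wt k V *
          gcE f₀ ε fun m w => B₁ k V j m w)) := by
    obtain ⟨g, hg, h1, h2⟩ := exists_root_maj (Φ := Φ) (f₀ := f₀) hΦ hf hε hε1 (γ := S.c) hM ht hγ
      (k := k) (E := fun V j => gcE f₀ ε fun m w => B₁ k V j m w)
      (fun j => measurable_gcE_param hf ε (F := fun m V w => B₁ k V j m w)
        fun m => hB.meas₁ k j m)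
      (H := fun x V j => ind (GoodH Φ ε (S.shift x).c (S.shift x).b 𝒢 tw t V j) *
        gcE f₀ ε fun m w => B₁ k V j m w)
      (fun x V j _ => by
        by_cases h : GoodH Φ ε (S.shift x).c (S.shift x).b 𝒢 tw t V j
        · rw [ind_true h, if_pos (GoodH.rootHit (γ := S.c) h htw)]
        · rw [ind_false h, zero_mul]; exact bot_le)
    refine ⟨fun x => activity ε ^ k / (k.factorial : ℝ≥0∞) * g x, hg.const_mul _,
      fun x => mul_le_mul_right (h1 x) _, ?_⟩
    rw [lintegral_const_mul _ hg]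
    refine (mul_le_mul_right h2 _).trans (le_of_eq ?_)
    rw [inv_activity_eq hε]
    ring
  have hball : MeasurableSet (Metric.closedBall (0 : Space3) R) :=
    Metric.isClosed_closedBall.measurableSet
  have hm2 : Measurable fun x : Space3 => 2 * g x + 2 * D k x :=
    (hgm.const_mul 2).add ((hmD k).const_mul 2)
  refine ⟨fun x => if x ∈ Metric.closedBall (0 : Space3) R then 2 * g x + 2 * D k x else ∞,
    Measurable.ite hball hm2 measurable_const, fun x => ?_, ?_⟩
  · change _ ≤ if x ∈ Metric.closedBall (0 : Space3) R then 2 * g x + 2 * D k x else ∞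
    split_ifs with hx
    · refine (hpt x hx).trans ?_
      gcongr
      exact hgA x
    · exact le_top
  · have h1 : ∫⁻ x in Metric.closedBall (0 : Space3) R,
        (if x ∈ Metric.closedBall (0 : Space3) R then 2 * g x + 2 * D k x else ∞) =
        ∫⁻ x in Metric.closedBall (0 : Space3) R, (2 * g x + 2 * D k x) :=
      setLIntegral_congr_fun hball fun x hx => if_pos hx
    have hkm : k ∈ Finset.range (K + 1) := Finset.mem_range.2 (Nat.lt_succ_of_le hk)
    rw [h1, lintegral_add_right _ ((hmD k).const_mul 2)]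
    refine add_le_add ?_ ?_
    · refine (setLIntegral_le_lintegral _ _).trans ?_
      rw [lintegral_const_mul _ hgm]
      refine mul_le_mul_right (hgI.trans (mul_le_mul_right ?_ _)) 2
      unfold evMass
      exact Finset.single_le_sum (f := fun k => (activity ε)⁻¹ *
        (activity ε ^ k / (k.factorial : ℝ≥0∞) * ∫⁻ V : Config k, gcWeight f₀ ε k V *
          ∑ j : Fin k, wt k V * gcE f₀ ε fun m w => B₁ k V j m w)) (fun _ _ => bot_le) hkm
    · rw [lintegral_const_mul _ (hmD k)]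
      refine mul_le_mul_right ?_ 2
      unfold obMass
      refine lintegral_mono fun x => ?_
      exact Finset.single_le_sum (f := fun k => D k x) (fun _ _ => bot_le) hkm

/-! ### `ErrSmall` -/

omit [Fintype ι] in
/-- **`ErrSmall` from `F3Input`.** -/
theorem errSmall_of (hf : Measurable f₀) (hΦ : AdmissiblePotential Φ) {T tw t : ℝ} (htw : 0 ≤ tw)
    (ht : 0 ≤ t) (htT : t ≤ T) (h : F3Input Φ f₀ T tw t) : ErrSmall Φ f₀ T tw t := by
  intro ι _ Sk S εk hε hε0 hconv hgen R n δ hδ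
  have hT : 0 ≤ T := ht.trans htT
  obtain ⟨M, hM, _⟩ := hconv.lip
  set C : ℝ≥0∞ := 2 * cX Φ (Fintype.card ι) M t + 2 with hC
  have hCt : C ≠ ∞ := ENNReal.add_ne_top.2 ⟨ENNReal.mul_ne_top ENNReal.ofNat_ne_top
    (cX_ne_top Φ _ _ _), ENNReal.ofNat_ne_top⟩
  have hC0 : C ≠ 0 := by
    rw [hC]
    intro h0
    exact two_ne_zero (add_eq_zero.1 h0).2
  obtain ⟨d, hd, hdδ⟩ : ∃ d : ℝ, 0 < d ∧ C * ENNReal.ofReal d ≤ ENNReal.ofReal δ := by
    have hη : ENNReal.ofReal δ ≠ 0 := (ENNReal.ofReal_pos.2 hδ).ne'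
    refine ⟨(ENNReal.ofReal δ / C).toReal, ENNReal.toReal_pos (ENNReal.div_pos hη hCt).ne'
      (ENNReal.div_ne_top ENNReal.ofReal_ne_top hC0), ?_⟩
    rw [ENNReal.ofReal_toReal (ENNReal.div_ne_top ENNReal.ofReal_ne_top hC0),
      ENNReal.mul_div_cancel hC0 hCt]
  -- drop the first terms, clip
  obtain ⟨k₀, hk₀⟩ := eventually_atTop.1 hM
  have hφ : Tendsto (fun k : ℕ => k + k₀) atTop atTop := tendsto_add_atTop_nat k₀
  have hlip : ∀ k, ∀ i, LipschitzWith M ((clip T (Sk (k + k₀))).c i) := fun k i =>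
    clip_lip hT (hk₀ (k + k₀) (Nat.le_add_left _ _) i)
  have hmain := h ι (fun k => clip T (Sk (k + k₀))) S (fun k => εk (k + k₀)) (fun k => hε _)
    (hε0.comp hφ) (tubeConv_clip hT (tubeConv_comp hconv hφ)) hgen
    (fun k i => (hlip k i).continuous) n R d hd
  have hε1 : ∀ᶠ k in atTop, εk (k + k₀) ≤ 1 := by
    filter_upwards [(hε0.comp hφ).eventually (Iio_mem_nhds one_pos)] with k hk
    exact le_of_lt hk
  have hfin : ∀ᶠ k in atTop, (fun k => ∃ maj : Space3 → ℝ≥0∞,
      Measurable maj ∧ (∀ x, errC Φ f₀ (εk k) (clip T ((Sk k).shift x)) (treeCls Φ (εk k))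
        tw t n ≤ maj x) ∧
      ∫⁻ x in Metric.closedBall (0 : Space3) R, maj x ≤ ENNReal.ofReal δ) (k + k₀) := by
    filter_upwards [hmain, hε1] with k hk hk1
    obtain ⟨B₁, B₂, hB, hb1, hb2⟩ := hk
    have hγ : ∀ a, ∀ s ∈ Icc 0 t, ∀ s' ∈ Icc 0 t,
        dist ((clip T (Sk (k + k₀))).c a s) ((clip T (Sk (k + k₀))).c a s') ≤
          (M : ℝ) * |s - s'| := by
      intro a s _ s' _
      have := (hlip k a).dist_le_mul s s'
      rwa [Real.dist_eq] at this
    obtain ⟨maj, h1, h2, h3⟩ := exists_errC_maj (f₀ := f₀) hf hΦ (hε _) hk1 M.2 htw ht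
      (fun i => (hlip k i).continuous) hγ hB le_rfl
    refine ⟨maj, h1, h2, h3.trans ?_⟩
    calc 2 * (cX Φ (Fintype.card ι) M t * evMass f₀ (εk (k + k₀)) n B₁) +
          2 * obMass f₀ (εk (k + k₀)) n R B₂
        ≤ 2 * (cX Φ (Fintype.card ι) M t * ENNReal.ofReal d) + 2 * ENNReal.ofReal d := by
          gcongr
      _ = C * ENNReal.ofReal d := by rw [hC]; ring
      _ ≤ ENNReal.ofReal δ := hdδ
  obtain ⟨k₁, hk₁⟩ := eventually_atTop.1 hfin
  refine eventually_atTop.2 ⟨k₁ + k₀, fun k hk => ?_⟩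
  have h4 := hk₁ (k - k₀) (by omega)
  have h5 : k - k₀ + k₀ = k := by omega
  simp only [h5] at h4
  exact h4

/-- **`ErrSmall` from the null statement with exceptional events.** -/
theorem errSmall_of_f3Null (hf : Measurable f₀) (hΦ : AdmissiblePotential Φ) {T tw t : ℝ}
    (htw : 0 ≤ tw) (ht : 0 ≤ t) (htT : t ≤ T) (hN : F3Fin370.F3Null Φ f₀ T t) :
    ErrSmall Φ f₀ T tw t :=
  errSmall_of hf hΦ htw ht htT (F3Fin370.f3Input_of hf hΦ htw hN)

/-- **`ErrSmall` from the null statements.** -/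
theorem errSmall_of_null (hf : Measurable f₀) (hΦ : AdmissiblePotential Φ) {T tw t : ℝ}
    (htw : 0 ≤ tw) (ht : 0 ≤ t) (htT : t ≤ T) (hTN : F3Fin370.TreeNull Φ f₀ t)
    (hON : F3Fin370.ObNull Φ f₀ T t) : ErrSmall Φ f₀ T tw t :=
  errSmall_of_f3Null hf hΦ htw ht htT (F3Fin370.f3Null_of hTN hON)

end Crest.Agent.R122.ErrBind317
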