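import Crest.Agent.R122.GIVStep_383
import Crest.Agent.R122.TopF_602

/-!
# Row 122, block F (helper383): the input `GIVStepIn` of the top skeleton

`givStepIn : KData → GIVStepIn`; `fIn_of` : `BadIn` and `ErrIn` imply `FIn`.
-/

set_option autoImplicit false

open Crest.AnalysisR.Kinetic
open Crest.Agent.R122.Master566 Crest.Agent.R122.GIV566

noncomputable section

namespace Crest.Agent.R122.Top602

variable {Φ : Space3 → ℝ} {β T : ℝ} {f₀ : PhasePoint → ℝ} {f : ℝ → PhasePoint → ℝ}

/-- The window step of the ghost avoidance identification. -/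
theorem givStepIn (hD : KData Φ β T f₀ f) : GIVStepIn Φ f₀ f T := by
  obtain ⟨h, hh, H⟩ := GIVStep383.giv_window hD
  exact ⟨h, hh, fun tw te hw hG hF => H tw te hw.nonneg hw.le hw.le_T hw.short hF hG⟩

/-- Section F from its two remaining inputs. -/
theorem fIn_of (hD : KData Φ β T f₀ f) (hB : BadIn Φ f₀ f T) (hE : ErrIn Φ f₀ f T) :
    FIn Φ f₀ f T :=
  fIn_of_flux (givStepIn hD) (fluxIn_of hD hB hE)

end Crest.Agent.R122.Top602
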