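import Crest.Agent.R122.LinkD1_331

/-!
# Row 122, LN3-D (helper331), part 2: clean chains from entry chains (choice of the worlds)

`EC C F a L s`: entry chain from the root `a` (most recent particle first), `s` last entry time,
`F r k`: the particle `k` is influenced at time `r`.
* `cc_of_ec`: an entry chain gives a clean chain with the same number of links.
-/

set_option autoImplicit false

open Set

namespace Crest.Agent.R122.LinkD331

open Crest.Agent.R122.Causal291

variable {J : Type} {T : ℝ} {C : Bool → ℝ → J → J → Prop} {E : ℝ → J → J → Prop}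

/-- Entry chains (most recent particle first, the root `a` at the end). -/
inductive EC (C : Bool → ℝ → J → J → Prop) (F : ℝ → J → Prop) (a : J) : List J → ℝ → Prop
  | root : EC C F a [a] 0
  | cons {l k : J} {ps : List J} {s s' : ℝ} {b : Bool} (h : EC C F a (l :: ps) s) (hs : s ≤ s')
      (hk : k ∉ l :: ps) (hc : C b s' l k) (hn : ∀ r < s', ¬ F r k) : EC C F a (k :: l :: ps) s'

variable {F : ℝ → J → Prop} {a : J}

theorem EC.mem {L : List J} {s : ℝ} (h : EC C F a L s) : a ∈ L := by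
  induction h with
  | root => exact List.mem_singleton.2 rfl
  | cons _ _ _ _ _ ih => exact List.mem_cons_of_mem _ ih

theorem EC.nonneg {L : List J} {s : ℝ} (h : EC C F a L s) : 0 ≤ s := by
  induction h with
  | root => exact le_rfl
  | cons _ hs _ _ _ ih => exact ih.trans hs

theorem EC.nodup {L : List J} {s : ℝ} (h : EC C F a L s) : L.Nodup := by
  induction h with
  | root => exact List.nodup_singleton a
  | cons _ _ hk _ _ ih => exact List.nodup_cons.2 ⟨hk, ih⟩

/-- The head of an entry chain is influenced. -/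
theorem EC.fut (hmono : ∀ r r' k, F r k → r ≤ r' → F r' k) (h0 : F 0 a)
    (hcon : ∀ b r j k, C b r j k → F r j → F r k) {L : List J} {s : ℝ} (h : EC C F a L s)
    {k : J} {tl : List J} (hL : L = k :: tl) : F s k := by
  induction h generalizing k tl with
  | root =>
    rw [List.cons.injEq] at hL
    rw [← hL.1]; exact h0
  | @cons l k' ps s s' b h hs hk hc hn ih =>
    rw [List.cons.injEq] at hL
    rw [← hL.1]
    exact hcon b s' l k' hc (hmono _ _ _ (ih rfl) hs)

/-- First contact time of a pair. -/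
theorem Tree.exists_first (hT : Tree T C E) {b : Bool} {j k : J} (hne : j ≠ k) {r : ℝ}
    (hr : r ≤ T) (hc : C b r j k) :
    ∃ r₁ ≤ r, C b r₁ j k ∧ ∀ r' < r₁, ¬ C b r' j k := by
  have hr0 : 0 < r := hT.pos b r j k hc hne
  have hcomp : IsCompact {s | s ∈ Icc 0 T ∧ C b s j k} :=
    isCompact_Icc.of_isClosed_subset (hT.closed b j k hne) fun s hs => hs.1
  obtain ⟨r₁, h1, h2⟩ := hcomp.exists_isLeast ⟨r, ⟨hr0.le, hr⟩, hc⟩
  refine ⟨r₁, h2 ⟨⟨hr0.le, hr⟩, hc⟩, h1.2, fun r' hr' hc' => ?_⟩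
  have h3 : 0 < r' := hT.pos b r' j k hc' hne
  exact absurd (h2 ⟨⟨h3.le, hr'.le.trans h1.1.2⟩, hc'⟩) (not_le.2 hr')

/-- Continuation of a chain from the particle `k` followed in the world `b`; the next contact takes
place not before `t''`; `N` contains `k` and the later particles of the chain. -/
def Cont (T : ℝ) (C : Bool → ℝ → J → J → Prop) (E : ℝ → J → J → Prop) (K : ℕ) (b : Bool) (k : J)
    (m : ℕ) (t'' : ℝ) (N : Set J) : Prop :=
  ∀ (t : ℝ) (g : Set J), t < t'' → (∀ x ∈ g, x ∉ N ∧ ∀ s < t'', s ≤ T → ¬ C b s k x) →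
    CC T C E K b k t g m

/-- **Clean chains from entry chains.** -/
theorem cc_of_ec (hT : Tree T C E) [Finite J] {K : ℕ} {t₀ : ℝ}
    (hmono : ∀ r r' k, F r k → r ≤ r' → F r' k) (h0 : F 0 a)
    (hcon : ∀ b r j k, C b r j k → F r j → F r k)
    (hun : ∀ r k, 0 ≤ r → r ≤ T → ¬ F r k → BC (C true) r k = BC (C false) r k)
    (ha : ∀ b s k, C b s a k → ¬ F 0 k → b = true ∧ t₀ < s) {L : List J} {s : ℝ}
    (h : EC C F a L s) (hsT : s ≤ T)
    (hH : ∀ x ∈ L, x ≠ a → ∀ b, HistE (C b) E T x)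
    (hK : ∀ x ∈ L, x ≠ a → ∀ b, (BC (C b) T x).ncard ≤ K) :
    ∀ (k : J) (tl : List J), L = k :: tl → ∀ (b : Bool) (m : ℕ) (t'' : ℝ) (N : Set J),
      s < t'' → (k = a → b = true ∧ t₀ < t'') → k ∈ N → (∀ x ∈ tl, x ∉ N) →
      Cont T C E K b k m t'' N → CC T C E K true a t₀ ∅ (m + tl.length) := by
  induction h with
  | root =>
    intro k tl hL b m t'' N hst hb _ _ hcont
    rw [List.cons.injEq] at hL
    obtain ⟨rfl, rfl⟩ := hL
    obtain ⟨rfl, ht₀⟩ := hb rfl
    have h1 := hcont t₀ ∅ ht₀ (fun x hx => absurd hx (notMem_empty x))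
    rwa [List.length_nil, add_zero]
  | @cons l k₀ ps s s' b₀ h hs hk hc hn ih =>
    intro k tl hL b m t'' N hst _ hkN htl hcont
    rw [List.cons.injEq] at hL
    obtain ⟨rfl, rfl⟩ := hL
    have hlk : l ≠ k₀ := fun h => hk (h ▸ List.mem_cons_self)
    have hka : k₀ ≠ a := fun h' => hk (h' ▸ h.mem)
    have hlN : l ∉ N := htl l List.mem_cons_self
    have hHk : ∀ b, HistE (C b) E T k₀ := hH k₀ List.mem_cons_self hka
    -- contacts of `l` and `k₀` are virtual contacts
    have hE : ∀ b r, r ≤ T → C b r l k₀ → E r l k₀ := fun b r hr hc =>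
      hT.symmE _ _ _ (hHk b r k₀ l (.root hr) (hT.symmC _ _ _ _ hc) (Ne.symm hlk))
    have hHl : ∀ b r, r ≤ T → C b r l k₀ → HistE (C b) E r l := fun b r hr hc =>
      ((hHk b).mono hr).contact (hT.symmC _ _ _ _ hc)
    have hKl : ∀ b r, r ≤ T → C b r l k₀ → (BC (C b) r l).ncard ≤ K := fun b r hr hc =>
      (ncard_le_ncard ((bc_contact (hT.symmC _ _ _ _ hc)).trans (bc_mono_time k₀ hr))
        (toFinite _)).trans (hK k₀ List.mem_cons_self hka b)
    have hEs' : E s' l k₀ := hE b₀ s' hsT hc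
    -- windows
    have hwin : ∀ b r, r ≤ T → C b r l k₀ → s < r := by
      intro b r hr hcr
      by_contra hle
      push Not at hle
      have hr0 : 0 < r := hT.pos b r l k₀ hcr hlk
      cases h with
      | root => exact absurd hle (not_le.2 hr0)
      | @cons l' _ ps' s₁ _ b₁ h' hs₁ hk' hc' hn' =>
        have hl'l : l' ≠ l := fun h => hk' (h ▸ List.mem_cons_self)
        have hla : l ≠ a := fun h'' => hk' (h'' ▸ h'.mem)
        have hHl' := hH l (List.mem_cons_of_mem _ List.mem_cons_self) hla b₁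
        have hE' : E s l' l := hT.symmE _ _ _
          (hHl' s l l' (.root (hs.trans hsT)) (hT.symmC _ _ _ _ hc') (Ne.symm hl'l))
        have h4 := hT.sep l k₀ l' l r s' s hlk hl'l hr0.le hsT hle hs (hE b r hr hcr) hEs' hE'
        rcases Sym2.eq_iff.1 h4 with ⟨_, h5⟩ | ⟨_, h5⟩
        · exact hlk h5.symm
        · exact hk (h5 ▸ List.mem_cons_of_mem _ List.mem_cons_self)
    have hFl : F s l := h.fut hmono h0 hcon rfl
    have hbefore : ∀ b, ∀ r < s', ¬ C b r l k₀ := by
      intro b r hr hcr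
      have h1 := hwin b r (hr.le.trans hsT) hcr
      exact hn r hr (hcon b r l k₀ hcr (hmono _ _ _ hFl h1.le))
    have hss' : s < s' := hwin b₀ s' hsT hc
    have h0k : ¬ F 0 k₀ := hn 0 (h.nonneg.trans_lt hss')
    have hla : ∀ b r, C b r l k₀ → l = a → b = true ∧ t₀ < r := fun b r hc' hl =>
      ha b r k₀ (hl ▸ hc') h0k
    have hnd := (List.nodup_cons.1 (List.nodup_cons.1 (EC.nodup (.cons h hs hk hc hn))).2).1
    have hlen : m + (l :: ps).length = (m + 1) + ps.length := by
      rw [List.length_cons]; omega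
    rw [hlen]
    have hN' : ∀ x ∈ ps, x ∉ insert l N := by
      intro x hx hxN
      rcases hxN with rfl | hxN
      · exact hnd hx
      · exact htl x (List.mem_cons_of_mem _ hx) hxN
    have hHL : ∀ x ∈ l :: ps, x ≠ a → ∀ b, HistE (C b) E T x := fun x hx =>
      hH x (List.mem_cons_of_mem _ hx)
    have hKL : ∀ x ∈ l :: ps, x ≠ a → ∀ b, (BC (C b) T x).ncard ≤ K := fun x hx =>
      hK x (List.mem_cons_of_mem _ hx)
    -- no contact with forbidden particles up to the contact with `k₀`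
    have hforb : ∀ (b : Bool) (r₁ : ℝ) (g : Set J), r₁ ≤ T → C b r₁ l k₀ →
        (∀ x ∈ g, x ∉ insert l N ∧ ∀ s < r₁, s ≤ T → ¬ C b s l x) →
        ∀ x ∈ g, ∀ s ≤ r₁, ¬ C b s l x := by
      intro b r₁ g hr₁ hc₁ hg x hx s₁ hs₁ hcx
      obtain ⟨hxN, hx'⟩ := hg x hx
      rcases hs₁.lt_or_eq with h1 | h1
      · exact hx' s₁ h1 (h1.le.trans hr₁) hcx
      · rw [h1] at hcx
        have hlx : l ≠ x := fun h => hxN (h ▸ mem_insert l N)
        have hr0 : 0 < r₁ := hT.pos b r₁ l k₀ hc₁ hlk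
        have h2 : E r₁ l x := hHl b r₁ hr₁ hc₁ r₁ l x (.root le_rfl) hcx hlx
        have h3 := hT.same hr0.le hr₁ hlx hlk h2 (hE b r₁ hr₁ hc₁)
        rcases Sym2.eq_iff.1 h3 with ⟨_, h5⟩ | ⟨h5, _⟩
        · exact hxN (mem_insert_of_mem l (h5 ▸ hkN))
        · exact hlk h5
    by_cases hA : ∃ r < t'', r ≤ T ∧ C b r l k₀
    · -- the next particle is followed in the same world
      obtain ⟨r, hr1, hr2, hr3⟩ := hA
      obtain ⟨r₁, h1, h2, h3⟩ := hT.exists_first hlk hr2 hr3
      have hr₁T : r₁ ≤ T := h1.trans hr2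
      refine ih (hs.trans hsT) hHL hKL l ps rfl b (m + 1) r₁ (insert l N) (hwin b r₁ hr₁T h2)
        (hla b r₁ h2) (mem_insert l N) hN' fun t g ht hg => ?_
      exact .sw ht hr₁T hlk h2 h3 (hHl b r₁ hr₁T h2) (hKl b r₁ hr₁T h2)
        (hforb b r₁ g hr₁T h2 hg)
        (hcont r₁ ∅ (h1.trans_lt hr1) fun x hx => absurd hx (notMem_empty x))
    · push Not at hA
      have hb : b = !b₀ := by
        cases b <;> cases b₀ <;> first | rfl | exact absurd hc (hA s' hst hsT)
      refine ih (hs.trans hsT) hHL hKL l ps rfl b₀ (m + 1) s' (insert l N) hss'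
        (hla b₀ s' hc) (mem_insert l N) hN' fun t g ht hg => ?_
      refine .gh ht hsT hlk hc (hbefore b₀) (hHl b₀ s' hsT hc) (hKl b₀ s' hsT hc)
        (hforb b₀ s' g hsT hc hg) ?_ ((hHk _).mono hsT) ?_ ?_
      · intro r hr
        rcases lt_or_ge r 0 with h1 | h1
        · have h2 : ∀ b, BC (C b) r k₀ = ∅ := by
            intro b
            ext x
            simp only [mem_BC, mem_empty_iff_false, iff_false]
            exact fun hx => absurd hx.le (not_le.2 h1)
          rw [h2, h2]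
        · have h2 := hun r k₀ h1 (hr.le.trans hsT) (hn r hr)
          cases b₀ with
          | true => exact h2.symm
          | false => exact h2
      · intro hc'
        exact hA s' hst hsT (hb ▸ hT.symmC _ _ _ _ hc')
      · have h5 := hcont s' {l} hst (by
          intro x hx
          rw [mem_singleton_iff] at hx
          subst hx
          exact ⟨hlN, fun r hr hrT hcr => hA r hr hrT (hT.symmC _ _ _ _ hcr)⟩)
        rw [hb] at h5
        exact h5

/-- An entry chain with `m` links gives a clean chain with `m` links. -/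
theorem cc_of_ec' (hT : Tree T C E) [Finite J] {K : ℕ} {t₀ : ℝ}
    (hmono : ∀ r r' k, F r k → r ≤ r' → F r' k) (h0 : F 0 a)
    (hcon : ∀ b r j k, C b r j k → F r j → F r k)
    (hun : ∀ r k, 0 ≤ r → r ≤ T → ¬ F r k → BC (C true) r k = BC (C false) r k)
    (ha : ∀ b s k, C b s a k → ¬ F 0 k → b = true ∧ t₀ < s) {L : List J} {s : ℝ}
    (h : EC C F a L s) (hsT : s ≤ T)
    (hH : ∀ x ∈ L, x ≠ a → ∀ b, HistE (C b) E T x)
    (hK : ∀ x ∈ L, x ≠ a → ∀ b, (BC (C b) T x).ncard ≤ K) {m : ℕ} (hm : L.length = m + 1) :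
    CC T C E K true a t₀ ∅ m := by
  cases L with
  | nil => simp at hm
  | cons k tl =>
    have hnd := h.nodup
    have h1 := cc_of_ec hT hmono h0 hcon hun ha h hsT hH hK k tl rfl true 0 (max s t₀ + 1) {k}
      (by linarith [le_max_left s t₀]) (fun _ => ⟨rfl, by linarith [le_max_right s t₀]⟩)
      (mem_singleton k)
      (fun x hx hxk => (List.nodup_cons.1 hnd).1 (by rw [mem_singleton_iff] at hxk; rwa [← hxk]))
      (fun t g _ _ => .nil)
    have h2 : 0 + tl.length = m := by
      rw [List.length_cons] at hm; omega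
    rwa [h2] at h1

/-- The virtual contact graph of a part. -/
def grOn (E : ℝ → J → J → Prop) (S : Set J) : SimpleGraph J where
  Adj i j := i ≠ j ∧ i ∈ S ∧ j ∈ S ∧ ∃ s, E s i j ∨ E s j i
  symm := ⟨fun _ _ ⟨h, hi, hj, s, h'⟩ => ⟨h.symm, hj, hi, s, h'.symm⟩⟩
  loopless := ⟨fun _ h => h.1 rfl⟩

theorem grOn_le (E : ℝ → J → J → Prop) (S : Set J) : grOn E S ≤ grA E :=
  fun _ _ ⟨h, _, _, s, h'⟩ => ⟨h, s, h'⟩

/-- **Traces from entry chains** (abstract form): `S` the part of the structure with the root `a`,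
which has its contacts in `S` until `t₀` and is followed afterwards. -/
theorem trace_of_ec (hT : Tree T C E) [Finite J] {K : ℕ} {t₀ : ℝ} {S : Set J}
    {Ok : Set J → J → Set J → J → ℝ → Prop}
    (hOk : ∀ b q e r, r ≤ T → q ≠ e → C b r q e → HistE (C b) E r q → (BC (C b) r q).ncard ≤ K →
      Disjoint (pre (C b) r e) S → Ok (pre (C b) r e) e (pre (C b) r q) q r)
    (hmono : ∀ r r' k, F r k → r ≤ r' → F r' k) (h0 : F 0 a)
    (hcon : ∀ b r j k, C b r j k → F r j → F r k)
    (hun : ∀ r k, 0 ≤ r → r ≤ T → ¬ F r k → BC (C true) r k = BC (C false) r k)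
    (ha : ∀ b s k, C b s a k → ¬ F 0 k → b = true ∧ t₀ < s)
    (ht₀ : 0 ≤ t₀) (hD : BC (C true) t₀ a ⊆ S) (hconn : ∀ x ∈ S, (grOn E S).Reachable a x)
    (hS : ∀ x ∈ S, x ≠ a → ∀ s, t₀ < s → s ≤ T → ¬ C true s a x)
    {L : List J} {s : ℝ} (h : EC C F a L s) (hsT : s ≤ T)
    (hH : ∀ x ∈ L, x ≠ a → ∀ b, HistE (C b) E T x)
    (hK : ∀ x ∈ L, x ≠ a → ∀ b, (BC (C b) T x).ncard ≤ K) {m : ℕ} (hm : L.length = m + 1) :
    Trace Ok (BC (C true) t₀ a) a t₀ S m := by
  have h1 := cc_of_ec' hT hmono h0 hcon hun ha h hsT hH hK hm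
  refine trace_of_cc hT hOk m m true a t₀ ∅ (BC (C true) t₀ a) S (grOn E S) h1 le_rfl ?_ subset_rfl
  exact ⟨ht₀, rfl, hD, grOn_le E S, fun x y hxy => hxy.2.1, hconn,
    fun x hx => Or.inr (Or.inr (hS x hx.2.2.1 (Ne.symm hx.1)))⟩

/-- Before every contact the closed past is the particle itself. -/
theorem Tree.bc_zero (hT : Tree T C E) (b : Bool) (a : J) : BC (C b) 0 a = {a} := by
  apply Subset.antisymm
  · have key : ∀ (s : ℝ) (k : J), Past (C b) 0 a s k → 0 ≤ s → k = a := by
      intro s k hk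
      induction hk with
      | root _ => exact fun _ => rfl
      | @step s s' j k hp hc hss ih =>
        intro hs
        have h2 := ih (hs.trans hss)
        by_contra hne
        have h3 := hT.pos b s' j k hc (fun h => hne (h ▸ h2))
        exact absurd hp.le (not_le.2 h3)
    exact fun k hk => key 0 k hk le_rfl
  · rintro k rfl
    exact root_mem_BC le_rfl

end Crest.Agent.R122.LinkD331
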