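import Crest.Agent.R122.LN1Real_304
import Crest.Agent.R122.LNReach_968
import Crest.Agent.R122.LNvs3_410
import Crest.Agent.R122.LNWRW2_291
import Crest.Agent.R122.LinkD2_331

/-!
# Row 122, LN1 (helper304): from entry chains to `Reach` (E3), multi-exit form

One real (pseudo-)world `(X, C)` over `M`; `π` is the part of the exit `a`; the base world may
contain other exits of `π`.

* `PartS` : (exit data) a contact of `d ∈ π` with an outsider at `s'` and a contact of `d` with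
  `p ∈ π` at `s ≥ s'` : if the pair `(p, d)` is a contact pair of the part, the contact of the part
  happened before `s'`.
* `PartD` : (exit data) direct contact of the exit `a` with `d ∈ π` in the derived world.
* `preF_subset_out` : the strict past of a member of the group consists of members of `π` and of the
  past through contacts which are not inside `π`.
* `grow1`, `grow2` : growth of the groups `Grp` of helper968.
* `grp_of_ec`, `reach_of_ec` : an entry chain (`LinkD2_331.EC`) gives a group; `Reach`.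
-/

set_option autoImplicit false
set_option linter.unusedSectionVars false

open MeasureTheory Set Filter Topology
open Crest.AnalysisR.Kinetic
open Crest.Agent.R122.GIV566 Crest.Agent.R122.VL581 Crest.Agent.R122.LNg410
open Crest.Agent.R122.Causal291 Crest.Agent.R122.VLInst442 Crest.Agent.R122.LNEv968
open scoped Classical

noncomputable section

namespace Crest.Agent.R122.LN304

variable {J κ : Type} [Fintype J] {M : VSys J κ} {c ℓ ς : ℝ} {Z : J → PhasePoint}
  {X : ℝ → J → PhasePoint} {C : ℝ → J → J → Prop} {Λ : Finset (Finset J)} {N n : ℕ}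
  {π P Y : Finset J} {a x y : J} {v : ℝ}

/-- A family `F` of contacts of the part which connects it. -/
def Fam (M : VSys J κ) (c : ℝ) (Z : J → PhasePoint) (π : Finset J) (F : J → J → Prop) : Prop :=
  CutConn π F ∧ ∀ i ∈ π, ∀ j ∈ π, i ≠ j → F i j → ∃ t ∈ Icc 0 M.T, M.VCt c π i j t Z

/-- **Exit data, indirect**: `d ∈ π` is in contact with an outsider `g` at `s'` and with `p ∈ π` at
`s ≥ s'`. -/
def PartS (M : VSys J κ) (c : ℝ) (Z : J → PhasePoint) (C : ℝ → J → J → Prop) (π : Finset J) :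
    Prop :=
  ∀ (p d g : J) (s s' : ℝ), p ∈ π → d ∈ π → p ≠ d → g ∉ π → 0 ≤ s' → s' ≤ s → s ≤ M.T →
    C s p d → C s' d g →
    s' = s ∨ ∃ F, Fam M c Z π F ∧ (F p d ∨ F d p → ∃ s₀ ∈ Icc 0 s', M.VCt c π p d s₀ Z)

/-- **Exit data, direct**: contact `C'` (of the derived world) of the exit `a` with `d ∈ π`. -/
def PartD (M : VSys J κ) (c : ℝ) (Z : J → PhasePoint) (C C' : ℝ → J → J → Prop) (π : Finset J)
    (a : J) : Prop :=
  ∀ (d : J) (v : ℝ), d ∈ π → d ≠ a → v ≤ M.T → C' v a d →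
    ∃ F, Fam M c Z π F ∧ (F a d ∨ F d a → ∃ s₀, 0 ≤ s₀ ∧ M.VCt c π a d s₀ Z ∧
      ∃ r, s₀ ≤ r ∧ r < v ∧ ∃ m, m ≠ a ∧ m ≠ d ∧ (C r a m ∨ C r d m))

/-- Contacts of `C` which are not inside `π`. -/
def outC (C : ℝ → J → J → Prop) (π : Finset J) (s : ℝ) (i j : J) : Prop :=
  C s i j ∧ (i ∉ π ∨ j ∉ π)

theorem past_of_out {t s : ℝ} {k : J} (h : Past (outC C π) t x s k) : Past C t x s k := by
  induction h with
  | root h => exact .root h
  | step _ hc hs ih => exact .step ih hc.1 hs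

theorem preF_out_subset : preF (outC C π) x v ⊆ preF C x v := by
  intro k hk
  obtain ⟨s, hs, h⟩ := mem_preF.1 hk
  exact mem_preF.2 ⟨s, hs, past_of_out h⟩

/-- In a tree-like connected `P ⊇ π` the contact pairs inside `π` belong to every connecting
family of `π`. -/
theorem pair_of_fam (hT : TL M c ℓ ς P Z) (hc : M.Conn c P Z) (hπP : π ⊆ P) {F : J → J → Prop}
    (hF : Fam M c Z π F) {p d : J} (hp : p ∈ π) (hd : d ∈ π) (hpd : p ≠ d) {t : ℝ}
    (h : vc M c P Z p d t) : F p d ∨ F d p := by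
  have h1 : CutConn P fun i j => (i ∈ π ∧ j ∈ π ∧ F i j) ∨ outR M c P Z π i j := by
    have h2 := conn_iff.1 hc
    refine ⟨h2.1, fun Q hQ hne hneP => ?_⟩
    by_cases hcut : (Q ∩ π).Nonempty ∧ Q ∩ π ≠ π
    · obtain ⟨i, hi, j, hj, hjQ, h3⟩ := hF.1.2 (Q ∩ π) Finset.inter_subset_right hcut.1 hcut.2
      rw [Finset.mem_inter] at hi
      refine ⟨i, hi.1, j, hπP hj, fun h' => hjQ (Finset.mem_inter.2 ⟨h', hj⟩), ?_⟩
      exact h3.imp (fun h' => Or.inl ⟨hi.2, hj, h'⟩) fun h' => Or.inl ⟨hj, hi.2, h'⟩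
    · obtain ⟨i, hi, j, hj, hjQ, h3⟩ := h2.2 Q hQ hne hneP
      have h4 : i ∉ π ∨ j ∉ π := by
        by_contra hcon
        push Not at hcon
        refine hcut ⟨⟨i, Finset.mem_inter.2 ⟨hi, hcon.1⟩⟩, fun he => hjQ ?_⟩
        exact (Finset.mem_inter.1 (he.symm ▸ hcon.2 : j ∈ Q ∩ π)).1
      exact ⟨i, hi, j, hj, hjQ, h3.imp (fun h' => Or.inr ⟨h4, h'⟩) fun h' => Or.inr ⟨h4.symm, h'⟩⟩
  have h2 := hT.2.mem_of_cutConn h1 (fun i _ j _ hij h => by
    rcases h with ⟨hi, hj, h⟩ | h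
    · obtain ⟨r, hr, h⟩ := hF.2 i hi j hj hij h
      exact ⟨r, Or.inl ⟨hr, vct_mono hπP h⟩⟩
    · obtain ⟨_, t, ht⟩ := h
      exact ⟨t, Or.inl ht⟩) (hπP hp) (hπP hd) hpd h
  rcases h2 with (⟨_, _, h3⟩ | h3) | (⟨_, _, h3⟩ | h3)
  · exact Or.inl h3
  · exact (h3.1.elim (fun h' => h' hp) fun h' => h' hd).elim
  · exact Or.inr h3
  · exact (h3.1.elim (fun h' => h' hd) fun h' => h' hp).elim

/-- A contact of a third particle between two contacts of a pair is impossible. -/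
theorem between_false (hT : TL M c ℓ ς P Z) (hc : M.Conn c P Z) (hℓς : 2 * ℓ ≤ ς) {p d g : J}
    (hpP : p ∈ P) (hdP : d ∈ P) (hgP : g ∈ P) (hpd : p ≠ d) (hgp : g ≠ p) (hgd : g ≠ d)
    {s₀ s' s : ℝ} (h0 : 0 ≤ s₀) (h1 : s₀ ≤ s') (h2 : s' ≤ s) (hs₀ : M.VCt c P p d s₀ Z)
    (hs : vc M c P Z p d s) (hs' : vc M c P Z d g s') : False := by
  have h3 := tl_between hT.2 hc hℓς hpP hdP hpd hdP hgP (Ne.symm hgd)
    ⟨h0, (h1.trans h2).trans hs.1.2⟩ hs₀ hs.1 hs.2 hs'.1 hs'.2 h1 h2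
  rcases h3 with ⟨h3, _⟩ | ⟨h3, _⟩
  · exact hpd h3
  · exact hgp h3.symm

theorem partS_false (hT : TL M c ℓ ς P Z) (hc : M.Conn c P Z) (hℓς : 2 * ℓ ≤ ς) (hπP : π ⊆ P)
    (hS : PartS M c Z C π) {p d g : J} (hp : p ∈ π) (hd : d ∈ π) (hpd : p ≠ d) (hg : g ∉ π)
    (hgP : g ∈ P) {s s' : ℝ} (h0 : 0 ≤ s') (h1 : s' ≤ s) (hC : C s p d) (hC' : C s' d g)
    (hs : vc M c P Z p d s) (hs' : vc M c P Z d g s') : False := by
  have hgp : g ≠ p := fun h => hg (h ▸ hp)
  have hgd : g ≠ d := fun h => hg (h ▸ hd)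
  rcases hS p d g s s' hp hd hpd hg h0 h1 hs.1.2 hC hC' with h | ⟨F, hF, h⟩
  · subst h
    exact between_false hT hc hℓς (hπP hp) (hπP hd) hgP hpd hgp hgd h0 le_rfl le_rfl hs.2 hs hs'
  · obtain ⟨s₀, hs₀, h2⟩ := h (pair_of_fam hT hc hπP hF hp hd hpd hs)
    exact between_false hT hc hℓς (hπP hp) (hπP hd) hgP hpd hgp hgd hs₀.1 hs₀.2 h1
      (vct_mono hπP h2) hs hs'

section adm

variable (hΦ : AdmissiblePotential M.Φ) (hε : 0 < M.ε) [Nonempty κ] (hc : 1 ≤ c)
  (hℓς : 2 * ℓ ≤ ς) (hRW : RW M Z X C)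
include hΦ hε hc hℓς hRW

/-- The strict past is made of members of `π` and of the past through contacts which are not inside
`π`. -/
theorem preF_subset_out (hConn : M.Conn c P Z) (hT : TL M c ℓ ς P Z) (hπP : π ⊆ P)
    (hS : PartS M c Z C π) (hv : v ∈ Ioc 0 M.T) (hV : preF C x v ⊆ P) :
    preF C x v ⊆ π ∪ preF (outC C π) x v := by
  have key : ∀ t < v, ∀ (s : ℝ) (k : J), Past C t x s k → 0 ≤ s →
      Past (outC C π) t x s k ∨
        (k ∈ π ∧ ∃ p ∈ π, p ≠ k ∧ ∃ r, s ≤ r ∧ Past C t x r p ∧ Past C t x r k ∧ C r p k) := by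
    intro t ht s k hk
    induction hk with
    | root h => exact fun _ => Or.inl (.root h)
    | @step s s' j k hp hC hs ih =>
      intro h0
      have h0' : 0 ≤ s' := h0.trans hs
      by_cases hjk : j = k
      · subst hjk
        rcases ih h0' with h | ⟨h1, p, h2, h3, r, h4, h5⟩
        · exact Or.inl (h.mono hs)
        · exact Or.inr ⟨h1, p, h2, h3, r, hs.trans h4, h5⟩
      by_cases hin : j ∈ π ∧ k ∈ π
      · exact Or.inr ⟨hin.2, j, hin.1, hjk, s', hs, hp, Past.contact hp hC, hC⟩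
      · have hout : j ∉ π ∨ k ∉ π := by tauto
        rcases ih h0' with h | ⟨hj, p, hp', hpj, r, hr, hrp, hrj, hrc⟩
        · exact Or.inl (.step h ⟨hC, hout⟩ hs)
        · exfalso
          have hk' : k ∉ π := hout.resolve_left fun h => h hj
          have hmem : ∀ {u : ℝ} {i : J}, 0 ≤ u → Past C t x u i → i ∈ Inf879.pre C x v u :=
            fun {u i} hu h => ⟨t, ⟨h.le, ht⟩, h⟩
          have e1 := LNW291.hist_preF hΦ hε hRW hc hℓς hConn hT hv.1 hv.2 hV (h0'.trans hr) hpj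
            (hmem (h0'.trans hr) hrp) hrc
          have e2 := LNW291.hist_preF hΦ hε hRW hc hℓς hConn hT hv.1 hv.2 hV h0' hjk
            (hmem h0' hp) hC
          have hkP : k ∈ P := hV (mem_preF.2 ⟨t, ⟨(h0'.trans hp.le), ht⟩,
            (Past.contact hp hC).mono h0'⟩)
          exact partS_false hT hConn hℓς hπP hS hp' hj hpj hk' hkP h0' hr hrc hC
            (vc_mono hV e1) (vc_mono hV e2)
  intro k hk
  obtain ⟨t, ht, h⟩ := mem_preF.1 hk
  rcases key t ht.2 0 k h le_rfl with h1 | ⟨h1, _⟩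
  · exact Finset.mem_union_right _ (mem_preF.2 ⟨t, ht, h1⟩)
  · exact Finset.mem_union_left _ h1

/-- The past through contacts which are not inside `π` is connected by such contacts. -/
theorem cutConn_out (hConn : M.Conn c P Z) (hT : TL M c ℓ ς P Z)
    (hv : v ∈ Ioc 0 M.T) (hV : preF C x v ⊆ P) :
    CutConn (preF (outC C π) x v) (outR M c P Z π) := by
  refine ⟨⟨x, self_mem_preF hv.1⟩, fun Q hQ hne hneQ => ?_⟩
  have key : ∀ (t r : ℝ) (i j : J), t ∈ Ico 0 v → 0 ≤ r → Past (outC C π) t x r i →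
      Past (outC C π) t x r j → outC C π r i j → i ≠ j →
      i ∈ preF (outC C π) x v ∧ j ∈ preF (outC C π) x v ∧ outR M c P Z π i j := by
    intro t r i j ht hr hpi hpj hcij hij
    refine ⟨mem_preF.2 ⟨t, ht, hpi.mono hr⟩, mem_preF.2 ⟨t, ht, hpj.mono hr⟩, hcij.2, r, ?_⟩
    have e1 := LNW291.hist_preF hΦ hε hRW hc hℓς hConn hT hv.1 hv.2 hV hr hij
      ⟨t, ⟨hpi.le, ht.2⟩, past_of_out hpi⟩ hcij.1
    exact vc_mono hV e1
  obtain ⟨m₁, hm₁⟩ := hne
  obtain ⟨m₂, hm₂, hm₂Q⟩ : ∃ m ∈ preF (outC C π) x v, m ∉ Q := by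
    by_contra h
    push Not at h
    exact hneQ (Finset.Subset.antisymm hQ h)
  by_cases hx : x ∈ Q
  · obtain ⟨s', hs', hp⟩ := mem_preF.1 hm₂
    obtain ⟨r, hr, i, hi, j, hj, hpi, hpj, hcij⟩ := crossing (Q := (Q : Set J)) hp hx hm₂Q
    have hij : i ≠ j := fun h => hj (h ▸ hi)
    obtain ⟨h1, h2, h3⟩ := key s' r i j hs' hr hpi hpj hcij hij
    exact ⟨i, hi, j, h2, hj, Or.inl h3⟩
  · obtain ⟨s', hs', hp⟩ := mem_preF.1 (hQ hm₁)
    obtain ⟨r, hr, i, hi, j, hj, hpi, hpj, hcij⟩ := crossing (Q := {y | y ∉ Q}) hp hx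
      (fun h => h hm₁)
    have hj' : j ∈ Q := by
      by_contra h
      exact hj h
    have hij : i ≠ j := fun h => hi (h ▸ hj')
    obtain ⟨h1, h2, h3⟩ := key s' r i j hs' hr hpi hpj hcij hij
    exact ⟨j, hj', i, h1, hi, Or.inr h3⟩

omit hΦ hε hc hℓς hRW in
theorem union_uni (hπ : π ∈ Λ) (A : Finset J) : π ∪ Y ∪ A ∪ uni Λ = Y ∪ A ∪ uni Λ := by
  ext z
  simp only [Finset.mem_union]
  constructor
  · rintro (((h | h) | h) | h)
    · exact Or.inr (sub_uni hπ h)
    · exact Or.inl (Or.inl h)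
    · exact Or.inl (Or.inr h)
    · exact Or.inr h
  · rintro ((h | h) | h)
    · exact Or.inl (Or.inl (Or.inr h))
    · exact Or.inl (Or.inr h)
    · exact Or.inr h

/-- Growth inside a given connected tree-like set. -/
theorem grow_core (hP : Parts M c Z Λ) (hNT : NoTwo M c Z Λ N) (hπ : π ∈ Λ) (ha : a ∈ π)
    (hS : PartS M c Z C π) (hY : Grp M c Z Λ π a n Y) (hx : x ∈ Y) (hv : v ∈ Ioc 0 M.T)
    (hConn : M.Conn c P Z) (hT : TL M c ℓ ς P Z) (hcard : (P ∪ uni Λ).card ≤ N)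
    (hPe : P = π ∪ Y ∪ preF C x v) :
    Grp M c Z Λ π a N (Y ∪ (preF C x v \ π)) := by
  have hπP : π ⊆ P := by
    rw [hPe]
    exact Finset.subset_union_left.trans Finset.subset_union_left
  have hYP : Y ⊆ P := by
    rw [hPe]
    exact Finset.subset_union_right.trans Finset.subset_union_left
  have hV : preF C x v ⊆ P := by
    rw [hPe]
    exact Finset.subset_union_right
  have h1 := preF_subset_out hΦ hε hc hℓς hRW hConn hT hπP hS hv hV
  have h2 : CutConn (preF (outC C π) x v) (outR M c P Z π) :=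
    cutConn_out hΦ hε hc hℓς hRW hConn hT hv hV
  have hV' : preF (outC C π) x v ⊆ P := preF_out_subset.trans hV
  have h3 : CutConn (Y ∪ preF (outC C π) x v) (outR M c P Z π) :=
    (hY.conn_mono (Finset.union_subset hπP hYP)).union h2
      ⟨x, Finset.mem_inter.2 ⟨hx, self_mem_preF hv.1⟩⟩
  have h4 : ∀ k ∈ Y ∪ preF (outC C π) x v, k ∈ π → k = a := fun k hk hkπ =>
    eq_of_link_tl hT hConn hπP (Finset.union_subset hYP hV') (hP.conn π hπ) h3 hkπ hk ha
      (Finset.mem_union_left _ hY.root)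
  have h5 : Y ∪ (preF C x v \ π) = Y ∪ preF (outC C π) x v := by
    ext k
    simp only [Finset.mem_union, Finset.mem_sdiff]
    constructor
    · rintro (h | ⟨h, h'⟩)
      · exact Or.inl h
      · exact Or.inr ((Finset.mem_union.1 (h1 h)).resolve_left h')
    · rintro (h | h)
      · exact Or.inl h
      · by_cases hkπ : k ∈ π
        · left
          rw [h4 k (Finset.mem_union_right _ h) hkπ]
          exact hY.root
        · exact Or.inr ⟨preF_out_subset h, hkπ⟩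
  have h6 : π ∪ (Y ∪ (preF C x v \ π)) = P := by
    rw [hPe]
    ext k
    simp only [Finset.mem_union, Finset.mem_sdiff]
    tauto
  have hgas : ∀ k ∈ Y ∪ (preF C x v \ π), k = a ∨ k ∉ uni Λ := by
    intro k hk
    rcases Finset.mem_union.1 hk with h | h
    · exact hY.gas k h
    · right
      intro hku
      obtain ⟨π', hπ', hkπ'⟩ := LNEv968.mem_uni.1 hku
      rw [Finset.mem_sdiff] at h
      have h7 := hNT P hConn hcard π hπ π' hπ' hπP ⟨k, hkπ', hV h.1⟩
      exact h.2 (h7 ▸ hkπ')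
  refine ⟨Finset.mem_union_left _ hY.root, hgas, fun k hk => ?_, ?_, ?_⟩
  · rcases Finset.mem_union.1 hk with h | h
    · exact hY.obs k h
    · rcases hgas k hk with h' | h'
      · exact hY.obs k (h' ▸ hY.root)
      · exact hP.gas_o k fun π' hπ' hk' => h' (LNEv968.mem_uni.2 ⟨π', hπ', hk'⟩)
  · refine le_trans (Finset.card_le_card ?_) hcard
    refine Finset.union_subset_union ?_ (Finset.Subset.refl _)
    exact Finset.union_subset hYP (Finset.sdiff_subset.trans hV)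
  · rw [h6, h5]
    exact h3

/-- **Growth of a group, one step inside one world** (helper968's `Grow1`). -/
theorem grow1 (hP : Parts M c Z Λ) (hNB : NoBad M c ℓ ς Z Λ N) (hNT : NoTwo M c Z Λ N)
    (hBH : ¬ BadHit M c Z X C Λ N) (hπ : π ∈ Λ) (ha : a ∈ π)
    (hS : PartS M c Z C π) (hY : Grp M c Z Λ π a n Y) (hx : x ∈ Y) (hv : v ∈ Ioc 0 M.T)
    (hcard : (Y ∪ preF C x v ∪ uni Λ).card ≤ N) :
    Grp M c Z Λ π a N (Y ∪ (preF C x v \ π)) ∧ Agr M Z X C x v ∧ M.ok (preF C x v) v Z ∧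
      X v x = M.st (preF C x v) v Z x := by
  have hW : WCore M c ℓ ς Z X C := LNW291.wcore hΦ hε hRW hc hℓς
  have hG : M.Conn c (π ∪ Y) Z := hY.conn_union (hP.conn π hπ) ha
  have hcard' : (π ∪ Y ∪ preF C x v ∪ uni Λ).card ≤ N := by
    rw [union_uni hπ]
    exact hcard
  obtain ⟨a1, a2, a3, a4, a5⟩ := real hΦ hε hc hRW hW hP hNB hBH hv hG
    ⟨π, hπ, Finset.subset_union_left⟩ ⟨x, Finset.mem_union_right _ hx, self_mem_preF hv.1⟩ hcard'
  exact ⟨grow_core hΦ hε hc hℓς hRW hP hNT hπ ha hS hY hx hv a1 a2 hcard' rfl, a3, a4, a5⟩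

/-- **Growth of a group through a contact** (helper968's `Grow2`). -/
theorem grow2 (hP : Parts M c Z Λ) (hNB : NoBad M c ℓ ς Z Λ N) (hNT : NoTwo M c Z Λ N)
    (hBH : ¬ BadHit M c Z X C Λ N) (hπ : π ∈ Λ) (ha : a ∈ π)
    (hS : PartS M c Z C π) (hY : Grp M c Z Λ π a n Y) (hx : x ∈ Y) (hv : v ∈ Ioc 0 M.T)
    (hyx : y ≠ x) (hya : y ≠ a) (hxy : C v x y)
    (hD : x = a → y ∈ π → ∃ F, Fam M c Z π F ∧ (F a y ∨ F y a → ∃ s₀, 0 ≤ s₀ ∧
      M.VCt c π a y s₀ Z ∧ ∃ r, s₀ ≤ r ∧ r < v ∧ ∃ m, m ≠ a ∧ m ≠ y ∧ (C r a m ∨ C r y m)))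
    (hcard : (Y ∪ preF C x v ∪ preF C y v ∪ uni Λ).card ≤ N) :
    y ∉ uni Λ ∧ Grp M c Z Λ π a N (Y ∪ (preF C x v \ π) ∪ (preF C y v \ π)) ∧
      Agr M Z X C y v ∧ M.ok (preF C y v) v Z ∧ X v y = M.st (preF C y v) v Z y := by
  have hW : WCore M c ℓ ς Z X C := LNW291.wcore hΦ hε hRW hc hℓς
  have hG : M.Conn c (π ∪ Y) Z := hY.conn_union (hP.conn π hπ) ha
  have hcardG : (π ∪ Y ∪ preF C x v ∪ preF C y v ∪ uni Λ).card ≤ N := by
    have : π ∪ Y ∪ preF C x v ∪ preF C y v ∪ uni Λ = Y ∪ preF C x v ∪ preF C y v ∪ uni Λ := by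
      rw [Finset.union_assoc (π ∪ Y), union_uni hπ, ← Finset.union_assoc Y]
    rw [this]
    exact hcard
  set P : Finset J := π ∪ Y ∪ preF C x v ∪ preF C y v with hPdef
  obtain ⟨b1, b2, b3, b4, b5⟩ := step hΦ hε hc hRW hW hP hNB hBH hv hG
    ⟨π, hπ, Finset.subset_union_left⟩ ⟨x, Finset.mem_union_right _ hx, self_mem_preF hv.1⟩ hxy
    hcardG
  have hcard1 : (Y ∪ preF C x v ∪ uni Λ).card ≤ N := by
    refine le_trans (Finset.card_le_card ?_) hcard
    exact Finset.union_subset_union_left Finset.subset_union_left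
  have hY1 := (grow1 hΦ hε hc hℓς hRW hP hNB hNT hBH hπ ha hS hY hx hv hcard1).1
  set Y₁ : Finset J := Y ∪ (preF C x v \ π) with hY₁
  have hπP : π ⊆ P := by
    intro z hz
    simp only [hPdef, Finset.mem_union]
    exact Or.inl (Or.inl (Or.inl hz))
  have hY₁P : Y₁ ⊆ P := by
    intro z hz
    simp only [hY₁, Finset.mem_union, Finset.mem_sdiff] at hz
    simp only [hPdef, Finset.mem_union]
    tauto
  have hVx : preF C x v ⊆ P := Finset.subset_union_right.trans Finset.subset_union_left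
  have hVy : preF C y v ⊆ P := Finset.subset_union_right
  have hxP : x ∈ P := hVx (self_mem_preF hv.1)
  have hyP : y ∈ P := hVy (self_mem_preF hv.1)
  have hvxy : vc M c P Z x y v := vc_mono (Finset.union_subset hVx hVy)
    (LNW291.vct_of_contact hΦ hε hRW hc hℓς b1 b2 hv.1 hv.2 hVx hVy (Ne.symm hyx) hxy)
  have hxY₁ : x ∈ Y₁ := Finset.mem_union_left _ hx
  have hc1 : CutConn Y₁ (outR M c P Z π) := hY1.conn_mono (Finset.union_subset hπP hY₁P)
  -- the new particle is not in the part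
  have hyπ : y ∉ π := by
    intro hyπ
    by_cases hxπ : x ∈ π
    · have hxa : x = a := by
        rcases hY.gas x hx with h | h
        · exact h
        · exact absurd (sub_uni hπ hxπ) h
      subst hxa
      obtain ⟨F, hF, h⟩ := hD rfl hyπ
      obtain ⟨s₀, h0, h1, r, hr0, hrv, m, hma, hmy, hm⟩ :=
        h (pair_of_fam b2 b1 hπP hF hxπ hyπ (Ne.symm hyx) hvxy)
      have hr : 0 ≤ r := h0.trans hr0
      rcases hm with hm | hm
      · have hmV : m ∈ preF C x v := mem_preF.2 ⟨r, ⟨hr, hrv⟩,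
          (Past.contact (.root le_rfl) hm).mono hr⟩
        have e1 := LNW291.hist_preF hΦ hε hRW hc hℓς b1 b2 hv.1 hv.2 hVx hr (Ne.symm hma)
          ⟨r, ⟨le_rfl, hrv⟩, .root le_rfl⟩ hm
        exact between_false b2 b1 hℓς hyP hxP (hVx hmV) hyx hmy hma h0 hr0 hrv.le
          (vct_mono hπP (vct_symm h1)) (vc_symm hvxy) (vc_mono hVx e1)
      · have hmV : m ∈ preF C y v := mem_preF.2 ⟨r, ⟨hr, hrv⟩,
          (Past.contact (.root le_rfl) hm).mono hr⟩
        have e1 := LNW291.hist_preF hΦ hε hRW hc hℓς b1 b2 hv.1 hv.2 hVy hr (Ne.symm hmy)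
          ⟨r, ⟨le_rfl, hrv⟩, .root le_rfl⟩ hm
        exact between_false b2 b1 hℓς hxP hyP (hVy hmV) (Ne.symm hyx) hma hmy h0 hr0 hrv.le
          (vct_mono hπP h1) hvxy (vc_mono hVy e1)
    · have h1 : CutConn (Y₁ ∪ {y}) (outR M c P Z π) :=
        hc1.union_of_edge (cutConn_singleton y _) hxY₁ (Finset.mem_singleton_self y)
          (Or.inl ⟨Or.inl hxπ, v, hvxy⟩)
      exact hya (eq_of_link_tl b2 b1 hπP (Finset.union_subset hY₁P
        (Finset.singleton_subset_iff.2 hyP)) (hP.conn π hπ) h1 hyπ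
        (Finset.mem_union_right _ (Finset.mem_singleton_self y)) ha
        (Finset.mem_union_left _ hY1.root))
  have hgas' : ∀ k ∈ P, k ∉ π → k ∉ uni Λ := by
    intro k hk hkπ hku
    obtain ⟨π', hπ', hkπ'⟩ := LNEv968.mem_uni.1 hku
    exact hkπ ((hNT P b1 hcardG π hπ π' hπ' hπP ⟨k, hkπ', hk⟩) ▸ hkπ')
  have hyu : y ∉ uni Λ := hgas' y hyP hyπ
  refine ⟨hyu, ?_, b3, b4, b5⟩
  -- the past of the new particle
  have h1 := preF_subset_out hΦ hε hc hℓς hRW b1 b2 hπP hS hv hVy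
  have h2 : CutConn (preF (outC C π) y v) (outR M c P Z π) :=
    cutConn_out hΦ hε hc hℓς hRW b1 b2 hv hVy
  have hV' : preF (outC C π) y v ⊆ P := preF_out_subset.trans hVy
  have h3 : CutConn (Y₁ ∪ preF (outC C π) y v) (outR M c P Z π) :=
    hc1.union_of_edge h2 hxY₁ (self_mem_preF hv.1) (Or.inl ⟨Or.inr hyπ, v, hvxy⟩)
  have h4 : ∀ k ∈ Y₁ ∪ preF (outC C π) y v, k ∈ π → k = a := fun k hk hkπ =>
    eq_of_link_tl b2 b1 hπP (Finset.union_subset hY₁P hV') (hP.conn π hπ) h3 hkπ hk ha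
      (Finset.mem_union_left _ hY1.root)
  have h5 : Y₁ ∪ (preF C y v \ π) = Y₁ ∪ preF (outC C π) y v := by
    ext k
    simp only [Finset.mem_union (s := Y₁), Finset.mem_sdiff]
    constructor
    · rintro (h | ⟨h, h'⟩)
      · exact Or.inl h
      · exact Or.inr ((Finset.mem_union.1 (h1 h)).resolve_left h')
    · rintro (h | h)
      · exact Or.inl h
      · by_cases hkπ : k ∈ π
        · left
          rw [h4 k (Finset.mem_union_right _ h) hkπ]
          exact hY1.root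
        · exact Or.inr ⟨preF_out_subset h, hkπ⟩
  have h6 : π ∪ (Y₁ ∪ (preF C y v \ π)) = P := by
    rw [hPdef, hY₁]
    ext k
    simp only [Finset.mem_union, Finset.mem_sdiff]
    tauto
  have hsub : Y₁ ∪ (preF C y v \ π) ⊆ P :=
    Finset.union_subset hY₁P (Finset.sdiff_subset.trans hVy)
  have hgas : ∀ k ∈ Y₁ ∪ (preF C y v \ π), k = a ∨ k ∉ uni Λ := by
    intro k hk
    rcases Finset.mem_union.1 hk with h | h
    · exact hY1.gas k h
    · exact Or.inr (hgas' k (hsub hk) (Finset.mem_sdiff.1 h).2)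
  refine ⟨Finset.mem_union_left _ hY1.root, hgas, fun k hk => ?_, ?_, ?_⟩
  · rcases hgas k hk with h' | h'
    · exact hY.obs k (h' ▸ hY.root)
    · exact hP.gas_o k fun π' hπ' hk' => h' (LNEv968.mem_uni.2 ⟨π', hπ', hk'⟩)
  · exact le_trans (Finset.card_le_card (Finset.union_subset_union_left hsub)) hcardG
  · rw [h6, h5]
    exact h3

end adm

/-! ### Sizes -/

theorem card_union_uni (A B U : Finset J) : (A ∪ B ∪ U).card ≤ (A ∪ U).card + (B \ U).card := by
  refine (Finset.card_le_card ?_).trans (Finset.card_union_le _ _)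
  intro z hz
  simp only [Finset.mem_union, Finset.mem_sdiff] at hz ⊢
  tauto

theorem Grp.of_card (h : Grp M c Z Λ π a N Y) (hn : (Y ∪ uni Λ).card ≤ n) :
    Grp M c Z Λ π a n Y :=
  ⟨h.root, h.gas, h.obs, hn, h.conn⟩

theorem preF_mono {v' : ℝ} (h : v ≤ v') : preF C x v ⊆ preF C x v' := by
  intro k hk
  obtain ⟨s, hs, h'⟩ := mem_preF.1 hk
  exact mem_preF.2 ⟨s, ⟨hs.1, hs.2.trans_le h⟩, h'⟩

theorem bcF_subset_preF' {v' : ℝ} (h0 : 0 ≤ v) (h : v < v') : bcF C x v ⊆ preF C x v' := by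
  intro k hk
  exact mem_preF.2 ⟨v, ⟨h0, h⟩, mem_bcF.1 hk⟩

/-! ### Entry chains -/

section chain

open Crest.Agent.R122.LinkD331

variable (hΦ : AdmissiblePotential M.Φ) (hε : 0 < M.ε) [Nonempty κ] (hc : 1 ≤ c)
  (hℓς : 2 * ℓ ≤ ς) {X : Bool → ℝ → J → PhasePoint} {C C' : Bool → ℝ → J → J → Prop}
  (hRW : ∀ b, RW M Z (X b) (C b)) (hP : Parts M c Z Λ) (hNB : NoBad M c ℓ ς Z Λ N)
  (hNT : NoTwo M c Z Λ N) (hBH : ∀ b, ¬ BadHit M c Z (X b) (C b) Λ N) (hπ : π ∈ Λ) (ha : a ∈ π)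
  (hS : ∀ b, PartS M c Z (C b) π) (hCC : ∀ b s j k, j ≠ k → C' b s j k → C b s j k)
  {F : ℝ → J → Prop}
  (hD : ∀ (b : Bool) (d : J) (v : ℝ), d ∈ π → d ≠ a → v ≤ M.T → (∀ r < v, ¬ F r d) →
    C' b v a d → ∃ G, Fam M c Z π G ∧ (G a d ∨ G d a → ∃ s₀, 0 ≤ s₀ ∧ M.VCt c π a d s₀ Z ∧
      ∃ r, s₀ ≤ r ∧ r < v ∧ ∃ m, m ≠ a ∧ m ≠ d ∧ (C b r a m ∨ C b r d m)))
include hΦ hε hc hℓς hRW hP hNB hNT hBH hπ ha hS hCC hD

/-- **The group of an entry chain.** -/
theorem grp_of_ec (hoa : M.o ≠ some a) {K : ℕ} {L : List J} {s : ℝ} (hL : EC C' F a L s) :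
    s ≤ M.T → (∀ x ∈ L, ∀ b, (preF (C b) x s \ uni Λ).card ≤ K) →
    (uni Λ).card + 2 * K * (L.length - 1) ≤ N →
    ∃ Y, Grp M c Z Λ π a ((uni Λ).card + 2 * K * (L.length - 1)) Y ∧ ∀ x ∈ L, x ∈ Y := by
  induction hL with
  | root =>
    intro _ _ _
    refine ⟨{a}, Grp.single hoa ?_, fun x hx => ?_⟩
    · rw [Finset.insert_eq_of_mem (sub_uni hπ ha)]
      omega
    · rw [List.mem_singleton] at hx
      rw [hx]
      exact Finset.mem_singleton_self a
  | @cons l k ps s s' b h hs hk hcon hn ih =>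
    intro hsT hK hN
    have hlen : (k :: l :: ps).length - 1 = ((l :: ps).length - 1) + 1 := by
      simp only [List.length_cons]
      omega
    rw [hlen] at hN ⊢
    have hN' : (uni Λ).card + 2 * K * ((l :: ps).length - 1) + 2 * K ≤ N := by
      have : 2 * K * ((l :: ps).length - 1 + 1) = 2 * K * ((l :: ps).length - 1) + 2 * K := by
        ring
      omega
    obtain ⟨Y₀, hY₀, hmem⟩ := ih (hs.trans hsT) (fun x hx b =>
      (Finset.card_le_card (Finset.sdiff_subset_sdiff (preF_mono hs) (Finset.Subset.refl _))).trans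
        (hK x (List.mem_cons_of_mem _ hx) b)) (by omega)
    have hlY : l ∈ Y₀ := hmem l List.mem_cons_self
    have hkl : k ≠ l := fun h' => hk (h' ▸ List.mem_cons_self)
    have hka : k ≠ a := fun h' => hk (h' ▸ h.mem)
    have hC := hCC b s' l k (Ne.symm hkl) hcon
    have hgeo := (hRW b).geo s' l k (Ne.symm hkl) hC
    have hs'0 : 0 < s' := by
      rcases hgeo.2.2.2.2.1 with h' | h'
      · exact (bb_nonneg M l).trans_lt h'
      · exact (bb_nonneg M k).trans_lt h'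
    have e1 := hK l (List.mem_cons_of_mem _ List.mem_cons_self) b
    have e2 := hK k List.mem_cons_self b
    have hcard : (Y₀ ∪ preF (C b) l s' ∪ preF (C b) k s' ∪ uni Λ).card ≤
        (uni Λ).card + 2 * K * ((l :: ps).length - 1) + 2 * K := by
      have h1 := card_union_uni (Y₀ ∪ preF (C b) l s') (preF (C b) k s') (uni Λ)
      have h2 := card_union_uni Y₀ (preF (C b) l s') (uni Λ)
      have h3 := hY₀.card
      omega
    obtain ⟨hku, h2, _⟩ := grow2 hΦ hε hc hℓς (hRW b) hP hNB hNT (hBH b) hπ ha (hS b) hY₀ hlY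
      ⟨hs'0, hsT⟩ hkl hka hC
      (fun hla hkπ => by
        subst hla
        exact hD b k s' hkπ hka hsT hn hcon)
      (hcard.trans hN')
    refine ⟨_, Grp.of_card h2 ?_, fun x hx => ?_⟩
    · have : (uni Λ).card + 2 * K * ((l :: ps).length - 1 + 1) =
          (uni Λ).card + 2 * K * ((l :: ps).length - 1) + 2 * K := by ring
      rw [this]
      refine le_trans (Finset.card_le_card ?_) hcard
      intro z hz
      simp only [Finset.mem_union, Finset.mem_sdiff] at hz ⊢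
      tauto
    · rcases List.mem_cons.1 hx with rfl | hx
      · refine Finset.mem_union_right _ (Finset.mem_sdiff.2 ⟨self_mem_preF hs'0, ?_⟩)
        exact fun hkπ => hku (sub_uni hπ hkπ)
      · exact Finset.mem_union_left _ (Finset.mem_union_left _ (hmem x hx))

/-- The members of an entry chain are gas particles, except the root. -/
theorem gas_of_ec (hoa : M.o ≠ some a) {K : ℕ} {L : List J} {s : ℝ} (hL : EC C' F a L s)
    (hsT : s ≤ M.T) (hK : ∀ x ∈ L, ∀ b, (preF (C b) x s \ uni Λ).card ≤ K)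
    (hN : (uni Λ).card + 2 * K * (L.length - 1) ≤ N) : ∀ x ∈ L, x ≠ a → x ∉ uni Λ := by
  obtain ⟨Y, hY, hmem⟩ := grp_of_ec hΦ hε hc hℓς hRW hP hNB hNT hBH hπ ha hS hCC hD hoa hL hsT hK hN
  exact fun x hx hxa => (hY.gas x (hmem x hx)).resolve_left hxa

/-- **(E3)**: `Reach` along an entry chain. -/
theorem reach_of_ec (hoa : M.o ≠ some a) {K : ℕ} {k : J} {tl : List J} {s v : ℝ}
    (hL : EC C' F a (k :: tl) s) (hsv : s ≤ v) (hvT : v ≤ M.T)
    (hK : ∀ x ∈ k :: tl, ∀ b, (preF (C b) x s \ uni Λ).card ≤ K) (b : Bool)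
    (hKv : (preF (C b) k v \ uni Λ).card ≤ K)
    (hN : (uni Λ).card + 2 * K * (tl.length + 1) ≤ N) :
    Reach M c Z Λ π a ((uni Λ).card + 2 * K * (tl.length + 1)) k v (X b v k).1 := by
  have hm : 2 * K * (tl.length + 1) = 2 * K * tl.length + 2 * K := by ring
  have hlen : (k :: tl).length - 1 = tl.length := by simp
  obtain ⟨Y, hY, hmem⟩ := grp_of_ec hΦ hε hc hℓς hRW hP hNB hNT hBH hπ ha hS hCC hD hoa hL
    (hsv.trans hvT) hK (by rw [hlen]; omega)
  rw [hlen] at hY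
  have hkY : k ∈ Y := hmem k List.mem_cons_self
  have h0 : 0 ≤ v := hL.nonneg.trans hsv
  rcases h0.lt_or_eq with hv | hv
  · have hcard : (Y ∪ preF (C b) k v ∪ uni Λ).card ≤
        (uni Λ).card + 2 * K * (tl.length + 1) := by
      have h1 := card_union_uni Y (preF (C b) k v) (uni Λ)
      have h2 := hY.card
      omega
    obtain ⟨h1, _, h3, h4⟩ := grow1 hΦ hε hc hℓς (hRW b) hP hNB hNT (hBH b) hπ ha (hS b) hY hkY
      ⟨hv, hvT⟩ (hcard.trans hN)
    refine ⟨_, Grp.of_card h1 ?_, Finset.mem_union_left _ hkY, preF (C b) k v, ?_,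
      self_mem_preF hv, h3, ?_⟩
    · refine le_trans (Finset.card_le_card ?_) hcard
      intro z hz
      simp only [Finset.mem_union, Finset.mem_sdiff] at hz ⊢
      tauto
    · intro z hz
      simp only [Finset.mem_union, Finset.mem_sdiff]
      tauto
    · rw [h4]
  · subst hv
    refine ⟨Y, Grp.of_card hY (hY.card.trans (by omega)), hkY, {k}, ?_,
      Finset.mem_singleton_self k, ?_, ?_⟩
    · exact Finset.singleton_subset_iff.2 (Finset.mem_union_right _ hkY)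
    · intro i hi ho hb j hj hj' hji hbj
      rw [Finset.mem_singleton] at hi hj
      exact absurd (hj.trans hi.symm) hji
    · rw [(hRW b).init, st_nonpos M le_rfl, fl_zero]

end chain

end Crest.Agent.R122.LN304

end
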