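import Crest.Agent.R122.LNReachC_818
import Crest.Agent.R122.LNChain_304

/-!
# Everything cleanly influenced is reached (row 122, EVENTS, helper818)

* `TwoW` : two real (pseudo-)worlds `(X b, C b)` over one master system; `C' b` the contacts of the
  derived worlds, `a` the exit, present in the world `true` only.
* `TwoW.grp_of_ec` : group of an entry chain (helper304).
* `reachAll_core` : if the entry chains which end before the touch time have at most `m + 1`
  members, then everything which is cleanly influenced by the exit line up to the touch time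
  (included) is reached.
-/

set_option autoImplicit false
set_option linter.unusedSectionVars false

open MeasureTheory Set Filter Topology
open Crest.AnalysisR.Kinetic
open Crest.Agent.R122.GIV566 Crest.Agent.R122.VL581 Crest.Agent.R122.LNg410
open Crest.Agent.R122.Causal291 Crest.Agent.R122.VLInst442 Crest.Agent.R122.LNEv968
open Crest.Agent.R122.LN304 Crest.Agent.R122.LinkD331
open Crest.Agent.R122.Ins45 Crest.Agent.R122.EDefs602
open Crest.Agent.R122.MWFam255 Crest.Agent.R122.Inf879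
open scoped Classical

noncomputable section

namespace Crest.Agent.R122.LNEv818

variable {J κ : Type} [Fintype J] {M : VSys J κ} {c ℓ ς : ℝ} {Z : J → PhasePoint}
  {X : Bool → ℝ → J → PhasePoint} {C C' : Bool → ℝ → J → J → Prop} {F : ℝ → J → Prop}
  {Λ : Finset (Finset J)} {N n K : ℕ} {π Y : Finset J} {a x y : J} {v : ℝ}

/-- Two real (pseudo-)worlds over one master system, and the exit `a`, which is present in the
world `true` only.  `C' b` : contacts of the derived worlds, `F` : influence. -/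
structure TwoW (M : VSys J κ) (c ℓ ς : ℝ) (Z : J → PhasePoint) (X : Bool → ℝ → J → PhasePoint)
    (C C' : Bool → ℝ → J → J → Prop) (F : ℝ → J → Prop) (Λ : Finset (Finset J)) (π : Finset J)
    (a : J) (N : ℕ) : Prop where
  hΦ : AdmissiblePotential M.Φ
  hε : 0 < M.ε
  hc : 1 ≤ c
  hℓς : 2 * ℓ ≤ ς
  rw : ∀ b, RW M Z (X b) (C b)
  parts : Parts M c Z Λ
  noBad : NoBad M c ℓ ς Z Λ N
  noTwo : NoTwo M c Z Λ N
  noHit : ∀ b, ¬ BadHit M c Z (X b) (C b) Λ N
  hπ : π ∈ Λ
  ha : a ∈ π
  partS : ∀ b, PartS M c Z (C b) π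
  sub : ∀ b s j k, j ≠ k → C' b s j k → C b s j k
  exit : ∀ (b : Bool) (d : J) (v : ℝ), d ∈ π → d ≠ a → v ≤ M.T → (∀ r < v, ¬ F r d) →
    C' b v a d → ∃ G, Fam M c Z π G ∧ (G a d ∨ G d a → ∃ s₀, 0 ≤ s₀ ∧ M.VCt c π a d s₀ Z ∧
      ∃ r, s₀ ≤ r ∧ r < v ∧ ∃ m, m ≠ a ∧ m ≠ d ∧ (C b r a m ∨ C b r d m))
  obs : M.o ≠ some a
  out : ∀ s k, ¬ C' false s a k

namespace TwoW

variable (H : TwoW M c ℓ ς Z X C C' F Λ π a N) [Nonempty κ]
include H

/-- `grow1` of helper304. -/
theorem grow1 (b : Bool) (hY : Grp M c Z Λ π a n Y) (hx : x ∈ Y) (hv : v ∈ Ioc 0 M.T)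
    (hcard : (Y ∪ preF (C b) x v ∪ uni Λ).card ≤ N) :
    Grp M c Z Λ π a N (Y ∪ (preF (C b) x v \ π)) ∧ Agr M Z (X b) (C b) x v ∧
      M.ok (preF (C b) x v) v Z ∧ X b v x = M.st (preF (C b) x v) v Z x :=
  LN304.grow1 H.hΦ H.hε H.hc H.hℓς (H.rw b) H.parts H.noBad H.noTwo (H.noHit b) H.hπ H.ha
    (H.partS b) hY hx hv hcard

/-- `grow2` of helper304. -/
theorem grow2 (b : Bool) (hY : Grp M c Z Λ π a n Y) (hx : x ∈ Y) (hv : v ∈ Ioc 0 M.T)
    (hyx : y ≠ x) (hya : y ≠ a) (hxy : C' b v x y) (hF : ∀ r < v, ¬ F r y)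
    (hcard : (Y ∪ preF (C b) x v ∪ preF (C b) y v ∪ uni Λ).card ≤ N) :
    y ∉ uni Λ ∧ Grp M c Z Λ π a N (Y ∪ (preF (C b) x v \ π) ∪ (preF (C b) y v \ π)) ∧
      Agr M Z (X b) (C b) y v ∧ M.ok (preF (C b) y v) v Z ∧
      X b v y = M.st (preF (C b) y v) v Z y :=
  LN304.grow2 H.hΦ H.hε H.hc H.hℓς (H.rw b) H.parts H.noBad H.noTwo (H.noHit b) H.hπ H.ha
    (H.partS b) hY hx hv hyx hya (H.sub b v x y (Ne.symm hyx) hxy)
    (fun hxa hyπ => by
      subst hxa
      exact H.exit b y v hyπ hya hv.2 hF hxy) hcard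

omit [Nonempty κ] in
theorem pos {b : Bool} {s : ℝ} {j k : J} (hjk : j ≠ k) (h : C' b s j k) : 0 < s := by
  rcases ((H.rw b).geo s j k hjk (H.sub b s j k hjk h)).2.2.2.2.1 with h' | h'
  · exact (bb_nonneg M j).trans_lt h'
  · exact (bb_nonneg M k).trans_lt h'

omit [Nonempty κ] in
theorem close {b : Bool} {s : ℝ} {j k : J} (hjk : j ≠ k) (h : C' b s j k) :
    dist (X b s j).1 (X b s k).1 ≤ M.ε :=
  ((H.rw b).geo s j k hjk (H.sub b s j k hjk h)).2.2.2.2.2

/-- **The group of an entry chain** (helper304's `grp_of_ec`). -/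
theorem grp_of_ec {L : List J} {s : ℝ} (hL : EC C' F a L s) :
    s ≤ M.T → (∀ x ∈ L, ∀ b, (x = a → b = true) → (preF (C b) x s \ uni Λ).card ≤ K) →
    (uni Λ).card + 2 * K * (L.length - 1) ≤ N →
    ∃ Y, Grp M c Z Λ π a ((uni Λ).card + 2 * K * (L.length - 1)) Y ∧ ∀ x ∈ L, x ∈ Y := by
  induction hL with
  | root =>
    intro _ _ _
    refine ⟨{a}, Grp.single H.obs ?_, fun x hx => ?_⟩
    · rw [Finset.insert_eq_of_mem (sub_uni H.hπ H.ha)]
      omega
    · rw [List.mem_singleton] at hx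
      rw [hx]
      exact Finset.mem_singleton_self a
  | @cons l k ps s s' b h hs hk hcon hn ih =>
    intro hsT hK hN
    have hlen : (k :: l :: ps).length - 1 = ((l :: ps).length - 1) + 1 := by
      simp only [List.length_cons]
      omega
    rw [hlen] at hN ⊢
    have hN' : (uni Λ).card + 2 * K * ((l :: ps).length - 1) + 2 * K ≤ N := by
      have : 2 * K * ((l :: ps).length - 1 + 1) = 2 * K * ((l :: ps).length - 1) + 2 * K := by
        ring
      omega
    obtain ⟨Y₀, hY₀, hmem⟩ := ih (hs.trans hsT) (fun x hx b hb =>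
      (Finset.card_le_card (Finset.sdiff_subset_sdiff (preF_mono hs) (Finset.Subset.refl _))).trans
        (hK x (List.mem_cons_of_mem _ hx) b hb)) (by omega)
    have hlY : l ∈ Y₀ := hmem l List.mem_cons_self
    have hkl : k ≠ l := fun h' => hk (h' ▸ List.mem_cons_self)
    have hka : k ≠ a := fun h' => hk (h' ▸ h.mem)
    have hs'0 : 0 < s' := H.pos (Ne.symm hkl) hcon
    have e1 := hK l (List.mem_cons_of_mem _ List.mem_cons_self) b (fun hla => by
      cases b with
      | true => rfl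
      | false => exact absurd (hla ▸ hcon) (H.out s' k))
    have e2 := hK k List.mem_cons_self b (fun h' => absurd h' hka)
    have hcard : (Y₀ ∪ preF (C b) l s' ∪ preF (C b) k s' ∪ uni Λ).card ≤
        (uni Λ).card + 2 * K * ((l :: ps).length - 1) + 2 * K := by
      have h1 := card_union_uni (Y₀ ∪ preF (C b) l s') (preF (C b) k s') (uni Λ)
      have h2 := card_union_uni Y₀ (preF (C b) l s') (uni Λ)
      have h3 := hY₀.card
      omega
    obtain ⟨hku, h2, _⟩ := H.grow2 b hY₀ hlY ⟨hs'0, hsT⟩ hkl hka hcon hn (hcard.trans hN')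
    refine ⟨_, Grp.of_card h2 ?_, fun x hx => ?_⟩
    · have : (uni Λ).card + 2 * K * ((l :: ps).length - 1 + 1) =
          (uni Λ).card + 2 * K * ((l :: ps).length - 1) + 2 * K := by ring
      rw [this]
      refine le_trans (Finset.card_le_card ?_) hcard
      intro z hz
      simp only [Finset.mem_union, Finset.mem_sdiff] at hz ⊢
      tauto
    · rcases List.mem_cons.1 hx with rfl | hx
      · refine Finset.mem_union_right _ (Finset.mem_sdiff.2 ⟨self_mem_preF hs'0, ?_⟩)
        exact fun hkπ => hku (sub_uni H.hπ hkπ)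
      · exact Finset.mem_union_left _ (Finset.mem_union_left _ (hmem x hx))

/-- Position of a member of a group. -/
theorem reach_of_mem (b : Bool) (hY : Grp M c Z Λ π a n Y) (hx : x ∈ Y) (hv : v ∈ Ioc 0 M.T)
    (hK : (preF (C b) x v \ uni Λ).card ≤ K) {n' : ℕ} (hn' : (Y ∪ uni Λ).card + K ≤ n')
    (hN : n' ≤ N) : Reach M c Z Λ π a n' x v (X b v x).1 := by
  have hcard : (Y ∪ preF (C b) x v ∪ uni Λ).card ≤ n' := by
    have h1 := card_union_uni Y (preF (C b) x v) (uni Λ)
    omega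
  obtain ⟨h1, _, h3, h4⟩ := H.grow1 b hY hx hv (hcard.trans hN)
  refine ⟨_, Grp.of_card h1 ?_, Finset.mem_union_left _ hx, preF (C b) x v, ?_,
    self_mem_preF hv.1, h3, ?_⟩
  · refine le_trans (Finset.card_le_card ?_) hcard
    intro z hz
    simp only [Finset.mem_union, Finset.mem_sdiff] at hz ⊢
    tauto
  · intro z hz
    simp only [Finset.mem_union, Finset.mem_sdiff]
    tauto
  · rw [h4]

/-- **Two contacts at the same time.** If `x ∈ Y` touches `y` and `y` touches `k` at the same time,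
then `k = x`. -/
theorem same_time {b b' : Bool} {k : J} (hY : Grp M c Z Λ π a n Y) (hx : x ∈ Y)
    (hv : v ∈ Ioc 0 M.T) (hyx : y ≠ x) (hya : y ≠ a) (hka : k ≠ a) (hky : k ≠ y)
    (hxy : C' b v x y) (hyk : C' b' v y k) (hFy : ∀ r < v, ¬ F r y) (hFk : ∀ r < v, ¬ F r k)
    (e1 : (preF (C b) x v \ uni Λ).card ≤ K) (e2 : (preF (C b) y v \ uni Λ).card ≤ K)
    (e3 : (preF (C b') y v \ uni Λ).card ≤ K) (e4 : (preF (C b') k v \ uni Λ).card ≤ K)
    (hN : (Y ∪ uni Λ).card + 4 * K ≤ N) : k = x := by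
  by_contra hkx
  have hcard1 : (Y ∪ preF (C b) x v ∪ preF (C b) y v ∪ uni Λ).card ≤ (Y ∪ uni Λ).card + 2 * K := by
    have h1 := card_union_uni (Y ∪ preF (C b) x v) (preF (C b) y v) (uni Λ)
    have h2 := card_union_uni Y (preF (C b) x v) (uni Λ)
    omega
  obtain ⟨hyu, g1, _, ok1, p1⟩ := H.grow2 b hY hx hv hyx hya hxy hFy (by omega)
  obtain ⟨_, _, ok0, p0⟩ := H.grow1 b hY hx hv (by
    refine le_trans (Finset.card_le_card ?_) (hcard1.trans (by omega))
    intro z hz
    simp only [Finset.mem_union] at hz ⊢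
    tauto)
  set Y₁ : Finset J := Y ∪ (preF (C b) x v \ π) ∪ (preF (C b) y v \ π) with hY₁
  have hyπ : y ∉ π := fun h => hyu (sub_uni H.hπ h)
  have hyY₁ : y ∈ Y₁ := Finset.mem_union_right _ (Finset.mem_sdiff.2 ⟨self_mem_preF hv.1, hyπ⟩)
  have hY₁c : (Y₁ ∪ uni Λ).card ≤ (Y ∪ uni Λ).card + 2 * K := by
    refine le_trans (Finset.card_le_card ?_) hcard1
    intro z hz
    simp only [hY₁, Finset.mem_union, Finset.mem_sdiff] at hz ⊢
    tauto
  have hcard2 : (Y₁ ∪ preF (C b') y v ∪ preF (C b') k v ∪ uni Λ).card ≤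
      (Y ∪ uni Λ).card + 4 * K := by
    have h1 := card_union_uni (Y₁ ∪ preF (C b') y v) (preF (C b') k v) (uni Λ)
    have h2 := card_union_uni Y₁ (preF (C b') y v) (uni Λ)
    omega
  obtain ⟨hku, g2, _, ok2, p2⟩ := H.grow2 b' g1 hyY₁ hv hky hka hyk hFk (hcard2.trans hN)
  obtain ⟨_, _, ok3, p3⟩ := H.grow1 b' g1 hyY₁ hv (by
    refine le_trans (Finset.card_le_card ?_) (hcard2.trans hN)
    intro z hz
    simp only [Finset.mem_union] at hz ⊢
    tauto)
  set Y₂ : Finset J := Y₁ ∪ (preF (C b') y v \ π) ∪ (preF (C b') k v \ π) with hY₂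
  have hkπ : k ∉ π := fun h => hku (sub_uni H.hπ h)
  have hkY₂ : k ∈ Y₂ := Finset.mem_union_right _ (Finset.mem_sdiff.2 ⟨self_mem_preF hv.1, hkπ⟩)
  have hconn : M.Conn c (π ∪ Y₂) Z := g2.conn_union (H.parts.conn π H.hπ) H.ha
  have hTL : TL M c ℓ ς (π ∪ Y₂) Z := by
    refine H.noBad _ hconn ⟨π, H.hπ, Finset.subset_union_left⟩ ?_
    refine le_trans (Finset.card_le_card ?_) g2.card
    intro z hz
    simp only [Finset.mem_union] at hz ⊢
    rcases hz with (hz | hz) | hz
    · exact Or.inr (sub_uni H.hπ hz)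
    · exact Or.inl hz
    · exact Or.inr hz
  have s0 : preF (C b) x v ⊆ π ∪ Y₂ := by
    intro z hz
    simp only [hY₂, hY₁, Finset.mem_union, Finset.mem_sdiff]
    tauto
  have s1 : preF (C b) y v ⊆ π ∪ Y₂ := by
    intro z hz
    simp only [hY₂, hY₁, Finset.mem_union, Finset.mem_sdiff]
    tauto
  have s3 : preF (C b') y v ⊆ π ∪ Y₂ := by
    intro z hz
    simp only [hY₂, hY₁, Finset.mem_union, Finset.mem_sdiff]
    tauto
  have s2 : preF (C b') k v ⊆ π ∪ Y₂ := by
    intro z hz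
    simp only [hY₂, hY₁, Finset.mem_union, Finset.mem_sdiff]
    tauto
  have hT' : v ∈ Icc 0 M.T := ⟨hv.1.le, hv.2⟩
  have hdc : ∀ {r : ℝ}, r ≤ M.ε → r ≤ c * M.ε := fun hr =>
    hr.trans (le_mul_of_one_le_left H.hε.le H.hc)
  have hoy : M.o ≠ some y := g1.obs y hyY₁
  have hox : M.o ≠ some x := hY.obs x hx
  have hok : M.o ≠ some k := g2.obs k hkY₂
  have v1 : M.VCt c (π ∪ Y₂) x y v Z := vct_of_st s0 s1 (self_mem_preF hv.1) (self_mem_preF hv.1)
    ok0 ok1 hox hoy (by rw [← p0, ← p1]; exact hdc (H.close (Ne.symm hyx) hxy))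
  have v2 : M.VCt c (π ∪ Y₂) y k v Z := vct_of_st s3 s2 (self_mem_preF hv.1) (self_mem_preF hv.1)
    ok3 ok2 hoy hok (by rw [← p3, ← p2]; exact hdc (H.close (Ne.symm hky) hyk))
  exact between_false hTL hconn H.hℓς (s0 (self_mem_preF hv.1)) (s1 (self_mem_preF hv.1))
    (s2 (self_mem_preF hv.1)) (Ne.symm hyx) hkx hky hv.1.le le_rfl le_rfl v1 ⟨hT', v1⟩ ⟨hT', v2⟩

end TwoW

/-! ### Marked worlds -/

section core

variable {ι : Type} [Fintype ι] {W : MW ι} {l : ML} {f : ι → J} {T u : ℝ} {m : ℕ}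

/-- Contacts of `W` and of `W + l`, on labels; the line has the label `a`. -/
abbrev cmL (M : VSys J κ) (W : MW ι) (l : ML) (f : ι → J) (a : J) : Bool → ℝ → J → J → Prop :=
  CM M.Φ M.ε W (MW.line l) f (fun _ : Unit => a)

/-- Influence of the line, on labels. -/
abbrev fjL (M : VSys J κ) (W : MW ι) (l : ML) (f : ι → J) (a : J) : ℝ → J → Prop :=
  FJ (cmL M W l f a) {a}

/-- The marked worlds `W`, `W + l` in the real (pseudo-)worlds `X`, `C`. -/
structure BindW (M : VSys J κ) (X : Bool → ℝ → J → PhasePoint) (C : Bool → ℝ → J → J → Prop)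
    (Λ : Finset (Finset J)) (W : MW ι) (l : ML) (f : ι → J) (a : J) (K : ℕ) (T : ℝ) : Prop where
  inj : Function.Injective (Sum.elim f fun _ : Unit => a)
  nonneg : ∀ x, 0 ≤ (W.add (MW.line l)).b x
  ok : W.Ok M.Φ M.ε
  okA : (W.add (MW.line l)).Ok M.Φ M.ε
  le : T ≤ M.T
  path0 : ∀ s ∈ Icc 0 T, ∀ k, W.b k ≤ s → X false s (f k) = W.path M.Φ M.ε s k
  path1 : ∀ s ∈ Icc 0 T, ∀ x, (W.add (MW.line l)).b x ≤ s →
    X true s (Sum.elim f (fun _ => a) x) = (W.add (MW.line l)).path M.Φ M.ε s x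
  size0 : ∀ v ∈ Icc 0 T, ∀ k, (∀ s, 0 ≤ s → s < v → ¬ W.Inf M.Φ M.ε K s k) →
    (preF (C false) (f k) v \ uni Λ).card ≤ K
  size1 : ∀ v ∈ Icc 0 T, ∀ x, (∀ s, 0 ≤ s → s < v → ¬ (W.add (MW.line l)).Inf M.Φ M.ε K s x) →
    (preF (C true) (Sum.elim f (fun _ => a) x) v \ uni Λ).card ≤ K

/-- Influenced strictly before `u`. -/
def T1 (M : VSys J κ) (W : MW ι) (l : ML) (f : ι → J) (a : J) (u : ℝ) (j : J) : Prop :=
  ∃ v, 0 ≤ v ∧ v < u ∧ fjL M W l f a v j

/-- In contact at time `u` with something influenced strictly before `u`. -/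
def T2 (M : VSys J κ) (W : MW ι) (l : ML) (f : ι → J) (a : J) (u : ℝ) (j : J) : Prop :=
  ∃ b i, T1 M W l f a u i ∧ cmL M W l f a b u i j

namespace BindW

variable (B : BindW M X C Λ W l f a K T)
include B

theorem range_eq : range (fun _ : Unit => a) = {a} := Set.range_const

theorem fj_range {v : ℝ} {j : J} (h : fjL M W l f a v j) :
    FJ (CM M.Φ M.ε W (MW.line l) f fun _ : Unit => a) (range fun _ : Unit => a) v j := by
  rw [B.range_eq]
  exact h

theorem fj_pos {r : ℝ} {j : J} (hja : j ≠ a) (h : fjL M W l f a r j) : 0 < r :=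
  FJ.pos (fun _ _ _ _ hc _ => cm_pos B.nonneg hc) h hja

theorem not_fj {j : J} (hja : j ≠ a) (h : ¬ T1 M W l f a u j) : ∀ r < u, ¬ fjL M W l f a r j :=
  fun r hr hF => h ⟨r, (B.fj_pos hja hF).le, hr, hF⟩

/-- Sizes on labels from the absence of infection. -/
theorem size (hu : u ∈ Icc 0 T) {x : ι ⊕ Unit}
    (h : ∀ s, 0 ≤ s → s < u → ¬ (W.add (MW.line l)).Inf M.Φ M.ε K s x ∧
      ∀ k, x = Sum.inl k → ¬ W.Inf M.Φ M.ε K s k) (b : Bool)
    (hb : Sum.elim f (fun _ => a) x = a → b = true) :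
    (preF (C b) (Sum.elim f (fun _ => a) x) u \ uni Λ).card ≤ K := by
  cases b with
  | true => exact B.size1 u hu x fun s h0 h1 => (h s h0 h1).1
  | false =>
    rcases x with k | x
    · exact B.size0 u hu k fun s h0 h1 => (h s h0 h1).2 k rfl
    · exact absurd (hb rfl) (by decide)

/-- A label of the two worlds. -/
theorem exists_of_fj {v : ℝ} {j : J} (h : fjL M W l f a v j) :
    ∃ x : ι ⊕ Unit, Sum.elim f (fun _ => a) x = j := by
  rcases fut_of_fj B.inj B.nonneg (B.fj_range h) with ⟨c, hc⟩ | ⟨k, hk, _⟩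
  · exact ⟨Sum.inr c, hc.symm⟩
  · exact ⟨Sum.inl k, hk.symm⟩

variable (hθ : u ≤ W.thetaL M.Φ M.ε K T l) (huT : u ≤ T)
include hθ huT

/-- Sizes of the strict pasts of everything influenced before `u`. -/
theorem size_of_fj {v t : ℝ} (hv : v < u) {x : ι ⊕ Unit}
    (h : fjL M W l f a v (Sum.elim f (fun _ => a) x)) (ht : t ∈ Icc 0 u) (b : Bool)
    (hb : Sum.elim f (fun _ => a) x = a → b = true) :
    (preF (C b) (Sum.elim f (fun _ => a) x) t \ uni Λ).card ≤ K := by
  refine B.size ⟨ht.1, ht.2.trans huT⟩ (fun s h0 h1 => ?_) b hb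
  have h2 : 0 ≤ max s v ∧ max s v < u := ⟨h0.trans (le_max_left _ _),
    max_lt (h1.trans_le ht.2) hv⟩
  have h3 := not_inf_of_fj B.inj B.nonneg hθ huT h2.1 h2.2 (x := x)
    (B.fj_range (h.mono (le_max_right s v)))
  exact ⟨fun h4 => h3.1 (Infd.mono h4 (le_max_left _ _)),
    fun k hk h4 => h3.2 k hk (Infd.mono h4 (le_max_left _ _))⟩

theorem size_of_T1 {j : J} (h : T1 M W l f a u j) (b : Bool) (hb : j = a → b = true) :
    (preF (C b) j u \ uni Λ).card ≤ K := by
  obtain ⟨v, h0, h1, h2⟩ := h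
  obtain ⟨x, rfl⟩ := B.exists_of_fj h2
  exact B.size_of_fj hθ huT h1 h2 ⟨h0.trans h1.le, le_rfl⟩ b hb

/-- Sizes of the strict pasts of everything cleanly influenced at time `u`. -/
theorem size_of_cf (hu0 : 0 ≤ u) {k : ι} (h : CF M.Φ M.ε K W (MW.line l) u k) (b : Bool) :
    (preF (C b) (f k) u \ uni Λ).card ≤ K := by
  refine B.size (x := Sum.inl k) ⟨hu0, huT⟩ (fun s h0 h1 => ?_) b fun h' => ?_
  · have h2 := not_inf_of_cf hθ huT h h0 h1
    refine ⟨h2.2, fun k' hk' => ?_⟩
    rw [← Sum.inl_injective hk']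
    exact h2.1
  · exact absurd h' (range_disj (f := f) (g := fun _ : Unit => a) (y := ()) B.inj)

variable (H : TwoW M c ℓ ς Z X C (cmL M W l f a) (fjL M W l f a) Λ π a N) [Nonempty κ]
  (hlen : ∀ (L' : List J) (s : ℝ), EC (cmL M W l f a) (fjL M W l f a) a L' s → s < u →
    L'.length ≤ m + 1)
  (hN : (uni Λ).card + 2 * K * (m + 2) ≤ N)
include H hlen hN

/-- The group of everything influenced before `u`. -/
theorem exists_grp {j : J} (h : T1 M W l f a u j) :
    ∃ Y, Grp M c Z Λ π a ((uni Λ).card + 2 * K * m) Y ∧ j ∈ Y := by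
  obtain ⟨v, h0, h1, h2⟩ := h
  by_cases hja : j = a
  · subst hja
    refine ⟨{j}, Grp.single H.obs ?_, Finset.mem_singleton_self j⟩
    rw [Finset.insert_eq_of_mem (sub_uni H.hπ H.ha)]
    omega
  · obtain ⟨tl, s', h3, h4⟩ := exists_ec (T := T) (fun b j k _ => cm_closed B.inj B.ok B.okA T b j k)
      (fun b s j k hc _ => cm_pos B.nonneg hc) (fun b s x k _ hx _ => hx) (Set.mem_singleton a) h2
      hja (h1.le.trans huT)
    have h5 : s' < u := h4.trans_lt h1
    have h6 := hlen _ _ h3 h5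
    have h7 : (j :: tl).length - 1 ≤ m := by omega
    have h8 : 2 * K * ((j :: tl).length - 1) ≤ 2 * K * m := Nat.mul_le_mul_left _ h7
    have h9 : 2 * K * m ≤ 2 * K * (m + 2) := Nat.mul_le_mul_left _ (by omega)
    obtain ⟨Y, hY, hmem⟩ := H.grp_of_ec (K := K) h3 ((h5.le.trans huT).trans B.le)
      (fun x hx b hb => by
        have h10 : fjL M W l f a s' x := h3.fj (Set.mem_singleton a) hx
        obtain ⟨x', rfl⟩ := B.exists_of_fj h10
        exact B.size_of_fj hθ huT h5 h10 ⟨h3.nonneg, h5.le⟩ b hb) (by omega)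
    exact ⟨Y, hY.mono (by omega), hmem j List.mem_cons_self⟩

/-- **Alternatives at time `u`** for everything cleanly influenced. -/
theorem cf_cases {s : ℝ} {k : ι} (h : CF M.Φ M.ε K W (MW.line l) s k) (hs : s ≤ u) :
    T1 M W l f a u (f k) ∨ T2 M W l f a u (f k) := by
  have hm : 2 * K * (m + 2) = 2 * K * m + 4 * K := by ring
  have hja : ∀ k, f k ≠ a := fun k => range_disj (f := f) (g := fun _ : Unit => a) (y := ()) B.inj
  have step : ∀ (b : Bool) (s' : ℝ) (i k : ι), CF M.Φ M.ε K W (MW.line l) s' i →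
      CF M.Φ M.ε K W (MW.line l) u k → i ≠ k →
      cmL M W l f a b s' (f i) (f k) → s' ≤ u →
      (T1 M W l f a u (f i) ∨ T2 M W l f a u (f i)) →
      T1 M W l f a u (f k) ∨ T2 M W l f a u (f k) := by
    intro b s' i k hi hk hik hc hs' ih
    have h0 : 0 < s' := cm_pos B.nonneg hc
    rcases hs'.lt_or_eq with hlt | heq
    · refine Or.inl ⟨s', h0.le, hlt, ?_⟩
      have h1 : fjL M W l f a s' (f i) := by
        have h2 := fj_of_ci_cm (f := f) (g := fun _ : Unit => a) H.hΦ H.hε (ci_inl hi)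
        rwa [B.range_eq] at h2
      exact .step h1 hc le_rfl
    · subst heq
      by_cases hk1 : T1 M W l f a s' (f k)
      · exact Or.inl hk1
      by_cases hi1 : T1 M W l f a s' (f i)
      · exact Or.inr ⟨b, _, hi1, hc⟩
      rcases ih with ih | ⟨b', j, hj, hjc⟩
      · exact absurd ih hi1
      left
      obtain ⟨Y, hY, hjY⟩ := B.exists_grp hθ huT H hlen hN hj
      have h1 : f k = j := H.same_time (K := K) hY hjY ⟨h0, huT.trans B.le⟩
        (Ne.symm (cm_ne B.inj hjc)) (hja i) (hja k) (Ne.symm (cm_ne B.inj hc)) hjc hc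
        (B.not_fj (hja i) hi1) (B.not_fj (hja k) hk1)
        (B.size_of_T1 hθ huT hj b' fun hja' => by
          cases b' with
          | true => rfl
          | false => exact absurd (hja' ▸ hjc) (H.out s' _))
        (B.size_of_cf hθ huT h0.le hi b') (B.size_of_cf hθ huT h0.le hi b)
        (B.size_of_cf hθ huT h0.le hk b) (by
          have := hY.card
          omega)
      rw [h1]
      exact hj
  have key : ∀ {s : ℝ} {k : ι}, CF M.Φ M.ε K W (MW.line l) s k → s ≤ u →
      T1 M W l f a u (f k) ∨ T2 M W l f a u (f k) := by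
    intro s k h
    have hcopy : ∀ {s : ℝ} {k : ι}, CF M.Φ M.ε K W (MW.line l) s k → s ≤ u →
      CF M.Φ M.ε K W (MW.line l) u k := fun h hs => CausalGen291.CFut.mono h hs
    induction h with
    | @init s k h hs =>
      exfalso
      apply h
      change W.path M.Φ M.ε 0 k = (W.add (MW.line l)).path M.Φ M.ε 0 (Sum.inl k)
      rw [MW.path_zero H.hΦ H.hε, MW.path_zero H.hΦ H.hε]
      rfl
    | @new₁ s s' k j hj hc h0 hs hcl => exact absurd ⟨j, rfl⟩ hj
    | @new₂ s s' k j hj hc h0 hs hcl =>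
      intro hsu
      rcases j with j | j
      · exact absurd ⟨j, rfl⟩ hj
      · have hc' : cmL M W l f a true s' a (f k) := ⟨Sum.inr j, Sum.inl k, by simp, rfl, rfl, hc⟩
        have h1 : 0 < s' := cm_pos B.nonneg hc'
        rcases (hs.trans hsu).lt_or_eq with hlt | heq
        · exact Or.inl ⟨s', h1.le, hlt, .step (.base (Set.mem_singleton a)) hc' le_rfl⟩
        · subst heq
          exact Or.inr ⟨true, a, ⟨0, le_rfl, h1, .base (Set.mem_singleton a)⟩, hc'⟩
    | @chain₁ s s' k i h hc hs hcl ih =>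
      intro hsu
      by_cases hik : i = k
      · subst hik
        exact ih (hs.trans hsu)
      · exact step false s' i k h (hcopy (.chain₁ h hc hs hcl) hsu) hik
          ⟨i, k, hik, rfl, rfl, hc⟩ (hs.trans hsu) (ih (hs.trans hsu))
    | @chain₂ s s' k i h hc hs hcl ih =>
      intro hsu
      by_cases hik : i = k
      · subst hik
        exact ih (hs.trans hsu)
      · exact step true s' i k h (hcopy (.chain₂ h hc hs hcl) hsu) hik
          ⟨Sum.inl i, Sum.inl k, fun h => hik (Sum.inl_injective h), rfl, rfl, hc⟩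
          (hs.trans hsu) (ih (hs.trans hsu))
  exact key h hs

/-- Cleanly influenced particles are reached at time `u`, in both worlds. -/
theorem reach_of_cf (hu0 : 0 < u) {k : ι} (h : CF M.Φ M.ε K W (MW.line l) u k) (b : Bool) :
    Reach M c Z Λ π a ((uni Λ).card + 2 * K * (m + 2)) (f k) u (X b u (f k)).1 := by
  have hm : 2 * K * (m + 2) = 2 * K * m + 4 * K := by ring
  have hja : f k ≠ a := range_disj (f := f) (g := fun _ : Unit => a) (y := ()) B.inj
  have huM : u ∈ Ioc 0 M.T := ⟨hu0, huT.trans B.le⟩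
  have T1case : T1 M W l f a u (f k) →
      Reach M c Z Λ π a ((uni Λ).card + 2 * K * (m + 2)) (f k) u (X b u (f k)).1 := by
    intro h1
    obtain ⟨Y, hY, hkY⟩ := B.exists_grp hθ huT H hlen hN h1
    have hYc := hY.card
    exact H.reach_of_mem b hY hkY huM (B.size_of_cf hθ huT hu0.le h b) (by omega) hN
  by_cases h1 : T1 M W l f a u (f k)
  · exact T1case h1
  rcases B.cf_cases hθ huT H hlen hN h le_rfl with h2 | ⟨b', j, hj, hc⟩
  · exact T1case h2
  · obtain ⟨Y, hY, hjY⟩ := B.exists_grp hθ huT H hlen hN hj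
    have hYc := hY.card
    have e1 := B.size_of_T1 hθ huT hj b' fun hja' => by
      cases b' with
      | true => rfl
      | false => exact absurd (hja' ▸ hc) (H.out u _)
    have e2 := B.size_of_cf hθ huT hu0.le h b'
    have hcard : (Y ∪ preF (C b') j u ∪ preF (C b') (f k) u ∪ uni Λ).card ≤
        (uni Λ).card + 2 * K * m + 2 * K := by
      have h3 := card_union_uni (Y ∪ preF (C b') j u) (preF (C b') (f k) u) (uni Λ)
      have h4 := card_union_uni Y (preF (C b') j u) (uni Λ)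
      omega
    obtain ⟨hku, g1, _⟩ := H.grow2 b' hY hjY huM (Ne.symm (cm_ne B.inj hc)) hja hc
      (B.not_fj hja h1) (by omega)
    set Y' : Finset J := Y ∪ (preF (C b') j u \ π) ∪ (preF (C b') (f k) u \ π) with hY'
    have hkY' : f k ∈ Y' := Finset.mem_union_right _ (Finset.mem_sdiff.2
      ⟨self_mem_preF hu0, fun h' => hku (sub_uni H.hπ h')⟩)
    have hY'c : (Y' ∪ uni Λ).card ≤ (uni Λ).card + 2 * K * m + 2 * K := by
      refine le_trans (Finset.card_le_card ?_) hcard
      intro z hz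
      simp only [hY', Finset.mem_union, Finset.mem_sdiff] at hz ⊢
      tauto
    exact H.reach_of_mem b g1 hkY' huM (B.size_of_cf hθ huT hu0.le h b) (by omega) hN

/-- The exit itself is reached. -/
theorem reach_exit (hu0 : 0 ≤ u) :
    Reach M c Z Λ π a ((uni Λ).card + 2 * K * (m + 2)) a u (X true u a).1 := by
  have hm : 2 * K * (m + 2) = 2 * K * m + 4 * K := by ring
  have h1 : Grp M c Z Λ π a ((uni Λ).card) {a} := by
    refine Grp.single H.obs ?_
    rw [Finset.insert_eq_of_mem (sub_uni H.hπ H.ha)]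
  have h1c := h1.card
  rcases hu0.lt_or_eq with hu | hu
  · exact H.reach_of_mem true h1 (Finset.mem_singleton_self a) ⟨hu, huT.trans B.le⟩
      (B.size (x := Sum.inr ()) ⟨hu0, huT⟩ (fun s h0 h2 =>
        ⟨not_inf_of_new hθ huT () h0 h2, fun k hk => by cases hk⟩) true fun _ => rfl)
      (by omega) hN
  · subst hu
    refine ⟨{a}, h1.mono (by omega), Finset.mem_singleton_self a, {a}, ?_,
      Finset.mem_singleton_self a, ?_, ?_⟩
    · exact Finset.subset_union_right
    · intro i hi ho b j hj hj' hji hbj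
      rw [Finset.mem_singleton] at hi hj
      exact absurd (hj.trans hi.symm) hji
    · rw [(H.rw true).init, st_nonpos M le_rfl, fl_zero]

end BindW

/-- **Everything cleanly influenced up to the touch time is reached.** -/
theorem reachAll_core [Nonempty κ] (B : BindW M X C Λ W l f a K T)
    (H : TwoW M c ℓ ς Z X C (cmL M W l f a) (fjL M W l f a) Λ π a N)
    (hlen : ∀ (L' : List J) (s : ℝ), EC (cmL M W l f a) (fjL M W l f a) a L' s →
      s < W.thetaL M.Φ M.ε K T l → s < T → L'.length ≤ m + 1)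
    (hN : (uni Λ).card + 2 * K * (m + 2) ≤ N) :
    ReachAll (Reach M c Z Λ π a ((uni Λ).card + 2 * K * (m + 2))) M.Φ M.ε K T W f l a := by
  intro u hu hθ x hx hb
  have hlen' : ∀ (L' : List J) (s : ℝ), EC (cmL M W l f a) (fjL M W l f a) a L' s → s < u →
      L'.length ≤ m + 1 := fun L' s h hs => hlen L' s h (hs.trans_le hθ) (hs.trans_le hu.2)
  rcases x with k | x
  · rcases hu.1.lt_or_eq with hu0 | hu0
    · refine ⟨?_, fun k' hk' => ?_⟩
      · have h1 := B.reach_of_cf hθ hu.2 H hlen' hN hu0 hx.inl true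
        have h2 := B.path1 u hu (Sum.inl k) hb
        change X true u (f k) = _ at h2
        rw [h2] at h1
        exact h1
      · have hk : k = k' := Sum.inl_injective hk'
        subst hk
        have h1 := B.reach_of_cf hθ hu.2 H hlen' hN hu0 hx.inl false
        rw [B.path0 u hu k hb] at h1
        exact h1
    · exfalso
      subst hu0
      rcases B.cf_cases hθ hu.2 H hlen' hN hx.inl le_rfl with ⟨v, h0, h1, _⟩ | ⟨b, i, ⟨v, h0, h1, _⟩, _⟩
      · linarith
      · linarith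
  · refine ⟨?_, fun k hk => by cases hk⟩
    have h1 := B.reach_exit hθ hu.2 H hlen' hN hu.1
    have h2 := B.path1 u hu (Sum.inr x) hb
    change X true u a = _ at h2
    rw [h2] at h1
    exact h1

end core

end Crest.Agent.R122.LNEv818

end
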