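import Crest.Agent.R122.LNTreeHit_399

/-!
# Row 122, LN1, tree instance, all lines of the tree (helper399)

The root line is included (families on `Idx P`).

* `HitA`, `HitR` : bad hits; `badHitGas_of_hitA`, `tNull_hitR`, `gNull_hitR`.
* `RAllA`, `RATA` : everything which is influenced by a line of the tree up to its touch time
  (horizon `u₀ ≤ t`) is reached, or there is a run, a bad partition or a bad hit.
* `RATX` : the same for one line.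
-/

set_option autoImplicit false
set_option linter.unusedSectionVars false
open MeasureTheory Set Filter
open scoped Classical ENNReal Topology
open Crest.AnalysisR.Kinetic
open Crest.Agent.R122.GIV566 Crest.Agent.R122.VL581 Crest.Agent.R122.LN304
open Crest.Agent.R122.LNTree410 Crest.Agent.R122.PWInst442 Crest.Agent.R122.PWGlue491
open Crest.Agent.R122.LNPart424 Crest.Agent.R122.EDefs602 Crest.Agent.R122.TreeLines335
open Crest.Agent.R122.Kin796 Crest.Agent.R122.Kin796.CTree Crest.Agent.R122.Tree674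
open Crest.Agent.R122.RtG302 Crest.Agent.R122.BH167 Crest.Agent.R122.Gate424

noncomputable section

namespace Crest.Agent.R122.LNTree399

variable {Φ : Space3 → ℝ} {f₀ : PhasePoint → ℝ} {ε t T c : ℝ} {n N K : ℕ} {P : CTree}
  {z : PhasePoint × Par P} {w : Config n}

/-- BadHit in the glued world of the gas, or of the gas and one line of the tree. -/
def HitA (Φ : Space3 → ℝ) (t c ε : ℝ) (N : ℕ) {n : ℕ} {P : CTree} (z : PhasePoint × Par P)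
    (w : Config n) : Prop :=
  HitW Φ t c ε N z w (MW.cfg w) (eG n P) ∨
    ∃ x, HitW Φ t c ε N z w ((MW.cfg w).ins (lineML Φ ε P z x)) (eX n P x)

/-- **Bad hits of a tree.** -/
theorem badHitGas_of_hitA (hΦ : AdmissiblePotential Φ) (hε : 0 < ε) (htT : t ≤ T) (hc : 1 ≤ c)
    (hV : Valid Φ ε P t z.1.2 z.2) (hS : Sep Φ ε P t z.1 z.2) (hw : w ∈ PairExcluded ε n)
    (hok : MW.OkFam Φ ε (MW.cfg w) (lineML Φ ε P z)) (h : HitA Φ t c ε N z w) :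
    BadHitGas (BPos Φ T) Φ T c 1 ε N N 1 (Finset.univ : Finset (Idx P)) (fun _ => 0)
      (Tree674.lines Φ ε P z.1 z.2) w := by
  rcases h with h | ⟨x, h⟩
  · exact badHitGas_of_hitW hΦ hε htT hc hV hS hw (glue_cfg hV hS (MW.OkFam.base hΦ hε hok)) h
  · exact badHitGas_of_hitW hΦ hε htT hc hV hS hw
      (glue_ins hV hS x (MW.OkFam.line hΦ hε hok x)) h

/-- `HitA` for a separated tree and good worlds. -/
def HitR (Φ : Space3 → ℝ) (t c ε : ℝ) (N : ℕ) {n : ℕ} {P : CTree} (z : PhasePoint × Par P)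
    (w : Config n) : Prop :=
  Sep Φ ε P t z.1 z.2 ∧ MW.OkFam Φ ε (MW.cfg w) (lineML Φ ε P z) ∧ HitA Φ t c ε N z w

/-- **Bad hits of trees are null**, law of helper302. -/
theorem gNull_hitR (hΦ : AdmissiblePotential Φ) {γ : ℝ} (hγ : 0 < γ) (hf : Measurable f₀)
    (h1 : ∫⁻ z, ENNReal.ofReal (f₀ z) ≤ 1) {ρ : Space3 → ℝ≥0∞} {C₀ : ℝ≥0∞}
    (he : LN2.Env f₀ γ ρ C₀) (hc : 1 ≤ c) (P : CTree) (t : ℝ) (N : ℕ) :
    GNull (I := Unit) f₀ (fun ε _ => TreeGate302.treeQ Φ f₀ ε P t)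
      (fun ε _ n z w => Valid Φ ε P t z.1.2 z.2 ∧ HitR Φ t c ε N z w) := by
  by_cases ht : 0 ≤ t
  swap
  · refine fun δ _ => ⟨1, one_pos, fun ε _ _ _ => ⟨fun _ _ => 0, fun _ => measurable_const, ?_, ?_⟩⟩
    · rintro n z w - ⟨-, -, -, h | ⟨x, h⟩⟩
      · exact absurd h.pos.le ht
      · exact absurd h.pos.le ht
    · unfold GC311.gcE
      simp
  have ha : 0 < γ / 2 := by positivity
  have he' : LN2.Env f₀ (γ - γ / 2) ρ C₀ := ⟨he.meas, he.le_one, he.int, he.fin, fun z =>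
    (he.le z).trans (mul_le_mul_right (mul_le_mul_right (LN2.wG_anti (by linarith) z.2) _) _)⟩
  have hs : 1 ≤ Fintype.card (Idx P) := Fintype.card_pos_iff.2 ⟨root P⟩
  have h2 := gNull_badHit (I := Unit) (m := fun ε _ => TreeGate302.treeQ Φ f₀ ε P t)
    (κ := Idx P) (T := t) hΦ ht hf h1 he' (by linarith) hs Finset.univ
    (c := ENNReal.ofReal (Fintype.card (Idx P) + 1 / (γ / 2)) * C₀ ^ Fintype.card (Idx P))
    (ENNReal.mul_ne_top ENNReal.ofReal_ne_top (ENNReal.pow_ne_top he.fin))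
    (Measure.dirac fun _ : Idx P => (0 : ℝ)) (b := fun _ _ _ _ => 0)
    (z := fun ε _ z => linesM Φ ε P z.1 z.2) (fun ε _ => inferInstance)
    (fun ε _ hε => TreeGate302.dom_treeQ hΦ hf he hε ha P t) c 1 N N
  refine fun δ hδ => (h2 δ hδ).mono le_rfl ⟨1, one_pos, ?_⟩
  rintro ε hε - - n z w hw ⟨hV, hS, hok, h⟩
  rw [linesM_of_adm ε hV.1]
  exact badHitGas_of_hitA hΦ hε le_rfl hc hV hS hw hok h

/-- **Bad hits of trees are null**, sums over trees. -/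
theorem tNull_hitR (hΦ : AdmissiblePotential Φ) {γ : ℝ} (hγ : 0 < γ) (hf : Measurable f₀)
    (h1 : ∫⁻ z, ENNReal.ofReal (f₀ z) ≤ 1) {ρ : Space3 → ℝ≥0∞} {C₀ : ℝ≥0∞}
    (he : LN2.Env f₀ γ ρ C₀) (hc : 1 ≤ c) (K : ℕ) (t : ℝ) (N : ℕ) :
    TNull Φ f₀ t K fun ε _ z _ w => HitR Φ t c ε N z w := by
  intro δ hδ
  have h2 : (0 : ℝ≥0∞) < ENNReal.ofReal δ := ENNReal.ofReal_pos.2 hδ
  obtain ⟨δ', hδ', hle⟩ := TreeGate302.exists_div (GIVStep383.trees K).card h2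
  exact (TreeGate302.tLe_of_gLe hΦ hf (E := fun ε _ z _ w => HitR Φ t c ε N z w) fun P _ =>
    (gNull_hitR hΦ hγ hf h1 he hc P t N δ' hδ').mono le_rfl
      ⟨1, one_pos, fun ε _ _ _ n z w _ h => ⟨h.1, h.2.2⟩⟩).mono hle
    ⟨1, one_pos, fun _ _ _ _ _ _ _ _ _ _ _ h => h⟩

/-! ### Statements -/

/-- Everything which is influenced by the line `x` up to its touch time is reached. -/
def RAllX (Φ : Space3 → ℝ) (t c ε : ℝ) (K N : ℕ) (u₀ : ℝ) {n : ℕ} {P : CTree}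
    (z : PhasePoint × Par P) (w : Config n) (x : Idx P) : Prop :=
  LNEv818.ReachAll (LNEv968.Reach (Mt Φ t ε n P) c (Zt Φ ε w z) (Lt n P) (pT n P)
    (Sum.inr x) N) Φ ε K u₀ (MW.cfg w) Sum.inl (lineML Φ ε P z x) (Sum.inr x)

/-- The deterministic alternative for one line of a tree. -/
def RATX (Φ : Space3 → ℝ) (t : ℝ) (K K₂ : ℕ) : Prop :=
  ∀ L : ℕ, ∃ N : ℕ, ∀ (c ε ℓ ς u₀ : ℝ), 1 ≤ c → 0 < ε → 0 ≤ ℓ → 2 * ℓ ≤ ς → u₀ ≤ t →
    ∀ (P : CTree) (z : PhasePoint × Par P) (n : ℕ) (w : Config n), P.leaves ≤ K →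
      Valid Φ ε P t z.1.2 z.2 → Sep Φ ε P t z.1 z.2 → w ∈ PairExcluded ε n →
      (∀ i q, ε < dist (Tree674.lines Φ ε P z.1 z.2 i).1 (w q).1) →
      ∀ x : Idx P, (MW.cfg w).Ok Φ ε → ((MW.cfg w).ins (lineML Φ ε P z x)).Ok Φ ε →
      RunS Φ t K₂ L ε z w ∨
      ¬ NoBad (Mt Φ t ε n P) c ℓ ς (Zt Φ ε w z) (Lt n P) (N + N) ∨
      HitW Φ t c ε N z w (MW.cfg w) (eG n P) ∨
      HitW Φ t c ε N z w ((MW.cfg w).ins (lineML Φ ε P z x)) (eX n P x) ∨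
      RAllX Φ t c ε K₂ N u₀ z w x

/-- **The deterministic alternative for all lines of a tree**, root line included. -/
def RATA (Φ : Space3 → ℝ) (t : ℝ) (K K₂ : ℕ) : Prop :=
  ∀ L : ℕ, ∃ N : ℕ, ∀ (c ε ℓ ς u₀ : ℝ), 1 ≤ c → 0 < ε → 0 ≤ ℓ → 2 * ℓ ≤ ς → u₀ ≤ t →
    ∀ (P : CTree) (z : PhasePoint × Par P) (n : ℕ) (w : Config n), P.leaves ≤ K →
      Valid Φ ε P t z.1.2 z.2 → Sep Φ ε P t z.1 z.2 → w ∈ PairExcluded ε n →
      (∀ i q, ε < dist (Tree674.lines Φ ε P z.1 z.2 i).1 (w q).1) →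
      MW.OkFam Φ ε (MW.cfg w) (lineML Φ ε P z) →
      RunS Φ t K₂ L ε z w ∨
      ¬ NoBad (Mt Φ t ε n P) c ℓ ς (Zt Φ ε w z) (Lt n P) (N + N) ∨
      HitA Φ t c ε N z w ∨ ∀ x, RAllX Φ t c ε K₂ N u₀ z w x

theorem ratA_of_ratX (hΦ : AdmissiblePotential Φ) {K K₂ : ℕ} (h : RATX Φ t K K₂) :
    RATA Φ t K K₂ := by
  intro L
  obtain ⟨N, h⟩ := h L
  refine ⟨N, fun c ε ℓ ς u₀ hc hε hℓ hς hu P z n w hP hV hS hw hp hok => ?_⟩
  by_cases h1 : RunS Φ t K₂ L ε z w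
  · exact Or.inl h1
  by_cases h2 : ¬ NoBad (Mt Φ t ε n P) c ℓ ς (Zt Φ ε w z) (Lt n P) (N + N)
  · exact Or.inr (Or.inl h2)
  by_cases h3 : HitA Φ t c ε N z w
  · exact Or.inr (Or.inr (Or.inl h3))
  refine Or.inr (Or.inr (Or.inr fun x => ?_))
  rcases h c ε ℓ ς u₀ hc hε hℓ hς hu P z n w hP hV hS hw hp x (MW.OkFam.base hΦ hε hok)
    (MW.OkFam.line hΦ hε hok x) with h4 | h4 | h4 | h4 | h4
  · exact absurd h4 h1
  · exact absurd h4 h2
  · exact absurd (Or.inl h4) h3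
  · exact absurd (Or.inr ⟨x, h4⟩) h3
  · exact h4

theorem rat_of_ratX (hΦ : AdmissiblePotential Φ) {K K₂ : ℕ} (h : RATX Φ t K K₂) :
    RAT Φ t K K₂ := by
  intro L
  obtain ⟨N, h⟩ := h L
  refine ⟨N, fun c ε ℓ ς hc hε hℓ hς P z n w hP hV hS hw hp hok => ?_⟩
  by_cases h1 : RunS Φ t K₂ L ε z w
  · exact Or.inl h1
  by_cases h2 : ¬ NoBad (Mt Φ t ε n P) c ℓ ς (Zt Φ ε w z) (Lt n P) (N + N)
  · exact Or.inr (Or.inl h2)
  by_cases h3 : HitT Φ t c ε N z w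
  · exact Or.inr (Or.inr (Or.inl h3))
  refine Or.inr (Or.inr (Or.inr fun x => ?_))
  rcases h c ε ℓ ς t hc hε hℓ hς le_rfl P z n w hP hV hS hw hp x.1 (MW.OkFam.base hΦ hε hok)
    (MW.OkFam.line hΦ hε hok x) with h4 | h4 | h4 | h4 | h4
  · exact absurd h4 h1
  · exact absurd h4 h2
  · exact absurd (Or.inl h4) h3
  · exact absurd (Or.inr ⟨x.1, x.2, h4⟩) h3
  · exact h4

end Crest.Agent.R122.LNTree399

end
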