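import Crest.Agent.R122.LinkM2_547
import Crest.Agent.R122.LocFlow_45

/-!
# Row 122, H11 (LINK mass), part 3 (helper547): rounding the times of a run to a grid
-/

set_option autoImplicit false
set_option maxHeartbeats 400000

open MeasureTheory Set
open Crest.AnalysisR.Kinetic
open Crest.Agent.R122.Flow671 Crest.Agent.R122.Loc45 Crest.Agent.R122.Causal291
open Crest.Agent.R122.Vol365 Crest.Agent.R122.GC311 Crest.Agent.R122.EDefs602
open Crest.Agent.R122.Ins45
open scoped ENNReal Classical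

noncomputable section

namespace Crest.Agent.R122.LinkM547

variable {Φ : Space3 → ℝ} {ε : ℝ}

/-- rounding a time down to the grid of mesh `δ` -/
def rd (δ : ℝ) (p : Step × ℝ) : Step × ℝ := (p.1, δ * (⌊p.2 / δ⌋₊ : ℝ))

theorem tot_map_rd (δ : ℝ) (l : List (Step × ℝ)) : tot (l.map (rd δ)) = tot l := by
  induction l with
  | nil => rfl
  | cons a l ih =>
    change a.1.k + tot (l.map (rd δ)) = a.1.k + tot l
    rw [ih]

theorem rd_bounds {δ r : ℝ} (hδ : 0 < δ) (hr : 0 ≤ r) :
    0 ≤ δ * (⌊r / δ⌋₊ : ℝ) ∧ δ * (⌊r / δ⌋₊ : ℝ) ≤ r ∧ r - δ * (⌊r / δ⌋₊ : ℝ) ≤ δ := by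
  have h0 : 0 ≤ r / δ := div_nonneg hr hδ.le
  refine ⟨by positivity, ?_, ?_⟩
  · calc δ * (⌊r / δ⌋₊ : ℝ) ≤ δ * (r / δ) := mul_le_mul_of_nonneg_left (Nat.floor_le h0) hδ.le
      _ = r := by field_simp
  · have h1 : r / δ < (⌊r / δ⌋₊ : ℝ) + 1 := Nat.lt_floor_add_one _
    have h2 : r < δ * ((⌊r / δ⌋₊ : ℝ) + 1) := by
      rw [div_lt_iff₀ hδ] at h1
      linarith
    linarith

theorem hd_cast {k m m' : ℕ} (V : Config (k + m)) (h : k + m' = k + m) :
    hd (k := k) (m := m') (fun i => V (Fin.cast h i)) = hd V := rfl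

theorem tl_cast {k m m' : ℕ} (V : Config (k + m)) (h : k + m' = k + m) (h' : m' = m) :
    tl (k := k) (m := m') (fun i => V (Fin.cast h i)) = fun i => tl V (Fin.cast h' i) := rfl

theorem pairExcluded_hd {k m : ℕ} {V : Config (k + m)} (h : V ∈ PairExcluded ε (k + m)) :
    hd V ∈ PairExcluded ε k := fun i j hij =>
  h _ _ fun h' => hij (Fin.castAdd_injective _ _ h')

theorem pairExcluded_tl {k m : ℕ} {V : Config (k + m)} (h : V ∈ PairExcluded ε (k + m)) :
    tl V ∈ PairExcluded ε m := fun i j hij =>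
  h _ _ fun h' => hij (Fin.natAdd_injective _ _ h')

theorem kin_split {k m : ℕ} (V : Config (k + m)) : kin V = kin (hd V) + kin (tl V) := by
  have : V = Fin.append (hd V) (tl V) := by
    funext i
    refine Fin.addCases (fun i => ?_) (fun i => ?_) i <;> simp [hd, tl]
  conv_lhs => rw [this]
  exact kin_append _ _

/-- Displacement bound for an excluded configuration. -/
theorem dist_flow_le_of_excluded (hΦ : AdmissiblePotential Φ) (hε : 0 < ε) {k : ℕ} {V : Config k}
    (hV : V ∈ PairExcluded ε k) (s t : ℝ) (i : Fin k) :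
    dist (flow Φ ε t V i).1 (flow Φ ε s V i).1 ≤
      Real.sqrt (2 * (kin V + stabB Φ * k)) * |t - s| := by
  have h := dist_pos_flow_le hΦ hε (pairExcluded_subset_Dom (Φ := Φ) hε k hV) s t i
  rwa [energy_pairExcluded hΦ hε hV, Fintype.card_fin] at h

/-- **Rounding the times.** -/
theorem ch_round (hΦ : AdmissiblePotential Φ) (hε : 0 < ε) {T M δ : ℝ} (hδ : 0 < δ)
    (hM : M * δ ≤ ε) :
    ∀ (l : List (Step × ℝ)), (∀ p ∈ l, p.2 ∈ Icc (0 : ℝ) T) →
      ∀ (G : Type) [Fintype G] (Z : MW G) (q : G) (V : Config (tot l)),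
      V ∈ PairExcluded ε (tot l) → Real.sqrt (2 * (kin V + stabB Φ * tot l)) ≤ M →
      Ch Φ ε T ε l G Z q V → ChLip Φ ε T M l G Z q V →
      Ch Φ ε T (3 * ε) (l.map (rd δ)) G Z q (fun i => V (Fin.cast (tot_map_rd δ l) i)) := by
  intro l
  induction l with
  | nil => intro _ G _ Z q V _ _ _ _; exact trivial
  | cons a l ih =>
    intro ht G _ Z q V hV hMV hc hL
    obtain ⟨s, r⟩ := a
    have hr : r ∈ Icc (0 : ℝ) T := ht (s, r) (List.mem_cons_self ..)
    have ht' : ∀ p ∈ l, p.2 ∈ Icc (0 : ℝ) T := fun p hp => ht p (List.mem_cons_of_mem _ hp)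
    obtain ⟨b0, b1, b2⟩ := rd_bounds hδ hr.1
    set r' : ℝ := δ * (⌊r / δ⌋₊ : ℝ) with hr'
    have hr'T : r' ∈ Icc (0 : ℝ) T := ⟨b0, b1.trans hr.2⟩
    have habs : |r' - r| ≤ δ := by rw [abs_sub_comm, abs_of_nonneg (by linarith)]; exact b2
    have habs' : |r - r'| ≤ δ := by rw [abs_sub_comm]; exact habs
    have hM0 : 0 ≤ M := (Real.sqrt_nonneg _).trans hMV
    have hV' : (show Config (s.k + tot l) from V) ∈ PairExcluded ε (s.k + tot l) := hV
    have hkin : kin V = kin (hd (k := s.k) (m := tot l) V) + kin (tl (k := s.k) (m := tot l) V) :=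
      kin_split (k := s.k) (m := tot l) V
    have htot : ((tot ((s, r) :: l) : ℕ) : ℝ) = (s.k : ℝ) + (tot l : ℝ) := by
      change ((s.k + tot l : ℕ) : ℝ) = _
      push_cast; rfl
    have hB := stabB_nonneg Φ
    have hk1 := kin_nonneg (hd (k := s.k) (m := tot l) V)
    have hk2 := kin_nonneg (tl (k := s.k) (m := tot l) V)
    have hM1 : Real.sqrt (2 * (kin (hd (k := s.k) (m := tot l) V) + stabB Φ * s.k)) ≤ M := by
      refine (Real.sqrt_le_sqrt ?_).trans hMV
      rw [hkin, htot]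
      have : 0 ≤ stabB Φ * (tot l : ℝ) := by positivity
      nlinarith
    have hM2 : Real.sqrt (2 * (kin (tl (k := s.k) (m := tot l) V) + stabB Φ * tot l)) ≤ M := by
      refine (Real.sqrt_le_sqrt ?_).trans hMV
      rw [hkin, htot]
      have : 0 ≤ stabB Φ * (s.k : ℝ) := by positivity
      nlinarith
    obtain ⟨c1, c2, c3⟩ := hc
    obtain ⟨l1, l2⟩ := hL
    refine ⟨c1, ?_, ?_⟩
    · change dist (flow Φ ε r' (hd (k := s.k) (m := tot l) V) s.e).1 (Z.path Φ ε r' q).1 ≤ 3 * ε
      have e1 := dist_flow_le_of_excluded hΦ hε (pairExcluded_hd hV') r r' s.e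
      have e2 := l1 r hr r' hr'T
      have e3 : Real.sqrt (2 * (kin (hd (k := s.k) (m := tot l) V) + stabB Φ * s.k)) * |r' - r| ≤ ε :=
        (mul_le_mul hM1 habs (abs_nonneg _) hM0).trans hM
      have e4 : M * |r - r'| ≤ ε := (mul_le_mul_of_nonneg_left habs' hM0).trans hM
      calc dist (flow Φ ε r' (hd (k := s.k) (m := tot l) V) s.e).1 (Z.path Φ ε r' q).1
          ≤ dist (flow Φ ε r' (hd (k := s.k) (m := tot l) V) s.e).1
              (flow Φ ε r (hd (k := s.k) (m := tot l) V) s.e).1 +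
            dist (flow Φ ε r (hd (k := s.k) (m := tot l) V) s.e).1 (Z.path Φ ε r q).1 +
            dist (Z.path Φ ε r q).1 (Z.path Φ ε r' q).1 := dist_triangle4 _ _ _ _
        _ ≤ ε + ε + ε := by
            refine add_le_add (add_le_add (e1.trans e3) c2) (e2.trans e4)
        _ = 3 * ε := by ring
    · rcases hk : s.kd with _ | _ | _
      · simp only [hk] at c3 l2
        have := ih ht' (G ⊕ Fin s.k) (Z.add (MW.cfg (hd (k := s.k) (m := tot l) V))) (Sum.inl q)
          (tl (k := s.k) (m := tot l) V) (pairExcluded_tl hV') hM2 c3 l2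
        simp only [rd, hk]
        exact this
      · simp only [hk] at c3 l2
        have := ih ht' (G ⊕ Fin s.k) (Z.add (MW.cfg (hd (k := s.k) (m := tot l) V))) (Sum.inr s.e)
          (tl (k := s.k) (m := tot l) V) (pairExcluded_tl hV') hM2 c3 l2
        simp only [rd, hk]
        exact this
      · simp only [hk] at c3 l2
        have := ih ht' (Fin s.k) (MW.cfg (hd (k := s.k) (m := tot l) V)) s.e
          (tl (k := s.k) (m := tot l) V) (pairExcluded_tl hV') hM2 c3 l2
        simp only [rd, hk]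
        exact this

end Crest.Agent.R122.LinkM547

end
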