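import Crest.Agent.R122.LinkD2_331
import Crest.Agent.R122.LinkDefs_547
import Crest.Agent.R122.LinkM3_547
import Crest.Agent.R122.VLInstD_442
import Crest.Agent.R122.UnwE_410

/-!
# Row 122, LN3-D (helper331): from a trace to a run

* `st_sq_le` : energy bound in a sub-world of a virtual system.
* `Grp M Z W f` : the marked world `W` over `G` is the sub-world of the labels `f`.
* `Grp.path_eq`, `Grp.lip`.
* `OkV` : one step of a trace, in a virtual system.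
* `run_of_trace` : a trace gives a run.
-/

set_option autoImplicit false
set_option linter.unusedSectionVars false

open MeasureTheory Set Filter Topology
open scoped ENNReal NNReal
open Crest.AnalysisR.Kinetic
open Crest.Agent.R122.Flow671 Crest.Agent.R122.Loc45 Crest.Agent.R122.Ins45
open Crest.Agent.R122.Vol365 Crest.Agent.R122.EDefs602 Crest.Agent.R122.LinkM547
open Crest.Agent.R122.GC311 Crest.Agent.R122.Master566
open Crest.Agent.R122.Energy410
open Crest.Agent.R122.VL581 Crest.Agent.R122.VL581.VSys Crest.Agent.R122.VLInst442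

noncomputable section

namespace Crest.Agent.R122.LinkD331

variable {J κ : Type} [Fintype J] {M : VSys J κ}

/-- **Energy bound** in a sub-world. -/
theorem st_sq_le (hΦ : AdmissiblePotential M.Φ) (hε : 0 < M.ε) {A : Finset J} {t : ℝ}
    {Z : J → PhasePoint} (hok : M.ok A t Z) {i : J} (hiA : i ∈ A) :
    ‖(M.st A t Z i).2‖ ^ 2 ≤ ∑ j ∈ A, ‖(Z j).2‖ ^ 2 + 2 * (stabB M.Φ * A.card) := by
  have hB := stabB_nonneg M.Φ
  by_cases hi : i ∈ M.mem A t
  swap
  · rw [st_of_not_mem M hi]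
    have h1 : ‖(Z i).2‖ ^ 2 ≤ ∑ j ∈ A, ‖(Z j).2‖ ^ 2 :=
      Finset.single_le_sum (f := fun j => ‖(Z j).2‖ ^ 2) (fun j _ => by positivity) hiA
    have h2 : 0 ≤ stabB M.Φ * A.card := by positivity
    have h3 : (fl t (Z i)).2 = (Z i).2 := rfl
    rw [h3]
    linarith
  have ht : 0 ≤ t := (bb_nonneg M i).trans (mem_mem.1 hi).2.2.le
  set B := M.mem A t with hBdef
  have hW := (bworld_of_ok hΦ hε hok).mono (t₁ := 0) (by norm_num)
  have hev : ∀ s ∈ Icc 0 t, ∀ j : B, ev M B s Z j = M.st A s Z j := fun s hs j =>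
    (st_eq_ev_mem hΦ hε (by linarith [hs.1]) hs.2 Z j.2).symm
  have hS : SepBirths M.ε (fun j : B => M.bb j) t (fun s => ev M B s Z) := by
    refine ⟨fun j k hjk hj hk => ?_, fun j k hjk _ _ hbk => ?_⟩
    · have hj0 : M.bb j = 0 := le_antisymm hj (bb_nonneg M j)
      rw [hev 0 ⟨le_rfl, ht⟩ j, hev 0 ⟨le_rfl, ht⟩ k]
      have := hok j (mem_mem.1 j.2).1 (mem_mem.1 j.2).2.1 (mem_mem.1 j.2).2.2 k (mem_mem.1 k.2).1
        (mem_mem.1 k.2).2.1 (fun h => hjk (Subtype.ext h.symm)) (by rw [hj0]; exact hk)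
      rw [hj0] at this
      exact this.le
    · have hm : M.bb j ∈ Icc 0 t := ⟨bb_nonneg M j, (mem_mem.1 j.2).2.2.le⟩
      rw [hev _ hm j, hev _ hm k]
      exact (hok j (mem_mem.1 j.2).1 (mem_mem.1 j.2).2.1 (mem_mem.1 j.2).2.2 k (mem_mem.1 k.2).1
        (mem_mem.1 k.2).2.1 (fun h => hjk (Subtype.ext h.symm)) hbk).le
  have h0 : engB M.Φ M.ε (fun j : B => M.bb j) 0 Finset.univ (ev M B 0 Z) =
      (1 / 2) * ∑ j : B, ‖(ev M B 0 Z j).2‖ ^ 2 :=
    engB_eq_kin hΦ hε fun i _ j _ hij hi hj => hS.init i j hij hi hj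
  have h1 := engB_const hΦ hε hW hS le_rfl ht le_rfl (A := Finset.univ)
    (fun r _ => fun i _ j hj => absurd (Finset.mem_univ j) hj)
  have h2 := engB_lower hΦ hε hW ht Finset.univ
  rw [h1, h0] at h2
  have h3 : ‖(ev M B t Z ⟨i, hi⟩).2‖ ^ 2 ≤ ∑ j : B, ‖(ev M B t Z j).2‖ ^ 2 :=
    Finset.single_le_sum (f := fun j : B => ‖(ev M B t Z j).2‖ ^ 2)
      (fun j _ => by positivity) (Finset.mem_univ _)
  have h4 : ∑ j : B, ‖(ev M B 0 Z j).2‖ ^ 2 ≤ ∑ j ∈ A, ‖(Z j).2‖ ^ 2 := by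
    have h5 : ∀ j : B, ‖(ev M B 0 Z j).2‖ ^ 2 = ‖(Z j).2‖ ^ 2 := by
      intro j
      rw [hev 0 ⟨le_rfl, ht⟩ j, st_nonpos M le_rfl, fl_zero]
    rw [Finset.sum_congr rfl fun j _ => h5 j]
    rw [Finset.sum_coe_sort B (fun j => ‖(Z j).2‖ ^ 2)]
    exact Finset.sum_le_sum_of_subset_of_nonneg (mem_sub M A t) fun j _ _ => by positivity
  have h5 : stabB M.Φ * ((Finset.univ : Finset B).card : ℝ) ≤ stabB M.Φ * A.card := by
    refine mul_le_mul_of_nonneg_left ?_ hB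
    have : (Finset.univ : Finset B).card ≤ A.card := by
      rw [Finset.card_univ, Fintype.card_coe]
      exact Finset.card_le_card (mem_sub M A t)
    exact_mod_cast this
  rw [st_of_mem M hi]
  linarith

variable (M) (Z : J → PhasePoint)

/-- The marked world `W` over `G` is the sub-world with the labels `f`. -/
structure Grp {G : Type} (W : MW G) (f : G ↪ J) (D : Finset J) : Prop where
  b : ∀ x, W.b x = M.b (f x)
  z : ∀ x, W.z x = Z (f x)
  obs : ∀ x, M.o ≠ some (f x)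
  rng : ∀ j, j ∈ D ↔ ∃ x, f x = j
  ok : M.ok D M.T Z

variable {M Z}

namespace Grp

variable {G : Type} [Fintype G] {W : MW G} {f : G ↪ J} {D : Finset J}

theorem path_eq (h : Grp M Z W f D) (hΦ : AdmissiblePotential M.Φ) (hε : 0 < M.ε) {t : ℝ}
    (ht : t ∈ Icc 0 M.T) (x : G) : W.path M.Φ M.ε t x = M.st D t Z (f x) := by
  let σ : G ≃ Mem M D := Equiv.ofBijective (fun x => ⟨f x, (h.rng _).2 ⟨x, rfl⟩, h.obs x⟩)
    ⟨fun x y hxy => f.injective (congrArg Subtype.val hxy), fun j => by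
      obtain ⟨x, hx⟩ := (h.rng j.1).1 j.2.1
      exact ⟨x, Subtype.ext hx⟩⟩
  have hσ : ∀ x, (σ x : J) = f x := fun x => rfl
  have h1 : LWorld M.Φ M.ε W.b 0 M.T (fun s x => M.st D s Z (f x)) := by
    have h2 := (lworld_of_ok hΦ hε h.ok 0).equiv σ
    refine (h2.congr_births fun x s hs => ?_)
    change M.bb (f x) ≤ s ↔ _
    rw [h.b]
    unfold VSys.bb
    rw [max_le_iff]
    exact ⟨fun h => h.1, fun h => ⟨h, hs.1⟩⟩
  have h3 := h1.eq_evo hΦ hε ht.1 ht.2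
  have h4 : (fun x => M.st D 0 Z (f x)) = W.z := by
    funext x
    rw [st_nonpos M le_rfl, fl_zero, h.z]
  unfold MW.path
  rw [← h4]
  exact (congrFun h3 x).symm

theorem sum_sq (h : Grp M Z W f D) : ∑ j ∈ D, ‖(Z j).2‖ ^ 2 = 2 * kin W.z := by
  have h1 : D = Finset.univ.map f := by
    ext j
    rw [h.rng]
    simp
  have h2 : ∀ x, ‖(W.z x).2‖ ^ 2 = ‖(Z (f x)).2‖ ^ 2 := fun x => by rw [h.z x]
  unfold kin
  rw [h1, Finset.sum_map, Finset.sum_congr rfl fun x _ => h2 x]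
  ring

theorem card (h : Grp M Z W f D) : D.card = Fintype.card G := by
  have h1 : D = Finset.univ.map f := by
    ext j
    rw [h.rng]
    simp
  rw [h1, Finset.card_map, Finset.card_univ]

/-- Lipschitz bound of the paths of a group. -/
theorem lip (h : Grp M Z W f D) (hΦ : AdmissiblePotential M.Φ) (hε : 0 < M.ε) {m : ℝ}
    (hm0 : 0 ≤ m) (hm : 2 * (kin W.z + stabB M.Φ * Fintype.card G) ≤ m ^ 2) (x : G) :
    ∀ t ∈ Icc (0 : ℝ) M.T, ∀ t' ∈ Icc (0 : ℝ) M.T,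
      dist (W.path M.Φ M.ε t x).1 (W.path M.Φ M.ε t' x).1 ≤ m * |t - t'| := by
  have hfx : f x ∈ D := (h.rng _).2 ⟨x, rfl⟩
  have key : ∀ t ∈ Icc (0 : ℝ) M.T, ∀ t' ∈ Icc (0 : ℝ) M.T, t ≤ t' →
      dist (W.path M.Φ M.ε t x).1 (W.path M.Φ M.ε t' x).1 ≤ m * |t - t'| := by
    intro t ht t' ht' htt
    rw [h.path_eq hΦ hε ht, h.path_eq hΦ hε ht']
    have hok := ok_anti ht'.2 h.ok
    have hW := st_lworld hΦ hε hok t
    have h1 := norm_image_sub_le_of_norm_deriv_right_le_segment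
      (f := fun r => (M.st D r Z (f x)).1) (f' := fun r => (M.st D r Z (f x)).2)
      (a := t) (b := t') (C := m)
      (hW.cont_apply (f x)).fst (fun r hr => ?_)
      (fun r hr => ?_) t' ⟨htt, le_rfl⟩
    · rw [dist_comm, dist_eq_norm, abs_sub_comm, abs_of_nonneg (by linarith : 0 ≤ t' - t)]
      exact h1
    · exact ((hasDerivWithinAt_pi.1 (hW.der r hr)) (f x)).fst
    · have h2 := st_sq_le hΦ hε (ok_anti hr.2.le hok) hfx
      rw [h.sum_sq, h.card] at h2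
      refine abs_le_of_sq_le_sq' ?_ hm0 |>.2
      linarith
  intro t ht t' ht'
  rcases le_total t t' with h1 | h1
  · exact key t ht t' ht' h1
  · rw [dist_comm, abs_sub_comm]
    exact key t' ht' t ht h1

end Grp

/-- A set as a finite set. -/
def fs (V : Set J) : Finset J := by
  classical
  exact Finset.univ.filter (· ∈ V)

@[simp] theorem mem_fs {V : Set J} {x : J} : x ∈ fs V ↔ x ∈ V := by
  classical
  simp [fs]

variable (M) (Z)

/-- One step of a trace: the fresh cluster `V` (gas particles, connected in its own world) is hit at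
`e` by the particle `q` of the group `D`. -/
structure OkV (gas : Set J) (K : ℕ) (V : Set J) (e : J) (D : Set J) (q : J) (r : ℝ) : Prop where
  time : r ∈ Icc 0 M.T
  mem : e ∈ V
  sub : V ⊆ gas
  card : V.ncard ≤ K
  ok : M.ok (fs (D ∪ V)) M.T Z
  ok' : M.ok (fs V) M.T Z
  conn : ∀ x ∈ V, Relation.ReflTransGen (fun i j => j ∈ V ∧ ∃ t ∈ Icc 0 M.T,
    dist (M.st (fs V) t Z i).1 (M.st (fs V) t Z j).1 ≤ M.ε) e x
  hit : dist (M.st (fs V) r Z e).1 (M.st (fs D) r Z q).1 ≤ M.ε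

variable {M Z}

/-- Concatenation of embeddings. -/
def appE {k m n : ℕ} (ι₁ : Fin k ↪ Fin n) (ι₂ : Fin m ↪ Fin n) (h : ∀ i j, ι₁ i ≠ ι₂ j) :
    Fin (k + m) ↪ Fin n :=
  ⟨Fin.append ι₁ ι₂, by
    intro a b
    refine Fin.addCases (fun i => ?_) (fun i => ?_) a <;>
      refine Fin.addCases (fun j => ?_) (fun j => ?_) b <;>
      simp only [Fin.append_left, Fin.append_right]
    · exact fun h' => congrArg _ (ι₁.injective h')
    · exact fun h' => absurd h' (h i j)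
    · exact fun h' => absurd h'.symm (h j i)
    · exact fun h' => congrArg _ (ι₂.injective h')⟩

theorem hd_appE {k m n : ℕ} (ι₁ : Fin k ↪ Fin n) (ι₂ : Fin m ↪ Fin n) (h : ∀ i j, ι₁ i ≠ ι₂ j)
    (w : Config n) : hd (fun i => w (appE ι₁ ι₂ h i)) = fun i => w (ι₁ i) := by
  funext i
  simp [hd, appE]

theorem tl_appE {k m n : ℕ} (ι₁ : Fin k ↪ Fin n) (ι₂ : Fin m ↪ Fin n) (h : ∀ i j, ι₁ i ≠ ι₂ j)
    (w : Config n) : tl (fun i => w (appE ι₁ ι₂ h i)) = fun i => w (ι₂ i) := by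
  funext i
  simp [tl, appE]

theorem appE_not_mem {k m n : ℕ} {ι₁ : Fin k ↪ Fin n} {ι₂ : Fin m ↪ Fin n}
    {h : ∀ i j, ι₁ i ≠ ι₂ j} {p : Fin n → Prop} (h1 : ∀ i, p (ι₁ i)) (h2 : ∀ i, p (ι₂ i))
    (i : Fin (k + m)) : p (appE ι₁ ι₂ h i) := by
  refine Fin.addCases (fun i => ?_) (fun i => ?_) i
  · simp only [appE, Function.Embedding.coeFn_mk, Fin.append_left]
    exact h1 i
  · simp only [appE, Function.Embedding.coeFn_mk, Fin.append_right]
    exact h2 i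

section cons

variable {Φ : Space3 → ℝ} {ε T ρ m r : ℝ} {l : List (Step × ℝ)} {k : ℕ} {e : Fin k} {G : Type}
  [Fintype G] {W : MW G} {x : G} {V : Config (k + tot l)} {V₁ : Config k} {V₂ : Config (tot l)}

theorem ch_stay (h1 : hd V = V₁) (h2 : tl V = V₂) (hA : AllConn (NContact Φ ε 0 T V₁))
    (hd' : dist (flow Φ ε r V₁ e).1 (W.path Φ ε r x).1 ≤ ρ)
    (h : Ch Φ ε T ρ l (G ⊕ Fin k) (W.add (MW.cfg V₁)) (Sum.inl x) V₂) :
    Ch Φ ε T ρ ((⟨.stay, k, e⟩, r) :: l) G W x V := by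
  subst h1 h2
  exact ⟨hA, hd', h⟩

theorem ch_switch (h1 : hd V = V₁) (h2 : tl V = V₂) (hA : AllConn (NContact Φ ε 0 T V₁))
    (hd' : dist (flow Φ ε r V₁ e).1 (W.path Φ ε r x).1 ≤ ρ)
    (h : Ch Φ ε T ρ l (G ⊕ Fin k) (W.add (MW.cfg V₁)) (Sum.inr e) V₂) :
    Ch Φ ε T ρ ((⟨.switch, k, e⟩, r) :: l) G W x V := by
  subst h1 h2
  exact ⟨hA, hd', h⟩

theorem ch_ghost (h1 : hd V = V₁) (h2 : tl V = V₂) (hA : AllConn (NContact Φ ε 0 T V₁))
    (hd' : dist (flow Φ ε r V₁ e).1 (W.path Φ ε r x).1 ≤ ρ)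
    (h : Ch Φ ε T ρ l (Fin k) (MW.cfg V₁) e V₂) :
    Ch Φ ε T ρ ((⟨.ghost, k, e⟩, r) :: l) G W x V := by
  subst h1 h2
  exact ⟨hA, hd', h⟩

theorem lip_stay (h1 : hd V = V₁) (h2 : tl V = V₂)
    (hl : ∀ t ∈ Icc (0 : ℝ) T, ∀ t' ∈ Icc (0 : ℝ) T,
      dist (W.path Φ ε t x).1 (W.path Φ ε t' x).1 ≤ m * |t - t'|)
    (h : ChLip Φ ε T m l (G ⊕ Fin k) (W.add (MW.cfg V₁)) (Sum.inl x) V₂) :
    ChLip Φ ε T m ((⟨.stay, k, e⟩, r) :: l) G W x V := by
  subst h1 h2
  exact ⟨hl, h⟩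

theorem lip_switch (h1 : hd V = V₁) (h2 : tl V = V₂)
    (hl : ∀ t ∈ Icc (0 : ℝ) T, ∀ t' ∈ Icc (0 : ℝ) T,
      dist (W.path Φ ε t x).1 (W.path Φ ε t' x).1 ≤ m * |t - t'|)
    (h : ChLip Φ ε T m l (G ⊕ Fin k) (W.add (MW.cfg V₁)) (Sum.inr e) V₂) :
    ChLip Φ ε T m ((⟨.switch, k, e⟩, r) :: l) G W x V := by
  subst h1 h2
  exact ⟨hl, h⟩

theorem lip_ghost (h1 : hd V = V₁) (h2 : tl V = V₂)
    (hl : ∀ t ∈ Icc (0 : ℝ) T, ∀ t' ∈ Icc (0 : ℝ) T,
      dist (W.path Φ ε t x).1 (W.path Φ ε t' x).1 ≤ m * |t - t'|)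
    (h : ChLip Φ ε T m l (Fin k) (MW.cfg V₁) e V₂) :
    ChLip Φ ε T m ((⟨.ghost, k, e⟩, r) :: l) G W x V := by
  subst h1 h2
  exact ⟨hl, h⟩

end cons

theorem kin_add_cfg {G : Type} [Fintype G] (W : MW G) {k : ℕ} (V : Config k) :
    kin (W.add (MW.cfg V)).z = kin W.z + kin V := by
  unfold kin
  rw [Fintype.sum_sum_type]
  simp only [MW.add, MW.cfg, Sum.elim_inl, Sum.elim_inr]
  ring

/-- A cluster of gas particles as a configuration. -/
theorem exists_block {n : ℕ} (g : Fin n ↪ J) {V : Set J} (hV : V ⊆ range g) :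
    ∃ ι : Fin V.ncard ↪ Fin n, ∀ j, j ∈ V ↔ ∃ i, g (ι i) = j := by
  classical
  set V' : Finset (Fin n) := Finset.univ.filter fun i => g i ∈ V with hV'
  have hcard : V.ncard = V'.card := by
    have h1 : V = ((V'.map g : Finset J) : Set J) := by
      ext j
      simp only [hV', Finset.coe_map, mem_image, Finset.mem_coe, Finset.mem_filter,
        Finset.mem_univ, true_and]
      constructor
      · intro hj
        obtain ⟨i, rfl⟩ := hV hj
        exact ⟨i, hj, rfl⟩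
      · rintro ⟨i, hi, rfl⟩
        exact hi
    conv_lhs => rw [h1]
    rw [Set.ncard_coe_finset, Finset.card_map]
  refine ⟨((finCongr hcard).toEmbedding.trans V'.equivFin.symm.toEmbedding).trans
    (Function.Embedding.subtype _), fun j => ?_⟩
  constructor
  · intro hj
    obtain ⟨i, rfl⟩ := hV hj
    have hi : i ∈ V' := by simp [hV', hj]
    refine ⟨(finCongr hcard).symm (V'.equivFin ⟨i, hi⟩), ?_⟩
    simp
  · rintro ⟨i, rfl⟩
    have hmem : ∀ i, i ∈ V' → g i ∈ V := fun i hi => by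
      rw [hV', Finset.mem_filter] at hi
      exact hi.2
    exact hmem _ (V'.equivFin.symm ((finCongr hcard) i)).2

theorem ncontact_symm {Φ : Space3 → ℝ} {ε : ℝ} {ι : Type} [Fintype ι] {a b : ℝ}
    {z : ι → PhasePoint} {i j : ι} (h : NContact Φ ε a b z i j) : NContact Φ ε a b z j i := by
  obtain ⟨t, ht, h⟩ := h
  exact ⟨t, ht, by rwa [dist_comm]⟩

theorem rtg_symm {α : Type} {r : α → α → Prop} (hr : ∀ i j, r i j → r j i) {i j : α}
    (h : Relation.ReflTransGen r i j) : Relation.ReflTransGen r j i := by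
  induction h with
  | refl => exact .refl
  | tail _ hbc ih => exact .head (hr _ _ hbc) ih

/-- The block of a step as a group. -/
theorem OkV.grp {n : ℕ} {g : Fin n ↪ J} {w : Config n} (hw : ∀ i, w i = Z (g i))
    (hgb : ∀ i, M.b (g i) = 0) (hgo : ∀ i, M.o ≠ some (g i)) {K : ℕ} {V D : Set J} {e q : J}
    {r : ℝ} (h : OkV M Z (range g) K V e D q r) {ι : Fin V.ncard ↪ Fin n}
    (hι : ∀ j, j ∈ V ↔ ∃ i, g (ι i) = j) :
    Grp M Z (MW.cfg fun i => w (ι i)) (ι.trans g) (fs V) where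
  b x := (hgb _).symm
  z x := hw _
  obs x := hgo _
  rng j := by rw [mem_fs, hι]; rfl
  ok := h.ok'

theorem OkV.excl (hT : 0 < M.T) {n : ℕ} {g : Fin n ↪ J} {w : Config n} (hw : ∀ i, w i = Z (g i))
    (hgb : ∀ i, M.b (g i) = 0) (hgo : ∀ i, M.o ≠ some (g i)) {K : ℕ} {V D : Set J} {e q : J}
    {r : ℝ} (h : OkV M Z (range g) K V e D q r) {ι : Fin V.ncard ↪ Fin n}
    (hι : ∀ j, j ∈ V ↔ ∃ i, g (ι i) = j) :
    (fun i => w (ι i)) ∈ PairExcluded M.ε V.ncard := by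
  intro i j hij
  have hbb : ∀ i, M.bb (g i) = 0 := fun i => by unfold VSys.bb; rw [hgb, max_self]
  have h1 := h.ok' (g (ι i)) (mem_fs.2 ((hι _).2 ⟨i, rfl⟩)) (hgo _) (by rw [hbb]; exact hT)
    (g (ι j)) (mem_fs.2 ((hι _).2 ⟨j, rfl⟩)) (hgo _)
    (fun h' => hij (ι.injective (g.injective h')).symm) (by rw [hbb, hbb])
  rw [hbb, st_nonpos M le_rfl, st_nonpos M le_rfl, fl_zero, fl_zero, ← hw, ← hw] at h1
  exact h1

/-- The data of one step. -/
theorem OkV.step (hΦ : AdmissiblePotential M.Φ) (hε : 0 < M.ε) (hT : 0 < M.T) {n : ℕ}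
    {g : Fin n ↪ J} {w : Config n} (hw : ∀ i, w i = Z (g i)) (hgb : ∀ i, M.b (g i) = 0)
    (hgo : ∀ i, M.o ≠ some (g i)) {K : ℕ} {V D : Set J} {e q : J} {r : ℝ}
    (h : OkV M Z (range g) K V e D q r) {ι : Fin V.ncard ↪ Fin n}
    (hι : ∀ j, j ∈ V ↔ ∃ i, g (ι i) = j) {e' : Fin V.ncard} (he : g (ι e') = e)
    {G : Type} [Fintype G] {W : MW G} {f : G ↪ J} (hG : Grp M Z W f (fs D)) {x : G}
    (hx : f x = q) :
    AllConn (NContact M.Φ M.ε 0 M.T (fun i => w (ι i))) ∧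
      dist (flow M.Φ M.ε r (fun i => w (ι i)) e').1 (W.path M.Φ M.ε r x).1 ≤ M.ε := by
  have hgr := h.grp hw hgb hgo hι
  have hex := h.excl hT hw hgb hgo hι
  have hfl : ∀ t ∈ Icc 0 M.T, ∀ i, flow M.Φ M.ε t (fun i => w (ι i)) i =
      M.st (fs V) t Z (g (ι i)) := by
    intro t ht i
    rw [← Unw410.path_cfg hΦ hε hex ht.1]
    exact hgr.path_eq hΦ hε ht i
  constructor
  · have key : ∀ x, Relation.ReflTransGen (fun i j => j ∈ V ∧ ∃ t ∈ Icc 0 M.T,
        dist (M.st (fs V) t Z i).1 (M.st (fs V) t Z j).1 ≤ M.ε) e x → ∀ i, g (ι i) = x →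
        Relation.ReflTransGen (NContact M.Φ M.ε 0 M.T (fun i => w (ι i))) e' i := by
      intro x hx
      induction hx with
      | refl =>
        intro i hi
        have : i = e' := ι.injective (g.injective (hi.trans he.symm))
        rw [this]
      | @tail y z hy hyz ih =>
        intro i hi
        obtain ⟨_, t, ht, hd⟩ := hyz
        -- `y` is in `V`
        have hyV : y ∈ V := by
          cases hy with
          | refl => exact h.mem
          | tail _ h' => exact h'.1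
        obtain ⟨i₀, hi₀⟩ := (hι y).1 hyV
        refine (ih i₀ hi₀).tail ⟨t, ht, ?_⟩
        rw [hfl t ht, hfl t ht, hi, hi₀]
        exact hd
    intro i j
    have h1 : ∀ i, Relation.ReflTransGen (NContact M.Φ M.ε 0 M.T (fun i => w (ι i))) e' i :=
      fun i => key _ (h.conn _ ((hι _).2 ⟨i, rfl⟩)) i rfl
    exact (rtg_symm (fun _ _ h' => ncontact_symm h') (h1 i)).trans (h1 j)
  · rw [hfl r h.time, hG.path_eq hΦ hε h.time, hx, he]
    exact h.hit

/-- **From a trace to the data of a run.** -/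
theorem ch_of_trace (hΦ : AdmissiblePotential M.Φ) (hε : 0 < M.ε) (hT : 0 < M.T) {n : ℕ}
    {g : Fin n ↪ J} {w : Config n} (hw : ∀ i, w i = Z (g i)) (hgb : ∀ i, M.b (g i) = 0)
    (hgo : ∀ i, M.o ≠ some (g i)) {K : ℕ} {D : Set J} {q : J} {t : ℝ} {U : Set J} {L : ℕ}
    (h : Trace (OkV M Z (range g) K) D q t U L) :
    ∀ {G : Type} [Fintype G] {W : MW G} {f : G ↪ J} {x : G}, Grp M Z W f (fs D) → f x = q →
      D ⊆ U →
      ∃ l : List (Step × ℝ), l.length = L ∧ (∀ p ∈ l, 1 ≤ p.1.k ∧ p.1.k ≤ K) ∧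
        (∀ p ∈ l, p.2 ∈ Icc (0 : ℝ) M.T ∧ t ≤ p.2) ∧ l.Pairwise (fun p p' => p.2 ≤ p'.2) ∧
        ∃ ι : Fin (tot l) ↪ Fin n, (∀ i, g (ι i) ∉ U) ∧
          Ch M.Φ M.ε M.T M.ε l G W x (fun i => w (ι i)) ∧
          ∀ m : ℝ, 0 ≤ m → 2 * (kin W.z + kin (fun i => w (ι i)) +
            stabB M.Φ * (Fintype.card G + tot l)) ≤ m ^ 2 →
            ChLip M.Φ M.ε M.T m l G W x (fun i => w (ι i)) := by
  have hB := stabB_nonneg M.Φ
  induction h with
  | nil =>
    intro G _ W f x _ _ _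
    refine ⟨[], rfl, by simp, by simp, List.Pairwise.nil, ⟨fun i => i.elim0, fun i => i.elim0⟩,
      fun i => i.elim0, trivial, fun _ _ _ => trivial⟩
  | @stay D V q e t r U L ht hV hdis _ ih =>
    intro G _ W f x hG hx hDU
    obtain ⟨ι₁, hι₁⟩ := exists_block g hV.sub
    obtain ⟨e', he'⟩ := (hι₁ e).1 hV.mem
    have hst := hV.step hΦ hε hT hw hgb hgo hι₁ he' hG hx
    let f' : G ⊕ Fin V.ncard ↪ J := ⟨Sum.elim f (fun i => g (ι₁ i)), by
      rintro (a | a) (b | b) h' <;> simp only [Sum.elim_inl, Sum.elim_inr] at h'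
      · exact congrArg _ (f.injective h')
      · exact absurd (hDU (mem_fs.1 ((hG.rng _).2 ⟨a, rfl⟩)))
          (Set.disjoint_left.1 hdis ((hι₁ _).2 ⟨b, h'.symm⟩))
      · exact absurd (hDU (mem_fs.1 ((hG.rng _).2 ⟨b, rfl⟩)))
          (Set.disjoint_left.1 hdis ((hι₁ _).2 ⟨a, h'⟩))
      · exact congrArg _ (ι₁.injective (g.injective h'))⟩
    have hG' : Grp M Z (W.add (MW.cfg fun i => w (ι₁ i))) f' (fs (D ∪ V)) := by
      refine ⟨?_, ?_, ?_, fun j => ?_, hV.ok⟩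
      · rintro (a | a)
        · exact hG.b a
        · exact (hgb _).symm
      · rintro (a | a)
        · exact hG.z a
        · exact hw _
      · rintro (a | a)
        · exact hG.obs a
        · exact hgo _
      · rw [mem_fs, mem_union, hι₁, ← mem_fs, hG.rng]
        constructor
        · rintro (⟨a, ha⟩ | ⟨a, ha⟩)
          · exact ⟨Sum.inl a, ha⟩
          · exact ⟨Sum.inr a, ha⟩
        · rintro ⟨a | a, ha⟩
          · exact Or.inl ⟨a, ha⟩
          · exact Or.inr ⟨a, ha⟩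
    obtain ⟨l, h1, h2, h3, h4, ι₂, h5, h6, h7⟩ := ih hG' (x := Sum.inl x) hx
      (union_subset_union_left V hDU)
    have hdisj : ∀ i j, ι₁ i ≠ ι₂ j := fun i j h' =>
      h5 j (Or.inr ((hι₁ _).2 ⟨i, by rw [h']⟩))
    refine ⟨(⟨.stay, V.ncard, e'⟩, r) :: l, by simp [h1], ?_, ?_, ?_, appE ι₁ ι₂ hdisj, ?_, ?_, ?_⟩
    · intro p hp
      rcases List.mem_cons.1 hp with rfl | hp
      · exact ⟨Nat.lt_of_le_of_lt (Nat.zero_le _) e'.2, hV.card⟩
      · exact h2 p hp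
    · intro p hp
      rcases List.mem_cons.1 hp with rfl | hp
      · exact ⟨hV.time, ht⟩
      · exact ⟨(h3 p hp).1, ht.trans (h3 p hp).2⟩
    · exact List.pairwise_cons.2 ⟨fun p hp => (h3 p hp).2, h4⟩
    · exact appE_not_mem (p := fun i => g i ∉ U)
        (fun i => Set.disjoint_left.1 hdis ((hι₁ _).2 ⟨i, rfl⟩)) (fun i h' => h5 i (Or.inl h'))
    · exact ch_stay (hd_appE ι₁ ι₂ hdisj w) (tl_appE ι₁ ι₂ hdisj w) hst.1 hst.2 h6
    · intro m hm0 hm
      have hk : kin (fun i => w (appE ι₁ ι₂ hdisj i)) =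
          kin (fun i => w (ι₁ i)) + kin (fun i => w (ι₂ i)) := by
        rw [kin_split (k := V.ncard) (m := tot l) (fun i => w (appE ι₁ ι₂ hdisj i)),
          hd_appE ι₁ ι₂ hdisj w, tl_appE ι₁ ι₂ hdisj w]
      have htot : ((tot ((⟨.stay, V.ncard, e'⟩, r) :: l) : ℕ) : ℝ) = V.ncard + tot l := by
        simp [tot]
      rw [htot] at hm
      have hm' : 2 * (kin W.z + (kin (fun i => w (ι₁ i)) + kin (fun i => w (ι₂ i))) +
          stabB M.Φ * (Fintype.card G + ((V.ncard : ℝ) + tot l))) ≤ m ^ 2 := by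
        rw [← hk]; exact hm
      have hk1 := kin_nonneg (fun i => w (ι₁ i))
      have hk2 := kin_nonneg (fun i => w (ι₂ i))
      have hc1 : 0 ≤ stabB M.Φ * ((V.ncard : ℝ) + tot l) := by positivity
      refine lip_stay (hd_appE ι₁ ι₂ hdisj w) (tl_appE ι₁ ι₂ hdisj w)
        (hG.lip hΦ hε hm0 (by nlinarith) x) (h7 m hm0 ?_)
      rw [kin_add_cfg, Fintype.card_sum, Fintype.card_fin]
      push_cast
      nlinarith
  | @switch D V q e t r U L ht hV hdis _ ih =>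
    intro G _ W f x hG hx hDU
    obtain ⟨ι₁, hι₁⟩ := exists_block g hV.sub
    obtain ⟨e', he'⟩ := (hι₁ e).1 hV.mem
    have hst := hV.step hΦ hε hT hw hgb hgo hι₁ he' hG hx
    let f' : G ⊕ Fin V.ncard ↪ J := ⟨Sum.elim f (fun i => g (ι₁ i)), by
      rintro (a | a) (b | b) h' <;> simp only [Sum.elim_inl, Sum.elim_inr] at h'
      · exact congrArg _ (f.injective h')
      · exact absurd (hDU (mem_fs.1 ((hG.rng _).2 ⟨a, rfl⟩)))
          (Set.disjoint_left.1 hdis ((hι₁ _).2 ⟨b, h'.symm⟩))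
      · exact absurd (hDU (mem_fs.1 ((hG.rng _).2 ⟨b, rfl⟩)))
          (Set.disjoint_left.1 hdis ((hι₁ _).2 ⟨a, h'⟩))
      · exact congrArg _ (ι₁.injective (g.injective h'))⟩
    have hG' : Grp M Z (W.add (MW.cfg fun i => w (ι₁ i))) f' (fs (D ∪ V)) := by
      refine ⟨?_, ?_, ?_, fun j => ?_, hV.ok⟩
      · rintro (a | a)
        · exact hG.b a
        · exact (hgb _).symm
      · rintro (a | a)
        · exact hG.z a
        · exact hw _
      · rintro (a | a)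
        · exact hG.obs a
        · exact hgo _
      · rw [mem_fs, mem_union, hι₁, ← mem_fs, hG.rng]
        constructor
        · rintro (⟨a, ha⟩ | ⟨a, ha⟩)
          · exact ⟨Sum.inl a, ha⟩
          · exact ⟨Sum.inr a, ha⟩
        · rintro ⟨a | a, ha⟩
          · exact Or.inl ⟨a, ha⟩
          · exact Or.inr ⟨a, ha⟩
    obtain ⟨l, h1, h2, h3, h4, ι₂, h5, h6, h7⟩ := ih hG' (x := Sum.inr e') he'
      (union_subset_union_left V hDU)
    have hdisj : ∀ i j, ι₁ i ≠ ι₂ j := fun i j h' =>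
      h5 j (Or.inr ((hι₁ _).2 ⟨i, by rw [h']⟩))
    refine ⟨(⟨.switch, V.ncard, e'⟩, r) :: l, by simp [h1], ?_, ?_, ?_, appE ι₁ ι₂ hdisj, ?_, ?_, ?_⟩
    · intro p hp
      rcases List.mem_cons.1 hp with rfl | hp
      · exact ⟨Nat.lt_of_le_of_lt (Nat.zero_le _) e'.2, hV.card⟩
      · exact h2 p hp
    · intro p hp
      rcases List.mem_cons.1 hp with rfl | hp
      · exact ⟨hV.time, ht⟩
      · exact ⟨(h3 p hp).1, ht.trans (h3 p hp).2⟩
    · exact List.pairwise_cons.2 ⟨fun p hp => (h3 p hp).2, h4⟩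
    · exact appE_not_mem (p := fun i => g i ∉ U)
        (fun i => Set.disjoint_left.1 hdis ((hι₁ _).2 ⟨i, rfl⟩)) (fun i h' => h5 i (Or.inl h'))
    · exact ch_switch (hd_appE ι₁ ι₂ hdisj w) (tl_appE ι₁ ι₂ hdisj w) hst.1 hst.2 h6
    · intro m hm0 hm
      have hk : kin (fun i => w (appE ι₁ ι₂ hdisj i)) =
          kin (fun i => w (ι₁ i)) + kin (fun i => w (ι₂ i)) := by
        rw [kin_split (k := V.ncard) (m := tot l) (fun i => w (appE ι₁ ι₂ hdisj i)),
          hd_appE ι₁ ι₂ hdisj w, tl_appE ι₁ ι₂ hdisj w]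
      have htot : ((tot ((⟨.switch, V.ncard, e'⟩, r) :: l) : ℕ) : ℝ) = V.ncard + tot l := by
        simp [tot]
      rw [htot] at hm
      have hm' : 2 * (kin W.z + (kin (fun i => w (ι₁ i)) + kin (fun i => w (ι₂ i))) +
          stabB M.Φ * (Fintype.card G + ((V.ncard : ℝ) + tot l))) ≤ m ^ 2 := by
        rw [← hk]; exact hm
      have hk1 := kin_nonneg (fun i => w (ι₁ i))
      have hk2 := kin_nonneg (fun i => w (ι₂ i))
      have hc1 : 0 ≤ stabB M.Φ * ((V.ncard : ℝ) + tot l) := by positivity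
      refine lip_switch (hd_appE ι₁ ι₂ hdisj w) (tl_appE ι₁ ι₂ hdisj w)
        (hG.lip hΦ hε hm0 (by nlinarith) x) (h7 m hm0 ?_)
      rw [kin_add_cfg, Fintype.card_sum, Fintype.card_fin]
      push_cast
      nlinarith
  | @ghost D V q e t r U L ht hV hdis _ ih =>
    intro G _ W f x hG hx hDU
    obtain ⟨ι₁, hι₁⟩ := exists_block g hV.sub
    obtain ⟨e', he'⟩ := (hι₁ e).1 hV.mem
    have hst := hV.step hΦ hε hT hw hgb hgo hι₁ he' hG hx
    have hG' := hV.grp hw hgb hgo hι₁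
    obtain ⟨l, h1, h2, h3, h4, ι₂, h5, h6, h7⟩ := ih hG' (x := e') he' subset_union_right
    have hdisj : ∀ i j, ι₁ i ≠ ι₂ j := fun i j h' =>
      h5 j (Or.inr ((hι₁ _).2 ⟨i, by rw [h']⟩))
    refine ⟨(⟨.ghost, V.ncard, e'⟩, r) :: l, by simp [h1], ?_, ?_, ?_, appE ι₁ ι₂ hdisj, ?_, ?_, ?_⟩
    · intro p hp
      rcases List.mem_cons.1 hp with rfl | hp
      · exact ⟨Nat.lt_of_le_of_lt (Nat.zero_le _) e'.2, hV.card⟩
      · exact h2 p hp
    · intro p hp
      rcases List.mem_cons.1 hp with rfl | hp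
      · exact ⟨hV.time, ht⟩
      · exact ⟨(h3 p hp).1, ht.trans (h3 p hp).2⟩
    · exact List.pairwise_cons.2 ⟨fun p hp => (h3 p hp).2, h4⟩
    · exact appE_not_mem (p := fun i => g i ∉ U)
        (fun i => Set.disjoint_left.1 hdis ((hι₁ _).2 ⟨i, rfl⟩)) (fun i h' => h5 i (Or.inl h'))
    · exact ch_ghost (hd_appE ι₁ ι₂ hdisj w) (tl_appE ι₁ ι₂ hdisj w) hst.1 hst.2 h6
    · intro m hm0 hm
      have hk : kin (fun i => w (appE ι₁ ι₂ hdisj i)) =
          kin (fun i => w (ι₁ i)) + kin (fun i => w (ι₂ i)) := by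
        rw [kin_split (k := V.ncard) (m := tot l) (fun i => w (appE ι₁ ι₂ hdisj i)),
          hd_appE ι₁ ι₂ hdisj w, tl_appE ι₁ ι₂ hdisj w]
      have htot : ((tot ((⟨.ghost, V.ncard, e'⟩, r) :: l) : ℕ) : ℝ) = V.ncard + tot l := by
        simp [tot]
      rw [htot] at hm
      have hm' : 2 * (kin W.z + (kin (fun i => w (ι₁ i)) + kin (fun i => w (ι₂ i))) +
          stabB M.Φ * (Fintype.card G + ((V.ncard : ℝ) + tot l))) ≤ m ^ 2 := by
        rw [← hk]; exact hm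
      have hk0 := kin_nonneg W.z
      have hk1 := kin_nonneg (fun i => w (ι₁ i))
      have hk2 := kin_nonneg (fun i => w (ι₂ i))
      have hc1 : 0 ≤ stabB M.Φ * ((V.ncard : ℝ) + tot l) := by positivity
      have hc2 : 0 ≤ stabB M.Φ * (Fintype.card G : ℝ) := by positivity
      refine lip_ghost (hd_appE ι₁ ι₂ hdisj w) (tl_appE ι₁ ι₂ hdisj w)
        (hG.lip hΦ hε hm0 (by nlinarith) x) (h7 m hm0 ?_)
      have h8 : kin (MW.cfg fun i => w (ι₁ i)).z = kin (fun i => w (ι₁ i)) := rfl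
      rw [h8, Fintype.card_fin]
      nlinarith

theorem tot_le {K : ℕ} : ∀ {l : List (Step × ℝ)}, (∀ p ∈ l, 1 ≤ p.1.k ∧ p.1.k ≤ K) →
    tot l ≤ l.length * K
  | [], _ => by simp [tot]
  | p :: l, h => by
    have h1 := (h p List.mem_cons_self).2
    have h2 := tot_le (l := l) fun p hp => h p (List.mem_cons_of_mem _ hp)
    simp only [tot, List.length_cons]
    nlinarith

/-- **From a trace to a run.** -/
theorem run_of_trace (hΦ : AdmissiblePotential M.Φ) (hε : 0 < M.ε) (hT : 0 < M.T) {n : ℕ}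
    {g : Fin n ↪ J} {w : Config n} (hw : ∀ i, w i = Z (g i)) (hgb : ∀ i, M.b (g i) = 0)
    (hgo : ∀ i, M.o ≠ some (g i)) {K : ℕ} {D : Set J} {q : J} {t : ℝ} {U : Set J} {L : ℕ}
    (h : Trace (OkV M Z (range g) K) D q t U L) {G : Type} [Fintype G] {W : MW G} {f : G ↪ J}
    {x : G} (hG : Grp M Z W f (fs D)) (hx : f x = q) (hDU : D ⊆ U) :
    Run M.Φ M.ε M.T K L W x w := by
  obtain ⟨l, h1, h2, h3, h4, ι, h5, h6, h7⟩ := ch_of_trace hΦ hε hT hw hgb hgo h hG hx hDU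
  refine ⟨l, h1, h2, fun p hp => (h3 p hp).1, h4, ι, h6, h7 _ (Real.sqrt_nonneg _) ?_⟩
  have hB := stabB_nonneg M.Φ
  have hk0 := kin_nonneg W.z
  have hk1 := kin_nonneg (fun i => w (ι i))
  have htot : ((tot l : ℕ) : ℝ) ≤ L * K := by
    have := tot_le h2
    rw [h1] at this
    exact_mod_cast this
  rw [Real.sq_sqrt (by positivity)]
  have := mul_le_mul_of_nonneg_left htot hB
  nlinarith

end Crest.Agent.R122.LinkD331

end
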