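import Crest.Agent.R122.LNTreeDef_399
import Crest.Agent.R122.LinkR_331

/-!
# Row 122, LN1, tree instance: runs (helper399)

* `ok_sub` : every sub-world of the tree is ok.
* `runS_of_grp` : helper331's run from a group `D` of labels of the tree gives `RunS`.
-/

set_option autoImplicit false
set_option linter.unusedSectionVars false
open MeasureTheory Set Filter
open scoped Classical ENNReal Topology
open Crest.AnalysisR.Kinetic
open Crest.Agent.R122.GIV566 Crest.Agent.R122.VL581 Crest.Agent.R122.LN304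
open Crest.Agent.R122.LNTree410 Crest.Agent.R122.PWInst442 Crest.Agent.R122.PWGlue491
open Crest.Agent.R122.LNPart424 Crest.Agent.R122.EDefs602 Crest.Agent.R122.TreeLines335
open Crest.Agent.R122.Kin796 Crest.Agent.R122.Kin796.CTree Crest.Agent.R122.Tree674
open Crest.Agent.R122.RtG302

noncomputable section

namespace Crest.Agent.R122.LNTree399

variable {Φ : Space3 → ℝ} {ε t : ℝ} {n : ℕ} {P : CTree} {z : PhasePoint × Par P}
  {w : Config n}

theorem ok_sub (hΦ : AdmissiblePotential Φ) (hε : 0 < ε) (ht : 0 ≤ t)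
    (hV : Valid Φ ε P t z.1.2 z.2) (hS : Sep Φ ε P t z.1 z.2) {D : Finset (Fin n ⊕ Idx P)}
    (hD : D ⊆ pT n P) (s : ℝ) : (Mt Φ t ε n P).ok D s (Zt Φ ε w z) := by
  rw [LNBridge968.ok_iff_of_births_nonpos (fun i hi => ?_) (fun i hi h => ?_)]
  · intro _ i hi j hj hij
    obtain ⟨i, rfl⟩ := mem_pT.1 (hD hi)
    obtain ⟨j, rfl⟩ := mem_pT.1 (hD hj)
    exact PathFlow968.Sep.zero hε.le ht hV.2 hS fun h => hij (by rw [h])
  · obtain ⟨i, rfl⟩ := mem_pT.1 (hD hi)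
    exact le_rfl
  · have h1 : (none : Option (Fin n ⊕ Idx P)) = some _ := h
    exact absurd h1 (by simp)

/-- **Runs from a group of labels of the tree.** -/
theorem runS_of_grp (hΦ : AdmissiblePotential Φ) (hε : 0 < ε) (ht : 0 ≤ t)
    (hV : Valid Φ ε P t z.1.2 z.2) (hS : Sep Φ ε P t z.1 z.2) {K L : ℕ}
    {D : Finset (Fin n ⊕ Idx P)} (hD : D ⊆ pT n P) {a : Fin n ⊕ Idx P} (ha : a ∈ D)
    (h : ∀ (G : Type) [Fintype G] (W : MW G) (f : G ↪ Fin n ⊕ Idx P) (x : G),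
      LinkD331.Grp (Mt Φ t ε n P) (Zt Φ ε w z) W f D → f x = a →
        LinkM547.Run Φ ε t K L W x w) : RunS Φ t K L ε z w := by
  set D' : Finset (Idx P) := Finset.univ.filter fun x => (Sum.inr x : Fin n ⊕ Idx P) ∈ D with hD'
  obtain ⟨b, rfl⟩ := mem_pT.1 (hD ha)
  have hb : b ∈ D' := Finset.mem_filter.2 ⟨Finset.mem_univ _, ha⟩
  refine ⟨D', ⟨b, hb⟩, h D' (sT Φ ε z D') ⟨fun x => Sum.inr x.1, fun x y hxy =>
    Subtype.ext (Sum.inr_injective hxy)⟩ ⟨b, hb⟩ ?_ rfl⟩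
  refine ⟨fun x => rfl, fun x => rfl, fun x h => ?_, fun j => ⟨fun hj => ?_, ?_⟩,
    ok_sub hΦ hε ht hV hS hD _⟩
  · have h1 : (none : Option (Fin n ⊕ Idx P)) = some _ := h
    exact absurd h1 (by simp)
  · obtain ⟨y, rfl⟩ := mem_pT.1 (hD hj)
    exact ⟨⟨y, Finset.mem_filter.2 ⟨Finset.mem_univ _, hj⟩⟩, rfl⟩
  · rintro ⟨x, rfl⟩
    exact (Finset.mem_filter.1 x.2).2

end Crest.Agent.R122.LNTree399

end
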