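import Crest.Agent.R122.LinkW_331

/-!
# Row 122, LN3-D (helper331): interface for the marked worlds

`C b` : contacts of the glued worlds, `CM b` : contacts of the marked worlds on the labels.

* `EC.mono_C`.
* `bc_eq_of_marked` : the pasts of a not influenced gas particle in the two glued worlds.
* `chain_or_long` : an influenced label is the end of a short entry chain, or there is a long one.
* `run_of_ecm` : a chain with `m + 2` members over the marked worlds gives a run with `m` steps.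
-/

set_option autoImplicit false
set_option linter.unusedSectionVars false

open MeasureTheory Set Filter Topology
open scoped ENNReal NNReal Classical
open Crest.AnalysisR.Kinetic
open Crest.Agent.R122.Flow671 Crest.Agent.R122.Loc45 Crest.Agent.R122.Ins45
open Crest.Agent.R122.EDefs602 Crest.Agent.R122.LinkM547
open Crest.Agent.R122.VL581 Crest.Agent.R122.VL581.VSys Crest.Agent.R122.VLInst442
open Crest.Agent.R122.LNg410 Crest.Agent.R122.LN304
open Crest.Agent.R122.Causal291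

noncomputable section

namespace Crest.Agent.R122.LinkD331

section abstract

variable {J : Type} {C CM : Bool → ℝ → J → J → Prop} {T : ℝ}

theorem EC.mono_C {F : ℝ → J → Prop} {a : J} {L : List J} {s : ℝ} (h : EC CM F a L s)
    (hC : ∀ b s j k, j ≠ k → CM b s j k → C b s j k) : EC C F a L s := by
  induction h with
  | root => exact .root
  | @cons l k ps s s' b h hs hk hc hn ih =>
    exact .cons ih hs hk (hC b s' l k (fun h' => hk (h' ▸ List.mem_cons_self)) hc) hn

theorem past_mono_C {C C' : ℝ → J → J → Prop} {t : ℝ} {i : J}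
    (hC : ∀ s j k, j ≠ k → C s j k → C' s j k) {s : ℝ} {k : J} (h : Past C t i s k) :
    Past C' t i s k := by
  induction h with
  | root hs => exact .root hs
  | @step s s' j k hp hc hs ih =>
    by_cases hjk : j = k
    · subst hjk
      exact ih.mono hs
    · exact .step ih (hC s' j k hjk hc) hs

/-- **Pasts of a not influenced gas particle** in the two glued worlds. -/
theorem bc_eq_of_marked {U : Set J} (hCM : ∀ b s j k, j ≠ k → CM b s j k → C b s j k)
    (hgg : ∀ b s j k, j ≠ k → j ∉ U → C b s j k → CM b s j k) {b : Bool} {r : ℝ} {k : J}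
    (hM : BC (CM (!b)) r k = BC (CM b) r k) (hU : ∀ x ∈ BC (C b) r k, x ∉ U) :
    BC (C (!b)) r k = BC (C b) r k := by
  have h1 : ∀ b, BC (CM b) r k ⊆ BC (C b) r k := fun b x hx => past_mono_C (hCM b) hx
  have h2 : ∀ b, (∀ x ∈ BC (CM b) r k, x ∉ U) → BC (C b) r k ⊆ BC (CM b) r k := by
    intro b hb x hx
    have key : ∀ (s : ℝ) (y : J), Past (C b) r k s y → 0 ≤ s → Past (CM b) r k s y := by
      intro s y hy
      induction hy with
      | root hs => exact fun _ => .root hs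
      | @step s s' j l hp hc hs ih =>
        intro h0
        have h3 := ih (h0.trans hs)
        by_cases hjl : j = l
        · subst hjl
          exact h3.mono hs
        · exact .step h3 (hgg b s' j l hjl (hb j (h3.mono (h0.trans hs))) hc) hs
    exact key 0 x hx le_rfl
  have h3 : BC (C b) r k = BC (CM b) r k :=
    Subset.antisymm (h2 b fun x hx => hU x (h1 b hx)) (h1 b)
  have h4 : BC (C (!b)) r k = BC (CM (!b)) r k :=
    Subset.antisymm (h2 (!b) fun x hx => hU x (h1 b (hM ▸ hx))) (h1 (!b))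
  rw [h4, hM, h3]

/-- An influenced label is the end of a short entry chain, or there is a long entry chain. -/
theorem chain_or_long [Finite J] {a : J}
    (hclosed : ∀ b j k, j ≠ k → IsClosed {s | s ∈ Icc 0 T ∧ CM b s j k})
    (hpos : ∀ b s j k, CM b s j k → j ≠ k → 0 < s) {u : ℝ} (hu : u ≤ T) {k : J} (hk : k ≠ a)
    (h : FJ CM {a} u k) (m : ℕ) :
    (∃ tl s, EC CM (FJ CM {a}) a (k :: tl) s ∧ s ≤ u ∧ (k :: tl).length ≤ m + 1) ∨
      ∃ L s, EC CM (FJ CM {a}) a L s ∧ s ≤ u ∧ L.length = m + 2 := by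
  obtain ⟨tl, s, h1, h2⟩ := exists_ec (a := a) hclosed hpos
    (fun b s x k _ hx _ => by rw [mem_singleton_iff] at hx; exact hx) (mem_singleton a) h
    (by rw [mem_singleton_iff]; exact hk) hu
  rcases Nat.lt_or_ge (m + 1) (k :: tl).length with h3 | h3
  · obtain ⟨L', s', h4, h5, h6, _⟩ := h1.drop (m := m + 1) (by omega)
    exact Or.inr ⟨L', s', h4, h5.trans h2, h6⟩
  · exact Or.inl ⟨tl, s, h1, h2, h3⟩

end abstract

variable {J κ : Type} [Fintype J] {M : VSys J κ} {c ℓ ς : ℝ} {Z : J → PhasePoint}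
  {X : Bool → ℝ → J → PhasePoint} {C CM : Bool → ℝ → J → J → Prop} {Λ : Finset (Finset J)} {N : ℕ}
  {π : Finset J} {a : J}

/-- **Run from an entry chain over the marked worlds.** -/
theorem run_of_ecm [Nonempty κ] (hΦ : AdmissiblePotential M.Φ) (hε : 0 < M.ε) (hc : 1 ≤ c)
    (hℓ : 2 * ℓ ≤ ς) (hRW : ∀ b, RW M Z (X b) (C b)) (hP : Parts M c Z Λ)
    (hNB : NoBad M c ℓ ς Z Λ N) (hN2 : NoTwo M c Z Λ N)
    (hBH : ∀ b, ¬ BadHit M c Z (X b) (C b) Λ N) (hπ : π ∈ Λ) (ha : a ∈ π)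
    (hPS : ∀ p d g s s', p ∈ π → d ∈ π → p ≠ d → g ∉ π → 0 ≤ s' → s' ≤ s → s ≤ M.T →
      C true s p d → C true s' d g → s' = s ∨ ∃ F : J → J → Prop, (CutConn π F ∧ ∀ i ∈ π,
        ∀ j ∈ π, i ≠ j → F i j → ∃ t ∈ Icc 0 M.T, M.VCt c π i j t Z) ∧
        (F p d ∨ F d p → ∃ s0 ∈ Icc 0 s', M.VCt c π p d s0 Z))
    (hCM : ∀ b s j k, j ≠ k → CM b s j k → C b s j k)
    (hgg : ∀ b s j k, j ≠ k → j ∉ uni Λ → C b s j k → CM b s j k)
    (hsM : ∀ b s j k, CM b s j k → CM b s k j)
    (haM : ∀ s k, k ≠ a → ¬ CM false s a k)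
    {v : ℝ} (hv : v ∈ Ioc 0 M.T)
    (hunM : ∀ b r k, 0 ≤ r → r < v → k ∉ uni Λ → ¬ FJ CM {a} r k →
      BC (CM (!b)) r k = BC (CM b) r k)
    {n : ℕ} {g : Fin n ↪ J} {w : Config n} (hw : ∀ i, w i = Z (g i)) (hgb : ∀ i, M.b (g i) = 0)
    (hgo : ∀ i, M.o ≠ some (g i)) (hgas : ∀ i, i ∉ uni Λ → i ∈ range g)
    {K : ℕ} {L : List J} {s : ℝ} (h : EC CM (FJ CM {a}) a L s) (hs : s ≤ v)
    (hL : ∀ x ∈ L, x ≠ a → x ∉ uni Λ)
    (hK : ∀ x ∈ L, ∀ b, (x = a → b = true) → (preF (C b) x v \ uni Λ).card ≤ K)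
    (hN : (uni Λ).card + 2 * K * (L.length + 2) ≤ N) {m : ℕ} (hm : L.length = m + 2) :
    ∃ D : Finset J, D ⊆ π ∧ a ∈ D ∧ ∀ (G : Type) [Fintype G] (W : MW G) (f : G ↪ J) (x : G),
      Grp M Z W f D → f x = a → Run M.Φ M.ε M.T K m W x w := by
  have haU : a ∈ uni Λ := mem_uni.2 ⟨π, hπ, ha⟩
  refine run_of_chain (F := FJ CM {a}) hΦ hε hc hℓ hRW hP hNB hN2 hBH hπ ha hPS ?_
    (fun r r' k h1 h2 => h1.mono h2) (.base (mem_singleton a)) ?_ hv ?_ hw hgb hgo hgas
    (h.mono_C hCM) hs hL hK hN hm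
  · intro s k hc'
    by_contra hk
    have hka : k ≠ a := fun h' => hk (h' ▸ haU)
    exact haM s k hka (hsM _ _ _ _ (hgg false s k a hka hk ((hRW false).symm _ _ _ hc')))
  · intro b r j k hc' hF hj hk
    by_cases hjk : j = k
    · rw [← hjk]; exact hF
    · exact hF.con (hsM _ _ _ _ (hgg b r k j (Ne.symm hjk) hk ((hRW b).symm _ _ _ hc')))
  · intro b r k h1 h2 h3 h4 h5
    exact bc_eq_of_marked (U := {x | x ∈ uni Λ}) hCM
      (fun b s j k hjk hj hc' => hgg b s j k hjk hj hc') (hunM b r k h1 h2 h3 h4) h5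

end Crest.Agent.R122.LinkD331

end
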