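import Crest.Agent.R122.LNTreeFam_370
import Crest.Agent.R122.LNTreeRun_399
import Crest.Agent.R122.LNTreeHitA_399
import Crest.Agent.R122.LNReachAll_818
import Crest.Agent.R122.PWPast_365
import Crest.Agent.R122.LinkX_331

/-!
# Row 122, LN1, tree instance: reachability (helper399)

Base world `cfg w`, inserted line `x` of the tree (root or exit).

* `cleanB_cfg`, `cleanB_ins` : clean births.
* `Xb`, `Cb` : the two glued worlds; `twoW`, `bindW` : helper818's structures.
-/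

set_option autoImplicit false
set_option linter.unusedSectionVars false
open MeasureTheory Set Filter
open scoped Classical ENNReal Topology
open Crest.AnalysisR.Kinetic
open Crest.Agent.R122.GIV566 Crest.Agent.R122.VL581 Crest.Agent.R122.LN304
open Crest.Agent.R122.LNTree410 Crest.Agent.R122.PWInst442 Crest.Agent.R122.PWGlue491
open Crest.Agent.R122.LNPart424 Crest.Agent.R122.EDefs602 Crest.Agent.R122.TreeLines335
open Crest.Agent.R122.Kin796 Crest.Agent.R122.Kin796.CTree Crest.Agent.R122.Tree674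
open Crest.Agent.R122.RtG302 Crest.Agent.R122.LNEv818 Crest.Agent.R122.LinkD331
open Crest.Agent.R122.PW365 Crest.Agent.R122.LNTreeFam370 Crest.Agent.R122.VLInst442
open Crest.Agent.R122.Causal291

noncomputable section

namespace Crest.Agent.R122.LNTree399

variable {Φ : Space3 → ℝ} {ε t c ℓ ς u₀ : ℝ} {n N K : ℕ} {P : CTree} {z : PhasePoint × Par P}
  {w : Config n} {x : Idx P}

/-- Paths of the two glued worlds: gas; gas and the line `x`. -/
def Xb (Φ : Space3 → ℝ) (t ε : ℝ) {n : ℕ} {P : CTree} (z : PhasePoint × Par P) (w : Config n)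
    (x : Idx P) : Bool → ℝ → Fin n ⊕ Idx P → PhasePoint
  | false => Xg Φ t ε z w (MW.cfg w) (eG n P)
  | true => Xg Φ t ε z w ((MW.cfg w).ins (lineML Φ ε P z x)) (eX n P x)

/-- Contacts of the two glued worlds. -/
def Cb (Φ : Space3 → ℝ) (t ε : ℝ) {n : ℕ} {P : CTree} (z : PhasePoint × Par P) (w : Config n)
    (x : Idx P) : Bool → ℝ → Fin n ⊕ Idx P → Fin n ⊕ Idx P → Prop
  | false => Cg Φ t ε z w (MW.cfg w) (eG n P)
  | true => Cg Φ t ε z w ((MW.cfg w).ins (lineML Φ ε P z x)) (eX n P x)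

theorem Sp_sub_uni (j : Fin n ⊕ Idx P) : Sp (fun _ : Unit => eT n P) j ⊆ uni (Lt n P) := by
  rw [uni_Lt]
  by_cases hj : j ∈ pT n P
  · rw [sp_of_mem hj]
  · rw [Sp_empty fun _ => hj]
    exact Finset.empty_subset _

theorem not_mem_labs_eG (y : Idx P) : (Sum.inr y : Fin n ⊕ Idx P) ∉ labs (eG n P) := by
  rw [mem_labs]
  rintro ⟨i, hi⟩
  cases hi

theorem eq_of_mem_labs_eX {y : Idx P} (h : (Sum.inr y : Fin n ⊕ Idx P) ∈ labs (eX n P x)) :
    y = x := by
  rw [mem_labs] at h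
  obtain ⟨i, hi⟩ := h
  rcases i with i | i
  · cases hi
  · exact (Sum.inr_injective hi).symm

theorem bD_cfg (i : Fin n) : bD (MW.cfg w) (eG n P) (Sum.inl i) = 0 :=
  bD_apply (W := MW.cfg w) (f := eG n P) i

theorem bD_ins_inl (i : Fin n) :
    bD ((MW.cfg w).ins (lineML Φ ε P z x)) (eX n P x) (Sum.inl i) = 0 :=
  bD_apply (W := (MW.cfg w).ins (lineML Φ ε P z x)) (f := eX n P x) (Sum.inl i)

theorem cleanB_cfg {u : ℝ} (H : GD (Mt Φ t ε n P) (Zt Φ ε w z) (Sp fun _ : Unit => eT n P)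
    (bD (MW.cfg w) (eG n P)) (labs (eG n P)) (XD (MW.cfg w) (eG n P) Φ ε)) :
    CleanB (Mt Φ t ε n P) (Zt Φ ε w z) (Sp fun _ : Unit => eT n P)
      (bD (MW.cfg w) (eG n P)) (labs (eG n P)) (XD (MW.cfg w) (eG n P) Φ ε) u := by
  refine cleanB_of H ?_ ?_
  · rintro (y | y) hy _ e he heS
    · rw [Sp_inl] at heS
      exact absurd heS (Finset.notMem_empty _)
    · exact absurd hy (not_mem_labs_eG y)
  · rintro (y | y) hy hne
    · rw [Sp_inl] at hne
      exact absurd hne Finset.not_nonempty_empty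
    · exact absurd hy (not_mem_labs_eG y)

theorem cleanB_ins {u : ℝ} (H : GD (Mt Φ t ε n P) (Zt Φ ε w z) (Sp fun _ : Unit => eT n P)
    (bD ((MW.cfg w).ins (lineML Φ ε P z x)) (eX n P x)) (labs (eX n P x))
    (XD ((MW.cfg w).ins (lineML Φ ε P z x)) (eX n P x) Φ ε)) :
    CleanB (Mt Φ t ε n P) (Zt Φ ε w z) (Sp fun _ : Unit => eT n P)
      (bD ((MW.cfg w).ins (lineML Φ ε P z x)) (eX n P x)) (labs (eX n P x))
      (XD ((MW.cfg w).ins (lineML Φ ε P z x)) (eX n P x) Φ ε) u := by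
  refine cleanB_of H ?_ ?_
  · rintro (y | y) hy _ e he heS
    · rw [Sp_inl] at heS
      exact absurd heS (Finset.notMem_empty _)
    · intro hne
      rw [sp_of_mem (inr_mem y)] at heS
      obtain ⟨e', rfl⟩ := mem_pT.1 heS
      exact absurd (by rw [eq_of_mem_labs_eX hy, eq_of_mem_labs_eX he]) hne
  · rintro (y | y) hy hne _ hpos j hj hij hb hjS
    · rw [Sp_inl] at hne
      exact absurd hne Finset.not_nonempty_empty
    · rcases j with j | j
      · rw [bD_ins_inl] at hb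
        exact absurd hb hpos.ne'
      · rw [sp_of_mem (inr_mem y)] at hjS
        exact absurd (inr_mem j) hjS

section main

variable (hΦ : AdmissiblePotential Φ) (hε : 0 < ε) (ht : 0 < t) (hc : 1 ≤ c) (hℓς : 2 * ℓ ≤ ς)
  (hV : Valid Φ ε P t z.1.2 z.2) (hS : Sep Φ ε P t z.1 z.2) (hw : w ∈ PairExcluded ε n)
  (hok : (MW.cfg w).Ok Φ ε) (hokx : ((MW.cfg w).ins (lineML Φ ε P z x)).Ok Φ ε)
include hΦ hε ht hc hℓς hV hS hw hok hokx

/-- **Two real worlds over one master system.** -/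
theorem twoW (hNB : NoBad (Mt Φ t ε n P) c ℓ ς (Zt Φ ε w z) (Lt n P) N)
    (h0 : ¬ HitW Φ t c ε N z w (MW.cfg w) (eG n P))
    (h1 : ¬ HitW Φ t c ε N z w ((MW.cfg w).ins (lineML Φ ε P z x)) (eX n P x)) :
    TwoW (Mt Φ t ε n P) c ℓ ς (Zt Φ ε w z) (Xb Φ t ε z w x) (Cb Φ t ε z w x)
      (cmL (Mt Φ t ε n P) (MW.cfg w) (lineML Φ ε P z x) Sum.inl (Sum.inr x))
      (fjL (Mt Φ t ε n P) (MW.cfg w) (lineML Φ ε P z x) Sum.inl (Sum.inr x))
      (Lt n P) (pT n P) (Sum.inr x) N where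
  hΦ := hΦ
  hε := hε
  hc := hc
  hℓς := hℓς
  rw b := by
    cases b
    · exact ((glue_cfg hV hS hok).gd hΦ hε ht).rw hΦ hε ht.le
    · exact ((glue_ins hV hS x hokx).gd hΦ hε ht).rw hΦ hε ht.le
  parts := parts hΦ hε hc hV hS hw
  noBad := hNB
  noTwo := noTwo N
  noHit b := by
    cases b
    · exact h0
    · exact h1
  hπ := mem_Lt.2 rfl
  ha := inr_mem x
  partS b := by
    cases b
    · exact partS_cfg hΦ hε ht hV hS hc hok
    · exact partS_ins hΦ hε ht hV hS hc x hokx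
  sub b s j k _ h := by
    cases b
    · exact LNPartS291.cg_of_cl ((glue_cfg hV hS hok).gd hΦ hε ht) h
    · exact LNPartS291.cg_of_cl ((glue_ins hV hS x hokx).gd hΦ hε ht) h
  exit b d v hd hda hv _ h := by
    cases b
    · exact partD_cfg hΦ hε ht hV hS hc hok _ (inr_mem x) d v hd hda hv h
    · exact partD_ins hΦ hε ht hV hS hc x hokx d v hd hda hv h
  obs h := by
    have h1 : (none : Option (Fin n ⊕ Idx P)) = some _ := h
    exact absurd h1 (by simp)
  out s k h := by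
    obtain ⟨i, j, _, hi, _⟩ := h
    cases hi

omit hℓς hw hc in
/-- **The marked worlds in the real worlds.** -/
theorem bindW (hu : u₀ ≤ t) :
    BindW (Mt Φ t ε n P) (Xb Φ t ε z w x) (Cb Φ t ε z w x) (Lt n P) (MW.cfg w)
      (lineML Φ ε P z x) Sum.inl (Sum.inr x) K u₀ where
  inj := (eX n P x).injective
  nonneg y := by
    rcases y with y | y
    · exact le_rfl
    · exact rel_nonneg hε.le hV.2 x
  ok := hok
  okA := hokx
  le := hu
  path0 s _ k _ := GDMW.xg_eq ((glue_cfg hV hS hok).gd hΦ hε ht) (i := k) fun h => by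
    have h1 : Sp (fun _ : Unit => eT n P) (eG n P k) = ∅ := Sp_inl k
    rw [h1] at h
    exact absurd h Finset.not_nonempty_empty
  path1 s _ y hy := GDMW.xg_eq ((glue_ins hV hS x hokx).gd hΦ hε ht) (i := y) fun _ => hy
  size0 v _ k h := card_preF_le ((glue_cfg hV hS hok).gd hΦ hε ht)
    (cleanB_cfg ((glue_cfg hV hS hok).gd hΦ hε ht)) (le_refl v) Sp_sub_uni (fun k _ => le_rfl) h
  size1 v _ y h := card_preF_le ((glue_ins hV hS x hokx).gd hΦ hε ht)
    (cleanB_ins ((glue_ins hV hS x hokx).gd hΦ hε ht)) (le_refl v) Sp_sub_uni (fun k hk => by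
      rcases k with k | k
      · exact le_rfl
      · exact absurd (by rw [uni_Lt]; exact inr_mem x) hk) h

/-! ### Runs -/

omit hc hℓς hw in
/-- The pasts in the marked worlds of a gas particle which is not influenced. -/
theorem bc_eq_of_not_fj {r : ℝ} (hr : 0 ≤ r) {i : Fin n}
    (h : ¬ fjL (Mt Φ t ε n P) (MW.cfg w) (lineML Φ ε P z x) Sum.inl (Sum.inr x) r (Sum.inl i)) :
    BC (cmL (Mt Φ t ε n P) (MW.cfg w) (lineML Φ ε P z x) Sum.inl (Sum.inr x) true) r
        (Sum.inl i) =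
      BC (cmL (Mt Φ t ε n P) (MW.cfg w) (lineML Φ ε P z x) Sum.inl (Sum.inr x) false) r
        (Sum.inl i) := by
  have hfut : ¬ (MW.cfg w).Fut Φ ε (MW.line (lineML Φ ε P z x)) r i := by
    intro hf
    refine h ?_
    have h1 := fj_of_fut (C := CM Φ ε (MW.cfg w) (MW.line (lineML Φ ε P z x))
      (Sum.inl : Fin n → Fin n ⊕ Idx P) (fun _ : Unit => Sum.inr x))
      (S := {(Sum.inr x : Fin n ⊕ Idx P)}) (f := (Sum.inl : Fin n → Fin n ⊕ Idx P))
      (g := fun _ : Unit => Sum.inr x) hΦ hε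
      (fun _ i j hij hc => ⟨i, j, hij, rfl, rfl, hc⟩) (fun _ x y hxy hc => ⟨x, y, hxy, rfl, rfl, hc⟩)
      (fun _ => rfl) hf
    exact h1
  have hh := MW.histEq_of_not_fut hΦ hε hok hokx hr hfut
  have e1 := bc_cl (Φ := Φ) (ε := ε) (W := MW.cfg w) (f := (Sum.inl : Fin n → Fin n ⊕ Idx P))
    Sum.inl_injective r i
  have e2 := bc_cl (Φ := Φ) (ε := ε) (W := (MW.cfg w).add (MW.line (lineML Φ ε P z x)))
    (f := (Sum.elim Sum.inl (fun _ : Unit => Sum.inr x) : Fin n ⊕ Unit → Fin n ⊕ Idx P))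
    (eX n P x).injective r (Sum.inl i)
  change BC (CL Φ ε (MW.cfg w) Sum.inl) r (Sum.inl i) = _ at e1
  change BC (CL Φ ε ((MW.cfg w).add (MW.line (lineML Φ ε P z x)))
    (Sum.elim Sum.inl (fun _ : Unit => Sum.inr x))) r (Sum.inl i) = _ at e2
  change BC (CL Φ ε ((MW.cfg w).add (MW.line (lineML Φ ε P z x)))
    (Sum.elim Sum.inl (fun _ : Unit => Sum.inr x))) r (Sum.inl i) =
      BC (CL Φ ε (MW.cfg w) Sum.inl) r (Sum.inl i)
  rw [e1, e2]
  ext j
  constructor
  · rintro ⟨y, hy, rfl⟩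
    obtain ⟨k, rfl⟩ := hh.sub₂ 0 y le_rfl hy
    exact ⟨k, (hh.iff 0 k le_rfl).2 hy, rfl⟩
  · rintro ⟨k, hk, rfl⟩
    exact ⟨Sum.inl k, (hh.iff 0 k le_rfl).1 hk, rfl⟩

omit hc hℓς hw hokx in
/-- In the world of the gas, the tree has no contact with the gas. -/
theorem preF_false_sub (v : ℝ) : preF (Cb Φ t ε z w x false) (Sum.inr x) v ⊆ uni (Lt n P) := by
  have H := (glue_cfg hV hS hok).gd hΦ hε ht
  intro k hk
  rw [uni_Lt]
  rw [LNW291.mem_preF] at hk
  obtain ⟨s, hs, hk⟩ := hk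
  have key : ∀ (r : ℝ) (j : Fin n ⊕ Idx P), Past (Cb Φ t ε z w x false) s (Sum.inr x) r j →
      j ∈ pT n P := by
    intro r j hj
    induction hj with
    | root _ => exact inr_mem x
    | @step r r' j k hp hc' hr ih =>
      by_contra hk'
      rcases k with k | k
      · have h2 := H.cG_symm hc'
        have h3 := GDMW.part_of_cg H (i := k) (k := j) (fun hj => by
          obtain ⟨y, rfl⟩ := mem_pT.1 ih
          exact not_mem_labs_eG y hj) h2
        have h4 : Sp (fun _ : Unit => eT n P) (eG n P k) = ∅ := Sp_inl k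
        rw [h4] at h3
        exact absurd h3.1 (Finset.notMem_empty _)
      · exact hk' (inr_mem k)
  exact key _ _ hk

omit hc hℓς hw in
/-- Contacts of a gas particle in the glued worlds are contacts in the marked worlds. -/
theorem gas_contact (b : Bool) (s : ℝ) {j k : Fin n ⊕ Idx P} (hjk : j ≠ k)
    (hj : j ∉ uni (Lt n P)) (h : Cb Φ t ε z w x b s j k) :
    cmL (Mt Φ t ε n P) (MW.cfg w) (lineML Φ ε P z x) Sum.inl (Sum.inr x) b s j k := by
  rw [uni_Lt] at hj
  rcases j with j | j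
  swap
  · exact absurd (inr_mem j) hj
  cases b
  · have H := (glue_cfg hV hS hok).gd hΦ hε ht
    have hs : 0 < s := by
      obtain ⟨_, _, _, _, h1, _⟩ := (H.rw hΦ hε ht.le).geo s (Sum.inl j) k hjk h
      rcases h1 with h1 | h1
      · exact (bb_nonneg _ _).trans_lt h1
      · exact (bb_nonneg _ _).trans_lt h1
    rcases k with k | k
    · have h2 := GDMW.C_of_cg_gas H (i := j) (j := k) (Sp_inl k) (Or.inr (Or.inl hs)) h
      exact ⟨j, k, fun h3 => hjk (by rw [h3]), rfl, rfl, h2⟩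
    · have h3 := GDMW.part_of_cg H (i := j) (k := Sum.inr k) (not_mem_labs_eG k) h
      have h4 : Sp (fun _ : Unit => eT n P) (eG n P j) = ∅ := Sp_inl j
      rw [h4] at h3
      exact absurd h3.1 (Finset.notMem_empty _)
  · have H := (glue_ins hV hS x hokx).gd hΦ hε ht
    have hs : 0 < s := by
      obtain ⟨_, _, _, _, h1, _⟩ := (H.rw hΦ hε ht.le).geo s (Sum.inl j) k hjk h
      rcases h1 with h1 | h1
      · exact (bb_nonneg _ _).trans_lt h1
      · exact (bb_nonneg _ _).trans_lt h1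
    have key : ∀ y : Fin n ⊕ Unit, Sum.inl j ≠ y → eX n P x y = k →
        cmL (Mt Φ t ε n P) (MW.cfg w) (lineML Φ ε P z x) Sum.inl (Sum.inr x) true s
          (Sum.inl j) k := by
      intro y hy hyk
      subst hyk
      have h5 := GDMW.C_of_cg_gas H (i := y) (j := Sum.inl j) (Sp_inl j) (Or.inr (Or.inr hs))
        (H.cG_symm h)
      exact ⟨Sum.inl j, y, hy, rfl, rfl, MW.C_symm _ h5⟩
    rcases k with k | k
    · exact key (Sum.inl k) (fun h3 => hjk (congrArg Sum.inl (Sum.inl_injective h3))) rfl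
    · by_cases hkx : k = x
      · subst hkx
        exact key (Sum.inr ()) (by simp) rfl
      · have h3 := GDMW.part_of_cg H (i := Sum.inl j) (k := Sum.inr k)
          (fun h' => hkx (eq_of_mem_labs_eX h')) h
        have h4 : Sp (fun _ : Unit => eT n P) (eX n P x (Sum.inl j)) = ∅ := Sp_inl j
        rw [h4] at h3
        exact absurd h3.1 (Finset.notMem_empty _)

/-- **Long entry chains which end before the touch time give runs.** -/
theorem runS_of_long (hNB : NoBad (Mt Φ t ε n P) c ℓ ς (Zt Φ ε w z) (Lt n P) N)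
    (h0 : ¬ HitW Φ t c ε N z w (MW.cfg w) (eG n P))
    (h1 : ¬ HitW Φ t c ε N z w ((MW.cfg w).ins (lineML Φ ε P z x)) (eX n P x))
    (hu : u₀ ≤ t) {m : ℕ} (hN : (uni (Lt n P)).card + 2 * K * (m + 4) ≤ N)
    {L' : List (Fin n ⊕ Idx P)} {s : ℝ}
    (hL : EC (cmL (Mt Φ t ε n P) (MW.cfg w) (lineML Φ ε P z x) Sum.inl (Sum.inr x))
      (fjL (Mt Φ t ε n P) (MW.cfg w) (lineML Φ ε P z x) Sum.inl (Sum.inr x)) (Sum.inr x) L' s)
    (hsθ : s < (MW.cfg w).thetaL Φ ε K u₀ (lineML Φ ε P z x)) (hsu : s < u₀)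
    (hlen : m + 2 ≤ L'.length) : RunS Φ t K m ε z w := by
  have H := twoW hΦ hε ht hc hℓς hV hS hw hok hokx hNB h0 h1
  have B := bindW (K := K) hΦ hε ht hV hS hok hokx hu
  obtain ⟨L, s', hL1, hs', hm, -⟩ := hL.drop (m := m + 1) hlen
  set u : ℝ := min ((MW.cfg w).thetaL Φ ε K u₀ (lineML Φ ε P z x)) u₀ with hu'
  have hsu' : s' < u := hs'.trans_lt (lt_min hsθ hsu)
  have hs0 : 0 ≤ s' := hL1.nonneg
  set v : ℝ := (s' + u) / 2 with hv
  have hsv : s' < v := by rw [hv]; linarith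
  have hvu : v < u := by rw [hv]; linarith
  have huu : u ≤ u₀ := min_le_right _ _
  have hmem : ∀ y ∈ L, fjL (Mt Φ t ε n P) (MW.cfg w) (lineML Φ ε P z x) Sum.inl (Sum.inr x)
      s' y := fun y hy => hL1.fj (Set.mem_singleton _) hy
  suffices hex : ∃ D : Finset (Fin n ⊕ Idx P), D ⊆ pT n P ∧ Sum.inr x ∈ D ∧
      ∀ (G : Type) [Fintype G] (W : MW G) (f : G ↪ Fin n ⊕ Idx P) (y : G),
        LinkD331.Grp (Mt Φ t ε n P) (Zt Φ ε w z) W f D → f y = Sum.inr x →
          LinkM547.Run Φ ε t K m W y w by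
    obtain ⟨D, hDπ, haD, hrun⟩ := hex
    exact runS_of_grp hΦ hε ht.le hV hS hDπ haD hrun
  refine run_of_ecm (M := Mt Φ t ε n P) (C := Cb Φ t ε z w x)
    (CM := cmL (Mt Φ t ε n P) (MW.cfg w) (lineML Φ ε P z x) Sum.inl (Sum.inr x))
    (X := Xb Φ t ε z w x) (π := pT n P) (a := Sum.inr x) (N := N) (v := v) (K := K) (m := m)
    (g := eG n P) (w := w) (L := L) (s := s')
    hΦ hε hc hℓς H.rw H.parts H.noBad H.noTwo H.noHit H.hπ H.ha (H.partS true) H.sub
    (fun b s j k hjk hj h => gas_contact hΦ hε ht hV hS hok hokx b s hjk hj h)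
    (fun b s j k h => cm_symm h) (fun s k _ => H.out s k)
    ⟨hs0.trans_lt hsv, (hvu.le.trans huu).trans hu⟩ ?_ (fun i => rfl) (fun i => rfl)
    (fun i h => ?_) (fun i hi => ?_) hL1 hsv.le (fun y hy hya => ?_) (fun y hy b hb => ?_)
    (by rw [hm]; exact hN) hm
  · intro b r k hr _ hk hF
    rw [uni_Lt] at hk
    rcases k with k | k
    · have h2 := bc_eq_of_not_fj hΦ hε ht hV hS hok hokx hr hF
      cases b
      · exact h2
      · exact h2.symm
    · exact absurd (inr_mem k) hk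
  · have h2 : (none : Option (Fin n ⊕ Idx P)) = some _ := h
    exact absurd h2 (by simp)
  · rw [uni_Lt] at hi
    rcases i with i | i
    · exact ⟨i, rfl⟩
    · exact absurd (inr_mem i) hi
  · obtain ⟨y', rfl⟩ := B.exists_of_fj (hmem y hy)
    rcases y' with i | i
    · rw [uni_Lt]
      exact inl_not_mem i
    · exact absurd rfl hya
  · obtain ⟨y', rfl⟩ := B.exists_of_fj (hmem y hy)
    exact B.size_of_fj (min_le_left _ _) huu hsu' (hmem _ hy) ⟨hs0.trans hsv.le, hvu.le⟩ b hb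

/-- **Everything which is influenced by a line of the tree up to its touch time is reached.** -/
theorem reachAll_tree (hNB : NoBad (Mt Φ t ε n P) c ℓ ς (Zt Φ ε w z) (Lt n P) N)
    (h0 : ¬ HitW Φ t c ε N z w (MW.cfg w) (eG n P))
    (h1 : ¬ HitW Φ t c ε N z w ((MW.cfg w).ins (lineML Φ ε P z x)) (eX n P x))
    (hu : u₀ ≤ t) {m : ℕ} (hN : (uni (Lt n P)).card + 2 * K * (m + 4) ≤ N)
    (hrun : ¬ RunS Φ t K m ε z w) : RAllX Φ t c ε K N u₀ z w x := by
  have H := twoW hΦ hε ht hc hℓς hV hS hw hok hokx hNB h0 h1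
  have B := bindW (K := K) hΦ hε ht hV hS hok hokx hu
  have h2 : 2 * K * (m + 2) ≤ 2 * K * (m + 4) := Nat.mul_le_mul_left _ (by omega)
  have h3 := reachAll_core (m := m) B H (fun L' s hL hsθ hsu => by
    by_contra hcon
    exact hrun (runS_of_long hΦ hε ht hc hℓς hV hS hw hok hokx hNB h0 h1 hu hN hL hsθ hsu
      (by omega))) (by omega)
  intro v hv hθ y hy hb
  obtain ⟨h4, h5⟩ := h3 v hv hθ y hy hb
  exact ⟨h4.mono (by omega), fun k hk => (h5 k hk).mono (by omega)⟩

end main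

/-- The excluded case `t ≤ 0`. -/
theorem reachAll_zero (hΦ : AdmissiblePotential Φ) (hε : 0 < ε) (ht : t ≤ 0)
    (hV : Valid Φ ε P t z.1.2 z.2) (hu : u₀ ≤ t) (hN : P.leaves ≤ N) :
    RAllX Φ t c ε K N u₀ z w x := by
  cases P with
  | node l r =>
    have h1 := hV.2.1
    have h2 := hV.2.2.1
    have h3 := sin_le hε.le (Φ := Φ) z.1.2 z.2.1
    linarith
  | leaf =>
    intro u hu' hθ y hy hb
    have hu0 : u = 0 := le_antisymm (hu'.2.trans (hu.trans ht)) hu'.1
    subst hu0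
    rcases y with k | y
    · exfalso
      have h1 := fj_of_ci_cm (f := (Sum.inl : Fin n → Fin n ⊕ Idx leaf))
        (g := fun _ : Unit => Sum.inr x) hΦ hε hy
      have h2 := FJ.pos (fun b s j k hc _ => cm_pos (fun y => by
        rcases y with y | y
        · exact le_rfl
        · exact le_rfl) hc) h1 (by
          rintro ⟨_, h⟩
          cases h)
      exact absurd h2 (lt_irrefl _)
    · refine ⟨?_, fun k hk => by cases hk⟩
      let _ : DecidableEq (Fin n ⊕ Idx leaf) := fun a b => Classical.propDecidable (a = b)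
      refine ⟨{Sum.inr x}, LNEv968.Grp.single (fun h => ?_) ?_, Finset.mem_singleton_self _,
        {Sum.inr x}, Finset.subset_union_right, Finset.mem_singleton_self _, ?_, ?_⟩
      · have h1 : (none : Option (Fin n ⊕ Idx leaf)) = some _ := h
        exact absurd h1 (by simp)
      · rw [Finset.insert_eq_of_mem (by rw [uni_Lt]; exact inr_mem x), uni_Lt]
        change (Finset.univ.map (eT n leaf)).card ≤ N
        rw [Finset.card_map, Finset.card_univ, card_idx]
        exact hN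
      · intro i hi ho b j hj hj' hji hbj
        rw [Finset.mem_singleton] at hi hj
        exact absurd (hj.trans hi.symm) hji
      · have h1 : ((MW.cfg w).add (MW.line (lineML Φ ε leaf z x))).path Φ ε 0 (Sum.inr y) =
            PathFlow968.fin Φ ε leaf z.1 z.2 x := by
          rw [MW.path_zero hΦ hε]
          exact back_lineML Φ ε leaf z x
        rw [h1, st_nonpos _ le_rfl, fl_zero]
        rfl

/-- **The deterministic alternative for one line of a tree.** -/
theorem ratX (hΦ : AdmissiblePotential Φ) (K K₂ : ℕ) : RATX Φ t K K₂ := by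
  intro L
  refine ⟨K + 2 * K₂ * (L + 4), ?_⟩
  intro c ε ℓ ς u₀ hc hε _ hς hu P z n w hP hV hS hw _ x hok hokx
  by_cases h1 : RunS Φ t K₂ L ε z w
  · exact Or.inl h1
  by_cases h2 : NoBad (Mt Φ t ε n P) c ℓ ς (Zt Φ ε w z) (Lt n P)
    ((K + 2 * K₂ * (L + 4)) + (K + 2 * K₂ * (L + 4)))
  swap
  · exact Or.inr (Or.inl h2)
  by_cases h3 : HitW Φ t c ε (K + 2 * K₂ * (L + 4)) z w (MW.cfg w) (eG n P)
  · exact Or.inr (Or.inr (Or.inl h3))
  by_cases h4 : HitW Φ t c ε (K + 2 * K₂ * (L + 4)) z w ((MW.cfg w).ins (lineML Φ ε P z x))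
    (eX n P x)
  · exact Or.inr (Or.inr (Or.inr (Or.inl h4)))
  refine Or.inr (Or.inr (Or.inr (Or.inr ?_)))
  have hcard : (uni (Lt n P)).card ≤ K := by
    rw [uni_Lt]
    change (Finset.univ.map (eT n P)).card ≤ K
    rw [Finset.card_map, Finset.card_univ, card_idx]
    exact hP
  by_cases ht : 0 < t
  · exact reachAll_tree hΦ hε ht hc hς hV hS hw hok hokx
      (fun Q h1 h2' h3 => h2 Q h1 h2' (h3.trans (by omega))) h3 h4 hu (by omega) h1
  · exact reachAll_zero hΦ hε (not_lt.1 ht) hV hu (hP.trans (Nat.le_add_right _ _))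

/-- **`RAT` holds.** -/
theorem rat (hΦ : AdmissiblePotential Φ) (K K₂ : ℕ) : RAT Φ t K K₂ :=
  rat_of_ratX hΦ (ratX hΦ K K₂)

/-- **`RATA` holds**, root line included. -/
theorem ratA (hΦ : AdmissiblePotential Φ) (K K₂ : ℕ) : RATA Φ t K K₂ :=
  ratA_of_ratX hΦ (ratX hΦ K K₂)

end Crest.Agent.R122.LNTree399

end
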