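import Crest.Agent.R122.AllOkTree_663
import Crest.Agent.R122.ExclNull_302
import Crest.Agent.R122.TreeGate2_302

/-!
# Row 122 (helper663): the family of all lines of a tree (root included) is good

* `ok_of_sep0` : a world with births at time `0` and separated initial data is good.
* `okFam_leaf` : the root line of a leaf, born at time `0` outside of the gas.
* `okR_of` , `nOkR` : `TNull (NOkR Φ)` (helper302's root family).
-/

set_option autoImplicit false
set_option linter.unusedSectionVars false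

open MeasureTheory Set Filter Topology
open scoped ENNReal
open Crest.AnalysisR.Kinetic
open Crest.Agent.R122.Flow671 hiding rel
open Crest.Agent.R122.Loc45 Crest.Agent.R122.Causal291 Crest.Agent.R122.Ins45
open Crest.Agent.R122.Inf879 Crest.Agent.R122.GC311 Crest.Agent.R122.EDefs602
open Crest.Agent.R122.Kin796 Crest.Agent.R122.Kin796.CTree Crest.Agent.R122.Disc416
open Crest.Agent.R122.Tree674 Crest.Agent.R122.PathFlow968 Crest.Agent.R122.TreeLines335
open Crest.Agent.R122.LNTree410 Crest.Agent.R122.TransOk151 Crest.Agent.R122.RtG302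
open Crest.Agent.R122.TreeGate2302 (NOkR)

noncomputable section

open scoped Classical

namespace Crest.Agent.R122.AllOk663

variable {Φ : Space3 → ℝ} {ε : ℝ}

/-- A world with births at time `0` and separated initial data is good. -/
theorem ok_of_sep0 (hΦ : AdmissiblePotential Φ) (hε : 0 < ε) {ι : Type} [Fintype ι] {Z : MW ι}
    (hb : ∀ i, Z.b i = 0) (hs : ∀ i j, i ≠ j → ε < dist (Z.z i).1 (Z.z j).1) : Z.Ok Φ ε := by
  have hD : Z.z ∈ Dom Φ ι := Dom_of_far hε fun i j hij => (hs i j hij).le
  refine ok_of hΦ hε (fun i => (hb i).ge)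
    (World.bworld (world_flow hΦ hε hD) fun i => (hb i).le) (Flow671.flow_zero hΦ hε Z.z) ?_
  intro i j hij _
  left
  rw [hb i, hb j]
  have e : ∀ z : PhasePoint, (lineAt 0 z 0).1 = z.1 := fun z => by simp [lineAt]
  rw [e, e]
  exact hs i j hij

/-- The root line of a leaf, born at time `0` outside of the gas. -/
theorem okFam_leaf (hΦ : AdmissiblePotential Φ) (hε : 0 < ε) {n : ℕ} {w : Config n}
    (hw : w ∈ PairExcluded ε n) (z : PhasePoint × Par leaf)
    (hp : ∀ q, ε < dist z.1.1 (w q).1) : MW.OkFam Φ ε (MW.cfg w) (lineML Φ ε leaf z) := by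
  intro S
  have e1 : ∀ x : Idx leaf, (back (lineML Φ ε leaf z x).1).1 = z.1.1 := by
    intro x
    simp [back, lineML, TreeLines335.rel, onLine, fin]
  refine ok_of_sep0 hΦ hε ?_ ?_
  · rintro (i | x)
    · rfl
    · rfl
  · rintro (i | x) (j | y) hij
    · exact hw i j fun h => hij (by rw [h])
    · show ε < dist (w i).1 (back (lineML Φ ε leaf z y).1).1
      rw [e1, dist_comm]
      exact hp i
    · show ε < dist (back (lineML Φ ε leaf z x).1).1 (w j).1
      rw [e1]
      exact hp j
    · exact absurd (congrArg Sum.inr (Subtype.ext (Subsingleton.elim (α := Unit) x.1 y.1))) hij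

/-- **The root family**: almost every valid separated tree outside of the gas. -/
theorem ae_okR (hΦ : AdmissiblePotential Φ) (hε : 0 < ε) (P : CTree) (T : ℝ) (m : ℕ) :
    ∀ᵐ q : (PhasePoint × Par P) × Config m, Valid Φ ε P T q.1.1.2 q.1.2 →
      Sep Φ ε P T q.1.1 q.1.2 → q.2 ∈ PairExcluded ε m →
      (P = leaf → ∀ i, ε < dist q.1.1.1 (q.2 i).1) →
        MW.OkFam Φ ε (MW.cfg q.2) (lineML Φ ε P q.1) := by
  by_cases hP : P = leaf
  · subst hP
    exact Eventually.of_forall fun q _ _ hw hp => okFam_leaf hΦ hε hw q.1 (hp rfl)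
  · filter_upwards [ae_okFam_tree hΦ hε P T m] with q hq hv hs hw _
    exact hq hv hs hw (Idx P) id Function.injective_id fun h => absurd h hP

/-- **Root family, null form** (helper302's `NOkR`). -/
theorem nOkR (hΦ : AdmissiblePotential Φ) {f₀ : PhasePoint → ℝ} {γ : ℝ} (hγ : 0 < γ)
    (hf : Continuous f₀) (H : HasSummableGaussianBound γ (fun x v => f₀ (x, v)))
    (h1 : ∫⁻ z, ENNReal.ofReal (f₀ z) ≤ 1) {T' : ℝ} (hT : 0 ≤ T') (K : ℕ) :
    TNull Φ f₀ T' K (NOkR Φ) := by
  refine Excl302.tNull_of_exc hΦ hγ hf H h1 hT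
    (E' := fun ε P z m w => P ≠ leaf ∧ NOkR Φ ε P z m w) ?_ ?_
  · refine OkAE302.tNull_of_ae one_pos fun ε hε _ P _ m => ?_
    filter_upwards [ae_okR hΦ hε P T' m] with q hq hv hs hw h
    exact h.2 (hq hv hs hw fun hP => absurd hP h.1)
  · intro ε P z m w hε _ _ hE h
    refine ⟨?_, h⟩
    rintro rfl
    exact h (okFam_leaf hΦ hε hE.2.1 z fun q => hE.2.2 (root leaf) q)

end Crest.Agent.R122.AllOk663

end
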