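import Crest.Agent.R122.InEq2Main_311
import Crest.Agent.R122.InEq2TPt_335

/-!
# Row 122, INEQUALITY 2' (helper311): adaptation of helper335's functionals

`FT ≤ FTg + FNG + FR` and `FL ≤ FLg`.
-/

set_option autoImplicit false

open MeasureTheory Set Filter Topology
open scoped ENNReal
open Crest.AnalysisR.Kinetic
open Crest.Agent.R122.Master566 Crest.Agent.R122.GIV566 Crest.Agent.R122.Top602
open Crest.Agent.R122.EDefs602 Crest.Agent.R122.GC311 Crest.Agent.R122.Causal291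
open Crest.Agent.R122.Kin796 Crest.Agent.R122.Kin796.CTree Crest.Agent.R122.Tree674

noncomputable section

open scoped Classical

namespace Crest.Agent.R122.InEq2

open Crest.Agent.R122.InEq2T (FTg FLg JT HisG HisP TchB)

variable {Φ : Space3 → ℝ} {f₀ : PhasePoint → ℝ} {f : ℝ → PhasePoint → ℝ} {ε : ℝ} {K : ℕ}
  {A : EPar} {T' : ℝ}

section pt

variable {k m : ℕ} {V : Config k} {w : Config m} {j : Fin k}

theorem JI.jt (h : JI Φ ε K A V w j) : JT Φ ε K A V w j := ⟨h.1, h.2.1⟩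

theorem tchB_of_not_untch (h : ¬ Untch Φ ε K A V w j) : TchB Φ ε K A V w j := by
  unfold Untch at h
  push Not at h
  obtain ⟨s, hs, ht⟩ := h
  exact ⟨s, hs, ht⟩

theorem Untch.not_tchB (h : Untch Φ ε K A V w j) : ¬ TchB Φ ε K A V w j := by
  rintro ⟨s, hs, ht⟩
  exact h s hs ht

theorem HTU.hisG (h : HTU Φ ε K A T' V w j) : HisG Φ ε K A T' V w j := by
  obtain ⟨P, ℓ, p, e, hH, hu⟩ := h
  exact ⟨P, (ℓ, p), e, hH, hu⟩

theorem HTU.hisP (h : HTU Φ ε K A T' V w j) : HisP Φ ε K A T' V w j := by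
  obtain ⟨P, ℓ, p, e, hH, -⟩ := h
  exact ⟨P, (ℓ, p), e, hH⟩

end pt

theorem FT_le_FTg (hL : 0 ≤ A.L) {k m : ℕ} (V : Config k) (w : Config m) (j : Fin k) :
    FT Φ ε K A k m V w j ≤ FTg Φ ε K A T' k m V w j + FNG Φ ε K A T' k m V w j +
      FR Φ ε K A T' k m V w j := by
  by_cases h : JI Φ ε K A V w j ∧ ¬ Untch Φ ε K A V w j
  swap
  · unfold FT
    rw [if_neg h]
    exact zero_le
  have h0 : FT Φ ε K A k m V w j = bwt ε V w * wmZ Φ ε K A V w j := if_pos h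
  have hle : bwt ε V w * wmZ Φ ε K A V w j ≤ bwt ε V w :=
    (mul_le_mul_right (wmZ_le_one hL V w j) _).trans (mul_one _).le
  rw [h0]
  by_cases hH : HT Φ ε K A T' V w j
  swap
  · have h1 : FNG Φ ε K A T' k m V w j = bwt ε V w := if_pos ⟨h.1, hH⟩
    rw [h1]
    exact hle.trans (le_add_self.trans le_self_add)
  by_cases hHU : HTU Φ ε K A T' V w j
  swap
  · have h1 : FR Φ ε K A T' k m V w j = bwt ε V w := if_pos ⟨h.1, hH, hHU⟩
    rw [h1]
    exact hle.trans le_add_self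
  have h1 : FTg Φ ε K A T' k m V w j = (activity ε)⁻¹ *
      (eW (Fin.append V w : Config (k + m)) (block k m) *
      (MW.cfg (Fin.append V w : Config (k + m))).Wm Φ ε K A
        (iTime Φ ε K A.te (Fin.append V w : Config (k + m)) (Fin.castAdd m j))) :=
    if_pos ⟨h.1.jt, tchB_of_not_untch h.2, hHU.hisG⟩
  rw [h1, add_assoc]
  refine le_trans (le_of_eq ?_) le_self_add
  unfold bwt wmZ sgm cat
  rw [mul_assoc]

theorem FL_le_FLg {k m : ℕ} (V : Config k) (w : Config m) (j : Fin k) :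
    FL Φ ε K A T' k m V w j ≤ FLg Φ ε K A T' k m V w j := by
  by_cases h : JI Φ ε K A V w j ∧ Untch Φ ε K A V w j ∧ HTU Φ ε K A T' V w j
  swap
  · unfold FL
    rw [if_neg h]
    exact zero_le
  have h0 : FL Φ ε K A T' k m V w j =
      bwt ε V w * (wmZ Φ ε K A V w j - wmw Φ ε K A V w j) := if_pos h
  have h1 : FLg Φ ε K A T' k m V w j = (activity ε)⁻¹ *
      (eW (Fin.append V w : Config (k + m)) (block k m) *
      ((MW.cfg (Fin.append V w : Config (k + m))).Wm Φ ε K A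
        (iTime Φ ε K A.te (Fin.append V w : Config (k + m)) (Fin.castAdd m j)) -
      (MW.cfg w).Wm Φ ε K A
        (iTime Φ ε K A.te (Fin.append V w : Config (k + m)) (Fin.castAdd m j)))) :=
    if_pos ⟨h.1.jt, h.2.1.not_tchB, h.2.2.hisP⟩
  rw [h0, h1]
  refine le_of_eq ?_
  unfold bwt wmZ wmw sgm cat
  rw [mul_assoc]

theorem InB.mono {F G : Fun} {T : ℝ} {γ : ℝ → ℝ} {ρ : ℝ≥0∞} {h₀ : ℝ}
    (h : InB Φ f₀ f T γ ρ h₀ G)
    (hFG : ∀ (ε L tw te T' : ℝ) (K : ℕ), 1 ≤ L → ∀ (k m : ℕ) (V : Config k) (w : Config m)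
      (j : Fin k), F Φ ε K (epar γ ρ L tw te) T' k m V w j ≤
        G Φ ε K (epar γ ρ L tw te) T' k m V w j) :
    InB Φ f₀ f T γ ρ h₀ F := by
  obtain ⟨C, hC, o, ho, hw⟩ := h
  refine ⟨C, hC, o, ho, hw.mono fun x L tw te _ hL _ hq hIH => ?_⟩
  obtain ⟨S, hS, hb⟩ := hq hIH
  refine ⟨S, hS, hb.mono fun K ε _ hB => hB.mono fun k m V w j _ _ _ => ?_⟩
  exact hFG ε L tw te (tw + h₀) K hL k m V w j

/-- The touched part from helper335's tree form. -/
theorem inB_FT_of {T : ℝ} {γ : ℝ → ℝ} {ρ : ℝ≥0∞} {h₀ : ℝ} (hΦ : AdmissiblePotential Φ)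
    (hf : Measurable f₀) (hT : InB Φ f₀ f T γ ρ h₀ FTg) (hN : InB Φ f₀ f T γ ρ h₀ FNG)
    (hR : InB Φ f₀ f T γ ρ h₀ FR) : InB Φ f₀ f T γ ρ h₀ fun Φ ε K A _ => FT Φ ε K A :=
  InB.mono ((hT.add hΦ hf hN).add hΦ hf hR) fun _ _ _ _ _ _ hL _ _ V w j =>
    FT_le_FTg (zero_le_one.trans hL) V w j

/-- The difference of the weights from helper335's tree form. -/
theorem inB_FL_of {T : ℝ} {γ : ℝ → ℝ} {ρ : ℝ≥0∞} {h₀ : ℝ} (hL : InB Φ f₀ f T γ ρ h₀ FLg) :
    InB Φ f₀ f T γ ρ h₀ FL :=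
  InB.mono hL fun _ _ _ _ _ _ _ _ _ V w j => FL_le_FLg V w j

end Crest.Agent.R122.InEq2

end
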