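import Crest.Agent.R122.Energy3_410
import Crest.Agent.R122.Mom_974
import Crest.Agent.R122.TreeLim_974
import Crest.Agent.R122.HidMeas_424

/-!
# Row 122, INEQUALITY 2', case (B) (helper263)

A cluster which is hit by the environment **during the collision window of its top node** has a
negligible mass (`o(1)` as `ε → 0`): the window has length `ε τ`.

* `volume_meet_le` : volume of the translations `X` such that the translated world `X + Z` comes
  within `r` of the world `w` during `[a, b]`: `≤ 8 r² c₃ (r + (b - a)) totE Z totE w`.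
* `topW` : collision window of the top node.
* `TopHit` : the event (B).
* `bnull_pt`, `bnull_tree` : `gcE ∑_{P ∈ S} ∫_z 1[Valid, Sep at T] wt ∏ f₀ φ 1[TopHit] ≤ R ε → 0`, uniformly in the
  window `[tw, te]` and in the weight `φ ≤ Cφ exp (a (|v|² + nodeE))`, `a < b`.
-/

set_option autoImplicit false

open MeasureTheory Set Filter Topology
open scoped ENNReal Classical
open Crest.AnalysisR.Kinetic Crest.Agent.R122.Kin796 Crest.Agent.R122.Disc416
  Crest.Agent.R122.Tree674 Crest.Agent.R122.TreeDom974 Crest.Agent.R122.TreeLim974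
  Crest.Agent.R122.GC311 Crest.Agent.R122.Sweep815 Crest.Agent.R122.Energy410
  Crest.Agent.R122.Flow671 Crest.Agent.R122.Causal291 Crest.Agent.R122.Loc45

noncomputable section

namespace Crest.Agent.R122.InEq2B263

open CTree

variable {Φ : Space3 → ℝ}

/-! ### Two Newton worlds, one translated -/

theorem speed_sum_mul_le {ι κ : Type*} [Fintype ι] [Fintype κ] (a : ι → ℝ) (b : κ → ℝ)
    (ha : ∀ i, 0 ≤ a i) (hb : ∀ j, 0 ≤ b j) :
    ∑ i, ∑ j, (a i + b j) ≤ (∑ i, (1 + a i)) * ∑ j, (1 + b j) := by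
  rw [Finset.sum_mul_sum]
  refine Finset.sum_le_sum fun i _ => Finset.sum_le_sum fun j _ => ?_
  nlinarith [mul_nonneg (ha i) (hb j)]

theorem volume_meet_le (hΦ : AdmissiblePotential Φ) {ε : ℝ} (hε : 0 < ε) {ι κ : Type}
    [Fintype ι] [Fintype κ] {Z : ι → PhasePoint} {w : κ → PhasePoint}
    (hZ : ∀ i j, i ≠ j → ε ≤ dist (Z i).1 (Z j).1) (hw : ∀ i j, i ≠ j → ε ≤ dist (w i).1 (w j).1)
    {a b r : ℝ} (ha : 0 ≤ a) (hab : a ≤ b) (hr : 0 < r) :
    volume {X : Space3 | ∃ s ∈ Icc a b, ∃ i j,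
        dist (X + (flow Φ ε s Z i).1) (flow Φ ε s w j).1 ≤ r} ≤
      8 * ENNReal.ofReal r ^ 2 * c3 *
        ENNReal.ofReal ((r + (b - a)) * (totE Φ Z * totE Φ w)) := by
  have hZD : Z ∈ Dom Φ ι := Loc45.Dom_of_far hε hZ
  have hwD : w ∈ Dom Φ κ := Loc45.Dom_of_far hε hw
  have cZ : Continuous fun s => flow Φ ε s Z := flow_continuous_time hΦ hε Z
  have cw : Continuous fun s => flow Φ ε s w := flow_continuous_time hΦ hε w
  have dZ : ∀ i s, HasDerivAt (fun s => (flow Φ ε s Z i).1) (flow Φ ε s Z i).2 s := fun i s =>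
    ((hasDerivAt_pi.1 (flow_hasDerivAt hΦ hε hZD s)) i).fst
  have dw : ∀ j s, HasDerivAt (fun s => (flow Φ ε s w j).1) (flow Φ ε s w j).2 s := fun j s =>
    ((hasDerivAt_pi.1 (flow_hasDerivAt hΦ hε hwD s)) j).fst
  have c1 : ∀ i, Continuous fun s => flow Φ ε s Z i := fun i => (continuous_apply i).comp cZ
  have c2 : ∀ j, Continuous fun s => flow Φ ε s w j := fun j => (continuous_apply j).comp cw
  have hone : ∀ i j, volume {X : Space3 | ∃ s ∈ Icc a b,
      dist (X + (flow Φ ε s Z i).1) (flow Φ ε s w j).1 ≤ r} ≤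
      8 * ENNReal.ofReal r ^ 2 * c3 * (ENNReal.ofReal r + ∫⁻ s in Icc a b,
        ENNReal.ofReal (‖(flow Φ ε s Z i).2‖ + ‖(flow Φ ε s w j).2‖)) := by
    intro i j
    refine (volume_translate_le (a := a) (b := b) hr (γ := fun s => (flow Φ ε s Z i).1)
      (y := fun s => (flow Φ ε s w j).1) (γ' := fun s => (flow Φ ε s Z i).2)
      (y' := fun s => (flow Φ ε s w j).2) (fun s _ => dZ i s) (fun s _ => dw j s)
      (c1 i).snd (c2 j).snd (c1 i).fst (c2 j).fst).trans ?_
    have h2 : ∫⁻ u in Icc a b, ENNReal.ofReal ‖(flow Φ ε u Z i).2 - (flow Φ ε u w j).2‖ ≤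
        ∫⁻ s in Icc a b, ENNReal.ofReal (‖(flow Φ ε s Z i).2‖ + ‖(flow Φ ε s w j).2‖) :=
      lintegral_mono fun s => ENNReal.ofReal_le_ofReal (norm_sub_le _ _)
    have h3 : ENNReal.ofReal (2 * r) ^ 3 = 8 * ENNReal.ofReal r ^ 2 * ENNReal.ofReal r := by
      rw [ENNReal.ofReal_mul zero_le_two, mul_pow]
      have : ENNReal.ofReal 2 ^ 3 = 8 := by
        rw [← ENNReal.ofReal_pow zero_le_two]
        norm_num
      rw [this]
      ring
    have hr0 : ENNReal.ofReal r ≠ 0 := by simpa using hr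
    calc _ ≤ ENNReal.ofReal (2 * r) ^ 3 * c3 +
          (ENNReal.ofReal r)⁻¹ * (ENNReal.ofReal (2 * r) ^ 3 * c3) *
          ∫⁻ s in Icc a b, ENNReal.ofReal (‖(flow Φ ε s Z i).2‖ + ‖(flow Φ ε s w j).2‖) := by
          gcongr
      _ = 8 * ENNReal.ofReal r ^ 2 * c3 * ENNReal.ofReal r +
          ((ENNReal.ofReal r)⁻¹ * ENNReal.ofReal r) * (8 * ENNReal.ofReal r ^ 2 * c3) *
          ∫⁻ s in Icc a b, ENNReal.ofReal (‖(flow Φ ε s Z i).2‖ + ‖(flow Φ ε s w j).2‖) := by
          rw [h3]; ring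
      _ = _ := by
          rw [ENNReal.inv_mul_cancel hr0 ENNReal.ofReal_ne_top]
          ring
  have hsub : {X : Space3 | ∃ s ∈ Icc a b, ∃ i j,
      dist (X + (flow Φ ε s Z i).1) (flow Φ ε s w j).1 ≤ r} ⊆
      ⋃ i, ⋃ j, {X : Space3 | ∃ s ∈ Icc a b,
        dist (X + (flow Φ ε s Z i).1) (flow Φ ε s w j).1 ≤ r} := by
    rintro X ⟨s, hs, i, j, h⟩
    exact mem_iUnion.2 ⟨i, mem_iUnion.2 ⟨j, s, hs, h⟩⟩
  have hm : ∀ i j, Measurable fun s => ENNReal.ofReal
      (‖(flow Φ ε s Z i).2‖ + ‖(flow Φ ε s w j).2‖) := fun i j =>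
    (((c1 i).snd.norm.add (c2 j).snd.norm).measurable).ennreal_ofReal
  have hA : ∀ {t : ℝ}, 0 ≤ t → ∑ i, (1 + ‖(flow Φ ε t Z i).2‖) ≤ totE Φ Z := fun ht =>
    total_speed_le hΦ hε hZ ht
  have hB : ∀ {t : ℝ}, 0 ≤ t → ∑ i, (1 + ‖(flow Φ ε t w i).2‖) ≤ totE Φ w := fun ht =>
    total_speed_le hΦ hε hw ht
  have htot : ∀ s, 0 ≤ s → ∑ i, ∑ j, (‖(flow Φ ε s Z i).2‖ + ‖(flow Φ ε s w j).2‖) ≤
      totE Φ Z * totE Φ w := by
    intro s hs
    refine (speed_sum_mul_le _ _ (fun _ => norm_nonneg _) (fun _ => norm_nonneg _)).trans ?_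
    refine mul_le_mul (hA hs) (hB hs) (Finset.sum_nonneg fun j _ => by positivity)
      (le_trans (Finset.sum_nonneg fun i _ => by positivity) (hA hs))
  have hcard : ((Fintype.card ι : ℝ) * Fintype.card κ) ≤ totE Φ Z * totE Φ w := by
    have h1 : (Fintype.card ι : ℝ) ≤ totE Φ Z := by
      refine le_trans ?_ (hA le_rfl)
      rw [Finset.sum_add_distrib]
      simp only [Finset.sum_const, Finset.card_univ, nsmul_eq_mul, mul_one, le_add_iff_nonneg_right]
      exact Finset.sum_nonneg fun i _ => norm_nonneg _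
    have h2 : (Fintype.card κ : ℝ) ≤ totE Φ w := by
      refine le_trans ?_ (hB le_rfl)
      rw [Finset.sum_add_distrib]
      simp only [Finset.sum_const, Finset.card_univ, nsmul_eq_mul, mul_one, le_add_iff_nonneg_right]
      exact Finset.sum_nonneg fun i _ => norm_nonneg _
    exact mul_le_mul h1 h2 (Nat.cast_nonneg _) ((Nat.cast_nonneg _).trans h1)
  have hTT : 0 ≤ totE Φ Z * totE Φ w := le_trans (by positivity) hcard
  calc volume {X : Space3 | ∃ s ∈ Icc a b, ∃ i j,
        dist (X + (flow Φ ε s Z i).1) (flow Φ ε s w j).1 ≤ r}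
      ≤ ∑ i, ∑ j, volume {X : Space3 | ∃ s ∈ Icc a b,
        dist (X + (flow Φ ε s Z i).1) (flow Φ ε s w j).1 ≤ r} := by
        refine (measure_mono hsub).trans ((measure_iUnion_fintype_le _ _).trans ?_)
        exact Finset.sum_le_sum fun i _ => measure_iUnion_fintype_le _ _
    _ ≤ ∑ i, ∑ j, 8 * ENNReal.ofReal r ^ 2 * c3 * (ENNReal.ofReal r + ∫⁻ s in Icc a b,
        ENNReal.ofReal (‖(flow Φ ε s Z i).2‖ + ‖(flow Φ ε s w j).2‖)) :=
        Finset.sum_le_sum fun i _ => Finset.sum_le_sum fun j _ => hone i j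
    _ = 8 * ENNReal.ofReal r ^ 2 * c3 * ((Fintype.card ι * Fintype.card κ) * ENNReal.ofReal r +
          ∑ i, ∑ j, ∫⁻ s in Icc a b,
            ENNReal.ofReal (‖(flow Φ ε s Z i).2‖ + ‖(flow Φ ε s w j).2‖)) := by
        simp only [← Finset.mul_sum, Finset.sum_add_distrib, Finset.sum_const, Finset.card_univ,
          nsmul_eq_mul]
        ring
    _ ≤ 8 * ENNReal.ofReal r ^ 2 * c3 * (ENNReal.ofReal (r * (totE Φ Z * totE Φ w)) +
          ENNReal.ofReal ((b - a) * (totE Φ Z * totE Φ w))) := by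
        refine mul_le_mul_right (add_le_add ?_ ?_) _
        · rw [ENNReal.ofReal_mul hr.le, mul_comm]
          refine mul_le_mul_right ?_ _
          rw [← Nat.cast_mul, ← ENNReal.ofReal_natCast]
          exact ENNReal.ofReal_le_ofReal (by push_cast; exact hcard)
        · have e1 : ∑ i, ∑ j, ∫⁻ s in Icc a b,
              ENNReal.ofReal (‖(flow Φ ε s Z i).2‖ + ‖(flow Φ ε s w j).2‖) =
              ∫⁻ s in Icc a b, ∑ i, ∑ j,
                ENNReal.ofReal (‖(flow Φ ε s Z i).2‖ + ‖(flow Φ ε s w j).2‖) := by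
            rw [lintegral_finsetSum _ fun i _ => Finset.measurable_fun_sum _ fun j _ => hm i j]
            refine Finset.sum_congr rfl fun i _ => ?_
            rw [lintegral_finsetSum _ fun j _ => hm i j]
          rw [e1]
          calc ∫⁻ s in Icc a b, ∑ i, ∑ j,
                ENNReal.ofReal (‖(flow Φ ε s Z i).2‖ + ‖(flow Φ ε s w j).2‖)
              ≤ ∫⁻ _ in Icc a b, ENNReal.ofReal (totE Φ Z * totE Φ w) := by
                refine setLIntegral_mono' measurableSet_Icc fun s hs => ?_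
                refine le_trans (le_of_eq ?_) (ENNReal.ofReal_le_ofReal (htot s (ha.trans hs.1)))
                rw [ENNReal.ofReal_sum_of_nonneg fun i _ => Finset.sum_nonneg fun j _ => by
                  positivity]
                refine Finset.sum_congr rfl fun i _ => ?_
                rw [ENNReal.ofReal_sum_of_nonneg fun j _ => by positivity]
            _ = _ := by
                rw [setLIntegral_const, Real.volume_Icc, mul_comm,
                  ENNReal.ofReal_mul (sub_nonneg.2 hab)]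
    _ = _ := by
        rw [← ENNReal.ofReal_add (by positivity) (mul_nonneg (sub_nonneg.2 hab) hTT), ← add_mul]

/-! ### The window of the top node -/

/-- collision window of the top node (empty for a leaf) -/
def topW (Φ : Space3 → ℝ) (ε : ℝ) : ∀ P : CTree, Space3 → Par P → ℝ × ℝ
  | leaf => fun _ _ => (1, 0)
  | node _ _ => fun v p => (Tree674.sin Φ ε v p.1, p.1.1)

/-- measurable version of `topW` -/
def topM (Φ : Space3 → ℝ) (ε : ℝ) : ∀ P : CTree, Space3 → Par P → ℝ × ℝ
  | leaf => fun _ _ => (1, 0)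
  | node _ _ => fun v p => (sM Φ ε (v, p.1), p.1.1)

/-- duration of the passage of the top node (measurable version, `0` for a leaf) -/
def topT (Φ : Space3 → ℝ) : ∀ P : CTree, Space3 → Par P → ℝ
  | leaf => fun _ _ => 0
  | node _ _ => fun v p => p.1.1 - sM Φ 1 (v, p.1)

theorem topM_of_adm {ε : ℝ} : ∀ {P : CTree} {v : Space3} {p : Par P}, Adm Φ P v p →
    topM Φ ε P v p = topW Φ ε P v p
  | leaf, _, _, _ => rfl
  | node l r, v, p, h => by
      have h1 : Adm1 Φ v p.1 := h.1
      simp only [topM, topW, sM_of_adm (z := (v, p.1)) h1]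

theorem topW_len {ε : ℝ} : ∀ {P : CTree} {v : Space3} {p : Par P}, Adm Φ P v p →
    (topW Φ ε P v p).2 - (topW Φ ε P v p).1 ≤ ε * topT Φ P v p
  | leaf, _, _, _ => by simp [topW, topT]
  | node l r, v, p, h => by
      have h1 : Adm1 Φ v p.1 := h.1
      simp only [topW, topT, sM_of_adm (z := (v, p.1)) h1, Tree674.sin]
      linarith

theorem topT_nonneg : ∀ {P : CTree} {v : Space3} {p : Par P}, Adm Φ P v p → 0 ≤ topT Φ P v p
  | leaf, _, _, _ => le_rfl
  | node l r, v, p, h => by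
      have h1 : Adm1 Φ v p.1 := h.1
      simp only [topT, sM_of_adm (z := (v, p.1)) h1, Tree674.sin]
      have := PathFlow968.tau_nonneg Φ (nb v p.1) (ng v p.1)
      linarith

theorem topW_mem {ε T : ℝ} (_hε : 0 ≤ ε) : ∀ {P : CTree} {v : Space3} {p : Par P},
    Valid Φ ε P T v p → ∀ s ∈ Icc (topW Φ ε P v p).1 (topW Φ ε P v p).2, 0 ≤ s ∧ s ≤ T
  | leaf, _, _, _, s, hs => by
      simp only [topW, mem_Icc] at hs
      exact absurd (hs.1.trans hs.2) (by norm_num)
  | node l r, v, p, h, s, hs => by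
      obtain ⟨⟨h1, h2, h3⟩, _, _⟩ := valid_node_iff.1 h
      simp only [topW, mem_Icc] at hs
      exact ⟨h3.le.trans hs.1, hs.2.trans h2.le⟩

theorem measurable_topM (hΦ : AdmissiblePotential Φ) (ε : ℝ) : ∀ P : CTree,
    Measurable fun z : Space3 × Par P => topM Φ ε P z.1 z.2
  | leaf => measurable_const
  | node l r => by
      have h1 : Measurable fun z : Space3 × Par (node l r) => (z.1, z.2.1) :=
        measurable_fst.prodMk ((measurable_par1 l r).comp measurable_snd)
      exact ((measurable_sM hΦ ε).comp h1).prodMk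
        (((measurable_par1 l r).comp measurable_snd).fst)

theorem measurable_topT (hΦ : AdmissiblePotential Φ) : ∀ P : CTree,
    Measurable fun z : Space3 × Par P => topT Φ P z.1 z.2
  | leaf => measurable_const
  | node l r => by
      have h1 : Measurable fun z : Space3 × Par (node l r) => (z.1, z.2.1) :=
        measurable_fst.prodMk ((measurable_par1 l r).comp measurable_snd)
      exact (((measurable_par1 l r).comp measurable_snd).fst).sub ((measurable_sM hΦ 1).comp h1)

/-! ### The event (B) -/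

/-- **Event (B)**: in the window `[tw, te]` and during the collision window of the top node, some
particle of the tree is within `ε` of some particle of the world `w` (both worlds isolated). -/
def TopHit (Φ : Space3 → ℝ) (ε tw te : ℝ) (P : CTree) {κ : Type} [Fintype κ] (w : κ → PhasePoint)
    (z : PhasePoint × Par P) : Prop :=
  ∃ s ∈ Icc tw te, s ∈ Icc (topW Φ ε P z.1.2 z.2).1 (topW Φ ε P z.1.2 z.2).2 ∧
    ∃ (x : Idx P) (j : κ), dist (path Φ ε P z.1 z.2 s x).1 (pth Φ ε w s j).1 ≤ ε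

/-- measurable version of the event (B) -/
def TopHitM (Φ : Space3 → ℝ) (ε tw te : ℝ) (P : CTree) {κ : Type} [Fintype κ] (w : κ → PhasePoint)
    (z : PhasePoint × Par P) : Prop :=
  ∃ s ∈ Icc (max tw (topM Φ ε P z.1.2 z.2).1) (min te (topM Φ ε P z.1.2 z.2).2),
    ∃ (x : Idx P) (j : κ), dist (Hid424.curveM Φ ε P z.1 z.2 x s) (flow Φ ε s w j).1 ≤ ε

theorem topHit_iff (hΦ : AdmissiblePotential Φ) {ε tw te T : ℝ} (hε : 0 < ε) {P : CTree}
    {κ : Type} [Fintype κ] {w : κ → PhasePoint} {z : PhasePoint × Par P}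
    (hz : z ∈ goodS Φ ε P T) : TopHit Φ ε tw te P w z ↔ TopHitM Φ ε tw te P w z := by
  unfold TopHit TopHitM
  rw [topM_of_adm hz.1.1]
  constructor
  · rintro ⟨s, hs, hs2, x, j, h⟩
    refine ⟨s, ⟨max_le hs.1 hs2.1, le_min hs.2 hs2.2⟩, x, j, ?_⟩
    have hT := topW_mem hε.le hz.1 s hs2
    rw [Hid424.curveM_of_adm hz.1.1 x]
    have := Hid424.curve_eq_path hΦ hε (X := z.1.1) hz.1 hz.2 hT x
    change dist (Hid424.curve Φ ε P (z.1.1, z.1.2) z.2 x s) _ ≤ ε
    rw [this]
    exact h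
  · rintro ⟨s, hs, x, j, h⟩
    have hs2 : s ∈ Icc (topW Φ ε P z.1.2 z.2).1 (topW Φ ε P z.1.2 z.2).2 :=
      ⟨(le_max_right _ _).trans hs.1, hs.2.trans (min_le_right _ _)⟩
    refine ⟨s, ⟨(le_max_left _ _).trans hs.1, hs.2.trans (min_le_left _ _)⟩, hs2, x, j, ?_⟩
    have hT := topW_mem hε.le hz.1 s hs2
    rw [Hid424.curveM_of_adm hz.1.1 x] at h
    have := Hid424.curve_eq_path hΦ hε (X := z.1.1) hz.1 hz.2 hT x
    change dist (Hid424.curve Φ ε P (z.1.1, z.1.2) z.2 x s) _ ≤ ε at h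
    rw [this] at h
    exact h

theorem measurableSet_topHitM (hΦ : AdmissiblePotential Φ) {ε tw te : ℝ} (hε : 0 < ε) (P : CTree)
    {κ : Type} [Fintype κ] : MeasurableSet {q : (κ → PhasePoint) × (PhasePoint × Par P) |
      TopHitM Φ ε tw te P q.1 q.2} := by
  have hz : Measurable fun q : (κ → PhasePoint) × (PhasePoint × Par P) => (q.2.1.2, q.2.2) :=
    (measurable_snd.fst.snd).prodMk measurable_snd.snd
  have hM := (measurable_topM hΦ ε P).comp hz
  have e : {q : (κ → PhasePoint) × (PhasePoint × Par P) | TopHitM Φ ε tw te P q.1 q.2} =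
      ⋃ x : Idx P, ⋃ j : κ, {q : (κ → PhasePoint) × (PhasePoint × Par P) |
        ∃ s ∈ Icc (max tw (topM Φ ε P q.2.1.2 q.2.2).1) (min te (topM Φ ε P q.2.1.2 q.2.2).2),
          dist (Hid424.curveM Φ ε P q.2.1 q.2.2 x s) (flow Φ ε s q.1 j).1 ≤ ε} := by
    ext q
    simp only [TopHitM, mem_iUnion, mem_ofPred_eq]
    constructor
    · rintro ⟨s, hs, x, j, h⟩
      exact ⟨x, j, s, hs, h⟩
    · rintro ⟨x, j, s, hs, h⟩
      exact ⟨s, hs, x, j, h⟩
  rw [e]
  refine MeasurableSet.iUnion fun x => MeasurableSet.iUnion fun j => ?_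
  refine Causal291.measurableSet_exists_Icc (g := fun (q : (κ → PhasePoint) ×
      (PhasePoint × Par P)) s => dist (Hid424.curveM Φ ε P q.2.1 q.2.2 x s) (flow Φ ε s q.1 j).1)
    (measurable_const.max hM.fst) (measurable_const.min hM.snd) (fun q => ?_) (fun s => ?_) ε
  · exact (Hid424.continuous_curveM hΦ hε P q.2.1 q.2.2 x).dist
      (continuous_fst.comp ((continuous_apply j).comp (flow_continuous_time hΦ hε q.1)))
  · have h1 : Measurable fun q : (κ → PhasePoint) × (PhasePoint × Par P) =>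
        Hid424.curveM Φ ε P q.2.1 q.2.2 x s :=
      (Hid424.measurable_curveM hΦ hε P x).comp
        (f := fun q : (κ → PhasePoint) × (PhasePoint × Par P) => (s, (q.2.1, q.2.2)))
        (measurable_const.prodMk (measurable_snd.fst.prodMk measurable_snd.snd))
    have h2 : Measurable fun q : (κ → PhasePoint) × (PhasePoint × Par P) =>
        (flow Φ ε s q.1 j).1 :=
      ((measurable_pi_apply j).comp ((measurable_flow hΦ hε s).comp measurable_fst)).fst
    exact h1.dist h2

/-- joint measurability of the event (B) on the good trees -/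
theorem measurableSet_topHit (hΦ : AdmissiblePotential Φ) {ε tw te : ℝ} (hε : 0 < ε) (P : CTree)
    (T : ℝ) {κ : Type} [Fintype κ] : MeasurableSet {q : (κ → PhasePoint) × (PhasePoint × Par P) |
      q.2 ∈ goodS Φ ε P T ∧ TopHit Φ ε tw te P q.1 q.2} := by
  have e : {q : (κ → PhasePoint) × (PhasePoint × Par P) |
      q.2 ∈ goodS Φ ε P T ∧ TopHit Φ ε tw te P q.1 q.2} =
      (Prod.snd ⁻¹' goodS Φ ε P T) ∩ {q : (κ → PhasePoint) × (PhasePoint × Par P) |
        TopHitM Φ ε tw te P q.1 q.2} := by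
    ext q
    simp only [mem_inter_iff, mem_preimage, mem_ofPred_eq]
    exact and_congr_right fun hq => topHit_iff hΦ hε hq
  rw [e]
  exact (measurable_snd (measurableSet_validSep hΦ hε P T)).inter
    (measurableSet_topHitM hΦ hε P)

/-! ### Volume of the event (B) for given velocities and parameters -/

theorem totE_lines (hΦ : AdmissiblePotential Φ) {ε : ℝ} {P : CTree} {ℓ : PhasePoint} {p : Par P}
    (h : Adm Φ P ℓ.2 p) : totE Φ (lines Φ ε P ℓ p) =
      (1 / 2) * (‖ℓ.2‖ ^ 2 + nodeE P p) + (stabB Φ + 3 / 2) * Fintype.card (Idx P) := by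
  unfold totE
  rw [Finset.sum_add_distrib, ← Finset.mul_sum, ← sum_vels_sq hΦ h]
  simp only [Hid424.lines_vel, Finset.sum_const, Finset.card_univ, nsmul_eq_mul]
  ring

theorem volume_topHit_le (hΦ : AdmissiblePotential Φ) {ε : ℝ} (hε : 0 < ε) {P : CTree}
    {T tw te : ℝ} (hT : 0 ≤ T) {κ : Type} [Fintype κ] {w : κ → PhasePoint}
    (hw : ∀ i j, i ≠ j → ε ≤ dist (w i).1 (w j).1) (v : Space3) (p : Par P) :
    volume {X : Space3 | ((X, v), p) ∈ goodS Φ ε P T ∧ TopHit Φ ε tw te P w ((X, v), p)} ≤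
      8 * ENNReal.ofReal ε ^ 2 * c3 *
        ENNReal.ofReal ((ε + min (ε * topT Φ P v p) T) *
          (totE Φ (lines Φ ε P (0, v) p) * totE Φ w)) := by
  by_cases hg : Valid Φ ε P T v p ∧ Sep Φ ε P T (0, v) p
  swap
  · have e : {X : Space3 | ((X, v), p) ∈ goodS Φ ε P T ∧ TopHit Φ ε tw te P w ((X, v), p)} = ∅ := by
      ext X
      simp only [mem_ofPred_eq, mem_empty_iff_false, iff_false]
      rintro ⟨⟨h1, h2⟩, -⟩
      exact hg ⟨h1, (Hid424.sep_shift X).1 h2⟩
    rw [e, measure_empty]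
    exact bot_le
  obtain ⟨hV, hS⟩ := hg
  set a := (topW Φ ε P v p).1 with ha
  set b := (topW Φ ε P v p).2 with hb
  by_cases hab : a ≤ b
  swap
  · have e : {X : Space3 | ((X, v), p) ∈ goodS Φ ε P T ∧ TopHit Φ ε tw te P w ((X, v), p)} = ∅ := by
      ext X
      simp only [mem_ofPred_eq, mem_empty_iff_false, iff_false]
      rintro ⟨-, s, -, hs, -⟩
      exact hab (hs.1.trans hs.2)
    rw [e, measure_empty]
    exact bot_le
  have h0 := topW_mem hε.le hV
  have ha0 : 0 ≤ a := (h0 a ⟨le_rfl, hab⟩).1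
  have hbT : b ≤ T := (h0 b ⟨hab, le_rfl⟩).2
  have hlen : b - a ≤ min (ε * topT Φ P v p) T :=
    le_min (topW_len (ε := ε) hV.1) (by linarith)
  have hfar : ∀ i j, i ≠ j → ε ≤ dist (lines Φ ε P (0, v) p i).1 (lines Φ ε P (0, v) p j).1 :=
    fun i j hij => (PathFlow968.Sep.zero hε.le hT hV.2 hS hij).le
  have hsub : {X : Space3 | ((X, v), p) ∈ goodS Φ ε P T ∧ TopHit Φ ε tw te P w ((X, v), p)} ⊆
      {X : Space3 | ∃ s ∈ Icc a b, ∃ i j,
        dist (X + (flow Φ ε s (lines Φ ε P (0, v) p) i).1) (flow Φ ε s w j).1 ≤ ε} := by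
    rintro X ⟨⟨h1, h2⟩, s, -, hs, x, j, h⟩
    refine ⟨s, hs, x, j, ?_⟩
    have h3 := Hid424.curve_eq_path hΦ hε (X := X) hV ((Hid424.sep_shift X).2 hS) (h0 s hs) x
    have h4 := Hid424.curve_shift hΦ hε P X v p x s
    have h5 : (path Φ ε P (X, v) p s x).1 = X + (flow Φ ε s (lines Φ ε P (0, v) p) x).1 := by
      rw [← h3, h4, add_comm]
      rfl
    rw [← h5]
    exact h
  refine (measure_mono hsub).trans ((volume_meet_le hΦ hε hfar hw ha0 hab hε).trans ?_)
  refine mul_le_mul_right (ENNReal.ofReal_le_ofReal ?_) _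
  have hE : 0 ≤ totE Φ (lines Φ ε P (0, v) p) * totE Φ w := by
    have hB := stabB_nonneg Φ
    unfold totE
    exact mul_nonneg (Finset.sum_nonneg fun i _ => by positivity)
      (Finset.sum_nonneg fun i _ => by positivity)
  exact mul_le_mul_of_nonneg_right (by linarith) hE

theorem totE_nonneg {κ : Type} [Fintype κ] (w : κ → PhasePoint) : 0 ≤ totE Φ w := by
  have hB := stabB_nonneg Φ
  unfold totE
  exact Finset.sum_nonneg fun i _ => by positivity

/-! ### The main theorem -/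

/-- the energy of a tree -/
def enE (P : CTree) (v : Space3) (p : Par P) : ℝ := ‖v‖ ^ 2 + nodeE P p

theorem enE_nonneg (P : CTree) (v : Space3) (p : Par P) : 0 ≤ enE P v p := by
  unfold enE
  have := nodeE_nonneg P p
  positivity

/-- product of the Gaussian majorant with exponential weights -/
theorem domG_mul {C b T : ℝ} (hC : 0 ≤ C) {a K : ℝ} (P : CTree) (v : Space3) (p : Par P) :
    domG C b T P v p * ENNReal.ofReal (K * Real.exp (a * enE P v p)) =
      domG (C * K) (b - a) T P v p := by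
  unfold domG enE
  rw [mul_assoc, ← ENNReal.ofReal_mul (by positivity)]
  congr 2
  have e : Real.exp (-(b - a) * (‖v‖ ^ 2 + nodeE P p)) =
      Real.exp (-b * (‖v‖ ^ 2 + nodeE P p)) * Real.exp (a * (‖v‖ ^ 2 + nodeE P p)) := by
    rw [← Real.exp_add]; congr 1; ring
  rw [e]
  ring

/-- energy of the gas, in expectation -/
theorem gcE_totE_le {f₀ : PhasePoint → ℝ} (hf : Measurable f₀)
    (h1 : ∫⁻ z, ENNReal.ofReal (f₀ z) ≤ 1) {ε : ℝ} (hε : 0 < ε) :
    ENNReal.ofReal ε ^ 2 * gcE f₀ ε (fun _ w => ENNReal.ofReal (totE Φ w)) ≤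
      ENNReal.ofReal (stabB Φ + 3 / 2) *
        ∫⁻ z, ENNReal.ofReal (f₀ z) * ENNReal.ofReal (1 + ‖z.2‖ ^ 2) := by
  have hB := stabB_nonneg Φ
  have h2 : gcE f₀ ε (fun _ w => ENNReal.ofReal (totE Φ w)) ≤
      gcE f₀ ε (fun _ w => ENNReal.ofReal (stabB Φ + 3 / 2) *
        ∑ i, ENNReal.ofReal (1 + ‖(w i).2‖ ^ 2)) := by
    refine gcE_mono f₀ ε fun n w _ => ?_
    rw [← ENNReal.ofReal_sum_of_nonneg fun i _ => by positivity,
      ← ENNReal.ofReal_mul (by positivity)]
    refine ENNReal.ofReal_le_ofReal ?_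
    unfold totE
    rw [Finset.mul_sum]
    refine Finset.sum_le_sum fun i _ => ?_
    nlinarith [sq_nonneg ‖(w i).2‖]
  calc ENNReal.ofReal ε ^ 2 * gcE f₀ ε (fun _ w => ENNReal.ofReal (totE Φ w))
      ≤ ENNReal.ofReal ε ^ 2 * (ENNReal.ofReal (stabB Φ + 3 / 2) *
          (activity ε * ∫⁻ z, ENNReal.ofReal (f₀ z) * ENNReal.ofReal (1 + ‖z.2‖ ^ 2))) := by
        refine mul_le_mul_right (h2.trans ?_) _
        rw [gcE_const_mul f₀ ε ENNReal.ofReal_ne_top]
        exact mul_le_mul_right (gcE_sum_le hf h1 ε (fun z => ENNReal.ofReal (1 + ‖z.2‖ ^ 2))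
          (by fun_prop)) _
    _ = (activity ε * ENNReal.ofReal ε ^ 2) * (ENNReal.ofReal (stabB Φ + 3 / 2) *
          ∫⁻ z, ENNReal.ofReal (f₀ z) * ENNReal.ofReal (1 + ‖z.2‖ ^ 2)) := by ring
    _ = _ := by rw [Mom974.activity_mul_sq hε, one_mul]

/-- **(B)-NULL** for one tree and a fixed world, uniformly in the window `[tw, te]` and in the
weight. -/
theorem bnull_pt (hΦ : AdmissiblePotential Φ) {f₀ : PhasePoint → ℝ} {C b : ℝ}
    (hC : 0 ≤ C)
    (hk : ∀ z, ENNReal.ofReal (f₀ z) ≤ ENNReal.ofReal (C * Real.exp (-b * ‖z.2‖ ^ 2)))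
    (P : CTree) {T : ℝ} (hT : 0 ≤ T) {Cφ a : ℝ} (hCφ : 0 ≤ Cφ) (hab : a < b) :
    ∃ R : ℝ → ℝ≥0∞, Tendsto R (𝓝[>] 0) (𝓝 0) ∧ (∀ ε, R ε ≠ ∞) ∧ ∀ ε, 0 < ε → ∀ (tw te : ℝ)
      (φ : PhasePoint × Par P → ℝ≥0∞), (∀ z ∈ goodS Φ ε P T,
        φ z ≤ ENNReal.ofReal (Cφ * Real.exp (a * enE P z.1.2 z.2))) →
      ∀ (n : ℕ) (w : Config n), w ∈ PairExcluded ε n →
      ∫⁻ z, (goodS Φ ε P T).indicator (fun z =>
        tA Φ (fun z => ENNReal.ofReal (f₀ z)) ε P z * φ z *
          {z | TopHit Φ ε tw te P w z}.indicator 1 z) z ≤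
        R ε * (ENNReal.ofReal ε ^ 2 * ENNReal.ofReal (totE Φ w)) := by
  have hB := stabB_nonneg Φ
  set g : ℝ := b - a with hg
  have hg0 : 0 < g := sub_pos.2 hab
  obtain ⟨C', hC', hdom⟩ := le_domG hΦ (b' := b - g / 4) hC (by linarith) hk P
  set k : ℝ := (Fintype.card (Idx P) : ℝ) with hkk
  have hk0 : 0 ≤ k := Nat.cast_nonneg _
  set K : ℝ := ((1 : ℕ).factorial / (g / 4) ^ 1 * Real.exp (g / 4)) *
    (1 / 2 + (stabB Φ + 3 / 2) * k) with hK
  have hK0 : 0 ≤ K := by positivity
  -- the energy of the lines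
  have hEn : ∀ (ε : ℝ) (v : Space3) (p : Par P), Adm Φ P v p →
      totE Φ (lines Φ ε P (0, v) p) ≤ K * Real.exp (g / 4 * enE P v p) := by
    intro ε v p h
    rw [totE_lines hΦ (ℓ := (0, v)) h]
    have h2 := one_add_pow_le (δ := g / 4) (by positivity) (enE_nonneg P v p) 1
    have h3 : (1 / 2) * (‖v‖ ^ 2 + nodeE P p) + (stabB Φ + 3 / 2) * Fintype.card (Idx P) ≤
        (1 / 2 + (stabB Φ + 3 / 2) * k) * (1 + enE P v p) ^ 1 := by
      have h4 := enE_nonneg P v p
      have h5 : 0 ≤ (stabB Φ + 3 / 2) * k := by positivity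
      rw [pow_one]
      unfold enE at h4 ⊢
      nlinarith [mul_nonneg h5 h4]
    refine h3.trans ((mul_le_mul_of_nonneg_left h2 (by positivity)).trans (le_of_eq ?_))
    rw [hK]; ring
  set D : Space3 → Par P → ℝ≥0∞ := fun v p => domG (C' * Cφ) (b - g / 4 - a) T P v p with hD
  set D2 : Space3 → Par P → ℝ≥0∞ := fun v p =>
    domG (C' * Cφ * K) (b - g / 4 - a - g / 4) T P v p with hD2
  have hDm : Measurable fun q : Space3 × Par P => D q.1 q.2 :=
    measurable_domG (by positivity) _ T P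
  have hD2m : Measurable fun q : Space3 × Par P => D2 q.1 q.2 :=
    measurable_domG (by positivity) _ T P
  have hD2t : ∫⁻ q : Space3 × Par P, D2 q.1 q.2 ≠ ∞ :=
    lintegral_domG_ne_top (by positivity) (by rw [hg]; linarith) T P
  -- truncated window length, with a nonnegative representative
  set ρ : ℝ → Space3 × Par P → ℝ := fun ε q => ε + min (ε * max (topT Φ P q.1 q.2) 0) T with hρ
  have hρm : ∀ ε, Measurable (ρ ε) := by
    intro ε
    have h3 := measurable_topT hΦ P
    exact (((h3.max measurable_const).const_mul ε).min measurable_const).const_add ε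
  refine ⟨fun ε => 8 * c3 * ∫⁻ q : Space3 × Par P, D2 q.1 q.2 * ENNReal.ofReal (ρ ε q), ?_, ?_,
    ?_⟩
  · -- convergence
    have hlim : Tendsto (fun ε => ∫⁻ q : Space3 × Par P, D2 q.1 q.2 * ENNReal.ofReal (ρ ε q))
        (𝓝[>] 0) (𝓝 (∫⁻ _q : Space3 × Par P, (0 : ℝ≥0∞))) := by
      refine tendsto_lintegral_filter_of_dominated_convergence
        (fun q : Space3 × Par P => D2 q.1 q.2 * ENNReal.ofReal (1 + T)) ?_ ?_ ?_ ?_
      · exact Eventually.of_forall fun ε => hD2m.mul (hρm ε).ennreal_ofReal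
      · have h5 : ∀ᶠ ε : ℝ in 𝓝[>] 0, ε ≤ 1 := nhdsWithin_le_nhds (Iic_mem_nhds one_pos)
        filter_upwards [h5] with ε h5
        refine Eventually.of_forall fun q => mul_le_mul_right (ENNReal.ofReal_le_ofReal ?_) _
        exact add_le_add h5 (min_le_right _ _)
      · rw [lintegral_mul_const _ hD2m]
        exact ENNReal.mul_ne_top hD2t ENNReal.ofReal_ne_top
      · filter_upwards [ae_lt_top hD2m hD2t] with q hq
        have h6 : Tendsto (fun ε => ρ ε q) (𝓝[>] 0) (𝓝 0) := by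
          have h7 : Tendsto (fun ε : ℝ => ε + min (ε * max (topT Φ P q.1 q.2) 0) T) (𝓝 0)
              (𝓝 (0 + min (0 * max (topT Φ P q.1 q.2) 0) T)) := by
            refine Continuous.tendsto' (by fun_prop) _ _ rfl
          rw [zero_mul, min_eq_left hT, add_zero] at h7
          exact h7.mono_left nhdsWithin_le_nhds
        have h8 := (ENNReal.continuous_ofReal.tendsto 0).comp h6
        rw [ENNReal.ofReal_zero] at h8
        have h9 := ENNReal.Tendsto.const_mul (a := D2 q.1 q.2) h8 (Or.inr hq.ne)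
        rwa [mul_zero] at h9
    rw [lintegral_zero] at hlim
    have h10 := ENNReal.Tendsto.const_mul (a := 8 * c3) hlim
      (Or.inr (ENNReal.mul_ne_top (by norm_num) ENNReal.ofReal_ne_top))
    rwa [mul_zero] at h10
  · intro ε
    refine ENNReal.mul_ne_top (ENNReal.mul_ne_top (by norm_num) ENNReal.ofReal_ne_top) ?_
    refine ne_top_of_le_ne_top ?_ (lintegral_mono (g := fun q : Space3 × Par P =>
        D2 q.1 q.2 * ENNReal.ofReal (ε + T)) fun q =>
          mul_le_mul_right (ENNReal.ofReal_le_ofReal (add_le_add le_rfl (min_le_right _ _))) _)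
    rw [lintegral_mul_const _ hD2m]
    exact ENNReal.mul_ne_top hD2t ENNReal.ofReal_ne_top
  · intro ε hε tw te φ hφ n w hw
    set I : ℝ≥0∞ := ∫⁻ q : Space3 × Par P, D2 q.1 q.2 * ENNReal.ofReal (ρ ε q) with hI
    have hw' : ∀ i j, i ≠ j → ε ≤ dist (w i).1 (w j).1 := fun i j hij =>
      (hw i j hij).le
    have hSm : MeasurableSet {z : PhasePoint × Par P |
        z ∈ goodS Φ ε P T ∧ TopHit Φ ε tw te P w z} := by
      have h3 := measurableSet_topHit hΦ hε P T (tw := tw) (te := te) (κ := Fin n)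
      exact (measurable_const.prodMk measurable_id : Measurable fun z :
        PhasePoint × Par P => (w, z)) h3
    have hGm : Measurable ({z : PhasePoint × Par P |
        z ∈ goodS Φ ε P T ∧ TopHit Φ ε tw te P w z}.indicator
        fun z => D z.1.2 z.2) :=
      (hDm.comp (f := fun z : PhasePoint × Par P => (z.1.2, z.2))
        (measurable_fst.snd.prodMk measurable_snd)).indicator hSm
    calc ∫⁻ z, (goodS Φ ε P T).indicator (fun z =>
          tA Φ (fun z => ENNReal.ofReal (f₀ z)) ε P z * φ z *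
          {z | TopHit Φ ε tw te P w z}.indicator 1 z) z
        ≤ ∫⁻ z, {z : PhasePoint × Par P |
            z ∈ goodS Φ ε P T ∧ TopHit Φ ε tw te P w z}.indicator
            (fun z => D z.1.2 z.2) z := by
          refine lintegral_mono fun z => ?_
          by_cases hz : z ∈ goodS Φ ε P T
          swap
          · rw [indicator_of_notMem hz]; exact bot_le
          rw [indicator_of_mem hz]
          by_cases hh : TopHit Φ ε tw te P w z
          swap
          · rw [indicator_of_notMem (show z ∉ {z | TopHit Φ ε tw te P w z} from hh),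
              mul_zero]
            exact bot_le
          rw [indicator_of_mem (show z ∈ {z | TopHit Φ ε tw te P w z} from hh),
            indicator_of_mem (show z ∈ {z : PhasePoint × Par P |
            z ∈ goodS Φ ε P T ∧ TopHit Φ ε tw te P w z} from ⟨hz, hh⟩)]
          have h4 : tA Φ (fun z => ENNReal.ofReal (f₀ z)) ε P z ≤
              domG C' (b - g / 4) T P z.1.2 z.2 :=
            hdom ε T T z.1 z.2 hε.le le_rfl hz.1
          have h5 := mul_le_mul' h4 (hφ z hz)
          rw [domG_mul hC'] at h5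
          simpa using h5
      _ = ∫⁻ q : Space3 × Par P, ∫⁻ x : Space3, {z : PhasePoint × Par P |
            z ∈ goodS Φ ε P T ∧ TopHit Φ ε tw te P w z}.indicator
            (fun z => D z.1.2 z.2) ((x, q.1), q.2) := lintegral_split P hGm
      _ ≤ ∫⁻ q : Space3 × Par P, (8 * ENNReal.ofReal ε ^ 2 * c3 *
            ENNReal.ofReal (totE Φ w)) * (D2 q.1 q.2 * ENNReal.ofReal (ρ ε q)) := by
          refine lintegral_mono fun q => ?_
          have hslice : MeasurableSet {X : Space3 |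
              ((X, q.1), q.2) ∈ goodS Φ ε P T ∧ TopHit Φ ε tw te P w ((X, q.1), q.2)} := by
            exact ((measurable_id.prodMk measurable_const).prodMk measurable_const :
              Measurable fun X : Space3 => (((X, q.1), q.2) : PhasePoint × Par P)) hSm
          have e1 : ∫⁻ x : Space3, {z : PhasePoint × Par P |
              z ∈ goodS Φ ε P T ∧ TopHit Φ ε tw te P w z}.indicator
              (fun z => D z.1.2 z.2) ((x, q.1), q.2) =
              D q.1 q.2 * volume {X : Space3 | ((X, q.1), q.2) ∈ goodS Φ ε P T ∧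
                TopHit Φ ε tw te P w ((X, q.1), q.2)} := by
            rw [← lintegral_indicator_one hslice, ← lintegral_const_mul _
              (measurable_one.indicator hslice)]
            refine lintegral_congr fun x => ?_
            by_cases hx : ((x, q.1), q.2) ∈ goodS Φ ε P T ∧
                TopHit Φ ε tw te P w ((x, q.1), q.2)
            · rw [indicator_of_mem (show ((x, q.1), q.2) ∈ {z : PhasePoint × Par P |
                z ∈ goodS Φ ε P T ∧ TopHit Φ ε tw te P w z} from hx),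
                indicator_of_mem (show x ∈ {X : Space3 |
                ((X, q.1), q.2) ∈ goodS Φ ε P T ∧ TopHit Φ ε tw te P w ((X, q.1), q.2)}
                from hx)]
              simp
            · rw [indicator_of_notMem (show ((x, q.1), q.2) ∉ {z : PhasePoint × Par P |
                z ∈ goodS Φ ε P T ∧ TopHit Φ ε tw te P w z} from hx),
                indicator_of_notMem (show x ∉ {X : Space3 |
                ((X, q.1), q.2) ∈ goodS Φ ε P T ∧ TopHit Φ ε tw te P w ((X, q.1), q.2)}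
                from hx), mul_zero]
          rw [e1]
          by_cases hadm : Adm Φ P q.1 q.2
          swap
          · have e2 : {X : Space3 | ((X, q.1), q.2) ∈ goodS Φ ε P T ∧
                TopHit Φ ε tw te P w ((X, q.1), q.2)} = ∅ := by
              ext X
              simp only [mem_ofPred_eq, mem_empty_iff_false, iff_false]
              rintro ⟨⟨h3, -⟩, -⟩
              exact hadm h3.1
            rw [e2, measure_empty, mul_zero]
            exact bot_le
          have hE := hEn ε q.1 q.2 hadm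
          have hρq : ε + min (ε * topT Φ P q.1 q.2) T = ρ ε q := by
            rw [hρ]
            simp only
            rw [max_eq_left (topT_nonneg hadm)]
          have hρ0 : 0 ≤ ρ ε q := by
            rw [← hρq]
            have : 0 ≤ min (ε * topT Φ P q.1 q.2) T :=
              le_min (mul_nonneg hε.le (topT_nonneg hadm)) hT
            linarith
          have hw0 := totE_nonneg (Φ := Φ) w
          calc D q.1 q.2 * volume {X : Space3 | ((X, q.1), q.2) ∈ goodS Φ ε P T ∧
                TopHit Φ ε tw te P w ((X, q.1), q.2)}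
              ≤ D q.1 q.2 * (8 * ENNReal.ofReal ε ^ 2 * c3 *
                ENNReal.ofReal (ρ ε q * (K * Real.exp (g / 4 * enE P q.1 q.2) *
                  totE Φ w))) := by
                refine mul_le_mul_right ((volume_topHit_le hΦ hε hT hw' q.1 q.2).trans ?_) _
                refine mul_le_mul_right (ENNReal.ofReal_le_ofReal ?_) _
                rw [hρq]
                exact mul_le_mul_of_nonneg_left (mul_le_mul_of_nonneg_right hE hw0) hρ0
            _ = (8 * ENNReal.ofReal ε ^ 2 * c3 * ENNReal.ofReal (totE Φ w)) *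
                ((D q.1 q.2 * ENNReal.ofReal (K * Real.exp (g / 4 * enE P q.1 q.2))) *
                  ENNReal.ofReal (ρ ε q)) := by
                rw [ENNReal.ofReal_mul hρ0, ENNReal.ofReal_mul (by positivity)]
                ring
            _ = _ := by
                rw [hD, hD2]
                simp only
                rw [domG_mul (by positivity)]
      _ = (8 * ENNReal.ofReal ε ^ 2 * c3 * ENNReal.ofReal (totE Φ w)) *
            ∫⁻ q : Space3 × Par P, D2 q.1 q.2 * ENNReal.ofReal (ρ ε q) :=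
          lintegral_const_mul' _ _ (ENNReal.mul_ne_top (ENNReal.mul_ne_top
            (ENNReal.mul_ne_top (by norm_num) (ENNReal.pow_ne_top ENNReal.ofReal_ne_top))
            ENNReal.ofReal_ne_top) ENNReal.ofReal_ne_top)
      _ = (8 * ENNReal.ofReal ε ^ 2 * c3 * I) * ENNReal.ofReal (totE Φ w) := by
          rw [← hI]; ring
      _ = 8 * c3 * I * (ENNReal.ofReal ε ^ 2 * ENNReal.ofReal (totE Φ w)) := by ring

/-- **(B)-NULL** for one tree. -/
theorem bnull_tree (hΦ : AdmissiblePotential Φ) {f₀ : PhasePoint → ℝ} (hf : Measurable f₀)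
    (h1 : ∫⁻ z, ENNReal.ofReal (f₀ z) ≤ 1)
    (hmom : ∫⁻ z, ENNReal.ofReal (f₀ z) * ENNReal.ofReal (1 + ‖z.2‖ ^ 2) ≠ ∞) {C b : ℝ}
    (hC : 0 ≤ C)
    (hk : ∀ z, ENNReal.ofReal (f₀ z) ≤ ENNReal.ofReal (C * Real.exp (-b * ‖z.2‖ ^ 2)))
    (S : Finset CTree) {T : ℝ} (hT : 0 ≤ T) {Cφ a : ℝ} (hCφ : 0 ≤ Cφ) (hab : a < b) :
    ∃ R : ℝ → ℝ≥0∞, Tendsto R (𝓝[>] 0) (𝓝 0) ∧ ∀ ε, 0 < ε → ∀ (tw te : ℝ)
      (φ : ∀ P : CTree, PhasePoint × Par P → ℝ≥0∞), (∀ P ∈ S, ∀ z ∈ goodS Φ ε P T,
        φ P z ≤ ENNReal.ofReal (Cφ * Real.exp (a * enE P z.1.2 z.2))) →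
      gcE f₀ ε (fun _ w => ∑ P ∈ S, ∫⁻ z, (goodS Φ ε P T).indicator (fun z =>
        tA Φ (fun z => ENNReal.ofReal (f₀ z)) ε P z * φ P z *
          {z | TopHit Φ ε tw te P w z}.indicator 1 z) z) ≤ R ε := by
  choose R hR0 hRt hR using fun P : CTree =>
    bnull_pt hΦ hC hk P hT (Cφ := Cφ) (a := a) hCφ hab
  set A : ℝ≥0∞ := ENNReal.ofReal (stabB Φ + 3 / 2) *
        ∫⁻ z, ENNReal.ofReal (f₀ z) * ENNReal.ofReal (1 + ‖z.2‖ ^ 2) with hA
  have hAt : A ≠ ∞ := ENNReal.mul_ne_top ENNReal.ofReal_ne_top hmom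
  have hsum : Tendsto (fun ε => ∑ P ∈ S, R P ε) (𝓝[>] 0) (𝓝 0) := by
    have h2 := tendsto_finsetSum S fun P _ => hR0 P
    simpa using h2
  have hlim : Tendsto (fun ε => (∑ P ∈ S, R P ε) * A) (𝓝[>] 0) (𝓝 0) := by
    have h3 := ENNReal.Tendsto.mul_const (b := A) hsum (Or.inr hAt)
    rwa [zero_mul] at h3
  refine ⟨fun ε => (∑ P ∈ S, R P ε) * A, hlim, fun ε hε tw te φ hφ => ?_⟩
  have htop : ∑ P ∈ S, R P ε ≠ ∞ := ENNReal.sum_ne_top.2 fun P _ => hRt P ε
  calc gcE f₀ ε (fun _ w => ∑ P ∈ S, ∫⁻ z, (goodS Φ ε P T).indicator (fun z =>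
        tA Φ (fun z => ENNReal.ofReal (f₀ z)) ε P z * φ P z *
          {z | TopHit Φ ε tw te P w z}.indicator 1 z) z)
      ≤ gcE f₀ ε (fun _ w => ((∑ P ∈ S, R P ε) * ENNReal.ofReal ε ^ 2) *
          ENNReal.ofReal (totE Φ w)) := by
        refine gcE_mono f₀ ε fun n w hw => ?_
        calc _ ≤ ∑ P ∈ S, R P ε * (ENNReal.ofReal ε ^ 2 * ENNReal.ofReal (totE Φ w)) :=
              Finset.sum_le_sum fun P hP => hR P ε hε tw te (φ P) (hφ P hP) n w hw
          _ = _ := by rw [← Finset.sum_mul]; ring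
    _ = ((∑ P ∈ S, R P ε) * ENNReal.ofReal ε ^ 2) *
          gcE f₀ ε (fun _ w => ENNReal.ofReal (totE Φ w)) :=
        gcE_const_mul f₀ ε (ENNReal.mul_ne_top htop
          (ENNReal.pow_ne_top ENNReal.ofReal_ne_top)) _
    _ = (∑ P ∈ S, R P ε) * (ENNReal.ofReal ε ^ 2 *
          gcE f₀ ε (fun _ w => ENNReal.ofReal (totE Φ w))) := by ring
    _ ≤ (∑ P ∈ S, R P ε) * A := mul_le_mul_right (gcE_totE_le hf h1 hε) _

/-- the energy weight: `∑ (1 + |v_i|²) = k + |v|² + nodeE` -/
theorem sum_one_add_sq (hΦ : AdmissiblePotential Φ) {P : CTree} {v : Space3} {p : Par P}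
    (h : Adm Φ P v p) : ∑ i : Idx P, ENNReal.ofReal (1 + ‖vels Φ P v p i‖ ^ 2) =
      ENNReal.ofReal (Fintype.card (Idx P) + enE P v p) := by
  rw [← ENNReal.ofReal_sum_of_nonneg fun i _ => by positivity, Finset.sum_add_distrib,
    sum_vels_sq hΦ h]
  simp [enE]

/-- powers of the energy weight are dominated by exponential weights -/
theorem exists_energy_weight_le (hΦ : AdmissiblePotential Φ) (S : Finset CTree) {a : ℝ}
    (ha : 0 < a) (N : ℕ) : ∃ Cφ : ℝ, 0 ≤ Cφ ∧ ∀ P ∈ S, ∀ (v : Space3) (p : Par P),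
      Adm Φ P v p → (∑ i : Idx P, ENNReal.ofReal (1 + ‖vels Φ P v p i‖ ^ 2)) ^ N ≤
        ENNReal.ofReal (Cφ * Real.exp (a * enE P v p)) := by
  set kk : ℝ := ∑ P ∈ S, (Fintype.card (Idx P) : ℝ) with hkk
  have hkk0 : 0 ≤ kk := Finset.sum_nonneg fun P _ => Nat.cast_nonneg _
  refine ⟨(1 + kk) ^ N * (N.factorial / a ^ N * Real.exp a), by positivity,
    fun P hP v p h => ?_⟩
  have h0 := enE_nonneg P v p
  have hc : (Fintype.card (Idx P) : ℝ) ≤ kk :=
    Finset.single_le_sum (f := fun P : CTree => (Fintype.card (Idx P) : ℝ))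
      (fun P _ => Nat.cast_nonneg _) hP
  rw [sum_one_add_sq hΦ h, ← ENNReal.ofReal_pow (by positivity)]
  refine ENNReal.ofReal_le_ofReal ?_
  have h2 := one_add_pow_le ha h0 N
  calc ((Fintype.card (Idx P) : ℝ) + enE P v p) ^ N ≤ ((1 + kk) * (1 + enE P v p)) ^ N := by
        refine pow_le_pow_left₀ (by positivity) ?_ N
        nlinarith [mul_nonneg hkk0 h0]
    _ = (1 + kk) ^ N * (1 + enE P v p) ^ N := mul_pow _ _ _
    _ ≤ (1 + kk) ^ N * ((N.factorial / a ^ N * Real.exp a) * Real.exp (a * enE P v p)) :=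
        mul_le_mul_of_nonneg_left h2 (by positivity)
    _ = _ := by ring

end Crest.Agent.R122.InEq2B263

end
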