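import Crest.Agent.R122.InEq2AIn_263
import Crest.Agent.R122.InEq2B_263
import Crest.Agent.R122.GIVChild_383

/-!
# Row 122, INEQUALITY 2': the old-contact term `InB FB` (helper263)

* `HB` : `[leaves ≤ K] act⁻¹ wQ 1[z separated, TopHit]`, `measTS_HB`, `TS_HB_le`.
* `FB_le_ways` : `FB ≤ ways (HB)` pointwise (`HTreeP.mid`, `HTreeP.chain_state` of helper311).
* `inB_FB` : **`InB FB`** for every horizon.
-/

set_option autoImplicit false

open MeasureTheory Set Filter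
open scoped ENNReal Topology
open Crest.AnalysisR.Kinetic
open Crest.Agent.R122.Flow671 Crest.Agent.R122.Loc45 Crest.Agent.R122.Causal291
open Crest.Agent.R122.Inf879 Crest.Agent.R122.GC311 Crest.Agent.R122.EDefs602
open Crest.Agent.R122.Kin796 Crest.Agent.R122.Kin796.CTree Crest.Agent.R122.Tree674
open Crest.Agent.R122.InEq2 Crest.Agent.R122.GIV566 Crest.Agent.R122.TreeBound335
open Crest.Agent.R122.Master566 Crest.Agent.R122.Top602 Crest.Agent.R122.Unw410
open Crest.Agent.R122.InEq2A263 Crest.Agent.R122.InEq2B263 Crest.Agent.R122.TreeLim974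
open Crest.Agent.R122.ToTree335

noncomputable section

open scoped Classical

namespace Crest.Agent.R122.InEq2BIn263

variable {Φ : Space3 → ℝ} {f₀ : PhasePoint → ℝ} {f : ℝ → PhasePoint → ℝ} {β T : ℝ} {ε : ℝ}
  {K : ℕ} {A : EPar} {T' : ℝ}

/-- The tree functional of the old-contact term. -/
def HB (Φ : Space3 → ℝ) (ε : ℝ) (K : ℕ) (A : EPar) (T' : ℝ) (R : CTree) (z : PhasePoint × Par R)
    (m : ℕ) (w : Config m) : ℝ≥0∞ :=
  if R.leaves ≤ K ∧ (z ∈ goodS Φ ε R T' ∧ TopHit Φ ε A.tw A.te R w z) then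
    (activity ε)⁻¹ * wQ Φ ε R z else 0

theorem measurableSet_hb (hΦ : AdmissiblePotential Φ) (hε : 0 < ε) (A : EPar) (T' : ℝ) (R : CTree)
    (m : ℕ) : MeasurableSet {q : (PhasePoint × Par R) × Config m |
      q.1 ∈ goodS Φ ε R T' ∧ TopHit Φ ε A.tw A.te R q.2 q.1} :=
  measurable_swap (measurableSet_topHit (κ := Fin m) hΦ hε R T')

theorem measTS_HB (hΦ : AdmissiblePotential Φ) (hε : 0 < ε) (K : ℕ) (A : EPar) (T' : ℝ) :
    MeasTS (HB Φ ε K A T') := by
  intro R m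
  unfold HB
  refine Measurable.ite ((MeasurableSet.const _).inter (measurableSet_hb hΦ hε A T' R m))
    (((measurable_wQ hΦ R).comp measurable_fst).const_mul _) measurable_const

/-- Measurable form of the integrand of (B)-null. -/
def gB (Φ : Space3 → ℝ) (f₀ : PhasePoint → ℝ) (ε : ℝ) (A : EPar) (T' : ℝ) (R : CTree) (m : ℕ)
    (z : PhasePoint × Par R) (w : Config m) : ℝ≥0∞ :=
  {q : (PhasePoint × Par R) × Config m |
      q.1 ∈ goodS Φ ε R T' ∧ TopHit Φ ε A.tw A.te R q.2 q.1}.indicator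
    (fun q => wtM Φ R q.1.1.2 q.1.2 * (pfM Φ f₀ ε R q.1 * wQ Φ ε R q.1)) (z, w)

theorem measurable_gB (hΦ : AdmissiblePotential Φ) (hf : Measurable f₀) (hε : 0 < ε) (A : EPar)
    (T' : ℝ) (R : CTree) (m : ℕ) :
    Measurable fun q : (PhasePoint × Par R) × Config m => gB Φ f₀ ε A T' R m q.1 q.2 := by
  unfold gB
  refine Measurable.indicator ?_ (measurableSet_hb hΦ hε A T' R m)
  have h1 : Measurable fun q : (PhasePoint × Par R) × Config m => wtM Φ R q.1.1.2 q.1.2 :=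
    (measurable_wtM hΦ R).comp (f := fun q : (PhasePoint × Par R) × Config m => (q.1.1.2, q.1.2))
      (measurable_fst.fst.snd.prodMk measurable_fst.snd)
  exact h1.mul (((measurable_pfM hΦ hf R).comp measurable_fst).mul
    ((measurable_wQ hΦ R).comp measurable_fst))

theorem gB_eq {R : CTree} {m : ℕ} (z : PhasePoint × Par R) (w : Config m) :
    gB Φ f₀ ε A T' R m z w = (goodS Φ ε R T').indicator (fun z =>
        tA Φ (fun z => ENNReal.ofReal (f₀ z)) ε R z * wQ Φ ε R z *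
          {z | TopHit Φ ε A.tw A.te R w z}.indicator 1 z) z := by
  unfold gB
  by_cases hz : z ∈ goodS Φ ε R T'
  · rw [indicator_of_mem hz]
    by_cases ht : TopHit Φ ε A.tw A.te R w z
    · rw [indicator_of_mem (show (z, w) ∈ {q : (PhasePoint × Par R) × Config m |
        q.1 ∈ goodS Φ ε R T' ∧ TopHit Φ ε A.tw A.te R q.2 q.1} from ⟨hz, ht⟩),
        indicator_of_mem (show z ∈ {z | TopHit Φ ε A.tw A.te R w z} from ht), Pi.one_apply, mul_one]
      simp only
      rw [wtM_of_adm hz.1.1, pfM_of_adm hz.1.1]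
      unfold tA pf
      ring
    · rw [indicator_of_notMem (show (z, w) ∉ {q : (PhasePoint × Par R) × Config m |
        q.1 ∈ goodS Φ ε R T' ∧ TopHit Φ ε A.tw A.te R q.2 q.1} from fun h => ht h.2),
        indicator_of_notMem (show z ∉ {z | TopHit Φ ε A.tw A.te R w z} from ht), mul_zero]
  · rw [indicator_of_notMem hz, indicator_of_notMem (show (z, w) ∉ {q : (PhasePoint × Par R) ×
      Config m | q.1 ∈ goodS Φ ε R T' ∧ TopHit Φ ε A.tw A.te R q.2 q.1} from fun h => hz h.1)]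

/-- One tree shape: the integrand of `act · TS`. -/
theorem integrand_le (hε : 0 < ε) (R : CTree) (hR : R.leaves ≤ K)
    (z : PhasePoint × Par R) :
    activity ε * {z : PhasePoint × Par R | Valid Φ ε R T' z.1.2 z.2}.indicator
      (fun z => wt Φ R z.1.2 z.2 * (pf Φ f₀ ε R z * gcE f₀ ε fun m w => HB Φ ε K A T' R z m w)) z ≤
    gcE f₀ ε fun n w => gB Φ f₀ ε A T' R n z w := by
  by_cases hz : Valid Φ ε R T' z.1.2 z.2
  swap
  · rw [indicator_of_notMem (show z ∉ {z : PhasePoint × Par R | Valid Φ ε R T' z.1.2 z.2} from hz),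
      mul_zero]
    exact bot_le
  rw [indicator_of_mem (show z ∈ {z : PhasePoint × Par R | Valid Φ ε R T' z.1.2 z.2} from hz)]
  have hact : (activity ε)⁻¹ ≠ ∞ := ENNReal.inv_ne_top.2 (activity_ne_zero hε)
  have hQ : wQ Φ ε R z ≠ ∞ := by
    unfold wQ
    exact ENNReal.sum_ne_top.2 fun _ _ => ENNReal.ofReal_ne_top
  have hpf : pf Φ f₀ ε R z ≠ ∞ := ENNReal.prod_ne_top fun _ _ => ENNReal.ofReal_ne_top
  have hwt : wt Φ R z.1.2 z.2 ≠ ∞ := Forest399.wt_ne_top R _ _
  set X : ℝ≥0∞ := gcE f₀ ε fun m w =>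
    {q : (PhasePoint × Par R) × Config m |
      q.1 ∈ goodS Φ ε R T' ∧ TopHit Φ ε A.tw A.te R q.2 q.1}.indicator 1 (z, w) with hX
  have e1 : (gcE f₀ ε fun m w => HB Φ ε K A T' R z m w) = ((activity ε)⁻¹ * wQ Φ ε R z) * X := by
    rw [hX, ← gcE_const_mul f₀ ε (ENNReal.mul_ne_top hact hQ)]
    refine gcE_congr f₀ ε fun m w _ => ?_
    unfold HB
    by_cases h : z ∈ goodS Φ ε R T' ∧ TopHit Φ ε A.tw A.te R w z
    · rw [if_pos ⟨hR, h⟩, indicator_of_mem (show (z, w) ∈ {q : (PhasePoint × Par R) × Config m |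
        q.1 ∈ goodS Φ ε R T' ∧ TopHit Φ ε A.tw A.te R q.2 q.1} from h), Pi.one_apply, mul_one]
    · rw [if_neg fun h' => h h'.2, indicator_of_notMem (show (z, w) ∉ {q : (PhasePoint × Par R) ×
        Config m | q.1 ∈ goodS Φ ε R T' ∧ TopHit Φ ε A.tw A.te R q.2 q.1} from h), mul_zero]
  have e2 : (gcE f₀ ε fun n w => gB Φ f₀ ε A T' R n z w) =
      (wt Φ R z.1.2 z.2 * (pf Φ f₀ ε R z * wQ Φ ε R z)) * X := by
    rw [hX, ← gcE_const_mul f₀ ε (ENNReal.mul_ne_top hwt (ENNReal.mul_ne_top hpf hQ))]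
    refine gcE_congr f₀ ε fun m w _ => ?_
    unfold gB
    by_cases h : z ∈ goodS Φ ε R T' ∧ TopHit Φ ε A.tw A.te R w z
    · rw [indicator_of_mem (show (z, w) ∈ {q : (PhasePoint × Par R) × Config m |
        q.1 ∈ goodS Φ ε R T' ∧ TopHit Φ ε A.tw A.te R q.2 q.1} from h),
        indicator_of_mem (show (z, w) ∈ {q : (PhasePoint × Par R) × Config m |
        q.1 ∈ goodS Φ ε R T' ∧ TopHit Φ ε A.tw A.te R q.2 q.1} from h), Pi.one_apply, mul_one]
      simp only
      rw [wtM_of_adm hz.1, pfM_of_adm hz.1]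
    · rw [indicator_of_notMem (show (z, w) ∉ {q : (PhasePoint × Par R) ×
        Config m | q.1 ∈ goodS Φ ε R T' ∧ TopHit Φ ε A.tw A.te R q.2 q.1} from h),
        indicator_of_notMem (show (z, w) ∉ {q : (PhasePoint × Par R) ×
        Config m | q.1 ∈ goodS Φ ε R T' ∧ TopHit Φ ε A.tw A.te R q.2 q.1} from h), mul_zero]
  rw [e1, e2]
  refine le_of_eq ?_
  calc activity ε * (wt Φ R z.1.2 z.2 * (pf Φ f₀ ε R z *
        (((activity ε)⁻¹ * wQ Φ ε R z) * X)))
      = (activity ε * (activity ε)⁻¹) * ((wt Φ R z.1.2 z.2 * (pf Φ f₀ ε R z * wQ Φ ε R z)) * X) := by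
        ring
    _ = _ := by
        rw [ENNReal.mul_inv_cancel (activity_ne_zero hε) (activity_ne_top ε), one_mul]

/-- **The tree integral of `HB`** is the quantity of (B)-null. -/
theorem TS_HB_le (hΦ : AdmissiblePotential Φ) (hf : Measurable f₀) (hε : 0 < ε) :
    activity ε * InEq2.TS Φ f₀ ε T' (HB Φ ε K A T') ≤
      gcE f₀ ε (fun _ w => ∑ R ∈ GIVStep383.trees K, ∫⁻ z, (goodS Φ ε R T').indicator (fun z =>
        tA Φ (fun z => ENNReal.ofReal (f₀ z)) ε R z * wQ Φ ε R z *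
          {z | TopHit Φ ε A.tw A.te R w z}.indicator 1 z) z) := by
  have e0 : ∀ R ∉ GIVStep383.trees K, (activity ε * ∫⁻ z : PhasePoint × Par R,
      {z : PhasePoint × Par R | Valid Φ ε R T' z.1.2 z.2}.indicator
      (fun z => wt Φ R z.1.2 z.2 * (pf Φ f₀ ε R z * gcE f₀ ε fun m w => HB Φ ε K A T' R z m w)) z)
      = 0 := by
    intro R hR
    have hR' : ¬ R.leaves ≤ K := fun hh => hR (GIVStep383.mem_trees.2 hh)
    have e3 : ∀ z : PhasePoint × Par R, (gcE f₀ ε fun m w => HB Φ ε K A T' R z m w) = 0 := by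
      intro z
      rw [← gcE_zero f₀ ε]
      congr 1
      funext m w
      unfold HB
      exact if_neg fun hh => hR' hh.1
    simp only [e3, mul_zero, indicator_zero, lintegral_zero]
  unfold InEq2.TS
  rw [← ENNReal.tsum_mul_left, tsum_eq_sum e0]
  have e1 : (gcE f₀ ε (fun (_ : ℕ) (w : Config _) => ∑ R ∈ GIVStep383.trees K,
      ∫⁻ z, (goodS Φ ε R T').indicator (fun z =>
        tA Φ (fun z => ENNReal.ofReal (f₀ z)) ε R z * wQ Φ ε R z *
          {z | TopHit Φ ε A.tw A.te R w z}.indicator 1 z) z)) =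
      ∑ R ∈ GIVStep383.trees K, gcE f₀ ε (fun n w => ∫⁻ z, gB Φ f₀ ε A T' R n z w) := by
    rw [← gcE_finset_sum hf ε (GIVStep383.trees K)
      (F := fun R n w => ∫⁻ z, gB Φ f₀ ε A T' R n z w)
      fun R _ n => ((measurable_gB hΦ hf hε A T' R n).comp measurable_swap).lintegral_prod_right']
    refine gcE_congr f₀ ε fun m w _ => Finset.sum_congr rfl fun R _ => lintegral_congr fun z => ?_
    exact (gB_eq z w).symm
  rw [e1]
  refine Finset.sum_le_sum fun R hR => ?_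
  rw [← lintegral_const_mul' _ _ (activity_ne_top ε)]
  refine (lintegral_mono fun z => integrand_le hε R (GIVStep383.mem_trees.1 hR) z).trans
    (le_of_eq ?_)
  refine BadHit370.lintegral_gcE hf ε (volume : Measure (PhasePoint × Par R))
      (F := fun n z w => gB Φ f₀ ε A T' R n z w) fun n => ?_
  exact measurable_gB hΦ hf hε A T' R n

/-- **The tree integral of `HB` is null**, uniformly in the window. -/
theorem exists_TS_HB (hD : KData Φ β T f₀ f) (K : ℕ) {T' : ℝ} (hT' : 0 ≤ T') :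
    ∃ q : ℝ → ℝ≥0∞, Tendsto q (𝓝[>] 0) (𝓝 0) ∧ ∀ ε, 0 < ε → ∀ A : EPar,
      activity ε * InEq2.TS Φ f₀ ε T' (HB Φ ε K A T') ≤ q ε := by
  have hΦ := hD.adm
  have hf : Measurable f₀ := hD.contDiff.continuous.measurable
  have h1 : ∫⁻ z, ENNReal.ofReal (f₀ z) ≤ 1 := (Q1815.lintegral_mass hD).le
  have hβ := hD.beta_pos
  have hmom := (Mom974.lintegral_f0_weight_ne_top (by linarith : 0 < 2 * β) hD.gaussian).1
  obtain ⟨C, hC, hb⟩ := exists_gaussian_bound hD.gaussian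
  have hk : ∀ z, ENNReal.ofReal (f₀ z) ≤
      ENNReal.ofReal (C * Real.exp (-(2 * β) * ‖z.2‖ ^ 2)) := by
    intro z
    refine ENNReal.ofReal_le_ofReal ?_
    have h2 := hb z.1 z.2
    have h3 : f₀ z ≤ ‖f₀ (z.1, z.2)‖ := le_abs_self _
    refine h3.trans (h2.trans (le_of_eq ?_))
    rw [neg_mul]
  obtain ⟨Cφ, hCφ, hw⟩ := exists_energy_weight_le hΦ (GIVStep383.trees K) hβ 1
  obtain ⟨q, hq, hle⟩ := bnull_tree hΦ hf h1 hmom hC hk (GIVStep383.trees K) hT' hCφ
    (by linarith : β < 2 * β)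
  refine ⟨q, hq, fun ε hε A => (TS_HB_le hΦ hf hε).trans
    (hle ε hε A.tw A.te (fun R z => wQ Φ ε R z) fun R hR z hz => ?_)⟩
  have h4 := hw R hR z.1.2 z.2 hz.1.1
  rw [pow_one] at h4
  refine le_trans (le_of_eq ?_) h4
  rw [wQ_eq hz.1.1]
  refine Finset.sum_congr rfl fun i _ => ?_
  rw [Hid424.lines_vel]

/-! ### Pointwise -/

/-- **Pointwise**: `FB` is at most `ways (HB)`. -/
theorem FB_le_ways (hΦ : AdmissiblePotential Φ) (hε : 0 < ε) (htw : 0 ≤ A.tw)
    (hT : A.te ≤ T') {k m : ℕ} (V : Config k) (w : Config m) (j : Fin k) :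
    FB Φ ε K A T' k m V w j ≤ ways Φ ε T' (fun R z => HB Φ ε K A T' R z m w) V j := by
  unfold FB
  split_ifs with h
  swap
  · exact bot_le
  obtain ⟨hJ, -, ⟨R, ℓ, p, e, ht, -⟩, r, q, l, hr, hold, hch, hl, hd⟩ := h
  have hσ := sgm_pos htw hJ
  have hσe := sgm_le hJ
  have h0 : 0 ≤ T' := (hσ.le.trans hσe).trans hT
  obtain ⟨e', he'⟩ := exists_equiv_block ht.inj (range_of_JI hε h0 htw hJ ht)
  have hlines : ∀ x, V (e' x) = lines Φ ε R ℓ p x := by
    intro x
    have h3 := ht.lines_eq hΦ hε h0 hσ x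
    rw [he' x] at h3
    rw [← h3]
    exact (Fin.append_left V w (e' x)).symm
  have hroot : e' (Tree674.root R) = j := by
    apply Fin.castAdd_injective k m
    rw [← he', ht.root]
  have hleaves : R.leaves ≤ K := by
    have h3 : Fintype.card (Idx R) = k := by
      rw [Fintype.card_congr e', Fintype.card_fin]
    rw [card_idx] at h3
    rw [h3]
    exact card_le_of_JI hΦ hε htw hJ
  refine le_trans ?_ (le_ways hΦ hε (G := fun R z => HB Φ ε K A T' R z m w) hroot ht.valid hlines)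
  have hgood : ((ℓ, p) : PhasePoint × Par R) ∈ goodS Φ ε R T' := ⟨ht.valid, ht.sep⟩
  have hmid := ht.mid hΦ hε hσ (hσe.trans hT) hr hold
  obtain ⟨x, -, hx⟩ := ht.chain_state hΦ hε hσ hch
  have hhit : TopHit Φ ε A.tw A.te R w (ℓ, p) := by
    refine ⟨sgm Φ ε K A V w j, ⟨hJ.2.1.1.le, hσe⟩, ?_, x, l, ?_⟩
    · cases R with
      | leaf =>
        -- the root of a leaf tree has no partner
        exfalso
        have h3 : r ∈ pre (Ct (pth Φ ε (cat V w)) ε) (Fin.castAdd m j) (sgm Φ ε K A V w j) 0 :=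
          mem_pre_of_oldCt hold hσ
        obtain ⟨y, hy, -⟩ := (ht.past 0 le_rfl hσ r).1 h3
        have h4 : y = Tree674.root leaf :=
          @Subsingleton.elim (Idx leaf) (inferInstanceAs (Subsingleton Unit)) _ _
        rw [h4, ht.root] at hy
        exact hr hy.symm
      | node R₁ R₂ => exact hmid
    · show dist (path Φ ε R ℓ p (sgm Φ ε K A V w j) x).1 (pth Φ ε w (sgm Φ ε K A V w j) l).1 ≤ ε
      rw [← hx, dist_comm]
      exact hd
  show bwt ε V w ≤ HB Φ ε K A T' R (ℓ, p) m w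
  unfold HB bwt
  rw [if_pos ⟨hleaves, hgood, hhit⟩]
  exact le_of_eq (congrArg _ (eW_block e' ht.valid.1 hlines))

/-- **`InB FB`.** -/
theorem inB_FB (hD : KData Φ β T f₀ f) (γ : ℝ → ℝ) (ρ : ℝ≥0∞) {h₀ : ℝ} (hh₀ : 0 < h₀) :
    InB Φ f₀ f T γ ρ h₀ FB := by
  have hΦ := hD.adm
  refine InB.of_null ⟨h₀, hh₀, 1, fun h L tw te hh hhle _ hL hw _ K => ?_⟩
  have htw : 0 ≤ tw := hw.nonneg
  have hteT : te ≤ tw + h₀ := hw.short.trans (by linarith)
  obtain ⟨q, hq, hb⟩ := exists_TS_HB hD K (T' := tw + h₀) (by linarith)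
  refine ⟨q, hq, eventually_nhdsWithin_of_forall fun ε hε => ?_⟩
  have hε' : 0 < ε := hε
  exact Bnd.of_H (measTS_HB hΦ hε' K (epar γ ρ L tw te) (tw + h₀)) (fun k m V w j _ _ _ =>
    FB_le_ways hΦ hε' htw hteT V w j) (hb ε hε' _)

end Crest.Agent.R122.InEq2BIn263

end
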