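import Crest.Agent.R122.InEq2Defs_311

/-!
# Row 122, INEQUALITY 2' (helper311): the root of a real history before an infection time

* `HTreeP.free` : if the root has no old contact at `σ`, it is on the root line of the tree at `σ`.
* `HTreeP.mid` : if it has one, `σ` is in the closed window of the top node.
* `HTreeP.state` : the members of the old contact cluster are at their tree positions.
* `card_preC_le` : the cluster before the infection time has at most `K` elements.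
-/

set_option autoImplicit false

open MeasureTheory Set Filter Topology
open scoped ENNReal
open Crest.AnalysisR.Kinetic
open Crest.Agent.R122.Flow671 Crest.Agent.R122.Loc45 Crest.Agent.R122.Causal291
open Crest.Agent.R122.Inf879 Crest.Agent.R122.GC311 Crest.Agent.R122.EDefs602
open Crest.Agent.R122.Kin796 Crest.Agent.R122.Kin796.CTree Crest.Agent.R122.Tree674
open Crest.Agent.R122.Relabel674 Crest.Agent.R122.PathFlow968

noncomputable section

open scoped Classical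

namespace Crest.Agent.R122.InEq2

variable {Φ : Space3 → ℝ} {ε : ℝ}

theorem inWindow_le_topOut (hε : 0 ≤ ε) {P : CTree} {T : ℝ} {v : Space3} {p : Par P}
    (ho : Ord Φ ε P T v p) {i j : Idx P} {u : ℝ} (h : InWindow Φ ε P v p i j u) :
    u ≤ topOut P p := by
  cases P with
  | leaf => exact h.elim
  | node l r =>
    have h1 := Tree674.sin_le Φ hε v p.1
    rcases h with h | ⟨i', j', -, -, h⟩ | ⟨i', j', -, -, h⟩
    · exact h.2.2.2
    · exact (PathFlow968.InWindow.mem hε l _ _ p.2.1 ho.2.2.1 i' j' u h).2.le.trans h1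
    · exact (PathFlow968.InWindow.mem hε r _ _ p.2.2 ho.2.2.2 i' j' u h).2.le.trans h1

/-- After the exit time of the top node the root is on its line. -/
theorem path_root_topOut (hε : 0 ≤ ε) {P : CTree} {T : ℝ} {ℓ : PhasePoint} {p : Par P}
    (ho : Ord Φ ε P T ℓ.2 p) {u : ℝ} (hu : topOut P p < u) :
    path Φ ε P ℓ p u (Tree674.root P) = onLine ℓ u := by
  cases P with
  | leaf => rfl
  | node l r =>
    have h1 : Tree674.Ord Φ ε (node l r) u ℓ.2 p := ⟨hu, ho.2.1, ho.2.2.1, ho.2.2.2⟩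
    exact path_root_after hε h1 le_rfl

section hist

variable {T' σ : ℝ} {κ : Type} [Fintype κ] {Z : κ → PhasePoint} {i : κ} {P : CTree}
  {ℓ : PhasePoint} {p : Par P} {e : Idx P → κ}

theorem HTreeP.mem_pre_prot (h : HTreeP Φ ε T' σ Z i P ℓ p e) {x : Idx P}
    (hx : ∀ s, 0 ≤ s → s < σ → e x ∈ pre (Ct (pth Φ ε Z) ε) i σ s) {s : ℝ} (hs0 : 0 ≤ s)
    (hs : s < σ) : s ≤ prot P T' p x := by
  obtain ⟨m, hm, hs'⟩ := (h.past s hs0 hs (e x)).1 (hx s hs0 hs)
  rw [h.inj hm] at hs'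
  exact hs'

/-- The state at `σ` of a particle which is in the past at all times before `σ`. -/
theorem HTreeP.state (h : HTreeP Φ ε T' σ Z i P ℓ p e) (hΦ : AdmissiblePotential Φ) (hε : 0 < ε)
    (hσ : 0 < σ) {x : Idx P}
    (hx : ∀ s, 0 ≤ s → s < σ → e x ∈ pre (Ct (pth Φ ε Z) ε) i σ s) :
    pth Φ ε Z σ (e x) = path Φ ε P ℓ p σ x := by
  have h1 : Continuous fun s => pth Φ ε Z s (e x) := continuous_pth hΦ hε Z (e x)
  have h2 : Continuous fun s => path Φ ε P ℓ p s x :=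
    (continuous_apply x).comp (Tree674.continuous_path hΦ hε h.valid)
  have h3 : ∀ᶠ s in 𝓝[<] σ, pth Φ ε Z s (e x) = path Φ ε P ℓ p s x := by
    filter_upwards [self_mem_nhdsWithin, mem_nhdsWithin_of_mem_nhds (lt_mem_nhds hσ)] with s hs hs0
    exact h.agree x s (le_of_lt hs0) hs (h.mem_pre_prot hx (le_of_lt hs0) hs)
  have h4 : Tendsto (fun s => pth Φ ε Z s (e x)) (𝓝[<] σ) (𝓝 (pth Φ ε Z σ (e x))) :=
    (h1.tendsto σ).mono_left nhdsWithin_le_nhds
  have h5 : Tendsto (fun s => path Φ ε P ℓ p s x) (𝓝[<] σ) (𝓝 (path Φ ε P ℓ p σ x)) :=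
    (h2.tendsto σ).mono_left nhdsWithin_le_nhds
  exact tendsto_nhds_unique (h4.congr' h3) h5 

theorem HTreeP.root_mem (h : HTreeP Φ ε T' σ Z i P ℓ p e) (s : ℝ) (hs : s < σ) :
    e (Tree674.root P) ∈ pre (Ct (pth Φ ε Z) ε) i σ s := by
  rw [h.root]
  exact mem_pre_self hs

/-- **Free root**: the root is on the root line at `σ`. -/
theorem HTreeP.free (h : HTreeP Φ ε T' σ Z i P ℓ p e) (hΦ : AdmissiblePotential Φ) (hε : 0 < ε)
    (hσ : 0 < σ) (hσT : σ ≤ T') (hfree : ∀ r, r ≠ i → ¬ OldCt (Ct (pth Φ ε Z) ε) σ i r) :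
    pth Φ ε Z σ i = onLine ℓ σ := by
  have hst : pth Φ ε Z σ (e (Tree674.root P)) = path Φ ε P ℓ p σ (Tree674.root P) :=
    h.state hΦ hε hσ fun s _ hs => h.root_mem s hs
  rw [h.root] at hst
  rw [hst]
  cases P with
  | leaf => rfl
  | node l r =>
    rcases lt_or_ge (topOut (node l r) p) σ with h1 | h1
    · exact path_root_topOut hε.le h.valid.2 h1
    · exfalso
      have hne : e (Sum.inr (Tree674.root r)) ≠ i := by
        intro h2
        rw [← h.root] at h2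
        have h3 := h.inj h2
        simp [Tree674.root] at h3
      refine hfree (e (Sum.inr (Tree674.root r))) hne ?_
      have h4 : ∀ᶠ s in 𝓝[<] σ, Ct (pth Φ ε Z) ε s i (e (Sum.inr (Tree674.root r))) := by
        filter_upwards [self_mem_nhdsWithin, mem_nhdsWithin_of_mem_nhds (lt_mem_nhds hσ),
          mem_nhdsWithin_of_mem_nhds (lt_mem_nhds h.top)] with s hs hs0 hs1
        have hs' : s < σ := hs
        have hs0' : 0 < s := hs0
        have hs1' : Tree674.sin Φ ε ℓ.2 p.1 < s := hs1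
        have hw : InWindow Φ ε (node l r) ℓ.2 p (Sum.inl (Tree674.root l)) (Sum.inr (Tree674.root r)) s :=
          Or.inl ⟨rfl, rfl, hs1'.le, hs'.le.trans h1⟩
        have hp := InWindow.le_prot hε.le (node l r) T' ℓ.2 p h.valid.2 _ _ s hw
        have hd := InWindow.dist_le hΦ hε (node l r) T' ℓ p h.valid _ _ s hw
        have e1 := h.agree (Sum.inl (Tree674.root l)) s hs0'.le hs' hp.1
        have e2 := h.agree (Sum.inr (Tree674.root r)) s hs0'.le hs' hp.2
        have e3 : e (Sum.inl (Tree674.root l)) = i := h.root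
        rw [e3] at e1
        show dist (pth Φ ε Z s i).1 (pth Φ ε Z s (e (Sum.inr (Tree674.root r)))).1 ≤ ε
        rw [e1, e2]
        exact hd
      exact h4.frequently

/-- **Root in the middle of an encounter**: `σ` is in the closed window of the top node. -/
theorem HTreeP.mid (h : HTreeP Φ ε T' σ Z i P ℓ p e) (hΦ : AdmissiblePotential Φ) (hε : 0 < ε)
    (hσ : 0 < σ) (hσT : σ ≤ T') {r : κ} (hr : r ≠ i) (hold : OldCt (Ct (pth Φ ε Z) ε) σ i r) :
    topIn Φ ε P ℓ.2 p ≤ σ ∧ σ ≤ topOut P p := by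
  refine ⟨h.top.le, ?_⟩
  by_contra hlt
  rw [not_le] at hlt
  -- the partner is a member of the tree
  have hmem : ∀ s, 0 ≤ s → s < σ → r ∈ pre (Ct (pth Φ ε Z) ε) i σ s := fun s _ hs =>
    mem_pre_of_oldCt hold hs
  obtain ⟨y, hy, -⟩ := (h.past 0 le_rfl hσ r).1 (hmem 0 le_rfl hσ)
  have hyr : y ≠ Tree674.root P := by
    rintro rfl
    exact hr (by rw [← hy, h.root])
  have hm : max (topOut P p) 0 < σ := max_lt hlt hσ
  obtain ⟨s, hs1, hs2, hc⟩ := hold.exists_between hm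
  have hs0 : 0 < s := (le_max_right _ _).trans_lt hs1
  have ha1 := h.agree (Tree674.root P) s hs0.le hs2
    (h.mem_pre_prot (fun s' _ hs' => h.root_mem s' hs') hs0.le hs2)
  have ha2 := h.agree y s hs0.le hs2
    (h.mem_pre_prot (fun s' h0 hs' => by rw [hy]; exact hmem s' h0 hs') hs0.le hs2)
  rw [h.root] at ha1
  rw [hy] at ha2
  have hd : Ct (path Φ ε P ℓ p) ε s (Tree674.root P) y := by
    show dist _ _ ≤ ε
    rw [← ha1, ← ha2]
    exact hc
  rcases (ct_iff hΦ hε h.valid h.sep ⟨hs0.le, (hs2.le.trans hσT)⟩).1 hd with h1 | h1 | h1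
  · exact hyr h1.symm
  · exact absurd (inWindow_le_topOut hε.le h.valid.2 h1)
      (not_le.2 ((le_max_left _ _).trans_lt hs1))
  · exact absurd (inWindow_le_topOut hε.le h.valid.2 h1)
      (not_le.2 ((le_max_left _ _).trans_lt hs1))

/-- Members of the old contact cluster of the root. -/
theorem HTreeP.chain_state (h : HTreeP Φ ε T' σ Z i P ℓ p e) (hΦ : AdmissiblePotential Φ)
    (hε : 0 < ε) (hσ : 0 < σ) {q : κ}
    (hq : Relation.ReflTransGen (OldCt (Ct (pth Φ ε Z) ε) σ) i q) :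
    ∃ x, e x = q ∧ pth Φ ε Z σ q = path Φ ε P ℓ p σ x := by
  have hs : ∀ s j k, Ct (pth Φ ε Z) ε s j k → Ct (pth Φ ε Z) ε s k j := fun s j k h => by
    have h' : dist _ _ ≤ ε := h
    show dist _ _ ≤ ε
    rwa [dist_comm]
  have hmem : ∀ s, 0 ≤ s → s < σ → q ∈ pre (Ct (pth Φ ε Z) ε) i σ s := fun s _ hsσ =>
    mem_pre_of_chain hs hq hsσ
  obtain ⟨x, hx, -⟩ := (h.past 0 le_rfl hσ q).1 (hmem 0 le_rfl hσ)
  refine ⟨x, hx, ?_⟩
  rw [← hx]
  exact h.state hΦ hε hσ fun s h0 hsσ => by rw [hx]; exact hmem s h0 hsσ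

end hist

/-! ### The cluster before the infection time -/

/-- Near `σ` the closed clusters before `σ` are the cluster strictly before `σ`. -/
theorem exists_BC_eq_pre {ι : Type*} [Finite ι] {C : ℝ → ι → ι → Prop} {i : ι} {σ : ℝ}
    (hσ : 0 < σ) : ∃ s₀, 0 ≤ s₀ ∧ s₀ < σ ∧ ∀ s, s₀ ≤ s → s < σ → BC C s i = pre C i σ 0 := by
  have hfin : (pre C i σ 0).Finite := toFinite _
  have h1 : ∀ k ∈ pre C i σ 0, ∃ s, 0 ≤ s ∧ s < σ ∧ Past C s i 0 k := by
    rintro k ⟨s, hs, hp⟩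
    exact ⟨s, hs.1, hs.2, hp⟩
  choose! f hf0 hfσ hfp using h1
  obtain ⟨s₀, hs₀, hs₀'⟩ : ∃ s₀, s₀ < σ ∧ 0 ≤ s₀ ∧ ∀ k ∈ pre C i σ 0, f k ≤ s₀ := by
    have hb : ∃ s₀, s₀ ∈ Ico 0 σ ∧ ∀ k ∈ pre C i σ 0, f k ≤ s₀ := by
      have hne : (hfin.toFinset.image f ∪ {0}).Nonempty := ⟨0, by simp⟩
      refine ⟨(hfin.toFinset.image f ∪ {0}).max' hne, ⟨?_, ?_⟩, ?_⟩
      · exact Finset.le_max' _ _ (by simp)
      · rw [Finset.max'_lt_iff]
        intro y hy
        rcases Finset.mem_union.1 hy with hy | hy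
        · obtain ⟨k, hk, rfl⟩ := Finset.mem_image.1 hy
          exact hfσ k (hfin.mem_toFinset.1 hk)
        · rw [Finset.mem_singleton.1 hy]; exact hσ
      · intro k hk
        exact Finset.le_max' _ _ (Finset.mem_union.2 (Or.inl
          (Finset.mem_image.2 ⟨k, hfin.mem_toFinset.2 hk, rfl⟩)))
    obtain ⟨s₀, h, h'⟩ := hb
    exact ⟨s₀, h.2, h.1, h'⟩
  refine ⟨s₀, hs₀'.1, hs₀, fun s hs hsσ => ?_⟩
  ext k
  constructor
  · intro hk
    exact ⟨s, ⟨hs₀'.1.trans hs, hsσ⟩, hk⟩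
  · intro hk
    exact past_mono_time ((hs₀'.2 k hk).trans hs) (hfp k hk)

/-- The cluster strictly before the infection time has at most `K` elements. -/
theorem card_preC_le (hΦ : AdmissiblePotential Φ) (hε : 0 < ε) {K n : ℕ} {T : ℝ} {w : Config n}
    {q : Fin n} (hσ : 0 < iTime Φ ε K T w q) :
    (preC Φ ε w (iTime Φ ε K T w q) q).card ≤ K := by
  obtain ⟨s₀, h0, h1, h2⟩ := exists_BC_eq_pre (C := Ct (pth Φ ε w) ε) (i := q) hσ
  have h3 : (↑(preC Φ ε w (iTime Φ ε K T w q) q) : Set (Fin n)) =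
      BC (Ct (pth Φ ε w) ε) s₀ q := by
    rw [h2 s₀ le_rfl h1]
    ext k
    rw [Finset.mem_coe]
    exact mem_preC_iff_pre w hσ q k
  have h4 : gasSize Φ ε n w s₀ q ≤ K := size_le_of_lt_sig h0 h1
  have h5 : gasSize Φ ε n w s₀ q = (BC (Ct (pth Φ ε w) ε) s₀ q).ncard := rfl
  rw [h5, ← h3, ncard_coe_finset] at h4
  exact h4

end Crest.Agent.R122.InEq2

end
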