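import Crest.Agent.R122.InEq2A_263
import Crest.Agent.R122.InEq2Hist_311
import Crest.Agent.R122.TreeDom_974
import Crest.Agent.R122.RtGDet_302

/-!
# Row 122, INEQUALITY 2', the untouched flux term (F_A): pointwise bound (helper263)

* `exists_equiv_block` : a labelling of the block is an equivalence with `Fin k`.
* `hid_of_protT` : the hidden tubes are unhit if the protected tubes are.
* `case_A` : in case (A) (free root, new contact with a particle infected before `σ`, untouched
  before `σ`), `bw · Wm_w(σ) ≤ ways (HA)`.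
-/

set_option autoImplicit false

open MeasureTheory Set Filter
open scoped ENNReal
open Crest.AnalysisR.Kinetic
open Crest.Agent.R122.Flow671 Crest.Agent.R122.Loc45 Crest.Agent.R122.Causal291
open Crest.Agent.R122.Inf879 Crest.Agent.R122.GC311 Crest.Agent.R122.EDefs602
open Crest.Agent.R122.Kin796 Crest.Agent.R122.Kin796.CTree Crest.Agent.R122.Tree674
open Crest.Agent.R122.InEq2 Crest.Agent.R122.InEq2U263 Crest.Agent.R122.MeasE416
open Crest.Agent.R122.Hid424 Crest.Agent.R122.QDens815 Crest.Agent.R122.Q1815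
open Crest.Agent.R122.GIV566 Crest.Agent.R122.Unw410 Crest.Agent.R122.ToTree335
open Crest.Agent.R122.EW370 Crest.Agent.R122.TreeBound335

noncomputable section

open scoped Classical

namespace Crest.Agent.R122.InEq2A263

variable {Φ : Space3 → ℝ} {f₀ : PhasePoint → ℝ} {ε : ℝ} {K : ℕ} {P : EPar}

/-- A labelling of the block is an equivalence with `Fin k`. -/
theorem exists_equiv_block {α : Type*} {k m : ℕ} {e : α → Fin (k + m)} (hinj : Function.Injective e)
    (hrange : range e = ((block k m : Finset (Fin (k + m))) : Set (Fin (k + m)))) :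
    ∃ e' : α ≃ Fin k, ∀ x, e x = Fin.castAdd m (e' x) := by
  have h1 : ∀ x, ∃ j : Fin k, Fin.castAdd m j = e x := by
    intro x
    have h2 : e x ∈ ((block k m : Finset (Fin (k + m))) : Set (Fin (k + m))) := by
      rw [← hrange]; exact mem_range_self x
    exact mem_block.1 (Finset.mem_coe.1 h2)
  choose g hg using h1
  have hb : Function.Bijective g := by
    constructor
    · intro x y hxy
      apply hinj
      rw [← hg x, ← hg y, hxy]
    · intro j
      have h2 : Fin.castAdd m j ∈ range e := by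
        rw [hrange]
        exact Finset.mem_coe.2 (castAdd_mem_block j)
      obtain ⟨x, hx⟩ := h2
      refine ⟨x, ?_⟩
      apply Fin.castAdd_injective k m
      rw [hg x, hx]
  exact ⟨Equiv.ofBijective g hb, fun x => (hg x).symm⟩

/-- The hidden tubes are unhit up to `t` if the protected tubes are. -/
theorem hid_of_protT (hΦ : AdmissiblePotential Φ) (hε : 0 < ε) {R : CTree} {T' : ℝ}
    (hT : 0 ≤ T') {z : PhasePoint × Par R} (hv : Valid Φ ε R T' z.1.2 z.2)
    (hs : Sep Φ ε R T' z.1 z.2) {κ : Type*} [Fintype κ] {w : κ → PhasePoint} {t : ℝ}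
    (h : unhit Φ ε (RtG302.protT Φ ε R T' z) t w) : unhit Φ ε (hid Φ ε R z.1 z.2) t w := by
  intro x j s hs'
  have h1 : hS Φ R z.1.2 z.2 x ≤ prot R T' z.2 x :=
    hS_le_prot R (by linarith) z.1.2 z.2 (TreeDom974.valid_zero hε.le hv) x
  have h2 : s ≤ min (hS Φ R z.1.2 z.2 x) t := hs'.2
  have h3 : prot R T' z.2 x ≤ T' := PathFlow968.prot_le hε.le R T' z.1.2 z.2 hv.2 x
  have h4 : curve Φ ε R z.1 z.2 x s = (path Φ ε R z.1 z.2 s x).1 :=
    curve_eq_path (X := z.1.1) (v := z.1.2) hΦ hε hv hs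
      ⟨hs'.1, (h2.trans (min_le_left _ _)).trans (h1.trans h3)⟩ x
  have h5 := h x j s ⟨hs'.1, h2.trans (min_le_min_right _ h1)⟩
  show ε < dist (curve Φ ε R z.1 z.2 x s) (pth Φ ε w s j).1
  rw [h4]
  exact h5

/-- Pointwise bound from one contact of the free root line with an infected particle of `w`. -/
theorem le_ways_HA (hΦ : AdmissiblePotential Φ) (hε : 0 < ε) (hL : 0 ≤ P.L) {T' σ : ℝ}
    (hT : 0 ≤ T') (hσ : 0 < σ) {k m : ℕ} {V : Config k} {w : Config m} {j : Fin k} (hk : k ≤ K)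
    (h1 : P.tw ≤ σ) (h2 : σ ≤ P.te) {R : CTree} {ℓ : PhasePoint} {p : Par R}
    {e : Idx R → Fin (k + m)}
    (h : HTreeP Φ ε T' σ (Fin.append V w) (Fin.castAdd m j) R ℓ p e)
    (hrange : range e = ((block k m : Finset (Fin (k + m))) : Set (Fin (k + m))))
    (hun : unhit Φ ε (RtG302.protT Φ ε R T' (ℓ, p)) P.tw w)
    (hroot : pth Φ ε (Fin.append V w) σ (Fin.castAdd m j) = onLine ℓ σ)
    {i : Fin m} (hi : iTime Φ ε K P.te w i ≤ σ)
    (hd : dist (pth Φ ε (Fin.append V w) σ (Fin.castAdd m j)).1 (pth Φ ε w σ i).1 ≤ ε) :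
    (activity ε)⁻¹ * (eW (Fin.append V w : Config (k + m)) (block k m) *
      (MW.cfg w).Wm Φ ε K P σ) ≤
      ways Φ ε T' (fun R z => HA Φ ε K P R z m w) V j := by
  obtain ⟨e', he'⟩ := exists_equiv_block h.inj hrange
  have hlines : ∀ x, V (e' x) = lines Φ ε R ℓ p x := by
    intro x
    have h3 := h.lines_eq hΦ hε hT hσ x
    rw [he' x, Fin.append_left] at h3
    exact h3
  have hr : e' (Tree674.root R) = j := by
    apply Fin.castAdd_injective k m
    rw [← he', h.root]
  refine le_trans ?_ (le_ways hΦ hε (G := fun R z => HA Φ ε K P R z m w) hr h.valid hlines)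
  have hleaves : R.leaves ≤ K := by
    have h3 : Fintype.card (Idx R) = k := by
      rw [Fintype.card_congr e', Fintype.card_fin]
    rw [card_idx] at h3
    rw [h3]
    exact hk
  show _ ≤ HA Φ ε K P R (ℓ, p) m w
  unfold HA
  rw [if_pos hleaves, hidM_of_adm h.valid.1]
  have hu : unhitInd Φ ε (hid Φ ε R ℓ p) P.tw w = 1 := by
    unfold unhitInd
    rw [if_pos (hid_of_protT hΦ hε hT h.valid h.sep hun)]
  have hw : eW (Fin.append V w : Config (k + m)) (block k m) = wQ Φ ε R (ℓ, p) :=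
    eW_block e' h.valid.1 hlines
  show _ ≤ (activity ε)⁻¹ * (wQ Φ ε R (ℓ, p) *
    (unhitInd Φ ε (hid Φ ε R ℓ p) P.tw w * hA Φ ε K P w ℓ))
  rw [hu, one_mul, hw]
  refine mul_le_mul_right (mul_le_mul_right ?_ _) _
  refine le_hA hΦ hε hL h1 h2 hi ?_
  rw [hroot] at hd
  exact hd

/-- **Case (A)**: free root, new contact with a particle infected before `σ`, untouched. -/
theorem case_A (hΦ : AdmissiblePotential Φ) (hε : 0 < ε) (hL : 0 ≤ P.L) (htw : 0 ≤ P.tw)
    {T' : ℝ} (hT : P.te ≤ T') {k m : ℕ} {V : Config k} {w : Config m} {j : Fin k} (hk : k ≤ K)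
    (hX : (Fin.append V w : Config (k + m)) ∈ PairExcluded ε (k + m))
    (hJ : Joins Φ ε K P (Fin.append V w : Config (k + m)) (Fin.castAdd m j))
    {R : CTree} {ℓ : PhasePoint} {p : Par R} {e : Idx R → Fin (k + m)}
    (h : HTreeP Φ ε T' (iTime Φ ε K P.te (Fin.append V w : Config (k + m)) (Fin.castAdd m j))
      (Fin.append V w) (Fin.castAdd m j) R ℓ p e)
    (hrange : range e = ((block k m : Finset (Fin (k + m))) : Set (Fin (k + m))))
    (hun : unhit Φ ε (RtG302.protT Φ ε R T' (ℓ, p)) P.tw w)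
    (hfree : ∀ r, r ≠ Fin.castAdd m j → ¬ OldCt (Ct (pth Φ ε (Fin.append V w)) ε)
      (iTime Φ ε K P.te (Fin.append V w : Config (k + m)) (Fin.castAdd m j)) (Fin.castAdd m j) r)
    {q : Fin (k + m)} (hnew : Ct (pth Φ ε (Fin.append V w)) ε
      (iTime Φ ε K P.te (Fin.append V w : Config (k + m)) (Fin.castAdd m j)) (Fin.castAdd m j) q)
    (hq : GInfB Φ ε K (Fin.append V w)
      (iTime Φ ε K P.te (Fin.append V w : Config (k + m)) (Fin.castAdd m j)) q)
    (htch : ∀ s < iTime Φ ε K P.te (Fin.append V w : Config (k + m)) (Fin.castAdd m j),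
      ¬ TchV Φ ε K V w s) :
    (activity ε)⁻¹ * (eW (Fin.append V w : Config (k + m)) (block k m) *
      (MW.cfg w).Wm Φ ε K P
        (iTime Φ ε K P.te (Fin.append V w : Config (k + m)) (Fin.castAdd m j))) ≤
      ways Φ ε T' (fun R z => HA Φ ε K P R z m w) V j := by
  have hσ : 0 < iTime Φ ε K P.te (Fin.append V w : Config (k + m)) (Fin.castAdd m j) :=
    htw.trans_lt hJ.1
  have hDom : (Fin.append V w : Config (k + m)) ∈ Dom Φ (Fin (k + m)) :=
    Flow671.pairExcluded_subset_Dom hε (k + m) hX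
  obtain ⟨l, rfl, hl, hag⟩ := infB_of_untouched hΦ hε hDom htch hq
  have h0 : 0 ≤ T' := (hσ.le.trans hJ.2).trans hT
  refine le_ways_HA hΦ hε hL h0 hσ hk hJ.1.le hJ.2 h hrange hun
    (h.free hΦ hε hσ (hJ.2.trans hT) hfree) (i := l) ?_ ?_
  · have h3 := (gInfB_iff_sig hΦ hε (b := P.te + 1) (hJ.2.trans (by linarith))).1 hl
    exact h3.le
  · rw [hag _ ⟨hσ.le, le_rfl⟩]
    exact hnew

end Crest.Agent.R122.InEq2A263

end
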