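import Crest.Agent.R122.InEq2M_311
import Crest.Agent.R122.InEq2APt_263
import Crest.Agent.R122.Q1Data_815

/-!
# Row 122, INEQUALITY 2' (helper311): the main term `FA`

`inB_FA` : binding of helper263's flux bound (`fluxA`, `le_ways_HA`).
-/

set_option autoImplicit false

open MeasureTheory Set Filter Topology
open scoped ENNReal
open Crest.AnalysisR.Kinetic
open Crest.Agent.R122.Master566 Crest.Agent.R122.GIV566 Crest.Agent.R122.Top602
open Crest.Agent.R122.EDefs602 Crest.Agent.R122.GC311 Crest.Agent.R122.Causal291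
open Crest.Agent.R122.Kin796 Crest.Agent.R122.Kin796.CTree Crest.Agent.R122.Tree674
open Crest.Agent.R122.TreeBound335 Crest.Agent.R122.ToTree335 Crest.Agent.R122.Band974

noncomputable section

open scoped Classical

namespace Crest.Agent.R122.InEq2

variable {Φ : Space3 → ℝ} {f₀ : PhasePoint → ℝ} {f : ℝ → PhasePoint → ℝ} {ε : ℝ} {K : ℕ}
  {A : EPar} {T' : ℝ}

section basic

variable {k m : ℕ} {V : Config k} {w : Config m} {j : Fin k}

theorem JI.pos (h : JI Φ ε K A V w j) (htw : 0 ≤ A.tw) : 0 < sgm Φ ε K A V w j :=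
  htw.trans_lt h.2.1.1

/-- The cluster strictly before the infection time has at most `K` members. -/
theorem JI.le_K (h : JI Φ ε K A V w j) (hΦ : AdmissiblePotential Φ) (hε : 0 < ε)
    (htw : 0 ≤ A.tw) : k ≤ K := by
  have h1 := card_preC_le (K := K) (T := A.te) (w := cat V w) (q := Fin.castAdd m j) hΦ hε
    (h.pos htw)
  have h2 : preC Φ ε (cat V w) (iTime Φ ε K A.te (cat V w) (Fin.castAdd m j))
      (Fin.castAdd m j) = block k m := h.1
  rw [h2, card_block] at h1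
  exact h1

/-- The labels of the tree of the history write the block. -/
theorem JI.range_eq (h : JI Φ ε K A V w j) (hε : 0 < ε) (htw : 0 ≤ A.tw) (hT' : 0 ≤ T')
    {P : CTree} {ℓ : PhasePoint} {p : Par P} {e : Idx P → Fin (k + m)}
    (hH : HTreeP Φ ε T' (sgm Φ ε K A V w j) (cat V w) (Fin.castAdd m j) P ℓ p e) :
    range e = ↑(block k m) := by
  rw [hH.range_eq hε hT' (h.pos htw), ← h.1]
  ext x
  rw [Finset.mem_coe]
  exact (mem_preC_iff_pre (cat V w) (h.pos htw) (Fin.castAdd m j) x).symm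

/-- A particle of `w` infected before is infected at `σ`. -/
theorem iTime_le_of_gInfB (hΦ : AdmissiblePotential Φ) (hε : 0 < ε) {n : ℕ} {Z : Config n}
    {σ : ℝ} (hσ : σ ≤ A.te + 1) {i : Fin n} (h : GInfB Φ ε K Z σ i) :
    iTime Φ ε K A.te Z i ≤ σ := ((gInfB_iff_sig hΦ hε hσ).1 h).le

end basic

/-- Pointwise bound of `FA` by helper263's functional. -/
theorem FA_le_ways (hΦ : AdmissiblePotential Φ) (hε : 0 < ε) (hL : 0 ≤ A.L) (htw : 0 ≤ A.tw)
    (hT' : 0 ≤ T') (hte : A.te ≤ T') {k m : ℕ} (V : Config k) (w : Config m) (j : Fin k) :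
    FA Φ ε K A T' k m V w j ≤ ways Φ ε T' (fun R z => InEq2A263.HA Φ ε K A R z m w) V j := by
  unfold FA
  by_cases h : JI Φ ε K A V w j ∧ Untch Φ ε K A V w j ∧ HTU Φ ε K A T' V w j ∧
      HitA Φ ε K A V w j
  swap
  · rw [if_neg h]
    exact zero_le
  rw [if_pos h]
  obtain ⟨hJ, -, ⟨P, ℓ, p, e, hH, hu⟩, hfree, l, hl, hd⟩ := h
  have hσe : sgm Φ ε K A V w j ≤ A.te := hJ.2.1.2
  have hroot : pth Φ ε (Fin.append V w) (sgm Φ ε K A V w j) (Fin.castAdd m j) =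
      onLine ℓ (sgm Φ ε K A V w j) :=
    hH.free hΦ hε (hJ.pos htw) (hσe.trans hte) hfree
  have h1 := InEq2A263.le_ways_HA (P := A) (K := K) hΦ hε hL hT' (hJ.pos htw) (V := V) (w := w)
    (j := j) (hJ.le_K hΦ hε htw) hJ.2.1.1.le hσe hH (hJ.range_eq hε htw hT' hH) hu hroot
    (i := l) (iTime_le_of_gInfB (A := A) hΦ hε (by linarith) hl) (by rw [dist_comm]; exact hd)
  rw [← mul_assoc] at h1
  exact h1

/-- **The main term.** -/
theorem inB_FA {β T : ℝ} {γ : ℝ → ℝ} {ρ : ℝ≥0∞} (hD : KData Φ β T f₀ f) :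
    ∃ h₁ : ℝ, 0 < h₁ ∧ ∀ h₀ : ℝ, 0 < h₀ → h₀ ≤ h₁ → InB Φ f₀ f T γ ρ h₀ FA := by
  obtain ⟨h₁, hh₁, c, hc, hflux⟩ := InEq2A263.fluxA (f₀ := f₀) hD.adm hD.beta_pos hD.T_pos hD.sol
  refine ⟨h₁, hh₁, fun h₀ hh₀ hle => ?_⟩
  have hcB : c * 2 * ENNReal.ofReal (Unw410.cB Φ) ≠ ∞ :=
    ENNReal.mul_ne_top (ENNReal.mul_ne_top hc (by norm_num)) ENNReal.ofReal_ne_top
  refine ⟨0, ENNReal.zero_ne_top, fun h _ => (c * 2 * ENNReal.ofReal (Unw410.cB Φ)) *
    ENNReal.ofReal h, Vanish.length.const_mul hcB, ?_⟩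
  refine ⟨h₀, hh₀, 1, fun h L tw te hh hhle _ hL1 hwin hIH => ?_⟩
  have htw : tw ∈ Icc 0 T := ⟨hwin.nonneg, hwin.le.trans hwin.le_T⟩
  have hT' : tw + h₀ ∈ Icc 0 (tw + h₁) := ⟨by linarith [hwin.nonneg], by linarith⟩
  have hT'pos : 0 < tw + h₀ := by linarith [hwin.nonneg]
  have hL : (0 : ℝ) ≤ L := zero_le_one.trans hL1
  obtain ⟨q, hq, hb⟩ := hflux (epar γ ρ L tw te) (tw + h₀) (tw + h₀)
    (Q1815.Ctx.of_ih hD htw hIH hT'pos) hL hwin.le hT' le_rfl
  refine ⟨fun K ε => (c * 2 * ENNReal.ofReal h) * (⨆ s ∈ Icc 0 tw, JE Φ f₀ ε K s) + q K ε,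
    (hIH.je.const_mul (ENNReal.mul_ne_top (ENNReal.mul_ne_top hc (by norm_num))
      ENNReal.ofReal_ne_top)).add hq.small, ?_⟩
  refine EvK.ev (EvK.of_eps hh fun K ε hε hlt => ?_)
  refine Bnd.of_H (H := InEq2A263.HA Φ ε K (epar γ ρ L tw te))
    (InEq2A263.measTS_HA hD.adm hε K _) (fun k m V w j _ _ _ => ?_) ?_
  · refine FA_le_ways hD.adm hε hL hwin.nonneg hT'.1 ?_ V w j
    have := hwin.short
    show te ≤ tw + h₀
    linarith
  · refine (hb K ε hε).trans ?_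
    have h1 : ENNReal.ofReal (ε + (te - tw)) ≤ 2 * ENNReal.ofReal h := by
      have h2 : (2 : ℝ≥0∞) * ENNReal.ofReal h = ENNReal.ofReal (2 * h) := by
        rw [ENNReal.ofReal_mul (by norm_num)]
        norm_num
      rw [h2]
      refine ENNReal.ofReal_le_ofReal ?_
      linarith [hwin.short]
    have h3 : JE Φ f₀ ε K tw ≤ ⨆ s ∈ Icc 0 tw, JE Φ f₀ ε K s :=
      le_iSup₂ (f := fun s (_ : s ∈ Icc 0 tw) => JE Φ f₀ ε K s) tw ⟨hwin.nonneg, le_rfl⟩
    calc c * ENNReal.ofReal (ε + (te - tw)) *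
          (JE Φ f₀ ε K tw + ENNReal.ofReal (Unw410.cB Φ) * aE Φ f₀ ε K (epar γ ρ L tw te)) +
          q K ε
        ≤ c * (2 * ENNReal.ofReal h) * ((⨆ s ∈ Icc 0 tw, JE Φ f₀ ε K s) +
          ENNReal.ofReal (Unw410.cB Φ) * aE Φ f₀ ε K (epar γ ρ L tw te)) + q K ε := by
          gcongr
      _ = _ := by ring

end Crest.Agent.R122.InEq2

end
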