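import Crest.Agent.R122.KinL1b_263

/-!
Row 122 (helper263): `x`-integrated (`L¹`) energy moments of the tree densities (L1M).

* `KinM Φ T f h₀ kap lam b M` : the constants; `exists_kinM` : they exist, with the size marker
  `lam` and the window length `h₀` of any `KinC` (helper814).
* `KinM.weight(S)`, `KinM.tail(S)` : the bounds for a general weight
  `phi ≤ M₁ * lam ^ size * exp (kap * eng)`, in the coordinates `(x, v)` at time `t`.
* `KinM.weight0(S)`, `KinM.tail0(S)` : the same in the coordinates of the root line at time `0`.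
-/

set_option autoImplicit false
set_option linter.unusedSectionVars false
set_option maxHeartbeats 1000000

open MeasureTheory ProbabilityTheory Set
open Crest.AnalysisR.Kinetic
open Crest.Agent.R122.Boltz814 Crest.Agent.R122.Kin416 Crest.Agent.R122.Kin796
  Crest.Agent.R122.Disc416 Crest.Agent.R122.Seg814 Crest.Agent.R122.Tree674
  Crest.Agent.R122.TreeF399
open scoped Classical ENNReal

noncomputable section

namespace Crest.Agent.R122.KinL1

/-! ### Monotonicity in the datum -/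

section mono

variable {E : Type*} [NormedAddCommGroup E] [NormedSpace ℝ E] [MeasurableSpace E] [BorelSpace E]
  [SecondCountableTopology E]

theorem F_mono₀ (κ : Kernel E (E × E)) (D : ℝ → ℝ → E → E → ℝ≥0∞) {f0 g0 : E → E → ℝ≥0∞}
    (h : ∀ x v, f0 x v ≤ g0 x v) (τ : CTree) (t : ℝ) (x v : E) :
    F κ D f0 τ t x v ≤ F κ D g0 τ t x v := by
  induction τ generalizing t x v with
  | leaf => exact mul_le_mul' le_rfl (h _ _)
  | node l r hl hr =>
    show (∫⁻ s in Ioc 0 t, D s t x v * Q κ (F κ D f0 l s (x - (t - s) • v))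
      (F κ D f0 r s (x - (t - s) • v)) v) ≤ ∫⁻ s in Ioc 0 t, D s t x v *
      Q κ (F κ D g0 l s (x - (t - s) • v)) (F κ D g0 r s (x - (t - s) • v)) v
    exact lintegral_mono fun s => mul_le_mul' le_rfl
      (Q_mono κ (fun u => hl s _ u) (fun u => hr s _ u) v)

theorem FS_mono₀ (κ : Kernel E (E × E)) (D : ℝ → ℝ → E → E → ℝ≥0∞) {f0 g0 : E → E → ℝ≥0∞}
    (h : ∀ x v, f0 x v ≤ g0 x v) (τ : CTree) (t : ℝ) (x v : E) :
    FS κ D f0 τ t x v ≤ FS κ D g0 τ t x v := by
  induction τ generalizing t x v with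
  | leaf => exact h _ _
  | node l r hl hr =>
    show (∫⁻ s in Ioc 0 t, ∫⁻ p : E × E,
      (if p.1 = v then FS κ D f0 l s (x - (t - s) • v) p.1
        else F κ D f0 l s (x - (t - s) • v) p.1) *
      (if p.2 = v then FS κ D f0 r s (x - (t - s) • v) p.2
        else F κ D f0 r s (x - (t - s) • v) p.2) ∂(κ v)) ≤ ∫⁻ s in Ioc 0 t, ∫⁻ p : E × E,
      (if p.1 = v then FS κ D g0 l s (x - (t - s) • v) p.1
        else F κ D g0 l s (x - (t - s) • v) p.1) *
      (if p.2 = v then FS κ D g0 r s (x - (t - s) • v) p.2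
        else F κ D g0 r s (x - (t - s) • v) p.2) ∂(κ v)
    refine lintegral_mono fun s => lintegral_mono fun p => mul_le_mul' ?_ ?_
    · split_ifs
      · exact hl _ _ _
      · exact F_mono₀ κ D h _ _ _ _
    · split_ifs
      · exact hr _ _ _
      · exact F_mono₀ κ D h _ _ _ _

end mono

variable {Φ : Space3 → ℝ} {β T : ℝ} {f₀ : PhasePoint → ℝ} {f : ℝ → PhasePoint → ℝ}

theorem fEn_mono {kap kap' : ℝ} (h : kap' ≤ kap) (x v : Space3) :
    fEn T f kap' x v ≤ fEn T f kap x v := by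
  unfold fEn
  refine mul_le_mul' (ENNReal.ofReal_le_ofReal (Real.exp_le_exp.2 ?_)) le_rfl
  exact mul_le_mul_of_nonneg_right h (sq_nonneg _)

/-- smaller energy weight and smaller Gaussian rate -/
theorem kinC_anti {h₀ kap lam C b kap' b' : ℝ} (hK : KinC Φ T f h₀ kap lam C b)
    (h1 : 0 < kap') (h2 : kap' ≤ kap) (h3 : 0 < b') (h4 : b' ≤ b) :
    KinC Φ T f h₀ kap' lam C b' := by
  refine ⟨hK.1, h1, hK.2.2.1, hK.2.2.2.1, h3, fun tw htw t ht x v => ⟨?_, ?_⟩⟩
  · refine le_trans (ENNReal.tsum_le_tsum fun τ => mul_le_mul' le_rfl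
      (F_mono₀ _ _ (fEn_mono h2) _ _ _ _)) (((hK.2.2.2.2.2 tw htw t ht x v).1).trans ?_)
    exact mul_le_mul' le_rfl (wG_anti h4 v)
  · refine le_trans (ENNReal.tsum_le_tsum fun τ => mul_le_mul' le_rfl
      (FS_mono₀ _ _ (fEn_mono h2) _ _ _ _)) (((hK.2.2.2.2.2 tw htw t ht x v).2).trans ?_)
    exact mul_le_mul' le_rfl (wG_anti h4 v)

/-- The constants of the `x`-integrated bounds. -/
def KinM (Φ : Space3 → ℝ) (T : ℝ) (f : ℝ → PhasePoint → ℝ) (h₀ kap lam b M : ℝ) : Prop :=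
  0 < h₀ ∧ 0 < kap ∧ 1 < lam ∧ 0 < b ∧ 0 ≤ M ∧
    ∀ tw ∈ Icc 0 T, ∀ t ∈ Icc 0 (tw + h₀),
      phI (fun x v => gau (-b) v * ∑' τ : CTree, ENNReal.ofReal lam ^ τ.size *
        F (kapQ Φ) (Dwin (damp T f) tw) (fEn T f kap) τ t x v) ≤ ENNReal.ofReal M ∧
      phI (fun x v => gau (-b) v * ∑' τ : CTree, ENNReal.ofReal lam ^ τ.size *
        FS (kapQ Φ) (Dwin (damp T f) tw) (fEn T f kap) τ t x v) ≤ ENNReal.ofReal M

theorem one_le_gau_neg {b : ℝ} (hb : 0 ≤ b) (v : Space3) : 1 ≤ gau (-b) v := by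
  unfold gau
  rw [← ENNReal.ofReal_one]
  refine ENNReal.ofReal_le_ofReal (Real.one_le_exp ?_)
  have := mul_nonneg hb (sq_nonneg ‖v‖)
  nlinarith

/-- smaller weights -/
theorem kinM_anti {h₀ kap lam b M kap' b' : ℝ} (hK : KinM Φ T f h₀ kap lam b M)
    (h1 : 0 < kap') (h2 : kap' ≤ kap) (h3 : 0 < b') (h4 : b' ≤ b) :
    KinM Φ T f h₀ kap' lam b' M := by
  refine ⟨hK.1, h1, hK.2.2.1, h3, hK.2.2.2.2.1, fun tw htw t ht => ⟨?_, ?_⟩⟩
  · refine le_trans (phI_mono fun x v => mul_le_mul' (gau_antitone (by linarith) v)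
      (ENNReal.tsum_le_tsum fun τ => mul_le_mul' le_rfl
      (F_mono₀ _ _ (fEn_mono h2) _ _ _ _))) (hK.2.2.2.2.2 tw htw t ht).1
  · refine le_trans (phI_mono fun x v => mul_le_mul' (gau_antitone (by linarith) v)
      (ENNReal.tsum_le_tsum fun τ => mul_le_mul' le_rfl
      (FS_mono₀ _ _ (fEn_mono h2) _ _ _ _))) (hK.2.2.2.2.2 tw htw t ht).2

/-- **(L1M)** `x`-integrated energy moments. -/
theorem exists_kinM (hβ : 0 < β) (hT : 0 < T) (hΦ : AdmissiblePotential Φ)
    (hf : IsRegularKineticSolution Φ β T f₀ f)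
    (H : HasSummableGaussianBound (2 * β) (fun x v => f₀ (x, v)))
    {h₀ kap lam C b : ℝ} (hK : KinC Φ T f h₀ kap lam C b) :
    ∃ kap' b' M : ℝ, kap' ≤ kap ∧ b' ≤ b ∧ KinM Φ T f h₀ kap' lam b' M := by
  have hK0 := hK
  obtain ⟨hh₀, hkap, hlam, hC, hb, -⟩ := hK
  have hlam0 : 0 ≤ lam := by linarith
  set kap' : ℝ := min kap (β / 2) with hkap'
  set bb : ℝ := min b β with hbb
  have hkap'0 : 0 < kap' := lt_min hkap (by positivity)
  have hbb0 : 0 < bb := lt_min hb hβ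
  have hK' : KinC Φ T f h₀ kap' lam C bb :=
    kinC_anti hK0 hkap'0 (min_le_left _ _) hbb0 (min_le_left _ _)
  set T1 : ℝ := T + h₀ with hT1
  have hT10 : 0 < T1 := by positivity
  obtain ⟨μ, hμ, hker⟩ := exists_kernel_small (C := lam * C * (CG (bb / 2)).toReal)
    (lam := bb / (4 * T1)) (by positivity) (by positivity) (ε := ENNReal.ofReal (1 / 2)) (by simp)
  obtain ⟨μ', hμ', hker'⟩ := exists_kernel_small (C := lam * (2 * C * (CG bb).toReal))
    (lam := bb / (4 * T1)) (by positivity) (by positivity) (ε := ENNReal.ofReal (1 / 2)) (by simp)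
  set f0 : Space3 → Space3 → ℝ≥0∞ := fEn T f kap' with hf0
  have hf0m : Measurable fun p : Space3 × Space3 => f0 p.1 p.2 := measurable_fEn hf kap'
  set A0 : ℝ≥0∞ := phI (fun x v => gau (-(bb / 2)) v * f0 x v) with hA0
  have hA0t : A0 ≠ ∞ := by
    have h1 : A0 = phI (fun x v => gau (-(bb / 2 + kap')) v * fE T f 0 x v) := by
      rw [hA0]
      congr 1
      funext x v
      rw [hf0]
      unfold fEn
      rw [← mul_assoc]
      congr 1
      unfold gau
      rw [← ENNReal.ofReal_mul (Real.exp_pos _).le, ← Real.exp_add]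
      congr 2
      ring
    rw [h1]
    refine (initial_moment hβ H hT hf ?_).ne
    have h2 : bb ≤ β := min_le_right _ _
    have h3 : kap' ≤ β / 2 := min_le_right _ _
    linarith
  -- bounds for a fixed window
  set M1 : ℝ≥0∞ := 2 * A0 with hM1
  have hM1t : M1 ≠ ∞ := ENNReal.mul_ne_top (by simp) hA0t
  set M2 : ℝ≥0∞ := 2 * (A0 + ENNReal.ofReal (Real.exp (μ * T1)) * M1) with hM2
  have hM2t : M2 ≠ ∞ := ENNReal.mul_ne_top (by simp) (ENNReal.add_ne_top.2
    ⟨hA0t, ENNReal.mul_ne_top ENNReal.ofReal_ne_top hM1t⟩)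
  have key : ∀ tw ∈ Icc 0 T, ∀ t ∈ Icc 0 (tw + h₀),
      phI (fun x v => gau (-(gam bb T1 t)) v * ∑' τ : CTree, ENNReal.ofReal lam ^ τ.size *
        F (kapQ Φ) (Dwin (damp T f) tw) f0 τ t x v) ≤ ENNReal.ofReal (Real.exp (μ * t)) * M1 ∧
      phI (fun x v => gau (-(gam bb T1 t)) v * ∑' τ : CTree, ENNReal.ofReal lam ^ τ.size *
        FS (kapQ Φ) (Dwin (damp T f) tw) f0 τ t x v) ≤ ENNReal.ofReal (Real.exp (μ' * t)) * M2 := by
    intro tw htw
    have hD : Meas4 (Dwin (damp T f) tw) := meas4_Dwin (meas4_damp hf) tw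
    have hT2 : tw + h₀ ≤ T1 := by rw [hT1]; linarith [htw.2]
    have hsup : ∀ n, ∀ t ∈ Icc 0 (tw + h₀), ∀ x v,
        P (kapQ Φ) (Dwin (damp T f) tw) f0 (ENNReal.ofReal lam) n t x v ≤
          ENNReal.ofReal C * gau bb v := by
      intro n t ht x v
      have h1 := (hK'.2.2.2.2.2 tw htw t ht x v).1
      rw [tsum_eq_iSup _ hD hf0m, wG_eq_gau] at h1
      exact (le_iSup (fun n => P (kapQ Φ) (Dwin (damp T f) tw) f0 (ENNReal.ofReal lam) n t x v)
        n).trans h1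
    have hmP : ∀ t n, Measurable (Function.uncurry fun x v : Space3 => gau (-(gam bb T1 t)) v *
        P (kapQ Φ) (Dwin (damp T f) tw) f0 (ENNReal.ofReal lam) n t x v) := fun t n =>
      ((measurable_gau _).comp measurable_snd).mul (meas3_uncurry
        (meas_P (kapQ Φ) hD hf0m _ n) t)
    have hPmono : ∀ t x v, Monotone fun n =>
        P (kapQ Φ) (Dwin (damp T f) tw) f0 (ENNReal.ofReal lam) n t x v := by
      intro t x v n m hnm
      show P (kapQ Φ) (Dwin (damp T f) tw) f0 (ENNReal.ofReal lam) n t x v ≤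
        P (kapQ Φ) (Dwin (damp T f) tw) f0 (ENNReal.ofReal lam) m t x v
      rw [P_eq_sum _ hD hf0m, P_eq_sum _ hD hf0m]
      exact Finset.sum_le_sum_of_subset (CTree.lt_mono hnm)
    -- first part
    have part1 : ∀ t ∈ Icc 0 (tw + h₀),
      phI (fun x v => gau (-(gam bb T1 t)) v * ∑' τ : CTree, ENNReal.ofReal lam ^ τ.size *
        F (kapQ Φ) (Dwin (damp T f) tw) f0 τ t x v) ≤
          ENNReal.ofReal (Real.exp (μ * t)) * M1 := by
      intro t ht
      have hpt : ∀ z : Space3 × Space3, gau (-(gam bb T1 t)) z.2 *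
          ∑' τ : CTree, ENNReal.ofReal lam ^ τ.size *
            F (kapQ Φ) (Dwin (damp T f) tw) f0 τ t z.1 z.2 =
          ⨆ n, gau (-(gam bb T1 t)) z.2 *
            P (kapQ Φ) (Dwin (damp T f) tw) f0 (ENNReal.ofReal lam) n t z.1 z.2 := by
        intro z
        rw [tsum_eq_iSup _ hD hf0m, ENNReal.mul_iSup]
      have hmeas : Measurable (Function.uncurry fun x v : Space3 => gau (-(gam bb T1 t)) v *
          ∑' τ : CTree, ENNReal.ofReal lam ^ τ.size *
            F (kapQ Φ) (Dwin (damp T f) tw) f0 τ t x v) := by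
        refine ((measurable_gau _).comp measurable_snd).mul ?_
        refine Measurable.tsum fun τ => ?_
        refine Measurable.const_mul ?_ _
        exact meas3_uncurry (meas_F (kapQ Φ) hD hf0m τ) t
      rw [phI_eq_prod hmeas]
      simp_rw [hpt]
      have hm' : ∀ n, Measurable fun z : Space3 × Space3 => gau (-(gam bb T1 t)) z.2 *
            P (kapQ Φ) (Dwin (damp T f) tw) f0 (ENNReal.ofReal lam) n t z.1 z.2 := hmP t
      rw [lintegral_iSup hm' (fun n m hnm z =>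
        mul_le_mul' le_rfl (hPmono t z.1 z.2 hnm))]
      refine iSup_le fun n => ?_
      rw [← phI_eq_prod (hmP t n)]
      exact L1_P hΦ hlam0 hC hbb0 hT10 hμ hker hD (Dwin_le_one damp_le_one tw) hf0m hT2 hsup hA0t n
        ht
    refine fun t ht => ⟨part1 t ht, ?_⟩
    -- second part
    set Hs : ℝ → Space3 → Space3 → ℝ≥0∞ := fun t x v => ∑' τ : CTree,
      ENNReal.ofReal lam ^ τ.size * F (kapQ Φ) (Dwin (damp T f) tw) f0 τ t x v with hHs
    have hHm : Meas3 Hs := by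
      have h1 : ∀ τ : CTree, Measurable fun p : ℝ × Space3 × Space3 =>
          ENNReal.ofReal lam ^ τ.size *
            F (kapQ Φ) (Dwin (damp T f) tw) f0 τ p.1 p.2.1 p.2.2 := fun τ =>
        Measurable.const_mul (f := fun p : ℝ × Space3 × Space3 =>
          F (kapQ Φ) (Dwin (damp T f) tw) f0 τ p.1 p.2.1 p.2.2) (meas_F (kapQ Φ) hD hf0m τ) _
      have h2 : Measurable fun p : ℝ × Space3 × Space3 => ∑' τ : CTree,
          ENNReal.ofReal lam ^ τ.size *
            F (kapQ Φ) (Dwin (damp T f) tw) f0 τ p.1 p.2.1 p.2.2 := Measurable.tsum h1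
      exact h2
    have hmS : ∀ n, Measurable (Function.uncurry fun x v : Space3 => gau (-(gam bb T1 t)) v *
        SFn (kapQ Φ) (Dwin (damp T f) tw) f0 (ENNReal.ofReal lam) n t x v) := fun n =>
      ((measurable_gau _).comp measurable_snd).mul (meas3_uncurry (meas_SFn hD hf0m _ n) t)
    have hpt : ∀ z : Space3 × Space3, gau (-(gam bb T1 t)) z.2 *
        ∑' τ : CTree, ENNReal.ofReal lam ^ τ.size *
          FS (kapQ Φ) (Dwin (damp T f) tw) f0 τ t z.1 z.2 =
        ⨆ n, gau (-(gam bb T1 t)) z.2 *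
          SFn (kapQ Φ) (Dwin (damp T f) tw) f0 (ENNReal.ofReal lam) n t z.1 z.2 := by
      intro z
      rw [ENNReal.tsum_eq_iSup_sum' CTree.lt CTree.exists_subset_lt, ENNReal.mul_iSup]
      rfl
    have hmeas : Measurable (Function.uncurry fun x v : Space3 => gau (-(gam bb T1 t)) v *
        ∑' τ : CTree, ENNReal.ofReal lam ^ τ.size *
          FS (kapQ Φ) (Dwin (damp T f) tw) f0 τ t x v) := by
      refine ((measurable_gau _).comp measurable_snd).mul ?_
      refine Measurable.tsum fun τ => ?_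
      refine Measurable.const_mul ?_ _
      exact meas3_uncurry (meas_FS hD hf0m τ) t
    rw [phI_eq_prod hmeas]
    simp_rw [hpt]
    have hm' : ∀ n, Measurable fun z : Space3 × Space3 => gau (-(gam bb T1 t)) z.2 *
          SFn (kapQ Φ) (Dwin (damp T f) tw) f0 (ENNReal.ofReal lam) n t z.1 z.2 := hmS
    rw [lintegral_iSup hm' (fun n m hnm z => mul_le_mul' le_rfl
      (Finset.sum_le_sum_of_subset (CTree.lt_mono hnm)))]
    refine iSup_le fun n => ?_
    rw [← phI_eq_prod (hmS n)]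
    exact L1_FS hΦ hlam0 hC hbb0 hT10 hμ hker hμ' hker' hD hf0m hT2 hHm
      (fun t ht x v => le_rfl) (fun t ht x v => by
        have := (hK'.2.2.2.2.2 tw htw t ht x v).1
        rwa [wG_eq_gau] at this) part1 hM1t hA0t n ht
  -- conclusion
  refine ⟨kap', bb / 4, (ENNReal.ofReal (Real.exp (μ * T1)) * M1).toReal +
    (ENNReal.ofReal (Real.exp (μ' * T1)) * M2).toReal, min_le_left _ _, ?_, hh₀, hkap'0, hlam,
    by positivity, by positivity, fun tw htw t ht => ?_⟩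
  · have : bb ≤ b := min_le_left _ _
    linarith
  have htT : t ∈ Icc 0 T1 := ⟨ht.1, ht.2.trans (by rw [hT1]; linarith [htw.2])⟩
  have hgt := gam_mem hbb0 hT10 htT
  have hw : ∀ v : Space3, gau (-(bb / 4)) v ≤ gau (-(gam bb T1 t)) v := fun v =>
    gau_antitone (by linarith [hgt.1]) v
  have hk := key tw htw t ht
  have ht1 : ENNReal.ofReal (Real.exp (μ * T1)) * M1 ≠ ∞ :=
    ENNReal.mul_ne_top ENNReal.ofReal_ne_top hM1t
  have ht2 : ENNReal.ofReal (Real.exp (μ' * T1)) * M2 ≠ ∞ :=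
    ENNReal.mul_ne_top ENNReal.ofReal_ne_top hM2t
  rw [ENNReal.ofReal_add ENNReal.toReal_nonneg ENNReal.toReal_nonneg, ENNReal.ofReal_toReal ht1,
    ENNReal.ofReal_toReal ht2]
  constructor
  · refine (phI_mono fun x v => mul_le_mul' (hw v) le_rfl).trans (hk.1.trans ?_)
    refine le_trans ?_ le_self_add
    gcongr
    exact htT.2
  · refine (phI_mono fun x v => mul_le_mul' (hw v) le_rfl).trans (hk.2.trans ?_)
    refine le_trans ?_ le_add_self
    gcongr
    exact htT.2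

/-! ### Parameter forms -/

section bounds

variable {h₀ kap lam b M : ℝ}

/-- free transport of a phase space integral -/
theorem lintegral_transport {K : Space3 → Space3 → ℝ≥0∞}
    (hK : Measurable fun p : Space3 × Space3 => K p.1 p.2) (t : ℝ) :
    ∫⁻ ℓ : PhasePoint, K (ℓ.1 + t • ℓ.2) ℓ.2 = phI K := by
  have h1 : Measurable (Function.uncurry fun x v : Space3 => K (x - (-t) • v) v) := by
    have hm : Measurable fun p : Space3 × Space3 => (p.1 - (-t) • p.2, p.2) := by fun_prop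
    exact Measurable.comp (g := fun p : Space3 × Space3 => K p.1 p.2) hK hm
  have h2 := phI_transport (G := K) hK (-t)
  rw [← h2, phI_eq_prod h1]
  refine lintegral_congr fun z => ?_
  show K (z.1 + t • z.2) z.2 = K (z.1 - (-t) • z.2) z.2
  rw [neg_smul, sub_neg_eq_add]

/-- abstract weighted bound: from the energy form to a general weight -/
theorem weight_aux {G : ∀ j : CTree, ℝ → Space3 → Space3 → ℝ≥0∞}
    {wX : ∀ j : CTree, ℝ → Space3 → Space3 → Par j → ℝ≥0∞}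
    (hm : ∀ j t, Measurable fun p : Space3 × Space3 => G j t p.1 p.2)
    (hG : ∀ j t x v, G j t x v =
      ∫⁻ p : Par j, ENNReal.ofReal (Real.exp (kap * eng Φ j v p)) * wX j t x v p) {B : ℝ≥0∞}
    {t : ℝ} (hB : phI (fun x v => gau (-b) v * ∑' j : CTree, ENNReal.ofReal lam ^ j.size *
      G j t x v) ≤ B)
    {phi : ∀ j : CTree, PhasePoint → Par j → ℝ≥0∞} {M₁ : ℝ≥0∞} (hM : M₁ ≠ ∞)
    (hphi : ∀ j ℓ p, phi j ℓ p ≤ M₁ * ENNReal.ofReal lam ^ j.size *
      ENNReal.ofReal (Real.exp (kap * eng Φ j ℓ.2 p))) :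
    (∑' j : CTree, ∫⁻ z : PhasePoint, gau (-b) z.2 *
      ∫⁻ p : Par j, phi j z p * wX j t z.1 z.2 p ≤ M₁ * B) ∧
    (∑' j : CTree, ∫⁻ ℓ : PhasePoint, gau (-b) ℓ.2 *
      ∫⁻ p : Par j, phi j ℓ p * wX j t (ℓ.1 + t • ℓ.2) ℓ.2 p ≤ M₁ * B) := by
  have hpt : ∀ (j : CTree) (z : PhasePoint) (x : Space3), gau (-b) z.2 *
      ∫⁻ p : Par j, phi j z p * wX j t x z.2 p ≤
      M₁ * (gau (-b) z.2 * (ENNReal.ofReal lam ^ j.size * G j t x z.2)) := by
    intro j z x
    have hfin : M₁ * ENNReal.ofReal lam ^ j.size ≠ ∞ :=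
      ENNReal.mul_ne_top hM (ENNReal.pow_ne_top ENNReal.ofReal_ne_top)
    have h1 : ∫⁻ p : Par j, phi j z p * wX j t x z.2 p ≤
        M₁ * ENNReal.ofReal lam ^ j.size * G j t x z.2 := by
      rw [hG, ← lintegral_const_mul' _ _ hfin]
      refine lintegral_mono fun p => ?_
      rw [← mul_assoc]
      exact mul_le_mul' (hphi j z p) le_rfl
    refine (mul_le_mul' le_rfl h1).trans (le_of_eq ?_)
    ring
  have hGm : ∀ j, Measurable fun p : Space3 × Space3 =>
      gau (-b) p.2 * (ENNReal.ofReal lam ^ j.size * G j t p.1 p.2) := fun j =>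
    ((measurable_gau _).comp measurable_snd).mul ((hm j t).const_mul _)
  have hsum : ∑' j : CTree, phI (fun x v => gau (-b) v *
      (ENNReal.ofReal lam ^ j.size * G j t x v)) ≤ B := by
    refine le_trans (le_of_eq ?_) hB
    have hGm' : Measurable (Function.uncurry fun x v : Space3 =>
        gau (-b) v * ∑' j : CTree, ENNReal.ofReal lam ^ j.size * G j t x v) :=
      ((measurable_gau _).comp measurable_snd).mul
        (Measurable.tsum fun j => (hm j t).const_mul _)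
    rw [phI_eq_prod hGm']
    have h2 : ∀ z : Space3 × Space3, gau (-b) z.2 *
        ∑' j : CTree, ENNReal.ofReal lam ^ j.size * G j t z.1 z.2 =
        ∑' j : CTree, gau (-b) z.2 * (ENNReal.ofReal lam ^ j.size * G j t z.1 z.2) := fun z =>
      ENNReal.tsum_mul_left.symm
    simp_rw [h2]
    rw [lintegral_tsum fun j => (hGm j).aemeasurable]
    refine tsum_congr fun j => ?_
    exact phI_eq_prod (hGm j)
  have hfin : ∀ (t' : ℝ) (_ : t' = 0 ∨ t' = t), ∑' j : CTree, ∫⁻ z : PhasePoint, gau (-b) z.2 *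
      ∫⁻ p : Par j, phi j z p * wX j t (z.1 + t' • z.2) z.2 p ≤ M₁ * B := by
    intro t' _
    calc ∑' j : CTree, ∫⁻ z : PhasePoint, gau (-b) z.2 *
          ∫⁻ p : Par j, phi j z p * wX j t (z.1 + t' • z.2) z.2 p
        ≤ ∑' j : CTree, M₁ * phI (fun x v => gau (-b) v *
            (ENNReal.ofReal lam ^ j.size * G j t x v)) := by
          refine ENNReal.tsum_le_tsum fun j => ?_
          refine (lintegral_mono fun z => hpt j z (z.1 + t' • z.2)).trans ?_
          rw [lintegral_const_mul' _ _ hM]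
          refine mul_le_mul' le_rfl (le_of_eq ?_)
          exact lintegral_transport (K := fun x v => gau (-b) v *
            (ENNReal.ofReal lam ^ j.size * G j t x v)) (hGm j) t'
      _ = M₁ * ∑' j : CTree, phI (fun x v => gau (-b) v *
            (ENNReal.ofReal lam ^ j.size * G j t x v)) := ENNReal.tsum_mul_left
      _ ≤ M₁ * B := mul_le_mul' le_rfl hsum
  refine ⟨?_, hfin t (Or.inr rfl)⟩
  have h0 := hfin 0 (Or.inl rfl)
  simpa only [zero_smul, add_zero] using h0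

theorem measurable_F_slice (hf : IsRegularKineticSolution Φ β T f₀ f) (kap tw : ℝ) (j : CTree)
    (t : ℝ) : Measurable fun p : Space3 × Space3 =>
      F (kapQ Φ) (Dwin (damp T f) tw) (fEn T f kap) j t p.1 p.2 :=
  meas3_uncurry (meas_F (kapQ Φ) (meas4_Dwin (meas4_damp hf) tw) (measurable_fEn hf kap) j) t

theorem measurable_FS_slice (hf : IsRegularKineticSolution Φ β T f₀ f) (kap tw : ℝ) (j : CTree)
    (t : ℝ) : Measurable fun p : Space3 × Space3 =>
      FS (kapQ Φ) (Dwin (damp T f) tw) (fEn T f kap) j t p.1 p.2 :=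
  meas3_uncurry (meas_FS (meas4_Dwin (meas4_damp hf) tw) (measurable_fEn hf kap) j) t

/-- General weights, root damped. -/
theorem KinM.weight (hΦ : AdmissiblePotential Φ) (hf : IsRegularKineticSolution Φ β T f₀ f)
    (hK : KinM Φ T f h₀ kap lam b M) {phi : ∀ j : CTree, PhasePoint → Par j → ℝ≥0∞}
    {M₁ : ℝ≥0∞} (hM : M₁ ≠ ∞)
    (hphi : ∀ j ℓ p, phi j ℓ p ≤ M₁ * ENNReal.ofReal lam ^ j.size *
      ENNReal.ofReal (Real.exp (kap * eng Φ j ℓ.2 p)))
    {tw : ℝ} (htw : tw ∈ Icc 0 T) {t : ℝ} (ht : t ∈ Icc 0 (tw + h₀)) :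
    (∑' j : CTree, ∫⁻ z : PhasePoint, gau (-b) z.2 *
      ∫⁻ p : Par j, phi j z p * wD Φ T f tw j t z.1 z.2 p ≤ M₁ * ENNReal.ofReal M) ∧
    (∑' j : CTree, ∫⁻ ℓ : PhasePoint, gau (-b) ℓ.2 *
      ∫⁻ p : Par j, phi j ℓ p * wD Φ T f tw j t (ℓ.1 + t • ℓ.2) ℓ.2 p ≤ M₁ * ENNReal.ofReal M) :=
  weight_aux (Φ := Φ) (G := fun j t x v => F (kapQ Φ) (Dwin (damp T f) tw) (fEn T f kap) j t x v)
    (wX := fun j t x v p => wD Φ T f tw j t x v p)
    (fun j t => measurable_F_slice hf kap tw j t) (fun j t x v => F_energy hΦ hf kap tw j t x v)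
    (hK.2.2.2.2.2 tw htw t ht).1 hM hphi

/-- General weights, straight line of the root undamped. -/
theorem KinM.weightS (hΦ : AdmissiblePotential Φ) (hf : IsRegularKineticSolution Φ β T f₀ f)
    (hK : KinM Φ T f h₀ kap lam b M) {phi : ∀ j : CTree, PhasePoint → Par j → ℝ≥0∞}
    {M₁ : ℝ≥0∞} (hM : M₁ ≠ ∞)
    (hphi : ∀ j ℓ p, phi j ℓ p ≤ M₁ * ENNReal.ofReal lam ^ j.size *
      ENNReal.ofReal (Real.exp (kap * eng Φ j ℓ.2 p)))
    {tw : ℝ} (htw : tw ∈ Icc 0 T) {t : ℝ} (ht : t ∈ Icc 0 (tw + h₀)) :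
    (∑' j : CTree, ∫⁻ z : PhasePoint, gau (-b) z.2 *
      ∫⁻ p : Par j, phi j z p * wS Φ T f tw j t z.1 z.2 p ≤ M₁ * ENNReal.ofReal M) ∧
    (∑' j : CTree, ∫⁻ ℓ : PhasePoint, gau (-b) ℓ.2 *
      ∫⁻ p : Par j, phi j ℓ p * wS Φ T f tw j t (ℓ.1 + t • ℓ.2) ℓ.2 p ≤ M₁ * ENNReal.ofReal M) :=
  weight_aux (Φ := Φ) (G := fun j t x v => FS (kapQ Φ) (Dwin (damp T f) tw) (fEn T f kap) j t x v)
    (wX := fun j t x v p => wS Φ T f tw j t x v p)
    (fun j t => measurable_FS_slice hf kap tw j t) (fun j t x v => FS_energy hΦ hf kap tw j t x v)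
    (hK.2.2.2.2.2 tw htw t ht).2 hM hphi

/-- Size tails (trees with at least `m` collisions), both dampings, both coordinates. -/
theorem KinM.tail (hΦ : AdmissiblePotential Φ) (hf : IsRegularKineticSolution Φ β T f₀ f)
    (hK : KinM Φ T f h₀ kap lam b M) {phi : ∀ j : CTree, PhasePoint → Par j → ℝ≥0∞}
    {M₁ : ℝ≥0∞} (hM : M₁ ≠ ∞) {lam₁ : ℝ} (h1 : 0 < lam₁) (h2 : lam₁ ≤ lam)
    (hphi : ∀ j ℓ p, phi j ℓ p ≤ M₁ * ENNReal.ofReal lam₁ ^ j.size *
      ENNReal.ofReal (Real.exp (kap * eng Φ j ℓ.2 p))) (m : ℕ)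
    {tw : ℝ} (htw : tw ∈ Icc 0 T) {t : ℝ} (ht : t ∈ Icc 0 (tw + h₀)) :
    ((∑' j : CTree, ∫⁻ z : PhasePoint, gau (-b) z.2 *
      ∫⁻ p : Par j, (if m ≤ j.size then phi j z p else 0) * wD Φ T f tw j t z.1 z.2 p ≤
        M₁ * ENNReal.ofReal (lam₁ / lam) ^ m * ENNReal.ofReal M) ∧
    (∑' j : CTree, ∫⁻ ℓ : PhasePoint, gau (-b) ℓ.2 *
      ∫⁻ p : Par j, (if m ≤ j.size then phi j ℓ p else 0) *
        wD Φ T f tw j t (ℓ.1 + t • ℓ.2) ℓ.2 p ≤
        M₁ * ENNReal.ofReal (lam₁ / lam) ^ m * ENNReal.ofReal M)) ∧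
    ((∑' j : CTree, ∫⁻ z : PhasePoint, gau (-b) z.2 *
      ∫⁻ p : Par j, (if m ≤ j.size then phi j z p else 0) * wS Φ T f tw j t z.1 z.2 p ≤
        M₁ * ENNReal.ofReal (lam₁ / lam) ^ m * ENNReal.ofReal M) ∧
    (∑' j : CTree, ∫⁻ ℓ : PhasePoint, gau (-b) ℓ.2 *
      ∫⁻ p : Par j, (if m ≤ j.size then phi j ℓ p else 0) *
        wS Φ T f tw j t (ℓ.1 + t • ℓ.2) ℓ.2 p ≤
        M₁ * ENNReal.ofReal (lam₁ / lam) ^ m * ENNReal.ofReal M)) := by
  have hM' : M₁ * ENNReal.ofReal (lam₁ / lam) ^ m ≠ ∞ :=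
    ENNReal.mul_ne_top hM (ENNReal.pow_ne_top ENNReal.ofReal_ne_top)
  have hphi' : ∀ (j : CTree) (ℓ : PhasePoint) (p : Par j),
      (if m ≤ j.size then phi j ℓ p else 0) ≤
      (M₁ * ENNReal.ofReal (lam₁ / lam) ^ m) * ENNReal.ofReal lam ^ j.size *
      ENNReal.ofReal (Real.exp (kap * eng Φ j ℓ.2 p)) := by
    intro j ℓ p
    by_cases h : m ≤ j.size
    · simp only [if_pos h]
      exact (hphi j ℓ p).trans (tail_weight h1 h2 h)
    · simp only [if_neg h]
      exact bot_le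
  exact ⟨hK.weight hΦ hf (phi := fun j ℓ p => if m ≤ j.size then phi j ℓ p else 0) hM' hphi'
      htw ht,
    hK.weightS hΦ hf (phi := fun j ℓ p => if m ≤ j.size then phi j ℓ p else 0) hM' hphi' htw ht⟩

/-- the weight `exp (b ‖v‖²)` of the root velocity may be dropped -/
theorem drop_gau (hb : 0 ≤ b) {G : PhasePoint → ℝ≥0∞} :
    ∫⁻ z : PhasePoint, G z ≤ ∫⁻ z : PhasePoint, gau (-b) z.2 * G z := by
  refine lintegral_mono fun z => ?_
  exact le_mul_of_one_le_left bot_le (one_le_gau_neg hb z.2)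

end bounds

end Crest.Agent.R122.KinL1
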