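import Crest.Agent.R122.InEq2Main_311
import Crest.Agent.R122.SizeX1_974

/-!
# Row 122, INEQUALITY 2' (helper311): trees with more than `K` leaves (`FM`)

`inB_FM` : the closed clusters of size in `(K, 2K]` which are trees not hit before the window have
small mass, from helper974's two-time tree integrals `JX`.
-/

set_option autoImplicit false

open MeasureTheory Set Filter Topology
open scoped ENNReal
open Crest.AnalysisR.Kinetic
open Crest.Agent.R122.Master566 Crest.Agent.R122.GIV566 Crest.Agent.R122.Top602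
open Crest.Agent.R122.EDefs602 Crest.Agent.R122.GC311 Crest.Agent.R122.Causal291
open Crest.Agent.R122.Kin796 Crest.Agent.R122.Kin796.CTree Crest.Agent.R122.Tree674
open Crest.Agent.R122.TreeBound335 Crest.Agent.R122.ToTree335 Crest.Agent.R122.Band974
open Crest.Agent.R122.TreeLim974 (goodS measurableSet_goodS)
open Crest.Agent.R122.SizeX974 (JX WtT exists_JX_tail JX_small)

noncomputable section

open scoped Classical

namespace Crest.Agent.R122.InEq2

variable {Φ : Space3 → ℝ} {f₀ : PhasePoint → ℝ} {f : ℝ → PhasePoint → ℝ} {ε : ℝ} {K : ℕ}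
  {A : EPar} {T' : ℝ}

/-- Labels of a tree writing the block. -/
theorem exists_equiv_of_range {ι : Type*} {k m : ℕ} {e : ι → Fin (k + m)}
    (hi : Function.Injective e) (hr : range e = ↑(block k m)) :
    ∃ e' : ι ≃ Fin k, ∀ x, e x = Fin.castAdd m (e' x) := by
  have h1 : ∀ x, ∃ a : Fin k, Fin.castAdd m a = e x := by
    intro x
    have hx : e x ∈ (↑(block k m) : Set (Fin (k + m))) := hr ▸ mem_range_self x
    rw [Finset.mem_coe, block, Finset.mem_map] at hx
    obtain ⟨a, -, ha⟩ := hx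
    exact ⟨a, ha⟩
  choose g hg using h1
  refine ⟨Equiv.ofBijective g ⟨fun x y hxy => hi ?_, fun b => ?_⟩, fun x => (hg x).symm⟩
  · rw [← hg x, ← hg y, hxy]
  · have hb : Fin.castAdd m b ∈ (↑(block k m) : Set (Fin (k + m))) := by
      rw [Finset.mem_coe, block, Finset.mem_map]
      exact ⟨b, Finset.mem_univ _, rfl⟩
    rw [← hr] at hb
    obtain ⟨x, hx⟩ := hb
    refine ⟨x, Fin.castAdd_injective k m ?_⟩
    rw [hg x, hx]

theorem card_block (k m : ℕ) : (block k m).card = k := by
  rw [block, Finset.card_map, Finset.card_univ, Fintype.card_fin]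

/-- Joint measurability of the avoidance of the protected tubes. -/
theorem measurable_unhit_goodS (hΦ : AdmissiblePotential Φ) (hε : 0 < ε) (P : CTree) {tw : ℝ}
    (htw : 0 ≤ tw) (T' : ℝ) (m : ℕ) {g : (PhasePoint × Par P) × Config m → ℝ≥0∞}
    (hg : Measurable g) :
    Measurable fun q : (PhasePoint × Par P) × Config m =>
      if q.1 ∈ goodS Φ ε P T' then g q * unhitInd Φ ε (PT Φ ε P T' q.1.1 q.1.2) tw q.2 else 0 := by
  have hgm := measurableSet_goodS hΦ hε P T'
  set S : (PhasePoint × Par P) × Config m → Tubes (Idx P) := fun q =>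
    ⟨fun i s => if q.1 ∈ goodS Φ ε P T' then (pathM Φ ε P s q.1.1 q.1.2 i).1 else 0,
      prot P T' q.1.2⟩ with hS
  have hgm' : MeasurableSet {q : (PhasePoint × Par P) × Config m | q.1 ∈ goodS Φ ε P T'} :=
    measurable_fst hgm
  have hm : Measurable fun q : (PhasePoint × Par P) × Config m =>
      unhitInd Φ ε (S q) tw q.2 := by
    refine GIV566.measurable_unhitInd hΦ hε (T := tw) htw (S := S) (fun q i => ?_)
      (fun i s => ?_) (fun i => ?_) measurable_const (fun _ => le_rfl) measurable_snd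
    · by_cases hz : q.1 ∈ goodS Φ ε P T'
      · have e : (S q).c i = fun s => (path Φ ε P q.1.1 q.1.2 s i).1 := by
          funext s
          simp only [hS, if_pos hz]
          rw [pathM_of_adm hΦ ε s hz.1.1]
        rw [e]
        have h := Tree674.continuous_path hΦ hε hz.1
        exact (continuous_fst.comp ((continuous_apply i).comp h)).continuousOn
      · have e : (S q).c i = fun _ => 0 := by
          funext s
          simp only [hS, if_neg hz]
        rw [e]
        exact continuousOn_const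
    · refine Measurable.ite hgm' ?_ measurable_const
      exact ((Band974.measurable_pathM' hΦ ε P i).comp
        (measurable_fst.prodMk measurable_const)).fst
    · exact (measurable_prot P i).comp (f := fun q : (PhasePoint × Par P) × Config m =>
        (T', q.1.2)) (measurable_const.prodMk measurable_fst.snd)
  have h4 : (fun q : (PhasePoint × Par P) × Config m =>
      if q.1 ∈ goodS Φ ε P T' then g q * unhitInd Φ ε (PT Φ ε P T' q.1.1 q.1.2) tw q.2 else 0) =
      fun q => if q.1 ∈ goodS Φ ε P T' then g q * unhitInd Φ ε (S q) tw q.2 else 0 := by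
    funext q
    by_cases hz : q.1 ∈ goodS Φ ε P T'
    · rw [if_pos hz, if_pos hz]
      congr 2
      simp only [hS, if_pos hz, PT]
      congr 1
      funext i s
      rw [pathM_of_adm hΦ ε s hz.1.1]
    · rw [if_neg hz, if_neg hz]
  rw [h4]
  exact Measurable.ite hgm' (hg.mul hm) measurable_const

/-- The tree functional of `FM`. -/
def HM (Φ : Space3 → ℝ) (ε : ℝ) (K : ℕ) (tw T' : ℝ) (P : CTree) (z : PhasePoint × Par P) (m : ℕ)
    (w : Config m) : ℝ≥0∞ :=
  if K < P.leaves ∧ P.leaves ≤ 2 * K then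
    (if z ∈ goodS Φ ε P T' then
      ((activity ε)⁻¹ * wQ Φ ε P z) * unhitInd Φ ε (PT Φ ε P T' z.1 z.2) tw w else 0) else 0

theorem measTS_HM (hΦ : AdmissiblePotential Φ) (hε : 0 < ε) {tw : ℝ} (htw : 0 ≤ tw) :
    MeasTS (HM Φ ε K tw T') := by
  intro P m
  unfold HM
  by_cases h : K < P.leaves ∧ P.leaves ≤ 2 * K
  · simp only [if_pos h]
    exact measurable_unhit_goodS hΦ hε P htw T' m
      (((measurable_wQ hΦ P).comp measurable_fst).const_mul _)
  · simp only [if_neg h]
    exact measurable_const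

theorem wQ_eq_WtT {P : CTree} {z : PhasePoint × Par P} (h : Adm Φ P z.1.2 z.2) :
    wQ Φ ε P z = WtT Φ P z := by
  rw [wQ_eq h]
  unfold WtT
  refine Finset.sum_congr rfl fun i _ => ?_
  rw [Hid424.lines_vel]

theorem wQ_ne_top (P : CTree) (z : PhasePoint × Par P) : wQ Φ ε P z ≠ ∞ := by
  unfold wQ
  exact (ENNReal.sum_lt_top.2 fun i _ => ENNReal.ofReal_lt_top).ne

theorem act_TS_HM (hε : 0 < ε) (tw T' : ℝ) :
    activity ε * TS Φ f₀ ε T' (HM Φ ε K tw T') = ∑ P ∈ bandT K (2 * K), JX Φ f₀ ε P tw T' := by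
  have ha0 : activity ε ≠ 0 := activity_ne_zero hε
  have hat : activity ε ≠ ∞ := activity_ne_top ε
  have hai : (activity ε)⁻¹ ≠ ∞ := ENNReal.inv_ne_top.2 ha0
  have key : ∀ P : CTree, activity ε * ∫⁻ z : PhasePoint × Par P,
      {z : PhasePoint × Par P | Valid Φ ε P T' z.1.2 z.2}.indicator
        (fun z => wt Φ P z.1.2 z.2 * (pf Φ f₀ ε P z *
          gcE f₀ ε fun m w => HM Φ ε K tw T' P z m w)) z =
      if P ∈ bandT K (2 * K) then JX Φ f₀ ε P tw T' else 0 := by
    intro P
    by_cases h : K < P.leaves ∧ P.leaves ≤ 2 * K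
    · rw [if_pos (mem_bandT.2 h)]
      unfold JX
      rw [← lintegral_const_mul' _ _ hat]
      refine lintegral_congr fun z => ?_
      by_cases hz : z ∈ goodS Φ ε P T'
      · rw [indicator_of_mem (show z ∈ {z : PhasePoint × Par P | Valid Φ ε P T' z.1.2 z.2} from
          hz.1), indicator_of_mem hz]
        have h1 : gcE f₀ ε (fun m w => HM Φ ε K tw T' P z m w) =
            ((activity ε)⁻¹ * wQ Φ ε P z) * uG Φ f₀ ε (PT Φ ε P T' z.1 z.2) tw := by
          unfold uG
          rw [← gcE_const_mul f₀ ε (ENNReal.mul_ne_top hai (wQ_ne_top P z))]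
          refine gcE_congr f₀ ε fun m w _ => ?_
          unfold HM
          rw [if_pos h, if_pos hz]
        rw [h1, wQ_eq_WtT hz.1.1]
        calc activity ε * (wt Φ P z.1.2 z.2 * (pf Φ f₀ ε P z * ((activity ε)⁻¹ * WtT Φ P z *
              uG Φ f₀ ε (PT Φ ε P T' z.1 z.2) tw)))
            = (activity ε * (activity ε)⁻¹) * (wt Φ P z.1.2 z.2 * (pf Φ f₀ ε P z * (WtT Φ P z *
              uG Φ f₀ ε (PT Φ ε P T' z.1 z.2) tw))) := by ring
          _ = _ := by rw [ENNReal.mul_inv_cancel ha0 hat, one_mul]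
      · rw [indicator_of_notMem hz]
        have h1 : gcE f₀ ε (fun m w => HM Φ ε K tw T' P z m w) = 0 := by
          rw [← gcE_zero f₀ ε]
          refine gcE_congr f₀ ε fun m w _ => ?_
          unfold HM
          rw [if_pos h, if_neg hz]
        by_cases hv : z ∈ {z : PhasePoint × Par P | Valid Φ ε P T' z.1.2 z.2}
        · rw [indicator_of_mem hv, h1, mul_zero, mul_zero, mul_zero]
        · rw [indicator_of_notMem hv, mul_zero]
    · rw [if_neg fun h' => h (mem_bandT.1 h')]
      have h1 : ∀ z : PhasePoint × Par P, {z : PhasePoint × Par P |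
          Valid Φ ε P T' z.1.2 z.2}.indicator (fun z => wt Φ P z.1.2 z.2 * (pf Φ f₀ ε P z *
            gcE f₀ ε fun m w => HM Φ ε K tw T' P z m w)) z = 0 := by
        intro z
        by_cases hv : z ∈ {z : PhasePoint × Par P | Valid Φ ε P T' z.1.2 z.2}
        · rw [indicator_of_mem hv]
          have h2 : gcE f₀ ε (fun m w => HM Φ ε K tw T' P z m w) = 0 := by
            rw [← gcE_zero f₀ ε]
            refine gcE_congr f₀ ε fun m w _ => ?_
            unfold HM
            rw [if_neg h]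
          rw [h2, mul_zero, mul_zero]
        · rw [indicator_of_notMem hv]
      simp only [h1, lintegral_zero, mul_zero]
  unfold TS
  rw [← ENNReal.tsum_mul_left, tsum_congr key]
  rw [tsum_eq_sum (s := bandT K (2 * K)) fun P hP => if_neg hP]
  exact Finset.sum_congr rfl fun P hP => if_pos hP

/-- Pointwise bound of `FM`. -/
theorem FM_le_ways (hΦ : AdmissiblePotential Φ) (hε : 0 < ε) (hte : 0 ≤ A.te) (hT' : 0 ≤ T')
    {k m : ℕ} (V : Config k) (w : Config m) (j : Fin k) :
    FM Φ ε K A T' k m V w j ≤ ways Φ ε T' (fun P z => HM Φ ε K A.tw T' P z m w) V j := by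
  unfold FM
  by_cases h : JC Φ ε K A V w j ∧ HTUc Φ ε K A T' V w j
  swap
  · rw [if_neg h]
    exact zero_le
  rw [if_pos h]
  obtain ⟨⟨hblock, hjoin, hK1, hK2⟩, P, ℓ, p, e, hH, hu⟩ := h
  have hσ0 : 0 ≤ sgm Φ ε K A V w j := iTime_nonneg hte _ _
  have hr : range e = ↑(block k m) := by
    rw [hH.range_eq hε hT' hσ0, ← hblock, Set.coe_toFinset]
  obtain ⟨e', he'⟩ := exists_equiv_of_range hH.inj hr
  have hl : ∀ x, V (e' x) = lines Φ ε P ℓ p x := by
    intro x
    have h1 := hH.lines_eq hΦ hε hT' hσ0 x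
    rw [he' x] at h1
    rw [← h1]
    exact (Fin.append_left V w (e' x)).symm
  have hcard : P.leaves = k := by
    have h1 := Fintype.card_congr e'
    rw [Fintype.card_fin] at h1
    rw [← h1]
    exact (Tree674.card_idx P).symm
  have hgas : gasSize Φ ε (k + m) (cat V w) (sgm Φ ε K A V w j) (Fin.castAdd m j) = k := by
    have h1 : gasSize Φ ε (k + m) (cat V w) (sgm Φ ε K A V w j) (Fin.castAdd m j) =
        (BC (Ct (pth Φ ε (cat V w)) ε) (sgm Φ ε K A V w j) (Fin.castAdd m j)).ncard := rfl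
    rw [h1, ← Set.coe_toFinset (BC (Ct (pth Φ ε (cat V w)) ε) (sgm Φ ε K A V w j)
      (Fin.castAdd m j)), hblock, ncard_coe_finset, card_block]
  rw [hgas] at hK1 hK2
  have hj : e' (Tree674.root P) = j := by
    have h1 := hH.root
    rw [he'] at h1
    exact Fin.castAdd_injective k m h1
  refine le_ways_of hΦ hε e' hj hH.valid hl ?_
  have hgood : (ℓ, p) ∈ goodS Φ ε P T' := ⟨hH.valid, hH.sep⟩
  have hu1 : unhitInd Φ ε (PT Φ ε P T' ℓ p) A.tw w = 1 := if_pos hu
  have h2 : HM Φ ε K A.tw T' P (ℓ, p) m w = (activity ε)⁻¹ * wQ Φ ε P (ℓ, p) := by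
    unfold HM
    rw [if_pos (by rw [hcard]; exact ⟨hK1, hK2⟩), if_pos hgood, hu1, mul_one]
  rw [h2]
  unfold bwt
  rw [eW_block (P := P) (z := (ℓ, p)) e' hH.valid.1 hl]

/-- **The closed clusters of size in `(K, 2K]`** which are trees not hit before the window. -/
theorem inB_FM {β T : ℝ} {γ : ℝ → ℝ} {ρ : ℝ≥0∞} (hD : KData Φ β T f₀ f) :
    ∃ h₁ : ℝ, 0 < h₁ ∧ ∀ h₀ : ℝ, 0 < h₀ → h₀ ≤ h₁ → InB Φ f₀ f T γ ρ h₀ FM := by
  obtain ⟨h₁, r, C, hh₁, hr, hr1, hC, htail⟩ := exists_JX_tail hD
  refine ⟨h₁, hh₁, fun h₀ hh₀ hle => InB.of_small ?_⟩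
  refine EvW.of_forall fun h L tw te _ _ _ hwin hIH => ?_
  have htw : tw ∈ Icc 0 T := ⟨hwin.nonneg, hwin.le.trans hwin.le_T⟩
  have hT' : tw + h₀ ∈ Icc 0 (tw + h₁) := ⟨by linarith [hwin.nonneg], by linarith⟩
  have h1 := htail tw htw (tw + h₀) hT' hIH.giv
  refine ⟨fun K ε => ∑ P ∈ bandT K (2 * K), JX Φ f₀ ε P tw (tw + h₀),
    JX_small (h₀ := h₁) hr hr1 hC h1 (k₁ := fun K => K) (k₂ := fun K => 2 * K) tendsto_id,
    Ev.of_forall fun K ε hε => ?_⟩
  refine Bnd.of_H (H := HM Φ ε K tw (tw + h₀)) (measTS_HM hD.adm hε hwin.nonneg)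
    (fun k m V w j _ _ _ => ?_) (act_TS_HM hε tw (tw + h₀)).le
  exact FM_le_ways (A := epar γ ρ L tw te) hD.adm hε (hwin.nonneg.trans hwin.le) hT'.1 V w j

end Crest.Agent.R122.InEq2

end
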