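import Crest.Agent.R122.RtG_302
import Crest.Agent.R122.RtGMass_522

/-!
# Touches by exit lines are null (row 122, H12), helper302

`touchNull` : `RtG302.TouchNull` from the touched mass `TN` at `u₀` and helper522's `exists_mass`.
-/

set_option autoImplicit false

open MeasureTheory Set Filter Topology
open scoped ENNReal
open Crest.AnalysisR.Kinetic
open Crest.Agent.R122.Flow671 Crest.Agent.R122.Loc45 Crest.Agent.R122.Causal291
open Crest.Agent.R122.Inf879 Crest.Agent.R122.GC311 Crest.Agent.R122.EDefs602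
open Crest.Agent.R122.Kin796 Crest.Agent.R122.Kin796.CTree Crest.Agent.R122.Tree674
open Crest.Agent.R122.InEq2 Crest.Agent.R122.TreeLines335
open Crest.Agent.R122.LineMeas994 Crest.Agent.R122.EBasic602
open Crest.Agent.R122.Gas522 Crest.Agent.R122.RtG302

noncomputable section

open scoped Classical

namespace Crest.Agent.R122.TouchN302

variable {Φ : Space3 → ℝ} {f₀ : PhasePoint → ℝ} {ε T' u₀ : ℝ} {K K' : ℕ}

/-- Number of touches by exit lines, at most `K` leaves. -/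
def tG (Φ : Space3 → ℝ) (ε : ℝ) (K K' : ℕ) (u₀ : ℝ) (P : CTree) (z : PhasePoint × Par P)
    (m : ℕ) (w : Config m) : ℝ≥0∞ :=
  if P.leaves ≤ K then ∑ x ∈ Finset.univ.filter (fun x : Idx P => x ≠ root P),
    (if (MW.cfg w).thetaL Φ ε K' u₀ (lineMM Φ ε P z x) ≤ u₀ then 1 else 0) else 0

theorem measTS_tG (hΦ : AdmissiblePotential Φ) (hε : 0 < ε) (K K' : ℕ) (u₀ : ℝ) :
    MeasTS (tG Φ ε K K' u₀) := by
  intro P m
  unfold tG
  by_cases hP : P.leaves ≤ K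
  · simp only [hP, if_true]
    refine Finset.measurable_sum _ fun x _ => ?_
    have h2 : Measurable fun q : (PhasePoint × Par P) × Config m =>
        (lineMM Φ ε P q.1 x, q.2) :=
      ((measurable_lineMM hΦ ε P x).comp measurable_fst).prodMk measurable_snd
    have h3 := (measurable_touchInd (Φ := Φ) (K := K') (u₀ := u₀) hΦ hε m).comp h2
    exact h3
  · simp only [hP, if_false]
    exact measurable_const

theorem tMaj_tG (hΦ : AdmissiblePotential Φ) (hε : 0 < ε) (K K' : ℕ) (u₀ T' : ℝ) :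
    TMaj Φ ε T' K (fun ε P z _ w =>
      ∃ x, (MW.cfg w).thetaL Φ ε K' u₀ (exL Φ ε P z x) ≤ u₀) (tG Φ ε K K' u₀) where
  meas := measTS_tG hΦ hε K K' u₀
  maj P z m w hP hV hS hw h := by
    obtain ⟨x, hx⟩ := h
    unfold tG
    rw [if_pos hP]
    have hx' : (MW.cfg w).thetaL Φ ε K' u₀ (lineML Φ ε P z x.1) ≤ u₀ := hx
    have hle : (1 : ℝ≥0∞) ≤
        (if (MW.cfg w).thetaL Φ ε K' u₀ (lineMM Φ ε P z x.1) ≤ u₀ then 1 else 0) := by
      rw [lineMM_of_adm ε hV.1, if_pos hx']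
    refine hle.trans (Finset.single_le_sum (f := fun x : Idx P =>
      (if (MW.cfg w).thetaL Φ ε K' u₀ (lineMM Φ ε P z x) ≤ u₀ then 1 else 0 : ℝ≥0∞))
      (fun _ _ => zero_le) ?_)
    exact Finset.mem_filter.2 ⟨Finset.mem_univ _, x.2⟩

/-- **Touched mass of the exit lines of all small trees.** -/
theorem exists_TS_le (hΦ : AdmissiblePotential Φ) (hf : Measurable f₀) {C b : ℝ} (hC : 0 ≤ C)
    (hb : ∀ z, f₀ z ≤ C * Real.exp (-b * ‖z.2‖ ^ 2)) {b' : ℝ} (hb' : 0 < b') (hbb : b' < b)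
    {γ : ℝ → ℝ} {ρ : ℝ≥0∞} (hγ : Measurable γ) (hρ0 : ρ ≠ 0) (hρt : ρ ≠ ∞) (K : ℕ) (T : ℝ) :
    ∃ C' : ℝ≥0∞, C' ≠ ∞ ∧ ∀ (ε T' u₀ : ℝ) (K' : ℕ), 0 < ε → T' ≤ T → K ≤ K' →
      (∀ τ, 0 < τ → τ ≤ u₀ → γ τ ≤ b') →
      TS Φ f₀ ε T' (fun P z m w => wQ Φ ε P z * tG Φ ε K K' u₀ P z m w) ≤
        C' * tnMass Φ f₀ γ ρ ε K' u₀ := by
  have hex : ∀ P : CTree, ∃ C' : ℝ≥0∞, C' ≠ ∞ ∧ ∀ (ε T' u₀ : ℝ) (K' : ℕ), 0 < ε → T' ≤ T →
      P.leaves ≤ K' → (∀ τ, 0 < τ → τ ≤ u₀ → γ τ ≤ b') → ∀ x : Idx P, x ≠ root P →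
      TP Φ f₀ ε T' P (mX Φ ε K' u₀ P x) ≤ C' * tnMass Φ f₀ γ ρ ε K' u₀ := fun P =>
    exists_mass hΦ hf hC hb hb' hbb hγ hρ0 hρt P T
  choose c hc h using hex
  refine ⟨∑ P ∈ GIVStep383.trees K, (Fintype.card (Idx P) : ℝ≥0∞) * c P, ?_, ?_⟩
  · exact ENNReal.sum_ne_top.2 fun P _ => ENNReal.mul_ne_top (ENNReal.natCast_ne_top _) (hc P)
  intro ε T' u₀ K' hε hT hK hγb
  rw [TS_eq_tsum, tsum_eq_sum (s := GIVStep383.trees K)]
  · rw [Finset.sum_mul]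
    refine Finset.sum_le_sum fun P hP => ?_
    have hP' : P.leaves ≤ K := GIVStep383.mem_trees.1 hP
    have h1 : (fun z m w => wQ Φ ε P z * tG Φ ε K K' u₀ P z m w) =
        fun z m w => ∑ x ∈ Finset.univ.filter (fun x : Idx P => x ≠ root P),
          mX Φ ε K' u₀ P x z m w := by
      funext z m w
      unfold tG mX
      rw [if_pos hP', Finset.mul_sum]
    rw [h1, TP_finset_sum hΦ hf _ fun x _ => measTP_mX hΦ hε K' u₀ P x]
    calc ∑ x ∈ Finset.univ.filter (fun x : Idx P => x ≠ root P),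
          TP Φ f₀ ε T' P (mX Φ ε K' u₀ P x)
        ≤ ∑ _x ∈ Finset.univ.filter (fun x : Idx P => x ≠ root P),
          c P * tnMass Φ f₀ γ ρ ε K' u₀ := Finset.sum_le_sum fun x hx =>
            h P ε T' u₀ K' hε hT (hP'.trans hK) hγb x (Finset.mem_filter.1 hx).2
      _ = ((Finset.univ.filter (fun x : Idx P => x ≠ root P)).card : ℝ≥0∞) *
            (c P * tnMass Φ f₀ γ ρ ε K' u₀) := by rw [Finset.sum_const, nsmul_eq_mul]
      _ ≤ (Fintype.card (Idx P) : ℝ≥0∞) * (c P * tnMass Φ f₀ γ ρ ε K' u₀) := by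
            refine mul_le_mul_left ?_ _
            exact_mod_cast Finset.card_le_univ _
      _ = _ := by rw [mul_assoc]
  · intro P hP
    have hP' : ¬ P.leaves ≤ K := fun h => hP (GIVStep383.mem_trees.2 h)
    have h0 : (fun z m w => wQ Φ ε P z * tG Φ ε K K' u₀ P z m w) = fun _ _ _ => 0 := by
      funext z m w
      unfold tG
      rw [if_neg hP', mul_zero]
    rw [h0]
    unfold TP
    simp [gcE_zero]

/-- **TouchNull** from `TN` at `u₀`. -/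
theorem touchNull (hΦ : AdmissiblePotential Φ) (hf : Measurable f₀) {C b : ℝ} (hC : 0 ≤ C)
    (hb : ∀ z, f₀ z ≤ C * Real.exp (-b * ‖z.2‖ ^ 2)) {b' : ℝ} (hb' : 0 < b') (hbb : b' < b)
    {γ : ℝ → ℝ} {ρ : ℝ≥0∞} (hγ : Measurable γ) (hρ0 : ρ ≠ 0) (hρt : ρ ≠ ∞)
    (hγb : ∀ τ, 0 < τ → τ ≤ u₀ → γ τ ≤ b') (hTN : TN Φ f₀ γ ρ u₀) (T' : ℝ) (K : ℕ) :
    TouchNull Φ f₀ u₀ T' K := by
  obtain ⟨C', hC', h⟩ := exists_TS_le hΦ hf hC hb hb' hbb hγ hρ0 hρt K T'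
  intro δ hδ
  set c : ℝ := C'.toReal + 1 with hc
  have hc0 : 0 < c := by positivity
  have hCc : C' ≤ ENNReal.ofReal c := by
    rw [← ENNReal.ofReal_toReal hC']
    exact ENNReal.ofReal_le_ofReal (by rw [hc]; linarith)
  obtain ⟨K₀, hK⟩ := hTN (δ / c) (by positivity)
  refine ⟨max K₀ K, fun K' hK' => ?_⟩
  obtain ⟨ε₀, hε₀, hε⟩ := hK K' ((le_max_left _ _).trans hK')
  refine ⟨ε₀, hε₀, fun ε hε1 hε2 => ⟨_, tMaj_tG hΦ hε1 K K' u₀ T', ?_⟩⟩
  refine (h ε T' u₀ K' hε1 le_rfl ((le_max_right _ _).trans hK') hγb).trans ?_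
  calc C' * tnMass Φ f₀ γ ρ ε K' u₀ ≤ ENNReal.ofReal c * ENNReal.ofReal (δ / c) :=
        mul_le_mul' hCc (hε ε hε1 hε2)
    _ = ENNReal.ofReal δ := by
        rw [← ENNReal.ofReal_mul hc0.le, mul_div_cancel₀ _ hc0.ne']

end Crest.Agent.R122.TouchN302
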