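import Crest.Agent.R122.StmtRed_674
import Crest.Agent.R122.D5Main_726
import Crest.Agent.R122.TouchNull_302
import Crest.Agent.R122.EMDefs_602

/-!
# Reduction to good trees, window form (row 122, helper674)

* `stmtRed_kData` : `StmtRed` from `KData` and `RtGMaj` (D5 = `Chain726.badVol`).
* `rtgMaj_of_ih` : `RtGMaj` at the end `tw` of the previous windows, from the induction hypothesis
  and the null facts `LinkNull`, `RetNullT`, `OkNull`.
* `stmtRed_evW` : `StmtRed` on all short windows, horizon `tw + h₀`.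
-/

set_option autoImplicit false

open MeasureTheory Set Filter Topology
open scoped ENNReal
open Crest.AnalysisR.Kinetic
open Crest.Agent.R122.Master566 Crest.Agent.R122.EDefs602 Crest.Agent.R122.RtG302
open Crest.Agent.R122.Top602

namespace Crest.Agent.R122.Red674

variable {Φ : Space3 → ℝ} {β T : ℝ} {f₀ : PhasePoint → ℝ} {f : ℝ → PhasePoint → ℝ}
  {γ : ℝ → ℝ} {ρ : ℝ≥0∞} {tw te T' : ℝ}

/-- **`StmtRed`** from `KData` and the majorants of the bad trees. -/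
theorem stmtRed_kData (hD : KData Φ β T f₀ f) (htw : 0 ≤ tw) (hte0 : 0 ≤ te) (hte : te < T')
    (hR : ∀ K, RtGMaj Φ f₀ tw T' K) : OneC285.StmtRed Φ f₀ tw te T' :=
  stmtRed hD.adm hD.contDiff.continuous.measurable
    (FM167.lintegral_density_eq_one hD.nonneg hD.integrable hD.mass).le
    (by linarith [hD.beta_pos] : β < 2 * β) (by linarith [hD.beta_pos]) hD.gaussian htw le_rfl hte
    (fun K => Chain726.badVol hD.adm (hte0.trans hte.le) hD.beta_pos K) hR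

/-- **`RtGMaj`** at `tw` from the induction hypothesis at `tw` and the null facts. -/
theorem rtgMaj_of_ih (hD : KData Φ β T f₀ f) {g1 : ℝ} {r1 : ℝ≥0∞} (hg : g1 ≤ β) (hr : 0 < r1)
    (hLP : LinePar g1 r1 T γ ρ) (hIH : IH Φ f₀ f T γ ρ tw)
    (h2 : ∀ K K', LinkNull Φ f₀ tw T' K K') (h3 : ∀ K K', RetNullT Φ f₀ tw T' K K')
    (h4 : ∀ K, OkNull Φ f₀ T' K) (K : ℕ) : RtGMaj Φ f₀ tw T' K := by
  have hf : Measurable f₀ := hD.contDiff.continuous.measurable
  have hβ := hD.beta_pos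
  obtain ⟨C, hC, hb⟩ := GC311.exists_gaussian_bound hD.gaussian
  have hb' : ∀ z : PhasePoint, f₀ z ≤ C * Real.exp (-(2 * β) * ‖z.2‖ ^ 2) := fun z => by
    have h := (le_abs_self _).trans (hb z.1 z.2)
    rw [neg_mul]
    exact h
  have hγb : ∀ τ, 0 < τ → τ ≤ tw → γ τ ≤ β := by
    intro τ hτ _
    obtain ⟨g0, κ, hκ, hγ, -, hg0⟩ := hLP.lin
    rw [hγ]
    show g0 - κ * τ ≤ β
    have : 0 ≤ κ * τ := by positivity
    linarith
  have hρ0 : ρ ≠ 0 := (hr.trans_le hLP.lo).ne'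
  have hρt : ρ ≠ ∞ := (hLP.hi.trans ENNReal.one_lt_top).ne
  exact rtgMaj hD.adm hf
    (TouchN302.touchNull hD.adm hf hC hb' hβ (by linarith : β < 2 * β) hLP.measurable hρ0 hρt hγb
      hIH.tn T' K) (h2 K) (h3 K) (h4 K)

/-- **`StmtRed` on all short windows**, from the induction hypothesis and majorants of the bad trees
at `tw`, horizon `tw + h₀`. -/
theorem stmtRed_evW_of_maj (hD : KData Φ β T f₀ f) {h₀ : ℝ} (hh : 0 < h₀)
    (hR : EvW T fun _ _ tw _ => IH Φ f₀ f T γ ρ tw → ∀ K, RtGMaj Φ f₀ tw (tw + h₀) K) :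
    EvW T fun _ _ tw te => IH Φ f₀ f T γ ρ tw → OneC285.StmtRed Φ f₀ tw te (tw + h₀) := by
  have h1 : EvW T fun h _ _ _ => h ≤ h₀ / 2 :=
    ⟨h₀ / 2, by positivity, 0, fun _ _ _ _ _ hle _ _ _ => hle⟩
  refine (hR.and h1).mono fun h L tw te hh0 hL hW hq hIH => ?_
  have hte : te < tw + h₀ := by
    have := hW.short
    have := hq.2
    linarith
  exact stmtRed_kData hD hW.nonneg (hW.nonneg.trans hW.le) hte (hq.1 hIH)

/-- **`StmtRed` on all short windows** from the null facts. -/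
theorem stmtRed_evW (hD : KData Φ β T f₀ f) {g1 : ℝ} {r1 : ℝ≥0∞} (hg : g1 ≤ β) (hr : 0 < r1)
    (hLP : LinePar g1 r1 T γ ρ) {h₀ : ℝ} (hh : 0 < h₀)
    (h2 : ∀ tw ∈ Icc 0 T, ∀ K K', LinkNull Φ f₀ tw (tw + h₀) K K')
    (h3 : ∀ tw ∈ Icc 0 T, ∀ K K', RetNullT Φ f₀ tw (tw + h₀) K K')
    (h4 : ∀ tw ∈ Icc 0 T, ∀ K, OkNull Φ f₀ (tw + h₀) K) :
    EvW T fun _ _ tw te => IH Φ f₀ f T γ ρ tw → OneC285.StmtRed Φ f₀ tw te (tw + h₀) := by
  refine stmtRed_evW_of_maj hD hh (EvW.of_forall fun h L tw te _ _ _ hW hIH K => ?_)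
  have ht : tw ∈ Icc 0 T := ⟨hW.nonneg, hW.le.trans hW.le_T⟩
  exact rtgMaj_of_ih hD hg hr hLP hIH (h2 tw ht) (h3 tw ht) (h4 tw ht) K

end Crest.Agent.R122.Red674
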