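import Crest.Agent.R122.Mark4_307
import Crest.Agent.R122.EBasic_602

/-!
Row 122, block H7b (helper307), part 5: the crude marked exit bound (MT2), uniform in `ε`.
-/

set_option autoImplicit false
set_option synthInstance.maxSize 1024

open MeasureTheory Set Filter Topology
open Crest.AnalysisR.Kinetic
open scoped ENNReal

noncomputable section

namespace Crest.Agent.R122.Mark307

open Kin796 Kin796.CTree Disc416 Scat818 Flow671 Flux663 Tree674 TreeDom974 PathFlow968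
open TreeLines335 EDefs602 EBasic602
open scoped Classical

variable {Φ : Space3 → ℝ}

/-! ### Energy -/

/-- energy of the fibre variables -/
def fibE : {P : CTree} → (m : Mk P) → Fib m → ℝ
  | _, .top l r => fun q => ‖q.1.1‖ ^ 2 + (nodeE l q.2.1 + nodeE r q.2.2)
  | _, .inl m r => fun q => fibE m q.1 + (‖q.2.1.2.1‖ ^ 2 + nodeE r q.2.2)
  | _, .inr l m => fun q => fibE m q.1 + (‖q.2.1.2.1‖ ^ 2 + nodeE l q.2.2)

theorem fibE_nonneg {P : CTree} (m : Mk P) : ∀ q : Fib m, 0 ≤ fibE m q := by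
  induction m with
  | top l r =>
      intro q
      have h1 := nodeE_nonneg l q.2.1
      have h2 := nodeE_nonneg r q.2.2
      have h3 : 0 ≤ ‖q.1.1‖ ^ 2 := by positivity
      show 0 ≤ ‖q.1.1‖ ^ 2 + (nodeE l q.2.1 + nodeE r q.2.2)
      linarith
  | @inl l m r ih =>
      intro q
      have h1 := ih q.1
      have h2 := nodeE_nonneg r q.2.2
      have h3 : 0 ≤ ‖q.2.1.2.1‖ ^ 2 := by positivity
      show 0 ≤ fibE m q.1 + (‖q.2.1.2.1‖ ^ 2 + nodeE r q.2.2)
      linarith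
  | @inr l r m ih =>
      intro q
      have h1 := ih q.1
      have h2 := nodeE_nonneg l q.2.2
      have h3 : 0 ≤ ‖q.2.1.2.1‖ ^ 2 := by positivity
      show 0 ≤ fibE m q.1 + (‖q.2.1.2.1‖ ^ 2 + nodeE l q.2.2)
      linarith

/-- energy at a flipped node -/
theorem energy_flip (hΦ : AdmissiblePotential Φ) {ε : ℝ} {o : PhasePoint × NodeP}
    (ho : Adm1 Φ o.1.2 o.2) {q : PhasePoint × PhasePoint} (hq : inMap Φ ε o.1 o.2 = q) :
    ‖o.1.2‖ ^ 2 + ‖o.2.2.1‖ ^ 2 = ‖q.1.2‖ ^ 2 + ‖q.2.2‖ ^ 2 := by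
  have h1 := energy_node hΦ ho
  have h2 : (preV Φ o.1.2 o.2).1 = q.1.2 := by rw [← hq]; rfl
  have h3 : (preV Φ o.1.2 o.2).2 = q.2.2 := by rw [← hq]; rfl
  rw [h2, h3] at h1
  exact h1.symm

/-- **Energy of the re-rooted tree.** -/
theorem energy_psi (hΦ : AdmissiblePotential Φ) {ε : ℝ} (hε : 0 < ε) (T : ℝ) {P : CTree}
    (m : Mk P) : ∀ {z : BLine × Fib m}, vf Φ ε T m z ≠ 0 →
    ‖(psi Φ ε T m z).1.2‖ ^ 2 + nodeE P (psi Φ ε T m z).2 = ‖z.1.2.2‖ ^ 2 + fibE m z.2 := by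
  induction m with
  | top l r =>
      intro z _
      show ‖z.2.1.1‖ ^ 2 + (‖z.1.2.2‖ ^ 2 + (nodeE l z.2.2.1 + nodeE r z.2.2.2)) =
        ‖z.1.2.2‖ ^ 2 + (‖z.2.1.1‖ ^ 2 + (nodeE l z.2.2.1 + nodeE r z.2.2.2))
      ring
  | @inl l m r ih =>
      intro z h
      obtain ⟨d, (q : Fib m × (NodeP × Par r))⟩ := z
      obtain ⟨q, a, q'⟩ := q
      obtain ⟨h1, h2, -⟩ := vf_inl_ne h
      have ih' := ih h1
      obtain ⟨o, ho⟩ : ∃ o, outD Φ ε T ((psi Φ ε T m (d, q)).1,
        inLine ε (psi Φ ε T m (d, q)).1 a) = o := ⟨_, rfl⟩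
      obtain ⟨g1, g2, -⟩ := goodL_spec hΦ hε h2 ho
      have e := energy_flip hΦ g1.1 g2
      have e1 : ‖(psi Φ ε T (Mk.inl m r) (d, ((q, (a, q')) : Fib m × (NodeP × Par r)))).1.2‖ ^ 2 +
          nodeE (node l r) (psi Φ ε T (Mk.inl m r)
            (d, ((q, (a, q')) : Fib m × (NodeP × Par r)))).2 =
          ‖o.1.2‖ ^ 2 + (‖o.2.2.1‖ ^ 2 + (nodeE l (psi Φ ε T m (d, q)).2 + nodeE r q')) := by
        rw [← ho]; rfl
      refine e1.trans ?_
      have e2 : ‖o.1.2‖ ^ 2 + ‖o.2.2.1‖ ^ 2 = ‖(psi Φ ε T m (d, q)).1.2‖ ^ 2 + ‖a.2.1‖ ^ 2 := e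
      have e3 : ‖(psi Φ ε T m (d, q)).1.2‖ ^ 2 + nodeE l (psi Φ ε T m (d, q)).2 =
        ‖d.2.2‖ ^ 2 + fibE m q := ih'
      show _ = ‖d.2.2‖ ^ 2 + (fibE m q + (‖a.2.1‖ ^ 2 + nodeE r q'))
      linarith
  | @inr l r m ih =>
      intro z h
      obtain ⟨d, (q : Fib m × (NodeP × Par l))⟩ := z
      obtain ⟨q, a, q'⟩ := q
      obtain ⟨h1, h2, -⟩ := vf_inr_ne h
      have ih' := ih h1
      obtain ⟨o, ho⟩ : ∃ o, outD Φ ε T (inLine ε (psi Φ ε T m (d, q)).1 a,
        (psi Φ ε T m (d, q)).1) = o := ⟨_, rfl⟩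
      obtain ⟨g1, g2, -⟩ := goodR_spec hΦ hε h2 ho
      have e := energy_flip hΦ g1.1 g2
      have e1 : ‖(psi Φ ε T (Mk.inr l m) (d, ((q, (a, q')) : Fib m × (NodeP × Par l)))).1.2‖ ^ 2 +
          nodeE (node l r) (psi Φ ε T (Mk.inr l m)
            (d, ((q, (a, q')) : Fib m × (NodeP × Par l)))).2 =
          ‖o.1.2‖ ^ 2 + (‖o.2.2.1‖ ^ 2 + (nodeE l q' + nodeE r (psi Φ ε T m (d, q)).2)) := by
        rw [← ho]; rfl
      refine e1.trans ?_
      have e2 : ‖o.1.2‖ ^ 2 + ‖o.2.2.1‖ ^ 2 = ‖a.2.1‖ ^ 2 + ‖(psi Φ ε T m (d, q)).1.2‖ ^ 2 := e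
      have e3 : ‖(psi Φ ε T m (d, q)).1.2‖ ^ 2 + nodeE r (psi Φ ε T m (d, q)).2 =
        ‖d.2.2‖ ^ 2 + fibE m q := ih'
      show _ = ‖d.2.2‖ ^ 2 + (fibE m q + (‖a.2.1‖ ^ 2 + nodeE l q'))
      linarith

/-! ### Box -/

/-- indicator of the unit disc -/
def disc1 (y : Plane) : ℝ≥0∞ := (Metric.ball (0 : Plane) 1).indicator 1 y

theorem disc1_of {y : Plane} (h : ‖y‖ < 1) : disc1 y = 1 := by
  unfold disc1
  rw [indicator_of_mem (by simpa using h)]
  rfl

theorem measurable_disc1 : Measurable disc1 := measurable_one.indicator measurableSet_ball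

/-- indicator: impact parameters in the disc, times in `(0, T)` -/
def fibB (T : ℝ) : {P : CTree} → (m : Mk P) → Fib m → ℝ≥0∞
  | _, .top l r => fun q => disc1 q.1.2 * (boxI T l q.2.1 * boxI T r q.2.2)
  | _, .inl m r => fun q => fibB T m q.1 * (box1 T q.2.1 * boxI T r q.2.2)
  | _, .inr l m => fun q => fibB T m q.1 * (box1 T q.2.1 * boxI T l q.2.2)

theorem box_of_vf (hΦ : AdmissiblePotential Φ) {ε : ℝ} (hε : 0 < ε) {T T' : ℝ} (hT : T' ≤ T)
    {P : CTree} (m : Mk P) : ∀ {z : BLine × Fib m}, vf Φ ε T' m z ≠ 0 →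
    fibB T m z.2 = 1 ∧ 0 < z.1.1 ∧ z.1.1 < T' := by
  induction m with
  | top l r =>
      intro z h
      have hV : Valid Φ ε (node l r) T' (psi Φ ε T' (Mk.top l r) z).1.2
        (psi Φ ε T' (Mk.top l r) z).2 := valid_of_vw h
      obtain ⟨⟨h1, h2, h3⟩, h4, h5, h6, h7⟩ := hV
      have hs := PathFlow968.sin_le (Φ := Φ) hε.le (psi Φ ε T' (Mk.top l r) z).1.2
        (psi Φ ε T' (Mk.top l r) z).2.1
      have e1 := boxI_of_valid hε.le (T := T) ⟨h2, h6⟩ (hs.trans (h4.le.trans hT))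
      have e2 := boxI_of_valid hε.le (T := T) ⟨h3, h7⟩ (hs.trans (h4.le.trans hT))
      refine ⟨?_, h5.trans_le hs, h4⟩
      show disc1 z.2.1.2 * (boxI T l z.2.2.1 * boxI T r z.2.2.2) = 1
      have e3 : boxI T l z.2.2.1 = 1 := e1
      have e4 : boxI T r z.2.2.2 = 1 := e2
      have e5 : disc1 z.2.1.2 = 1 := disc1_of h1.1
      rw [e3, e4, e5, one_mul, one_mul]
  | @inl l m r ih =>
      intro z h
      obtain ⟨d, (q : Fib m × (NodeP × Par r))⟩ := z
      obtain ⟨q, a, q'⟩ := q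
      obtain ⟨h1, h2, h3, h4, h5⟩ := vf_inl_ne h
      obtain ⟨i1, i2, i3⟩ := ih h1
      obtain ⟨g1, -, -, g4, -, -, g7, -⟩ := goodL_spec hΦ hε h2 rfl
      refine ⟨?_, i2, i3⟩
      have ha0 : 0 < a.1 := by rw [← g4]; exact g1.2.2
      have ha1 : a.1 < T' := by
        rw [← g4]
        exact (PathFlow968.sin_le hε.le _ _).trans_lt g1.2.1
      have e1 : box1 T a = 1 := box1_of ⟨ha0, ha1.trans_le hT⟩ g7
      have e2 : boxI T r q' = 1 := boxI_of_valid hε.le h5 hT
      have e3 : fibB T m q = 1 := i1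
      show fibB T m q * (box1 T a * boxI T r q') = 1
      rw [e1, e2, e3, one_mul, one_mul]
  | @inr l r m ih =>
      intro z h
      obtain ⟨d, (q : Fib m × (NodeP × Par l))⟩ := z
      obtain ⟨q, a, q'⟩ := q
      obtain ⟨h1, h2, h3, h4, h5⟩ := vf_inr_ne h
      obtain ⟨i1, i2, i3⟩ := ih h1
      obtain ⟨g1, -, -, g4, -, -, g7, -⟩ := goodR_spec hΦ hε h2 rfl
      refine ⟨?_, i2, i3⟩
      have ha0 : 0 < a.1 := by rw [← g4]; exact g1.2.2
      have ha1 : a.1 < T' := by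
        rw [← g4]
        exact (PathFlow968.sin_le hε.le _ _).trans_lt g1.2.1
      have e1 : box1 T a = 1 := box1_of ⟨ha0, ha1.trans_le hT⟩ g7
      have e2 : boxI T l q' = 1 := boxI_of_valid hε.le h5 hT
      have e3 : fibB T m q = 1 := i1
      show fibB T m q * (box1 T a * boxI T l q') = 1
      rw [e1, e2, e3, one_mul, one_mul]

/-! ### Dominating product -/

/-- Gaussian in the velocity -/
def gE (b : ℝ) (v : Space3) : ℝ≥0∞ := ENNReal.ofReal (Real.exp (-b * ‖v‖ ^ 2))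

theorem measurable_gE (b : ℝ) : Measurable (gE b) := by unfold gE; fun_prop

theorem lintegral_gE_ne_top {b : ℝ} (hb : 0 < b) : ∫⁻ v, gE b v ≠ ∞ := by
  have h := ((Boltz814.integrable_gauss hb).const_mul 1).lintegral_lt_top.ne
  simpa [gE] using h

/-- product majorant on the fibre -/
def domF (b T : ℝ) : {P : CTree} → (m : Mk P) → Fib m → ℝ≥0∞
  | _, .top l r => fun q => (gE b q.1.1 * disc1 q.1.2) * (domP b T l q.2.1 * domP b T r q.2.2)
  | _, .inl m r => fun q => domF b T m q.1 * ((box1 T q.2.1 * gE b q.2.1.2.1) * domP b T r q.2.2)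
  | _, .inr l m => fun q => domF b T m q.1 * ((box1 T q.2.1 * gE b q.2.1.2.1) * domP b T l q.2.2)

theorem gE_add (b x y : ℝ) : ENNReal.ofReal (Real.exp (-b * (x + y))) =
    ENNReal.ofReal (Real.exp (-b * x)) * ENNReal.ofReal (Real.exp (-b * y)) := by
  rw [← ENNReal.ofReal_mul (Real.exp_pos _).le, ← Real.exp_add]
  congr 2
  ring

theorem domF_eq (b T : ℝ) {P : CTree} (m : Mk P) : ∀ q : Fib m,
    domF b T m q = fibB T m q * ENNReal.ofReal (Real.exp (-b * fibE m q)) := by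
  induction m with
  | top l r =>
      intro q
      show (gE b q.1.1 * disc1 q.1.2) * (domP b T l q.2.1 * domP b T r q.2.2) =
        (disc1 q.1.2 * (boxI T l q.2.1 * boxI T r q.2.2)) *
          ENNReal.ofReal (Real.exp (-b * (‖q.1.1‖ ^ 2 + (nodeE l q.2.1 + nodeE r q.2.2))))
      rw [domP_eq, domP_eq, gE_add, gE_add, gE]
      ring
  | @inl l m r ih =>
      intro q
      show domF b T m q.1 * ((box1 T q.2.1 * gE b q.2.1.2.1) * domP b T r q.2.2) =
        (fibB T m q.1 * (box1 T q.2.1 * boxI T r q.2.2)) *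
          ENNReal.ofReal (Real.exp (-b * (fibE m q.1 + (‖q.2.1.2.1‖ ^ 2 + nodeE r q.2.2))))
      rw [ih, domP_eq, gE_add, gE_add, gE]
      ring
  | @inr l r m ih =>
      intro q
      show domF b T m q.1 * ((box1 T q.2.1 * gE b q.2.1.2.1) * domP b T l q.2.2) =
        (fibB T m q.1 * (box1 T q.2.1 * boxI T l q.2.2)) *
          ENNReal.ofReal (Real.exp (-b * (fibE m q.1 + (‖q.2.1.2.1‖ ^ 2 + nodeE l q.2.2))))
      rw [ih, domP_eq, gE_add, gE_add, gE]
      ring

theorem lintegral_prod_mul_le {α β : Type*} [MeasureSpace α] [MeasureSpace β]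
    [SFinite (volume : Measure β)] {f : α → ℝ≥0∞} {g : β → ℝ≥0∞} (hf : Measurable f)
    (hg : Measurable g) : ∫⁻ z : α × β, f z.1 * g z.2 = (∫⁻ x, f x) * ∫⁻ y, g y := by
  rw [Measure.volume_eq_prod]
  exact lintegral_prod_mul hf.aemeasurable hg.aemeasurable

theorem measurable_domF (b T : ℝ) {P : CTree} (m : Mk P) : Measurable (domF b T m) := by
  induction m with
  | top l r =>
      have h1 : Measurable fun q : (Space3 × Plane) × (Par l × Par r) => q.1.1 := by fun_prop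
      have h2 : Measurable fun q : (Space3 × Plane) × (Par l × Par r) => q.1.2 := by fun_prop
      have h3 : Measurable fun q : (Space3 × Plane) × (Par l × Par r) => q.2.1 := by fun_prop
      have h4 : Measurable fun q : (Space3 × Plane) × (Par l × Par r) => q.2.2 := by fun_prop
      exact (((measurable_gE b).comp h1).mul (measurable_disc1.comp h2)).mul
        (((measurable_domP b T l).comp h3).mul ((measurable_domP b T r).comp h4))
  | @inl l m r ih =>
      have h1 : Measurable fun q : Fib m × (NodeP × Par r) => q.1 := measurable_fst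
      have h2 : Measurable fun q : Fib m × (NodeP × Par r) => q.2.1 := measurable_snd.fst
      have h3 : Measurable fun q : Fib m × (NodeP × Par r) => q.2.2 := measurable_snd.snd
      exact (ih.comp h1).mul ((((measurable_box1 T).comp h2).mul
        ((measurable_gE b).comp h2.snd.fst)).mul ((measurable_domP b T r).comp h3))
  | @inr l r m ih =>
      have h1 : Measurable fun q : Fib m × (NodeP × Par l) => q.1 := measurable_fst
      have h2 : Measurable fun q : Fib m × (NodeP × Par l) => q.2.1 := measurable_snd.fst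
      have h3 : Measurable fun q : Fib m × (NodeP × Par l) => q.2.2 := measurable_snd.snd
      exact (ih.comp h1).mul ((((measurable_box1 T).comp h2).mul
        ((measurable_gE b).comp h2.snd.fst)).mul ((measurable_domP b T l).comp h3))

theorem lintegral_node_ne_top {b : ℝ} (hb : 0 < b) (T : ℝ) (P : CTree) :
    ∫⁻ z : NodeP × Par P, (box1 T z.1 * gE b z.1.2.1) * domP b T P z.2 ≠ ∞ := by
  have hm : Measurable fun a : NodeP => box1 T a * gE b a.2.1 :=
    (measurable_box1 T).mul ((measurable_gE b).comp measurable_snd.fst)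
  rw [lintegral_prod_mul_le (f := fun a : NodeP => box1 T a * gE b a.2.1)
    (g := fun p : Par P => domP b T P p) hm (measurable_domP b T P)]
  exact ENNReal.mul_ne_top (lintegral_box_ne_top hb T) (lintegral_domP_ne_top hb T P)

theorem lintegral_domF_ne_top {b : ℝ} (hb : 0 < b) (T : ℝ) {P : CTree} (m : Mk P) :
    ∫⁻ q : Fib m, domF b T m q ≠ ∞ := by
  induction m with
  | top l r =>
      have e : ∫⁻ q : Fib (Mk.top l r), domF b T (Mk.top l r) q =
          ∫⁻ q : (Space3 × Plane) × (Par l × Par r),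
            (fun x : Space3 × Plane => gE b x.1 * disc1 x.2) q.1 *
            (fun y : Par l × Par r => domP b T l y.1 * domP b T r y.2) q.2 := rfl
      have h1 : Measurable fun x : Space3 × Plane => gE b x.1 * disc1 x.2 :=
        ((measurable_gE b).comp measurable_fst).mul (measurable_disc1.comp measurable_snd)
      have h2 : Measurable fun y : Par l × Par r => domP b T l y.1 * domP b T r y.2 :=
        ((measurable_domP b T l).comp measurable_fst).mul
          ((measurable_domP b T r).comp measurable_snd)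
      rw [e, lintegral_prod_mul_le h1 h2,
        lintegral_prod_mul_le (f := gE b) (g := disc1) (measurable_gE b) measurable_disc1,
        lintegral_prod_mul_le (f := domP b T l) (g := domP b T r) (measurable_domP b T l)
          (measurable_domP b T r)]
      refine ENNReal.mul_ne_top (ENNReal.mul_ne_top (lintegral_gE_ne_top hb) ?_)
        (ENNReal.mul_ne_top (lintegral_domP_ne_top hb T l) (lintegral_domP_ne_top hb T r))
      unfold disc1
      rw [lintegral_indicator_one measurableSet_ball]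
      exact measure_ball_lt_top.ne
  | @inl l m r ih =>
      have e : ∫⁻ q : Fib (Mk.inl m r), domF b T (Mk.inl m r) q =
          ∫⁻ q : Fib m × (NodeP × Par r), domF b T m q.1 *
            (fun z : NodeP × Par r => (box1 T z.1 * gE b z.1.2.1) * domP b T r z.2) q.2 := rfl
      have h2 : Measurable fun z : NodeP × Par r => (box1 T z.1 * gE b z.1.2.1) *
          domP b T r z.2 :=
        (((measurable_box1 T).comp measurable_fst).mul
          ((measurable_gE b).comp measurable_fst.snd.fst)).mul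
            ((measurable_domP b T r).comp measurable_snd)
      rw [e, lintegral_prod_mul_le (measurable_domF b T m) h2]
      exact ENNReal.mul_ne_top ih (lintegral_node_ne_top hb T r)
  | @inr l r m ih =>
      have e : ∫⁻ q : Fib (Mk.inr l m), domF b T (Mk.inr l m) q =
          ∫⁻ q : Fib m × (NodeP × Par l), domF b T m q.1 *
            (fun z : NodeP × Par l => (box1 T z.1 * gE b z.1.2.1) * domP b T l z.2) q.2 := rfl
      have h2 : Measurable fun z : NodeP × Par l => (box1 T z.1 * gE b z.1.2.1) *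
          domP b T l z.2 :=
        (((measurable_box1 T).comp measurable_fst).mul
          ((measurable_gE b).comp measurable_fst.snd.fst)).mul
            ((measurable_domP b T l).comp measurable_snd)
      rw [e, lintegral_prod_mul_le (measurable_domF b T m) h2]
      exact ENNReal.mul_ne_top ih (lintegral_node_ne_top hb T l)

/-! ### The crude bound -/

/-- **Pointwise domination in re-rooted parameters.** -/
theorem vf_prod_le (hΦ : AdmissiblePotential Φ) {C b b' : ℝ} (hC : 0 ≤ C) (hb : b' < b)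
    {k : PhasePoint → ℝ≥0∞} (hk : ∀ z, k z ≤ ENNReal.ofReal (C * Real.exp (-b * ‖z.2‖ ^ 2)))
    (P : CTree) :
    ∃ C' : ℝ, 0 ≤ C' ∧ ∀ (ε T T' : ℝ), 0 < ε → T' ≤ T → ∀ (m : Mk P) (z : BLine × Fib m),
      vf Φ ε T' m z * ∏ i, k (lines Φ ε P (psi Φ ε T' m z).1 (psi Φ ε T' m z).2 i) ≤
        ENNReal.ofReal C' * ((Ioo 0 T').indicator 1 z.1.1 * gE b' z.1.2.2) *
          domF b' T m z.2 := by
  obtain ⟨C', hC', H⟩ := le_domG hΦ hC hb hk P
  refine ⟨C', hC', fun ε T T' hε hT m z => ?_⟩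
  by_cases hz : vf Φ ε T' m z = 0
  · rw [hz, zero_mul]; exact bot_le
  obtain ⟨h1, h2, h3⟩ := box_of_vf hΦ hε hT m hz
  have hvw : vw Φ ε P T' (psi Φ ε T' m z) ≠ 0 := by rw [← vf_eq hΦ hε T' m hz]; exact hz
  have hV := valid_of_vw hvw
  have h4 := H ε T T' (psi Φ ε T' m z).1 (psi Φ ε T' m z).2 hε.le hT hV
  have hE := energy_psi hΦ hε T' m hz
  rw [vf_eq hΦ hε T' m hz, vw_of_valid hV]
  refine h4.trans (le_of_eq ?_)
  unfold domG
  rw [boxI_of_valid hε.le hV hT, one_mul, hE, domF_eq, h1, one_mul,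
    indicator_of_mem (show z.1.1 ∈ Ioo 0 T' from ⟨h2, h3⟩), Pi.one_apply, one_mul,
    ENNReal.ofReal_mul hC', gE_add, gE, mul_assoc]

/-- **(MT2) Crude marked exit bound**, uniform in `ε` and in the horizon `T' ≤ T`. -/
theorem crude_exit (hΦ : AdmissiblePotential Φ) {C b b' : ℝ} (hC : 0 ≤ C) (hb' : 0 < b')
    (hb : b' < b) {k : PhasePoint → ℝ≥0∞} (hkm : Measurable k)
    (hk : ∀ z, k z ≤ ENNReal.ofReal (C * Real.exp (-b * ‖z.2‖ ^ 2))) (P : CTree) (T : ℝ) :
    ∃ C' : ℝ≥0∞, C' ≠ ∞ ∧ ∀ (ε T' : ℝ), 0 < ε → T' ≤ T → ∀ (m : Mk P) (φ : BLine → ℝ≥0∞),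
      Measurable φ →
      ∫⁻ z : PhasePoint × Par P, vw Φ ε P T' z *
          ((∏ i, k (lines Φ ε P z.1 z.2 i)) * φ (exl Φ ε m z.1 z.2)) ≤
        C' * ∫⁻ d : BLine, (Ioo 0 T').indicator 1 d.1 * gE b' d.2.2 * φ d := by
  obtain ⟨C', hC', H⟩ := vf_prod_le hΦ hC hb hk P
  have hfin : ∑ m : Mk P, ∫⁻ q : Fib m, domF b' T m q ≠ ∞ := by
    rw [ENNReal.sum_ne_top]
    exact fun m _ => lintegral_domF_ne_top hb' T m
  refine ⟨ENNReal.ofReal C' * ∑ m : Mk P, ∫⁻ q : Fib m, domF b' T m q,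
    ENNReal.mul_ne_top ENNReal.ofReal_ne_top hfin, fun ε T' hε hT m φ hφ => ?_⟩
  -- measurable form
  have hF : Measurable fun w : BLine × (PhasePoint × Par P) =>
      (∏ i, k (linesM Φ ε P w.2.1 w.2.2 i)) * φ w.1 := by
    refine Measurable.mul ?_ (hφ.comp measurable_fst)
    refine Finset.measurable_prod _ fun i _ => ?_
    exact hkm.comp ((measurable_pi_apply i).comp
      ((measurable_linesM hΦ ε P).comp measurable_snd))
  have e1 : ∫⁻ z : PhasePoint × Par P, vw Φ ε P T' z *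
        ((∏ i, k (lines Φ ε P z.1 z.2 i)) * φ (exl Φ ε m z.1 z.2)) =
      ∫⁻ z : PhasePoint × Par P, vw Φ ε P T' z *
        ((∏ i, k (linesM Φ ε P z.1 z.2 i)) * φ (exM Φ ε m z)) := by
    refine lintegral_congr fun z => ?_
    by_cases hz : vw Φ ε P T' z = 0
    · rw [hz, zero_mul, zero_mul]
    · have hV := valid_of_vw hz
      rw [linesM_of_adm ε hV.1, exM_eq m hV.1]
  have hgm : Measurable fun d : BLine => (Ioo 0 T').indicator (1 : ℝ → ℝ≥0∞) d.1 * gE b' d.2.2 *
      φ d := by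
    refine Measurable.mul (Measurable.mul ?_ ((measurable_gE b').comp measurable_snd.snd)) hφ
    exact (measurable_one.indicator measurableSet_Ioo).comp measurable_fst
  rw [e1, reroot_ex hΦ hε T' m hF]
  calc ∫⁻ z : BLine × Fib m, vf Φ ε T' m z *
        ((∏ i, k (linesM Φ ε P (psi Φ ε T' m z).1 (psi Φ ε T' m z).2 i)) * φ z.1)
      ≤ ∫⁻ z : BLine × Fib m, ENNReal.ofReal C' *
          (((Ioo 0 T').indicator (1 : ℝ → ℝ≥0∞) z.1.1 * gE b' z.1.2.2 * φ z.1) *
            domF b' T m z.2) := by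
        refine lintegral_mono fun z => ?_
        by_cases hz : vf Φ ε T' m z = 0
        · rw [hz, zero_mul]; exact bot_le
        have hvw : vw Φ ε P T' (psi Φ ε T' m z) ≠ 0 := by
          rw [← vf_eq hΦ hε T' m hz]; exact hz
        rw [linesM_of_adm ε (valid_of_vw hvw).1, ← mul_assoc]
        calc _ ≤ (ENNReal.ofReal C' * ((Ioo 0 T').indicator 1 z.1.1 * gE b' z.1.2.2) *
              domF b' T m z.2) * φ z.1 := mul_le_mul_left (H ε T T' hε hT m z) _
          _ = _ := by ring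
    _ = ENNReal.ofReal C' * ((∫⁻ d : BLine, (Ioo 0 T').indicator 1 d.1 * gE b' d.2.2 * φ d) *
          ∫⁻ q : Fib m, domF b' T m q) := by
        have hm2 : Measurable fun z : BLine × Fib m =>
            ((Ioo 0 T').indicator (1 : ℝ → ℝ≥0∞) z.1.1 * gE b' z.1.2.2 * φ z.1) *
              domF b' T m z.2 := (hgm.comp measurable_fst).mul
          ((measurable_domF b' T m).comp measurable_snd)
        rw [lintegral_const_mul _ hm2]
        congr 1
        exact lintegral_prod_mul_le hgm (measurable_domF b' T m)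
    _ ≤ ENNReal.ofReal C' * ((∫⁻ d : BLine, (Ioo 0 T').indicator 1 d.1 * gE b' d.2.2 * φ d) *
          ∑ m : Mk P, ∫⁻ q : Fib m, domF b' T m q) := by
        gcongr
        exact Finset.single_le_sum (f := fun m : Mk P => ∫⁻ q : Fib m, domF b' T m q)
          (fun _ _ => bot_le) (Finset.mem_univ m)
    _ = _ := by ring

/-! ### The crude bound against `lineM` -/

theorem gE_eq_wG (b : ℝ) (v : Space3) : gE b v = Kin796.wG b v := by
  unfold gE Kin796.wG
  rw [neg_mul]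

theorem lineM_ge {γ : ℝ → ℝ} (hγm : Measurable γ) {ρ : ℝ≥0∞} (hρ1 : ρ ≤ 1) {K n N : ℕ}
    (hn : 1 ≤ n) (hnK : n ≤ K) (hnN : n ≤ N) {T b' : ℝ} (hγ : ∀ τ ∈ Ioc 0 T, γ τ ≤ b')
    {φ : ML → ℝ≥0∞} (hφ : Measurable φ) :
    ρ ^ N * ∫⁻ d : BLine, (Ioo 0 T).indicator 1 d.1 * gE b' d.2.2 * φ (d, n) ≤
      ∫⁻ l, φ l ∂lineM γ ρ K T := by
  have hm : Measurable fun l : ML => lineD γ ρ K l * φ l := (measurable_lineD hγm).mul hφ
  have hm1 : Measurable fun x : BLine => lineD γ ρ K (x, n) * φ (x, n) :=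
    hm.comp (measurable_id.prodMk measurable_const)
  have hm2 : Measurable fun d : BLine =>
      (Ioo 0 T).indicator (1 : ℝ → ℝ≥0∞) d.1 * gE b' d.2.2 * φ (d, n) := by
    refine Measurable.mul (Measurable.mul ?_ ((measurable_gE b').comp measurable_snd.snd))
      (hφ.comp (measurable_id.prodMk measurable_const))
    exact (measurable_one.indicator measurableSet_Ioo).comp measurable_fst
  have e1 : ∫⁻ l, φ l ∂lineM γ ρ K T = ∫⁻ x, ∑' n : ℕ, lineD γ ρ K (x, n) * φ (x, n)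
      ∂((volume.restrict (Ioc (0 : ℝ) T)).prod (volume : Measure PhasePoint)) := by
    unfold lineM
    rw [lintegral_withDensity_eq_lintegral_mul _ (measurable_lineD hγm) hφ]
    unfold lineV
    simp only [Pi.mul_apply]
    rw [lintegral_prod _ hm.aemeasurable]
    refine lintegral_congr fun x => ?_
    rw [lintegral_count]
  have e2 : ((volume.restrict (Ioc (0 : ℝ) T)).prod (volume : Measure PhasePoint)) =
      (volume : Measure BLine).restrict ((Ioc 0 T) ×ˢ univ) := by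
    rw [Measure.volume_eq_prod ℝ PhasePoint, ← Measure.prod_restrict, Measure.restrict_univ]
  rw [e1, e2, ← lintegral_const_mul _ hm2,
    ← lintegral_indicator (measurableSet_Ioc.prod MeasurableSet.univ)]
  refine lintegral_mono fun d => ?_
  by_cases hd : d.1 ∈ Ioo 0 T
  · have hd' : d ∈ (Ioc (0 : ℝ) T) ×ˢ (univ : Set PhasePoint) := ⟨⟨hd.1, hd.2.le⟩, mem_univ _⟩
    rw [indicator_of_mem hd']
    refine le_trans ?_ (ENNReal.le_tsum n)
    rw [indicator_of_mem hd, Pi.one_apply, one_mul]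
    have h1 : gE b' d.2.2 ≤ Kin796.wG (γ d.1) d.2.2 := by
      rw [gE_eq_wG]
      unfold Kin796.wG
      refine ENNReal.ofReal_le_ofReal (Real.exp_le_exp.2 (neg_le_neg ?_))
      exact mul_le_mul_of_nonneg_right (hγ d.1 ⟨hd.1, hd.2.le⟩) (by positivity)
    have h2 : ρ ^ N ≤ markW ρ K n := by
      unfold markW
      rw [if_pos ⟨hn, hnK⟩]
      exact pow_le_pow_right_of_le_one' hρ1 hnN
    unfold lineD
    calc ρ ^ N * (gE b' d.2.2 * φ (d, n)) = gE b' d.2.2 * ρ ^ N * φ (d, n) := by ring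
      _ ≤ _ := by gcongr
  · rw [indicator_of_notMem hd, zero_mul, zero_mul, mul_zero]
    exact bot_le

/-- **(MT2) against the line measure**: sum over all exits of a tree. -/
theorem crude_exit_lineM (hΦ : AdmissiblePotential Φ) {C b b' : ℝ} (hC : 0 ≤ C) (hb' : 0 < b')
    (hb : b' < b) {k : PhasePoint → ℝ≥0∞} (hkm : Measurable k)
    (hk : ∀ z, k z ≤ ENNReal.ofReal (C * Real.exp (-b * ‖z.2‖ ^ 2))) (P : CTree) {T : ℝ}
    {γ : ℝ → ℝ} (hγm : Measurable γ) (hγ : ∀ τ ∈ Ioc 0 T, γ τ ≤ b') {ρ : ℝ≥0∞} (hρ0 : ρ ≠ 0)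
    (hρ1 : ρ ≤ 1) :
    ∃ C' : ℝ≥0∞, C' ≠ ∞ ∧ ∀ (ε T' : ℝ), 0 < ε → T' ≤ T → ∀ K : ℕ, P.leaves ≤ K →
      ∀ φ : ML → ℝ≥0∞, Measurable φ →
      ∫⁻ z : PhasePoint × Par P, vw Φ ε P T' z * ((∏ i, k (lines Φ ε P z.1 z.2 i)) *
          ∑ m : Mk P, φ (lineML Φ ε P z (exIdx m))) ≤
        C' * ∫⁻ l, φ l ∂lineM γ ρ K T' := by
  obtain ⟨C', hC', H⟩ := crude_exit hΦ hC hb' hb hkm hk P T
  have hρt : ρ ≠ ∞ := (hρ1.trans_lt ENNReal.one_lt_top).ne
  have hp0 : ρ ^ P.leaves ≠ 0 := pow_ne_zero _ hρ0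
  have hpt : ρ ^ P.leaves ≠ ∞ := ENNReal.pow_ne_top hρt
  refine ⟨Fintype.card (Mk P) * (C' * (ρ ^ P.leaves)⁻¹),
    ENNReal.mul_ne_top (ENNReal.natCast_ne_top _)
      (ENNReal.mul_ne_top hC' (ENNReal.inv_ne_top.2 hp0)), fun ε T' hε hT K hK φ hφ => ?_⟩
  have hterm : ∀ m : Mk P, ∫⁻ z : PhasePoint × Par P, vw Φ ε P T' z *
      ((∏ i, k (lines Φ ε P z.1 z.2 i)) * φ (exl Φ ε m z.1 z.2, mkN m)) ≤
      C' * (ρ ^ P.leaves)⁻¹ * ∫⁻ l, φ l ∂lineM γ ρ K T' := by
    intro m
    have h1 := H ε T' hε hT m (fun d => φ (d, mkN m))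
      (hφ.comp (measurable_id.prodMk measurable_const))
    have hmk : mkN m ≤ P.leaves := by rw [← mk_exIdx]; exact mk_le P _
    have hmk1 : 1 ≤ mkN m := by rw [← mk_exIdx]; exact one_le_mk P _
    have h2 := lineM_ge (γ := γ) hγm hρ1 (K := K) (N := P.leaves) hmk1 (hmk.trans hK) hmk
      (T := T') (b' := b') (fun τ hτ => hγ τ ⟨hτ.1, hτ.2.trans hT⟩) hφ
    have h3 : ∫⁻ d : BLine, (Ioo 0 T').indicator 1 d.1 * gE b' d.2.2 * φ (d, mkN m) ≤
        (ρ ^ P.leaves)⁻¹ * ∫⁻ l, φ l ∂lineM γ ρ K T' := by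
      rw [← ENNReal.mul_le_iff_le_inv hp0 hpt]
      exact h2
    calc _ ≤ C' * ∫⁻ d : BLine, (Ioo 0 T').indicator 1 d.1 * gE b' d.2.2 * φ (d, mkN m) := h1
      _ ≤ C' * ((ρ ^ P.leaves)⁻¹ * ∫⁻ l, φ l ∂lineM γ ρ K T') := mul_le_mul_right h3 _
      _ = _ := by ring
  -- measurability of the terms
  have hmeas : ∀ m : Mk P, Measurable fun z : PhasePoint × Par P => vw Φ ε P T' z *
      ((∏ i, k (linesM Φ ε P z.1 z.2 i)) * φ (exM Φ ε m z, mkN m)) := by
    intro m
    refine (measurable_vw hΦ ε P T').mul (Measurable.mul ?_ ?_)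
    · exact Finset.measurable_prod _ fun i _ => hkm.comp ((measurable_pi_apply i).comp
        (measurable_linesM hΦ ε P))
    · exact hφ.comp ((measurable_exM hΦ ε m).prodMk measurable_const)
  have e1 : ∫⁻ z : PhasePoint × Par P, vw Φ ε P T' z * ((∏ i, k (lines Φ ε P z.1 z.2 i)) *
          ∑ m : Mk P, φ (lineML Φ ε P z (exIdx m))) =
      ∑ m : Mk P, ∫⁻ z : PhasePoint × Par P, vw Φ ε P T' z *
      ((∏ i, k (lines Φ ε P z.1 z.2 i)) * φ (exl Φ ε m z.1 z.2, mkN m)) := by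
    have e2 : ∀ m : Mk P, ∫⁻ z : PhasePoint × Par P, vw Φ ε P T' z *
        ((∏ i, k (lines Φ ε P z.1 z.2 i)) * φ (exl Φ ε m z.1 z.2, mkN m)) =
        ∫⁻ z : PhasePoint × Par P, vw Φ ε P T' z *
        ((∏ i, k (linesM Φ ε P z.1 z.2 i)) * φ (exM Φ ε m z, mkN m)) := by
      intro m
      refine lintegral_congr fun z => ?_
      by_cases hz : vw Φ ε P T' z = 0
      · rw [hz, zero_mul, zero_mul]
      · have hV := valid_of_vw hz
        rw [linesM_of_adm ε hV.1, exM_eq m hV.1]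
    simp only [e2]
    rw [← lintegral_finsetSum _ fun m _ => hmeas m]
    refine lintegral_congr fun z => ?_
    by_cases hz : vw Φ ε P T' z = 0
    · simp only [hz, zero_mul, Finset.sum_const_zero]
    · have hV := valid_of_vw hz
      rw [← Finset.mul_sum, ← Finset.mul_sum, linesM_of_adm ε hV.1]
      congr 2
      refine Finset.sum_congr rfl fun m _ => ?_
      rw [lineML_exIdx, exM_eq m hV.1]
  rw [e1]
  refine (Finset.sum_le_sum fun m _ => hterm m).trans (le_of_eq ?_)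
  rw [Finset.sum_const, Finset.card_univ, nsmul_eq_mul]
  ring

end Crest.Agent.R122.Mark307

end
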