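import Crest.Agent.R122.Nu0C_566
import Crest.Agent.R122.Fin_410
import Crest.Agent.R122.Mark5_307
import Crest.Agent.R122.EMDefs_602
import Crest.Agent.R122.GIVChild_383

/-!
# Finiteness of the pair mass of `nu0` (row 122, section E)

* `lineInt_le` : mass of the test lines meeting the root line of a structure.
* `first_marginal_le` : first marginal of `nu0` against the measure on lines, uniformly in `ε`, `K`.
* `PE_nu0_ne_top`, `finPM_nu0` : finiteness of the pair mass.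
-/

set_option autoImplicit false
set_option maxHeartbeats 400000
set_option linter.unusedSectionVars false

open MeasureTheory Set Filter
open scoped ENNReal Classical Topology
open Crest.AnalysisR.Kinetic
open Crest.Agent.R122.Kin796 Crest.Agent.R122.Kin796.CTree Crest.Agent.R122.Tree674
open Crest.Agent.R122.GC311 Crest.Agent.R122.EDefs602 Crest.Agent.R122.TreeLines335
open Crest.Agent.R122.OneC285 Crest.Agent.R122.Disc416 Crest.Agent.R122.Nu0566

noncomputable section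

namespace Crest.Agent.R122.FinPM566

variable {Φ : Space3 → ℝ} {f₀ : PhasePoint → ℝ} {ε : ℝ} {K : ℕ} {P : CTree}

/-! ### Elementary bounds -/

theorem one_add_le_exp {δ : ℝ} (hδ : 0 < δ) (t : ℝ) :
    1 + t ≤ (2 + 1 / δ) * Real.exp (δ * t ^ 2) := by
  have h1 : 1 + δ * t ^ 2 ≤ Real.exp (δ * t ^ 2) := by
    have := Real.add_one_le_exp (δ * t ^ 2)
    linarith
  have h2 : 0 < 2 + 1 / δ := by positivity
  have h3 : (2 + 1 / δ) * (1 + δ * t ^ 2) ≤ (2 + 1 / δ) * Real.exp (δ * t ^ 2) :=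
    mul_le_mul_of_nonneg_left h1 h2.le
  have h4 : (2 + 1 / δ) * (1 + δ * t ^ 2) = 2 + 1 / δ + 2 * δ * t ^ 2 + t ^ 2 := by
    field_simp
    ring
  have h5 : 0 ≤ 1 / δ := by positivity
  nlinarith [sq_nonneg (t - 1), mul_nonneg hδ.le (sq_nonneg t)]

/-- Area of the unit disc. -/
def vD : ℝ≥0∞ := volume (Metric.ball (0 : Plane) 1)

theorem vD_ne_top : vD ≠ ∞ := measure_ball_lt_top.ne

/-- Gaussian moment. -/
def gm (g : ℝ) : ℝ≥0∞ := ∫⁻ v : Space3, wG g v * ENNReal.ofReal (1 + ‖v‖)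

theorem gm_ne_top {g : ℝ} (hg : 0 < g) : gm g ≠ ∞ := by
  unfold gm
  have h1 : ∀ v : Space3, wG g v * ENNReal.ofReal (1 + ‖v‖) ≤
      ENNReal.ofReal (2 + 1 / (g / 2)) * Mark307.gE (g / 2) v := by
    intro v
    unfold wG Mark307.gE
    rw [← ENNReal.ofReal_mul (Real.exp_nonneg _), ← ENNReal.ofReal_mul (by positivity)]
    refine ENNReal.ofReal_le_ofReal ?_
    have h2 := one_add_le_exp (half_pos hg) ‖v‖
    calc Real.exp (-(g * ‖v‖ ^ 2)) * (1 + ‖v‖)
        ≤ Real.exp (-(g * ‖v‖ ^ 2)) * ((2 + 1 / (g / 2)) * Real.exp (g / 2 * ‖v‖ ^ 2)) :=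
          mul_le_mul_of_nonneg_left h2 (Real.exp_nonneg _)
      _ = (2 + 1 / (g / 2)) * Real.exp (-(g / 2) * ‖v‖ ^ 2) := by
          rw [mul_left_comm, ← Real.exp_add]
          congr 2
          ring
  refine ne_top_of_le_ne_top ?_ (lintegral_mono h1)
  rw [lintegral_const_mul _ (Mark307.measurable_gE _)]
  exact ENNReal.mul_ne_top ENNReal.ofReal_ne_top (Mark307.lintegral_gE_ne_top (half_pos hg))

/-! ### Test lines meeting the root line -/

theorem flux_one_le (g : ℝ) (u : Space3) :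
    ∫⁻ v : Space3, ENNReal.ofReal ‖v - u‖ * (wG g v *
      ∫⁻ _b in impactDisc (v - u), (1 : ℝ≥0∞) ∂μHE[2]) ≤
      vD * gm g * ENNReal.ofReal (1 + ‖u‖) := by
  have h1 : ∀ v : Space3, ENNReal.ofReal ‖v - u‖ * (wG g v *
      ∫⁻ _b in impactDisc (v - u), (1 : ℝ≥0∞) ∂μHE[2]) ≤
      (vD * ENNReal.ofReal (1 + ‖u‖)) * (wG g v * ENNReal.ofReal (1 + ‖v‖)) := by
    intro v
    have h2 := norm_mul_lintegral_impactDisc (v - u) (fun _ => (1 : ℝ≥0∞))
    have h3 : ∫⁻ _y in Metric.ball (0 : Plane) 1, (1 : ℝ≥0∞) = vD := by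
      rw [lintegral_one, Measure.restrict_apply_univ]
      rfl
    have h4 : ENNReal.ofReal ‖v - u‖ ≤ ENNReal.ofReal (1 + ‖v‖) * ENNReal.ofReal (1 + ‖u‖) := by
      rw [← ENNReal.ofReal_mul (by positivity)]
      refine ENNReal.ofReal_le_ofReal ?_
      have := norm_sub_le v u
      nlinarith [norm_nonneg v, norm_nonneg u, mul_nonneg (norm_nonneg v) (norm_nonneg u)]
    calc ENNReal.ofReal ‖v - u‖ * (wG g v * ∫⁻ _b in impactDisc (v - u), (1 : ℝ≥0∞) ∂μHE[2])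
        = wG g v * (ENNReal.ofReal ‖v - u‖ *
            ∫⁻ _b in impactDisc (v - u), (1 : ℝ≥0∞) ∂μHE[2]) := by ring
      _ = wG g v * (ENNReal.ofReal ‖v - u‖ * vD) := by rw [h2, h3]
      _ ≤ wG g v * ((ENNReal.ofReal (1 + ‖v‖) * ENNReal.ofReal (1 + ‖u‖)) * vD) := by gcongr
      _ = _ := by ring
  refine (lintegral_mono h1).trans (le_of_eq ?_)
  rw [lintegral_const_mul _ (by unfold wG; fun_prop)]
  unfold gm
  ring

theorem tsum_mark_le (ρ : ℝ≥0∞) (K : ℕ) (P : CTree) :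
    ∑' n : ℕ, markW ρ K n * (if n + P.leaves ≤ K then (1 : ℝ≥0∞) else 0) ≤ (1 - ρ)⁻¹ := by
  refine le_trans (ENNReal.tsum_le_tsum fun n => ?_) (EBasic602.tsum_markW_le (ρ := ρ) K)
  split_ifs
  · rw [mul_one]
  · rw [mul_zero]
    exact zero_le

/-- Constant of `lineInt_le`. -/
def cLI (g : ℝ) (ρ : ℝ≥0∞) (te : ℝ) : ℝ≥0∞ := ENNReal.ofReal te * ((1 - ρ)⁻¹ * (vD * gm g))

theorem cLI_ne_top {g : ℝ} (hg : 0 < g) {ρ : ℝ≥0∞} (hρ : ρ < 1) (te : ℝ) : cLI g ρ te ≠ ∞ :=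
  ENNReal.mul_ne_top ENNReal.ofReal_ne_top (ENNReal.mul_ne_top
    (ENNReal.inv_ne_top.2 (tsub_pos_of_lt hρ).ne') (ENNReal.mul_ne_top vD_ne_top (gm_ne_top hg)))

/-- Mass of the test lines meeting the root line of a structure. -/
theorem lineInt_le (hΦ : AdmissiblePotential Φ) (hε : 0 < ε) (g : ℝ) (ρ : ℝ≥0∞) (te : ℝ)
    (z : PhasePoint × Par P) :
    ∫⁻ l, {l : ML | (z, l.1) ∈ OneC423.ctSet Φ ε te P}.indicator
      (fun l => lineD (fun _ => g) ρ K l * smI K P l) l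
        ∂(OneC423.baseM (Measure.dirac 0)) ≤
      {z : PhasePoint × Par P | Valid Φ ε P te z.1.2 z.2}.indicator
        (fun z => ENNReal.ofReal (ε ^ 2) * (cLI g ρ te * ENNReal.ofReal (1 + ‖z.1.2‖))) z := by
  have h0 := lintegral_line_flux (P := P) (K := K) hΦ hε g ρ te 0 z (F := fun _ => (1 : ℝ≥0∞))
    measurable_const
  simp only [mul_one] at h0
  rw [h0]
  by_cases hz : Valid Φ ε P te z.1.2 z.2
  · rw [indicator_of_mem (show z ∈ {z : PhasePoint × Par P | Valid Φ ε P te z.1.2 z.2} from hz)]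
    refine mul_le_mul' le_rfl ?_
    have h1 : ∀ s, {s | s ≤ te ∧ Valid Φ ε P s z.1.2 z.2}.indicator
        (fun s => fluxI Φ ε K g ρ P z s fun _ => 1) s ≤
        (1 - ρ)⁻¹ * (vD * gm g * ENNReal.ofReal (1 + ‖z.1.2‖)) := by
      intro s
      refine indicator_le_self' (fun _ _ => zero_le) s |>.trans ?_
      unfold fluxI
      calc ∑' n : ℕ, markW ρ K n * (if n + P.leaves ≤ K then (1 : ℝ≥0∞) else 0) *
            ∫⁻ v : Space3, ENNReal.ofReal ‖v - z.1.2‖ * (wG g v *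
              ∫⁻ _b in impactDisc (v - z.1.2), (1 : ℝ≥0∞) ∂μHE[2])
          ≤ ∑' n : ℕ, markW ρ K n * (if n + P.leaves ≤ K then (1 : ℝ≥0∞) else 0) *
            (vD * gm g * ENNReal.ofReal (1 + ‖z.1.2‖)) :=
            ENNReal.tsum_le_tsum fun n => mul_le_mul' le_rfl (flux_one_le g z.1.2)
        _ = (∑' n : ℕ, markW ρ K n * (if n + P.leaves ≤ K then (1 : ℝ≥0∞) else 0)) *
            (vD * gm g * ENNReal.ofReal (1 + ‖z.1.2‖)) := ENNReal.tsum_mul_right
        _ ≤ _ := mul_le_mul' (tsum_mark_le ρ K P) le_rfl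
    refine (lintegral_mono fun s => h1 s).trans (le_of_eq ?_)
    rw [setLIntegral_const, Real.volume_Ioc, sub_zero]
    unfold cLI
    ring
  · rw [indicator_of_notMem (show z ∉ {z : PhasePoint × Par P | Valid Φ ε P te z.1.2 z.2}
      from hz)]
    have h1 : ∀ s, {s | s ≤ te ∧ Valid Φ ε P s z.1.2 z.2}.indicator
        (fun s => fluxI Φ ε K g ρ P z s fun _ => 1) s = 0 := by
      intro s
      refine indicator_of_notMem ?_ _
      intro hs
      exact hz ((valid_iff_top hs.1).1 hs.2).1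
    simp only [h1, lintegral_zero, mul_zero]
    exact le_rfl

/-! ### The first marginal -/

/-- Initial density with a part of the Gaussian removed. -/
def kδ (f₀ : PhasePoint → ℝ) (δ : ℝ) (z : PhasePoint) : ℝ≥0∞ :=
  ENNReal.ofReal (f₀ z) * ENNReal.ofReal (Real.exp (δ * ‖z.2‖ ^ 2))

theorem measurable_kδ (hf : Measurable f₀) (δ : ℝ) : Measurable (kδ f₀ δ) := by
  unfold kδ
  fun_prop

theorem kδ_le {C b δ : ℝ} (hC : 0 ≤ C) (hb : ∀ z, f₀ z ≤ C * Real.exp (-(b * ‖z.2‖ ^ 2)))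
    (z : PhasePoint) : kδ f₀ δ z ≤ ENNReal.ofReal (C * Real.exp (-(b - δ) * ‖z.2‖ ^ 2)) := by
  unfold kδ
  have h0 : 0 ≤ C * Real.exp (-(b * ‖z.2‖ ^ 2)) := by positivity
  calc ENNReal.ofReal (f₀ z) * ENNReal.ofReal (Real.exp (δ * ‖z.2‖ ^ 2))
      ≤ ENNReal.ofReal (C * Real.exp (-(b * ‖z.2‖ ^ 2))) *
        ENNReal.ofReal (Real.exp (δ * ‖z.2‖ ^ 2)) := by
        gcongr
        exact hb z
    _ = ENNReal.ofReal (C * Real.exp (-(b - δ) * ‖z.2‖ ^ 2)) := by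
        rw [← ENNReal.ofReal_mul h0, mul_assoc, ← Real.exp_add]
        congr 3
        ring

/-- The weight `1 + |u|` of the root is absorbed by the Gaussians. -/
theorem pf_mul_le (hΦ : AdmissiblePotential Φ) {δ : ℝ} (hδ : 0 < δ) {z : PhasePoint × Par P}
    (h : Adm Φ P z.1.2 z.2) :
    ToTree335.pf Φ f₀ ε P z * ENNReal.ofReal (1 + ‖z.1.2‖) ≤
      ENNReal.ofReal (2 + 1 / δ) * ∏ i, kδ f₀ δ (lines Φ ε P z.1 z.2 i) := by
  have h1 : ENNReal.ofReal (1 + ‖z.1.2‖) ≤ ENNReal.ofReal (2 + 1 / δ) *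
      ∏ i, ENNReal.ofReal (Real.exp (δ * ‖(lines Φ ε P z.1 z.2 i).2‖ ^ 2)) := by
    rw [← ENNReal.ofReal_prod_of_nonneg (fun i _ => Real.exp_nonneg _), ← Real.exp_sum,
      ← ENNReal.ofReal_mul (by positivity)]
    refine ENNReal.ofReal_le_ofReal ?_
    refine (one_add_le_exp hδ ‖z.1.2‖).trans ?_
    refine mul_le_mul_of_nonneg_left (Real.exp_le_exp.2 ?_) (by positivity)
    rw [← Finset.mul_sum]
    refine mul_le_mul_of_nonneg_left ?_ hδ.le
    simp only [Hid424.lines_vel]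
    rw [TreeDom974.sum_vels_sq hΦ h]
    have := TreeDom974.nodeE_nonneg P z.2
    linarith
  unfold ToTree335.pf kδ
  rw [Finset.prod_mul_distrib]
  calc (∏ i, ENNReal.ofReal (f₀ (lines Φ ε P z.1 z.2 i))) * ENNReal.ofReal (1 + ‖z.1.2‖)
      ≤ (∏ i, ENNReal.ofReal (f₀ (lines Φ ε P z.1 z.2 i))) * (ENNReal.ofReal (2 + 1 / δ) *
      ∏ i, ENNReal.ofReal (Real.exp (δ * ‖(lines Φ ε P z.1 z.2 i).2‖ ^ 2))) := by gcongr
    _ = _ := by ring

theorem mem_exS {x : Idx P ⊕ Bool} (hx : x ∈ exS P) : ∃ m : Mark307.Mk P,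
    x = Sum.inl (Mark307.exIdx m) := by
  unfold exS at hx
  rw [Finset.mem_map] at hx
  obtain ⟨i, hi, rfl⟩ := hx
  obtain ⟨m, hm⟩ := Mark307.exIdx_surj P i (Finset.mem_filter.1 hi).2
  exact ⟨m, by rw [hm]; rfl⟩

theorem oneLs_exit {x : Idx P ⊕ Bool} {m : Mark307.Mk P} (hx : x = Sum.inl (Mark307.exIdx m))
    (z : PhasePoint × Par P) (l : ML) :
    oneLs Φ ε P z l x = lineML Φ ε P z (Mark307.exIdx m) := by
  subst hx
  simp only [oneLs, if_neg (Mark307.exIdx_ne_root m)]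

theorem measurable_ctInd (hΦ : AdmissiblePotential Φ) (g : ℝ) (ρ : ℝ≥0∞) (te : ℝ)
    (z : PhasePoint × Par P) : Measurable fun l : ML =>
      {l : ML | (z, l.1) ∈ OneC423.ctSet Φ ε te P}.indicator
        (fun l => lineD (fun _ => g) ρ K l * smI K P l) l := by
  have hsm : Measurable fun l : ML => smI K P l := by
    unfold smI
    refine Measurable.ite ?_ measurable_const measurable_const
    exact measurable_snd (measurableSet_le (measurable_of_countable _)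
      measurable_const : MeasurableSet {n : ℕ | n + P.leaves ≤ K})
  refine Measurable.indicator ((MeasE416.measurable_lineD measurable_const ρ K).mul hsm) ?_
  have h : Measurable fun l : ML => ((z, l.1) : (PhasePoint × Par P) × (ℝ × PhasePoint)) :=
    measurable_const.prodMk measurable_fst
  exact h (OneC423.measurableSet_ctSet hΦ ε te P)

/-- One exit of one tree. -/
theorem exit_le (hΦ : AdmissiblePotential Φ) (hε : 0 < ε) {δ : ℝ} (hδ : 0 < δ) {g : ℝ}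
    (hg : 0 < g) {ρ : ℝ≥0∞} (hρ : ρ < 1) (te T' : ℝ) {x : Idx P ⊕ Bool} (hx : x ∈ exS P) (F : ML → ℝ≥0∞) :
    ∫⁻ z : PhasePoint × Par P, {z : PhasePoint × Par P | Valid Φ ε P T' z.1.2 z.2}.indicator
        (fun z => wt Φ P z.1.2 z.2 * (ToTree335.pf Φ f₀ ε P z *
          ∫⁻ l, {l : ML | (z, l.1) ∈ OneC423.ctSet Φ ε te P}.indicator
            (fun l => lineD (fun _ => g) ρ K l * (smI K P l * F (oneLs Φ ε P z l x))) l
              ∂(OneC423.baseM (Measure.dirac 0)))) z ≤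
      ENNReal.ofReal (ε ^ 2) * (cLI g ρ te * ENNReal.ofReal (2 + 1 / δ)) *
        ∫⁻ z : PhasePoint × Par P, vw Φ ε P te z *
          ((∏ i, kδ f₀ δ (lines Φ ε P z.1 z.2 i)) *
            ∑ m : Mark307.Mk P, F (lineML Φ ε P z (Mark307.exIdx m))) := by
  obtain ⟨m, hm⟩ := mem_exS hx
  rw [← lintegral_const_mul' _ _ (ENNReal.mul_ne_top ENNReal.ofReal_ne_top
    (ENNReal.mul_ne_top (cLI_ne_top hg hρ te) ENNReal.ofReal_ne_top) :
      ENNReal.ofReal (ε ^ 2) * (cLI g ρ te * ENNReal.ofReal (2 + 1 / δ)) ≠ ∞)]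
  refine lintegral_mono fun z => ?_
  by_cases hz : Valid Φ ε P T' z.1.2 z.2
  swap
  · rw [indicator_of_notMem (show z ∉ {z : PhasePoint × Par P | Valid Φ ε P T' z.1.2 z.2}
      from hz)]
    exact zero_le
  rw [indicator_of_mem (show z ∈ {z : PhasePoint × Par P | Valid Φ ε P T' z.1.2 z.2} from hz)]
  have h1 : ∫⁻ l, {l : ML | (z, l.1) ∈ OneC423.ctSet Φ ε te P}.indicator
            (fun l => lineD (fun _ => g) ρ K l * (smI K P l * F (oneLs Φ ε P z l x))) l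
              ∂(OneC423.baseM (Measure.dirac 0)) =
      F (lineML Φ ε P z (Mark307.exIdx m)) *
        ∫⁻ l, {l : ML | (z, l.1) ∈ OneC423.ctSet Φ ε te P}.indicator
          (fun l => lineD (fun _ => g) ρ K l * smI K P l) l
            ∂(OneC423.baseM (Measure.dirac 0)) := by
    rw [← lintegral_const_mul _ (measurable_ctInd hΦ g ρ te z)]
    refine lintegral_congr fun l => ?_
    by_cases hl : (z, l.1) ∈ OneC423.ctSet Φ ε te P
    · rw [indicator_of_mem (show l ∈ {l : ML | (z, l.1) ∈ OneC423.ctSet Φ ε te P} from hl),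
        indicator_of_mem (show l ∈ {l : ML | (z, l.1) ∈ OneC423.ctSet Φ ε te P} from hl),
        oneLs_exit hm]
      ring
    · rw [indicator_of_notMem (show l ∉ {l : ML | (z, l.1) ∈ OneC423.ctSet Φ ε te P} from hl),
        indicator_of_notMem (show l ∉ {l : ML | (z, l.1) ∈ OneC423.ctSet Φ ε te P} from hl),
        mul_zero]
  rw [h1]
  have h2 := lineInt_le (K := K) hΦ hε g ρ te z
  have h3 : F (lineML Φ ε P z (Mark307.exIdx m)) ≤
      ∑ m : Mark307.Mk P, F (lineML Φ ε P z (Mark307.exIdx m)) :=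
    Finset.single_le_sum (f := fun m => F (lineML Φ ε P z (Mark307.exIdx m)))
      (fun _ _ => zero_le) (Finset.mem_univ m)
  by_cases hz' : Valid Φ ε P te z.1.2 z.2
  · rw [indicator_of_mem (show z ∈ {z : PhasePoint × Par P | Valid Φ ε P te z.1.2 z.2}
      from hz')] at h2
    have h4 : vw Φ ε P te z = wt Φ P z.1.2 z.2 := by
      unfold vw
      exact indicator_of_mem (show z ∈ {z : PhasePoint × Par P | Valid Φ ε P te z.1.2 z.2}
        from hz') _
    rw [h4]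
    calc wt Φ P z.1.2 z.2 * (ToTree335.pf Φ f₀ ε P z *
          (F (lineML Φ ε P z (Mark307.exIdx m)) *
            ∫⁻ l, {l : ML | (z, l.1) ∈ OneC423.ctSet Φ ε te P}.indicator
              (fun l => lineD (fun _ => g) ρ K l * smI K P l) l
                ∂(OneC423.baseM (Measure.dirac 0))))
        ≤ wt Φ P z.1.2 z.2 * (ToTree335.pf Φ f₀ ε P z *
          ((∑ m : Mark307.Mk P, F (lineML Φ ε P z (Mark307.exIdx m))) *
            (ENNReal.ofReal (ε ^ 2) * (cLI g ρ te * ENNReal.ofReal (1 + ‖z.1.2‖))))) := by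
          gcongr
      _ = ENNReal.ofReal (ε ^ 2) * cLI g ρ te * (wt Φ P z.1.2 z.2 *
          ((ToTree335.pf Φ f₀ ε P z * ENNReal.ofReal (1 + ‖z.1.2‖)) *
            ∑ m : Mark307.Mk P, F (lineML Φ ε P z (Mark307.exIdx m)))) := by ring
      _ ≤ ENNReal.ofReal (ε ^ 2) * cLI g ρ te * (wt Φ P z.1.2 z.2 *
          ((ENNReal.ofReal (2 + 1 / δ) * ∏ i, kδ f₀ δ (lines Φ ε P z.1 z.2 i)) *
            ∑ m : Mark307.Mk P, F (lineML Φ ε P z (Mark307.exIdx m)))) := by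
          have := pf_mul_le (f₀ := f₀) (ε := ε) hΦ hδ hz.1
          gcongr
      _ = _ := by ring
  · rw [indicator_of_notMem (show z ∉ {z : PhasePoint × Par P | Valid Φ ε P te z.1.2 z.2}
      from hz')] at h2
    have h5 := le_antisymm h2 zero_le
    rw [h5, mul_zero, mul_zero, mul_zero]
    exact zero_le

/-- **First marginal of `nu0`** against the measure on lines, uniformly in `ε`, `K`, `T'`. -/
theorem first_marginal_le (hΦ : AdmissiblePotential Φ) (hf : Measurable f₀) {C b b' : ℝ}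
    (hC : 0 ≤ C) (hb : ∀ z, f₀ z ≤ C * Real.exp (-(b * ‖z.2‖ ^ 2))) (hb' : 0 < b')
    (hbb : b' < b) (te : ℝ) {γ' : ℝ → ℝ} (hγm : Measurable γ')
    (hγ : ∀ τ ∈ Ioc 0 te, γ' τ ≤ b') {ρ' : ℝ≥0∞} (hρ0 : ρ' ≠ 0) (hρ1 : ρ' ≤ 1) {g : ℝ}
    (hg : 0 < g) {ρ : ℝ≥0∞} (hρ : ρ < 1) (m₀ : ℕ) :
    ∃ c : ℝ≥0∞, c ≠ ∞ ∧ ∀ (ε : ℝ) (K : ℕ) (Q : EPar) (T' : ℝ), 0 < ε → m₀ ≤ K → Q.te = te →
      Q.γ Q.te = g → Q.ρ = ρ → ∀ F : ML → ℝ≥0∞, Measurable F →
      ∫⁻ p, F p.1 ∂(nu0 Φ f₀ ε K Q T' m₀) ≤ c * ∫⁻ d, F d ∂lineM γ' ρ' K te := by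
  set δ : ℝ := (b - b') / 2 with hδ
  have hδ0 : 0 < δ := by rw [hδ]; linarith
  have hk : ∀ z, kδ f₀ δ z ≤ ENNReal.ofReal (C * Real.exp (-(b - δ) * ‖z.2‖ ^ 2)) :=
    kδ_le hC hb
  have hbδ : b' < b - δ := by rw [hδ]; linarith
  have hcr := fun P : CTree => Mark307.crude_exit_lineM hΦ hC hb' hbδ (measurable_kδ hf δ) hk P
    (T := te) hγm hγ hρ0 hρ1
  choose C' hC' hcr using hcr
  set A : ℝ≥0∞ := cLI g ρ te * ENNReal.ofReal (2 + 1 / δ) with hA
  have hAt : A ≠ ∞ := ENNReal.mul_ne_top (cLI_ne_top hg hρ te) ENNReal.ofReal_ne_top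
  set N : CTree → ℝ≥0∞ := fun P => ((exS P).card : ℝ≥0∞) *
    ((Finset.univ : Finset (Idx P ⊕ Bool)).card : ℝ≥0∞) with hN
  refine ⟨∑ P ∈ GIVStep383.trees m₀, N P * (A * C' P), ?_, ?_⟩
  · rw [ENNReal.sum_ne_top]
    intro P _
    exact ENNReal.mul_ne_top (ENNReal.mul_ne_top (ENNReal.natCast_ne_top _)
      (ENNReal.natCast_ne_top _)) (ENNReal.mul_ne_top hAt (hC' P))
  intro ε K Q T' hε hmK hQte hQγ hQρ F hF
  have hF1 : Measurable fun p : ML × ML => F p.1 := hF.comp measurable_fst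
  rw [lintegral_nu0_oneLs hΦ hf Q T' m₀ hF1]
  -- one tree
  have h1 : ∀ P : CTree, (if P.leaves ≤ m₀ then ∑ x ∈ exS P, ∑ y ∈ Finset.univ.erase x,
        ∫⁻ z : PhasePoint × Par P, {z : PhasePoint × Par P | Valid Φ ε P T' z.1.2 z.2}.indicator
          (fun z => wt Φ P z.1.2 z.2 * (ToTree335.pf Φ f₀ ε P z *
            ∫⁻ l, {l : ML | (z, l.1) ∈ OneC423.ctSet Φ ε Q.te P}.indicator
              (fun l => lineD (fun _ => Q.γ Q.te) Q.ρ K l * (smI K P l *
                F (oneLs Φ ε P z l x, oneLs Φ ε P z l y).1)) l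
                  ∂(OneC423.baseM (Measure.dirac 0)))) z
      else 0) ≤ if P ∈ GIVStep383.trees m₀ then
        N P * (ENNReal.ofReal (ε ^ 2) * A * (C' P * ∫⁻ d, F d ∂lineM γ' ρ' K te)) else 0 := by
    intro P
    by_cases hP : P.leaves ≤ m₀
    · rw [if_pos hP, if_pos (GIVStep383.mem_trees.2 hP)]
      have h2 : ∀ x ∈ exS P, ∀ y ∈ Finset.univ.erase x,
          ∫⁻ z : PhasePoint × Par P, {z : PhasePoint × Par P | Valid Φ ε P T' z.1.2 z.2}.indicator
          (fun z => wt Φ P z.1.2 z.2 * (ToTree335.pf Φ f₀ ε P z *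
            ∫⁻ l, {l : ML | (z, l.1) ∈ OneC423.ctSet Φ ε Q.te P}.indicator
              (fun l => lineD (fun _ => Q.γ Q.te) Q.ρ K l * (smI K P l *
                F (oneLs Φ ε P z l x, oneLs Φ ε P z l y).1)) l
                  ∂(OneC423.baseM (Measure.dirac 0)))) z ≤
          ENNReal.ofReal (ε ^ 2) * A * (C' P * ∫⁻ d, F d ∂lineM γ' ρ' K te) := by
        intro x hx y _
        rw [hQte] at *
        rw [hQγ, hQρ]
        refine (exit_le (K := K) hΦ hε hδ0 hg hρ te T' hx F).trans ?_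
        exact mul_le_mul' le_rfl (hcr P ε te hε le_rfl K (hP.trans hmK) F hF)
      calc _ ≤ ∑ x ∈ exS P, ∑ y ∈ Finset.univ.erase x,
            ENNReal.ofReal (ε ^ 2) * A * (C' P * ∫⁻ d, F d ∂lineM γ' ρ' K te) :=
            Finset.sum_le_sum fun x hx => Finset.sum_le_sum fun y hy => h2 x hx y hy
        _ ≤ ∑ x ∈ exS P, ∑ y ∈ (Finset.univ : Finset (Idx P ⊕ Bool)),
            ENNReal.ofReal (ε ^ 2) * A * (C' P * ∫⁻ d, F d ∂lineM γ' ρ' K te) :=
            Finset.sum_le_sum fun x _ => Finset.sum_le_sum_of_subset (Finset.erase_subset _ _)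
        _ = _ := by
            rw [Finset.sum_const, Finset.sum_const, nsmul_eq_mul, nsmul_eq_mul, hN]
            ring
    · rw [if_neg hP, if_neg (fun h => hP (GIVStep383.mem_trees.1 h))]
  calc activity ε * _ ≤ activity ε * ∑' P : CTree, (if P ∈ GIVStep383.trees m₀ then
        N P * (ENNReal.ofReal (ε ^ 2) * A * (C' P * ∫⁻ d, F d ∂lineM γ' ρ' K te)) else 0) :=
        mul_le_mul' le_rfl (ENNReal.tsum_le_tsum h1)
    _ = activity ε * ∑ P ∈ GIVStep383.trees m₀,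
        N P * (ENNReal.ofReal (ε ^ 2) * A * (C' P * ∫⁻ d, F d ∂lineM γ' ρ' K te)) := by
        rw [tsum_eq_sum (s := GIVStep383.trees m₀) fun P hP => if_neg hP]
        congr 1
        exact Finset.sum_congr rfl fun P hP => if_pos hP
    _ = (activity ε * ENNReal.ofReal (ε ^ 2)) * ((∑ P ∈ GIVStep383.trees m₀,
        N P * (A * C' P)) * ∫⁻ d, F d ∂lineM γ' ρ' K te) := by
        rw [Finset.mul_sum, Finset.sum_mul, Finset.mul_sum]
        refine Finset.sum_congr rfl fun P _ => ?_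
        ring
    _ = _ := by rw [Relabel674.activity_mul hε, one_mul]

/-! ### Finiteness -/

variable {β T : ℝ} {f : ℝ → PhasePoint → ℝ}

/-- The pair functional of `nu0` is finite. -/
theorem PE_nu0_ne_top (hD : Master566.KData Φ β T f₀ f) (hε : 0 < ε) (hε1 : ε ≤ 1) {Q : EPar}
    (hL : 0 ≤ Q.L) (hte : 0 ≤ Q.te) (hg : 0 < Q.γ Q.te) (hρ : Q.ρ < 1) (T' : ℝ) {m₀ : ℕ}
    (hm : m₀ ≤ K) : PE Φ f₀ ε K Q (nu0 Φ f₀ ε K Q T' m₀) ≠ ∞ := by
  have hf : Measurable f₀ := hD.contDiff.continuous.measurable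
  have h1 : ∫⁻ z, ENNReal.ofReal (f₀ z) ≤ 1 := by
    rw [← ofReal_integral_eq_lintegral_ofReal hD.integrable
      (Eventually.of_forall fun z => hD.nonneg z), hD.mass, ENNReal.ofReal_one]
  have hβ := hD.beta_pos
  obtain ⟨C, hC, hb⟩ := exists_gaussian_bound hD.gaussian
  have hb' : ∀ z : PhasePoint, f₀ z ≤ C * Real.exp (-(2 * β * ‖z.2‖ ^ 2)) := fun z =>
    (le_abs_self _).trans (hb z.1 z.2)
  obtain ⟨c, hc, h⟩ := first_marginal_le (γ' := fun _ => β) (ρ' := 1 / 2) hD.adm hf hC hb' hβ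
    (by linarith : β < 2 * β) Q.te measurable_const (fun _ _ => le_rfl) (by norm_num)
    (by rw [one_div]; exact ENNReal.inv_le_one.2 (by norm_num)) hg hρ m₀
  exact Unw410.PE_ne_top (γ := fun _ => β) (ρ := 1 / 2) (γ₀ := β) hD.adm hf h1
    (by linarith : 0 < 2 * β) hD.gaussian hε hε1 hL hte measurable_const (fun _ _ => le_rfl)
    (by rw [one_div]; exact ENNReal.inv_lt_one.2 (by norm_num)) hβ hc
    (h ε K Q T' hε hm rfl rfl rfl)

/-- The pair mass of `nu0` (structures with at most `m` leaves, horizon `Th m L tw te`). -/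
def PM0 (Φ : Space3 → ℝ) (f₀ : PhasePoint → ℝ) (γ : ℝ → ℝ) (ρ : ℝ≥0∞)
    (Th : ℕ → ℝ → ℝ → ℝ → ℝ) : Top602.PMass := fun m L tw te K ε =>
  PE Φ f₀ ε K (Top602.epar γ ρ L tw te) (nu0 Φ f₀ ε K (Top602.epar γ ρ L tw te) (Th m L tw te) m)

/-- **Finiteness of the pair mass** (row 14 of the table). -/
theorem finPM_nu0 (hD : Master566.KData Φ β T f₀ f) {g1 : ℝ} {r1 : ℝ≥0∞} {γ : ℝ → ℝ} {ρ : ℝ≥0∞}
    (hl : Top602.LinePar g1 r1 T γ ρ) (Th : ℕ → ℝ → ℝ → ℝ → ℝ) :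
    Top602.FinPM Φ f₀ f T γ ρ (PM0 Φ f₀ γ ρ Th) := by
  intro m
  refine Top602.EvW.of_forall fun h L tw te hh _ hL hw _ => ?_
  refine ⟨m, fun K hK => ⟨1, one_pos, fun ε hε hε1 => ?_⟩⟩
  obtain ⟨g0, κ, hκ, rfl, hpos, -⟩ := hl.lin
  have h0 : 0 ≤ tw := hw.nonneg
  have h1 : tw ≤ te := hw.le
  have h2 : te ≤ T := hw.le_T
  refine PE_nu0_ne_top hD hε hε1.le ?_ ?_ ?_ hl.hi _ hK
  · show 0 ≤ L
    linarith
  · show 0 ≤ te
    linarith
  · show 0 < g0 - κ * te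
    nlinarith

end Crest.Agent.R122.FinPM566

end
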