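import Crest.Agent.R122.Nu0_566
import Crest.Agent.R122.TreeLim_974

/-!
# The pair measure `nu0` of the one-contact structures (row 122, H1/H4), part B

* `strM`, `nuP`, `nu0`; `lintegral_strM`, `lintegral_nu0`, `PE_nu0_eq`.
* `osp_le` : `OSP (dirac τ) ≤ PE nu0` for every birth time `τ ∈ (0, te]`.
-/

set_option autoImplicit false
set_option maxHeartbeats 400000
set_option linter.unusedSectionVars false

open MeasureTheory Set Filter
open scoped ENNReal Classical Topology
open Crest.AnalysisR.Kinetic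
open Crest.Agent.R122.Kin796 Crest.Agent.R122.Kin796.CTree Crest.Agent.R122.Tree674
open Crest.Agent.R122.GC311 Crest.Agent.R122.EDefs602 Crest.Agent.R122.TreeLines335
open Crest.Agent.R122.OneC285 Crest.Agent.R122.Disc416

noncomputable section

namespace Crest.Agent.R122.Nu0566

variable {Φ : Space3 → ℝ} {f₀ : PhasePoint → ℝ} {ε : ℝ} {K : ℕ} {P : CTree}

/-- The parameters with the Gaussian rate frozen at the end of the window. -/
def frz (Q : EPar) : EPar := { Q with γ := fun _ => Q.γ Q.te }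

/-- Small one-contact structures. -/
def goodS (Φ : Space3 → ℝ) (ε te T' : ℝ) (K : ℕ) (P : CTree) :
    Set ((PhasePoint × Par P) × ML) :=
  {q | Valid Φ ε P T' q.1.1.2 q.1.2 ∧ (q.1, q.2.1) ∈ OneC423.ctSet Φ ε te P ∧
    q.2.2 + P.leaves ≤ K}

theorem measurableSet_goodS (hΦ : AdmissiblePotential Φ) (ε te T' : ℝ) (K : ℕ) (P : CTree) :
    MeasurableSet (goodS Φ ε te T' K P) := by
  have h1 : MeasurableSet {q : (PhasePoint × Par P) × ML | Valid Φ ε P T' q.1.1.2 q.1.2} :=
    measurable_fst (measurableSet_valid hΦ ε P T')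
  have h2 : MeasurableSet {q : (PhasePoint × Par P) × ML |
      (q.1, q.2.1) ∈ OneC423.ctSet Φ ε te P} :=
    (measurable_fst.prodMk (measurable_fst.comp measurable_snd))
      (OneC423.measurableSet_ctSet hΦ ε te P)
  have h3 : MeasurableSet {q : (PhasePoint × Par P) × ML | q.2.2 + P.leaves ≤ K} :=
    (measurable_snd.comp measurable_snd) (measurableSet_le (measurable_of_countable _)
      measurable_const : MeasurableSet {n : ℕ | n + P.leaves ≤ K})
  exact h1.inter (h2.inter h3)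

/-- Density of the structure measure. -/
def strD (Φ : Space3 → ℝ) (f₀ : PhasePoint → ℝ) (ε : ℝ) (K : ℕ) (γ : ℝ → ℝ) (ρ : ℝ≥0∞)
    (te T' : ℝ) (P : CTree) (q : (PhasePoint × Par P) × ML) : ℝ≥0∞ :=
  (goodS Φ ε te T' K P).indicator (fun q => wtM Φ P q.1.1.2 q.1.2 *
    (ToTree335.pfM Φ f₀ ε P q.1 * lineD γ ρ K q.2)) q

theorem measurable_strD (hΦ : AdmissiblePotential Φ) (hf : Measurable f₀) (ε : ℝ) (K : ℕ)
    {γ : ℝ → ℝ} (hγ : Measurable γ) (ρ : ℝ≥0∞) (te T' : ℝ) (P : CTree) :
    Measurable (strD Φ f₀ ε K γ ρ te T' P) := by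
  refine Measurable.indicator ?_ (measurableSet_goodS hΦ ε te T' K P)
  have h1 : Measurable fun q : (PhasePoint × Par P) × ML => wtM Φ P q.1.1.2 q.1.2 :=
    (measurable_wtM hΦ P).comp ((measurable_snd.comp (measurable_fst.comp measurable_fst)).prodMk
      (measurable_snd.comp measurable_fst))
  exact h1.mul (((ToTree335.measurable_pfM hΦ hf P).comp measurable_fst).mul
    ((MeasE416.measurable_lineD hγ ρ K).comp measurable_snd))

/-- Structure measure. -/
def strM (Φ : Space3 → ℝ) (f₀ : PhasePoint → ℝ) (ε : ℝ) (K : ℕ) (γ : ℝ → ℝ) (ρ : ℝ≥0∞)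
    (te T' : ℝ) (κ : Measure ℝ) (P : CTree) : Measure ((PhasePoint × Par P) × ML) :=
  ((volume : Measure (PhasePoint × Par P)).prod (OneC423.baseM κ)).withDensity
    (strD Φ f₀ ε K γ ρ te T' P)

instance sfinite_strM (γ : ℝ → ℝ) (ρ : ℝ≥0∞) (te T' : ℝ) (κ : Measure ℝ) [SFinite κ] :
    SFinite (strM Φ f₀ ε K γ ρ te T' κ P) := by
  unfold strM
  infer_instance

/-- Integrals with respect to the structure measure, iterated form, measurable versions. -/
theorem lintegral_strM (hΦ : AdmissiblePotential Φ) (hf : Measurable f₀) {γ : ℝ → ℝ}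
    (hγ : Measurable γ) (ρ : ℝ≥0∞) (te T' : ℝ) (κ : Measure ℝ) [SFinite κ]
    {G : (PhasePoint × Par P) × ML → ℝ≥0∞} (hG : Measurable G) :
    ∫⁻ q, G q ∂(strM Φ f₀ ε K γ ρ te T' κ P) =
      ∫⁻ z : PhasePoint × Par P, {z : PhasePoint × Par P | Valid Φ ε P T' z.1.2 z.2}.indicator
        (fun z => wt Φ P z.1.2 z.2 * (ToTree335.pf Φ f₀ ε P z *
          ∫⁻ l, {l : ML | (z, l.1) ∈ OneC423.ctSet Φ ε te P}.indicator
            (fun l => lineD γ ρ K l * (smI K P l * G (z, l))) l ∂(OneC423.baseM κ))) z := by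
  unfold strM
  have hD := measurable_strD hΦ hf ε K hγ ρ te T' P
  rw [lintegral_withDensity_eq_lintegral_mul _ hD hG]
  have hm : Measurable fun q => (strD Φ f₀ ε K γ ρ te T' P * G) q := hD.mul hG
  rw [lintegral_prod _ hm.aemeasurable]
  refine lintegral_congr fun z => ?_
  have hctm : MeasurableSet {l : ML | (z, l.1) ∈ OneC423.ctSet Φ ε te P} := by
    have h : Measurable fun l : ML => ((z, l.1) : (PhasePoint × Par P) × (ℝ × PhasePoint)) :=
      measurable_const.prodMk measurable_fst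
    exact h (OneC423.measurableSet_ctSet hΦ ε te P)
  have hsm : Measurable fun l : ML => smI K P l := by
    unfold smI
    refine Measurable.ite ?_ measurable_const measurable_const
    exact measurable_snd (measurableSet_le (measurable_of_countable _)
      measurable_const : MeasurableSet {n : ℕ | n + P.leaves ≤ K})
  have hGz : Measurable fun l : ML => G (z, l) := hG.comp (measurable_const.prodMk measurable_id)
  have hin : Measurable fun l : ML => {l : ML | (z, l.1) ∈ OneC423.ctSet Φ ε te P}.indicator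
      (fun l => lineD γ ρ K l * (smI K P l * G (z, l))) l :=
    ((MeasE416.measurable_lineD hγ ρ K).mul (hsm.mul hGz)).indicator hctm
  by_cases hz : Valid Φ ε P T' z.1.2 z.2
  · rw [indicator_of_mem (show z ∈ {z : PhasePoint × Par P | Valid Φ ε P T' z.1.2 z.2} from hz),
      ← lintegral_const_mul _ hin, ← lintegral_const_mul _ (hin.const_mul _)]
    refine lintegral_congr fun l => ?_
    rw [Pi.mul_apply]
    unfold strD smI
    by_cases hc : (z, l.1) ∈ OneC423.ctSet Φ ε te P
    · rw [indicator_of_mem (show l ∈ {l : ML | (z, l.1) ∈ OneC423.ctSet Φ ε te P} from hc)]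
      by_cases hk : l.2 + P.leaves ≤ K
      · rw [indicator_of_mem (show (z, l) ∈ goodS Φ ε te T' K P from ⟨hz, hc, hk⟩), if_pos hk,
          one_mul, wtM_of_adm hz.1, ToTree335.pfM_of_adm hz.1]
        ring
      · rw [indicator_of_notMem (show (z, l) ∉ goodS Φ ε te T' K P from fun h => hk h.2.2),
          if_neg hk]
        simp
    · rw [indicator_of_notMem (show l ∉ {l : ML | (z, l.1) ∈ OneC423.ctSet Φ ε te P} from hc),
        indicator_of_notMem (show (z, l) ∉ goodS Φ ε te T' K P from fun h => hc h.2.1)]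
      simp
  · rw [indicator_of_notMem (show z ∉ {z : PhasePoint × Par P | Valid Φ ε P T' z.1.2 z.2}
      from hz)]
    refine (lintegral_congr fun l => ?_).trans lintegral_zero
    rw [Pi.mul_apply]
    unfold strD
    rw [indicator_of_notMem (show (z, l) ∉ goodS Φ ε te T' K P from fun h => hz h.1), zero_mul]

/-- Law of a pair of lines of a structure. -/
def nuP (Φ : Space3 → ℝ) (f₀ : PhasePoint → ℝ) (ε : ℝ) (K : ℕ) (γ : ℝ → ℝ) (ρ : ℝ≥0∞)
    (te T' : ℝ) (κ : Measure ℝ) (P : CTree) (x y : Idx P ⊕ Bool) : Measure (ML × ML) :=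
  (strM Φ f₀ ε K γ ρ te T' κ P).map fun q => (oneLsM Φ ε P q.1 q.2 x, oneLsM Φ ε P q.1 q.2 y)

instance sfinite_nuP (γ : ℝ → ℝ) (ρ : ℝ≥0∞) (te T' : ℝ) (κ : Measure ℝ) [SFinite κ]
    (x y : Idx P ⊕ Bool) : SFinite (nuP Φ f₀ ε K γ ρ te T' κ P x y) := by
  unfold nuP
  infer_instance

theorem measurable_pair (hΦ : AdmissiblePotential Φ) (ε : ℝ) (P : CTree) (x y : Idx P ⊕ Bool) :
    Measurable fun q : (PhasePoint × Par P) × ML =>
      (oneLsM Φ ε P q.1 q.2 x, oneLsM Φ ε P q.1 q.2 y) :=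
  (measurable_oneLsM hΦ ε P x).prodMk (measurable_oneLsM hΦ ε P y)

theorem lintegral_nuP (hΦ : AdmissiblePotential Φ) (γ : ℝ → ℝ) (ρ : ℝ≥0∞) (te T' : ℝ)
    (κ : Measure ℝ) (x y : Idx P ⊕ Bool) {F : ML × ML → ℝ≥0∞} (hF : Measurable F) :
    ∫⁻ p, F p ∂(nuP Φ f₀ ε K γ ρ te T' κ P x y) =
      ∫⁻ q, F (oneLsM Φ ε P q.1 q.2 x, oneLsM Φ ε P q.1 q.2 y)
        ∂(strM Φ f₀ ε K γ ρ te T' κ P) := by
  unfold nuP
  rw [lintegral_map hF (measurable_pair hΦ ε P x y)]

/-- **The pair measure** of the one-contact structures with at most `m₀` leaves: ordered pairs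
(exit, other line); test line born at time `0`, Gaussian rate `γ (te)`. -/
def nu0 (Φ : Space3 → ℝ) (f₀ : PhasePoint → ℝ) (ε : ℝ) (K : ℕ) (Q : EPar) (T' : ℝ) (m₀ : ℕ) :
    Measure (ML × ML) :=
  activity ε • Measure.sum fun P : CTree =>
    if P.leaves ≤ m₀ then ∑ x ∈ exS P, ∑ y ∈ Finset.univ.erase x,
      nuP Φ f₀ ε K (fun _ => Q.γ Q.te) Q.ρ Q.te T' (Measure.dirac 0) P x y else 0

theorem sfinite_finset_sum {α β : Type*} [MeasurableSpace β] (s : Finset α) {μ : α → Measure β}
    (h : ∀ a, SFinite (μ a)) : SFinite (∑ a ∈ s, μ a) := by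
  classical
  induction s using Finset.induction_on with
  | empty => rw [Finset.sum_empty]; infer_instance
  | insert a s ha ih =>
    rw [Finset.sum_insert ha]
    haveI := h a
    haveI := ih
    infer_instance

instance sfinite_nu0 (Q : EPar) (T' : ℝ) (m₀ : ℕ) : SFinite (nu0 Φ f₀ ε K Q T' m₀) := by
  unfold nu0
  haveI : ∀ P : CTree, SFinite (if P.leaves ≤ m₀ then ∑ x ∈ exS P, ∑ y ∈ Finset.univ.erase x,
      nuP Φ f₀ ε K (fun _ => Q.γ Q.te) Q.ρ Q.te T' (Measure.dirac 0) P x y else 0) := by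
    intro P
    split_ifs
    · exact sfinite_finset_sum _ fun x => sfinite_finset_sum _ fun y => inferInstance
    · infer_instance
  infer_instance

theorem lintegral_nu0 (Q : EPar) (T' : ℝ) (m₀ : ℕ) (F : ML × ML → ℝ≥0∞) :
    ∫⁻ p, F p ∂(nu0 Φ f₀ ε K Q T' m₀) = activity ε * ∑' P : CTree,
      if P.leaves ≤ m₀ then ∑ x ∈ exS P, ∑ y ∈ Finset.univ.erase x,
        ∫⁻ p, F p ∂(nuP Φ f₀ ε K (fun _ => Q.γ Q.te) Q.ρ Q.te T' (Measure.dirac 0) P x y)
      else 0 := by
  unfold nu0
  rw [lintegral_smul_measure, lintegral_sum_measure, smul_eq_mul]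
  congr 1
  refine tsum_congr fun P => ?_
  split_ifs
  · rw [lintegral_finset_sum_measure]
    refine Finset.sum_congr rfl fun x _ => ?_
    rw [lintegral_finset_sum_measure]
  · exact lintegral_zero_measure _

/-! ### The pair functional -/

theorem pf_ne_top (z : PhasePoint × Par P) : ToTree335.pf Φ f₀ ε P z ≠ ∞ :=
  ENNReal.prod_ne_top fun _ _ => ENNReal.ofReal_ne_top

/-- The pair functional of the structures of shape `P`. -/
def pairF (Φ : Space3 → ℝ) (ε : ℝ) (K : ℕ) (Q : EPar) (P : CTree) (z : PhasePoint × Par P)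
    {m : ℕ} (w : Config m) (l : ML) : ℝ≥0∞ :=
  ∑ x ∈ exS P, ∑ y ∈ Finset.univ.erase x,
    (MW.cfg w).touchP Φ ε K Q (oneLs Φ ε P z l x) (oneLs Φ ε P z l y)

/-- Measurable version of `pairF`. -/
def pairFM (Φ : Space3 → ℝ) (ε : ℝ) (K : ℕ) (Q : EPar) (P : CTree) (z : PhasePoint × Par P)
    {m : ℕ} (w : Config m) (l : ML) : ℝ≥0∞ :=
  ∑ x ∈ exS P, ∑ y ∈ Finset.univ.erase x,
    (MW.cfg w).touchP Φ ε K Q (oneLsM Φ ε P z l x) (oneLsM Φ ε P z l y)

theorem pairFM_of_adm {Q : EPar} {z : PhasePoint × Par P} (h : Adm Φ P z.1.2 z.2) {m : ℕ}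
    (w : Config m) (l : ML) : pairFM Φ ε K Q P z w l = pairF Φ ε K Q P z w l := by
  unfold pairFM pairF
  simp only [oneLsM_of_adm h]

theorem measurable_pairFM (hΦ : AdmissiblePotential Φ) (hε : 0 < ε) (K : ℕ) (Q : EPar)
    (P : CTree) (m : ℕ) : Measurable fun q : Config m × ((PhasePoint × Par P) × ML) =>
      pairFM Φ ε K Q P q.2.1 q.1 q.2.2 := by
  unfold pairFM
  refine Finset.measurable_sum _ fun x _ => Finset.measurable_sum _ fun y _ => ?_
  exact (MeasE416.measurable_touchP_cfg hΦ hε K Q m).comp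
    (f := fun q : Config m × ((PhasePoint × Par P) × ML) =>
      (q.1, (oneLsM Φ ε P q.2.1 q.2.2 x, oneLsM Φ ε P q.2.1 q.2.2 y)))
    (measurable_fst.prodMk ((measurable_pair hΦ ε P x y).comp measurable_snd))

/-- The sum over the pairs of the laws. -/
theorem sum_lintegral_nuP (hΦ : AdmissiblePotential Φ) (hε : 0 < ε) (Q : EPar) (γ : ℝ → ℝ)
    (ρ : ℝ≥0∞) (te T' : ℝ) (κ : Measure ℝ) {m : ℕ} (w : Config m) :
    ∑ x ∈ exS P, ∑ y ∈ Finset.univ.erase x,
      ∫⁻ p, (MW.cfg w).touchP Φ ε K Q p.1 p.2 ∂(nuP Φ f₀ ε K γ ρ te T' κ P x y) =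
    ∫⁻ q, pairFM Φ ε K Q P q.1 w q.2 ∂(strM Φ f₀ ε K γ ρ te T' κ P) := by
  unfold pairFM
  have hm : ∀ x y : Idx P ⊕ Bool, Measurable fun q : (PhasePoint × Par P) × ML =>
      (MW.cfg w).touchP Φ ε K Q (oneLsM Φ ε P q.1 q.2 x) (oneLsM Φ ε P q.1 q.2 y) := fun x y =>
    (MeasE416.measurable_touchP_cfg hΦ hε K Q m).comp
      (f := fun q : (PhasePoint × Par P) × ML =>
        (w, (oneLsM Φ ε P q.1 q.2 x, oneLsM Φ ε P q.1 q.2 y)))
      (measurable_const.prodMk (measurable_pair hΦ ε P x y))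
  rw [lintegral_finsetSum _ fun x _ => Finset.measurable_sum _ fun y _ => hm x y]
  refine Finset.sum_congr rfl fun x _ => ?_
  rw [lintegral_finsetSum _ fun y _ => hm x y]
  refine Finset.sum_congr rfl fun y _ => ?_
  rw [lintegral_nuP hΦ γ ρ te T' κ x y (F := fun p => (MW.cfg w).touchP Φ ε K Q p.1 p.2)]
  exact (MeasE416.measurable_touchP_cfg hΦ hε K Q m).comp
      (f := fun p : ML × ML => (w, (p.1, p.2)))
      (measurable_const.prodMk (measurable_fst.prodMk measurable_snd))

/-- Gas expectation of an integral with respect to the structure measure. -/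
theorem gcE_lintegral_strM (hΦ : AdmissiblePotential Φ) (hf : Measurable f₀) {γ : ℝ → ℝ}
    (hγ : Measurable γ) (ρ : ℝ≥0∞) (te T' : ℝ) (κ : Measure ℝ) [SFinite κ]
    {G : (m : ℕ) → Config m → (PhasePoint × Par P) × ML → ℝ≥0∞}
    (hG : ∀ m, Measurable fun q : Config m × ((PhasePoint × Par P) × ML) => G m q.1 q.2) :
    gcE f₀ ε (fun m w => ∫⁻ q, G m w q ∂(strM Φ f₀ ε K γ ρ te T' κ P)) =
      ∫⁻ z : PhasePoint × Par P, {z : PhasePoint × Par P | Valid Φ ε P T' z.1.2 z.2}.indicator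
        (fun z => wt Φ P z.1.2 z.2 * (ToTree335.pf Φ f₀ ε P z *
          gcE f₀ ε (fun m w => ∫⁻ l, {l : ML | (z, l.1) ∈ OneC423.ctSet Φ ε te P}.indicator
            (fun l => lineD γ ρ K l * (smI K P l * G m w (z, l))) l
              ∂(OneC423.baseM κ)))) z := by
  have h1 : ∀ (m : ℕ) (w : Config m), Measurable fun q => G m w q := fun m w =>
    (hG m).comp (measurable_const.prodMk measurable_id)
  simp only [fun m w => lintegral_strM (K := K) (ε := ε) (P := P) hΦ hf hγ ρ te T' κ (h1 m w)]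
  have hctm : MeasurableSet {q : (PhasePoint × Par P) × ML |
      (q.1, q.2.1) ∈ OneC423.ctSet Φ ε te P} :=
    (measurable_fst.prodMk (measurable_fst.comp measurable_snd))
      (OneC423.measurableSet_ctSet hΦ ε te P)
  have hsm : Measurable fun l : ML => smI K P l := by
    unfold smI
    refine Measurable.ite ?_ measurable_const measurable_const
    exact measurable_snd (measurableSet_le (measurable_of_countable _)
      measurable_const : MeasurableSet {n : ℕ | n + P.leaves ≤ K})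
  -- inner integral, jointly measurable in `(z, w)`
  have hin : ∀ m : ℕ, Measurable fun q : (PhasePoint × Par P) × Config m =>
      ∫⁻ l, {l : ML | (q.1, l.1) ∈ OneC423.ctSet Φ ε te P}.indicator
            (fun l => lineD γ ρ K l * (smI K P l * G m q.2 (q.1, l))) l
              ∂(OneC423.baseM κ) := by
    intro m
    have h2 : Measurable fun r : ((PhasePoint × Par P) × Config m) × ML =>
        {l : ML | (r.1.1, l.1) ∈ OneC423.ctSet Φ ε te P}.indicator
            (fun l => lineD γ ρ K l * (smI K P l * G m r.1.2 (r.1.1, l))) r.2 := by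
      have h3 : Measurable fun r : ((PhasePoint × Par P) × Config m) × ML =>
          lineD γ ρ K r.2 * (smI K P r.2 * G m r.1.2 (r.1.1, r.2)) :=
        ((MeasE416.measurable_lineD hγ ρ K).comp measurable_snd).mul
          ((hsm.comp measurable_snd).mul ((hG m).comp
            (f := fun r : ((PhasePoint × Par P) × Config m) × ML => (r.1.2, (r.1.1, r.2)))
            ((measurable_snd.comp measurable_fst).prodMk
              ((measurable_fst.comp measurable_fst).prodMk measurable_snd))))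
      have h4 : MeasurableSet {r : ((PhasePoint × Par P) × Config m) × ML |
          (r.1.1, r.2.1) ∈ OneC423.ctSet Φ ε te P} :=
        ((measurable_fst.comp measurable_fst).prodMk measurable_snd) hctm
      exact h3.indicator h4
    exact h2.lintegral_prod_right'
  -- the full integrand in terms of the measurable versions
  have hrep : ∀ (z : PhasePoint × Par P) (c : ℝ≥0∞),
      {z : PhasePoint × Par P | Valid Φ ε P T' z.1.2 z.2}.indicator
        (fun z => wt Φ P z.1.2 z.2 * (ToTree335.pf Φ f₀ ε P z * c)) z =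
      {z : PhasePoint × Par P | Valid Φ ε P T' z.1.2 z.2}.indicator
        (fun z => wtM Φ P z.1.2 z.2 * ToTree335.pfM Φ f₀ ε P z) z * c := by
    intro z c
    by_cases hz : Valid Φ ε P T' z.1.2 z.2
    · rw [indicator_of_mem (show z ∈ {z : PhasePoint × Par P | Valid Φ ε P T' z.1.2 z.2} from hz),
        indicator_of_mem (show z ∈ {z : PhasePoint × Par P | Valid Φ ε P T' z.1.2 z.2} from hz),
        wtM_of_adm hz.1, ToTree335.pfM_of_adm hz.1]
      ring
    · rw [indicator_of_notMem (show z ∉ {z : PhasePoint × Par P | Valid Φ ε P T' z.1.2 z.2}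
          from hz), indicator_of_notMem (show z ∉ {z : PhasePoint × Par P |
          Valid Φ ε P T' z.1.2 z.2} from hz), zero_mul]
  have hrep' : ∀ (z : PhasePoint × Par P) (c : PhasePoint × Par P → ℝ≥0∞),
      {z : PhasePoint × Par P | Valid Φ ε P T' z.1.2 z.2}.indicator
        (fun z => wt Φ P z.1.2 z.2 * (ToTree335.pf Φ f₀ ε P z * c z)) z =
      {z : PhasePoint × Par P | Valid Φ ε P T' z.1.2 z.2}.indicator
        (fun z => wtM Φ P z.1.2 z.2 * ToTree335.pfM Φ f₀ ε P z) z * c z := by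
    intro z c
    rw [← hrep z (c z)]
    by_cases hz : Valid Φ ε P T' z.1.2 z.2
    · rw [indicator_of_mem (show z ∈ {z : PhasePoint × Par P | Valid Φ ε P T' z.1.2 z.2} from hz),
        indicator_of_mem (show z ∈ {z : PhasePoint × Par P | Valid Φ ε P T' z.1.2 z.2} from hz)]
    · rw [indicator_of_notMem (show z ∉ {z : PhasePoint × Par P | Valid Φ ε P T' z.1.2 z.2}
          from hz), indicator_of_notMem (show z ∉ {z : PhasePoint × Par P |
          Valid Φ ε P T' z.1.2 z.2} from hz)]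
  simp only [hrep']
  have hw : Measurable fun z : PhasePoint × Par P =>
      {z : PhasePoint × Par P | Valid Φ ε P T' z.1.2 z.2}.indicator
        (fun z => wtM Φ P z.1.2 z.2 * ToTree335.pfM Φ f₀ ε P z) z := by
    refine Measurable.indicator ?_ (measurableSet_valid hΦ ε P T')
    exact ((measurable_wtM hΦ P).comp ((measurable_snd.comp measurable_fst).prodMk
      measurable_snd)).mul (ToTree335.measurable_pfM hΦ hf P)
  have hwt : ∀ z : PhasePoint × Par P,
      {z : PhasePoint × Par P | Valid Φ ε P T' z.1.2 z.2}.indicator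
        (fun z => wtM Φ P z.1.2 z.2 * ToTree335.pfM Φ f₀ ε P z) z ≠ ∞ := by
    intro z
    by_cases hz : Valid Φ ε P T' z.1.2 z.2
    · rw [indicator_of_mem (show z ∈ {z : PhasePoint × Par P | Valid Φ ε P T' z.1.2 z.2} from hz),
        wtM_of_adm hz.1, ToTree335.pfM_of_adm hz.1]
      exact ENNReal.mul_ne_top (TreeLim974.wt_ne_top P _ _) (pf_ne_top z)
    · rw [indicator_of_notMem (show z ∉ {z : PhasePoint × Par P | Valid Φ ε P T' z.1.2 z.2}
          from hz)]
      exact ENNReal.zero_ne_top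
  rw [← BadHit370.lintegral_gcE hf ε volume (F := fun m z w =>
    {z : PhasePoint × Par P | Valid Φ ε P T' z.1.2 z.2}.indicator
        (fun z => wtM Φ P z.1.2 z.2 * ToTree335.pfM Φ f₀ ε P z) z *
      ∫⁻ l, {l : ML | (z, l.1) ∈ OneC423.ctSet Φ ε te P}.indicator
            (fun l => lineD γ ρ K l * (smI K P l * G m w (z, l))) l
              ∂(OneC423.baseM κ)) (fun m => (hw.comp measurable_fst).mul (hin m))]
  refine lintegral_congr fun z => ?_
  exact gcE_const_mul f₀ ε (hwt z) _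

/-- The functional of `OSP`. -/
def HP (Φ : Space3 → ℝ) (ε : ℝ) (K : ℕ) (Q : EPar) (m₀ : ℕ) : SF := fun P z _ w l =>
  (if P.leaves ≤ m₀ then smI K P l else 0) * pairF Φ ε K Q P z w l

theorem OSP_eq (Q : EPar) (T' : ℝ) (m₀ : ℕ) (κ : Measure ℝ) :
    OSP Φ f₀ ε K Q T' m₀ κ = OS Φ f₀ ε K Q T' κ (HP Φ ε K Q m₀) := rfl

/-- **The pair functional of `nu0`** is the structure integral of the frozen parameters. -/
theorem PE_nu0_eq (hΦ : AdmissiblePotential Φ) (hf : Measurable f₀) (hε : 0 < ε) (Q : EPar)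
    (T' : ℝ) (m₀ : ℕ) :
    PE Φ f₀ ε K Q (nu0 Φ f₀ ε K Q T' m₀) =
      OS Φ f₀ ε K (frz Q) T' (Measure.dirac 0) (HP Φ ε K Q m₀) := by
  unfold PE
  have h1 : ∀ (m : ℕ) (w : Config m),
      ∫⁻ p, (MW.cfg w).touchP Φ ε K Q p.1 p.2 ∂(nu0 Φ f₀ ε K Q T' m₀) =
      activity ε * ∑' P : CTree, if P.leaves ≤ m₀ then
        ∫⁻ q, pairFM Φ ε K Q P q.1 w q.2
          ∂(strM Φ f₀ ε K (fun _ => Q.γ Q.te) Q.ρ Q.te T' (Measure.dirac 0) P) else 0 := by
    intro m w
    rw [lintegral_nu0]
    congr 1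
    refine tsum_congr fun P => ?_
    split_ifs
    · exact sum_lintegral_nuP hΦ hε Q _ _ _ _ _ w
    · rfl
  simp only [h1]
  have hmP : ∀ (P : CTree) (m : ℕ), Measurable fun w : Config m => if P.leaves ≤ m₀ then
        ∫⁻ q, pairFM Φ ε K Q P q.1 w q.2
          ∂(strM Φ f₀ ε K (fun _ => Q.γ Q.te) Q.ρ Q.te T' (Measure.dirac 0) P) else 0 := by
    intro P m
    split_ifs
    · exact (measurable_pairFM hΦ hε K Q P m).lintegral_prod_right'
    · exact measurable_const
  rw [gcE_const_mul f₀ ε (activity_ne_top ε), gcE_tsum hf ε hmP]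
  unfold OS
  congr 1
  refine tsum_congr fun P => ?_
  unfold HP
  by_cases hP : P.leaves ≤ m₀
  · simp only [if_pos hP]
    rw [gcE_lintegral_strM (K := K) (ε := ε) (P := P) hΦ hf measurable_const Q.ρ Q.te T'
      (Measure.dirac 0) (G := fun m w q => pairFM Φ ε K Q P q.1 w q.2)
      (fun m => measurable_pairFM hΦ hε K Q P m)]
    refine lintegral_congr fun z => ?_
    by_cases hz : Valid Φ ε P T' z.1.2 z.2
    · rw [indicator_of_mem (show z ∈ {z : PhasePoint × Par P | Valid Φ ε P T' z.1.2 z.2} from hz),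
        indicator_of_mem (show z ∈ {z : PhasePoint × Par P | Valid Φ ε P T' z.1.2 z.2} from hz)]
      simp only [pairFM_of_adm hz.1]
      rfl
    · rw [indicator_of_notMem (show z ∉ {z : PhasePoint × Par P | Valid Φ ε P T' z.1.2 z.2}
          from hz), indicator_of_notMem (show z ∉ {z : PhasePoint × Par P |
          Valid Φ ε P T' z.1.2 z.2} from hz)]
  · simp only [if_neg hP, zero_mul, mul_zero]
    rw [gcE_zero]
    have h0 : ∀ z : PhasePoint × Par P, ∀ l : ML,
        {l : ML | (z, l.1) ∈ OneC423.ctSet Φ ε (frz Q).te P}.indicator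
          (fun _ : ML => (0 : ℝ≥0∞)) l = 0 := fun z l => by
      simp
    symm
    refine (lintegral_congr fun z => ?_).trans lintegral_zero
    by_cases hz : Valid Φ ε P T' z.1.2 z.2
    · rw [indicator_of_mem (show z ∈ {z : PhasePoint × Par P | Valid Φ ε P T' z.1.2 z.2} from hz)]
      simp only [h0, lintegral_zero, gcE_zero, mul_zero]
    · rw [indicator_of_notMem (show z ∉ {z : PhasePoint × Par P | Valid Φ ε P T' z.1.2 z.2}
          from hz)]

/-! ### Independence of the birth time -/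

theorem ctInt_le {s : ℝ} {ℓ : PhasePoint} {τ τ' : ℝ} {H H' : ML → ℝ≥0∞}
    (h : ∀ (n : ℕ) (v b : Space3), v - ℓ.2 ≠ 0 → b ∈ impactDisc (v - ℓ.2) →
      H (OneC423.lineAt ε s ℓ τ v b n) ≤ H' (OneC423.lineAt ε s ℓ τ' v b n)) :
    OneC423.ctInt ε s ℓ τ H ≤ OneC423.ctInt ε s ℓ τ' H' := by
  unfold OneC423.ctInt
  refine ENNReal.tsum_le_tsum fun n => lintegral_mono fun v => ?_
  by_cases hv : v - ℓ.2 = 0
  · rw [hv]
    simp
  · refine mul_le_mul' le_rfl ?_
    exact setLIntegral_mono_ae' (Boltz814.measurableSet_impactDisc _)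
      (Eventually.of_forall fun b hb => h n v b hv hb)

/-- **Independence of the birth time**: structures of a test line born at `τ ∈ [0, te]`, functional
depending on the lines of the structure and on the mark only. -/
theorem os_dirac_le (hΦ : AdmissiblePotential Φ) (hε : 0 < ε) {Q : EPar} (hγ : Measurable Q.γ)
    {T' τ : ℝ} (h0 : 0 ≤ τ) (hanti : Q.γ Q.te ≤ Q.γ τ)
    {H : (P : CTree) → PhasePoint × Par P → (m : ℕ) → Config m → (Idx P ⊕ Bool → ML) → ℕ → ℝ≥0∞}
    (hH : ∀ (P : CTree) (z : PhasePoint × Par P) (m : ℕ) (w : Config m),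
      Valid Φ ε P T' z.1.2 z.2 → Measurable fun l : ML =>
        H P z m w (oneLs Φ ε P z l) l.2) :
    OS Φ f₀ ε K Q T' (Measure.dirac τ) (fun P z m w l => H P z m w (oneLs Φ ε P z l) l.2) ≤
      OS Φ f₀ ε K (frz Q) T' (Measure.dirac 0)
        (fun P z m w l => H P z m w (oneLs Φ ε P z l) l.2) := by
  unfold OS
  refine mul_le_mul' le_rfl (ENNReal.tsum_le_tsum fun P => lintegral_mono fun z => ?_)
  by_cases hz : Valid Φ ε P T' z.1.2 z.2
  swap
  · rw [indicator_of_notMem (show z ∉ {z : PhasePoint × Par P | Valid Φ ε P T' z.1.2 z.2}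
          from hz)]
    exact zero_le
  rw [indicator_of_mem (show z ∈ {z : PhasePoint × Par P | Valid Φ ε P T' z.1.2 z.2} from hz),
    indicator_of_mem (show z ∈ {z : PhasePoint × Par P | Valid Φ ε P T' z.1.2 z.2} from hz)]
  refine mul_le_mul' le_rfl (mul_le_mul' le_rfl (gcE_mono f₀ ε fun m w _ => ?_))
  have hm := hH P z m w hz
  rw [OneC423.lintegral_ct hΦ hε z (Measure.dirac τ)
      (H := fun l => lineD Q.γ Q.ρ K l * H P z m w (oneLs Φ ε P z l) l.2)
      ((MeasE416.measurable_lineD hγ Q.ρ K).mul hm),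
    OneC423.lintegral_ct hΦ hε z (Measure.dirac 0)
      (H := fun l => lineD (frz Q).γ (frz Q).ρ K l * H P z m w (oneLs Φ ε P z l) l.2)
      ((MeasE416.measurable_lineD measurable_const Q.ρ K).mul hm),
    lintegral_dirac, lintegral_dirac]
  refine mul_le_mul' le_rfl ?_
  have hJ' : MeasurableSet {s | s ≤ Q.te ∧ Valid Φ ε P s z.1.2 z.2} := by
    have hm : Measurable fun s : ℝ => ((s, z) : ℝ × (PhasePoint × Par P)) :=
      measurable_id.prodMk measurable_const
    exact hm (OneC423.measurableSet_validJ hΦ ε Q.te P)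
  refine (lintegral_mono_set (Ioc_subset_Ioc_left h0)).trans ?_
  refine lintegral_mono fun s => ?_
  refine indicator_le_indicator ?_ |>.trans (le_of_eq rfl)
  refine ctInt_le fun n v b hv hb => ?_
  have e1 : (oneLs Φ ε P z (OneC423.lineAt ε s z.1 τ v b n)) =
      oneLs Φ ε P z (OneC423.lineAt ε s z.1 0 v b n) := by
    funext x
    rw [oneLs_lineAt hε z s τ n hb hv x, oneLs_lineAt hε z s 0 n hb hv x]
  simp only [e1]
  refine mul_le_mul' ?_ le_rfl
  unfold lineD
  refine mul_le_mul' ?_ le_rfl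
  show Kin796.wG (Q.γ τ) v ≤ Kin796.wG (Q.γ Q.te) v
  unfold Kin796.wG
  refine ENNReal.ofReal_le_ofReal (Real.exp_le_exp.2 ?_)
  have := mul_le_mul_of_nonneg_right hanti (sq_nonneg ‖v‖)
  linarith

/-- **The SP term is dominated by the pair functional of `nu0`**, for every birth time. -/
theorem osp_le (hΦ : AdmissiblePotential Φ) (hf : Measurable f₀) (hε : 0 < ε) {Q : EPar}
    (hγ : Measurable Q.γ) {T' τ : ℝ} (h0 : 0 ≤ τ) (hanti : Q.γ Q.te ≤ Q.γ τ) (m₀ : ℕ) :
    OSP Φ f₀ ε K Q T' m₀ (Measure.dirac τ) ≤ PE Φ f₀ ε K Q (nu0 Φ f₀ ε K Q T' m₀) := by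
  rw [PE_nu0_eq hΦ hf hε, OSP_eq]
  refine os_dirac_le hΦ hε hγ h0 hanti (H := fun P z m w L n =>
    (if P.leaves ≤ m₀ then (if n + P.leaves ≤ K then 1 else 0) else 0) *
      ∑ x ∈ exS P, ∑ y ∈ Finset.univ.erase x, (MW.cfg w).touchP Φ ε K Q (L x) (L y)) ?_
  intro P z m w hz
  have h2 : Measurable fun l : ML => pairFM Φ ε K Q P z w l :=
    (measurable_pairFM hΦ hε K Q P m).comp (f := fun l : ML => (w, (z, l)))
      (measurable_const.prodMk (measurable_const.prodMk measurable_id))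
  have h3 : (fun l : ML => ∑ x ∈ exS P, ∑ y ∈ Finset.univ.erase x,
      (MW.cfg w).touchP Φ ε K Q (oneLs Φ ε P z l x) (oneLs Φ ε P z l y)) =
      fun l => pairFM Φ ε K Q P z w l := by
    funext l
    exact (pairFM_of_adm hz.1 w l).symm
  have h4 : Measurable fun l : ML =>
      (if P.leaves ≤ m₀ then (if l.2 + P.leaves ≤ K then (1 : ℝ≥0∞) else 0) else 0) := by
    split_ifs
    · refine Measurable.ite ?_ measurable_const measurable_const
      exact measurable_snd (measurableSet_le (measurable_of_countable _)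
        measurable_const : MeasurableSet {n : ℕ | n + P.leaves ≤ K})
    · exact measurable_const
  refine h4.mul ?_
  rw [h3]
  exact h2

end Crest.Agent.R122.Nu0566

end
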