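import Crest.Agent.R122.TopG_602
import Crest.Agent.R122.Nu0B_566
import Crest.Agent.R122.FinPM_566
import Crest.Agent.R122.D5Main_726

/-!
# Row 122: the inputs of section E with the pair mass of helper566 (helper602)

* `PMn γ ρ h₀` : the pair mass of `nu0` at the horizon `tw + h₀`.
* `InHL T Q` : `Q h₀ γ ρ` for all small `h₀` and all admissible line parameters.
* `I1In`, `I2In`, `I3In`, `FPIn` : the four inputs of section E; `eIn_of_parts`.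
* `fpIn_of` : the finiteness of the pair mass (helper566).
* `Parts` : the five remaining inputs of S0162; `openIn_of_parts` (D5 is proved, helper726).
-/

set_option autoImplicit false

open MeasureTheory Set Filter Topology
open scoped ENNReal
open Crest.AnalysisR.Kinetic
open Crest.Agent.R122.Master566 Crest.Agent.R122.EDefs602 Crest.Agent.R122.GIV566

namespace Crest.Agent.R122.Top602

noncomputable section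

/-- **The pair mass**: pair functional of helper566's `nu0`, horizon `tw + h₀`. -/
def PMn (Φ : Space3 → ℝ) (f₀ : PhasePoint → ℝ) (γ : ℝ → ℝ) (ρ : ℝ≥0∞) (h₀ : ℝ) : PMass :=
  fun m L tw te K ε => PE Φ f₀ ε K (epar γ ρ L tw te)
    (Nu0566.nu0 Φ f₀ ε K (epar γ ρ L tw te) (tw + h₀) m)

/-- For all small `h₀` and all admissible line parameters. -/
def InHL (T : ℝ) (Q : ℝ → (ℝ → ℝ) → ℝ≥0∞ → Prop) : Prop :=
  ∃ h₁ : ℝ, 0 < h₁ ∧ ∃ g1 : ℝ, 0 < g1 ∧ ∃ r1 : ℝ≥0∞, r1 < 1 ∧ ∀ h₀ : ℝ, 0 < h₀ → h₀ ≤ h₁ →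
    ∀ (γ : ℝ → ℝ) (ρ : ℝ≥0∞), LinePar g1 r1 T γ ρ → Q h₀ γ ρ

theorem InHL.and {T : ℝ} {Q Q' : ℝ → (ℝ → ℝ) → ℝ≥0∞ → Prop} (h : InHL T Q) (h' : InHL T Q') :
    InHL T fun h₀ γ ρ => Q h₀ γ ρ ∧ Q' h₀ γ ρ := by
  obtain ⟨a, ha, g1, hg1, r1, hr1, h⟩ := h
  obtain ⟨b, hb, g2, hg2, r2, hr2, h'⟩ := h'
  exact ⟨min a b, lt_min ha hb, min g1 g2, lt_min hg1 hg2, max r1 r2, max_lt hr1 hr2,
    fun h₀ h0 hle γ ρ hl =>
    ⟨h h₀ h0 (hle.trans (min_le_left _ _)) γ ρ (hl.mono (min_le_left _ _) (le_max_left _ _)),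
      h' h₀ h0 (hle.trans (min_le_right _ _)) γ ρ
        (hl.mono (min_le_right _ _) (le_max_right _ _))⟩⟩

theorem InHL.mono {T : ℝ} {Q Q' : ℝ → (ℝ → ℝ) → ℝ≥0∞ → Prop} (h : InHL T Q)
    (hq : ∀ h₀ γ ρ, 0 < h₀ → (∃ g1 r1, LinePar g1 r1 T γ ρ) → Q h₀ γ ρ → Q' h₀ γ ρ) :
    InHL T Q' := by
  obtain ⟨a, ha, g1, hg1, r1, hr1, h⟩ := h
  exact ⟨a, ha, g1, hg1, r1, hr1, fun h₀ h0 hle γ ρ hl =>
    hq h₀ γ ρ h0 ⟨g1, r1, hl⟩ (h h₀ h0 hle γ ρ hl)⟩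

/-- Restriction of `h₀`. -/
theorem InHL.of_le {T : ℝ} {Q : ℝ → (ℝ → ℝ) → ℝ≥0∞ → Prop} (h : ∃ a : ℝ, 0 < a ∧
    InHL T fun h₀ γ ρ => h₀ ≤ a → Q h₀ γ ρ) : InHL T Q := by
  obtain ⟨a, ha, b, hb, g1, hg1, r1, hr1, h⟩ := h
  exact ⟨min a b, lt_min ha hb, g1, hg1, r1, hr1, fun h₀ h0 hle γ ρ hl =>
    h h₀ h0 (hle.trans (min_le_right _ _)) γ ρ hl (hle.trans (min_le_left _ _))⟩

/-- Restriction of the line parameters. -/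
theorem InHL.of_par {T : ℝ} {Q : ℝ → (ℝ → ℝ) → ℝ≥0∞ → Prop} {g1 : ℝ} {r1 : ℝ≥0∞} (hg : 0 < g1)
    (hr : r1 < 1) (h : InHL T fun h₀ γ ρ => LinePar g1 r1 T γ ρ → Q h₀ γ ρ) : InHL T Q := by
  obtain ⟨b, hb, g2, hg2, r2, hr2, h⟩ := h
  exact ⟨b, hb, min g1 g2, lt_min hg hg2, max r1 r2, max_lt hr hr2, fun h₀ h0 hle γ ρ hl =>
    h h₀ h0 hle γ ρ (hl.mono (min_le_right _ _) (le_max_right _ _))
      (hl.mono (min_le_left _ _) (le_max_left _ _))⟩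

/-- INEQUALITY 1. -/
def I1In (Φ : Space3 → ℝ) (f₀ : PhasePoint → ℝ) (f : ℝ → PhasePoint → ℝ) (T : ℝ) : Prop :=
  InHL T fun h₀ γ ρ => Ineq1 Φ f₀ f T γ ρ (PMn Φ f₀ γ ρ h₀)

/-- INEQUALITY 2. -/
def I2In (Φ : Space3 → ℝ) (f₀ : PhasePoint → ℝ) (f : ℝ → PhasePoint → ℝ) (T : ℝ) : Prop :=
  InL T fun γ ρ => Ineq2 Φ f₀ f T γ ρ

/-- INEQUALITY 3. -/
def I3In (Φ : Space3 → ℝ) (f₀ : PhasePoint → ℝ) (f : ℝ → PhasePoint → ℝ) (T : ℝ) : Prop :=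
  InHL T fun h₀ γ ρ => Ineq3 Φ f₀ f T γ ρ (PMn Φ f₀ γ ρ h₀)

/-- Finiteness of the pair mass. -/
def FPIn (Φ : Space3 → ℝ) (f₀ : PhasePoint → ℝ) (f : ℝ → PhasePoint → ℝ) (T : ℝ) : Prop :=
  InHL T fun h₀ γ ρ => FinPM Φ f₀ f T γ ρ (PMn Φ f₀ γ ρ h₀)

variable {Φ : Space3 → ℝ} {β T : ℝ} {f₀ : PhasePoint → ℝ} {f : ℝ → PhasePoint → ℝ}

theorem PMn_eq (γ : ℝ → ℝ) (ρ : ℝ≥0∞) (h₀ : ℝ) :
    PMn Φ f₀ γ ρ h₀ = FinPM566.PM0 Φ f₀ γ ρ (fun _ _ tw _ => tw + h₀) := rfl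

/-- **Finiteness of the pair mass** (helper566). -/
theorem fpIn_of (hD : KData Φ β T f₀ f) : FPIn Φ f₀ f T :=
  ⟨1, one_pos, 1, one_pos, 0, zero_lt_one, fun h₀ _ _ _ _ hl =>
    FinPM566.finPM_nu0 hD hl fun _ _ tw _ => tw + h₀⟩

/-- **The input of section E** from its four parts. -/
theorem eIn_of_parts (h1 : I1In Φ f₀ f T) (h2 : I2In Φ f₀ f T) (h3 : I3In Φ f₀ f T)
    (h4 : FPIn Φ f₀ f T) : EIn Φ f₀ f T := by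
  obtain ⟨a, ha, g1, hg1, r1, hr1, h⟩ := (h1.and h3).and h4
  obtain ⟨g2, hg2, r2, hr2, h'⟩ := h2
  refine ⟨min g1 g2, lt_min hg1 hg2, max r1 r2, max_lt hr1 hr2, fun γ ρ hl =>
    ⟨PMn Φ f₀ γ ρ a, ?_⟩⟩
  obtain ⟨⟨k1, k3⟩, k4⟩ := h a ha le_rfl γ ρ (hl.mono (min_le_left _ _) (le_max_left _ _))
  exact ⟨k1, h' γ ρ (hl.mono (min_le_right _ _) (le_max_right _ _)), k3, k4⟩

/-- The remaining inputs of S0162. -/
structure Parts (Φ : Space3 → ℝ) (T : ℝ) (f₀ : PhasePoint → ℝ) (f : ℝ → PhasePoint → ℝ) :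
    Prop where
  /-- INEQUALITY 1 -/
  i1 : I1In Φ f₀ f T
  /-- INEQUALITY 2 -/
  i2 : I2In Φ f₀ f T
  /-- INEQUALITY 3 -/
  i3 : I3In Φ f₀ f T
  /-- the input (C) of section F -/
  err : ErrIn Φ f₀ f T
  /-- the null facts for forests -/
  ret : Ret424.RetFacts Φ f₀ T

theorem openIn_of_parts (hD : KData Φ β T f₀ f) (h : Parts Φ T f₀ f) : OpenIn Φ β T f₀ f :=
  ⟨eIn_of_parts h.i1 h.i2 h.i3 (fpIn_of hD), Chain726.d5Vol_of_kData hD, h.err, h.ret⟩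

end

end Crest.Agent.R122.Top602
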