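import Crest.Agent.R122.InEq2R_311
import Crest.Agent.R122.InEq2M_311
import Crest.Agent.R122.InEq2BindA_311
import Crest.Agent.R122.InEq2Adapt_311
import Crest.Agent.R122.InEq2BIn_263
import Crest.Agent.R122.RedW_674
import Crest.Agent.R122.TopE_602

/-!
# Row 122: INEQUALITY 2 (helper311)

* `rtGWin_of` : `RtGWin` from the null facts `LinkNull`, `RetNullT`, `OkNull` (helper302, helper674).
* `i2In_of_parts` : INEQUALITY 2 (`Top602.I2In`) from the touched half, the weight comparison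
  (helper335, helper718) and `RtGWin`.
-/

set_option autoImplicit false

open MeasureTheory Set Filter Topology
open scoped ENNReal
open Crest.AnalysisR.Kinetic
open Crest.Agent.R122.Master566 Crest.Agent.R122.GIV566 Crest.Agent.R122.Top602
open Crest.Agent.R122.EDefs602 Crest.Agent.R122.GC311
open Crest.Agent.R122.InEq2T (FTg FLg)
open Crest.Agent.R122.RtG302 (RtGMaj LinkNull RetNullT OkNull)

noncomputable section

open scoped Classical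

namespace Crest.Agent.R122.InEq2

variable {Φ : Space3 → ℝ} {f₀ : PhasePoint → ℝ} {f : ℝ → PhasePoint → ℝ} {β T : ℝ} {γ : ℝ → ℝ}
  {ρ : ℝ≥0∞} {h₀ : ℝ}

/-- `RtGWin` for one pair of line parameters. -/
theorem rtGWin_of (hD : KData Φ β T f₀ f) {g1 : ℝ} {r1 : ℝ≥0∞} (hg : g1 ≤ β) (hr : 0 < r1)
    (hLP : LinePar g1 r1 T γ ρ)
    (h2 : ∀ tw ∈ Icc 0 T, ∀ K K', LinkNull Φ f₀ tw (tw + h₀) K K')
    (h3 : ∀ tw ∈ Icc 0 T, ∀ K K', RetNullT Φ f₀ tw (tw + h₀) K K')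
    (h4 : ∀ tw ∈ Icc 0 T, ∀ K, OkNull Φ f₀ (tw + h₀) K) : RtGWin Φ f₀ f T γ ρ h₀ := by
  refine EvW.of_forall fun h L tw te _ _ _ hW hIH K => ?_
  have ht : tw ∈ Icc 0 T := ⟨hW.nonneg, hW.le.trans hW.le_T⟩
  exact Red674.rtgMaj_of_ih hD hg hr hLP hIH (h2 tw ht) (h3 tw ht) (h4 tw ht) K

/-- `RtGWin` for all small `h₀` and all admissible line parameters. -/
theorem inHL_rtGWin (hD : KData Φ β T f₀ f) {h₁ : ℝ} (hh₁ : 0 < h₁)
    (h2 : ∀ h₀, 0 < h₀ → h₀ ≤ h₁ → ∀ tw ∈ Icc 0 T, ∀ K K', LinkNull Φ f₀ tw (tw + h₀) K K')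
    (h3 : ∀ h₀, 0 < h₀ → h₀ ≤ h₁ → ∀ tw ∈ Icc 0 T, ∀ K K', RetNullT Φ f₀ tw (tw + h₀) K K')
    (h4 : ∀ h₀, 0 < h₀ → h₀ ≤ h₁ → ∀ tw ∈ Icc 0 T, ∀ K, OkNull Φ f₀ (tw + h₀) K) :
    InHL T fun h₀ γ ρ => RtGWin Φ f₀ f T γ ρ h₀ :=
  ⟨h₁, hh₁, β, hD.beta_pos, 1 / 2, by norm_num, fun h₀ h0 hle _ _ hLP =>
    rtGWin_of hD le_rfl (by norm_num) hLP (h2 h₀ h0 hle) (h3 h₀ h0 hle) (h4 h₀ h0 hle)⟩

/-- The open parts of INEQUALITY 2. -/
structure I2Parts (Φ : Space3 → ℝ) (f₀ : PhasePoint → ℝ) (f : ℝ → PhasePoint → ℝ) (T : ℝ) :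
    Prop where
  /-- the touched half -/
  touched : InHL T fun h₀ γ ρ => InB Φ f₀ f T γ ρ h₀ FTg
  /-- the weight comparison -/
  weight : InHL T fun h₀ γ ρ => InB Φ f₀ f T γ ρ h₀ FLg
  /-- real to ghost before the window -/
  rtg : InHL T fun h₀ γ ρ => RtGWin Φ f₀ f T γ ρ h₀

/-- **INEQUALITY 2** from its open parts. -/
theorem i2In_of_parts (hD : KData Φ β T f₀ f) (h : I2Parts Φ f₀ f T) : I2In Φ f₀ f T := by
  obtain ⟨a, ha, g1, hg1, r1, hr1, hq⟩ := (h.touched.and h.weight).and h.rtg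
  refine ⟨g1, hg1, r1, hr1, fun γ ρ hLP => ?_⟩
  have hΦ := hD.adm
  have hf : Measurable f₀ := hD.contDiff.continuous.measurable
  obtain ⟨b, hb, hM⟩ := inB_FM (γ := γ) (ρ := ρ) hD
  obtain ⟨c, hc, hA⟩ := inB_FA (γ := γ) (ρ := ρ) hD
  set h₀ : ℝ := min a (min b c) with hh₀
  have h0 : 0 < h₀ := lt_min ha (lt_min hb hc)
  have h1 : h₀ ≤ a := min_le_left _ _
  have h2 : h₀ ≤ b := (min_le_right _ _).trans (min_le_left _ _)
  have h3 : h₀ ≤ c := (min_le_right _ _).trans (min_le_right _ _)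
  obtain ⟨⟨kT, kL⟩, kR⟩ := hq h₀ h0 h1 γ ρ hLP
  have hN := inB_FNG (γ := γ) (ρ := ρ) hD h0
  have hR := inB_FR hD h0 kR
  exact ineq2_of hD (inB_FT_of hΦ hf kT hN hR) hN hR (inB_FL_of kL) (hA h₀ h0 h3)
    (InEq2BIn263.inB_FB hD γ ρ h0) (inB_FNC hD h0) (inB_FRC hD h0 kR) (hM h₀ h0 h2)

end Crest.Agent.R122.InEq2

end
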