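import Crest.Agent.R122.TopE_602
import Crest.Agent.R122.Ineq2_311
import Crest.Agent.R122.RedW_674
import Crest.Agent.R122.TreeNull_302

/-!
# Row 122: the null facts for trees and what follows from them (helper602)

* `TreeFacts` : links, returns and non-good worlds of the exit lines of one tree are null.
* `rtgIn_of` : H12 (`RtGWin`) for all windows.
* `redIn_of` : the reduction to good trees (`StmtRed`) for all windows.
* `treeNull_of` : `F3Fin370.TreeNull` at any time where `TN` holds.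
-/

set_option autoImplicit false

open MeasureTheory Set Filter Topology
open scoped ENNReal
open Crest.AnalysisR.Kinetic
open Crest.Agent.R122.Master566 Crest.Agent.R122.EDefs602 Crest.Agent.R122.GIV566
open Crest.Agent.R122.RtG302 (RtGMaj LinkNull RetNullT OkNull TouchNull)

namespace Crest.Agent.R122.Top602

noncomputable section

/-- **The null facts for trees**: links between exit lines, returns to the protected tubes, worlds
which are not good. -/
structure TreeFacts (Φ : Space3 → ℝ) (f₀ : PhasePoint → ℝ) : Prop where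
  link : ∀ u T' : ℝ, 0 ≤ u → u ≤ T' → ∀ K K' : ℕ, LinkNull Φ f₀ u T' K K'
  ret : ∀ u T' : ℝ, 0 ≤ u → u ≤ T' → ∀ K K' : ℕ, RetNullT Φ f₀ u T' K K'
  ok : ∀ T' : ℝ, 0 ≤ T' → ∀ K : ℕ, OkNull Φ f₀ T' K

variable {Φ : Space3 → ℝ} {β T : ℝ} {f₀ : PhasePoint → ℝ} {f : ℝ → PhasePoint → ℝ}
  {γ : ℝ → ℝ} {ρ : ℝ≥0∞}

/-- H12 on all short windows. -/
theorem rtgIn_of (hD : KData Φ β T f₀ f) (h : TreeFacts Φ f₀) :
    InHL T fun h₀ γ ρ => InEq2.RtGWin Φ f₀ f T γ ρ h₀ :=
  InEq2.inHL_rtGWin hD one_pos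
    (fun h₀ h0 _ tw ht K K' => h.link tw (tw + h₀) ht.1 (by linarith) K K')
    (fun h₀ h0 _ tw ht K K' => h.ret tw (tw + h₀) ht.1 (by linarith) K K')
    (fun h₀ h0 _ tw ht K => h.ok (tw + h₀) (by linarith [ht.1]) K)

/-- The reduction to good trees on all short windows. -/
theorem redIn_of (hD : KData Φ β T f₀ f) (h : TreeFacts Φ f₀) :
    InHL T fun h₀ γ ρ => EvW T fun _ _ tw te => IH Φ f₀ f T γ ρ tw →
      OneC285.StmtRed Φ f₀ tw te (tw + h₀) :=
  ⟨1, one_pos, β, hD.beta_pos, 1 / 2, by norm_num, fun h₀ h0 _ _ _ hLP =>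
    Red674.stmtRed_evW hD le_rfl (by norm_num) hLP h0
      (fun tw ht K K' => h.link tw (tw + h₀) ht.1 (by linarith) K K')
      (fun tw ht K K' => h.ret tw (tw + h₀) ht.1 (by linarith) K K')
      (fun tw ht K => h.ok (tw + h₀) (by linarith [ht.1]) K)⟩

/-- `TreeNull` where the touched mass is null. -/
theorem treeNull_of (hD : KData Φ β T f₀ f) (h : TreeFacts Φ f₀) {g1 : ℝ} {r1 : ℝ≥0∞}
    (hg : g1 ≤ β) (hr : 0 < r1) (hLP : LinePar g1 r1 T γ ρ) {t : ℝ} (ht : 0 ≤ t)
    (hTN : TN Φ f₀ γ ρ t) : F3Fin370.TreeNull Φ f₀ t := by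
  have hf : Measurable f₀ := hD.contDiff.continuous.measurable
  have hβ := hD.beta_pos
  obtain ⟨C, hC, hb⟩ := GC311.exists_gaussian_bound hD.gaussian
  have hb' : ∀ z : PhasePoint, f₀ z ≤ C * Real.exp (-(2 * β) * ‖z.2‖ ^ 2) := fun z => by
    have h := (le_abs_self _).trans (hb z.1 z.2)
    rw [neg_mul]
    exact h
  have hγb : ∀ τ, 0 < τ → τ ≤ t → γ τ ≤ β := by
    intro τ hτ _
    obtain ⟨g0, κ, hκ, hγ, -, hg0⟩ := hLP.lin
    rw [hγ]
    have := mul_pos hκ hτ
    show g0 - κ * τ ≤ β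
    linarith
  have hρ0 : ρ ≠ 0 := (hr.trans_le hLP.lo).ne'
  have hρt : ρ ≠ ∞ := (hLP.hi.trans ENNReal.one_lt_top).ne
  exact TreeNull302.treeNull_of hD.adm (by linarith : 0 < 2 * β) hD.contDiff.continuous
    hD.gaussian (FM167.lintegral_density_eq_one hD.nonneg hD.integrable hD.mass).le
    (TouchN302.touchNull hD.adm hf hC hb' hβ (by linarith : β < 2 * β) hLP.measurable hρ0 hρt hγb
      hTN t) (h.link t t ht le_rfl) (h.ret t t ht le_rfl) (h.ok t ht)

end

end Crest.Agent.R122.Top602
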