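import Crest.Agent.R122.TreeFin_302
import Crest.Agent.R122.LNTreeRAT_399
import Crest.Agent.R122.OkRoot_663
import Crest.Agent.R122.TopI_602
import Crest.Agent.R122.GIVStepIn_383

/-!
# `ErrIn` and `TreeFacts` (row 122, helper370)

* `okNull`, `treeFacts`, `errIn`.
-/

set_option autoImplicit false
set_option linter.unusedSectionVars false
open MeasureTheory Set Filter
open scoped Classical ENNReal Topology
open Crest.AnalysisR.Kinetic
open Crest.Agent.R122.RtG302 Crest.Agent.R122.EDefs602 Crest.Agent.R122.LNTree399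
open Crest.Agent.R122.Master566 Crest.Agent.R122.Top602
noncomputable section

namespace Crest.Agent.R122.ErrClose370

variable {Φ : Space3 → ℝ} {f₀ : PhasePoint → ℝ} {f : ℝ → PhasePoint → ℝ} {β T t : ℝ}

/-- **Good worlds**: `OkNull` at every horizon. -/
theorem okNull (hD : KData Φ β T f₀ f) (ht : 0 ≤ t) (K : ℕ) : OkNull Φ f₀ t K := by
  have hβ := hD.beta_pos
  have hmass : ∫⁻ z, ENNReal.ofReal (f₀ z) ≤ 1 :=
    (FM167.lintegral_density_eq_one hD.nonneg hD.integrable hD.mass).le
  exact TreeFin302.okNull_of_nOkR hD.adm (AllOk663.nOkR hD.adm (by linarith : (0 : ℝ) < 2 * β)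
    hD.contDiff.continuous hD.gaussian hmass ht K)

/-- **`TreeFacts`**. -/
theorem treeFacts (hD : KData Φ β T f₀ f) : TreeFacts Φ f₀ where
  link u T' h0 hu K K' := TreeFin302.linkNull_of_rat hD (h0.trans hu) hu
    (okNull hD (h0.trans hu) K) fun _ => rat hD.adm K K'
  ret u T' h0 hu K K' := TreeFin302.retNullT_of_rat hD (h0.trans hu) hu
    (okNull hD (h0.trans hu) K) fun _ => rat hD.adm K K'
  ok T' h0 K := okNull hD h0 K

/-- **`ErrIn`**. -/
theorem errIn (hD : KData Φ β T f₀ f) : ErrIn Φ f₀ f T :=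
  TreeFin302.errIn_of_rat hD (fun t _ _ K K' => rat hD.adm K K')
    fun _ h _ K => okNull hD h.le K

end Crest.Agent.R122.ErrClose370
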