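import Crest.Agent.R122.TLGate_311
import Crest.Agent.R122.XShape_692
import Crest.Agent.R122.InEq2TX_335
import Crest.Agent.R122.RtG_302
import Crest.Agent.R122.ErrA_815
import Crest.Agent.R122.GateOS_973

/-!
# Row 122, H11 (helper311): trees and independent lines, binding

The alternatives `SAlt`, `XAlt`, `JAlt` of helper692 for a tree and an independent line have small
mass, so the capped mass of the lines which are not good (helper335's `lkX`) is null.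

* `run_S`, `run_X`, `bad_S`, `bad_X`, `bad_J` : the alternatives as families of bad events.
* `OkXae` : (input) the lines of the tree and an independent line can be inserted together, a.e.
* `TLDet` : (input) the deterministic theorem.
* `xNull_lkG` : **the lines which are not good are null** (`XNull` of helper815).
-/

set_option autoImplicit false
set_option linter.unusedSectionVars false

open MeasureTheory Set Filter Topology
open scoped Classical ENNReal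
open Crest.AnalysisR.Kinetic
open Crest.Agent.R122.GC311 Crest.Agent.R122.EDefs602
open Crest.Agent.R122.Kin796 Crest.Agent.R122.Kin796.CTree Crest.Agent.R122.Tree674
open Crest.Agent.R122.InEq2 Crest.Agent.R122.TreeLines335 Crest.Agent.R122.LineMeas994
open Crest.Agent.R122.ToTree335 Crest.Agent.R122.LinkM547 Crest.Agent.R122.LN2
open Crest.Agent.R122.Gate424 Crest.Agent.R122.Gate973 Crest.Agent.R122.BH167
open Crest.Agent.R122.E6Hyp879 (withD)
open Crest.Agent.R122.X692 (SAlt XAlt JAlt)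
open Crest.Agent.R122.InEq2T (PerpT GoodX GoodT lkX LnMaj)
open Crest.Agent.R122.RtG302 (TEv TMaj TNull)

noncomputable section

namespace Crest.Agent.R122.TL311

variable {Φ : Space3 → ℝ} {f₀ : PhasePoint → ℝ} {β T te g T' : ℝ} {γ : ℝ → ℝ} {ρ : ℝ≥0∞}
  {K : ℕ} {P : CTree}

/-! ### The alternatives as families of bad events -/

section ingr

variable (h : Ctx Φ f₀ β T te g γ ρ)

include h

/-- The class horizon can be changed. -/
theorem Ctx.hor {T₂ : ℝ} (h2 : 0 ≤ T₂) (h3 : te ≤ T₂) : Ctx Φ f₀ β T₂ te g γ ρ where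
  adm := h.adm
  cont := h.cont
  gauss := h.gauss
  mass := h.mass
  T_nonneg := h2
  te_le := h3
  g_pos := h.g_pos
  g_le := h.g_le
  rate := h.rate
  meas := h.meas
  mark := h.mark

/-- Runs from the groups of the tree, tree horizon `T'`, horizon of the run `t ≤ T`. -/
theorem Ctx.run_S (T' : ℝ) {t : ℝ} (ht : t ≤ T) (P : CTree) (K₂ : ℕ) {δ : ℝ≥0∞} (hδ : 0 < δ) :
    ∃ L₀ : ℕ, ∀ L, L₀ ≤ L →
      GLe f₀ (mT Φ f₀ T' P) (fun ε _ _ z w => RunS Φ ε t K₂ L (fun _ => 0) (zT Φ ε P z) w) δ := by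
  obtain ⟨C₀, hC₀, hb⟩ := h.exists_bound
  have h1 : g / 2 < 2 * β := by
    have := h.g_pos
    have := h.g_le
    linarith
  obtain ⟨M, hM, h2⟩ := GateT522.exists_moment_expW h.adm h.hf h.gauss h1 P T'
  exact gLe_runS (I := Unit) (m := mT Φ f₀ T' P) h.adm (β := g / 2) (half_pos h.g_pos)
    h.T_nonneg hC₀ K₂ h.hf hb h.mass (t := fun _ => t) (fun _ => ht)
    (b := fun _ _ _ _ => 0) (z := fun ε _ z => zT Φ ε P z) (fun _ _ _ => measurable_const)
    (fun ε _ _ => measurable_linesM h.adm ε P) hM (fun ε _ hε => h2 ε T' hε le_rfl) hδ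

/-- Runs from the line. -/
theorem Ctx.run_X {t : ℝ} (ht : t ≤ T) (K K₂ : ℕ) {δ : ℝ≥0∞} (hδ : 0 < δ) :
    ∃ L₀ : ℕ, ∀ L, L₀ ≤ L →
      GLe f₀ (nL γ ρ K te) (fun ε _ _ l w => Run Φ ε t K₂ L (MW.line l) () w) δ := by
  have h1 : 2 * (g / 2) ≤ 2 * β := by
    have := h.g_pos
    have := h.g_le
    linarith
  obtain ⟨env, A, hA, hE⟩ := exists_envB h1 h.gauss
  exact gLe_runX (I := Unit) h.adm (half_pos h.g_pos) (half_lt_self h.g_pos) h.te_le h.T_nonneg hA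
    K₂ h.hf h.mass hE h.meas h.rate h.mark K (t := fun _ => t) (fun _ => ht) hδ

/-- **S**: bad partitions and bad hits of the tree (tree horizon `T'`). -/
theorem Ctx.bad_S (T' : ℝ) (hCN : VLMeas973.ClassNull Φ T) {T₁ : ℝ} (hT₁ : 0 ≤ T₁) (P : CTree)
    (C : ℝ) (N : ℕ) : BadF f₀ (mT Φ f₀ T' P) (fun R ς ε _ _ z w =>
      BadGas Φ T C R ς ε N 1 Finset.univ (fun _ : Idx P => 0) (zT Φ ε P z) w ∨
      BadHitGas (bpos Φ T₁ T) Φ T C 1 ε N N 1 Finset.univ (fun _ : Idx P => 0) (zT Φ ε P z) w) := by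
  obtain ⟨r, C₀, he, heg⟩ := h.exists_env
  have hdom : ∀ (ε : ℝ) (_ : Unit), 0 < ε → Dom g r ε 1 (Finset.univ : Finset (Idx P))
      (ENNReal.ofReal (Fintype.card (Idx P) + 1 / (2 * β - g)) * C₀ ^ Fintype.card (Idx P))
      (Measure.dirac fun _ : Idx P => (0 : ℝ)) (mT Φ f₀ T' P ε ()) (fun _ _ => 0) (zT Φ ε P) := by
    intro ε _ hε
    have ha : 0 < 2 * β - g := by
      have := h.g_pos
      have := h.g_le
      linarith
    have h1 := TreeGate302.dom_treeQ h.adm h.hf he hε ha P T'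
    rw [show 2 * β - (2 * β - g) = g by ring] at h1
    exact h1
  have hc : ENNReal.ofReal (Fintype.card (Idx P) + 1 / (2 * β - g)) *
      C₀ ^ Fintype.card (Idx P) ≠ ∞ :=
    ENNReal.mul_ne_top ENNReal.ofReal_ne_top (ENNReal.pow_ne_top he.fin)
  have h1 : BadF f₀ (mT Φ f₀ T' P) (fun R ς ε _ _ z w => BadGas Φ T C R ς ε N 1 Finset.univ
      (fun _ : Idx P => 0) (zT Φ ε P z) w) :=
    badF_badGas (I := Unit) (m := mT Φ f₀ T' P) hCN h.hf h.mass heg h.g_pos C N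
      (s := 1) (Fintype.card_pos_iff.2 ⟨root P⟩) Finset.univ hc
      (Measure.dirac fun _ : Idx P => (0 : ℝ)) (b := fun _ _ _ _ => 0)
      (z := fun ε _ z => zT Φ ε P z) (sf_mT P) hdom
  have h2 : GNull f₀ (mT Φ f₀ T' P) (fun ε _ _ z w => BadHitGas (bpos Φ T₁ T) Φ T C 1 ε N N 1
      Finset.univ (fun _ : Idx P => 0) (zT Φ ε P z) w) :=
    gNull_badPos (I := Unit) (m := mT Φ f₀ T' P) h.adm h.T_nonneg T hT₁ h.hf h.mass heg h.g_pos
      C 1 N N (s := 1) (Fintype.card_pos_iff.2 ⟨root P⟩) Finset.univ hc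
      (Measure.dirac fun _ : Idx P => (0 : ℝ)) (b := fun _ _ _ _ => 0)
      (z := fun ε _ z => zT Φ ε P z) (sf_mT P) hdom
  exact h1.or h.hf (BadF.of_gNull h2)

/-- **X**: bad clusters and bad hits of the line. -/
theorem Ctx.bad_X (hCN : VLMeas973.ClassNull Φ T) {T₁ : ℝ} (hT₁ : 0 ≤ T₁) (K : ℕ) (C : ℝ)
    (N : ℕ) : BadF f₀ (nL γ ρ K te) (fun R ς ε _ _ x w =>
      BadGas Φ T C R ς ε N 1 (∅ : Finset Unit) (fun _ => x.1.1) (fun _ => back x.1) w ∨
      BadHitGasN (bpos Φ T₁ T) Φ T C 1 ε N N 1 (∅ : Finset Unit) (fun _ => x.1.1)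
        (fun _ => back x.1) w) := by
  obtain ⟨r, C₀, he, heg⟩ := h.exists_env
  have h2 : GNull f₀ (nL γ ρ K te) (fun ε _ _ x w => BadHitGasN (bpos Φ T₁ T) Φ T C 1 ε N N 1
      (∅ : Finset Unit) (fun _ => x.1.1) (fun _ => back x.1) w) :=
    gNull_badPosN (I := Unit) (m := nL γ ρ K te) h.adm h.T_nonneg T hT₁ h.hf h.mass heg h.g_pos
      C 1 N N (s := 1) le_rfl ∅ (c := ∑' n : ℕ, markW ρ K n) (sum_markW_ne_top h.mark K)
      (lineΛ te) (b := fun _ _ l _ => l.1.1) (z := fun _ _ l _ => back l.1) sf_nL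
      fun ε _ _ => h.dom_L r K ε
  exact (h.badF_L hCN K C N).or h.hf (BadF.of_gNull h2)

/-- **J**: the tree and the line. -/
theorem Ctx.bad_J (T' : ℝ) (hCN : VLMeas973.ClassNull Φ T) (P : CTree) (K : ℕ) (C : ℝ) (N : ℕ) :
    BadF f₀ (fun ε i => (mT Φ f₀ T' P ε i).prod (nL γ ρ K te ε i)) (fun R ς ε _ _ p w =>
      JAlt Φ T C R ς ε N (Finset.univ : Finset (Idx P)) (fun _ => 0) (zT Φ ε P p.1) p.2 w) := by
  obtain ⟨r, C₀, he, heg⟩ := h.exists_env
  have hA : ((Finset.univ : Finset (Idx P)).map Function.Embedding.inl : Finset (Idx P ⊕ Unit)) =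
      (Finset.univ : Finset (Idx P)).disjSum (∅ : Finset Unit) := by
    ext x
    rcases x with x | x <;> simp
  have hdom : ∀ (ε : ℝ) (_ : Unit), 0 < ε → Dom g r ε 1 (Finset.univ : Finset (Idx P))
      (ENNReal.ofReal (Fintype.card (Idx P) + 1 / (2 * β - g)) * C₀ ^ Fintype.card (Idx P))
      (Measure.dirac fun _ : Idx P => (0 : ℝ)) (mT Φ f₀ T' P ε ()) (fun _ _ => 0) (zT Φ ε P) := by
    intro ε _ hε
    have ha : 0 < 2 * β - g := by
      have := h.g_pos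
      have := h.g_le
      linarith
    have h1 := TreeGate302.dom_treeQ h.adm h.hf he hε ha P T'
    rw [show 2 * β - (2 * β - g) = g by ring] at h1
    exact h1
  have hJ : ∀ (ε : ℝ) (i : Unit), 0 < ε →
      Dom g r ε 2 ((Finset.univ : Finset (Idx P)).disjSum (∅ : Finset Unit))
      (ENNReal.ofReal (Fintype.card (Idx P) + 1 / (2 * β - g)) * C₀ ^ Fintype.card (Idx P) *
        ∑' n : ℕ, markW ρ K n)
      (prodΛ (Measure.dirac fun _ : Idx P => (0 : ℝ)) (lineΛ te))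
      ((mT Φ f₀ T' P ε i).prod (nL γ ρ K te ε i))
      (fun θ => X692.bx (fun _ : Idx P => (0 : ℝ)) θ.2.1.1)
      (fun θ => X692.zx (zT Φ ε P θ.1) (back θ.2.1)) := by
    intro ε i hε
    have := sf_mT (Φ := Φ) (f₀ := f₀) (T := T') P ε ()
    have := sf_nL (γ := γ) (ρ := ρ) (K := K) (te := te) ε ()
    exact Dom.prod he.meas (hdom ε i hε) (h.dom_L r K ε)
      (Fintype.card_pos_iff.2 ⟨root P⟩) le_rfl
  unfold JAlt
  rw [hA]
  refine badF_badGas (I := Unit) (m := fun ε i => (mT Φ f₀ T' P ε i).prod (nL γ ρ K te ε i))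
    hCN h.hf h.mass heg h.g_pos C N (s := 2) ?_
    ((Finset.univ : Finset (Idx P)).disjSum (∅ : Finset Unit))
    (c := ENNReal.ofReal (Fintype.card (Idx P) + 1 / (2 * β - g)) *
      C₀ ^ Fintype.card (Idx P) * ∑' n : ℕ, markW ρ K n)
    (ENNReal.mul_ne_top (ENNReal.mul_ne_top ENNReal.ofReal_ne_top (ENNReal.pow_ne_top he.fin))
      (sum_markW_ne_top h.mark K))
    (prodΛ (Measure.dirac fun _ : Idx P => (0 : ℝ)) (lineΛ te))
    (b := fun _ _ p => X692.bx (fun _ : Idx P => (0 : ℝ)) p.2.1.1)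
    (z := fun ε _ p => X692.zx (zT Φ ε P p.1) (back p.2.1))
    (fun ε i => ?_) hJ
  · have : 0 < Fintype.card (Idx P) := Fintype.card_pos_iff.2 ⟨root P⟩
    rw [Fintype.card_sum, Fintype.card_unit]
    omega
  · have := sf_mT (Φ := Φ) (f₀ := f₀) (T := T') P ε i
    have := sf_nL (γ := γ) (ρ := ρ) (K := K) (te := te) ε i
    infer_instance

end ingr

/-! ### The gateway for the alternatives of helper692, any set of lines -/

/-- **The gateway, one tree**, any horizons: tree `T'`, classes `T`, event `t`; `G` : guard. -/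
theorem fNull_of_alt (h : Ctx Φ f₀ β T' te g γ ρ) (P : CTree) (K₂ Km : ℕ) {t : ℝ} (hT : 0 < T)
    (hte : te ≤ T) (htT : t ≤ T) {G : ℝ → (m : ℕ) → PhasePoint × Par P → Config m → Prop}
    {lk : ℝ → (m : ℕ) → PhasePoint × Par P → Config m → Set ML}
    (hG : ∀ ε m z (w : Config m), G ε m z w → Adm Φ P z.1.2 z.2)
    {HS : ℕ → ℝ → (m : ℕ) → PhasePoint × Par P → Config m → Prop}
    {HX : ℕ → ℝ → (m : ℕ) → ML → Config m → Prop}
    {HJ : ℕ → ℝ → (m : ℕ) → (PhasePoint × Par P) × ML → Config m → Prop}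
    (hdet : ∀ L : ℕ, ∃ (N : ℕ) (C T₁ : ℝ), 0 ≤ T₁ ∧ ∀ R > 0, ∀ ς > 0, ∃ ε₁ : ℝ, 0 < ε₁ ∧
      ∀ ε : ℝ, 0 < ε → ε < ε₁ → ∀ n (z : PhasePoint × Par P) (x : ML) (w : Config n),
        w ∈ PairExcluded ε n → G ε n z w → x ∈ lk ε n z w →
        (SAlt Φ T T₁ t C R ς ε K₂ L N (Finset.univ : Finset (Idx P)) (fun _ => 0)
            (lines Φ ε P z.1 z.2) w ∨ HS L ε n z w) ∨
          (XAlt Φ T T₁ t C R ς ε K₂ L N x w ∨ HX L ε n x w) ∨
          (JAlt Φ T C R ς ε N (Finset.univ : Finset (Idx P)) (fun _ => 0)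
            (lines Φ ε P z.1 z.2) x w ∨ HJ L ε n (z, x) w))
    (hHS : ∀ L, GNull f₀ (mT Φ f₀ T' P) (fun ε _ n z w => HS L ε n z w))
    (hHX : ∀ L, GNull f₀ (nL γ ρ Km te) (fun ε _ n x w => HX L ε n x w))
    (hHJ : ∀ L, GNull f₀ (fun ε i => (mT Φ f₀ T' P ε i).prod (nL γ ρ Km te ε i))
      (fun ε _ n q w => HJ L ε n q w)) :
    FNull f₀ (mT Φ f₀ T' P) (fun ε _ n z w => if G ε n z w then
      min 1 (lineM γ ρ Km te (lk ε n z w)) else 0) := by
  have h2 : Ctx Φ f₀ β T te g γ ρ := h.hor hT.le hte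
  have hCN : VLMeas973.ClassNull Φ T := Gate973.classNull h.adm hT
  obtain ⟨M, hM, hmass⟩ := h.exists_mass P
  have h1 := fNull_cap_of_det (I := Unit) (m := mT Φ f₀ T' P) (ν := nL γ ρ Km te) h.hf (sf_mT P)
    sf_nL hM hmass
    (E := fun ε _ n z x w => G ε n z w ∧ x ∈ lk ε n z w)
    (RS := fun L ε _ _ z w => RunS Φ ε t K₂ L (fun _ => 0) (zT Φ ε P z) w)
    (HS := fun L ε _ n z w => HS L ε n z w)
    (RX := fun L ε _ _ l w => Run Φ ε t K₂ L (MW.line l) () w)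
    (HX := fun L ε _ n x w => HX L ε n x w)
    (HJ := fun L ε _ n q w => HJ L ε n q w)
    (fun L => ?_) (fun δ hδ => h2.run_S T' htT P K₂ hδ) (fun δ hδ => h2.run_X htT Km K₂ hδ)
    hHS hHX hHJ
  · refine h1.mono ⟨1, one_pos, fun ε _ _ i n z w _ => ?_⟩
    show (if G ε n z w then min 1 (lineM γ ρ Km te (lk ε n z w)) else 0) ≤ _
    split_ifs with hc
    · exact min_le_min le_rfl (measure_mono fun x hx => ⟨hc, hx⟩)
    · exact bot_le
  · obtain ⟨N, C, T₁, hT₁, hD⟩ := hdet L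
    refine ⟨_, _, _, h2.bad_S T' hCN hT₁ P C N, h2.bad_X hCN hT₁ Km C N, h2.bad_J T' hCN P Km C N,
      fun R hR ς hς => ?_⟩
    obtain ⟨ε₁, h0, hD⟩ := hD R hR ς hς
    refine ⟨ε₁, h0, fun ε hε hlt i n z x w hw hE => ?_⟩
    have hz : zT Φ ε P z = lines Φ ε P z.1 z.2 := linesM_of_adm ε (hG ε n z w hE.1)
    rcases hD ε hε hlt n z x w hw hE.1 hE.2 with (h4 | h4) | (h4 | h4) | (h4 | h4)
    · rcases h4 with h4 | h4
      · exact Or.inl (Or.inl (by rw [hz]; exact h4))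
      · exact Or.inl (Or.inr (Or.inl (by rw [hz]; exact h4)))
    · exact Or.inl (Or.inr (Or.inr h4))
    · rcases h4 with h4 | h4
      · exact Or.inr (Or.inl (Or.inl h4))
      · exact Or.inr (Or.inl (Or.inr (Or.inl h4)))
    · exact Or.inr (Or.inl (Or.inr (Or.inr h4)))
    · exact Or.inr (Or.inr (Or.inl (by rw [hz]; exact h4)))
    · exact Or.inr (Or.inr (Or.inr h4))

/-- **The gateway, all trees**, class horizon `T` and event horizon `t` arbitrary. -/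
theorem tsn_of_alt (h : Ctx Φ f₀ β T' te g γ ρ) (K K₂ Km : ℕ) {t : ℝ} (hT : 0 < T)
    (hte : te ≤ T) (htT : t ≤ T)
    {G : ℝ → (P : CTree) → PhasePoint × Par P → (m : ℕ) → Config m → Prop}
    {lk : ℝ → (P : CTree) → PhasePoint × Par P → (m : ℕ) → Config m → Set ML}
    (hG : ∀ ε P z m (w : Config m), G ε P z m w → Adm Φ P z.1.2 z.2)
    {HS : ℕ → ℝ → (P : CTree) → PhasePoint × Par P → (m : ℕ) → Config m → Prop}
    {HX : ℕ → ℝ → (m : ℕ) → ML → Config m → Prop}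
    {HJ : ℕ → ℝ → (P : CTree) → PhasePoint × Par P → (m : ℕ) → Config m → ML → Prop}
    (hdet : ∀ P : CTree, P.leaves ≤ K → ∀ L : ℕ, ∃ (N : ℕ) (C T₁ : ℝ), 0 ≤ T₁ ∧ ∀ R > 0, ∀ ς > 0,
      ∃ ε₁ : ℝ, 0 < ε₁ ∧ ∀ ε : ℝ, 0 < ε → ε < ε₁ →
        ∀ n (z : PhasePoint × Par P) (x : ML) (w : Config n),
        w ∈ PairExcluded ε n → G ε P z n w → x ∈ lk ε P z n w →
        (SAlt Φ T T₁ t C R ς ε K₂ L N (Finset.univ : Finset (Idx P)) (fun _ => 0)
            (lines Φ ε P z.1 z.2) w ∨ HS L ε P z n w) ∨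
          (XAlt Φ T T₁ t C R ς ε K₂ L N x w ∨ HX L ε n x w) ∨
          (JAlt Φ T C R ς ε N (Finset.univ : Finset (Idx P)) (fun _ => 0)
            (lines Φ ε P z.1 z.2) x w ∨ HJ L ε P z n w x))
    (hHS : ∀ P L, GNull f₀ (mT Φ f₀ T' P) (fun ε _ n z w => HS L ε P z n w))
    (hHX : ∀ L, GNull f₀ (nL γ ρ Km te) (fun ε _ n x w => HX L ε n x w))
    (hHJ : ∀ P L, GNull f₀ (fun ε i => (mT Φ f₀ T' P ε i).prod (nL γ ρ Km te ε i))
      (fun ε _ n q w => HJ L ε P q.1 n w q.2)) :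
    TSN Φ f₀ T' K (fun ε P z m w => if G ε P z m w then
      min 1 (lineM γ ρ Km te (lk ε P z m w)) else 0) :=
  tsn_of_fNull h.adm h.hf fun P hP =>
    fNull_of_alt h P K₂ Km hT hte htT (G := fun ε m z w => G ε P z m w)
      (lk := fun ε m z w => lk ε P z m w) (fun ε m z w hg => hG ε P z m w hg)
      (HS := fun L ε m z w => HS L ε P z m w) (HX := HX)
      (HJ := fun L ε m q w => HJ L ε P q.1 m w q.2) (hdet P hP) (hHS P) hHX (hHJ P)

/-! ### Almost every tree, line and gas -/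

theorem ac_mT (P : CTree) (ε : ℝ) (i : Unit) : mT Φ f₀ T P ε i ≪ volume :=
  (withDensity_absolutelyContinuous _ _).trans (withDensity_absolutelyContinuous _ _)

theorem ac_nL (ε : ℝ) (i : Unit) : nL γ ρ K te ε i ≪ lineV te :=
  withDensity_absolutelyContinuous _ _

instance : SFinite (lineV te) := by
  unfold lineV; infer_instance

/-- **Input** (helper663): the lines of the tree and an independent line can be inserted together
in the gas, and the world of the particles of the tree with the line is good, a.e. -/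
def OkXae (Φ : Space3 → ℝ) (T' te : ℝ) : Prop :=
  ∀ (P : CTree) (ε : ℝ), 0 < ε → ∀ n : ℕ,
    ∀ᵐ p : ((PhasePoint × Par P) × ML) × Config n ∂((volume.prod (lineV te)).prod volume),
      Valid Φ ε P T' p.1.1.1.2 p.1.1.2 → Sep Φ ε P T' p.1.1.1 p.1.1.2 →
        p.2 ∈ PairExcluded ε n → PerpT Φ ε P p.1.1 p.2 →
          MW.OkFam Φ ε (MW.cfg p.2) (withD (lineML Φ ε P p.1.1) p.1.2) ∧
            (((MW.cfg p.2).add (RealL811.treeW Φ ε P p.1.1)).add (MW.line p.1.2)).Ok Φ ε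

/-- The event `OkXae` is about. -/
def NOkX (Φ : Space3 → ℝ) (T' te : ℝ) (ε : ℝ) (P : CTree) {n : ℕ}
    (q : (PhasePoint × Par P) × ML) (w : Config n) : Prop :=
  Valid Φ ε P T' q.1.1.2 q.1.2 ∧ Sep Φ ε P T' q.1.1 q.1.2 ∧ PerpT Φ ε P q.1 w ∧
    (q.2.1.1 ∉ Ioc 0 te ∨ ¬ MW.OkFam Φ ε (MW.cfg w) (withD (lineML Φ ε P q.1) q.2) ∨
      ¬ (((MW.cfg w).add (RealL811.treeW Φ ε P q.1)).add (MW.line q.2)).Ok Φ ε)

theorem ae_birth : ∀ᵐ l : ML ∂(lineV te), l.1.1 ∈ Ioc (0 : ℝ) te := by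
  unfold lineV
  have h1 : ∀ᵐ τ : ℝ ∂(volume.restrict (Ioc (0 : ℝ) te)), τ ∈ Ioc (0 : ℝ) te :=
    ae_restrict_mem measurableSet_Ioc
  have h2 : ∀ᵐ y : ℝ × PhasePoint ∂((volume.restrict (Ioc (0 : ℝ) te)).prod volume),
      y.1 ∈ Ioc (0 : ℝ) te := Measure.quasiMeasurePreserving_fst.ae h1
  exact Measure.quasiMeasurePreserving_fst.ae h2

theorem gNull_okX (hf : Measurable f₀) (hX : OkXae Φ T' te) (P : CTree) :
    GNull f₀ (fun ε i => (mT Φ f₀ T' P ε i).prod (nL γ ρ K te ε i))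
      (fun ε _ _ q w => NOkX Φ T' te ε P q w) := by
  refine gNull_of_ae hf (fun ε i => ?_) fun ε i hε n => ?_
  · have := sf_mT (Φ := Φ) (f₀ := f₀) (T := T') P ε i
    have := sf_nL (γ := γ) (ρ := ρ) (K := K) (te := te) ε i
    infer_instance
  · have := sf_mT (Φ := Φ) (f₀ := f₀) (T := T') P ε i
    have := sf_nL (γ := γ) (ρ := ρ) (K := K) (te := te) ε i
    have hac : (((mT Φ f₀ T' P ε i).prod (nL γ ρ K te ε i)).prod (volume : Measure (Config n))) ≪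
        ((volume.prod (lineV te)).prod volume) :=
      ((ac_mT P ε i).prod (ac_nL ε i)).prod Measure.AbsolutelyContinuous.rfl
    have h1 := hac.ae_le (hX P ε hε n)
    have h2 : ∀ᵐ q : (PhasePoint × Par P) × ML ∂((mT Φ f₀ T' P ε i).prod (nL γ ρ K te ε i)),
        q.2.1.1 ∈ Ioc (0 : ℝ) te :=
      Measure.quasiMeasurePreserving_snd.ae ((ac_nL (γ := γ) (ρ := ρ) (K := K) ε i).ae_le ae_birth)
    have h3 : ∀ᵐ p : ((PhasePoint × Par P) × ML) × Config n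
        ∂(((mT Φ f₀ T' P ε i).prod (nL γ ρ K te ε i)).prod (volume : Measure (Config n))),
        p.1.2.1.1 ∈ Ioc (0 : ℝ) te := Measure.quasiMeasurePreserving_fst.ae h2
    filter_upwards [h1, h3] with p hp hb hw hN
    obtain ⟨hV, hS, hPe, hN⟩ := hN
    obtain ⟨h4, h5⟩ := hp hV hS hw hPe
    rcases hN with hN | hN | hN
    · exact hN hb
    · exact hN h4
    · exact hN h5

/-! ### Structure events -/

/-- Null tree events of helper302 are null functionals. -/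
theorem tsn_of_tNull {E : TEv} (hE : TNull Φ f₀ T' K E) :
    TSN Φ f₀ T' K (fun ε P z m w => if Valid Φ ε P T' z.1.2 z.2 ∧ Sep Φ ε P T' z.1 z.2 ∧
      E ε P z m w then 1 else 0) := by
  intro δ hδ
  obtain ⟨η, hη, hηδ⟩ : ∃ η : ℝ, 0 < η ∧ ENNReal.ofReal η ≤ δ := by
    rcases eq_or_ne δ ∞ with rfl | hne
    · exact ⟨1, one_pos, le_top⟩
    · exact ⟨δ.toReal, ENNReal.toReal_pos hδ.ne' hne, (ENNReal.ofReal_toReal hne).le⟩
  obtain ⟨ε₀, h0, h⟩ := hE η hη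
  refine ⟨ε₀, h0, fun ε hε hlt => ?_⟩
  obtain ⟨G, hG, hGi⟩ := h ε hε hlt
  refine ⟨G, hG.meas, fun P z m w hP hw => ?_, hGi.trans hηδ⟩
  show (if Valid Φ ε P T' z.1.2 z.2 ∧ Sep Φ ε P T' z.1 z.2 ∧ E ε P z m w then (1 : ℝ≥0∞) else 0) ≤ _
  split_ifs with hc
  · exact hG.maj P z m w hP hc.1 hc.2.1 hw hc.2.2
  · exact bot_le

theorem TSN.add (hΦ : AdmissiblePotential Φ) (hf : Measurable f₀)
    {F F' : ℝ → (P : CTree) → PhasePoint × Par P → (m : ℕ) → Config m → ℝ≥0∞}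
    (h : TSN Φ f₀ T' K F) (h' : TSN Φ f₀ T' K F') :
    TSN Φ f₀ T' K (fun ε P z m w => F ε P z m w + F' ε P z m w) := by
  intro δ hδ
  have hδ1 : 0 < min δ 1 / 2 := ENNReal.half_pos (lt_min hδ one_pos).ne'
  obtain ⟨ε₀, h0, h⟩ := h _ hδ1
  obtain ⟨ε₁, h1, h'⟩ := h' _ hδ1
  refine ⟨min ε₀ ε₁, lt_min h0 h1, fun ε hε hlt => ?_⟩
  obtain ⟨N, hN, hNF, hi⟩ := h ε hε (hlt.trans_le (min_le_left _ _))
  obtain ⟨N', hN', hNF', hi'⟩ := h' ε hε (hlt.trans_le (min_le_right _ _))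
  refine ⟨fun P z m w => N P z m w + N' P z m w, fun P m => (hN P m).add (hN' P m),
    fun P z m w hP hw => add_le_add (hNF P z m w hP hw) (hNF' P z m w hP hw), ?_⟩
  have h2 : TS Φ f₀ ε T' (fun P z m w => wQ Φ ε P z * (N P z m w + N' P z m w)) =
      TS Φ f₀ ε T' (fun P z m w => wQ Φ ε P z * N P z m w) +
        TS Φ f₀ ε T' (fun P z m w => wQ Φ ε P z * N' P z m w) := by
    rw [← InEq2.TS_add hΦ hf (RtG302.measTS_wQ hΦ hN)]
    simp only [mul_add]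
  rw [h2]
  calc _ ≤ min δ 1 / 2 + min δ 1 / 2 := add_le_add hi hi'
    _ = min δ 1 := ENNReal.add_halves _
    _ ≤ δ := min_le_left _ _

/-! ### The lines which are not good -/

/-- **Input** (helper692): the deterministic theorem. A line which is not good for a good tree
gives one of the alternatives. -/
def TLDet (Φ : Space3 → ℝ) (T' te : ℝ) : Prop :=
  ∀ (K : ℕ) (P : CTree), P.leaves ≤ K → ∃ (K₂ : ℕ) (t T : ℝ), 0 < T ∧ te ≤ T ∧ t ≤ T ∧
    ∀ L : ℕ, ∃ (N : ℕ) (C T₁ : ℝ), 0 ≤ T₁ ∧ ∀ R > 0, ∀ ς > 0, ∃ ε₁ : ℝ, 0 < ε₁ ∧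
      ∀ ε : ℝ, 0 < ε → ε < ε₁ → ∀ n (z : PhasePoint × Par P) (x : ML) (w : Config n),
        w ∈ PairExcluded ε n → Valid Φ ε P T' z.1.2 z.2 → Sep Φ ε P T' z.1 z.2 →
        PerpT Φ ε P z w → GoodT Φ ε K te P z w →
        MW.OkFam Φ ε (MW.cfg w) (withD (lineML Φ ε P z) x) →
        (((MW.cfg w).add (RealL811.treeW Φ ε P z)).add (MW.line x)).Ok Φ ε →
        x.1.1 ∈ Ioc 0 te → ¬ GoodX Φ ε K te P z w x →
        SAlt Φ T T₁ t C R ς ε K₂ L N (Finset.univ : Finset (Idx P)) (fun _ => 0)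
            (lines Φ ε P z.1 z.2) w ∨
          XAlt Φ T T₁ t C R ς ε K₂ L N x w ∨
          JAlt Φ T C R ς ε N (Finset.univ : Finset (Idx P)) (fun _ => 0)
            (lines Φ ε P z.1 z.2) x w

/-- The lines which are not good, all lines if the tree is not good. -/
def lkG (Φ : Space3 → ℝ) (te : ℝ) (K : ℕ) (ε : ℝ) (P : CTree) (z : PhasePoint × Par P) (m : ℕ)
    (w : Config m) : Set ML := {l | ¬ GoodT Φ ε K te P z w ∨ l ∈ lkX Φ ε K te P z w}

/-- The capped mass of the lines which are not good, on good trees. -/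
theorem tsn_lk (h : Ctx Φ f₀ β T' te g γ ρ) (hX : OkXae Φ T' te) (hD : TLDet Φ T' te) (K : ℕ) :
    TSN Φ f₀ T' K (fun ε P z m w => if Valid Φ ε P T' z.1.2 z.2 ∧ Sep Φ ε P T' z.1 z.2 ∧
      PerpT Φ ε P z w ∧ GoodT Φ ε K te P z w then
        min 1 (lineM γ ρ K te (lkX Φ ε K te P z w)) else 0) := by
  refine tsn_of_fNull h.adm h.hf fun P hP => ?_
  obtain ⟨K₂, t, T, hT, hte, htT, hD⟩ := hD K P hP
  refine (fNull_of_alt h P K₂ K hT hte htT
    (G := fun ε _ z w => Valid Φ ε P T' z.1.2 z.2 ∧ Sep Φ ε P T' z.1 z.2 ∧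
      PerpT Φ ε P z w ∧ GoodT Φ ε K te P z w)
    (lk := fun ε _ z w => lkX Φ ε K te P z w) (fun _ _ _ _ hg => hg.1.1)
    (HS := fun _ _ _ _ _ => False) (HX := fun _ _ _ _ _ => False)
    (HJ := fun _ ε _ q w => NOkX Φ T' te ε P q w) (fun L => ?_)
    (fun _ δ _ => (GLe.zero f₀ _).mono bot_le ⟨1, one_pos, fun _ _ _ _ _ _ _ _ h => h⟩)
    (fun _ δ _ => (GLe.zero f₀ _).mono bot_le ⟨1, one_pos, fun _ _ _ _ _ _ _ _ h => h⟩)
    (fun _ => gNull_okX h.hf hX P)).mono ⟨1, one_pos, fun ε _ _ i n z w _ => by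
      split_ifs
      · exact le_rfl
      · exact le_rfl⟩
  obtain ⟨N, C, T₁, hT₁, hD⟩ := hD L
  refine ⟨N, C, T₁, hT₁, fun R hR ς hς => ?_⟩
  obtain ⟨ε₁, h0, hD⟩ := hD R hR ς hς
  refine ⟨ε₁, h0, fun ε hε hlt n z x w hw hE hx => ?_⟩
  obtain ⟨hV, hS, hPe, hG⟩ := hE
  by_cases hN : NOkX Φ T' te ε P (z, x) w
  · exact Or.inr (Or.inr (Or.inr hN))
  · have h3 : x.1.1 ∈ Ioc 0 te ∧ MW.OkFam Φ ε (MW.cfg w) (withD (lineML Φ ε P z) x) ∧
        (((MW.cfg w).add (RealL811.treeW Φ ε P z)).add (MW.line x)).Ok Φ ε := by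
      by_contra hcon
      refine hN ⟨hV, hS, hPe, ?_⟩
      by_cases h4 : x.1.1 ∈ Ioc 0 te
      · by_cases h5 : MW.OkFam Φ ε (MW.cfg w) (withD (lineML Φ ε P z) x)
        · exact Or.inr (Or.inr fun h6 => hcon ⟨h4, h5, h6⟩)
        · exact Or.inr (Or.inl h5)
      · exact Or.inl h4
    rcases hD ε hε hlt n z x w hw hV hS hPe hG h3.2.1 h3.2.2 h3.1 hx with h4 | h4 | h4
    · exact Or.inl (Or.inl h4)
    · exact Or.inr (Or.inl (Or.inl h4))
    · exact Or.inr (Or.inr (Or.inl h4))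

/-- **The lines which are not good are null**, all lines if the tree is not good. -/
theorem tsn_lkG (h : Ctx Φ f₀ β T' te g γ ρ) (hX : OkXae Φ T' te) (hD : TLDet Φ T' te)
    (hG : TNull Φ f₀ T' K fun ε P z _ w => ¬ GoodT Φ ε K te P z w) :
    TSN Φ f₀ T' K (fun ε P z m w => if Valid Φ ε P T' z.1.2 z.2 ∧ Sep Φ ε P T' z.1 z.2 ∧
      PerpT Φ ε P z w then min 1 (lineM γ ρ K te (lkG Φ te K ε P z m w)) else 0) := by
  refine (TSN.add h.adm h.hf (tsn_of_tNull hG) (tsn_lk h hX hD K)).mono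
    ⟨1, one_pos, fun ε _ _ P z m w _ _ => ?_⟩
  by_cases h1 : Valid Φ ε P T' z.1.2 z.2 ∧ Sep Φ ε P T' z.1 z.2 ∧ PerpT Φ ε P z w
  · rw [if_pos h1]
    by_cases h2 : GoodT Φ ε K te P z w
    · rw [if_pos (show Valid Φ ε P T' z.1.2 z.2 ∧ Sep Φ ε P T' z.1 z.2 ∧
        PerpT Φ ε P z w ∧ GoodT Φ ε K te P z w from ⟨h1.1, h1.2.1, h1.2.2, h2⟩)]
      refine le_trans (min_le_min le_rfl (measure_mono ?_)) le_add_self
      rintro l (hl | hl)
      · exact absurd h2 hl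
      · exact hl
    · rw [if_pos (show Valid Φ ε P T' z.1.2 z.2 ∧ Sep Φ ε P T' z.1 z.2 ∧
        ¬ GoodT Φ ε K te P z w from ⟨h1.1, h1.2.1, h2⟩)]
      exact (min_le_left _ _).trans le_self_add
  · rw [if_neg h1]
    exact bot_le

/-- **The lines which are not good are null**, in the form of helper815. -/
theorem xNull_lkG (h : Ctx Φ f₀ β T' te g γ ρ) (hX : OkXae Φ T' te) (hD : TLDet Φ T' te)
    (hG : ∀ K, TNull Φ f₀ T' K fun ε P z _ w => ¬ GoodT Φ ε K te P z w) :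
    ErrAB815.XNull Φ f₀ T' te γ ρ (lkG Φ te) := by
  intro K δ hδ
  obtain ⟨ε₀, h0, h1⟩ := tsn_lkG h hX hD (hG K) (ENNReal.ofReal δ) (ENNReal.ofReal_pos.2 hδ)
  refine ⟨ε₀, h0, fun ε hε hlt => ?_⟩
  obtain ⟨N, hN, hle, hi⟩ := h1 ε hε hlt
  refine ⟨N, hN, fun P z m w hP hV hS hw hPe => ?_, hi⟩
  have h2 := hle P z m w hP hw
  simp only at h2
  rw [if_pos ⟨hV, hS, hPe⟩] at h2
  exact h2

/-- The same for `lkX`. -/
theorem tsn_lkX (h : Ctx Φ f₀ β T' te g γ ρ) (hX : OkXae Φ T' te) (hD : TLDet Φ T' te)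
    (hG : TNull Φ f₀ T' K fun ε P z _ w => ¬ GoodT Φ ε K te P z w) :
    TSN Φ f₀ T' K (fun ε P z m w => if Valid Φ ε P T' z.1.2 z.2 ∧ Sep Φ ε P T' z.1 z.2 ∧
      PerpT Φ ε P z w then min 1 (lineM γ ρ K te (lkX Φ ε K te P z w)) else 0) := by
  refine (tsn_lkG h hX hD hG).mono ⟨1, one_pos, fun ε _ _ P z _ w _ _ => ?_⟩
  split_ifs with h1
  · exact min_le_min le_rfl (measure_mono fun l hl => Or.inr hl)
  · exact le_rfl

end Crest.Agent.R122.TL311

end
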