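import Crest.Agent.R122.ErrSkel_815
import Crest.Agent.R122.TLBind_311

/-!
helper815, row 122: `TLNullIn` (null test lines at the tree horizon `T' = te`) from helper311's gateway.

* `ctx_of` : helper311's context from `KData` and the line parameters, any tree horizon `T' ≥ te`;
* `xNull_lkX` : helper335's `lkX` is null, from `OkXae` and `TLDet` at the same horizons;
* `tlNullIn_of` : the leaf `TLNullIn`.
-/

set_option autoImplicit false
set_option linter.unusedSectionVars false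

open MeasureTheory Set Filter
open scoped ENNReal Topology
open Crest.AnalysisR.Kinetic
open Crest.Agent.R122.Kin796 Crest.Agent.R122.Kin796.CTree Crest.Agent.R122.Tree674
open Crest.Agent.R122.EDefs602 Crest.Agent.R122.GC311 Crest.Agent.R122.Master566
open Crest.Agent.R122.InEq2 Crest.Agent.R122.InEq2T Crest.Agent.R122.Top602
open Crest.Agent.R122.TL311

noncomputable section

namespace Crest.Agent.R122.ErrAB815

open scoped Classical

variable {Φ : Space3 → ℝ} {f₀ : PhasePoint → ℝ} {f : ℝ → PhasePoint → ℝ} {β T : ℝ}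
  {γ : ℝ → ℝ} {ρ : ℝ≥0∞}

/-- helper311's context, tree horizon `T' ≥ te`. -/
theorem ctx_of (hD : KData Φ β T f₀ f) {g1 : ℝ} {r1 : ℝ≥0∞} (hl : LinePar g1 r1 T γ ρ)
    {te T' : ℝ} (hte : 0 ≤ te) (hT : te ≤ T) (hT' : te ≤ T') :
    ∃ g : ℝ, Ctx Φ f₀ β T' te g γ ρ := by
  obtain ⟨g0, κ, hκ, hγ, hpos, -⟩ := hl.lin
  refine ⟨min (g0 - κ * T) β, hD.adm, hD.contDiff.continuous, hD.gaussian,
    (FM167.lintegral_density_eq_one hD.nonneg hD.integrable hD.mass).le, hte.trans hT', hT',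
    lt_min hpos hD.beta_pos, min_le_right _ _, fun τ hτ => (min_le_left _ _).trans ?_,
    hl.measurable, (hl.hi.trans ENNReal.one_lt_top).ne⟩
  rw [hγ]
  have := mul_le_mul_of_nonneg_left (hτ.2.trans hT) hκ.le
  show g0 - κ * T ≤ g0 - κ * τ
  linarith

/-- **Null test lines**, any tree horizon `T' ≥ te`. -/
theorem xNull_lkX (hD : KData Φ β T f₀ f) {g1 : ℝ} {r1 : ℝ≥0∞} (hl : LinePar g1 r1 T γ ρ)
    {te T' : ℝ} (hte : 0 < te) (hT : te ≤ T) (hT' : te ≤ T') (hO : OkXae Φ T' te)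
    (hd : TLDet Φ T' te) : XNull Φ f₀ T' te γ ρ fun K ε P z _ w => lkX Φ ε K te P z w := by
  obtain ⟨g, h⟩ := ctx_of hD hl hte.le hT hT'
  refine (xNull_lkG h hO hd fun K => ?_).mono fun K ε hε P z m w _ _ _ _ _ =>
    measure_mono fun l hl => Or.inr hl
  exact LNRoot291.tNull_goodT hD.adm (by linarith [hD.beta_pos] : 0 < 2 * β)
    hD.contDiff.continuous hD.gaussian
    (FM167.lintegral_density_eq_one hD.nonneg hD.integrable hD.mass).le (hte.trans_le hT') hT'
    (LNTree399.ratR hD.adm K K)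

/-- **The leaf `TLNullIn`.** -/
theorem tlNullIn_of (hD : KData Φ β T f₀ f) (hO : ∀ te : ℝ, 0 < te → OkXae Φ te te)
    (hd : ∀ te : ℝ, 0 < te → TLDet Φ te te) : TLNullIn Φ f₀ T :=
  ⟨1, one_pos, 1, one_pos, 0, zero_lt_one, fun _ _ _ _ _ hl te hte hT =>
    xNull_lkX hD hl hte hT le_rfl (hO te hte) (hd te hte)⟩

end Crest.Agent.R122.ErrAB815

end
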