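import Crest.Agent.R122.LNTreeDef_399
import Crest.Agent.R122.BHPull_726
import Crest.Agent.R122.ForGate2_424
import Crest.Agent.R122.TreeGate_302
import Crest.Agent.R122.GateTree_522

/-!
# Row 122, bad hits of a tree are null (helper399)

* `badHitGas_of_hitT` : `HitT` gives `BH167.BadHitGas` for the leaves of the tree.
* `HitS` : `HitT` for a separated tree and good worlds; `gNull_hitS` (on 522's law of the tree),
  `gNull_hitS'` (on 302's law), `tNull_hitS`.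
-/

set_option autoImplicit false
set_option linter.unusedSectionVars false
open MeasureTheory Set Filter
open scoped Classical ENNReal Topology
open Crest.AnalysisR.Kinetic
open Crest.Agent.R122.GIV566 Crest.Agent.R122.VL581 Crest.Agent.R122.LN304
open Crest.Agent.R122.LNTree410 Crest.Agent.R122.PWInst442 Crest.Agent.R122.PWGlue491
open Crest.Agent.R122.LNPart424 Crest.Agent.R122.EDefs602 Crest.Agent.R122.TreeLines335
open Crest.Agent.R122.Kin796 Crest.Agent.R122.Kin796.CTree Crest.Agent.R122.Tree674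
open Crest.Agent.R122.RtG302 Crest.Agent.R122.BH167 Crest.Agent.R122.Gate424

noncomputable section

namespace Crest.Agent.R122.LNTree399

variable {Φ : Space3 → ℝ} {f₀ : PhasePoint → ℝ} {ε t T c : ℝ} {n N K : ℕ} {P : CTree}
  {z : PhasePoint × Par P} {w : Config n}

theorem Sp_inl (i : Fin n) : Sp (fun _ : Unit => eT n P) (Sum.inl i) = ∅ :=
  Sp_empty fun _ => inl_not_mem i

theorem HitW.pos {ι : Type} [Fintype ι] {W : MW ι} {f : ι ↪ Fin n ⊕ Idx P}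
    (h : HitW Φ t c ε N z w W f) : 0 < t := by
  obtain ⟨G, A, j, k, v, -, -, -, -, -, -, hv, -⟩ := h
  exact hv.1.trans_le hv.2

/-- Bad hits of a glued world over the gas and a tree. -/
theorem badHitGas_of_hitW (hΦ : AdmissiblePotential Φ) (hε : 0 < ε) (htT : t ≤ T) (hc : 1 ≤ c)
    (hV : Valid Φ ε P t z.1.2 z.2) (hS : Sep Φ ε P t z.1 z.2) (hw : w ∈ PairExcluded ε n)
    {ι : Type} [Fintype ι] {W : MW ι} {f : ι ↪ Fin n ⊕ Idx P}
    (H : Glue (Mt Φ t ε n P) (Zt Φ ε w z) (fun _ : Unit => P) (fun _ => z) (fun _ => eT n P) W f)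
    (h : HitW Φ t c ε N z w W f) :
    BadHitGas (BPos Φ T) Φ T c 1 ε N N 1 (Finset.univ : Finset (Idx P)) (fun _ => 0)
      (Tree674.lines Φ ε P z.1 z.2) w := by
  have ht : 0 < t := h.pos
  have hgd := H.gd hΦ hε ht
  exact Chain726.badHitGas_of_badHit hΦ hε htT le_rfl (by linarith : T < T + 1) sparts
    (parts hΦ hε hc hV hS hw) hgd (fun i => Sp_inl i) h

/-- **Bad hits of a tree.** -/
theorem badHitGas_of_hitT (hΦ : AdmissiblePotential Φ) (hε : 0 < ε) (htT : t ≤ T) (hc : 1 ≤ c)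
    (hV : Valid Φ ε P t z.1.2 z.2) (hS : Sep Φ ε P t z.1 z.2) (hw : w ∈ PairExcluded ε n)
    (hok : AllOk Φ ε w (exL Φ ε P z)) (h : HitT Φ t c ε N z w) :
    BadHitGas (BPos Φ T) Φ T c 1 ε N N 1 (Finset.univ : Finset (Idx P)) (fun _ => 0)
      (Tree674.lines Φ ε P z.1 z.2) w := by
  rcases h with h | ⟨x, hx, h⟩
  · exact badHitGas_of_hitW hΦ hε htT hc hV hS hw (glue_cfg hV hS (MW.OkFam.base hΦ hε hok)) h
  · exact badHitGas_of_hitW hΦ hε htT hc hV hS hw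
      (glue_ins hV hS x (MW.OkFam.line hΦ hε hok ⟨x, hx⟩)) h

/-- `HitT` for a separated tree and good worlds. -/
def HitS (Φ : Space3 → ℝ) (t c ε : ℝ) (N : ℕ) {n : ℕ} {P : CTree} (z : PhasePoint × Par P)
    (w : Config n) : Prop :=
  Sep Φ ε P t z.1 z.2 ∧ AllOk Φ ε w (exL Φ ε P z) ∧ HitT Φ t c ε N z w

/-- **Bad hits of trees are null**, law of helper302. -/
theorem gNull_hitS' (hΦ : AdmissiblePotential Φ) {γ : ℝ} (hγ : 0 < γ) (hf : Measurable f₀)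
    (h1 : ∫⁻ z, ENNReal.ofReal (f₀ z) ≤ 1) {ρ : Space3 → ℝ≥0∞} {C₀ : ℝ≥0∞}
    (he : LN2.Env f₀ γ ρ C₀) (hc : 1 ≤ c) (P : CTree) (t : ℝ) (N : ℕ) :
    GNull (I := Unit) f₀ (fun ε _ => TreeGate302.treeQ Φ f₀ ε P t)
      (fun ε _ n z w => Valid Φ ε P t z.1.2 z.2 ∧ HitS Φ t c ε N z w) := by
  by_cases ht : 0 ≤ t
  swap
  · refine fun δ _ => ⟨1, one_pos, fun ε _ _ _ => ⟨fun _ _ => 0, fun _ => measurable_const, ?_, ?_⟩⟩
    · rintro n z w - ⟨-, -, -, h | ⟨x, -, h⟩⟩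
      · exact absurd h.pos.le ht
      · exact absurd h.pos.le ht
    · unfold GC311.gcE
      simp
  have ha : 0 < γ / 2 := by positivity
  have he' : LN2.Env f₀ (γ - γ / 2) ρ C₀ := ⟨he.meas, he.le_one, he.int, he.fin, fun z =>
    (he.le z).trans (mul_le_mul_right (mul_le_mul_right (LN2.wG_anti (by linarith) z.2) _) _)⟩
  have hs : 1 ≤ Fintype.card (Idx P) := Fintype.card_pos_iff.2 ⟨root P⟩
  have h2 := gNull_badHit (I := Unit) (m := fun ε _ => TreeGate302.treeQ Φ f₀ ε P t)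
    (κ := Idx P) (T := t) hΦ ht hf h1 he' (by linarith) hs Finset.univ
    (c := ENNReal.ofReal (Fintype.card (Idx P) + 1 / (γ / 2)) * C₀ ^ Fintype.card (Idx P))
    (ENNReal.mul_ne_top ENNReal.ofReal_ne_top (ENNReal.pow_ne_top he.fin))
    (Measure.dirac fun _ : Idx P => (0 : ℝ)) (b := fun _ _ _ _ => 0)
    (z := fun ε _ z => linesM Φ ε P z.1 z.2) (fun ε _ => inferInstance)
    (fun ε _ hε => TreeGate302.dom_treeQ hΦ hf he hε ha P t) c 1 N N
  refine fun δ hδ => (h2 δ hδ).mono le_rfl ⟨1, one_pos, ?_⟩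
  rintro ε hε - - n z w hw ⟨hV, hS, hok, h⟩
  rw [linesM_of_adm ε hV.1]
  exact badHitGas_of_hitT hΦ hε le_rfl hc hV hS hw hok h

/-- **Bad hits of trees are null**, law of helper522. -/
theorem gNull_hitS (hΦ : AdmissiblePotential Φ) {γ : ℝ} (hγ : 0 < γ) (hf : Measurable f₀)
    (h1 : ∫⁻ z, ENNReal.ofReal (f₀ z) ≤ 1) {ρ : Space3 → ℝ≥0∞} {C₀ : ℝ≥0∞}
    (he : LN2.Env f₀ γ ρ C₀) (hc : 1 ≤ c) (P : CTree) (t : ℝ) (N : ℕ) :
    GNull (I := Unit) f₀ (fun ε _ => GateT522.treeQ Φ f₀ ε P t)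
      (fun ε _ n z w => Valid Φ ε P t z.1.2 z.2 ∧ HitS Φ t c ε N z w) :=
  gNull_hitS' hΦ hγ hf h1 he hc P t N

/-- **Bad hits of trees are null**, sums over trees. -/
theorem tNull_hitS (hΦ : AdmissiblePotential Φ) {γ : ℝ} (hγ : 0 < γ) (hf : Measurable f₀)
    (h1 : ∫⁻ z, ENNReal.ofReal (f₀ z) ≤ 1) {ρ : Space3 → ℝ≥0∞} {C₀ : ℝ≥0∞}
    (he : LN2.Env f₀ γ ρ C₀) (hc : 1 ≤ c) (K : ℕ) (t : ℝ) (N : ℕ) :
    TNull Φ f₀ t K fun ε P z m w => HitS Φ t c ε N z w := by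
  intro δ hδ
  have h2 : (0 : ℝ≥0∞) < ENNReal.ofReal δ := ENNReal.ofReal_pos.2 hδ
  obtain ⟨δ', hδ', hle⟩ := TreeGate302.exists_div (GIVStep383.trees K).card h2
  exact (TreeGate302.tLe_of_gLe hΦ hf (E := fun ε P z m w => HitS Φ t c ε N z w) fun P _ =>
    (gNull_hitS' hΦ hγ hf h1 he hc P t N δ' hδ').mono le_rfl
      ⟨1, one_pos, fun ε _ _ _ n z w _ h => ⟨h.1, h.2.2⟩⟩).mono hle
    ⟨1, one_pos, fun _ _ _ _ _ _ _ _ _ _ _ h => h⟩

end Crest.Agent.R122.LNTree399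

end
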