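import Crest.Agent.R122.F3RAT_370
import Crest.Agent.R122.LNTreeHit_399
import Crest.Agent.R122.TopI_602

/-!
# `Top602.ErrIn` (row 122, helper370)

* `hitPN` : the bad hits of trees are null, unconditional (167, 416, 350, 726, 399).
* `errIn_of_rat` : `ErrIn` from `RAT`, `LinkNull`, `RetNullT`, `OkNull`.
* `errIn_of_treeFacts` : `ErrIn` from `RAT` and `TreeFacts`.
-/

set_option autoImplicit false
set_option linter.unusedSectionVars false
open MeasureTheory Set Filter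
open scoped Classical ENNReal Topology
open Crest.AnalysisR.Kinetic
open Crest.Agent.R122.RtG302 Crest.Agent.R122.EDefs602 Crest.Agent.R122.LNTree399
open Crest.Agent.R122.CEReach370 Crest.Agent.R122.F3RAT370
open Crest.Agent.R122.Master566 Crest.Agent.R122.Top602
noncomputable section

namespace Crest.Agent.R122.ErrIn370

variable {Φ : Space3 → ℝ} {f₀ : PhasePoint → ℝ} {f : ℝ → PhasePoint → ℝ} {β T t : ℝ}

/-- **The bad hits of trees are null.** -/
theorem hitPN (hΦ : AdmissiblePotential Φ) {γ : ℝ} (hγ : 0 < γ) (hf : Measurable f₀)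
    (H : HasSummableGaussianBound γ (fun x v => f₀ (x, v)))
    (h1 : ∫⁻ z, ENNReal.ofReal (f₀ z) ≤ 1) (t : ℝ) : HitPN Φ f₀ t := by
  obtain ⟨ρ, C₀, he⟩ := LN2.exists_env (le_refl γ) H
  intro P N δ hδ
  refine pMaj_of_gLe hΦ hf ((gNull_hitS hΦ hγ hf h1 he le_rfl P t N _
    (ENNReal.ofReal_pos.2 hδ)).mono le_rfl ⟨1, one_pos, fun ε _ _ i n z w _ h => ?_⟩)
  exact ⟨h.2.1, h.2.2⟩

/-- **`ErrIn`** from the tree instance of LN1 and the null facts at `(t, t)`. -/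
theorem errIn_of_rat (hD : KData Φ β T f₀ f) (hRAT : ∀ t ∈ Ioc 0 T, ∀ K K₂, RAT Φ t K K₂)
    (h2 : ∀ t ∈ Ioc 0 T, ∀ K K', LinkNull Φ f₀ t t K K')
    (h3 : ∀ t ∈ Ioc 0 T, ∀ K K', RetNullT Φ f₀ t t K K')
    (h4 : ∀ t ∈ Ioc 0 T, ∀ K, OkNull Φ f₀ t K) : ErrIn Φ f₀ f T := by
  have hβ := hD.beta_pos
  have hmass : ∫⁻ z, ENNReal.ofReal (f₀ z) ≤ 1 :=
    (FM167.lintegral_density_eq_one hD.nonneg hD.integrable hD.mass).le
  exact errIn_of hD hRAT (fun t _ => hitPN hD.adm (by linarith : (0 : ℝ) < 2 * β)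
    hD.contDiff.continuous.measurable hD.gaussian hmass t) h2 h3 h4

/-- **`ErrIn`** from the tree instance of LN1 and `TreeFacts`. -/
theorem errIn_of_treeFacts (hD : KData Φ β T f₀ f) (hTF : TreeFacts Φ f₀)
    (hRAT : ∀ t ∈ Ioc 0 T, ∀ K K₂, RAT Φ t K K₂) : ErrIn Φ f₀ f T :=
  errIn_of_rat hD hRAT (fun t ht => hTF.link t t ht.1.le le_rfl)
    (fun t ht => hTF.ret t t ht.1.le le_rfl) fun t ht => hTF.ok t ht.1.le

end Crest.Agent.R122.ErrIn370
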