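import Crest.Agent.R122.RealA_811
import Crest.Agent.R122.InEq2TPt_335
import Crest.Agent.R122.LineMeas_994

/-!
# Row 122 (helper823): measurability of the real history of a tree

* `measurableSet_treeIn` : for a random world `W`, a random tree `z`, a random horizon `v`, the event
  `Valid ∧ TreeIn Φ ε W P z e v` (helper811's `RealL811.TreeIn`) is measurable.
* `tiS` : the leaves of the tree, inserted in the gas `w`, follow the tree up to `te`, no contact with
  others before their release times; `measurableSet_tiS`.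
-/

set_option autoImplicit false

open MeasureTheory Set Filter Topology
open Crest.AnalysisR.Kinetic
open Crest.Agent.R122.Kin796 Crest.Agent.R122.Kin796.CTree Crest.Agent.R122.Tree674
open Crest.Agent.R122.EDefs602 Crest.Agent.R122.MeasE416 Crest.Agent.R122.GC311
open Crest.Agent.R122.TreeLines335 (rel)

namespace Crest.Agent.R122.TreeInM823

noncomputable section

variable {Ω : Type*} [MeasurableSpace Ω] {α : Type} [Fintype α] {Φ : Space3 → ℝ} {ε : ℝ}
  {P : CTree}

/-- Two continuous functions agree on `[0, b]` iff they agree at the clamped rationals. -/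
theorem forall_Icc_iff {X : Type*} [TopologicalSpace X] [T2Space X] {f g : ℝ → X}
    (hf : Continuous f) (hg : Continuous g) (b : ℝ) :
    (∀ u, 0 ≤ u → u ≤ b → f u = g u) ↔
      (0 ≤ b → ∀ q : ℚ, f (max 0 (min q b)) = g (max 0 (min q b))) := by
  constructor
  · intro h hb q
    exact h _ (le_max_left _ _) (max_le hb (min_le_right _ _))
  · intro h u h0 hu
    have hb : 0 ≤ b := h0.trans hu
    have hc : Continuous fun s : ℝ => max 0 (min s b) := by fun_prop
    have h1 : IsClosed {s : ℝ | f (max 0 (min s b)) = g (max 0 (min s b))} :=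
      isClosed_eq (hf.comp hc) (hg.comp hc)
    have h2 : range ((↑) : ℚ → ℝ) ⊆ {s : ℝ | f (max 0 (min s b)) = g (max 0 (min s b))} := by
      rintro _ ⟨q, rfl⟩
      exact h hb q
    have h3 := h1.closure_subset_iff.2 h2
    rw [Rat.denseRange_cast.closure_range] at h3
    have h4 : u ∈ {s : ℝ | f (max 0 (min s b)) = g (max 0 (min s b))} := h3 (mem_univ u)
    have h5 : max 0 (min u b) = u := by rw [min_eq_left hu, max_eq_right h0]
    have h6 : f (max 0 (min u b)) = g (max 0 (min u b)) := h4
    rwa [h5] at h6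

/-- **The real history of a tree is a measurable event.** -/
theorem measurableSet_treeIn (hΦ : AdmissiblePotential Φ) (hε : 0 < ε) {W : Ω → MW α}
    (hW : MeasW W) {z : Ω → PhasePoint × Par P} (hz : Measurable z) (e : Idx P → α) {v : Ω → ℝ}
    (hv : Measurable v) (T' : ℝ) :
    MeasurableSet {ω | Valid Φ ε P T' (z ω).1.2 (z ω).2 ∧
      RealL811.TreeIn Φ ε (W ω) P (z ω) e (v ω)} := by
  classical
  have hVm : MeasurableSet {ω | Valid Φ ε P T' (z ω).1.2 (z ω).2} :=
    hz (measurableSet_valid hΦ ε P T')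
  have hrel : ∀ k, Measurable fun ω => rel P (z ω).2 k := fun k =>
    (LineMeas994.measurable_rel P k).comp (measurable_snd.comp hz)
  have hb : ∀ k, Measurable fun ω => min (v ω) (rel P (z ω).2 k) := fun k => hv.min (hrel k)
  -- agreement at a clamped rational
  have hA : ∀ (k : Idx P) (q : ℚ), MeasurableSet {ω | 0 ≤ min (v ω) (rel P (z ω).2 k) →
      (W ω).path Φ ε (max 0 (min q (min (v ω) (rel P (z ω).2 k)))) (e k) =
        pathM Φ ε P (max 0 (min q (min (v ω) (rel P (z ω).2 k)))) (z ω).1 (z ω).2 k} := by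
    intro k q
    have ht : Measurable fun ω => max 0 (min (q : ℝ) (min (v ω) (rel P (z ω).2 k))) :=
      measurable_const.max (measurable_const.min (hb k))
    have h1 := hW.path_apply hΦ hε ht (e k)
    have h2 : Measurable fun ω =>
        pathM Φ ε P (max 0 (min q (min (v ω) (rel P (z ω).2 k)))) (z ω).1 (z ω).2 k :=
      (measurable_pi_apply k).comp ((measurable_pathM hΦ ε P).comp (ht.prodMk hz))
    have h3 := measurableSet_eq_fun h1 h2
    have h4 : MeasurableSet {ω | 0 ≤ min (v ω) (rel P (z ω).2 k)} :=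
      measurableSet_le measurable_const (hb k)
    have e1 : {ω | 0 ≤ min (v ω) (rel P (z ω).2 k) →
      (W ω).path Φ ε (max 0 (min q (min (v ω) (rel P (z ω).2 k)))) (e k) =
        pathM Φ ε P (max 0 (min q (min (v ω) (rel P (z ω).2 k)))) (z ω).1 (z ω).2 k} =
        {ω | 0 ≤ min (v ω) (rel P (z ω).2 k)}ᶜ ∪
        {ω | (W ω).path Φ ε (max 0 (min q (min (v ω) (rel P (z ω).2 k)))) (e k) =
        pathM Φ ε P (max 0 (min q (min (v ω) (rel P (z ω).2 k)))) (z ω).1 (z ω).2 k} := by
      ext ω
      simp only [mem_union, mem_compl_iff, mem_ofPred_eq]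
      tauto
    rw [e1]
    exact h4.compl.union h3
  -- contacts with others
  have hC : ∀ (k : Idx P) (j : α), MeasurableSet {ω | ∃ s ∈ Icc 0 (min (v ω) (rel P (z ω).2 k)),
      (W ω).C Φ ε s (e k) j ∧ ∀ m : Idx P, e m = j → rel P (z ω).2 m < s} := by
    intro k j
    have h1 : RSE fun ω s => ∀ m : Idx P, e m = j → rel P (z ω).2 m < s := by
      refine RSE.forall_finite fun m => ?_
      by_cases hm : e m = j
      · exact (RSE.lt_time (hrel m)).congr fun ω s => by simp [hm]
      · exact (RSE.const' True).congr fun ω s => by simp [hm]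
    exact ((hW.C hΦ hε (e k) j).and h1).existsIcc measurable_const (hb k)
  have key : {ω | Valid Φ ε P T' (z ω).1.2 (z ω).2 ∧ RealL811.TreeIn Φ ε (W ω) P (z ω) e (v ω)} =
      {ω | Valid Φ ε P T' (z ω).1.2 (z ω).2} ∩ ({_ω | Function.Injective e} ∩
        ((⋂ k, {ω | (W ω).b (e k) = 0}) ∩ ((⋂ k, {ω | (W ω).m (e k) = 1}) ∩
        ((⋂ k, ⋂ q : ℚ, {ω | 0 ≤ min (v ω) (rel P (z ω).2 k) →
          (W ω).path Φ ε (max 0 (min q (min (v ω) (rel P (z ω).2 k)))) (e k) =
          pathM Φ ε P (max 0 (min q (min (v ω) (rel P (z ω).2 k)))) (z ω).1 (z ω).2 k}) ∩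
        (⋂ k, ⋂ j, {ω | ∃ s ∈ Icc 0 (min (v ω) (rel P (z ω).2 k)),
          (W ω).C Φ ε s (e k) j ∧ ∀ m : Idx P, e m = j → rel P (z ω).2 m < s}ᶜ))))) := by
    ext ω
    simp only [mem_inter_iff, mem_iInter, mem_ofPred_eq, mem_compl_iff]
    constructor
    · rintro ⟨hV, h⟩
      refine ⟨hV, h.inj, h.born, h.one, fun k q h0 => ?_, fun k j hx => ?_⟩
      · rw [pathM_of_adm hΦ ε _ hV.1]
        refine h.agree k _ (le_max_left _ _) ?_ ?_
        · exact max_le (h0.trans (min_le_left _ _)) ((min_le_right _ _).trans (min_le_left _ _))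
        · exact max_le (h0.trans (min_le_right _ _)) ((min_le_right _ _).trans (min_le_right _ _))
      · obtain ⟨s, hs, hc, hm⟩ := hx
        obtain ⟨m, hm1, hm2⟩ := h.sealed k s j hs.1 (hs.2.trans (min_le_left _ _))
          (hs.2.trans (min_le_right _ _)) hc
        exact absurd (hm m hm1) (not_lt.2 hm2)
    · rintro ⟨hV, hi, hb, h1, hag, hcl⟩
      refine ⟨hV, ⟨hi, hb, h1, fun k u h0 h2 h3 => ?_, fun k u j h0 h2 h3 hc => ?_⟩⟩
      · have hf : Continuous fun u => (W ω).path Φ ε u (e k) :=
          (continuous_apply (e k)).comp (continuous_evo hΦ hε (W ω).b 0 (W ω).z)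
        have hg : Continuous fun u => path Φ ε P (z ω).1 (z ω).2 u k :=
          (continuous_apply k).comp (Tree674.continuous_path hΦ hε hV)
        refine (forall_Icc_iff hf hg (min (v ω) (rel P (z ω).2 k))).2 (fun hb0 q => ?_) u h0
          (le_min h2 h3)
        have h4 := hag k q hb0
        rwa [pathM_of_adm hΦ ε _ hV.1] at h4
      · by_contra hno
        push Not at hno
        exact hcl k j ⟨u, ⟨h0, le_min h2 h3⟩, hc, fun m hm => hno m hm⟩
  rw [key]
  refine hVm.inter ((MeasurableSet.const _).inter ((MeasurableSet.iInter fun k => ?_).inter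
    ((MeasurableSet.iInter fun k => ?_).inter ((MeasurableSet.iInter fun k =>
      MeasurableSet.iInter fun q => hA k q).inter (MeasurableSet.iInter fun k =>
        MeasurableSet.iInter fun j => (hC k j).compl)))))
  · exact measurableSet_eq_fun (hW.b (e k)) measurable_const
  · exact measurableSet_eq_fun (hW.m (e k)) measurable_const

/-! ## The indicator of the spread terms -/

/-- The leaves of the tree, inserted in the gas `w`, follow the tree up to their release times,
without contact with others, up to the horizon `te`. -/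
def tiS (Φ : Space3 → ℝ) (ε te : ℝ) (P : CTree) (z : PhasePoint × Par P) {m : ℕ}
    (w : Config m) : Prop :=
  RealL811.TreeIn Φ ε ((MW.cfg w).add (RealL811.treeW Φ ε P z)) P z Sum.inr te

theorem treeW_eq {P : CTree} {z : PhasePoint × Par P} (hV : Adm Φ P z.1.2 z.2) :
    InEq2T.treeW Φ ε P z = RealL811.treeW Φ ε P z := by
  unfold InEq2T.treeW RealL811.treeW
  rw [linesM_of_adm ε hV]

/-- **`tiS` is measurable on the valid trees.** -/
theorem measurableSet_tiS (hΦ : AdmissiblePotential Φ) (hε : 0 < ε) (P : CTree) (te T' : ℝ)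
    (m : ℕ) : MeasurableSet {q : (PhasePoint × Par P) × Config m |
      Valid Φ ε P T' q.1.1.2 q.1.2 ∧ tiS Φ ε te P q.1 q.2} := by
  have hW : MeasW fun q : (PhasePoint × Par P) × Config m =>
      (MW.cfg q.2).add (InEq2T.treeW Φ ε P q.1) :=
    (MeasW.cfg measurable_snd).add ((InEq2T.measW_treeW hΦ ε P).comp measurable_fst)
  have h := measurableSet_treeIn hΦ hε hW (z := fun q : (PhasePoint × Par P) × Config m => q.1)
    measurable_fst Sum.inr (v := fun _ => te) measurable_const T'
  have e1 : {q : (PhasePoint × Par P) × Config m |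
      Valid Φ ε P T' q.1.1.2 q.1.2 ∧ tiS Φ ε te P q.1 q.2} =
      {q : (PhasePoint × Par P) × Config m | Valid Φ ε P T' q.1.1.2 q.1.2 ∧
        RealL811.TreeIn Φ ε ((MW.cfg q.2).add (InEq2T.treeW Φ ε P q.1)) P q.1 Sum.inr te} := by
    ext q
    simp only [mem_ofPred_eq]
    constructor
    · rintro ⟨h1, h2⟩
      refine ⟨h1, ?_⟩
      rw [treeW_eq h1.1]
      exact h2
    · rintro ⟨h1, h2⟩
      refine ⟨h1, ?_⟩
      rw [treeW_eq h1.1] at h2
      exact h2
  rw [e1]
  exact h

/-- The same over the whole gas. -/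
theorem measurableSet_tiS_sigma (hΦ : AdmissiblePotential Φ) (hε : 0 < ε) (P : CTree)
    (te T' : ℝ) : MeasurableSet {q : (Σ n : ℕ, Config n) × (PhasePoint × Par P) |
      Valid Φ ε P T' q.2.1.2 q.2.2 ∧ tiS Φ ε te P q.2 q.1.2} := by
  refine measurableSet_setOfPred.2 (Q1815.measurable_sigma_prod fun n => measurableSet_setOfPred.1 ?_)
  exact measurable_swap (measurableSet_tiS hΦ hε P te T' n)

end

end Crest.Agent.R122.TreeInM823
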