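import Crest.Agent.R122.R6Tree_974
import Crest.Agent.R122.TreeInMeas_823

/-!
# The good set of the term (A) (row 122, HOLE 4), helper994

* `Gt Φ ε te T' P w z` : the tree is valid (horizon `T'`) and its leaves, inserted in the gas `w`,
  follow the tree up to `te` (helper823's `tiS`).
* `measurableSet_Gt` : it is measurable.
* `Gt.of_real6` : it holds on helper292's structure `Real6`.
-/

set_option autoImplicit false

open MeasureTheory Set Filter
open scoped ENNReal Topology
open Crest.AnalysisR.Kinetic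
open Crest.Agent.R122.Kin796 Crest.Agent.R122.Kin796.CTree Crest.Agent.R122.Tree674
open Crest.Agent.R122.EDefs602 Crest.Agent.R122.TreeLines335
open Crest.Agent.R122.Boost969 (LSt posAt)
open Crest.Agent.R122.Pair292 (Lab PPar PX shM)
open Crest.Agent.R122.PairD292

namespace Crest.Agent.R122.H5994

noncomputable section

open scoped Classical

/-- **The good set of the term (A)**: a valid tree whose leaves, inserted in the gas, follow the tree
up to `te`. -/
def Gt (Φ : Space3 → ℝ) (ε te T' : ℝ) (P : CTree) (w : Σ n : ℕ, Config n)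
    (z : PhasePoint × Par P) : Prop :=
  Valid Φ ε P T' z.1.2 z.2 ∧ TreeInM823.tiS Φ ε te P z w.2

theorem measurableSet_Gt {Φ : Space3 → ℝ} {ε : ℝ} (hΦ : AdmissiblePotential Φ) (hε : 0 < ε)
    (te T' : ℝ) (P : CTree) :
    MeasurableSet {q : (Σ n : ℕ, Config n) × (PhasePoint × Par P) | Gt Φ ε te T' P q.1 q.2} :=
  TreeInM823.measurableSet_tiS_sigma hΦ hε P te T'

theorem Gt.of_real6 {Φ : Space3 → ℝ} {ε te T' : ℝ} {K : ℕ} {P : CTree}
    {z : PhasePoint × Par P} {m : ℕ} {w : Config m} {θ : Lab × LSt}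
    (hΦ : AdmissiblePotential Φ) (hε : 0 < ε) (h : Real6 Φ ε K te T' P z w θ) :
    Gt Φ ε te T' P ⟨m, w⟩ z :=
  ⟨h.valid, R6Tree974.R6.rl1 hΦ hε h te⟩

end

end Crest.Agent.R122.H5994
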