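import Crest.Agent.R122.OneCDefs_285
import Crest.Agent.R122.BadHit_370
import Crest.Agent.R122.MeasEDefs_416

/-!
# The pair measure `nu0` of the one-contact structures (row 122, H1/H4)

* `entT_lineAt`, `entB_lineAt`, `oneLs_lineAt` : contact data of the line `lineAt`.
* `oneLsM` : measurable version of the lines of a structure (equal on admissible trees).
* `strM` : structure measure on `(z, l)`; `nu0` : law of the ordered pairs (exit, other line) of the
  structures with at most `m₀` leaves, test line born at time `0` with Gaussian rate `γ (te)`.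
* `osp_le` : `OSP (dirac τ) ≤ PE nu0` for every birth time `τ ∈ (0, te]`.
-/

set_option autoImplicit false
set_option maxHeartbeats 400000
set_option linter.unusedSectionVars false

open MeasureTheory Set Filter
open scoped ENNReal Classical Topology
open Crest.AnalysisR.Kinetic
open Crest.Agent.R122.Kin796 Crest.Agent.R122.Kin796.CTree Crest.Agent.R122.Tree674
open Crest.Agent.R122.GC311 Crest.Agent.R122.EDefs602 Crest.Agent.R122.TreeLines335
open Crest.Agent.R122.OneC285 Crest.Agent.R122.Disc416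

noncomputable section

namespace Crest.Agent.R122.Nu0566

variable {Φ : Space3 → ℝ} {f₀ : PhasePoint → ℝ} {ε : ℝ} {K : ℕ} {P : CTree}

/-! ### Contact data of the line `lineAt` -/

theorem relL_lineAt (ε s τ : ℝ) (ℓ : PhasePoint) (v b : Space3) (n : ℕ) :
    OneC423.relL ℓ (OneC423.lineAt ε s ℓ τ v b n).1 =
      (ε • entrancePoint b (v - ℓ.2) - s • (v - ℓ.2), v - ℓ.2) := by
  unfold OneC423.relL OneC423.lineAt back
  refine Prod.ext ?_ rfl
  simp only [sub_smul, smul_sub]
  abel

theorem inner_zero_of_mem {b g : Space3} (hb : b ∈ impactDisc g) : inner ℝ b g = 0 := hb.1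

theorem relL_eq_add (hε : 0 < ε) {b g : Space3} (hg : g ≠ 0) (s : ℝ) :
    ε • entrancePoint b g - s • g =
      ε • b + (-(s + ε * Real.sqrt (1 - ‖b‖ ^ 2) / ‖g‖)) • g := by
  unfold entrancePoint
  rw [smul_sub, smul_smul, neg_smul, add_smul, mul_div_assoc]
  abel

theorem tline_add {b g : Space3} (hb : inner ℝ b g = 0) (hg : g ≠ 0) (r : ℝ) :
    Flux663.tline (ε • b + r • g, g) = r := by
  have : ‖g‖ ^ 2 ≠ 0 := by positivity
  unfold Flux663.tline
  simp only [inner_add_left, inner_smul_left, real_inner_self_eq_norm_sq, hb,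
    conj_trivial, mul_zero, zero_add]
  exact mul_div_cancel_right₀ r this

theorem bline_add {b g : Space3} (hb : inner ℝ b g = 0) (hg : g ≠ 0) (r : ℝ) :
    Flux663.bline (ε • b + r • g, g) = ε • b := by
  unfold Flux663.bline
  rw [tline_add hb hg]
  simp

theorem entT_add (hε : 0 < ε) {b g : Space3} (hb : inner ℝ b g = 0) (hg : g ≠ 0) (s : ℝ) :
    OC663.entT ε (ε • entrancePoint b g - s • g, g) = s := by
  rw [relL_eq_add hε hg]
  unfold OC663.entT
  rw [tline_add hb hg, bline_add hb hg]
  have h1 : ε ^ 2 - ‖ε • b‖ ^ 2 = ε ^ 2 * (1 - ‖b‖ ^ 2) := by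
    rw [norm_smul, Real.norm_eq_abs, abs_of_pos hε]
    ring
  simp only [h1]
  rw [Real.sqrt_mul (by positivity), Real.sqrt_sq hε.le]
  ring

theorem entB_add (hε : 0 < ε) {b g : Space3} (hb : inner ℝ b g = 0) (hg : g ≠ 0) (s : ℝ) :
    OC663.entB ε (ε • entrancePoint b g - s • g, g) = b := by
  rw [relL_eq_add hε hg]
  unfold OC663.entB
  rw [bline_add hb hg, smul_smul, inv_mul_cancel₀ hε.ne', one_smul]

theorem cT_lineAt (hε : 0 < ε) (z : PhasePoint × Par P) (s τ : ℝ) {v b : Space3} (n : ℕ)
    (hb : b ∈ impactDisc (v - z.1.2)) (hg : v - z.1.2 ≠ 0) :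
    cT ε z (OneC423.lineAt ε s z.1 τ v b n) = s := by
  unfold cT
  rw [relL_lineAt]
  exact entT_add hε hb.1 hg s

theorem cB_lineAt (hε : 0 < ε) (z : PhasePoint × Par P) (s τ : ℝ) {v b : Space3} (n : ℕ)
    (hb : b ∈ impactDisc (v - z.1.2)) (hg : v - z.1.2 ≠ 0) :
    cB ε z (OneC423.lineAt ε s z.1 τ v b n) = b := by
  unfold cB
  rw [relL_lineAt]
  exact entB_add hε hb.1 hg s

theorem cD_lineAt (hε : 0 < ε) (z : PhasePoint × Par P) (s τ : ℝ) {v b : Space3} (n : ℕ)
    (hb : b ∈ impactDisc (v - z.1.2)) (hg : v - z.1.2 ≠ 0) :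
    cD ε z (OneC423.lineAt ε s z.1 τ v b n) = (v, z.1.2, b) := by
  unfold cD
  rw [cB_lineAt hε z s τ n hb hg]
  rfl

theorem cX_lineAt (hε : 0 < ε) (z : PhasePoint × Par P) (s τ : ℝ) {v b : Space3} (n : ℕ)
    (hb : b ∈ impactDisc (v - z.1.2)) (hg : v - z.1.2 ≠ 0) :
    cX ε z (OneC423.lineAt ε s z.1 τ v b n) = z.1.1 + s • z.1.2 := by
  unfold cX
  rw [cT_lineAt hε z s τ n hb hg]

/-- The lines of a structure as functions of the contact data. -/
def oneD (Φ : Space3 → ℝ) (ε : ℝ) (P : CTree) (z : PhasePoint × Par P) (s : ℝ)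
    (c : OCout796.CD) (n : ℕ) : Idx P ⊕ Bool → ML
  | Sum.inl i => if i = root P then
      (OCout796.lineC Φ ε s (z.1.1 + s • z.1.2) c, P.leaves) else lineML Φ ε P z i
  | Sum.inr false => (OCout796.lineL' Φ ε s (z.1.1 + s • z.1.2) c, n + P.leaves)
  | Sum.inr true => (OCout796.lineC' Φ ε s (z.1.1 + s • z.1.2) c, n + P.leaves)

theorem oneLs_lineAt (hε : 0 < ε) (z : PhasePoint × Par P) (s τ : ℝ) {v b : Space3} (n : ℕ)
    (hb : b ∈ impactDisc (v - z.1.2)) (hg : v - z.1.2 ≠ 0) (x : Idx P ⊕ Bool) :
    oneLs Φ ε P z (OneC423.lineAt ε s z.1 τ v b n) x = oneD Φ ε P z s (v, z.1.2, b) n x := by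
  have h1 := cT_lineAt hε z s τ n hb hg
  have h2 := cX_lineAt hε z s τ n hb hg
  have h3 := cD_lineAt hε z s τ n hb hg
  rcases x with i | b'
  · simp only [oneLs, oneD, h1, h2, h3]
  · cases b' <;> simp only [oneLs, oneD, h1, h2, h3] <;> rfl

/-! ### Measurability -/

theorem measurable_cT (ε : ℝ) (P : CTree) :
    Measurable fun q : (PhasePoint × Par P) × ML => cT ε q.1 q.2 := by
  unfold cT
  exact (OC663.measurable_entT ε).comp (OneC423.measurable_relL.comp
    (f := fun q : (PhasePoint × Par P) × ML => (q.1.1, q.2.1))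
    ((measurable_fst.comp measurable_fst).prodMk (measurable_fst.comp measurable_snd)))

theorem measurable_cB (ε : ℝ) (P : CTree) :
    Measurable fun q : (PhasePoint × Par P) × ML => cB ε q.1 q.2 := by
  unfold cB
  exact (OC663.measurable_entB ε).comp (OneC423.measurable_relL.comp
    (f := fun q : (PhasePoint × Par P) × ML => (q.1.1, q.2.1))
    ((measurable_fst.comp measurable_fst).prodMk (measurable_fst.comp measurable_snd)))

theorem measurable_cD (ε : ℝ) (P : CTree) :
    Measurable fun q : (PhasePoint × Par P) × ML => cD ε q.1 q.2 := by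
  unfold cD
  exact (measurable_snd.comp (measurable_snd.comp (measurable_fst.comp measurable_snd))).prodMk
    ((measurable_snd.comp (measurable_fst.comp measurable_fst)).prodMk (measurable_cB ε P))

theorem measurable_cX (ε : ℝ) (P : CTree) :
    Measurable fun q : (PhasePoint × Par P) × ML => cX ε q.1 q.2 := by
  unfold cX
  exact (measurable_fst.comp (measurable_fst.comp measurable_fst)).add
    ((measurable_cT ε P).smul (measurable_snd.comp (measurable_fst.comp measurable_fst)))

theorem measurable_lineC (hΦ : AdmissiblePotential Φ) (ε : ℝ) :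
    Measurable fun q : ℝ × (Space3 × OCout796.CD) => OCout796.lineC Φ ε q.1 q.2.1 q.2.2 := by
  unfold OCout796.lineC
  have hT : Measurable fun q : ℝ × (Space3 × OCout796.CD) => OCout796.outT Φ ε q.2.2 :=
    (OCout796.measurable_outT hΦ ε).comp (measurable_snd.comp measurable_snd)
  have hu : Measurable fun q : ℝ × (Space3 × OCout796.CD) => q.2.2.2.1 := by fun_prop
  exact (measurable_fst.add hT).prodMk
    (((measurable_fst.comp measurable_snd).add (hT.smul hu)).prodMk hu)

theorem measurable_lineL' (hΦ : AdmissiblePotential Φ) (ε : ℝ) :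
    Measurable fun q : ℝ × (Space3 × OCout796.CD) => OCout796.lineL' Φ ε q.1 q.2.1 q.2.2 := by
  unfold OCout796.lineL'
  have hc : Measurable fun q : ℝ × (Space3 × OCout796.CD) => q.2.2 := by fun_prop
  have hT := (OCout796.measurable_outT hΦ ε).comp hc
  have hCM := (OCout796.measurable_outCM hΦ ε).comp hc
  have hE := (OCout796.measurable_exB hΦ).comp hc
  have hv := OCout796.measurable_cmvel.comp hc
  exact (measurable_fst.add hT).prodMk
    (((measurable_fst.comp measurable_snd).add (hCM.add (hE.fst.const_smul (ε / 2)))).prodMk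
      (hv.add (hE.snd.const_smul (1 / 2 : ℝ))))

theorem measurable_lineC' (hΦ : AdmissiblePotential Φ) (ε : ℝ) :
    Measurable fun q : ℝ × (Space3 × OCout796.CD) => OCout796.lineC' Φ ε q.1 q.2.1 q.2.2 := by
  unfold OCout796.lineC'
  have hc : Measurable fun q : ℝ × (Space3 × OCout796.CD) => q.2.2 := by fun_prop
  have hT := (OCout796.measurable_outT hΦ ε).comp hc
  have hCM := (OCout796.measurable_outCM hΦ ε).comp hc
  have hE := (OCout796.measurable_exB hΦ).comp hc
  have hv := OCout796.measurable_cmvel.comp hc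
  exact (measurable_fst.add hT).prodMk
    (((measurable_fst.comp measurable_snd).add (hCM.sub (hE.fst.const_smul (ε / 2)))).prodMk
      (hv.sub (hE.snd.const_smul (1 / 2 : ℝ))))

/-- Measurable version of the lines of a structure. -/
def oneLsM (Φ : Space3 → ℝ) (ε : ℝ) (P : CTree) (z : PhasePoint × Par P) (l : ML) :
    Idx P ⊕ Bool → ML
  | Sum.inl i => if i = root P then
      (OCout796.lineC Φ ε (cT ε z l) (cX ε z l) (cD ε z l), P.leaves) else
        LineMeas994.lineMM Φ ε P z i
  | Sum.inr false => (OCout796.lineL' Φ ε (cT ε z l) (cX ε z l) (cD ε z l), l.2 + P.leaves)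
  | Sum.inr true => (OCout796.lineC' Φ ε (cT ε z l) (cX ε z l) (cD ε z l), l.2 + P.leaves)

theorem oneLsM_of_adm {z : PhasePoint × Par P} (h : Adm Φ P z.1.2 z.2) (l : ML)
    (x : Idx P ⊕ Bool) : oneLsM Φ ε P z l x = oneLs Φ ε P z l x := by
  rcases x with i | b'
  · simp only [oneLsM, oneLs, LineMeas994.lineMM_of_adm ε h i]
  · cases b' <;> rfl

theorem measurable_oneLsM (hΦ : AdmissiblePotential Φ) (ε : ℝ) (P : CTree) (x : Idx P ⊕ Bool) :
    Measurable fun q : (PhasePoint × Par P) × ML => oneLsM Φ ε P q.1 q.2 x := by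
  have hd : Measurable fun q : (PhasePoint × Par P) × ML =>
      ((cT ε q.1 q.2, (cX ε q.1 q.2, cD ε q.1 q.2)) : ℝ × (Space3 × OCout796.CD)) :=
    (measurable_cT ε P).prodMk ((measurable_cX ε P).prodMk (measurable_cD ε P))
  have hn : Measurable fun q : (PhasePoint × Par P) × ML => q.2.2 + P.leaves :=
    (measurable_snd.comp measurable_snd).add_const _
  rcases x with i | b'
  · by_cases hi : i = root P
    · simp only [oneLsM, if_pos hi]
      exact ((measurable_lineC hΦ ε).comp hd).prodMk measurable_const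
    · simp only [oneLsM, if_neg hi]
      exact (LineMeas994.measurable_lineMM hΦ ε P i).comp measurable_fst
  · cases b'
    · simp only [oneLsM]
      exact ((measurable_lineL' hΦ ε).comp hd).prodMk hn
    · simp only [oneLsM]
      exact ((measurable_lineC' hΦ ε).comp hd).prodMk hn

end Crest.Agent.R122.Nu0566

end
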