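import Crest.Agent.R122.Q1Data_815
import Crest.Agent.R122.KinL1_263
import Crest.Agent.R122.TreeLines_335

/-!
helper815, row 122, block Q (quenched densities), part 9: `x`-integrated tails.

* `D0_int_tsum_le` : `∑ P, ∫ dℓ D0 P ≤ M₁ M` (263's `KinM`);
* `gcE_Dw_sum_le` : `gcE ∑_{P ∈ S} ∫ Dw P ≤ ∑ err + ∑ ∫ D0`;
* `small_time` : **ghost tails**: weights of total kinetic mass `a K → 0`, supported on trees with at
  most `N K` leaves: `gcE ∑' P, ∫ dℓ Dw P` is small;
* `hS_le_rel`, `unhitInd_rel_le` : the protected tubes (ended at the release times) are longer than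
  the hidden tubes.
-/

set_option autoImplicit false

open MeasureTheory Set Filter
open scoped ENNReal Topology Classical
open Crest.AnalysisR.Kinetic Crest.Agent.R122.Kin796 Crest.Agent.R122.Disc416
  Crest.Agent.R122.Kin416 Crest.Agent.R122.Tree674
  Crest.Agent.R122.Scat818 Crest.Agent.R122.TreeF399 Crest.Agent.R122.TreeEps399
  Crest.Agent.R122.Hid424 Crest.Agent.R122.Quench815 Crest.Agent.R122.QDens815
  Crest.Agent.R122.GC311 Crest.Agent.R122.EDefs602

noncomputable section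

namespace Crest.Agent.R122.Q1815

open CTree

variable {Φ : Space3 → ℝ} {f₀ : PhasePoint → ℝ} {f : ℝ → PhasePoint → ℝ} {β T : ℝ}

/-! ### Release times -/

theorem rel_inl (l r : CTree) (p : Par (node l r)) (i : Idx l) :
    TreeLines335.rel (node l r) p (Sum.inl i) = prot l p.1.1 p.2.1 i := by
  by_cases hi : i = root l
  · subst hi
    simp only [TreeLines335.rel, Sum.elim_inl, if_pos]
    have : ∀ (Q : CTree) (s : ℝ) (q : Par Q), prot Q s q (root Q) = s := by
      intro Q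
      induction Q with
      | leaf => intro s q; rfl
      | node a b iha ihb => intro s q; exact iha s q.2.1
    rw [this]
  · simp only [TreeLines335.rel, Sum.elim_inl, if_neg hi]
    exact TreeLines335.rel_eq_prot l p.1.1 p.2.1 i hi

theorem rel_inr (l r : CTree) (p : Par (node l r)) (i : Idx r) :
    TreeLines335.rel (node l r) p (Sum.inr i) = prot r p.1.1 p.2.2 i := by
  by_cases hi : i = root r
  · subst hi
    simp only [TreeLines335.rel, Sum.elim_inr, if_pos]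
    have : ∀ (Q : CTree) (s : ℝ) (q : Par Q), prot Q s q (root Q) = s := by
      intro Q
      induction Q with
      | leaf => intro s q; rfl
      | node a b iha ihb => intro s q; exact iha s q.2.1
    rw [this]
  · simp only [TreeLines335.rel, Sum.elim_inr, if_neg hi]
    exact TreeLines335.rel_eq_prot r p.1.1 p.2.2 i hi

/-- the hidden tubes end before the release times -/
theorem hS_le_rel : ∀ (P : CTree) {T : ℝ} (v : Space3) (p : Par P) (_ : Valid Φ 0 P T v p)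
    (i : Idx P), hS Φ P v p i ≤ TreeLines335.rel P p i
  | leaf, T, v, p, _, i => by
      show (-1 : ℝ) ≤ 0
      norm_num
  | node l r, T, v, p, hV, i => by
      have hl := hV.2.2.2.1
      have hr := hV.2.2.2.2
      have h0 : 0 < Tree674.sin Φ 0 v p.1 := hV.2.2.1
      have hs : Tree674.sin Φ 0 v p.1 = p.1.1 := sin_zero v p.1
      rw [hs] at hl hr h0
      rcases i with i | i
      · rw [rel_inl]
        simp only [hS, Sum.elim_inl]
        split_ifs with h
        · have hl' : Valid Φ 0 l p.1.1 v p.2.1 := by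
            have := hV.1.2.1
            rw [h] at this hl
            exact ⟨this, hl⟩
          exact hS_le_prot l (by linarith) v p.2.1 hl' i
        · exact le_rfl
      · rw [rel_inr]
        simp only [hS, Sum.elim_inr]
        split_ifs with h
        · have hr' : Valid Φ 0 r p.1.1 v p.2.2 := by
            have := hV.1.2.2
            rw [h] at this hr
            exact ⟨this, hr⟩
          exact hS_le_prot r (by linarith) v p.2.2 hr' i
        · exact le_rfl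

/-- longer tubes are hit more often -/
theorem unhitInd_anti {ι : Type} {c : ι → ℝ → Space3} {b b' : ι → ℝ} (h : ∀ i, b i ≤ b' i)
    (ε t : ℝ) {κ : Type*} [Fintype κ] (w : κ → PhasePoint) :
    GIV566.unhitInd Φ ε (⟨c, b'⟩ : GIV566.Tubes ι) t w ≤
      GIV566.unhitInd Φ ε (⟨c, b⟩ : GIV566.Tubes ι) t w := by
  unfold GIV566.unhitInd
  by_cases h1 : GIV566.unhit Φ ε (⟨c, b'⟩ : GIV566.Tubes ι) t w
  · rw [if_pos h1, if_pos]
    intro i j s hs
    exact h1 i j s ⟨hs.1, hs.2.trans (min_le_min_right t (h i))⟩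
  · rw [if_neg h1]
    exact bot_le

/-- protected tubes ended at the release times against hidden tubes -/
theorem unhitInd_rel_le {ε : ℝ} (hε : 0 ≤ ε) {P : CTree} {s : ℝ} {ℓ : PhasePoint} {p : Par P}
    (hV : Valid Φ ε P s ℓ.2 p) (t : ℝ) {κ : Type*} [Fintype κ] (w : κ → PhasePoint) :
    GIV566.unhitInd Φ ε (⟨curve Φ ε P ℓ p, TreeLines335.rel P p⟩ : GIV566.Tubes (Idx P)) t w ≤
      GIV566.unhitInd Φ ε (hid Φ ε P ℓ p) t w :=
  unhitInd_anti (fun i => hS_le_rel P ℓ.2 p (valid_mono hε le_rfl hV) i) ε t w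

/-! ### The `x`-integrated kinetic bound -/

theorem D0_int_tsum_le (hΦ : AdmissiblePotential Φ) (hβ : 0 < β) (hT : 0 < T)
    (hf : IsRegularKineticSolution Φ β T f₀ f) {h₀ kap lam b M : ℝ}
    (hK : KinL1.KinM Φ T f h₀ kap lam b M) {φ : ∀ P : CTree, ℝ × PhasePoint × Par P → ℝ≥0∞}
    {M₁ : ℝ≥0∞} (hM : M₁ ≠ ∞) {tw s : ℝ} (htw : tw ∈ Icc 0 T) (hs : s ∈ Icc 0 (tw + h₀))
    (hφ : ∀ P ℓ p, Adm Φ P ℓ.2 p → φ P (s, ℓ, p) ≤ M₁ * ENNReal.ofReal lam ^ P.size *
      ENNReal.ofReal (Real.exp (kap * Seg814.eng Φ P ℓ.2 p))) :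
    ∑' P, ∫⁻ ℓ : PhasePoint, D0 Φ f₀ f T P (φ P) tw s ℓ ≤ M₁ * ENNReal.ofReal M := by
  refine le_trans (ENNReal.tsum_le_tsum fun P => ?_) (hK.weightS hΦ hf hM
    (phi := fun P ℓ p => M₁ * ENNReal.ofReal lam ^ P.size *
      ENNReal.ofReal (Real.exp (kap * Seg814.eng Φ P ℓ.2 p))) (fun P ℓ p => le_rfl) htw hs).2
  refine le_trans (lintegral_mono fun ℓ => ?_) (KinL1.drop_gau hK.2.2.2.1.le)
  show D0 Φ f₀ f T P (φ P) tw s ℓ ≤ _
  rw [D0_eq hβ hT hf htw.1]
  refine lintegral_mono fun p => ?_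
  by_cases hV : Valid Φ 0 P s ℓ.2 p
  · exact mul_le_mul_left (hφ P ℓ p hV.1) _
  · have h0 : Seg814.wS Φ T f tw P s (ℓ.1 + s • ℓ.2) ℓ.2 p = 0 := by
      unfold Seg814.wS
      exact indicator_of_notMem (show p ∉ {p | Valid Φ 0 P s ℓ.2 p} from hV) _
    rw [h0, mul_zero]
    exact bot_le

variable {T₀ tw : ℝ}

/-- total quenched mass against total kinetic mass -/
theorem gcE_Dw_sum_le (X : Ctx Φ β T f₀ f T₀ tw) {t : ℝ} (S : Finset CTree)
    {φ : ∀ P : CTree, ℝ × PhasePoint × Par P → ℝ≥0∞} (hφ : ∀ P ∈ S, Measurable (φ P))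
    {ε : ℝ} (hε : 0 < ε) :
    gcE f₀ ε (fun _ w => ∑ P ∈ S, ∫⁻ ℓ : PhasePoint, Dw Φ f₀ P (φ P) ε tw t ℓ w) ≤
      (∑ P ∈ S, ∫⁻ ℓ : PhasePoint, D0 Φ f₀ f T P (φ P) tw t ℓ) +
        ∑ P ∈ S, err Φ f₀ f T P (φ P) (Measure.dirac t) tw ε := by
  have h1 := gcE_adversary_sum (f₀ := f₀) X.cont.measurable ε (volume : Measure PhasePoint) S
    (D := fun P n w ℓ => Dw Φ f₀ P (φ P) ε tw t ℓ w)
    (fun P hP n => (measurable_Dw_n X.hΦ X.cont.measurable (hφ P hP) hε tw n).comp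
      (f := fun q : Config n × PhasePoint => (q.1, (t, q.2))) (by fun_prop))
    (E := fun P ℓ => D0 Φ f₀ f T P (φ P) tw t ℓ)
    (fun P hP => (measurable_D0 X.hΦ X.hβ X.hT X.sol X.htw.1 (hφ P hP)).comp
      (f := fun ℓ : PhasePoint => (t, ℓ)) measurable_prodMk_left)
    (Θ := fun P n w ℓ => 1) (fun P _ n w ℓ => le_rfl)
  simp only [mul_one] at h1
  refine h1.trans (add_le_add ?_ (le_of_eq ?_))
  · by_cases hc : ∑ P ∈ S, ∫⁻ ℓ : PhasePoint, D0 Φ f₀ f T P (φ P) tw t ℓ = ∞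
    · rw [hc]; exact le_top
    · rw [gcE_const f₀ ε X.cont.measurable X.mass hc]
  · simp only [err_dirac]

/-- **Ghost tails.** -/
theorem small_time (X : Ctx Φ β T f₀ f T₀ tw) {h₀ kap lam b M : ℝ}
    (hK : KinL1.KinM Φ T f h₀ kap lam b M) {t : ℝ} (ht : t ∈ Icc 0 (tw + h₀)) (htT : t ≤ T₀)
    {φ : ℕ → ∀ P : CTree, ℝ × PhasePoint × Par P → ℝ≥0∞} {N : ℕ → ℕ}
    (hφ : ∀ K P, Wgt Φ β P (φ K P) T₀)
    {a : ℕ → ℝ≥0∞} (hat : ∀ K, a K ≠ ∞) (ha : Tendsto a atTop (𝓝 0))
    (hφM : ∀ K P ℓ p, P.leaves ≤ N K → Adm Φ P ℓ.2 p → φ K P (t, ℓ, p) ≤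
      a K * ENNReal.ofReal lam ^ P.size *
      ENNReal.ofReal (Real.exp (kap * Seg814.eng Φ P ℓ.2 p))) :
    Small fun K ε => gcE f₀ ε fun _ w => ∑ P ∈ GIVStep383.trees (N K), ∫⁻ ℓ : PhasePoint,
      Dw Φ f₀ P (φ K P) ε tw t ℓ w := by
  have hκ : ∀ᵐ s ∂(Measure.dirac t : Measure ℝ), s ≤ T₀ :=
    (ae_dirac_iff measurableSet_Iic).2 htT
  have h1 : Null fun K ε => ∑ P ∈ GIVStep383.trees (N K),
      err Φ f₀ f T P (φ K P) (Measure.dirac t) tw ε := by
    rw [null_iff_tendsto]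
    intro K
    exact tendsto_err_sum X hκ _ fun P _ => hφ K P
  have h2 : Small fun K (_ : ℝ) => a K * ENNReal.ofReal M := by
    refine Small.of_tendsto ?_
    have := ENNReal.Tendsto.mul_const (b := ENNReal.ofReal M) ha
      (Or.inr ENNReal.ofReal_ne_top)
    rwa [zero_mul] at this
  refine Small.mono (h2.add h1.small) fun K ε hε => ?_
  refine (gcE_Dw_sum_le X _ (fun P _ => (hφ K P).meas) hε).trans (add_le_add ?_ le_rfl)
  have h3 := D0_int_tsum_le X.hΦ X.hβ X.hT X.sol hK (hat K) X.htw ht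
    (φ := fun P q => if P.leaves ≤ N K then φ K P q else 0) (fun P ℓ p ha' => by
      by_cases hP : P.leaves ≤ N K
      · simp only [if_pos hP]
        exact hφM K P ℓ p hP ha'
      · simp only [if_neg hP]
        exact bot_le)
  refine le_trans ?_ h3
  refine le_trans (le_of_eq ?_) (ENNReal.sum_le_tsum (GIVStep383.trees (N K)))
  refine Finset.sum_congr rfl fun P hP => ?_
  simp only [if_pos (GIVStep383.mem_trees.1 hP)]

end Crest.Agent.R122.Q1815

end
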