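import Crest.Agent.R122.PairDefs_292
import Crest.Agent.R122.Q1Tail_815
import Crest.Agent.R122.Nu0_566

/-!
# Inequality 3 of section E (row 122, board H4), helper292: structure integrals in root coordinates

* `rootL_eq_rootAt`, `cT_rootL`, `cX_rootL`, `cD_rootL` : contact data of the root line `rootL ε e c`;
* `OS2_le_root` : the structure integral `OS2` against the quenched root densities `Dw` of helper815
  in the planar contact coordinates `cInt` of `PairFlux_292`.
-/

set_option autoImplicit false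
set_option linter.unusedSectionVars false
set_option maxHeartbeats 400000

open MeasureTheory Set Filter
open scoped ENNReal Classical Topology
open Crest.AnalysisR.Kinetic
open Crest.Agent.R122.Kin796 Crest.Agent.R122.Kin796.CTree Crest.Agent.R122.Tree674
open Crest.Agent.R122.Relabel674 Crest.Agent.R122.GC311 Crest.Agent.R122.Flow671
open Crest.Agent.R122.EDefs602 Crest.Agent.R122.TreeLines335
open Crest.Agent.R122.Boost969 (LSt posAt)
open Crest.Agent.R122.Pair292 hiding ML
open Crest.Agent.R122.OneC285 (cfT rt cT cB cD cX lpos uI ptube RF MeasRF rfl4)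
open Crest.Agent.R122.Q1815 Crest.Agent.R122.QDens815 Crest.Agent.R122.Disc416

noncomputable section

namespace Crest.Agent.R122.PairD292

variable {Φ : Space3 → ℝ} {f₀ : PhasePoint → ℝ} {ε te T' tw : ℝ} {K : ℕ}

/-! ## Contact data of the root line `rootL` -/

theorem rootL_eq_rootAt (ε : ℝ) (e : LSt) (c : CDat) :
    rootL ε e c = OneC423.rootAt ε c.1 e c.2.1 (frameMap (e.2.2 - c.2.1) c.2.2) := by
  unfold rootL xC bC posAt OneC423.rootAt
  rfl

theorem relL_rootL (ε : ℝ) (e : LSt) (c : CDat) :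
    OneC423.relL (rootL ε e c) e =
      (ε • entrancePoint (frameMap (e.2.2 - c.2.1) c.2.2) (e.2.2 - c.2.1) -
        c.1 • (e.2.2 - c.2.1), e.2.2 - c.2.1) := by
  rw [rootL_eq_rootAt]
  unfold OneC423.relL OneC423.rootAt back
  refine Prod.ext ?_ rfl
  simp only [sub_smul, smul_sub]
  abel

theorem frameMap_mem {g : Space3} (hg : g ≠ 0) {y : Disc416.Plane} (hy : ‖y‖ < 1) :
    frameMap g y ∈ impactDisc g := by
  have h := preimage_impactDisc hg
  have h2 : y ∈ frameMap g ⁻¹' impactDisc g := by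
    rw [h]
    simpa [Metric.mem_ball, dist_zero_right] using hy
  exact h2

section coords

variable {P : CTree} {p : Par P} {e : ML} {c : CDat} (hε : 0 < ε)
  (hg : e.1.2.2 - c.2.1 ≠ 0) (hy : ‖c.2.2‖ < 1)

include hε hg hy

theorem cT_rootL : cT ε (rootL ε e.1 c, p) e = c.1 := by
  unfold cT
  rw [relL_rootL]
  exact Nu0566.entT_add hε (frameMap_mem hg hy).1 hg c.1

theorem cB_rootL : cB ε (rootL ε e.1 c, p) e = frameMap (e.1.2.2 - c.2.1) c.2.2 := by
  unfold cB
  rw [relL_rootL]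
  exact Nu0566.entB_add hε (frameMap_mem hg hy).1 hg c.1

theorem cD_rootL : cD ε (rootL ε e.1 c, p) e = cdC e.1 c := by
  unfold cD
  rw [cB_rootL hε hg hy]
  unfold cdC bC
  rw [rootL_snd]

theorem cX_rootL : cX ε (rootL ε e.1 c, p) e = xC ε e.1 c := by
  unfold cX
  rw [cT_rootL hε hg hy]
  unfold rootL
  simp only
  exact sub_add_cancel _ _

end coords

/-! ## The structure integral -/

/-- cut-off weight -/
def φK (K : ℕ) (P : CTree) : ℝ × PhasePoint × Par P → ℝ≥0∞ := fun _ =>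
  if P.leaves ≤ K then 1 else 0

theorem measurable_φK (K : ℕ) (P : CTree) : Measurable (φK K P) := measurable_const

theorem φK_le_one (K : ℕ) (P : CTree) (q : ℝ × PhasePoint × Par P) : φK K P q ≤ 1 := by
  unfold φK
  split_ifs
  · exact le_rfl
  · exact zero_le

theorem φK_ne_top (K : ℕ) (P : CTree) (q : ℝ × PhasePoint × Par P) : φK K P q ≠ ∞ :=
  ne_top_of_le_ne_top ENNReal.one_ne_top (φK_le_one K P q)

theorem act_mul_sq {ε : ℝ} (hε : 0 < ε) : activity ε * ENNReal.ofReal (ε ^ 2) = 1 := by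
  unfold activity
  rw [← ENNReal.ofReal_mul (by positivity), inv_mul_cancel₀ (by positivity), ENNReal.ofReal_one]

theorem measurable_dL : Measurable dL := by unfold dL; fun_prop

theorem measurable_eL : Measurable eL := by unfold eL; fun_prop

theorem measurableSet_okL (K : ℕ) : MeasurableSet {θ : Lab × LSt | OkL K θ} := by
  have h : {θ : Lab × LSt | OkL K θ} = {θ | 0 < (dL θ).1.1} ∩ ({θ | 1 ≤ (dL θ).2} ∩
      ({θ | (dL θ).2 ≤ K} ∩ ({θ | 0 < (eL θ).1.1} ∩ ({θ | 1 ≤ (eL θ).2} ∩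
        {θ | (eL θ).2 ≤ K})))) := by
    ext θ
    exact ⟨fun h => ⟨h.d0, h.d1, h.dK, h.e0, h.e1, h.eK⟩,
      fun ⟨h1, h2, h3, h4, h5, h6⟩ => ⟨h1, h2, h3, h4, h5, h6⟩⟩
  rw [h]
  have m1 : Measurable fun θ : Lab × LSt => (dL θ).1.1 := measurable_dL.fst.fst
  have m2 : Measurable fun θ : Lab × LSt => (dL θ).2 := measurable_dL.snd
  have m3 : Measurable fun θ : Lab × LSt => (eL θ).1.1 := measurable_eL.fst.fst
  have m4 : Measurable fun θ : Lab × LSt => (eL θ).2 := measurable_eL.snd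
  exact (measurableSet_lt measurable_const m1).inter ((measurableSet_le measurable_const m2).inter
    ((measurableSet_le m2 measurable_const).inter ((measurableSet_lt measurable_const m3).inter
      ((measurableSet_le measurable_const m4).inter (measurableSet_le m4 measurable_const)))))

/-- the measurable ghost indicator, for one number of particles -/
theorem measurable_gh_n (hΦ : AdmissiblePotential Φ) (hε : 0 < ε) (tw : ℝ) (P : CTree) (m : ℕ) :
    Measurable fun q : Config m × (PhasePoint × Par P) => H5994.gh Φ ε tw P q.2 ⟨m, q.1⟩ :=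
  (H5994.measurable_gh hΦ hε tw P).comp (f := fun q : Config m × (PhasePoint × Par P) =>
    ((⟨m, q.1⟩ : Σ n : ℕ, Config n), q.2))
    (((measurable_sigmaMk' m).comp measurable_fst).prodMk measurable_snd)

theorem gh_eq_uI {P : CTree} {z : PhasePoint × Par P} (h : Adm Φ P z.1.2 z.2) {m : ℕ}
    (w : Config m) : H5994.gh Φ ε tw P z ⟨m, w⟩ = uI Φ ε tw P z w := by
  unfold H5994.gh uI ptube
  rw [H5994.ghTM_of_adm h]
  rfl

/-- one gas world, one tree, one pair -/
theorem root_inner (hΦ : AdmissiblePotential Φ) (hf : Measurable f₀) (hε : 0 < ε) {P : CTree} {m : ℕ}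
    (w : Config m) (θ : Lab × LSt) {F : PhasePoint × Par P → ℝ≥0∞} (hF : Measurable F)
    {G : CDat → ℝ≥0∞} (hG : Measurable G) (he : 0 < θ.2.1)
    (hFG : ∀ (c : CDat) (p : Par P), θ.2.1 < c.1 → ‖c.2.2‖ < 1 → θ.2.2.2 - c.2.1 ≠ 0 →
      F (rootL ε θ.2 c, p) ≤ G c) :
    activity ε * ∫⁻ z : PhasePoint × Par P, {z | (z, θ.2) ∈ OneC423.ctSet Φ ε te P}.indicator
      (fun z => gw Φ f₀ P (φK K P) ε T' z.1 z.2 * (H5994.gh Φ ε tw P z ⟨m, w⟩ * F z)) z ≤
    ∫⁻ c, rate θ.2 c * (Dw Φ f₀ P (φK K P) ε tw c.1 (rootL ε θ.2 c) w * G c) ∂mC te := by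
  have hgw : Measurable fun z : PhasePoint × Par P => gw Φ f₀ P (φK K P) ε T' z.1 z.2 :=
    (measurable_gw hΦ hf (measurable_φK K P) ε).comp
      (f := fun z : PhasePoint × Par P => ((T', z.1), z.2))
      ((measurable_const.prodMk measurable_fst).prodMk measurable_snd)
  have hgh : Measurable fun z : PhasePoint × Par P => H5994.gh Φ ε tw P z ⟨m, w⟩ :=
    (measurable_gh_n hΦ hε tw P m).comp (measurable_const.prodMk measurable_id)
  have hFm : Measurable fun z : PhasePoint × Par P =>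
      gw Φ f₀ P (φK K P) ε T' z.1 z.2 * (H5994.gh Φ ε tw P z ⟨m, w⟩ * F z) :=
    hgw.mul (hgh.mul hF)
  rw [OneC423.lintegral_ct_root hΦ hε θ.2 hFm, ← mul_assoc, act_mul_sq hε, one_mul]
  -- the bound in the parameters of the tree
  have key : ∀ (s : ℝ) (u : Space3) (y : Disc416.Plane), θ.2.1 < s → ‖y‖ < 1 →
      θ.2.2.2 - u ≠ 0 →
      ∫⁻ p : Par P, {p | Valid Φ ε P s u p}.indicator (fun p =>
        gw Φ f₀ P (φK K P) ε T' (OneC423.rootAt ε s θ.2 u (frameMap (θ.2.2.2 - u) y)) p *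
          (H5994.gh Φ ε tw P (OneC423.rootAt ε s θ.2 u (frameMap (θ.2.2.2 - u) y), p) ⟨m, w⟩ *
            F (OneC423.rootAt ε s θ.2 u (frameMap (θ.2.2.2 - u) y), p))) p ≤
        Dw Φ f₀ P (φK K P) ε tw s (rootL ε θ.2 (s, (u, y))) w * G (s, (u, y)) := by
    intro s u y hs hy hu
    have e0 : OneC423.rootAt ε s θ.2 u (frameMap (θ.2.2.2 - u) y) = rootL ε θ.2 (s, (u, y)) :=
      (rootL_eq_rootAt ε θ.2 (s, (u, y))).symm
    rw [e0]
    set ℓ := rootL ε θ.2 (s, (u, y)) with hℓ
    have hℓ2 : ℓ.2 = u := rootL_snd _ _ _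
    unfold Dw
    have hGt : ∀ p : Par P, {p | Valid Φ ε P s u p}.indicator (fun p =>
        gw Φ f₀ P (φK K P) ε T' ℓ p * (H5994.gh Φ ε tw P (ℓ, p) ⟨m, w⟩ * F (ℓ, p))) p ≤
        gw Φ f₀ P (φK K P) ε s ℓ p * GIV566.unhitInd Φ ε (Hid424.hid Φ ε P ℓ p) tw w *
          G (s, (u, y)) := by
      intro p
      by_cases hv : Valid Φ ε P s u p
      · rw [indicator_of_mem (show p ∈ {p | Valid Φ ε P s u p} from hv)]
        have hv' : Valid Φ ε P s ℓ.2 p := by rw [hℓ2]; exact hv
        by_cases hT : Valid Φ ε P T' ℓ.2 p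
        · have h1 : gw Φ f₀ P (φK K P) ε T' ℓ p = gw Φ f₀ P (φK K P) ε s ℓ p := by
            rw [gw_of_valid hT, gw_of_valid hv']
            rfl
          rw [h1, mul_assoc]
          refine mul_le_mul_right (mul_le_mul' ?_ (hFG (s, (u, y)) p hs hy hu)) _
          rw [gh_eq_uI (z := (ℓ, p)) hv'.1]
          exact unhitInd_rel_le hε.le hv' tw w
        · rw [gw_of_not_valid hT, zero_mul]
          exact zero_le
      · rw [indicator_of_notMem (show p ∉ {p | Valid Φ ε P s u p} from hv)]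
        exact zero_le
    refine (lintegral_mono hGt).trans (le_of_eq ?_)
    have hmp : Measurable fun p : Par P => gw Φ f₀ P (φK K P) ε s ℓ p *
        GIV566.unhitInd Φ ε (Hid424.hid Φ ε P ℓ p) tw w :=
      (measurable_gw_unhit hΦ hf (measurable_φK K P) hε tw s m).comp
        (f := fun p : Par P => (w, (ℓ, p))) (measurable_const.prodMk
          (measurable_const.prodMk measurable_id))
    rw [lintegral_mul_const _ hmp]
  -- planar form
  have hfm : ∀ (s : ℝ) (u : Space3), ENNReal.ofReal ‖θ.2.2.2 - u‖ *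
      ∫⁻ b in impactDisc (θ.2.2.2 - u), (∫⁻ p : Par P, {p | Valid Φ ε P s u p}.indicator (fun p =>
        gw Φ f₀ P (φK K P) ε T' (OneC423.rootAt ε s θ.2 u b) p *
          (H5994.gh Φ ε tw P (OneC423.rootAt ε s θ.2 u b, p) ⟨m, w⟩ *
            F (OneC423.rootAt ε s θ.2 u b, p))) p) ∂μHE[2] =
      ENNReal.ofReal ‖θ.2.2.2 - u‖ * ∫⁻ y in Metric.ball (0 : Disc416.Plane) 1,
        (∫⁻ p : Par P, {p | Valid Φ ε P s u p}.indicator (fun p =>
        gw Φ f₀ P (φK K P) ε T' (OneC423.rootAt ε s θ.2 u (frameMap (θ.2.2.2 - u) y)) p *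
          (H5994.gh Φ ε tw P (OneC423.rootAt ε s θ.2 u (frameMap (θ.2.2.2 - u) y), p) ⟨m, w⟩ *
            F (OneC423.rootAt ε s θ.2 u (frameMap (θ.2.2.2 - u) y), p))) p) := fun s u =>
    norm_mul_lintegral_impactDisc (θ.2.2.2 - u) (fun b => ∫⁻ p : Par P,
      {p | Valid Φ ε P s u p}.indicator (fun p =>
        gw Φ f₀ P (φK K P) ε T' (OneC423.rootAt ε s θ.2 u b) p *
          (H5994.gh Φ ε tw P (OneC423.rootAt ε s θ.2 u b, p) ⟨m, w⟩ *
            F (OneC423.rootAt ε s θ.2 u b, p))) p)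
  have hJ : ∀ (s : ℝ), θ.2.1 < s → ∀ u : Space3, ENNReal.ofReal ‖θ.2.2.2 - u‖ *
      ∫⁻ b in impactDisc (θ.2.2.2 - u), (∫⁻ p : Par P, {p | Valid Φ ε P s u p}.indicator (fun p =>
        gw Φ f₀ P (φK K P) ε T' (OneC423.rootAt ε s θ.2 u b) p *
          (H5994.gh Φ ε tw P (OneC423.rootAt ε s θ.2 u b, p) ⟨m, w⟩ *
            F (OneC423.rootAt ε s θ.2 u b, p))) p) ∂μHE[2] ≤
      ∫⁻ y in Metric.ball (0 : Disc416.Plane) 1, ENNReal.ofReal ‖θ.2.2.2 - u‖ *
        (Dw Φ f₀ P (φK K P) ε tw s (rootL ε θ.2 (s, (u, y))) w * G (s, (u, y))) := by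
    intro s hs u
    rw [hfm, ← lintegral_const_mul' _ _ ENNReal.ofReal_ne_top]
    refine setLIntegral_mono' Metric.isOpen_ball.measurableSet fun y hy => ?_
    by_cases hu : θ.2.2.2 - u = 0
    · rw [hu, norm_zero, ENNReal.ofReal_zero, zero_mul]
      exact zero_le
    · refine mul_le_mul_right (key s u y hs ?_ hu) _
      simpa [Metric.mem_ball, dist_zero_right] using hy
  -- the reference measure
  have hmD : Measurable fun c : CDat => rate θ.2 c *
      (Dw Φ f₀ P (φK K P) ε tw c.1 (rootL ε θ.2 c) w * G c) := by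
    have hr : Measurable fun c : CDat => rate θ.2 c :=
      measurable_rate.comp (measurable_const.prodMk measurable_id)
    have hroot : Measurable fun c : CDat => rootL ε θ.2 c :=
      (measurable_rootL ε).comp (measurable_const.prodMk measurable_id)
    have hD : Measurable fun c : CDat => Dw Φ f₀ P (φK K P) ε tw c.1 (rootL ε θ.2 c) w :=
      (measurable_Dw_n hΦ hf (measurable_φK K P) hε tw m).comp
        (f := fun c : CDat => (w, (c.1, rootL ε θ.2 c)))
        (measurable_const.prodMk (measurable_fst.prodMk hroot))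
    exact hr.mul (hD.mul hG)
  unfold mC
  rw [lintegral_prod _ hmD.aemeasurable]
  have hsub : Ioc θ.2.1 te ⊆ Ioc 0 te := Ioc_subset_Ioc_left he.le
  have h1 : ∀ s ∈ Ioc θ.2.1 te, ∫⁻ u : Space3, ENNReal.ofReal ‖θ.2.2.2 - u‖ *
      ∫⁻ b in impactDisc (θ.2.2.2 - u), (∫⁻ p : Par P, {p | Valid Φ ε P s u p}.indicator (fun p =>
        gw Φ f₀ P (φK K P) ε T' (OneC423.rootAt ε s θ.2 u b) p *
          (H5994.gh Φ ε tw P (OneC423.rootAt ε s θ.2 u b, p) ⟨m, w⟩ *
            F (OneC423.rootAt ε s θ.2 u b, p))) p) ∂μHE[2] ≤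
      ∫⁻ q : Space3 × Disc416.Plane, rate θ.2 (s, q) *
        (Dw Φ f₀ P (φK K P) ε tw s (rootL ε θ.2 (s, q)) w * G (s, q))
        ∂((volume : Measure Space3).prod (volume.restrict (Metric.ball (0 : Disc416.Plane) 1))) := by
    intro s hs
    have hmq : Measurable fun q : Space3 × Disc416.Plane => rate θ.2 (s, q) *
        (Dw Φ f₀ P (φK K P) ε tw s (rootL ε θ.2 (s, q)) w * G (s, q)) :=
      hmD.comp (measurable_const.prodMk measurable_id)
    rw [lintegral_prod _ hmq.aemeasurable]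
    refine lintegral_mono fun u => ?_
    refine (hJ s hs.1 u).trans (le_of_eq ?_)
    refine lintegral_congr fun y => ?_
    have hr : rate θ.2 (s, (u, y)) = ENNReal.ofReal ‖θ.2.2.2 - u‖ := by
      unfold rate
      rw [if_pos hs.1]
    rw [hr]
  calc ∫⁻ s in Ioc θ.2.1 te, ∫⁻ u : Space3, ENNReal.ofReal ‖θ.2.2.2 - u‖ *
        ∫⁻ b in impactDisc (θ.2.2.2 - u), (∫⁻ p : Par P,
          {p | Valid Φ ε P s u p}.indicator (fun p =>
          gw Φ f₀ P (φK K P) ε T' (OneC423.rootAt ε s θ.2 u b) p *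
          (H5994.gh Φ ε tw P (OneC423.rootAt ε s θ.2 u b, p) ⟨m, w⟩ *
            F (OneC423.rootAt ε s θ.2 u b, p))) p) ∂μHE[2]
      ≤ ∫⁻ s in Ioc θ.2.1 te, ∫⁻ q : Space3 × Disc416.Plane, rate θ.2 (s, q) *
        (Dw Φ f₀ P (φK K P) ε tw s (rootL ε θ.2 (s, q)) w * G (s, q))
        ∂((volume : Measure Space3).prod
          (volume.restrict (Metric.ball (0 : Disc416.Plane) 1))) :=
        setLIntegral_mono' measurableSet_Ioc h1
    _ ≤ _ := lintegral_mono_set hsub

/-- **The structure integral in root coordinates.** -/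
theorem OS2_le_root (hΦ : AdmissiblePotential Φ) (hf : Measurable f₀) (hε : 0 < ε)
    {ν : Measure (Lab × LSt)} [SFinite ν] {F : SF2} (hF : MeasSF2 F)
    {G : CTree → (m : ℕ) → Config m → (Lab × LSt) × CDat → ℝ≥0∞}
    (hG : ∀ P m, Measurable fun q : Config m × ((Lab × LSt) × CDat) => G P m q.1 q.2)
    (hFG : ∀ (P : CTree) (m : ℕ) (w : Config m) (θ : Lab × LSt) (c : CDat) (p : Par P),
      OkL K θ → P.leaves ≤ K → θ.2.1 < c.1 → ‖c.2.2‖ < 1 → θ.2.2.2 - c.2.1 ≠ 0 →
      F P (rootL ε θ.2 c, p) m w θ ≤ G P m w (θ, c)) :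
    OS2 Φ f₀ ε te T' ν (fun P z m w θ => uG Φ ε tw K P z w θ * F P z m w θ) ≤
      gcE f₀ ε fun m w => ∑' P : CTree, ∫⁻ θ, cInt ε te (fun p : Lab × LSt => p.2)
        (fun q => Dw Φ f₀ P (φK K P) ε tw q.1 q.2 w) (G P m w) θ ∂ν := by
  -- measurable integrand
  set B : (P : CTree) → (m : ℕ) → (PhasePoint × Par P) × (Config m × (Lab × LSt)) → ℝ≥0∞ :=
    fun P m q => {q : (PhasePoint × Par P) × (Config m × (Lab × LSt)) |
      (q.1, q.2.2.2) ∈ OneC423.ctSet Φ ε te P ∧ OkL K q.2.2}.indicator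
        (fun q => gw Φ f₀ P (φK K P) ε T' q.1.1 q.1.2 * (H5994.gh Φ ε tw P q.1 ⟨m, q.2.1⟩ *
          F P q.1 m q.2.1 q.2.2)) q with hB
  have hBm : ∀ P m, Measurable (B P m) := by
    intro P m
    refine Measurable.indicator ?_ ?_
    · refine ((measurable_gw hΦ hf (measurable_φK K P) ε).comp
        (f := fun q : (PhasePoint × Par P) × (Config m × (Lab × LSt)) => ((T', q.1.1), q.1.2))
        (by fun_prop)).mul (Measurable.mul ?_ (hF P m))
      exact (measurable_gh_n hΦ hε tw P m).comp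
        (f := fun q : (PhasePoint × Par P) × (Config m × (Lab × LSt)) => (q.2.1, q.1))
        ((measurable_fst.comp measurable_snd).prodMk measurable_fst)
    · refine MeasurableSet.inter ?_ ?_
      · exact (OneC423.measurableSet_ctSet hΦ ε te P).preimage
          (f := fun q : (PhasePoint × Par P) × (Config m × (Lab × LSt)) => (q.1, q.2.2.2))
          (measurable_fst.prodMk (measurable_snd.comp (measurable_snd.comp measurable_snd)))
      · exact (measurableSet_okL K).preimage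
          (f := fun q : (PhasePoint × Par P) × (Config m × (Lab × LSt)) => q.2.2)
          (measurable_snd.comp measurable_snd)
  -- first bound
  have h1 : OS2 Φ f₀ ε te T' ν (fun P z m w θ => uG Φ ε tw K P z w θ * F P z m w θ) ≤
      activity ε * ∑' P : CTree, ∫⁻ z : PhasePoint × Par P, gcE f₀ ε fun m w =>
        ∫⁻ θ, B P m (z, (w, θ)) ∂ν := by
    unfold OS2
    refine mul_le_mul_right (ENNReal.tsum_le_tsum fun P => lintegral_mono fun z => ?_) _
    by_cases hV : Valid Φ ε P T' z.1.2 z.2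
    swap
    · rw [indicator_of_notMem
        (show z ∉ {z : PhasePoint × Par P | Valid Φ ε P T' z.1.2 z.2} from hV)]
      exact zero_le
    rw [indicator_of_mem (show z ∈ {z : PhasePoint × Par P | Valid Φ ε P T' z.1.2 z.2} from hV)]
    have hwt : wt Φ P z.1.2 z.2 ≠ ∞ := Hid424.wt_ne_top'
    have hfp : ToTree335.pf Φ f₀ ε P z ≠ ∞ := fp_ne_top ε P z.1 z.2
    rw [← mul_assoc, ← gcE_const_mul f₀ ε (ENNReal.mul_ne_top hwt hfp)]
    refine gcE_mono f₀ ε fun m w _ => ?_
    rw [← lintegral_const_mul' _ _ (ENNReal.mul_ne_top hwt hfp)]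
    refine lintegral_mono fun θ => ?_
    by_cases hct : (z, θ.2) ∈ OneC423.ctSet Φ ε te P
    swap
    · rw [indicator_of_notMem (show θ ∉ {θ : Lab × LSt | (z, θ.2) ∈ OneC423.ctSet Φ ε te P} from hct),
        mul_zero]
      exact zero_le
    rw [indicator_of_mem (show θ ∈ {θ : Lab × LSt | (z, θ.2) ∈ OneC423.ctSet Φ ε te P} from hct)]
    by_cases hK : OkL K θ ∧ P.leaves ≤ K
    swap
    · have h0 : uG Φ ε tw K P z w θ = 0 := by unfold uG; exact if_neg hK
      simp only [h0, zero_mul, mul_zero]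
      exact zero_le
    have h1 : uG Φ ε tw K P z w θ = uI Φ ε tw P z w := by unfold uG; exact if_pos hK
    simp only [h1]
    simp only [hB]
    rw [indicator_of_mem (show ((z, (w, θ)) : (PhasePoint × Par P) × (Config m × (Lab × LSt))) ∈
      {q : (PhasePoint × Par P) × (Config m × (Lab × LSt)) |
      (q.1, q.2.2.2) ∈ OneC423.ctSet Φ ε te P ∧ OkL K q.2.2} from ⟨hct, hK.1⟩)]
    rw [gw_of_valid hV, gh_eq_uI hV.1]
    have hφ : φK K P (T', z.1, z.2) = 1 := if_pos hK.2
    rw [hφ, mul_one]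
    exact le_rfl
  refine h1.trans ?_
  -- interchange
  have h2 : ∀ P : CTree, ∫⁻ z : PhasePoint × Par P, gcE f₀ ε (fun m w =>
      ∫⁻ θ, B P m (z, (w, θ)) ∂ν) = gcE f₀ ε fun m w =>
        ∫⁻ z : PhasePoint × Par P, ∫⁻ θ, B P m (z, (w, θ)) ∂ν := by
    intro P
    refine BadHit370.lintegral_gcE hf ε (volume : Measure (PhasePoint × Par P))
      (F := fun m z w => ∫⁻ θ, B P m (z, (w, θ)) ∂ν) fun m => ?_
    have h3 : Measurable fun q : ((PhasePoint × Par P) × Config m) × (Lab × LSt) =>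
        B P m (q.1.1, (q.1.2, q.2)) := (hBm P m).comp (by fun_prop)
    exact h3.lintegral_prod_right'
  have hmz : ∀ (P : CTree) (m : ℕ), Measurable fun w : Config m =>
      ∫⁻ z : PhasePoint × Par P, ∫⁻ θ, B P m (z, (w, θ)) ∂ν := by
    intro P m
    have h3 : Measurable fun q : (Config m × (PhasePoint × Par P)) × (Lab × LSt) =>
        B P m (q.1.2, (q.1.1, q.2)) := (hBm P m).comp (by fun_prop)
    exact h3.lintegral_prod_right'.lintegral_prod_right'
  simp only [h2]
  rw [← gcE_tsum hf ε (fun P m => hmz P m),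
    ← gcE_const_mul f₀ ε (show activity ε ≠ ∞ from ENNReal.ofReal_ne_top)]
  refine gcE_mono f₀ ε fun m w _ => ?_
  rw [← ENNReal.tsum_mul_left]
  refine ENNReal.tsum_le_tsum fun P => ?_
  -- fixed world, fixed shape
  have hBw : Measurable fun q : (PhasePoint × Par P) × (Lab × LSt) => B P m (q.1, (w, q.2)) :=
    (hBm P m).comp (by fun_prop)
  rw [lintegral_lintegral_swap hBw.aemeasurable,
    ← lintegral_const_mul' _ _ (show activity ε ≠ ∞ from ENNReal.ofReal_ne_top)]
  refine lintegral_mono fun θ => ?_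
  by_cases hK : OkL K θ ∧ P.leaves ≤ K
  swap
  · have h0 : ∀ z : PhasePoint × Par P, B P m (z, (w, θ)) = 0 := by
      intro z
      simp only [hB]
      by_cases hmem : ((z, (w, θ)) : (PhasePoint × Par P) × (Config m × (Lab × LSt))) ∈
        {q : (PhasePoint × Par P) × (Config m × (Lab × LSt)) |
          (q.1, q.2.2.2) ∈ OneC423.ctSet Φ ε te P ∧ OkL K q.2.2}
      · rw [indicator_of_mem hmem]
        have hK2 : ¬ P.leaves ≤ K := fun h => hK ⟨hmem.2, h⟩
        by_cases hV : Valid Φ ε P T' z.1.2 z.2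
        · rw [gw_of_valid hV]
          have hφ : φK K P (T', z.1, z.2) = 0 := if_neg hK2
          rw [hφ, mul_zero, zero_mul]
        · rw [gw_of_not_valid hV, zero_mul]
      · rw [indicator_of_notMem hmem]
    simp only [h0, lintegral_zero, mul_zero]
    exact zero_le
  have hFθ : Measurable fun z : PhasePoint × Par P => F P z m w θ :=
    (hF P m).comp (f := fun z : PhasePoint × Par P =>
      ((z, (w, θ)) : (PhasePoint × Par P) × (Config m × (Lab × LSt))))
      (measurable_id.prodMk measurable_const)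
  have hGθ : Measurable fun c : CDat => G P m w (θ, c) :=
    (hG P m).comp (f := fun c : CDat => ((w, (θ, c)) : Config m × ((Lab × LSt) × CDat)))
      (measurable_const.prodMk (measurable_const.prodMk measurable_id))
  have h5 := root_inner (te := te) (T' := T') (tw := tw) hΦ hf hε (K := K) w θ hFθ hGθ hK.1.e0
    (fun c p h1 h2 h3 => hFG P m w θ c p hK.1 hK.2 h1 h2 h3)
  refine le_trans (mul_le_mul_right (lintegral_mono fun z => ?_) _) (h5.trans ?_)
  · simp only [hB]
    by_cases hct : (z, θ.2) ∈ OneC423.ctSet Φ ε te P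
    · rw [indicator_of_mem (show ((z, (w, θ)) : (PhasePoint × Par P) × (Config m × (Lab × LSt))) ∈
        {q : (PhasePoint × Par P) × (Config m × (Lab × LSt)) |
          (q.1, q.2.2.2) ∈ OneC423.ctSet Φ ε te P ∧ OkL K q.2.2} from ⟨hct, hK.1⟩),
        indicator_of_mem (show z ∈ {z | (z, θ.2) ∈ OneC423.ctSet Φ ε te P} from hct)]
    · rw [indicator_of_notMem (show ((z, (w, θ)) : (PhasePoint × Par P) ×
        (Config m × (Lab × LSt))) ∉ {q : (PhasePoint × Par P) × (Config m × (Lab × LSt)) |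
          (q.1, q.2.2.2) ∈ OneC423.ctSet Φ ε te P ∧ OkL K q.2.2} from fun h => hct h.1)]
      exact zero_le
  · unfold cInt
    exact le_rfl

end Crest.Agent.R122.PairD292

end
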