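import Crest.Agent.R122.H5A_994
import Crest.Agent.R122.PairRoot_292
import Crest.Agent.R122.ForestFatou_399

/-!
# StmtSP6: the literal spread terms (row 122, helper994)

* `tO6`, `tY6` : the terms `tO`, `tY` of helper292's `StmtPt6`, `StmtSP6`: (A) + (B) for old contacts,
  (A) + touch of the first line for young contacts; (A) carries the indicator `rst`, everything is
  restricted to separated trees with at most `K` leaves; `G` = good structures (real tree in `w + A`);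
* `termA_le_tO6`, `termA_le_tY6` : on the real structures they are at least helper811's terms;
* `link_of_ctSet` : the contact set is contained in the link event;
* `OS2_le_sum` : `OS2` of ghost times a functional is at most `activity` times the sum over the trees
  with at most `K` leaves of the integrals over the link events, trees valid and separated at `te`.
-/

set_option autoImplicit false

open MeasureTheory Set Filter
open scoped ENNReal Topology
open Crest.AnalysisR.Kinetic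
open Crest.Agent.R122.Kin796 Crest.Agent.R122.Kin796.CTree Crest.Agent.R122.Tree674
open Crest.Agent.R122.EDefs602 Crest.Agent.R122.TreeLines335 Crest.Agent.R122.LineMeas994
open Crest.Agent.R122.GC311 Crest.Agent.R122.QDens815 Crest.Agent.R122.Q1815
open Crest.Agent.R122.SPV994 Crest.Agent.R122.Decomp811 Crest.Agent.R122.Weight984
open Crest.Agent.R122.MeasE416
open Crest.Agent.R122.Boost969 (LSt posAt)
open Crest.Agent.R122.Pair292 (Lab PPar PX sig shM)
open Crest.Agent.R122.PairD292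
open Crest.Agent.R122.OneC285 (cfT rt cT cB cD cX lpos uI ptube)

namespace Crest.Agent.R122.H5994

noncomputable section

open scoped Classical

section defs

variable {ξ : CTree → Type} [∀ P, Fintype (ξ P)] (A : ∀ P : CTree, PhasePoint × Par P → MW (ξ P))
  (G : (P : CTree) → (Σ n : ℕ, Config n) → PhasePoint × Par P → Prop)

/-- term (A) with the indicators `rst` and `G` -/
def tA6 (Φ : Space3 → ℝ) (Q : EPar) (K : ℕ) (ε : ℝ) (P : CTree) (z : PhasePoint × Par P)
    (w : Σ n : ℕ, Config n) (θ : Lab × LSt) : ℝ≥0∞ :=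
  if rst Φ ε K Q.te P w z (hitT ε z.1 θ.2) ∧ G P w z then
    termA Φ ε K Q (MW.cfg w.2) (A P z) (lineMM Φ ε P z) θ.1.1 else 0

/-- term (B) -/
def tB6 (Φ : Space3 → ℝ) (Q : EPar) (K : ℕ) (ε : ℝ) (P : CTree) (z : PhasePoint × Par P)
    (w : Σ n : ℕ, Config n) (θ : Lab × LSt) : ℝ≥0∞ :=
  ∑ k ∈ Finset.univ.filter (fun k => k ≠ root P),
    termB Φ ε K Q (MW.cfg w.2) θ.1.1 (lineMM Φ ε P z k)

/-- old contacts: (A) + (B) -/
def tO6 (Φ : Space3 → ℝ) (Q : EPar) (T' : ℝ) (K : ℕ) (ε : ℝ) : SF2 := fun P z m w θ =>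
  if (Valid Φ ε P T' z.1.2 z.2 ∧ Sep Φ ε P T' z.1 z.2) ∧ P.leaves ≤ K then
    tA6 A G Φ Q K ε P z ⟨m, w⟩ θ + tB6 Φ Q K ε P z ⟨m, w⟩ θ else 0

/-- young contacts: (A) + touch of the first line -/
def tY6 (Φ : Space3 → ℝ) (Q : EPar) (T' : ℝ) (K : ℕ) (ε : ℝ) : SF2 := fun P z m w θ =>
  if (Valid Φ ε P T' z.1.2 z.2 ∧ Sep Φ ε P T' z.1 z.2) ∧ P.leaves ≤ K then
    tA6 A G Φ Q K ε P z ⟨m, w⟩ θ + (MW.cfg w).touchW Φ ε K Q θ.1.1 else 0

end defs

/-! ## Real structures -/

section real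

variable {ξ : CTree → Type} [∀ P, Fintype (ξ P)] {A : ∀ P : CTree, PhasePoint × Par P → MW (ξ P)}
  {G : (P : CTree) → (Σ n : ℕ, Config n) → PhasePoint × Par P → Prop}
variable {Φ : Space3 → ℝ} {ε : ℝ} {K : ℕ} {Q : EPar} {T' : ℝ} {P : CTree}
  {z : PhasePoint × Par P} {m : ℕ} {w : Config m} {θ : Lab × LSt}

theorem lineMM_eq (hV : Valid Φ ε P T' z.1.2 z.2) : lineMM Φ ε P z = lineML Φ ε P z :=
  funext fun i => lineMM_of_adm ε hV.1 i

theorem le_tO6 (hV : Valid Φ ε P T' z.1.2 z.2) (hS : Sep Φ ε P T' z.1 z.2) (hK : P.leaves ≤ K)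
    (hr : termA Φ ε K Q (MW.cfg w) (A P z) (lineML Φ ε P z) (dL θ) ≠ 0 →
      rst Φ ε K Q.te P ⟨m, w⟩ z (hitT ε z.1 θ.2) ∧ G P ⟨m, w⟩ z) :
    termA Φ ε K Q (MW.cfg w) (A P z) (lineML Φ ε P z) (dL θ) +
      ∑ k ∈ Finset.univ.filter (fun k => k ≠ root P),
        termB Φ ε K Q (MW.cfg w) (dL θ) (lineML Φ ε P z k) ≤ tO6 A G Φ Q T' K ε P z m w θ := by
  unfold tO6 tA6 tB6
  rw [if_pos ⟨⟨hV, hS⟩, hK⟩, lineMM_eq hV]
  refine add_le_add ?_ le_rfl
  by_cases h0 : termA Φ ε K Q (MW.cfg w) (A P z) (lineML Φ ε P z) (dL θ) = 0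
  · rw [h0]
    exact bot_le
  · rw [if_pos (hr h0)]
    exact le_rfl

theorem le_tY6 (hV : Valid Φ ε P T' z.1.2 z.2) (hS : Sep Φ ε P T' z.1 z.2) (hK : P.leaves ≤ K)
    (hr : termA Φ ε K Q (MW.cfg w) (A P z) (lineML Φ ε P z) (dL θ) ≠ 0 →
      rst Φ ε K Q.te P ⟨m, w⟩ z (hitT ε z.1 θ.2) ∧ G P ⟨m, w⟩ z) :
    termA Φ ε K Q (MW.cfg w) (A P z) (lineML Φ ε P z) (dL θ) +
      (MW.cfg w).touchW Φ ε K Q (dL θ) ≤ tY6 A G Φ Q T' K ε P z m w θ := by
  unfold tY6 tA6
  rw [if_pos ⟨⟨hV, hS⟩, hK⟩, lineMM_eq hV]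
  refine add_le_add ?_ le_rfl
  by_cases h0 : termA Φ ε K Q (MW.cfg w) (A P z) (lineML Φ ε P z) (dL θ) = 0
  · rw [h0]
    exact bot_le
  · rw [if_pos (hr h0)]
    exact le_rfl

end real

/-! ## Measurability -/

section meas

variable {ξ : CTree → Type} [∀ P, Fintype (ξ P)] {A : ∀ P : CTree, PhasePoint × Par P → MW (ξ P)}
  {G : (P : CTree) → (Σ n : ℕ, Config n) → PhasePoint × Par P → Prop}
variable {Φ : Space3 → ℝ} {ε : ℝ} {K : ℕ} {Q : EPar} {T' : ℝ}

theorem measurable_sigQ (P : CTree) (m : ℕ) :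
    Measurable fun q : (PhasePoint × Par P) × (Config m × (Lab × LSt)) =>
      (⟨m, q.2.1⟩ : Σ n : ℕ, Config n) :=
  (Q1815.measurableEmbedding_sigmaMk m).measurable.comp measurable_snd.fst

theorem measSF2_tA6 (hΦ : AdmissiblePotential Φ) (hε : 0 < ε) (hA : ∀ P, MeasW (A P))
    (hG : ∀ P, MeasurableSet {q : (Σ n : ℕ, Config n) × (PhasePoint × Par P) | G P q.1 q.2}) :
    MeasSF2 fun P z m w θ => tA6 A G Φ Q K ε P z ⟨m, w⟩ θ := by
  intro P m
  unfold tA6
  refine Measurable.ite ?_ ?_ measurable_const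
  · have hq : Measurable fun q : (PhasePoint × Par P) × (Config m × (Lab × LSt)) =>
        ((⟨m, q.2.1⟩ : Σ n : ℕ, Config n), (q.1, hitT ε q.1.1 q.2.2.2)) :=
      (measurable_sigQ P m).prodMk (measurable_fst.prodMk
        (measurable_hitT' ε (ℓ := fun q : (PhasePoint × Par P) × (Config m × (Lab × LSt)) => q.1.1)
          (e := fun q => q.2.2.2) measurable_fst.fst measurable_snd.snd.snd))
    have hq' : Measurable fun q : (PhasePoint × Par P) × (Config m × (Lab × LSt)) =>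
        ((⟨m, q.2.1⟩ : Σ n : ℕ, Config n), q.1) := (measurable_sigQ P m).prodMk measurable_fst
    exact (hq (measurableSet_rst hΦ hε P)).inter (hq' (hG P))
  · have h := measurable_Aw (lineM Q.γ Q.ρ K Q.te) Q.L Q.te
      (tL := fun q : (Σ n : ℕ, Config n) × (PhasePoint × Par P) => fT Φ ε K Q.te P q.1 q.2)
      (θ := fun q l => θA A Φ ε K Q.te P q.1 q.2 l)
      (measurable_fT hΦ hε P) (measurable_θA A hΦ hε hA P)
    have hq : Measurable fun q : (PhasePoint × Par P) × (Config m × (Lab × LSt)) =>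
        (((⟨m, q.2.1⟩ : Σ n : ℕ, Config n), q.1), q.2.2.1.1) :=
      ((measurable_sigQ P m).prodMk measurable_fst).prodMk measurable_snd.snd.fst.fst
    exact h.comp hq

theorem measSF2_tB6 (hΦ : AdmissiblePotential Φ) (hε : 0 < ε) :
    MeasSF2 fun P z m w θ => tB6 Φ Q K ε P z ⟨m, w⟩ θ := by
  intro P m
  unfold tB6
  refine Finset.measurable_sum _ fun k _ => ?_
  have h := measurable_Ψv (lineM Q.γ Q.ρ K Q.te) Q.L Q.tw Q.te (measurable_θ₀ hΦ hε K Q.te)
    (measurable_θd hΦ hε K Q.te)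
  have hq : Measurable fun q : (PhasePoint × Par P) × (Config m × (Lab × LSt)) =>
      (((⟨m, q.2.1⟩ : Σ n : ℕ, Config n), q.2.2.1.1), lineMM Φ ε P q.1 k) :=
    ((measurable_sigQ P m).prodMk measurable_snd.snd.fst.fst).prodMk
      ((measurable_lineMM hΦ ε P k).comp measurable_fst)
  exact h.comp hq

theorem measSF2_touchW (hΦ : AdmissiblePotential Φ) (hε : 0 < ε) :
    MeasSF2 fun _ _ _ w θ => (MW.cfg w).touchW Φ ε K Q θ.1.1 := by
  intro P m
  exact (MeasW.cfg (w := fun q : (PhasePoint × Par P) × (Config m × (Lab × LSt)) => q.2.1)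
    measurable_snd.fst).touchW hΦ hε
    (l := fun q : (PhasePoint × Par P) × (Config m × (Lab × LSt)) => q.2.2.1.1)
    measurable_snd.snd.fst.fst K Q

theorem measurableSet_vs (hΦ : AdmissiblePotential Φ) (hε : 0 < ε) (P : CTree) (m : ℕ) :
    MeasurableSet {q : (PhasePoint × Par P) × (Config m × (Lab × LSt)) |
      (Valid Φ ε P T' q.1.1.2 q.1.2 ∧ Sep Φ ε P T' q.1.1 q.1.2) ∧ P.leaves ≤ K} := by
  have h1 : MeasurableSet {q : (PhasePoint × Par P) × (Config m × (Lab × LSt)) |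
      Valid Φ ε P T' q.1.1.2 q.1.2 ∧ Sep Φ ε P T' q.1.1 q.1.2} :=
    measurable_fst (measurableSet_validSep hΦ hε P T')
  exact h1.inter (MeasurableSet.const _)

theorem measSF2_tO6 (hΦ : AdmissiblePotential Φ) (hε : 0 < ε) (hA : ∀ P, MeasW (A P))
    (hG : ∀ P, MeasurableSet {q : (Σ n : ℕ, Config n) × (PhasePoint × Par P) | G P q.1 q.2}) :
    MeasSF2 (tO6 A G Φ Q T' K ε) := by
  intro P m
  unfold tO6
  exact Measurable.ite (measurableSet_vs hΦ hε P m)
    ((measSF2_tA6 hΦ hε hA hG P m).add (measSF2_tB6 hΦ hε P m)) measurable_const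

theorem measSF2_tY6 (hΦ : AdmissiblePotential Φ) (hε : 0 < ε) (hA : ∀ P, MeasW (A P))
    (hG : ∀ P, MeasurableSet {q : (Σ n : ℕ, Config n) × (PhasePoint × Par P) | G P q.1 q.2}) :
    MeasSF2 (tY6 A G Φ Q T' K ε) := by
  intro P m
  unfold tY6
  exact Measurable.ite (measurableSet_vs hΦ hε P m)
    ((measSF2_tA6 hΦ hε hA hG P m).add (measSF2_touchW hΦ hε P m)) measurable_const

end meas

/-! ## The contact set -/

theorem relL_eq (ℓ : PhasePoint) (e : LSt) : OneC423.relL ℓ e = (-rX ℓ e, -rV ℓ e) := by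
  unfold OneC423.relL rX rV Boost969.posAt
  simp only [neg_sub]
  refine Prod.ext ?_ rfl
  simp only [zero_sub, neg_smul]
  rfl

theorem bline_neg (z : Space3 × Space3) : Flux663.bline (-z.1, -z.2) = -Flux663.bline z := by
  unfold Flux663.bline Flux663.tline
  simp only [inner_neg_neg, norm_neg, smul_neg, neg_sub]
  abel

theorem entT_neg (ε : ℝ) (z : Space3 × Space3) : OC663.entT ε (-z.1, -z.2) = OC663.entT ε z := by
  have h := bline_neg z
  unfold OC663.entT
  rw [h]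
  simp only [norm_neg]
  congr 1
  unfold Flux663.tline
  simp only [inner_neg_neg, norm_neg]

/-- the contact time is the entrance time of the two free lines -/
theorem cT_eq_hitT (ε : ℝ) {P : CTree} (z : PhasePoint × Par P) (l : ML) :
    cT ε z l = hitT ε z.1 l.1 := by
  unfold cT hitT
  rw [relL_eq, ← entT_neg ε (rX z.1 l.1, rV z.1 l.1)]

theorem age_eq (ε : ℝ) {P : CTree} (z : PhasePoint × Par P) (θ : Lab × LSt) :
    age ε z θ = hitT ε z.1 θ.2 - sig θ.1 := by
  unfold age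
  rw [cT_eq_hitT]
  rfl

end

end Crest.Agent.R122.H5994
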