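import Crest.Agent.R122.PairV4_994

/-!
# SP-A without selection of the first touched line (row 122, helper994)

`spA0` : for any weight `H w V u` of the world, the cluster and the link time,
`∫V ∫w ∫_{p ∈ link event} H(w,V,lt) Aw(tL, θ_V)(d) ≤ (c₆/L + c₇) ∫V ∫w ∫u rd H 1[tL ≤ te] W(θ_V ≤ tL)`.
The selection of the first touched line is made afterwards, at fixed `(w, V, u)`.
-/

set_option autoImplicit false

open MeasureTheory Set Filter
open scoped ENNReal Topology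

namespace Crest.Agent.R122.SPV994

open Crest.Agent.R122.Weight984 Crest.Agent.R122.SP994

noncomputable section

variable {Λ Pp : Type*} [MeasurableSpace Λ] [MeasurableSpace Pp]
variable {Ω 𝒱 : Type*} [MeasurableSpace Ω] [MeasurableSpace 𝒱]
variable {ι : Type} (S : Shape Ω 𝒱 Pp Λ ι)
  (P : Measure Ω) (mV : Measure 𝒱) (κ : Measure ℝ)
  (ν : Measure Pp) {d : Pp → Λ} (lam : Measure Λ) [SFinite lam]
  {c₆ c₇ : ℝ≥0∞} {L te : ℝ}

/-- **SP-A, general form.** -/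
theorem spA0 (hL : 0 < L) (hc : c₆ * ENNReal.ofReal (1 / L) + c₇ ≠ ∞)
    (h6 : ∀ V, S6 ν d lam κ c₆ (S.lt V) (S.Bo V) (S.rd V))
    (h7 : ∀ V, Y6 ν κ c₇ (S.lt V) (S.By V) (S.rd V))
    {θV : Ω → 𝒱 → Λ → ℝ} (hθV : Measurable fun q : (Ω × 𝒱) × Λ => θV q.1.1 q.1.2 q.2)
    {tL : Ω → 𝒱 → ℝ}
    {H : Ω → 𝒱 → ℝ → ℝ≥0∞} (hH : Measurable fun q : Ω × 𝒱 × ℝ => H q.1 q.2.1 q.2.2)
    {FA : Ω → 𝒱 → Pp → ℝ≥0∞}
    (hFA : ∀ w V p, p ∈ S.Bo V ∪ S.By V → FA w V p ≤
      H w V (S.lt V p) * Aw lam L te (tL w V) (θV w V) (d p)) :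
    ∫⁻ V, ∫⁻ w, ∫⁻ p in S.Bo V ∪ S.By V, FA w V p ∂ν ∂P ∂mV ≤
      (c₆ * ENNReal.ofReal (1 / L) + c₇) * ∫⁻ V, ∫⁻ w, ∫⁻ u, S.rd V u * (H w V u *
        (if tL w V ≤ te then W L (lam {l | θV w V l ≤ tL w V}) else 0)) ∂κ ∂P ∂mV := by
  rw [← lintegral_const_mul' _ _ hc]
  refine lintegral_mono fun V => ?_
  rw [← lintegral_const_mul' _ _ hc]
  refine lintegral_mono fun w => ?_
  have hHu : Measurable fun u => H w V u :=
    hH.comp (measurable_const.prodMk (measurable_const.prodMk measurable_id))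
  have hrd : Measurable (S.rd V) := S.m_rd.comp (measurable_const.prodMk measurable_id)
  have hθ : Measurable (θV w V) :=
    hθV.comp (measurable_const.prodMk measurable_id : Measurable fun l : Λ => ((w, V), l))
  have h1 := oneA_old hL (h6 V) hHu hrd te (tL w V) hθ
  have h2 := oneA_young (d := d) (lam := lam) hL (h7 V) hHu te (tL w V) (θV w V)
  calc ∫⁻ p in S.Bo V ∪ S.By V, FA w V p ∂ν
      ≤ ∫⁻ p in S.Bo V ∪ S.By V, H w V (S.lt V p) *
          Aw lam L te (tL w V) (θV w V) (d p) ∂ν :=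
        setLIntegral_mono' ((S.mBo V).union (S.mBy V)) fun p hp => hFA w V p hp
    _ ≤ ∫⁻ p in S.Bo V, H w V (S.lt V p) * Aw lam L te (tL w V) (θV w V) (d p) ∂ν +
        ∫⁻ p in S.By V, H w V (S.lt V p) * Aw lam L te (tL w V) (θV w V) (d p) ∂ν :=
        lintegral_union_le _ _ _
    _ ≤ c₆ * ENNReal.ofReal (1 / L) * ∫⁻ u, S.rd V u * (H w V u *
            (if tL w V ≤ te then W L (lam {l | θV w V l ≤ tL w V}) else 0)) ∂κ +
          c₇ * ∫⁻ u, S.rd V u * (H w V u *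
            (if tL w V ≤ te then W L (lam {l | θV w V l ≤ tL w V}) else 0)) ∂κ :=
        add_le_add h1 h2
    _ = _ := (add_mul _ _ _).symm

end

end Crest.Agent.R122.SPV994
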