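import Crest.Agent.R122.H5EI_994
import Crest.Agent.R122.PairV5_994
import Crest.Agent.R122.Decomp3E_811
import Crest.Agent.R122.Reborn_45
import Crest.Agent.R122.UnwF_410

/-!
# SP-A at gas level (row 122, helper994)

* `rst` : one of the marked lines of the tree, the root line born at the link time `u`, realises the
  first touch time of the lines of the tree in the gas world; `rst_of_noCt` : it is enough that the
  root line has no contact with the gas before `u` (helper45's `NoCt`);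
* `SPA_le` : the tree integral of `1[link] gh · termA(d)` over the pair law.
-/

set_option autoImplicit false

open MeasureTheory Set Filter
open scoped ENNReal Topology
open Crest.AnalysisR.Kinetic
open Crest.Agent.R122.Kin796 Crest.Agent.R122.Kin796.CTree Crest.Agent.R122.Tree674
open Crest.Agent.R122.EDefs602 Crest.Agent.R122.TreeLines335 Crest.Agent.R122.LineMeas994
open Crest.Agent.R122.GC311 Crest.Agent.R122.QDens815 Crest.Agent.R122.Q1815
open Crest.Agent.R122.SPV994 Crest.Agent.R122.Decomp811 Crest.Agent.R122.Weight984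
open Crest.Agent.R122.MeasE416
open Crest.Agent.R122.Boost969 (LSt posAt)
open Crest.Agent.R122.Pair292 (Lab PPar PX sig shM)

namespace Crest.Agent.R122.H5994

noncomputable section

open scoped Classical

/-! ## From the tree integral to the shapes -/

section

variable {Φ : Space3 → ℝ} {f₀ : PhasePoint → ℝ} {ε : ℝ}

theorem TS_le_shape (hf : Measurable f₀) {te : ℝ} {K : ℕ}
    {H : (P : CTree) → PhasePoint × Par P → (m : ℕ) → Config m → ℝ≥0∞}
    {F : (P : CTree) → (Σ n : ℕ, Config n) → PhasePoint × Par P → ℝ≥0∞}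
    (h : ∀ P z m w, Valid Φ ε P te z.1.2 z.2 → H P z m w ≤
      if P.leaves ≤ K ∧ Sep Φ ε P te z.1 z.2 then F P ⟨m, w⟩ z else 0) :
    InEq2.TS Φ f₀ ε te H ≤ ∑ P ∈ GIVStep383.trees K, ∫⁻ z, ∫⁻ w,
      tws Φ f₀ ε te P z * F P w z ∂gcM f₀ ε := by
  rw [TS_eq]
  have h1 : ∀ P : CTree, ∫⁻ z : PhasePoint × Par P, tw₀ Φ f₀ ε te P z *
      gcE f₀ ε (fun m w => H P z m w) ≤
      if P ∈ GIVStep383.trees K then ∫⁻ z, ∫⁻ w, tws Φ f₀ ε te P z * F P w z ∂gcM f₀ ε else 0 := by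
    intro P
    by_cases hP : P ∈ GIVStep383.trees K
    · rw [if_pos hP]
      refine lintegral_mono fun z => ?_
      rw [gcE_eq_lintegral hf, ← lintegral_const_mul' _ _ tw₀_ne_top]
      refine lintegral_mono fun w => ?_
      by_cases hV : Valid Φ ε P te z.1.2 z.2
      · have h2 := h P z w.1 w.2 hV
        by_cases hS : Sep Φ ε P te z.1 z.2
        · rw [if_pos ⟨GIVStep383.mem_trees.1 hP, hS⟩] at h2
          unfold tws
          rw [if_pos ⟨hV, hS⟩]
          exact mul_le_mul_right h2 _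
        · rw [if_neg fun hc => hS hc.2] at h2
          have h3 : H P z w.1 w.2 = 0 := le_antisymm h2 bot_le
          simp only [h3, mul_zero]
          exact bot_le
      · simp only [tw₀_of_not_valid hV, zero_mul]
        exact bot_le
    · rw [if_neg hP]
      refine le_of_eq ?_
      have h3 : ∀ z : PhasePoint × Par P, tw₀ Φ f₀ ε te P z *
          gcE f₀ ε (fun m w => H P z m w) = 0 := by
        intro z
        by_cases hV : Valid Φ ε P te z.1.2 z.2
        · have h4 : gcE f₀ ε (fun m w => H P z m w) ≤ gcE f₀ ε (fun _ _ => 0) := by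
            refine gcE_mono f₀ ε fun m w _ => ?_
            have h2 := h P z m w hV
            rwa [if_neg fun hc => hP (GIVStep383.mem_trees.2 hc.1)] at h2
          rw [gcE_zero] at h4
          rw [le_antisymm h4 bot_le, mul_zero]
        · rw [tw₀_of_not_valid hV, zero_mul]
      simp only [h3, lintegral_zero]
  refine (ENNReal.tsum_le_tsum h1).trans (le_of_eq ?_)
  rw [tsum_eq_sum (s := GIVStep383.trees K) fun P hP => if_neg hP]
  exact Finset.sum_congr rfl fun P hP => if_pos hP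

/-- back to the tree integral -/
theorem sum_le_TS (hf : Measurable f₀) {te : ℝ} {K : ℕ}
    {F : (P : CTree) → (Σ n : ℕ, Config n) → PhasePoint × Par P → ℝ≥0∞} :
    ∑ P ∈ GIVStep383.trees K, ∫⁻ z, ∫⁻ w, tws Φ f₀ ε te P z * F P w z ∂gcM f₀ ε ≤
      InEq2.TS Φ f₀ ε te fun P z m w =>
        if P.leaves ≤ K ∧ Sep Φ ε P te z.1 z.2 then F P ⟨m, w⟩ z else 0 := by
  rw [TS_eq]
  refine le_trans (Finset.sum_le_sum fun P hP => ?_) (ENNReal.sum_le_tsum (GIVStep383.trees K))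
  refine lintegral_mono fun z => ?_
  rw [gcE_eq_lintegral hf, ← lintegral_const_mul' _ _ tw₀_ne_top]
  refine lintegral_mono fun w => ?_
  unfold tws
  by_cases hV : Valid Φ ε P te z.1.2 z.2 ∧ Sep Φ ε P te z.1 z.2
  · rw [if_pos hV, if_pos ⟨GIVStep383.mem_trees.1 hP, hV.2⟩]
  · rw [if_neg hV, zero_mul]
    exact bot_le

end

/-! ## First touch time of the lines of a tree -/

theorem measurable_fold_min {Ω κ : Type*} [MeasurableSpace Ω] (s : Finset κ) {f : κ → Ω → ℝ}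
    (hf : ∀ k, Measurable (f k)) (b : ℝ) : Measurable fun ω => s.fold min b (fun k => f k ω) := by
  induction s using Finset.induction_on with
  | empty => simp
  | insert a s ha ih =>
      simp only [Finset.fold_insert ha]
      exact (hf a).min ih

variable (Φ : Space3 → ℝ) (ε : ℝ) (K : ℕ) (te : ℝ)

/-- first touch time of the lines of the tree in the gas world -/
def fT (P : CTree) (w : Σ n : ℕ, Config n) (z : PhasePoint × Par P) : ℝ :=
  firstT Φ ε K te (MW.cfg w.2) (lineMM Φ ε P z)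

/-- one of the lines seen at the link time realises the first touch time -/
def rst (P : CTree) (w : Σ n : ℕ, Config n) (z : PhasePoint × Par P) (u : ℝ) : Prop :=
  fT Φ ε K te P w z ≤ te → ∃ i, θ₀ Φ ε K te w (lineU Φ ε P z u i) = fT Φ ε K te P w z

variable {Φ ε K te}

theorem measurable_fT (hΦ : AdmissiblePotential Φ) (hε : 0 < ε) (P : CTree) :
    Measurable fun q : (Σ n : ℕ, Config n) × (PhasePoint × Par P) =>
      fT Φ ε K te P q.1 q.2 := by
  unfold fT firstT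
  refine measurable_fold_min _ (fun k => ?_) _
  have hq : Measurable fun q : (Σ n : ℕ, Config n) × (PhasePoint × Par P) =>
      (q.1, lineMM Φ ε P q.2 k) :=
    measurable_fst.prodMk ((measurable_lineMM hΦ ε P k).comp measurable_snd)
  have h := (measurable_θ₀ hΦ hε K te).comp hq
  exact h

theorem measurableSet_rst (hΦ : AdmissiblePotential Φ) (hε : 0 < ε) (P : CTree) :
    MeasurableSet {q : (Σ n : ℕ, Config n) × ((PhasePoint × Par P) × ℝ) |
      rst Φ ε K te P q.1 q.2.1 q.2.2} := by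
  have h1 : Measurable fun q : (Σ n : ℕ, Config n) × ((PhasePoint × Par P) × ℝ) =>
      fT Φ ε K te P q.1 q.2.1 :=
    (measurable_fT hΦ hε P).comp (measurable_fst.prodMk measurable_snd.fst)
  have h2 : ∀ i, Measurable fun q : (Σ n : ℕ, Config n) × ((PhasePoint × Par P) × ℝ) =>
      θ₀ Φ ε K te q.1 (lineU Φ ε P q.2.1 q.2.2 i) := by
    intro i
    have hq : Measurable fun q : (Σ n : ℕ, Config n) × ((PhasePoint × Par P) × ℝ) =>
        (q.1, lineU Φ ε P q.2.1 q.2.2 i) :=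
      measurable_fst.prodMk ((measurable_lineU hΦ ε P i).comp measurable_snd)
    have h := (measurable_θ₀ hΦ hε K te).comp hq
    exact h
  have h3 : {q : (Σ n : ℕ, Config n) × ((PhasePoint × Par P) × ℝ) |
      rst Φ ε K te P q.1 q.2.1 q.2.2} =
      {q | fT Φ ε K te P q.1 q.2.1 ≤ te}ᶜ ∪ ⋃ i, {q | θ₀ Φ ε K te q.1
        (lineU Φ ε P q.2.1 q.2.2 i) = fT Φ ε K te P q.1 q.2.1} := by
    ext q
    simp only [mem_union, mem_compl_iff, mem_iUnion]
    show (fT Φ ε K te P q.1 q.2.1 ≤ te → ∃ i, θ₀ Φ ε K te q.1 (lineU Φ ε P q.2.1 q.2.2 i) =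
      fT Φ ε K te P q.1 q.2.1) ↔ ¬ (fT Φ ε K te P q.1 q.2.1 ≤ te) ∨ ∃ i, θ₀ Φ ε K te q.1
        (lineU Φ ε P q.2.1 q.2.2 i) = fT Φ ε K te P q.1 q.2.1
    tauto
  rw [h3]
  exact (measurableSet_le h1 measurable_const).compl.union
    (MeasurableSet.iUnion fun i => measurableSet_eq_fun (h2 i) h1)

theorem lineU_root (P : CTree) (z : PhasePoint × Par P) (u : ℝ) :
    lineU Φ ε P z u (root P) = Ins45.reb (lineML Φ ε P z (root P)) u := by
  unfold lineU Ins45.reb lineML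
  rw [if_pos rfl]
  refine Prod.ext (Prod.ext rfl ?_) (mk_root P).symm
  simp only
  rw [PathFlow968.fin_root]
  unfold Ins45.lineAt onLine
  refine Prod.ext ?_ rfl
  simp only
  rw [add_assoc, ← add_smul, add_sub_cancel]

theorem rst_of_noCt (hΦ : AdmissiblePotential Φ) (hε : 0 < ε) {P : CTree}
    {w : Σ n : ℕ, Config n} {z : PhasePoint × Par P} {u : ℝ} (hV : Adm Φ P z.1.2 z.2)
    (hno : Ins45.NoCt Φ ε (MW.cfg w.2) (lineML Φ ε P z (root P)) u)
    (hok : ((MW.cfg w.2).ins (lineML Φ ε P z (root P))).Ok Φ ε) :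
    rst Φ ε K te P w z u := by
  intro hfT
  obtain ⟨i, hi⟩ := exists_firstT (Z := MW.cfg w.2) (F := lineMM Φ ε P z) (Φ := Φ) (ε := ε)
    (K := K) (T := te) (lt_of_le_of_lt hfT (by linarith))
  refine ⟨i, ?_⟩
  by_cases hr : i = root P
  · subst hr
    rw [lineU_root P z u]
    unfold θ₀ fT
    rw [hno.thetaL_reb hΦ hε hok te, ← hi, lineMM_of_adm ε hV]
  · unfold θ₀ fT lineU
    rw [if_neg hr]
    exact hi

/-! ## SP-A -/

section A

variable {ξ : CTree → Type} [∀ P, Fintype (ξ P)] (A : ∀ P : CTree, PhasePoint × Par P → MW (ξ P))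
  (G : (P : CTree) → (Σ n : ℕ, Config n) → PhasePoint × Par P → Prop)

/-- touch times of lines in the world `w + A` -/
def θA (Φ : Space3 → ℝ) (ε : ℝ) (K : ℕ) (te : ℝ) (P : CTree) (w : Σ n : ℕ, Config n)
    (z : PhasePoint × Par P) (l : ML) : ℝ :=
  ((MW.cfg w.2).add (A P z)).thetaL Φ ε K te l

theorem measurable_θA (hΦ : AdmissiblePotential Φ) (hε : 0 < ε) (hA : ∀ P, MeasW (A P))
    (P : CTree) : Measurable fun q : ((Σ n : ℕ, Config n) × (PhasePoint × Par P)) × ML =>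
      θA A Φ ε K te P q.1.1 q.1.2 q.2 := by
  have h : Measurable fun q : (Σ n : ℕ, Config n) × ((PhasePoint × Par P) × ML) =>
      θA A Φ ε K te P q.1 q.2.1 q.2.2 := by
    refine Q1815.measurable_sigma_prod fun n => ?_
    exact ((MeasW.cfg (w := fun q : Config n × ((PhasePoint × Par P) × ML) => q.1)
      measurable_fst).add ((hA P).comp measurable_snd.fst)).thetaL hΦ hε
        (measurable_snd.snd) K measurable_const
  exact h.comp (measurable_fst.fst.prodMk (measurable_fst.snd.prodMk measurable_snd))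

/-- integrand of the errors of SP-A; `G` = the good structures (real tree in `w + A`) -/
def errA (Φ : Space3 → ℝ) (ε : ℝ) (K : ℕ) (Q : EPar) (P : CTree) (z : PhasePoint × Par P)
    (m : ℕ) (w : Config m) : ℝ≥0∞ :=
  if P.leaves ≤ K ∧ Sep Φ ε P Q.te z.1 z.2 then
    ENNReal.ofReal (1 + ‖z.1.2‖) * (gh Φ ε Q.tw P z ⟨m, w⟩ *
      if G P ⟨m, w⟩ z then min 1 (lk Φ ε K Q (MW.cfg w) (A P z) (lineMM Φ ε P z)) else 0)
  else 0

/-- the test function of SP-A -/
def ΘA (Φ : Space3 → ℝ) (ε : ℝ) (K : ℕ) (Q : EPar) (n : ℕ) (w : Config n) (l : ML) : ℝ≥0∞ :=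
  Θl (lineM Q.γ Q.ρ K Q.te) Q.L Q.te (θ₀ Φ ε K Q.te) ⟨n, w⟩ l

/-- the weight at the first touch time -/
def WA (Φ : Space3 → ℝ) (ε : ℝ) (K : ℕ) (Q : EPar) (P : CTree) (w : Σ n : ℕ, Config n)
    (z : PhasePoint × Par P) : ℝ≥0∞ :=
  if fT Φ ε K Q.te P w z ≤ Q.te then
    W Q.L (lineM Q.γ Q.ρ K Q.te {l | θA A Φ ε K Q.te P w z l ≤ fT Φ ε K Q.te P w z}) else 0

/-- weight of the errors of SP-A at fixed `(w, z)` -/
def eA (Φ : Space3 → ℝ) (ε : ℝ) (K : ℕ)
    (Q : EPar) (P : CTree) (w : Σ n : ℕ, Config n) (z : PhasePoint × Par P) : ℝ≥0∞ :=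
  if G P w z then min 1 (lk Φ ε K Q (MW.cfg w.2) (A P z) (lineMM Φ ε P z)) else 0

variable {A G}

theorem WA_le {Q : EPar} (hL : 0 < Q.L) {P : CTree} {w : Σ n : ℕ, Config n}
    {z : PhasePoint × Par P} {u : ℝ} (hr : rst Φ ε K Q.te P w z u) (hG : G P w z) :
    WA A Φ ε K Q P w z ≤ ∑ i, sigF (ΘA Φ ε K Q) w (lineU Φ ε P z u i) +
      eA A G Φ ε K Q P w z := by
  unfold eA
  rw [if_pos hG]
  rcases le_total 1 (lk Φ ε K Q (MW.cfg w.2) (A P z) (lineMM Φ ε P z)) with h0 | h0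
  · rw [min_eq_left h0]
    refine le_trans ?_ le_add_self
    unfold WA
    split_ifs
    · exact W_le_one hL.le _
    · exact zero_le_one
  rw [min_eq_right h0]
  unfold WA
  by_cases h1 : fT Φ ε K Q.te P w z ≤ Q.te
  swap
  · rw [if_neg h1]; exact bot_le
  rw [if_pos h1]
  obtain ⟨i, hi⟩ := hr h1
  have h3 := W_firstT_le (P := Q) (w₂ := MW.cfg w.2) (A := A P z) (F := lineMM Φ ε P z)
    (Φ := Φ) (ε := ε) (K := K) hL
  refine le_trans (b := (MW.cfg w.2).W Φ ε K Q (fT Φ ε K Q.te P w z) +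
    lk Φ ε K Q (MW.cfg w.2) (A P z) (lineMM Φ ε P z)) h3 (add_le_add ?_ le_rfl)
  refine le_trans ?_ (Finset.single_le_sum
    (f := fun i => sigF (ΘA Φ ε K Q) w (lineU Φ ε P z u i)) (fun _ _ => zero_le)
    (Finset.mem_univ i))
  show _ ≤ Θl (lineM Q.γ Q.ρ K Q.te) Q.L Q.te (θ₀ Φ ε K Q.te) w (lineU Φ ε P z u i)
  unfold Θl
  rw [hi, if_pos h1]
  refine W_anti hL.le (measure_mono fun l hl => ?_)
  exact le_of_lt (show θ₀ Φ ε K Q.te w l < fT Φ ε K Q.te P w z from hl)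

/-- link set of a tree -/
def LinkS (ε te : ℝ) (P : CTree) (z : PhasePoint × Par P) : Set (Lab × LSt) :=
  {p | LinkEv ε te (rel P z.2 (root P)) z.1 p.2}

theorem LinkS_eq {Φ : Space3 → ℝ} (hΦ : AdmissiblePotential Φ) {f₀ : PhasePoint → ℝ}
    (hf : Measurable f₀) {ε : ℝ} (hε : 0 < ε) (tw te r : ℝ) (P : CTree)
    (z : PhasePoint × Par P) : LinkS ε te P z =
      (shape hΦ hf hε te tw te r P).Bo z ∪ (shape hΦ hf hε te tw te r P).By z := by
  ext p
  constructor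
  · intro h
    rcases le_or_gt r (hitT ε z.1 p.2 - sig p.1) with h1 | h1
    · exact Or.inl ⟨h, h1⟩
    · exact Or.inr ⟨h, h1⟩
  · rintro (h | h)
    · exact h.1
    · exact h.1

theorem measurable_ΘA {Φ : Space3 → ℝ} (hΦ : AdmissiblePotential Φ) {ε : ℝ} (hε : 0 < ε)
    {K : ℕ} {Q : EPar} (n : ℕ) :
    Measurable fun q : Config n × ML => ΘA Φ ε K Q n q.1 q.2 := by
  have h := measurable_Θl (lineM Q.γ Q.ρ K Q.te) Q.L Q.te (measurable_θ₀ hΦ hε K Q.te)
  have hq : Measurable fun q : Config n × ML => ((⟨n, q.1⟩ : Σ n : ℕ, Config n), q.2) :=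
    ((Q1815.measurableEmbedding_sigmaMk n).measurable.comp measurable_fst).prodMk measurable_snd
  exact h.comp hq

/-- algebra of the pointwise bound -/
theorem alg_pt {x a g s e W' : ℝ≥0∞} {p : Prop} [Decidable p] (h : p → W' ≤ s + e) :
    x * (a * (g * if p then 1 else 0) * W') ≤ x * (a * g * s) + a * (g * e) * x := by
  by_cases hp : p
  · rw [if_pos hp, mul_one]
    calc x * (a * g * W') ≤ x * (a * g * (s + e)) := by
          gcongr
          exact h hp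
      _ = _ := by ring
  · rw [if_neg hp, mul_zero, mul_zero, zero_mul, mul_zero]
    exact bot_le

/-- splitting of a triple integral -/
theorem int_split {Z' Ω' : Type*} [MeasurableSpace Z'] [MeasurableSpace Ω'] (mZ : Measure Z')
    (mΩ : Measure Ω') [SFinite mΩ] {R F : Z' → Ω' → ℝ → ℝ≥0∞} {B : Z' → Ω' → ℝ≥0∞}
    {rd : Z' → ℝ → ℝ≥0∞} {c : Z' → ℝ≥0∞}
    (hR : Measurable fun q : (Z' × Ω') × ℝ => R q.1.1 q.1.2 q.2)
    (hrd : ∀ z, Measurable (rd z)) (hle : ∀ z, ∫⁻ u, rd z u ≤ c z)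
    (hF : ∀ z w u, F z w u ≤ R z w u + B z w * rd z u) :
    ∫⁻ z, ∫⁻ w, ∫⁻ u, F z w u ∂volume ∂mΩ ∂mZ ≤
      (∫⁻ z, ∫⁻ w, ∫⁻ u, R z w u ∂volume ∂mΩ ∂mZ) + ∫⁻ z, ∫⁻ w, B z w * c z ∂mΩ ∂mZ := by
  have h1 : Measurable fun q : Z' × Ω' => ∫⁻ u, R q.1 q.2 u := hR.lintegral_prod_right'
  have h2 : Measurable fun z : Z' => ∫⁻ w, ∫⁻ u, R z w u ∂volume ∂mΩ := h1.lintegral_prod_right'
  rw [← lintegral_add_left h2]
  refine lintegral_mono fun z => ?_
  have h3 : Measurable fun w : Ω' => ∫⁻ u, R z w u :=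
    h1.comp (measurable_const.prodMk measurable_id : Measurable fun w : Ω' => (z, w))
  show ∫⁻ w, ∫⁻ u, F z w u ∂volume ∂mΩ ≤ (∫⁻ w, ∫⁻ u, R z w u ∂volume ∂mΩ) +
    ∫⁻ w, B z w * c z ∂mΩ
  rw [← lintegral_add_left h3]
  refine lintegral_mono fun w => ?_
  have h4 : Measurable fun u : ℝ => R z w u := by
    have hq : Measurable fun u : ℝ => ((z, w), u) := measurable_const.prodMk measurable_id
    exact hR.comp hq
  calc ∫⁻ u, F z w u ≤ ∫⁻ u, (R z w u + B z w * rd z u) := lintegral_mono fun u => hF z w u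
    _ = (∫⁻ u, R z w u) + B z w * ∫⁻ u, rd z u := by
        rw [lintegral_add_left h4, lintegral_const_mul _ (hrd z)]
    _ ≤ (∫⁻ u, R z w u) + B z w * c z := by
        gcongr
        exact hle z

section main

variable {Φ : Space3 → ℝ} (hΦ : AdmissiblePotential Φ) {f₀ : PhasePoint → ℝ}
  (hf : Measurable f₀) {ε : ℝ} (hε : 0 < ε) {K : ℕ} {Q : EPar} {r : ℝ} {ν : Measure (Lab × LSt)}
  {c₆ c₇ : ℝ≥0∞}

/-- the weight of the link at time `u` -/
def HA (G : (P : CTree) → (Σ n : ℕ, Config n) → PhasePoint × Par P → Prop) (Φ : Space3 → ℝ) (f₀ : PhasePoint → ℝ) (ε : ℝ) (K : ℕ) (Q : EPar) (P : CTree)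
    (w : Σ n : ℕ, Config n) (z : PhasePoint × Par P) (u : ℝ) : ℝ≥0∞ :=
  tws Φ f₀ ε Q.te P z * (gh Φ ε Q.tw P z w *
    if rst Φ ε K Q.te P w z u ∧ G P w z then (1 : ℝ≥0∞) else 0)

/-- integrand of SP-A -/
def FAt (A : ∀ P : CTree, PhasePoint × Par P → MW (ξ P))
    (G : (P : CTree) → (Σ n : ℕ, Config n) → PhasePoint × Par P → Prop) (Φ : Space3 → ℝ)
    (f₀ : PhasePoint → ℝ) (ε : ℝ) (K : ℕ) (Q : EPar) (P : CTree)
    (w : Σ n : ℕ, Config n) (z : PhasePoint × Par P) (p : Lab × LSt) : ℝ≥0∞ :=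
  tws Φ f₀ ε Q.te P z * (gh Φ ε Q.tw P z w *
        if rst Φ ε K Q.te P w z (hitT ε z.1 p.2) ∧ G P w z then
          termA Φ ε K Q (MW.cfg w.2) (A P z) (lineMM Φ ε P z) p.1.1 else 0)

include hΦ hf hε in
theorem measurable_HA (hG : ∀ P, MeasurableSet {q : (Σ n : ℕ, Config n) × (PhasePoint × Par P) |
      G P q.1 q.2}) (P : CTree) : Measurable fun q : (Σ n : ℕ, Config n) ×
    (PhasePoint × Par P) × ℝ => HA G Φ f₀ ε K Q P q.1 q.2.1 q.2.2 := by
  unfold HA
  refine ((measurable_tws hΦ hf hε Q.te P).comp measurable_snd.fst).mul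
    (((measurable_gh hΦ hε Q.tw P).comp (measurable_fst.prodMk measurable_snd.fst)).mul ?_)
  refine Measurable.ite ?_ measurable_const measurable_const
  have hq : Measurable fun q : (Σ n : ℕ, Config n) × (PhasePoint × Par P) × ℝ =>
      (q.1, q.2.1) := measurable_fst.prodMk measurable_snd.fst
  exact (measurableSet_rst hΦ hε P).inter (hq (hG P))

theorem FAt_le (P : CTree) (w : Σ n : ℕ, Config n) (z : PhasePoint × Par P) (p : Lab × LSt) :
    FAt A G Φ f₀ ε K Q P w z p ≤ HA G Φ f₀ ε K Q P w z (hitT ε z.1 p.2) *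
      Aw (lineM Q.γ Q.ρ K Q.te) Q.L Q.te (fT Φ ε K Q.te P w z) (θA A Φ ε K Q.te P w z) p.1.1 := by
  have h : (if rst Φ ε K Q.te P w z (hitT ε z.1 p.2) ∧ G P w z then
          termA Φ ε K Q (MW.cfg w.2) (A P z) (lineMM Φ ε P z) p.1.1 else 0) =
      (if rst Φ ε K Q.te P w z (hitT ε z.1 p.2) ∧ G P w z then (1 : ℝ≥0∞) else 0) *
        termA Φ ε K Q (MW.cfg w.2) (A P z) (lineMM Φ ε P z) p.1.1 := by
    split_ifs <;> simp
  unfold FAt HA
  rw [h, mul_assoc, mul_assoc]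
  exact le_rfl

include hΦ hf hε in
/-- SP-A for one shape, first form -/
theorem spa_one0 (hA : ∀ P, MeasW (A P))
    (hG : ∀ P, MeasurableSet {q : (Σ n : ℕ, Config n) × (PhasePoint × Par P) | G P q.1 q.2})
    (hL : 0 < Q.L)
    (hc : c₆ * ENNReal.ofReal (1 / Q.L) + c₇ ≠ ∞) (P : CTree)
    (h6 : ∀ z, S6 ν (fun p => p.1.1) (lineM Q.γ Q.ρ K Q.te) volume c₆
      ((shape hΦ hf hε Q.te Q.tw Q.te r P).lt z) ((shape hΦ hf hε Q.te Q.tw Q.te r P).Bo z)
      ((shape hΦ hf hε Q.te Q.tw Q.te r P).rd z))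
    (h7 : ∀ z, Y6 ν volume c₇
      ((shape hΦ hf hε Q.te Q.tw Q.te r P).lt z) ((shape hΦ hf hε Q.te Q.tw Q.te r P).By z)
      ((shape hΦ hf hε Q.te Q.tw Q.te r P).rd z)) :
    ∫⁻ z, ∫⁻ w, ∫⁻ p in LinkS ε Q.te P z, FAt A G Φ f₀ ε K Q P w z p ∂ν ∂gcM f₀ ε ≤
      (c₆ * ENNReal.ofReal (1 / Q.L) + c₇) * ∫⁻ z : PhasePoint × Par P, ∫⁻ w, ∫⁻ u,
        rdL Q.te (rel P z.2 (root P)) z.1 u * (HA G Φ f₀ ε K Q P w z u * WA A Φ ε K Q P w z)
          ∂volume ∂gcM f₀ ε := by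
  have h1 := spA0 (shape hΦ hf hε Q.te Q.tw Q.te r P) (gcM f₀ ε) volume volume ν
    (d := fun p => p.1.1) (lineM Q.γ Q.ρ K Q.te) (L := Q.L) (te := Q.te) hL hc h6 h7
    (θV := fun w z l => θA A Φ ε K Q.te P w z l) (measurable_θA A hΦ hε hA P)
    (tL := fun w z => fT Φ ε K Q.te P w z)
    (H := fun w z u => HA G Φ f₀ ε K Q P w z u) (measurable_HA hΦ hf hε hG P)
    (FA := fun w z p => FAt A G Φ f₀ ε K Q P w z p) (fun w z p _ => FAt_le P w z p)
  simp only [LinkS_eq hΦ hf hε Q.tw Q.te r]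
  exact h1

include hΦ hf hε in
theorem measurable_shapeE (P : CTree) {Θ : (n : ℕ) → Config n → ML → ℝ≥0∞}
    (hΘ : ∀ n, Measurable fun q : Config n × ML => Θ n q.1 q.2) :
    Measurable fun q : ((PhasePoint × Par P) × (Σ n : ℕ, Config n)) × ℝ =>
      rdL Q.te (rel P q.1.1.2 (root P)) q.1.1.1 q.2 *
        (tws Φ f₀ ε Q.te P q.1.1 * gh Φ ε Q.tw P q.1.1 q.1.2 *
          ∑ i, sigF Θ q.1.2 (lineU Φ ε P q.1.1 q.2 i)) := by
  refine (measurable_rdL Q.te ((measurable_rel P (root P)).comp measurable_fst.fst.snd)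
    measurable_fst.fst.fst measurable_snd).mul ((((measurable_tws hΦ hf hε Q.te P).comp
      measurable_fst.fst).mul ((measurable_gh hΦ hε Q.tw P).comp
        (measurable_fst.snd.prodMk measurable_fst.fst))).mul
          (Finset.measurable_sum _ fun i _ => ?_))
  have hq : Measurable fun q : ((PhasePoint × Par P) × (Σ n : ℕ, Config n)) × ℝ =>
      (q.1.2, lineU Φ ε P q.1.1 q.2 i) :=
    measurable_fst.snd.prodMk ((measurable_lineU hΦ ε P i).comp
      (measurable_fst.fst.prodMk measurable_snd))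
  have h := (measurable_sigF hΘ).comp hq
  exact h

theorem EI_eq (r : ℝ) (P : CTree) (Θ : (n : ℕ) → Config n → ML → ℝ≥0∞) :
    (shape hΦ hf hε Q.te Q.tw Q.te r P).EI (gcM f₀ ε) volume volume (sigF Θ) =
      ∫⁻ z : PhasePoint × Par P, ∫⁻ w, ∫⁻ u, rdL Q.te (rel P z.2 (root P)) z.1 u *
        (tws Φ f₀ ε Q.te P z * gh Φ ε Q.tw P z w *
          ∑ i, sigF Θ w (lineU Φ ε P z u i)) ∂volume ∂gcM f₀ ε := by
  unfold Shape.EI
  refine lintegral_congr fun z => lintegral_congr fun w => lintegral_congr fun u => ?_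
  have e3 : (shape hΦ hf hε Q.te Q.tw Q.te r P).E (sigF Θ) w z u =
      ∑ i, tws Φ f₀ ε Q.te P z * gh Φ ε Q.tw P z w * sigF Θ w (lineU Φ ε P z u i) := rfl
  rw [e3, ← Finset.mul_sum]
  rfl

/-- SP-A for one shape -/
theorem spa_one (hA : ∀ P, MeasW (A P))
    (hG : ∀ P, MeasurableSet {q : (Σ n : ℕ, Config n) × (PhasePoint × Par P) | G P q.1 q.2})
    (hL : 0 < Q.L)
    (hc : c₆ * ENNReal.ofReal (1 / Q.L) + c₇ ≠ ∞) (P : CTree)
    (h6 : ∀ z, S6 ν (fun p => p.1.1) (lineM Q.γ Q.ρ K Q.te) volume c₆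
      ((shape hΦ hf hε Q.te Q.tw Q.te r P).lt z) ((shape hΦ hf hε Q.te Q.tw Q.te r P).Bo z)
      ((shape hΦ hf hε Q.te Q.tw Q.te r P).rd z))
    (h7 : ∀ z, Y6 ν volume c₇
      ((shape hΦ hf hε Q.te Q.tw Q.te r P).lt z) ((shape hΦ hf hε Q.te Q.tw Q.te r P).By z)
      ((shape hΦ hf hε Q.te Q.tw Q.te r P).rd z)) :
    ∫⁻ z, ∫⁻ w, ∫⁻ p in LinkS ε Q.te P z, FAt A G Φ f₀ ε K Q P w z p ∂ν ∂gcM f₀ ε ≤
      (c₆ * ENNReal.ofReal (1 / Q.L) + c₇) *
        ((shape hΦ hf hε Q.te Q.tw Q.te r P).EI (gcM f₀ ε) volume volume (sigF (ΘA Φ ε K Q)) +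
        ENNReal.ofReal Q.te * ∫⁻ z, ∫⁻ w, tws Φ f₀ ε Q.te P z * (ENNReal.ofReal (1 + ‖z.1.2‖) *
          (gh Φ ε Q.tw P z w * eA A G Φ ε K Q P w z)) ∂gcM f₀ ε) := by
  refine (spa_one0 hΦ hf hε hA hG hL hc P h6 h7).trans (mul_le_mul_right ?_ _)
  refine (int_split volume (gcM f₀ ε)
    (R := fun z w u => rdL Q.te (rel P z.2 (root P)) z.1 u *
        (tws Φ f₀ ε Q.te P z * gh Φ ε Q.tw P z w *
          ∑ i, sigF (ΘA Φ ε K Q) w (lineU Φ ε P z u i)))
    (B := fun z w => tws Φ f₀ ε Q.te P z * (gh Φ ε Q.tw P z w * eA A G Φ ε K Q P w z))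
    (rd := fun z u => rdL Q.te (rel P z.2 (root P)) z.1 u)
    (c := fun z => ENNReal.ofReal Q.te * ENNReal.ofReal (1 + ‖z.1.2‖))
    (measurable_shapeE hΦ hf hε P fun n => measurable_ΘA hΦ hε n)
    (fun z => measurable_rdL Q.te measurable_const measurable_const measurable_id)
    (fun z => lintegral_rd_le) (fun z w u => ?_)).trans ?_
  · unfold HA
    exact alg_pt fun hr => WA_le hL hr.1 hr.2
  · rw [EI_eq]
    refine add_le_add le_rfl ?_
    rw [← lintegral_const_mul' _ _ ENNReal.ofReal_ne_top]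
    refine lintegral_mono fun z => ?_
    rw [← lintegral_const_mul' _ _ ENNReal.ofReal_ne_top]
    refine lintegral_mono fun w => le_of_eq ?_
    simp only
    ring

end main

end A

end

end Crest.Agent.R122.H5994
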