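import Crest.Agent.R122.E6Real_811
import Crest.Agent.R122.RootNo_45
import Crest.Agent.R122.R6Tree_974
import Crest.Agent.R122.H5A_994
import Crest.Agent.R122.InEq2TPt_335

/-!
# StmtPt6 : pointwise inequality of E6 on the real contact structures (row 122), helper811

* `exists_reb`, `thetaL_reb_d` : the root line reborn at `σ` (a time up to which it has no contact in
  `w₂ + exits`, `w₂ + d + exits`).
* `hitT_eq` : 994's `hitT` is 285's `cT`.
* `tO6`, `tY6` : the literal terms.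
* `Base6`, `Enc6` : the deterministic data; `core_old`, `core_young` : the inequalities. `Enc6` is
  used only in the case `Early6`.
-/

set_option autoImplicit false
set_option linter.unusedSectionVars false

open MeasureTheory Set Filter Topology
open scoped ENNReal
open Crest.AnalysisR.Kinetic
open Crest.Agent.R122.Inf879 Crest.Agent.R122.EDefs602
open Crest.Agent.R122.Kin796 Crest.Agent.R122.Kin796.CTree Crest.Agent.R122.Tree674
open Crest.Agent.R122.TreeLines335 Crest.Agent.R122.Decomp811 Crest.Agent.R122.MWAlg255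
open Crest.Agent.R122.MWFam255 Crest.Agent.R122.E6Hyp879 Crest.Agent.R122.Ins45
open Crest.Agent.R122.LineMeas994
open Crest.Agent.R122.Boost969 (LSt)
open Crest.Agent.R122.Pair292 (Lab)
open Crest.Agent.R122.OneC285 (cfT rt cT cB cD cX)
open Crest.Agent.R122.PairD292

namespace Crest.Agent.R122.Pt6811

noncomputable section

open scoped Classical

/-- The instance used by helper45's theorems. -/
local instance (priority := 2000) othFintype6 {α : Type} [Fintype α] (c : α) : Fintype (Oth c) :=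
  Subtype.fintype fun k => k ≠ c

/-! ### The reborn root line -/

section reb

variable {ι κ ξ : Type} [Fintype ι] [Fintype κ] [Fintype ξ] {Φ : Space3 → ℝ} {ε T σ : ℝ} {K : ℕ}

/-- The touch time of the line and of the reborn line, if not later than the exits. -/
theorem thetaL_reb_of_sub {Y : MW ι} {E : MW ξ} {c : ML} (h : SubRoot Φ ε K T Y E c σ)
    (hΦ : AdmissiblePotential Φ) (hε : 0 < ε) (hT : 0 ≤ T) (h1 : Y.thetaL Φ ε K T c ≤ T)
    (h2 : Y.thetaL Φ ε K T c ≤ Y.theta Φ ε K T E) :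
    Y.thetaL Φ ε K T (reb c σ) = Y.thetaL Φ ε K T c := by
  obtain ⟨r, hr, x, k, hc⟩ := MW.exists_contact_le_theta hΦ hε h.y h.yc hT h1
    (by rw [Finset.univ_unique, Finset.sum_singleton]; exact h.cK)
  have hσ := h.lt_of_C hΦ hε h1 h2 hr.2 hc
  exact (h.noCt hΦ hε (hσ.trans_le hr.2).le h1 h2).thetaL_reb (K := K) hΦ hε h.yc T

variable {w₂ : MW ι} {F : κ → ML} {r : κ} {d e' c' : ML}

/-- In `w₂ + d`. -/
theorem thetaL_reb_d (hΦ : AdmissiblePotential Φ) (hε : 0 < ε) (hT : 0 ≤ T)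
    (hE : E6Hyp Φ ε K T w₂ F r d e' c') (hb : ∀ x, 0 ≤ (w₂.ins d).b x) (hK : (F r).2 ≤ K)
    (nc : NoCt Φ ε (Z0 w₂ F r d) (F r) σ) (h1 : (w₂.ins d).thetaL Φ ε K T (F r) ≤ T)
    (h2 : (w₂.ins d).thetaL Φ ε K T (F r) ≤ firstT Φ ε K T (w₂.ins d) F) :
    (w₂.ins d).thetaL Φ ε K T (reb (F r) σ) = (w₂.ins d).thetaL Φ ε K T (F r) := by
  have hsub : SubRoot Φ ε K T (w₂.ins d) (MW.lines fun i => F (exEmb r i)) (F r) σ :=
    SubRoot.of_fam hΦ hε hT (hE.okE hΦ hε) hE.nl₁ (exEmb r) (fun i => i.2) hb hK nc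
  refine thetaL_reb_of_sub hsub hΦ hε hT h1 ?_
  exact le_theta_lines hΦ hε hT (hE.okE hΦ hε) hE.nl₁ (exEmb r) h1
    fun i => h2.trans (firstT_le Φ ε K T (w₂.ins d) F i.1)

/-- Labels of the exits in `w₂ + F`. -/
def othE (ι κ : Type) (r : κ) : ι ⊕ {k : κ // k ≠ r} ≃ Oth (Sum.inr r : ι ⊕ κ) where
  toFun := Sum.elim (fun i => ⟨Sum.inl i, by simp⟩)
    fun k => ⟨Sum.inr k.1, fun h => k.2 (Sum.inr_injective h)⟩
  invFun x := match x with
    | ⟨Sum.inl i, _⟩ => Sum.inl i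
    | ⟨Sum.inr k, hk⟩ => Sum.inr ⟨k, fun h => hk (by rw [h])⟩
  left_inv := by rintro (i | k) <;> rfl
  right_inv := by rintro ⟨i | k, hx⟩ <;> rfl

theorem rest_ex (w₂ : MW ι) (F : κ → ML) (r : κ) :
    (rest (w₂.add (MW.lines F)) (Sum.inr r)).comap (othE ι κ r) =
      w₂.add (MW.lines (exF F r)) := by
  unfold rest MW.add MW.comap MW.lines
  congr 1 <;> · funext x; rcases x with x | x <;> rfl

/-- In `w₂`: one of the lines, the root reborn at `σ`, realises the first touch time. -/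
theorem exists_reb (hΦ : AdmissiblePotential Φ) (hε : 0 < ε) (hT : 0 ≤ T)
    (hE : E6Hyp Φ ε K T w₂ F r d e' c') (hb : ∀ x, 0 ≤ w₂.b x) (hK : (F r).2 ≤ K)
    (nc : NoCt Φ ε (w₂.add (MW.lines (exF F r))) (F r) σ) (h1 : firstT Φ ε K T w₂ F ≤ T) :
    ∃ k, w₂.thetaL Φ ε K T (if k = r then reb (F r) σ else F k) = firstT Φ ε K T w₂ F := by
  obtain ⟨k, hk⟩ := exists_firstT (Z := w₂) (F := F) (Φ := Φ) (ε := ε) (K := K) (T := T)
    (lt_of_le_of_lt h1 (by linarith))
  refine ⟨k, ?_⟩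
  by_cases hkr : k = r
  swap
  · rw [if_neg hkr]
    exact hk
  rw [if_pos hkr, ← hk, hkr]
  rw [hkr] at hk
  let f : {k : κ // k ≠ r} ↪ κ ⊕ Unit :=
    ⟨fun i => Sum.inl i.1, fun i j h => Subtype.ext (Sum.inl_injective h)⟩
  have hsub : SubRoot Φ ε K T w₂ (MW.lines fun i => withD F d (f i))
      (withD F d (Sum.inl r)) σ :=
    SubRoot.of_fam hΦ hε hT hE.ok₁ hE.nl₀ f (fun i h => i.2 (Sum.inl_injective h)) hb hK nc
  have h4 : w₂.thetaL Φ ε K T (F r) ≤ T := hk.le.trans h1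
  refine thetaL_reb_of_sub hsub hΦ hε hT h4 ?_
  exact le_theta_lines hΦ hε hT hE.ok₁ hE.nl₀ f h4
    fun i => hk.le.trans (firstT_le Φ ε K T w₂ F i.1)

end reb

/-! ### The link time -/

theorem hitT_eq (ε : ℝ) {P : CTree} (z : PhasePoint × Par P) (e : ML) :
    H5994.hitT ε z.1 e.1 = cT ε z e := by
  unfold H5994.hitT cT
  have h1 : OneC423.relL z.1 e.1 = (-H5994.rX z.1 e.1, -H5994.rV z.1 e.1) := by
    unfold OneC423.relL H5994.rX H5994.rV
    refine Prod.ext ?_ ?_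
    · simp only [neg_sub]
      congr 1
      unfold back Boost969.posAt
      simp only [zero_sub, neg_smul]
      abel
    · simp only [neg_sub]
  rw [h1]
  have h2 : ∀ x v : Space3, Flux663.tline (-x, -v) = Flux663.tline (x, v) := by
    intro x v
    unfold Flux663.tline
    simp only [inner_neg_neg, norm_neg]
  have h3 : ∀ x v : Space3, ‖Flux663.bline (-x, -v)‖ = ‖Flux663.bline (x, v)‖ := by
    intro x v
    unfold Flux663.bline
    rw [h2]
    simp only [smul_neg]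
    rw [← neg_add', ← sub_eq_add_neg, norm_neg]
  unfold OC663.entT
  rw [h2, h3]
  simp only [norm_neg]

/-! ### The literal terms -/

/-- Term (A): `d` touches `w + V` strictly after a line of the tree touched `w`; with 994's
indicator that one of the lines seen at the link time realises this first touch time. -/
def tA6 (Φ : Space3 → ℝ) (Q : EPar) (K : ℕ) (ε : ℝ) : SF2 := fun P z m w θ =>
  if H5994.rst Φ ε K Q.te P ⟨m, w⟩ z (H5994.hitT ε z.1 θ.2) then
    termA Φ ε K Q (MW.cfg w) (InEq2T.treeW Φ ε P z) (lineMM Φ ε P z) (dL θ) else 0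

/-- Terms (A) and (B) (old contacts). -/
def tO6 (Φ : Space3 → ℝ) (Q : EPar) : ℕ → ℝ → SF2 := fun K ε P z m w θ =>
  tA6 Φ Q K ε P z m w θ + ∑ k ∈ Finset.univ.filter (fun k => k ≠ root P),
    termB Φ ε K Q (MW.cfg w) (dL θ) (lineMM Φ ε P z k)

/-- Young contacts. -/
def tY6 (Φ : Space3 → ℝ) (Q : EPar) : ℕ → ℝ → SF2 := fun K ε P z m w θ =>
  tA6 Φ Q K ε P z m w θ + (MW.cfg w).touchW Φ ε K Q (dL θ)

/-- The comparison of the weights. -/
def lk6 (Φ : Space3 → ℝ) (Q : EPar) : ℕ → ℝ → SF2 := fun K ε P z _ w θ =>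
  (lk Φ ε K Q (MW.cfg w) (RealL811.treeW Φ ε P z) (lineML Φ ε P z) +
    lk Φ ε K Q ((MW.cfg w).ins (dL θ)) (RealL811.treeW Φ ε P z) (lineML Φ ε P z)) *
      touch1 Φ ε K Q (MW.cfg w) (dL θ)

/-! ### The deterministic data -/

/-- The world `w + lines of the tree + d`. -/
abbrev Ld (Φ : Space3 → ℝ) (ε : ℝ) (P : CTree) (z : PhasePoint × Par P) {m : ℕ} (w : Config m)
    (d : ML) : MW ((Fin m ⊕ Idx P) ⊕ Unit) :=
  ((MW.cfg w).add (MW.lines (lineML Φ ε P z))).ins d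

/-- The deterministic data of the pointwise inequality, without the encounter. -/
structure Base6 (Φ : Space3 → ℝ) (ε : ℝ) (K : ℕ) (Q : EPar) (P : CTree) (z : PhasePoint × Par P)
    {m : ℕ} (w : Config m) (θ : Lab × LSt) : Prop where
  hyp : E6Hyp Φ ε K Q.te (MW.cfg w) (lineML Φ ε P z) (root P) (dL θ)
    (outL6 Φ ε P z (eL θ) (some false)) (outL6 Φ ε P z (eL θ) (some true))
  w_Ld : W1 (firstT Φ ε K Q.te (MW.cfg w) (lineML Φ ε P z))
    ((MW.cfg w).thetaL Φ ε K Q.te (dL θ))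
    (((MW.cfg w).add (RealL811.treeW Φ ε P z)).thetaL Φ ε K Q.te (dL θ))

/-- The data of the encounter, `s₁'` = exit time. -/
structure Enc6 (Φ : Space3 → ℝ) (ε : ℝ) (P : CTree) (z : PhasePoint × Par P)
    {m : ℕ} (w : Config m) (θ : Lab × LSt) (s₁' : ℝ) : Prop where
  hit : Hit Φ ε (Ld Φ ε P z w (dL θ)) (eL θ) (Sum.inl (Sum.inr (root P))) (cT ε z (eL θ)) s₁'
  out_e : outL6 Φ ε P z (eL θ) (some false) =
    outL Φ ε (Ld Φ ε P z w (dL θ)) (eL θ) (Sum.inl (Sum.inr (root P))) s₁'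
  out_c : outL6 Φ ε P z (eL θ) (some true) =
    outC Φ ε (Ld Φ ε P z w (dL θ)) (eL θ) (Sum.inl (Sum.inr (root P))) s₁'
  okLe : ((Ld Φ ε P z w (dL θ)).ins (eL θ)).Ok Φ ε
  nc : NoCt Φ ε (Z0 (MW.cfg w) (lineML Φ ε P z) (root P) (dL θ)) (lineML Φ ε P z (root P)) s₁'
  reb_eq : outL6 Φ ε P z (eL θ) none = reb (lineML Φ ε P z (root P)) s₁'

/-- `d` touches `w + V` in the window, not after the first touch of the lines of the tree in the
gas `w`. -/
structure Early6 (Φ : Space3 → ℝ) (ε : ℝ) (K : ℕ) (Q : EPar) (P : CTree)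
    (z : PhasePoint × Par P) {m : ℕ} (w : Config m) (θ : Lab × LSt) : Prop where
  lt : Q.tw < ((MW.cfg w).add (RealL811.treeW Φ ε P z)).thetaL Φ ε K Q.te (dL θ)
  le : ((MW.cfg w).add (RealL811.treeW Φ ε P z)).thetaL Φ ε K Q.te (dL θ) ≤ Q.te
  first : ((MW.cfg w).add (RealL811.treeW Φ ε P z)).thetaL Φ ε K Q.te (dL θ) ≤
    firstT Φ ε K Q.te (MW.cfg w) (lineML Φ ε P z)

variable {Φ : Space3 → ℝ} {ε s₁' T' : ℝ} {K : ℕ} {Q : EPar} {P : CTree}
  {z : PhasePoint × Par P} {m : ℕ} {w : Config m} {θ : Lab × LSt}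

theorem treeW_eq (h : Adm Φ P z.1.2 z.2) : InEq2T.treeW Φ ε P z = RealL811.treeW Φ ε P z := by
  unfold InEq2T.treeW RealL811.treeW
  rw [linesM_of_adm ε h]

theorem lineMM_eq (h : Adm Φ P z.1.2 z.2) : lineMM Φ ε P z = lineML Φ ε P z :=
  funext fun i => lineMM_of_adm ε h i

/-- The root line has no contact in `w + exits` up to the contact with `e`. -/
theorem noCt_exits (hΦ : AdmissiblePotential Φ) (hε : 0 < ε)
    (hR : Real6 Φ ε K Q.te T' P z w θ) :
    NoCt Φ ε ((MW.cfg w).add (MW.lines (exF (lineML Φ ε P z) (root P))))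
      (lineML Φ ε P z (root P)) (cT ε z (eL θ)) := by
  have h1 : NoCt Φ ε (rest ((MW.cfg w).add (MW.lines (lineML Φ ε P z))) (Sum.inr (root P)))
      (lineML Φ ε P z (root P)) (cT ε z (eL θ)) := by
    refine noCt_rest (Z := (MW.cfg w).add (MW.lines (lineML Φ ε P z)))
      (c := Sum.inr (root P)) hΦ hε (cl := lineML Φ ε P z (root P)) ⟨rfl, rfl, rfl⟩ ?_ ?_ ?_
    · rintro (x | x)
      · exact le_rfl
      · exact rel_nonneg hε.le hR.valid.2 x
    · exact (R6Tree974.R6.rel_lt hε hR (root P)).le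
    · intro t k ht hc
      exact root_free (V := cfT Φ ε P z) (e := Relabel674.eP P) hΦ hε (R6Tree974.R6.cT_pos hR)
        (R6Tree974.R6.exX hR) hR.real ht hc
  have h2 := h1.comap hΦ hε (othE (Fin m) (Idx P) (root P))
  rw [rest_ex] at h2
  exact h2

/-- Term (A) in the literal form. -/
theorem termA_le (hΦ : AdmissiblePotential Φ) (hε : 0 < ε) (hte : 0 ≤ Q.te)
    (hR : Real6 Φ ε K Q.te T' P z w θ) (hK : P.leaves ≤ K) (h : Base6 Φ ε K Q P z w θ) :
    termA Φ ε K Q (MW.cfg w) (RealL811.treeW Φ ε P z) (lineML Φ ε P z) (dL θ) ≤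
      tA6 Φ Q K ε P z m w θ := by
  have hadm := hR.valid.1
  unfold tA6
  rw [treeW_eq hadm, lineMM_eq hadm]
  rw [if_pos]
  intro hfT
  unfold H5994.fT at hfT
  rw [lineMM_eq hadm] at hfT
  obtain ⟨k, hk⟩ := exists_reb hΦ hε hte h.hyp (fun _ => le_rfl)
    (by rw [show (lineML Φ ε P z (root P)).2 = P.leaves from mk_root P]; exact hK)
    (noCt_exits hΦ hε hR) hfT
  refine ⟨k, ?_⟩
  unfold H5994.θ₀ H5994.fT
  rw [lineMM_eq hadm]
  refine Eq.trans ?_ hk
  congr 1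
  by_cases hkr : k = root P
  · rw [if_pos hkr, hkr, H5994.lineU_root P z]
    exact congrArg _ (hitT_eq ε z (eL θ))
  · rw [if_neg hkr]
    unfold H5994.lineU
    rw [if_neg hkr, lineMM_eq hadm]

/-- Insertion of `d` and `e` in the world with the tree. -/
theorem lineOf_de (Φ : Space3 → ℝ) (ε : ℝ) {ι : Type} (Z : MW ι) (P : CTree)
    (z : PhasePoint × Par P) (d e : ML) :
    RealL811.LineOf Φ ε (((Z.add (RealL811.treeW Φ ε P z)).ins d).ins e)
      (((Z.add (MW.lines (lineML Φ ε P z))).ins d).ins e) P z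
      (fun k => Sum.inl (Sum.inl (Sum.inr k))) where
  b _ := rfl
  z _ := rfl
  m _ := rfl
  off_b x hx := by
    rcases x with ((x | x) | x) | x
    · rfl
    · exact absurd ⟨x, rfl⟩ hx
    · rfl
    · rfl
  off_z x hx := by
    rcases x with ((x | x) | x) | x
    · rfl
    · exact absurd ⟨x, rfl⟩ hx
    · rfl
    · rfl
  off_m x hx := by
    rcases x with ((x | x) | x) | x
    · rfl
    · exact absurd ⟨x, rfl⟩ hx
    · rfl
    · rfl

theorem image_DF (ι κ : Type) : (Sum.inl : (ι ⊕ κ) ⊕ Unit → ((ι ⊕ κ) ⊕ Unit) ⊕ Unit) ''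
    RealL811.DF ι κ = range fun k : κ => Sum.inl (Sum.inl (Sum.inr k)) := by
  ext x
  constructor
  · rintro ⟨_, ⟨k, rfl⟩, rfl⟩
    exact ⟨k, rfl⟩
  · rintro ⟨k, rfl⟩
    exact ⟨_, ⟨k, rfl⟩, rfl⟩

/-- **The real structure is a `RealHit`.** -/
theorem realHit (hΦ : AdmissiblePotential Φ) (hε : 0 < ε) (hte : 0 ≤ Q.te) (hT : Q.te ≤ T')
    (hR : Real6 Φ ε K Q.te T' P z w θ) (hK : (eL θ).2 + P.leaves ≤ K)
    (hb : Base6 Φ ε K Q P z w θ) (h : Enc6 Φ ε P z w θ s₁') :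
    RealL811.RealHit Φ ε K Q.te (MW.cfg w) (RealL811.treeW Φ ε P z) (lineML Φ ε P z) (root P)
      (dL θ) (eL θ) (outL6 Φ ε P z (eL θ) (some false)) (outL6 Φ ε P z (eL θ) (some true))
      (cT ε z (eL θ)) s₁' where
  hit := h.hit
  out_e := h.out_e
  out_c := h.out_c
  hK := by
    rw [show (lineML Φ ε P z (root P)).2 = P.leaves from mk_root P]
    exact hK
  rl₁ := RealL811.rl_add_add hΦ hε hR.valid hR.sep hT hte ((Nat.le_add_left _ _).trans hK)
    (R6Tree974.R6.rl2' hΦ hε hR Q.te) (R6Tree974.R6.ok2' hΦ hε hR) (hb.hyp.okLd hΦ hε)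
    (fun _ => le_rfl) fun _ => hR.okL.d0.le
  rl₂ := by
    rw [image_DF]
    refine (R6Tree974.toRL (R6Tree974.R6.in3' hΦ hε hR) Q.te).rl hΦ hε hR.valid hR.sep hT
      (lineOf_de Φ ε (MW.cfg w) P z (dL θ) (eL θ)) (R6Tree974.R6.ok3' hΦ hε hR) h.okLe ?_ hte
      ((Nat.le_add_left _ _).trans hK)
    rintro (((x | x) | x) | x)
    · exact le_rfl
    · exact le_rfl
    · exact hR.okL.d0.le
    · exact hR.okL.e0.le
  m₁ := by
    rintro _ ⟨k, rfl⟩ hb
    exact (R6Tree974.R6.rl2' hΦ hε hR Q.te).size_eq hΦ hε hR.valid hR.sep hT hb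
  m₂ := by
    rintro _ ⟨_, ⟨k, rfl⟩, rfl⟩ hb
    exact (R6Tree974.toRL (R6Tree974.R6.in3' hΦ hε hR) Q.te).size_eq hΦ hε hR.valid hR.sep hT hb

theorem leaves_pos' : ∀ P : CTree, 1 ≤ P.leaves
  | leaf => le_rfl
  | node l r => (leaves_pos' l).trans (Nat.le_add_right _ _)

theorem okL_outP (hR : Real6 Φ ε K Q.te T' P z w θ) (hK : (eL θ).2 + P.leaves ≤ K)
    (h : Enc6 Φ ε P z w θ s₁') (k : Option Bool) : OkL K (outP Φ ε P z θ k) where
  d0 := hR.okL.d0
  d1 := hR.okL.d1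
  dK := hR.okL.dK
  e0 := by
    have h1 : 0 < s₁' := (R6Tree974.R6.cT_pos hR).trans_le h.hit.le
    rw [eL_outP]
    rcases k with _ | (_ | _)
    · rw [h.reb_eq]; exact h1
    · rw [h.out_e]; exact h1
    · rw [h.out_c]; exact h1
  e1 := by
    rw [eL_outP]
    have h1 := hR.okL.e1
    rcases k with _ | (_ | _)
    · exact leaves_pos' P
    · exact h1.trans (Nat.le_add_right _ _)
    · exact h1.trans (Nat.le_add_right _ _)
  eK := by
    rw [eL_outP]
    rcases k with _ | (_ | _)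
    · exact (Nat.le_add_left _ _).trans hK
    · exact hK
    · exact hK

/-- **Pointwise inequality, old contacts**; the encounter data is asked only in the case
`Early6`. -/
theorem core_old (hΦ : AdmissiblePotential Φ) (hε : 0 < ε) (hL : 0 < Q.L) (hte : 0 ≤ Q.te)
    (hT : Q.te ≤ T') (hR : Real6 Φ ε K Q.te T' P z w θ) (hK : (eL θ).2 + P.leaves ≤ K)
    (hb : Base6 Φ ε K Q P z w θ)
    (he : Early6 Φ ε K Q P z w θ → ∃ s₁', Enc6 Φ ε P z w θ s₁') :
    tPK Φ ε K Q (Fin.append (cfT Φ ε P z) w) θ ≤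
      tO6 Φ Q K ε P z m w θ + ∑ k : Option Bool, tPK Φ ε K Q w (outP Φ ε P z θ k) +
        lk6 Φ Q K ε P z m w θ := by
  have hKl : P.leaves ≤ K := (Nat.le_add_left _ _).trans hK
  have hA := termA_le hΦ hε hte hR hKl hb
  by_cases hE : Early6 Φ ε K Q P z w θ
  swap
  · rw [R6Tree974.tPK_append hΦ hε, if_pos hR.okL]
    refine le_trans ?_ (hA.trans (le_trans (le_trans (le_self_add (b := ∑ k ∈ Finset.univ.filter
      (fun k => k ≠ root P), termB Φ ε K Q (MW.cfg w) (dL θ) (lineMM Φ ε P z k)))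
        le_self_add) le_self_add))
    unfold MW.touchP
    split_ifs with hc
    · -- case (A)
      have hfT : firstT Φ ε K Q.te (MW.cfg w) (lineML Φ ε P z) <
          ((MW.cfg w).add (RealL811.treeW Φ ε P z)).thetaL Φ ε K Q.te (dL θ) := by
        by_contra hle
        exact hE ⟨hc.1, hc.2.1.trans hc.2.2, not_lt.1 hle⟩
      unfold termA
      rw [if_pos ⟨hfT, hc.2.1.trans hc.2.2⟩]
      exact min_le_left _ _
    · exact bot_le
  obtain ⟨s₁', h⟩ := he hE
  have hH := realHit hΦ hε hte hT hR hK hb h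
  have hz : ∀ x, x ∉ RealL811.DF (Fin m) (Idx P) → (Ld Φ ε P z w (dL θ)).z x =
      (((MW.cfg w).add (RealL811.treeW Φ ε P z)).ins (dL θ)).z x := by
    rintro ((x | x) | x) hx
    · rfl
    · exact absurd ⟨x, rfl⟩ hx
    · rfl
  have hF := RealL811.facts_real hH hΦ hε hte le_rfl hb.hyp hz hb.w_Ld
  have key := touchP_leR hL hF (R6Tree974.relW hΦ hε (dL θ) Q.te)
    (cr := outL6 Φ ε P z (eL θ) none) (fun h1 h2 => by
      rw [h.reb_eq]
      exact thetaL_reb_d hΦ hε hte hb.hyp (by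
        rintro (x | x)
        · exact le_rfl
        · exact hR.okL.d0.le) (by
        rw [show (lineML Φ ε P z (root P)).2 = P.leaves from mk_root P]
        exact hKl) h.nc h1 h2)
  rw [R6Tree974.tPK_append hΦ hε, if_pos hR.okL]
  have hsum : ∑ k : Option Bool, tPK Φ ε K Q w (outP Φ ε P z θ k) =
      (MW.cfg w).touchP Φ ε K Q (dL θ) (outL6 Φ ε P z (eL θ) none) +
      (MW.cfg w).touchP Φ ε K Q (dL θ) (outL6 Φ ε P z (eL θ) (some false)) +
      (MW.cfg w).touchP Φ ε K Q (dL θ) (outL6 Φ ε P z (eL θ) (some true)) := by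
    have h1 : ∀ k, tPK Φ ε K Q w (outP Φ ε P z θ k) =
        (MW.cfg w).touchP Φ ε K Q (dL θ) (outL6 Φ ε P z (eL θ) k) := by
      intro k
      unfold tPK
      rw [if_pos (okL_outP hR hK h k), dL_outP, eL_outP]
    rw [Fintype.sum_option, Fintype.sum_bool, h1, h1, h1]
    ring
  rw [hsum]
  refine key.trans ?_
  unfold tO6 lk6
  rw [lineMM_eq hR.valid.1]
  gcongr

/-- **Pointwise inequality, young contacts.** -/
theorem core_young (hΦ : AdmissiblePotential Φ) (hε : 0 < ε) (hL : 0 < Q.L) (hte : 0 ≤ Q.te)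
    (hR : Real6 Φ ε K Q.te T' P z w θ) (hK : (eL θ).2 + P.leaves ≤ K)
    (h : Base6 Φ ε K Q P z w θ) :
    tPK Φ ε K Q (Fin.append (cfT Φ ε P z) w) θ ≤
      tY6 Φ Q K ε P z m w θ + lk6 Φ Q K ε P z m w θ := by
  have hKl : P.leaves ≤ K := (Nat.le_add_left _ _).trans hK
  have key := touchP_le_youngA (Φ := Φ) (ε := ε) (K := K) (w₂ := MW.cfg w)
    (A := RealL811.treeW Φ ε P z) (F := lineML Φ ε P z) (d := dL θ) (e := eL θ) hL h.w_Ld
  rw [R6Tree974.tPK_append hΦ hε, if_pos hR.okL]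
  refine key.trans ?_
  unfold tY6 lk6
  rw [add_mul]
  exact add_le_add (add_le_add (termA_le hΦ hε hte hR hKl h) le_rfl) le_self_add

end

end Crest.Agent.R122.Pt6811
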