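import Crest.Agent.R122.RealSix_796
import Crest.Agent.R122.EncFar6_45
import Crest.Agent.R122.Pt6Core_811

/-!
# The encounter data of inequality 3 (row 122, E6, helper45)

* `RealIn.noCt`, `RealIn.reb_root` (generic real tree) : the root line has no contact with the world
  with the exits up to the end of the encounter; reborn there it is `lineC`.
* `nc6`, `reb6` : the same for `Real6`.
* `enc6_all` : all encounter data of helper811's `Enc6` at the exit time `cT + outT`.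
* `EncEv6` : the encounter event of inequality 3 (parts of `EncParts6` which are not about touch
  times); `enc6_of` : helper811's `Enc6` from `Real6`, `Base6`, `Early6`, the slack and `EncEv6`.
-/

set_option autoImplicit false
set_option linter.unusedSectionVars false

open MeasureTheory Set Filter Topology
open scoped ENNReal
open Crest.AnalysisR.Kinetic
open Crest.Agent.R122.Flow671 hiding rel
open Crest.Agent.R122.Loc45 Crest.Agent.R122.Causal291 Crest.Agent.R122.MWAlg255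
open Crest.Agent.R122.Inf879 Crest.Agent.R122.EDefs602 Crest.Agent.R122.Lines255
open Crest.Agent.R122.Kin796 Crest.Agent.R122.Kin796.CTree Crest.Agent.R122.Tree674
open Crest.Agent.R122.PathFlow968 Crest.Agent.R122.TreeLines335 Crest.Agent.R122.Relabel674
open Crest.Agent.R122.GC311 Crest.Agent.R122.Line285
open Crest.Agent.R122.Scat818 Crest.Agent.R122.OCout796 Crest.Agent.R122.Ins45
open Crest.Agent.R122.Boost969 (LSt)
open Crest.Agent.R122.Pair292 (Lab)
open Crest.Agent.R122.OneC285 (cT cB cD cX cfT rt)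
open Crest.Agent.R122.PairD292 Crest.Agent.R122.R6Tree974

namespace Crest.Agent.R122.One796

noncomputable section

open scoped Classical

/-- The instance used by the general theorems. -/
local instance (priority := 2000) othFintype45 {α : Type} [Fintype α] (c : α) : Fintype (Oth c) :=
  Subtype.fintype fun k => k ≠ c

section gen

variable {α γ : Type} [Fintype α] [Fintype γ] {Φ : Space3 → ℝ} {ε R : ℝ}
  {P : CTree} {z : PhasePoint × Par P} {X W : MW α} {f : Idx P → α} {l : ML} {Z₀ : MW γ}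
  {G : γ ≃ Oth (f (root P))} (h : RealIn Φ ε (cT ε z l) X W P z f)
  (hΦ : AdmissiblePotential Φ) (hε : 0 < ε) (hG : (rest W (f (root P))).comap G = Z₀)

include h hΦ hε hG in
/-- **The root line has no contact in the world with the exits** up to the end of the encounter. -/
theorem RealIn.noCt (hOk : Z₀.Ok Φ ε) (hl : 0 ≤ l.1.1) (hls : l.1.1 < cT ε z l)
    (hF : FreeFarW Φ ε X l (cT ε z l)) (hE : EncE Φ ε R Z₀ z.1 (cT ε z l) (cD ε z l)) :
    NoCt Φ ε Z₀ (lineML Φ ε P z (root P)) (cT ε z l + outT Φ ε (cD ε z l)) := by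
  obtain ⟨hGd, hU⟩ := h.goodEnc hΦ hε hG hOk hl hls hF hE
  have hZ := h.okLn hΦ hε hG hOk
  have hR : (rest W (f (root P))).Ok Φ ε := ok_of_comap hΦ hε _ hG hOk
  have h1 : NoCt Φ ε (rest W (f (root P))) (lineML Φ ε P z (root P))
      (cT ε z l + outT Φ ε (cD ε z l)) := by
    refine noCt_rest (Z := W) (c := f (root P)) hΦ hε (cl := lineML Φ ε P z (root P))
      ⟨h.W_b _, h.W_z _, h.W_m _⟩ hGd.born ?_ ?_
    · have := hGd.pass.outT_pos hε
      linarith [hGd.bc]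
    · exact hU.free hΦ hε hZ hR hGd.nonneg_s hGd.bc (fun t k ht => hGd.free t k ht.le) hGd.state_c
  have h2 := h1.comap hΦ hε G
  rw [hG] at h2
  exact h2

include h hΦ hε hG in
/-- The root line reborn at the end of the encounter. -/
theorem RealIn.reb_root (hOk : Z₀.Ok Φ ε) (hl : 0 ≤ l.1.1) (hls : l.1.1 < cT ε z l)
    (hF : FreeFarW Φ ε X l (cT ε z l)) (hE : EncE Φ ε R Z₀ z.1 (cT ε z l) (cD ε z l)) :
    reb (lineML Φ ε P z (root P)) (cT ε z l + outT Φ ε (cD ε z l)) =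
      (lineC Φ ε (cT ε z l) (cX ε z l) (cD ε z l), P.leaves) := by
  obtain ⟨hGd, -⟩ := h.goodEnc hΦ hε hG hOk hl hls hF hE
  have h1 := hGd.reb_eq hΦ hε (h.okLn hΦ hε hG hOk) (cl := lineML Φ ε P z (root P))
    ⟨h.W_b _, h.W_z _, h.W_m _⟩
  rw [h.m_root] at h1
  exact h1

end gen

/-! ### `Real6` -/

section six

variable {Φ : Space3 → ℝ} {ε te T' R : ℝ} {K : ℕ} {P : CTree} {z : PhasePoint × Par P} {m : ℕ}
  {w : Config m} {θ : Lab × LSt}

/-- **The root line has no contact in `w + d + exits`** up to the end of the encounter. -/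
theorem nc6 (hΦ : AdmissiblePotential Φ) (hε : 0 < ε) (h : Real6 Φ ε K te T' P z w θ)
    (hOk : (Z6 Φ ε P z w (dL θ)).Ok Φ ε) (hE : Enc6 Φ ε R P z w θ) :
    NoCt Φ ε (Z6 Φ ε P z w (dL θ)) (lineML Φ ε P z (root P))
      (cT ε z (eL θ) + outT Φ ε (cD ε z (eL θ))) :=
  (realIn6 hΦ hε h).noCt hΦ hε (rest6 _) hOk h.okL.e0.le (lt6 h) (freeFar6 hΦ hε h) hE

/-- The root line reborn at the end of the encounter. -/
theorem reb6 (hΦ : AdmissiblePotential Φ) (hε : 0 < ε) (h : Real6 Φ ε K te T' P z w θ)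
    (hOk : (Z6 Φ ε P z w (dL θ)).Ok Φ ε) (hE : Enc6 Φ ε R P z w θ) :
    outL6 Φ ε P z (eL θ) none = reb (lineML Φ ε P z (root P))
      (cT ε z (eL θ) + outT Φ ε (cD ε z (eL θ))) :=
  ((realIn6 hΦ hε h).reb_root hΦ hε (rest6 _) hOk h.okL.e0.le (lt6 h) (freeFar6 hΦ hε h) hE).symm

/-- **All encounter data** of helper811's `Core6`. -/
theorem enc6_all (hΦ : AdmissiblePotential Φ) (hε : 0 < ε) (h : Real6 Φ ε K te T' P z w θ)
    (hE6 : E6Hyp879.E6Hyp Φ ε K te (MW.cfg w) (lineML Φ ε P z) (root P) (dL θ)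
      (outL6 Φ ε P z (eL θ) (some false)) (outL6 Φ ε P z (eL θ) (some true)))
    (hE : Enc6 Φ ε R P z w θ) :
    Hit Φ ε (((MW.cfg w).add (MW.lines (lineML Φ ε P z))).ins (dL θ)) (eL θ)
      (Sum.inl (Sum.inr (root P))) (cT ε z (eL θ))
      (cT ε z (eL θ) + outT Φ ε (cD ε z (eL θ))) ∧
    outL6 Φ ε P z (eL θ) (some false) =
      outL Φ ε (((MW.cfg w).add (MW.lines (lineML Φ ε P z))).ins (dL θ)) (eL θ)
        (Sum.inl (Sum.inr (root P))) (cT ε z (eL θ) + outT Φ ε (cD ε z (eL θ))) ∧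
    outL6 Φ ε P z (eL θ) (some true) =
      outC Φ ε (((MW.cfg w).add (MW.lines (lineML Φ ε P z))).ins (dL θ)) (eL θ)
        (Sum.inl (Sum.inr (root P))) (cT ε z (eL θ) + outT Φ ε (cD ε z (eL θ))) ∧
    ((((MW.cfg w).add (MW.lines (lineML Φ ε P z))).ins (dL θ)).ins (eL θ)).Ok Φ ε ∧
    NoCt Φ ε (Decomp811.Z0 (MW.cfg w) (lineML Φ ε P z) (root P) (dL θ))
      (lineML Φ ε P z (root P)) (cT ε z (eL θ) + outT Φ ε (cD ε z (eL θ))) ∧
    outL6 Φ ε P z (eL θ) none = reb (lineML Φ ε P z (root P))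
      (cT ε z (eL θ) + outT Φ ε (cD ε z (eL θ))) := by
  have hOk : (Z6 Φ ε P z w (dL θ)).Ok Φ ε := hE6.okZ0 hΦ hε
  exact ⟨hit6 hΦ hε h hOk hE, outL6_eq hΦ hε h hOk hE, outC6_eq hΦ hε h hOk hE,
    okLde6 hΦ hε h hOk, nc6 hΦ hε h hOk hE, reb6 hΦ hε h hOk hE⟩

/-- helper811's `Enc6` from the encounter event in `Z0`. -/
theorem enc6_811 {Q : EPar} (hΦ : AdmissiblePotential Φ) (hε : 0 < ε)
    (h : Real6 Φ ε K Q.te T' P z w θ) (hB : Pt6811.Base6 Φ ε K Q P z w θ)
    (hE : Enc6 Φ ε R P z w θ) :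
    Pt6811.Enc6 Φ ε P z w θ (cT ε z (eL θ) + outT Φ ε (cD ε z (eL θ))) := by
  obtain ⟨h1, h2, h3, h4, h5, h6⟩ := enc6_all hΦ hε h hB.hyp hE
  exact ⟨h1, h2, h3, h4, h5, h6⟩

/-- **The encounter event of inequality 3.** `e` = second line, `d` = first line; the encounter of
`e` with the root `c`, on `[cT, cT + ε R]`. -/
structure EncEv6 (Φ : Space3 → ℝ) (ε R : ℝ) (K : ℕ) (te : ℝ) (P : CTree)
    (z : PhasePoint × Par P) {m : ℕ} (w : Config m) (d e : ML) : Prop where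
  /-- the encounter is a passage, short -/
  pass : CDpass Φ (cD ε z e)
  tau : tauM Φ (relB (cD ε z e)) ≤ R
  disp : tauM Φ (relB (cD ε z e)) * ‖(relB (cD ε z e)).2‖ ≤ R
  /-- it ends before the horizon -/
  hor : cT ε z e + ε * R ≤ te
  /-- no gas particle near the root line -/
  gas : ∀ t, cT ε z e ≤ t → t ≤ cT ε z e + ε * R → ∀ i : Fin m,
    (R + 2) * ε < dist ((MW.cfg w).path Φ ε t i).1 (z.1.1 + t • z.1.2)
  /-- no free exit near the root line -/
  mem : ∀ t, cT ε z e ≤ t → t ≤ cT ε z e + ε * R → ∀ j, j ≠ root P →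
    (R + 2) * ε < dist (OneC285.lpos (lineML Φ ε P z j) t) (z.1.1 + t • z.1.2)
  /-- the free line `d` is not near the root line -/
  memd : ∀ t, cT ε z e ≤ t → t ≤ cT ε z e + ε * R → d.1.1 ≤ t →
    (R + 2) * ε < dist (OneC285.lpos d t) (z.1.1 + t • z.1.2)
  /-- no particle of the clean closure of an exit near the root line (LINK class) -/
  cf : ∀ t, cT ε z e ≤ t → t ≤ cT ε z e + ε * R → ∀ j, j ≠ root P → ∀ k,
    MWFam255.CF Φ ε K (MW.cfg w) (MW.line (lineML Φ ε P z j)) t k →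
    (R + 2) * ε < dist (((MW.cfg w).ins (lineML Φ ε P z j)).path Φ ε t (Sum.inl k)).1
      (z.1.1 + t • z.1.2)
  /-- no particle of the clean closure of `d` near the root line (LINK class) -/
  cfd : ∀ t, cT ε z e ≤ t → t ≤ cT ε z e + ε * R → ∀ k,
    MWFam255.CF Φ ε K (MW.cfg w) (MW.line d) t k →
    (R + 2) * ε < dist (((MW.cfg w).ins d).path Φ ε t (Sum.inl k)).1 (z.1.1 + t • z.1.2)
  /-- no deflected exit near the root line (LINK class) -/
  line : ∀ t, cT ε z e ≤ t → t ≤ cT ε z e + ε * R → ∀ j, j ≠ root P →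
    (∃ s k, s < t ∧ ((MW.cfg w).ins (lineML Φ ε P z j)).C Φ ε s (Sum.inr ()) (Sum.inl k)) →
    (R + 2) * ε < dist (((MW.cfg w).ins (lineML Φ ε P z j)).path Φ ε t (Sum.inr ())).1
      (z.1.1 + t • z.1.2)
  /-- the deflected `d` is not near the root line (LINK class) -/
  lined : ∀ t, cT ε z e ≤ t → t ≤ cT ε z e + ε * R → d.1.1 ≤ t →
    (∃ s k, s < t ∧ ((MW.cfg w).ins d).C Φ ε s (Sum.inr ()) (Sum.inl k)) →
    (R + 2) * ε < dist (((MW.cfg w).ins d).path Φ ε t (Sum.inr ())).1 (z.1.1 + t • z.1.2)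
  /-- `d` is not born at the exit time of the encounter (null event) -/
  nobd : d.1.1 ≠ cT ε z e + outT Φ ε (cD ε z e)

/-- The touch times after the slack: all exits and `d` in the gas `w`. -/
theorem late6 {Q : EPar} (hB : Pt6811.Base6 Φ ε K Q P z w θ)
    (hEa : Pt6811.Early6 Φ ε K Q P z w θ) {u : ℝ}
    (hu : u < ((MW.cfg w).add (RealL811.treeW Φ ε P z)).thetaL Φ ε K Q.te (dL θ)) :
    (∀ j, u < (MW.cfg w).thetaL Φ ε K Q.te (lineML Φ ε P z j)) ∧
      u < (MW.cfg w).thetaL Φ ε K Q.te (dL θ) := by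
  refine ⟨fun j => hu.trans_le (hEa.first.trans (Decomp811.firstT_le _ _ _ _ _ _ j)), ?_⟩
  rcases le_or_gt ((MW.cfg w).thetaL Φ ε K Q.te (dL θ))
    (Decomp811.firstT Φ ε K Q.te (MW.cfg w) (lineML Φ ε P z)) with h1 | h1
  · rw [← hB.w_Ld.eq h1]
    exact hu
  · exact hu.trans (hEa.first.trans_lt h1)

/-- The bad set of `EncEv6`: **the structures with the encounter event violated**, in the form
consumed by the estimates (all touch times are after the slack `u = cT + ε R`). -/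
def EncBad6 (Φ : Space3 → ℝ) (ε R : ℝ) (K : ℕ) (te : ℝ) (P : CTree)
    (z : PhasePoint × Par P) {m : ℕ} (w : Config m) (d e : ML) : Prop :=
  (∀ j, cT ε z e + ε * R < (MW.cfg w).thetaL Φ ε K te (lineML Φ ε P z j)) ∧
  cT ε z e + ε * R < (MW.cfg w).thetaL Φ ε K te d ∧ ¬ EncEv6 Φ ε R K te P z w d e

/-- **helper811's `Enc6`** from `Real6`, `Base6`, `Early6` off the bad set `EncBad6`. -/
theorem enc6_of {Q : EPar} (hΦ : AdmissiblePotential Φ) (hε : 0 < ε)
    (h : Real6 Φ ε K Q.te T' P z w θ) (hB : Pt6811.Base6 Φ ε K Q P z w θ)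
    (hEa : Pt6811.Early6 Φ ε K Q P z w θ)
    (hu : cT ε z (eL θ) + ε * R <
      ((MW.cfg w).add (RealL811.treeW Φ ε P z)).thetaL Φ ε K Q.te (dL θ))
    (hE : ¬ EncBad6 Φ ε R K Q.te P z w (dL θ) (eL θ)) :
    Pt6811.Enc6 Φ ε P z w θ (cT ε z (eL θ) + outT Φ ε (cD ε z (eL θ))) := by
  obtain ⟨h1, h2⟩ := late6 hB hEa hu
  have h3 : EncEv6 Φ ε R K Q.te P z w (dL θ) (eL θ) := by
    by_contra h4
    exact hE ⟨h1, h2, h4⟩
  exact enc6_811 hΦ hε h hB (EncE.of_real6 hΦ hε h hB.hyp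
    ⟨h3.pass, h3.tau, h3.disp, h3.hor, fun j _ => h1 j, h2, h3.gas, h3.mem, h3.memd, h3.cf,
      h3.cfd, h3.line, h3.lined, h3.nobd⟩)

end six

end

end Crest.Agent.R122.One796
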