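import Crest.Agent.R122.Pt6Core_811
import Crest.Agent.R122.Six_45
import Crest.Agent.R122.BadX_974
import Crest.Agent.R122.H5St_994
import Crest.Agent.R122.H5Ti_994
import Crest.Agent.R122.PairSplit_292

/-!
# StmtPt6 (row 122, E6), helper811

* `Ev6` : the events of the pointwise inequality (`E6Hyp`, the encounter event `¬ EncBad6`);
  `bd6` : the error term.
* `pt6_old`, `pt6_young` : the pointwise inequalities with helper994's literal terms.
-/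

set_option autoImplicit false
set_option linter.unusedSectionVars false

open MeasureTheory Set Filter Topology
open scoped ENNReal
open Crest.AnalysisR.Kinetic
open Crest.Agent.R122.Inf879 Crest.Agent.R122.EDefs602
open Crest.Agent.R122.Kin796 Crest.Agent.R122.Kin796.CTree Crest.Agent.R122.Tree674
open Crest.Agent.R122.TreeLines335 Crest.Agent.R122.Decomp811 Crest.Agent.R122.MWAlg255
open Crest.Agent.R122.MWFam255 Crest.Agent.R122.E6Hyp879 Crest.Agent.R122.Ins45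
open Crest.Agent.R122.LineMeas994
open Crest.Agent.R122.Boost969 (LSt)
open Crest.Agent.R122.Pair292 (Lab)
open Crest.Agent.R122.OneC285 (cfT rt cT cB cD cX)
open Crest.Agent.R122.PairD292

namespace Crest.Agent.R122.Pt6811

noncomputable section

open scoped Classical

/-- **The events** of the pointwise inequality of E6, `σ` = slack. -/
structure Ev6 (Φ : Space3 → ℝ) (ε σ : ℝ) (K : ℕ) (te : ℝ) (P : CTree)
    (z : PhasePoint × Par P) {m : ℕ} (w : Config m) (θ : Lab × LSt) : Prop where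
  /-- absence of links and world consistency of the families of E6 -/
  hyp : E6Hyp Φ ε K te (MW.cfg w) (lineML Φ ε P z) (root P) (dL θ)
    (outL6 Φ ε P z (eL θ) (some false)) (outL6 Φ ε P z (eL θ) (some true))
  /-- the encounter of the second line and the root line -/
  enc : ∃ R : ℝ, 0 ≤ R ∧ ε * R ≤ σ ∧ (cT ε z (eL θ) + ε * R ≤ te →
    ¬ One796.EncBad6 Φ ε R K te P z w (dL θ) (eL θ))

/-- The lines not good in the world `w + d`. -/
def lkXd (Φ : Space3 → ℝ) (ε : ℝ) (K : ℕ) (te : ℝ) (P : CTree) (z : PhasePoint × Par P)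
    {m : ℕ} (w : Config m) (d : ML) : Set ML :=
  {l | ¬ BadX974.GoodXB Φ ε K te ((MW.cfg w).ins d) P z l}

/-- The measure of the test lines which are not good, in the worlds `w`, `w + d`. -/
def lkm (Φ : Space3 → ℝ) (Q : EPar) : ℕ → ℝ → SF2 := fun K ε P z _ w θ =>
  ENNReal.ofReal Q.L * (lineM Q.γ Q.ρ K Q.te (InEq2T.lkX Φ ε K Q.te P z w) +
    lineM Q.γ Q.ρ K Q.te (lkXd Φ ε K Q.te P z w (dL θ)))

/-- **The error term**, `σ` = slack. -/
def bd6 (Φ : Space3 → ℝ) (Q : EPar) (σ : ℝ → ℝ) : ℕ → ℝ → SF2 := fun K ε P z m w θ =>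
  if Ev6 Φ ε (σ ε) K Q.te P z w θ then min 1 (lkm Φ Q K ε P z m w θ) else 1

variable {Φ : Space3 → ℝ} {ε s T' : ℝ} {K : ℕ} {Q : EPar} {P : CTree}
  {z : PhasePoint × Par P} {m : ℕ} {w : Config m} {θ : Lab × LSt}

theorem touch1_le_one (d : ML) : touch1 Φ ε K Q (MW.cfg w) d ≤ 1 := by
  unfold touch1
  split_ifs
  · exact le_rfl
  · exact bot_le

theorem Ev6.base6 (hΦ : AdmissiblePotential Φ) (hε : 0 < ε) (hte : 0 ≤ Q.te)
    (hR : Real6 Φ ε K Q.te T' P z w θ) (hK : P.leaves ≤ K)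
    (h : Ev6 Φ ε s K Q.te P z w θ) : Base6 Φ ε K Q P z w θ :=
  ⟨h.hyp, RealX974.R6.w_Ld hΦ hε hte hK hR h.hyp⟩

/-- The comparison of the weights. -/
theorem lk6_le (hΦ : AdmissiblePotential Φ) (hε : 0 < ε) (hte : 0 ≤ Q.te)
    (hγ : Measurable Q.γ) (hR : Real6 Φ ε K Q.te T' P z w θ) (hK : P.leaves ≤ K)
    (h : Ev6 Φ ε s K Q.te P z w θ) : lk6 Φ Q K ε P z m w θ ≤ lkm Φ Q K ε P z m w θ := by
  unfold lk6 lkm
  rw [mul_add]
  refine (mul_le_of_le_one_right bot_le (touch1_le_one _)).trans ?_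
  exact add_le_add (BadX974.R6.lk₁ hΦ hε hte hγ hK hR h.hyp)
    (BadX974.R6.lk₂ hΦ hε hte hγ hK hR h.hyp)

theorem tA6_eq (hΦ : AdmissiblePotential Φ) (hε : 0 < ε) (hR : Real6 Φ ε K Q.te T' P z w θ) :
    tA6 Φ Q K ε P z m w θ = H5994.tA6 (fun P z => InEq2T.treeW Φ ε P z)
      (H5994.Gt Φ ε Q.te T') Φ Q K ε P z ⟨m, w⟩ θ := by
  unfold tA6 H5994.tA6
  have hG := H5994.Gt.of_real6 hΦ hε hR
  by_cases h : H5994.rst Φ ε K Q.te P ⟨m, w⟩ z (H5994.hitT ε z.1 θ.2)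
  · rw [if_pos h, if_pos ⟨h, hG⟩]
    rfl
  · rw [if_neg h, if_neg fun h' => h h'.1]

theorem tO6_eq (hΦ : AdmissiblePotential Φ) (hε : 0 < ε) (hR : Real6 Φ ε K Q.te T' P z w θ)
    (hK : P.leaves ≤ K) :
    tO6 Φ Q K ε P z m w θ = H5994.tO6 (fun P z => InEq2T.treeW Φ ε P z)
      (H5994.Gt Φ ε Q.te T') Φ Q T' K ε P z m w θ := by
  unfold H5994.tO6
  rw [if_pos ⟨⟨hR.valid, hR.sep⟩, hK⟩, ← tA6_eq hΦ hε hR]
  rfl

theorem tY6_eq (hΦ : AdmissiblePotential Φ) (hε : 0 < ε) (hR : Real6 Φ ε K Q.te T' P z w θ)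
    (hK : P.leaves ≤ K) :
    tY6 Φ Q K ε P z m w θ = H5994.tY6 (fun P z => InEq2T.treeW Φ ε P z)
      (H5994.Gt Φ ε Q.te T') Φ Q T' K ε P z m w θ := by
  unfold H5994.tY6
  rw [if_pos ⟨⟨hR.valid, hR.sep⟩, hK⟩, ← tA6_eq hΦ hε hR]
  rfl

/-- The touch time of `d` in the world with the tree. -/
theorem thetaL_tree (hΦ : AdmissiblePotential Φ) (hε : 0 < ε) (T : ℝ) (d : ML) :
    (MW.cfg (Fin.append (cfT Φ ε P z) w)).thetaL Φ ε K T d =
      ((MW.cfg w).add (RealL811.treeW Φ ε P z)).thetaL Φ ε K T d := by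
  rw [← R6Tree974.comap1, EquivE416.thetaL_comap hΦ hε]

/-- **Pointwise inequality, old contacts.** -/
theorem pt6_old {σ : ℝ → ℝ} (hΦ : AdmissiblePotential Φ) (hε : 0 < ε) (hL : 0 < Q.L)
    (hte : 0 ≤ Q.te) (hT : Q.te ≤ T') (hγ : Measurable Q.γ)
    (hR : Real6 Φ ε K Q.te T' P z w θ) (hK : (eL θ).2 + P.leaves ≤ K)
    (hearly : tC Φ ε Q.te (Fin.append (cfT Φ ε P z) w) θ + σ ε <
      (MW.cfg (Fin.append (cfT Φ ε P z) w)).thetaL Φ ε K Q.te (dL θ)) :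
    tPK Φ ε K Q (Fin.append (cfT Φ ε P z) w) θ ≤
      H5994.tO6 (fun P z => InEq2T.treeW Φ ε P z) (H5994.Gt Φ ε Q.te T') Φ Q T' K ε P z m w θ +
        ∑ k : Option Bool, tPK Φ ε K Q w (outP Φ ε P z θ k) + bd6 Φ Q σ K ε P z m w θ := by
  have hKl : P.leaves ≤ K := (Nat.le_add_left _ _).trans hK
  unfold bd6
  by_cases hev : Ev6 Φ ε (σ ε) K Q.te P z w θ
  swap
  · rw [if_neg hev]
    exact (tPK_le_one hL.le).trans le_add_self
  rw [if_pos hev, min_def]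
  split_ifs with h1
  · exact (tPK_le_one hL.le).trans le_add_self
  have hb := hev.base6 hΦ hε hte hR hKl
  rw [hR.time, thetaL_tree hΦ hε] at hearly
  obtain ⟨R, -, hRs, henc⟩ := hev.enc
  have hearly' := lt_of_le_of_lt (add_le_add_right hRs (cT ε z (eL θ))) hearly
  have key := core_old hΦ hε hL hte hT hR hK hb fun hE =>
    ⟨_, One796.enc6_of hΦ hε hR hb hE hearly' (henc (hearly'.trans_le hE.le).le)⟩
  rw [← tO6_eq hΦ hε hR hKl]
  exact key.trans (add_le_add le_rfl (lk6_le hΦ hε hte hγ hR hKl hev))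

/-- **Pointwise inequality, young contacts.** -/
theorem pt6_young {σ : ℝ → ℝ} (hΦ : AdmissiblePotential Φ) (hε : 0 < ε) (hL : 0 < Q.L)
    (hte : 0 ≤ Q.te) (hγ : Measurable Q.γ)
    (hR : Real6 Φ ε K Q.te T' P z w θ) (hK : (eL θ).2 + P.leaves ≤ K) :
    tPK Φ ε K Q (Fin.append (cfT Φ ε P z) w) θ ≤
      H5994.tY6 (fun P z => InEq2T.treeW Φ ε P z) (H5994.Gt Φ ε Q.te T') Φ Q T' K ε P z m w θ +
        bd6 Φ Q σ K ε P z m w θ := by
  have hKl : P.leaves ≤ K := (Nat.le_add_left _ _).trans hK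
  unfold bd6
  by_cases hev : Ev6 Φ ε (σ ε) K Q.te P z w θ
  swap
  · rw [if_neg hev]
    exact (tPK_le_one hL.le).trans le_add_self
  rw [if_pos hev, min_def]
  split_ifs with h1
  · exact (tPK_le_one hL.le).trans le_add_self
  have hb := hev.base6 hΦ hε hte hR hKl
  have key := core_young hΦ hε hL hte hR hK hb
  rw [← tY6_eq hΦ hε hR hKl]
  exact key.trans (add_le_add le_rfl (lk6_le hΦ hε hte hγ hR hKl hev))

/-- `StmtPt6` from the slack: the contact is earlier than the touch time of `d` minus `σ ε`. -/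
theorem stmtPt6_of {σ : ℝ → ℝ} {r : ℝ} {bd : ℕ → ℝ → SF2} (hΦ : AdmissiblePotential Φ)
    (hL : 0 < Q.L) (hte : 0 ≤ Q.te) (hT : Q.te ≤ T') (hγ : Measurable Q.γ)
    (hearly : ∀ (K : ℕ) (ε : ℝ), 0 < ε → ∀ (P : CTree) (z : PhasePoint × Par P) (m : ℕ)
      (w : Config m) (θ : Lab × LSt), Real6 Φ ε K Q.te T' P z w θ →
      tC Φ ε Q.te (Fin.append (cfT Φ ε P z) w) θ + σ ε <
      (MW.cfg (Fin.append (cfT Φ ε P z) w)).thetaL Φ ε K Q.te (dL θ))
    (hbd : ∀ (K : ℕ) (ε : ℝ), 0 < ε → ∀ (P : CTree) (z : PhasePoint × Par P) (m : ℕ)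
      (w : Config m) (θ : Lab × LSt), (eL θ).2 + P.leaves ≤ K → Real6 Φ ε K Q.te T' P z w θ →
      GIV566.unhit Φ ε (OneC285.ptube Φ ε P z) Q.tw w →
      bd6 Φ Q σ K ε P z m w θ ≤ bd K ε P z m w θ) :
    StmtPt6 Φ Q T' r (fun K ε => H5994.tO6 (fun P z => InEq2T.treeW Φ ε P z) (H5994.Gt Φ ε Q.te T') Φ Q T' K ε)
      (fun K ε => H5994.tY6 (fun P z => InEq2T.treeW Φ ε P z) (H5994.Gt Φ ε Q.te T') Φ Q T' K ε) bd := by
  intro K ε hε P z m w θ hK hR hu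
  have h1 := hbd K ε hε P z m w θ hK hR hu
  refine ⟨fun _ => ?_, fun _ => ?_⟩
  · exact (pt6_old hΦ hε hL hte hT hγ hR hK (hearly K ε hε P z m w θ hR)).trans
      (add_le_add le_rfl h1)
  · exact (pt6_young (σ := σ) hΦ hε hL hte hγ hR hK).trans (add_le_add le_rfl h1)

/-- **StmtPt6** (v4: the slack is a field of `Real6`), for every `bd ≥ bd6` on the real structures. -/
theorem stmtPt6 {r : ℝ} {bd : ℕ → ℝ → SF2} (hΦ : AdmissiblePotential Φ)
    (hL : 0 < Q.L) (hte : 0 ≤ Q.te) (hT : Q.te ≤ T') (hγ : Measurable Q.γ)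
    (hbd : ∀ (K : ℕ) (ε : ℝ), 0 < ε → ∀ (P : CTree) (z : PhasePoint × Par P) (m : ℕ)
      (w : Config m) (θ : Lab × LSt), (eL θ).2 + P.leaves ≤ K → Real6 Φ ε K Q.te T' P z w θ →
      GIV566.unhit Φ ε (OneC285.ptube Φ ε P z) Q.tw w →
      bd6 Φ Q slk K ε P z m w θ ≤ bd K ε P z m w θ) :
    StmtPt6 Φ Q T' r
      (fun K ε => H5994.tO6 (fun P z => InEq2T.treeW Φ ε P z) (H5994.Gt Φ ε Q.te T') Φ Q T' K ε)
      (fun K ε => H5994.tY6 (fun P z => InEq2T.treeW Φ ε P z) (H5994.Gt Φ ε Q.te T') Φ Q T' K ε)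
      bd :=
  stmtPt6_of hΦ hL hte hT hγ (fun _ _ _ _ _ _ _ _ hR => hR.early) hbd

end

end Crest.Agent.R122.Pt6811
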