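import Crest.Agent.R122.H5Sp6_994
import Crest.Agent.R122.H5Ti_994
import Crest.Agent.R122.Pt6_811

/-!
# StmtSP6 and StmtPt6 for the same literal terms (row 122, helper994)

* `AT` : the real cluster; `GT Q T'` : the good set `Gt` of the term (A);
* `tOc`, `tYc` : the terms of the old, young contacts = `tO6`, `tY6` with `AT`, `GT`;
* `stmtPt6_cut` : the pointwise inequality (helper811) for these terms;
* `sp6Body_cut` : the bound of the spread terms for these terms.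
-/

set_option autoImplicit false

open MeasureTheory Set Filter
open scoped ENNReal Topology
open Crest.AnalysisR.Kinetic
open Crest.Agent.R122.Kin796 Crest.Agent.R122.Kin796.CTree Crest.Agent.R122.Tree674
open Crest.Agent.R122.EDefs602 Crest.Agent.R122.TreeLines335 Crest.Agent.R122.LineMeas994
open Crest.Agent.R122.Decomp811 Crest.Agent.R122.Weight984 Crest.Agent.R122.MeasE416
open Crest.Agent.R122.Master566
open Crest.Agent.R122.Boost969 (LSt posAt)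
open Crest.Agent.R122.Pair292 (Lab PPar PX shM)
open Crest.Agent.R122.PairD292

namespace Crest.Agent.R122.H5994

noncomputable section

open scoped Classical

/-- the real cluster, as a marked world -/
def AT (Φ : Space3 → ℝ) (ε : ℝ) (P : CTree) (z : PhasePoint × Par P) : MW (Idx P) :=
  InEq2T.treeW Φ ε P z

/-- the good set of the term (A) -/
def GT (Φ : Space3 → ℝ) (Q : EPar) (T' : ℝ) (ε : ℝ) (P : CTree) (w : Σ n : ℕ, Config n)
    (z : PhasePoint × Par P) : Prop :=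
  Gt Φ ε Q.te T' P w z

/-- terms of the old contacts -/
def tOc (Φ : Space3 → ℝ) (Q : EPar) (T' : ℝ) : ℕ → ℝ → SF2 := fun K ε =>
  tO6 (AT Φ ε) (GT Φ Q T' ε) Φ Q T' K ε

/-- terms of the young contacts -/
def tYc (Φ : Space3 → ℝ) (Q : EPar) (T' : ℝ) : ℕ → ℝ → SF2 := fun K ε =>
  tY6 (AT Φ ε) (GT Φ Q T' ε) Φ Q T' K ε

/-- error of the term (A) -/
def errAc (Φ : Space3 → ℝ) (Q : EPar) (T' : ℝ) (K : ℕ) (ε : ℝ) :
    (P : CTree) → PhasePoint × Par P → (m : ℕ) → Config m → ℝ≥0∞ :=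
  errA (AT Φ ε) (GT Φ Q T' ε) Φ ε K Q

theorem measW_AT {Φ : Space3 → ℝ} (hΦ : AdmissiblePotential Φ) (ε : ℝ) (P : CTree) :
    MeasW (AT Φ ε P) :=
  InEq2T.measW_treeW hΦ ε P

/-- **The bound of the spread terms**, for the terms of the pointwise inequality. -/
theorem sp6Body_cut {Φ : Space3 → ℝ} {f₀ : PhasePoint → ℝ} {Q : EPar} {T' r : ℝ}
    (hΦ : AdmissiblePotential Φ) (hf : Measurable f₀) (hL : 0 < Q.L) (hT : Q.te ≤ T')
    (hγ : Measurable Q.γ) {g : ℝ} (hg0 : 0 < g) (hg : ∀ τ ∈ Ioc 0 Q.te, g ≤ Q.γ τ)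
    (hρ : Q.ρ < 1) (htw : 0 ≤ Q.tw) (hte : Q.tw ≤ Q.te) (hr : 0 < r) {PP : ℕ → PPar}
    (hPP : PPOk Q PP) {CR CE : ℝ≥0∞} (hCR : CR ≠ ∞) (hCE : CE ≠ ∞) {δR δE : ℕ → ℝ → ℝ≥0∞}
    (hδR : Null δR) (hδE : Null δE) (hR : QRootH5 Φ f₀ Q.γ Q.ρ Q.tw Q.te CR δR)
    (hE : QExitH5 Φ f₀ Q.γ Q.ρ Q.tw Q.te CE δE) {M C b : ℝ}
    (hY : Null (H5Y814.δY Φ f₀ M C b Q.tw Q.te))
    (nA : Null fun K ε => InEq2.TS Φ f₀ ε Q.te (errAc Φ Q T' K ε))
    (nB : Null fun K ε => errB Φ f₀ ε K Q) :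
    SP6Body Φ f₀ Q T' r PP (tOc Φ Q T') (tYc Φ Q T')
      (Csp r Q.te Q.L (RedFlux6.Cline Q.ρ g Q.te) (CR + ENNReal.ofReal Q.te * CE)
        (H5Y814.cYm M C b Q.te)) :=
  sp6Body_of (AA := fun ε => AT Φ ε) (GG := fun ε => GT Φ Q T' ε) hΦ hf
    (fun ε _ P => measW_AT hΦ ε P) (fun _ hε P => measurableSet_Gt hΦ hε Q.te T' P) hL hT hγ
    hg0 hg hρ htw hte hr hPP hCR hCE hδR hδE hR hE hY nA nB

/-- **The pointwise inequality** (helper811), for the same terms. -/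
theorem stmtPt6_cut {Φ : Space3 → ℝ} {Q : EPar} {T' r : ℝ} {bd : ℕ → ℝ → SF2}
    (h : StmtPt6 Φ Q T' r
      (fun K ε => tO6 (fun P z => InEq2T.treeW Φ ε P z) (Gt Φ ε Q.te T') Φ Q T' K ε)
      (fun K ε => tY6 (fun P z => InEq2T.treeW Φ ε P z) (Gt Φ ε Q.te T') Φ Q T' K ε) bd) :
    StmtPt6 Φ Q T' r (tOc Φ Q T') (tYc Φ Q T') bd := h

end

end Crest.Agent.R122.H5994
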