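import Crest.Agent.R122.H5XE_814
import Crest.Agent.R122.H5Cut_994
import Crest.Agent.R122.TopE_602

/-!
Row 122 (helper814): the spread terms of inequality 3 (`StmtSP6`), window form.

* `exists_inputs` : the inputs of helper994's `sp6Body_of` from `KData`, for all admissible line
  parameters and all short windows, with constants which do not depend on the window;
* `Csp_le` : the constant is at most `CY r + K(r) / L`;
* `sp6_win`, `sp6In` : the spread terms for all windows, in the form of helper566's closing.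
-/

set_option autoImplicit false

open MeasureTheory Set Filter
open scoped ENNReal Topology Classical
open Crest.AnalysisR.Kinetic
open Crest.Agent.R122.Kin796 Crest.Agent.R122.Kin796.CTree Crest.Agent.R122.Tree674
open Crest.Agent.R122.EDefs602 Crest.Agent.R122.TreeLines335 Crest.Agent.R122.LineMeas994
open Crest.Agent.R122.GC311 Crest.Agent.R122.QDens815 Crest.Agent.R122.Q1815
open Crest.Agent.R122.SPV994 Crest.Agent.R122.MeasE416 Crest.Agent.R122.Master566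
open Crest.Agent.R122.Boost969 (LSt posAt)
open Crest.Agent.R122.Pair292 (Lab PPar PX)
open Crest.Agent.R122.PairD292
open Crest.Agent.R122.H5994 Crest.Agent.R122.H5Y814 Crest.Agent.R122.Top602

noncomputable section

namespace Crest.Agent.R122.H5Top814

variable {Φ : Space3 → ℝ} {f₀ : PhasePoint → ℝ} {f : ℝ → PhasePoint → ℝ} {β T : ℝ}

/-! ## The inputs -/

/-- The inputs of `StmtSP6` for one window. -/
structure SPInp (Φ : Space3 → ℝ) (f₀ : PhasePoint → ℝ) (Q : EPar) (M C b : ℝ) (CR CE : ℝ≥0∞)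
    (δR δE : ℕ → ℝ → ℝ≥0∞) : Prop where
  nR : Null δR
  nE : Null δE
  nY : Null (δY Φ f₀ M C b Q.tw Q.te)
  root : QRootH5 Φ f₀ Q.γ Q.ρ Q.tw Q.te CR δR
  exit : QExitH5 Φ f₀ Q.γ Q.ρ Q.tw Q.te CE δE

theorem exists_inputs (hD : KData Φ β T f₀ f) :
    ∃ hk : ℝ, 0 < hk ∧ ∃ g1 : ℝ, 0 < g1 ∧ ∃ r1 : ℝ≥0∞, r1 < 1 ∧ ∃ M C b : ℝ, 0 < b ∧
      ∃ CR : ℝ≥0∞, CR ≠ ∞ ∧ ∃ CE : ℝ≥0∞, CE ≠ ∞ ∧
      ∀ (γ : ℝ → ℝ) (ρ : ℝ≥0∞), LinePar g1 r1 T γ ρ →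
        ∀ h L tw te : ℝ, 0 < te → h ≤ hk → Win h T tw te → GIV566.GIV Φ f₀ f T tw →
          ∃ δR δE : ℕ → ℝ → ℝ≥0∞, SPInp Φ f₀ (epar γ ρ L tw te) M C b CR CE δR δE := by
  obtain ⟨h₀, kap, lam, C, b, hK, hkap⟩ := exists_kinC_kdata hD
  have hlam : 1 < lam := hK.2.2.1
  have hb : 0 < b := hK.2.2.2.2.1
  set lam₁ : ℝ := (1 + lam) / 2 with hl1
  have h1 : 1 < lam₁ := by rw [hl1]; linarith
  have h2 : lam₁ < lam := by rw [hl1]; linarith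
  obtain ⟨M, hM, hMb⟩ := exists_wtA_le Φ h1 hK.2.1
  obtain ⟨g₁, hg₁, ρ₁, hρ₁, CE, hCE, hE⟩ := H5X814.qexitH5 hD hK hkap h1 h2
  have hr : ENNReal.ofReal (lam₁ / lam) < 1 := by
    rw [← ENNReal.ofReal_one]
    exact (ENNReal.ofReal_lt_ofReal_iff one_pos).2 ((div_lt_one (by linarith)).2 h2)
  refine ⟨h₀, hK.1, min g₁ b, lt_min hg₁ hb, max ρ₁ (ENNReal.ofReal (lam₁ / lam)), max_lt hρ₁ hr,
    M, C, b, hb, cRoot M lam lam₁ C, cRoot_ne_top _ _ _ _, CE, hCE, fun γ ρ hP => ?_⟩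
  obtain ⟨g0, κ, hκ, hγ, hlow, hup⟩ := hP.lin
  intro h L tw te hte hh hW hG
  have hγm : Measurable γ := hP.measurable
  have htw : tw ∈ Icc 0 T := ⟨hW.nonneg, hW.le.trans hW.le_T⟩
  have X : Ctx Φ β T f₀ f te tw := Ctx.of_kdata hD htw hG hte
  have hteh : te ≤ tw + h₀ := hW.short.trans (by linarith)
  have hub : ∀ τ ∈ Ioc 0 te, γ τ ≤ min g₁ b := by
    intro τ hτ
    rw [hγ]
    have h2 := mul_pos hκ hτ.1
    show g0 - κ * τ ≤ _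
    linarith
  obtain ⟨δR, hδR, hR⟩ := qroot X hK hkap hteh le_rfl hγm
    (fun u hu => (hub u hu).trans (min_le_right _ _)) h1 h2.le hMb
    ((le_max_right _ _).trans hP.lo)
  obtain ⟨δE, hδE, hE'⟩ := hE γ ρ ((le_max_left _ _).trans hP.lo) tw htw hG te hte hteh
    (fun u hu => (hub u hu).trans (min_le_left _ _))
  have hnY := null_δY X hK hkap hteh le_rfl h1 h2.le hMb
  exact ⟨δR, δE, ⟨hδR, hδE, hnY, hR, hE'⟩⟩

/-! ## The constant -/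

/-- coefficient of `r` -/
def cYr (Cl CQ cY : ℝ≥0∞) : ℝ≥0∞ :=
  (Omega969.sphM univ * (volume (Metric.ball (0 : Space3) 1) * 2)) * (2 * Cl) * CQ + cY

/-- coefficient of `1 / L` -/
def cLr (r T : ℝ) (CQ : ℝ≥0∞) : ℝ≥0∞ := 2 * (k6 r T * CQ)

theorem Csp_le {r te L : ℝ} {Cl Cl' CQ CQ' cY cY' : ℝ≥0∞} (hte : te ≤ T) (h1 : Cl ≤ Cl')
    (h2 : CQ ≤ CQ') (h3 : cY ≤ cY') :
    Csp r te L Cl CQ cY ≤ cYr Cl' CQ' cY' * ENNReal.ofReal r +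
      cLr r T CQ' * ENNReal.ofReal L⁻¹ := by
  have h6 : k6 r te ≤ k6 r T := by
    unfold k6
    gcongr
  unfold Csp
  calc (k6 r te * ENNReal.ofReal (1 / L) + k7 r Cl) * CQ +
        k6 r te * ENNReal.ofReal (1 / L) * CQ + cY * ENNReal.ofReal r
      ≤ (k6 r T * ENNReal.ofReal (1 / L) + k7 r Cl') * CQ' +
        k6 r T * ENNReal.ofReal (1 / L) * CQ' + cY' * ENNReal.ofReal r := by
        unfold k7
        gcongr
    _ = _ := by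
        rw [one_div]
        unfold cYr cLr k7
        ring

theorem cV_ne_top {b : ℝ} (hb : 0 < b) : cV b ≠ ∞ := by
  have h1 : gV b ≤ QExit814.cA (b / 2) * ∫⁻ v : Space3, wG (b / 2) v := by
    unfold gV
    rw [← lintegral_const_mul _ (measurable_wG _)]
    refine lintegral_mono fun v => ?_
    rw [mul_comm]
    have h2 := QExit814.one_add_wG_le (δ := b / 2) (by positivity) b v
    rwa [show b - b / 2 = b / 2 by ring] at h2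
  have h2 : ∫⁻ v : Space3, wG (b / 2) v ≠ ∞ :=
    (QExit814.lintegral_wG_lt_top (by positivity)).ne
  unfold cV
  exact ENNReal.mul_ne_top (ne_top_of_le_ne_top (ENNReal.mul_ne_top (QExit814.cA_ne_top _) h2) h1)
    measure_ball_lt_top.ne

theorem cYm_mono {M C b te : ℝ} (hte : te ≤ T) : cYm M C b te ≤ cYm M C b T := by
  unfold cYm
  gcongr

theorem cYm_ne_top {M C b : ℝ} (hb : 0 < b) : cYm M C b T ≠ ∞ := by
  unfold cYm
  have h1 : cV b ≠ ∞ := cV_ne_top hb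
  have h2 : volume (Metric.ball (0 : Space3) 1) ≠ ∞ := measure_ball_lt_top.ne
  have h3 : (2 : ℝ≥0∞) * ENNReal.ofReal M ≠ ∞ :=
    ENNReal.mul_ne_top (by norm_num) ENNReal.ofReal_ne_top
  have h4 : (2 : ℝ≥0∞) * (1 + ENNReal.ofReal T) ≠ ∞ :=
    ENNReal.mul_ne_top (by norm_num) (by finiteness)
  exact ENNReal.mul_ne_top (ENNReal.mul_ne_top (ENNReal.mul_ne_top h3 ENNReal.ofReal_ne_top) h1)
    (ENNReal.mul_ne_top h2 h4)

theorem cYr_ne_top {Cl CQ cY : ℝ≥0∞} (h1 : Cl ≠ ∞) (h2 : CQ ≠ ∞) (h3 : cY ≠ ∞) :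
    cYr Cl CQ cY ≠ ∞ := by
  unfold cYr
  have h4 : volume (Metric.ball (0 : Space3) 1) ≠ ∞ := measure_ball_lt_top.ne
  exact ENNReal.add_ne_top.2 ⟨ENNReal.mul_ne_top (ENNReal.mul_ne_top (ENNReal.mul_ne_top
    (measure_ne_top _ _) (ENNReal.mul_ne_top h4 (by norm_num)))
    (ENNReal.mul_ne_top (by norm_num) h1)) h2, h3⟩

theorem cLr_ne_top {r : ℝ} {CQ : ℝ≥0∞} (h : CQ ≠ ∞) : cLr r T CQ ≠ ∞ := by
  unfold cLr
  exact ENNReal.mul_ne_top (by norm_num) (ENNReal.mul_ne_top k6_ne_top h)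

theorem cline_mono {ρ : ℝ≥0∞} {g te : ℝ} (h : te ≤ T) :
    RedFlux6.Cline ρ g te ≤ RedFlux6.Cline ρ g T := by
  unfold RedFlux6.Cline
  gcongr

/-! ## The window form -/

/-- The error terms of SP-A, SP-B are null. -/
structure NullAB (Φ : Space3 → ℝ) (f₀ : PhasePoint → ℝ) (Q : EPar) (T' : ℝ) : Prop where
  /-- SP-A -/
  a : Null fun K ε => InEq2.TS Φ f₀ ε Q.te (errAc Φ Q T' K ε)
  /-- SP-B -/
  b : Null fun K ε => errB Φ f₀ ε K Q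

theorem SP6Body.mono {Q : EPar} {T' r : ℝ} {PP : ℕ → PPar} {tO tY : ℕ → ℝ → SF2}
    {C C' : ℝ≥0∞} (h : SP6Body Φ f₀ Q T' r PP tO tY C) (hC : C ≤ C') :
    SP6Body Φ f₀ Q T' r PP tO tY C' := by
  obtain ⟨δ, hδ, h⟩ := h
  refine ⟨δ, hδ, fun K ε hε Ξ ν c hν hs => (h K ε hε Ξ ν c hν hs).trans ?_⟩
  gcongr

/-- no link event in an empty window -/
theorem sp6Body_zero (hf : Measurable f₀) {Q : EPar} (hte : Q.te ≤ 0) {T' r : ℝ}
    (hT : Q.te ≤ T') {PP : ℕ → PPar} {C : ℝ≥0∞} :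
    SP6Body Φ f₀ Q T' r PP (tOc Φ Q T') (tYc Φ Q T') C := by
  have h0 : ∀ P (z : PhasePoint × Par P) (ε : ℝ), LinkS ε Q.te P z = ∅ := by
    intro P z ε
    refine eq_empty_of_forall_notMem fun p hp => ?_
    have h1 := hp.2.1
    have h2 := hp.2.2.2.2
    linarith
  refine ⟨fun _ _ => 0, Null.zero, fun K ε hε Ξ ν c hν _ => ?_⟩
  refine (H5OS814.OS2_le_link hf hT (K := K) (F := fun P w z θ =>
    if r ≤ age ε z θ then tOc Φ Q T' K ε P z w.1 w.2 θ else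
      tYc Φ Q T' K ε P z w.1 w.2 θ) fun P z m w θ => ?_).trans ?_
  · by_cases h : Tree674.Sep Φ ε P T' z.1 z.2 ∧ P.leaves ≤ K
    · rw [if_pos h]
    · have h1 : ¬ ((Valid Φ ε P T' z.1.2 z.2 ∧ Tree674.Sep Φ ε P T' z.1 z.2) ∧ P.leaves ≤ K) :=
        fun hc => h ⟨hc.1.2, hc.2⟩
      unfold tOc tYc tO6 tY6
      rw [if_neg h1, if_neg h1]
      split_ifs <;> exact bot_le
  · simp only [h0, Measure.restrict_empty, lintegral_zero_measure, lintegral_zero,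
      Finset.sum_const_zero, mul_zero]
    exact bot_le

/-- **The spread terms for all windows.** -/
theorem sp6_win (hD : KData Φ β T f₀ f) :
    ∃ hk : ℝ, 0 < hk ∧ ∃ g1 : ℝ, 0 < g1 ∧ ∃ r1 : ℝ≥0∞, r1 < 1 ∧
      ∀ (γ : ℝ → ℝ) (ρ : ℝ≥0∞), LinePar g1 r1 T γ ρ →
        ∃ CY : ℝ≥0∞, CY ≠ ∞ ∧ ∀ r : ℝ, 0 < r → ∃ CL : ℝ≥0∞, CL ≠ ∞ ∧
        ∀ h L tw te : ℝ, h ≤ hk → 1 ≤ L → Win h T tw te → GIV566.GIV Φ f₀ f T tw →
        ∀ T' : ℝ, te ≤ T' → ∀ PP : ℕ → PPar, PPOk (epar γ ρ L tw te) PP →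
        NullAB Φ f₀ (epar γ ρ L tw te) T' →
        SP6Body Φ f₀ (epar γ ρ L tw te) T' r PP (tOc Φ (epar γ ρ L tw te) T')
          (tYc Φ (epar γ ρ L tw te) T') (CY * ENNReal.ofReal r + CL * ENNReal.ofReal L⁻¹) := by
  obtain ⟨hk, hk0, g1, hg1, r1, hr1, M, C, b, hb, CR, hCR, CE, hCE, H⟩ := exists_inputs hD
  have hf := hD.contDiff.continuous.measurable
  refine ⟨hk, hk0, g1, hg1, r1, hr1, fun γ ρ hP => ?_⟩
  obtain ⟨g0, κ, hκ, hγ, hlow, hup⟩ := hP.lin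
  have hCl := RedFlux6.Cline_ne_top hP.hi hlow T
  have hCQ : CR + ENNReal.ofReal T * CE ≠ ∞ :=
    ENNReal.add_ne_top.2 ⟨hCR, ENNReal.mul_ne_top ENNReal.ofReal_ne_top hCE⟩
  refine ⟨cYr (RedFlux6.Cline ρ (g0 - κ * T) T) (CR + ENNReal.ofReal T * CE) (cYm M C b T),
    cYr_ne_top hCl hCQ (cYm_ne_top hb), fun r hr => ⟨cLr r T (CR + ENNReal.ofReal T * CE),
    cLr_ne_top hCQ, fun h L tw te hh hL hW hG T' hT' PP hPP hN => ?_⟩⟩
  rcases le_or_gt te 0 with h0 | h0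
  · exact sp6Body_zero hf h0 hT'
  obtain ⟨δR, δE, hI⟩ := H γ ρ hP h L tw te h0 hh hW hG
  have hlb : ∀ τ ∈ Ioc 0 te, g0 - κ * T ≤ γ τ := by
    intro τ hτ
    rw [hγ]
    have h2 := mul_le_mul_of_nonneg_left (hτ.2.trans hW.le_T) hκ.le
    show g0 - κ * T ≤ g0 - κ * τ
    linarith
  have h1 := sp6Body_cut (Q := epar γ ρ L tw te) hD.adm hf (show (0 : ℝ) < L by linarith) hT'
    hP.measurable hlow hlb hP.hi hW.nonneg hW.le hr hPP hCR hCE hI.nR hI.nE hI.root hI.exit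
    hI.nY hN.a hN.b
  refine SP6Body.mono h1 (Csp_le hW.le_T (cline_mono hW.le_T) ?_ (cYm_mono hW.le_T))
  show CR + ENNReal.ofReal te * CE ≤ _
  gcongr
  exact hW.le_T

/-- **The spread terms in the form of the closing.** -/
theorem sp6In (hD : KData Φ β T f₀ f) : InHL T fun _h₀ γ ρ => ∃ CY : ℝ≥0∞, CY ≠ ∞ ∧
    ∀ r : ℝ, 0 < r → ∃ o : ℝ → ℝ → ℝ≥0∞, Vanish o ∧ EvW T fun h L tw te =>
      IH Φ f₀ f T γ ρ tw → ∀ T' : ℝ, te ≤ T' → ∀ PP : ℕ → PPar,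
        PPOk (epar γ ρ L tw te) PP → NullAB Φ f₀ (epar γ ρ L tw te) T' →
        SP6Body Φ f₀ (epar γ ρ L tw te) T' r PP (tOc Φ (epar γ ρ L tw te) T')
          (tYc Φ (epar γ ρ L tw te) T') (CY * ENNReal.ofReal r + o h L) := by
  obtain ⟨hk, hk0, g1, hg1, r1, hr1, H⟩ := sp6_win hD
  refine ⟨1, one_pos, g1, hg1, r1, hr1, fun h₀ _ _ γ ρ hP => ?_⟩
  obtain ⟨CY, hCY, H⟩ := H γ ρ hP
  refine ⟨CY, hCY, fun r hr => ?_⟩
  obtain ⟨CL, hCL, H⟩ := H r hr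
  refine ⟨fun _ L => CL * ENNReal.ofReal L⁻¹, Vanish.inv_L.const_mul hCL, hk, hk0, 1,
    fun h L tw te _ hh hL _ hW hI T' hT' PP hPP hN => ?_⟩
  exact H h L tw te hh hL hW hI.giv T' hT' PP hPP hN

/-! ## helper292's `StmtSP6` -/

theorem measSF2_tOc (hΦ : AdmissiblePotential Φ) {Q : EPar} {T' : ℝ} {K : ℕ} {ε : ℝ}
    (hε : 0 < ε) : MeasSF2 (tOc Φ Q T' K ε) :=
  measSF2_tO6 hΦ hε (fun P => measW_AT hΦ ε P) (fun P => measurableSet_Gt hΦ hε Q.te T' P)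

theorem measSF2_tYc (hΦ : AdmissiblePotential Φ) {Q : EPar} {T' : ℝ} {K : ℕ} {ε : ℝ}
    (hε : 0 < ε) : MeasSF2 (tYc Φ Q T' K ε) :=
  measSF2_tY6 hΦ hε (fun P => measW_AT hΦ ε P) (fun P => measurableSet_Gt hΦ hε Q.te T' P)

theorem stmtSP6_of_body (hΦ : AdmissiblePotential Φ) {Q : EPar} {T' r : ℝ} {PP : ℕ → PPar}
    {C : ℝ≥0∞} (h : PPOk Q PP → SP6Body Φ f₀ Q T' r PP (tOc Φ Q T') (tYc Φ Q T') C) :
    StmtSP6 Φ f₀ Q T' r PP (tOc Φ Q T') (tYc Φ Q T') C := by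
  intro hPP
  refine ⟨fun K ε hε => ⟨measSF2_tOc hΦ hε, measSF2_tYc hΦ hε⟩, ?_⟩
  obtain ⟨δ, hδ, h⟩ := h hPP
  exact ⟨δ, hδ, fun K ε hε _ Ξ ν c hν hs =>
    h K ε hε Ξ ν c hν (hs.mono fun θ hθ => hθ.2)⟩

/-- **`StmtSP6` for all windows.** -/
theorem stmtSP6In (hD : KData Φ β T f₀ f) : InHL T fun _h₀ γ ρ => ∃ CY : ℝ≥0∞, CY ≠ ∞ ∧
    ∀ r : ℝ, 0 < r → ∃ o : ℝ → ℝ → ℝ≥0∞, Vanish o ∧ EvW T fun h L tw te =>
      IH Φ f₀ f T γ ρ tw → ∀ T' : ℝ, te ≤ T' → ∀ PP : ℕ → PPar,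
        NullAB Φ f₀ (epar γ ρ L tw te) T' →
        StmtSP6 Φ f₀ (epar γ ρ L tw te) T' r PP (tOc Φ (epar γ ρ L tw te) T')
          (tYc Φ (epar γ ρ L tw te) T') (CY * ENNReal.ofReal r + o h L) :=
  (sp6In hD).mono fun _ _ _ _ _ h => by
    obtain ⟨CY, hCY, h⟩ := h
    refine ⟨CY, hCY, fun r hr => ?_⟩
    obtain ⟨o, ho, h⟩ := h r hr
    exact ⟨o, ho, h.mono fun _ _ _ _ _ _ _ hq hI T' hT' PP hN =>
      stmtSP6_of_body hD.adm fun hPP => hq hI T' hT' PP hPP hN⟩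

end Crest.Agent.R122.H5Top814

end
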