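import Crest.Agent.R122.LNTreeRAT_399
import Crest.Agent.R122.TreeGate2_302

/-!
# Row 122, LN1, tree instance: helper302's form (helper399)

* `ratR` : `TreeGate2302.RATR` (root line included).
-/

set_option autoImplicit false
open Crest.AnalysisR.Kinetic
open Crest.Agent.R122.LN304 Crest.Agent.R122.LNTree399

noncomputable section

namespace Crest.Agent.R122.LNTree399

variable {Φ : Space3 → ℝ} {t : ℝ}

/-- **`RATR` holds**: helper302's form, root line included. -/
theorem ratR (hΦ : AdmissiblePotential Φ) (K K₂ : ℕ) : TreeGate2302.RATR Φ t K K₂ := by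
  intro L
  obtain ⟨N, h⟩ := ratA (t := t) hΦ K K₂ L
  exact ⟨N, fun c ε ℓ ς hc hε hℓ hς P z n w hP hV hS hw hp hok =>
    h c ε ℓ ς t hc hε hℓ hς le_rfl P z n w hP hV hS hw hp hok⟩

end Crest.Agent.R122.LNTree399

end
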