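import Crest.Agent.R122.ErrA2_815
import Crest.Agent.R122.ErrA3_815
import Crest.Agent.R122.H5Cut_994
import Crest.Agent.R122.LNRoot_291
import Crest.Agent.R122.LNTreeRATR_399
import Crest.Agent.R122.ErrBFam_823
import Crest.Agent.R122.TopE_602
import Crest.Agent.R122.H5Top_814

/-!
helper815, row 122: the null errors of the spread terms (`errA`, `errB`) in the windows.

* `exNull` : the exceptional events of one tree (root line included) are null (helper291, 399);
* `errA_win` : the errors of SP-A are null, from the null test lines `lkX` of helper335;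
* `TLNullIn`, `ErrBFamIn` : the two open leaves; `errAIn`, `errBIn`.
-/

set_option autoImplicit false
set_option linter.unusedSectionVars false

open MeasureTheory Set Filter
open scoped ENNReal Topology
open Crest.AnalysisR.Kinetic
open Crest.Agent.R122.Kin796 Crest.Agent.R122.Kin796.CTree Crest.Agent.R122.Tree674
open Crest.Agent.R122.EDefs602 Crest.Agent.R122.TreeLines335 Crest.Agent.R122.LineMeas994
open Crest.Agent.R122.GC311 Crest.Agent.R122.Decomp811 Crest.Agent.R122.Master566
open Crest.Agent.R122.InEq2 Crest.Agent.R122.InEq2T Crest.Agent.R122.H5994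
open Crest.Agent.R122.Top602

noncomputable section

namespace Crest.Agent.R122.ErrAB815

open scoped Classical

variable {Φ : Space3 → ℝ} {f₀ : PhasePoint → ℝ} {f : ℝ → PhasePoint → ℝ} {β T : ℝ}

/-- **The exceptional events of one tree are null**, root line included. -/
theorem exNull (hD : KData Φ β T f₀ f) {te : ℝ} (hte : 0 < te) : ExNull Φ f₀ te te :=
  exNull_of_tNull fun K => LNRoot291.tNull_goodT hD.adm (by linarith [hD.beta_pos] : 0 < 2 * β)
    hD.contDiff.continuous hD.gaussian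
    (FM167.lintegral_density_eq_one hD.nonneg hD.integrable hD.mass).le hte le_rfl
    (LNTree399.ratR hD.adm K K)

/-- No lines are born in an empty time interval. -/
theorem lineM_zero {γ : ℝ → ℝ} (hγ : Measurable γ) {ρ : ℝ≥0∞} {K : ℕ} {te : ℝ} (hte : te ≤ 0) :
    lineM γ ρ K te = 0 := by
  have h := EBasic602.lineM_ae hγ (ρ := ρ) (K := K) (T := te)
  rw [← Measure.measure_univ_eq_zero]
  refine measure_mono_null (fun l _ => ?_) (ae_iff.1 h)
  intro hl
  exact absurd (hl.1.trans_le hl.2.1) (not_lt.2 hte)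

/-- Null test lines of `errA`, trees which are real up to `te` in helper994's sense. -/
theorem xNull_GT (hD : KData Φ β T f₀ f) {Q : EPar} (hγ : Measurable Q.γ) (T' : ℝ)
    (hX : 0 < Q.te → XNull Φ f₀ Q.te Q.te Q.γ Q.ρ fun K ε P z _ w => lkX Φ ε K Q.te P z w) :
    XNull Φ f₀ Q.te Q.te Q.γ Q.ρ fun K ε P z m w =>
      {l | GT Φ Q T' ε P ⟨m, w⟩ z ∧
        l ∈ badF Φ ε K Q.te (MW.cfg w) (AT Φ ε P z) (lineMM Φ ε P z)} := by
  have hf : Measurable f₀ := hD.contDiff.continuous.measurable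
  rcases le_or_gt Q.te 0 with hte | hte
  · intro K δ _
    refine ⟨1, one_pos, fun ε _ _ => ⟨fun _ _ _ _ => 0, fun _ _ => measurable_const, ?_, ?_⟩⟩
    · intro P z m w _ _ _ _ _
      rw [lineM_zero hγ hte]
      simp
    · simp only [mul_zero]
      rw [InEq2.TS_zero]
      exact bot_le
  · refine (xNull_lkA hD.adm hf hte hγ (hX hte) (exNull hD hte)).mono
      fun K ε hε P z m w hP hV hS hw hp => measure_mono fun l hl => ⟨hl.1.2, ?_⟩
    have e : AT Φ ε P z = RealL811.treeW Φ ε P z := TreeInM823.treeW_eq hV.1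
    rw [← e]
    exact hl.2

/-- **The errors of SP-A are null** in one window. -/
theorem errA_win (hD : KData Φ β T f₀ f) {Q : EPar} (hγ : Measurable Q.γ) (htw : 0 ≤ Q.tw) (T' : ℝ)
    (hX : 0 < Q.te → XNull Φ f₀ Q.te Q.te Q.γ Q.ρ fun K ε P z _ w => lkX Φ ε K Q.te P z w) :
    Null fun K ε => TS Φ f₀ ε Q.te (errAc Φ Q T' K ε) :=
  errA_null hD.adm htw (xNull_GT hD hγ T' hX)

/-! ### The windows -/

/-- **Open leaf (TL)** : the test lines which are not good for the tree (helper335's `lkX`) are null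
at every horizon. -/
def TLNullIn (Φ : Space3 → ℝ) (f₀ : PhasePoint → ℝ) (T : ℝ) : Prop :=
  InHL T fun _ γ ρ => ∀ te : ℝ, 0 < te → te ≤ T →
    XNull Φ f₀ te te γ ρ fun K ε P z _ w => lkX Φ ε K te P z w

/-- **Open leaf (L)** : two independent lines, one touched in the window (helper823's family
form). -/
def ErrBFamIn (Φ : Space3 → ℝ) (f₀ : PhasePoint → ℝ) (T : ℝ) : Prop :=
  InHL T fun _ γ ρ => ∀ h L tw te : ℝ, 1 ≤ L → Win h T tw te → ∀ K : ℕ,
    ErrB823.ErrBFam Φ f₀ (epar γ ρ L tw te) K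

/-- **The errors of SP-A in the windows.** -/
theorem errAIn (hD : KData Φ β T f₀ f) (h : TLNullIn Φ f₀ T) :
    InHL T fun _ γ ρ => EvW T fun _ L tw te => ∀ T' : ℝ,
      Null fun K ε => TS Φ f₀ ε te (errAc Φ (epar γ ρ L tw te) T' K ε) :=
  h.mono fun _ γ ρ _ hl hX => by
    obtain ⟨g1, r1, hl⟩ := hl
    exact EvW.of_forall fun _ L tw te _ _ _ hw T' =>
      errA_win (Q := epar γ ρ L tw te) hD hl.measurable hw.nonneg T' fun hte => hX te hte hw.le_T

/-- **The errors of SP-B in the windows.** -/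
theorem errBIn (hD : KData Φ β T f₀ f) (h : ErrBFamIn Φ f₀ T) :
    InHL T fun _ γ ρ => EvW T fun _ L tw te =>
      Null fun K ε => H5994.errB Φ f₀ ε K (epar γ ρ L tw te) :=
  h.mono fun _ γ ρ _ hl hX => by
    obtain ⟨g1, r1, hl⟩ := hl
    exact EvW.of_forall fun h' L tw te _ _ hL hw =>
      ErrB823.null_errB_fam_of_kdata hD hl hw (hX h' L tw te hL hw)

/-- **Both errors in the windows** (helper814's `NullAB`), any horizon `T'`. -/
theorem nullABIn (hD : KData Φ β T f₀ f) (hA : TLNullIn Φ f₀ T) (hB : ErrBFamIn Φ f₀ T) :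
    InHL T fun _ γ ρ => EvW T fun _ L tw te => IH Φ f₀ f T γ ρ tw → ∀ T' : ℝ,
      H5Top814.NullAB Φ f₀ (epar γ ρ L tw te) T' :=
  ((errAIn hD hA).and (errBIn hD hB)).mono fun _ _ _ _ _ hq =>
    (hq.1.and hq.2).mono fun _ _ _ _ _ _ _ hp _ T' => ⟨hp.1 T', hp.2⟩

end Crest.Agent.R122.ErrAB815

end
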