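import Crest.Agent.R122.Disc_370
import Crest.Agent.R122.RtGDet_302

/-!
# The discrepancy of real and ghost world in terms of single exit lines (row 122, helper370), F3

* `RetL.mono_tubes`, `retL_sum`, … : the returns of single lines (`RtG302.RetL`, `RtG302.RetM`) as
  functions of the family of tubes.
* `shadow_of_discAt` : a first discrepancy gives helper302's `Shadow`.
* `f3_det` : a first discrepancy of a tree cluster: touch, link, return to the protected tubes, or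
  return to the test family; everything by single exit lines.
-/

set_option autoImplicit false
set_option linter.unusedSectionVars false
open MeasureTheory Set Filter
open scoped Classical ENNReal Topology
open Crest.AnalysisR.Kinetic
open Crest.Agent.R122.GC311 Crest.Agent.R122.Causal291 Crest.Agent.R122.Hit167
open Crest.Agent.R122.GhostErr370 Crest.Agent.R122.Flow671 Crest.Agent.R122.Loc45
open Crest.Agent.R122.Disc370 Crest.Agent.R122.RtG302 Crest.Agent.R122.EDefs602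
open Crest.Agent.R122.Kin796 Crest.Agent.R122.Kin796.CTree Crest.Agent.R122.Tree674
open Crest.Agent.R122.PathFlow968 Crest.Agent.R122.MWAlg255 Crest.Agent.R122.MWFam255
open Crest.Agent.R122.GIV566 Crest.Agent.R122.Relabel674
noncomputable section

namespace Crest.Agent.R122.F3Det370

/-! ### Returns of single lines as functions of the tubes -/

section ret

variable {m : ℕ} {Ex ι : Type} [Fintype Ex]
variable {Φ : Space3 → ℝ} {ε t : ℝ} {K : ℕ} {w : Config m} {ls : Ex → ML} {O : Tubes ι}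

theorem near_sum {ε : ℝ} {κ : Type} {O' : Tubes κ} {v : ℝ} {q : Space3} :
    near ε (O.sum O') v q ↔ near ε O v q ∨ near ε O' v q := by
  constructor
  · rintro ⟨a | a, h1, h2⟩
    · exact Or.inl ⟨a, h1, h2⟩
    · exact Or.inr ⟨a, h1, h2⟩
  · rintro (⟨a, h1, h2⟩ | ⟨a, h1, h2⟩)
    · exact ⟨Sum.inl a, h1, h2⟩
    · exact ⟨Sum.inr a, h1, h2⟩

theorem retL_mono {κ : Type} {O' : Tubes κ} {l : ML}
    (hO : ∀ v ∈ Icc 0 t, ∀ a, v ≤ O.b a → ∃ a', v ≤ O'.b a' ∧ O'.c a' v = O.c a v)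
    (h : RetL Φ ε K t w l O) : RetL Φ ε K t w l O' := by
  obtain ⟨v, hv, hT, i, hi, h⟩ := h
  exact ⟨v, hv, hT, i, hi, h.imp (near_mono (hO v hv)) (near_mono (hO v hv))⟩

theorem retM_mono {κ : Type} {O' : Tubes κ} {l : ML}
    (hO : ∀ v ∈ Icc 0 t, ∀ a, v ≤ O.b a → ∃ a', v ≤ O'.b a' ∧ O'.c a' v = O.c a v)
    (h : RetM Φ ε K t w l O) : RetM Φ ε K t w l O' := by
  obtain ⟨v, hv, hT, hb, h⟩ := h
  exact ⟨v, hv, hT, hb, near_mono (hO v hv) h⟩

theorem retL_sum {κ : Type} {O' : Tubes κ} {l : ML} (h : RetL Φ ε K t w l (O.sum O')) :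
    RetL Φ ε K t w l O ∨ RetL Φ ε K t w l O' := by
  obtain ⟨v, hv, hT, i, hi, h | h⟩ := h
  · exact (near_sum.1 h).imp (fun h => ⟨v, hv, hT, i, hi, Or.inl h⟩)
      fun h => ⟨v, hv, hT, i, hi, Or.inl h⟩
  · exact (near_sum.1 h).imp (fun h => ⟨v, hv, hT, i, hi, Or.inr h⟩)
      fun h => ⟨v, hv, hT, i, hi, Or.inr h⟩

theorem retM_sum {κ : Type} {O' : Tubes κ} {l : ML} (h : RetM Φ ε K t w l (O.sum O')) :
    RetM Φ ε K t w l O ∨ RetM Φ ε K t w l O' := by
  obtain ⟨v, hv, hT, hb, h⟩ := h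
  exact (near_sum.1 h).imp (fun h => ⟨v, hv, hT, hb, h⟩) fun h => ⟨v, hv, hT, hb, h⟩

end ret

/-! ### Trees -/

section tree

variable {Φ : Space3 → ℝ} {ε t σ v : ℝ} {K k m : ℕ} {V : Config k} {w : Config m} {j : Fin k}
  {P : CTree} {ℓ : PhasePoint} {p : Par P} {e : Idx P ≃ Fin k}

theorem pth_tree (hΦ : AdmissiblePotential Φ) (hε : 0 < ε) (hv : Valid Φ ε P σ ℓ.2 p)
    (hs : Sep Φ ε P σ ℓ p) (hl : ∀ x, V (e x) = lines Φ ε P ℓ p x) {s : ℝ} (hs' : s ∈ Icc 0 σ)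
    (x : Idx P) : pth Φ ε V s (e x) = path Φ ε P ℓ p s x := by
  rw [path_eq_flow hΦ hε hv hs hs']
  have h1 : (fun x => V (e x)) = lines Φ ε P ℓ p := funext hl
  rw [← h1]
  exact (congrFun (congrFun (pth_relabel hΦ hε e V) s) x).symm

theorem tauPre_tree (hΦ : AdmissiblePotential Φ) (hε : 0 < ε) (hσ : 0 < σ)
    (hv : Valid Φ ε P σ ℓ.2 p) (hs : Sep Φ ε P σ ℓ p) (he : e (root P) = j)
    (hl : ∀ x, V (e x) = lines Φ ε P ℓ p x) (x : Idx P) :
    tauPre (pth Φ ε V) ε j σ (e x) = prot P σ p x := by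
  rw [← TreeHit317.tauPre_eq hΦ hε hσ hv hs x, ← he]
  have h1 : (fun x => V (e x)) = lines Φ ε P ℓ p := funext hl
  rw [← h1, pth_relabel hΦ hε e V]
  exact (IStep317.tauPre_relabel e).symm

/-- A first discrepancy gives a shadow. -/
theorem shadow_of_discAt {α : Type} {c : α → ℝ → Space3} {θ : α → ℝ}
    (hΦ : AdmissiblePotential Φ) (hε : 0 < ε) (hσ : 0 < σ)
    (hv : Valid Φ ε P σ ℓ.2 p) (hs : Sep Φ ε P σ ℓ p) (he : e (root P) = j)
    (hl : ∀ x, V (e x) = lines Φ ε P ℓ p x) (h : DiscAt Φ ε c θ V w j σ v) :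
    Shadow Φ ε (treeStr Φ ε P σ (ℓ, p) hε hσ.le hv) v (Fin.append V w) (Fin.castAdd m ∘ e)
      (Fin.natAdd k) where
  dom := h.dom
  e_inj := (Fin.castAdd_injective _ _).comp e.injective
  g_inj := Fin.natAdd_injective _ _
  cover q := by
    refine Fin.addCases (fun a => ?_) (fun b => ?_) q
    · exact Or.inl ⟨e.symm a, by simp⟩
    · exact Or.inr ⟨b, rfl⟩
  disj x i := by
    intro hc
    have := congrArg Fin.val hc
    simp only [Function.comp_apply, Fin.val_castAdd, Fin.val_natAdd] at this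
    have := (e x).2
    omega
  exits x hx := ⟨⟨x, tree_exits h.mem.2.le hx⟩, rfl⟩
  agree x s h0 hsv hx := by
    change s ≤ prot P σ p x at hx
    rw [← tauPre_tree hΦ hε hσ hv hs he hl x] at hx
    change pth Φ ε (Fin.append V w) s (Fin.castAdd m (e x)) = path Φ ε P ℓ p s x
    rw [← h.agree s ⟨h0, hsv⟩ (e x) hx]
    exact pth_tree hΦ hε hv hs hl ⟨h0, hsv.trans h.mem.2.le⟩ x
  iso s hs' x hx q hq := by
    change s ≤ prot P σ p x at hx
    rw [← tauPre_tree hΦ hε hσ hv hs he hl x] at hx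
    refine (h.iso s hs' (Fin.castAdd m (e x)) ⟨e x, hx, rfl⟩ q ?_).le
    rintro ⟨i, hi, rfl⟩
    have h1 := hq (e.symm i) (by simp)
    change prot P σ p (e.symm i) < s at h1
    rw [← tauPre_tree hΦ hε hσ hv hs he hl, e.apply_symm_apply] at h1
    exact absurd hi (not_le.2 h1)

/-- **F3, deterministic part.** -/
theorem f3_det {ι : Type} {S : Tubes ι} (hΦ : AdmissiblePotential Φ) (hε : 0 < ε) (hσ : 0 < σ)
    (hv : Valid Φ ε P σ ℓ.2 p) (hs : Sep Φ ε P σ ℓ p) (he : e (root P) = j)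
    (hl : ∀ x, V (e x) = lines Φ ε P ℓ p x) (h : DiscAt Φ ε S.c S.b V w j σ v) (hσt : σ ≤ t)
    (hOk : AllOk Φ ε w (exL Φ ε P (ℓ, p))) :
    (∃ x, (MW.cfg w).thetaL Φ ε K t (exL Φ ε P (ℓ, p) x) ≤ t) ∨
      LinkEx Φ ε K t w (exL Φ ε P (ℓ, p)) ∨
      (RetEx Φ ε K t w (exL Φ ε P (ℓ, p)) (protT Φ ε P σ (ℓ, p)) ∨
        RetLn Φ ε K t w (exL Φ ε P (ℓ, p)) (protT Φ ε P σ (ℓ, p))) ∨
      RetEx Φ ε K t w (exL Φ ε P (ℓ, p)) S ∨ RetLn Φ ε K t w (exL Φ ε P (ℓ, p)) S := by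
  have ht0 : 0 ≤ t := hσ.le.trans hσt
  have hSh := shadow_of_discAt hΦ hε hσ hv hs he hl h
  have hvt : v ∈ Icc 0 t := ⟨h.mem.1, h.mem.2.le.trans hσt⟩
  have hw : (fun i => (Fin.append V w : Config (k + m)) (Fin.natAdd k i)) = w := by
    funext i; simp
  have hOk' : AllOk Φ ε (fun i => (Fin.append V w : Config (k + m)) (Fin.natAdd k i))
      (treeStr Φ ε P σ (ℓ, p) hε hσ.le hv).ls := by rw [hw]; exact hOk
  set O : Tubes (ι ⊕ Fin k) := S.sum (IStep317.clTubes Φ ε V j σ) with hO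
  -- the cluster tubes are the protected tubes
  have hcl : ∀ v ∈ Icc 0 t, ∀ a, v ≤ (IStep317.clTubes Φ ε V j σ).b a →
      ∃ a', v ≤ (protT Φ ε P σ (ℓ, p)).b a' ∧
        (protT Φ ε P σ (ℓ, p)).c a' v = (IStep317.clTubes Φ ε V j σ).c a v := by
    intro v hv' a ha
    have ha' : v ≤ tauPre (pth Φ ε V) ε j σ a := ha
    refine ⟨e.symm a, ?_, ?_⟩
    · change v ≤ prot P σ p (e.symm a)
      rw [← tauPre_tree hΦ hε hσ hv hs he hl, e.apply_symm_apply]
      exact ha'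
    · change (path Φ ε P ℓ p v (e.symm a)).1 = (pth Φ ε V v a).1
      rw [← pth_tree hΦ hε hv hs hl ⟨hv'.1, ha'.trans (tauPre_le hσ.le a)⟩, e.apply_symm_apply]
  rcases h.odd with ⟨q, hq⟩ | ⟨i, hi, hq⟩
  · have h1 := hSh.det (K := K) (O := O) hΦ hε hvt hOk' (i := q)
    rw [hw] at h1
    rcases h1 hq with ⟨x, hx⟩ | h1 | ⟨x, h1⟩
    · exact Or.inl ⟨x, hx.trans hvt.2⟩
    · exact Or.inr (Or.inl h1)
    · rcases retL_sum h1 with h1 | h1
      · exact Or.inr (Or.inr (Or.inr (Or.inl ⟨x, h1⟩)))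
      · exact Or.inr (Or.inr (Or.inl (Or.inl ⟨x, retL_mono hcl h1⟩)))
  · have hi' : (treeStr Φ ε P σ (ℓ, p) hε hσ.le hv).σ (e.symm i) < v := by
      change prot P σ p (e.symm i) < v
      rw [← tauPre_tree hΦ hε hσ hv hs he hl, e.apply_symm_apply]
      exact hi
    have h1 := hSh.det_exit (K := K) (O := O) hΦ hε hvt hOk' hi' (by
      change near ε O v (pth Φ ε (Fin.append V w) v (Fin.castAdd m (e (e.symm i)))).1
      rw [e.apply_symm_apply]
      exact hq)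
    rw [hw] at h1
    rcases h1 with ⟨x, hx⟩ | h1 | ⟨x, h1⟩
    · exact Or.inl ⟨x, hx.trans hvt.2⟩
    · exact Or.inr (Or.inl h1)
    · rcases retM_sum h1 with h1 | h1
      · exact Or.inr (Or.inr (Or.inr (Or.inr ⟨x, h1⟩)))
      · exact Or.inr (Or.inr (Or.inl (Or.inr ⟨x, retM_mono hcl h1⟩)))

end tree

end Crest.Agent.R122.F3Det370
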