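import Crest.Agent.R122.CEReach_370
import Crest.Agent.R122.LNTreeDef_399
import Crest.Agent.R122.LinkGate2_424
import Crest.Agent.R122.VLMain_581
import Crest.Agent.R122.ErrBind_317
import Crest.Agent.R122.TopF_602
import Crest.Agent.R122.TouchNull_302

/-!
# F3 from the tree instance of LN1 (row 122, helper370)

* `pMaj_runS` : runs from sub-structures of a tree have small mass.
* `HitPN` : the bad hits of tree clusters are null.
* `treeRA_of_rat` : `CEReach370.TreeRA` from 399's `RAT` and `HitPN`.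
* `errSmall_of_rat`, `errIn_of` : `IStep317.ErrSmall`, `Top602.ErrIn`.
-/

set_option autoImplicit false
set_option linter.unusedSectionVars false
open MeasureTheory Set Filter
open scoped Classical ENNReal Topology
open Crest.AnalysisR.Kinetic
open Crest.Agent.R122.Kin796 Crest.Agent.R122.Kin796.CTree Crest.Agent.R122.Flow671
open Crest.Agent.R122.Tree674 Crest.Agent.R122.VL581
open Crest.Agent.R122.GIV566 Crest.Agent.R122.ObDet370 Crest.Agent.R122.CEReach370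
open Crest.Agent.R122.RtG302 Crest.Agent.R122.EDefs602 Crest.Agent.R122.LNTree399
noncomputable section

namespace Crest.Agent.R122.F3RAT370

variable {Φ : Space3 → ℝ} {f₀ : PhasePoint → ℝ} {T t : ℝ} {P : CTree} {K : ℕ}

/-- **Runs from sub-structures of a tree** have small mass. -/
theorem pMaj_runS (hΦ : AdmissiblePotential Φ) {γ : ℝ} (hγ : 0 < γ) (hf : Measurable f₀)
    (H : HasSummableGaussianBound γ (fun x v => f₀ (x, v)))
    (h1 : ∫⁻ z, ENNReal.ofReal (f₀ z) ≤ 1) (ht : 0 ≤ t) (P : CTree) (K : ℕ) {δ : ℝ} (hδ : 0 < δ) :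
    ∃ L, PMaj Φ f₀ t P (fun ε z _ w => RunS Φ t K L ε z w) δ := by
  obtain ⟨C₀, hC₀, hb⟩ := GC311.exists_gaussian_bound H
  have hb' : ∀ z : PhasePoint, f₀ z ≤ C₀ * Real.exp (-(2 * (γ / 4) * ‖z.2‖ ^ 2)) := by
    intro z
    refine (le_abs_self _).trans ((hb z.1 z.2).trans ?_)
    refine mul_le_mul_of_nonneg_left (Real.exp_le_exp.2 ?_) hC₀
    have := mul_nonneg hγ.le (sq_nonneg ‖z.2‖)
    linarith
  obtain ⟨M, hM, hmom⟩ := GateT522.exists_moment_expW hΦ hf H (β := γ / 4) (by linarith) P t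
  obtain ⟨L₀, hL⟩ := Gate424.gLe_runS (I := Unit) (κ := Idx P)
    (m := fun ε _ => GateT522.treeQ Φ f₀ ε P t) hΦ (β := γ / 4) (by positivity)
    (T := t) ht hC₀ K hf hb' h1 (t := fun _ => t) (fun _ => le_rfl)
    (b := fun _ _ _ _ => 0) (z := fun ε _ z => linesM Φ ε P z.1 z.2)
    (fun _ _ _ => measurable_const) (fun ε _ _ => measurable_linesM hΦ ε P)
    hM (fun ε _ hε => hmom ε t hε le_rfl) (δ := ENNReal.ofReal δ) (ENNReal.ofReal_pos.2 hδ)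
  refine ⟨L₀, pMaj_of_gLe hΦ hf ((hL L₀ le_rfl).mono le_rfl ⟨1, one_pos,
    fun ε _ _ i n z w _ h => ?_⟩)⟩
  obtain ⟨_, hV, D, a, h⟩ := h
  refine ⟨D, a, ?_⟩
  rw [linesM_of_adm ε hV.1]
  exact h

/-- The bad hits of tree clusters are null. -/
def HitPN (Φ : Space3 → ℝ) (f₀ : PhasePoint → ℝ) (t : ℝ) : Prop :=
  ∀ (P : CTree) (N : ℕ) (δ : ℝ), 0 < δ → PMaj Φ f₀ t P (fun ε z _ w =>
    Sep Φ ε P t z.1 z.2 ∧ AllOk Φ ε w (exL Φ ε P z) ∧ HitT Φ t 1 ε N z w) δ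

/-- **`TreeRA` from the tree instance of LN1.** -/
theorem treeRA_of_rat (hΦ : AdmissiblePotential Φ) {γ : ℝ} (hγ : 0 < γ) (hf : Measurable f₀)
    (H : HasSummableGaussianBound γ (fun x v => f₀ (x, v)))
    (h1 : ∫⁻ z, ENNReal.ofReal (f₀ z) ≤ 1) (ht : 0 ≤ t) (hCN : VLMeas973.ClassNull Φ t)
    (hRAT : ∀ K K₂, RAT Φ t K K₂) (hHit : HitPN Φ f₀ t) (P : CTree) (K : ℕ) :
    TreeRA Φ f₀ t P K := by
  obtain ⟨ρ, C₀, he⟩ := LN2.exists_env (le_refl γ) H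
  choose N hN using hRAT P.leaves K
  refine treeRA_of_gate (Rn := fun L ε z _ w => RunS Φ t K L ε z w)
    (Ht := fun L ε z _ w => Sep Φ ε P t z.1 z.2 ∧ AllOk Φ ε w (exL Φ ε P z) ∧
      HitT Φ t 1 ε (N L) z w) hΦ hCN hf h1 he hγ (fun L => ?_)
    (fun δ hδ => pMaj_runS hΦ hγ hf H h1 ht P K hδ) (fun L δ hδ => hHit P (N L) δ hδ)
  refine ⟨N L + N L, N L, 1, 1, le_rfl, fun R hR ς hς => ?_⟩
  have hsm : ∀ᶠ ε in 𝓝[>] (0 : ℝ), 2 * (R * ε) ≤ ς := by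
    have h2 : Tendsto (fun ε : ℝ => 2 * (R * ε)) (𝓝[>] 0) (𝓝 (2 * (R * 0))) :=
      ((tendsto_id.const_mul R).const_mul 2).mono_left nhdsWithin_le_nhds
    rw [mul_zero, mul_zero] at h2
    exact (h2.eventually_lt_const hς).mono fun _ h => h.le
  filter_upwards [hsm, self_mem_nhdsWithin] with ε hε hpos
  have hp : 0 < ε := hpos
  intro z m w hex hV hS hOk _ _ hRn hBG hHt
  rcases hN L 1 ε (R * ε) ς le_rfl hp (by positivity) hε P z m w le_rfl hV hS hex.2.1 hex.2.2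
    hOk with h | h | h | h
  · exact absurd h hRn
  · exact absurd (badGas_tree hΦ hp le_rfl hV hS le_rfl h) hBG
  · exact absurd ⟨hS, hOk, h⟩ hHt
  · exact h

/-- `HitPN` from 302's calculus. -/
theorem hitPN_of_tNull (h : ∀ (K N : ℕ), TNull Φ f₀ t K fun ε P z _ w =>
    AllOk Φ ε w (exL Φ ε P z) ∧ HitT Φ t 1 ε N z w) : HitPN Φ f₀ t :=
  fun P N _ hδ => pMaj_of_tNull hδ (h P.leaves N)

/-- **`F3Null` from the tree instance of LN1.** -/
theorem f3Null_of_rat (hΦ : AdmissiblePotential Φ) {γ : ℝ} (hγ : 0 < γ) (hf : Continuous f₀)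
    (H : HasSummableGaussianBound γ (fun x v => f₀ (x, v)))
    (h1 : ∫⁻ z, ENNReal.ofReal (f₀ z) ≤ 1) (ht : 0 < t) (htT : t ≤ T)
    (hTN : F3Fin370.TreeNull Φ f₀ t) (hRAT : ∀ K K₂, RAT Φ t K K₂) (hHit : HitPN Φ f₀ t) :
    F3Fin370.F3Null Φ f₀ T t := by
  obtain ⟨ρ, C₀, he⟩ := LN2.exists_env (le_refl γ) H
  have hCN : VLMeas973.ClassNull Φ t :=
    VLMeas973.class_null hΦ ht (VL581.vc hΦ) (VL581.vlu hΦ)
  have h := f3CE_of hΦ hγ hf H h1 htT hTN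
    (treeRA_of_rat hΦ hγ hf.measurable H h1 ht.le hCN hRAT hHit)
  intro P δ hδ
  obtain ⟨K, X, C, N, hC, hA, hB⟩ := h P δ hδ
  exact ⟨K, X, hA, ObGas370.obNull_of_bad hΦ (VL581.vc hΦ) (VL581.vl hΦ) hf.measurable h1 he hγ
    (ht.trans_le htT) P K X C N (hdet_of_ceIn hΦ htT hC hB)⟩

/-- `F3Null` at time `0`. -/
theorem f3Null_zero : F3Fin370.F3Null Φ f₀ T 0 := by
  have h0 : ∀ (P : CTree) (ε : ℝ), F3Fin370.tI Φ f₀ ε 0 P (fun _ _ _ => 0) = 0 := by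
    intro P ε
    have e : ∀ z, GC311.gcE f₀ ε (fun _ _ => 0) = 0 := fun z : ℝ => GC311.gcE_zero f₀ ε
    unfold F3Fin370.tI
    simp [e 0]
  intro P δ hδ
  refine ⟨0, fun _ _ _ _ => False, Eventually.of_forall fun ε => ⟨fun _ _ _ => 0,
    fun m => measurable_const, ?_, ?_⟩, ?_⟩
  · rintro z m w - (⟨σ, hσ, _⟩ | h)
    · exact absurd (hσ.1.trans_le hσ.2) (lt_irrefl _)
    · exact h.elim
  · simp only [mul_zero]
    rw [h0]
    exact bot_le
  · intro ι _ Sk S εk _ _ _ _ _ R δ' _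
    refine Eventually.of_forall fun n => ⟨fun _ _ _ _ => 0, fun m => measurable_const, ?_, ?_⟩
    · rintro x _ z m w _ ⟨σ, hσ, _⟩
      exact absurd (hσ.1.trans_le hσ.2) (lt_irrefl _)
    · simp only [h0, lintegral_zero, mul_zero]
      exact bot_le

/-- **`ErrSmall` from the tree instance of LN1.** -/
theorem errSmall_of_rat (hΦ : AdmissiblePotential Φ) {γ : ℝ} (hγ : 0 < γ) (hf : Continuous f₀)
    (H : HasSummableGaussianBound γ (fun x v => f₀ (x, v)))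
    (h1 : ∫⁻ z, ENNReal.ofReal (f₀ z) ≤ 1) {tw : ℝ} (htw : 0 ≤ tw) (ht : tw ≤ t) (htT : t ≤ T)
    (hTN : 0 < t → F3Fin370.TreeNull Φ f₀ t) (hRAT : 0 < t → ∀ K K₂, RAT Φ t K K₂)
    (hHit : 0 < t → HitPN Φ f₀ t) : IStep317.ErrSmall Φ f₀ T tw t := by
  refine ErrBind317.errSmall_of_f3Null hf.measurable hΦ htw (htw.trans ht) htT ?_
  rcases (htw.trans ht).eq_or_lt with h | h
  · rw [← h]
    exact f3Null_zero
  · exact f3Null_of_rat hΦ hγ hf H h1 h htT (hTN h) (hRAT h) (hHit h)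

/-! ### `ErrIn` -/

open Crest.Agent.R122.Master566 Crest.Agent.R122.Top602

variable {β : ℝ} {f : ℝ → PhasePoint → ℝ}

/-- `TreeNull` on a window of section F, from the null facts at `(t, t)`. -/
theorem treeNull_of_fHyp (hD : KData Φ β T f₀ f) {γ : ℝ → ℝ} {ρ : ℝ≥0∞} {g1 : ℝ} {r1 : ℝ≥0∞}
    (hg : g1 ≤ β) (hr : 0 < r1) (hLP : LinePar g1 r1 T γ ρ) {tw te : ℝ}
    (hF : FHyp Φ f₀ f T γ ρ tw te) (ht : t ≤ te) (h2 : ∀ K K', LinkNull Φ f₀ t t K K')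
    (h3 : ∀ K K', RetNullT Φ f₀ t t K K') (h4 : ∀ K, OkNull Φ f₀ t K) :
    F3Fin370.TreeNull Φ f₀ t := by
  have hf : Continuous f₀ := hD.contDiff.continuous
  have hβ := hD.beta_pos
  obtain ⟨C, hC, hb⟩ := GC311.exists_gaussian_bound hD.gaussian
  have hb' : ∀ z : PhasePoint, f₀ z ≤ C * Real.exp (-(2 * β) * ‖z.2‖ ^ 2) := fun z => by
    have h := (le_abs_self _).trans (hb z.1 z.2)
    rw [neg_mul]
    exact h
  have hγb : ∀ τ, 0 < τ → τ ≤ t → γ τ ≤ β := by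
    intro τ hτ _
    obtain ⟨g0, κ, hκ, hγ, -, hg0⟩ := hLP.lin
    rw [hγ]
    show g0 - κ * τ ≤ β
    have : 0 ≤ κ * τ := by positivity
    linarith
  have hρ0 : ρ ≠ 0 := (hr.trans_le hLP.lo).ne'
  have hρt : ρ ≠ ∞ := (hLP.hi.trans ENNReal.one_lt_top).ne
  have hmass : ∫⁻ z, ENNReal.ofReal (f₀ z) ≤ 1 :=
    (FM167.lintegral_density_eq_one hD.nonneg hD.integrable hD.mass).le
  exact TreeNull302.treeNull_of hD.adm (by linarith : (0 : ℝ) < 2 * β) hf hD.gaussian hmass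
    (fun K => TouchN302.touchNull hD.adm hf.measurable hC hb' hβ (by linarith : β < 2 * β)
      hLP.measurable hρ0 hρt hγb (EBasic602.TN_mono ht hF.tn) t K) h2 h3 h4

/-- **`ErrIn`** from the tree instance of LN1, the bad hits and the null facts at `(t, t)`. -/
theorem errIn_of (hD : KData Φ β T f₀ f) (hRAT : ∀ t ∈ Ioc 0 T, ∀ K K₂, RAT Φ t K K₂)
    (hHit : ∀ t ∈ Ioc 0 T, HitPN Φ f₀ t)
    (h2 : ∀ t ∈ Ioc 0 T, ∀ K K', LinkNull Φ f₀ t t K K')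
    (h3 : ∀ t ∈ Ioc 0 T, ∀ K K', RetNullT Φ f₀ t t K K')
    (h4 : ∀ t ∈ Ioc 0 T, ∀ K, OkNull Φ f₀ t K) : ErrIn Φ f₀ f T := by
  have hβ := hD.beta_pos
  have hmass : ∫⁻ z, ENNReal.ofReal (f₀ z) ≤ 1 :=
    (FM167.lintegral_density_eq_one hD.nonneg hD.integrable hD.mass).le
  refine ⟨β, hβ, 1 / 2, ENNReal.half_lt_self one_ne_zero ENNReal.one_ne_top, fun γ ρ hLP => ?_⟩
  refine InW.of_forall fun tw te h0 hle hT hF t ht => ?_
  have hr : (0 : ℝ≥0∞) < 1 / 2 := ENNReal.half_pos one_ne_zero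
  have hmem : 0 < t → t ∈ Ioc 0 T := fun h => ⟨h, ht.2.trans hT⟩
  exact errSmall_of_rat hD.adm (by linarith : (0 : ℝ) < 2 * β) hD.contDiff.continuous hD.gaussian
    hmass h0 ht.1 (ht.2.trans hT)
    (fun h => treeNull_of_fHyp hD le_rfl hr hLP hF ht.2 (h2 t (hmem h)) (h3 t (hmem h))
      (h4 t (hmem h))) (fun h => hRAT t (hmem h)) fun h => hHit t (hmem h)

end Crest.Agent.R122.F3RAT370
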