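import Crest.Agent.R122.FinPM_566
import Crest.Agent.R122.TopE_602

/-!
Row 122, helper566: the input `FPIn` of `TopE_602` (finiteness of the pair mass).
-/

set_option autoImplicit false

open MeasureTheory Set Filter Topology
open scoped ENNReal
open Crest.AnalysisR.Kinetic
open Crest.Agent.R122.Master566 Crest.Agent.R122.EDefs602

namespace Crest.Agent.R122.Top602

variable {Φ : Space3 → ℝ} {β T : ℝ} {f₀ : PhasePoint → ℝ} {f : ℝ → PhasePoint → ℝ}

/-- **Finiteness of the pair mass**: the literal input `FPIn`. -/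
theorem fpIn (hD : Master566.KData Φ β T f₀ f) : FPIn Φ f₀ f T :=
  ⟨1, one_pos, 1, one_pos, 0, zero_lt_one, fun h₀ _ _ _ _ hl =>
    FinPM566.finPM_nu0 hD hl (fun _ _ tw _ => tw + h₀)⟩

end Crest.Agent.R122.Top602
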