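import Crest.Agent.R122.IdentLim_399
import Crest.Agent.R122.FinalH_973
import Crest.Agent.R122.TopDefs_602

/-!
Row 122, block I1 (helper399): the final passage from `RetNull` and the induction hypothesis.
-/

set_option autoImplicit false

open MeasureTheory Set Filter Topology Crest.AnalysisR.Kinetic
open scoped Classical ENNReal NNReal

noncomputable section

namespace Crest.Agent.R122.Forest399

open Kin796 Kin796.CTree Disc416 Tree674 TreeEps399 Hid424 GIV566 GIVUse424 Master566 Top602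
open Final973 (FT RetNull froots)

variable {Φ : Space3 → ℝ} {s : ℕ} {β T : ℝ} {f₀ : PhasePoint → ℝ} {f : ℝ → PhasePoint → ℝ}

/-- the Newton curves and the explicit paths give the same avoidance probability -/
theorem uG_FT (hΦ : AdmissiblePotential Φ) {ε : ℝ} (hε : 0 < ε) {Ps : Fin s → CTree} {t : ℝ}
    {q : FPar Ps} (hq : q ∈ FVS Φ ε Ps t) :
    uG Φ f₀ ε (FT Φ ε Ps t q) t = uG Φ f₀ ε (ftubes Φ ε Ps t q) t := by
  refine uG_congr rfl fun k u hu => ?_
  exact curve_eq_path hΦ hε (X := (q k.1).1.1) (v := (q k.1).1.2) (hq.1 k.1) (hq.2.1 k.1)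
    ⟨hu.1, hu.2.trans (min_le_right _ _)⟩ k.2

/-- **Forest lower bound from `RetNull`.** -/
theorem forestLower_of_retNull (hΦ : AdmissiblePotential Φ) (hf₀ : Measurable f₀)
    (hR : RetNull Φ f₀ T) : ForestLower Φ f₀ T s := by
  intro Fs e τ t₀ A he he0 hτ hτ0 hA
  obtain ⟨r, hr, h⟩ := Final973.H973 (s := s) hf₀ hΦ hR Fs he he0 hτ hτ0
  refine ⟨r, hr, fun n => le_trans (le_of_eq ?_) (h n (A n) (hA n))⟩
  refine Finset.sum_congr rfl fun Ps _ => lintegral_congr fun q => ?_
  unfold hE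
  by_cases hq : q ∈ FVS Φ (e n) Ps (τ n)
  · rw [indicator_of_mem hq, indicator_of_mem hq, uG_FT hΦ (he n) hq]
    congr 1
  · rw [indicator_of_notMem hq, indicator_of_notMem hq, zero_mul]

/-- **The final passage.** -/
theorem finStep_of_retNull {γ : ℝ → ℝ} {ρ : ℝ≥0∞} (hD : KData Φ β T f₀ f)
    (hR : IH Φ f₀ f T γ ρ T → RetNull Φ f₀ T) : FinStep Φ f₀ f T γ ρ := fun hIH _ _ =>
  lowerTV_of_forests hD hIH.giv (forestLower_of_retNull hD.adm hD.contDiff.continuous.measurable
    (hR hIH))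

end Crest.Agent.R122.Forest399

end
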