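import Crest.Agent.R122.ForestFatou_399
import Crest.Agent.R122.TreeMeas2_674

/-!
Row 122, block C (helper399): separated forests (measurability, change of variables, Theorem E).
-/

set_option autoImplicit false

open MeasureTheory Set Filter Topology Crest.AnalysisR.Kinetic
open scoped Classical ENNReal

noncomputable section

namespace Crest.Agent.R122.Forest399

open Kin796 Kin796.CTree Disc416 Tree674 TreeEps399 PiTrans399 TreeFatou399

variable {Φ : Space3 → ℝ} {s : ℕ} {ε : ℝ}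

/-- valid and separated parameters -/
def FVS (Φ : Space3 → ℝ) (ε : ℝ) (Ps : Fin s → CTree) (T : ℝ) : Set (FPar Ps) :=
  {q | FValid Φ ε Ps T q ∧ FSep Φ ε Ps T q}

theorem measurableSet_FVS (hΦ : AdmissiblePotential Φ) (hε : 0 < ε) (Ps : Fin s → CTree) (T : ℝ) :
    MeasurableSet (FVS Φ ε Ps T) := by
  have hV := measurableSet_fvalid hΦ ε Ps T
  have hcross : ∀ (i i' : Fin s) (j : Idx (Ps i)) (j' : Idx (Ps i')), MeasurableSet
      {q : FPar Ps | q ∈ {q : FPar Ps | FValid Φ ε Ps T q} ∧ ∀ u ∈ Icc 0 T,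
        ¬ ((fun _ : FPar Ps => (1 : ℝ)) q ≤ u ∧ u ≤ (fun _ : FPar Ps => (0 : ℝ)) q) →
        ¬ ((fun _ : FPar Ps => (1 : ℝ)) q ≤ u ∧ u ≤ (fun _ : FPar Ps => (0 : ℝ)) q) →
        ε < dist (path Φ ε (Ps i) (q i).1 (q i).2 u j).1
          (path Φ ε (Ps i') (q i').1 (q i').2 u j').1} := by
    intro i i' j j'
    refine measurableSet_outside hV (d := fun q u =>
      dist (path Φ ε (Ps i) (q i).1 (q i).2 u j).1 (path Φ ε (Ps i') (q i').1 (q i').2 u j').1)
      ?_ ?_ measurable_const measurable_const measurable_const measurable_const ε T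
    · intro u
      have h1 : ∀ (i : Fin s) (j : Idx (Ps i)), Measurable fun q : FPar Ps =>
          (pathM Φ ε (Ps i) u (q i).1 (q i).2 j).1 := fun i j =>
        measurable_fst.comp ((measurable_pi_apply j).comp ((measurable_pathM hΦ ε (Ps i)).comp
          (f := fun q : FPar Ps => (u, (q i))) (measurable_const.prodMk (measurable_pi_apply i))))
      have h2 := ((h1 i j).dist (h1 i' j')).indicator hV
      convert h2 using 1
      funext q
      by_cases hq : q ∈ {q : FPar Ps | FValid Φ ε Ps T q}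
      · rw [indicator_of_mem hq, indicator_of_mem hq, pathM_of_adm hΦ ε u (hq i).1,
          pathM_of_adm hΦ ε u (hq i').1]
      · rw [indicator_of_notMem hq, indicator_of_notMem hq]
    · intro q hq
      exact (continuous_fst.comp (continuous_path hΦ hε (Ps i) T _ _ (hq i) j)).dist
        (continuous_fst.comp (continuous_path hΦ hε (Ps i') T _ _ (hq i') j'))
  have hset : FVS Φ ε Ps T = (⋂ i, (fun q : FPar Ps => q i) ⁻¹'
      {z : PhasePoint × Par (Ps i) | Valid Φ ε (Ps i) T z.1.2 z.2 ∧ Tree674.Sep Φ ε (Ps i) T z.1 z.2}) ∩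
      ⋂ i, ⋂ i', ⋂ j, ⋂ j', ({q : FPar Ps | i = i'} ∪
      {q : FPar Ps | q ∈ {q : FPar Ps | FValid Φ ε Ps T q} ∧ ∀ u ∈ Icc 0 T,
        ¬ ((fun _ : FPar Ps => (1 : ℝ)) q ≤ u ∧ u ≤ (fun _ : FPar Ps => (0 : ℝ)) q) →
        ¬ ((fun _ : FPar Ps => (1 : ℝ)) q ≤ u ∧ u ≤ (fun _ : FPar Ps => (0 : ℝ)) q) →
        ε < dist (path Φ ε (Ps i) (q i).1 (q i).2 u j).1
          (path Φ ε (Ps i') (q i').1 (q i').2 u j').1}) := by
    have hno : ∀ u : ℝ, ¬ ((1 : ℝ) ≤ u ∧ u ≤ 0) := fun u h => by linarith [h.1, h.2]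
    ext q
    simp only [mem_inter_iff, mem_iInter, mem_preimage, mem_union, mem_ofPred_eq, FVS]
    constructor
    · rintro ⟨h1, h2⟩
      refine ⟨fun i => ⟨h1 i, h2.1 i⟩, fun i i' j j' => ?_⟩
      by_cases hii : i = i'
      · exact Or.inl hii
      · exact Or.inr ⟨h1, fun u hu _ _ => h2.2 i i' hii j j' u hu⟩
    · rintro ⟨h1, h2⟩
      refine ⟨fun i => (h1 i).1, fun i => (h1 i).2, fun i i' hii j j' u hu => ?_⟩
      rcases h2 i i' j j' with h3 | h3
      · exact absurd h3 hii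
      · exact h3.2 u hu (hno u) (hno u)
  rw [hset]
  refine MeasurableSet.inter (MeasurableSet.iInter fun i =>
    (measurable_pi_apply i) (measurableSet_validSep hΦ hε (Ps i) T)) ?_
  exact MeasurableSet.iInter fun i => MeasurableSet.iInter fun i' => MeasurableSet.iInter fun j =>
    MeasurableSet.iInter fun j' => (MeasurableSet.const _).union (hcross i i' j j')

/-- configurations of valid separated forests -/
def FSkelS (Φ : Space3 → ℝ) (ε : ℝ) (Ps : Fin s → CTree) (T : ℝ) : Set (FIdx Ps → PhasePoint) :=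
  {V | ∃ q : FPar Ps, (FValid Φ ε Ps T q ∧ FSep Φ ε Ps T q) ∧ flines Φ ε Ps q = V}

theorem mem_FSkelS_iff (hΦ : AdmissiblePotential Φ) (hε : 0 < ε) {Ps : Fin s → CTree} {T : ℝ}
    {V : FIdx Ps → PhasePoint} : V ∈ FSkelS Φ ε Ps T ↔
      V ∈ FSkel Φ ε Ps T ∧ finv Φ ε Ps T V ∈ FVS Φ ε Ps T := by
  constructor
  · rintro ⟨q, hq, rfl⟩
    refine ⟨⟨q, hq.1, rfl⟩, ?_⟩
    rw [finv_flines hΦ hε hq.1 le_rfl]
    exact hq
  · rintro ⟨h1, h2⟩
    exact ⟨finv Φ ε Ps T V, h2, (flines_finv hΦ hε h1).2⟩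

theorem measurableSet_FSkelS (hΦ : AdmissiblePotential Φ) (hε : 0 < ε) (Ps : Fin s → CTree)
    (T : ℝ) : MeasurableSet (FSkelS Φ ε Ps T) := by
  have h : FSkelS Φ ε Ps T = FSkel Φ ε Ps T ∩ finv Φ ε Ps T ⁻¹' FVS Φ ε Ps T := by
    ext V
    exact mem_FSkelS_iff hΦ hε
  rw [h]
  exact (measurableSet_fskel hΦ hε Ps T).inter
    ((measurable_finv hΦ hε Ps T) (measurableSet_FVS hΦ hε Ps T))

/-- **Theorem A for separated forests.** -/
theorem forestMeasure_sep (hΦ : AdmissiblePotential Φ) (hε : 0 < ε) (Ps : Fin s → CTree) (T : ℝ)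
    {H : FPar Ps × (FIdx Ps → PhasePoint) → ℝ≥0∞} (hH : Measurable H) :
    ENNReal.ofReal (ε ^ 2) ^ fsize Ps * ∫⁻ q : FPar Ps, (FVS Φ ε Ps T).indicator
        (fun q => (∏ i, wt Φ (Ps i) (q i).1.2 (q i).2) * H (q, flines Φ ε Ps q)) q =
      ∫⁻ V : FIdx Ps → PhasePoint,
        (FSkelS Φ ε Ps T).indicator (fun V => H (finv Φ ε Ps T V, V)) V := by
  have hS := measurableSet_FVS hΦ hε Ps T
  have hH' : Measurable fun z : FPar Ps × (FIdx Ps → PhasePoint) =>
      (FVS Φ ε Ps T).indicator 1 z.1 * H z :=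
    ((measurable_one.indicator hS).comp measurable_fst).mul hH
  have h := forestMeasure hΦ hε Ps T hH'
  have e1 : ∀ q : FPar Ps, (FVS Φ ε Ps T).indicator
        (fun q => (∏ i, wt Φ (Ps i) (q i).1.2 (q i).2) * H (q, flines Φ ε Ps q)) q =
      fvw Φ ε Ps T q * ((FVS Φ ε Ps T).indicator 1 q * H (q, flinesM Φ ε Ps q)) := by
    intro q
    by_cases hq : q ∈ FVS Φ ε Ps T
    · rw [indicator_of_mem hq, indicator_of_mem hq, fvw_of_valid hq.1, flinesM_of_valid hq.1,
        Pi.one_apply, one_mul]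
    · rw [indicator_of_notMem hq, indicator_of_notMem hq, zero_mul, mul_zero]
  have e2 : ∀ V : FIdx Ps → PhasePoint,
      (FSkelS Φ ε Ps T).indicator (fun V => H (finv Φ ε Ps T V, V)) V =
      (FSkel Φ ε Ps T).indicator (fun V => (FVS Φ ε Ps T).indicator 1 (finv Φ ε Ps T V) *
        H (finv Φ ε Ps T V, V)) V := by
    intro V
    by_cases hV : V ∈ FSkel Φ ε Ps T
    · by_cases hV2 : finv Φ ε Ps T V ∈ FVS Φ ε Ps T
      · rw [indicator_of_mem ((mem_FSkelS_iff hΦ hε).2 ⟨hV, hV2⟩), indicator_of_mem hV,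
          indicator_of_mem hV2, Pi.one_apply, one_mul]
      · rw [indicator_of_notMem (fun h => hV2 ((mem_FSkelS_iff hΦ hε).1 h).2), indicator_of_mem hV,
          indicator_of_notMem hV2, zero_mul]
    · rw [indicator_of_notMem (fun h => hV ((mem_FSkelS_iff hΦ hε).1 h).1), indicator_of_notMem hV]
  simp only [e1, e2]
  exact h

section filt

variable {β : Type*} {F : Filter β} {e τ : β → ℝ} {t₀ : ℝ}

/-- **Theorem E for separated forests (one-sided Scheffé)**: with the indicator of validity and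
separation inside. -/
theorem forest_scheffe_sep [F.NeBot] [F.IsCountablyGenerated] (hΦ : AdmissiblePotential Φ)
    (he : Tendsto e F L) (hτ : Tendsto τ F (𝓝 t₀)) (Ps : Fin s → CTree)
    {H : β → FPar Ps × (FIdx Ps → PhasePoint) → ℝ≥0∞} (hH : ∀ᶠ b in F, Measurable (H b))
    {G0 : FPar Ps → ℝ≥0∞} (hG0 : AEMeasurable (fun q => fvw Φ 0 Ps t₀ q * G0 q))
    (hfin : ∫⁻ q : FPar Ps, fvw Φ 0 Ps t₀ q * G0 q ≠ ∞)
    (hG : ∀ᵐ q : FPar Ps, FValid Φ 0 Ps t₀ q → FGen Φ Ps q →
      G0 q ≤ liminf (fun b => H b (q, flines Φ (e b) Ps q)) F) :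
    Tendsto (fun b => ∫⁻ q : FPar Ps, (fvw Φ 0 Ps t₀ q * G0 q -
      (FVS Φ (e b) Ps (τ b)).indicator (fun q => (∏ i, wt Φ (Ps i) (q i).1.2 (q i).2) *
        H b (q, flines Φ (e b) Ps q)) q)) F (𝓝 0) := by
  have hind : ∀ᶠ b in F, Measurable fun z : FPar Ps × (FIdx Ps → PhasePoint) =>
      (FVS Φ (e b) Ps (τ b)).indicator 1 z.1 * H b z := by
    filter_upwards [hH, he.eventually eventually_pos] with b h hε
    exact ((measurable_one.indicator (measurableSet_FVS hΦ hε Ps (τ b))).comp measurable_fst).mul h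
  have h := forest_scheffe hΦ he hτ Ps hind hG0 hfin (by
    filter_upwards [hG] with q hq hV hGen
    refine (hq hV hGen).trans (le_of_eq (liminf_congr ?_))
    filter_upwards [fsep_filter hΦ he hτ Ps hV hGen] with b hb
    show _ = (FVS Φ (e b) Ps (τ b)).indicator 1 q * _
    rw [indicator_of_mem (show q ∈ FVS Φ (e b) Ps (τ b) from hb), Pi.one_apply, one_mul])
  refine h.congr fun b => lintegral_congr fun q => ?_
  congr 1
  by_cases hq : q ∈ FVS Φ (e b) Ps (τ b)
  · simp only [indicator_of_mem hq]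
    rw [fvw_of_valid hq.1, flinesM_of_valid hq.1, Pi.one_apply, one_mul]
  · simp only [indicator_of_notMem hq]
    rw [zero_mul, mul_zero]

end filt

end Crest.Agent.R122.Forest399

end
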