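import Crest.Agent.R122.ForestWorld_973
import Crest.Agent.R122.ForestSep_399
import Crest.Agent.R122.GIVDefs_566
import Crest.Agent.R122.HidMeas_424

/-!
# Row 122, block FP (helper973): ghost tubes of a forest, real versus ghost avoidance

* `FT` / `FT0` : the protected tubes of a forest (`ε > 0` / straight lines) as a `GIV566.Tubes`.
* `retF` : probability that the tubes are unhit by the gas alone but hit in the real world.
* `uG_le_uR_add` : ghost avoidance ≤ real avoidance + `retF`.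
* `measurable_uRF` : measurability of the real avoidance probability in the forest parameters.
-/

set_option autoImplicit false

open MeasureTheory Set Filter Topology Crest.AnalysisR.Kinetic
open scoped Classical ENNReal

noncomputable section

namespace Crest.Agent.R122.Final973

open Kin796 Kin796.CTree Disc416 Tree674 Causal291 GC311 Flow671 Loc45
open Forest399 (FPar flines fpath FValid FSep FVS flinesM)
open GIV566 Hid424

variable {Φ : Space3 → ℝ} {f₀ : PhasePoint → ℝ} {ε : ℝ} {s : ℕ} {Ps : Fin s → CTree} {t T : ℝ}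
  {q : FPar Ps}

/-- Protected tubes of a forest. -/
def FT (Φ : Space3 → ℝ) (ε : ℝ) (Ps : Fin s → CTree) (t : ℝ) (q : FPar Ps) : Tubes (FIdx Ps) where
  c k := curve Φ ε (Ps k.1) (q k.1).1 (q k.1).2 k.2
  b k := prot (Ps k.1) t (q k.1).2 k.2

/-- Protected tubes of a straight-line forest. -/
def FT0 (Φ : Space3 → ℝ) (Ps : Fin s → CTree) (t : ℝ) (q : FPar Ps) : Tubes (FIdx Ps) where
  c k u := (path Φ 0 (Ps k.1) (q k.1).1 (q k.1).2 u k.2).1
  b k := prot (Ps k.1) t (q k.1).2 k.2

/-- The tubes are unhit by the gas alone, but not in the real world. -/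
def retF (Φ : Space3 → ℝ) (f₀ : PhasePoint → ℝ) (ε : ℝ) (Ps : Fin s → CTree) (t : ℝ)
    (q : FPar Ps) : ℝ≥0∞ :=
  gcE f₀ ε (fun _ w => if unhit Φ ε (FT Φ ε Ps t q) t w ∧
    ¬ Avoid Φ ε (flines Φ ε Ps q) w (froot Ps) t then 1 else 0)

/-- The real avoidance probability of a forest. -/
def uRF (Φ : Space3 → ℝ) (f₀ : PhasePoint → ℝ) (ε : ℝ) (Ps : Fin s → CTree) (t : ℝ)
    (q : FPar Ps) : ℝ≥0∞ :=
  (FVS Φ ε Ps t).indicator (fun q => uR Φ f₀ ε (flines Φ ε Ps q) (froot Ps) t) q

theorem prot_nonneg' (hε : 0 ≤ ε) (ht : 0 ≤ t) (hv : FValid Φ ε Ps t q) (k : FIdx Ps) :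
    0 ≤ prot (Ps k.1) t (q k.1).2 k.2 :=
  PathFlow968.prot_nonneg hε (Ps k.1) ht _ _ (hv k.1).2 k.2

theorem prot_le' (hε : 0 ≤ ε) (hv : FValid Φ ε Ps t q) (k : FIdx Ps) :
    prot (Ps k.1) t (q k.1).2 k.2 ≤ t := prot_le (Ps k.1) _ k.2 hε (hv k.1).2

/-- The curves of `FT` are the positions of the isolated world of the forest. -/
theorem FT_c_eq (hΦ : AdmissiblePotential Φ) (hε : 0 < ε) (hv : FValid Φ ε Ps t q)
    (hs : FSep Φ ε Ps t q) (k : FIdx Ps) {u : ℝ} (hu : u ∈ Icc 0 t) :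
    (FT Φ ε Ps t q).c k u = (pth Φ ε (flines Φ ε Ps q) u k).1 := by
  rw [pth_flines hΦ hε hv hs hu]
  exact curve_eq_path hΦ hε (X := (q k.1).1.1) (v := (q k.1).1.2) (hv k.1) (hs.1 k.1) hu k.2

/-- ghost avoidance implies initial exclusion -/
theorem perpC_of_unhit (hΦ : AdmissiblePotential Φ) (hε : 0 < ε) (ht : 0 ≤ t)
    (hv : FValid Φ ε Ps t q) (hs : FSep Φ ε Ps t q) {m : ℕ} {w : Config m}
    (h : unhit Φ ε (FT Φ ε Ps t q) t w) : PerpC ε (flines Φ ε Ps q) w := by
  intro k j
  have h0 := prot_nonneg' hε.le ht hv k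
  have h1 := h k j 0 ⟨le_rfl, le_min h0 ht⟩
  rw [FT_c_eq hΦ hε hv hs k ⟨le_rfl, ht⟩] at h1
  have e1 : pth Φ ε (flines Φ ε Ps q) 0 = flines Φ ε Ps q := Flow671.flow_zero hΦ hε _
  have e2 : pth Φ ε w 0 = w := Flow671.flow_zero hΦ hε _
  rwa [e1, e2] at h1

/-- explicit form of `Avoid` for the isolated world of a forest -/
def AvoidP (Φ : Space3 → ℝ) (ε : ℝ) (Ps : Fin s → CTree) (t : ℝ) (q : FPar Ps) {m : ℕ}
    (w : Config m) : Prop :=
  ∀ k : FIdx Ps, ∀ j : FIdx Ps ⊕ Fin m, ∀ u ∈ Icc 0 (prot (Ps k.1) t (q k.1).2 k.2),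
    (∀ k' : FIdx Ps, j = Sum.inl k' → prot (Ps k'.1) t (q k'.1).2 k'.2 < u) →
    ε < dist (pth Φ ε (flinesM Φ ε Ps q) u k).1 (pth Φ ε (Sum.elim (flinesM Φ ε Ps q) w) u j).1

theorem avoid_iff_avoidP (hΦ : AdmissiblePotential Φ) (hε : 0 < ε) (ht : 0 ≤ t)
    (hv : FValid Φ ε Ps t q) (hs : FSep Φ ε Ps t q) {m : ℕ} {w : Config m} :
    Avoid Φ ε (flines Φ ε Ps q) w (froot Ps) t ↔ AvoidP Φ ε Ps t q w := by
  unfold Avoid AvoidP
  rw [Forest399.flinesM_of_valid hv]
  constructor
  · intro h k j u hu hj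
    have hut : u ≤ t := hu.2.trans (prot_le' hε.le hv k)
    refine h u ⟨hu.1, hut⟩ k ((past_forest_iff hΦ hε ht hv hs hu.1 k).2 hu.2) j ?_
    intro k' hk' hh
    exact absurd ((past_forest_iff hΦ hε ht hv hs hu.1 k').1 hh) (not_le.2 (hj k' hk'))
  · intro h u hu k hk j hj
    have hku := (past_forest_iff hΦ hε ht hv hs hu.1 k).1 hk
    refine h k j u ⟨hu.1, hku⟩ ?_
    intro k' hk'
    by_contra hle
    exact hj k' hk' ((past_forest_iff hΦ hε ht hv hs hu.1 k').2 (not_lt.1 hle))

/-! ### Measurability -/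

theorem measurable_protF (Ps : Fin s → CTree) (t : ℝ) (k : FIdx Ps) :
    Measurable fun q : FPar Ps => prot (Ps k.1) t (q k.1).2 k.2 :=
  (measurable_pi_apply k.2).comp ((Hid424.measurable_prot (Ps k.1)).comp
    (f := fun q : FPar Ps => (t, (q k.1).2))
    (measurable_const.prodMk (measurable_pi_apply k.1).snd))

theorem measurable_sumElim {κ : Type} [Fintype κ] {m : ℕ} :
    Measurable fun p : (κ → PhasePoint) × Config m =>
      (Sum.elim p.1 p.2 : κ ⊕ Fin m → PhasePoint) := by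
  refine measurable_pi_iff.2 fun j => ?_
  rcases j with j | j
  · exact (measurable_pi_apply j).comp measurable_fst
  · exact (measurable_pi_apply j).comp measurable_snd

theorem measurableSet_avoidP (hΦ : AdmissiblePotential Φ) (hε : 0 < ε) (Ps : Fin s → CTree) (t : ℝ)
    (m : ℕ) : MeasurableSet {p : FPar Ps × Config m | AvoidP Φ ε Ps t p.1 p.2} := by
  have hV : Measurable fun p : FPar Ps × Config m => flinesM Φ ε Ps p.1 :=
    (Forest399.measurable_flinesM hΦ ε Ps).comp measurable_fst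
  have hW : Measurable fun p : FPar Ps × Config m =>
      (Sum.elim (flinesM Φ ε Ps p.1) p.2 : FIdx Ps ⊕ Fin m → PhasePoint) :=
    measurable_sumElim.comp (hV.prodMk measurable_snd)
  have hp : ∀ k : FIdx Ps, Measurable fun p : FPar Ps × Config m =>
      prot (Ps k.1) t (p.1 k.1).2 k.2 := fun k => (measurable_protF Ps t k).comp measurable_fst
  have key : {p : FPar Ps × Config m | AvoidP Φ ε Ps t p.1 p.2} =
      (⋂ k : FIdx Ps, ⋂ j : Fin m, {p : FPar Ps × Config m | ∃ u ∈ Icc (0 : ℝ)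
          (prot (Ps k.1) t (p.1 k.1).2 k.2),
          dist (pth Φ ε (flinesM Φ ε Ps p.1) u k).1
            (pth Φ ε (Sum.elim (flinesM Φ ε Ps p.1) p.2) u (Sum.inr j)).1 ≤ ε}ᶜ) ∩
      (⋂ k : FIdx Ps, ⋂ k' : FIdx Ps, {p : FPar Ps × Config m | ∃ u ∈ Ioc
          (prot (Ps k'.1) t (p.1 k'.1).2 k'.2) (prot (Ps k.1) t (p.1 k.1).2 k.2),
          max (dist (pth Φ ε (flinesM Φ ε Ps p.1) u k).1
            (pth Φ ε (Sum.elim (flinesM Φ ε Ps p.1) p.2) u (Sum.inl k')).1 - ε) (0 - u) ≤ 0}ᶜ) := by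
    ext p
    simp only [AvoidP, mem_inter_iff, mem_iInter, mem_compl_iff, mem_ofPred_eq, not_exists, not_and,
      not_le]
    constructor
    · intro h
      refine ⟨fun k j u hu => h k (Sum.inr j) u hu (fun k' hk' => by cases hk'), ?_⟩
      intro k k' u hu
      by_contra hcon
      push Not at hcon
      have h1 := (le_max_left _ _).trans hcon
      have h2 := (le_max_right _ _).trans hcon
      have h3 := h k (Sum.inl k') u ⟨by linarith, hu.2⟩ (fun k'' hk'' => by
        cases hk''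
        exact hu.1)
      linarith
    · rintro ⟨h1, h2⟩ k j u hu hj
      rcases j with k' | j
      · have h3 := h2 k k' u ⟨hj k' rfl, hu.2⟩
        by_contra hcon
        push Not at hcon
        exact absurd h3 (not_lt.2 (max_le (by linarith) (by linarith [hu.1])))
      · exact h1 k j u hu
  rw [key]
  refine MeasurableSet.inter ?_ ?_
  · refine MeasurableSet.iInter fun k => MeasurableSet.iInter fun j => MeasurableSet.compl ?_
    refine measurableSet_exists_Icc measurable_const (hp k) (g := fun p u =>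
      dist (pth Φ ε (flinesM Φ ε Ps p.1) u k).1
        (pth Φ ε (Sum.elim (flinesM Φ ε Ps p.1) p.2) u (Sum.inr j)).1) (fun p => ?_) (fun u => ?_) ε
    · exact (continuous_pth hΦ hε _ k).fst.dist (continuous_pth hΦ hε _ (Sum.inr j)).fst
    · exact ((measurable_pth hΦ hε u k).comp hV).fst.dist
        ((measurable_pth hΦ hε u (Sum.inr j)).comp hW).fst
  · refine MeasurableSet.iInter fun k => MeasurableSet.iInter fun k' => MeasurableSet.compl ?_
    refine measurableSet_exists_Ioc (hp k') (hp k) (g := fun p u =>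
      max (dist (pth Φ ε (flinesM Φ ε Ps p.1) u k).1
        (pth Φ ε (Sum.elim (flinesM Φ ε Ps p.1) p.2) u (Sum.inl k')).1 - ε) (0 - u))
      (fun p => ?_) (fun u => ?_) 0
    · exact (((continuous_pth hΦ hε _ k).fst.dist
        (continuous_pth hΦ hε _ (Sum.inl k')).fst).sub continuous_const).max
        (continuous_const.sub continuous_id)
    · exact ((((measurable_pth hΦ hε u k).comp hV).fst.dist
        ((measurable_pth hΦ hε u (Sum.inl k')).comp hW).fst).sub_const ε).max measurable_const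

theorem measurableSet_perpM (hΦ : AdmissiblePotential Φ) (ε : ℝ) (Ps : Fin s → CTree) (m : ℕ) :
    MeasurableSet {p : FPar Ps × Config m | PerpC ε (flinesM Φ ε Ps p.1) p.2} := by
  have hV : Measurable fun p : FPar Ps × Config m => flinesM Φ ε Ps p.1 :=
    (Forest399.measurable_flinesM hΦ ε Ps).comp measurable_fst
  have : {p : FPar Ps × Config m | PerpC ε (flinesM Φ ε Ps p.1) p.2} =
      ⋂ i, ⋂ j, {p : FPar Ps × Config m | ε < dist (flinesM Φ ε Ps p.1 i).1 (p.2 j).1} := by
    ext p; simp [PerpC]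
  rw [this]
  refine MeasurableSet.iInter fun i => MeasurableSet.iInter fun j => ?_
  exact measurableSet_lt measurable_const ((((measurable_pi_apply i).comp hV).fst).dist
    ((measurable_pi_apply j).comp measurable_snd).fst)

/-- explicit indicator of real avoidance -/
def avoidInd (Φ : Space3 → ℝ) (ε : ℝ) (Ps : Fin s → CTree) (t : ℝ) (q : FPar Ps) {m : ℕ}
    (w : Config m) : ℝ≥0∞ :=
  if PerpC ε (flinesM Φ ε Ps q) w ∧ AvoidP Φ ε Ps t q w then 1 else 0

theorem measurable_avoidInd (hΦ : AdmissiblePotential Φ) (hε : 0 < ε) (Ps : Fin s → CTree) (t : ℝ)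
    (m : ℕ) : Measurable fun p : FPar Ps × Config m => avoidInd Φ ε Ps t p.1 p.2 :=
  Measurable.ite ((measurableSet_perpM hΦ ε Ps m).inter (measurableSet_avoidP hΦ hε Ps t m))
    measurable_const measurable_const

/-- measurable form of the real avoidance probability -/
theorem uR_eq_of_mem (hΦ : AdmissiblePotential Φ) (hε : 0 < ε) (ht : 0 ≤ t)
    (hq : q ∈ FVS Φ ε Ps t) : uR Φ f₀ ε (flines Φ ε Ps q) (froot Ps) t =
      gcE f₀ ε (fun _ w => avoidInd Φ ε Ps t q w) := by
  unfold uR avoidInd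
  congr 1
  funext m w
  simp only [Forest399.flinesM_of_valid hq.1, avoid_iff_avoidP hΦ hε ht hq.1 hq.2]

theorem measurable_gcE_param {Ω : Type*} [MeasurableSpace Ω] (hf : Measurable f₀)
    {F : Ω → (n : ℕ) → Config n → ℝ≥0∞}
    (hF : ∀ n, Measurable fun p : Ω × Config n => F p.1 n p.2) :
    Measurable fun ω => gcE f₀ ε (F ω) := by
  unfold gcE
  refine Measurable.const_mul (Measurable.tsum fun n => Measurable.const_mul ?_ _) _
  have h1 : Measurable fun p : Ω × Config n => gcWeight f₀ ε n p.2 * F p.1 n p.2 :=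
    ((measurable_gcWeight hf ε n).comp measurable_snd).mul (hF n)
  exact h1.lintegral_prod_right'

theorem measurable_uRF (hf : Measurable f₀) (hΦ : AdmissiblePotential Φ) (hε : 0 < ε)
    (ht : 0 ≤ t) (Ps : Fin s → CTree) : Measurable (uRF Φ f₀ ε Ps t) := by
  have h1 : Measurable fun q : FPar Ps => gcE f₀ ε (fun _ w => avoidInd Φ ε Ps t q w) :=
    measurable_gcE_param (F := fun q _ w => avoidInd Φ ε Ps t q w) hf
      fun n => measurable_avoidInd hΦ hε Ps t n
  have h2 := h1.indicator (Forest399.measurableSet_FVS hΦ hε Ps t)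
  convert h2 using 1
  funext q
  unfold uRF
  by_cases hq : q ∈ FVS Φ ε Ps t
  · rw [indicator_of_mem hq, indicator_of_mem hq, uR_eq_of_mem hΦ hε ht hq]
  · rw [indicator_of_notMem hq, indicator_of_notMem hq]

theorem measurable_wt0 (hf : Measurable f₀) {κ : Type} [Fintype κ] :
    Measurable (wt0 f₀ ε : (κ → PhasePoint) → ℝ≥0∞) := by
  unfold wt0
  refine Measurable.ite ?_ (Finset.measurable_prod _ fun i _ =>
    (hf.comp (measurable_pi_apply i)).ennreal_ofReal) measurable_const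
  have : {V : κ → PhasePoint | ∀ i j, i ≠ j → ε < dist (V i).1 (V j).1} =
      ⋂ i, ⋂ j, {V : κ → PhasePoint | i ≠ j → ε < dist (V i).1 (V j).1} := by
    ext V; simp
  rw [this]
  refine MeasurableSet.iInter fun i => MeasurableSet.iInter fun j => ?_
  by_cases hij : i = j
  · simp [hij]
  · simp only [ne_eq, hij, not_false_eq_true, forall_const]
    exact measurableSet_lt measurable_const
      ((measurable_pi_apply i).fst.dist (measurable_pi_apply j).fst)

/-! ### Ghost avoidance versus real avoidance -/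

theorem measurable_avoidInd_right (hΦ : AdmissiblePotential Φ) (hε : 0 < ε) (n : ℕ) (q : FPar Ps) :
    Measurable fun w : Config n => avoidInd Φ ε Ps t q w := by
  have h := measurable_avoidInd hΦ hε Ps t n
  have h2 : Measurable fun w : Config n => (q, w) := measurable_prodMk_left
  have h3 := h.comp h2
  exact h3

theorem uG_le_uR_add (hf : Measurable f₀) (hΦ : AdmissiblePotential Φ) (hε : 0 < ε) (ht : 0 ≤ t)
    (hq : q ∈ FVS Φ ε Ps t) : uG Φ f₀ ε (FT Φ ε Ps t q) t ≤
      uR Φ f₀ ε (flines Φ ε Ps q) (froot Ps) t + retF Φ f₀ ε Ps t q := by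
  rw [uR_eq_of_mem hΦ hε ht hq]
  unfold uG retF
  rw [← gcE_add hf ε (F := fun _ w => avoidInd Φ ε Ps t q w)
    (fun n => measurable_avoidInd_right hΦ hε n q)]
  refine gcE_mono f₀ ε fun m w _ => ?_
  unfold unhitInd
  by_cases hu : unhit Φ ε (FT Φ ε Ps t q) t w
  · rw [if_pos hu]
    by_cases ha : Avoid Φ ε (flines Φ ε Ps q) w (froot Ps) t
    · have h1 : PerpC ε (flinesM Φ ε Ps q) w ∧ AvoidP Φ ε Ps t q w := by
        rw [Forest399.flinesM_of_valid hq.1]
        exact ⟨perpC_of_unhit hΦ hε ht hq.1 hq.2 hu, (avoid_iff_avoidP hΦ hε ht hq.1 hq.2).1 ha⟩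
      rw [avoidInd, if_pos h1]
      exact le_self_add
    · rw [if_pos ⟨hu, ha⟩]
      exact le_add_self
  · rw [if_neg hu]
    exact bot_le

/-! ### The null statement needed from sections E/F -/

/-- **Ghost-unhit but really hit forests are negligible**, locally in the parameters: for every
forest type, along every sequence `(ε_n, t_n)`. -/
def RetNull (Φ : Space3 → ℝ) (f₀ : PhasePoint → ℝ) (T : ℝ) : Prop :=
  ∀ (s : ℕ) (Ps : Fin s → CTree) (e τ : ℕ → ℝ) (t₀ : ℝ), (∀ n, 0 < e n) →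
    Tendsto e atTop (𝓝 0) → (∀ n, τ n ∈ Icc 0 T) → Tendsto τ atTop (𝓝 t₀) →
    Tendsto (fun n => ∫⁻ q : FPar Ps, (FVS Φ (e n) Ps (τ n)).indicator (fun q =>
      (∏ i, wt Φ (Ps i) (q i).1.2 (q i).2) * (wt0 f₀ (e n) (flines Φ (e n) Ps q) *
        retF Φ f₀ (e n) Ps (τ n) q)) q) atTop (𝓝 0)

end Crest.Agent.R122.Final973
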