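import Crest.Agent.R122.IdentTime_399

/-!
Row 122, block I1 (helper399): `LowerTV` from the ghost avoidance identification at time `T` and
the forest lower bound of the factorial marginals.
-/

set_option autoImplicit false

open MeasureTheory Set Filter Topology Crest.AnalysisR.Kinetic
open scoped Classical ENNReal NNReal

noncomputable section

namespace Crest.Agent.R122.Forest399

open Kin796 Kin796.CTree Kin416 Disc416 Tree674 TreeEps399 PiTrans399 TreeFatou399 Hid424 GIV566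
  GIVUse424 Boltz814 Master566

variable {Φ : Space3 → ℝ} {s : ℕ} {β T : ℝ} {f₀ : PhasePoint → ℝ} {f : ℝ → PhasePoint → ℝ}

/-- **Forest lower bound of the factorial marginals** (sequential form). -/
def ForestLower (Φ : Space3 → ℝ) (f₀ : PhasePoint → ℝ) (T : ℝ) (s : ℕ) : Prop :=
  ∀ (Fs : Finset (Fin s → CTree)) (e τ : ℕ → ℝ) (t₀ : ℝ) (A : ℕ → Set (Fin s → PhasePoint)),
    (∀ n, 0 < e n) → Tendsto e atTop (𝓝 0) → (∀ n, τ n ∈ Icc 0 T) → Tendsto τ atTop (𝓝 t₀) →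
    (∀ n, MeasurableSet (A n)) →
    ∃ r : ℕ → ℝ≥0∞, Tendsto r atTop (𝓝 0) ∧ ∀ n,
      ∑ Ps ∈ Fs, ∫⁻ q : FPar Ps, hE Φ f₀ (e n) Ps (τ n) q *
        (A n).indicator 1 (fun i => onLine (q i).1 (τ n)) ≤
      factorialMarginal f₀ (e n) (flowEv Φ (e n)) s (τ n) (A n) + r n

/-- the sequential limit -/
theorem seq_limit (hD : KData Φ β T f₀ f) (hGIV : GIV Φ f₀ f T T) (hFL : ForestLower Φ f₀ T s)
    {e τ : ℕ → ℝ} {t₀ : ℝ} {A : ℕ → Set (Fin s → PhasePoint)}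
    (he : ∀ n, 0 < e n) (he0 : Tendsto e atTop (𝓝 0)) (hτ : ∀ n, τ n ∈ Icc 0 T)
    (hτ0 : Tendsto τ atTop (𝓝 t₀)) (hA : ∀ n, MeasurableSet (A n)) {η : ℝ≥0∞} (hη : 0 < η) :
    ∀ᶠ n in atTop, ∫⁻ Z in A n, ∏ i, ENNReal.ofReal (f (τ n) (Z i)) ≤
      factorialMarginal f₀ (e n) (flowEv Φ (e n)) s (τ n) (A n) + η := by
  have hβ := hD.beta_pos
  have hT := hD.T_pos
  have hΦ := hD.adm
  have hf := hD.sol
  have hf₀ : Continuous f₀ := hD.contDiff.continuous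
  have h1 : ∫⁻ z, ENNReal.ofReal (f₀ z) ≤ 1 :=
    (FM167.lintegral_density_eq_one hD.nonneg hD.integrable hD.mass).le
  have ht₀ : t₀ ∈ Icc 0 T := isClosed_Icc.mem_of_tendsto hτ0 (Eventually.of_forall hτ)
  have heL : Tendsto e atTop L :=
    tendsto_nhdsWithin_iff.2 ⟨he0, Eventually.of_forall fun n => he n⟩
  by_cases hηt : η = ∞
  · rw [hηt]
    exact Eventually.of_forall fun n => by simp
  -- the truncation
  have h4 : 4 * (η / 4) = η := ENNReal.mul_div_cancel (by norm_num) (by norm_num)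
  set δ' : ℝ≥0∞ := η / 4 / (s + 1) with hδ'
  have hδ'0 : 0 < δ' := ENNReal.div_pos (ENNReal.div_pos hη.ne' (by norm_num)).ne' (by finiteness)
  have hsδ : s * δ' ≤ η / 4 := by
    calc (s : ℝ≥0∞) * δ' ≤ (s + 1) * δ' := by gcongr; exact le_self_add
      _ = η / 4 := ENNReal.mul_div_cancel (by simp) (by finiteness)
  obtain ⟨K, hK⟩ := SF_mass_ge hβ hT hΦ hf hδ'0
  obtain ⟨r, hr0, hr⟩ := hFL (FK s K) e τ t₀ A he he0 hτ hτ0 hA
  have hfin : ∀ Ps : Fin s → CTree, ∫⁻ q, g0 Φ T f Ps t₀ q ≠ ∞ := fun Ps =>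
    ne_top_of_le_ne_top ENNReal.one_ne_top (lintegral_g0_le hβ hT hΦ hf Ps ht₀)
  -- the error terms
  set B : ℕ → ℝ≥0∞ := fun n => ∑ Ps ∈ FK s K, ∫⁻ q, (g0 Φ T f Ps t₀ q - g0 Φ T f Ps (τ n) q)
  have hB : Tendsto B atTop (𝓝 0) := by
    have := tendsto_finsetSum (FK s K) fun Ps _ => lim_time hβ hT hΦ hf hτ0 Ps (hfin Ps)
    simpa using this
  set D : ℕ → ℝ≥0∞ := fun n => ∑ Ps ∈ FK s K, ∫⁻ q, (g0 Φ T f Ps t₀ q - hE Φ f₀ (e n) Ps (τ n) q)
  have hDl : Tendsto D atTop (𝓝 0) := by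
    have := tendsto_finsetSum (FK s K) fun Ps _ => forest_limit hβ hT hΦ hf hf₀ h1 hGIV heL hτ0
      ht₀.1 ht₀.2 (Eventually.of_forall fun n => (hτ n).2) Ps (hfin Ps)
    simpa using this
  have hev : ∀ᶠ n in atTop, B n + (D n + r n) ≤ η / 4 := by
    have : Tendsto (fun n => B n + (D n + r n)) atTop (𝓝 0) := by
      simpa using hB.add (hDl.add hr0)
    exact (ENNReal.tendsto_nhds_zero.1 this) _ (ENNReal.div_pos hη.ne' (by norm_num))
  filter_upwards [hev] with n hn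
  have hg : ∀ Ps t, Measurable (g0 (s := s) Φ T f Ps t) := fun Ps t => measurable_g0 hΦ hf Ps t
  -- `∑ ∫ (g(τ) - g(t₀)) ≤ s δ' + B`
  set C : ℝ≥0∞ := ∑ Ps ∈ FK s K, ∫⁻ q, (g0 Φ T f Ps (τ n) q - g0 Φ T f Ps t₀ q) with hC
  have hM0 : ∑ Ps ∈ FK s K, ∫⁻ q : FPar Ps, g0 Φ T f Ps t₀ q = (∫⁻ z, SF Φ T f K t₀ z) ^ s :=
    sum_mass_g0 hΦ hf K ht₀.1
  have hMn : ∑ Ps ∈ FK s K, ∫⁻ q : FPar Ps, g0 Φ T f Ps (τ n) q =
      (∫⁻ z, SF Φ T f K (τ n) z) ^ s := sum_mass_g0 hΦ hf K (hτ n).1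
  have hCb : C ≤ s * δ' + B n := by
    have e1 : C + ∑ Ps ∈ FK s K, ∫⁻ q : FPar Ps, g0 Φ T f Ps t₀ q =
        (∑ Ps ∈ FK s K, ∫⁻ q : FPar Ps, g0 Φ T f Ps (τ n) q) + B n := by
      rw [hC, ← Finset.sum_add_distrib, ← Finset.sum_add_distrib]
      refine Finset.sum_congr rfl fun Ps _ => ?_
      rw [← lintegral_add_right _ (hg Ps t₀), ← lintegral_add_left (hg Ps (τ n))]
      refine lintegral_congr fun q => ?_
      rcases le_total (g0 Φ T f Ps (τ n) q) (g0 Φ T f Ps t₀ q) with h | h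
      · rw [tsub_eq_zero_of_le h, zero_add, add_tsub_cancel_of_le h]
      · rw [tsub_eq_zero_of_le h, add_zero, tsub_add_cancel_of_le h]
    have e2 : (∫⁻ z, SF Φ T f K (τ n) z) ^ s ≤ 1 :=
      pow_le_one' (SF_mass_le hβ hT hΦ hf K (hτ n)) s
    have e3 : 1 ≤ (∫⁻ z, SF Φ T f K t₀ z) ^ s + s * δ' :=
      pow_bound (SF_mass_le hβ hT hΦ hf K ht₀) (hK t₀ ht₀) s
    have e4 : (∫⁻ z, SF Φ T f K t₀ z) ^ s ≠ ∞ := ne_top_of_le_ne_top ENNReal.one_ne_top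
      (pow_le_one' (SF_mass_le hβ hT hΦ hf K ht₀) s)
    rw [hM0, hMn] at e1
    refine (ENNReal.add_le_add_iff_right e4).1 ?_
    rw [e1]
    calc (∫⁻ z, SF Φ T f K (τ n) z) ^ s + B n ≤ 1 + B n := by gcongr
      _ ≤ ((∫⁻ z, SF Φ T f K t₀ z) ^ s + s * δ') + B n := by gcongr
      _ = _ := by ring
  -- pointwise bound
  have hpt : ∑ Ps ∈ FK s K, ∫⁻ q : FPar Ps, g0 Φ T f Ps (τ n) q *
      (A n).indicator 1 (fun i => onLine (q i).1 (τ n)) ≤
      C + (D n + ∑ Ps ∈ FK s K, ∫⁻ q : FPar Ps, hE Φ f₀ (e n) Ps (τ n) q *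
        (A n).indicator 1 (fun i => onLine (q i).1 (τ n))) := by
    rw [hC, ← Finset.sum_add_distrib, ← Finset.sum_add_distrib]
    refine Finset.sum_le_sum fun Ps _ => ?_
    have hEm := measurable_hE hf₀.measurable hΦ (he n) Ps (τ n)
    have m1 : Measurable fun q => g0 Φ T f Ps t₀ q - hE Φ f₀ (e n) Ps (τ n) q :=
      (hg Ps t₀).sub hEm
    have m2 : Measurable fun q => g0 Φ T f Ps (τ n) q - g0 Φ T f Ps t₀ q :=
      (hg Ps (τ n)).sub (hg Ps t₀)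
    rw [← lintegral_add_left m1, ← lintegral_add_left m2]
    refine lintegral_mono fun q => ?_
    by_cases hq : (fun i => onLine (q i).1 (τ n)) ∈ A n
    · simp only [indicator_of_mem hq, Pi.one_apply, mul_one]
      calc g0 Φ T f Ps (τ n) q
          ≤ (g0 Φ T f Ps (τ n) q - g0 Φ T f Ps t₀ q) + g0 Φ T f Ps t₀ q := le_tsub_add
        _ ≤ (g0 Φ T f Ps (τ n) q - g0 Φ T f Ps t₀ q) +
            ((g0 Φ T f Ps t₀ q - hE Φ f₀ (e n) Ps (τ n) q) + hE Φ f₀ (e n) Ps (τ n) q) := by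
          gcongr
          exact le_tsub_add
    · simp only [indicator_of_notMem hq, mul_zero]
      exact bot_le
  calc ∫⁻ Z in A n, ∏ i, ENNReal.ofReal (f (τ n) (Z i))
      ≤ (∑ Ps ∈ FK s K, ∫⁻ q : FPar Ps, g0 Φ T f Ps (τ n) q *
        (A n).indicator 1 (fun i => onLine (q i).1 (τ n))) + s * δ' :=
        tensor_le hβ hT hΦ hf (hτ n) (hK _ (hτ n)) (hA n)
    _ ≤ (C + (D n + (factorialMarginal f₀ (e n) (flowEv Φ (e n)) s (τ n) (A n) + r n))) +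
        s * δ' := by
        gcongr
        refine hpt.trans ?_
        gcongr
        exact hr n
    _ ≤ ((s * δ' + B n) + (D n + (factorialMarginal f₀ (e n) (flowEv Φ (e n)) s (τ n) (A n) +
        r n))) + s * δ' := by gcongr
    _ = factorialMarginal f₀ (e n) (flowEv Φ (e n)) s (τ n) (A n) +
        ((B n + (D n + r n)) + (s * δ' + s * δ')) := by ring
    _ ≤ factorialMarginal f₀ (e n) (flowEv Φ (e n)) s (τ n) (A n) +
        (η / 4 + (η / 4 + η / 4)) := by gcongr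
    _ ≤ factorialMarginal f₀ (e n) (flowEv Φ (e n)) s (τ n) (A n) + η := by
        gcongr
        calc η / 4 + (η / 4 + η / 4) = 3 * (η / 4) := by ring
          _ ≤ 4 * (η / 4) := by gcongr; norm_num
          _ = η := h4

/-- **`LowerTV` from GIV at the final time and the forest lower bound.** -/
theorem lowerTV_of_forests (hD : KData Φ β T f₀ f) (hGIV : GIV Φ f₀ f T T)
    (hFL : ForestLower Φ f₀ T s) : FM167.LowerTV f₀ f T (flowEv Φ) s := by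
  intro δ hδ
  by_contra hcon
  push Not at hcon
  have hpos : ∀ n : ℕ, (0 : ℝ) < 1 / ((n : ℝ) + 1) := fun n => Nat.one_div_pos_of_nat
  choose e he helt τ hτ A hA hlt using fun n : ℕ => hcon (1 / ((n : ℝ) + 1)) (hpos n)
  obtain ⟨t₀, _, φ, hφ, hlim⟩ := isCompact_Icc.tendsto_subseq hτ
  have he0 : Tendsto e atTop (𝓝 0) :=
    squeeze_zero (fun n => (he n).le) (fun n => (helt n).le) tendsto_one_div_add_atTop_nhds_zero_nat
  have h := seq_limit hD hGIV hFL (e := e ∘ φ) (τ := τ ∘ φ) (A := fun n => A (φ n))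
    (fun n => he _) (he0.comp hφ.tendsto_atTop) (fun n => hτ _) hlim (fun n => hA _)
    (η := ENNReal.ofReal δ) (ENNReal.ofReal_pos.2 hδ)
  obtain ⟨n, hn⟩ := h.exists
  exact absurd hn (not_le.2 (hlt (φ n)))

end Crest.Agent.R122.Forest399

end
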