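import Crest.Agent.R122.FinalH_973
import Crest.Agent.R122.IdentLim_399
import Crest.Agent.R122.TopDefs_602

/-!
# Row 122, block I1 (helper973): the final passage from `GIV` at `T` and `RetNull`

* `forestLower_of_retNull` : `RetNull → ForestLower`.
* `lowerTV_of_retNull` : `GIV T → RetNull → LowerTV`.
* `finStep_of_retNull` : the interface `Top602.FinStep`.
-/

set_option autoImplicit false

open MeasureTheory Set Filter Topology Crest.AnalysisR.Kinetic
open scoped Classical ENNReal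

noncomputable section

namespace Crest.Agent.R122.Final973

open Kin796 Kin796.CTree Disc416 Tree674 Causal291 GC311 Flow671 Loc45
open Forest399 (FPar flines fpath FValid FSep FVS flinesM hE ftubes ForestLower)
open GIV566 Hid424 Master566

variable {Φ : Space3 → ℝ} {f₀ : PhasePoint → ℝ} {f : ℝ → PhasePoint → ℝ} {ε β : ℝ} {s : ℕ}
  {Ps : Fin s → CTree} {t T : ℝ} {q : FPar Ps}

theorem uG_FT (hΦ : AdmissiblePotential Φ) (hε : 0 < ε) (hq : q ∈ FVS Φ ε Ps t) :
    uG Φ f₀ ε (ftubes Φ ε Ps t q) t = uG Φ f₀ ε (FT Φ ε Ps t q) t := by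
  refine GIVUse424.uG_congr rfl fun k u hu => ?_
  exact (curve_eq_path hΦ hε (X := (q k.1).1.1) (hq.1 k.1) (hq.2.1 k.1)
    ⟨hu.1, hu.2.trans (min_le_right _ _)⟩ k.2).symm

/-- **`RetNull` gives the forest lower bound.** -/
theorem forestLower_of_retNull (hf : Measurable f₀) (hΦ : AdmissiblePotential Φ)
    (hR : RetNull Φ f₀ T) (s : ℕ) : ForestLower Φ f₀ T s := by
  intro Fs e τ t₀ A he he0 hτ hτ0 hA
  obtain ⟨r, hr, hle⟩ := H973 (s := s) hf hΦ hR Fs he he0 hτ hτ0
  refine ⟨r, hr, fun n => ?_⟩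
  refine le_trans (le_of_eq ?_) (hle n (A n) (hA n))
  refine Finset.sum_congr rfl fun Ps _ => lintegral_congr fun q => ?_
  unfold hE
  by_cases hq : q ∈ FVS Φ (e n) Ps (τ n)
  · rw [indicator_of_mem hq, indicator_of_mem hq, uG_FT hΦ (he n) hq]
    congr 1
  · rw [indicator_of_notMem hq, indicator_of_notMem hq, zero_mul]

/-- **The final passage.** -/
theorem lowerTV_of_retNull (hD : KData Φ β T f₀ f) (hGIV : GIV Φ f₀ f T T)
    (hR : RetNull Φ f₀ T) (s : ℕ) : FM167.LowerTV f₀ f T (flowEv Φ) s :=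
  Forest399.lowerTV_of_forests hD hGIV
    (forestLower_of_retNull hD.contDiff.continuous.measurable hD.adm hR s)

/-- The final step of the top skeleton. -/
theorem finStep_of_retNull (hD : KData Φ β T f₀ f) {γ : ℝ → ℝ} {ρ : ℝ≥0∞}
    (hR : Top602.IH Φ f₀ f T γ ρ T → RetNull Φ f₀ T) : Top602.FinStep Φ f₀ f T γ ρ :=
  fun hI s _ => lowerTV_of_retNull hD hI.giv (hR hI) s

end Crest.Agent.R122.Final973
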