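import Crest.Agent.R122.GIVChildConv_491
import Crest.Agent.R122.IDefs_317

/-!
Row 122, block F (helper491): for almost every parameter of a hit, the hit is a first good hit for
large `k` (input of helper818 for (I2)).
-/

set_option autoImplicit false

open MeasureTheory Set Filter
open scoped ENNReal Topology Classical RealInnerProductSpace NNReal
open Crest.AnalysisR.Kinetic

noncomputable section

namespace Crest.Agent.R122.TubeChild491

open Kin796 Kin796.CTree Disc416 Tree674 TreeEps399 Hid424 Generic491 GIV566 GIVStep383 IStep317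

variable {Φ : Space3 → ℝ} {κ : Type}

/-- the root line is at distance `ε` of the tube at the time of the hit -/
theorem dist_rootL {ε : ℝ} (hε : 0 ≤ ε) (x : Space3) {V : Space3} (s : ℝ) {v : Space3}
    (hv : v ≠ V) {y : Disc416.Plane} (hy : ‖y‖ < 1) :
    dist x (onLine (rootL ε x V s v y) s).1 = ε := by
  have hg : v - V ≠ 0 := sub_ne_zero.2 hv
  have h1 : (onLine (rootL ε x V s v y) s).1 =
      x + ε • entrancePoint (Disc416.frameMap (v - V) y) (v - V) := by
    show x + ε • entrancePoint (Disc416.frameMap (v - V) y) (v - V) - s • v + s • v = _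
    rw [sub_add_cancel]
  rw [h1, dist_eq_norm]
  have h2 : x - (x + ε • entrancePoint (Disc416.frameMap (v - V) y) (v - V)) =
      -(ε • entrancePoint (Disc416.frameMap (v - V) y) (v - V)) := by abel
  have h3 : Disc416.frameMap (v - V) y ∈ impactDisc (v - V) :=
    ⟨inner_frameMap_self _ _, by rwa [norm_frameMap hg]⟩
  rw [h2, norm_neg, norm_smul, Real.norm_of_nonneg hε, Scat818.norm_entrance h3 hg, mul_one]

/-- **The hit is a first good hit for large `k`.** -/
theorem firstAt_eventually [Fintype κ] (hΦ : AdmissiblePotential Φ) {T : ℝ} {Sk : ℕ → Tubes κ}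
    {S : Tubes κ} {εk : ℕ → ℝ} (hε0 : ∀ k, 0 < εk k) (hlim : Tendsto εk atTop (𝓝 0))
    (hconv : TubeConv T Sk S) (hgen : Generic T S) (i : κ) (P : CTree) :
    ∀ᵐ θ : HPar P, θ.1 ∈ Ioo 0 T → θ.1 < S.b i → ‖θ.2.2.1‖ < 1 →
      Valid Φ 0 P θ.1 θ.2.1 θ.2.2.2 →
      ∀ᶠ k in atTop, FirstAt Φ (εk k) P (Sk k)
        (rootL (εk k) ((Sk k).c i θ.1) (deriv (S.c i) θ.1) θ.1 θ.2.1 θ.2.2.1, θ.2.2.2) θ.1 := by
  have e1 := child hΦ hε0 hlim hconv hgen i P
  have e2 := (Measure.quasiMeasurePreserving_fst (μ := (volume : Measure NodeP))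
    (ν := (volume : Measure (Par P)))).ae (ae_ne_deriv (S.c i))
  have e3 := (measurePreserving_asc P).quasiMeasurePreserving.ae (e1.and e2)
  filter_upwards [e3] with θ hθ hs hb hy hV
  obtain ⟨h1, hne⟩ := hθ
  obtain ⟨h2, -, -⟩ := h1 hs.1 hs.2 hb hy hV
  have hbk : ∀ᶠ k in atTop, θ.1 < (Sk k).b i := (hconv.active i).eventually (lt_mem_nhds hb)
  filter_upwards [h2, hbk] with k hk hbk
  refine ⟨hk.1, hk.2.1, ⟨i, hbk.le, ?_⟩, fun u hu m hm i' hi' => ?_⟩
  · exact (dist_rootL (hε0 k).le _ _ hne hy).le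
  · rw [dist_comm]
    exact hk.2.2 u hu m hm i' hi'

end Crest.Agent.R122.TubeChild491

end
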