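import Crest.Agent.R122.Simul2_984
import Crest.Agent.R122.Rebirth_45

/-!
# Two decoupled groups (row 122, item (4) of the H12 plan), helper151

* `fl Φ ε G₁ G₂ t Z`: the particles of `G₁` interact among themselves, those of `G₂` among
  themselves, the others fly freely. `fl_zero`, `fl_add`, `measurePreserving_fl`.
* `Inj Z`: pairwise different positions; `ae_inj_fl`: for a.e. `Z`, `Inj (fl t Z)` for ALL times `t`.
* `flowA_subtype`: restriction to a sub-type.
* `bworld_cons`: a world with births, one step with constant set of living particles.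
* `BWorld.shift`: time shift.
-/

set_option autoImplicit false
set_option linter.unusedSectionVars false

open MeasureTheory Set Filter Topology
open scoped ENNReal NNReal
open Crest.AnalysisR.Kinetic
open Crest.Agent.R122.Flow671 Crest.Agent.R122.Loc45 Crest.Agent.R122.Ins45
open Crest.Agent.R122.Simul984 Crest.Agent.R122.Sweep815

namespace Crest.Agent.R122.TransOk151

noncomputable section

open scoped Classical

variable {Φ : Space3 → ℝ} {ε : ℝ} {κ : Type*} [Fintype κ]

/-! ### The decoupled flow -/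

/-- `G₁` and `G₂` evolve separately, the others fly freely. -/
def fl (Φ : Space3 → ℝ) (ε : ℝ) (G₁ G₂ : Finset κ) (t : ℝ) (Z : κ → PhasePoint) : κ → PhasePoint :=
  fun k => if k ∈ G₁ then flowA Φ ε G₁ t Z k else flowA Φ ε G₂ t Z k

variable {G₁ G₂ : Finset κ}

theorem fl_mem₁ (t : ℝ) (Z : κ → PhasePoint) {k : κ} (h : k ∈ G₁) :
    fl Φ ε G₁ G₂ t Z k = flow Φ ε t (fun a : G₁ => Z a) ⟨k, h⟩ := by
  unfold fl
  rw [if_pos h, flowA_mem _ _ _ h]

theorem fl_mem₂ (t : ℝ) (Z : κ → PhasePoint) {k : κ} (h₁ : k ∉ G₁) (h : k ∈ G₂) :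
    fl Φ ε G₁ G₂ t Z k = flow Φ ε t (fun a : G₂ => Z a) ⟨k, h⟩ := by
  unfold fl
  rw [if_neg h₁, flowA_mem _ _ _ h]

theorem fl_free (t : ℝ) (Z : κ → PhasePoint) {k : κ} (h₁ : k ∉ G₁) (h₂ : k ∉ G₂) :
    fl Φ ε G₁ G₂ t Z k = ((Z k).1 + t • (Z k).2, (Z k).2) := by
  unfold fl
  rw [if_neg h₁, flowA_not_mem _ _ _ h₂]

theorem fl_restrict₁ (t : ℝ) (Z : κ → PhasePoint) :
    (fun a : G₁ => fl Φ ε G₁ G₂ t Z a) = flow Φ ε t (fun a : G₁ => Z a) := by
  funext a
  rw [fl_mem₁ t Z a.2]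

theorem fl_restrict₂ (hd : Disjoint G₁ G₂) (t : ℝ) (Z : κ → PhasePoint) :
    (fun a : G₂ => fl Φ ε G₁ G₂ t Z a) = flow Φ ε t (fun a : G₂ => Z a) := by
  funext a
  rw [fl_mem₂ t Z (fun h => Finset.disjoint_left.1 hd h a.2) a.2]

theorem fl_zero (hΦ : AdmissiblePotential Φ) (hε : 0 < ε) (Z : κ → PhasePoint) :
    fl Φ ε G₁ G₂ 0 Z = Z := by
  funext k
  unfold fl
  split_ifs <;> rw [flowA_zero hΦ hε]

theorem fl_add (hΦ : AdmissiblePotential Φ) (hε : 0 < ε) (hd : Disjoint G₁ G₂) (s t : ℝ)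
    (Z : κ → PhasePoint) : fl Φ ε G₁ G₂ (s + t) Z = fl Φ ε G₁ G₂ t (fl Φ ε G₁ G₂ s Z) := by
  funext k
  by_cases h₁ : k ∈ G₁
  · rw [fl_mem₁ _ _ h₁, fl_mem₁ _ _ h₁, fl_restrict₁, flow_add hΦ hε]
  by_cases h₂ : k ∈ G₂
  · rw [fl_mem₂ _ _ h₁ h₂, fl_mem₂ _ _ h₁ h₂, fl_restrict₂ hd, flow_add hΦ hε]
  · rw [fl_free _ _ h₁ h₂, fl_free _ _ h₁ h₂, fl_free _ _ h₁ h₂]
    simp only [add_smul, add_assoc]

theorem fl_eq_comp (hd : Disjoint G₁ G₂) (t : ℝ)
    (Z : κ → PhasePoint) : fl Φ ε G₁ G₂ t Z =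
      flowA Φ ε G₁ t (flowA Φ ε (∅ : Finset κ) (-t) (flowA Φ ε G₂ t Z)) := by
  funext k
  by_cases h₁ : k ∈ G₁
  · rw [fl_mem₁ _ _ h₁, flowA_mem _ _ _ h₁]
    congr 1
    funext a
    have ha : (a : κ) ∉ G₂ := fun h => Finset.disjoint_left.1 hd a.2 h
    rw [flowA_not_mem _ _ _ (Finset.notMem_empty _), flowA_not_mem _ _ _ ha]
    ext1
    · simp
    · rfl
  · rw [flowA_not_mem _ _ _ h₁, flowA_not_mem _ _ _ (Finset.notMem_empty _)]
    unfold fl
    rw [if_neg h₁]
    ext1
    · simp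
    · rfl

theorem measurePreserving_fl (hΦ : AdmissiblePotential Φ) (hε : 0 < ε) (hd : Disjoint G₁ G₂)
    (t : ℝ) : MeasurePreserving (fl (κ := κ) Φ ε G₁ G₂ t) volume volume := by
  have h := (measurePreserving_flowA hΦ hε G₁ t).comp
    ((measurePreserving_flowA hΦ hε (∅ : Finset κ) (-t)).comp (measurePreserving_flowA hΦ hε G₂ t))
  have h2 : fl (κ := κ) Φ ε G₁ G₂ t = flowA Φ ε G₁ t ∘ (flowA Φ ε (∅ : Finset κ) (-t) ∘
      flowA Φ ε G₂ t) := by
    funext Z
    exact fl_eq_comp hd t Z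
  rw [h2]
  exact h

theorem continuous_fl (hΦ : AdmissiblePotential Φ) (hε : 0 < ε) (Z : κ → PhasePoint) :
    Continuous fun t => fl Φ ε G₁ G₂ t Z := by
  refine continuous_pi fun k => ?_
  unfold fl
  by_cases h : k ∈ G₁
  · simp only [if_pos h]
    exact (continuous_apply k).comp (continuous_flowA hΦ hε G₁ Z)
  · simp only [if_neg h]
    exact (continuous_apply k).comp (continuous_flowA hΦ hε G₂ Z)

/-! ### Different positions -/

/-- Pairwise different positions. -/
def Inj (Z : κ → PhasePoint) : Prop := ∀ i j, i ≠ j → (Z i).1 ≠ (Z j).1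

theorem Inj.dom {Z : κ → PhasePoint} (h : Inj Z) (G : Finset κ) :
    (fun a : G => Z a) ∈ Dom Φ G :=
  Or.inr fun i j hij => h i j fun h' => hij (Subtype.ext h')

/-- The two groups are regular. -/
def DomG (Φ : Space3 → ℝ) (G₁ G₂ : Finset κ) (Z : κ → PhasePoint) : Prop :=
  (fun a : G₁ => Z a) ∈ Dom Φ G₁ ∧ (fun a : G₂ => Z a) ∈ Dom Φ G₂

theorem Inj.domG {Z : κ → PhasePoint} (h : Inj Z) : DomG Φ G₁ G₂ Z := ⟨h.dom _, h.dom _⟩

theorem DomG.fl (hΦ : AdmissiblePotential Φ) (hε : 0 < ε) (hd : Disjoint G₁ G₂)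
    {Z : κ → PhasePoint} (h : DomG Φ G₁ G₂ Z) (t : ℝ) : DomG Φ G₁ G₂ (fl Φ ε G₁ G₂ t Z) := by
  refine ⟨?_, ?_⟩
  · rw [fl_restrict₁]
    exact flow_mem hΦ hε h.1 t
  · rw [fl_restrict₂ hd]
    exact flow_mem hΦ hε h.2 t

/-- Positions move with the velocities. -/
theorem hasDerivAt_pos_fl (hΦ : AdmissiblePotential Φ) (hε : 0 < ε)
    {Z : κ → PhasePoint} (h : DomG Φ G₁ G₂ Z) (t : ℝ) (k : κ) :
    HasDerivAt (fun s => (fl Φ ε G₁ G₂ s Z k).1) (fl Φ ε G₁ G₂ t Z k).2 t := by
  by_cases h₁ : k ∈ G₁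
  · simp only [fl_mem₁ _ _ h₁]
    exact hasDerivAt_pos_flow hΦ hε h.1 t ⟨k, h₁⟩
  by_cases h₂ : k ∈ G₂
  · simp only [fl_mem₂ _ _ h₁ h₂]
    exact hasDerivAt_pos_flow hΦ hε h.2 t ⟨k, h₂⟩
  · simp only [fl_free _ _ h₁ h₂]
    have h4 : HasDerivAt (fun s : ℝ => s • (Z k).2) ((1 : ℝ) • (Z k).2) t :=
      (hasDerivAt_id t).smul_const _
    rw [one_smul] at h4
    exact h4.const_add _

theorem ae_inj : ∀ᵐ Z : κ → PhasePoint, Inj Z := by
  have key : ∀ i j : κ, i ≠ j → ∀ᵐ Z : κ → PhasePoint, (Z i).1 ≠ (Z j).1 := fun i j hij =>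
    ae_pos_ne hij
  simp only [Inj, ae_all_iff]
  exact key

theorem volume_pair_le (N : ℝ) {η : ℝ} {a a' : κ} (h : a ≠ a') :
    volume {Z : κ → PhasePoint | (∀ i, Z i ∈ box N) ∧ dist (Z a).1 (Z a').1 ≤ η} ≤
      ENNReal.ofReal η ^ 3 * c3 * volume (Metric.closedBall (0 : Space3) N) *
        (1 + volume (box N)) ^ Fintype.card κ := by
  have hms : MeasurableSet {Z : κ → PhasePoint | |dist (Z a).1 (Z a').1 - 0| ≤ η} :=
    measurableSet_shell a a' 0 η
  have hσ : ∀ y : Space3, ((volume : Measure PhasePoint).restrict (box N))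
      {z | |dist z.1 y - 0| ≤ η} ≤
        ENNReal.ofReal η ^ 3 * c3 * volume (Metric.closedBall (0 : Space3) N) := by
    intro y
    have hms : MeasurableSet {z : PhasePoint | |dist z.1 y - 0| ≤ η} := by
      have h : Continuous fun z : PhasePoint => |dist z.1 y - 0| := by fun_prop
      exact measurableSet_le h.measurable measurable_const
    rw [Measure.restrict_apply hms]
    have hsub : {z : PhasePoint | |dist z.1 y - 0| ≤ η} ∩ box N ⊆
        Metric.closedBall y η ×ˢ Metric.closedBall (0 : Space3) N := by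
      intro z hz
      refine ⟨?_, by simpa using hz.2.2⟩
      have h1 : |dist z.1 y - 0| ≤ η := hz.1
      rw [sub_zero, abs_of_nonneg dist_nonneg] at h1
      exact h1
    refine (measure_mono hsub).trans ?_
    rw [Measure.volume_eq_prod, Measure.prod_prod, vol_closedBall]
  have h1 := one_shell_le ((volume : Measure PhasePoint).restrict (box N)) hσ h
  rw [← Measure.restrict_pi_pi, Measure.restrict_apply hms, Measure.restrict_apply_univ,
    ← volume_pi] at h1
  refine le_trans (measure_mono ?_) h1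
  intro Z hZ
  refine ⟨?_, fun i _ => hZ.1 i⟩
  show |dist (Z a).1 (Z a').1 - 0| ≤ η
  rw [sub_zero, abs_of_nonneg dist_nonneg]
  exact hZ.2

theorem ae_inj_fl_aux (hΦ : AdmissiblePotential Φ) (hε : 0 < ε) (hd : Disjoint G₁ G₂) {T : ℝ}
    (hT : 0 < T) {a a' : κ} (haa' : a ≠ a') :
    ∀ᵐ Z : κ → PhasePoint, Inj Z → ∀ t ∈ Icc (-T) T,
      (fl Φ ε G₁ G₂ t Z a).1 ≠ (fl Φ ε G₁ G₂ t Z a').1 := by
  set Bad : ℕ → Set (κ → PhasePoint) := fun N => {Z | Inj Z ∧
    (∀ t ∈ Icc (-T) T, ∀ i, ‖(fl Φ ε G₁ G₂ t Z i).1‖ ≤ N ∧ ‖(fl Φ ε G₁ G₂ t Z i).2‖ ≤ N) ∧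
    ∃ t ∈ Icc (-T) T, (fl Φ ε G₁ G₂ t Z a).1 = (fl Φ ε G₁ G₂ t Z a').1} with hBad
  have key : ∀ N : ℕ, volume (Bad N) = 0 := by
    intro N
    set C : ℝ≥0∞ := ENNReal.ofReal (4 * N * T) ^ 3 * c3 *
      volume (Metric.closedBall (0 : Space3) N) * (1 + volume (box N)) ^ Fintype.card κ with hC
    have hc3 : c3 ≠ ∞ := by
      intro h
      have h1 := vol_closedBall 0 1
      rw [h, ENNReal.ofReal_one, one_pow, one_mul] at h1
      exact measure_closedBall_lt_top.ne h1
    have hCtop : C ≠ ∞ := by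
      refine ENNReal.mul_ne_top (ENNReal.mul_ne_top (ENNReal.mul_ne_top
        (ENNReal.pow_ne_top ENNReal.ofReal_ne_top) hc3) measure_closedBall_lt_top.ne)
        (ENNReal.pow_ne_top (ENNReal.add_ne_top.2 ⟨ENNReal.one_ne_top, (volume_box_lt_top N).ne⟩))
    have hM : ∀ M : ℕ, 0 < M → volume (Bad N) ≤ 2 * C * ENNReal.ofReal (1 / M) := by
      intro M hM0
      have hMr : (0 : ℝ) < M := by exact_mod_cast hM0
      have hM1 : (1 : ℝ) ≤ M := by exact_mod_cast hM0
      set η : ℝ := 4 * N * T / M with hη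
      have hη0 : 0 ≤ η := by positivity
      set A : Set (κ → PhasePoint) := {Z | (∀ i, Z i ∈ box N) ∧ dist (Z a).1 (Z a').1 ≤ η} with hA
      have hAm : MeasurableSet A := by
        have h1 : MeasurableSet {Z : κ → PhasePoint | ∀ i, Z i ∈ box N} := by
          have : {Z : κ → PhasePoint | ∀ i, Z i ∈ box N} = univ.pi fun _ => box N := by
            ext Z; simp
          rw [this]
          exact MeasurableSet.univ_pi fun _ => measurableSet_box _
        refine h1.inter ?_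
        have h2 : Measurable fun Z : κ → PhasePoint => dist (Z a).1 (Z a').1 :=
          (measurable_pi_apply a).fst.dist (measurable_pi_apply a').fst
        exact measurableSet_le h2 measurable_const
      set δ : ℝ := 2 * T / M with hδdef
      have hδ : 0 < δ := by positivity
      set u : ℕ → ℝ := fun k => -T + k * δ with hu
      have hsub : Bad N ⊆ ⋃ k ∈ Finset.range (M + 1), (fl Φ ε G₁ G₂ (u k)) ⁻¹' A := by
        rintro Z ⟨hI, hb, t, ht, h1⟩
        set k : ℕ := ⌊(t + T) / δ⌋₊ with hk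
        have hx0 : 0 ≤ (t + T) / δ := div_nonneg (by linarith [ht.1]) hδ.le
        have hk1 : (k : ℝ) ≤ (t + T) / δ := Nat.floor_le hx0
        have hk2 : (t + T) / δ < k + 1 := Nat.lt_floor_add_one _
        have hkM : k ≤ M := by
          have h3 : (t + T) / δ ≤ M := by
            rw [div_le_iff₀ hδ]
            have : (M : ℝ) * δ = 2 * T := by rw [hδdef]; field_simp
            rw [this]
            linarith [ht.2]
          exact_mod_cast (hk1.trans h3)
        have huk : u k ≤ t := by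
          rw [le_div_iff₀ hδ] at hk1
          simp only [hu]; linarith
        have hukt : t - u k ≤ δ := by
          rw [div_lt_iff₀ hδ] at hk2
          simp only [hu]; linarith
        have hu0 : -T ≤ u k := by
          simp only [hu]; linarith [mul_nonneg (Nat.cast_nonneg (α := ℝ) k) hδ.le]
        have hD : DomG Φ G₁ G₂ Z := hI.domG
        have hcl : ∀ i, dist (fl Φ ε G₁ G₂ (u k) Z i).1 (fl Φ ε G₁ G₂ t Z i).1 ≤ N * δ := by
          intro i
          have h3 := norm_image_sub_le_of_norm_deriv_right_le_segment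
            (f := fun s => (fl Φ ε G₁ G₂ s Z i).1) (f' := fun s => (fl Φ ε G₁ G₂ s Z i).2)
            (a := u k) (b := t) (C := N)
            (fun s _ => (hasDerivAt_pos_fl hΦ hε hD s i).continuousAt.continuousWithinAt)
            (fun s _ => (hasDerivAt_pos_fl hΦ hε hD s i).hasDerivWithinAt)
            (fun s hs => (hb s ⟨hu0.trans hs.1, hs.2.le.trans ht.2⟩ i).2) t ⟨huk, le_rfl⟩
          rw [dist_comm, dist_eq_norm]
          exact h3.trans (by gcongr)
        simp only [mem_iUnion, Finset.mem_range]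
        refine ⟨k, by omega, fun i => hb (u k) ⟨hu0, huk.trans ht.2⟩ i, ?_⟩
        calc dist (fl Φ ε G₁ G₂ (u k) Z a).1 (fl Φ ε G₁ G₂ (u k) Z a').1
            ≤ dist (fl Φ ε G₁ G₂ (u k) Z a).1 (fl Φ ε G₁ G₂ t Z a).1 +
              dist (fl Φ ε G₁ G₂ t Z a).1 (fl Φ ε G₁ G₂ (u k) Z a').1 := dist_triangle _ _ _
          _ ≤ N * δ + N * δ := by
              refine add_le_add (hcl a) ?_
              rw [h1, dist_comm]
              exact hcl a'
          _ = η := by rw [hη, hδdef]; ring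
      calc volume (Bad N) ≤ volume (⋃ k ∈ Finset.range (M + 1), (fl Φ ε G₁ G₂ (u k)) ⁻¹' A) :=
            measure_mono hsub
        _ ≤ ∑ k ∈ Finset.range (M + 1), volume ((fl Φ ε G₁ G₂ (u k)) ⁻¹' A) :=
            measure_biUnion_finset_le _ _
        _ = ∑ _k ∈ Finset.range (M + 1), volume A := by
            refine Finset.sum_congr rfl fun k _ => ?_
            exact (measurePreserving_fl hΦ hε hd (u k)).measure_preimage hAm.nullMeasurableSet
        _ = (M + 1 : ℝ≥0∞) * volume A := by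
            rw [Finset.sum_const, Finset.card_range, nsmul_eq_mul]; push_cast; rfl
        _ ≤ (M + 1 : ℝ≥0∞) * (ENNReal.ofReal η ^ 3 * c3 *
              volume (Metric.closedBall (0 : Space3) N) *
              (1 + volume (box N)) ^ Fintype.card κ) := by
            gcongr
            exact volume_pair_le N haa'
        _ ≤ 2 * C * ENNReal.ofReal (1 / M) := by
            have e1 : ENNReal.ofReal η =
                ENNReal.ofReal (4 * N * T) * ENNReal.ofReal (1 / M) := by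
              rw [← ENNReal.ofReal_mul (by positivity)]
              congr 1
              rw [hη]; ring
            have e2 : (M + 1 : ℝ≥0∞) * ENNReal.ofReal (1 / M) ≤ 2 := by
              have : (M + 1 : ℝ≥0∞) = ENNReal.ofReal (M + 1) := by
                rw [ENNReal.ofReal_add hMr.le zero_le_one, ENNReal.ofReal_natCast,
                  ENNReal.ofReal_one]
              rw [this, ← ENNReal.ofReal_mul (by positivity)]
              have h2 : (2 : ℝ≥0∞) = ENNReal.ofReal 2 := by simp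
              rw [h2]
              refine ENNReal.ofReal_le_ofReal ?_
              rw [mul_one_div, div_le_iff₀ hMr]
              linarith
            have e3 : ENNReal.ofReal (1 / (M : ℝ)) ≤ 1 := by
              rw [← ENNReal.ofReal_one]
              refine ENNReal.ofReal_le_ofReal ?_
              rw [div_le_one hMr]
              exact hM1
            rw [e1, hC]
            set p := ENNReal.ofReal (4 * N * T)
            set q := ENNReal.ofReal (1 / (M : ℝ))
            set v := volume (Metric.closedBall (0 : Space3) N)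
            set w := (1 + volume (box N)) ^ Fintype.card κ
            calc (M + 1 : ℝ≥0∞) * ((p * q) ^ 3 * c3 * v * w)
                = ((M + 1 : ℝ≥0∞) * q) * (p ^ 3 * c3 * v * w) * q * q := by ring
              _ ≤ 2 * (p ^ 3 * c3 * v * w) * q * 1 := by gcongr
              _ = 2 * (p ^ 3 * c3 * v * w) * q := by rw [mul_one]
    have hlim : Tendsto (fun M : ℕ => 2 * C * ENNReal.ofReal (1 / (M : ℝ))) atTop (𝓝 0) := by
      have h1 : Tendsto (fun M : ℕ => ENNReal.ofReal (1 / (M : ℝ))) atTop (𝓝 0) := by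
        have := ENNReal.tendsto_ofReal (tendsto_one_div_atTop_nhds_zero_nat (𝕜 := ℝ))
        simpa using this
      have h2 := ENNReal.Tendsto.const_mul h1 (a := 2 * C)
        (Or.inr (ENNReal.mul_ne_top (by simp) hCtop))
      simpa using h2
    refine le_antisymm (ge_of_tendsto hlim ?_) bot_le
    filter_upwards [eventually_gt_atTop 0] with M h2 using hM M h2
  have hunion : volume (⋃ N, Bad N) = 0 := measure_iUnion_null key
  have hae : ∀ᵐ Z : κ → PhasePoint, Z ∉ ⋃ N, Bad N := measure_eq_zero_iff_ae_notMem.1 hunion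
  filter_upwards [hae] with Z hZ hI t ht h1
  -- boundedness on the compact interval
  have hbd : ∃ N : ℕ, ∀ t ∈ Icc (-T) T, ∀ i, ‖(fl Φ ε G₁ G₂ t Z i).1‖ ≤ N ∧
      ‖(fl Φ ε G₁ G₂ t Z i).2‖ ≤ N := by
    obtain ⟨M, hM⟩ := isCompact_Icc.exists_bound_of_continuousOn
      (continuous_fl (G₁ := G₁) (G₂ := G₂) hΦ hε Z).continuousOn (s := Icc (-T) T)
    obtain ⟨N, hN⟩ := exists_nat_ge M
    refine ⟨N, fun t ht i => ?_⟩
    have h1 : ‖fl Φ ε G₁ G₂ t Z i‖ ≤ N := (norm_le_pi_norm _ i).trans ((hM t ht).trans hN)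
    exact ⟨(norm_fst_le _).trans h1, (norm_snd_le _).trans h1⟩
  obtain ⟨N, hN⟩ := hbd
  exact hZ (mem_iUnion.2 ⟨N, hI, hN, t, ht, h1⟩)

/-- **No coincidences at all times.** -/
theorem ae_inj_fl (hΦ : AdmissiblePotential Φ) (hε : 0 < ε) (hd : Disjoint G₁ G₂) :
    ∀ᵐ Z : κ → PhasePoint, ∀ t : ℝ, Inj (fl Φ ε G₁ G₂ t Z) := by
  have key : ∀ᵐ Z : κ → PhasePoint, ∀ (n : ℕ) (a a' : κ), a ≠ a' → Inj Z →
      ∀ t ∈ Icc (-((n : ℝ) + 1)) ((n : ℝ) + 1),
      (fl Φ ε G₁ G₂ t Z a).1 ≠ (fl Φ ε G₁ G₂ t Z a').1 := by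
    simp only [ae_all_iff]
    intro n a a' h
    exact ae_inj_fl_aux hΦ hε hd (by positivity) h
  filter_upwards [key, ae_inj] with Z hZ hI t a a' haa'
  obtain ⟨n, hn⟩ := exists_nat_ge |t|
  refine hZ n a a' haa' hI t ?_
  have := abs_le.1 hn
  exact ⟨by linarith [this.1], by linarith [this.2]⟩

/-! ### Restriction to a sub-type -/

theorem flowA_subtype (hΦ : AdmissiblePotential Φ) (hε : 0 < ε) {M G : Finset κ} (hG : G ⊆ M)
    (t : ℝ) (Z : κ → PhasePoint) (z : M → PhasePoint) (hz : ∀ m : M, (m : κ) ∈ G → z m = Z m)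
    {m : M} (hm : (m : κ) ∈ G) :
    flowA Φ ε (G.subtype (· ∈ M)) t z m = flowA Φ ε G t Z m := by
  have hm' : m ∈ G.subtype (· ∈ M) := Finset.mem_subtype.2 hm
  rw [flowA_mem _ _ _ hm', flowA_mem _ _ _ hm]
  let e : (G.subtype (· ∈ M)) ≃ G :=
    { toFun := fun a => ⟨a.1.1, Finset.mem_subtype.1 a.2⟩
      invFun := fun a => ⟨⟨a.1, hG a.2⟩, Finset.mem_subtype.2 a.2⟩
      left_inv := fun _ => rfl
      right_inv := fun _ => rfl }
  have h := congrFun (flow_equiv hΦ hε e t (fun a : G => Z a)) ⟨m, hm'⟩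
  have h2 : (fun a : (G.subtype (· ∈ M)) => z a) = fun a => Z (e a) := by
    funext a
    exact hz a.1 (Finset.mem_subtype.1 a.2)
  rw [h2]
  exact h

/-! ### One step of a world with births -/

theorem bworld_cons {ι : Type*} [Fintype ι] (hΦ : AdmissiblePotential Φ) (hε : 0 < ε)
    {b : ι → ℝ} {s s' : ℝ} (hss' : s < s') {Z : ι → PhasePoint} {A : Finset ι}
    (hA : ∀ t ∈ Ico s s', ∀ i, i ∈ A ↔ b i ≤ t) (hZ : (fun a : A => Z a) ∈ Dom Φ A)
    {X₂ : ℝ → ι → PhasePoint} (h₂ : BWorld Φ ε b s' X₂) (h0 : X₂ s' = flowA Φ ε A (s' - s) Z) :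
    ∃ Y : ℝ → ι → PhasePoint, BWorld Φ ε b s Y ∧ Y s = Z ∧ ∀ t, s' ≤ t → Y t = X₂ t := by
  set Y : ℝ → ι → PhasePoint := fun t => if t < s' then flowA Φ ε A (t - s) Z else X₂ t with hY
  have hY₁ : ∀ t ∈ Icc s s', Y t = flowA Φ ε A (t - s) Z := by
    intro t ht
    rcases ht.2.lt_or_eq with h | h
    · simp only [hY, if_pos h]
    · subst h
      simp only [hY, lt_irrefl, if_false]
      exact h0
  have hY₂ : ∀ t, s' ≤ t → Y t = X₂ t := fun t ht => by
    simp only [hY, if_neg (not_lt.2 ht)]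
  refine ⟨Y, ?_, ?_, hY₂⟩
  · refine BWorld.glue (X₁ := fun t => flowA Φ ε A (t - s) Z) hss'.le ?_ ?_ ?_ h₂ hY₁ hY₂
    · exact (continuous_flowA hΦ hε A Z).comp (continuous_id.sub continuous_const)
    · intro t ht
      have h1 := hasDerivAt_flowA hΦ hε A hZ (hA t ht) (t - s)
      have h2 := h1.scomp t ((hasDerivAt_id t).sub_const s)
      rw [one_smul] at h2
      exact h2
    · intro t ht
      refine (flow_mem hΦ hε hZ (t - s)).imp id fun h' i j hij hi hj => ?_
      have hi' := (hA t ht i).2 hi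
      have hj' := (hA t ht j).2 hj
      have h3 := h' ⟨i, hi'⟩ ⟨j, hj'⟩ fun h => hij (congrArg Subtype.val h)
      rwa [flowA_mem _ _ Z hi', flowA_mem _ _ Z hj']
  · rw [hY₁ s ⟨le_rfl, hss'.le⟩, sub_self, flowA_zero hΦ hε]

/-- Time shift of a world with births. -/
theorem bworld_shift {ι : Type*} [Fintype ι] {b : ι → ℝ} {t₀ : ℝ} {X : ℝ → ι → PhasePoint}
    (h : BWorld Φ ε b t₀ X) (c : ℝ) :
    BWorld Φ ε (fun i => b i + c) (t₀ + c) (fun t => X (t - c)) where
  cont := h.cont.comp (continuous_id.sub continuous_const).continuousOn fun t ht => by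
    simp only [mem_Ici] at ht ⊢
    linarith
  der t ht := by
    have h1 := h.der (t - c) (by linarith)
    have h2 : bf Φ ε (fun i => b i + c) t (X (t - c)) = bf Φ ε b (t - c) (X (t - c)) := by
      funext i
      unfold bf
      simp only [le_sub_iff_add_le]
    rw [h2]
    have h3 : HasDerivWithinAt (fun t : ℝ => t - c) 1 (Ici t) t :=
      ((hasDerivAt_id t).sub_const c).hasDerivWithinAt
    have h4 := h1.scomp t h3 (fun s hs => by
      simp only [mem_Ici] at hs ⊢
      linarith)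
    rw [one_smul] at h4
    exact h4
  dom t ht := (h.dom (t - c) (by linarith)).imp id fun h' i j hij hi hj =>
    h' i j hij (by linarith) (by linarith)

end

end Crest.Agent.R122.TransOk151
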