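import Mathlib
import Crest.Prelude.Def_KineticLimit
import Crest.Agent.R122.NewtonFlow_671
import Crest.Agent.R122.FlowLip_671

/-!
# The Newton flow is locally Lipschitz in (time, state) (row 122, helper942, for 151)
-/

set_option autoImplicit false
set_option linter.unusedSectionVars false

open MeasureTheory Set Filter Topology
open scoped NNReal ENNReal
open Crest.AnalysisR.Kinetic

namespace Crest.Agent.R122.Flow671

section General

variable {E : Type*} [NormedAddCommGroup E] [NormedSpace ℝ E] [CompleteSpace E]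

/-- The flow of a globally Lipschitz field is Lipschitz on `[-T, T] × ball x₀ r`. -/
theorem lipschitzOn_gflow {F : E → E} {K : ℝ≥0} (hL : LipschitzWith K F) (x₀ : E) (T r : ℝ) :
    ∃ C : ℝ≥0, LipschitzOnWith C (fun p : ℝ × E => gflow F univ p.1 p.2)
      (Icc (-T) T ×ˢ Metric.ball x₀ r) := by
  have hc := complete_of_lipschitz hL
  -- bound of the speed along the trajectory of `x₀`
  have hcont : ContinuousOn (fun s => ‖F (gflow F univ s x₀)‖) (Icc (-T) T) :=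
    (hL.continuous.comp (hc.isSol (mem_univ x₀)).continuous).norm.continuousOn
  obtain ⟨B, hB⟩ := (isCompact_Icc.image_of_continuousOn hcont).bddAbove
  have hB' : ∀ s ∈ Icc (-T) T, ‖F (gflow F univ s x₀)‖ ≤ B := fun s hs =>
    hB (mem_image_of_mem _ hs)
  set A : ℝ := Real.exp (K * |T|) with hA
  have hA0 : 0 < A := Real.exp_pos _
  have hexp : ∀ s ∈ Icc (-T) T, Real.exp (K * |s|) ≤ A := by
    intro s hs
    refine Real.exp_le_exp.2 (mul_le_mul_of_nonneg_left ?_ K.2)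
    exact (abs_le.2 ⟨hs.1, hs.2⟩).trans (le_abs_self T)
  set M : ℝ := |B| + K * (A * |r|) with hM
  have hM0 : 0 ≤ M := by positivity
  have hspeed : ∀ s ∈ Icc (-T) T, ∀ x ∈ Metric.ball x₀ r, ‖F (gflow F univ s x)‖ ≤ M := by
    intro s hs x hx
    have h1 : dist (F (gflow F univ s x)) (F (gflow F univ s x₀)) ≤ K * (A * |r|) := by
      refine (hL.dist_le_mul _ _).trans (mul_le_mul_of_nonneg_left ?_ K.2)
      refine (dist_flow_le hL s x x₀).trans ?_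
      exact mul_le_mul (hexp s hs) ((Metric.mem_ball.1 hx).le.trans (le_abs_self r)) dist_nonneg
        hA0.le
    have h2 : ‖F (gflow F univ s x)‖ ≤ ‖F (gflow F univ s x₀)‖ +
        ‖F (gflow F univ s x) - F (gflow F univ s x₀)‖ := by
      have := norm_add_le (F (gflow F univ s x₀)) (F (gflow F univ s x) - F (gflow F univ s x₀))
      simpa using this
    rw [dist_eq_norm] at h1
    have h3 := (hB' s hs).trans (le_abs_self B)
    linarith
  refine ⟨⟨A + M, by positivity⟩, LipschitzOnWith.of_dist_le_mul ?_⟩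
  rintro ⟨t, x⟩ ⟨ht, hx⟩ ⟨t', x'⟩ ⟨ht', hx'⟩
  change dist (gflow F univ t x) (gflow F univ t' x') ≤ (A + M) * dist ((t, x) : ℝ × E) (t', x')
  have h1 : dist (gflow F univ t x) (gflow F univ t x') ≤ A * dist x x' :=
    (dist_flow_le hL t x x').trans (mul_le_mul_of_nonneg_right (hexp t ht) dist_nonneg)
  have h2 : dist (gflow F univ t x') (gflow F univ t' x') ≤ M * dist t t' := by
    have := (convex_Icc (-T) T).norm_image_sub_le_of_norm_hasDerivWithin_le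
      (f := fun s => gflow F univ s x') (f' := fun s => F (gflow F univ s x')) (C := M)
      (fun s _ => (hc.hasDerivAt (mem_univ x') s).hasDerivWithinAt)
      (fun s hs => hspeed s hs x' hx') ht' ht
    rw [dist_eq_norm, dist_eq_norm]
    exact this
  have h3 : dist t t' ≤ dist ((t, x) : ℝ × E) (t', x') := le_max_left _ _
  have h4 : dist x x' ≤ dist ((t, x) : ℝ × E) (t', x') := le_max_right _ _
  calc dist (gflow F univ t x) (gflow F univ t' x')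
      ≤ dist (gflow F univ t x) (gflow F univ t x') + dist (gflow F univ t x') (gflow F univ t' x') :=
        dist_triangle _ _ _
    _ ≤ A * dist ((t, x) : ℝ × E) (t', x') + M * dist ((t, x) : ℝ × E) (t', x') :=
        add_le_add (h1.trans (mul_le_mul_of_nonneg_left h4 hA0.le))
          (h2.trans (mul_le_mul_of_nonneg_left h3 hM0))
    _ = (A + M) * dist ((t, x) : ℝ × E) (t', x') := by ring

end General

section Newton

variable {ι : Type*} [Fintype ι] {Φ : Space3 → ℝ} {ε : ℝ}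

/-- **(LL)**: the Newton flow is Lipschitz on `[-T, T] × ball Z₀ r` for a small ball inside `Dom`. -/
theorem exists_lipschitzOn_flow (hΦ : AdmissiblePotential Φ) (hε : 0 < ε)
    {Z₀ : ι → PhasePoint} (hZ₀ : Z₀ ∈ Dom Φ ι) (T : ℝ) :
    ∃ r : ℝ, 0 < r ∧ Metric.ball Z₀ r ⊆ Dom Φ ι ∧ ∃ C : ℝ≥0,
      LipschitzOnWith C (fun p : ℝ × (ι → PhasePoint) => flow Φ ε p.1 p.2)
        (Icc (-T) T ×ˢ Metric.ball Z₀ r) := by
  obtain ⟨M, hM, hlow⟩ := exists_lower hΦ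
  obtain ⟨L, hL, hZL⟩ := exists_Low (Φ := Φ) (ε := ε) (M := M) hZ₀
  obtain ⟨K, hK⟩ := (cut_nice hΦ hL).nf_lipschitz (ι := ι) hε
  obtain ⟨r, hr, hball⟩ := Metric.isOpen_iff.1 (isOpen_Low hΦ hε M L) Z₀ hZL
  obtain ⟨C, hC⟩ := lipschitzOn_gflow hK Z₀ T r
  refine ⟨r, hr, fun Z hZ => (hball hZ).1, C, ?_⟩
  intro p hp q hq
  have := hC hp hq
  change edist (flow Φ ε p.1 p.2) (flow Φ ε q.1 q.2) ≤ _
  rw [show flow Φ ε p.1 p.2 = gflow (nf (cut Φ L) ε) univ p.1 p.2 from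
      flow_eq_cut hΦ hε hM hlow hL (hball hp.2) p.1,
    show flow Φ ε q.1 q.2 = gflow (nf (cut Φ L) ε) univ q.1 q.2 from
      flow_eq_cut hΦ hε hM hlow hL (hball hq.2) q.1]
  exact this

/-- **(LL)**, in the two-inequality form. -/
theorem exists_flow_dist_le (hΦ : AdmissiblePotential Φ) (hε : 0 < ε)
    {Z₀ : ι → PhasePoint} (hZ₀ : Z₀ ∈ Dom Φ ι) (T : ℝ) :
    ∃ r : ℝ, 0 < r ∧ Metric.ball Z₀ r ⊆ Dom Φ ι ∧ ∃ L : ℝ, 0 ≤ L ∧
      (∀ t ∈ Icc (-T) T, ∀ Z ∈ Metric.ball Z₀ r, ∀ Z' ∈ Metric.ball Z₀ r,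
        dist (flow Φ ε t Z) (flow Φ ε t Z') ≤ L * dist Z Z') ∧
      (∀ t ∈ Icc (-T) T, ∀ t' ∈ Icc (-T) T, ∀ Z ∈ Metric.ball Z₀ r,
        dist (flow Φ ε t Z) (flow Φ ε t' Z) ≤ L * |t - t'|) := by
  obtain ⟨r, hr, hball, C, hC⟩ := exists_lipschitzOn_flow hΦ hε hZ₀ T
  refine ⟨r, hr, hball, C, C.2, ?_, ?_⟩
  · intro t ht Z hZ Z' hZ'
    have := hC.dist_le_mul (t, Z) ⟨ht, hZ⟩ (t, Z') ⟨ht, hZ'⟩
    rwa [Prod.dist_eq, dist_self, max_eq_right dist_nonneg] at this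
  · intro t ht t' ht' Z hZ
    have := hC.dist_le_mul (t, Z) ⟨ht, hZ⟩ (t', Z) ⟨ht', hZ⟩
    rwa [Prod.dist_eq, dist_self, max_eq_left dist_nonneg, Real.dist_eq] at this

/-- **(LL)** in the form consumed by 151. -/
theorem flow_locLip (hΦ : AdmissiblePotential Φ) (hε : 0 < ε)
    {Z₀ : ι → PhasePoint} (hZ₀ : Z₀ ∈ Dom Φ ι) (T : ℝ) :
    ∃ r : ℝ, 0 < r ∧ ∃ L : ℝ, 0 ≤ L ∧ ∀ Z ∈ Metric.ball Z₀ r, Z ∈ Dom Φ ι ∧
      ∀ Z₂ ∈ Metric.ball Z₀ r, ∀ t t₂ : ℝ, |t| ≤ T → |t₂| ≤ T →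
        dist (flow Φ ε t Z) (flow Φ ε t₂ Z₂) ≤ L * (|t - t₂| + dist Z Z₂) := by
  obtain ⟨r, hr, hball, C, hC⟩ := exists_lipschitzOn_flow hΦ hε hZ₀ T
  refine ⟨r, hr, C, C.2, fun Z hZ => ⟨hball hZ, fun Z₂ hZ₂ t t₂ ht ht₂ => ?_⟩⟩
  have := hC.dist_le_mul (t, Z) ⟨abs_le.1 ht, hZ⟩ (t₂, Z₂) ⟨abs_le.1 ht₂, hZ₂⟩
  refine this.trans (mul_le_mul_of_nonneg_left ?_ C.2)
  rw [Prod.dist_eq, Real.dist_eq]
  exact max_le (le_add_of_nonneg_right dist_nonneg) (le_add_of_nonneg_left (abs_nonneg _))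

/-- The Newton flow is locally Lipschitz on `ℝ × Dom`. -/
theorem locallyLipschitzOn_flow (hΦ : AdmissiblePotential Φ) (hε : 0 < ε) :
    LocallyLipschitzOn (univ ×ˢ Dom Φ ι) (fun p : ℝ × (ι → PhasePoint) => flow Φ ε p.1 p.2) := by
  rintro ⟨t, Z⟩ ⟨-, hZ⟩
  obtain ⟨r, hr, hball, C, hC⟩ := exists_lipschitzOn_flow hΦ hε hZ (|t| + 1)
  refine ⟨C, Icc (-(|t| + 1)) (|t| + 1) ×ˢ Metric.ball Z r, ?_, hC⟩
  refine mem_nhdsWithin_of_mem_nhds (prod_mem_nhds (Icc_mem_nhds ?_ ?_) (Metric.ball_mem_nhds _ hr))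
  · linarith [neg_abs_le t]
  · linarith [le_abs_self t]

theorem locallyLipschitzOn_flow_fixed (hΦ : AdmissiblePotential Φ) (hε : 0 < ε) (t : ℝ) :
    LocallyLipschitzOn (Dom Φ ι) (fun Z : ι → PhasePoint => flow Φ ε t Z) := by
  intro Z hZ
  obtain ⟨r, hr, hball, C, hC⟩ := exists_lipschitzOn_flow hΦ hε hZ |t|
  refine ⟨C, Metric.ball Z r, mem_nhdsWithin_of_mem_nhds (Metric.ball_mem_nhds _ hr), ?_⟩
  refine LipschitzOnWith.of_dist_le_mul fun Y hY Y' hY' => ?_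
  have ht : t ∈ Icc (-|t|) |t| := ⟨neg_abs_le t, le_abs_self t⟩
  have := hC.dist_le_mul (t, Y) ⟨ht, hY⟩ (t, Y') ⟨ht, hY'⟩
  rwa [Prod.dist_eq, dist_self, max_eq_right dist_nonneg] at this

end Newton

end Crest.Agent.R122.Flow671
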