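import Crest.Agent.R122.FluxDCT_491
import Crest.Agent.R122.Band1_974

/-!
Row 122, block F (helper491): limit of the weights of the first good hits (second half of (I2), in
the literal form used by helper818).

* `wH` : weight of a first good hit at radius `ε`;
* `tendsto_wH` : `∫_{|x| ≤ R} ∫_θ adiff (wH ε) wgt → 0`;
* `tendsto_double` : hits where a second tube is touched at the same time are negligible.
-/

set_option autoImplicit false
set_option maxHeartbeats 400000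

open MeasureTheory Set Filter
open scoped ENNReal Topology Classical RealInnerProductSpace NNReal
open Crest.AnalysisR.Kinetic

noncomputable section

namespace Crest.Agent.R122.FluxDCT491

open Kin796 Kin796.CTree Disc416 Tree674 TreeEps399 Hid424 Generic491 GIV566 GIVStep383 IStep317
  TubeChild491 Tube818 TreeDom974 TreeLim974
open Crest.Agent.R122.Quench815 (absd absd_comm absd_self le_add_absd le_add_absd' absd_le_add
  absd_le_iff absd_triangle absd_mul_le measurable_absd absd_lintegral_le)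

variable {Φ : Space3 → ℝ} {f₀ : PhasePoint → ℝ} {ι : Type} {P : CTree}

/-! ### The literal objects -/

/-- the hit `θ` of the tube `i` is a first good hit in `[tw, t)` -/
def GoodH (Φ : Space3 → ℝ) (ε tw t : ℝ) (Sk S : Tubes ι) (i : ι) (θ : HPar P) : Prop :=
  tw ≤ θ.1 ∧ θ.1 < t ∧ θ.1 < S.b i ∧ ‖θ.2.2.1‖ < 1 ∧
    FirstAt Φ ε P Sk (rootL ε (Sk.c i θ.1) (deriv (S.c i) θ.1) θ.1 θ.2.1 θ.2.2.1, θ.2.2.2) θ.1

/-- weight of a first good hit at radius `ε` -/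
def wH (Φ : Space3 → ℝ) (f₀ : PhasePoint → ℝ) (ε tw t : ℝ) (Sk S : Tubes ι) (i : ι)
    (θ : HPar P) (x : Space3) : ℝ≥0∞ :=
  if GoodH Φ ε tw t Sk S i θ then
    ENNReal.ofReal ‖θ.2.1 - deriv (S.c i) θ.1‖ * (wt Φ P θ.2.1 θ.2.2.2 *
      ∏ j, ENNReal.ofReal (f₀ (lines Φ ε P
        ((rootL ε (Sk.c i θ.1) (deriv (S.c i) θ.1) θ.1 θ.2.1 θ.2.2.1).1 + x, θ.2.1) θ.2.2.2 j)))
  else 0

/-- another tube is touched at the same time -/
def Double (ε : ℝ) (Sk S : Tubes ι) (i : ι) (θ : HPar P) : Prop :=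
  ∃ i', i' ≠ i ∧ θ.1 ≤ Sk.b i' ∧ dist (Sk.c i' θ.1)
    (onLine (rootL ε (Sk.c i θ.1) (deriv (S.c i) θ.1) θ.1 θ.2.1 θ.2.2.1) θ.1).1 ≤ ε

/-- first good hits at positive times -/
def AF (Φ : Space3 → ℝ) (ε tw t : ℝ) (Sk S : Tubes ι) (i : ι) (P : CTree) : Set (HPar P) :=
  {θ | 0 < θ.1 ∧ GoodH Φ ε tw t Sk S i θ}

theorem wH_eq {ε tw t : ℝ} {Sk S : Tubes ι} {i : ι} {θ : HPar P} (hθ : 0 < θ.1) (x : Space3) :
    wH Φ f₀ ε tw t Sk S i θ x =
      wE Φ (fun z => ENNReal.ofReal (f₀ z)) ε Sk S i (AF Φ ε tw t Sk S i P) θ x := by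
  unfold wH wE
  by_cases h : GoodH Φ ε tw t Sk S i θ
  · rw [if_pos h, indicator_of_mem (show θ ∈ AF Φ ε tw t Sk S i P from ⟨hθ, h⟩)]
    congr 2
    refine Finset.prod_congr rfl fun j _ => ?_
    congr 2
    exact lines_add ε P (hL ε Sk S i θ) θ.2.2.2 j x
  · rw [if_neg h, indicator_of_notMem (show θ ∉ AF Φ ε tw t Sk S i P from fun h' => h h'.2)]

/-! ### Measurability of the sets -/

theorem measurableSet_AF [Countable ι] (hΦ : AdmissiblePotential Φ) {ε : ℝ} (hε : 0 < ε) {T : ℝ}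
    (hT : 0 ≤ T) {tw t : ℝ} (htT : t ≤ T) {Sk : Tubes ι} (S : Tubes ι) (i : ι)
    (hS : ∀ i, ContinuousOn (Sk.c i) (Icc 0 T)) (P : CTree) :
    MeasurableSet (AF Φ ε tw t Sk S i P) := by
  obtain ⟨h, hm, h2, he⟩ := exists_hL ε hT S i (hS i) P
  have h1 : Measurable fun θ : HPar P => ((θ.1, (h θ, θ.2.2.2)) : ℝ × (PhasePoint × Par P)) :=
    measurable_fst.prodMk (hm.prodMk measurable_snd.snd.snd)
  have hF := h1 (measurableSet_firstAt (P := P) hΦ hε hT hS)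
  have hb : MeasurableSet {θ : HPar P | tw ≤ θ.1 ∧ θ.1 < t ∧ θ.1 < S.b i ∧ ‖θ.2.2.1‖ < 1} :=
    (measurableSet_le measurable_const measurable_fst).inter
      ((measurableSet_lt measurable_fst measurable_const).inter
        ((measurableSet_lt measurable_fst measurable_const).inter
          (measurableSet_lt measurable_snd.snd.fst.norm measurable_const)))
  have e : AF Φ ε tw t Sk S i P = {θ : HPar P | tw ≤ θ.1 ∧ θ.1 < t ∧ θ.1 < S.b i ∧
      ‖θ.2.2.1‖ < 1} ∩ {θ : HPar P | (0 < θ.1 ∧ θ.1 ≤ T) ∧ FirstAt Φ ε P Sk (h θ, θ.2.2.2) θ.1} := by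
    ext θ
    constructor
    · rintro ⟨h0, a1, a2, a3, a4, a5⟩
      have hI : θ.1 ∈ Icc 0 T := ⟨h0.le, (a2.trans_le htT).le⟩
      refine ⟨⟨a1, a2, a3, a4⟩, ⟨h0, hI.2⟩, ?_⟩
      rw [he θ hI]
      exact a5
    · rintro ⟨⟨a1, a2, a3, a4⟩, ⟨h0, hT'⟩, a5⟩
      have hI : θ.1 ∈ Icc 0 T := ⟨h0.le, hT'⟩
      rw [he θ hI] at a5
      exact ⟨h0, a1, a2, a3, a4, a5⟩
  rw [e]
  exact hb.inter hF

theorem measurableSet_good0 (hΦ : AdmissiblePotential Φ) (tw t : ℝ) (S : Tubes ι) (i : ι)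
    (P : CTree) : MeasurableSet {θ : HPar P | HGood Φ tw t S i θ} := by
  have h1 : MeasurableSet {θ : HPar P | Valid Φ 0 P θ.1 θ.2.1 θ.2.2.2} :=
    (measurable_fst.prodMk (measurable_snd.fst.prodMk measurable_snd.snd.snd))
      (measurableSet_valid3 hΦ 0 P)
  exact (measurable_fst measurableSet_Ioc).inter
    ((measurableSet_lt measurable_fst measurable_const).inter
      ((measurableSet_lt measurable_snd.snd.fst.norm measurable_const).inter h1))

theorem measurableSet_double [Fintype ι] {ε : ℝ} {T : ℝ} (hT : 0 ≤ T) {Sk : Tubes ι} (S : Tubes ι)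
    (i : ι) (hS : ∀ i, ContinuousOn (Sk.c i) (Icc 0 T)) (P : CTree) :
    MeasurableSet {θ : HPar P | θ.1 ∈ Icc 0 T ∧ Double ε Sk S i θ} := by
  obtain ⟨h, hm, h2, he⟩ := exists_hL ε hT S i (hS i) P
  choose x hx hxe using fun i' => exists_meas_curve hT (hS i')
  have e : {θ : HPar P | θ.1 ∈ Icc 0 T ∧ Double ε Sk S i θ} = {θ : HPar P | θ.1 ∈ Icc 0 T} ∩
      ⋃ i' : ι, {θ : HPar P | i' ≠ i ∧ θ.1 ≤ Sk.b i' ∧
        dist (x i' θ.1) (onLine (h θ) θ.1).1 ≤ ε} := by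
    ext θ
    simp only [mem_inter_iff, mem_iUnion, mem_ofPred_eq]
    refine and_congr_right fun hI => ?_
    unfold Double
    refine exists_congr fun i' => ?_
    rw [hxe i' θ.1 hI, he θ hI]
    rfl
  rw [e]
  refine (measurable_fst measurableSet_Icc).inter (MeasurableSet.iUnion fun i' => ?_)
  have ho : Measurable fun θ : HPar P => (onLine (h θ) θ.1).1 :=
    (measurable_onLine2.comp (hm.prodMk measurable_fst)).fst
  refine MeasurableSet.inter (MeasurableSet.const _) (MeasurableSet.inter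
    (measurableSet_le measurable_fst measurable_const) ?_)
  exact measurableSet_le (((hx i').measurable.comp measurable_fst).dist ho) measurable_const

/-! ### Almost every parameter -/

theorem ae_time_ne (P : CTree) (c : ℝ) : ∀ᵐ θ : HPar P, θ.1 ≠ c := by
  have e0 : ∀ᵐ s : ℝ, s ≠ c := compl_mem_ae_iff.2 (measure_singleton c)
  exact (Measure.quasiMeasurePreserving_fst (μ := (volume : Measure ℝ))
    (ν := (volume : Measure (Space3 × Disc416.Plane × Par P)))).ae e0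

theorem ae_time_notMem' (P : CTree) {F : Set ℝ} (hF : F.Countable) :
    ∀ᵐ θ : HPar P, θ.1 ∉ F :=
  (Measure.quasiMeasurePreserving_fst (μ := (volume : Measure ℝ))
    (ν := (volume : Measure (Space3 × Disc416.Plane × Par P)))).ae (hF.ae_notMem volume)

/-- for almost every parameter no other tube is touched -/
theorem ae_not_double [Fintype ι] {T : ℝ} {εk : ℕ → ℝ} (hlim : Tendsto εk atTop (𝓝 0))
    {Sk : ℕ → Tubes ι} {S : Tubes ι} (hconv : TubeConv T Sk S) (hgen : Generic T S) (i : ι)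
    (P : CTree) : ∀ᵐ θ : HPar P, θ.1 ∈ Ioo 0 T → θ.1 < S.b i →
      ∀ᶠ n in atTop, ¬ Double (εk n) (Sk n) S i θ := by
  have hF : ∀ i', i' ≠ i → {s | s ∈ Icc 0 (min T (min (S.b i') (S.b i))) ∧
      S.c i' s = S.c i s}.Countable := fun i' hi' => (hgen i' i hi').countable
  have e1 : ∀ᵐ θ : HPar P, ∀ i', i' ≠ i → θ.1 ∉ {s | s ∈ Icc 0 (min T (min (S.b i') (S.b i))) ∧
      S.c i' s = S.c i s} := by
    rw [ae_all_iff]
    intro i'
    by_cases hi : i' = i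
    · exact Eventually.of_forall fun θ h => absurd hi h
    · filter_upwards [ae_time_notMem' P (hF i' hi)] with θ hθ _
      exact hθ
  have e2 : ∀ᵐ θ : HPar P, ∀ i', θ.1 ≠ S.b i' := by
    rw [ae_all_iff]
    exact fun i' => ae_time_ne P (S.b i')
  filter_upwards [e1, e2] with θ a1 a2 hI hb
  have hall : ∀ i', ∀ᶠ n in atTop, ¬ (i' ≠ i ∧ θ.1 ≤ (Sk n).b i' ∧ dist ((Sk n).c i' θ.1)
      (onLine (rootL (εk n) ((Sk n).c i θ.1) (deriv (S.c i) θ.1) θ.1 θ.2.1 θ.2.2.1) θ.1).1 ≤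
        εk n) := by
    intro i'
    by_cases hi : i' = i
    · exact Eventually.of_forall fun n h => h.1 hi
    rcases lt_or_gt_of_ne (a2 i') with hlt | hgt
    · -- active
      have hne : S.c i' θ.1 ≠ S.c i θ.1 := fun he =>
        a1 i' hi ⟨⟨hI.1.le, le_min hI.2.le (le_min hlt.le hb.le)⟩, he⟩
      have hI' : θ.1 ∈ Icc 0 T := ⟨hI.1.le, hI.2.le⟩
      have h2 : Tendsto (fun n => (Sk n).c i' θ.1) atTop (𝓝 (S.c i' θ.1)) :=
        (hconv.curves i').tendsto_at hI'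
      have h3 : Tendsto (fun n => (onLine (rootL (εk n) ((Sk n).c i θ.1) (deriv (S.c i) θ.1) θ.1
          θ.2.1 θ.2.2.1) θ.1).1) atTop (𝓝 (S.c i θ.1)) := by
        have h4 := tendsto_hL hlim hconv i hI'
        have h5 : Tendsto (fun n => (hL (εk n) (Sk n) S i θ).1 + θ.1 • θ.2.1) atTop
            (𝓝 ((hL 0 S S i θ).1 + θ.1 • θ.2.1)) := h4.add_const _
        rw [hL_zero] at h5
        simp only [sub_add_cancel] at h5
        exact h5
      have h6 : Tendsto (fun n => dist ((Sk n).c i' θ.1) (onLine (rootL (εk n) ((Sk n).c i θ.1)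
          (deriv (S.c i) θ.1) θ.1 θ.2.1 θ.2.2.1) θ.1).1 - εk n) atTop
          (𝓝 (dist (S.c i' θ.1) (S.c i θ.1) - 0)) := (h2.dist h3).sub hlim
      rw [sub_zero] at h6
      filter_upwards [h6.eventually (lt_mem_nhds (dist_pos.2 hne))] with n hn h
      linarith [h.2.2]
    · filter_upwards [(hconv.active i').eventually (gt_mem_nhds hgt)] with n hn h
      exact absurd h.2.1 (not_le.2 hn)
  filter_upwards [eventually_all.2 hall] with n hn hD
  obtain ⟨i', h1, h2, h3⟩ := hD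
  exact hn i' ⟨h1, h2, h3⟩

/-! ### The limits -/

/-- first good hits are admissible straight-line trees -/
theorem hgood_of_goodH {ε tw t : ℝ} (hε : 0 ≤ ε) {Sk S : Tubes ι} {i : ι} {θ : HPar P}
    (h : GoodH Φ ε tw t Sk S i θ) (hne : θ.1 ≠ tw) : HGood Φ tw t S i θ := by
  obtain ⟨a1, a2, a3, a4, a5⟩ := h
  exact ⟨⟨lt_of_le_of_ne a1 (Ne.symm hne), a2.le⟩, a3, a4, valid_zero hε a5.valid⟩

/-- the conditions of `tendsto_wE` for the first good hits -/
theorem ae_AF [Fintype ι] (hΦ : AdmissiblePotential Φ) {T : ℝ} {εk : ℕ → ℝ}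
    (hε0 : ∀ n, 0 < εk n) (hlim : Tendsto εk atTop (𝓝 0)) {Sk : ℕ → Tubes ι} {S : Tubes ι}
    (hconv : TubeConv T Sk S) (hgen : Generic T S) {tw t : ℝ} (htw : 0 ≤ tw) (htT : t ≤ T)
    (i : ι) (P : CTree) :
    (∀ᵐ θ : HPar P, θ ∈ {θ : HPar P | HGood Φ tw t S i θ} →
      ∀ᶠ n in atTop, θ ∈ AF Φ (εk n) tw t (Sk n) S i P) ∧
    (∀ᵐ θ : HPar P, θ ∉ {θ : HPar P | HGood Φ tw t S i θ} →
      ∀ n, θ ∉ AF Φ (εk n) tw t (Sk n) S i P) := by
  constructor
  · filter_upwards [firstAt_eventually hΦ hε0 hlim hconv hgen i P, ae_time_ne P t,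
      ae_time_ne P T] with θ a1 a2 a3 hG
    obtain ⟨h1, h2, h3, h4⟩ := hG
    have h0 : 0 < θ.1 := htw.trans_lt h1.1
    have h5 := a1 ⟨h0, lt_of_le_of_ne (h1.2.trans htT) a3⟩ h2 h3 h4
    filter_upwards [h5] with n hn
    exact ⟨h0, h1.1.le, lt_of_le_of_ne h1.2 a2, h2, h3, hn⟩
  · filter_upwards [ae_time_ne P tw] with θ a1 hG n hn
    exact hG (hgood_of_goodH (hε0 n).le hn.2 a1)

theorem AF_box {εk tw t T : ℝ} (htT : t ≤ T) {Sk S : Tubes ι} {i : ι} :
    ∀ θ ∈ AF Φ εk tw t Sk S i P, θ ∈ Bx T P ∧ Valid Φ εk P θ.1 θ.2.1 θ.2.2.2 := by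
  rintro θ ⟨h0, a1, a2, a3, a4, a5⟩
  exact ⟨⟨⟨h0.le, (a2.trans_le htT).le⟩, a4⟩, a5.valid⟩

theorem HGood_box {tw t T : ℝ} (htw : 0 ≤ tw) (htT : t ≤ T) {S : Tubes ι} {i : ι} :
    ∀ θ ∈ {θ : HPar P | HGood Φ tw t S i θ}, θ ∈ Bx T P ∧ Valid Φ 0 P θ.1 θ.2.1 θ.2.2.2 := by
  rintro θ ⟨h1, h2, h3, h4⟩
  exact ⟨⟨⟨htw.trans h1.1.le, h1.2.trans htT⟩, h3⟩, h4⟩

theorem continuous_k (hf : Continuous f₀) :
    Continuous fun z : PhasePoint => ENNReal.ofReal (f₀ z) :=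
  ENNReal.continuous_ofReal.comp hf

/-- **(C)** the weights of the first good hits converge. -/
theorem tendsto_wH_of_bound [Fintype ι] (hΦ : AdmissiblePotential Φ) {T : ℝ} (hT : 0 ≤ T)
    (hf : Continuous f₀) {C b : ℝ} (hC : 0 ≤ C) (hb : 0 < b)
    (hk : ∀ z : PhasePoint, ENNReal.ofReal (f₀ z) ≤ ENNReal.ofReal (C * Real.exp (-b * ‖z.2‖ ^ 2)))
    {εk : ℕ → ℝ} (hε0 : ∀ n, 0 < εk n) (hlim : Tendsto εk atTop (𝓝 0)) {Sk : ℕ → Tubes ι}
    {S : Tubes ι} (hconv : TubeConv T Sk S) (hgen : Generic T S) {tw t : ℝ} (htw : 0 ≤ tw)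
    (htT : t ≤ T) (i : ι) (P : CTree) (R : ℝ) :
    Tendsto (fun n => ∫⁻ x in Metric.closedBall (0 : Space3) R, ∫⁻ θ : HPar P,
      adiff (wH Φ f₀ (εk n) tw t (Sk n) S i θ x) (wgt Φ f₀ tw t S i θ x)) atTop (𝓝 0) := by
  obtain ⟨M, hlipk, hlip⟩ := hconv.lip
  obtain ⟨h1, h2⟩ := ae_AF hΦ hε0 hlim hconv hgen htw htT i P
  have hfin : IsFiniteMeasure (volume.restrict (Metric.closedBall (0 : Space3) R)) :=
    ⟨by rw [Measure.restrict_apply_univ]; exact (isCompact_closedBall _ _).measure_lt_top⟩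
  have hmain := tendsto_wE (P := P) hΦ hT hε0 hlim hC hb (continuous_k hf) hk hconv i
    (A := fun n => AF Φ (εk n) tw t (Sk n) S i P) (A0 := {θ : HPar P | HGood Φ tw t S i θ})
    (by
      filter_upwards [hlipk] with n hn
      exact measurableSet_AF hΦ (hε0 n) hT htT S i (fun i => (hn i).continuousOn) P)
    (measurableSet_good0 hΦ tw t S i P) (Eventually.of_forall fun n => AF_box htT)
    (HGood_box htw htT) h1 (h2.mono fun θ h hθ => Eventually.of_forall (h hθ))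
    (volume.restrict (Metric.closedBall (0 : Space3) R))
  refine hmain.congr fun n => ?_
  refine lintegral_congr fun x => ?_
  refine lintegral_congr_ae ?_
  have hneg : ∀ᵐ θ : HPar P, θ.1 ≠ 0 := ae_time_ne P 0
  filter_upwards [hneg] with θ hθ
  rw [← wgt_eq]
  rcases lt_or_gt_of_ne hθ with hlt | hgt
  · have e1 : wE Φ (fun z => ENNReal.ofReal (f₀ z)) (εk n) (Sk n) S i
        (AF Φ (εk n) tw t (Sk n) S i P) θ x = 0 :=
      indicator_of_notMem (fun h => absurd h.1 (not_lt.2 hlt.le)) _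
    have e2 : wH Φ f₀ (εk n) tw t (Sk n) S i θ x = 0 := by
      unfold wH
      rw [if_neg]
      exact fun h => absurd (htw.trans h.1) (not_le.2 hlt)
    rw [e1, e2]
    rfl
  · rw [wH_eq hgt]
    rfl

/-- **(D)** double touches are negligible. -/
theorem tendsto_double_of_bound [Fintype ι] (hΦ : AdmissiblePotential Φ) {T : ℝ} (hT : 0 ≤ T)
    (hf : Continuous f₀) {C b : ℝ} (hC : 0 ≤ C) (hb : 0 < b)
    (hk : ∀ z : PhasePoint, ENNReal.ofReal (f₀ z) ≤ ENNReal.ofReal (C * Real.exp (-b * ‖z.2‖ ^ 2)))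
    {εk : ℕ → ℝ} (hε0 : ∀ n, 0 < εk n) (hlim : Tendsto εk atTop (𝓝 0)) {Sk : ℕ → Tubes ι}
    {S : Tubes ι} (hconv : TubeConv T Sk S) (hgen : Generic T S) {tw t : ℝ} (htw : 0 ≤ tw)
    (htT : t ≤ T) (i : ι) (P : CTree) (R : ℝ) :
    Tendsto (fun n => ∫⁻ x in Metric.closedBall (0 : Space3) R, ∫⁻ θ : HPar P,
      if ∃ i', i' ≠ i ∧ θ.1 ≤ (Sk n).b i' ∧ dist ((Sk n).c i' θ.1)
        (onLine (rootL (εk n) ((Sk n).c i θ.1) (deriv (S.c i) θ.1) θ.1 θ.2.1 θ.2.2.1) θ.1).1 ≤ εk n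
      then wH Φ f₀ (εk n) tw t (Sk n) S i θ x else 0) atTop (𝓝 0) := by
  obtain ⟨M, hlipk, hlip⟩ := hconv.lip
  have hfin : IsFiniteMeasure (volume.restrict (Metric.closedBall (0 : Space3) R)) :=
    ⟨by rw [Measure.restrict_apply_univ]; exact (isCompact_closedBall _ _).measure_lt_top⟩
  set A : ℕ → Set (HPar P) := fun n => AF Φ (εk n) tw t (Sk n) S i P ∩
    {θ : HPar P | θ.1 ∈ Icc 0 T ∧ Double (εk n) (Sk n) S i θ} with hA
  have hAm : ∀ᶠ n in atTop, MeasurableSet (A n) := by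
    filter_upwards [hlipk] with n hn
    exact (measurableSet_AF hΦ (hε0 n) hT htT S i (fun i => (hn i).continuousOn) P).inter
      (measurableSet_double hT S i (fun i => (hn i).continuousOn) P)
  have h2 : ∀ᵐ θ : HPar P, θ ∉ (∅ : Set (HPar P)) → ∀ᶠ n in atTop, θ ∉ A n := by
    filter_upwards [ae_not_double hlim hconv hgen i P, ae_time_ne P t, ae_time_ne P T]
      with θ a1 a2 a3 _
    by_cases hI : θ.1 ∈ Ioo 0 T ∧ θ.1 < S.b i
    · filter_upwards [a1 hI.1 hI.2] with n hn h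
      exact hn h.2.2
    · refine Eventually.of_forall fun n h => hI ?_
      obtain ⟨⟨h0, b1, b2, b3, b4, b5⟩, -⟩ := h
      exact ⟨⟨h0, b2.trans_le htT⟩, b3⟩
  have hmain := tendsto_wE (P := P) hΦ hT hε0 hlim hC hb (continuous_k hf) hk hconv i
    (A := A) (A0 := ∅) hAm MeasurableSet.empty
    (Eventually.of_forall fun n θ hθ => AF_box htT θ hθ.1)
    (fun θ hθ => absurd hθ (notMem_empty _)) (Eventually.of_forall fun θ hθ => absurd hθ
      (notMem_empty _)) h2 (volume.restrict (Metric.closedBall (0 : Space3) R))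
  refine hmain.congr fun n => ?_
  refine lintegral_congr fun x => ?_
  refine lintegral_congr_ae ?_
  have hneg : ∀ᵐ θ : HPar P, θ.1 ≠ 0 := ae_time_ne P 0
  filter_upwards [hneg] with θ hθ
  have e0 : wE Φ (fun z => ENNReal.ofReal (f₀ z)) 0 S S i (∅ : Set (HPar P)) θ x = 0 :=
    indicator_of_notMem (notMem_empty _) _
  rw [e0]
  have e1 : ∀ c : ℝ≥0∞, absd c 0 = c := fun c => by simp [absd]
  rw [e1]
  by_cases hD : ∃ i', i' ≠ i ∧ θ.1 ≤ (Sk n).b i' ∧ dist ((Sk n).c i' θ.1)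
      (onLine (rootL (εk n) ((Sk n).c i θ.1) (deriv (S.c i) θ.1) θ.1 θ.2.1 θ.2.2.1) θ.1).1 ≤ εk n
  · rw [if_pos hD]
    by_cases hG : 0 < θ.1 ∧ GoodH Φ (εk n) tw t (Sk n) S i θ
    · have hI : θ.1 ∈ Icc 0 T := ⟨hG.1.le, (hG.2.2.1.trans_le htT).le⟩
      rw [wH_eq hG.1]
      unfold wE
      rw [indicator_of_mem (show θ ∈ A n from ⟨hG, hI, hD⟩),
        indicator_of_mem (show θ ∈ AF Φ (εk n) tw t (Sk n) S i P from hG)]
    · have e2 : wH Φ f₀ (εk n) tw t (Sk n) S i θ x = 0 := by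
        unfold wH
        rw [if_neg]
        exact fun h => hG ⟨lt_of_le_of_ne (htw.trans h.1) (Ne.symm hθ), h⟩
      rw [e2]
      exact indicator_of_notMem (fun h => hG h.1) _
  · rw [if_neg hD]
    exact indicator_of_notMem (fun h => hD h.2.2) _

/-- Gaussian bound of the initial density -/
theorem exists_bound {β T : ℝ} {f : ℝ → PhasePoint → ℝ} (hD : Master566.KData Φ β T f₀ f) :
    ∃ C : ℝ, 0 ≤ C ∧ ∀ z : PhasePoint, ENNReal.ofReal (f₀ z) ≤
      ENNReal.ofReal (C * Real.exp (-(2 * β) * ‖z.2‖ ^ 2)) := by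
  obtain ⟨C, hC, h⟩ := Boltz814.exists_gauss_bound hD.T_pos hD.sol
  refine ⟨C, hC, fun z => ENNReal.ofReal_le_ofReal ?_⟩
  have := h 0 ⟨le_rfl, hD.T_pos.le⟩ z.1 z.2
  rw [hD.sol.initial] at this
  exact this

/-- **(C)** the weights of the first good hits converge. -/
theorem tendsto_wH [Fintype ι] {β T : ℝ} {f : ℝ → PhasePoint → ℝ}
    (hD : Master566.KData Φ β T f₀ f) {εk : ℕ → ℝ} (hε0 : ∀ n, 0 < εk n)
    (hlim : Tendsto εk atTop (𝓝 0)) {Sk : ℕ → Tubes ι} {S : Tubes ι} (hconv : TubeConv T Sk S)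
    (hgen : Generic T S) {tw t : ℝ} (htw : 0 ≤ tw) (htT : t ≤ T) (i : ι) (P : CTree) (R : ℝ) :
    Tendsto (fun n => ∫⁻ x in Metric.closedBall (0 : Space3) R, ∫⁻ θ : HPar P,
      adiff (wH Φ f₀ (εk n) tw t (Sk n) S i θ x) (wgt Φ f₀ tw t S i θ x)) atTop (𝓝 0) := by
  obtain ⟨C, hC, hk⟩ := exists_bound hD
  exact tendsto_wH_of_bound hD.adm hD.T_pos.le hD.contDiff.continuous hC
    (by have := hD.beta_pos; positivity) hk hε0 hlim hconv hgen htw htT i P R

/-- **(D)** double touches are negligible. -/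
theorem tendsto_double [Fintype ι] {β T : ℝ} {f : ℝ → PhasePoint → ℝ}
    (hD : Master566.KData Φ β T f₀ f) {εk : ℕ → ℝ} (hε0 : ∀ n, 0 < εk n)
    (hlim : Tendsto εk atTop (𝓝 0)) {Sk : ℕ → Tubes ι} {S : Tubes ι} (hconv : TubeConv T Sk S)
    (hgen : Generic T S) {tw t : ℝ} (htw : 0 ≤ tw) (htT : t ≤ T) (i : ι) (P : CTree) (R : ℝ) :
    Tendsto (fun n => ∫⁻ x in Metric.closedBall (0 : Space3) R, ∫⁻ θ : HPar P,
      if ∃ i', i' ≠ i ∧ θ.1 ≤ (Sk n).b i' ∧ dist ((Sk n).c i' θ.1)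
        (onLine (rootL (εk n) ((Sk n).c i θ.1) (deriv (S.c i) θ.1) θ.1 θ.2.1 θ.2.2.1) θ.1).1 ≤ εk n
      then wH Φ f₀ (εk n) tw t (Sk n) S i θ x else 0) atTop (𝓝 0) := by
  obtain ⟨C, hC, hk⟩ := exists_bound hD
  exact tendsto_double_of_bound hD.adm hD.T_pos.le hD.contDiff.continuous hC
    (by have := hD.beta_pos; positivity) hk hε0 hlim hconv hgen htw htT i P R

/-! ### Measurability of the integrands -/

/-- joint measurability of the weight of the first good hits at positive times -/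
theorem measurable_wAF [Countable ι] (hΦ : AdmissiblePotential Φ) (hf : Measurable f₀) {ε : ℝ}
    (hε : 0 < ε) {T : ℝ} (hT : 0 ≤ T) {tw t : ℝ} (htT : t ≤ T) {Sk : Tubes ι} (S : Tubes ι)
    (i : ι) (hS : ∀ i, ContinuousOn (Sk.c i) (Icc 0 T)) (P : CTree) :
    Measurable fun q : Space3 × HPar P => wE Φ (fun z => ENNReal.ofReal (f₀ z)) ε Sk S i
      (AF Φ ε tw t Sk S i P) q.2 q.1 :=
  measurable_wE hΦ hf.ennreal_ofReal ε hT (hS i) (measurableSet_AF hΦ hε hT htT S i hS P)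
    fun θ hθ => ⟨(AF_box htT θ hθ).1.1, (AF_box htT θ hθ).2.1⟩

/-- joint measurability of the limiting weight -/
theorem measurable_wgt (hΦ : AdmissiblePotential Φ) (hf : Measurable f₀) {T : ℝ} (hT : 0 ≤ T)
    {tw t : ℝ} (htw : 0 ≤ tw) (htT : t ≤ T) {S : Tubes ι} {i : ι}
    (hS : ContinuousOn (S.c i) (Icc 0 T)) (P : CTree) :
    Measurable fun q : Space3 × HPar P => wgt Φ f₀ tw t S i q.2 q.1 := by
  have h := measurable_wE (P := P) (S := S) hΦ hf.ennreal_ofReal 0 hT hS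
    (measurableSet_good0 hΦ tw t S i P)
    fun θ hθ => ⟨(HGood_box (T := T) htw htT θ hθ).1.1, (HGood_box (T := T) htw htT θ hθ).2.1⟩
  have e : (fun q : Space3 × HPar P => wgt Φ f₀ tw t S i q.2 q.1) =
      fun q : Space3 × HPar P => wE Φ (fun z => ENNReal.ofReal (f₀ z)) 0 S S i
        {θ | HGood Φ tw t S i θ} q.2 q.1 := by
    funext q
    exact wgt_eq f₀ tw t S i q.2 q.1
  rw [e]
  exact h

end Crest.Agent.R122.FluxDCT491

end
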