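import Crest.Agent.R122.Tube1_818
import Crest.Agent.R122.Tube2_818
import Crest.Agent.R122.GIVChild_383
import Crest.Agent.R122.IDefs_317
import Crest.Agent.R122.HidMeas_424

/-!
Row 122, block FT (helper818), part 3: first good hits, change of variables on trees, measurability.

* `lintegral_enter_par` : lines entering a straight tube, with a tree attached (coordinates `HPar P`
  of helper383).
* `FirstAt.before`, `FirstAt.unique`.
* `measurableSet_firstAt` : joint measurability in the hitting time and the parameters.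
* `uT`, `measurable_uT` : avoidance probability of the child family, jointly measurable.
* `Hgh_eq` : the mass of first good hits in coordinates relative to the translation.
-/

set_option autoImplicit false
set_option maxHeartbeats 400000

open MeasureTheory Set Filter
open Crest.AnalysisR.Kinetic
open scoped ENNReal Classical Topology

noncomputable section

namespace Crest.Agent.R122.Tube818

open Disc416 Flux663 Tree674 Kin796 Kin796.CTree TreeEps399 GIV566 GIVStep383 Hid424
open Causal291 IStep317 GC311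

variable {Φ : Space3 → ℝ} {f₀ : PhasePoint → ℝ} {ε : ℝ} {P : CTree} {ι : Type}

/-! ### Change of variables -/

/-- Tonelli on the parameters of a hit. -/
theorem lintegral_hpar {G : HPar P → ℝ≥0∞} (hG : Measurable G) :
    ∫⁻ θ : HPar P, G θ = ∫⁻ s : ℝ, ∫⁻ v : Space3, ∫⁻ y : Plane, ∫⁻ p : Par P, G (s, v, y, p) := by
  have h1 : ∫⁻ θ : HPar P, G θ = ∫⁻ s : ℝ, ∫⁻ r : Space3 × Plane × Par P, G (s, r) := by
    rw [Measure.volume_eq_prod]
    exact lintegral_prod _ hG.aemeasurable
  rw [h1]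
  refine lintegral_congr fun s => ?_
  have hs : Measurable fun r : Space3 × Plane × Par P => G (s, r) :=
    hG.comp (measurable_const.prodMk measurable_id)
  have h2 : ∫⁻ r : Space3 × Plane × Par P, G (s, r) =
      ∫⁻ v : Space3, ∫⁻ r : Plane × Par P, G (s, v, r) := by
    rw [Measure.volume_eq_prod]
    exact lintegral_prod _ hs.aemeasurable
  rw [h2]
  refine lintegral_congr fun v => ?_
  have hv : Measurable fun r : Plane × Par P => G (s, v, r) :=
    hs.comp (measurable_const.prodMk measurable_id)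
  rw [Measure.volume_eq_prod]
  exact lintegral_prod _ hv.aemeasurable

/-- **Lines with a tree entering a straight tube.** -/
theorem lintegral_enter_par (hε : 0 < ε) (c V : Space3)
    {F : ℝ → PhasePoint × Par P → ℝ≥0∞} (hF : Measurable (Function.uncurry F)) :
    ∫⁻ z : PhasePoint × Par P, {z : PhasePoint × Par P | Meets ε (z.1.1 - c, z.1.2 - V)}.indicator
        (fun z => F (sEnt ε (z.1.1 - c, z.1.2 - V)) z) z =
      ENNReal.ofReal (ε ^ 2) * ∫⁻ θ : HPar P,
        {θ : HPar P | ‖θ.2.2.1‖ < 1}.indicator (fun θ => ENNReal.ofReal ‖θ.2.1 - V‖ *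
          F θ.1 (rootL ε (c + θ.1 • V) V θ.1 θ.2.1 θ.2.2.1, θ.2.2.2)) θ := by
  have hroot : ∀ (s : ℝ) (v : Space3) (y : Plane),
      rootL ε (c + s • V) V s v y = (c + entRel ε (v - V) s y, v) := by
    intro s v y
    unfold rootL entRel
    refine Prod.ext ?_ rfl
    simp only [smul_sub]
    abel
  have hrel : Measurable fun ℓ : PhasePoint => ((ℓ.1 - c, ℓ.2 - V) : Space3 × Space3) := by
    fun_prop
  have hms : MeasurableSet {ℓ : PhasePoint | Meets ε (ℓ.1 - c, ℓ.2 - V)} :=
    hrel (measurableSet_meets ε)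
  have hm : Measurable ({z : PhasePoint × Par P | Meets ε (z.1.1 - c, z.1.2 - V)}.indicator
        (fun z => F (sEnt ε (z.1.1 - c, z.1.2 - V)) z)) := by
    refine Measurable.indicator ?_ (measurable_fst hms)
    exact hF.comp (((measurable_sEnt ε).comp (hrel.comp measurable_fst)).prodMk measurable_id)
  -- the entering line
  have hpt : Measurable fun θ : HPar P => ((θ.2.1 - V, θ.1, θ.2.2.1) : Space3 × ℝ × Plane) := by
    fun_prop
  have hline : Measurable fun θ : HPar P =>
      (((c + entRel ε (θ.2.1 - V) θ.1 θ.2.2.1, θ.2.1), θ.2.2.2) : PhasePoint × Par P) := by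
    have h1 := ((measurable_entRel ε).comp hpt).const_add c
    exact (h1.prodMk measurable_snd.fst).prodMk measurable_snd.snd.snd
  have hF1 : Measurable fun θ : HPar P =>
      F θ.1 ((c + entRel ε (θ.2.1 - V) θ.1 θ.2.2.1, θ.2.1), θ.2.2.2) :=
    hF.comp (measurable_fst.prodMk hline)
  have hG : Measurable ({θ : HPar P | ‖θ.2.2.1‖ < 1}.indicator
      (fun θ => ENNReal.ofReal ‖θ.2.1 - V‖ *
          F θ.1 ((c + entRel ε (θ.2.1 - V) θ.1 θ.2.2.1, θ.2.1), θ.2.2.2))) := by
    refine Measurable.indicator ?_ (measurableSet_lt measurable_snd.snd.fst.norm measurable_const)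
    exact (measurable_snd.fst.sub_const V).norm.ennreal_ofReal.mul hF1
  simp only [hroot]
  rw [lintegral_hpar hG]
  rw [Measure.volume_eq_prod, lintegral_prod_symm _ hm.aemeasurable]
  -- for fixed node parameters
  have h1 : ∀ p : Par P, ∫⁻ ℓ : PhasePoint,
      {z : PhasePoint × Par P | Meets ε (z.1.1 - c, z.1.2 - V)}.indicator
        (fun z => F (sEnt ε (z.1.1 - c, z.1.2 - V)) z) (ℓ, p) =
      ENNReal.ofReal (ε ^ 2) * ∫⁻ s : ℝ, ∫⁻ v : Space3, ∫⁻ y : Plane,
        {θ : HPar P | ‖θ.2.2.1‖ < 1}.indicator (fun θ => ENNReal.ofReal ‖θ.2.1 - V‖ *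
          F θ.1 ((c + entRel ε (θ.2.1 - V) θ.1 θ.2.2.1, θ.2.1), θ.2.2.2)) (s, v, y, p) := by
    intro p
    have h2 := lintegral_enter hε c V (F := fun s ℓ => F s (ℓ, p))
      (hF.comp (measurable_fst.prodMk (measurable_snd.prodMk measurable_const)))
    have h3 : ∀ ℓ : PhasePoint, {z : PhasePoint × Par P | Meets ε (z.1.1 - c, z.1.2 - V)}.indicator
        (fun z => F (sEnt ε (z.1.1 - c, z.1.2 - V)) z) (ℓ, p) =
        {ℓ : PhasePoint | Meets ε (ℓ.1 - c, ℓ.2 - V)}.indicator
        (fun ℓ => F (sEnt ε (ℓ.1 - c, ℓ.2 - V)) (ℓ, p)) ℓ := fun ℓ => rfl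
    simp only [h3]
    rw [h2]
    congr 1
    refine lintegral_congr fun s => lintegral_congr fun v => ?_
    rw [← lintegral_const_mul' _ _ ENNReal.ofReal_ne_top, ← lintegral_indicator measurableSet_ball]
    refine lintegral_congr fun y => ?_
    by_cases hy : ‖y‖ < 1
    · rw [indicator_of_mem (show y ∈ Metric.ball (0 : Plane) 1 by simpa using hy)]
      rw [indicator_of_mem (show ((s, v, y, p) : HPar P) ∈ {θ : HPar P | ‖θ.2.2.1‖ < 1} from hy)]
    · rw [indicator_of_notMem (show y ∉ Metric.ball (0 : Plane) 1 by simpa using hy)]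
      rw [indicator_of_notMem
        (show ((s, v, y, p) : HPar P) ∉ {θ : HPar P | ‖θ.2.2.1‖ < 1} from hy)]
  simp only [h1]
  generalize ({θ : HPar P | ‖θ.2.2.1‖ < 1}.indicator
      (fun θ => ENNReal.ofReal ‖θ.2.1 - V‖ *
          F θ.1 ((c + entRel ε (θ.2.1 - V) θ.1 θ.2.2.1, θ.2.1), θ.2.2.2))) = G at hG
  rw [lintegral_const_mul' _ _ ENNReal.ofReal_ne_top]
  congr 1
  -- swap the integral over `p` inside
  have m1 : Measurable fun q : (Par P × ℝ × Space3) × Plane => G (q.1.2.1, q.1.2.2, q.2, q.1.1) :=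
    hG.comp (measurable_fst.snd.fst.prodMk
      (measurable_fst.snd.snd.prodMk (measurable_snd.prodMk measurable_fst.fst)))
  have m2 : Measurable fun q : Par P × ℝ × Space3 => ∫⁻ y : Plane, G (q.2.1, q.2.2, y, q.1) :=
    m1.lintegral_prod_right'
  have m2' : Measurable fun q : (Par P × ℝ) × Space3 => ∫⁻ y : Plane, G (q.1.2, q.2, y, q.1.1) :=
    m2.comp (measurable_fst.fst.prodMk (measurable_fst.snd.prodMk measurable_snd))
  have m3 : Measurable fun q : Par P × ℝ => ∫⁻ v : Space3, ∫⁻ y : Plane, G (q.2, v, y, q.1) :=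
    m2'.lintegral_prod_right'
  rw [lintegral_lintegral_swap m3.aemeasurable]
  refine lintegral_congr fun s => ?_
  have m4 : Measurable fun q : Par P × Space3 => ∫⁻ y : Plane, G (s, q.2, y, q.1) :=
    m2.comp (measurable_fst.prodMk (measurable_const.prodMk measurable_snd))
  rw [lintegral_lintegral_swap m4.aemeasurable]
  refine lintegral_congr fun v => ?_
  have m5 : Measurable fun q : Par P × Plane => G (s, v, q.2, q.1) :=
    hG.comp (measurable_const.prodMk
      (measurable_const.prodMk (measurable_snd.prodMk measurable_fst)))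
  exact lintegral_lintegral_swap m5.aemeasurable

/-! ### First good hits -/

/-- Just before the hit the root line is outside of all active tubes. -/
theorem FirstAt.before {S : Tubes ι} {z : PhasePoint × Par P} {σ : ℝ} (hε : 0 < ε) (hσ : 0 < σ)
    (h : FirstAt Φ ε P S z σ) : ∃ r < σ, ∀ u ∈ Ioo r σ, ∀ i, u ≤ S.b i →
      ε < dist (S.c i u) (onLine z.1 u).1 := by
  obtain ⟨κ, hκ, hT⟩ := exists_top (top_of_ord h.valid.2)
  refine ⟨max 0 (σ - κ), max_lt hσ (by linarith), fun u hu i hi => ?_⟩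
  have hu0 : 0 ≤ u := ((le_max_left _ _).trans_lt hu.1).le
  have hu1 : σ - κ ≤ u := ((le_max_right _ _).trans_lt hu.1).le
  have h1 := h.first u ⟨hu0, hu.2⟩ (root P) (by rw [PathFlow968.prot_root]; exact hu.2.le) i hi
  rwa [path_root hε.le (hT.mono hu1)] at h1

theorem FirstAt.unique {S : Tubes ι} {z : PhasePoint × Par P} {σ σ' : ℝ} (hε : 0 < ε)
    (hσ : 0 ≤ σ) (hσ' : 0 ≤ σ') (h : FirstAt Φ ε P S z σ) (h' : FirstAt Φ ε P S z σ') : σ = σ' := by
  rw [← h.sigHit_eq hε hσ, h'.sigHit_eq hε hσ']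

/-- **Joint measurability of the first good hit** in the hitting time and the parameters. -/
theorem measurableSet_firstAt [Countable ι] (hΦ : AdmissiblePotential Φ) (hε : 0 < ε) {T : ℝ}
    (hT : 0 ≤ T) {S : Tubes ι} (hS : ∀ i, ContinuousOn (S.c i) (Icc 0 T)) :
    MeasurableSet {q : ℝ × (PhasePoint × Par P) |
      (0 < q.1 ∧ q.1 ≤ T) ∧ FirstAt Φ ε P S q.2 q.1} := by
  -- curves frozen outside `[0, T]`
  obtain ⟨c, hc, hcS⟩ : ∃ c : ι → ℝ → Space3, (∀ i, Continuous (c i)) ∧
      ∀ i, ∀ u ∈ Icc 0 T, c i u = S.c i u := by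
    refine ⟨fun i u => S.c i (projIcc 0 T hT u), fun i => ?_, fun i u hu => ?_⟩
    · exact (hS i).comp_continuous (continuous_subtype_val.comp continuous_projIcc)
        fun s => (projIcc 0 T hT s).2
    · show S.c i (projIcc 0 T hT u) = S.c i u
      rw [projIcc_of_mem hT hu]
  set A : Set (ℝ × (PhasePoint × Par P)) := {q | (0 < q.1 ∧ q.1 ≤ T) ∧
    (Valid Φ ε P q.1 q.2.1.2 q.2.2 ∧ Sep Φ ε P q.1 q.2.1 q.2.2)} with hA
  have hAm : MeasurableSet A :=
    ((measurableSet_lt measurable_const measurable_fst).inter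
      (measurableSet_le measurable_fst measurable_const)).inter
      (Relabel674.measurableSet_validSep2 hΦ hε P)
  set B : ι → Set (ℝ × (PhasePoint × Par P)) := fun i =>
    {q | q.1 ≤ S.b i ∧ dist (c i q.1) (onLine q.2.1 q.1).1 ≤ ε} with hB
  have hBm : ∀ i, MeasurableSet (B i) := by
    intro i
    have h1 : Measurable fun q : ℝ × (PhasePoint × Par P) => c i q.1 :=
      (hc i).measurable.comp measurable_fst
    have h2 : Measurable fun q : ℝ × (PhasePoint × Par P) => (onLine q.2.1 q.1).1 :=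
      (measurable_onLine2.comp (measurable_snd.fst.prodMk measurable_fst)).fst
    exact (measurableSet_le measurable_fst measurable_const).inter
      (measurableSet_le (h1.dist h2) measurable_const)
  set N : Idx P → ι → ℕ → Set (ℝ × (PhasePoint × Par P)) := fun m i n =>
    {q | ∃ u ∈ Icc 0 (min (q.1 - 1 / ((n : ℝ) + 1)) (min (prot P q.1 q.2.2 m) (S.b i))),
      (if q ∈ A then dist (c i u) (pathM Φ ε P u q.2.1 q.2.2 m).1 else 0) ≤ ε} with hN
  have hNm : ∀ m i n, MeasurableSet (N m i n) := by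
    intro m i n
    have hprot : Measurable fun q : ℝ × (PhasePoint × Par P) => prot P q.1 q.2.2 m :=
      (Tree674.measurable_prot P m).comp (measurable_fst.prodMk measurable_snd.snd)
    refine measurableSet_exists_Icc measurable_const
      ((measurable_fst.sub measurable_const).min (hprot.min measurable_const))
      (g := fun q u => if q ∈ A then dist (c i u) (pathM Φ ε P u q.2.1 q.2.2 m).1 else 0)
      (fun q => ?_) (fun u => ?_) ε
    · by_cases hq : q ∈ A
      · simp only [if_pos hq]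
        have h1 := continuous_path hΦ hε hq.2.1
        have h2 : Continuous fun u => pathM Φ ε P u q.2.1 q.2.2 := by
          have e : (fun u => pathM Φ ε P u q.2.1 q.2.2) = fun u => path Φ ε P q.2.1 q.2.2 u := by
            funext u
            exact pathM_of_adm hΦ ε u hq.2.1.1
          rw [e]
          exact h1
        exact (hc i).dist ((continuous_apply m).comp h2).fst
      · simp only [if_neg hq]
        exact continuous_const
    · have h1 : Measurable fun q : ℝ × (PhasePoint × Par P) =>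
          (pathM Φ ε P u q.2.1 q.2.2 m).1 :=
        ((measurable_pi_apply m).comp
          ((measurable_pathM hΦ ε P).comp (measurable_const.prodMk measurable_snd))).fst
      exact Measurable.ite hAm (measurable_const.dist h1) measurable_const
  have key : {q : ℝ × (PhasePoint × Par P) | (0 < q.1 ∧ q.1 ≤ T) ∧ FirstAt Φ ε P S q.2 q.1} =
      A ∩ (⋃ i, B i) ∩ ⋂ m, ⋂ i, ⋂ n, (N m i n)ᶜ := by
    ext q
    simp only [mem_inter_iff, mem_iUnion, mem_iInter, mem_compl_iff, mem_ofPred_eq]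
    constructor
    · rintro ⟨hq, h⟩
      have hqA : q ∈ A := ⟨hq, h.valid, h.sep⟩
      refine ⟨⟨hqA, ?_⟩, fun m i n => ?_⟩
      · obtain ⟨i, hi, hd⟩ := h.hit
        refine ⟨i, hi, ?_⟩
        rw [hcS i q.1 ⟨hq.1.le, hq.2⟩]
        exact hd
      · rintro ⟨u, hu, hd⟩
        rw [if_pos hqA, pathM_of_adm hΦ ε u h.valid.1] at hd
        have hn : (0 : ℝ) < 1 / ((n : ℝ) + 1) := by positivity
        have h1 : u < q.1 := by
          have := hu.2.trans (min_le_left _ _)
          linarith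
        have h2 : u ≤ prot P q.1 q.2.2 m := hu.2.trans ((min_le_right _ _).trans (min_le_left _ _))
        have h3 : u ≤ S.b i := hu.2.trans ((min_le_right _ _).trans (min_le_right _ _))
        rw [hcS i u ⟨hu.1, h1.le.trans hq.2⟩] at hd
        exact absurd (h.first u ⟨hu.1, h1⟩ m h2 i h3) (not_lt.2 hd)
    · rintro ⟨⟨hqA, i, hi, hd⟩, h⟩
      refine ⟨hqA.1, ⟨hqA.2.1, hqA.2.2, ⟨i, hi, ?_⟩, fun u hu m hm i hi => ?_⟩⟩
      · rw [← hcS i q.1 ⟨hqA.1.1.le, hqA.1.2⟩]
        exact hd
      · by_contra hlt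
        push Not at hlt
        obtain ⟨n, hn⟩ := exists_nat_one_div_lt (sub_pos.2 hu.2)
        refine h m i n ⟨u, ⟨hu.1, le_min (by linarith) (le_min hm hi)⟩, ?_⟩
        rw [if_pos hqA, pathM_of_adm hΦ ε u hqA.2.1.1, hcS i u ⟨hu.1, hu.2.le.trans hqA.1.2⟩]
        exact hlt
  rw [key]
  exact (hAm.inter (MeasurableSet.iUnion hBm)).inter
    (MeasurableSet.iInter fun m => MeasurableSet.iInter fun i => MeasurableSet.iInter fun n =>
      (hNm m i n).compl)

/-! ### The avoidance probability of the family with the tubes of a tree -/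

/-- avoidance probability of the family `S` with the protected tubes of a tree, translated -/
def uT (Φ : Space3 → ℝ) (f₀ : PhasePoint → ℝ) (ε : ℝ) (S : Tubes ι) (P : CTree)
    (σ : ℝ) (z : PhasePoint × Par P) (x : Space3) : ℝ≥0∞ :=
  uG Φ f₀ ε ((S.sum (treeT Φ ε P σ z.1 z.2)).shift x) σ

/-- measurable version of `uT` -/
def uTM (Φ : Space3 → ℝ) (f₀ : PhasePoint → ℝ) (ε T : ℝ) (S : Tubes ι) (P : CTree)
    (q : (ℝ × (PhasePoint × Par P)) × Space3) : ℝ≥0∞ :=
  uG Φ f₀ ε ((S.sum (⟨fun j u => curveM Φ ε P q.1.2.1 q.1.2.2 j u, prot P q.1.1 q.1.2.2⟩ :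
    Tubes (Idx P))).shift q.2) (min q.1.1 T)

theorem uTM_eq {T σ : ℝ} {S : Tubes ι} {z : PhasePoint × Par P} (hσ : σ ≤ T)
    (hz : Adm Φ P z.1.2 z.2) (x : Space3) : uTM Φ f₀ ε T S P ((σ, z), x) = uT Φ f₀ ε S P σ z x := by
  unfold uTM uT
  have h : (⟨fun j u => curveM Φ ε P z.1 z.2 j u, prot P σ z.2⟩ : Tubes (Idx P)) =
      treeT Φ ε P σ z.1 z.2 := by
    unfold treeT
    congr 1
    funext j u
    rw [curveM_of_adm hz]
  simp only [min_eq_left hσ, h]

theorem uT_le_one (hf : Measurable f₀) (h1 : ∫⁻ z, ENNReal.ofReal (f₀ z) ≤ 1) (S : Tubes ι)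
    (σ : ℝ) (z : PhasePoint × Par P) (x : Space3) : uT Φ f₀ ε S P σ z x ≤ 1 :=
  uG_le_one hf h1

theorem uTM_le_one (hf : Measurable f₀) (h1 : ∫⁻ z, ENNReal.ofReal (f₀ z) ≤ 1) (T : ℝ)
    (S : Tubes ι) (q : (ℝ × (PhasePoint × Par P)) × Space3) : uTM Φ f₀ ε T S P q ≤ 1 :=
  uG_le_one hf h1

theorem measurable_uTM [Countable ι] (hf : Measurable f₀) (hΦ : AdmissiblePotential Φ)
    (hε : 0 < ε) {T : ℝ} (hT : 0 ≤ T) {S : Tubes ι} (hS : ∀ i, ContinuousOn (S.c i) (Icc 0 T)) :
    Measurable (uTM Φ f₀ ε T S P) := by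
  have : Countable (Idx P) := Finite.to_countable
  unfold uTM
  refine measurable_uG hf hΦ hε hT (S := fun q : (ℝ × (PhasePoint × Par P)) × Space3 =>
    (S.sum (⟨fun j u => curveM Φ ε P q.1.2.1 q.1.2.2 j u, prot P q.1.1 q.1.2.2⟩ :
    Tubes (Idx P))).shift q.2) (t := fun q => min q.1.1 T) ?_ ?_ ?_ ?_ ?_
  · rintro q (i | j)
    · exact (hS i).add continuousOn_const
    · exact (continuous_curveM hΦ hε P q.1.2.1 q.1.2.2 j).continuousOn.add continuousOn_const
  · rintro (i | j) s
    · exact measurable_const.add measurable_snd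
    · have h1 : Measurable fun q : (ℝ × (PhasePoint × Par P)) × Space3 =>
          curveM Φ ε P q.1.2.1 q.1.2.2 j s :=
        (measurable_curveM hΦ hε P j).comp (measurable_const.prodMk measurable_fst.snd)
      exact h1.add measurable_snd
  · rintro (i | j)
    · exact measurable_const
    · exact (Tree674.measurable_prot P j).comp (measurable_fst.fst.prodMk measurable_fst.snd.snd)
  · exact measurable_fst.fst.min measurable_const
  · exact fun q => min_le_right _ _

/-- for a first good hit, the tubes of helper317 can be replaced by the tubes of helper383 -/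
theorem uG_ptubes (hΦ : AdmissiblePotential Φ) (hε : 0 < ε) {S : Tubes ι}
    {z : PhasePoint × Par P} {σ : ℝ} (hV : Valid Φ ε P σ z.1.2 z.2) (hSep : Sep Φ ε P σ z.1 z.2) :
    uG Φ f₀ ε (S.sum (ptubes Φ ε P z.1 z.2 σ)) σ =
      uG Φ f₀ ε (S.sum (treeT Φ ε P σ z.1 z.2)) σ := by
  refine uG_congr_tubes (Equiv.refl _) ?_ ?_
  · rintro (i | j) <;> rfl
  · rintro (i | j) s hs
    · rfl
    · show (path Φ ε P z.1 z.2 s j).1 = curve Φ ε P z.1 z.2 j s
      exact (curve_eq_path hΦ hε (X := z.1.1) (v := z.1.2) hV hSep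
        ⟨hs.1, hs.2.trans (min_le_right _ _)⟩ j).symm

/-! ### Translation -/

theorem path_add (ε : ℝ) (P : CTree) (ℓ : PhasePoint) (p : Par P) (u : ℝ) (i : Idx P)
    (x : Space3) : path Φ ε P (ℓ.1 + x, ℓ.2) p u i =
      ((path Φ ε P ℓ p u i).1 + x, (path Φ ε P ℓ p u i).2) := by
  have h1 := path_shift (Φ := Φ) ε P (ℓ.1 + x) ℓ.2 p u i
  have h2 := path_shift (Φ := Φ) ε P ℓ.1 ℓ.2 p u i
  have h3 : path Φ ε P ℓ p u i = path Φ ε P (ℓ.1, ℓ.2) p u i := rfl
  rw [h1, h3, h2]
  simp only [add_assoc]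

theorem lines_add (ε : ℝ) (P : CTree) (ℓ : PhasePoint) (p : Par P) (i : Idx P)
    (x : Space3) : lines Φ ε P (ℓ.1 + x, ℓ.2) p i =
      ((lines Φ ε P ℓ p i).1 + x, (lines Φ ε P ℓ p i).2) := by
  have h1 := lines_shift (Φ := Φ) ε P (ℓ.1 + x) ℓ.2 p i
  have h2 := lines_shift (Φ := Φ) ε P ℓ.1 ℓ.2 p i
  have h3 : lines Φ ε P ℓ p i = lines Φ ε P (ℓ.1, ℓ.2) p i := rfl
  rw [h1, h3, h2]
  simp only [add_assoc]

theorem curve_add (hΦ : AdmissiblePotential Φ) (hε : 0 < ε) (P : CTree) (ℓ : PhasePoint)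
    (p : Par P) (i : Idx P) (s : ℝ) (x : Space3) :
    curve Φ ε P (ℓ.1 + x, ℓ.2) p i s = curve Φ ε P ℓ p i s + x := by
  have h1 := curve_shift hΦ hε P (ℓ.1 + x) ℓ.2 p i s
  have h2 := curve_shift hΦ hε P ℓ.1 ℓ.2 p i s
  have h3 : curve Φ ε P ℓ p i s = curve Φ ε P (ℓ.1, ℓ.2) p i s := rfl
  rw [h1, h3, h2, add_assoc]

theorem firstAt_add {S : Tubes ι} {z : PhasePoint × Par P} {σ : ℝ} (x : Space3) :
    FirstAt Φ ε P (S.shift x) ((z.1.1 + x, z.1.2), z.2) σ ↔ FirstAt Φ ε P S z σ := by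
  have hd : ∀ i u m, dist ((S.shift x).c i u) (path Φ ε P (z.1.1 + x, z.1.2) z.2 u m).1 =
      dist (S.c i u) (path Φ ε P z.1 z.2 u m).1 := by
    intro i u m
    rw [path_add]
    exact dist_add_right _ _ _
  have ho : ∀ i u, dist ((S.shift x).c i u) (onLine (z.1.1 + x, z.1.2) u).1 =
      dist (S.c i u) (onLine z.1 u).1 := by
    intro i u
    have : (onLine (z.1.1 + x, z.1.2) u).1 = (onLine z.1 u).1 + x :=
      add_right_comm z.1.1 x (u • z.1.2)
    rw [this]
    exact dist_add_right _ _ _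
  have hs : Sep Φ ε P σ (z.1.1 + x, z.1.2) z.2 ↔ Sep Φ ε P σ z.1 z.2 := by
    have h1 := sep_shift (Φ := Φ) (ε := ε) (T := σ) (P := P) (v := z.1.2) (p := z.2) (z.1.1 + x)
    have h2 := sep_shift (Φ := Φ) (ε := ε) (T := σ) (P := P) (v := z.1.2) (p := z.2) z.1.1
    exact h1.trans h2.symm
  constructor
  · rintro ⟨h1, h2, ⟨i, h3, h4⟩, h5⟩
    refine ⟨h1, hs.1 h2, ⟨i, h3, ?_⟩, fun u hu m hm i hi => ?_⟩
    · rw [← ho]; exact h4
    · rw [← hd]; exact h5 u hu m hm i hi
  · rintro ⟨h1, h2, ⟨i, h3, h4⟩, h5⟩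
    refine ⟨h1, hs.2 h2, ⟨i, h3, ?_⟩, fun u hu m hm i hi => ?_⟩
    · rw [ho]; exact h4
    · rw [hd]; exact h5 u hu m hm i hi

theorem sigHit_add {S : Tubes ι} {z : PhasePoint × Par P} (x : Space3) :
    sigHit Φ ε P (S.shift x) ((z.1.1 + x, z.1.2), z.2) = sigHit Φ ε P S z := by
  unfold sigHit
  congr 1
  ext s
  simp only [mem_ofPred_eq]
  refine and_congr_right fun _ => exists_congr fun i => and_congr_right fun _ => ?_
  rw [path_add]
  have : dist ((S.shift x).c i s) ((path Φ ε P z.1 z.2 s (root P)).1 + x,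
      (path Φ ε P z.1 z.2 s (root P)).2).1 = dist (S.c i s) (path Φ ε P z.1 z.2 s (root P)).1 :=
    dist_add_right _ _ _
  rw [this]

/-- **The mass of first good hits** in coordinates relative to the translation. -/
theorem Hgh_eq (hΦ : AdmissiblePotential Φ) (hε : 0 < ε) (S : Tubes ι) (tw t : ℝ) (x : Space3) :
    Hgh Φ f₀ ε P (S.shift x) tw t = activity ε * ∫⁻ z : PhasePoint × Par P,
      if sigHit Φ ε P S z ∈ Ico tw t ∧ 0 < sigHit Φ ε P S z ∧
        FirstAt Φ ε P S z (sigHit Φ ε P S z) then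
      wt Φ P z.1.2 z.2 * ((∏ j, ENNReal.ofReal (f₀ ((lines Φ ε P z.1 z.2 j).1 + x,
        (lines Φ ε P z.1 z.2 j).2))) * uT Φ f₀ ε S P (sigHit Φ ε P S z) z x)
      else 0 := by
  unfold Hgh
  congr 1
  have hmp : MeasurePreserving (fun z : PhasePoint × Par P => ((z.1.1 + x, z.1.2), z.2)) :=
    ((measurePreserving_add_right (volume : Measure Space3) x).prod
      (MeasurePreserving.id (volume : Measure Space3))).prod
      (MeasurePreserving.id (volume : Measure (Par P)))
  have hemb : MeasurableEmbedding (fun z : PhasePoint × Par P => ((z.1.1 + x, z.1.2), z.2)) :=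
    (((MeasurableEquiv.addRight x).prodCongr (MeasurableEquiv.refl Space3)).prodCongr
      (MeasurableEquiv.refl (Par P))).measurableEmbedding
  rw [← hmp.lintegral_comp_emb hemb]
  refine lintegral_congr fun z => ?_
  simp only [sigHit_add, firstAt_add]
  by_cases h : sigHit Φ ε P S z ∈ Ico tw t ∧ 0 < sigHit Φ ε P S z ∧
        FirstAt Φ ε P S z (sigHit Φ ε P S z)
  · rw [if_pos h, if_pos h]
    congr 1
    congr 1
    · refine Finset.prod_congr rfl fun j _ => ?_
      rw [lines_add]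
    · have h1 := uG_ptubes (f₀ := f₀) hΦ hε (S := S.shift x)
        (z := ((z.1.1 + x, z.1.2), z.2)) ((firstAt_add x).2 h.2.2).valid
        ((firstAt_add x).2 h.2.2).sep
      refine h1.trans ?_
      unfold uT
      congr 1
      have hc : ∀ j u, curve Φ ε P (z.1.1 + x, z.1.2) z.2 j u = curve Φ ε P z.1 z.2 j u + x :=
        fun j u => curve_add hΦ hε P z.1 z.2 j u x
      unfold Tubes.sum Tubes.shift treeT
      simp only [hc]
      congr 1
      funext k
      rcases k with i | j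
      · rfl
      · rfl
  · rw [if_neg h, if_neg h]

end Crest.Agent.R122.Tube818
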