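import Crest.Agent.R122.FirstAt_491
import Crest.Agent.R122.Tube3_818
import Crest.Agent.R122.TreeLim_974

/-!
Row 122, block F (helper491): dominated convergence for the weights of the hitting trees
(second half of (I2); the first half, the change of variables, is due to helper818).

* `hL` : the root line of a hit at radius `ε`;
* `wE`, `w0` : weights of the hits in the sets `A`, at radius `ε` and in the limit;
* `wE_le`, `w0_le`, `domD` : domination, uniform in `ε`, `k` and the translation;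
* `tendsto_wE` : the limit.
-/

set_option autoImplicit false
set_option maxHeartbeats 400000

open MeasureTheory Set Filter
open scoped ENNReal Topology Classical RealInnerProductSpace NNReal
open Crest.AnalysisR.Kinetic

noncomputable section

namespace Crest.Agent.R122.FluxDCT491

open Kin796 Kin796.CTree Disc416 Tree674 TreeEps399 Hid424 Generic491 GIV566 GIVStep383 IStep317
  TubeChild491 Tube818 TreeDom974 TreeLim974
open Crest.Agent.R122.Quench815 (absd absd_comm absd_self le_add_absd le_add_absd' absd_le_add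
  absd_le_iff absd_triangle absd_mul_le measurable_absd absd_lintegral_le)

variable {Φ : Space3 → ℝ} {ι : Type} {P : CTree}

/-! ### Definitions -/

/-- the root line of a hit at radius `ε` -/
def hL (ε : ℝ) (Sk S : Tubes ι) (i : ι) (θ : HPar P) : PhasePoint :=
  rootL ε (Sk.c i θ.1) (deriv (S.c i) θ.1) θ.1 θ.2.1 θ.2.2.1

/-- weight of a hit -/
def wE (Φ : Space3 → ℝ) (k : PhasePoint → ℝ≥0∞) (ε : ℝ) (Sk S : Tubes ι) (i : ι)
    (A : Set (HPar P)) (θ : HPar P) (x : Space3) : ℝ≥0∞ :=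
  A.indicator (fun θ => ENNReal.ofReal ‖θ.2.1 - deriv (S.c i) θ.1‖ * (wt Φ P θ.2.1 θ.2.2.2 *
    ∏ j, k ((lines Φ ε P (hL ε Sk S i θ) θ.2.2.2 j).1 + x,
      (lines Φ ε P (hL ε Sk S i θ) θ.2.2.2 j).2))) θ

/-- box of the parameters -/
def Bx (T : ℝ) (P : CTree) : Set (HPar P) := {θ | θ.1 ∈ Icc 0 T ∧ ‖θ.2.2.1‖ < 1}

theorem measurableSet_Bx (T : ℝ) (P : CTree) : MeasurableSet (Bx T P) :=
  (measurable_fst measurableSet_Icc).inter
    (measurableSet_lt measurable_snd.snd.fst.norm measurable_const)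

theorem hL_snd (ε : ℝ) (Sk S : Tubes ι) (i : ι) (θ : HPar P) : (hL ε Sk S i θ).2 = θ.2.1 := rfl

theorem hL_zero (Sk S : Tubes ι) (i : ι) (θ : HPar P) :
    hL 0 Sk S i θ = (Sk.c i θ.1 - θ.1 • θ.2.1, θ.2.1) := rootL_zero _ _ _ _ _

/-- the limiting weight of helper383 -/
theorem wgt_eq (f₀ : PhasePoint → ℝ) (tw t : ℝ) (S : Tubes ι) (i : ι) (θ : HPar P) (x : Space3) :
    wgt Φ f₀ tw t S i θ x =
      wE Φ (fun z => ENNReal.ofReal (f₀ z)) 0 S S i {θ | HGood Φ tw t S i θ} θ x := by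
  unfold wgt wE
  by_cases h : HGood Φ tw t S i θ
  · rw [if_pos h, indicator_of_mem (show θ ∈ {θ | HGood Φ tw t S i θ} from h)]
    congr 2
    refine Finset.prod_congr rfl fun j _ => ?_
    congr 2
    have e : ((S.c i θ.1 + x - θ.1 • θ.2.1, θ.2.1) : PhasePoint) =
        ((hL 0 S S i θ).1 + x, (hL 0 S S i θ).2) := by
      rw [hL_zero]
      exact Prod.ext (by simp only; abel) rfl
    rw [e, lines_add]
  · rw [if_neg h, indicator_of_notMem (show θ ∉ {θ | HGood Φ tw t S i θ} from h)]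

/-! ### Domination -/

/-- dominating function -/
def domD (C b T : ℝ) (P : CTree) (θ : HPar P) : ℝ≥0∞ :=
  (Bx T P).indicator (fun θ => domG C b T P θ.2.1 θ.2.2.2) θ

theorem measurable_domD {C : ℝ} (hC : 0 ≤ C) (b T : ℝ) (P : CTree) :
    Measurable (domD C b T P) :=
  ((measurable_domG hC b T P).comp
    (measurable_snd.fst.prodMk measurable_snd.snd.snd)).indicator (measurableSet_Bx T P)

theorem lintegral_domD_ne_top {C b : ℝ} (hC : 0 ≤ C) (hb : 0 < b) (T : ℝ) (P : CTree) :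
    ∫⁻ θ : HPar P, domD C b T P θ ≠ ∞ := by
  have hm := measurable_domG hC b T P
  rw [lintegral_hpar (measurable_domD hC b T P)]
  have e : ∀ (s : ℝ) (v : Space3) (y : Disc416.Plane) (p : Par P), domD C b T P (s, v, y, p) =
      (Icc 0 T).indicator (1 : ℝ → ℝ≥0∞) s * ((Metric.ball (0 : Disc416.Plane) 1).indicator
        (1 : Disc416.Plane → ℝ≥0∞) y * domG C b T P v p) := by
    intro s v y p
    unfold domD
    by_cases hs : s ∈ Icc 0 T
    · by_cases hy : ‖y‖ < 1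
      · rw [indicator_of_mem (show ((s, v, y, p) : HPar P) ∈ Bx T P from ⟨hs, hy⟩),
          indicator_of_mem hs, indicator_of_mem (by simpa using hy)]
        simp
      · rw [indicator_of_notMem (show ((s, v, y, p) : HPar P) ∉ Bx T P from fun h => hy h.2),
          indicator_of_notMem (show y ∉ Metric.ball (0 : Disc416.Plane) 1 by simpa using hy)]
        simp
    · rw [indicator_of_notMem (show ((s, v, y, p) : HPar P) ∉ Bx T P from fun h => hs h.1),
        indicator_of_notMem hs]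
      simp
  simp only [e]
  have m1 : ∀ v : Space3, Measurable fun p : Par P => domG C b T P v p := fun v =>
    hm.comp (measurable_const.prodMk measurable_id)
  have m2 : Measurable fun v : Space3 => ∫⁻ p : Par P, domG C b T P v p :=
    hm.lintegral_prod_right'
  have e1 : ∀ (s : ℝ) (v : Space3) (y : Disc416.Plane), ∫⁻ p : Par P,
      (Icc 0 T).indicator (1 : ℝ → ℝ≥0∞) s * ((Metric.ball (0 : Disc416.Plane) 1).indicator
        (1 : Disc416.Plane → ℝ≥0∞) y * domG C b T P v p) =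
      (Icc 0 T).indicator (1 : ℝ → ℝ≥0∞) s * ((Metric.ball (0 : Disc416.Plane) 1).indicator
        (1 : Disc416.Plane → ℝ≥0∞) y * ∫⁻ p : Par P, domG C b T P v p) := by
    intro s v y
    rw [lintegral_const_mul _ ((m1 v).const_mul _), lintegral_const_mul _ (m1 v)]
  simp only [e1]
  have m3 : Measurable ((Metric.ball (0 : Disc416.Plane) 1).indicator
      (1 : Disc416.Plane → ℝ≥0∞)) := measurable_one.indicator measurableSet_ball
  have e2 : ∀ (s : ℝ) (v : Space3), ∫⁻ y : Disc416.Plane,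
      (Icc 0 T).indicator (1 : ℝ → ℝ≥0∞) s * ((Metric.ball (0 : Disc416.Plane) 1).indicator
        (1 : Disc416.Plane → ℝ≥0∞) y * ∫⁻ p : Par P, domG C b T P v p) =
      (Icc 0 T).indicator (1 : ℝ → ℝ≥0∞) s * (volume (Metric.ball (0 : Disc416.Plane) 1) *
        ∫⁻ p : Par P, domG C b T P v p) := by
    intro s v
    rw [lintegral_const_mul _ (m3.mul_const _), lintegral_mul_const _ m3,
      lintegral_indicator_one measurableSet_ball]
  simp only [e2]
  have e3 : ∀ (s : ℝ), ∫⁻ v : Space3,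
      (Icc 0 T).indicator (1 : ℝ → ℝ≥0∞) s * (volume (Metric.ball (0 : Disc416.Plane) 1) *
        ∫⁻ p : Par P, domG C b T P v p) =
      (Icc 0 T).indicator (1 : ℝ → ℝ≥0∞) s * (volume (Metric.ball (0 : Disc416.Plane) 1) *
        ∫⁻ v : Space3, ∫⁻ p : Par P, domG C b T P v p) := by
    intro s
    rw [lintegral_const_mul _ (m2.const_mul _), lintegral_const_mul _ m2]
  simp only [e3]
  rw [lintegral_mul_const _ (measurable_one.indicator measurableSet_Icc),
    lintegral_indicator_one measurableSet_Icc]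
  refine ENNReal.mul_ne_top (by simp) (ENNReal.mul_ne_top measure_ball_lt_top.ne ?_)
  have h1 := lintegral_domG_ne_top hC hb T P
  rwa [show (∫⁻ z : Space3 × Par P, domG C b T P z.1 z.2) =
    ∫⁻ v : Space3, ∫⁻ p : Par P, domG C b T P v p from by
      rw [Measure.volume_eq_prod, lintegral_prod _ hm.aemeasurable]] at h1

/-- one more factor `‖v - V‖` is absorbed by the Gaussian -/
theorem norm_mul_domG_le {C b b' M : ℝ} (hC : 0 ≤ C) (hM : 0 ≤ M) (hb : b' < b) (T : ℝ)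
    (P : CTree) :
    ∃ C' : ℝ, 0 ≤ C' ∧ ∀ (v V : Space3) (p : Par P), ‖V‖ ≤ M →
      ENNReal.ofReal ‖v - V‖ * domG C b T P v p ≤ domG C' b' T P v p := by
  set δ := b - b' with hδdef
  have hδ : 0 < δ := sub_pos.2 hb
  refine ⟨(1 + M) * (1 / δ * Real.exp δ) * C, by positivity, fun v V p hV => ?_⟩
  set E := ‖v‖ ^ 2 + nodeE P p with hE
  have hn := nodeE_nonneg P p
  have hE0 : 0 ≤ E := by positivity
  have h1 : ‖v - V‖ ≤ (1 + M) * (1 + E) := by
    have e1 : ‖v - V‖ ≤ ‖v‖ + ‖V‖ := norm_sub_le v V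
    have e2 : ‖v‖ ≤ 1 + ‖v‖ ^ 2 := by nlinarith [sq_nonneg (‖v‖ - 1), sq_nonneg (‖v‖ - 1 / 2)]
    have e3 : ‖v‖ ^ 2 ≤ E := by rw [hE]; linarith
    nlinarith [mul_nonneg hM hE0]
  have h2 : 1 + E ≤ (1 / δ * Real.exp δ) * Real.exp (δ * E) := by
    have := one_add_pow_le hδ hE0 1
    simpa using this
  unfold domG
  rw [← hE]
  calc ENNReal.ofReal ‖v - V‖ * (boxI T P p * ENNReal.ofReal (C * Real.exp (-b * E)))
      = boxI T P p * (ENNReal.ofReal ‖v - V‖ * ENNReal.ofReal (C * Real.exp (-b * E))) := by ring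
    _ = boxI T P p * ENNReal.ofReal (‖v - V‖ * (C * Real.exp (-b * E))) := by
        rw [ENNReal.ofReal_mul (norm_nonneg _)]
    _ ≤ boxI T P p * ENNReal.ofReal ((1 + M) * (1 / δ * Real.exp δ) * C * Real.exp (-b' * E)) := by
        refine mul_le_mul' le_rfl (ENNReal.ofReal_le_ofReal ?_)
        have h4 : Real.exp (-b' * E) = Real.exp (δ * E) * Real.exp (-b * E) := by
          rw [← Real.exp_add]; congr 1; rw [hδdef]; ring
        rw [h4]
        have h5 : ‖v - V‖ ≤ (1 + M) * ((1 / δ * Real.exp δ) * Real.exp (δ * E)) :=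
          h1.trans (mul_le_mul_of_nonneg_left h2 (by positivity))
        calc ‖v - V‖ * (C * Real.exp (-b * E))
            ≤ ((1 + M) * ((1 / δ * Real.exp δ) * Real.exp (δ * E))) * (C * Real.exp (-b * E)) :=
              mul_le_mul_of_nonneg_right h5 (by positivity)
          _ = _ := by ring

/-- **Domination of the weights**, uniform in `ε`, in the families and in the translation. -/
theorem wE_le_aux (hΦ : AdmissiblePotential Φ) {C b b' M : ℝ} (hC : 0 ≤ C) (hM : 0 ≤ M)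
    (hb : b' < b) {k : PhasePoint → ℝ≥0∞}
    (hk : ∀ z, k z ≤ ENNReal.ofReal (C * Real.exp (-b * ‖z.2‖ ^ 2))) (T : ℝ) (P : CTree) :
    ∃ C' : ℝ, 0 ≤ C' ∧ ∀ (ε : ℝ) (ι : Type) (Sk S : Tubes ι) (i : ι) (A : Set (HPar P))
      (θ : HPar P) (x : Space3), 0 ≤ ε →
      (θ ∈ A → θ ∈ Bx T P ∧ Valid Φ ε P θ.1 θ.2.1 θ.2.2.2 ∧ ‖deriv (S.c i) θ.1‖ ≤ M) →
      wE Φ k ε Sk S i A θ x ≤ domD C' b' T P θ := by
  set b1 := (b + b') / 2 with hb1
  have hb2 : b1 < b := by rw [hb1]; linarith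
  have hb3 : b' < b1 := by rw [hb1]; linarith
  obtain ⟨C1, hC1, h1⟩ := le_domG hΦ hC hb2 hk P
  obtain ⟨C2, hC2, h2⟩ := norm_mul_domG_le hC1 hM hb3 T P
  refine ⟨C2, hC2, fun ε ι Sk S i A θ x hε hA => ?_⟩
  unfold wE
  by_cases h : θ ∈ A
  swap
  · rw [indicator_of_notMem h]; exact bot_le
  obtain ⟨hB, hV, hM'⟩ := hA h
  rw [indicator_of_mem h]
  unfold domD
  rw [indicator_of_mem hB]
  refine le_trans ?_ (h2 θ.2.1 (deriv (S.c i) θ.1) θ.2.2.2 hM')
  refine mul_le_mul' le_rfl ?_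
  have h3 := h1 ε T θ.1 ((hL ε Sk S i θ).1 + x, (hL ε Sk S i θ).2) θ.2.2.2 hε hB.1.2 hV
  refine le_trans (le_of_eq ?_) h3
  congr 1
  refine Finset.prod_congr rfl fun j _ => ?_
  rw [lines_add]

/-! ### Measurability -/

theorem measurable_rootL (ε : ℝ) :
    Measurable fun q : (Space3 × Space3) × (ℝ × Space3 × Disc416.Plane) =>
      rootL ε q.1.1 q.1.2 q.2.1 q.2.2.1 q.2.2.2 := by
  have hg : Measurable fun q : (Space3 × Space3) × (ℝ × Space3 × Disc416.Plane) =>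
      q.2.2.1 - q.1.2 := by fun_prop
  have h1 : Measurable fun q : (Space3 × Space3) × (ℝ × Space3 × Disc416.Plane) =>
      Disc416.frameMap (q.2.2.1 - q.1.2) q.2.2.2 :=
    measurable_frameMap.comp (hg.prodMk (by fun_prop))
  have h2 : Measurable fun q : (Space3 × Space3) × (ℝ × Space3 × Disc416.Plane) =>
      entrancePoint (Disc416.frameMap (q.2.2.1 - q.1.2) q.2.2.2) (q.2.2.1 - q.1.2) :=
    measurable_entrancePoint.comp (h1.prodMk hg)
  unfold rootL
  refine Measurable.prodMk ?_ (by fun_prop)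
  exact ((by fun_prop : Measurable fun q : (Space3 × Space3) × (ℝ × Space3 × Disc416.Plane) =>
    q.1.1).add (h2.const_smul ε)).sub ((by fun_prop :
      Measurable fun q : (Space3 × Space3) × (ℝ × Space3 × Disc416.Plane) => q.2.1).smul
      (by fun_prop : Measurable fun q : (Space3 × Space3) × (ℝ × Space3 × Disc416.Plane) =>
        q.2.2.1))

/-- a curve continuous on `[0, T]` is the restriction of a measurable one -/
theorem exists_meas_curve {T : ℝ} (hT : 0 ≤ T) {c : ℝ → Space3} (hc : ContinuousOn c (Icc 0 T)) :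
    ∃ x : ℝ → Space3, Continuous x ∧ ∀ s ∈ Icc 0 T, x s = c s := by
  refine ⟨fun s => c (projIcc 0 T hT s), ?_, fun s hs => ?_⟩
  · exact hc.comp_continuous (continuous_subtype_val.comp continuous_projIcc)
      fun s => (projIcc 0 T hT s).2
  · simp only
    rw [projIcc_of_mem hT hs]

/-- measurable version of `hL` -/
theorem exists_hL (ε : ℝ) {T : ℝ} (hT : 0 ≤ T) {Sk : Tubes ι} (S : Tubes ι) (i : ι)
    (hc : ContinuousOn (Sk.c i) (Icc 0 T)) (P : CTree) :
    ∃ h : HPar P → PhasePoint, Measurable h ∧ (∀ θ, (h θ).2 = θ.2.1) ∧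
      ∀ θ : HPar P, θ.1 ∈ Icc 0 T → h θ = hL ε Sk S i θ := by
  obtain ⟨x, hx, hxe⟩ := exists_meas_curve hT hc
  refine ⟨fun θ => rootL ε (x θ.1) (deriv (S.c i) θ.1) θ.1 θ.2.1 θ.2.2.1, ?_, fun θ => rfl,
    fun θ hθ => ?_⟩
  · have h1 : Measurable fun θ : HPar P =>
        (((x θ.1, deriv (S.c i) θ.1), (θ.1, θ.2.1, θ.2.2.1)) :
          (Space3 × Space3) × (ℝ × Space3 × Disc416.Plane)) :=
      ((hx.measurable.comp measurable_fst).prodMk
        ((measurable_deriv (S.c i)).comp measurable_fst)).prodMk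
        (measurable_fst.prodMk (measurable_snd.fst.prodMk measurable_snd.snd.fst))
    exact (measurable_rootL ε).comp h1
  · simp only [hL]
    rw [hxe θ.1 hθ]

theorem measurable_wE (hΦ : AdmissiblePotential Φ) {k : PhasePoint → ℝ≥0∞} (hk : Measurable k)
    (ε : ℝ) {T : ℝ} (hT : 0 ≤ T) {Sk S : Tubes ι} {i : ι} (hc : ContinuousOn (Sk.c i) (Icc 0 T))
    {A : Set (HPar P)} (hA : MeasurableSet A)
    (hAd : ∀ θ ∈ A, θ.1 ∈ Icc 0 T ∧ Adm Φ P θ.2.1 θ.2.2.2) :
    Measurable fun q : Space3 × HPar P => wE Φ k ε Sk S i A q.2 q.1 := by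
  obtain ⟨h, hm, h2, he⟩ := exists_hL ε hT S i hc P
  have hP : Measurable fun q : Space3 × HPar P => q.2.2.2.2 := measurable_snd.snd.snd.snd
  have hv : Measurable fun q : Space3 × HPar P => q.2.2.1 := measurable_snd.snd.fst
  have hl : Measurable fun q : Space3 × HPar P => linesM Φ ε P (h q.2) q.2.2.2.2 :=
    (measurable_linesM hΦ ε P).comp ((hm.comp measurable_snd).prodMk hP)
  have hfun : Measurable fun q : Space3 × HPar P =>
      ENNReal.ofReal ‖q.2.2.1 - deriv (S.c i) q.2.1‖ * (wtM Φ P q.2.2.1 q.2.2.2.2 *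
        ∏ j, k ((linesM Φ ε P (h q.2) q.2.2.2.2 j).1 + q.1,
          (linesM Φ ε P (h q.2) q.2.2.2.2 j).2)) := by
    refine Measurable.mul ?_ (Measurable.mul ?_ ?_)
    · exact (hv.sub ((measurable_deriv (S.c i)).comp measurable_snd.fst)).norm.ennreal_ofReal
    · exact (measurable_wtM hΦ P).comp (hv.prodMk hP)
    · refine Finset.measurable_prod _ fun j _ => hk.comp ?_
      have hj := (measurable_pi_apply j).comp hl
      exact (hj.fst.add measurable_fst).prodMk hj.snd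
  have e : (fun q : Space3 × HPar P => wE Φ k ε Sk S i A q.2 q.1) =
      (Prod.snd ⁻¹' A).indicator (fun q : Space3 × HPar P =>
      ENNReal.ofReal ‖q.2.2.1 - deriv (S.c i) q.2.1‖ * (wtM Φ P q.2.2.1 q.2.2.2.2 *
        ∏ j, k ((linesM Φ ε P (h q.2) q.2.2.2.2 j).1 + q.1,
          (linesM Φ ε P (h q.2) q.2.2.2.2 j).2))) := by
    funext q
    unfold wE
    by_cases hq : q.2 ∈ A
    · rw [indicator_of_mem hq, indicator_of_mem (show q ∈ Prod.snd ⁻¹' A from hq)]
      obtain ⟨h3, h4⟩ := hAd _ hq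
      rw [wtM_of_adm h4, linesM_of_adm ε (by rw [h2]; exact h4), he _ h3]
    · rw [indicator_of_notMem hq, indicator_of_notMem (show q ∉ Prod.snd ⁻¹' A from hq)]
  rw [e]
  exact hfun.indicator (measurable_snd hA)

/-! ### Pointwise limit -/

theorem tendsto_kprod {εk : ℕ → ℝ} (hε : Tendsto εk atTop TreeEps399.L)
    {k : PhasePoint → ℝ≥0∞} (hk : Continuous k) (hk1 : ∀ z, k z ≠ ∞) (P : CTree) (v : Space3)
    (p : Par P) {X : ℕ → Space3} {X0 : Space3} (hX : Tendsto X atTop (𝓝 X0)) (x : Space3) :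
    Tendsto (fun n => ∏ j, k ((lines Φ (εk n) P (X n, v) p j).1 + x,
      (lines Φ (εk n) P (X n, v) p j).2)) atTop
      (𝓝 (∏ j, k ((lines Φ 0 P (X0, v) p j).1 + x, (lines Φ 0 P (X0, v) p j).2))) := by
  have h1 : ∀ j : Idx P, Tendsto (fun n => k ((lines Φ (εk n) P (X n, v) p j).1 + x,
      (lines Φ (εk n) P (X n, v) p j).2)) atTop
      (𝓝 (k ((lines Φ 0 P (X0, v) p j).1 + x, (lines Φ 0 P (X0, v) p j).2))) := by
    intro j
    obtain ⟨h2, h3⟩ := lines_close (Φ := Φ) P v p (fun _ => 0) 0 tendsto_const_nhds j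
    have h4 : Tendsto (fun n => lines Φ (εk n) P (X n, v) p j) atTop
        (𝓝 (lines Φ 0 P (X0, v) p j)) := by
      have e1 : (fun n => lines Φ (εk n) P (X n, v) p j) = fun n =>
          ((lines Φ (εk n) P (0, v) p j).1 + X n, (lines Φ 0 P (0, v) p j).2) := by
        funext n
        rw [Hid424.lines_shift (εk n) P (X n) v p j]
        exact Prod.ext rfl (h3 _)
      rw [e1, Hid424.lines_shift 0 P X0 v p j]
      exact ((h2.comp hε).add hX).prodMk_nhds tendsto_const_nhds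
    have h5 : Tendsto (fun n => (((lines Φ (εk n) P (X n, v) p j).1 + x,
        (lines Φ (εk n) P (X n, v) p j).2) : PhasePoint)) atTop
        (𝓝 ((lines Φ 0 P (X0, v) p j).1 + x, (lines Φ 0 P (X0, v) p j).2)) := by
      have hc : Continuous fun z : PhasePoint => ((z.1 + x, z.2) : PhasePoint) := by fun_prop
      exact (hc.tendsto _).comp h4
    exact (hk.tendsto _).comp h5
  have h5 : ∀ s : Finset (Idx P), Tendsto (fun n => ∏ j ∈ s,
      k ((lines Φ (εk n) P (X n, v) p j).1 + x, (lines Φ (εk n) P (X n, v) p j).2)) atTop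
      (𝓝 (∏ j ∈ s, k ((lines Φ 0 P (X0, v) p j).1 + x, (lines Φ 0 P (X0, v) p j).2))) := by
    intro s
    induction s using Finset.induction_on with
    | empty => simp
    | insert i s hi ih =>
      simp only [Finset.prod_insert hi]
      exact ENNReal.Tendsto.mul (h1 i) (Or.inr (ENNReal.prod_ne_top fun j _ => hk1 _)) ih
        (Or.inr (hk1 _))
  exact h5 Finset.univ

/-- convergence of the root lines of the hits -/
theorem tendsto_hL {T : ℝ} {εk : ℕ → ℝ} (hlim : Tendsto εk atTop (𝓝 0)) {Sk : ℕ → Tubes ι}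
    {S : Tubes ι} (hconv : TubeConv T Sk S) (i : ι) {θ : HPar P} (hθ : θ.1 ∈ Icc 0 T) :
    Tendsto (fun n => (hL (εk n) (Sk n) S i θ).1) atTop (𝓝 (hL 0 S S i θ).1) := by
  have h1 : Tendsto (fun n => εk n • entrancePoint
      (Disc416.frameMap (θ.2.1 - deriv (S.c i) θ.1) θ.2.2.1) (θ.2.1 - deriv (S.c i) θ.1)) atTop
      (𝓝 0) := by
    have := hlim.smul_const (entrancePoint
      (Disc416.frameMap (θ.2.1 - deriv (S.c i) θ.1) θ.2.2.1) (θ.2.1 - deriv (S.c i) θ.1))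
    rwa [zero_smul] at this
  have h2 : Tendsto (fun n => (Sk n).c i θ.1) atTop (𝓝 (S.c i θ.1)) :=
    (hconv.curves i).tendsto_at hθ
  have h3 := (h2.add h1).sub_const (θ.1 • θ.2.1)
  rw [add_zero] at h3
  rw [hL_zero]
  exact h3

/-- **Pointwise limit of the weights.** -/
theorem tendsto_wE_pt {T : ℝ} {εk : ℕ → ℝ} (hε : Tendsto εk atTop TreeEps399.L)
    {k : PhasePoint → ℝ≥0∞} (hk : Continuous k) (hk1 : ∀ z, k z ≠ ∞) {Sk : ℕ → Tubes ι}
    {S : Tubes ι} (hconv : TubeConv T Sk S) (i : ι) {A : ℕ → Set (HPar P)} {A0 : Set (HPar P)}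
    {θ : HPar P} (hθ : θ ∈ A0 → θ.1 ∈ Icc 0 T) (h1 : θ ∈ A0 → ∀ᶠ n in atTop, θ ∈ A n)
    (h2 : θ ∉ A0 → ∀ᶠ n in atTop, θ ∉ A n) (x : Space3) :
    Tendsto (fun n => wE Φ k (εk n) (Sk n) S i (A n) θ x) atTop
      (𝓝 (wE Φ k 0 S S i A0 θ x)) := by
  by_cases h : θ ∈ A0
  · have h3 := tendsto_kprod (Φ := Φ) hε hk hk1 P θ.2.1 θ.2.2.2
      (tendsto_hL (hε.mono_right nhdsWithin_le_nhds) hconv i (hθ h)) x
    have h4 := ENNReal.Tendsto.const_mul (a := ENNReal.ofReal ‖θ.2.1 - deriv (S.c i) θ.1‖ *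
      wt Φ P θ.2.1 θ.2.2.2) h3 (Or.inr (ENNReal.mul_ne_top ENNReal.ofReal_ne_top
        (wt_ne_top P _ _)))
    have e0 : wE Φ k 0 S S i A0 θ x = ENNReal.ofReal ‖θ.2.1 - deriv (S.c i) θ.1‖ *
        wt Φ P θ.2.1 θ.2.2.2 * ∏ j, k ((lines Φ 0 P ((hL 0 S S i θ).1, θ.2.1) θ.2.2.2 j).1 + x,
          (lines Φ 0 P ((hL 0 S S i θ).1, θ.2.1) θ.2.2.2 j).2) := by
      unfold wE
      rw [indicator_of_mem h, mul_assoc]
      rfl
    rw [e0]
    refine h4.congr' ?_
    filter_upwards [h1 h] with n hn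
    unfold wE
    rw [indicator_of_mem hn, mul_assoc]
    rfl
  · have e0 : wE Φ k 0 S S i A0 θ x = 0 := indicator_of_notMem h _
    rw [e0]
    refine tendsto_const_nhds.congr' ?_
    filter_upwards [h2 h] with n hn
    exact (indicator_of_notMem hn _).symm

/-! ### Dominated convergence -/

/-- **Dominated convergence for the weights of the hits**, integrated in the translation against a
finite measure. -/
theorem tendsto_wE (hΦ : AdmissiblePotential Φ) {T : ℝ} (hT : 0 ≤ T) {εk : ℕ → ℝ}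
    (hε0 : ∀ n, 0 < εk n) (hlim : Tendsto εk atTop (𝓝 0))
    {C b : ℝ} (hC : 0 ≤ C) (hb : 0 < b) {k : PhasePoint → ℝ≥0∞} (hkc : Continuous k)
    (hk : ∀ z, k z ≤ ENNReal.ofReal (C * Real.exp (-b * ‖z.2‖ ^ 2))) {Sk : ℕ → Tubes ι}
    {S : Tubes ι} (hconv : TubeConv T Sk S) (i : ι) {A : ℕ → Set (HPar P)} {A0 : Set (HPar P)}
    (hAm : ∀ᶠ n in atTop, MeasurableSet (A n)) (hA0m : MeasurableSet A0)
    (hAV : ∀ᶠ n in atTop, ∀ θ ∈ A n, θ ∈ Bx T P ∧ Valid Φ (εk n) P θ.1 θ.2.1 θ.2.2.2)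
    (hA0V : ∀ θ ∈ A0, θ ∈ Bx T P ∧ Valid Φ 0 P θ.1 θ.2.1 θ.2.2.2)
    (h1 : ∀ᵐ θ : HPar P, θ ∈ A0 → ∀ᶠ n in atTop, θ ∈ A n)
    (h2 : ∀ᵐ θ : HPar P, θ ∉ A0 → ∀ᶠ n in atTop, θ ∉ A n)
    (μ : Measure Space3) [IsFiniteMeasure μ] :
    Tendsto (fun n => ∫⁻ x, (∫⁻ θ : HPar P, absd (wE Φ k (εk n) (Sk n) S i (A n) θ x)
      (wE Φ k 0 S S i A0 θ x)) ∂μ) atTop (𝓝 0) := by
  have hε : Tendsto εk atTop TreeEps399.L :=
    tendsto_nhdsWithin_iff.2 ⟨hlim, Eventually.of_forall hε0⟩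
  obtain ⟨M, hlipk, hlip⟩ := hconv.lip
  have hk1 : ∀ z, k z ≠ ∞ := fun z => ne_top_of_le_ne_top ENNReal.ofReal_ne_top (hk z)
  have hM0 : (0 : ℝ) ≤ M := M.2
  obtain ⟨C', hC', hdom⟩ := wE_le_aux hΦ hC hM0 (half_lt_self hb) hk T P
  have hcS : ContinuousOn (S.c i) (Icc 0 T) := (hlip i).continuousOn
  have hmeas0 : Measurable fun q : Space3 × HPar P => wE Φ k 0 S S i A0 q.2 q.1 :=
    measurable_wE hΦ hkc.measurable 0 hT hcS hA0m fun θ hθ =>
      ⟨(hA0V θ hθ).1.1, (hA0V θ hθ).2.1⟩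
  have hmeas : ∀ᶠ n in atTop, Measurable fun q : Space3 × HPar P =>
      absd (wE Φ k (εk n) (Sk n) S i (A n) q.2 q.1) (wE Φ k 0 S S i A0 q.2 q.1) := by
    filter_upwards [hAm, hAV, hlipk] with n a1 a2 a3
    exact measurable_absd (measurable_wE hΦ hkc.measurable (εk n) hT (a3 i).continuousOn a1
      fun θ hθ => ⟨(a2 θ hθ).1.1, (a2 θ hθ).2.1⟩) hmeas0
  have hsplit : ∀ᶠ n in atTop, ∫⁻ q : Space3 × HPar P,
      absd (wE Φ k (εk n) (Sk n) S i (A n) q.2 q.1) (wE Φ k 0 S S i A0 q.2 q.1)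
        ∂(μ.prod (volume : Measure (HPar P))) =
      ∫⁻ x, (∫⁻ θ : HPar P, absd (wE Φ k (εk n) (Sk n) S i (A n) θ x)
        (wE Φ k 0 S S i A0 θ x)) ∂μ := by
    filter_upwards [hmeas] with n hn
    exact lintegral_prod _ hn.aemeasurable
  refine Tendsto.congr' hsplit ?_
  -- almost every parameter
  have hIoo : ∀ᵐ θ : HPar P, θ.1 ≠ 0 ∧ θ.1 ≠ T := by
    have e0 : ∀ᵐ s : ℝ, s ≠ 0 := compl_mem_ae_iff.2 (measure_singleton (0 : ℝ))
    have eT : ∀ᵐ s : ℝ, s ≠ T := compl_mem_ae_iff.2 (measure_singleton T)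
    have e1 : ∀ᵐ s : ℝ, s ≠ 0 ∧ s ≠ T := e0.and eT
    exact (Measure.quasiMeasurePreserving_fst (μ := (volume : Measure ℝ))
      (ν := (volume : Measure (Space3 × Disc416.Plane × Par P)))).ae e1
  have hder : ∀ θ : HPar P, θ ∈ Bx T P → θ.1 ≠ 0 ∧ θ.1 ≠ T → ‖deriv (S.c i) θ.1‖ ≤ M := by
    intro θ hθ hne
    refine norm_deriv_le_of_lipschitzOn (s := Icc 0 T) ?_ (hlip i)
    exact Icc_mem_nhds (lt_of_le_of_ne hθ.1.1 (Ne.symm hne.1)) (lt_of_le_of_ne hθ.1.2 hne.2)
  have hdom0 : ∀ (θ : HPar P) (x : Space3), (θ.1 ≠ 0 ∧ θ.1 ≠ T) →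
      wE Φ k 0 S S i A0 θ x ≤ domD C' (b / 2) T P θ := fun θ x hne =>
    hdom 0 ι S S i A0 θ x le_rfl fun hθ =>
      ⟨(hA0V θ hθ).1, (hA0V θ hθ).2, hder θ (hA0V θ hθ).1 hne⟩
  have h0 : (0 : ℝ≥0∞) = ∫⁻ _q : Space3 × HPar P, (0 : ℝ≥0∞)
      ∂(μ.prod (volume : Measure (HPar P))) := by simp
  rw [h0]
  have hae : ∀ {p : HPar P → Prop}, (∀ᵐ θ : HPar P, p θ) →
      ∀ᵐ q : Space3 × HPar P ∂(μ.prod (volume : Measure (HPar P))), p q.2 := fun h =>
    (Measure.quasiMeasurePreserving_snd (μ := μ) (ν := (volume : Measure (HPar P)))).ae h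
  refine tendsto_lintegral_filter_of_dominated_convergence
    (fun q => domD C' (b / 2) T P q.2 + domD C' (b / 2) T P q.2) hmeas ?_ ?_ ?_
  · filter_upwards [hAV] with n hn
    filter_upwards [hae hIoo] with q hq
    refine (absd_le_add _ _).trans (add_le_add ?_ (hdom0 q.2 q.1 hq))
    exact hdom (εk n) ι (Sk n) S i (A n) q.2 q.1 (hε0 n).le fun hθ =>
      ⟨(hn _ hθ).1, (hn _ hθ).2, hder _ (hn _ hθ).1 hq⟩
  · have hmd := measurable_domD hC' (b / 2) T P
    have hmd2 : Measurable fun q : Space3 × HPar P => domD C' (b / 2) T P q.2 :=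
      hmd.comp measurable_snd
    rw [lintegral_add_left hmd2]
    have e1 : ∫⁻ q : Space3 × HPar P, domD C' (b / 2) T P q.2
        ∂(μ.prod (volume : Measure (HPar P))) = μ univ * ∫⁻ θ, domD C' (b / 2) T P θ := by
      rw [lintegral_prod _ hmd2.aemeasurable]
      simp only
      rw [lintegral_const, mul_comm]
    rw [e1]
    have e2 := ENNReal.mul_ne_top (measure_ne_top μ univ)
      (lintegral_domD_ne_top hC' (half_pos hb) T P)
    exact ENNReal.add_ne_top.2 ⟨e2, e2⟩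
  · filter_upwards [hae h1, hae h2, hae hIoo] with q a1 a2 a3
    refine tendsto_absd ?_ (tendsto_wE_pt hε hkc hk1 hconv i (fun hθ => (hA0V _ hθ).1.1) a1 a2 q.1)
    refine ne_top_of_le_ne_top ?_ (hdom0 q.2 q.1 a3)
    unfold domD
    by_cases hq : q.2 ∈ Bx T P
    · rw [indicator_of_mem hq]
      unfold domG
      refine ENNReal.mul_ne_top ?_ ENNReal.ofReal_ne_top
      have hbox : ∀ (Q : CTree) (p : Par Q), boxI T Q p ≠ ∞ := by
        intro Q
        induction Q with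
        | leaf => intro p; simp [boxI]
        | node l r hl hr =>
          intro p
          simp only [boxI]
          refine ENNReal.mul_ne_top ?_ (ENNReal.mul_ne_top (hl _) (hr _))
          unfold box1
          by_cases hp : p.1 ∈ {a : NodeP | a.1 ∈ Ioo 0 T ∧ ‖a.2.2‖ < 1}
          · rw [indicator_of_mem hp]; simp
          · rw [indicator_of_notMem hp]; simp
      exact hbox _ _
    · rw [indicator_of_notMem hq]; simp

end Crest.Agent.R122.FluxDCT491

end
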