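import Crest.Agent.R122.FluxQ_663
import Crest.Agent.R122.FluxPair_663
import Crest.Agent.R122.Scat5_818

/-!
# Row 122, (S8): the flux identities without measurability hypotheses

`scatE Φ` is helper818's total scattering map `scat Φ`, so it is measurable
(`Scat818.measurable_scat`), and every theorem of `FluxScat_663`, `FluxQ_663` holds without the
hypothesis `Measurable (scatE Φ)`.
-/

set_option autoImplicit false

open MeasureTheory Set Filter
open Crest.AnalysisR.Kinetic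
open scoped ENNReal

noncomputable section

namespace Crest.Agent.R122.Flux663

open Disc416 Scat818 Boltz814

variable {Φ : Space3 → ℝ}

lemma mem_gincid_iff {e : Space3 × Space3} : e ∈ gincid ↔ e ∈ FS :=
  ⟨fun h => ⟨h.2, h.1⟩, fun h => ⟨h.2, h.1⟩⟩

theorem scatE_eq_scat (hΦ : AdmissiblePotential Φ) : scatE Φ = scat Φ := by
  funext e
  by_cases he : e ∈ FS
  · rw [scatE_of_mem he, scat_of_gincid hΦ (mem_gincid_iff.2 he)]
  · rw [scatE_of_not_mem he, scat_of_not]
    exact fun h => he (mem_gincid_iff.1 h.1)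

theorem measurable_scatE (hΦ : AdmissiblePotential Φ) : Measurable (scatE Φ) := by
  rw [scatE_eq_scat hΦ]
  exact measurable_scat hΦ

/-- (S8) The scattering map preserves the flux measure `‖g‖ dg db`. -/
theorem measurePreserving_scat (hΦ : AdmissiblePotential Φ) :
    MeasurePreserving (scatE Φ) flux flux :=
  measurePreserving_scatE hΦ (measurable_scatE hΦ)

theorem lintegral_scat_comp (hΦ : AdmissiblePotential Φ)
    {F : Space3 × Space3 → ℝ≥0∞} (hF : Measurable F) :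
    ∫⁻ e, F (scatE Φ e) ∂flux = ∫⁻ e, F e ∂flux :=
  lintegral_scatE hΦ (measurable_scatE hΦ) hF

theorem flux_exchange (hΦ : AdmissiblePotential Φ)
    {F : (Space3 × Space3) × (Space3 × Space3) → ℝ≥0∞} (hF : Measurable F) :
    ∫⁻ e, F (e, scatE Φ e) ∂flux = ∫⁻ e, F (par (scatE Φ e), par e) ∂flux :=
  lintegral_exchange hΦ (measurable_scatE hΦ) hF

theorem flux_exchange_rev (hΦ : AdmissiblePotential Φ)
    {F : (Space3 × Space3) × (Space3 × Space3) → ℝ≥0∞} (hF : Measurable F) :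
    ∫⁻ e, F (e, scatE Φ e) ∂flux = ∫⁻ e, F (rev (scatE Φ e), rev e) ∂flux :=
  lintegral_exchange_rev hΦ (measurable_scatE hΦ) hF

/-- (S8) Exchange of incoming and outgoing data, full form. -/
theorem exchange_vwb (hΦ : AdmissiblePotential Φ)
    {F : (Space3 × Space3 × Space3) × (Space3 × Space3 × Space3) → ℝ≥0∞} (hF : Measurable F) :
    ∫⁻ v, ∫⁻ w, ENNReal.ofReal ‖v - w‖ * ∫⁻ b in impactDisc (v - w),
        F ((v, w, b), ((postVelocities Φ b v w).1, (postVelocities Φ b v w).2,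
          exitImpact Φ b (v - w))) ∂μHE[2] =
      ∫⁻ v, ∫⁻ w, ENNReal.ofReal ‖v - w‖ * ∫⁻ b in impactDisc (v - w),
        F (((postVelocities Φ b v w).1, (postVelocities Φ b v w).2, -exitImpact Φ b (v - w)),
          (v, w, -b)) ∂μHE[2] :=
  lintegral_exchange_vwb hΦ (measurable_scatE hΦ) hF

/-- (S8) Invariance of `|v - w| dv dw db` under `(v, w, b) ↦ (v', w', b')`. -/
theorem invariant_vwb (hΦ : AdmissiblePotential Φ)
    {F : Space3 × Space3 × Space3 → ℝ≥0∞} (hF : Measurable F) :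
    ∫⁻ v, ∫⁻ w, ENNReal.ofReal ‖v - w‖ * ∫⁻ b in impactDisc (v - w),
        F ((postVelocities Φ b v w).1, (postVelocities Φ b v w).2,
          exitImpact Φ b (v - w)) ∂μHE[2] =
      ∫⁻ v, ∫⁻ w, ENNReal.ofReal ‖v - w‖ * ∫⁻ b in impactDisc (v - w), F (v, w, b) ∂μHE[2] :=
  lintegral_invariant_vwb hΦ (measurable_scatE hΦ) hF

/-- Exchange form for functions of the velocities only. -/
theorem exchange_vw (hΦ : AdmissiblePotential Φ)
    {F : (Space3 × Space3) × (Space3 × Space3) → ℝ≥0∞} (hF : Measurable F) :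
    ∫⁻ v, ∫⁻ w, ENNReal.ofReal ‖v - w‖ * ∫⁻ b in impactDisc (v - w),
        F ((v, w), postVelocities Φ b v w) ∂μHE[2] =
      ∫⁻ v, ∫⁻ w, ENNReal.ofReal ‖v - w‖ * ∫⁻ b in impactDisc (v - w),
        F (postVelocities Φ b v w, (v, w)) ∂μHE[2] :=
  lintegral_exchange_vw hΦ (measurable_scatE hΦ) hF

/-- Weak form of the gain operator. -/
theorem mul_Qp (hΦ : AdmissiblePotential Φ)
    {φ h₁ h₂ : Space3 → ℝ≥0∞} (hφ : Measurable φ) (h₁m : Measurable h₁) (h₂m : Measurable h₂) :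
    ∫⁻ v, φ v * Qp Φ h₁ h₂ v =
      ∫⁻ v, ∫⁻ w, ENNReal.ofReal ‖v - w‖ * ∫⁻ b in impactDisc (v - w),
        φ (postVelocities Φ b v w).1 * (h₁ v * h₂ w) ∂μHE[2] :=
  lintegral_mul_Qp hΦ (measurable_scatE hΦ) hφ h₁m h₂m

/-- Mass identity: the total gain equals the total loss. -/
theorem mass_Qp (hΦ : AdmissiblePotential Φ)
    {h₁ h₂ : Space3 → ℝ≥0∞} (h₁m : Measurable h₁) (h₂m : Measurable h₂) :
    ∫⁻ v, Qp Φ h₁ h₂ v = ∫⁻ v, h₁ v * nuE h₂ v :=
  lintegral_Qp hΦ (measurable_scatE hΦ) h₁m h₂m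

end Crest.Agent.R122.Flux663
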