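import Crest.Agent.R122.Flux_663

/-!
# Row 122, block F2 (S8): invariance of the flux measure

Liouville-free proof (suggested by helper818): a measurable map of pairs `(b, g)` which preserves
`‖b‖`, `‖g‖`, `⟪b, g⟫ = 0` and commutes with all linear isometries preserves `flux`.
-/

set_option autoImplicit false

open MeasureTheory Set Filter
open Crest.AnalysisR.Kinetic
open scoped ENNReal

noncomputable section

namespace Crest.Agent.R122.Flux663

open Disc416

/-- The orthogonal group of `Space3`. -/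
abbrev OG : Type := unitary (Space3 →L[ℝ] Space3)

/-- The isometry of an element of the orthogonal group. -/
abbrev iso (u : OG) : Space3 ≃ₗᵢ[ℝ] Space3 := Unitary.linearIsometryEquiv u

lemma iso_apply (u : OG) (x : Space3) : iso u x = (u : Space3 →L[ℝ] Space3) x := rfl

instance continuousStar_clm : ContinuousStar (Space3 →L[ℝ] Space3) :=
  ⟨(ContinuousLinearMap.adjoint (𝕜 := ℝ) (E := Space3) (F := Space3)).continuous⟩

instance : CompactSpace OG := by
  have hp : ProperSpace (Space3 →L[ℝ] Space3) := FiniteDimensional.proper ℝ _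
  refine isCompact_iff_compactSpace.1 (Metric.isCompact_of_isClosed_isBounded isClosed_unitary ?_)
  refine (Metric.isBounded_iff_subset_closedBall (0 : Space3 →L[ℝ] Space3)).2 ⟨1, ?_⟩
  intro u hu
  rw [mem_closedBall_zero_iff]
  refine ContinuousLinearMap.opNorm_le_bound _ zero_le_one fun x => ?_
  have := (iso ⟨u, hu⟩).norm_map x
  rw [iso_apply] at this
  rw [one_mul]
  exact this.le

/-- A right invariant finite measure on the orthogonal group. -/
def nuG : Measure OG := (MeasureTheory.Measure.haar : Measure OG).inv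

instance : IsFiniteMeasure nuG := by
  unfold nuG
  infer_instance

instance : nuG.IsMulRightInvariant := by
  unfold nuG
  infer_instance

lemma nuG_univ_ne_zero : nuG univ ≠ 0 := by
  unfold nuG
  rw [Measure.inv_apply]
  simp only [inv_univ]
  exact (isOpen_univ.measure_pos _ univ_nonempty).ne'

lemma nuG_univ_ne_top : nuG univ ≠ ∞ := measure_ne_top _ _

lemma measurable_act : Measurable (fun p : OG × (Space3 × Space3) => (iso p.1 p.2.1, iso p.1 p.2.2)) := by
  have h : Continuous (fun p : OG × (Space3 × Space3) =>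
      (((p.1 : Space3 →L[ℝ] Space3) p.2.1, (p.1 : Space3 →L[ℝ] Space3) p.2.2) : Space3 × Space3)) := by
    have h1 : Continuous (fun p : OG × (Space3 × Space3) => (p.1 : Space3 →L[ℝ] Space3)) :=
      continuous_subtype_val.comp continuous_fst
    exact (h1.clm_apply (by fun_prop)).prodMk (h1.clm_apply (by fun_prop))
  exact h.measurable

/-- Transitivity. -/
lemma exists_iso {b g b' g' : Space3} (hb : ‖b'‖ = ‖b‖) (hg : ‖g'‖ = ‖g‖)
    (h1 : inner ℝ b g = 0) (h2 : inner ℝ b' g' = 0) :
    ∃ u : OG, iso u b = b' ∧ iso u g = g' := by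
  set R1 : Space3 ≃ₗᵢ[ℝ] Space3 := (ℝ ∙ (g - g'))ᗮ.reflection with hR1
  have e1 : R1 g = g' := Submodule.reflection_sub hg.symm
  set b1 := R1 b with hb1
  set R2 : Space3 ≃ₗᵢ[ℝ] Space3 := (ℝ ∙ (b1 - b'))ᗮ.reflection with hR2
  have e2 : R2 b1 = b' := Submodule.reflection_sub (by rw [hb1, R1.norm_map, hb])
  have h3 : inner ℝ b1 g' = 0 := by
    rw [hb1, ← e1, R1.inner_map_map, h1]
  have e3 : R2 g' = g' := by
    refine Submodule.reflection_mem_subspace_eq_self ?_
    rw [Submodule.mem_orthogonal_singleton_iff_inner_right, inner_sub_left, h3, h2, sub_zero]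
  refine ⟨Unitary.linearIsometryEquiv.symm (R1.trans R2), ?_, ?_⟩
  · show (Unitary.linearIsometryEquiv (Unitary.linearIsometryEquiv.symm (R1.trans R2))) b = b'
    rw [MulEquiv.apply_symm_apply]
    simp [← hb1, e2]
  · show (Unitary.linearIsometryEquiv (Unitary.linearIsometryEquiv.symm (R1.trans R2))) g = g'
    rw [MulEquiv.apply_symm_apply]
    simp [e1, e3]

lemma preimage_impactDisc_iso (R : Space3 ≃ₗᵢ[ℝ] Space3) (g : Space3) :
    R ⁻¹' impactDisc (R g) = impactDisc g := by
  ext b
  simp only [impactDisc, mem_preimage, mem_ofPred_eq, R.inner_map_map, R.norm_map]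

/-- The flux measure is invariant under linear isometries. -/
theorem lintegral_flux_iso (R : Space3 ≃ₗᵢ[ℝ] Space3) {F : Space3 × Space3 → ℝ≥0∞}
    (hF : Measurable F) : ∫⁻ e, F (R e.1, R e.2) ∂flux = ∫⁻ e, F e ∂flux := by
  have hR : Measurable R := R.continuous.measurable
  have hF' : Measurable (fun e : Space3 × Space3 => F (R e.1, R e.2)) :=
    hF.comp ((hR.comp measurable_fst).prodMk (hR.comp measurable_snd))
  rw [lintegral_flux hF', lintegral_flux hF]
  have h1 : ∀ g : Space3, ∫⁻ b in impactDisc g, F (R b, R g) ∂μHE[2] =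
      ∫⁻ b in impactDisc (R g), F (b, R g) ∂μHE[2] := by
    intro g
    have := (R.toIsometryEquiv.measurePreserving_euclideanHausdorffMeasure 2).setLIntegral_comp_preimage_emb
      R.toHomeomorph.measurableEmbedding (fun b => F (b, R g)) (impactDisc (R g))
    rw [← this]
    have h2 : (R.toIsometryEquiv : Space3 → Space3) ⁻¹' impactDisc (R g) = impactDisc g :=
      preimage_impactDisc_iso R g
    rw [h2]
    rfl
  simp only [h1]
  have h3 := R.measurePreserving.lintegral_comp_emb R.toHomeomorph.measurableEmbedding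
    (fun g => ENNReal.ofReal ‖g‖ * ∫⁻ b in impactDisc g, F (b, g) ∂μHE[2])
  rw [← h3]
  simp only [R.norm_map]

/-- Averaging over the orthogonal group. -/
lemma average {K : Space3 × Space3 → ℝ≥0∞} (hK : Measurable K) :
    nuG univ * ∫⁻ e, K e ∂flux = ∫⁻ e, ∫⁻ u, K (iso u e.1, iso u e.2) ∂nuG ∂flux := by
  have hm : Measurable (fun p : OG × (Space3 × Space3) => K (iso p.1 p.2.1, iso p.1 p.2.2)) :=
    hK.comp measurable_act
  rw [← lintegral_lintegral_swap (f := fun (u : OG) (e : Space3 × Space3) => K (iso u e.1, iso u e.2))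
    hm.aemeasurable]
  have : ∀ u : OG, ∫⁻ e, K (iso u e.1, iso u e.2) ∂flux = ∫⁻ e, K e ∂flux :=
    fun u => lintegral_flux_iso (iso u) hK
  simp only [this, lintegral_const]
  rw [mul_comm]

/-- (S8), abstract form, lintegral version. -/
theorem lintegral_flux_comp {E : Space3 × Space3 → Space3 × Space3} (hE : Measurable E)
    (h1 : ∀ e ∈ FS, ‖(E e).1‖ = ‖e.1‖) (h2 : ∀ e ∈ FS, ‖(E e).2‖ = ‖e.2‖)
    (h3 : ∀ e ∈ FS, inner ℝ (E e).1 (E e).2 = 0)
    (hR : ∀ (R : Space3 ≃ₗᵢ[ℝ] Space3) (e : Space3 × Space3), e ∈ FS →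
      E (R e.1, R e.2) = (R (E e).1, R (E e).2))
    {H : Space3 × Space3 → ℝ≥0∞} (hH : Measurable H) :
    ∫⁻ e, H (E e) ∂flux = ∫⁻ e, H e ∂flux := by
  have hHE : Measurable (fun e => H (E e)) := hH.comp hE
  have key : ∀ᵐ e ∂flux, ∫⁻ u, H (E (iso u e.1, iso u e.2)) ∂nuG =
      ∫⁻ u, H (iso u e.1, iso u e.2) ∂nuG := by
    filter_upwards [ae_FS] with e he
    obtain ⟨u0, hu1, hu2⟩ := exists_iso (h1 e he) (h2 e he) he.2.1 (h3 e he)
    have h4 : ∀ u : OG, E (iso u e.1, iso u e.2) = (iso (u * u0) e.1, iso (u * u0) e.2) := by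
      intro u
      rw [hR _ _ he, ← hu1, ← hu2]
      simp only [iso, map_mul]
      rfl
    simp only [h4]
    exact lintegral_mul_right_eq_self (fun u : OG => H (iso u e.1, iso u e.2)) u0
  have h5 : nuG univ * ∫⁻ e, H (E e) ∂flux = nuG univ * ∫⁻ e, H e ∂flux := by
    rw [average hHE, average hH]
    exact lintegral_congr_ae key
  exact (ENNReal.mul_right_inj nuG_univ_ne_zero nuG_univ_ne_top).1 h5

/-- (S8), abstract form. -/
theorem measurePreserving_flux {E : Space3 × Space3 → Space3 × Space3} (hE : Measurable E)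
    (h1 : ∀ e ∈ FS, ‖(E e).1‖ = ‖e.1‖) (h2 : ∀ e ∈ FS, ‖(E e).2‖ = ‖e.2‖)
    (h3 : ∀ e ∈ FS, inner ℝ (E e).1 (E e).2 = 0)
    (hR : ∀ (R : Space3 ≃ₗᵢ[ℝ] Space3) (e : Space3 × Space3), e ∈ FS →
      E (R e.1, R e.2) = (R (E e).1, R (E e).2)) :
    MeasurePreserving E flux flux := by
  refine ⟨hE, ?_⟩
  ext A hA
  have h := lintegral_flux_comp hE h1 h2 h3 hR (H := A.indicator 1) (measurable_one.indicator hA)
  rw [lintegral_indicator_one hA] at h
  rw [← h, Measure.map_apply hE hA, ← lintegral_indicator_one (hE hA)]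
  rfl

end Crest.Agent.R122.Flux663
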