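import Crest.Agent.R122.KinC_796
import Crest.Agent.R122.KinQ_416

/-!
Concrete collision kernel for the abstract series theory (row 122, block F6, helper796).
-/

set_option autoImplicit false
open MeasureTheory ProbabilityTheory Set
open Crest.AnalysisR.Kinetic
open Crest.Agent.R122.Boltz814 Crest.Agent.R122.Kin416
open scoped ENNReal

noncomputable section

namespace Crest.Agent.R122.Kin796

theorem wG_eq_gau (γ : ℝ) : (wG γ : Space3 → ℝ≥0∞) = gau γ := by
  funext v; unfold wG gau; rw [neg_mul]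

/-- the abstract gain operator of the kernel `kapQ Φ` is `Qp Φ`. -/
theorem Q_kapQ {Φ : Space3 → ℝ} (S : ScatFacts Φ) {h k : Space3 → ℝ≥0∞} (hh : Measurable h)
    (hk : Measurable k) (v : Space3) : Q (kapQ Φ) h k v = Qp Φ h k v :=
  (Qp_eq_kapQ S hh hk v).symm

/-- Constant of the kernel bound. -/
def C1G (β : ℝ) : ℝ := (CG β).toReal

theorem C1G_nonneg (β : ℝ) : 0 ≤ C1G β := ENNReal.toReal_nonneg

theorem kernelBound_kapQ {Φ : Space3 → ℝ} (S : ScatFacts Φ) {β : ℝ} (hβ : 0 < β) :
    KernelBound (kapQ Φ) β (C1G β) := by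
  intro γ hγ v
  rw [wG_eq_gau, Q_kapQ S (measurable_gau γ) (measurable_gau γ)]
  refine (Qp_gau_le S hγ.1 v).trans (le_of_eq ?_)
  have h1 : CG β = ENNReal.ofReal (C1G β) := (ENNReal.ofReal_toReal (CG_lt_top hβ).ne).symm
  rw [h1]
  unfold gau
  rw [ENNReal.ofReal_mul (C1G_nonneg β), ENNReal.ofReal_mul (by positivity), neg_mul]

end Crest.Agent.R122.Kin796
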