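import Crest.Agent.R122.KinB_796

/-!
Backward Volterra closing with Gaussian weights of decreasing rate (row 122, section E, helper796).
-/

set_option autoImplicit false
set_option linter.unusedSectionVars false
set_option linter.unusedVariables false
open MeasureTheory ProbabilityTheory Set
open scoped ENNReal

noncomputable section

namespace Crest.Agent.R122.Volt796

open Crest.Agent.R122.Kin796

theorem mul_exp_neg_sq_le {z : ℝ} (hz : 0 ≤ z) : z * Real.exp (-z ^ 2) ≤ 1 := by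
  have h1 : z ≤ Real.exp (z ^ 2) := by
    have := Real.add_one_le_exp (z ^ 2)
    nlinarith [sq_nonneg (z - 1)]
  calc z * Real.exp (-z ^ 2) ≤ Real.exp (z ^ 2) * Real.exp (-z ^ 2) :=
        mul_le_mul_of_nonneg_right h1 (Real.exp_pos _).le
    _ = 1 := by rw [← Real.exp_add]; simp

/-- the singular kernel -/
def sk (κ u : ℝ) : ℝ := 1 + 1 / Real.sqrt (κ * u)

theorem one_add_mul_exp_le {κ u r : ℝ} (hκ : 0 < κ) (hu : 0 < u) (hr : 0 ≤ r) :
    (1 + r) * Real.exp (-(κ * u * r ^ 2)) ≤ sk κ u := by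
  have hs : 0 < Real.sqrt (κ * u) := Real.sqrt_pos.2 (by positivity)
  have h1 : Real.exp (-(κ * u * r ^ 2)) ≤ 1 := Real.exp_le_one_iff.2 (by
    have : 0 ≤ κ * u * r ^ 2 := by positivity
    linarith)
  have h2 : r * Real.exp (-(κ * u * r ^ 2)) ≤ 1 / Real.sqrt (κ * u) := by
    have h3 := mul_exp_neg_sq_le (z := Real.sqrt (κ * u) * r) (by positivity)
    have h4 : (Real.sqrt (κ * u) * r) ^ 2 = κ * u * r ^ 2 := by
      rw [mul_pow, Real.sq_sqrt (by positivity)]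
    rw [h4] at h3
    rw [le_div_iff₀ hs]
    nlinarith
  unfold sk
  nlinarith

/-- the kernel integral -/
def skI (κ μ : ℝ) : ℝ := 1 / μ + (Real.sqrt κ)⁻¹ * ((1 / μ) ^ (1 / 2 : ℝ) * Real.Gamma (1 / 2))

theorem skI_nonneg {κ μ : ℝ} (hκ : 0 < κ) (hμ : 0 < μ) : 0 ≤ skI κ μ := by
  unfold skI
  have := Real.Gamma_pos_of_pos (show (0:ℝ) < 1 / 2 by norm_num)
  positivity

theorem lintegral_sk {κ μ : ℝ} (hκ : 0 < κ) (hμ : 0 < μ) :
    ∫⁻ u in Ioi (0 : ℝ), ENNReal.ofReal (sk κ u * Real.exp (-(μ * u))) =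
      ENNReal.ofReal (skI κ μ) := by
  have hG := Real.Gamma_pos_of_pos (show (0:ℝ) < 1 / 2 by norm_num)
  have hI1 : IntegrableOn (fun u : ℝ => Real.exp (-(μ * u))) (Ioi 0) := by
    have := integrableOn_exp_mul_Ioi (a := -μ) (by linarith) 0
    simpa [neg_mul] using this
  have hI2 : IntegrableOn (fun u : ℝ => u ^ ((1 / 2 : ℝ) - 1) * Real.exp (-(μ * u))) (Ioi 0) := by
    have := integrableOn_rpow_mul_exp_neg_mul_rpow (s := (1 / 2 : ℝ) - 1) (p := 1) (b := μ)
      (by norm_num) one_pos hμ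
    simpa [neg_mul] using this
  have hE1 : ∫ u in Ioi (0 : ℝ), Real.exp (-(μ * u)) = 1 / μ := by
    have := integral_exp_mul_Ioi (a := -μ) (by linarith) 0
    simp only [neg_mul, mul_zero, Real.exp_zero] at this
    rw [this]; field_simp
  have hE2 := Real.integral_rpow_mul_exp_neg_mul_Ioi (a := 1 / 2) (r := μ) (by norm_num) hμ
  have heq : ∀ u ∈ Ioi (0 : ℝ), sk κ u * Real.exp (-(μ * u)) = Real.exp (-(μ * u)) +
      (Real.sqrt κ)⁻¹ * (u ^ ((1 / 2 : ℝ) - 1) * Real.exp (-(μ * u))) := by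
    intro u hu
    have hu' : (0 : ℝ) < u := hu
    unfold sk
    rw [Real.sqrt_mul hκ.le, show ((1 / 2 : ℝ) - 1) = -(1 / 2) by norm_num,
      Real.rpow_neg hu'.le, ← Real.sqrt_eq_rpow]
    rw [one_div, mul_inv]
    ring
  have hI : IntegrableOn (fun u : ℝ => sk κ u * Real.exp (-(μ * u))) (Ioi 0) := by
    refine IntegrableOn.congr_fun (hI1.add (hI2.const_mul (Real.sqrt κ)⁻¹)) ?_ measurableSet_Ioi
    intro u hu
    exact (heq u hu).symm
  rw [← ofReal_integral_eq_lintegral_ofReal hI]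
  · congr 1
    rw [setIntegral_congr_fun measurableSet_Ioi heq, integral_add hI1 (hI2.const_mul _),
      integral_const_mul, hE1, hE2]
    rfl
  · refine (ae_restrict_iff' measurableSet_Ioi).2 (Filter.Eventually.of_forall fun u hu => ?_)
    have hu' : (0 : ℝ) < u := hu
    show (0 : ℝ) ≤ sk κ u * Real.exp (-(μ * u))
    unfold sk; positivity

theorem tendsto_skI {κ : ℝ} (hκ : 0 < κ) :
    Filter.Tendsto (skI κ) Filter.atTop (nhds 0) := by
  have h1 : Filter.Tendsto (fun μ : ℝ => 1 / μ) Filter.atTop (nhds 0) := by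
    simpa using tendsto_inv_atTop_zero (𝕜 := ℝ)
  have h2 : Filter.Tendsto (fun μ : ℝ => (1 / μ) ^ (1 / 2 : ℝ)) Filter.atTop (nhds 0) := by
    have := (Real.continuousAt_rpow_const 0 (1 / 2 : ℝ) (Or.inr (by norm_num))).tendsto.comp h1
    rw [Real.zero_rpow (by norm_num)] at this
    exact this
  have h3 := h1.add ((h2.mul_const (Real.Gamma (1 / 2))).const_mul (Real.sqrt κ)⁻¹)
  have h4 : skI κ = fun μ : ℝ => 1 / μ + (Real.sqrt κ)⁻¹ *
      ((1 / μ) ^ (1 / 2 : ℝ) * Real.Gamma (1 / 2)) := rfl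
  rw [h4]
  rw [zero_mul, mul_zero, add_zero] at h3
  exact h3

theorem exists_mu {κ C : ℝ} (hκ : 0 < κ) (hC : 0 ≤ C) :
    ∃ μ : ℝ, 0 < μ ∧ C * skI κ μ ≤ 1 / 2 := by
  have h1 : Filter.Tendsto (fun μ => C * skI κ μ) Filter.atTop (nhds (C * 0)) :=
    (tendsto_skI hκ).const_mul C
  rw [mul_zero] at h1
  obtain ⟨μ, h2, h3⟩ := ((h1.eventually_le_const (by norm_num : (0:ℝ) < 1 / 2)).and
    (Filter.eventually_gt_atTop 0)).exists
  exact ⟨μ, h3, h2⟩

variable {E : Type*} [NormedAddCommGroup E] [MeasurableSpace E]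

/-- **Backward Volterra lemma with Gaussian weights.** `x s v` is the mass carried by lines born at
time `s` with velocity `v`. -/
theorem backward_volterra (m : Measure E) {x : ℝ → E → ℝ≥0∞} {γ₀ κ C t' μ : ℝ} (hκ : 0 < κ)
    (hC : 0 ≤ C) (hμ : 0 < μ) (hsmall : C * skI κ μ ≤ 1 / 2) {R B : ℝ≥0∞} (hB : B ≠ ∞)
    (hfin : ∀ τ ∈ Icc 0 t', ∫⁻ v, wG (γ₀ - κ * τ) v * x τ v ∂m ≤ B)
    (hrec : ∀ τ ∈ Icc 0 t', ∫⁻ v, wG (γ₀ - κ * τ) v * x τ v ∂m ≤ R +
      ∫⁻ s in Ioc τ t', ∫⁻ v, ENNReal.ofReal (C * (1 + ‖v‖)) * (wG (γ₀ - κ * τ) v * x s v) ∂m) :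
    ∀ τ ∈ Icc 0 t', ∫⁻ v, wG (γ₀ - κ * τ) v * x τ v ∂m ≤
      2 * (ENNReal.ofReal (Real.exp (μ * (t' - τ))) * R) := by
  set X : ℝ → ℝ≥0∞ := fun τ => ∫⁻ v, wG (γ₀ - κ * τ) v * x τ v ∂m with hX
  set Y : ℝ≥0∞ := ⨆ τ ∈ Icc 0 t', ENNReal.ofReal (Real.exp (μ * τ)) * X τ with hY
  have hYle : ∀ τ ∈ Icc 0 t', ENNReal.ofReal (Real.exp (μ * τ)) * X τ ≤ Y := fun τ hτ =>
    le_iSup₂ (f := fun τ (_ : τ ∈ Icc 0 t') => ENNReal.ofReal (Real.exp (μ * τ)) * X τ) τ hτ
  have hYfin : Y ≠ ∞ := by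
    refine ne_top_of_le_ne_top (ENNReal.mul_ne_top (ENNReal.ofReal_ne_top
      (r := Real.exp (μ * t'))) hB) ?_
    refine iSup₂_le fun τ hτ => mul_le_mul' (ENNReal.ofReal_le_ofReal (Real.exp_le_exp.2 ?_))
      (hfin τ hτ)
    exact mul_le_mul_of_nonneg_left hτ.2 hμ.le
  have hXY : ∀ s ∈ Icc 0 t', X s ≤ ENNReal.ofReal (Real.exp (-(μ * s))) * Y := by
    intro s hs
    calc X s = ENNReal.ofReal (Real.exp (-(μ * s))) *
          (ENNReal.ofReal (Real.exp (μ * s)) * X s) := by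
          rw [← mul_assoc, ← ENNReal.ofReal_mul (Real.exp_pos _).le, ← Real.exp_add]
          simp
      _ ≤ _ := mul_le_mul' le_rfl (hYle s hs)
  have hinner : ∀ τ ∈ Icc 0 t', ∀ s ∈ Ioc τ t',
      ∫⁻ v, ENNReal.ofReal (C * (1 + ‖v‖)) * (wG (γ₀ - κ * τ) v * x s v) ∂m ≤
        ENNReal.ofReal (C * sk κ (s - τ)) * X s := by
    intro τ hτ s hs
    have hsτ : 0 < s - τ := sub_pos.2 hs.1
    calc ∫⁻ v, ENNReal.ofReal (C * (1 + ‖v‖)) * (wG (γ₀ - κ * τ) v * x s v) ∂m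
        ≤ ∫⁻ v, ENNReal.ofReal (C * sk κ (s - τ)) * (wG (γ₀ - κ * s) v * x s v) ∂m := by
          refine lintegral_mono fun v => ?_
          rw [← mul_assoc, ← mul_assoc]
          refine mul_le_mul' ?_ le_rfl
          unfold wG
          rw [← ENNReal.ofReal_mul (by positivity), ← ENNReal.ofReal_mul (by
            unfold sk; positivity)]
          refine ENNReal.ofReal_le_ofReal ?_
          have h1 := one_add_mul_exp_le hκ hsτ (norm_nonneg v)
          have h2 : Real.exp (-((γ₀ - κ * τ) * ‖v‖ ^ 2)) =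
              Real.exp (-(κ * (s - τ) * ‖v‖ ^ 2)) * Real.exp (-((γ₀ - κ * s) * ‖v‖ ^ 2)) := by
            rw [← Real.exp_add]; congr 1; ring
          rw [h2]
          calc C * (1 + ‖v‖) * (Real.exp (-(κ * (s - τ) * ‖v‖ ^ 2)) *
                Real.exp (-((γ₀ - κ * s) * ‖v‖ ^ 2)))
              = C * ((1 + ‖v‖) * Real.exp (-(κ * (s - τ) * ‖v‖ ^ 2))) *
                Real.exp (-((γ₀ - κ * s) * ‖v‖ ^ 2)) := by ring
            _ ≤ C * sk κ (s - τ) * Real.exp (-((γ₀ - κ * s) * ‖v‖ ^ 2)) := by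
                gcongr
      _ ≤ _ := by
          rw [lintegral_const_mul' _ _ ENNReal.ofReal_ne_top]
  have hshift : ∀ τ : ℝ, ∫⁻ s in Ioc τ t', ENNReal.ofReal (sk κ (s - τ) *
      Real.exp (-(μ * (s - τ)))) ≤ ENNReal.ofReal (skI κ μ) := by
    intro τ
    rw [← lintegral_sk hκ hμ, ← lintegral_indicator measurableSet_Ioc,
      ← lintegral_indicator measurableSet_Ioi]
    rw [← lintegral_sub_right_eq_self (fun u => (Ioi (0:ℝ)).indicator
      (fun u => ENNReal.ofReal (sk κ u * Real.exp (-(μ * u)))) u) τ]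
    refine lintegral_mono fun s => ?_
    by_cases hs : s ∈ Ioc τ t'
    · rw [indicator_of_mem hs, indicator_of_mem (show s - τ ∈ Ioi (0:ℝ) from sub_pos.2 hs.1)]
    · rw [indicator_of_notMem hs]; exact zero_le
  have hYrec : Y ≤ ENNReal.ofReal (Real.exp (μ * t')) * R + ENNReal.ofReal (1 / 2) * Y := by
    refine iSup₂_le fun τ hτ => ?_
    have h1 : X τ ≤ R + ∫⁻ s in Ioc τ t', ENNReal.ofReal (C * sk κ (s - τ)) *
        (ENNReal.ofReal (Real.exp (-(μ * s))) * Y) := by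
      refine (hrec τ hτ).trans (add_le_add le_rfl ?_)
      refine setLIntegral_mono' measurableSet_Ioc fun s hs => ?_
      exact (hinner τ hτ s hs).trans (mul_le_mul' le_rfl (hXY s ⟨hτ.1.trans hs.1.le, hs.2⟩))
    have h2 : ENNReal.ofReal (Real.exp (μ * τ)) * ∫⁻ s in Ioc τ t',
        ENNReal.ofReal (C * sk κ (s - τ)) * (ENNReal.ofReal (Real.exp (-(μ * s))) * Y) ≤
        ENNReal.ofReal (1 / 2) * Y := by
      rw [← lintegral_const_mul' _ _ ENNReal.ofReal_ne_top]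
      have h3 : ∀ s ∈ Ioc τ t', ENNReal.ofReal (Real.exp (μ * τ)) *
          (ENNReal.ofReal (C * sk κ (s - τ)) * (ENNReal.ofReal (Real.exp (-(μ * s))) * Y)) ≤
          ENNReal.ofReal C * Y * ENNReal.ofReal (sk κ (s - τ) * Real.exp (-(μ * (s - τ)))) := by
        intro s hs
        have hk : 0 ≤ sk κ (s - τ) := by
          have : 0 < s - τ := sub_pos.2 hs.1
          unfold sk; positivity
        refine le_of_eq ?_
        have e1 : Real.exp (-(μ * (s - τ))) = Real.exp (μ * τ) * Real.exp (-(μ * s)) := by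
          rw [← Real.exp_add]; congr 1; ring
        rw [e1, ENNReal.ofReal_mul hC, ENNReal.ofReal_mul hk,
          ENNReal.ofReal_mul (Real.exp_pos _).le]
        ring
      calc ∫⁻ s in Ioc τ t', ENNReal.ofReal (Real.exp (μ * τ)) *
          (ENNReal.ofReal (C * sk κ (s - τ)) * (ENNReal.ofReal (Real.exp (-(μ * s))) * Y))
          ≤ ∫⁻ s in Ioc τ t', ENNReal.ofReal C * Y *
            ENNReal.ofReal (sk κ (s - τ) * Real.exp (-(μ * (s - τ)))) :=
            setLIntegral_mono' measurableSet_Ioc h3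
        _ = ENNReal.ofReal C * Y * ∫⁻ s in Ioc τ t',
            ENNReal.ofReal (sk κ (s - τ) * Real.exp (-(μ * (s - τ)))) :=
            lintegral_const_mul' _ _ (ENNReal.mul_ne_top ENNReal.ofReal_ne_top hYfin)
        _ ≤ ENNReal.ofReal C * Y * ENNReal.ofReal (skI κ μ) := mul_le_mul' le_rfl (hshift τ)
        _ = ENNReal.ofReal (C * skI κ μ) * Y := by rw [ENNReal.ofReal_mul hC]; ring
        _ ≤ ENNReal.ofReal (1 / 2) * Y := mul_le_mul' (ENNReal.ofReal_le_ofReal hsmall) le_rfl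
    calc ENNReal.ofReal (Real.exp (μ * τ)) * X τ
        ≤ ENNReal.ofReal (Real.exp (μ * τ)) * (R + ∫⁻ s in Ioc τ t',
          ENNReal.ofReal (C * sk κ (s - τ)) * (ENNReal.ofReal (Real.exp (-(μ * s))) * Y)) :=
          mul_le_mul' le_rfl h1
      _ = ENNReal.ofReal (Real.exp (μ * τ)) * R + ENNReal.ofReal (Real.exp (μ * τ)) *
          ∫⁻ s in Ioc τ t', ENNReal.ofReal (C * sk κ (s - τ)) *
            (ENNReal.ofReal (Real.exp (-(μ * s))) * Y) := mul_add _ _ _
      _ ≤ _ := add_le_add (mul_le_mul' (ENNReal.ofReal_le_ofReal (Real.exp_le_exp.2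
          (mul_le_mul_of_nonneg_left hτ.2 hμ.le))) le_rfl) h2
  have hYfinal : Y ≤ 2 * (ENNReal.ofReal (Real.exp (μ * t')) * R) := by
    by_cases hR : R = ∞
    · rw [hR, ENNReal.mul_top (by simpa using Real.exp_pos _), ENNReal.mul_top (by norm_num)]
      exact le_top
    · have hA : ENNReal.ofReal (Real.exp (μ * t')) * R ≠ ∞ :=
        ENNReal.mul_ne_top ENNReal.ofReal_ne_top hR
      revert hA hYrec
      generalize ENNReal.ofReal (Real.exp (μ * t')) * R = A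
      intro hYrec hA
      have h0 : (ENNReal.ofReal (1 / 2) * Y).toReal = 1 / 2 * Y.toReal := by
        rw [ENNReal.toReal_mul, ENNReal.toReal_ofReal (by norm_num)]
      have h1 : Y.toReal ≤ A.toReal + 1 / 2 * Y.toReal := by
        have h2 := (ENNReal.toReal_le_toReal hYfin (ENNReal.add_ne_top.2
          ⟨hA, ENNReal.mul_ne_top ENNReal.ofReal_ne_top hYfin⟩)).2 hYrec
        rw [ENNReal.toReal_add hA (ENNReal.mul_ne_top ENNReal.ofReal_ne_top hYfin), h0] at h2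
        exact h2
      have h3 : Y.toReal ≤ 2 * A.toReal := by linarith
      rw [← ENNReal.toReal_le_toReal hYfin (ENNReal.mul_ne_top (by norm_num) hA),
        ENNReal.toReal_mul]
      simpa using h3
  intro τ hτ
  calc X τ ≤ ENNReal.ofReal (Real.exp (-(μ * τ))) * Y := hXY τ hτ
    _ ≤ ENNReal.ofReal (Real.exp (-(μ * τ))) * (2 * (ENNReal.ofReal (Real.exp (μ * t')) * R)) :=
        mul_le_mul' le_rfl hYfinal
    _ = 2 * (ENNReal.ofReal (Real.exp (μ * (t' - τ))) * R) := by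
        have e1 : Real.exp (μ * (t' - τ)) = Real.exp (-(μ * τ)) * Real.exp (μ * t') := by
          rw [← Real.exp_add]; congr 1; ring
        rw [e1, ENNReal.ofReal_mul (Real.exp_pos _).le]
        ring

end Crest.Agent.R122.Volt796
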