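import Crest.Agent.R122.FluxQ_663
import Crest.Agent.R122.Scat5_818
import Crest.Agent.R122.KinInst_796
import Crest.Agent.R122.Volt_796

/-!
Outgoing variables with Gaussian weights, and the one-contact (NS) flux bound (row 122, section E,
helper796).
-/

set_option autoImplicit false
open MeasureTheory ProbabilityTheory Set
open Crest.AnalysisR.Kinetic
open Crest.Agent.R122.Boltz814 Crest.Agent.R122.Kin416 Crest.Agent.R122.Disc416
open scoped ENNReal

noncomputable section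

namespace Crest.Agent.R122.Volt796

open Crest.Agent.R122.Kin796 Crest.Agent.R122.Flux663 Crest.Agent.R122.Scat818

variable {Φ : Space3 → ℝ}

/-- The total scattering map of 663 is the one of 818, hence measurable. -/
theorem measurable_scatE (hΦ : AdmissiblePotential Φ) : Measurable (scatE Φ) := by
  have h : scatE Φ = Scat818.scat Φ := by
    funext p
    by_cases hp : p ∈ FS
    · rw [scatE_of_mem hp, scat_of_gincid hΦ ⟨hp.2, hp.1⟩]
    · rw [scatE_of_not_mem hp, scat_of_not (fun h => hp ⟨h.1.2, h.1.1⟩)]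
  rw [h]
  exact measurable_scat hΦ

theorem gau_anti {γ b : ℝ} (h : γ ≤ b) (v : Space3) : gau b v ≤ gau γ v := by
  unfold gau
  refine ENNReal.ofReal_le_ofReal (Real.exp_le_exp.2 ?_)
  nlinarith [sq_nonneg ‖v‖]

theorem gau_post (S : ScatFacts Φ) (γ : ℝ) {v w b : Space3} (hvw : v ≠ w)
    (hb : b ∈ impactDisc (v - w)) :
    gau γ (postVelocities Φ b v w).1 * gau γ (postVelocities Φ b v w).2 = gau γ v * gau γ w := by
  unfold gau
  rw [← ENNReal.ofReal_mul (Real.exp_pos _).le, ← ENNReal.ofReal_mul (Real.exp_pos _).le,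
    ← Real.exp_add, ← Real.exp_add]
  have he := energy_post S hvw hb
  have he' : -γ * ‖(postVelocities Φ b v w).1‖ ^ 2 + -γ * ‖(postVelocities Φ b v w).2‖ ^ 2 =
      -γ * ‖v‖ ^ 2 + -γ * ‖w‖ ^ 2 := by
    rw [← mul_add, he, mul_add]
  rw [he']

/-- **Outgoing variables with Gaussian weights**: the law of the outgoing pair of a collision of a
line of weight `gau γ` with a partner of weight `gau b`, `γ ≤ b`, is at most that of an incoming pair
of weight `gau γ`. -/
theorem lintegral_post_le (hΦ : AdmissiblePotential Φ) {γ b : ℝ} (hγb : γ ≤ b)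
    {F : Space3 × Space3 → ℝ≥0∞} (hF : Measurable F) :
    ∫⁻ v, ∫⁻ w, ENNReal.ofReal ‖v - w‖ * ∫⁻ β in impactDisc (v - w),
        gau γ v * gau b w * F (postVelocities Φ β v w) ∂μHE[2] ≤
      ∫⁻ v, ∫⁻ w, ENNReal.ofReal ‖v - w‖ * (ENNReal.ofReal Real.pi *
        (gau γ v * gau γ w * F (v, w))) := by
  have S := scatFacts hΦ
  have hm := measurable_scatE hΦ
  have hG : Measurable (fun q : (Space3 × Space3) × (Space3 × Space3) =>
      gau γ q.1.1 * gau b q.1.2 * F q.2) :=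
    (((measurable_gau γ).comp (measurable_fst.comp measurable_fst)).mul
      ((measurable_gau b).comp (measurable_snd.comp measurable_fst))).mul (hF.comp measurable_snd)
  have h1 := lintegral_exchange_vw hΦ hm hG
  simp only at h1
  rw [h1]
  refine lintegral_mono fun v => lintegral_mono fun w => ?_
  by_cases hvw : v = w
  · simp [hvw]
  refine mul_le_mul' le_rfl ?_
  calc ∫⁻ β in impactDisc (v - w), gau γ (postVelocities Φ β v w).1 *
        gau b (postVelocities Φ β v w).2 * F (v, w) ∂μHE[2]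
      ≤ ∫⁻ β in impactDisc (v - w), gau γ v * gau γ w * F (v, w) ∂μHE[2] := by
        refine setLIntegral_mono' (measurableSet_impactDisc _) fun β hβ => ?_
        rw [← gau_post S γ hvw hβ]
        exact mul_le_mul' (mul_le_mul' le_rfl (gau_anti hγb _)) le_rfl
    _ = _ := by
        rw [setLIntegral_const, measure_impactDisc (sub_ne_zero.mpr hvw), mul_comm]

theorem lintegral_in_left (γ : ℝ) {φ : Space3 → ℝ≥0∞} (_hφ : Measurable φ) :
    ∫⁻ v, ∫⁻ w, ENNReal.ofReal ‖v - w‖ * (ENNReal.ofReal Real.pi *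
        (gau γ v * gau γ w * φ v)) = ∫⁻ v : Space3, φ v * (gau γ v * nuE (gau γ) v) := by
  refine lintegral_congr fun v => ?_
  have hI : Measurable (fun w : Space3 => ENNReal.ofReal ‖v - w‖ * gau γ w) :=
    (by fun_prop : Measurable (fun w : Space3 => ENNReal.ofReal ‖v - w‖)).mul (measurable_gau γ)
  unfold nuE
  rw [← lintegral_const_mul _ hI, ← lintegral_const_mul _ (hI.const_mul _),
    ← lintegral_const_mul _ ((hI.const_mul _).const_mul _)]
  refine lintegral_congr fun w => ?_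
  ring

theorem lintegral_in_right (γ : ℝ) {φ : Space3 → ℝ≥0∞} (hφ : Measurable φ) :
    ∫⁻ v : Space3, ∫⁻ w, ENNReal.ofReal ‖v - w‖ * (ENNReal.ofReal Real.pi *
        (gau γ v * gau γ w * φ w)) = ∫⁻ v : Space3, φ v * (gau γ v * nuE (gau γ) v) := by
  rw [lintegral_lintegral_swap, ← lintegral_in_left γ hφ]
  · refine lintegral_congr fun v => lintegral_congr fun w => ?_
    rw [norm_sub_rev, mul_comm (gau γ w) (gau γ v)]
  · refine Measurable.aemeasurable ?_
    have h1 : Measurable (fun p : Space3 × Space3 => ENNReal.ofReal ‖p.1 - p.2‖) := by fun_prop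
    exact h1.mul (measurable_const.mul ((((measurable_gau γ).comp measurable_fst).mul
      ((measurable_gau γ).comp measurable_snd)).mul (hφ.comp measurable_snd)))

theorem lintegral_nuE_le {γ₀ γ : ℝ} (hγ₀ : 0 < γ₀) (h : γ₀ ≤ γ) (φ : Space3 → ℝ≥0∞) :
    ∫⁻ v : Space3, φ v * (gau γ v * nuE (gau γ) v) ≤
      CG γ₀ * ∫⁻ v : Space3, ENNReal.ofReal (1 + ‖v‖) * (gau γ v * φ v) := by
  have h1 : ∀ v : Space3, φ v * (gau γ v * nuE (gau γ) v) ≤
      CG γ₀ * (ENNReal.ofReal (1 + ‖v‖) * (gau γ v * φ v)) := by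
    intro v
    calc φ v * (gau γ v * nuE (gau γ) v) ≤ φ v * (gau γ v * (CG γ₀ * ENNReal.ofReal (1 + ‖v‖))) :=
          mul_le_mul' le_rfl (mul_le_mul' le_rfl ((nuE_gau_le γ v).trans
            (mul_le_mul' (CG_antitone h) le_rfl)))
      _ = _ := by ring
  refine (lintegral_mono h1).trans ?_
  rw [lintegral_const_mul' _ _ (CG_lt_top hγ₀).ne]

/-- The integral of a function of the incoming and outgoing velocities of a contact of a line of
weight `gau γ` with a partner of weight `gau b`. -/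
def contact (Φ : Space3 → ℝ) (γ b : ℝ) (F : (Space3 × Space3) × (Space3 × Space3) → ℝ≥0∞) : ℝ≥0∞ :=
  ∫⁻ v, ∫⁻ w, ENNReal.ofReal ‖v - w‖ * ∫⁻ β in impactDisc (v - w),
        gau γ v * gau b w * F ((v, w), postVelocities Φ β v w) ∂μHE[2]

theorem contact_in_le (_hΦ : AdmissiblePotential Φ) {γ b : ℝ} (hγb : γ ≤ b)
    (F : Space3 × Space3 → ℝ≥0∞) :
    contact Φ γ b (fun p => F p.1) ≤ ∫⁻ v, ∫⁻ w, ENNReal.ofReal ‖v - w‖ * (ENNReal.ofReal Real.pi *
        (gau γ v * gau γ w * F (v, w))) := by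
  unfold contact
  refine lintegral_mono fun v => lintegral_mono fun w => ?_
  by_cases hvw : v = w
  · simp [hvw]
  refine mul_le_mul' le_rfl ?_
  simp only
  rw [setLIntegral_const, measure_impactDisc (sub_ne_zero.mpr hvw), mul_comm]
  exact mul_le_mul' le_rfl (mul_le_mul' (mul_le_mul' le_rfl (gau_anti hγb _)) le_rfl)

theorem contact_out_le (hΦ : AdmissiblePotential Φ) {γ b : ℝ} (hγb : γ ≤ b)
    {F : Space3 × Space3 → ℝ≥0∞} (hF : Measurable F) :
    contact Φ γ b (fun p => F p.2) ≤ ∫⁻ v, ∫⁻ w, ENNReal.ofReal ‖v - w‖ * (ENNReal.ofReal Real.pi *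
        (gau γ v * gau γ w * F (v, w))) :=
  lintegral_post_le hΦ hγb hF

/-- moment of a velocity function with weight `(1 + ‖v‖) gau γ v`. -/
def fluxM (γ : ℝ) (φ : Space3 → ℝ≥0∞) : ℝ≥0∞ :=
  ∫⁻ v : Space3, ENNReal.ofReal (1 + ‖v‖) * (gau γ v * φ v)

section
variable {γ₀ γ b : ℝ} {φ : Space3 → ℝ≥0∞}

theorem contact_v (hΦ : AdmissiblePotential Φ) (hγ₀ : 0 < γ₀) (h : γ₀ ≤ γ) (hγb : γ ≤ b)
    (hφ : Measurable φ) : contact Φ γ b (fun p => φ p.1.1) ≤ CG γ₀ * fluxM γ φ :=
  ((contact_in_le hΦ hγb (fun q => φ q.1)).trans (lintegral_in_left γ hφ).le).trans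
    (lintegral_nuE_le hγ₀ h φ)

theorem contact_w (hΦ : AdmissiblePotential Φ) (hγ₀ : 0 < γ₀) (h : γ₀ ≤ γ) (hγb : γ ≤ b)
    (hφ : Measurable φ) : contact Φ γ b (fun p => φ p.1.2) ≤ CG γ₀ * fluxM γ φ :=
  ((contact_in_le hΦ hγb (fun q => φ q.2)).trans (lintegral_in_right γ hφ).le).trans
    (lintegral_nuE_le hγ₀ h φ)

theorem contact_v' (hΦ : AdmissiblePotential Φ) (hγ₀ : 0 < γ₀) (h : γ₀ ≤ γ) (hγb : γ ≤ b)
    (hφ : Measurable φ) : contact Φ γ b (fun p => φ p.2.1) ≤ CG γ₀ * fluxM γ φ :=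
  ((contact_out_le hΦ hγb (F := fun q => φ q.1) (hφ.comp measurable_fst)).trans
    (lintegral_in_left γ hφ).le).trans (lintegral_nuE_le hγ₀ h φ)

theorem contact_w' (hΦ : AdmissiblePotential Φ) (hγ₀ : 0 < γ₀) (h : γ₀ ≤ γ) (hγb : γ ≤ b)
    (hφ : Measurable φ) : contact Φ γ b (fun p => φ p.2.2) ≤ CG γ₀ * fluxM γ φ :=
  ((contact_out_le hΦ hγb (F := fun q => φ q.2) (hφ.comp measurable_snd)).trans
    (lintegral_in_right γ hφ).le).trans (lintegral_nuE_le hγ₀ h φ)

end

end Crest.Agent.R122.Volt796
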