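import Crest.Agent.R122.FluxInv_663
import Crest.Agent.R122.Scat3_818
import Crest.Agent.R122.BoltzDefs_814

/-!
# Row 122, block F2 (S8): invariance of the flux measure under the scattering map

`scatE Φ (b, g) = (b', g')` (identity off the set `FS` of honest pairs and on trapped pairs).
Measurability of `scatE Φ` is a hypothesis here (helper818, Scat4).
-/

set_option autoImplicit false

open MeasureTheory Set Filter
open Crest.AnalysisR.Kinetic
open scoped ENNReal

noncomputable section

namespace Crest.Agent.R122.Flux663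

open Disc416 Scat818

variable {Φ : Space3 → ℝ}

/-- The scattering map on pairs `(b, g)`. -/
def scatE (Φ : Space3 → ℝ) (e : Space3 × Space3) : Space3 × Space3 :=
  open scoped Classical in
  if e ∈ FS then (exitImpact Φ e.1 e.2, exitVelocity Φ e.1 e.2) else e

lemma scatE_of_mem {e : Space3 × Space3} (he : e ∈ FS) :
    scatE Φ e = (exitImpact Φ e.1 e.2, exitVelocity Φ e.1 e.2) := if_pos he

lemma scatE_of_not_mem {e : Space3 × Space3} (he : e ∉ FS) : scatE Φ e = e := if_neg he

lemma scatE_mem (hΦ : AdmissiblePotential Φ) {e : Space3 × Space3} (he : e ∈ FS) :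
    scatE Φ e ∈ FS := by
  rw [scatE_of_mem he]
  exact ⟨exitVelocity_ne_zero hΦ he.2 he.1, exitImpact_mem hΦ he.2 he.1⟩

lemma scatE_norm1 (hΦ : AdmissiblePotential Φ) {e : Space3 × Space3} (he : e ∈ FS) :
    ‖(scatE Φ e).1‖ = ‖e.1‖ := by
  rw [scatE_of_mem he]
  exact norm_exitImpact hΦ he.2 he.1

lemma scatE_norm2 (hΦ : AdmissiblePotential Φ) {e : Space3 × Space3} (he : e ∈ FS) :
    ‖(scatE Φ e).2‖ = ‖e.2‖ := by
  rw [scatE_of_mem he]
  exact norm_exitVelocity hΦ he.2 he.1

/-- `R` acting on pairs. -/
def isoE (R : Space3 ≃ₗᵢ[ℝ] Space3) (e : Space3 × Space3) : Space3 × Space3 := (R e.1, R e.2)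

lemma isoE_mem (R : Space3 ≃ₗᵢ[ℝ] Space3) {e : Space3 × Space3} : isoE R e ∈ FS ↔ e ∈ FS := by
  simp [isoE, mem_FS, R.inner_map_map, R.norm_map]

lemma scatE_isoE (hΦ : AdmissiblePotential Φ) (R : Space3 ≃ₗᵢ[ℝ] Space3) {e : Space3 × Space3}
    (he : e ∈ FS) : scatE Φ (isoE R e) = isoE R (scatE Φ e) := by
  rw [scatE_of_mem ((isoE_mem R).2 he), scatE_of_mem he]
  unfold isoE
  rw [exitImpact_isometry hΦ R he.2 he.1, exitVelocity_isometry hΦ R he.2 he.1]

/-- (S8) The scattering map preserves the flux measure. -/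
theorem measurePreserving_scatE (hΦ : AdmissiblePotential Φ) (hm : Measurable (scatE Φ)) :
    MeasurePreserving (scatE Φ) flux flux := by
  refine measurePreserving_flux hm (fun e he => scatE_norm1 hΦ he) (fun e he => scatE_norm2 hΦ he)
    (fun e he => (scatE_mem hΦ he).2.1) (fun R e he => ?_)
  exact scatE_isoE hΦ R he

/-- Time reversal of pairs. -/
def rev (e : Space3 × Space3) : Space3 × Space3 := (e.1, -e.2)

/-- Parity composed with time reversal. -/
def par (e : Space3 × Space3) : Space3 × Space3 := (-e.1, e.2)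

lemma rev_mem {e : Space3 × Space3} : rev e ∈ FS ↔ e ∈ FS := by
  simp [rev, mem_FS]

lemma par_mem {e : Space3 × Space3} : par e ∈ FS ↔ e ∈ FS := by
  simp [par, mem_FS]

@[simp] lemma rev_rev (e : Space3 × Space3) : rev (rev e) = e := by simp [rev]

@[simp] lemma par_par (e : Space3 × Space3) : par (par e) = e := by simp [par]

lemma measurable_rev : Measurable rev := by unfold rev; fun_prop

lemma measurable_par : Measurable par := by unfold par; fun_prop

/-- For a honest pair, time reversal is an isometry (the reflection in the plane orthogonal to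
`g`). -/
lemma exists_iso_rev {e : Space3 × Space3} (he : e ∈ FS) :
    ∃ R : Space3 ≃ₗᵢ[ℝ] Space3, isoE R e = rev e := by
  refine ⟨(ℝ ∙ e.2)ᗮ.reflection, ?_⟩
  unfold isoE rev
  congr 1
  · refine Submodule.reflection_mem_subspace_eq_self ?_
    rw [Submodule.mem_orthogonal_singleton_iff_inner_left]
    exact he.2.1
  · exact Submodule.reflection_orthogonalComplement_singleton_eq_neg e.2

lemma measurePreserving_rev : MeasurePreserving rev flux flux := by
  refine measurePreserving_flux measurable_rev (fun e _ => rfl) (fun e _ => by simp [rev])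
    (fun e he => by simpa [rev] using he.2.1) (fun R e _ => by simp [rev])

lemma measurePreserving_par : MeasurePreserving par flux flux := by
  refine measurePreserving_flux measurable_par (fun e _ => by simp [par]) (fun e _ => rfl)
    (fun e he => by simpa [par] using he.2.1) (fun R e _ => by simp [par])

/-- Reversibility, everywhere on `FS`. -/
theorem scatE_rev_scatE (hΦ : AdmissiblePotential Φ) {e : Space3 × Space3} (he : e ∈ FS) :
    scatE Φ (rev (scatE Φ e)) = rev e := by
  by_cases h : ∃ τ, HasExit Φ (inc e.1 e.2) τ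
  · obtain ⟨τ, hτ⟩ := h
    obtain ⟨h1, h2⟩ := exit_exit hΦ he.2 he.1 hτ
    rw [scatE_of_mem (rev_mem.2 (scatE_mem hΦ he)), scatE_of_mem he]
    unfold rev
    exact Prod.ext h2 h1
  · have h1 : scatE Φ e = e := by
      rw [scatE_of_mem he, exitImpact_of_not h, exitVelocity_of_not hΦ (reg_entrance Φ he.2 he.1) h]
    rw [h1]
    obtain ⟨R, hR⟩ := exists_iso_rev he
    rw [← hR, scatE_isoE hΦ R he, h1]

/-- Reversibility with parity. -/
theorem scatE_par_scatE (hΦ : AdmissiblePotential Φ) {e : Space3 × Space3} (he : e ∈ FS) :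
    scatE Φ (par (scatE Φ e)) = par e := by
  have h1 : ∀ e : Space3 × Space3, isoE (LinearIsometryEquiv.neg ℝ) (rev e) = par e := by
    intro e
    simp [isoE, rev, par]
  rw [← h1 (scatE Φ e), scatE_isoE hΦ _ (rev_mem.2 (scatE_mem hΦ he)), scatE_rev_scatE hΦ he, h1]

/-- Invariance, lintegral form. -/
theorem lintegral_scatE (hΦ : AdmissiblePotential Φ) (hm : Measurable (scatE Φ))
    {F : Space3 × Space3 → ℝ≥0∞} (hF : Measurable F) :
    ∫⁻ e, F (scatE Φ e) ∂flux = ∫⁻ e, F e ∂flux :=
  (measurePreserving_scatE hΦ hm).lintegral_comp hF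

/-- Exchange of incoming and outgoing data. -/
theorem lintegral_exchange (hΦ : AdmissiblePotential Φ) (hm : Measurable (scatE Φ))
    {F : (Space3 × Space3) × (Space3 × Space3) → ℝ≥0∞} (hF : Measurable F) :
    ∫⁻ e, F (e, scatE Φ e) ∂flux = ∫⁻ e, F (par (scatE Φ e), par e) ∂flux := by
  have h1 : MeasurePreserving (fun e => par (scatE Φ e)) flux flux :=
    measurePreserving_par.comp (measurePreserving_scatE hΦ hm)
  have h2 : Measurable (fun e : Space3 × Space3 => F (e, scatE Φ e)) :=
    hF.comp (measurable_id.prodMk hm)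
  rw [← h1.lintegral_comp h2]
  refine lintegral_congr_ae ?_
  filter_upwards [ae_FS] with e he
  rw [scatE_par_scatE hΦ he]

/-- Exchange of incoming and outgoing data, with time reversal instead of parity. -/
theorem lintegral_exchange_rev (hΦ : AdmissiblePotential Φ) (hm : Measurable (scatE Φ))
    {F : (Space3 × Space3) × (Space3 × Space3) → ℝ≥0∞} (hF : Measurable F) :
    ∫⁻ e, F (e, scatE Φ e) ∂flux = ∫⁻ e, F (rev (scatE Φ e), rev e) ∂flux := by
  have h1 : MeasurePreserving (fun e => rev (scatE Φ e)) flux flux :=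
    measurePreserving_rev.comp (measurePreserving_scatE hΦ hm)
  have h2 : Measurable (fun e : Space3 × Space3 => F (e, scatE Φ e)) :=
    hF.comp (measurable_id.prodMk hm)
  rw [← h1.lintegral_comp h2]
  refine lintegral_congr_ae ?_
  filter_upwards [ae_FS] with e he
  rw [scatE_rev_scatE hΦ he]

end Crest.Agent.R122.Flux663
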