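import Crest.Agent.R122.LinkGate2_424
import Crest.Agent.R122.VLMain_581
import Crest.Agent.R122.ClassVL_973
import Crest.Agent.R122.Q1Data_815

/-!
# Row 122, H11 (helper424): the gateway for forests

* `forNull_of_gNull` : `ForNull` from `GNull` for the laws `forM` of a forest.
* `forNull_of_det` : **the gateway for forests**: `ForNull` from the deterministic alternatives
  (long run from a group of the forest, bad partition, bad hit).
-/

set_option autoImplicit false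
set_option linter.unusedSectionVars false

open MeasureTheory Set Filter Topology
open scoped Classical ENNReal
open Crest.AnalysisR.Kinetic
open Crest.Agent.R122.GC311 Crest.Agent.R122.EDefs602 Crest.Agent.R122.LinkM547
open Crest.Agent.R122.LN2 Crest.Agent.R122.Loc45 Crest.Agent.R122.Kin796
open Crest.Agent.R122.Ret424 Crest.Agent.R122.DomForest998
open Crest.Agent.R122.RtG302 (AllOk)
open Crest.Agent.R122.Forest399 (FIdx FPar flines flinesM FValid FVS flinesM_of_valid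
  measurable_flinesM)
open Crest.Agent.R122.Final973 (PerpC)

noncomputable section

namespace Crest.Agent.R122.Gate424

variable {Φ : Space3 → ℝ} {f₀ : PhasePoint → ℝ} {T : ℝ} {s : ℕ} {Ps : Fin s → CTree}

/-- `ForNull` from `GNull` for the laws of a forest. -/
theorem forNull_of_gNull (hΦ : AdmissiblePotential Φ) (hf : Measurable f₀)
    {E : (ε t : ℝ) → (m : ℕ) → FPar Ps → Config m → Prop}
    (h : GNull f₀ (fun ε (t : Icc (0 : ℝ) T) => forM Φ f₀ ε Ps t) (fun ε t n q w =>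
      q ∈ FVS Φ ε Ps t ∧ PerpC ε (flines Φ ε Ps q) w ∧ AllOk Φ ε w (fexL Φ ε Ps q) ∧
        E ε t n q w)) : ForNull Φ f₀ T Ps E := by
  intro δ hδ
  obtain ⟨ε₀, h0, h⟩ := h (ENNReal.ofReal δ) (ENNReal.ofReal_pos.2 hδ)
  refine ⟨ε₀, h0, fun ε hε hlt t ht => ?_⟩
  obtain ⟨G, hGm, hG, hGi⟩ := h ε hε hlt ⟨t, ht⟩
  refine ⟨G, hGm, fun m q w hq hw hp hok hE => hG m q w hw ⟨hq, hp, hok, hE⟩, ?_⟩
  rw [← lintegral_forM hΦ hf hε Ps t
    (Final973.measurable_gcE_param (F := fun q m w => G m (q, w)) hf fun m => hGm m)]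
  exact hGi

/-- The structure map of a forest: births `0`. -/
abbrev b0 (Ps : Fin s → CTree) : FIdx Ps → ℝ := fun _ => 0

/-- **The gateway for forests.** -/
theorem forNull_of_det {β : ℝ} {f : ℝ → PhasePoint → ℝ} (hD : Master566.KData Φ β T f₀ f)
    {K : ℕ} {E : (ε t : ℝ) → (m : ℕ) → FPar Ps → Config m → Prop}
    {Ht : ℕ → ℝ → Icc (0 : ℝ) T → (n : ℕ) → FPar Ps → Config n → Prop}
    (hdet : ∀ L : ℕ, ∃ (N : ℕ) (C : ℝ), ∀ R > 0, ∀ ς > 0, ∃ ε₁ : ℝ, 0 < ε₁ ∧ ∀ ε : ℝ, 0 < ε →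
      ε < ε₁ → ∀ (t : Icc (0 : ℝ) T) (n : ℕ) (q : FPar Ps) (w : Config n),
        w ∈ PairExcluded ε n → q ∈ FVS Φ ε Ps t → PerpC ε (flines Φ ε Ps q) w →
        AllOk Φ ε w (fexL Φ ε Ps q) → E ε t n q w →
        RunS Φ ε t K L (b0 Ps) (flines Φ ε Ps q) w ∨
          BadGas Φ T C R ς ε N s Finset.univ (b0 Ps) (flines Φ ε Ps q) w ∨ Ht L ε t n q w)
    (hhit : ∀ L, GNull f₀ (fun ε (t : Icc (0 : ℝ) T) => forM Φ f₀ ε Ps t) (Ht L)) :
    ForNull Φ f₀ T Ps E := by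
  have hΦ := hD.adm
  have hf : Measurable f₀ := hD.contDiff.continuous.measurable
  have hβ := hD.beta_pos
  have h1 : ∫⁻ z, ENNReal.ofReal (f₀ z) ≤ 1 := (Q1815.lintegral_mass hD).le
  obtain ⟨C₀, hC₀, hb⟩ := exists_gaussian_bound hD.gaussian
  obtain ⟨ρ, Ce, he⟩ := LN2.exists_env (γ := 2 * β) (γ' := β) (by linarith) hD.gaussian
  obtain ⟨M, hM, hmom⟩ := exists_forest_exp hΦ hf hD.gaussian (a := β) (by linarith) Ps T
  refine forNull_of_gNull hΦ hf ?_
  refine gNull_of_det (κ := FIdx Ps) (T := T) (γ := β) (ρ := ρ) (C₀ := Ce) (s := s)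
    (c := Ce ^ Fintype.card (FIdx Ps)) (b := fun _ _ _ => b0 Ps)
    (z := fun ε _ q => flinesM Φ ε Ps q)
    (Rn := fun L ε t n q w => RunS Φ ε t K L (b0 Ps) (flinesM Φ ε Ps q) w) (Ht := Ht)
    (VLMeas973.classNull_of_vl hΦ hD.T_pos (VL581.vl hΦ)) hf h1 he hβ ?_ Finset.univ
    (ENNReal.pow_ne_top he.fin) (Measure.dirac fun _ : FIdx Ps => (0 : ℝ))
    (fun ε t => inferInstance) (fun ε t hε => dom_forest hΦ hf he hε Ps t) ?_ ?_ hhit
  · rw [card_FIdx]
    omega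
  · intro L
    obtain ⟨N, C, h⟩ := hdet L
    refine ⟨N, C, fun R hR ς hς => ?_⟩
    obtain ⟨ε₁, h0, h⟩ := h R hR ς hς
    refine ⟨ε₁, h0, fun ε hε hlt t n q w hw hE => ?_⟩
    obtain ⟨hq, hp, hok, hE⟩ := hE
    have h2 := h ε hε hlt t n q w hw hq hp hok hE
    rw [← flinesM_of_valid hq.1] at h2
    exact h2
  · intro δ hδ
    obtain ⟨L₀, hL₀⟩ := gLe_runS (m := fun ε (t : Icc (0 : ℝ) T) => forM Φ f₀ ε Ps t)
      (b := fun _ _ _ => b0 Ps) (z := fun ε _ q => flinesM Φ ε Ps q) hΦ hβ hD.T_pos.le hC₀ K hf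
      (fun z => (le_abs_self _).trans (hb z.1 z.2)) h1
      (t := fun t : Icc (0 : ℝ) T => (t : ℝ)) (fun t => t.2.2)
      (fun _ _ _ => measurable_const) (fun ε _ _ => measurable_flinesM hΦ ε Ps) hM
      (fun ε t hε => by
        have h3 := lintegral_forM hΦ hf hε Ps t (G := fun q => expW β (flinesM Φ ε Ps q))
          ((LN2.measurable_expW β).comp (measurable_flinesM hΦ ε Ps))
        exact h3.le.trans (hmom ε t hε t.2.2)) hδ
    exact ⟨L₀, hL₀ L₀ le_rfl⟩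

end Crest.Agent.R122.Gate424

end
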