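import Crest.Agent.R122.TransOk_151
import Crest.Agent.R122.LNTreeA_410
import Crest.Agent.R122.RetNull_424

/-!
# Row 122 (helper424): `ForOk`: almost surely the worlds with exit lines of a forest are good

* `exit_of_window` : at the release time the partner of the last collision is at distance exactly
  `ε` and moves away.
* `rel_forest` : release data (helper151's `Rel`) of the exit lines of a valid separated forest.
* `forOk` : **`ForOk Φ T`** for every admissible potential.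
-/

set_option autoImplicit false
set_option linter.unusedSectionVars false

open MeasureTheory Set Filter Topology
open scoped ENNReal
open Crest.AnalysisR.Kinetic
open Crest.Agent.R122.Flow671 (Dom flow)
open Crest.Agent.R122.Loc45 Crest.Agent.R122.EDefs602
open Crest.Agent.R122.Kin796 Crest.Agent.R122.Kin796.CTree Crest.Agent.R122.Tree674
open Crest.Agent.R122.Disc416
open Crest.Agent.R122.TreeLines335 Crest.Agent.R122.GC311
open Crest.Agent.R122.TransOk151
open Crest.Agent.R122.RtG302 (AllOk)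
open Crest.Agent.R122.Forest399 (FIdx FPar flines fpath FValid FSep FVS)
open Crest.Agent.R122.Final973 (PerpC)

noncomputable section

open scoped Classical

namespace Crest.Agent.R122.Ret424

variable {Φ : Space3 → ℝ} {ε : ℝ} {s : ℕ} {Ps : Fin s → CTree} {t T : ℝ} {q : FPar Ps}

/-! ### The last collision -/

theorem exit_top (hε : 0 < ε) {ℓ : PhasePoint} {a : NodeP} (hA : Adm1 Φ ℓ.2 a) :
    dist (onLine ℓ a.1).1 (onLine (outLine ε ℓ a) a.1).1 = ε ∧
      0 < inner ℝ ((onLine ℓ a.1).1 - (onLine (outLine ε ℓ a) a.1).1)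
        ((onLine ℓ a.1).2 - (onLine (outLine ε ℓ a) a.1).2) := by
  refine ⟨Final973.dist_out hε hA ℓ rfl, ?_⟩
  obtain ⟨hb, hg⟩ := TreeEps399.adm1_disc hA
  have e1 : (onLine ℓ a.1).1 - (onLine (outLine ε ℓ a) a.1).1 =
      ε • (-entrancePoint (nb ℓ.2 a) (ng ℓ.2 a)) := by
    simp only [onLine, outLine]
    module
  have e2 : (onLine ℓ a.1).2 - (onLine (outLine ε ℓ a) a.1).2 = ng ℓ.2 a := by
    simp only [onLine, outLine, ng]
  rw [e1, e2, real_inner_smul_left, inner_neg_left]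
  have := Scat818.inner_entrance_neg hb hg
  have h2 : 0 < -inner ℝ (entrancePoint (nb ℓ.2 a) (ng ℓ.2 a)) (ng ℓ.2 a) := by linarith
  exact mul_pos hε h2

/-- **At the release time the partner of the last collision is at distance exactly `ε` and moves
away.** -/
theorem exit_of_window (hε : 0 < ε) : ∀ (P : CTree) (T : ℝ) (ℓ : PhasePoint) (p : Par P),
    Valid Φ ε P T ℓ.2 p → ∀ (i j : Idx P) (u : ℝ), InWindow Φ ε P ℓ.2 p i j u →
      (u = rel P p i ∨ u = rel P p j) →
      dist (path Φ ε P ℓ p u i).1 (path Φ ε P ℓ p u j).1 = ε ∧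
        0 < inner ℝ ((path Φ ε P ℓ p u i).1 - (path Φ ε P ℓ p u j).1)
          ((path Φ ε P ℓ p u i).2 - (path Φ ε P ℓ p u j).2)
  | leaf, _, _, _, _, _, _, _, h, _ => h.elim
  | node l r, T, ℓ, p, hv, i, j, u, h, hu => by
      have h1 := PathFlow968.sin_le hε.le ℓ.2 p.1 (Φ := Φ)
      have h1' := PathFlow968.sin_lt hε hv.1.1 (Φ := Φ)
      rcases h with ⟨rfl, rfl, -, hle⟩ | ⟨i', j', rfl, rfl, h⟩ | ⟨i', j', rfl, rfl, h⟩
      · have hu' : u = p.1.1 := by
          rcases hu with hu | hu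
          · simpa only [rel, Sum.elim_inl, if_true] using hu
          · simpa only [rel, Sum.elim_inr, if_true] using hu
        subst hu'
        rw [Final973.path_node_of_lt h1', TreeEps399.colPath_out le_rfl]
        simp only [Sum.elim_inl, Sum.elim_inr, Function.update_self]
        exact exit_top hε hv.1.1
      · have hO := (PathFlow968.Valid.left hv).2
        have h3 := (PathFlow968.InWindow.mem hε.le l _ _ p.2.1 hO i' j' u h).2
        have hu' : u = rel l p.2.1 i' ∨ u = rel l p.2.1 j' := by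
          simp only [rel, Sum.elim_inl] at hu
          rcases hu with hu | hu
          · left
            by_cases hi : i' = root l
            · rw [if_pos hi] at hu
              exact absurd (h3.trans_le h1) (by rw [hu]; exact lt_irrefl _)
            · rwa [if_neg hi] at hu
          · right
            by_cases hi : j' = root l
            · rw [if_pos hi] at hu
              exact absurd (h3.trans_le h1) (by rw [hu]; exact lt_irrefl _)
            · rwa [if_neg hi] at hu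
        rw [Final973.path_node_of_le h3.le]
        simp only [Sum.elim_inl]
        exact exit_of_window hε l _ (inMap Φ ε ℓ p.1).1 p.2.1 (PathFlow968.Valid.left hv) i' j' u h hu'
      · have hO := (PathFlow968.Valid.right hv).2
        have h3 := (PathFlow968.InWindow.mem hε.le r _ _ p.2.2 hO i' j' u h).2
        have hu' : u = rel r p.2.2 i' ∨ u = rel r p.2.2 j' := by
          simp only [rel, Sum.elim_inr] at hu
          rcases hu with hu | hu
          · left
            by_cases hi : i' = root r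
            · rw [if_pos hi] at hu
              exact absurd (h3.trans_le h1) (by rw [hu]; exact lt_irrefl _)
            · rwa [if_neg hi] at hu
          · right
            by_cases hi : j' = root r
            · rw [if_pos hi] at hu
              exact absurd (h3.trans_le h1) (by rw [hu]; exact lt_irrefl _)
            · rwa [if_neg hi] at hu
        rw [Final973.path_node_of_le h3.le]
        simp only [Sum.elim_inr]
        exact exit_of_window hε r _ (inMap Φ ε ℓ p.1).2 p.2.2 (PathFlow968.Valid.right hv) i' j' u h hu'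

theorem inner_swap (a b c d : Space3) :
    inner ℝ (a - b) (c - d) = (inner ℝ (b - a) (d - c) : ℝ) := by
  rw [← neg_sub a b, ← neg_sub c d, inner_neg_neg]

/-- **The exit data of a released particle of a tree.** -/
theorem exists_exitT (hε : 0 < ε) {P : CTree} {T : ℝ} {ℓ : PhasePoint} {p : Par P}
    (hv : Valid Φ ε P T ℓ.2 p) {i : Idx P} (hi : i ≠ root P) :
    ∃ j, j ≠ i ∧ dist (path Φ ε P ℓ p (rel P p i) i).1 (path Φ ε P ℓ p (rel P p i) j).1 = ε ∧
      0 < inner ℝ ((path Φ ε P ℓ p (rel P p i) i).1 - (path Φ ε P ℓ p (rel P p i) j).1)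
        ((path Φ ε P ℓ p (rel P p i) i).2 - (path Φ ε P ℓ p (rel P p i) j).2) := by
  have hP : P ≠ leaf := by
    rintro rfl
    exact hi rfl
  obtain ⟨j, hj, h | h⟩ := LNTree410.exists_window_rel (Φ := Φ) hε.le P ℓ.2 p hP i
  · exact ⟨j, hj, exit_of_window hε P T ℓ p hv i j _ h (Or.inl rfl)⟩
  · obtain ⟨h1, h2⟩ := exit_of_window hε P T ℓ p hv j i _ h (Or.inr rfl)
    exact ⟨j, hj, by rwa [dist_comm], by rwa [inner_swap]⟩

/-- Two particles of a tree at a release time of one of them. -/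
theorem startSep_tree (hε : 0 < ε) {P : CTree} {T : ℝ} {ℓ : PhasePoint} {p : Par P}
    (hv : Valid Φ ε P T ℓ.2 p) (hs : Sep Φ ε P T ℓ p) {i j : Idx P} (hij : i ≠ j) {u : ℝ}
    (hu : u ∈ Icc 0 T) (h : u = rel P p i ∨ u = rel P p j) :
    StartSep ε (path Φ ε P ℓ p u i) (path Φ ε P ℓ p u j) := by
  by_cases h1 : InWindow Φ ε P ℓ.2 p i j u
  · exact Or.inr (exit_of_window hε P T ℓ p hv i j u h1 h)
  · by_cases h2 : InWindow Φ ε P ℓ.2 p j i u
    · obtain ⟨h3, h4⟩ := exit_of_window hε P T ℓ p hv j i u h2 h.symm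
      exact Or.inr ⟨by rwa [dist_comm], by rwa [inner_swap]⟩
    · exact Or.inl (hs i j hij u hu h1 h2)

/-! ### Forests -/

theorem flow_flines (hΦ : AdmissiblePotential Φ) (hε : 0 < ε) (hv : FValid Φ ε Ps t q)
    (hs : FSep Φ ε Ps t q) {u : ℝ} (hu : u ∈ Icc 0 t) :
    flow Φ ε u (flines Φ ε Ps q) = fpath Φ ε Ps q u := Final973.pth_flines hΦ hε hv hs hu

theorem rel_mem (hε : 0 < ε) (hT : 0 ≤ t) (hv : FValid Φ ε Ps t q) {k : FIdx Ps}
    (hk : k.2 ≠ root (Ps k.1)) : rel (Ps k.1) (q k.1).2 k.2 ∈ Icc 0 t := by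
  rw [rel_eq_prot (Ps k.1) t (q k.1).2 k.2 hk]
  exact ⟨Final973.prot_nonneg' hε.le hT hv k, Final973.prot_le' hε.le hv k⟩

/-- **Release data of the exit lines of a forest.** -/
theorem rel_forest (hΦ : AdmissiblePotential Φ) (hε : 0 < ε) (ht : 0 ≤ t)
    (hv : FValid Φ ε Ps t q) (hs : FSep Φ ε Ps t q) :
    Rel ε (fun _ => 0) (range (Subtype.val : FEx Ps → FIdx Ps))
      (fun k => rel (Ps k.1) (q k.1).2 k.2) t (fun u => flow Φ ε u (flines Φ ε Ps q)) := by
  have hm : ∀ x : FEx Ps, rel (Ps x.1.1) (q x.1.1).2 x.1.2 ∈ Icc 0 t := fun x =>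
    rel_mem hε ht hv x.2
  refine ⟨?_, ?_, ?_, ?_, ?_⟩
  · rintro _ ⟨x, rfl⟩
    exact rel_pos hε.le (hv x.1.1).2 x.1.2 x.2
  · rintro _ ⟨x, rfl⟩
    exact (hm x).2
  · rintro _ ⟨x, rfl⟩
    exact (hm x).1
  · rintro _ ⟨x, rfl⟩
    obtain ⟨j, hj, h1, h2⟩ := exists_exitT hε (hv x.1.1) (ℓ := (q x.1.1).1) x.2
    refine ⟨⟨x.1.1, j⟩, fun h => hj ?_, (hm x).1, ?_, ?_⟩
    · exact eq_of_heq (Sigma.mk.inj_iff.1 h).2
    · rw [flow_flines hΦ hε hv hs (hm x)]
      exact h1
    · rw [flow_flines hΦ hε hv hs (hm x)]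
      exact h2
  · rintro _ ⟨x, rfl⟩ u hu j hj -
    have hu' : u ∈ Icc 0 t := ⟨(hm x).1.trans hu.1.le, hu.2⟩
    simp only [flow_flines hΦ hε hv hs hu']
    obtain ⟨i, j⟩ := j
    by_cases hii : x.1.1 = i
    · subst hii
      have hj' : j ≠ x.1.2 := fun h => hj (by rw [h])
      exact LNTree410.lt_dist_of_rel hε.le (hv x.1.1).2 (hs.1 x.1.1) hj' hu.1 hu.2
    · exact hs.2 x.1.1 i hii x.1.2 j u hu'

/-- The states of the exit lines. -/
theorem fexL_eq (hΦ : AdmissiblePotential Φ) (hε : 0 < ε) (ht : 0 ≤ t)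
    (hv : FValid Φ ε Ps t q) (hs : FSep Φ ε Ps t q) (x : FEx Ps) :
    (fexL Φ ε Ps q x).1 = (rel (Ps x.1.1) (q x.1.1).2 x.1.2,
      flow Φ ε (rel (Ps x.1.1) (q x.1.1).2 x.1.2) (flines Φ ε Ps q) x.1) := by
  rw [flow_flines hΦ hε hv hs (rel_mem hε ht hv x.2)]
  refine Prod.ext rfl ?_
  show onLine _ _ = path Φ ε (Ps x.1.1) (q x.1.1).1 (q x.1.1).2 _ x.1.2
  rw [LNTree410.path_rel hε (Ps x.1.1) t (q x.1.1).1 (q x.1.1).2 (hv x.1.1) x.1.2 _ le_rfl]

theorem startSep_forest (hΦ : AdmissiblePotential Φ) (hε : 0 < ε) (ht : 0 ≤ t)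
    (hv : FValid Φ ε Ps t q) (hs : FSep Φ ε Ps t q) (x y : FEx Ps) (hxy : x ≠ y)
    (h : (fexL Φ ε Ps q x).1.1 = (fexL Φ ε Ps q y).1.1) :
    StartSep ε (fexL Φ ε Ps q x).1.2 (fexL Φ ε Ps q y).1.2 := by
  have h' : rel (Ps x.1.1) (q x.1.1).2 x.1.2 = rel (Ps y.1.1) (q y.1.1).2 y.1.2 := h
  have hx := rel_mem hε ht hv x.2
  rw [fexL_eq hΦ hε ht hv hs x, fexL_eq hΦ hε ht hv hs y, ← h', flow_flines hΦ hε hv hs hx]
  obtain ⟨⟨i, j⟩, hj⟩ := x
  obtain ⟨⟨i', j'⟩, hj'⟩ := y
  by_cases hii : i = i'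
  · subst hii
    have hne : j ≠ j' := fun hh => hxy (by subst hh; rfl)
    exact startSep_tree hε (hv i) (hs.1 i) hne hx (Or.inl rfl)
  · exact Or.inl (hs.2 i i' hii j j' _ hx)

/-- A null property of the initial configuration of a forest. -/
theorem ae_flines (hΦ : AdmissiblePotential Φ) (hε : 0 < ε) (Ps : Fin s → CTree) (t : ℝ)
    {G : (FIdx Ps → PhasePoint) → Prop} (hG : ∀ᵐ V : FIdx Ps → PhasePoint, G V) :
    ∀ᵐ q : FPar Ps, q ∈ FVS Φ ε Ps t → (∏ i, wt Φ (Ps i) (q i).1.2 (q i).2) ≠ 0 →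
      G (flines Φ ε Ps q) := by
  obtain ⟨N, hN, hNm, hN0⟩ := exists_measurable_superset_of_null (ae_iff.1 hG)
  have h1 := Forest399.forestMeasure_sep hΦ hε Ps t
    (H := fun z : FPar Ps × (FIdx Ps → PhasePoint) => N.indicator 1 z.2)
    ((measurable_one.indicator hNm).comp measurable_snd)
  have h2 : ∫⁻ V : FIdx Ps → PhasePoint, (Forest399.FSkelS Φ ε Ps t).indicator
      (fun V => N.indicator 1 V) V ≤ 0 := by
    calc ∫⁻ V : FIdx Ps → PhasePoint, (Forest399.FSkelS Φ ε Ps t).indicator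
          (fun V => N.indicator 1 V) V ≤ ∫⁻ V : FIdx Ps → PhasePoint, N.indicator 1 V :=
          lintegral_mono fun V => indicator_le_self _ _ _
      _ = 0 := by rw [lintegral_indicator_one hNm, hN0]
  have h3 : ∫⁻ q : FPar Ps, (FVS Φ ε Ps t).indicator
      (fun q => (∏ i, wt Φ (Ps i) (q i).1.2 (q i).2) * N.indicator 1 (flines Φ ε Ps q)) q = 0 := by
    have h4 := h1.trans_le h2
    rw [nonpos_iff_eq_zero, mul_eq_zero] at h4
    rcases h4 with h4 | h4
    · exact absurd h4 (pow_ne_zero _ (ENNReal.ofReal_pos.2 (by positivity)).ne')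
    · exact h4
  have hm : Measurable fun q : FPar Ps => (FVS Φ ε Ps t).indicator
      (fun q => (∏ i, wt Φ (Ps i) (q i).1.2 (q i).2) * N.indicator 1 (flines Φ ε Ps q)) q := by
    have h := Final973.measurable_FVS_ind (G := N.indicator 1) (H := fun _ => 1) hΦ hε Ps t
      (measurable_one.indicator hNm) measurable_const
    simpa only [mul_one] using h
  have h5 := (lintegral_eq_zero_iff hm).1 h3
  filter_upwards [h5] with q hq hqV hwt
  by_contra hcon
  have hmem : flines Φ ε Ps q ∈ N := hN hcon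
  have h6 : (∏ i, wt Φ (Ps i) (q i).1.2 (q i).2) * N.indicator 1 (flines Φ ε Ps q) = 0 := by
    have h7 := hq
    simp only [Pi.zero_apply] at h7
    rwa [indicator_of_mem hqV] at h7
  rw [indicator_of_mem hmem, Pi.one_apply, mul_one] at h6
  exact hwt h6

/-- **Almost surely all the worlds with exit lines of a forest are good.** -/
theorem forOk (hΦ : AdmissiblePotential Φ) (T : ℝ) : ForOk Φ T := by
  intro s Ps ε hε t ht
  have h1 : ∀ᵐ V : FIdx Ps → PhasePoint, ∀ n : ℕ, ∀ᵐ w : Config n, w ∈ PairExcluded ε n →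
      ∀ (σ : FIdx Ps → ℝ) (T : ℝ) (κ : Type) [Fintype κ] (j : κ → FIdx Ps) (ls : κ → ML),
      Function.Injective j → Rel ε (fun _ => 0) (range j) σ T (fun t => flow Φ ε t V) →
      (∀ x, (ls x).1 = (σ (j x), flow Φ ε (σ (j x)) V (j x))) →
      (∀ x y, x ≠ y → (ls x).1.1 = (ls y).1.1 → StartSep ε (ls x).1.2 (ls y).1.2) →
      MW.OkFam Φ ε (MW.cfg w) ls := by
    rw [ae_all_iff]
    intro n
    exact Measure.ae_ae_of_ae_prod (ae_okFam_cfg (α := FIdx Ps) hΦ hε n)
  filter_upwards [ae_flines hΦ hε Ps t h1] with q hq hqV hwt n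
  filter_upwards [hq hqV hwt n] with w hw hwE _
  exact hw hwE (fun k => rel (Ps k.1) (q k.1).2 k.2) t (FEx Ps) Subtype.val (fexL Φ ε Ps q)
    Subtype.val_injective (rel_forest hΦ hε ht.1 hqV.1 hqV.2)
    (fexL_eq hΦ hε ht.1 hqV.1 hqV.2) (startSep_forest hΦ hε ht.1 hqV.1 hqV.2)

end Crest.Agent.R122.Ret424

end
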