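import Crest.Agent.R122.LNPart_424
import Crest.Agent.R122.PWInst2_442
import Crest.Agent.R122.ForGate_424

/-!
# Row 122, LN1 (helper424): a forest and the gas as a virtual system

* `fM`, `fZ`, `fe`, `fΛ` : the virtual system of the gas `w` and the forest `q`, its parts.
* `forest` : `Forest` (helper442); `parts` : `LN304.Parts`; `sparts` : `SParts`.
* `gd0`, `gd1` : the data of the glued worlds of `cfg w` and `(cfg w).ins l`, `l` an exit line.
-/

set_option autoImplicit false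
set_option linter.unusedSectionVars false

open MeasureTheory Set Filter Topology
open scoped Classical ENNReal
open Crest.AnalysisR.Kinetic
open Crest.Agent.R122.VL581 Crest.Agent.R122.EDefs602
open Crest.Agent.R122.Kin796 Crest.Agent.R122.Kin796.CTree Crest.Agent.R122.Tree674
open Crest.Agent.R122.TreeLines335 Crest.Agent.R122.LNTree410 Crest.Agent.R122.PWInst442
open Crest.Agent.R122.PWGlue491 Crest.Agent.R122.LN304
open Crest.Agent.R122.LNPart424 Crest.Agent.R122.Ret424 Crest.Agent.R122.Gate424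
open Crest.Agent.R122.RtG302 (AllOk)
open Crest.Agent.R122.Forest399 (FIdx FPar flines FValid FVS)

noncomputable section

namespace Crest.Agent.R122.LNFor424

variable {Φ : Space3 → ℝ} {ε t : ℝ} {s n : ℕ} {Ps : Fin s → CTree} {q : FPar Ps} {w : Config n}

/-- Labels: gas particles and the particles of the forest. -/
abbrev FJ (n : ℕ) (Ps : Fin s → CTree) : Type := Fin n ⊕ FIdx Ps

/-- The virtual system of the gas and the forest. -/
abbrev fM (Φ : Space3 → ℝ) (ε t : ℝ) (n : ℕ) (Ps : Fin s → CTree) : VSys (FJ n Ps) Unit :=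
  gsys Φ t ε n (b0 Ps)

/-- The states at time `0`. -/
abbrev fZ (Φ : Space3 → ℝ) (ε : ℝ) (q : FPar Ps) (w : Config n) : FJ n Ps → PhasePoint :=
  Sum.elim w (flines Φ ε Ps q)

/-- The labels of the tree `i`. -/
def fe (n : ℕ) (Ps : Fin s → CTree) (i : Fin s) : Idx (Ps i) ↪ FJ n Ps where
  toFun j := Sum.inr ⟨i, j⟩
  inj' j k h := by
    have h1 := Sum.inr_injective h
    simpa using h1

@[simp] theorem fe_apply (i : Fin s) (j : Idx (Ps i)) : fe n Ps i j = Sum.inr ⟨i, j⟩ := rfl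

/-- The labels of the gas. -/
def fg (n : ℕ) (Ps : Fin s → CTree) : Fin n ↪ FJ n Ps := ⟨Sum.inl, Sum.inl_injective⟩

@[simp] theorem fg_apply (i : Fin n) : fg n Ps i = Sum.inl i := rfl

/-- The parts. -/
def fΛ (n : ℕ) (Ps : Fin s → CTree) : Finset (Finset (FJ n Ps)) :=
  Finset.univ.image fun i => part (fe n Ps i)

theorem mem_fΛ {π : Finset (FJ n Ps)} : π ∈ fΛ n Ps ↔ ∃ i, part (fe n Ps i) = π := by
  simp [fΛ]

theorem part_mem (i : Fin s) : part (fe n Ps i) ∈ fΛ n Ps := mem_fΛ.2 ⟨i, rfl⟩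

theorem mem_part_fe {i : Fin s} {x : FJ n Ps} :
    x ∈ part (fe n Ps i) ↔ ∃ j, x = Sum.inr ⟨i, j⟩ := by
  rw [mem_part]
  exact ⟨fun ⟨j, h⟩ => ⟨j, h.symm⟩, fun ⟨j, h⟩ => ⟨j, h.symm⟩⟩

theorem inl_notMem_part (i : Fin s) (k : Fin n) : (Sum.inl k : FJ n Ps) ∉ part (fe n Ps i) := by
  rw [mem_part_fe]
  rintro ⟨j, h⟩
  cases h

theorem inr_mem_part {i : Fin s} {k : FIdx Ps} :
    (Sum.inr k : FJ n Ps) ∈ part (fe n Ps i) ↔ k.1 = i := by
  rw [mem_part_fe]
  constructor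
  · rintro ⟨j, h⟩
    rw [Sum.inr_injective h]
  · rintro rfl
    exact ⟨k.2, rfl⟩

theorem mem_uni_fΛ {x : FJ n Ps} : x ∈ uni (fΛ n Ps) ↔ ∃ k, x = Sum.inr k := by
  rw [mem_uni]
  constructor
  · rintro ⟨π, hπ, hx⟩
    obtain ⟨i, rfl⟩ := mem_fΛ.1 hπ
    obtain ⟨j, rfl⟩ := mem_part_fe.1 hx
    exact ⟨_, rfl⟩
  · rintro ⟨k, rfl⟩
    exact ⟨_, part_mem k.1, inr_mem_part.2 rfl⟩

/-- The forest sits in the virtual system. -/
theorem forest (hq : q ∈ FVS Φ ε Ps t) :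
    Forest (fM Φ ε t n Ps) (fZ Φ ε q w) Ps q (fe n Ps) where
  tree i := {
    b := fun _ => le_rfl
    Z := fun _ => rfl
    o := fun _ => by simp [VLMeas973.vsys]
    valid := hq.1 i
    sep := hq.2.1 i }
  disj i i' hii x y h := by
    have h1 := Sum.inr_injective h
    exact hii (congrArg Sigma.fst h1)

theorem Sp_inl (i : Fin n) : Sp (fe n Ps) (Sum.inl i) = ∅ :=
  Sp_empty fun a => inl_notMem_part a i

theorem Sp_inr (hq : q ∈ FVS Φ ε Ps t) (k : FIdx Ps) :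
    Sp (fe n Ps) (Sum.inr k) = part (fe n Ps k.1) :=
  (forest (n := n) (w := fun _ => 0) hq).Sp_of_mem (inr_mem_part.2 rfl)

/-- Admissible structure parts. -/
theorem sparts : SParts s (Finset.univ : Finset (FIdx Ps)) (fΛ n Ps) where
  disj π hπ π' hπ' hne := by
    obtain ⟨i, rfl⟩ := mem_fΛ.1 hπ
    obtain ⟨i', rfl⟩ := mem_fΛ.1 hπ'
    rw [Finset.disjoint_left]
    intro x hx hx'
    obtain ⟨j, rfl⟩ := mem_part_fe.1 hx
    have h1 : i = i' := inr_mem_part.1 hx'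
    exact hne (by rw [h1])
  cov y := ⟨_, part_mem y.1, inr_mem_part.2 rfl⟩
  anch π hπ := by
    obtain ⟨i, rfl⟩ := mem_fΛ.1 hπ
    exact ⟨⟨i, root (Ps i)⟩, Finset.mem_univ _, inr_mem_part.2 rfl⟩
  card := Finset.card_image_le.trans (by simp)

variable (hΦ : AdmissiblePotential Φ) (hε : 0 < ε)
include hΦ hε

/-- The parts are connected. -/
theorem conn_parts {c : ℝ} (hc : 1 ≤ c) (hq : q ∈ FVS Φ ε Ps t) (π : Finset (FJ n Ps))
    (hπ : π ∈ fΛ n Ps) : (fM Φ ε t n Ps).Conn c π (fZ Φ ε q w) := by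
  obtain ⟨i, rfl⟩ := mem_fΛ.1 hπ
  exact ((forest hq).tree i).Conn_tree hΦ hε le_rfl hc

/-- **The parts of the forest** in the sense of helper304. -/
theorem parts {c : ℝ} (hc : 1 ≤ c) (hq : q ∈ FVS Φ ε Ps t) (hw : w ∈ PairExcluded ε n) :
    Parts (fM Φ ε t n Ps) c (fZ Φ ε q w) (fΛ n Ps) where
  conn := conn_parts hΦ hε hc hq
  gas_o i _ := by simp [VLMeas973.vsys]
  gas_b i hi := by
    rcases i with i | k
    · exact le_rfl
    · exact absurd (inr_mem_part.2 rfl) (hi _ (part_mem k.1))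
  gas_sep i j hi hj hij := by
    rcases i with i | k
    · rcases j with j | k
      · exact hw i j fun h => hij (by rw [h])
      · exact absurd (inr_mem_part.2 rfl) (hj _ (part_mem k.1))
    · exact absurd (inr_mem_part.2 rfl) (hi _ (part_mem k.1))

/-- The glued world of the gas. -/
theorem gd0 (ht : 0 ≤ t) (hq : q ∈ FVS Φ ε Ps t) (hW : (MW.cfg w).Ok Φ ε) :
    GD (fM Φ ε t n Ps) (fZ Φ ε q w) (Sp (fe n Ps)) (bD (MW.cfg w) (fg n Ps)) (labs (fg n Ps))
      (XD (MW.cfg w) (fg n Ps) Φ ε) :=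
  gd_of_lab (M := fM Φ ε t n Ps) hΦ hε (cover_forest hΦ hε ht (forest hq)) hW
    (lab_cfg (fun i => Sp_inl i) (fun i => by simp [VLMeas973.vsys]) (fun i => le_rfl)
      fun i => rfl)

/-- The labels of `(cfg w).ins l`, `l` the line of the label `k` of the forest. -/
abbrev fgx (n : ℕ) (k : FIdx Ps) : Fin n ⊕ Unit ↪ FJ n Ps :=
  insF (fg n Ps) (Sum.inr k) fun i h => by cases h

/-- The glued world of the gas and an exit line. -/
theorem gd1 (ht : 0 < t) (hq : q ∈ FVS Φ ε Ps t) (k : FIdx Ps)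
    (hW : ((MW.cfg w).ins (lineML Φ ε (Ps k.1) (q k.1) k.2)).Ok Φ ε) :
    GD (fM Φ ε t n Ps) (fZ Φ ε q w) (Sp (fe n Ps))
      (bD ((MW.cfg w).ins (lineML Φ ε (Ps k.1) (q k.1) k.2)) (fgx n k)) (labs (fgx n k))
      (XD ((MW.cfg w).ins (lineML Φ ε (Ps k.1) (q k.1) k.2)) (fgx n k) Φ ε) :=
  gd_of_lab (M := fM Φ ε t n Ps) hΦ hε (cover_forest hΦ hε ht.le (forest hq)) hW
    (lab_ins (lab_cfg (fun i => Sp_inl i) (fun i => by simp [VLMeas973.vsys])
      (fun i => le_rfl) fun i => rfl) (fun i h => by cases h)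
      (lab_lineML hΦ hε ht (forest hq) k.1 k.2))

end Crest.Agent.R122.LNFor424

end
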