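import Crest.Agent.R122.LNBind_302
import Crest.Agent.R122.LNRetT_383
import Crest.Agent.R122.LNForest_424
import Crest.Agent.R122.ForGate2_424

/-!
# Row 122, EVENTS for forests (helper726): no returns of exit lines to the trees of a forest

Generic part: a tree `TreeIn` (helper410) as a part of an arbitrary virtual system `M`, arbitrary base
world `Z` on the labels.

* `partR_tree`, `exits_apart_tree` : two exits of one tree do not meet.
* `not_retA_own`, `not_retB_own` : no return of an exit (its influence) to the protected tubes of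
  its own tree; `not_retA_other`, `not_retB_other` : to the tubes of another tree.
* `not_retEv` : the event `RetEv` of helper424 for a forest.
-/

set_option autoImplicit false
set_option linter.unusedSectionVars false

open MeasureTheory Set Filter Topology
open Crest.AnalysisR.Kinetic
open Crest.Agent.R122.GIV566 Crest.Agent.R122.VL581 Crest.Agent.R122.LNg410
open Crest.Agent.R122.LN304 Crest.Agent.R122.Ins45
open Crest.Agent.R122.Inf879 Crest.Agent.R122.EDefs602 Crest.Agent.R122.MWFam255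
open Crest.Agent.R122.LNEv968 Crest.Agent.R122.LNEv818 Crest.Agent.R122.LNEv383
open Crest.Agent.R122.LNTree410 Crest.Agent.R122.Bind302
open Crest.Agent.R122.TreeLines335 Crest.Agent.R122.Kin796 Crest.Agent.R122.Kin796.CTree
open Crest.Agent.R122.Tree674 Crest.Agent.R122.PathFlow968
open Crest.Agent.R122.RtG302 (near protT AllOk)
open scoped Classical

noncomputable section

namespace Crest.Agent.R122.ForRet726

section generic

variable {J κ : Type} [Fintype J] [Nonempty κ] {M : VSys J κ} {Zc : J → PhasePoint}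
  {Λ : Finset (Finset J)} {P P' : CTree} {z : PhasePoint × Par P} {z' : PhasePoint × Par P'}
  {e : Idx P ↪ J} {e' : Idx P' ↪ J} {c ℓ ς u₀ : ℝ} {N K : ℕ}

/-- Contacts of the isolated tree. -/
def RT (M : VSys J κ) (Zc : J → PhasePoint) (e : Idx P ↪ J) (r : ℝ) (j k : J) : Prop :=
  dist (M.st (part e) r Zc j).1 (M.st (part e) r Zc k).1 ≤ M.ε

theorem lineAt_lineML (Φ : Space3 → ℝ) (ε : ℝ) (P : CTree) (z : PhasePoint × Par P) (x : Idx P)
    (u : ℝ) : Ins45.lineAt (lineML Φ ε P z x).1.1 (lineML Φ ε P z x).1.2 u =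
      onLine (fin Φ ε P z.1 z.2 x) u := by
  unfold Ins45.lineAt lineML onLine
  refine Prod.ext ?_ rfl
  simp only
  rw [add_assoc, ← add_smul]
  congr 2
  ring

variable (hΦ : AdmissiblePotential M.Φ) (hε : 0 < M.ε) (h : TreeIn M Zc M.T P z.1 z.2 e)
include hΦ hε h

theorem st_eq_lineAt {t : ℝ} (i : Idx P) (ht : rel P z.2 i ≤ t) (htT : t ≤ M.T) :
    M.st (part e) t Zc (e i) = Ins45.lineAt (lineML M.Φ M.ε P z i).1.1
      (lineML M.Φ M.ε P z i).1.2 t := by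
  rw [lineAt_lineML]
  exact h.line_tree hΦ hε i ht htT

theorem rT_le_rel {r : ℝ} {i : Idx P} {k : J} (hk : k ∈ part e) (hki : k ≠ e i)
    (hr : r ∈ Icc 0 M.T) (hR : RT M Zc e r (e i) k) : r ≤ rel P z.2 i := by
  by_contra hcon
  exact absurd hR (not_le.2 (h.exit_tree hΦ hε hk hki (not_le.1 hcon) hr.2))

/-- The contacts of the isolated tree connect the part. -/
theorem partR_tree (hT : 0 ≤ M.T) (hc : 1 ≤ c) : PartR M c Zc (part e) (RT M Zc e) where
  cut := (h.conn_tree hΦ hε).mono fun i _ j _ _ h => Or.inl (by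
      obtain ⟨r, hr, _, _, hd⟩ := h
      exact ⟨r, hr, hd⟩)
  symm r j k h := by
    unfold RT at h ⊢
    rwa [dist_comm]
  vct r _ j hj k hk _ h' := by
    have ho : ∀ j ∈ part e, M.o ≠ some j := fun j hj => by
      obtain ⟨x, rfl⟩ := mem_part.1 hj
      exact h.o x
    refine vct_of_st subset_rfl subset_rfl hj hk (h.ok_tree hΦ hε hT r)
      (h.ok_tree hΦ hε hT r) (ho j hj) (ho k hk) (le_trans h' ?_)
    nlinarith

/-! ### Base world on the labels -/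

variable {ι : Type} [Fintype ι] {Z : MW ι} {lab : ι → J}

/-- **Two exits of one tree do not meet.** -/
theorem exits_apart_tree (hπ : part e ∈ Λ) (hT : 0 ≤ M.T) (hu₀ : u₀ ≤ M.T) (hc : 1 ≤ c)
    (hℓς : 2 * ℓ ≤ ς) {x y : Idx P} (hxy : x ≠ y) (hlx : ∀ i, lab i ≠ e x)
    (hly : ∀ i, lab i ≠ e y) (hZ : Z.Ok M.Φ M.ε)
    (hOkx : (Z.ins (lineML M.Φ M.ε P z x)).Ok M.Φ M.ε)
    (hOky : (Z.ins (lineML M.Φ M.ε P z y)).Ok M.Φ M.ε)
    (hNB : NoBad M c ℓ ς Zc Λ (N + N + (N + N)))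
    (hRx : ReachAll (Reach M c Zc Λ (part e) (e x) N) M.Φ M.ε K u₀ Z lab
      (lineML M.Φ M.ε P z x) (e x))
    (hRy : ReachAll (Reach M c Zc Λ (part e) (e y) N) M.Φ M.ε K u₀ Z lab
      (lineML M.Φ M.ε P z y) (e y)) {u : ℝ} (hu : u ∈ Icc 0 u₀)
    (hux : u ≤ Z.thetaL M.Φ M.ε K u₀ (lineML M.Φ M.ε P z x))
    (huy : u ≤ Z.thetaL M.Φ M.ε K u₀ (lineML M.Φ M.ε P z y))
    (hbx : (lineML M.Φ M.ε P z x).1.1 ≤ u) (hby : (lineML M.Φ M.ε P z y).1.1 ≤ u)
    (hb : (lineML M.Φ M.ε P z x).1.1 < u ∨ (lineML M.Φ M.ε P z y).1.1 < u) :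
    M.ε < dist ((Z.add (MW.line (lineML M.Φ M.ε P z x))).path M.Φ M.ε u (Sum.inr ())).1
      ((Z.add (MW.line (lineML M.Φ M.ε P z y))).path M.Φ M.ε u (Sum.inr ())).1 := by
  have hR := partR_tree (c := c) hΦ hε h hT hc
  have hne : e x ≠ e y := fun h' => hxy (e.injective h')
  refine exits_apart hΦ hε (M := M) (c := c) (ℓ := ℓ) (ς := ς) rfl hu₀ hc hℓς hR hπ
    hZ hOkx hOky hRx hRy hlx hly hNB (mem_part_self x) (mem_part_self y) hne
    (fun r hr h' => ⟨rT_le_rel hΦ hε h (mem_part_self y) hne.symm hr h',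
      rT_le_rel hΦ hε h (mem_part_self x) hne hr (hR.symm r _ _ h')⟩) ?_ hu hux huy hbx hby hb
  intro t ht h1 h2 h3
  have e1 := st_eq_lineAt hΦ hε h x h1 ht.2
  have e2 := st_eq_lineAt hΦ hε h y h2 ht.2
  rw [← e1, ← e2]
  rcases h3 with h3 | h3
  · exact h.exit_tree hΦ hε (mem_part_self y) hne.symm h3 ht.2
  · rw [dist_comm]
    exact h.exit_tree hΦ hε (mem_part_self x) hne h3 ht.2

/-- **No return of the influence of an exit to the protected tubes of its tree** (radius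
`r ≤ c ε`). -/
theorem not_retA_own (hπ : part e ∈ Λ) {x : Idx P} {r : ℝ} (hx : x ≠ root P) (hu₀ : u₀ ≤ M.T)
    (hT : 0 < M.T) (hc : 1 ≤ c) (hr : r ≤ c * M.ε) (hℓς : 2 * ℓ ≤ ς)
    (hlg : ∀ i, lab i ≠ e x) (hZ : Z.Ok M.Φ M.ε)
    (hOk : (Z.ins (lineML M.Φ M.ε P z x)).Ok M.Φ M.ε) (hNB : NoBad M c ℓ ς Zc Λ N)
    (hRA : ReachAll (Reach M c Zc Λ (part e) (e x) N) M.Φ M.ε K u₀ Z lab
      (lineML M.Φ M.ε P z x) (e x)) :
    ¬ RetA M.Φ M.ε r K u₀ Z (lineML M.Φ M.ε P z x) (protT M.Φ M.ε P M.T z) := by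
  have hR := partR_tree (c := c) hΦ hε h hT.le hc
  refine not_retA_of hΦ hε (M := M) (c := c) (ℓ := ℓ) (ς := ς) (ξ := Idx P) hu₀ hr hℓς
    hR hπ hZ hOk hRA hlg hNB (mem_part_self x) ?_
  intro y v hv hbv hvy
  have hvT : v ∈ Icc 0 M.T := ⟨hv.1, hv.2.trans hu₀⟩
  have hok := h.ok_tree hΦ hε hT.le v
  have hc' : (protT M.Φ M.ε P M.T z).c y v = (M.st (part e) v Zc (e y)).1 := by
    rw [h.st_tree hΦ hε hvT]
    rfl
  by_cases hxy : y = x
  · subst hxy
    right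
    have h1 : v ≤ rel P z.2 y := by rw [rel_eq_prot P M.T z.2 y hx]; exact hvy
    have h2 : rel P z.2 y = v := le_antisymm hbv h1
    rcases h.last_tree hΦ hε hT y with h3 | h3
    · exfalso
      have h4 := rel_pos hε.le h.valid.2 y hx
      rw [h3, h.bb] at h4
      exact lt_irrefl _ h4
    · obtain ⟨k, hk, hky, _, hd⟩ := h3
      rw [h2] at hd
      refine ⟨k, hk, hky, h.o _, hok, hc', ?_⟩
      exact hR.vct v hvT _ (mem_part_self y) k hk (Ne.symm hky) hd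
  · left
    exact ⟨e y, mem_part_self y, fun h' => hxy (e.injective h'), h.o _, hok, hc'⟩

/-- **No return of an exit to the protected tubes of its tree.** -/
theorem not_retB_own (hπ : part e ∈ Λ) {x : Idx P} (hx : x ≠ root P) (hu₀ : u₀ ≤ M.T)
    (hT : 0 < M.T) (hc : 1 ≤ c) (hℓς : 2 * ℓ ≤ ς)
    (hlg : ∀ i, lab i ≠ e x) (hlb : ∀ i y, lab i = e y → prot P M.T z.2 y ≤ Z.b i)
    (hZ : Z.Ok M.Φ M.ε)
    (hOk : (Z.ins (lineML M.Φ M.ε P z x)).Ok M.Φ M.ε) (hNB : NoBad M c ℓ ς Zc Λ (N + (N + N)))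
    (hRA : ReachAll (Reach M c Zc Λ (part e) (e x) N) M.Φ M.ε K u₀ Z lab
      (lineML M.Φ M.ε P z x) (e x)) :
    ¬ RetB M.Φ M.ε M.ε K u₀ Z (lineML M.Φ M.ε P z x) (protT M.Φ M.ε P M.T z) := by
  have hR := partR_tree (c := c) hΦ hε h hT.le hc
  refine not_retB_of hΦ hε (M := M) (c := c) (ℓ := ℓ) (ς := ς) (ξ := Idx P) rfl hu₀ hc
    hℓς hR hπ hZ hOk hRA hlg hNB (mem_part_self x) ?_
  intro y v hv hbv hvy
  have hvT : v ∈ Icc 0 M.T := ⟨hv.1, hv.2.trans hu₀⟩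
  have hbv' : rel P z.2 x < v := hbv
  have hc' : (protT M.Φ M.ε P M.T z).c y v = (M.st (part e) v Zc (e y)).1 := by
    rw [h.st_tree hΦ hε hvT]
    rfl
  have hxy : y ≠ x := by
    rintro rfl
    have h1 : v ≤ rel P z.2 y := by rw [rel_eq_prot P M.T z.2 y hx]; exact hvy
    exact absurd hbv' (not_lt.2 h1)
  have hne : e y ≠ e x := fun h' => hxy (e.injective h')
  refine ⟨e y, mem_part_self y, hne, h.o _, h.ok_tree hΦ hε hT.le v, hc',
    fun i hi => (show v ≤ prot P M.T z.2 y from hvy).trans (hlb i y hi),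
    fun r hr h' => rT_le_rel hΦ hε h (mem_part_self y) hne hr h', ?_⟩
  rw [hc', ← st_eq_lineAt hΦ hε h x hbv'.le hvT.2, dist_comm]
  exact h.exit_tree hΦ hε (mem_part_self y) hne hbv' hvT.2

omit h in
/-- **No return of the influence of an exit to the tubes of another tree.** -/
theorem not_retA_other (h' : TreeIn M Zc M.T P' z'.1 z'.2 e') {π : Finset J} (hπ : π ∈ Λ)
    (hπ' : part e' ∈ Λ) (hne : π ≠ part e') (hconn : ∀ π ∈ Λ, M.Conn c π Zc) {a : J} {l : ML}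
    {r : ℝ} (ha : a ∈ π) (hu₀ : u₀ ≤ M.T) (hr : r ≤ c * M.ε) (hZ : Z.Ok M.Φ M.ε)
    (hOk : (Z.ins l).Ok M.Φ M.ε) (hNT : NoTwo M c Zc Λ N)
    (hRA : ReachAll (Reach M c Zc Λ π a N) M.Φ M.ε K u₀ Z lab l a) :
    ¬ RetA M.Φ M.ε r K u₀ Z l (protT M.Φ M.ε P' M.T z') := by
  refine LNEv383.not_retA hΦ hε hZ hOk hRA ?_
  rintro k v q hv hq ⟨y, hy, hd⟩
  exact not_near_other (tubeOf_protT hΦ hε h' hπ' hu₀ M.T) hu₀ hr hconn hNT hπ ha hv hq
    (k := y) hne hy hd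

omit h in
/-- **No return of an exit to the tubes of another tree.** -/
theorem not_retB_other (h' : TreeIn M Zc M.T P' z'.1 z'.2 e') {π : Finset J} (hπ : π ∈ Λ)
    (hπ' : part e' ∈ Λ) (hne : π ≠ part e') (hconn : ∀ π ∈ Λ, M.Conn c π Zc) {a : J} {l : ML}
    {r : ℝ} (ha : a ∈ π) (hu₀ : u₀ ≤ M.T) (hr : r ≤ c * M.ε) (hZ : Z.Ok M.Φ M.ε)
    (hOk : (Z.ins l).Ok M.Φ M.ε) (hNT : NoTwo M c Zc Λ N)
    (hRA : ReachAll (Reach M c Zc Λ π a N) M.Φ M.ε K u₀ Z lab l a) :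
    ¬ RetB M.Φ M.ε r K u₀ Z l (protT M.Φ M.ε P' M.T z') := by
  refine LNEv383.not_retB hΦ hε hZ hOk hRA ?_
  rintro v q hv _ hq ⟨y, hy, hd⟩
  exact not_near_other (tubeOf_protT hΦ hε h' hπ' hu₀ M.T) hu₀ hr hconn hNT hπ ha hv hq
    (k := y) hne hy hd

end generic

/-! ### Forests -/

section forest

open Crest.Agent.R122.Ret424 Crest.Agent.R122.LNFor424 Crest.Agent.R122.LNPart424
open Crest.Agent.R122.Forest399 (FIdx FPar flines FValid FVS)

variable {Φ : Space3 → ℝ} {ε t c ℓ ς : ℝ} {s n : ℕ} {Ps : Fin s → CTree} {q : FPar Ps}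
  {w : Config n} {N K : ℕ}

/-- What the deterministic theory gives for the exit line `x` of a forest. -/
def FReach (Φ : Space3 → ℝ) (ε t c : ℝ) (K N : ℕ) (Ps : Fin s → CTree) (q : FPar Ps) {n : ℕ}
    (w : Config n) (x : FEx Ps) : Prop :=
  ReachAll (Reach (fM Φ ε t n Ps) c (fZ Φ ε q w) (fΛ n Ps) (part (fe n Ps x.1.1)) (Sum.inr x.1) N)
    Φ ε K t (MW.cfg w) Sum.inl (fexL Φ ε Ps q x) (Sum.inr x.1)

/-- **No returns of the exit lines of a forest.** -/
theorem not_retEv (hΦ : AdmissiblePotential Φ) (hε : 0 < ε) (hc : 1 ≤ c) (hℓς : 2 * ℓ ≤ ς)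
    (hw : w ∈ PairExcluded ε n) (hq : q ∈ FVS Φ ε Ps t)
    (hOk : AllOk Φ ε w (fexL Φ ε Ps q))
    (hNB : NoBad (fM Φ ε t n Ps) c ℓ ς (fZ Φ ε q w) (fΛ n Ps) (N + (N + N)))
    (hNT : NoTwo (fM Φ ε t n Ps) c (fZ Φ ε q w) (fΛ n Ps) N) (x : FEx Ps) (i : Fin s)
    (hRA : FReach Φ ε t c K N Ps q w x) : ¬ RetEv Φ K Ps x i ε t n q w := by
  have hok := MWFam255.okF_of_okFam hΦ hε hOk
  have hparts := parts (t := t) hΦ hε hc hq hw
  have hF := forest (n := n) (w := w) hq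
  have hT : 0 < t := (rel_pos hε.le (hq.1 x.1.1).2 x.1.2 x.2).trans_le (by
    rw [rel_eq_prot (Ps x.1.1) t (q x.1.1).2 x.1.2 x.2]
    exact prot_le hε.le (Ps x.1.1) t (q x.1.1).1.2 (q x.1.1).2 (hq.1 x.1.1).2 x.1.2)
  have hmem : (Sum.inr x.1 : FJ n Ps) ∈ part (fe n Ps x.1.1) := inr_mem_part.2 rfl
  rintro (hr | hr)
  · rw [retL_iff hΦ hε] at hr
    by_cases hi : x.1.1 = i
    · subst hi
      exact not_retA_own (M := fM Φ ε t n Ps) hΦ hε (hF.tree x.1.1) (part_mem x.1.1) x.2 le_rfl hT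
        hc (show ε ≤ c * ε by nlinarith) hℓς (fun _ h => by cases h) hok.z (hok.line hΦ hε x)
        (noBad_mono hNB (by omega)) hRA hr
    · refine not_retA_other (M := fM Φ ε t n Ps) hΦ hε (hF.tree i) (part_mem x.1.1) (part_mem i) ?_
        hparts.conn hmem le_rfl (show ε ≤ c * ε by nlinarith) hok.z (hok.line hΦ hε x) hNT hRA hr
      intro h
      rw [h] at hmem
      exact hi (inr_mem_part.1 hmem)
  · rw [retM_iff] at hr
    by_cases hi : x.1.1 = i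
    · subst hi
      exact not_retB_own (M := fM Φ ε t n Ps) hΦ hε (hF.tree x.1.1) (part_mem x.1.1) x.2 le_rfl hT
        hc hℓς (fun _ h => by cases h) (fun _ _ h => by cases h) hok.z (hok.line hΦ hε x)
        hNB hRA hr
    · refine not_retB_other (M := fM Φ ε t n Ps) hΦ hε (hF.tree i) (part_mem x.1.1) (part_mem i) ?_
        hparts.conn hmem le_rfl (show ε ≤ c * ε by nlinarith) hok.z (hok.line hΦ hε x) hNT hRA hr
      intro h
      rw [h] at hmem
      exact hi (inr_mem_part.1 hmem)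

end forest

end Crest.Agent.R122.ForRet726

end
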