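import Crest.Agent.R122.ForestTube_399

/-!
Row 122, block I1 (helper399): the one-sided limit of the ghost-avoiding forests.

`forest_limit` : `∫ (g₀ - W_b · uG_b)₊ → 0`, `g₀` the damped density of the forests at `ε = 0`,
final time `t₀`.
-/

set_option autoImplicit false

open MeasureTheory Set Filter Topology Crest.AnalysisR.Kinetic
open scoped Classical ENNReal NNReal

noncomputable section

namespace Crest.Agent.R122.Forest399

open Kin796 Kin796.CTree Kin416 Disc416 Tree674 TreeEps399 PiTrans399 TreeFatou399 Hid424 GIV566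
  GIVUse424 Boltz814

variable {Φ : Space3 → ℝ} {s : ℕ} {ε : ℝ}

/-! ### Measurability -/

/-- measurable version of the protected tubes -/
def ftubesM (Φ : Space3 → ℝ) (ε : ℝ) (Ps : Fin s → CTree) (t : ℝ) (q : FPar Ps) : Tubes (FIdx Ps) :=
  if q ∈ FVS Φ ε Ps t then ftubes Φ ε Ps t q else ⟨fun _ _ => 0, fun _ => -1⟩

theorem ftubesM_of_mem {Ps : Fin s → CTree} {t : ℝ} {q : FPar Ps} (h : q ∈ FVS Φ ε Ps t) :
    ftubesM Φ ε Ps t q = ftubes Φ ε Ps t q := if_pos h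

theorem measurable_uG_ftubes {f₀ : PhasePoint → ℝ} (hf : Measurable f₀)
    (hΦ : AdmissiblePotential Φ) (hε : 0 < ε) {T : ℝ} (hT : 0 ≤ T) (Ps : Fin s → CTree) (t : ℝ) :
    Measurable fun q : FPar Ps => uG Φ f₀ ε (ftubesM Φ ε Ps t q) T := by
  have hS := measurableSet_FVS hΦ hε Ps t
  refine measurable_uG (Ω := FPar Ps) hf hΦ hε hT (fun q k => ?_) (fun k u => ?_) (fun k => ?_)
    measurable_const fun _ => le_rfl
  · by_cases hq : q ∈ FVS Φ ε Ps t
    · rw [ftubesM_of_mem hq]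
      exact (continuous_fst.comp (continuous_path hΦ hε (Ps k.1) t _ _ (hq.1 k.1) k.2)).continuousOn
    · unfold ftubesM
      rw [if_neg hq]
      exact continuousOn_const
  · have h1 : Measurable fun q : FPar Ps => (pathM Φ ε (Ps k.1) u (q k.1).1 (q k.1).2 k.2).1 :=
      measurable_fst.comp ((measurable_pi_apply k.2).comp ((measurable_pathM hΦ ε (Ps k.1)).comp
        (f := fun q : FPar Ps => (u, (q k.1))) (measurable_const.prodMk (measurable_pi_apply k.1))))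
    have h2 := h1.indicator hS
    convert h2 using 1
    funext q
    by_cases hq : q ∈ FVS Φ ε Ps t
    · rw [indicator_of_mem hq, ftubesM_of_mem hq, pathM_of_adm hΦ ε u (hq.1 k.1).1]
      rfl
    · rw [indicator_of_notMem hq]
      unfold ftubesM
      rw [if_neg hq]
  · have h1 : Measurable fun q : FPar Ps => prot (Ps k.1) t (q k.1).2 k.2 :=
      (measurable_prot (Ps k.1) k.2).comp (f := fun q : FPar Ps => (t, (q k.1).2))
        (measurable_const.prodMk (measurable_pi_apply k.1).snd)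
    have h2 : Measurable fun q : FPar Ps => if q ∈ FVS Φ ε Ps t then
        prot (Ps k.1) t (q k.1).2 k.2 else (-1 : ℝ) := Measurable.ite hS h1 measurable_const
    convert h2 using 1
    funext q
    by_cases hq : q ∈ FVS Φ ε Ps t
    · rw [ftubesM_of_mem hq, if_pos hq]
      rfl
    · unfold ftubesM
      rw [if_neg hq, if_neg hq]

/-- weight and initial densities of the valid separated forests -/
def Wd (Φ : Space3 → ℝ) (f₀ : PhasePoint → ℝ) (ε : ℝ) (Ps : Fin s → CTree) (t : ℝ) (q : FPar Ps) :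
    ℝ≥0∞ :=
  (FVS Φ ε Ps t).indicator (fun q => (∏ i, wt Φ (Ps i) (q i).1.2 (q i).2) *
    ∏ k, ENNReal.ofReal (f₀ (flines Φ ε Ps q k))) q

theorem measurable_Wd {f₀ : PhasePoint → ℝ} (hf : Measurable f₀) (hΦ : AdmissiblePotential Φ)
    (hε : 0 < ε) (Ps : Fin s → CTree) (t : ℝ) : Measurable (Wd Φ f₀ ε Ps t) := by
  have h1 : Measurable fun q : FPar Ps => fvw Φ ε Ps t q *
      ∏ k, ENNReal.ofReal (f₀ (flinesM Φ ε Ps q k)) :=
    (measurable_fvw hΦ ε Ps t).mul (Finset.measurable_prod _ fun k _ =>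
      (hf.comp ((measurable_pi_apply k).comp (measurable_flinesM hΦ ε Ps))).ennreal_ofReal)
  have h2 := h1.indicator (measurableSet_FVS hΦ hε Ps t)
  convert h2 using 1
  funext q
  unfold Wd
  by_cases hq : q ∈ FVS Φ ε Ps t
  · rw [indicator_of_mem hq, indicator_of_mem hq, fvw_of_valid hq.1, flinesM_of_valid hq.1]
  · rw [indicator_of_notMem hq, indicator_of_notMem hq]

/-- limit weight -/
def W0 (Φ : Space3 → ℝ) (f₀ : PhasePoint → ℝ) (Ps : Fin s → CTree) (t : ℝ) (q : FPar Ps) :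
    ℝ≥0∞ := fvw Φ 0 Ps t q * ∏ k, ENNReal.ofReal (f₀ (flinesM Φ 0 Ps q k))

theorem measurable_W0 {f₀ : PhasePoint → ℝ} (hf : Measurable f₀) (hΦ : AdmissiblePotential Φ)
    (Ps : Fin s → CTree) (t : ℝ) : Measurable (W0 Φ f₀ Ps t) :=
  (measurable_fvw hΦ 0 Ps t).mul (Finset.measurable_prod _ fun k _ =>
    (hf.comp ((measurable_pi_apply k).comp (measurable_flinesM hΦ 0 Ps))).ennreal_ofReal)

theorem W0_ne_top {f₀ : PhasePoint → ℝ} (Ps : Fin s → CTree) (t : ℝ) (q : FPar Ps) :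
    W0 Φ f₀ Ps t q ≠ ∞ :=
  ENNReal.mul_ne_top (fvw_ne_top 0 Ps t q) (ENNReal.prod_ne_top fun _ _ => ENNReal.ofReal_ne_top)

theorem W0_of_valid {f₀ : PhasePoint → ℝ} {Ps : Fin s → CTree} {t : ℝ} {q : FPar Ps}
    (h : FValid Φ 0 Ps t q) : W0 Φ f₀ Ps t q =
      (∏ i, wt Φ (Ps i) (q i).1.2 (q i).2) * ∏ k, ENNReal.ofReal (f₀ (flines Φ 0 Ps q k)) := by
  unfold W0
  rw [fvw_of_valid h, flinesM_of_valid h]

theorem W0_of_not_valid {f₀ : PhasePoint → ℝ} {Ps : Fin s → CTree} {t : ℝ} {q : FPar Ps}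
    (h : ¬ FValid Φ 0 Ps t q) : W0 Φ f₀ Ps t q = 0 := by
  unfold W0
  rw [fvw_of_not_valid h, zero_mul]

/-- damped density of a forest -/
def g0 (Φ : Space3 → ℝ) (T : ℝ) (f : ℝ → PhasePoint → ℝ) (Ps : Fin s → CTree) (t : ℝ)
    (q : FPar Ps) : ℝ≥0∞ := ∏ i, tdens Φ (damp T f) (fE T f 0) (Ps i) t (q i)

variable {β T : ℝ} {f₀ : PhasePoint → ℝ} {f : ℝ → PhasePoint → ℝ}

theorem measurable_g0 (hΦ : AdmissiblePotential Φ) (hf : IsRegularKineticSolution Φ β T f₀ f)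
    (Ps : Fin s → CTree) (t : ℝ) : Measurable (g0 Φ T f Ps t) :=
  Finset.measurable_prod _ fun i _ =>
    (measurable_tdens hΦ (meas4_damp hf) (meas_fE_zero hf) (Ps i) t).comp (measurable_pi_apply i)

theorem g0_of_not_valid {Ps : Fin s → CTree} {t : ℝ} {q : FPar Ps}
    (h : ¬ FValid Φ 0 Ps t q) : g0 Φ T f Ps t q = 0 := by
  unfold FValid at h
  push Not at h
  obtain ⟨i, hi⟩ := h
  refine Finset.prod_eq_zero (Finset.mem_univ i) ?_
  unfold tdens
  exact Set.indicator_of_notMem (s := {z : PhasePoint × Par (Ps i) | Valid Φ 0 (Ps i) t z.1.2 z.2})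
    hi _

theorem g0_eq (hβ : 0 < β) (hT : 0 < T) (hf : IsRegularKineticSolution Φ β T f₀ f)
    {Ps : Fin s → CTree} {t₀ t : ℝ} (ht₀ : 0 ≤ t₀) (h0 : t₀ ≤ t) (q : FPar Ps) :
    g0 Φ T f Ps t₀ q = W0 Φ f₀ Ps t₀ q * dampG T f (ftubes Φ 0 Ps t₀ q) t := by
  by_cases hV : FValid Φ 0 Ps t₀ q
  · rw [W0_of_valid hV]
    exact prod_tdens_eq hβ hT hf ht₀ h0 hV
  · rw [g0_of_not_valid hV, W0_of_not_valid hV, zero_mul]

/-- measurable version of the kinetic avoidance probability -/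
def Em (Φ : Space3 → ℝ) (T : ℝ) (f₀ : PhasePoint → ℝ) (f : ℝ → PhasePoint → ℝ)
    (Ps : Fin s → CTree) (t : ℝ) (q : FPar Ps) : ℝ≥0∞ := g0 Φ T f Ps t q / W0 Φ f₀ Ps t q

theorem Em_eq (hβ : 0 < β) (hT : 0 < T) (hf : IsRegularKineticSolution Φ β T f₀ f)
    {Ps : Fin s → CTree} {t₀ t : ℝ} (ht₀ : 0 ≤ t₀) (h0 : t₀ ≤ t) {q : FPar Ps}
    (hW : W0 Φ f₀ Ps t₀ q ≠ 0) :
    Em Φ T f₀ f Ps t₀ q = dampG T f (ftubes Φ 0 Ps t₀ q) t := by
  unfold Em
  rw [g0_eq hβ hT hf ht₀ h0 q, mul_comm, mul_div_assoc,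
    ENNReal.div_self hW (W0_ne_top Ps t₀ q), mul_one]

theorem W0_mul_Em (hβ : 0 < β) (hT : 0 < T) (hf : IsRegularKineticSolution Φ β T f₀ f)
    {Ps : Fin s → CTree} {t₀ : ℝ} (ht₀ : 0 ≤ t₀) (q : FPar Ps) :
    W0 Φ f₀ Ps t₀ q * Em Φ T f₀ f Ps t₀ q = g0 Φ T f Ps t₀ q := by
  by_cases hW : W0 Φ f₀ Ps t₀ q = 0
  · rw [g0_eq hβ hT hf ht₀ le_rfl q, hW, zero_mul, zero_mul]
  · rw [Em_eq hβ hT hf ht₀ le_rfl hW, g0_eq hβ hT hf ht₀ le_rfl q]

/-! ### Elementary bound -/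

theorem sub_bound (w0 w E u : ℝ≥0∞) : w0 * E - w * u ≤ (w0 - w) * E + w0 * (E - u) := by
  rw [tsub_le_iff_right]
  have h2 : E ≤ (E - u) + u := le_tsub_add
  rcases le_total w0 w with h | h
  · calc w0 * E ≤ w0 * ((E - u) + u) := by gcongr
      _ = w0 * (E - u) + w0 * u := mul_add _ _ _
      _ ≤ ((w0 - w) * E + w0 * (E - u)) + w * u := by
        gcongr
        exact le_add_self
  · calc w0 * E ≤ ((w0 - w) + w) * E := by
          gcongr
          exact le_tsub_add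
      _ = (w0 - w) * E + w * E := add_mul _ _ _
      _ ≤ (w0 - w) * E + w * ((E - u) + u) := by gcongr
      _ = (w0 - w) * E + (w * (E - u) + w * u) := by rw [mul_add]
      _ ≤ (w0 - w) * E + (w0 * (E - u) + w * u) := by gcongr
      _ = _ := by ring

/-! ### Convergence of the weights -/

section lim

variable {B : Type*} {F : Filter B} {e τ : B → ℝ} {t₀ : ℝ}

theorem tendsto_Wd (hΦ : AdmissiblePotential Φ) (hf₀ : Continuous f₀) (he : Tendsto e F L)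
    (hτ : Tendsto τ F (𝓝 t₀)) (Ps : Fin s → CTree) {q : FPar Ps} (hV : FValid Φ 0 Ps t₀ q)
    (hG : FGen Φ Ps q) :
    Tendsto (fun b => Wd Φ f₀ (e b) Ps (τ b) q) F (𝓝 (W0 Φ f₀ Ps t₀ q)) := by
  have h1 : ∀ᶠ b in F, (∏ i, wt Φ (Ps i) (q i).1.2 (q i).2) *
      ∏ k, ENNReal.ofReal (f₀ (flines Φ (e b) Ps q k)) = Wd Φ f₀ (e b) Ps (τ b) q := by
    filter_upwards [fsep_filter hΦ he hτ Ps hV hG] with b hb
    unfold Wd
    rw [indicator_of_mem (show q ∈ FVS Φ (e b) Ps (τ b) from hb)]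
  rw [W0_of_valid hV]
  refine Tendsto.congr' h1 ?_
  refine ENNReal.Tendsto.const_mul ?_ (Or.inr (ENNReal.prod_ne_top fun i _ => wt_ne_top _ _ _))
  refine ENNReal.tendsto_finsetProd_of_ne_top _ (fun k _ => ?_) fun _ _ => ENNReal.ofReal_ne_top
  refine (ENNReal.continuous_ofReal.tendsto _).comp ((hf₀.tendsto _).comp ?_)
  exact (flines_tendsto Ps q k).comp he

/-! ### The three limits -/

/-- (a) the weights -/
theorem lim_a (hβ : 0 < β) (hT : 0 < T) (hΦ : AdmissiblePotential Φ)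
    (hf : IsRegularKineticSolution Φ β T f₀ f) (hf₀ : Continuous f₀) [F.IsCountablyGenerated]
    (he : Tendsto e F L) (hτ : Tendsto τ F (𝓝 t₀)) (ht₀ : 0 ≤ t₀) (Ps : Fin s → CTree)
    (hfin : ∫⁻ q, g0 Φ T f Ps t₀ q ≠ ∞) :
    Tendsto (fun b => ∫⁻ q, (W0 Φ f₀ Ps t₀ q - Wd Φ f₀ (e b) Ps (τ b) q) *
      Em Φ T f₀ f Ps t₀ q) F (𝓝 0) := by
  have h0 : ∫⁻ _ : FPar Ps, (0 : ℝ≥0∞) = 0 := by simp
  rw [← h0]
  have hEm : Measurable (Em Φ T f₀ f Ps t₀) :=
    (measurable_g0 hΦ hf Ps t₀).div (measurable_W0 hf₀.measurable hΦ Ps t₀)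
  refine tendsto_lintegral_filter_of_dominated_convergence' (g0 Φ T f Ps t₀) ?_ ?_ hfin ?_
  · filter_upwards [he.eventually eventually_pos] with b hb
    exact (((measurable_W0 hf₀.measurable hΦ Ps t₀).sub
      (measurable_Wd hf₀.measurable hΦ hb Ps (τ b))).mul hEm).aemeasurable
  · refine Eventually.of_forall fun b => Eventually.of_forall fun q => ?_
    rw [← W0_mul_Em hβ hT hf ht₀ q]
    gcongr
    exact tsub_le_self
  · filter_upwards [fgen_ae hΦ Ps t₀] with q hq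
    by_cases hW : W0 Φ f₀ Ps t₀ q = 0
    · simp only [hW, zero_tsub, zero_mul]
      exact tendsto_const_nhds
    · have hV : FValid Φ 0 Ps t₀ q := by
        by_contra h
        exact hW (W0_of_not_valid h)
      have h1 := tendsto_Wd (f₀ := f₀) hΦ hf₀ he hτ Ps hV (hq hV)
      have h2 : Tendsto (fun b => W0 Φ f₀ Ps t₀ q - Wd Φ f₀ (e b) Ps (τ b) q) F (𝓝 0) := by
        have := ENNReal.Tendsto.sub (f := F) (tendsto_const_nhds (x := W0 Φ f₀ Ps t₀ q)) h1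
          (Or.inl (W0_ne_top Ps t₀ q))
        simpa using this
      have h3 : Em Φ T f₀ f Ps t₀ q ≠ ∞ := by
        rw [Em_eq hβ hT hf ht₀ le_rfl hW]
        exact ne_top_of_le_ne_top ENNReal.one_ne_top (dampG_le_one _)
      have := ENNReal.Tendsto.mul_const h2 (Or.inr h3)
      simpa using this

/-- truncation sets -/
def KM (Φ : Space3 → ℝ) (f₀ : PhasePoint → ℝ) (Ps : Fin s → CTree) (t : ℝ) (M : ℕ) :
    Set (FPar Ps) :=
  {q | W0 Φ f₀ Ps t q ≤ M} ∩ univ.pi fun i => {z : PhasePoint × Par (Ps i) |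
    (z.1.1 ∈ Metric.closedBall (0 : Space3) M ∧ z.1.2 ∈ Metric.closedBall (0 : Space3) M) ∧
      z.2 ∈ spanningSets (volume : Measure (Par (Ps i))) M}

theorem measurableSet_box (P : CTree) (R R' : ℝ) (M : ℕ) :
    MeasurableSet {z : PhasePoint × Par P |
    (z.1.1 ∈ Metric.closedBall (0 : Space3) R ∧ z.1.2 ∈ Metric.closedBall (0 : Space3) R') ∧
      z.2 ∈ spanningSets (volume : Measure (Par P)) M} :=
  ((measurable_fst.fst Metric.isClosed_closedBall.measurableSet).inter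
    (measurable_fst.snd Metric.isClosed_closedBall.measurableSet)).inter
    (measurable_snd (measurableSet_spanningSets _ M))

theorem volume_box_lt_top (P : CTree) (R R' : ℝ) (M : ℕ) :
    volume {z : PhasePoint × Par P |
    (z.1.1 ∈ Metric.closedBall (0 : Space3) R ∧ z.1.2 ∈ Metric.closedBall (0 : Space3) R') ∧
      z.2 ∈ spanningSets (volume : Measure (Par P)) M} < ∞ := by
  have h1 : {z : PhasePoint × Par P |
    (z.1.1 ∈ Metric.closedBall (0 : Space3) R ∧ z.1.2 ∈ Metric.closedBall (0 : Space3) R') ∧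
      z.2 ∈ spanningSets (volume : Measure (Par P)) M} =
      (Metric.closedBall (0 : Space3) R ×ˢ Metric.closedBall (0 : Space3) R') ×ˢ
        spanningSets (volume : Measure (Par P)) M := by
    ext z
    simp only [mem_ofPred_eq, mem_prod]
  have h2 : (volume : Measure (PhasePoint × Par P)) =
    ((volume : Measure Space3).prod (volume : Measure Space3)).prod (volume : Measure (Par P)) := rfl
  rw [h1, h2, Measure.prod_prod, Measure.prod_prod]
  exact ENNReal.mul_lt_top (ENNReal.mul_lt_top measure_closedBall_lt_top measure_closedBall_lt_top)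
    (measure_spanningSets_lt_top _ M)

theorem measurableSet_KM (hf₀ : Measurable f₀) (hΦ : AdmissiblePotential Φ) (Ps : Fin s → CTree)
    (t : ℝ) (M : ℕ) : MeasurableSet (KM Φ f₀ Ps t M) :=
  (measurableSet_le (measurable_W0 hf₀ hΦ Ps t) measurable_const).inter
    (MeasurableSet.univ_pi fun i => measurableSet_box (Ps i) M M M)

theorem mem_KM_eventually (Ps : Fin s → CTree) (t : ℝ) (q : FPar Ps) :
    ∀ᶠ M : ℕ in atTop, q ∈ KM Φ f₀ Ps t M := by
  have h1 : ∀ᶠ M : ℕ in atTop, W0 Φ f₀ Ps t q ≤ M := by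
    obtain ⟨n, hn⟩ := ENNReal.exists_nat_gt (W0_ne_top (Φ := Φ) (f₀ := f₀) Ps t q)
    filter_upwards [eventually_ge_atTop n] with M hM
    exact hn.le.trans (by exact_mod_cast hM)
  have h2 : ∀ᶠ M : ℕ in atTop, ∀ i : Fin s, (((q i).1.1 ∈ Metric.closedBall (0 : Space3) M ∧
      (q i).1.2 ∈ Metric.closedBall (0 : Space3) M) ∧
      (q i).2 ∈ spanningSets (volume : Measure (Par (Ps i))) M) := by
    refine eventually_all.2 fun i => ?_
    have a1 : ∀ x : Space3, ∀ᶠ M : ℕ in atTop, x ∈ Metric.closedBall (0 : Space3) M := by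
      intro x
      filter_upwards [eventually_ge_atTop ⌈‖x‖⌉₊] with M hM
      rw [mem_closedBall_zero_iff]
      exact (Nat.le_ceil _).trans (by exact_mod_cast hM)
    have a2 : ∀ᶠ M : ℕ in atTop, (q i).2 ∈ spanningSets (volume : Measure (Par (Ps i))) M := by
      have := mem_iUnion.1 (show (q i).2 ∈ ⋃ M, spanningSets (volume : Measure (Par (Ps i))) M by
        rw [iUnion_spanningSets]; trivial)
      obtain ⟨n, hn⟩ := this
      filter_upwards [eventually_ge_atTop n] with M hM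
      exact monotone_spanningSets _ hM hn
    filter_upwards [a1 (q i).1.1, a1 (q i).1.2, a2] with M b1 b2 b3
    exact ⟨⟨b1, b2⟩, b3⟩
  filter_upwards [h1, h2] with M a1 a2
  exact ⟨a1, fun i _ => a2 i⟩

/-- (c) the truncation -/
theorem lim_c (hΦ : AdmissiblePotential Φ) (hf : IsRegularKineticSolution Φ β T f₀ f)
    (hf₀ : Measurable f₀) (Ps : Fin s → CTree) (hfin : ∫⁻ q, g0 Φ T f Ps t₀ q ≠ ∞) :
    Tendsto (fun M : ℕ => ∫⁻ q, (KM Φ f₀ Ps t₀ M)ᶜ.indicator (g0 Φ T f Ps t₀) q) atTop (𝓝 0) := by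
  have h0 : ∫⁻ _ : FPar Ps, (0 : ℝ≥0∞) = 0 := by simp
  rw [← h0]
  refine tendsto_lintegral_of_dominated_convergence (g0 Φ T f Ps t₀) (fun M => ?_) (fun M => ?_)
    hfin ?_
  · exact (measurable_g0 hΦ hf Ps t₀).indicator (measurableSet_KM hf₀ hΦ Ps t₀ M).compl
  · exact Eventually.of_forall fun q => indicator_le_self _ _ q
  · refine Eventually.of_forall fun q => ?_
    refine tendsto_const_nhds.congr' ?_
    filter_upwards [mem_KM_eventually (Φ := Φ) (f₀ := f₀) Ps t₀ q] with M hM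
    rw [indicator_of_notMem (notMem_compl_iff.2 hM)]

/-- integrand of the averaging step -/
def Gb (Φ : Space3 → ℝ) (T : ℝ) (f₀ : PhasePoint → ℝ) (f : ℝ → PhasePoint → ℝ) (ε : ℝ)
    (Ps : Fin s → CTree) (t t₀ : ℝ) (q : FPar Ps) : ℝ≥0∞ :=
  if q ∈ FVS Φ ε Ps t ∩ {q | W0 Φ f₀ Ps t₀ q ≠ 0} then
    adiff (uG Φ f₀ ε (ftubesM Φ ε Ps t q) T) (Em Φ T f₀ f Ps t₀ q) else 0

theorem measurable_Gb (hT : 0 ≤ T) (hΦ : AdmissiblePotential Φ)
    (hf : IsRegularKineticSolution Φ β T f₀ f) (hf₀ : Measurable f₀) (hε : 0 < ε)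
    (Ps : Fin s → CTree) (t t₀ : ℝ) : Measurable (Gb Φ T f₀ f ε Ps t t₀) := by
  have hEm : Measurable (Em Φ T f₀ f Ps t₀) :=
    (measurable_g0 hΦ hf Ps t₀).div (measurable_W0 hf₀ hΦ Ps t₀)
  have hu := measurable_uG_ftubes hf₀ hΦ hε hT Ps t
  refine Measurable.ite ((measurableSet_FVS hΦ hε Ps t).inter
    ((measurable_W0 hf₀ hΦ Ps t₀) (measurableSet_singleton 0).compl)) ?_ measurable_const
  unfold adiff
  exact (hu.sub hEm).add (hEm.sub hu)

theorem Gb_le_two (hβ : 0 < β) (hT : 0 < T) (hf : IsRegularKineticSolution Φ β T f₀ f)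
    (hf₀ : Measurable f₀) (h1 : ∫⁻ z, ENNReal.ofReal (f₀ z) ≤ 1) (ht₀ : 0 ≤ t₀)
    (Ps : Fin s → CTree) (t : ℝ) (q : FPar Ps) : Gb Φ T f₀ f ε Ps t t₀ q ≤ 2 := by
  unfold Gb
  split_ifs with h
  · have a1 : uG Φ f₀ ε (ftubesM Φ ε Ps t q) T ≤ 1 := uG_le_one hf₀ h1
    have a2 : Em Φ T f₀ f Ps t₀ q ≤ 1 := by
      rw [Em_eq hβ hT hf ht₀ le_rfl h.2]
      exact dampG_le_one _
    unfold adiff
    calc _ ≤ (1 : ℝ≥0∞) + 1 := add_le_add (tsub_le_self.trans a1) (tsub_le_self.trans a2)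
      _ = 2 := by norm_num
  · exact bot_le

/-- (b) the averaging step -/
theorem lim_b (hβ : 0 < β) (hT : 0 < T) (hΦ : AdmissiblePotential Φ)
    (hf : IsRegularKineticSolution Φ β T f₀ f) (hf₀ : Continuous f₀)
    (h1 : ∫⁻ z, ENNReal.ofReal (f₀ z) ≤ 1) (hGIV : GIV Φ f₀ f T T) [F.IsCountablyGenerated]
    (he : Tendsto e F L) (hτ : Tendsto τ F (𝓝 t₀)) (ht₀ : 0 ≤ t₀) (ht₀T : t₀ ≤ T)
    (hτT : ∀ᶠ b in F, τ b ≤ T) (Ps : Fin s → CTree) (M : ℕ) :
    Tendsto (fun b => ∫⁻ q, (KM Φ f₀ Ps t₀ M).indicator 1 q *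
      Gb Φ T f₀ f (e b) Ps (τ b) t₀ q) F (𝓝 0) := by
  set Bx : Set (FPar Ps) := univ.pi fun i => {z : PhasePoint × Par (Ps i) |
    (z.1.1 ∈ Metric.closedBall (0 : Space3) (M + 1) ∧ z.1.2 ∈ Metric.closedBall (0 : Space3) M) ∧
      z.2 ∈ spanningSets (volume : Measure (Par (Ps i))) M} with hBx
  have hBxm : MeasurableSet Bx := MeasurableSet.univ_pi fun i => measurableSet_box (Ps i) _ _ M
  have hBxf : volume Bx ≠ ∞ := by
    rw [hBx, volume_pi_pi]
    exact (ENNReal.prod_lt_top fun i _ => volume_box_lt_top (Ps i) _ _ M).ne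
  refine TransAvg399.trans_avg (μ := (volume : Measure (FPar Ps)))
    (τ := fun x q => fshift x q) (B := Metric.closedBall (0 : Space3) 1)
    (measurePreserving_fshift Ps) (measurable_fshift Ps)
    Metric.isClosed_closedBall.measurableSet (Metric.measure_closedBall_pos _ _ one_pos).ne'
    measure_closedBall_lt_top.ne (w := fun _ => (KM Φ f₀ Ps t₀ M).indicator 1)
    (G := fun b => Gb Φ T f₀ f (e b) Ps (τ b) t₀) ?_ ?_ (c := 2) (by norm_num) ?_
    (W := Bx.indicator 1) ?_ ?_ ?_ ?_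
  · exact Eventually.of_forall fun _ => measurable_one.indicator
      (measurableSet_KM hf₀.measurable hΦ Ps t₀ M)
  · filter_upwards [he.eventually eventually_pos] with b hb
    exact measurable_Gb hT.le hΦ hf hf₀.measurable hb Ps (τ b) t₀
  · exact Eventually.of_forall fun b q => Gb_le_two hβ hT hf hf₀.measurable h1 ht₀ Ps (τ b) q
  · exact (measurable_one.indicator hBxm).aemeasurable
  · rw [lintegral_indicator_one hBxm]
    exact hBxf
  · refine Eventually.of_forall fun b => Eventually.of_forall fun q x hx => ?_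
    show (KM Φ f₀ Ps t₀ M).indicator 1 (fshift x q) ≤ Bx.indicator 1 q
    by_cases h : fshift x q ∈ KM Φ f₀ Ps t₀ M
    · have h2 : q ∈ Bx := by
        intro i _
        have h3 := h.2 i (mem_univ i)
        refine ⟨⟨?_, h3.1.2⟩, h3.2⟩
        have h4 : ‖(q i).1.1 + x‖ ≤ M := mem_closedBall_zero_iff.1 h3.1.1
        have h5 : ‖x‖ ≤ 1 := mem_closedBall_zero_iff.1 hx
        rw [mem_closedBall_zero_iff]
        calc ‖(q i).1.1‖ = ‖((q i).1.1 + x) - x‖ := by rw [add_sub_cancel_right]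
          _ ≤ ‖(q i).1.1 + x‖ + ‖x‖ := norm_sub_le _ _
          _ ≤ M + 1 := add_le_add h4 h5
      rw [indicator_of_mem h, indicator_of_mem h2]
      rfl
    · rw [indicator_of_notMem h]
      exact bot_le
  · filter_upwards [fgen_ae hΦ Ps t₀] with q hq
    by_cases hV : FValid Φ 0 Ps t₀ q
    · have hG := hq hV
      have hlim := GIV.use hGIV (T' := T) hT.le he
        (fconvE hΦ he hτ hT.le ht₀T hτT Ps hV hG) (generic_ftubes hG) 1
      refine tendsto_of_tendsto_of_tendsto_of_le_of_le tendsto_const_nhds hlim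
        (fun _ => bot_le) fun b => ?_
      refine lintegral_mono fun x => ?_
      show Gb Φ T f₀ f (e b) Ps (τ b) t₀ (fshift x q) ≤ _
      unfold Gb
      split_ifs with h
      · rw [ftubesM_of_mem h.1, ftubes_shift, Em_eq hβ hT hf ht₀ ht₀T h.2, ftubes_shift]
      · exact bot_le
    · have h0 : ∀ b, ∫⁻ x in Metric.closedBall (0 : Space3) 1,
          Gb Φ T f₀ f (e b) Ps (τ b) t₀ (fshift x q) = 0 := by
        intro b
        have h2 : ∀ x, Gb Φ T f₀ f (e b) Ps (τ b) t₀ (fshift x q) = 0 := by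
          intro x
          unfold Gb
          rw [if_neg]
          intro h
          exact h.2 (W0_of_not_valid hV)
        simp only [h2, lintegral_zero]
      simp only [h0]
      exact tendsto_const_nhds

/-- pointwise bound -/
theorem main_bound (hβ : 0 < β) (hT : 0 < T) (hf : IsRegularKineticSolution Φ β T f₀ f)
    (ht₀ : 0 ≤ t₀) (Ps : Fin s → CTree) (t : ℝ) (M : ℕ) (q : FPar Ps) :
    g0 Φ T f Ps t₀ q - Wd Φ f₀ ε Ps t q * uG Φ f₀ ε (ftubesM Φ ε Ps t q) T ≤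
      (W0 Φ f₀ Ps t₀ q - Wd Φ f₀ ε Ps t q) * Em Φ T f₀ f Ps t₀ q +
        ((KM Φ f₀ Ps t₀ M)ᶜ.indicator (g0 Φ T f Ps t₀) q +
          M * ((KM Φ f₀ Ps t₀ M).indicator 1 q * Gb Φ T f₀ f ε Ps t t₀ q)) := by
  have hg := W0_mul_Em (f₀ := f₀) hβ hT hf ht₀ q (Ps := Ps)
  by_cases hq : q ∈ FVS Φ ε Ps t
  · rw [← hg]
    refine (sub_bound _ _ _ _).trans ?_
    gcongr
    by_cases hK : q ∈ KM Φ f₀ Ps t₀ M
    · refine le_trans ?_ le_add_self
      rw [indicator_of_mem hK, Pi.one_apply, one_mul]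
      by_cases hW : W0 Φ f₀ Ps t₀ q = 0
      · rw [hW, zero_mul]
        exact bot_le
      · unfold Gb
        rw [if_pos ⟨hq, hW⟩]
        unfold adiff
        exact mul_le_mul' hK.1 le_add_self
    · refine le_trans ?_ le_self_add
      rw [indicator_of_mem (show q ∈ (KM Φ f₀ Ps t₀ M)ᶜ from hK), ← hg]
      gcongr
      exact tsub_le_self
  · have h0 : Wd Φ f₀ ε Ps t q = 0 := by
      unfold Wd
      exact indicator_of_notMem hq _
    rw [h0, zero_mul, tsub_zero, tsub_zero, hg]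
    exact le_self_add

/-- **The one-sided limit of the ghost-avoiding forests.** -/
theorem forest_limit_aux (hβ : 0 < β) (hT : 0 < T) (hΦ : AdmissiblePotential Φ)
    (hf : IsRegularKineticSolution Φ β T f₀ f) (hf₀ : Continuous f₀)
    (h1 : ∫⁻ z, ENNReal.ofReal (f₀ z) ≤ 1) (hGIV : GIV Φ f₀ f T T) [F.IsCountablyGenerated]
    (he : Tendsto e F L) (hτ : Tendsto τ F (𝓝 t₀)) (ht₀ : 0 ≤ t₀) (ht₀T : t₀ ≤ T)
    (hτT : ∀ᶠ b in F, τ b ≤ T) (Ps : Fin s → CTree) (hfin : ∫⁻ q, g0 Φ T f Ps t₀ q ≠ ∞) :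
    Tendsto (fun b => ∫⁻ q, (g0 Φ T f Ps t₀ q -
      Wd Φ f₀ (e b) Ps (τ b) q * uG Φ f₀ (e b) (ftubesM Φ (e b) Ps (τ b) q) T)) F (𝓝 0) := by
  rw [ENNReal.tendsto_nhds_zero]
  intro δ hδ
  have hδ3 : 0 < δ / 3 := ENNReal.div_pos hδ.ne' (by norm_num)
  obtain ⟨M, hM⟩ := ((ENNReal.tendsto_nhds_zero.1 (lim_c hΦ hf hf₀.measurable Ps hfin)) (δ / 3)
    hδ3).exists
  have hb := lim_b hβ hT hΦ hf hf₀ h1 hGIV he hτ ht₀ ht₀T hτT Ps M
  have hb' : Tendsto (fun b => (M : ℝ≥0∞) * ∫⁻ q, (KM Φ f₀ Ps t₀ M).indicator 1 q *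
      Gb Φ T f₀ f (e b) Ps (τ b) t₀ q) F (𝓝 0) := by
    have := ENNReal.Tendsto.const_mul hb (Or.inr (ENNReal.natCast_ne_top M))
    simpa using this
  filter_upwards [(ENNReal.tendsto_nhds_zero.1 hb') (δ / 3) hδ3,
    (ENNReal.tendsto_nhds_zero.1 (lim_a hβ hT hΦ hf hf₀ he hτ ht₀ Ps hfin)) (δ / 3) hδ3,
    he.eventually eventually_pos] with b c1 c2 hpos
  have hEm : Measurable (Em Φ T f₀ f Ps t₀) :=
    (measurable_g0 hΦ hf Ps t₀).div (measurable_W0 hf₀.measurable hΦ Ps t₀)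
  have m1 : Measurable fun q => (W0 Φ f₀ Ps t₀ q - Wd Φ f₀ (e b) Ps (τ b) q) *
      Em Φ T f₀ f Ps t₀ q := ((measurable_W0 hf₀.measurable hΦ Ps t₀).sub
      (measurable_Wd hf₀.measurable hΦ hpos Ps (τ b))).mul hEm
  have m2 : Measurable fun q => (KM Φ f₀ Ps t₀ M)ᶜ.indicator (g0 Φ T f Ps t₀) q :=
    (measurable_g0 hΦ hf Ps t₀).indicator (measurableSet_KM hf₀.measurable hΦ Ps t₀ M).compl
  have m3 : Measurable fun q => (KM Φ f₀ Ps t₀ M).indicator 1 q *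
      Gb Φ T f₀ f (e b) Ps (τ b) t₀ q :=
    (measurable_one.indicator (measurableSet_KM hf₀.measurable hΦ Ps t₀ M)).mul
      (measurable_Gb hT.le hΦ hf hf₀.measurable hpos Ps (τ b) t₀)
  calc ∫⁻ q, (g0 Φ T f Ps t₀ q - Wd Φ f₀ (e b) Ps (τ b) q *
          uG Φ f₀ (e b) (ftubesM Φ (e b) Ps (τ b) q) T)
      ≤ ∫⁻ q, ((W0 Φ f₀ Ps t₀ q - Wd Φ f₀ (e b) Ps (τ b) q) * Em Φ T f₀ f Ps t₀ q +
        ((KM Φ f₀ Ps t₀ M)ᶜ.indicator (g0 Φ T f Ps t₀) q +
          M * ((KM Φ f₀ Ps t₀ M).indicator 1 q * Gb Φ T f₀ f (e b) Ps (τ b) t₀ q))) :=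
        lintegral_mono fun q => main_bound hβ hT hf ht₀ Ps (τ b) M q
    _ = (∫⁻ q, (W0 Φ f₀ Ps t₀ q - Wd Φ f₀ (e b) Ps (τ b) q) * Em Φ T f₀ f Ps t₀ q) +
        ((∫⁻ q, (KM Φ f₀ Ps t₀ M)ᶜ.indicator (g0 Φ T f Ps t₀) q) +
          M * ∫⁻ q, (KM Φ f₀ Ps t₀ M).indicator 1 q * Gb Φ T f₀ f (e b) Ps (τ b) t₀ q) := by
        rw [lintegral_add_left m1, lintegral_add_left m2, lintegral_const_mul _ m3]
    _ ≤ δ / 3 + (δ / 3 + δ / 3) := add_le_add c2 (add_le_add hM c1)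
    _ = δ := by
        rw [← add_assoc]
        exact ENNReal.add_thirds δ

/-- on valid parameters all protected times are before the final time -/
theorem uG_ftubes_time (hε : 0 ≤ ε) {Ps : Fin s → CTree} {t t' : ℝ} {q : FPar Ps}
    (hV : FValid Φ ε Ps t q) (ht : t ≤ t') :
    uG Φ f₀ ε (ftubes Φ ε Ps t q) t' = uG Φ f₀ ε (ftubes Φ ε Ps t q) t := by
  have h1 : ∀ k, (ftubes Φ ε Ps t q).b k ≤ t := fun k =>
    PathFlow968.prot_le hε (Ps k.1) t (q k.1).1.2 (q k.1).2 (hV k.1).2 k.2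
  have h2 : (ftubes Φ ε Ps t q).cut t = ftubes Φ ε Ps t q := by
    unfold Tubes.cut
    congr 1
    funext k
    exact min_eq_left (h1 k)
  rw [← h2, uG_cut, uG_cut, min_eq_left ht, min_self]

/-- contribution of the forests of type `Ps` at `ε > 0`, final time `t` -/
def hE (Φ : Space3 → ℝ) (f₀ : PhasePoint → ℝ) (ε : ℝ) (Ps : Fin s → CTree) (t : ℝ) (q : FPar Ps) :
    ℝ≥0∞ :=
  (FVS Φ ε Ps t).indicator (fun q => ((∏ i, wt Φ (Ps i) (q i).1.2 (q i).2) *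
    ∏ k, ENNReal.ofReal (f₀ (flines Φ ε Ps q k))) * uG Φ f₀ ε (ftubes Φ ε Ps t q) t) q

theorem hE_eq (hε : 0 ≤ ε) {Ps : Fin s → CTree} {t t' : ℝ} (ht : t ≤ t') (q : FPar Ps) :
    hE Φ f₀ ε Ps t q = Wd Φ f₀ ε Ps t q * uG Φ f₀ ε (ftubesM Φ ε Ps t q) t' := by
  unfold hE Wd
  by_cases hq : q ∈ FVS Φ ε Ps t
  · rw [indicator_of_mem hq, indicator_of_mem hq, ftubesM_of_mem hq,
      uG_ftubes_time hε hq.1 ht]
  · rw [indicator_of_notMem hq, indicator_of_notMem hq, zero_mul]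

theorem measurable_hE (hf₀ : Measurable f₀) (hΦ : AdmissiblePotential Φ) (hε : 0 < ε)
    (Ps : Fin s → CTree) (t : ℝ) : Measurable (hE Φ f₀ ε Ps t) := by
  have h : hE Φ f₀ ε Ps t = fun q => Wd Φ f₀ ε Ps t q *
      uG Φ f₀ ε (ftubesM Φ ε Ps t q) (max t 0) := funext fun q => hE_eq hε.le (le_max_left _ _) q
  rw [h]
  exact (measurable_Wd hf₀ hΦ hε Ps t).mul
    (measurable_uG_ftubes hf₀ hΦ hε (le_max_right _ _) Ps t)

/-- **The one-sided limit of the ghost-avoiding forests.** -/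
theorem forest_limit (hβ : 0 < β) (hT : 0 < T) (hΦ : AdmissiblePotential Φ)
    (hf : IsRegularKineticSolution Φ β T f₀ f) (hf₀ : Continuous f₀)
    (h1 : ∫⁻ z, ENNReal.ofReal (f₀ z) ≤ 1) (hGIV : GIV Φ f₀ f T T) [F.IsCountablyGenerated]
    (he : Tendsto e F L) (hτ : Tendsto τ F (𝓝 t₀)) (ht₀ : 0 ≤ t₀) (ht₀T : t₀ ≤ T)
    (hτT : ∀ᶠ b in F, τ b ≤ T) (Ps : Fin s → CTree) (hfin : ∫⁻ q, g0 Φ T f Ps t₀ q ≠ ∞) :
    Tendsto (fun b => ∫⁻ q, (g0 Φ T f Ps t₀ q - hE Φ f₀ (e b) Ps (τ b) q)) F (𝓝 0) := by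
  refine (forest_limit_aux hβ hT hΦ hf hf₀ h1 hGIV he hτ ht₀ ht₀T hτT Ps hfin).congr' ?_
  filter_upwards [he.eventually eventually_pos, hτT] with b hpos hbT
  refine lintegral_congr fun q => ?_
  rw [hE_eq hpos.le hbT q]

end lim

end Crest.Agent.R122.Forest399

end
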