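import Crest.Agent.R122.SepMeas_399
import Crest.Agent.R122.TreeMeas_674

/-!
Row 122, block C (helper399): the change of variables for forests.
-/

set_option autoImplicit false

open MeasureTheory Set Filter Topology Crest.AnalysisR.Kinetic
open scoped Classical ENNReal

noncomputable section

namespace Crest.Agent.R122.Forest399

open Kin796 Kin796.CTree Disc416 Tree674 TreeEps399 PiTrans399

/-! ### Currying of configurations indexed by a sigma type -/

section curry

variable {s : ℕ} {κ : Fin s → Type} [∀ i, Fintype (κ i)]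

/-- uncurried configuration -/
def unc {β : Type*} (W : (i : Fin s) → κ i → β) : (Σ i, κ i) → β := fun k => W k.1 k.2

/-- curried configuration -/
def cur {β : Type*} (V : (Σ i, κ i) → β) : (i : Fin s) → κ i → β := fun i j => V ⟨i, j⟩

theorem measurable_unc {β : Type*} [MeasurableSpace β] :
    Measurable (unc : ((i : Fin s) → κ i → β) → (Σ i, κ i) → β) :=
  measurable_pi_lambda _ fun k => (measurable_pi_apply k.2).comp (measurable_pi_apply k.1)

theorem measurable_cur {β : Type*} [MeasurableSpace β] :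
    Measurable (cur : ((Σ i, κ i) → β) → (i : Fin s) → κ i → β) :=
  measurable_pi_lambda _ fun i => measurable_pi_lambda _ fun j => measurable_pi_apply _

theorem measurePreserving_unc {β : Type*} [MeasureSpace β] [SigmaFinite (volume : Measure β)] :
    MeasurePreserving (unc : ((i : Fin s) → κ i → β) → (Σ i, κ i) → β) volume volume := by
  refine ⟨measurable_unc, ?_⟩
  refine (Measure.pi_eq fun A hA => ?_).symm
  rw [Measure.map_apply measurable_unc (MeasurableSet.univ_pi hA)]
  have h : (unc ⁻¹' univ.pi A : Set ((i : Fin s) → κ i → β)) =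
      univ.pi fun i => univ.pi fun j => A ⟨i, j⟩ := by
    ext W
    simp only [mem_preimage, Set.mem_pi, mem_univ, true_implies, unc]
    constructor
    · exact fun h i j => h ⟨i, j⟩
    · exact fun h k => h k.1 k.2
  rw [h, volume_pi, Measure.pi_pi]
  simp_rw [volume_pi, Measure.pi_pi]
  rw [Fintype.prod_sigma]

theorem lintegral_cur {β : Type*} [MeasureSpace β] [SigmaFinite (volume : Measure β)]
    {G : ((Σ i, κ i) → β) → ℝ≥0∞} (hG : Measurable G) :
    ∫⁻ V, G V = ∫⁻ W : (i : Fin s) → κ i → β, G (unc W) :=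
  (measurePreserving_unc.lintegral_comp hG).symm

end curry

variable {Φ : Space3 → ℝ} {s : ℕ} {ε : ℝ}

/-- weight of a forest (zero on invalid parameters) -/
def fvw (Φ : Space3 → ℝ) (ε : ℝ) (Ps : Fin s → CTree) (T : ℝ) (q : FPar Ps) : ℝ≥0∞ :=
  ∏ i, vw Φ ε (Ps i) T (q i)

/-- measurable version of `flines` -/
def flinesM (Φ : Space3 → ℝ) (ε : ℝ) (Ps : Fin s → CTree) (q : FPar Ps) : FIdx Ps → PhasePoint :=
  fun k => linesM Φ ε (Ps k.1) (q k.1).1 (q k.1).2 k.2

/-- inverse of `flines` -/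
def finv (Φ : Space3 → ℝ) (ε : ℝ) (Ps : Fin s → CTree) (T : ℝ) (V : FIdx Ps → PhasePoint) :
    FPar Ps := fun i => inv Φ ε (Ps i) T fun j => V ⟨i, j⟩

/-- configurations of valid forests -/
def FSkel (Φ : Space3 → ℝ) (ε : ℝ) (Ps : Fin s → CTree) (T : ℝ) : Set (FIdx Ps → PhasePoint) :=
  {V | ∃ q : FPar Ps, FValid Φ ε Ps T q ∧ flines Φ ε Ps q = V}

/-- total size -/
def fsize (Ps : Fin s → CTree) : ℕ := ∑ i, (Ps i).size

theorem mem_fskel_iff {Ps : Fin s → CTree} {T : ℝ} {V : FIdx Ps → PhasePoint} :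
    V ∈ FSkel Φ ε Ps T ↔ ∀ i, (fun j => V ⟨i, j⟩ : Idx (Ps i) → PhasePoint) ∈ Skel Φ ε (Ps i) T := by
  constructor
  · rintro ⟨q, hq, rfl⟩ i
    exact ⟨(q i).1, (q i).2, hq i, rfl⟩
  · intro h
    choose ℓ p hv hl using h
    refine ⟨fun i => (ℓ i, p i), hv, ?_⟩
    funext k
    exact congrFun (hl k.1) k.2

theorem measurableSet_fskel (hΦ : AdmissiblePotential Φ) (hε : 0 < ε) (Ps : Fin s → CTree) (T : ℝ) :
    MeasurableSet (FSkel Φ ε Ps T) := by
  have h : FSkel Φ ε Ps T = ⋂ i, (fun V : FIdx Ps → PhasePoint =>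
      (fun j => V ⟨i, j⟩ : Idx (Ps i) → PhasePoint)) ⁻¹' Skel Φ ε (Ps i) T := by
    ext V
    rw [mem_fskel_iff]
    simp only [mem_iInter, mem_preimage]
  rw [h]
  exact MeasurableSet.iInter fun i =>
    (measurable_pi_lambda _ fun j => measurable_pi_apply _) (measurableSet_skel hΦ hε (Ps i) T)

theorem measurable_finv (hΦ : AdmissiblePotential Φ) (hε : 0 < ε) (Ps : Fin s → CTree) (T : ℝ) :
    Measurable (finv Φ ε Ps T) :=
  measurable_pi_lambda _ fun i => (measurable_inv hΦ hε (Ps i) T).comp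
    (measurable_pi_lambda _ fun j => measurable_pi_apply _)

theorem finv_flines (hΦ : AdmissiblePotential Φ) (hε : 0 < ε) {Ps : Fin s → CTree} {T T' : ℝ}
    {q : FPar Ps} (hq : FValid Φ ε Ps T' q) (hT : T' ≤ T) :
    finv Φ ε Ps T (flines Φ ε Ps q) = q := by
  funext i
  exact inv_lines hΦ hε (hq i) hT

theorem flines_finv (hΦ : AdmissiblePotential Φ) (hε : 0 < ε) {Ps : Fin s → CTree} {T : ℝ}
    {V : FIdx Ps → PhasePoint} (hV : V ∈ FSkel Φ ε Ps T) :
    FValid Φ ε Ps T (finv Φ ε Ps T V) ∧ flines Φ ε Ps (finv Φ ε Ps T V) = V := by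
  obtain ⟨q, hq, rfl⟩ := hV
  rw [finv_flines hΦ hε hq le_rfl]
  exact ⟨hq, rfl⟩

theorem measurableSet_fvalid (hΦ : AdmissiblePotential Φ) (ε : ℝ) (Ps : Fin s → CTree) (T : ℝ) :
    MeasurableSet {q : FPar Ps | FValid Φ ε Ps T q} := by
  have h : {q : FPar Ps | FValid Φ ε Ps T q} = ⋂ i, (fun q : FPar Ps => q i) ⁻¹'
      {z : PhasePoint × Par (Ps i) | Valid Φ ε (Ps i) T z.1.2 z.2} := by
    ext q
    simp only [mem_ofPred_eq, mem_iInter, mem_preimage, FValid]
  rw [h]
  exact MeasurableSet.iInter fun i => (measurable_pi_apply i) (measurableSet_valid hΦ ε (Ps i) T)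

theorem measurable_fvw (hΦ : AdmissiblePotential Φ) (ε : ℝ) (Ps : Fin s → CTree) (T : ℝ) :
    Measurable (fvw Φ ε Ps T) :=
  Finset.measurable_prod _ fun i _ => (measurable_vw hΦ ε (Ps i) T).comp (measurable_pi_apply i)

theorem measurable_flinesM (hΦ : AdmissiblePotential Φ) (ε : ℝ) (Ps : Fin s → CTree) :
    Measurable (flinesM Φ ε Ps) :=
  measurable_pi_lambda _ fun k => (measurable_pi_apply k.2).comp
    ((measurable_linesM hΦ ε (Ps k.1)).comp (measurable_pi_apply k.1))

theorem flinesM_of_valid {Ps : Fin s → CTree} {T : ℝ} {q : FPar Ps} (hq : FValid Φ ε Ps T q) :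
    flinesM Φ ε Ps q = flines Φ ε Ps q := by
  funext k
  exact congrFun (linesM_of_adm ε (hq k.1).1) k.2

theorem fvw_of_valid {Ps : Fin s → CTree} {T : ℝ} {q : FPar Ps} (hq : FValid Φ ε Ps T q) :
    fvw Φ ε Ps T q = ∏ i, wt Φ (Ps i) (q i).1.2 (q i).2 :=
  Finset.prod_congr rfl fun i _ => vw_of_valid (hq i)

theorem fvw_of_not_valid {Ps : Fin s → CTree} {T : ℝ} {q : FPar Ps} (hq : ¬ FValid Φ ε Ps T q) :
    fvw Φ ε Ps T q = 0 := by
  unfold FValid at hq
  push Not at hq
  obtain ⟨i, hi⟩ := hq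
  exact Finset.prod_eq_zero (Finset.mem_univ i) (vw_of_not_valid hi)

/-- **Theorem A for forests.** -/
theorem forestMeasure (hΦ : AdmissiblePotential Φ) (hε : 0 < ε) (Ps : Fin s → CTree) (T : ℝ)
    {H : FPar Ps × (FIdx Ps → PhasePoint) → ℝ≥0∞} (hH : Measurable H) :
    ENNReal.ofReal (ε ^ 2) ^ fsize Ps * ∫⁻ q : FPar Ps, fvw Φ ε Ps T q * H (q, flinesM Φ ε Ps q) =
      ∫⁻ V : FIdx Ps → PhasePoint,
        (FSkel Φ ε Ps T).indicator (fun V => H (finv Φ ε Ps T V, V)) V := by
  -- the transfer identity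
  have hH' : Measurable fun z : ((i : Fin s) → (PhasePoint × Par (Ps i)) ×
      (Idx (Ps i) → PhasePoint)) => H (fun i => (z i).1, unc fun i => (z i).2) := by
    refine hH.comp (Measurable.prodMk ?_ (measurable_unc.comp ?_))
    · exact measurable_pi_lambda _ fun i => measurable_fst.comp (measurable_pi_apply i)
    · exact measurable_pi_lambda _ fun i => measurable_snd.comp (measurable_pi_apply i)
  have key := pi_transfer (X := fun i : Fin s => PhasePoint × Par (Ps i))
    (Y := fun i : Fin s => Idx (Ps i) → PhasePoint)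
    (Z := fun i : Fin s => (PhasePoint × Par (Ps i)) × (Idx (Ps i) → PhasePoint))
    (fun _ => volume) (fun _ => volume)
    (w := fun i z => ENNReal.ofReal (ε ^ 2) ^ (Ps i).size * vw Φ ε (Ps i) T z)
    (ρ := fun i V => (Skel Φ ε (Ps i) T).indicator 1 V)
    (fun i => measurable_const.mul (measurable_vw hΦ ε (Ps i) T))
    (fun i => measurable_one.indicator (measurableSet_skel hΦ hε (Ps i) T))
    (f := fun i z => (z, linesM Φ ε (Ps i) z.1 z.2)) (g := fun i V => (inv Φ ε (Ps i) T V, V))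
    (fun i => measurable_id.prodMk (measurable_linesM hΦ ε (Ps i)))
    (fun i => (measurable_inv hΦ hε (Ps i) T).prodMk measurable_id)
    (fun i G hG => by
      have h := treeMeasure_aux hΦ hε T (Ps i) hG
      rw [← h, ← lintegral_const_mul]
      · refine lintegral_congr fun z => ?_
        rw [mul_assoc]
      · exact (measurable_vw hΦ ε (Ps i) T).mul
          (hG.comp (measurable_id.prodMk (measurable_linesM hΦ ε (Ps i))))) hH'
  -- left side
  have hL : ∫⁻ q : FPar Ps, (∏ i, ENNReal.ofReal (ε ^ 2) ^ (Ps i).size * vw Φ ε (Ps i) T (q i)) *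
      H (fun i => q i, unc fun i => linesM Φ ε (Ps i) (q i).1 (q i).2) =
      ENNReal.ofReal (ε ^ 2) ^ fsize Ps *
        ∫⁻ q : FPar Ps, fvw Φ ε Ps T q * H (q, flinesM Φ ε Ps q) := by
    rw [← lintegral_const_mul]
    · refine lintegral_congr fun q => ?_
      rw [Finset.prod_mul_distrib, Finset.prod_pow_eq_pow_sum, mul_assoc]
      rfl
    · exact (measurable_fvw hΦ ε Ps T).mul
        (hH.comp (measurable_id.prodMk (measurable_flinesM hΦ ε Ps)))
  rw [← hL]
  -- right side
  have hR : Measurable fun V : FIdx Ps → PhasePoint =>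
      (FSkel Φ ε Ps T).indicator (fun V => H (finv Φ ε Ps T V, V)) V :=
    (hH.comp ((measurable_finv hΦ hε Ps T).prodMk measurable_id)).indicator
      (measurableSet_fskel hΦ hε Ps T)
  rw [lintegral_cur hR]
  refine key.trans (lintegral_congr fun W => ?_)
  by_cases hW : unc W ∈ FSkel Φ ε Ps T
  · rw [indicator_of_mem hW]
    have h1 : ∀ i, W i ∈ Skel Φ ε (Ps i) T := mem_fskel_iff.1 hW
    have h2 : (∏ i, (Skel Φ ε (Ps i) T).indicator (1 : (Idx (Ps i) → PhasePoint) → ℝ≥0∞) (W i)) = 1 :=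
      Finset.prod_eq_one fun i _ => by rw [indicator_of_mem (h1 i)]; rfl
    rw [h2, one_mul]
    rfl
  · rw [indicator_of_notMem hW]
    have h1 : ∃ i, W i ∉ Skel Φ ε (Ps i) T := by
      by_contra h
      push Not at h
      exact hW (mem_fskel_iff.2 h)
    obtain ⟨i, hi⟩ := h1
    have h2 : (∏ i, (Skel Φ ε (Ps i) T).indicator (1 : (Idx (Ps i) → PhasePoint) → ℝ≥0∞) (W i)) = 0 :=
      Finset.prod_eq_zero (Finset.mem_univ i) (by rw [indicator_of_notMem hi])
    rw [h2, zero_mul]

end Crest.Agent.R122.Forest399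

end
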