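import Mathlib

/-!
Row 122 (helper399): averaging over a measure preserving action + dominated convergence.
-/

set_option autoImplicit false

open MeasureTheory Set Filter Topology
open scoped Classical ENNReal

noncomputable section

namespace Crest.Agent.R122.TransAvg399

variable {E Q β : Type*} [MeasureSpace E] [SigmaFinite (volume : Measure E)] [MeasurableSpace Q]
  {μ : Measure Q} [SFinite μ]

/-- averaging identity -/
theorem avg_eq {τ : E → Q → Q} (hτ : ∀ x, MeasurePreserving (τ x) μ μ)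
    (hτm : Measurable fun z : E × Q => τ z.1 z.2) (B : Set E) {H : Q → ℝ≥0∞} (hH : Measurable H) :
    (volume B) * ∫⁻ q, H q ∂μ = ∫⁻ q, (∫⁻ x in B, H (τ x q)) ∂μ := by
  have h1 : ∫⁻ x in B, ∫⁻ q, H (τ x q) ∂μ = ∫⁻ q, (∫⁻ x in B, H (τ x q)) ∂μ :=
    lintegral_lintegral_swap (μ := (volume : Measure E).restrict B) (ν := μ)
      (f := fun x q => H (τ x q)) (hH.comp hτm).aemeasurable
  rw [← h1]
  have h2 : ∀ x, ∫⁻ q, H (τ x q) ∂μ = ∫⁻ q, H q ∂μ := fun x => (hτ x).lintegral_comp hH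
  simp only [h2, lintegral_const, Measure.restrict_apply_univ]
  ring

/-- **Averaging + domination.** -/
theorem trans_avg {τ : E → Q → Q} (hτ : ∀ x, MeasurePreserving (τ x) μ μ)
    (hτm : Measurable fun z : E × Q => τ z.1 z.2) {B : Set E} (hB : MeasurableSet B)
    (hB0 : volume B ≠ 0) (hBf : volume B ≠ ∞) {F : Filter β} [F.IsCountablyGenerated]
    {w G : β → Q → ℝ≥0∞} (hw : ∀ᶠ b in F, Measurable (w b)) (hG : ∀ᶠ b in F, Measurable (G b))
    {c : ℝ≥0∞} (hc : c ≠ ∞) (hGc : ∀ᶠ b in F, ∀ q, G b q ≤ c) {W : Q → ℝ≥0∞}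
    (hW : AEMeasurable W μ) (hWi : ∫⁻ q, W q ∂μ ≠ ∞)
    (hwW : ∀ᶠ b in F, ∀ᵐ q ∂μ, ∀ x ∈ B, w b (τ x q) ≤ W q)
    (hlim : ∀ᵐ q ∂μ, Tendsto (fun b => ∫⁻ x in B, G b (τ x q)) F (𝓝 0)) :
    Tendsto (fun b => ∫⁻ q, w b q * G b q ∂μ) F (𝓝 0) := by
  -- the averaged bound
  have hbound : ∀ᶠ b in F, ∫⁻ q, w b q * G b q ∂μ ≤
      (volume B)⁻¹ * ∫⁻ q, (W q * ∫⁻ x in B, G b (τ x q)) ∂μ := by
    filter_upwards [hw, hG, hwW] with b hwb hGb hb
    have h1 := avg_eq hτ hτm B (hwb.mul hGb)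
    have h2 : ∫⁻ q, (∫⁻ x in B, (w b * G b) (τ x q)) ∂μ ≤
        ∫⁻ q, (W q * ∫⁻ x in B, G b (τ x q)) ∂μ := by
      refine lintegral_mono_ae ?_
      filter_upwards [hb] with q hq
      have hm : Measurable fun x => G b (τ x q) :=
        hGb.comp (hτm.comp (measurable_id.prodMk measurable_const))
      rw [← lintegral_const_mul _ hm]
      refine setLIntegral_mono' hB fun x hx => ?_
      simp only [Pi.mul_apply]
      gcongr
      exact hq x hx
    rw [← h1] at h2
    calc ∫⁻ q, w b q * G b q ∂μ = (volume B)⁻¹ * (volume B * ∫⁻ q, (w b * G b) q ∂μ) := by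
          rw [← mul_assoc, ENNReal.inv_mul_cancel hB0 hBf, one_mul]
          rfl
      _ ≤ _ := by gcongr
  -- domination
  have hlim2 : Tendsto (fun b => ∫⁻ q, (W q * ∫⁻ x in B, G b (τ x q)) ∂μ) F (𝓝 0) := by
    have h0 : ∫⁻ _ : Q, (0 : ℝ≥0∞) ∂μ = 0 := by simp
    rw [← h0]
    refine tendsto_lintegral_filter_of_dominated_convergence' (fun q => W q * (c * volume B))
      ?_ ?_ ?_ ?_
    · filter_upwards [hG] with b hGb
      exact hW.mul (Measurable.lintegral_prod_left'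
        (f := fun z : E × Q => G b (τ z.1 z.2)) (hGb.comp hτm)).aemeasurable
    · filter_upwards [hGc] with b hb
      refine Eventually.of_forall fun q => ?_
      gcongr
      calc ∫⁻ x in B, G b (τ x q) ≤ ∫⁻ _ in B, c := lintegral_mono fun x => hb _
        _ = c * volume B := by simp
    · rw [lintegral_mul_const'' _ hW]
      exact ENNReal.mul_ne_top hWi (ENNReal.mul_ne_top hc hBf)
    · filter_upwards [hlim, ae_lt_top' hW hWi] with q hq hq2
      have := ENNReal.Tendsto.const_mul (a := W q) hq (Or.inr hq2.ne)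
      simpa using this
  have hlim3 : Tendsto (fun b => (volume B)⁻¹ * ∫⁻ q, (W q * ∫⁻ x in B, G b (τ x q)) ∂μ) F (𝓝 0) := by
    have := ENNReal.Tendsto.const_mul (a := (volume B)⁻¹) hlim2
      (Or.inr (ENNReal.inv_ne_top.2 hB0))
    simpa using this
  exact tendsto_of_tendsto_of_tendsto_of_le_of_le' tendsto_const_nhds hlim3
    (Eventually.of_forall fun _ => bot_le) hbound

end Crest.Agent.R122.TransAvg399

end
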