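import Crest.Agent.R122.ForestSep_399
import Crest.Agent.R122.ForestInt_399
import Crest.Agent.R122.GIVUse_424
import Crest.Agent.R122.TubeChild1_491
import Crest.Agent.R122.HidLam2_424
import Crest.Agent.R122.TransAvg_399

/-!
Row 122, block I1 (helper399): the protected tubes of a forest.

* `ftubes` : the protected tubes up to the final time `t`;
* `fshift` : common translation of the roots, measure preserving;
* `fconvE`, `generic_ftubes` : convergence and genericity of the tubes;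
* `dampG_ftubes` : the kinetic avoidance probability is the product of the damping factors;
* `prod_tdens_eq` : the damped density of a forest.
-/

set_option autoImplicit false

open MeasureTheory Set Filter Topology Crest.AnalysisR.Kinetic
open scoped Classical ENNReal NNReal

noncomputable section

namespace Crest.Agent.R122.Forest399

open Kin796 Kin796.CTree Kin416 Disc416 Tree674 TreeEps399 PiTrans399 TreeFatou399 Hid424 GIV566
  GIVUse424 Boltz814

variable {Φ : Space3 → ℝ} {s : ℕ} {ε : ℝ}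

/-- the protected tubes of a forest with final time `t` -/
def ftubes (Φ : Space3 → ℝ) (ε : ℝ) (Ps : Fin s → CTree) (t : ℝ) (q : FPar Ps) : Tubes (FIdx Ps) :=
  ⟨fun k u => (path Φ ε (Ps k.1) (q k.1).1 (q k.1).2 u k.2).1,
    fun k => prot (Ps k.1) t (q k.1).2 k.2⟩

/-- common translation of the roots -/
def fshift {Ps : Fin s → CTree} (x : Space3) (q : FPar Ps) : FPar Ps :=
  fun i => (((q i).1.1 + x, (q i).1.2), (q i).2)

theorem measurePreserving_fshift (Ps : Fin s → CTree) (x : Space3) :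
    MeasurePreserving (fshift x : FPar Ps → FPar Ps) volume volume := by
  have h1 : ∀ i, MeasurePreserving (fun z : PhasePoint × Par (Ps i) =>
      (((z.1.1 + x, z.1.2), z.2) : PhasePoint × Par (Ps i))) volume volume := by
    intro i
    have a1 : MeasurePreserving (fun ℓ : PhasePoint => ((ℓ.1 + x, ℓ.2) : PhasePoint))
        volume volume :=
      (measurePreserving_add_right (volume : Measure Space3) x).prod
        (MeasurePreserving.id (volume : Measure Space3))
    exact a1.prod (MeasurePreserving.id (volume : Measure (Par (Ps i))))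
  exact measurePreserving_pi (fun i : Fin s => (volume : Measure (PhasePoint × Par (Ps i))))
    (fun i : Fin s => (volume : Measure (PhasePoint × Par (Ps i)))) h1

theorem measurable_fshift (Ps : Fin s → CTree) :
    Measurable fun z : Space3 × FPar Ps => fshift z.1 z.2 := by
  refine measurable_pi_lambda _ fun i => ?_
  have h1 : Measurable fun z : Space3 × FPar Ps => z.2 i :=
    (measurable_pi_apply i).comp measurable_snd
  exact (((h1.fst.fst).add measurable_fst).prodMk h1.fst.snd).prodMk h1.snd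

theorem path_root_shift (ε : ℝ) (P : CTree) (ℓ : PhasePoint) (x : Space3) (p : Par P) (u : ℝ)
    (i : Idx P) :
    path Φ ε P (ℓ.1 + x, ℓ.2) p u i = ((path Φ ε P ℓ p u i).1 + x, (path Φ ε P ℓ p u i).2) := by
  rw [Hid424.path_shift ε P (ℓ.1 + x) ℓ.2, show path Φ ε P ℓ p u i =
    path Φ ε P (ℓ.1, ℓ.2) p u i from rfl, Hid424.path_shift ε P ℓ.1 ℓ.2]
  simp [add_assoc]

theorem fvalid_shift {Ps : Fin s → CTree} {T : ℝ} {q : FPar Ps} (x : Space3) :
    FValid Φ ε Ps T (fshift x q) ↔ FValid Φ ε Ps T q := Iff.rfl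

theorem fsep_shift {Ps : Fin s → CTree} {T : ℝ} {q : FPar Ps} (x : Space3) :
    FSep Φ ε Ps T (fshift x q) ↔ FSep Φ ε Ps T q := by
  unfold FSep
  refine and_congr (forall_congr' fun i => ?_) ?_
  · show Tree674.Sep Φ ε (Ps i) T ((q i).1.1 + x, (q i).1.2) (q i).2 ↔
      Tree674.Sep Φ ε (Ps i) T ((q i).1.1, (q i).1.2) (q i).2
    exact (Hid424.sep_shift _).trans (Hid424.sep_shift _).symm
  · refine forall_congr' fun i => forall_congr' fun i' => forall_congr' fun _ =>
      forall_congr' fun j => forall_congr' fun j' => forall_congr' fun u => forall_congr' fun _ => ?_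
    show ε < dist (path Φ ε (Ps i) ((q i).1.1 + x, (q i).1.2) (q i).2 u j).1
      (path Φ ε (Ps i') ((q i').1.1 + x, (q i').1.2) (q i').2 u j').1 ↔ _
    rw [path_root_shift, path_root_shift, dist_add_right]

theorem fvs_shift {Ps : Fin s → CTree} {T : ℝ} {q : FPar Ps} (x : Space3) :
    fshift x q ∈ FVS Φ ε Ps T ↔ q ∈ FVS Φ ε Ps T :=
  and_congr (fvalid_shift x) (fsep_shift x)

theorem ftubes_shift (Ps : Fin s → CTree) (t : ℝ) (q : FPar Ps) (x : Space3) :
    ftubes Φ ε Ps t (fshift x q) = (ftubes Φ ε Ps t q).shift x := by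
  unfold ftubes Tubes.shift
  congr 1
  funext k u
  show (path Φ ε (Ps k.1) ((q k.1).1.1 + x, (q k.1).1.2) (q k.1).2 u k.2).1 = _
  rw [path_root_shift]

/-! ### Protected times -/

theorem prot_cases (P : CTree) (t t' : ℝ) (p : Par P) (i : Idx P) :
    (i = root P ∧ prot P t p i = t) ∨ (i ≠ root P ∧ prot P t p i = prot P t' p i) := by
  by_cases h : i = root P
  · left
    refine ⟨h, ?_⟩
    rw [h]
    exact PathFlow968.prot_root P t p
  · right
    exact ⟨h, PathFlow968.prot_eq_of_ne P t t' p h⟩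

theorem prot_le_top {P : CTree} {t : ℝ} {v : Space3} {p : Par P} (hV : Valid Φ 0 P t v p)
    (i : Idx P) : prot P t p i ≤ t := PathFlow968.prot_le le_rfl P t v p hV.2 i

theorem tendsto_prot {β : Type*} {F : Filter β} {τ : β → ℝ} {t₀ : ℝ} (hτ : Tendsto τ F (𝓝 t₀))
    (P : CTree) (p : Par P) (i : Idx P) :
    Tendsto (fun b => prot P (τ b) p i) F (𝓝 (prot P t₀ p i)) := by
  by_cases h : i = root P
  · subst h
    simp only [PathFlow968.prot_root]
    exact hτ
  · have h1 : (fun b => prot P (τ b) p i) = fun _ => prot P t₀ p i := by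
      funext b
      exact PathFlow968.prot_eq_of_ne P (τ b) t₀ p h
    rw [h1]
    exact tendsto_const_nhds

theorem ftubes_b_le {Ps : Fin s → CTree} {t t₀ : ℝ} {q : FPar Ps} (hV : FValid Φ 0 Ps t₀ q)
    (k : FIdx Ps) : (ftubes Φ ε Ps t q).b k ≤ max t t₀ := by
  show prot (Ps k.1) t (q k.1).2 k.2 ≤ max t t₀
  rcases prot_cases (Ps k.1) t t₀ (q k.1).2 k.2 with ⟨_, h⟩ | ⟨_, h⟩
  · rw [h]; exact le_max_left _ _
  · rw [h]; exact (prot_le_top (hV k.1) k.2).trans (le_max_right _ _)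

/-! ### Convergence and genericity -/

section conv

variable {β : Type*} {F : Filter β} {e τ : β → ℝ} {t₀ T : ℝ}

/-- **Convergence of the tubes of a forest.** -/
theorem fconvE (hΦ : AdmissiblePotential Φ) (he : Tendsto e F L) (hτ : Tendsto τ F (𝓝 t₀))
    (hT : 0 ≤ T) (h0 : t₀ ≤ T) (hτT : ∀ᶠ b in F, τ b ≤ T) (Ps : Fin s → CTree) {q : FPar Ps}
    (hV : FValid Φ 0 Ps t₀ q) (hG : FGen Φ Ps q) :
    ConvE F T (fun b => ftubes Φ (e b) Ps (τ b) q) (ftubes Φ 0 Ps t₀ q) := by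
  have hVT : ∀ i, Valid Φ 0 (Ps i) T (q i).1.2 (q i).2 := fun i => valid_mono h0 (hV i)
  have hG0 : ∀ i, Gen Φ (Ps i) (0, (q i).1.2) (q i).2 := fun i =>
    (Hid424.gen_shift (q i).1.1).1 (hG.1 i)
  refine ⟨?_, ?_, ?_, ?_, ?_⟩
  · have h1 := fun i => TubeChild491.pathlip hΦ he hT (hVT i) (hG0 i) (fun _ => (q i).1.1)
    choose M hM using h1
    refine ⟨∑ i, M i, ?_⟩
    have h2 : ∀ᶠ b in F, ∀ i, ∀ j : Idx (Ps i), LipschitzOnWith (M i)
        (fun u => (path Φ (e b) (Ps i) ((q i).1.1, (q i).1.2) (q i).2 u j).1) (Icc 0 T) :=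
      eventually_all.2 fun i => (hM i).1
    filter_upwards [h2] with b hb k
    exact (hb k.1 k.2).weaken (Finset.single_le_sum (f := M) (fun _ _ => bot_le)
      (Finset.mem_univ k.1))
  · intro k
    exact TubeChild491.pathunif he (hV k.1) (X := fun _ => (q k.1).1.1) tendsto_const_nhds
      (Icc 0 T) k.2
  · intro k
    exact tendsto_prot hτ (Ps k.1) (q k.1).2 k.2
  · refine ⟨⋃ i, {u | ¬ NotTime (Ps i) (q i).2 u}, Set.finite_iUnion fun i =>
      Hid424.finite_times (Ps i) (q i).2, ?_⟩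
    intro u hu huB k _
    have hn : NotTime (Ps k.1) (q k.1).2 u := by
      by_contra h
      exact huB (mem_iUnion.2 ⟨k.1, h⟩)
    obtain ⟨w, δ, hδ, h1, h2⟩ := TubeChild491.pathvel (v := (q k.1).1.2) he hn
      (fun _ => (q k.1).1.1) (q k.1).1.1
    exact ⟨w k.2, Metric.ball u δ, Metric.ball_mem_nhds u hδ, h1 k.2, h2.mono fun b hb => hb k.2⟩
  · filter_upwards [hτT] with b hb k
    exact (ftubes_b_le hV k).trans (max_le hb h0)

/-- **Genericity of the tubes of a forest.** -/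
theorem generic_ftubes {Ps : Fin s → CTree} {q : FPar Ps} (hG : FGen Φ Ps q) :
    Generic T (ftubes Φ 0 Ps t₀ q) := by
  rintro ⟨i, j⟩ ⟨i', j'⟩ hne
  by_cases hi : i = i'
  · subst hi
    have hj : j ≠ j' := fun h => hne (by rw [h])
    refine (Hid424.finite_meet (hG.1 i) hj).subset ?_
    rintro u ⟨hu, he⟩
    exact ⟨hu.1, he⟩
  · refine (Set.finite_empty).subset ?_
    rintro u ⟨_, he⟩
    exact hG.2 i i' hi j j' u he

end conv

/-! ### The damping -/

section damp

variable {β T : ℝ} {f₀ : PhasePoint → ℝ} {f : ℝ → PhasePoint → ℝ}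

theorem deriv_path {P : CTree} {p : Par P} {u : ℝ} (hn : NotTime P p u) (ℓ : PhasePoint)
    (i : Idx P) :
    deriv (fun u => (path Φ 0 P ℓ p u i).1) u = (path Φ 0 P ℓ p u i).2 := by
  obtain ⟨w, δ, hδ, h0, _⟩ := path_local (Φ := Φ) P ℓ.2 p u hn
  have h1 : ∀ u', |u' - u| < δ → path Φ 0 P ℓ p u' i = ((path Φ 0 P ℓ p u i).1 + (u' - u) • w i, w i) :=
    fun u' hu' => h0 ℓ.1 u' hu' i
  have h2 : (path Φ 0 P ℓ p u i).2 = w i := by
    have := h1 u (by simpa using hδ)
    rw [this]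
  rw [h2]
  have h3 : (fun u => (path Φ 0 P ℓ p u i).1) =ᶠ[𝓝 u]
      fun u' => (path Φ 0 P ℓ p u i).1 + (u' - u) • w i := by
    filter_upwards [Metric.ball_mem_nhds u hδ] with u' hu'
    rw [h1 u' (by simpa [Real.dist_eq] using hu')]
  rw [h3.deriv_eq]
  have h4 : HasDerivAt (fun u' : ℝ => (path Φ 0 P ℓ p u i).1 + (u' - u) • w i) (w i) u := by
    have := (((hasDerivAt_id u).sub_const u).smul_const (w i)).const_add (path Φ 0 P ℓ p u i).1
    simpa using this
  exact h4.deriv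

theorem continuous_ftubes {Ps : Fin s → CTree} {t t₀ : ℝ} {q : FPar Ps} (hV : FValid Φ 0 Ps t₀ q)
    (k : FIdx Ps) : Continuous ((ftubes Φ 0 Ps t q).c k) :=
  TreeEps399.continuous_path0 (Ps k.1) (q k.1).1 (q k.1).2 t₀ (hV k.1).2 k.2

/-- **The rate of the protected tubes of a forest.** -/
theorem Lam_ftubes (hf : IsRegularKineticSolution Φ β T f₀ f) {Ps : Fin s → CTree} {t₀ t : ℝ}
    {q : FPar Ps} (hV : FValid Φ 0 Ps t₀ q) (h0 : t₀ ≤ t) :
    Lam T f (ftubes Φ 0 Ps t₀ q) t =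
      ∑ i, LamP Φ (nuF T f) t₀ (Ps i) t₀ (q i).1 (q i).2 := by
  rw [Lam_eq_sum hf fun k => (continuous_ftubes hV k).continuousOn, Fintype.sum_sigma]
  refine Finset.sum_congr rfl fun i _ => ?_
  unfold LamP
  refine Finset.sum_congr rfl fun j _ => ?_
  unfold legR
  have h1 : prot (Ps i) t₀ (q i).2 j ≤ t₀ := prot_le_top (hV i) j
  have h2 : (ftubes Φ 0 Ps t₀ q).b ⟨i, j⟩ = prot (Ps i) t₀ (q i).2 j := rfl
  rw [h2, min_eq_left h1, min_eq_left (h1.trans h0)]
  have h3 : ∀ᵐ u : ℝ, NotTime (Ps i) (q i).2 u := by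
    rw [ae_iff]
    exact (Hid424.finite_times (Ps i) (q i).2).measure_zero volume
  refine lintegral_congr_ae (ae_restrict_of_ae ?_)
  filter_upwards [h3] with u hu
  show nuF T f u (path Φ 0 (Ps i) (q i).1 (q i).2 u j).1
    (deriv (fun u => (path Φ 0 (Ps i) (q i).1 (q i).2 u j).1) u) = _
  rw [deriv_path hu]

theorem eexp_sum {ι : Type*} (A : Finset ι) (x : ι → ℝ≥0∞) (h : ∀ i ∈ A, x i ≠ ∞) :
    eexp (∑ i ∈ A, x i) = ∏ i ∈ A, eexp (x i) := by
  induction A using Finset.induction_on with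
  | empty => simp [eexp_zero]
  | insert a A ha ih =>
    rw [Finset.sum_insert ha, Finset.prod_insert ha, eexp_add (h a (Finset.mem_insert_self a A)),
      ih fun i hi => h i (Finset.mem_insert_of_mem hi)]
    exact ENNReal.sum_ne_top.2 fun i hi => h i (Finset.mem_insert_of_mem hi)

/-- the kinetic avoidance probability of a forest is the product of the damping factors -/
theorem dampG_ftubes (hβ : 0 < β) (hT : 0 < T) (hf : IsRegularKineticSolution Φ β T f₀ f)
    {Ps : Fin s → CTree} {t₀ t : ℝ} (ht₀ : 0 ≤ t₀) {q : FPar Ps} (hV : FValid Φ 0 Ps t₀ q)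
    (h0 : t₀ ≤ t) :
    dampG T f (ftubes Φ 0 Ps t₀ q) t =
      ∏ i, eexp (LamP Φ (nuF T f) t₀ (Ps i) t₀ (q i).1 (q i).2) := by
  unfold dampG
  rw [Lam_ftubes hf hV h0]
  exact eexp_sum Finset.univ _ fun i _ =>
    LamP_ne_top (finRate_nuF hβ hT hf) ht₀ (hV i).2

theorem dens_congr {D D' : ℝ → ℝ → Space3 → Space3 → ℝ≥0∞} {f0 : Space3 → Space3 → ℝ≥0∞} {tw : ℝ}
    (htw : 0 ≤ tw) (h : ∀ s t x v, s ≤ tw → t ≤ tw → D s t x v = D' s t x v) :
    ∀ (P : CTree) (t : ℝ) (ℓ : PhasePoint) (p : Par P), t ≤ tw → Tree674.Ord Φ 0 P t ℓ.2 p →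
      dens Φ D f0 P t ℓ p = dens Φ D' f0 P t ℓ p
  | leaf, t, ℓ, p, ht, _ => by
      simp only [dens]
      rw [h 0 t _ _ htw ht]
  | node l r, t, ℓ, p, ht, hO => by
      have h1 : p.1.1 < t := hO.1
      have hl := hO.2.2.1
      have hr := hO.2.2.2
      rw [sin_zero] at hl hr
      have e1 := dens_congr (f0 := f0) htw h l p.1.1 (inMap Φ 0 ℓ p.1).1 p.2.1 (h1.le.trans ht) hl
      have e2 := dens_congr (f0 := f0) htw h r p.1.1 (inMap Φ 0 ℓ p.1).2 p.2.2 (h1.le.trans ht) hr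
      simp only [dens]
      rw [e1, e2, h _ _ _ _ (h1.le.trans ht) ht]

theorem Dwin_eq_damp {tw s t : ℝ} (hs : s ≤ tw) (ht : t ≤ tw) (x v : Space3) :
    damp T f s t x v = Hid424.Dwin (nuF T f) tw s t x v := by
  rw [← Dwin_814]
  unfold Seg814.Dwin
  rw [min_eq_left hs, min_eq_left ht, sub_self, zero_smul, sub_zero]

/-- damped density of a tree: `exp (-Λ)` times the product of the initial densities -/
theorem dens_damp (hβ : 0 < β) (hT : 0 < T) (hf : IsRegularKineticSolution Φ β T f₀ f)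
    (f0 : Space3 → Space3 → ℝ≥0∞) {P : CTree} {t : ℝ} (ht : 0 ≤ t) {ℓ : PhasePoint} {p : Par P}
    (hO : Tree674.Ord Φ 0 P t ℓ.2 p) :
    dens Φ (damp T f) f0 P t ℓ p = eexp (LamP Φ (nuF T f) t P t ℓ p) *
      ∏ i, f0 (lines Φ 0 P ℓ p i).1 (lines Φ 0 P ℓ p i).2 := by
  rw [dens_congr (D' := Hid424.Dwin (nuF T f) t) ht (fun s t' x v hs ht' => Dwin_eq_damp hs ht' x v)
    P t ℓ p le_rfl hO]
  exact dens_eq (finRate_nuF hβ hT hf) ht f0 ht hO

/-- **The damped density of a forest.** -/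
theorem prod_tdens_eq (hβ : 0 < β) (hT : 0 < T) (hf : IsRegularKineticSolution Φ β T f₀ f)
    {Ps : Fin s → CTree} {t₀ t : ℝ} (ht₀ : 0 ≤ t₀) (h0 : t₀ ≤ t) {q : FPar Ps}
    (hV : FValid Φ 0 Ps t₀ q) :
    ∏ i, tdens Φ (damp T f) (fE T f 0) (Ps i) t₀ (q i) =
      ((∏ i, wt Φ (Ps i) (q i).1.2 (q i).2) * ∏ k, ENNReal.ofReal (f₀ (flines Φ 0 Ps q k))) *
        dampG T f (ftubes Φ 0 Ps t₀ q) t := by
  have h1 : ∀ i, tdens Φ (damp T f) (fE T f 0) (Ps i) t₀ (q i) =
      wt Φ (Ps i) (q i).1.2 (q i).2 * (eexp (LamP Φ (nuF T f) t₀ (Ps i) t₀ (q i).1 (q i).2) *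
        ∏ j, ENNReal.ofReal (f₀ (lines Φ 0 (Ps i) (q i).1 (q i).2 j))) := by
    intro i
    unfold tdens
    rw [indicator_of_mem (show q i ∈ {z : PhasePoint × Par (Ps i) | Valid Φ 0 (Ps i) t₀ z.1.2 z.2}
      from hV i), dens_damp hβ hT hf (fE T f 0) ht₀ (hV i).2]
    congr 2
    refine Finset.prod_congr rfl fun j _ => ?_
    rw [fE_of_mem (⟨le_rfl, hT.le⟩ : (0 : ℝ) ∈ Icc 0 T), hf.initial]
  rw [dampG_ftubes hβ hT hf ht₀ hV h0]
  simp only [h1, Finset.prod_mul_distrib]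
  have h2 : ∏ k : FIdx Ps, ENNReal.ofReal (f₀ (flines Φ 0 Ps q k)) =
      ∏ i, ∏ j, ENNReal.ofReal (f₀ (lines Φ 0 (Ps i) (q i).1 (q i).2 j)) :=
    Fintype.prod_sigma _
  rw [h2]
  ring

end damp

end Crest.Agent.R122.Forest399

end
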