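import Crest.Agent.R122.Count_973
import Crest.Agent.R122.ForestFatou_399
import Crest.Agent.R122.PathCausal_968

/-!
# Row 122, block FP (helper973): the isolated world of a valid separated forest
-/

set_option autoImplicit false

open MeasureTheory Set Crest.AnalysisR.Kinetic
open scoped Classical ENNReal

noncomputable section

namespace Crest.Agent.R122.Final973

open Kin796 Kin796.CTree Disc416 Tree674 Causal291 GC311 Flow671 Loc45
open Forest399 (FPar flines fpath FValid FSep)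

variable {Φ : Space3 → ℝ} {ε : ℝ} {s : ℕ} {Ps : Fin s → CTree} {T : ℝ} {q : FPar Ps}

theorem sigma_ne {i : Fin s} {j j' : Idx (Ps i)} (h : (⟨i, j⟩ : FIdx Ps) ≠ ⟨i, j'⟩) : j ≠ j' :=
  fun hh => h (by rw [hh])

theorem sigma_mk_inj (i : Fin s) : Function.Injective (fun j : Idx (Ps i) => (⟨i, j⟩ : FIdx Ps)) :=
  fun a b h => eq_of_heq (Sigma.mk.inj_iff.1 h).2

/-- The trajectory of a valid separated forest is a solution curve. -/
theorem solOn_fpath (hΦ : AdmissiblePotential Φ) (hε : 0 < ε) (hv : FValid Φ ε Ps T q)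
    (hs : FSep Φ ε Ps T q) : SolOn Φ ε (fpath Φ ε Ps q) (Icc 0 T) := by
  intro u hu
  rw [hasDerivWithinAt_pi]
  rintro ⟨i, j⟩
  have h1 := PathFlow968.solOn_path hΦ hε (Ps i) T (q i).1 (q i).2 (hv i) (hs.1 i) u hu
  rw [hasDerivWithinAt_pi] at h1
  have h2 := h1 j
  have h3 := nf_comp_apply hΦ hε (⟨fun j => ⟨i, j⟩, sigma_mk_inj i⟩ : Idx (Ps i) ↪ FIdx Ps)
    (fpath Φ ε Ps q u) j (by
      rintro ⟨i', j'⟩ hj'
      have hii : i ≠ i' := by
        rintro rfl
        exact hj' ⟨j', rfl⟩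
      exact (hs.2 i i' hii j j' u hu).le)
  have h4 : nf Φ ε (fpath Φ ε Ps q u) ⟨i, j⟩ = nf Φ ε (path Φ ε (Ps i) (q i).1 (q i).2 u) j :=
    h3.symm
  rw [h4]
  exact h2

theorem fpath_zero (hv : FValid Φ ε Ps T q) : fpath Φ ε Ps q 0 = flines Φ ε Ps q := by
  funext ⟨i, j⟩
  exact congrFun (PathFlow968.path_zero (Ps i) T (q i).1 (q i).2 (hv i).2) j

theorem flines_mem_Dom (hε : 0 < ε) (hT : 0 ≤ T) (hv : FValid Φ ε Ps T q)
    (hs : FSep Φ ε Ps T q) : flines Φ ε Ps q ∈ Dom Φ (FIdx Ps) :=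
  Dom_of_far hε fun _ _ hij => (Forest399.FSep.zero Ps hε.le hT hv hs hij).le

/-- The trajectory of a valid separated forest is the Newton flow. -/
theorem pth_flines (hΦ : AdmissiblePotential Φ) (hε : 0 < ε) (hv : FValid Φ ε Ps T q)
    (hs : FSep Φ ε Ps T q) {u : ℝ} (hu : u ∈ Icc 0 T) :
    pth Φ ε (flines Φ ε Ps q) u = fpath Φ ε Ps q u := by
  have hT : 0 ≤ T := hu.1.trans hu.2
  have h1 := Flow671.eq_flow hΦ hε (a := 0) (b := T) ⟨le_rfl, hT⟩
    (solOn_fpath hΦ hε hv hs) (by rw [fpath_zero hv]; exact flines_mem_Dom hε hT hv hs) hu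
  rw [h1, fpath_zero hv]
  rfl

/-- The root of a tree at the final time. -/
theorem pth_froot (hΦ : AdmissiblePotential Φ) (hε : 0 < ε) (hT : 0 ≤ T)
    (hv : FValid Φ ε Ps T q) (hs : FSep Φ ε Ps T q) (i : Fin s) :
    pth Φ ε (flines Φ ε Ps q) T (froot Ps i) = onLine (q i).1 T := by
  rw [pth_flines hΦ hε hv hs ⟨hT, le_rfl⟩]
  exact path_root (Ps i) hε.le (hv i).2 le_rfl

/-- **A valid separated forest is followed by its isolated world.** -/
theorem mem_pat_flines (hΦ : AdmissiblePotential Φ) (hε : 0 < ε)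
    (hv : FValid Φ ε Ps T q) (hs : FSep Φ ε Ps T q) : flines Φ ε Ps q ∈ Pat Φ ε T Ps := by
  intro i
  refine follow_of_emb hε (z := pth Φ ε (flines Φ ε Ps q)) (P := Ps i) (ℓ := (q i).1)
    (p := (q i).2) (e := fun x => (⟨i, x⟩ : FIdx Ps)) (hv i) (hs.1 i) ⟨sigma_mk_inj i, ?_, ?_⟩
  · intro k u hu0 hu
    have huT : u ≤ T := hu.trans (prot_le (Ps i) (q i).2 k hε.le (hv i).2)
    rw [pth_flines hΦ hε hv hs ⟨hu0, huT⟩]
    rfl
  · rintro k u hu0 huT huk ⟨i', j⟩ hj
    rw [pth_flines hΦ hε hv hs ⟨hu0, huT.le⟩]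
    by_cases hii : i = i'
    · subst hii
      have h1 : prot (Ps i) T (q i).2 j < u := hj j rfl
      refine hs.1 i k j ?_ u ⟨hu0, huT.le⟩ ?_ ?_
      · rintro rfl
        exact absurd huk (not_le.2 h1)
      · intro hw
        exact absurd (inWindow_prot (Ps i) hε.le (hv i).2 hw).2 (not_le.2 h1)
      · intro hw
        exact absurd (inWindow_prot (Ps i) hε.le (hv i).2 hw).1 (not_le.2 h1)
    · exact hs.2 i i' hii k j u ⟨hu0, huT.le⟩

/-- The active set of the isolated world of a forest: protected times. -/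
theorem past_forest_iff (hΦ : AdmissiblePotential Φ) (hε : 0 < ε) (hT : 0 ≤ T)
    (hv : FValid Φ ε Ps T q) (hs : FSep Φ ε Ps T q) {u : ℝ} (hu : 0 ≤ u) (k : FIdx Ps) :
    (∃ i, Past (Ct (pth Φ ε (flines Φ ε Ps q)) ε) T (froot Ps i) u k) ↔
      u ≤ prot (Ps k.1) T (q k.1).2 k.2 := by
  constructor
  · rintro ⟨i, h⟩
    have := Act_subset_of_closed (C := Ct (pth Φ ε (flines Φ ε Ps q)) ε) (t := T)
      (i := froot Ps i) (s₀ := 0)
      (G := fun u => {k : FIdx Ps | u ≤ prot (Ps k.1) T (q k.1).2 k.2}) (fun u _ h => by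
        show u ≤ prot (Ps i) T (q i).2 (root (Ps i))
        rw [prot_root]
        exact h) (fun u u' _ h _ k hk => le_trans h hk) (fun u j l h1 h2 hj hc => by
        obtain ⟨i, j⟩ := j
        obtain ⟨i', l⟩ := l
        unfold Ct at hc
        rw [pth_flines hΦ hε hv hs ⟨h1, h2⟩] at hc
        by_cases hii : i = i'
        · subst hii
          have hc' : Ct (path Φ ε (Ps i) (q i).1 (q i).2) ε u j l := hc
          rcases (PathFlow968.ct_iff hΦ hε (hv i) (hs.1 i) ⟨h1, h2⟩).1 hc' with rfl | h | h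
          · exact hj
          · exact (inWindow_prot (Ps i) hε.le (hv i).2 h).2
          · exact (inWindow_prot (Ps i) hε.le (hv i).2 h).1
        · exact absurd hc (not_le.2 (hs.2 i i' hii j l u ⟨h1, h2⟩))) hu
    exact this h
  · intro h
    obtain ⟨i, k⟩ := k
    refine ⟨i, ?_⟩
    have h1 := (PathFlow968.past_iff hΦ hε hT (hv i) (hs.1 i) hu (k := k)).2 h
    have h2 : Past (Ct (fpath Φ ε Ps q) ε) T (⟨i, root (Ps i)⟩ : FIdx Ps) u ⟨i, k⟩ :=
      past_map (C := Ct (fpath Φ ε Ps q) ε) (D := Ct (path Φ ε (Ps i) (q i).1 (q i).2) ε)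
        (e := fun j => (⟨i, j⟩ : FIdx Ps)) (fun _ _ _ h => h) h1
    refine (past_congr (s₀ := 0) (fun s' j l h1 h2 => ?_) hu).1 h2
    unfold Ct
    rw [pth_flines hΦ hε hv hs ⟨h1, h2.le⟩]

end Crest.Agent.R122.Final973
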