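import Crest.Agent.R122.TreeSpec_674
import Crest.Agent.R122.TreeSep_399

/-!
Row 122, block C (helper399): Theorem E (Fatou) : abstract filter version.
-/

set_option autoImplicit false

open MeasureTheory Set Filter Topology Crest.AnalysisR.Kinetic
open scoped Classical ENNReal

noncomputable section

namespace Crest.Agent.R122.TreeFatou399

open Kin796 Kin796.CTree Disc416 Tree674

/-! ### Fatou's lemma along countably generated filters -/

section abstract_fatou

variable {α β : Type*} [MeasurableSpace α] {μ : Measure α}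

/-- Fatou along `atTop`, with an a.e. minorant of the liminf. -/
theorem fatou_seq {f : ℕ → α → ℝ≥0∞} {g : α → ℝ≥0∞} (hf : ∀ n, AEMeasurable (f n) μ)
    (hg : ∀ᵐ z ∂μ, g z ≤ liminf (fun n => f n z) atTop) :
    ∫⁻ z, g z ∂μ ≤ liminf (fun n => ∫⁻ z, f n z ∂μ) atTop :=
  (lintegral_mono_ae hg).trans (lintegral_liminf_le' hf)

/-- Fatou along a countably generated filter, with an a.e. minorant of the liminf. -/
theorem fatou_filter {L : Filter β} [L.IsCountablyGenerated] {f : β → α → ℝ≥0∞} {g : α → ℝ≥0∞}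
    (hf : ∀ᶠ b in L, AEMeasurable (f b) μ)
    (hg : ∀ᵐ z ∂μ, g z ≤ liminf (fun b => f b z) L) :
    ∫⁻ z, g z ∂μ ≤ liminf (fun b => ∫⁻ z, f b z ∂μ) L := by
  by_contra hcon
  rw [not_le] at hcon
  obtain ⟨c, hc1, hc2⟩ := exists_between hcon
  have hfreq : ∃ᶠ b in L, ∫⁻ z, f b z ∂μ < c := frequently_lt_of_liminf_lt (by isBoundedDefault) hc1
  obtain ⟨u, hu, hu2⟩ := exists_seq_forall_of_frequently (hfreq.and_eventually hf)
  have h1 : ∀ᵐ z ∂μ, g z ≤ liminf (fun n => f (u n) z) atTop := by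
    filter_upwards [hg] with z hz
    refine hz.trans ?_
    have : liminf (fun b => f b z) L ≤ liminf (fun b => f b z) (map u atTop) :=
      liminf_le_liminf_of_le hu
    exact this
  have h2 := fatou_seq (f := fun n => f (u n)) (fun n => (hu2 n).2) h1
  have h3 : liminf (fun n => ∫⁻ z, f (u n) z ∂μ) atTop ≤ c := by
    refine liminf_le_of_frequently_le' (Frequently.of_forall fun n => (hu2 n).1.le)
  exact absurd (h2.trans h3) (not_le.2 hc2)

/-- pointwise part of the one-sided Scheffé lemma -/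
theorem tendsto_tsub_of_le_liminf {L : Filter β} {f : β → ℝ≥0∞} {g : ℝ≥0∞} (hg : g ≠ ∞)
    (h : g ≤ liminf f L) : Tendsto (fun b => g - f b) L (𝓝 0) := by
  rw [ENNReal.tendsto_nhds_zero]
  intro δ hδ
  by_cases hg0 : g = 0
  · exact Eventually.of_forall fun b => by simp [hg0]
  · have h1 : g - δ < g := ENNReal.sub_lt_self hg hg0 hδ.ne'
    filter_upwards [eventually_lt_of_lt_liminf (h1.trans_le h)] with b hb
    rw [tsub_le_iff_left]
    have := tsub_le_iff_right.1 hb.le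
    exact this

/-- **One-sided Scheffé lemma.** -/
theorem scheffe_low {L : Filter β} [L.IsCountablyGenerated] {f : β → α → ℝ≥0∞} {g : α → ℝ≥0∞}
    (hf : ∀ᶠ b in L, AEMeasurable (f b) μ) (hg : AEMeasurable g μ) (hgi : ∫⁻ z, g z ∂μ ≠ ∞)
    (h : ∀ᵐ z ∂μ, g z ≤ liminf (fun b => f b z) L) :
    Tendsto (fun b => ∫⁻ z, (g z - f b z) ∂μ) L (𝓝 0) := by
  have h0 : ∫⁻ _, (0 : ℝ≥0∞) ∂μ = 0 := by simp
  rw [← h0]
  refine tendsto_lintegral_filter_of_dominated_convergence' g ?_ ?_ hgi ?_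
  · filter_upwards [hf] with b hb
    exact hg.sub hb
  · exact Eventually.of_forall fun b => Eventually.of_forall fun z => tsub_le_self
  · filter_upwards [h, ae_lt_top' hg hgi] with z hz hz2
    exact tendsto_tsub_of_le_liminf hz2.ne hz

/-- **One-sided Scheffé lemma, uniformly in the set.** -/
theorem scheffe_sets {L : Filter β} [L.IsCountablyGenerated] {f : β → α → ℝ≥0∞} {g : α → ℝ≥0∞}
    (hf : ∀ᶠ b in L, AEMeasurable (f b) μ) (hg : AEMeasurable g μ) (hgi : ∫⁻ z, g z ∂μ ≠ ∞)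
    (h : ∀ᵐ z ∂μ, g z ≤ liminf (fun b => f b z) L) {δ : ℝ≥0∞} (hδ : 0 < δ) :
    ∀ᶠ b in L, ∀ A : Set α, ∫⁻ z in A, g z ∂μ ≤ ∫⁻ z in A, f b z ∂μ + δ := by
  have h1 := (ENNReal.tendsto_nhds_zero.1 (scheffe_low hf hg hgi h)) δ hδ
  filter_upwards [h1, hf] with b hb hfb A
  calc ∫⁻ z in A, g z ∂μ ≤ ∫⁻ z in A, (f b z + (g z - f b z)) ∂μ :=
        lintegral_mono fun z => le_add_tsub
    _ = ∫⁻ z in A, f b z ∂μ + ∫⁻ z in A, (g z - f b z) ∂μ :=
        lintegral_add_left' hfb.restrict _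
    _ ≤ ∫⁻ z in A, f b z ∂μ + δ := by
        gcongr
        exact (setLIntegral_le_lintegral _ _).trans hb

end abstract_fatou

end Crest.Agent.R122.TreeFatou399

end
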