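import Crest.Agent.R122.PiTrans_399
import Crest.Agent.R122.TreeFatou_399
import Crest.Agent.R122.TreeF_399
import Crest.Agent.R122.Generic4_491
import Crest.Agent.R122.Scat4_818
import Crest.Agent.R122.PathFlow_968

/-!
Row 122, block C (helper399): forests (finite families of independent trees).
-/

set_option autoImplicit false

open MeasureTheory Set Filter Topology Crest.AnalysisR.Kinetic
open scoped Classical ENNReal

noncomputable section

namespace Crest.Agent.R122.Forest399

open Kin796 Kin796.CTree Disc416 Tree674 TreeEps399 PiTrans399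

variable {Φ : Space3 → ℝ} {s : ℕ}

instance instSigmaFiniteRootPar (P : CTree) :
    SigmaFinite (volume : Measure (PhasePoint × Par P)) :=
  inferInstanceAs (SigmaFinite ((volume : Measure PhasePoint).prod (volume : Measure (Par P))))

/-- index type of a forest -/
abbrev FIdx (Ps : Fin s → CTree) : Type := Σ i : Fin s, Idx (Ps i)

/-- parameters of a forest -/
abbrev FPar (Ps : Fin s → CTree) : Type := (i : Fin s) → PhasePoint × Par (Ps i)

/-- initial configuration of a forest -/
def flines (Φ : Space3 → ℝ) (ε : ℝ) (Ps : Fin s → CTree) (q : FPar Ps) : FIdx Ps → PhasePoint :=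
  fun k => lines Φ ε (Ps k.1) (q k.1).1 (q k.1).2 k.2

/-- explicit trajectory of a forest -/
def fpath (Φ : Space3 → ℝ) (ε : ℝ) (Ps : Fin s → CTree) (q : FPar Ps) (u : ℝ) :
    FIdx Ps → PhasePoint :=
  fun k => path Φ ε (Ps k.1) (q k.1).1 (q k.1).2 u k.2

/-- validity of all trees of a forest -/
def FValid (Φ : Space3 → ℝ) (ε : ℝ) (Ps : Fin s → CTree) (T : ℝ) (q : FPar Ps) : Prop :=
  ∀ i, Valid Φ ε (Ps i) T (q i).1.2 (q i).2

/-- **Separation of a forest.** -/
def FSep (Φ : Space3 → ℝ) (ε : ℝ) (Ps : Fin s → CTree) (T : ℝ) (q : FPar Ps) : Prop :=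
  (∀ i, Sep Φ ε (Ps i) T (q i).1 (q i).2) ∧
    ∀ i i' : Fin s, i ≠ i' → ∀ (j : Idx (Ps i)) (j' : Idx (Ps i')), ∀ u ∈ Icc 0 T,
      ε < dist (path Φ ε (Ps i) (q i).1 (q i).2 u j).1 (path Φ ε (Ps i') (q i').1 (q i').2 u j').1

/-- **Genericity of a forest** (at all real times for the cross pairs). -/
def FGen (Φ : Space3 → ℝ) (Ps : Fin s → CTree) (q : FPar Ps) : Prop :=
  (∀ i, Gen Φ (Ps i) (q i).1 (q i).2) ∧
    ∀ i i' : Fin s, i ≠ i' → ∀ (j : Idx (Ps i)) (j' : Idx (Ps i')), ∀ u : ℝ,
      (path Φ 0 (Ps i) (q i).1 (q i).2 u j).1 ≠ (path Φ 0 (Ps i') (q i').1 (q i').2 u j').1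

/-! ### Genericity -/

/-- A line is a null set. -/
theorem line_null (C D : Space3) : (volume : Measure Space3) {X | ∃ t : ℝ, X - C = t • D} = 0 := by
  have hne : AffineSubspace.mk' C (ℝ ∙ D) ≠ ⊤ := by
    intro h
    have h1 : (AffineSubspace.mk' C (ℝ ∙ D)).direction = ⊤ := by
      rw [h]; exact AffineSubspace.direction_top ℝ Space3 Space3
    rw [AffineSubspace.direction_mk'] at h1
    have h2 : Module.finrank ℝ (ℝ ∙ D) ≤ 1 := by
      have := finrank_span_le_card (R := ℝ) ({D} : Set Space3)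
      simpa using this
    rw [h1, finrank_top] at h2
    simp [Space3] at h2
  have h3 := Measure.addHaar_affineSubspace (volume : Measure Space3) _ hne
  convert h3 using 2
  ext X
  simp only [mem_ofPred_eq, SetLike.mem_coe, AffineSubspace.mem_mk', vsub_eq_sub,
    Submodule.mem_span_singleton]
  constructor
  · rintro ⟨t, ht⟩; exact ⟨t, ht.symm⟩
  · rintro ⟨t, ht⟩; exact ⟨t, ht.symm⟩

open Generic491 in
/-- Two independent trees: almost surely no coincidence. -/
theorem ae_cross (hΦ : AdmissiblePotential Φ) (P P' : CTree) :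
    ∃ p : (PhasePoint × Par P) → (PhasePoint × Par P') → Prop,
      MeasurableSet {z : (PhasePoint × Par P) × (PhasePoint × Par P') | p z.1 z.2} ∧
      (∀ y, ∀ᵐ x : PhasePoint × Par P, p x y) ∧
      ∀ x y, p x y → Adm Φ P x.1.2 x.2 → Adm Φ P' y.1.2 y.2 → ∀ (j : Idx P) (j' : Idx P') (u : ℝ),
        (path Φ 0 P x.1 x.2 u j).1 ≠ (path Φ 0 P' y.1 y.2 u j').1 := by
  have S := Scat818.scatFacts hΦ
  obtain ⟨ι, hι, A, hA, hcA⟩ := exists_cand S P
  obtain ⟨ι', hι', B, hB, hcB⟩ := exists_cand S P'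
  -- measurable data
  have hbA : ∀ k, Measurable fun x : PhasePoint × Par P => A k (boostP P (-x.1.2) x.2) := fun k =>
    (hA k).comp ((measurable_boostP P).comp (f := fun x : PhasePoint × Par P => (-x.1.2, x.2))
      ((measurable_snd.comp measurable_fst).neg.prodMk measurable_snd))
  have hbB : ∀ k, Measurable fun x : PhasePoint × Par P' => B k (boostP P' (-x.1.2) x.2) := fun k =>
    (hB k).comp ((measurable_boostP P').comp (f := fun x : PhasePoint × Par P' => (-x.1.2, x.2))
      ((measurable_snd.comp measurable_fst).neg.prodMk measurable_snd))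
  -- the property
  have hset : ∀ k k', MeasurableSet {z : (PhasePoint × Par P) × (PhasePoint × Par P') |
      ∃ t : ℝ, z.1.1.1 - (z.2.1.1 + (B k' (boostP P' (-z.2.1.2) z.2.2)).1 -
          (A k (boostP P (-z.1.1.2) z.1.2)).1) =
        t • (z.2.1.2 + (B k' (boostP P' (-z.2.1.2) z.2.2)).2 - z.1.1.2 -
          (A k (boostP P (-z.1.1.2) z.1.2)).2)} := by
    intro k k'
    have h1 : Measurable fun z : (PhasePoint × Par P) × (PhasePoint × Par P') =>
        A k (boostP P (-z.1.1.2) z.1.2) := (hbA k).comp measurable_fst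
    have h2 : Measurable fun z : (PhasePoint × Par P) × (PhasePoint × Par P') =>
        B k' (boostP P' (-z.2.1.2) z.2.2) := (hbB k').comp measurable_snd
    have h3 : Measurable fun z : (PhasePoint × Par P) × (PhasePoint × Par P') => z.1.1.1 :=
      measurable_fst.comp (measurable_fst.comp measurable_fst)
    have h4 : Measurable fun z : (PhasePoint × Par P) × (PhasePoint × Par P') => z.1.1.2 :=
      measurable_snd.comp (measurable_fst.comp measurable_fst)
    have h5 : Measurable fun z : (PhasePoint × Par P) × (PhasePoint × Par P') => z.2.1.1 :=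
      measurable_fst.comp (measurable_fst.comp measurable_snd)
    have h6 : Measurable fun z : (PhasePoint × Par P) × (PhasePoint × Par P') => z.2.1.2 :=
      measurable_snd.comp (measurable_fst.comp measurable_snd)
    exact (Measurable.prodMk (h3.sub ((h5.add h2.fst).sub h1.fst))
      (((h6.add h2.snd).sub h4).sub h1.snd)) measurableSet_coll
  refine ⟨fun x y => ∀ k k', ¬ ∃ t : ℝ, x.1.1 - (y.1.1 + (B k' (boostP P' (-y.1.2) y.2)).1 -
          (A k (boostP P (-x.1.2) x.2)).1) =
        t • (y.1.2 + (B k' (boostP P' (-y.1.2) y.2)).2 - x.1.2 -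
          (A k (boostP P (-x.1.2) x.2)).2), ?_, ?_, ?_⟩
  · have : {z : (PhasePoint × Par P) × (PhasePoint × Par P') | ∀ k k', ¬ ∃ t : ℝ,
          z.1.1.1 - (z.2.1.1 + (B k' (boostP P' (-z.2.1.2) z.2.2)).1 -
          (A k (boostP P (-z.1.1.2) z.1.2)).1) =
        t • (z.2.1.2 + (B k' (boostP P' (-z.2.1.2) z.2.2)).2 - z.1.1.2 -
          (A k (boostP P (-z.1.1.2) z.1.2)).2)} = ⋂ k, ⋂ k', {z | ∃ t : ℝ,
          z.1.1.1 - (z.2.1.1 + (B k' (boostP P' (-z.2.1.2) z.2.2)).1 -
          (A k (boostP P (-z.1.1.2) z.1.2)).1) =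
        t • (z.2.1.2 + (B k' (boostP P' (-z.2.1.2) z.2.2)).2 - z.1.1.2 -
          (A k (boostP P (-z.1.1.2) z.1.2)).2)}ᶜ := by
      ext z
      simp only [mem_ofPred_eq, mem_iInter, mem_compl_iff]
    rw [this]
    exact MeasurableSet.iInter fun k => MeasurableSet.iInter fun k' => (hset k k').compl
  · intro y
    rw [ae_all_iff]
    intro k
    rw [ae_all_iff]
    intro k'
    have hm1 : MeasurableSet {x : PhasePoint × Par P | ¬ ∃ t : ℝ,
        x.1.1 - (y.1.1 + (B k' (boostP P' (-y.1.2) y.2)).1 - (A k (boostP P (-x.1.2) x.2)).1) =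
        t • (y.1.2 + (B k' (boostP P' (-y.1.2) y.2)).2 - x.1.2 -
          (A k (boostP P (-x.1.2) x.2)).2)} :=
      ((hset k k').preimage (measurable_id.prodMk measurable_const)).compl
    refine ae_prod_of_right hm1 fun q => ?_
    have hm2 : MeasurableSet {ℓ : PhasePoint | ¬ ∃ t : ℝ,
        ℓ.1 - (y.1.1 + (B k' (boostP P' (-y.1.2) y.2)).1 - (A k (boostP P (-ℓ.2) q)).1) =
        t • (y.1.2 + (B k' (boostP P' (-y.1.2) y.2)).2 - ℓ.2 -
          (A k (boostP P (-ℓ.2) q)).2)} :=
      hm1.preimage (measurable_id.prodMk measurable_const)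
    refine ae_prod_of_right (μ := (volume : Measure Space3)) (ν := (volume : Measure Space3))
      hm2 fun v => ?_
    rw [ae_iff]
    simp only [not_not]
    exact line_null _ _
  · intro x y hp hx hy j j' u hcon
    obtain ⟨k, hk⟩ := hcA (boostP P (-x.1.2) x.2) (by
      have := (adm_boost (Φ := Φ) P (-x.1.2) x.1.2 x.2).2 hx
      rwa [add_neg_cancel] at this) j u
    obtain ⟨k', hk'⟩ := hcB (boostP P' (-y.1.2) y.2) (by
      have := (adm_boost (Φ := Φ) P' (-y.1.2) y.1.2 y.2).2 hy
      rwa [add_neg_cancel] at this) j' u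
    refine hp k k' ⟨u, ?_⟩
    rw [path_rest P, path_rest P'] at hcon
    unfold rp at hk hk'
    simp only [shL_fst] at hcon
    rw [hk, hk'] at hcon
    have : x.1.1 = (y.1.1 + (B k' (boostP P' (-y.1.2) y.2)).1 - (A k (boostP P (-x.1.2) x.2)).1) +
        u • (y.1.2 + (B k' (boostP P' (-y.1.2) y.2)).2 - x.1.2 -
          (A k (boostP P (-x.1.2) x.2)).2) := by
      have h0 := sub_eq_zero.2 hcon
      refine sub_eq_zero.1 ?_
      rw [← h0]
      module
    rw [this]
    abel

/-- **Almost every valid forest is generic.** -/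
theorem fgen_ae (hΦ : AdmissiblePotential Φ) (Ps : Fin s → CTree) (T : ℝ) :
    ∀ᵐ q : FPar Ps, FValid Φ 0 Ps T q → FGen Φ Ps q := by
  have h1 : ∀ i : Fin s, ∀ᵐ q : FPar Ps, Valid Φ 0 (Ps i) T (q i).1.2 (q i).2 →
      Gen Φ (Ps i) (q i).1 (q i).2 := fun i =>
    (Measure.tendsto_eval_ae_ae (μ := fun i : Fin s => (volume : Measure (PhasePoint × Par (Ps i))))
      (i := i)).eventually (Generic491.gen_ae hΦ (Scat818.scatFacts hΦ) (Ps i) T)
  have h2 : ∀ i i' : Fin s, ∀ᵐ q : FPar Ps, i ≠ i' → Adm Φ (Ps i) (q i).1.2 (q i).2 →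
      Adm Φ (Ps i') (q i').1.2 (q i').2 → ∀ (j : Idx (Ps i)) (j' : Idx (Ps i')), ∀ u : ℝ,
      (path Φ 0 (Ps i) (q i).1 (q i).2 u j).1 ≠ (path Φ 0 (Ps i') (q i').1 (q i').2 u j').1 := by
    intro i i'
    by_cases hii : i = i'
    · exact Eventually.of_forall fun q h => absurd hii h
    · obtain ⟨p, hpm, hpa, hp⟩ := ae_cross hΦ (Ps i) (Ps i')
      have h3 := ae_pi_two (fun i : Fin s => (volume : Measure (PhasePoint × Par (Ps i)))) hii
        hpm hpa
      filter_upwards [h3] with q hq _ hA hA'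
      exact hp _ _ hq hA hA'
  filter_upwards [ae_all_iff.2 h1, ae_all_iff.2 fun i => ae_all_iff.2 (h2 i)] with q a1 a2 hV
  exact ⟨fun i => a1 i (hV i), fun i i' hii => a2 i i' hii (hV i).1 (hV i').1⟩

/-- **Small `ε`**: a valid generic forest is eventually valid and separated. -/
theorem fsep_eventually (hΦ : AdmissiblePotential Φ) (Ps : Fin s → CTree) (T : ℝ) {q : FPar Ps}
    (hV : FValid Φ 0 Ps T q) (hG : FGen Φ Ps q) :
    ∀ᶠ ε in L, FValid Φ ε Ps T q ∧ FSep Φ ε Ps T q := by
  have e1 : ∀ᶠ ε in L, ∀ i, Valid Φ ε (Ps i) T (q i).1.2 (q i).2 :=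
    eventually_all.2 fun i => valid_eventually (Ps i) (q i).1.2 (q i).2 T (hV i)
  have e2 : ∀ᶠ ε in L, ∀ i, Sep Φ ε (Ps i) T (q i).1 (q i).2 :=
    eventually_all.2 fun i => sep_eventually hΦ (Ps i) (q i).1 (q i).2 T (hV i) (hG.1 i)
  have e3 : ∀ i i' : Fin s, ∀ᶠ ε in L, i ≠ i' → ∀ (j : Idx (Ps i)) (j' : Idx (Ps i')),
      ∀ u ∈ Icc 0 T, ε < dist (path Φ ε (Ps i) (q i).1 (q i).2 u j).1
        (path Φ ε (Ps i') (q i').1 (q i').2 u j').1 := by
    intro i i'
    by_cases hii : i = i'
    · exact Eventually.of_forall fun ε h => absurd hii h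
    · have c : ∀ (j : Idx (Ps i)) (j' : Idx (Ps i')), ∀ᶠ ε in L,
          ∀ u ∈ Icc 0 T, ε < dist (path Φ ε (Ps i) (q i).1 (q i).2 u j).1
            (path Φ ε (Ps i') (q i').1 (q i').2 u j').1 := by
        intro j j'
        rcases lt_or_ge T 0 with hT | hT
        · rw [Icc_eq_empty (not_le.2 hT)]
          exact Eventually.of_forall fun ε u hu => absurd hu (notMem_empty u)
        · have hc : Continuous fun u => dist (path Φ 0 (Ps i) (q i).1 (q i).2 u j).1
              (path Φ 0 (Ps i') (q i').1 (q i').2 u j').1 :=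
            (continuous_path0 (Ps i) (q i).1 (q i).2 T (hV i).2 j).dist
              (continuous_path0 (Ps i') (q i').1 (q i').2 T (hV i').2 j')
          obtain ⟨u0, hu0, hmin⟩ := isCompact_Icc.exists_isMinOn (nonempty_Icc.2 hT) hc.continuousOn
          set δ := dist (path Φ 0 (Ps i) (q i).1 (q i).2 u0 j).1
              (path Φ 0 (Ps i') (q i').1 (q i').2 u0 j').1 with hδ
          have hδ0 : 0 < δ := dist_pos.2 (hG.2 i i' hii j j' u0)
          have a1 := path_close (Ps i) (q i).1.2 (q i).2 T (hV i).1 (hV i).2 (fun _ => (q i).1.1)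
            (q i).1.1 tendsto_const_nhds (δ / 4) (by positivity)
          have a2 := path_close (Ps i') (q i').1.2 (q i').2 T (hV i').1 (hV i').2
            (fun _ => (q i').1.1) (q i').1.1 tendsto_const_nhds (δ / 4) (by positivity)
          have a3 := eventually_mul_lt 1 (η := δ / 4) (by positivity)
          filter_upwards [a1, a2, a3] with ε b1 b2 b3 u hu
          have b4 : δ ≤ dist (path Φ 0 (Ps i) (q i).1 (q i).2 u j).1
              (path Φ 0 (Ps i') (q i').1 (q i').2 u j').1 := hmin hu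
          have b5 := b1 u j
          have b6 := b2 u j'
          have b7 := dist_triangle4 (path Φ 0 (Ps i) (q i).1 (q i).2 u j).1
            (path Φ ε (Ps i) (q i).1 (q i).2 u j).1 (path Φ ε (Ps i') (q i').1 (q i').2 u j').1
            (path Φ 0 (Ps i') (q i').1 (q i').2 u j').1
          rw [dist_comm (path Φ 0 (Ps i) (q i).1 (q i).2 u j).1
            (path Φ ε (Ps i) (q i).1 (q i).2 u j).1] at b7
          simp only [Prod.mk.eta] at b5 b6
          linarith
      filter_upwards [eventually_all.2 fun j => eventually_all.2 (c j)] with ε h _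
      exact h
  filter_upwards [e1, e2, eventually_all.2 fun i => eventually_all.2 (e3 i)] with ε a1 a2 a3
  exact ⟨a1, a2, fun i i' hii j j' u hu => a3 i i' hii j j' u hu⟩

/-- the initial configurations converge -/
theorem flines_tendsto (Ps : Fin s → CTree) (q : FPar Ps) (k : FIdx Ps) :
    Tendsto (fun ε => flines Φ ε Ps q k) L (𝓝 (flines Φ 0 Ps q k)) := by
  have h := lines_close (Φ := Φ) (Ps k.1) (q k.1).1.2 (q k.1).2 (fun _ => (q k.1).1.1) (q k.1).1.1
    tendsto_const_nhds k.2
  have h2 : Tendsto (fun ε => (flines Φ ε Ps q k).2) L (𝓝 (flines Φ 0 Ps q k).2) := by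
    have : (fun ε => (flines Φ ε Ps q k).2) = fun _ => (flines Φ 0 Ps q k).2 := by
      funext ε
      exact h.2 ε
    rw [this]
    exact tendsto_const_nhds
  exact h.1.prodMk_nhds h2

/-- pair exclusion at time zero -/
theorem FSep.zero (Ps : Fin s → CTree) {T ε : ℝ} (hε : 0 ≤ ε) (hT : 0 ≤ T) {q : FPar Ps}
    (hV : FValid Φ ε Ps T q) (hS : FSep Φ ε Ps T q) {k k' : FIdx Ps} (hk : k ≠ k') :
    ε < dist (flines Φ ε Ps q k).1 (flines Φ ε Ps q k').1 := by
  obtain ⟨i, j⟩ := k
  obtain ⟨i', j'⟩ := k'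
  by_cases hii : i = i'
  · subst hii
    have hj : j ≠ j' := fun h => hk (by rw [h])
    exact PathFlow968.Sep.zero hε hT (hV i).2 (hS.1 i) hj
  · have h := hS.2 i i' hii j j' 0 ⟨le_rfl, hT⟩
    rw [PathFlow968.path_zero (Ps i) T _ _ (hV i).2,
      PathFlow968.path_zero (Ps i') T _ _ (hV i').2] at h
    exact h

end Crest.Agent.R122.Forest399

end
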