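import Crest.Agent.R122.Mark4_307
import Crest.Agent.R122.CollLeg_969

/-!
Row 122, block H7, helper969: a node of a collision tree seen from an incoming line is a forward leg.

`o : PhasePoint × NodeP` is an admissible node (outgoing line of the root, node parameters),
`inMap Φ ε o.1 o.2` its incoming pair.  Following the first incoming line (`node_legL`) or the second
one (`node_legR`), the outgoing lines are the legs `legL'`, `legC'` of `CollLeg_969`.
`fwd_goodL`, `fwd_goodR` : the same for the flipped nodes of `Mark1_307`.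
-/

set_option autoImplicit false

open MeasureTheory Set
open Crest.AnalysisR.Kinetic
open scoped ENNReal

noncomputable section

namespace Crest.Agent.R122.ForwardLeg969

open Kin796 Kin796.CTree Disc416 Scat818 Flow671 Flux663 Tree674 Mark307
open Boost969 CollLeg969

variable {Φ : Space3 → ℝ}

/-! ### The reversed passage -/

/-- the incoming data of the first line against the second one are `(-b', g')`; forward passage -/
theorem exitM_rev (hΦ : AdmissiblePotential Φ) {b g : Space3} (hb : b ∈ impactDisc g)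
    (hg : g ≠ 0) (h : NT Φ b g) :
    tauM Φ (exitImpact Φ b g, -exitVelocity Φ b g) = tau Φ b g ∧
      Scat818.exitM Φ (exitImpact Φ b g, -exitVelocity Φ b g) = (entrancePoint b g, -g) := by
  have hE := hasExit_tau hΦ hb hg h
  obtain ⟨h1, h2⟩ := hE.reverse hΦ hb hg
  have hb' : exitImpact Φ b g ∈ impactDisc (-exitVelocity Φ b g) :=
    mem_impactDisc_neg.2 (exitImpact_mem hΦ hb hg)
  have hg' : -exitVelocity Φ b g ≠ 0 := neg_ne_zero.2 (exitVelocity_ne_zero hΦ hb hg)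
  have hp : (exitImpact Φ b g, -exitVelocity Φ b g) ∈ passSet Φ := ⟨⟨hb', hg'⟩, _, h1⟩
  have ht : tauM Φ (exitImpact Φ b g, -exitVelocity Φ b g) = tau Φ b g := by
    rw [tauM_of_mem hp]
    exact exitTime_eq h1
  refine ⟨ht, ?_⟩
  unfold Scat818.exitM
  rw [ht]
  exact h2

theorem exitM_rev_neg (hΦ : AdmissiblePotential Φ) {b g : Space3} (hb : b ∈ impactDisc g)
    (hg : g ≠ 0) (h : NT Φ b g) :
    tauM Φ (-exitImpact Φ b g, exitVelocity Φ b g) = tau Φ b g ∧
      Scat818.exitM Φ (-exitImpact Φ b g, exitVelocity Φ b g) = (-entrancePoint b g, g) := by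
  have hE := hasExit_tau hΦ hb hg h
  obtain ⟨h1, h2⟩ := hE.reverse hΦ hb hg
  have hb' : exitImpact Φ b g ∈ impactDisc (-exitVelocity Φ b g) :=
    mem_impactDisc_neg.2 (exitImpact_mem hΦ hb hg)
  have hg' : -exitVelocity Φ b g ≠ 0 := neg_ne_zero.2 (exitVelocity_ne_zero hΦ hb hg)
  set R : Space3 ≃ₗᵢ[ℝ] Space3 := LinearIsometryEquiv.neg ℝ with hR
  have hRx : ∀ x : Space3, R x = -x := fun x => rfl
  have e1 : -exitImpact Φ b g = R (exitImpact Φ b g) := rfl
  have e2 : exitVelocity Φ b g = R (-exitVelocity Φ b g) := by rw [hRx, neg_neg]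
  have hE' : HasExit Φ (inc (R (exitImpact Φ b g)) (R (-exitVelocity Φ b g))) (tau Φ b g) :=
    (hasExit_isometry hΦ R hb' hg').2 h1
  have hb'' : R (exitImpact Φ b g) ∈ impactDisc (R (-exitVelocity Φ b g)) :=
    (mem_impactDisc_isometry R).2 hb'
  have hg'' : R (-exitVelocity Φ b g) ≠ 0 := by simpa using hg'
  have hp : (R (exitImpact Φ b g), R (-exitVelocity Φ b g)) ∈ passSet Φ :=
    ⟨⟨hb'', hg''⟩, _, hE'⟩
  have ht : tauM Φ (R (exitImpact Φ b g), R (-exitVelocity Φ b g)) = tau Φ b g := by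
    rw [tauM_of_mem hp]
    exact exitTime_eq hE'
  have h3 : Scat818.exitM Φ (R (exitImpact Φ b g), R (-exitVelocity Φ b g)) =
      (-entrancePoint b g, g) := by
    unfold Scat818.exitM
    rw [ht]
    have h4 := relFlow_isometry hΦ R (z := inc (exitImpact Φ b g) (-exitVelocity Φ b g))
      (reg_entrance Φ hb' hg') (tau Φ b g)
    rw [h2] at h4
    have h5 : inc (R (exitImpact Φ b g)) (R (-exitVelocity Φ b g)) =
        (R (inc (exitImpact Φ b g) (-exitVelocity Φ b g)).1,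
          R (inc (exitImpact Φ b g) (-exitVelocity Φ b g)).2) := by
      unfold inc
      rw [entrancePoint_isometry]
    simp only
    rw [h5, h4]
    simp only [hRx, neg_neg]
  refine ⟨?_, ?_⟩
  · rw [e1]
    conv_lhs => rw [e2]
    exact ht
  · rw [e1]
    conv_lhs => rw [e2]
    exact h3

/-! ### Legs of a node -/

/-- the entrance point of the incoming data is the exit point of the reversed passage -/
theorem entrance_rev (hΦ : AdmissiblePotential Φ) {b g : Space3} (hb : b ∈ impactDisc g)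
    (hg : g ≠ 0) (h : NT Φ b g) :
    entrancePoint (exitImpact Φ b g) (-exitVelocity Φ b g) = qx Φ b g := by
  rw [qx_eq_impact hΦ hb hg h, entrancePoint, norm_exitImpact hΦ hb hg, norm_neg,
    norm_exitVelocity hΦ hb hg, smul_neg, sub_neg_eq_add]

theorem entrance_rev_neg (hΦ : AdmissiblePotential Φ) {b g : Space3} (hb : b ∈ impactDisc g)
    (hg : g ≠ 0) (h : NT Φ b g) :
    entrancePoint (-exitImpact Φ b g) (exitVelocity Φ b g) = -qx Φ b g := by
  rw [qx_eq_impact hΦ hb hg h, entrancePoint, norm_neg, norm_exitImpact hΦ hb hg,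
    norm_exitVelocity hΦ hb hg]
  abel

/-- the line `ℓ` continues the state `z` -/
def OnL (z : LSt) (ℓ : PhasePoint) : Prop := z.2 = onLine ℓ z.1

lemma OnL.pos {z : LSt} {ℓ : PhasePoint} (h : OnL z ℓ) (s : ℝ) : posAt s z = ℓ.1 + s • ℓ.2 := by
  unfold posAt
  rw [h]
  unfold onLine
  simp only
  module

lemma OnL.vel {z : LSt} {ℓ : PhasePoint} (h : OnL z ℓ) : z.2.2 = ℓ.2 := by rw [h]; rfl

/-- the first incoming line: the root continues along `legL'`, the partner is `legC'` -/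
theorem node_legL (hΦ : AdmissiblePotential Φ) {ε : ℝ} {o : PhasePoint × NodeP}
    (hA : Adm1 Φ o.1.2 o.2) {z : LSt} (hz : OnL z (inMap Φ ε o.1 o.2).1) {s : ℝ}
    (hs : Tree674.sin Φ ε o.1.2 o.2 = s) {e : EC}
    (he : bg e = (-exitImpact Φ (nb o.1.2 o.2) (ng o.1.2 o.2),
      exitVelocity Φ (nb o.1.2 o.2) (ng o.1.2 o.2))) :
    (legL' hΦ ε).out (z, (s, e)) = (o.2.1, onLine o.1 o.2.1) ∧
      (legC' hΦ ε).out (z, (s, e)) = (o.2.1, onLine (outLine ε o.1 o.2) o.2.1) := by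
  obtain ⟨⟨ox, ov⟩, ⟨ot, ow, oy⟩⟩ := o
  obtain ⟨b, hb⟩ : ∃ b, nb ov (ot, ow, oy) = b := ⟨_, rfl⟩
  obtain ⟨g, hg⟩ : ∃ g, ng ov (ot, ow, oy) = g := ⟨_, rfl⟩
  have hbm : b ∈ impactDisc g := by rw [← hb, ← hg]; exact hA.nb_mem
  have hg0 : g ≠ 0 := by rw [← hg]; exact hA.ng_ne
  have hnt : NT Φ b g := by rw [← hb, ← hg]; exact hA.nt
  simp only at he hs hz ⊢
  rw [hb, hg] at he
  obtain ⟨h1, h2⟩ := exitM_rev_neg hΦ hbm hg0 hnt
  have h3 := entrance_rev_neg hΦ hbm hg0 hnt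
  have hgv : ov - ow = g := hg
  have he1 : e.1 = exitVelocity Φ b g := by
    have := congrArg Prod.snd he
    exact this
  have hdt : dtE Φ ε e = ε * tau Φ b g := by
    unfold dtE; rw [he, h1]
  have hex : exE Φ e = (-entrancePoint b g, g) := by
    unfold exE; rw [he, h2]
  have hen : entE e = -qx Φ b g := by
    unfold entE; rw [he]; exact h3
  have hs' : s = ot - ε * tau Φ b g := by
    rw [← hs]
    unfold Tree674.sin
    simp only [hb, hg]
  have hpos := hz.pos s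
  have hvel := hz.vel
  have hin2 : (inMap Φ ε (ox, ov) (ot, ow, oy)).1.2 =
      (1 / 2 : ℝ) • (ov + ow) + (1 / 2 : ℝ) • exitVelocity Φ b g := by
    show (preV Φ ov (ot, ow, oy)).1 = _
    rw [Tree674.preV_eq]
    simp only [cmv, hb, hg]
  have hin1 : (inMap Φ ε (ox, ov) (ot, ow, oy)).1.1 + s • (inMap Φ ε (ox, ov) (ot, ow, oy)).1.2 =
      ox + ot • ov + (ε / 2) • entrancePoint b g - (ε * tau Φ b g) • ((1 / 2 : ℝ) • (ov + ow))
        - (ε / 2) • qx Φ b g := by
    have e1 : (inMap Φ ε (ox, ov) (ot, ow, oy)).1.1 = (xin Φ ε (ox, ov) (ot, ow, oy)).1 -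
        Tree674.sin Φ ε ov (ot, ow, oy) • (inMap Φ ε (ox, ov) (ot, ow, oy)).1.2 := rfl
    rw [e1, hs]
    unfold xin cms cmv
    simp only [hb, hg]
    abel
  have hx : posAt s z = ox + ot • ov + (ε / 2) • entrancePoint b g -
      (ε * tau Φ b g) • ((1 / 2 : ℝ) • (ov + ow)) - (ε / 2) • qx Φ b g := by
    rw [hpos]; exact hin1
  rw [hin2] at hvel
  have hx' : z.2.1 = ox + ot • ov + (ε / 2) • entrancePoint b g -
      (ε * tau Φ b g) • ((1 / 2 : ℝ) • (ov + ow)) - (ε / 2) • qx Φ b g - (s - z.1) • z.2.2 := by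
    rw [← hx]
    unfold posAt
    abel
  constructor
  · unfold Leg.out legL' onLine
    simp only [hdt, hex, hen, he1]
    refine Prod.ext ?_ (Prod.ext ?_ ?_)
    · simp only; rw [hs']; ring
    · simp only
      rw [hx', hvel]
      rw [← hgv]
      module
    · simp only
      rw [hvel, ← hgv]
      module
  · unfold Leg.out legC' onLine outLine
    simp only [hdt, hex, hen, he1, hb, hg]
    refine Prod.ext ?_ (Prod.ext ?_ ?_)
    · simp only; rw [hs']; ring
    · simp only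
      rw [hx', hvel]
      rw [← hgv]
      module
    · simp only
      rw [hvel, ← hgv]
      module

/-- the second incoming line: it becomes the partner, the root continues along `legC'` -/
theorem node_legR (hΦ : AdmissiblePotential Φ) {ε : ℝ} {o : PhasePoint × NodeP}
    (hA : Adm1 Φ o.1.2 o.2) {z : LSt} (hz : OnL z (inMap Φ ε o.1 o.2).2) {s : ℝ}
    (hs : Tree674.sin Φ ε o.1.2 o.2 = s) {e : EC}
    (he : bg e = (exitImpact Φ (nb o.1.2 o.2) (ng o.1.2 o.2),
      -exitVelocity Φ (nb o.1.2 o.2) (ng o.1.2 o.2))) :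
    (legL' hΦ ε).out (z, (s, e)) = (o.2.1, onLine (outLine ε o.1 o.2) o.2.1) ∧
      (legC' hΦ ε).out (z, (s, e)) = (o.2.1, onLine o.1 o.2.1) := by
  obtain ⟨⟨ox, ov⟩, ⟨ot, ow, oy⟩⟩ := o
  obtain ⟨b, hb⟩ : ∃ b, nb ov (ot, ow, oy) = b := ⟨_, rfl⟩
  obtain ⟨g, hg⟩ : ∃ g, ng ov (ot, ow, oy) = g := ⟨_, rfl⟩
  have hbm : b ∈ impactDisc g := by rw [← hb, ← hg]; exact hA.nb_mem
  have hg0 : g ≠ 0 := by rw [← hg]; exact hA.ng_ne
  have hnt : NT Φ b g := by rw [← hb, ← hg]; exact hA.nt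
  simp only at he hs hz ⊢
  rw [hb, hg] at he
  obtain ⟨h1, h2⟩ := exitM_rev hΦ hbm hg0 hnt
  have h3 := entrance_rev hΦ hbm hg0 hnt
  have hgv : ov - ow = g := hg
  have he1 : e.1 = -exitVelocity Φ b g := by
    have := congrArg Prod.snd he
    exact this
  have hdt : dtE Φ ε e = ε * tau Φ b g := by
    unfold dtE; rw [he, h1]
  have hex : exE Φ e = (entrancePoint b g, -g) := by
    unfold exE; rw [he, h2]
  have hen : entE e = qx Φ b g := by
    unfold entE; rw [he]; exact h3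
  have hs' : s = ot - ε * tau Φ b g := by
    rw [← hs]
    unfold Tree674.sin
    simp only [hb, hg]
  have hpos := hz.pos s
  have hvel := hz.vel
  have hin2 : (inMap Φ ε (ox, ov) (ot, ow, oy)).2.2 =
      (1 / 2 : ℝ) • (ov + ow) - (1 / 2 : ℝ) • exitVelocity Φ b g := by
    show (preV Φ ov (ot, ow, oy)).2 = _
    rw [Tree674.preV_eq]
    simp only [cmv, hb, hg]
  have hin1 : (inMap Φ ε (ox, ov) (ot, ow, oy)).2.1 + s • (inMap Φ ε (ox, ov) (ot, ow, oy)).2.2 =
      ox + ot • ov + (ε / 2) • entrancePoint b g - (ε * tau Φ b g) • ((1 / 2 : ℝ) • (ov + ow))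
        + (ε / 2) • qx Φ b g := by
    have e1 : (inMap Φ ε (ox, ov) (ot, ow, oy)).2.1 = (xin Φ ε (ox, ov) (ot, ow, oy)).2 -
        Tree674.sin Φ ε ov (ot, ow, oy) • (inMap Φ ε (ox, ov) (ot, ow, oy)).2.2 := rfl
    rw [e1, hs]
    unfold xin cms cmv
    simp only [hb, hg]
    abel
  have hx : posAt s z = ox + ot • ov + (ε / 2) • entrancePoint b g -
      (ε * tau Φ b g) • ((1 / 2 : ℝ) • (ov + ow)) + (ε / 2) • qx Φ b g := by
    rw [hpos]; exact hin1
  rw [hin2] at hvel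
  have hx' : z.2.1 = ox + ot • ov + (ε / 2) • entrancePoint b g -
      (ε * tau Φ b g) • ((1 / 2 : ℝ) • (ov + ow)) + (ε / 2) • qx Φ b g - (s - z.1) • z.2.2 := by
    rw [← hx]
    unfold posAt
    abel
  constructor
  · unfold Leg.out legL' onLine outLine
    simp only [hdt, hex, hen, he1, hb, hg]
    refine Prod.ext ?_ (Prod.ext ?_ ?_)
    · simp only; rw [hs']; ring
    · simp only
      rw [hx', hvel]
      rw [← hgv]
      module
    · simp only
      rw [hvel, ← hgv]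
      module
  · unfold Leg.out legC' onLine
    simp only [hdt, hex, hen, he1]
    refine Prod.ext ?_ (Prod.ext ?_ ?_)
    · simp only; rw [hs']; ring
    · simp only
      rw [hx', hvel]
      rw [← hgv]
      module
    · simp only
      rw [hvel, ← hgv]
      module

/-! ### Flipped nodes -/

lemma frameMap_neg (g : Space3) (y : Disc416.Plane) : frameMap g (-y) = -frameMap g y := by
  have h := frameMap_smul g (-1) y
  simpa using h

/-- relative leg data of the incoming node parameters `a` of the line `ℓ` -/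
def legE (v : Space3) (a : NodeP) : EC := (v - a.2.1, -a.2.2)

lemma bg_legE (v : Space3) (a : NodeP) : bg (legE v a) = (-nb v a, ng v a) := by
  unfold bg legE nb ng
  simp only
  rw [frameMap_neg]

/-- impact parameter of the incoming pair of an admissible node -/
theorem bO_inMap (hΦ : AdmissiblePotential Φ) {ε : ℝ} (hε : 0 < ε) {z : PhasePoint × NodeP}
    (hz : Adm1 Φ z.1.2 z.2) :
    bO ε (inMap Φ ε z.1 z.2) = exitImpact Φ (nb z.1.2 z.2) (ng z.1.2 z.2) := by
  have hbm : nb z.1.2 z.2 ∈ impactDisc (ng z.1.2 z.2) := hz.nb_mem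
  have hg0 : ng z.1.2 z.2 ≠ 0 := hz.ng_ne
  have hg' : exitVelocity Φ (nb z.1.2 z.2) (ng z.1.2 z.2) ≠ 0 := exitVelocity_ne_zero hΦ hbm hg0
  have hb' := inner_exitImpact hΦ hbm hg0
  have hb1 : inner ℝ (ε • exitImpact Φ (nb z.1.2 z.2) (ng z.1.2 z.2))
      (exitVelocity Φ (nb z.1.2 z.2) (ng z.1.2 z.2)) = 0 := by
    rw [inner_smul_left, hb', mul_zero]
  obtain ⟨h1, -⟩ := bline_frame hg' hb1
    (Tree674.sin Φ ε z.1.2 z.2 + ε * (Real.sqrt (1 - ‖nb z.1.2 z.2‖ ^ 2) / ‖ng z.1.2 z.2‖))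
  have hp := inMap_pos_sub hΦ ε hz
  have hv := inMap_vel_sub (Φ := Φ) ε z.1 z.2
  unfold bO
  rw [hp, hv, h1, smul_smul, one_div_mul_cancel hε.ne', one_smul]

theorem bO_inLine {ε : ℝ} (hε : 0 < ε) {ℓ : PhasePoint} {a : NodeP} (ha : ℓ.2 ≠ a.2.1) :
    bO ε (ℓ, inLine ε ℓ a) = nb ℓ.2 a := by
  have hg : ng ℓ.2 a ≠ 0 := sub_ne_zero.2 ha
  have hb0 : inner ℝ (nb ℓ.2 a) (ng ℓ.2 a) = 0 := inner_frameMap_self _ _
  have hb1 : inner ℝ (ε • nb ℓ.2 a) (ng ℓ.2 a) = 0 := by rw [inner_smul_left, hb0, mul_zero]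
  obtain ⟨h1, -⟩ := bline_frame hg hb1
    (a.1 + ε * (Real.sqrt (1 - ‖nb ℓ.2 a‖ ^ 2) / ‖ng ℓ.2 a‖))
  simp only [bO]
  rw [inLine_fst_sub, show ℓ.2 - (inLine ε ℓ a).2 = ng ℓ.2 a from rfl, h1, smul_smul,
    one_div_mul_cancel hε.ne', one_smul]

/-- **A flipped node, first orientation**: following the first incoming line `ℓ` (state `z`), the
root line of the node is `legL'`, the released line is `legC'`. -/
theorem fwd_goodL (hΦ : AdmissiblePotential Φ) {ε : ℝ} (hε : 0 < ε) {T : ℝ} {ℓ : PhasePoint}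
    {a : NodeP} (h : (ℓ, a) ∈ GoodL Φ ε T) {o : PhasePoint × NodeP}
    (hoo : outD Φ ε T (ℓ, inLine ε ℓ a) = o) {z : LSt} (hz : OnL z ℓ) :
    (legL' hΦ ε).out (z, (a.1, legE ℓ.2 a)) = (o.2.1, onLine o.1 o.2.1) ∧
      (legC' hΦ ε).out (z, (a.1, legE ℓ.2 a)) = (o.2.1, onLine (outLine ε o.1 o.2) o.2.1) := by
  obtain ⟨h1, h2, -, h3, -⟩ := goodL_spec hΦ hε h hoo
  have hA : Adm1 Φ o.1.2 o.2 := h1.1
  have hz' : OnL z (inMap Φ ε o.1 o.2).1 := by rw [h2]; exact hz
  refine node_legL hΦ hA hz' h3 ?_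
  have hb := bO_inMap hΦ hε hA
  rw [h2, bO_inLine hε h.1.2] at hb
  have hv := inMap_vel_sub (Φ := Φ) ε o.1 o.2
  rw [h2] at hv
  rw [bg_legE, hb]
  refine Prod.ext rfl ?_
  exact hv

/-- **A flipped node, second orientation**: following the second incoming line `ℓ` (state `z`), the
root line of the node is `legC'`, the released line is `legL'`. -/
theorem fwd_goodR (hΦ : AdmissiblePotential Φ) {ε : ℝ} (hε : 0 < ε) {T : ℝ} {ℓ : PhasePoint}
    {a : NodeP} (h : (ℓ, a) ∈ GoodR Φ ε T) {o : PhasePoint × NodeP}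
    (hoo : outD Φ ε T (inLine ε ℓ a, ℓ) = o) {z : LSt} (hz : OnL z ℓ) :
    (legL' hΦ ε).out (z, (a.1, legE ℓ.2 a)) = (o.2.1, onLine (outLine ε o.1 o.2) o.2.1) ∧
      (legC' hΦ ε).out (z, (a.1, legE ℓ.2 a)) = (o.2.1, onLine o.1 o.2.1) := by
  obtain ⟨h1, h2, -, h3, -⟩ := goodR_spec hΦ hε h hoo
  have hA : Adm1 Φ o.1.2 o.2 := h1.1
  have hz' : OnL z (inMap Φ ε o.1 o.2).2 := by rw [h2]; exact hz
  refine node_legR hΦ hA hz' h3 ?_
  have hb := bO_inMap hΦ hε hA
  have hsw : bO ε (inLine ε ℓ a, ℓ) = -bO ε (ℓ, inLine ε ℓ a) := bO_swap ε (ℓ, inLine ε ℓ a)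
  rw [h2, hsw, bO_inLine hε h.1.2] at hb
  have hv := inMap_vel_sub (Φ := Φ) ε o.1 o.2
  rw [h2] at hv
  rw [bg_legE, hb]
  refine Prod.ext rfl ?_
  have hv' : (inLine ε ℓ a).2 - ℓ.2 = exitVelocity Φ (nb o.1.2 o.2) (ng o.1.2 o.2) := hv
  show ng ℓ.2 a = _
  rw [← hv', neg_sub]
  rfl

end Crest.Agent.R122.ForwardLeg969
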