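import Crest.Agent.R122.GCMecke_311

/-!
# Grand-canonical calculus III: Mecke formula for marked subsets, the probability measure
-/

set_option autoImplicit false
open MeasureTheory
open scoped Classical ENNReal
open Crest.AnalysisR.Kinetic
noncomputable section

namespace Crest.Agent.R122.GC311

/-! ## Marked subsets -/

/-- Embeddings of `Fin k` with a given image correspond to bijections onto the image. -/
def embFiberEquiv {k n : ℕ} (B : Finset (Fin n)) :
    {ι : Fin k ↪ Fin n // Finset.univ.map ι = B} ≃ (Fin k ≃ B) where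
  toFun p := Equiv.ofBijective
    (fun i => (⟨p.1 i, (Finset.ext_iff.1 p.2 (p.1 i)).1 (Finset.mem_map_of_mem _ (Finset.mem_univ i))⟩ : B)) (by
      constructor
      · intro i j hij
        have := congrArg Subtype.val hij
        exact p.1.injective this
      · rintro ⟨x, hx⟩
        rw [← p.2, Finset.mem_map] at hx
        obtain ⟨i, -, hi⟩ := hx
        exact ⟨i, Subtype.ext hi⟩)
  invFun e := ⟨e.toEmbedding.trans (Function.Embedding.subtype _), by
    ext x
    simp only [Finset.mem_map, Finset.mem_univ, true_and, Function.Embedding.trans_apply,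
      Equiv.coe_toEmbedding, Function.Embedding.subtype_apply]
    constructor
    · rintro ⟨i, hi⟩
      rw [← hi]
      exact (e i).2
    · intro hx
      exact ⟨e.symm ⟨x, hx⟩, by simp⟩⟩
  left_inv p := by
    apply Subtype.ext
    ext i
    rfl
  right_inv e := by
    ext i
    rfl

theorem sum_emb_eq_sum_finset {k n : ℕ} (F : Finset (Fin n) → ℝ≥0∞) :
    ∑ ι : Fin k ↪ Fin n, F (Finset.univ.map ι) =
      (k.factorial : ℝ≥0∞) * ∑ B ∈ (Finset.univ : Finset (Fin n)).powersetCard k, F B := by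
  rw [← Finset.sum_fiberwise_of_maps_to
    (s := (Finset.univ : Finset (Fin k ↪ Fin n)))
    (t := (Finset.univ : Finset (Fin n)).powersetCard k)
    (g := fun ι => Finset.univ.map ι)
    (fun ι _ => by simp [Finset.mem_powersetCard])]
  rw [Finset.mul_sum]
  refine Finset.sum_congr rfl fun B hB => ?_
  have hcard : B.card = k := (Finset.mem_powersetCard.1 hB).2
  rw [Finset.sum_congr rfl (g := fun _ => F B)
    (fun ι hι => by rw [(Finset.mem_filter.1 hι).2])]
  rw [Finset.sum_const, nsmul_eq_mul]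
  congr 1
  have h1 : (Finset.univ.filter (fun ι : Fin k ↪ Fin n => Finset.univ.map ι = B)).card =
      Fintype.card {ι : Fin k ↪ Fin n // Finset.univ.map ι = B} := by
    rw [Fintype.card_subtype]
  rw [h1, Fintype.card_congr (embFiberEquiv B)]
  have e : Fin k ≃ B := Fintype.equivOfCardEq (by simp [hcard])
  rw [Fintype.card_equiv e, Fintype.card_fin]

/-- **Mecke formula**, marked `k`-element subsets. -/
theorem mecke_finset {f₀ : PhasePoint → ℝ} (hf : Measurable f₀) {ε : ℝ} (k : ℕ)
    {G : (n : ℕ) → Finset (Fin n) → Config n → ℝ≥0∞}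
    (hG : ∀ (n : ℕ) (σ : Equiv.Perm (Fin n)) (B : Finset (Fin n)) (Z : Config n),
      Z ∈ PairExcluded ε n → G n (B.map σ.toEmbedding) Z = G n B (fun i => Z (σ i)))
    (hGm : ∀ n B, Measurable (G n B)) :
    gcE f₀ ε (fun n Z => ∑ B ∈ (Finset.univ : Finset (Fin n)).powersetCard k, G n B Z) =
      activity ε ^ k / (k.factorial : ℝ≥0∞) * ∫⁻ V : Config k, gcWeight f₀ ε k V *
        gcE f₀ ε (fun m w => perpInd ε V w *
          G (k + m) (Finset.univ.map (Fin.castAddEmb m)) (Fin.append V w)) := by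
  have h1 := mecke hf (ε := ε) (k := k) (G := fun n ι Z => G n (Finset.univ.map ι) Z)
    (fun n σ ι Z hZ => by
      have := hG n σ (Finset.univ.map ι) Z hZ
      rw [Finset.map_map] at this
      exact this)
    (fun n ι => hGm n _)
  have h0 : (fun (n : ℕ) (Z : Config n) => ∑ ι : Fin k ↪ Fin n, G n (Finset.univ.map ι) Z) =
      fun (n : ℕ) (Z : Config n) => (k.factorial : ℝ≥0∞) *
        ∑ B ∈ (Finset.univ : Finset (Fin n)).powersetCard k, G n B Z := by
    funext n Z
    exact sum_emb_eq_sum_finset (fun B => G n B Z)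
  rw [h0] at h1
  have hk0 : (k.factorial : ℝ≥0∞) ≠ 0 := by exact_mod_cast (Nat.factorial_pos k).ne'
  have hkt : (k.factorial : ℝ≥0∞) ≠ ∞ := ENNReal.natCast_ne_top _
  rw [gcE_const_mul f₀ ε hkt] at h1
  rw [ENNReal.div_eq_inv_mul, mul_assoc, ← h1, ← mul_assoc, ENNReal.inv_mul_cancel hk0 hkt,
    one_mul]

/-! ## The probability measure on `Σ n, Config n` -/

/-- The grand-canonical probability measure on labelled configurations of arbitrary size. -/
def gcMeasure (f₀ : PhasePoint → ℝ) (ε : ℝ) : Measure (Σ n : ℕ, Config n) :=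
  (gcPartition f₀ ε)⁻¹ • Measure.sum (fun n : ℕ =>
    (activity ε ^ n / (n.factorial : ℝ≥0∞)) •
      ((volume : Measure (Config n)).withDensity (gcWeight f₀ ε n)).map (Sigma.mk n))

theorem measurable_sigmaMk' (n : ℕ) :
    Measurable (Sigma.mk n : Config n → Σ n : ℕ, Config n) := by
  exact measurable_iff_comap_le.2 (by
    rw [MeasurableSpace.comap_le_iff_le_map]
    exact iInf_le _ n)

theorem measurable_sigma_iff {β : Type*} [MeasurableSpace β] {F : (Σ n : ℕ, Config n) → β} :
    Measurable F ↔ ∀ n, Measurable (fun Z : Config n => F ⟨n, Z⟩) := by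
  constructor
  · exact fun h n => h.comp (measurable_sigmaMk' n)
  · intro h s hs
    have : MeasurableSet[⨅ n : ℕ, MeasurableSpace.map (Sigma.mk n)
        (inferInstance : MeasurableSpace (Config n))] (F ⁻¹' s) := by
      rw [MeasurableSpace.measurableSet_iInf]
      intro n
      exact h n hs
    exact this

theorem lintegral_gcMeasure {f₀ : PhasePoint → ℝ} (hf : Measurable f₀) (ε : ℝ)
    {F : (n : ℕ) → Config n → ℝ≥0∞} (hF : ∀ n, Measurable (F n)) :
    ∫⁻ p, F p.1 p.2 ∂(gcMeasure f₀ ε) = gcE f₀ ε F := by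
  have hm : Measurable (fun p : Σ n : ℕ, Config n => F p.1 p.2) :=
    measurable_sigma_iff.2 fun n => hF n
  unfold gcMeasure gcE
  rw [lintegral_smul_measure, lintegral_sum_measure, smul_eq_mul]
  congr 1
  refine tsum_congr fun n => ?_
  rw [lintegral_smul_measure, lintegral_map hm (measurable_sigmaMk' n), smul_eq_mul,
    lintegral_withDensity_eq_lintegral_mul _ (measurable_gcWeight hf ε n) (hF n)]
  rfl

theorem isProbabilityMeasure_gcMeasure {f₀ : PhasePoint → ℝ} (hf : Measurable f₀) (ε : ℝ)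
    (h1 : ∫⁻ z, ENNReal.ofReal (f₀ z) ≤ 1) : IsProbabilityMeasure (gcMeasure f₀ ε) := by
  constructor
  have h := lintegral_gcMeasure hf ε (F := fun _ _ => 1) (fun n => measurable_const)
  rw [gcE_one f₀ ε hf h1] at h
  simpa using h

/-- Markov inequality for `gcE`. -/
theorem gcE_markov {f₀ : PhasePoint → ℝ} (ε : ℝ)
    (F : (n : ℕ) → Config n → ℝ≥0∞) (c : ℝ≥0∞) (hc : c ≠ ∞) :
    c * gcE f₀ ε (fun n Z => if c ≤ F n Z then 1 else 0) ≤ gcE f₀ ε F := by
  rw [← gcE_const_mul f₀ ε hc]
  refine gcE_mono f₀ ε fun n Z _ => ?_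
  split_ifs with h
  · simpa using h
  · simp

/-- Cauchy–Schwarz for `gcE`. -/
theorem gcE_cauchySchwarz {f₀ : PhasePoint → ℝ} (hf : Measurable f₀) (ε : ℝ)
    {F G : (n : ℕ) → Config n → ℝ≥0∞} (hF : ∀ n, Measurable (F n))
    (hG : ∀ n, Measurable (G n)) :
    gcE f₀ ε (fun n Z => F n Z * G n Z) ≤
      (gcE f₀ ε (fun n Z => F n Z ^ 2)) ^ (1 / 2 : ℝ) *
        (gcE f₀ ε (fun n Z => G n Z ^ 2)) ^ (1 / 2 : ℝ) := by
  rw [← lintegral_gcMeasure hf ε (F := fun n Z => F n Z * G n Z) (fun n => (hF n).mul (hG n)),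
    ← lintegral_gcMeasure hf ε (F := fun n Z => F n Z ^ 2) (fun n => (hF n).pow_const 2),
    ← lintegral_gcMeasure hf ε (F := fun n Z => G n Z ^ 2) (fun n => (hG n).pow_const 2)]
  have h := ENNReal.lintegral_mul_le_Lp_mul_Lq (gcMeasure f₀ ε)
    (p := 2) (q := 2) (f := fun p => F p.1 p.2) (g := fun p => G p.1 p.2)
    (Real.holderConjugate_iff.2 ⟨by norm_num, by norm_num⟩)
    (measurable_sigma_iff.2 fun n => hF n).aemeasurable
    (measurable_sigma_iff.2 fun n => hG n).aemeasurable
  simpa using h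

/-- Fatou for `gcE`. -/
theorem gcE_liminf_le {f₀ : PhasePoint → ℝ} (hf : Measurable f₀) (ε : ℝ)
    {F : ℕ → (n : ℕ) → Config n → ℝ≥0∞} (hF : ∀ j n, Measurable (F j n)) :
    gcE f₀ ε (fun n Z => Filter.liminf (fun j => F j n Z) Filter.atTop) ≤
      Filter.liminf (fun j => gcE f₀ ε (F j)) Filter.atTop := by
  have h := lintegral_liminf_le (μ := gcMeasure f₀ ε) (u := Filter.atTop)
    (f := fun (j : ℕ) (p : Σ n : ℕ, Config n) => F j p.1 p.2)
    (fun j => measurable_sigma_iff.2 fun n => hF j n)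
  rw [lintegral_gcMeasure hf ε (F := fun n Z => Filter.liminf (fun j => F j n Z) Filter.atTop)
    (fun n => Measurable.liminf fun j => hF j n)] at h
  refine h.trans (le_of_eq ?_)
  congr 1
  ext j
  exact lintegral_gcMeasure hf ε (hF j)

/-- Monotone convergence for `gcE`. -/
theorem gcE_iSup {f₀ : PhasePoint → ℝ} (hf : Measurable f₀) (ε : ℝ)
    {F : ℕ → (n : ℕ) → Config n → ℝ≥0∞} (hF : ∀ j n, Measurable (F j n))
    (hmono : ∀ n Z, Monotone (fun j => F j n Z)) :
    gcE f₀ ε (fun n Z => ⨆ j, F j n Z) = ⨆ j, gcE f₀ ε (F j) := by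
  rw [← lintegral_gcMeasure hf ε (F := fun n Z => ⨆ j, F j n Z)
    (fun n => Measurable.iSup fun j => hF j n)]
  rw [lintegral_iSup (fun j => measurable_sigma_iff.2 fun n => hF j n)
    (fun i j hij p => hmono p.1 p.2 hij)]
  exact iSup_congr fun j => lintegral_gcMeasure hf ε (hF j)

end Crest.Agent.R122.GC311
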