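import Crest.Agent.R122.TubeChild3_491
import Crest.Agent.R122.GIVChild_383

/-!
Row 122, block F (helper491): the interface Prop `ChildConv` of `GIVChild_383`.
-/

set_option autoImplicit false

open MeasureTheory Set Filter
open scoped ENNReal Topology Classical RealInnerProductSpace NNReal
open Crest.AnalysisR.Kinetic

noncomputable section

namespace Crest.Agent.R122.TubeChild491

open Kin796 Kin796.CTree Disc416 Tree674 TreeEps399 Hid424 Generic491 GIV566 GIVStep383

variable {Φ : Space3 → ℝ} {κ : Type}

/-- convergence of tube families only depends on the curves on `[0, T]`, for large `k` -/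
theorem conv_congr {T : ℝ} {Sk Sk' : ℕ → Tubes κ} {S : Tubes κ} (h : TubeConv T Sk S)
    (hb : ∀ k, (Sk' k).b = (Sk k).b)
    (hc : ∀ᶠ k in atTop, ∀ i, EqOn ((Sk' k).c i) ((Sk k).c i) (Icc 0 T)) :
    TubeConv T Sk' S := by
  refine ⟨?_, fun i => ?_, fun i => ?_, ?_⟩
  · obtain ⟨M, h1, h2⟩ := h.lip
    refine ⟨M, ?_, h2⟩
    filter_upwards [h1, hc] with k a1 a2 i
    intro x hx y hy
    rw [a2 i hx, a2 i hy]
    exact a1 i hx hy
  · refine (h.curves i).congr ?_
    filter_upwards [hc] with k hk
    exact (hk i).symm
  · have := h.active i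
    simpa only [hb] using this
  · obtain ⟨B, hB, hvel⟩ := h.vel
    refine ⟨B, hB, fun s hs hsB i hi => ?_⟩
    obtain ⟨v, U, hU, h1, h2⟩ := hvel s hs hsB i hi
    refine ⟨v, U ∩ Ioo 0 T, inter_mem hU (isOpen_Ioo.mem_nhds hs), fun u hu => h1 u hu.1, ?_⟩
    filter_upwards [h2, hc] with k a1 a2 u hu
    refine (a1 u hu.1).congr_of_eventuallyEq ?_
    filter_upwards [isOpen_Ioo.mem_nhds hu.2] with u' hu'
    exact a2 i (Ioo_subset_Icc_self hu')

/-- the rearrangement of the parameters -/
def asc (P : CTree) (θ : HPar P) : NodeP × Par P := ((θ.1, θ.2.1, θ.2.2.1), θ.2.2.2)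

theorem measurePreserving_asc (P : CTree) :
    MeasurePreserving (asc P) (volume : Measure (HPar P))
      ((volume : Measure NodeP).prod (volume : Measure (Par P))) := by
  have h1 : MeasurePreserving (MeasurableEquiv.prodAssoc (α := Space3) (β := Disc416.Plane)
      (γ := Par P)) (((volume : Measure Space3).prod (volume : Measure Disc416.Plane)).prod
        (volume : Measure (Par P)))
      ((volume : Measure Space3).prod ((volume : Measure Disc416.Plane).prod
        (volume : Measure (Par P)))) :=
    ⟨MeasurableEquiv.measurable _, Measure.prodAssoc_prod⟩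
  have h2 : MeasurePreserving (MeasurableEquiv.prodAssoc (α := ℝ) (β := Space3 × Disc416.Plane)
      (γ := Par P)) (((volume : Measure ℝ).prod ((volume : Measure Space3).prod
        (volume : Measure Disc416.Plane))).prod (volume : Measure (Par P)))
      ((volume : Measure ℝ).prod (((volume : Measure Space3).prod
        (volume : Measure Disc416.Plane)).prod (volume : Measure (Par P)))) :=
    ⟨MeasurableEquiv.measurable _, Measure.prodAssoc_prod⟩
  have h3 : MeasurePreserving (Prod.map (id : ℝ → ℝ)
      (MeasurableEquiv.prodAssoc (α := Space3) (β := Disc416.Plane) (γ := Par P)).symm)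
      ((volume : Measure ℝ).prod ((volume : Measure Space3).prod
        ((volume : Measure Disc416.Plane).prod (volume : Measure (Par P)))))
      ((volume : Measure ℝ).prod (((volume : Measure Space3).prod
        (volume : Measure Disc416.Plane)).prod (volume : Measure (Par P)))) :=
    (MeasurePreserving.id _).prod h1.symm
  exact h2.symm.comp h3

/-- **Children of convergent generic families are convergent and generic** (interface Prop of
`GIVChild_383`). -/
theorem childConv (hΦ : AdmissiblePotential Φ) (T : ℝ) : ChildConv Φ T := by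
  intro ι _ Sk S εk hε0 hlim hconv hgen i P
  have hε : Tendsto εk atTop TreeEps399.L :=
    tendsto_nhdsWithin_iff.2 ⟨hlim, Eventually.of_forall hε0⟩
  have e1 := child hΦ hε0 hlim hconv hgen i P
  have e2 := ae_theta_gen hΦ P T
  have e3 := (measurePreserving_asc P).quasiMeasurePreserving.ae (e1.and e2)
  filter_upwards [e3] with θ hθ hs hb hy hV
  obtain ⟨h1, h2⟩ := hθ
  obtain ⟨-, hc, hg⟩ := h1 hs.1 hs.2 hb hy hV
  have hVT : Valid Φ 0 P T θ.2.1 θ.2.2.2 := valid_mono P hs.2.le _ _ hV
  have hG := h2 hVT
  refine ⟨fun k => childT Φ (εk k) (Sk k) S i θ, Eventually.of_forall fun _ => rfl, ?_, hg⟩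
  refine conv_congr hc (fun _ => rfl) ?_
  have hgood := hε.eventually (eventually_good hΦ hVT (hG 0))
  filter_upwards [hgood] with k hk
  rintro (i' | j) u hu
  · rfl
  · exact curve_eq_path hΦ hk.1 hk.2.1 (hk.2.2 _) hu j

end Crest.Agent.R122.TubeChild491

end
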