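import Crest.Agent.R122.GIVLam_383

/-!
# Row 122, block F (helper383): (I3), the first-hit identity in the limit

`wgt_mul_dampG` : the integrand of `gain0` in terms of 399's `Wt`; `dampStep : DampStep`.
-/

set_option autoImplicit false
open MeasureTheory Set Filter
open scoped Classical ENNReal Topology NNReal
open Crest.AnalysisR.Kinetic
open Crest.Agent.R122.GC311 Crest.Agent.R122.Causal291 Crest.Agent.R122.Master566
open Crest.Agent.R122.GIV566 Crest.Agent.R122.Kin796 Crest.Agent.R122.Disc416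
open Crest.Agent.R122.Tree674 Crest.Agent.R122.TreeEps399 Crest.Agent.R122.Hid424
open Crest.Agent.R122.Boltz814 (nuF fE damp exists_nuF_le measurable_nuF fE_of_mem)
open Crest.Agent.R122.Kin416 (kapQ)
noncomputable section

namespace Crest.Agent.R122.GIVStep383

open CTree

variable {Φ : Space3 → ℝ} {ι : Type} {β T : ℝ} {f₀ : PhasePoint → ℝ} {f : ℝ → PhasePoint → ℝ}

/-- damping used for the tree weights -/
def DT (T : ℝ) (f : ℝ → PhasePoint → ℝ) : ℝ → ℝ → Space3 → Space3 → ℝ≥0∞ := Dwin (nuF T f) T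

theorem meas4_DT (hf : IsRegularKineticSolution Φ β T f₀ f) : Meas4 (DT T f) := by
  unfold DT
  rw [← Dwin_814']
  exact Seg814.meas4_Dwin (meas4_damp hf) T

theorem prod_fE (hf : IsRegularKineticSolution Φ β T f₀ f) (hT : 0 ≤ T) {P : CTree}
    (L : Idx P → PhasePoint) :
    ∏ j, ENNReal.ofReal (f₀ (L j)) = ∏ j, fE T f 0 (L j).1 (L j).2 := by
  refine Finset.prod_congr rfl fun j _ => ?_
  rw [fE_of_mem ⟨le_rfl, hT⟩, hf.initial]

/-- the tree weight without damping of the family -/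
theorem wt_mul_eexp (hβ : 0 < β) (hT : 0 < T) (hf : IsRegularKineticSolution Φ β T f₀ f)
    {P : CTree} {s : ℝ} (hs : s ∈ Icc 0 T) {x v : Space3} {p : Par P} (hV : Valid Φ 0 P s v p) :
    (wt Φ P v p * ∏ j, ENNReal.ofReal (f₀ (lines Φ 0 P (x - s • v, v) p j))) *
      eexp (LamP Φ (nuF T f) s P s (x - s • v, v) p) =
      TreeF399.Wt Φ (DT T f) (fE T f 0) P s x v p := by
  rw [← TreeF399.weight_eq, indicator_of_mem (by exact hV), prod_fE hf hT.le]
  unfold DT
  rw [dens_eq (ℓ := (x - s • v, v)) (finRate_nuF hβ hT hf) hT.le _ hs.1 hV.2]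
  have h1 : LamP Φ (nuF T f) T P s (x - s • v, v) p =
      LamP Φ (nuF T f) s P s (x - s • v, v) p := by
    unfold LamP
    refine Finset.sum_congr rfl fun j _ => ?_
    have h2 : prot P s p j ≤ s := PathFlow968.prot_le le_rfl P s v p hV.2 j
    rw [min_eq_left h2, min_eq_left (h2.trans hs.2)]
  rw [h1]
  ring

/-- integrand of `gain0` -/
theorem wgt_mul_dampG (hβ : 0 < β) (hT : 0 < T) (hf : IsRegularKineticSolution Φ β T f₀ f)
    [Fintype ι] {S : Tubes ι} {M : ℝ≥0} (hS : ∀ i, LipschitzOnWith M (S.c i) (Icc 0 T))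
    {tw t : ℝ} (htw : 0 ≤ tw) (ht : t ≤ T) (i : ι) {P : CTree} (θ : HPar P) (x : Space3) :
    wgt Φ f₀ tw t S i θ x * dampG T f ((childT0 Φ S i θ).shift x) θ.1 =
      (if θ.1 ∈ Ioc tw t ∧ θ.1 < S.b i then dampG T f (S.shift x) θ.1 else 0) *
        (ENNReal.ofReal ‖θ.2.1 - deriv (S.c i) θ.1‖ * ((Metric.ball (0 : Plane) 1).indicator 1 θ.2.2.1
          * TreeF399.Wt Φ (DT T f) (fE T f 0) P θ.1 (S.c i θ.1 + x) θ.2.1 θ.2.2.2)) := by
  unfold wgt
  by_cases hV : Valid Φ 0 P θ.1 θ.2.1 θ.2.2.2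
  · by_cases h1 : θ.1 ∈ Ioc tw t ∧ θ.1 < S.b i
    · have hs : θ.1 ∈ Icc 0 T := ⟨htw.trans h1.1.1.le, h1.1.2.trans ht⟩
      by_cases h2 : ‖θ.2.2.1‖ < 1
      · have hG : HGood Φ tw t S i θ := ⟨h1.1, h1.2, h2, hV⟩
        rw [if_pos hG, if_pos h1,
          indicator_of_mem (by simpa using h2 : θ.2.2.1 ∈ Metric.ball (0 : Plane) 1),
          dampG_child hβ hT hf hS hs i hV x, ← wt_mul_eexp hβ hT hf hs hV]
        simp only [Pi.one_apply, one_mul]
        ring
      · rw [if_neg (fun h : HGood Φ tw t S i θ => h2 h.2.2.1),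
          indicator_of_notMem (by simpa using h2 : θ.2.2.1 ∉ Metric.ball (0 : Plane) 1)]
        simp
    · rw [if_neg (fun h : HGood Φ tw t S i θ => h1 ⟨h.1, h.2.1⟩), if_neg h1]
      simp
  · have hW : TreeF399.Wt Φ (DT T f) (fE T f 0) P θ.1 (S.c i θ.1 + x) θ.2.1 θ.2.2.2 = 0 := by
      rw [← TreeF399.weight_eq, indicator_of_notMem (by exact hV)]
    rw [if_neg (fun h : HGood Φ tw t S i θ => hV h.2.2.2), hW]
    simp

/-- continuous version of a curve -/
def cz (T : ℝ) (c : ℝ → Space3) (s : ℝ) : Space3 := c (max 0 (min s T))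

theorem cz_eq {c : ℝ → Space3} {s : ℝ} (hs : s ∈ Icc 0 T) : cz T c s = c s := by
  unfold cz
  rw [min_eq_left hs.2, max_eq_right hs.1]

theorem continuous_cz (hT : 0 ≤ T) {c : ℝ → Space3} {M : ℝ≥0}
    (hc : LipschitzOnWith M c (Icc 0 T)) : Continuous (cz T c) := by
  have h1 : Continuous fun s : ℝ => max 0 (min s T) := by fun_prop
  exact hc.continuousOn.comp_continuous h1
    fun s => ⟨le_max_left _ _, max_le hT (min_le_right _ _)⟩

theorem dampG_anti [Fintype ι] {S : Tubes ι} {s t : ℝ} (hst : s ≤ t) (h : Lam T f S t ≠ ∞) :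
    dampG T f S t ≤ dampG T f S s := by
  unfold dampG
  refine ENNReal.ofReal_le_ofReal (Real.exp_le_exp.2 (neg_le_neg ?_))
  exact ENNReal.toReal_mono h (Lam_mono S hst)

/-- the damped trees before `T` -/
theorem F_DT_eq {t : ℝ} (ht : t ∈ Icc 0 T) (f0 : Space3 → Space3 → ℝ≥0∞) (P : CTree)
    (x v : Space3) : F (kapQ Φ) (DT T f) f0 P t x v = F (kapQ Φ) (damp T f) f0 P t x v := by
  have hD : ∀ s t : ℝ, s ≤ t → t ≤ T → ∀ x v, DT T f s t x v = damp T f s t x v := by
    intro s t hs ht x v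
    unfold DT
    rw [← Dwin_814', Seg814.Dwin_eq hs ht]
  induction P generalizing t x v with
  | leaf =>
    show DT T f 0 t x v * f0 (x - t • v) v = damp T f 0 t x v * f0 (x - t • v) v
    rw [hD 0 t ht.1 ht.2]
  | node l r hl hr =>
    show ∫⁻ s in Ioc 0 t, DT T f s t x v * Q (kapQ Φ) (F (kapQ Φ) (DT T f) f0 l s
      (x - (t - s) • v)) (F (kapQ Φ) (DT T f) f0 r s (x - (t - s) • v)) v =
      ∫⁻ s in Ioc 0 t, damp T f s t x v * Q (kapQ Φ) (F (kapQ Φ) (damp T f) f0 l s
      (x - (t - s) • v)) (F (kapQ Φ) (damp T f) f0 r s (x - (t - s) • v)) v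
    refine setLIntegral_congr_fun measurableSet_Ioc fun s hs => ?_
    have hs' : s ∈ Icc 0 T := ⟨hs.1.le, hs.2.trans ht.2⟩
    have e1 : F (kapQ Φ) (DT T f) f0 l s (x - (t - s) • v) =
        F (kapQ Φ) (damp T f) f0 l s (x - (t - s) • v) := funext fun u => hl hs' _ u
    have e2 : F (kapQ Φ) (DT T f) f0 r s (x - (t - s) • v) =
        F (kapQ Φ) (damp T f) f0 r s (x - (t - s) • v) := funext fun u => hr hs' _ u
    show DT T f s t x v * _ = damp T f s t x v * _
    rw [hD s t hs.2 ht.2, e1, e2]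

/-- summation over the trees -/
theorem tsum_lintegral_Wt (hβ : 0 < β) (hT : 0 < T) (hΦ : AdmissiblePotential Φ)
    (hf : IsRegularKineticSolution Φ β T f₀ f) {t : ℝ} (ht : t ∈ Icc 0 T) (x v : Space3) :
    ∑' P : CTree, ∫⁻ p : Par P, TreeF399.Wt Φ (DT T f) (fE T f 0) P t x v p =
      fE T f t x v := by
  have h1 : ∀ P : CTree, ∫⁻ p : Par P, TreeF399.Wt Φ (DT T f) (fE T f 0) P t x v p =
      TF Φ T f P t x v := by
    intro P
    rw [TreeF399.lintegral_Wt hΦ (meas4_DT hf) (meas_fE_zero hf), F_DT_eq ht]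
    rfl
  rw [tsum_congr h1, ← series_eq hβ hT hΦ hf ht, fE_of_mem ht]

/-- fixed hitting time: sum over the trees of the integral over the other parameters -/
theorem tsum_fibre (hβ : 0 < β) (hT : 0 < T) (hΦ : AdmissiblePotential Φ)
    (hf : IsRegularKineticSolution Φ β T f₀ f) {t : ℝ} (ht : t ∈ Icc 0 T) (x V : Space3) :
    ∑' P : CTree, ∫⁻ q : Space3 × Plane × Par P, ENNReal.ofReal ‖q.1 - V‖ *
      ((Metric.ball (0 : Plane) 1).indicator 1 q.2.1 *
        TreeF399.Wt Φ (DT T f) (fE T f 0) P t x q.1 q.2.2) = nuF T f t x V := by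
  have hW : ∀ P : CTree, Measurable fun z : Space3 × Par P =>
      TreeF399.Wt Φ (DT T f) (fE T f 0) P t x z.1 z.2 := by
    intro P
    have h1 : Measurable fun z : Space3 × Par P =>
        (((t, x, z.1), z.2) : (ℝ × Space3 × Space3) × Par P) := by fun_prop
    exact Measurable.comp (TreeF399.measurable_Wt hΦ (meas4_DT hf) (meas_fE_zero hf) P) h1
  have hI : Measurable ((Metric.ball (0 : Plane) 1).indicator (1 : Plane → ℝ≥0∞)) :=
    measurable_one.indicator measurableSet_ball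
  have hP : ∀ P : CTree, ∫⁻ q : Space3 × Plane × Par P, ENNReal.ofReal ‖q.1 - V‖ *
      ((Metric.ball (0 : Plane) 1).indicator 1 q.2.1 *
        TreeF399.Wt Φ (DT T f) (fE T f 0) P t x q.1 q.2.2) =
      ∫⁻ v : Space3, ENNReal.ofReal Real.pi * (ENNReal.ofReal ‖v - V‖ *
        ∫⁻ p : Par P, TreeF399.Wt Φ (DT T f) (fE T f 0) P t x v p) := by
    intro P
    have hm : Measurable fun q : Space3 × Plane × Par P => ENNReal.ofReal ‖q.1 - V‖ *
      ((Metric.ball (0 : Plane) 1).indicator 1 q.2.1 *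
        TreeF399.Wt Φ (DT T f) (fE T f 0) P t x q.1 q.2.2) := by
      refine Measurable.mul (by fun_prop) (Measurable.mul ?_ ?_)
      · exact hI.comp (measurable_fst.comp measurable_snd)
      · exact (hW P).comp (measurable_fst.prodMk (measurable_snd.comp measurable_snd))
    rw [Measure.volume_eq_prod, lintegral_prod _ hm.aemeasurable]
    refine lintegral_congr fun v => ?_
    show ∫⁻ y : Plane × Par P, ENNReal.ofReal ‖v - V‖ * ((Metric.ball (0 : Plane) 1).indicator 1 y.1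
      * TreeF399.Wt Φ (DT T f) (fE T f 0) P t x v y.2) = _
    rw [lintegral_const_mul' _ _ ENNReal.ofReal_ne_top, Measure.volume_eq_prod]
    have h2 := lintegral_prod_mul (μ := (volume : Measure Plane)) (ν := (volume : Measure (Par P)))
      hI.aemeasurable (g := fun p => TreeF399.Wt Φ (DT T f) (fE T f 0) P t x v p)
      ((hW P).comp (measurable_const.prodMk measurable_id)).aemeasurable
    rw [h2, lintegral_indicator_one measurableSet_ball, EuclideanSpace.volume_ball_fin_two,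
      ENNReal.ofReal_one, one_pow, one_mul]
    ring
  rw [tsum_congr hP, ← lintegral_tsum]
  · have h3 : ∀ v : Space3, ∑' P : CTree, ENNReal.ofReal Real.pi * (ENNReal.ofReal ‖v - V‖ *
        ∫⁻ p : Par P, TreeF399.Wt Φ (DT T f) (fE T f 0) P t x v p) =
        ENNReal.ofReal Real.pi * (ENNReal.ofReal ‖V - v‖ * fE T f t x v) := by
      intro v
      rw [ENNReal.tsum_mul_left, ENNReal.tsum_mul_left, tsum_lintegral_Wt hβ hT hΦ hf ht,
        norm_sub_rev]
    simp only [h3]
    rw [lintegral_const_mul' _ _ ENNReal.ofReal_ne_top]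
    rfl
  · intro P
    have h4 : Measurable fun v : Space3 => ∫⁻ p : Par P,
        TreeF399.Wt Φ (DT T f) (fE T f 0) P t x v p := (hW P).lintegral_prod_right'
    exact (((by fun_prop : Measurable fun v : Space3 => ENNReal.ofReal ‖v - V‖).mul
      h4).const_mul _).aemeasurable

/-- velocity, impact and tree factor of the integrand of `gain0` -/
def GI (Φ : Space3 → ℝ) (T : ℝ) (f : ℝ → PhasePoint → ℝ) (S : Tubes ι) (x : Space3) (i : ι)
    (P : CTree) (s : ℝ) (r : Space3 × Plane × Par P) : ℝ≥0∞ :=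
  ENNReal.ofReal ‖r.1 - deriv (S.c i) s‖ * ((Metric.ball (0 : Plane) 1).indicator 1 r.2.1
    * TreeF399.Wt Φ (DT T f) (fE T f 0) P s (cz T (S.c i) s + x) r.1 r.2.2)

/-- damping of the family, time restricted -/
def QI (T : ℝ) (f : ℝ → PhasePoint → ℝ) [Fintype ι] (tw t : ℝ) (S : Tubes ι) (x : Space3) (i : ι)
    (s : ℝ) : ℝ≥0∞ :=
  (Ioc tw t ∩ Iio (S.b i)).indicator (fun s => dampG T f (S.shift x) (max 0 (min s T))) s

theorem measurable_GI (hT : 0 ≤ T) (hΦ : AdmissiblePotential Φ)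
    (hf : IsRegularKineticSolution Φ β T f₀ f) {S : Tubes ι} {M : ℝ≥0}
    (hS : ∀ i, LipschitzOnWith M (S.c i) (Icc 0 T)) (i : ι) (P : CTree) :
    Measurable fun z : (Space3 × ℝ) × (Space3 × Plane × Par P) =>
      GI Φ T f S z.1.1 i P z.1.2 z.2 := by
  unfold GI
  have h0 : Measurable fun z : (Space3 × ℝ) × (Space3 × Plane × Par P) =>
      deriv (S.c i) z.1.2 := (measurable_deriv _).comp (measurable_snd.comp measurable_fst)
  have hB : Measurable ((Metric.ball (0 : Plane) 1).indicator (1 : Plane → ℝ≥0∞)) :=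
    measurable_one.indicator measurableSet_ball
  have hv : Measurable fun z : (Space3 × ℝ) × (Space3 × Plane × Par P) => z.2.1 := by fun_prop
  have hy : Measurable fun z : (Space3 × ℝ) × (Space3 × Plane × Par P) => z.2.2.1 := by fun_prop
  have hp : Measurable fun z : (Space3 × ℝ) × (Space3 × Plane × Par P) => z.2.2.2 := by fun_prop
  have hs : Measurable fun z : (Space3 × ℝ) × (Space3 × Plane × Par P) => z.1.2 := by fun_prop
  have hx : Measurable fun z : (Space3 × ℝ) × (Space3 × Plane × Par P) => z.1.1 := by fun_prop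
  refine Measurable.mul (hv.sub h0).norm.ennreal_ofReal (Measurable.mul (hB.comp hy) ?_)
  have hc := (continuous_cz hT (hS i)).measurable.comp hs
  have h1 : Measurable fun z : (Space3 × ℝ) × (Space3 × Plane × Par P) =>
      (((z.1.2, cz T (S.c i) z.1.2 + z.1.1, z.2.1), z.2.2.2) :
        (ℝ × Space3 × Space3) × Par P) := (hs.prodMk ((hc.add hx).prodMk hv)).prodMk hp
  exact Measurable.comp (TreeF399.measurable_Wt hΦ (meas4_DT hf) (meas_fE_zero hf) P) h1

theorem measurable_QI (hβ : 0 < β) (hT : 0 < T)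
    (hf : IsRegularKineticSolution Φ β T f₀ f) [Fintype ι] {S : Tubes ι} {M : ℝ≥0}
    (hS : ∀ i, LipschitzOnWith M (S.c i) (Icc 0 T)) (tw t : ℝ) (x : Space3) (i : ι) :
    Measurable (QI T f tw t S x i) := by
  have h1 : Antitone fun s => dampG T f (S.shift x) (max 0 (min s T)) := by
    intro s s' hss
    refine dampG_anti (max_le_max_left _ (min_le_min_right _ hss)) ?_
    exact Lam_ne_top hβ hT hf (lipschitz_shift hS x) (max_le hT.le (min_le_right _ _))
  exact h1.measurable.indicator (measurableSet_Ioc.inter measurableSet_Iio)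

theorem QI_of_mem [Fintype ι] {tw t : ℝ} (htw : 0 ≤ tw) (ht : t ≤ T) {S : Tubes ι} {x : Space3}
    {i : ι} {s : ℝ} (hs : s ∈ Ioc tw t) :
    QI T f tw t S x i s = if s < S.b i then dampG T f (S.shift x) s else 0 := by
  have h0 : s ∈ Icc 0 T := ⟨htw.trans hs.1.le, hs.2.trans ht⟩
  unfold QI
  by_cases h : s < S.b i
  · rw [indicator_of_mem (show s ∈ Ioc tw t ∩ Iio (S.b i) from ⟨hs, h⟩), if_pos h,
      min_eq_left h0.2, max_eq_right h0.1]
  · rw [indicator_of_notMem (show s ∉ Ioc tw t ∩ Iio (S.b i) from fun h' => h h'.2), if_neg h]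

theorem QI_of_notMem [Fintype ι] {tw t : ℝ} {S : Tubes ι} {x : Space3}
    {i : ι} {s : ℝ} (hs : s ∉ Ioc tw t) : QI T f tw t S x i s = 0 := by
  unfold QI
  rw [indicator_of_notMem (show s ∉ Ioc tw t ∩ Iio (S.b i) from fun h' => hs h'.1)]

/-- integrand of `gain0` in product form -/
theorem wgt_eq_QI_GI (hβ : 0 < β) (hT : 0 < T) (hf : IsRegularKineticSolution Φ β T f₀ f)
    [Fintype ι] {S : Tubes ι} {M : ℝ≥0} (hS : ∀ i, LipschitzOnWith M (S.c i) (Icc 0 T))
    {tw t : ℝ} (htw : 0 ≤ tw) (ht : t ≤ T) (i : ι) {P : CTree} (θ : HPar P) (x : Space3) :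
    wgt Φ f₀ tw t S i θ x * dampG T f ((childT0 Φ S i θ).shift x) θ.1 =
      QI T f tw t S x i θ.1 * GI Φ T f S x i P θ.1 θ.2 := by
  rw [wgt_mul_dampG hβ hT hf hS htw ht i θ x]
  by_cases h : θ.1 ∈ Ioc tw t
  · have h0 : θ.1 ∈ Icc 0 T := ⟨htw.trans h.1.le, h.2.trans ht⟩
    rw [QI_of_mem htw ht h]
    unfold GI
    rw [cz_eq h0]
    by_cases h2 : θ.1 < S.b i
    · rw [if_pos ⟨h, h2⟩, if_pos h2]
    · rw [if_neg (fun h' => h2 h'.2), if_neg h2]
  · rw [QI_of_notMem h, if_neg (fun h' => h h'.1), zero_mul, zero_mul]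

theorem tsum_GI (hβ : 0 < β) (hT : 0 < T) (hΦ : AdmissiblePotential Φ)
    (hf : IsRegularKineticSolution Φ β T f₀ f) {S : Tubes ι} {s : ℝ} (hs : s ∈ Icc 0 T)
    (x : Space3) (i : ι) :
    ∑' P : CTree, ∫⁻ r : Space3 × Plane × Par P, GI Φ T f S x i P s r =
      nuF T f s (cz T (S.c i) s + x) (deriv (S.c i) s) :=
  tsum_fibre hβ hT hΦ hf hs _ _

attribute [irreducible] GI QI
attribute [local irreducible] nuF

/-- the integral over the other parameters -/
theorem lintegral_gain0 (hβ : 0 < β) (hT : 0 < T) (hΦ : AdmissiblePotential Φ)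
    (hf : IsRegularKineticSolution Φ β T f₀ f) [Fintype ι] {S : Tubes ι} {M : ℝ≥0}
    (hS : ∀ i, LipschitzOnWith M (S.c i) (Icc 0 T)) {tw t : ℝ} (htw : 0 ≤ tw)
    (ht : t ≤ T) (x : Space3) (i : ι) (P : CTree) :
    ∫⁻ θ : HPar P, wgt Φ f₀ tw t S i θ x * dampG T f ((childT0 Φ S i θ).shift x) θ.1 =
      ∫⁻ s : ℝ, QI T f tw t S x i s * ∫⁻ r : Space3 × Plane × Par P, GI Φ T f S x i P s r := by
  have hG := measurable_GI hT.le hΦ hf hS i P
  have hQ := measurable_QI hβ hT hf hS tw t x i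
  have hG2 : Measurable fun z : HPar P => GI Φ T f S x i P z.1 z.2 := by
    have h1 : Measurable fun z : HPar P =>
        (((x, z.1), z.2) : (Space3 × ℝ) × (Space3 × Plane × Par P)) := by fun_prop
    exact Measurable.comp hG h1
  have hm : Measurable fun z : HPar P => QI T f tw t S x i z.1 * GI Φ T f S x i P z.1 z.2 :=
    (hQ.comp measurable_fst).mul hG2
  have e1 : ∫⁻ θ : HPar P, wgt Φ f₀ tw t S i θ x * dampG T f ((childT0 Φ S i θ).shift x) θ.1 =
      ∫⁻ z : HPar P, QI T f tw t S x i z.1 * GI Φ T f S x i P z.1 z.2 :=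
    lintegral_congr fun θ => wgt_eq_QI_GI hβ hT hf hS htw ht i θ x
  rw [e1, Measure.volume_eq_prod, lintegral_prod _ hm.aemeasurable]
  refine lintegral_congr fun s => ?_
  have h2 : Measurable fun r : Space3 × Plane × Par P => GI Φ T f S x i P s r := by
    have h1 : Measurable fun r : Space3 × Plane × Par P => ((s, r) : HPar P) := by fun_prop
    exact Measurable.comp (g := fun z : HPar P => GI Φ T f S x i P z.1 z.2) hG2 h1
  show ∫⁻ r : Space3 × Plane × Par P, QI T f tw t S x i s * GI Φ T f S x i P s r = _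
  rw [lintegral_const_mul _ h2]

/-- sum over the trees, fixed tube -/
theorem tsum_gain0_fix (hβ : 0 < β) (hT : 0 < T) (hΦ : AdmissiblePotential Φ)
    (hf : IsRegularKineticSolution Φ β T f₀ f) [Fintype ι] {S : Tubes ι} {M : ℝ≥0}
    (hS : ∀ i, LipschitzOnWith M (S.c i) (Icc 0 T)) {tw t : ℝ} (htw : 0 ≤ tw)
    (ht : t ≤ T) (x : Space3) (i : ι) :
    ∑' P : CTree, ∫⁻ θ : HPar P, wgt Φ f₀ tw t S i θ x *
        dampG T f ((childT0 Φ S i θ).shift x) θ.1 =
      ∫⁻ s in Ioc tw t, dampG T f (S.shift x) s *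
        (if s < S.b i then nuF T f s (S.c i s + x) (deriv (S.c i) s) else 0) := by
  have hQ := measurable_QI hβ hT hf hS tw t x i
  rw [tsum_congr (lintegral_gain0 hβ hT hΦ hf hS htw ht x i), ← lintegral_tsum,
    ← lintegral_indicator measurableSet_Ioc]
  · refine lintegral_congr fun s => ?_
    rw [ENNReal.tsum_mul_left]
    by_cases h : s ∈ Ioc tw t
    · have h0 : s ∈ Icc 0 T := ⟨htw.trans h.1.le, h.2.trans ht⟩
      rw [tsum_GI hβ hT hΦ hf h0, indicator_of_mem h, cz_eq h0, QI_of_mem htw ht h]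
      split_ifs
      · rfl
      · rw [zero_mul, mul_zero]
    · rw [indicator_of_notMem h, QI_of_notMem h, zero_mul]
  · intro P
    have hG := measurable_GI hT.le hΦ hf hS i P
    have h1 : Measurable fun z : ℝ × (Space3 × Plane × Par P) =>
        (((x, z.1), z.2) : (Space3 × ℝ) × (Space3 × Plane × Par P)) := by fun_prop
    have h2 : Measurable fun s : ℝ => ∫⁻ r : Space3 × Plane × Par P, GI Φ T f S x i P s r :=
      (Measurable.comp hG h1).lintegral_prod_right'
    exact (hQ.mul h2).aemeasurable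

/-- **(I3)** -/
theorem tsum_gain0 (hβ : 0 < β) (hT : 0 < T) (hΦ : AdmissiblePotential Φ)
    (hf : IsRegularKineticSolution Φ β T f₀ f) [Fintype ι] {S : Tubes ι} {M : ℝ≥0}
    (hS : ∀ i, LipschitzOnWith M (S.c i) (Icc 0 T)) {tw t : ℝ} (htw : 0 ≤ tw)
    (ht : t ≤ T) (x : Space3) :
    ∑' P : CTree, gain0 Φ f₀ f T tw t S P x =
      ∫⁻ s in Ioc tw t, dampG T f (S.shift x) s * lam T f (S.shift x) s := by
  unfold gain0
  rw [Summable.tsum_finsetSum (fun i _ => ENNReal.summable)]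
  rw [Finset.sum_congr rfl fun i _ => tsum_gain0_fix hβ hT hΦ hf hS htw ht x i,
    ← lintegral_finsetSum']
  · refine setLIntegral_congr_fun measurableSet_Ioc fun s hs => ?_
    show ∑ i, dampG T f (S.shift x) s * _ = dampG T f (S.shift x) s * lam T f (S.shift x) s
    rw [← Finset.mul_sum]
    unfold lam
    congr 1
    refine Finset.sum_congr rfl fun i _ => ?_
    rw [deriv_shift]
    rfl
  · intro i _
    have hsub : Ioc tw t ⊆ Icc 0 T := fun s hs => ⟨htw.trans hs.1.le, hs.2.trans ht⟩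
    have hQ := measurable_QI hβ hT hf hS tw t x i
    have h2 : Measurable (fun s => QI T f tw t S x i s *
        nuF T f s (cz T (S.c i) s + x) (deriv (S.c i) s)) := by
      have h3 : Measurable fun s : ℝ => (s, cz T (S.c i) s + x, deriv (S.c i) s) :=
        measurable_id.prodMk (((continuous_cz hT.le (hS i)).measurable.add_const x).prodMk
          (measurable_deriv _))
      have h4 : Measurable fun s : ℝ => nuF T f s (cz T (S.c i) s + x) (deriv (S.c i) s) :=
        Measurable.comp (g := fun p : ℝ × Space3 × Space3 => nuF T f p.1 p.2.1 p.2.2)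
          (measurable_nuF hf) h3
      exact hQ.mul h4
    refine h2.aemeasurable.congr ?_
    filter_upwards [ae_restrict_mem measurableSet_Ioc] with s hs
    rw [QI_of_mem htw ht hs, cz_eq (hsub hs)]
    split_ifs
    · rfl
    · rw [zero_mul, mul_zero]

/-- **(I3)** -/
theorem dampStep (hβ : 0 < β) (hT : 0 < T) (hΦ : AdmissiblePotential Φ)
    (hf : IsRegularKineticSolution Φ β T f₀ f) : DampStep Φ f₀ f T := by
  intro ι _ S M hS tw t htw hle ht x
  rw [tsum_gain0 hβ hT hΦ hf hS htw ht x]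
  have hS' := lipschitz_shift hS x
  have hsub : Ioc tw t ⊆ Icc 0 T := fun s hs => ⟨htw.trans hs.1.le, hs.2.trans ht⟩
  have hr : AEMeasurable (lam T f (S.shift x)) (volume.restrict (Ioc tw t)) :=
    aemeasurable_rateT (meas3_nuF hf) fun i => aemeasurable_curve hS' hsub i
  have hsplit : ∀ s, tw ≤ s → Lam T f (S.shift x) s =
      Lam T f (S.shift x) tw + Prim383.R (lam T f (S.shift x)) tw s := by
    intro s hs
    unfold Lam Prim383.R
    rw [← Ioc_union_Ioc_eq_Ioc htw hs, lintegral_union measurableSet_Ioc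
      (Ioc_disjoint_Ioc_of_le le_rfl)]
  have hfin : ∀ s, s ≤ T → Lam T f (S.shift x) s ≠ ∞ := fun s hs => Lam_ne_top hβ hT hf hS' hs
  have hRfin : ∀ s, tw ≤ s → s ≤ T → Prim383.R (lam T f (S.shift x)) tw s ≠ ∞ := by
    intro s h1 h2
    refine ne_top_of_le_ne_top (hfin s h2) ?_
    rw [hsplit s h1]
    exact le_add_self
  have hd : ∀ s, tw ≤ s → s ≤ T → dampG T f (S.shift x) s = dampG T f (S.shift x) tw *
      ENNReal.ofReal (Real.exp (-(Prim383.R (lam T f (S.shift x)) tw s).toReal)) := by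
    intro s h1 h2
    have h3 := eexp_add (hfin tw (h1.trans h2)) (hRfin s h1 h2)
    rw [dampG_eq_eexp, dampG_eq_eexp, hsplit s h1, h3]
    rfl
  have h1 : ∫⁻ s in Ioc tw t, dampG T f (S.shift x) s * lam T f (S.shift x) s =
      dampG T f (S.shift x) tw * ∫⁻ s in Ioc tw t, lam T f (S.shift x) s *
        ENNReal.ofReal (Real.exp (-(Prim383.R (lam T f (S.shift x)) tw s).toReal)) := by
    rw [← lintegral_const_mul' _ _ (by
      exact ne_top_of_le_ne_top ENNReal.one_ne_top (dampG_le_one _))]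
    refine setLIntegral_congr_fun measurableSet_Ioc fun s hs => ?_
    show dampG T f (S.shift x) s * _ = _
    rw [hd s hs.1.le (hs.2.trans ht)]
    ring
  rw [h1, hd t hle ht, ← mul_add, Prim383.lintegral_exp_neg_prim hle hr (hRfin t hle ht), mul_one]

end Crest.Agent.R122.GIVStep383
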