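import Mathlib

/-!
# Row 122 (helper383): substitution by the primitive of a nonnegative function

`lintegral_comp_prim`: `∫_{(a,b]} r(s) g(R(s)) ds = ∫_{(0,R(b)]} g(u) du`, `R(s) = ∫_{(a,s]} r`, for
measurable `r ≥ 0` of finite integral and every measurable `g ≥ 0`; exponential special cases.
-/

set_option autoImplicit false
open MeasureTheory Set Filter
open scoped ENNReal Topology
noncomputable section

namespace Crest.Agent.R122.Prim383

variable {r : ℝ → ℝ≥0∞} {a b : ℝ}

/-- the primitive -/
def R (r : ℝ → ℝ≥0∞) (a s : ℝ) : ℝ≥0∞ := ∫⁻ u in Ioc a s, r u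

theorem R_mono {s s' : ℝ} (h : s ≤ s') : R r a s ≤ R r a s' :=
  lintegral_mono_set (Ioc_subset_Ioc_right h)

theorem R_self : R r a a = 0 := by simp [R]

theorem continuousOn_R (hr : AEMeasurable r (volume.restrict (Ioc a b)))
    (hfin : R r a b ≠ ∞) : ContinuousOn (fun s => (R r a s).toReal) (Icc a b) := by
  have hint : IntegrableOn (fun u => (r u).toReal) (Ioc a b) :=
    integrable_toReal_of_lintegral_ne_top hr hfin
  have h1 : ContinuousOn (fun s => ∫ u in Ioc a s, (r u).toReal) (Icc a b) :=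
    intervalIntegral.continuousOn_primitive (by rwa [integrableOn_Icc_iff_integrableOn_Ioc])
  refine h1.congr fun s hs => ?_
  unfold R
  show (∫⁻ u in Ioc a s, r u).toReal = ∫ u in Ioc a s, (r u).toReal
  have hsub : Ioc a s ⊆ Ioc a b := Ioc_subset_Ioc_right hs.2
  rw [integral_toReal (hr.mono_measure (Measure.restrict_mono hsub le_rfl))]
  have h2 : ∀ᵐ x ∂volume.restrict (Ioc a b), r x < ∞ := ae_lt_top' hr hfin
  exact ae_mono (Measure.restrict_mono hsub le_rfl) h2

/-- **Substitution by the primitive.** -/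
theorem lintegral_comp_prim (hab : a ≤ b) (hr : AEMeasurable r (volume.restrict (Ioc a b)))
    (hfin : R r a b ≠ ∞) {g : ℝ → ℝ≥0∞} (hg : Measurable g) :
    ∫⁻ s in Ioc a b, r s * g (R r a s).toReal = ∫⁻ u in Ioc 0 (R r a b).toReal, g u := by
  have hc := continuousOn_R hr hfin
  set ψ : ℝ → ℝ := fun s => (R r a s).toReal with hψ
  have hlt : ∀ s, s ≤ b → R r a s ≠ ∞ := fun s hs => ne_top_of_le_ne_top hfin (R_mono hs)
  have hmono : ∀ s s', s ≤ s' → s' ≤ b → ψ s ≤ ψ s' := fun s s' h h' =>
    ENNReal.toReal_mono (hlt s' h') (R_mono h)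
  -- a measurable version of the primitive
  set ψ' : ℝ → ℝ := fun s => ψ (max a (min s b)) with hψ'
  have hc' : Continuous ψ' := by
    have h1 : Continuous fun s : ℝ => max a (min s b) := by fun_prop
    refine hc.comp_continuous h1 fun s => ⟨le_max_left _ _, max_le hab (min_le_right _ _)⟩
  have hψeq : ∀ s ∈ Ioc a b, ψ' s = ψ s := by
    intro s hs
    simp only [hψ', min_eq_left hs.2, max_eq_right hs.1.le]
  set μ : Measure ℝ := (volume.restrict (Ioc a b)).withDensity r with hμ
  have hμfin : IsFiniteMeasure μ := by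
    refine ⟨?_⟩
    rw [hμ, withDensity_apply _ MeasurableSet.univ, Measure.restrict_univ]
    exact lt_top_iff_ne_top.2 hfin
  have hmap : μ.map ψ' = volume.restrict (Ioc 0 (ψ b)) := by
    have : IsFiniteMeasure (μ.map ψ') := by infer_instance
    refine Measure.ext_of_Iic _ _ fun c => ?_
    rw [Measure.map_apply hc'.measurable measurableSet_Iic, hμ,
      withDensity_apply _ (hc'.measurable measurableSet_Iic), Measure.restrict_restrict
      (hc'.measurable measurableSet_Iic), Measure.restrict_apply measurableSet_Iic]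
    have key : ∀ s₁ ∈ Icc a b, ψ' ⁻¹' Iic c ∩ Ioc a b = Ioc a s₁ → Iic c ∩ Ioc 0 (ψ b) =
        Ioc 0 (ψ s₁) → ∫⁻ s in ψ' ⁻¹' Iic c ∩ Ioc a b, r s = volume (Iic c ∩ Ioc 0 (ψ b)) := by
      intro s₁ hs₁ h1 h2
      rw [h1, h2, Real.volume_Ioc, sub_zero, ENNReal.ofReal_toReal (hlt s₁ hs₁.2)]
      rfl
    have hψa : ψ a = 0 := by simp [hψ, R_self]
    have hψ0 : ∀ s, 0 ≤ ψ s := fun s => ENNReal.toReal_nonneg
    rcases lt_or_ge c 0 with hc0 | hc0
    · refine key a ⟨le_rfl, hab⟩ ?_ ?_
      · rw [Ioc_self, ← disjoint_iff_inter_eq_empty, disjoint_left]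
        intro s hs hs'
        have : ψ' s ≤ c := hs
        linarith [hψ0 (max a (min s b))]
      · rw [hψa, Ioc_self, ← disjoint_iff_inter_eq_empty, disjoint_left]
        intro s hs hs'
        have h1 : s ≤ c := hs
        linarith [hs'.1]
    · -- the last time at which the primitive is at most `c`
      set A : Set ℝ := {s | s ∈ Icc a b ∧ ψ s ≤ c} with hA
      have hAne : a ∈ A := ⟨⟨le_rfl, hab⟩, by rw [hψa]; exact hc0⟩
      have hAc : IsCompact A := by
        have h1 : A = Icc a b ∩ ψ ⁻¹' Iic c := rfl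
        rw [h1]
        exact isCompact_Icc.of_isClosed_subset (hc.preimage_isClosed_of_isClosed isClosed_Icc
          isClosed_Iic) inter_subset_left
      set s₁ := sSup A with hs₁
      have hs₁A : s₁ ∈ A := hAc.sSup_mem ⟨a, hAne⟩
      have hiff : ∀ s ∈ Ioc a b, ψ s ≤ c ↔ s ≤ s₁ := by
        intro s hs
        constructor
        · intro h
          exact le_csSup hAc.bddAbove ⟨⟨hs.1.le, hs.2⟩, h⟩
        · intro h
          exact (hmono s s₁ h hs₁A.1.2).trans hs₁A.2
      refine key s₁ hs₁A.1 ?_ ?_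
      · ext s
        simp only [mem_inter_iff, mem_preimage, mem_Iic, mem_Ioc]
        constructor
        · rintro ⟨h1, h2⟩
          rw [hψeq s h2] at h1
          exact ⟨h2.1, (hiff s h2).1 h1⟩
        · rintro ⟨h1, h2⟩
          have h3 : s ∈ Ioc a b := ⟨h1, h2.trans hs₁A.1.2⟩
          rw [hψeq s h3]
          exact ⟨(hiff s h3).2 h2, h3⟩
      · rcases le_or_gt (ψ b) c with h | h
        · have hb : s₁ = b := le_antisymm hs₁A.1.2 (le_csSup hAc.bddAbove ⟨⟨hab, le_rfl⟩, h⟩)
          rw [hb, inter_eq_right]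
          exact fun s hs => hs.2.trans h
        · -- intermediate value theorem
          have hsc : ψ s₁ = c := by
            refine le_antisymm hs₁A.2 ?_
            by_contra hlt'
            rw [not_le] at hlt'
            have h3 : ContinuousOn ψ (Icc s₁ b) := hc.mono (Icc_subset_Icc_left hs₁A.1.1)
            obtain ⟨s, hs, hse⟩ := intermediate_value_Icc hs₁A.1.2 h3
              (show c ∈ Icc (ψ s₁) (ψ b) from ⟨hs₁A.2, h.le⟩)
            have h4 : s ≤ s₁ := le_csSup hAc.bddAbove ⟨⟨hs₁A.1.1.trans hs.1, hs.2⟩, hse.le⟩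
            have h5 : s = s₁ := le_antisymm h4 hs.1
            rw [h5] at hse
            linarith
          rw [hsc]
          ext s
          simp only [mem_inter_iff, mem_Iic, mem_Ioc]
          constructor
          · rintro ⟨h1, h2, h3⟩; exact ⟨h2, h1⟩
          · rintro ⟨h1, h2⟩; exact ⟨h2, h1, h2.trans h.le⟩
  have h1 : ∫⁻ s in Ioc a b, r s * g (R r a s).toReal = ∫⁻ s, g (ψ' s) ∂μ := by
    have e1 := lintegral_withDensity_eq_lintegral_mul₀' (μ := volume.restrict (Ioc a b)) hr
      (g := fun s => g (ψ' s)) (hg.comp hc'.measurable).aemeasurable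
    rw [hμ, e1]
    refine setLIntegral_congr_fun measurableSet_Ioc fun s hs => ?_
    simp only [Pi.mul_apply]
    rw [hψeq s hs]
  rw [h1, ← lintegral_map hg hc'.measurable, hmap]

/-- increasing exponential -/
theorem lintegral_exp_prim (hab : a ≤ b) (hr : AEMeasurable r (volume.restrict (Ioc a b)))
    (hfin : R r a b ≠ ∞) {c : ℝ} (hc : 0 < c) :
    ∫⁻ s in Ioc a b, r s * ENNReal.ofReal (Real.exp (c * (R r a s).toReal)) ≤
      ENNReal.ofReal (1 / c) * ENNReal.ofReal (Real.exp (c * (R r a b).toReal)) := by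
  rw [lintegral_comp_prim hab hr hfin (g := fun u => ENNReal.ofReal (Real.exp (c * u)))
    (by fun_prop)]
  set M := (R r a b).toReal with hM
  have hM0 : 0 ≤ M := ENNReal.toReal_nonneg
  have h1 : ∫ s in (0 : ℝ)..M, Real.exp (c * s) = 1 / c * (Real.exp (c * M) - 1) := by
    have h2 : ∀ s ∈ uIcc 0 M, HasDerivAt (fun s : ℝ => 1 / c * Real.exp (c * s))
        (Real.exp (c * s)) s := by
      intro s _
      have h3 : HasDerivAt (fun s : ℝ => c * s) (c * 1) s := (hasDerivAt_id s).const_mul c
      have h4 := (h3.exp).const_mul (1 / c)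
      refine h4.congr_deriv ?_
      field_simp
    rw [intervalIntegral.integral_eq_sub_of_hasDerivAt h2]
    · simp; ring
    · exact (by fun_prop : Continuous fun s : ℝ => Real.exp (c * s)).intervalIntegrable _ _
  have h5 : ∫⁻ u in Ioc 0 M, ENNReal.ofReal (Real.exp (c * u)) =
      ENNReal.ofReal (1 / c * (Real.exp (c * M) - 1)) := by
    rw [← h1, intervalIntegral.integral_of_le hM0, ofReal_integral_eq_lintegral_ofReal]
    · exact ((by fun_prop : Continuous fun s : ℝ => Real.exp (c * s)).intervalIntegrable 0 M).1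
    · exact Filter.Eventually.of_forall fun s => by positivity
  rw [h5, ← ENNReal.ofReal_mul (by positivity)]
  refine ENNReal.ofReal_le_ofReal ?_
  refine mul_le_mul_of_nonneg_left ?_ (by positivity)
  linarith

/-- decreasing exponential -/
theorem lintegral_exp_neg_prim (hab : a ≤ b) (hr : AEMeasurable r (volume.restrict (Ioc a b)))
    (hfin : R r a b ≠ ∞) :
    ENNReal.ofReal (Real.exp (-(R r a b).toReal)) +
      ∫⁻ s in Ioc a b, r s * ENNReal.ofReal (Real.exp (-(R r a s).toReal)) = 1 := by
  rw [lintegral_comp_prim hab hr hfin (g := fun u => ENNReal.ofReal (Real.exp (-u)))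
    (by fun_prop)]
  set M := (R r a b).toReal with hM
  have hM0 : 0 ≤ M := ENNReal.toReal_nonneg
  have h1 : ∫ s in (0 : ℝ)..M, Real.exp (-s) = 1 - Real.exp (-M) := by
    have h2 : ∀ s ∈ uIcc 0 M, HasDerivAt (fun s : ℝ => -Real.exp (-s)) (Real.exp (-s)) s := by
      intro s _
      have h3 : HasDerivAt (fun s : ℝ => -s) (-1) s := (hasDerivAt_id s).neg
      have h4 := (h3.exp).neg
      refine h4.congr_deriv ?_
      ring
    rw [intervalIntegral.integral_eq_sub_of_hasDerivAt h2]
    · simp; ring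
    · exact (by fun_prop : Continuous fun s : ℝ => Real.exp (-s)).intervalIntegrable _ _
  have h5 : ∫⁻ u in Ioc 0 M, ENNReal.ofReal (Real.exp (-u)) =
      ENNReal.ofReal (1 - Real.exp (-M)) := by
    rw [← h1, intervalIntegral.integral_of_le hM0, ofReal_integral_eq_lintegral_ofReal]
    · exact ((by fun_prop : Continuous fun s : ℝ => Real.exp (-s)).intervalIntegrable 0 M).1
    · exact Filter.Eventually.of_forall fun s => by positivity
  have h6 : Real.exp (-M) ≤ 1 := Real.exp_le_one_iff.2 (by linarith)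
  rw [h5, ← ENNReal.ofReal_add (Real.exp_pos _).le (by linarith)]
  simp

end Crest.Agent.R122.Prim383
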