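import Crest.Agent.R122.GIVChild_383
import Crest.Agent.R122.Prim_383
import Crest.Agent.R122.Tube2_818

/-!
# Row 122, block F (helper383): the exponents of tube families and of trees

* `rateT a S s` : total rate `a` along the active tubes of `S` at time `s`;
* `lintegral_rateT_tree` : for the protected tubes of a straight-line tree its time integral is
  424's `LamP`;
* `dampG_sum`, `dampG_child` : damping of a child;
* `alive_energy_le` : energy of the protected particles of a tree at any time.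
-/

set_option autoImplicit false
open MeasureTheory Set Filter
open scoped Classical ENNReal Topology NNReal
open Crest.AnalysisR.Kinetic
open Crest.Agent.R122.GC311 Crest.Agent.R122.Causal291 Crest.Agent.R122.Master566
open Crest.Agent.R122.GIV566 Crest.Agent.R122.Kin796 Crest.Agent.R122.Disc416
open Crest.Agent.R122.Tree674 Crest.Agent.R122.TreeEps399 Crest.Agent.R122.Hid424
open Crest.Agent.R122.Boltz814 (nuF fE damp exists_nuF_le measurable_nuF)
noncomputable section

namespace Crest.Agent.R122.GIVStep383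

open CTree

variable {Φ : Space3 → ℝ} {ι ι' : Type}

/-- total rate along the active tubes -/
def rateT (a : ℝ → Space3 → Space3 → ℝ≥0∞) [Fintype ι] (S : Tubes ι) (s : ℝ) : ℝ≥0∞ :=
  ∑ i, if s < S.b i then a s (S.c i s) (deriv (S.c i) s) else 0

theorem lam_eq_rateT [Fintype ι] (T : ℝ) (f : ℝ → PhasePoint → ℝ) (S : Tubes ι) (s : ℝ) :
    lam T f S s = rateT (nuF T f) S s := rfl

theorem rateT_sum [Fintype ι] [Fintype ι'] (a : ℝ → Space3 → Space3 → ℝ≥0∞) (S : Tubes ι)
    (S' : Tubes ι') (s : ℝ) : rateT a (S.sum S') s = rateT a S s + rateT a S' s := by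
  unfold rateT
  rw [Fintype.sum_sum_type]
  rfl

theorem deriv_shift (S : Tubes ι) (x : Space3) (i : ι) :
    deriv ((S.shift x).c i) = deriv (S.c i) := by
  funext s
  show deriv (fun s => S.c i s + x) s = deriv (S.c i) s
  exact deriv_add_const x

theorem aemeasurable_rateT [Fintype ι] {a : ℝ → Space3 → Space3 → ℝ≥0∞} (ha : Meas3 a)
    {S : Tubes ι} {I : Set ℝ} (hS : ∀ i, AEMeasurable (S.c i) (volume.restrict I)) :
    AEMeasurable (rateT a S) (volume.restrict I) := by
  unfold rateT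
  have h0 : (fun s => ∑ i, if s < S.b i then a s (S.c i s) (deriv (S.c i) s) else 0) =
      ∑ i, fun s => if s < S.b i then a s (S.c i s) (deriv (S.c i) s) else 0 := by
    funext s
    rw [Finset.sum_apply]
  rw [h0]
  refine Finset.aemeasurable_sum _ fun i _ => ?_
  have h1 : AEMeasurable (fun s => a s (S.c i s) (deriv (S.c i) s)) (volume.restrict I) := by
    have h2 : AEMeasurable (fun s : ℝ => (s, S.c i s, deriv (S.c i) s)) (volume.restrict I) :=
      aemeasurable_id.prodMk ((hS i).prodMk (measurable_deriv _).aemeasurable)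
    exact ha.comp_aemeasurable h2
  have h3 : (fun s => if s < S.b i then a s (S.c i s) (deriv (S.c i) s) else 0) =
      (Iio (S.b i)).indicator fun s => a s (S.c i s) (deriv (S.c i) s) := by
    funext s
    by_cases h : s < S.b i
    · rw [if_pos h, indicator_of_mem (by exact h)]
    · rw [if_neg h, indicator_of_notMem (by exact h)]
  rw [h3]
  exact h1.indicator measurableSet_Iio

theorem aemeasurable_curve {S : Tubes ι} {T : ℝ} {M : ℝ≥0}
    (hS : ∀ i, LipschitzOnWith M (S.c i) (Icc 0 T)) {I : Set ℝ} (hI : I ⊆ Icc 0 T) (i : ι) :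
    AEMeasurable (S.c i) (volume.restrict I) :=
  ((hS i).continuousOn.aemeasurable measurableSet_Icc).mono_measure
    (Measure.restrict_mono hI le_rfl)

/-! ### Trees -/

/-- away from the node times the derivative of the position is the velocity -/
theorem deriv_path0 (P : CTree) (ℓ : PhasePoint) (p : Par P) {u : ℝ} (hu : NotTime P p u)
    (j : Idx P) : deriv (fun u => (path Φ 0 P ℓ p u j).1) u = (path Φ 0 P ℓ p u j).2 := by
  obtain ⟨X, v⟩ := ℓ
  obtain ⟨w, δ, hδ, h0, -⟩ := path_local (Φ := Φ) P v p u hu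
  have h1 := h0 X u (by rwa [sub_self, abs_zero]) j
  have h2 : (path Φ 0 P (X, v) p u j).2 = w j := by rw [h1]
  have h3 : (fun t => (path Φ 0 P (X, v) p t j).1) =ᶠ[𝓝 u]
      fun t => (path Φ 0 P (X, v) p u j).1 + (t - u) • w j := by
    filter_upwards [Metric.ball_mem_nhds u hδ] with t ht
    rw [Metric.mem_ball, Real.dist_eq] at ht
    rw [h0 X t ht j]
  rw [h3.deriv_eq, h2]
  have h4 : HasDerivAt (fun t : ℝ => (path Φ 0 P (X, v) p u j).1 + (t - u) • w j)
      ((1 : ℝ) • w j) u := by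
    refine HasDerivAt.const_add _ ?_
    exact ((hasDerivAt_id u).sub_const u).smul_const (w j)
  rw [h4.deriv, one_smul]

theorem ae_notTime (P : CTree) (p : Par P) : ∀ᵐ u : ℝ, NotTime P p u := by
  rw [ae_iff]
  exact (finite_times P p).measure_zero _

/-- the rate along the protected tubes, with velocities instead of derivatives -/
def rateP (Φ : Space3 → ℝ) (a : ℝ → Space3 → Space3 → ℝ≥0∞) (P : CTree) (s : ℝ) (ℓ : PhasePoint)
    (p : Par P) (u : ℝ) : ℝ≥0∞ :=
  ∑ j, if u < prot P s p j then a u (path Φ 0 P ℓ p u j).1 (path Φ 0 P ℓ p u j).2 else 0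

theorem rateT_tree (a : ℝ → Space3 → Space3 → ℝ≥0∞) (P : CTree) (s : ℝ) (ℓ : PhasePoint)
    (p : Par P) {u : ℝ} (hu : NotTime P p u) :
    rateT a (treeT0 Φ P s ℓ p) u = rateP Φ a P s ℓ p u := by
  unfold rateT rateP
  refine Finset.sum_congr rfl fun j _ => ?_
  have h1 : deriv ((treeT0 Φ P s ℓ p).c j) u = (path Φ 0 P ℓ p u j).2 := deriv_path0 P ℓ p hu j
  rw [h1]
  rfl

theorem lintegral_rateT_tree {a : ℝ → Space3 → Space3 → ℝ≥0∞} (ha : Meas3 a) {P : CTree} {s : ℝ}
    {ℓ : PhasePoint} {p : Par P} (hO : Tree674.Ord Φ 0 P s ℓ.2 p) (t : ℝ) :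
    ∫⁻ u in Ioc 0 t, rateT a (treeT0 Φ P s ℓ p) u = LamP Φ a t P s ℓ p := by
  have hmeas : ∀ j, AEMeasurable (fun u => if u < (treeT0 Φ P s ℓ p).b j then
      a u ((treeT0 Φ P s ℓ p).c j u) (deriv ((treeT0 Φ P s ℓ p).c j) u) else 0)
      (volume.restrict (Ioc 0 t)) := by
    intro j
    have hc : Continuous ((treeT0 Φ P s ℓ p).c j) := TreeEps399.continuous_path0 P ℓ p s hO j
    have h2 : Measurable (fun s' : ℝ => (s', (treeT0 Φ P s ℓ p).c j s',
        deriv ((treeT0 Φ P s ℓ p).c j) s')) :=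
      measurable_id.prodMk (hc.measurable.prodMk (measurable_deriv _))
    have h1 : Measurable (fun s' : ℝ => a s' ((treeT0 Φ P s ℓ p).c j s')
        (deriv ((treeT0 Φ P s ℓ p).c j) s')) := Measurable.comp ha h2
    exact (Measurable.ite measurableSet_Iio h1 measurable_const).aemeasurable
  unfold rateT
  rw [lintegral_finsetSum' _ fun j _ => hmeas j]
  unfold LamP
  refine Finset.sum_congr rfl fun j _ => ?_
  unfold legR
  have h3 : ∫⁻ u in Ioc 0 t, (if u < (treeT0 Φ P s ℓ p).b j then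
      a u ((treeT0 Φ P s ℓ p).c j u) (deriv ((treeT0 Φ P s ℓ p).c j) u) else 0) =
      ∫⁻ u in Ioc 0 t, (Iio (prot P s p j)).indicator
        (fun u => a u (path Φ 0 P ℓ p u j).1 (path Φ 0 P ℓ p u j).2) u := by
    refine lintegral_congr_ae (ae_restrict_of_ae ?_)
    filter_upwards [ae_notTime P p] with u hu
    have h1 : deriv ((treeT0 Φ P s ℓ p).c j) u = (path Φ 0 P ℓ p u j).2 := deriv_path0 P ℓ p hu j
    by_cases h : u < prot P s p j
    · rw [if_pos (by exact h), indicator_of_mem (by exact h), h1]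
      rfl
    · rw [if_neg (by exact h), indicator_of_notMem (by exact h)]
  rw [h3, lintegral_indicator measurableSet_Iio, Measure.restrict_restrict measurableSet_Iio]
  refine setLIntegral_congr ?_
  have h4 : (Iio (prot P s p j) ∩ Ioc 0 t : Set ℝ) =ᵐ[volume]
      (Iic (prot P s p j) ∩ Ioc 0 t : Set ℝ) :=
    ae_eq_set_inter Iio_ae_eq_Iic (Filter.EventuallyEq.refl _ _)
  have h5 : Iic (prot P s p j) ∩ Ioc 0 t = Ioc 0 (min (prot P s p j) t) := by
    ext u
    simp only [mem_inter_iff, mem_Iic, mem_Ioc, le_min_iff]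
    tauto
  rw [← h5]
  exact h4

/-! ### Translations -/

theorem treeT0_shift (P : CTree) (s : ℝ) (X v x : Space3) (p : Par P) :
    (treeT0 Φ P s (X, v) p).shift x = treeT0 Φ P s (X + x, v) p := by
  unfold treeT0 Tubes.shift
  congr 1
  funext j u
  show (path Φ 0 P (X, v) p u j).1 + x = (path Φ 0 P (X + x, v) p u j).1
  rw [path_shift 0 P X v p u j, path_shift 0 P (X + x) v p u j]
  show _ + X + x = _ + (X + x)
  rw [add_assoc]

theorem sum_shift (S : Tubes ι) (S' : Tubes ι') (x : Space3) :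
    (S.sum S').shift x = (S.shift x).sum (S'.shift x) := by
  unfold Tubes.sum Tubes.shift
  congr 1
  funext i u
  rcases i with i | i <;> rfl

theorem childT0_shift (S : Tubes ι) (i : ι) {P : CTree} (θ : HPar P) (x : Space3) :
    (childT0 Φ S i θ).shift x =
      (S.shift x).sum (treeT0 Φ P θ.1 (S.c i θ.1 + x - θ.1 • θ.2.1, θ.2.1) θ.2.2.2) := by
  unfold childT0
  rw [sum_shift, treeT0_shift]
  congr 2
  rw [sub_add_eq_add_sub]

/-! ### Damping -/

section damping

variable {β T : ℝ} {f₀ : PhasePoint → ℝ} {f : ℝ → PhasePoint → ℝ}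

/-- growth rate -/
def aV : ℝ → Space3 → Space3 → ℝ≥0∞ := fun _ _ v => ENNReal.ofReal (1 + ‖v‖)

theorem meas_aV : Meas3 aV := by
  unfold Meas3 aV
  fun_prop

theorem meas3_nuF (hf : IsRegularKineticSolution Φ β T f₀ f) : Meas3 (nuF T f) :=
  measurable_nuF hf

/-- the total rate of a Lipschitz family is bounded -/
theorem rateT_le [Fintype ι] {a : ℝ → Space3 → Space3 → ℝ≥0∞} {L : ℝ} (hL : 0 ≤ L)
    (ha : ∀ t x v, a t x v ≤ ENNReal.ofReal (L * (1 + ‖v‖))) {S : Tubes ι} {M : ℝ≥0}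
    (hS : ∀ i, LipschitzOnWith M (S.c i) (Icc 0 T)) {s : ℝ} (hs : s ∈ Ioo 0 T) :
    rateT a S s ≤ ENNReal.ofReal (Fintype.card ι * (L * (1 + M))) := by
  unfold rateT
  calc ∑ i, (if s < S.b i then a s (S.c i s) (deriv (S.c i) s) else 0)
      ≤ ∑ _i : ι, ENNReal.ofReal (L * (1 + M)) := by
        refine Finset.sum_le_sum fun i _ => ?_
        split_ifs
        · refine (ha _ _ _).trans (ENNReal.ofReal_le_ofReal ?_)
          have h1 : ‖deriv (S.c i) s‖ ≤ M :=
            norm_deriv_le_of_lipschitzOn (Icc_mem_nhds hs.1 hs.2) (hS i)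
          exact mul_le_mul_of_nonneg_left (by linarith) hL
        · exact bot_le
    _ = _ := by
        rw [Finset.sum_const, Finset.card_univ, nsmul_eq_mul,
          ENNReal.ofReal_mul (p := (Fintype.card ι : ℝ)) (by positivity), ENNReal.ofReal_natCast]

theorem lintegral_rateT_ne_top [Fintype ι] {a : ℝ → Space3 → Space3 → ℝ≥0∞} {L : ℝ} (hL : 0 ≤ L)
    (ha : ∀ t x v, a t x v ≤ ENNReal.ofReal (L * (1 + ‖v‖))) {S : Tubes ι} {M : ℝ≥0}
    (hS : ∀ i, LipschitzOnWith M (S.c i) (Icc 0 T)) {s t : ℝ} (hs : 0 ≤ s) (ht : t ≤ T) :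
    ∫⁻ u in Ioc s t, rateT a S u ≠ ∞ := by
  have h1 : ∫⁻ u in Ioc s t, rateT a S u ≤
      ∫⁻ _u in Ioc s t, ENNReal.ofReal (Fintype.card ι * (L * (1 + M))) := by
    have h2 : ∀ᵐ u : ℝ, u ≠ T := Measure.ae_ne volume T
    refine setLIntegral_mono_ae (measurable_const.aemeasurable) ?_
    filter_upwards [h2] with u hu hu'
    exact rateT_le hL ha hS ⟨lt_of_le_of_lt hs hu'.1, lt_of_le_of_ne (hu'.2.trans ht) hu⟩
  refine ne_top_of_le_ne_top ?_ h1
  rw [setLIntegral_const]
  exact ENNReal.mul_ne_top ENNReal.ofReal_ne_top (by simp)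

theorem Lam_ne_top (hβ : 0 < β) (hT : 0 < T) (hf : IsRegularKineticSolution Φ β T f₀ f)
    [Fintype ι] {S : Tubes ι} {M : ℝ≥0} (hS : ∀ i, LipschitzOnWith M (S.c i) (Icc 0 T)) {t : ℝ}
    (ht : t ≤ T) : Lam T f S t ≠ ∞ := by
  obtain ⟨L, hL, h⟩ := exists_nuF_le hβ hT hf
  exact lintegral_rateT_ne_top hL h hS le_rfl ht

theorem dampG_eq_eexp [Fintype ι] (S : Tubes ι) (t : ℝ) :
    dampG T f S t = eexp (Lam T f S t) := rfl

theorem Lam_sum (hf : IsRegularKineticSolution Φ β T f₀ f) [Fintype ι] [Fintype ι']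
    {S : Tubes ι} {S' : Tubes ι'} {t : ℝ}
    (hS : ∀ i, AEMeasurable (S.c i) (volume.restrict (Ioc 0 t))) :
    Lam T f (S.sum S') t = Lam T f S t + Lam T f S' t := by
  unfold Lam
  simp only [lam_sum]
  exact lintegral_add_left' (aemeasurable_rateT (meas3_nuF hf) hS) _

/-- exponent of a tree -/
theorem Lam_treeT0 (hf : IsRegularKineticSolution Φ β T f₀ f) {P : CTree} {s : ℝ}
    {ℓ : PhasePoint} {p : Par P} (hO : Tree674.Ord Φ 0 P s ℓ.2 p) (t : ℝ) :
    Lam T f (treeT0 Φ P s ℓ p) t = LamP Φ (nuF T f) t P s ℓ p :=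
  lintegral_rateT_tree (meas3_nuF hf) hO t

theorem Lam_treeT0_ne_top (hβ : 0 < β) (hT : 0 < T) (hf : IsRegularKineticSolution Φ β T f₀ f)
    {P : CTree} {s : ℝ} {ℓ : PhasePoint} {p : Par P} (hO : Tree674.Ord Φ 0 P s ℓ.2 p) {t : ℝ}
    (ht : 0 ≤ t) : Lam T f (treeT0 Φ P s ℓ p) t ≠ ∞ := by
  rw [Lam_treeT0 hf hO]
  exact LamP_ne_top (finRate_nuF hβ hT hf) ht hO

theorem lipschitz_shift {S : Tubes ι} {M : ℝ≥0} (hS : ∀ i, LipschitzOnWith M (S.c i) (Icc 0 T))
    (x : Space3) (i : ι) : LipschitzOnWith M ((S.shift x).c i) (Icc 0 T) := by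
  intro s hs t ht
  show edist (S.c i s + x) (S.c i t + x) ≤ _
  rw [edist_add_right]
  exact hS i hs ht

/-- **damping of a child** -/
theorem dampG_child (hβ : 0 < β) (hT : 0 < T) (hf : IsRegularKineticSolution Φ β T f₀ f)
    [Fintype ι] {S : Tubes ι} {M : ℝ≥0} (hS : ∀ i, LipschitzOnWith M (S.c i) (Icc 0 T)) {t : ℝ}
    (ht : t ∈ Icc 0 T) (i : ι) {P : CTree} {θ : HPar P} (hV : Valid Φ 0 P θ.1 θ.2.1 θ.2.2.2)
    (x : Space3) : dampG T f ((childT0 Φ S i θ).shift x) t = dampG T f (S.shift x) t *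
      eexp (LamP Φ (nuF T f) t P θ.1 (S.c i θ.1 + x - θ.1 • θ.2.1, θ.2.1) θ.2.2.2) := by
  have hO : Tree674.Ord Φ 0 P θ.1
    ((S.c i θ.1 + x - θ.1 • θ.2.1, θ.2.1) : PhasePoint).2 θ.2.2.2 := hV.2
  rw [childT0_shift, dampG_eq_eexp, Lam_sum hf (fun j => aemeasurable_curve (lipschitz_shift hS x)
    (Ioc_subset_Icc_self.trans (Icc_subset_Icc_right ht.2)) j),
    eexp_add (Lam_ne_top hβ hT hf (lipschitz_shift hS x) ht.2)
      (Lam_treeT0_ne_top hβ hT hf hO ht.1), Lam_treeT0 hf hO]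
  rfl

end damping

/-! ### Energy of the protected particles -/

theorem alive_energy_le (hΦ : AdmissiblePotential Φ) : ∀ (P : CTree) (T' s : ℝ) (ℓ : PhasePoint)
    (p : Par P) (u : ℝ), Adm Φ P ℓ.2 p → Tree674.Ord Φ 0 P s ℓ.2 p →
    ∑ j, (if u < prot P T' p j then ‖(path Φ 0 P ℓ p u j).2‖ ^ 2 else 0) ≤
      ‖ℓ.2‖ ^ 2 + Tube818.wSq P p
  | leaf, T', s, ℓ, p, u, _, _ => by
      have h1 : ∑ j : Idx leaf, (if u < prot leaf T' p j then
          ‖(path Φ 0 leaf ℓ p u j).2‖ ^ 2 else 0) = if u < T' then ‖ℓ.2‖ ^ 2 else 0 := by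
        rw [Finset.sum_eq_single (root leaf)
          (fun b _ hb => absurd (Generic491.idx_leaf b (root leaf)) hb)
          (fun h => absurd (Finset.mem_univ _) h)]
        rfl
      rw [h1]
      have h2 : Tube818.wSq leaf p = 0 := rfl
      rw [h2, add_zero]
      split_ifs
      · exact le_rfl
      · positivity
  | node l r, T', s, ℓ, p, u, hA, hO => by
      obtain ⟨hO1, hO2, hOl, hOr⟩ := hO
      rw [sin_zero] at hO2 hOl hOr
      have hE := Tube818.preV_energy hΦ hA.1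
      have hsplit : ∑ j : Idx (node l r), (if u < prot (node l r) T' p j then
          ‖(path Φ 0 (node l r) ℓ p u j).2‖ ^ 2 else 0) =
          ∑ j : Idx l, (if u < prot l T' p.2.1 j then
            ‖(path Φ 0 (node l r) ℓ p u (Sum.inl j)).2‖ ^ 2 else 0) +
          ∑ j : Idx r, (if u < prot r p.1.1 p.2.2 j then
            ‖(path Φ 0 (node l r) ℓ p u (Sum.inr j)).2‖ ^ 2 else 0) :=
        Fintype.sum_sum_type (fun j : Idx l ⊕ Idx r =>
          if u < prot (node l r) T' p j then ‖(path Φ 0 (node l r) ℓ p u j).2‖ ^ 2 else 0)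
      have hw : Tube818.wSq (node l r) p =
          ‖p.1.2.1‖ ^ 2 + (Tube818.wSq l p.2.1 + Tube818.wSq r p.2.2) := rfl
      have hwl := Tube818.wSq_nonneg l p.2.1
      have hwr := Tube818.wSq_nonneg r p.2.2
      rw [hsplit, hw]
      rcases le_or_gt u p.1.1 with hu | hu
      · -- before the collision
        have hpath := path_node_le (Φ := Φ) (ε := 0) (ℓ := ℓ) (p := p) (u := u)
          (by rw [sin_zero]; exact hu)
        have h1 := alive_energy_le hΦ l T' p.1.1 (inMap Φ 0 ℓ p.1).1 p.2.1 u hA.2.1 hOl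
        have h2 := alive_energy_le hΦ r p.1.1 p.1.1 (inMap Φ 0 ℓ p.1).2 p.2.2 u hA.2.2 hOr
        simp only [hpath, Sum.elim_inl, Sum.elim_inr]
        have e1 : ‖(inMap Φ 0 ℓ p.1).1.2‖ ^ 2 = ‖(preV Φ ℓ.2 p.1).1‖ ^ 2 := rfl
        have e2 : ‖(inMap Φ 0 ℓ p.1).2.2‖ ^ 2 = ‖(preV Φ ℓ.2 p.1).2‖ ^ 2 := rfl
        rw [e1] at h1
        rw [e2] at h2
        linarith
      · -- after the collision: only the root is protected
        have hpath := path_node_gt (Φ := Φ) (ε := 0) (ℓ := ℓ) (p := p) (u := u)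
          (by rw [sin_zero]; exact hu)
        have hpl : ∀ j, j ≠ root l → ¬ u < prot l T' p.2.1 j := by
          intro j hj
          rw [PathFlow968.prot_eq_of_ne l T' p.1.1 p.2.1 hj, not_lt]
          exact (PathFlow968.prot_le le_rfl l _ _ p.2.1 hOl j).trans hu.le
        have hpr : ∀ j, ¬ u < prot r p.1.1 p.2.2 j := by
          intro j
          rw [not_lt]
          exact (PathFlow968.prot_le le_rfl r _ _ p.2.2 hOr j).trans hu.le
        have h1 : ∑ j : Idx l, (if u < prot l T' p.2.1 j then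
            ‖(path Φ 0 (node l r) ℓ p u (Sum.inl j)).2‖ ^ 2 else 0) ≤ ‖ℓ.2‖ ^ 2 := by
          rw [Finset.sum_eq_single (root l) (fun j _ hj => if_neg (hpl j hj))
            (fun h => absurd (Finset.mem_univ _) h)]
          rw [hpath]
          simp only [Sum.elim_inl, Function.update_self, colPath_out hu.le, onLine]
          split_ifs
          · exact le_rfl
          · positivity
        have h2 : ∑ j : Idx r, (if u < prot r p.1.1 p.2.2 j then
            ‖(path Φ 0 (node l r) ℓ p u (Sum.inr j)).2‖ ^ 2 else 0) = 0 :=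
          Finset.sum_eq_zero fun j _ => if_neg (hpr j)
        rw [h2]
        have h3 : 0 ≤ ‖p.1.2.1‖ ^ 2 := by positivity
        linarith

/-- growth rate of the protected tubes of a tree -/
theorem rateP_aV_le (hΦ : AdmissiblePotential Φ) {P : CTree} {s : ℝ} {ℓ : PhasePoint} {p : Par P}
    (hV : Valid Φ 0 P s ℓ.2 p) (u : ℝ) :
    rateP Φ aV P s ℓ p u ≤
      ENNReal.ofReal (2 * P.leaves + (‖ℓ.2‖ ^ 2 + Tube818.wSq P p)) := by
  have h1 := alive_energy_le hΦ P s s ℓ p u hV.1 hV.2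
  have h2 : rateP Φ aV P s ℓ p u ≤ ENNReal.ofReal (∑ j : Idx P,
      (2 + if u < prot P s p j then ‖(path Φ 0 P ℓ p u j).2‖ ^ 2 else 0)) := by
    unfold rateP aV
    rw [ENNReal.ofReal_sum_of_nonneg (fun j _ => by split_ifs <;> positivity)]
    refine Finset.sum_le_sum fun j _ => ?_
    split_ifs
    · refine ENNReal.ofReal_le_ofReal ?_
      nlinarith [sq_nonneg (‖(path Φ 0 P ℓ p u j).2‖ - 1 / 2)]
    · exact bot_le
  refine h2.trans (ENNReal.ofReal_le_ofReal ?_)
  rw [Finset.sum_add_distrib, Finset.sum_const, Finset.card_univ, card_idx, nsmul_eq_mul]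
  linarith

end Crest.Agent.R122.GIVStep383
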