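import Crest.Agent.R122.GIVRec_383

/-!
# Row 122, block F: the limsup recursion for finitely many kinds of children (helper383)
-/

set_option autoImplicit false

open MeasureTheory Filter Topology
open scoped ENNReal

noncomputable section

namespace Crest.Agent.R122.GIVRec383

open Crest.Agent.R122.Quench815 (absd)

theorem limsup_add_le_enn {α : Type*} {F : Filter α} (u v : α → ℝ≥0∞) :
    limsup (fun a => u a + v a) F ≤ limsup u F + limsup v F := by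
  refine ENNReal.le_of_forall_pos_le_add fun δ hδ hlt => ?_
  have hu : limsup u F ≠ ∞ := (lt_of_le_of_lt le_self_add hlt).ne
  have hv : limsup v F ≠ ∞ := (lt_of_le_of_lt le_add_self hlt).ne
  have hδ2 : (0 : ℝ≥0∞) < (δ : ℝ≥0∞) / 2 :=
    ENNReal.div_pos (by exact_mod_cast hδ.ne') (by simp)
  have h1 : ∀ᶠ a in F, u a < limsup u F + δ / 2 :=
    eventually_lt_of_limsup_lt (ENNReal.lt_add_right hu hδ2.ne')
  have h2 : ∀ᶠ a in F, v a < limsup v F + δ / 2 :=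
    eventually_lt_of_limsup_lt (ENNReal.lt_add_right hv hδ2.ne')
  refine limsup_le_of_le (by isBoundedDefault) ?_
  filter_upwards [h1, h2] with a ha hb
  calc u a + v a ≤ (limsup u F + δ / 2) + (limsup v F + δ / 2) := add_le_add ha.le hb.le
    _ = limsup u F + limsup v F + (δ / 2 + δ / 2) := by ring
    _ = limsup u F + limsup v F + δ := by rw [ENNReal.add_halves]

theorem limsup_finsetSum_le {α ι : Type*} {F : Filter α} (s : Finset ι) (u : ι → α → ℝ≥0∞) :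
    limsup (fun a => ∑ i ∈ s, u i a) F ≤ ∑ i ∈ s, limsup (u i) F := by
  classical
  induction s using Finset.induction_on with
  | empty =>
    simp only [Finset.sum_empty]
    exact limsup_le_of_le (by isBoundedDefault) (Eventually.of_forall fun _ => le_rfl)
  | insert i s hi ih =>
    simp only [Finset.sum_insert hi]
    exact (limsup_add_le_enn _ _).trans (add_le_add le_rfl ih)

/-- reverse Fatou with a.e. measurability and domination for large `n` only -/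
theorem limsup_lintegral_le_ev {Θ : Type*} [MeasurableSpace Θ] {ν : Measure Θ}
    {f : ℕ → Θ → ℝ≥0∞} (g : Θ → ℝ≥0∞) (hf : ∀ᶠ n in atTop, AEMeasurable (f n) ν)
    (hb : ∀ᶠ n in atTop, ∀ᵐ θ ∂ν, f n θ ≤ g θ) (hg : ∫⁻ θ, g θ ∂ν ≠ ∞) :
    limsup (fun n => ∫⁻ θ, f n θ ∂ν) atTop ≤ ∫⁻ θ, limsup (fun n => f n θ) atTop ∂ν := by
  obtain ⟨N, hN⟩ := eventually_atTop.1 (hf.and hb)
  have h1 : ∀ F : ℕ → ℝ≥0∞, limsup F atTop = limsup (fun n => F (n + N)) atTop := fun F =>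
    (limsup_nat_add F N).symm
  rw [h1]
  refine (limsup_lintegral_le' g (fun n => (hN (n + N) (Nat.le_add_left _ _)).1)
    (fun n => (hN (n + N) (Nat.le_add_left _ _)).2) hg).trans (le_of_eq ?_)
  refine lintegral_congr fun θ => ?_
  exact (h1 fun n => f n θ).symm

/-- one step of the recursion for the state `c`, the test function `φ` and the tolerance `δ`,
with finitely many kinds of children -/
structure StepJ {X : Type*} [MeasurableSpace X] (μ : Measure X) (𝒞 : Set (St X))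
    (𝒯 : Set (X → ℝ≥0∞)) (th : ℝ≥0∞) (c : St X) (φ : X → ℝ≥0∞) (δ : ℝ≥0∞) where
  /-- kinds of children -/
  J : Type
  /-- finitely many -/
  s : Finset J
  /-- parameters of the children -/
  Θ : J → Type
  /-- measurable space of the parameters -/
  mΘ : ∀ j, MeasurableSpace (Θ j)
  /-- measure on the parameters -/
  ν : ∀ j, Measure (Θ j)
  /-- weight of the children -/
  w : ∀ j, Θ j → X → ℝ≥0∞
  /-- children -/
  ch : ∀ j, Θ j → St X
  good : ∀ j ∈ s, ∀ᵐ θ ∂ν j, (∀ x, w j θ x = 0) ∨ (ch j θ ∈ 𝒞 ∧ (fun x => φ x * w j θ x) ∈ 𝒯)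
  meas : ∀ j ∈ s, ∀ᶠ k in atTop,
    AEMeasurable (fun θ => (ch j θ).err μ (fun x => φ x * w j θ x) k) (ν j)
  /-- domination -/
  dom : ∀ j, Θ j → ℝ≥0∞
  dom_fin : ∀ j ∈ s, ∫⁻ θ, dom j θ ∂(ν j) ≠ ∞
  le_dom : ∀ j ∈ s, ∀ᶠ k in atTop, ∀ᵐ θ ∂ν j,
    (ch j θ).err μ (fun x => φ x * w j θ x) k ≤ dom j θ
  step : limsup (fun k => c.err μ φ k) atTop ≤
    δ + limsup (fun k => ∑ j ∈ s, ∫⁻ θ, (ch j θ).err μ (fun x => φ x * w j θ x) k ∂(ν j)) atTop
  contr : ∑ j ∈ s, ∫⁻ θ, (ch j θ).A * ∫⁻ x, φ x * w j θ x * (ch j θ).Uw x ∂μ ∂(ν j) ≤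
    th * (c.A * ∫⁻ x, φ x * c.Uw x ∂μ)

variable {X : Type*} [MeasurableSpace X] {μ : Measure X} {𝒞 : Set (St X)}
  {𝒯 : Set (X → ℝ≥0∞)} {th : ℝ≥0∞}

theorem limsup_err_leJ (hth : th < 1)
    (hbase : ∀ c ∈ 𝒞, ∀ φ ∈ 𝒯,
      limsup (fun k => c.err μ φ k) atTop ≤ 2 * (c.A * ∫⁻ x, φ x * c.Uw x ∂μ))
    (hstep : ∀ c ∈ 𝒞, ∀ φ ∈ 𝒯, ∀ δ : ℝ≥0∞, 0 < δ → δ ≠ ∞ → Nonempty (StepJ μ 𝒞 𝒯 th c φ δ))
    (m : ℕ) :
    ∀ c ∈ 𝒞, ∀ φ ∈ 𝒯, limsup (fun k => c.err μ φ k) atTop ≤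
      2 * th ^ m * (c.A * ∫⁻ x, φ x * c.Uw x ∂μ) := by
  induction m with
  | zero => simpa using hbase
  | succ m ih =>
    intro c hc φ hφ
    refine ENNReal.le_of_forall_pos_le_add fun δ hδ _ => ?_
    obtain ⟨S⟩ := hstep c hc φ hφ (δ : ℝ≥0∞) (by exact_mod_cast hδ) ENNReal.coe_ne_top
    letI := S.mΘ
    have hne : 2 * th ^ m ≠ ∞ := ENNReal.mul_ne_top (by simp) (ENNReal.pow_ne_top hth.ne_top)
    calc limsup (fun k => c.err μ φ k) atTop
        ≤ δ + limsup (fun k => ∑ j ∈ S.s,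
            ∫⁻ θ, (S.ch j θ).err μ (fun x => φ x * S.w j θ x) k ∂(S.ν j)) atTop := S.step
      _ ≤ δ + ∑ j ∈ S.s, limsup (fun k =>
            ∫⁻ θ, (S.ch j θ).err μ (fun x => φ x * S.w j θ x) k ∂(S.ν j)) atTop := by
          gcongr
          exact limsup_finsetSum_le _ _
      _ ≤ δ + ∑ j ∈ S.s, ∫⁻ θ, limsup (fun k =>
            (S.ch j θ).err μ (fun x => φ x * S.w j θ x) k) atTop ∂(S.ν j) := by
          gcongr with j hj
          exact limsup_lintegral_le_ev (S.dom j) (S.meas j hj) (S.le_dom j hj) (S.dom_fin j hj)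
      _ ≤ δ + ∑ j ∈ S.s, ∫⁻ θ, 2 * th ^ m *
            ((S.ch j θ).A * ∫⁻ x, φ x * S.w j θ x * (S.ch j θ).Uw x ∂μ) ∂(S.ν j) := by
          gcongr 1
          refine Finset.sum_le_sum fun j hj => lintegral_mono_ae ?_
          filter_upwards [S.good j hj] with θ hθ
          rcases hθ with h0 | hθ
          · refine (limsup_le_of_le (by isBoundedDefault) (Eventually.of_forall fun k => ?_))
            show (S.ch j θ).err μ (fun x => φ x * S.w j θ x) k ≤ _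
            unfold St.err
            simp only [h0, mul_zero, zero_mul, lintegral_zero]
            exact le_rfl
          · exact ih _ hθ.1 _ hθ.2
      _ = δ + 2 * th ^ m * ∑ j ∈ S.s,
            ∫⁻ θ, (S.ch j θ).A * ∫⁻ x, φ x * S.w j θ x * (S.ch j θ).Uw x ∂μ ∂(S.ν j) := by
          rw [Finset.mul_sum]
          congr 1
          exact Finset.sum_congr rfl fun j _ => lintegral_const_mul' _ _ hne
      _ ≤ δ + 2 * th ^ m * (th * (c.A * ∫⁻ x, φ x * c.Uw x ∂μ)) := by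
          gcongr
          exact S.contr
      _ = 2 * th ^ (m + 1) * (c.A * ∫⁻ x, φ x * c.Uw x ∂μ) + δ := by
          rw [pow_succ]; ring

/-- **the limsup recursion**, finitely many kinds of children -/
theorem tendsto_errJ (hth : th < 1)
    (hbase : ∀ c ∈ 𝒞, ∀ φ ∈ 𝒯,
      limsup (fun k => c.err μ φ k) atTop ≤ 2 * (c.A * ∫⁻ x, φ x * c.Uw x ∂μ))
    (hfin : ∀ c ∈ 𝒞, ∀ φ ∈ 𝒯, c.A * ∫⁻ x, φ x * c.Uw x ∂μ ≠ ∞)
    (hstep : ∀ c ∈ 𝒞, ∀ φ ∈ 𝒯, ∀ δ : ℝ≥0∞, 0 < δ → δ ≠ ∞ → Nonempty (StepJ μ 𝒞 𝒯 th c φ δ))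
    {c : St X} (hc : c ∈ 𝒞) {φ : X → ℝ≥0∞} (hφ : φ ∈ 𝒯) :
    Tendsto (fun k => c.err μ φ k) atTop (𝓝 0) := by
  have h1 : Tendsto (fun m : ℕ => 2 * th ^ m * (c.A * ∫⁻ x, φ x * c.Uw x ∂μ)) atTop (𝓝 0) := by
    have h2 : Tendsto (fun m : ℕ => th ^ m * (2 * (c.A * ∫⁻ x, φ x * c.Uw x ∂μ))) atTop
        (𝓝 (0 * (2 * (c.A * ∫⁻ x, φ x * c.Uw x ∂μ)))) :=
      ENNReal.Tendsto.mul_const (ENNReal.tendsto_pow_atTop_nhds_zero_of_lt_one hth)
        (Or.inr (ENNReal.mul_ne_top (by simp) (hfin c hc φ hφ)))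
    rw [zero_mul] at h2
    refine h2.congr fun m => ?_
    ring
  have h3 : limsup (fun k => c.err μ φ k) atTop ≤ 0 :=
    ge_of_tendsto' h1 fun m => limsup_err_leJ hth hbase hstep m c hc φ hφ
  exact tendsto_of_le_liminf_of_limsup_le bot_le h3

end Crest.Agent.R122.GIVRec383
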