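import Crest.Agent.R122.GIVSuper_383
import Crest.Agent.R122.FluxMeas_491

/-!
# Row 122, block F (helper383): measurability and domination of the children
-/

set_option autoImplicit false
open MeasureTheory Set Filter
open scoped Classical ENNReal Topology NNReal
open Crest.AnalysisR.Kinetic
open Crest.Agent.R122.GC311 Crest.Agent.R122.Causal291 Crest.Agent.R122.Master566
open Crest.Agent.R122.GIV566 Crest.Agent.R122.Kin796 Crest.Agent.R122.Disc416
open Crest.Agent.R122.Tree674 Crest.Agent.R122.TreeEps399 Crest.Agent.R122.Hid424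
open Crest.Agent.R122.FluxDCT491
open Crest.Agent.R122.Quench815 (absd absd_comm absd_self le_add_absd le_add_absd' absd_le_add
  absd_le_iff absd_triangle absd_mul_le measurable_absd absd_lintegral_le)
noncomputable section

namespace Crest.Agent.R122.GIVStep383

open CTree

variable {Φ : Space3 → ℝ} {ι : Type} {β T : ℝ} {f₀ : PhasePoint → ℝ} {f : ℝ → PhasePoint → ℝ}

/-! ### Elementary facts on `absd` -/

theorem adiff_eq_absd (a b : ℝ≥0∞) : adiff a b = absd a b := rfl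

theorem absd_mul_eq {c : ℝ≥0∞} (hc : c ≠ ∞) (a b : ℝ≥0∞) :
    absd (c * a) (c * b) = c * absd a b := by
  unfold absd
  rw [mul_add, ENNReal.mul_sub (fun _ _ => hc), ENNReal.mul_sub (fun _ _ => hc)]

theorem absd_le_two {a b : ℝ≥0∞} (ha : a ≤ 1) (hb : b ≤ 1) : absd a b ≤ 2 :=
  (absd_le_add a b).trans ((add_le_add ha hb).trans (by norm_num))

theorem wgt_ne_top {tw t : ℝ} {S : Tubes ι} {i : ι} {P : CTree} (θ : HPar P) (x : Space3) :
    wgt Φ f₀ tw t S i θ x ≠ ∞ := by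
  unfold wgt
  split_ifs
  · exact ENNReal.mul_ne_top ENNReal.ofReal_ne_top (ENNReal.mul_ne_top (TreeLim974.wt_ne_top P _ _)
      (ENNReal.prod_ne_top fun _ _ => ENNReal.ofReal_ne_top))
  · simp

theorem wgt_of_not {tw t : ℝ} {S : Tubes ι} {i : ι} {P : CTree} {θ : HPar P}
    (h : ¬ HGood Φ tw t S i θ) (x : Space3) : wgt Φ f₀ tw t S i θ x = 0 := by
  unfold wgt
  rw [if_neg h]

/-! ### Joint measurability of the damped weight -/

theorem measurable_QI2 (hT : 0 < T) (hf : IsRegularKineticSolution Φ β T f₀ f) [Fintype ι]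
    {S : Tubes ι} {M : ℝ≥0} (hS : ∀ i, LipschitzOnWith M (S.c i) (Icc 0 T)) {tw t : ℝ}
    (htw : 0 ≤ tw) (ht : t ≤ T) (i : ι) :
    Measurable fun z : Space3 × ℝ => QI T f tw t S z.1 i z.2 := by
  have h1 := measurable_dampG_shift hT.le hf hS
  have h2 : MeasurableSet (Prod.snd ⁻¹' (Ioc tw t ∩ Iio (S.b i)) : Set (Space3 × ℝ)) :=
    measurable_snd (measurableSet_Ioc.inter measurableSet_Iio)
  have e : (fun z : Space3 × ℝ => QI T f tw t S z.1 i z.2) =
      (Prod.snd ⁻¹' (Ioc tw t ∩ Iio (S.b i)) : Set (Space3 × ℝ)).indicator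
        fun z : Space3 × ℝ => dampG T f (S.shift z.1) (min z.2 T) := by
    funext z
    by_cases hz : z.2 ∈ Ioc tw t
    · rw [QI_of_mem htw ht hz]
      by_cases hb : z.2 < S.b i
      · rw [if_pos hb, indicator_of_mem
          (show z ∈ Prod.snd ⁻¹' (Ioc tw t ∩ Iio (S.b i)) from ⟨hz, hb⟩),
          min_eq_left (hz.2.trans ht)]
      · rw [if_neg hb, indicator_of_notMem
          (show z ∉ Prod.snd ⁻¹' (Ioc tw t ∩ Iio (S.b i)) from fun h => hb h.2)]
    · rw [QI_of_notMem hz, indicator_of_notMem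
        (show z ∉ Prod.snd ⁻¹' (Ioc tw t ∩ Iio (S.b i)) from fun h => hz h.1)]
  rw [e]
  exact h1.indicator h2

theorem measurable_wgt_dampG (hβ : 0 < β) (hT : 0 < T) (hΦ : AdmissiblePotential Φ)
    (hf : IsRegularKineticSolution Φ β T f₀ f) [Fintype ι]
    {S : Tubes ι} {M : ℝ≥0} (hS : ∀ i, LipschitzOnWith M (S.c i) (Icc 0 T)) {tw t : ℝ}
    (htw : 0 ≤ tw) (ht : t ≤ T) (i : ι) (P : CTree) :
    Measurable fun q : Space3 × HPar P => wgt Φ f₀ tw t S i q.2 q.1 *
      dampG T f ((childT0 Φ S i q.2).shift q.1) q.2.1 := by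
  have h1 : Measurable fun q : Space3 × HPar P => QI T f tw t S q.1 i q.2.1 := by
    have h0 : Measurable fun q : Space3 × HPar P => ((q.1, q.2.1) : Space3 × ℝ) := by fun_prop
    exact Measurable.comp (g := fun z : Space3 × ℝ => QI T f tw t S z.1 i z.2)
      (measurable_QI2 hT hf hS htw ht i) h0
  have h2 : Measurable fun q : Space3 × HPar P => GI Φ T f S q.1 i P q.2.1 q.2.2 := by
    have h0 : Measurable fun q : Space3 × HPar P =>
        (((q.1, q.2.1), q.2.2) : (Space3 × ℝ) × (Space3 × Plane × Par P)) := by fun_prop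
    exact Measurable.comp (g := fun z : (Space3 × ℝ) × (Space3 × Plane × Par P) =>
      GI Φ T f S z.1.1 i P z.1.2 z.2) (measurable_GI hT.le hΦ hf hS i P) h0
  have e : (fun q : Space3 × HPar P => wgt Φ f₀ tw t S i q.2 q.1 *
      dampG T f ((childT0 Φ S i q.2).shift q.1) q.2.1) = fun q : Space3 × HPar P =>
        QI T f tw t S q.1 i q.2.1 * GI Φ T f S q.1 i P q.2.1 q.2.2 := by
    funext q
    exact wgt_eq_QI_GI hβ hT hf hS htw ht i q.2 q.1
  rw [e]
  exact h1.mul h2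

theorem measurable_gain0 (hβ : 0 < β) (hT : 0 < T) (hΦ : AdmissiblePotential Φ)
    (hf : IsRegularKineticSolution Φ β T f₀ f) [Fintype ι]
    {S : Tubes ι} {M : ℝ≥0} (hS : ∀ i, LipschitzOnWith M (S.c i) (Icc 0 T)) {tw t : ℝ}
    (htw : 0 ≤ tw) (ht : t ≤ T) (P : CTree) :
    Measurable fun x : Space3 => gain0 Φ f₀ f T tw t S P x := by
  unfold gain0
  refine Finset.measurable_sum _ fun i _ => ?_
  exact (measurable_wgt_dampG hβ hT hΦ hf hS htw ht i P).lintegral_prod_right'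

/-- joint measurability of the weighted difference -/
theorem measurable_wgt_absd (hβ : 0 < β) (hT : 0 < T) (hΦ : AdmissiblePotential Φ)
    (hf : IsRegularKineticSolution Φ β T f₀ f) (hf₀ : Measurable f₀) [Fintype ι]
    {Sk S : Tubes ι} {M : ℝ≥0} (hS : ∀ i, LipschitzOnWith M (S.c i) (Icc 0 T))
    (hSk : ∀ i, ContinuousOn (Sk.c i) (Icc 0 T)) {ε : ℝ} (hε : 0 < ε) {tw t : ℝ}
    (htw : 0 ≤ tw) (ht : t ≤ T) (i : ι) (P : CTree) :
    Measurable fun q : Space3 × HPar P => wgt Φ f₀ tw t S i q.2 q.1 *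
      absd (uG Φ f₀ ε ((childT Φ ε Sk S i q.2).shift q.1) q.2.1)
        (dampG T f ((childT0 Φ S i q.2).shift q.1) q.2.1) := by
  have h1 := measurable_wgt_dampG hβ hT hΦ hf hS htw ht i P
  have h2 := measurable_wgt_uG hΦ hf₀ hε hT.le htw ht hSk i (hS i).continuousOn P
  have e : (fun q : Space3 × HPar P => wgt Φ f₀ tw t S i q.2 q.1 *
      absd (uG Φ f₀ ε ((childT Φ ε Sk S i q.2).shift q.1) q.2.1)
        (dampG T f ((childT0 Φ S i q.2).shift q.1) q.2.1)) = fun q : Space3 × HPar P =>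
      absd (wgt Φ f₀ tw t S i q.2 q.1 * uG Φ f₀ ε ((childT Φ ε Sk S i q.2).shift q.1) q.2.1)
        (wgt Φ f₀ tw t S i q.2 q.1 * dampG T f ((childT0 Φ S i q.2).shift q.1) q.2.1) := by
    funext q
    exact (absd_mul_eq (wgt_ne_top q.2 q.1) _ _).symm
  rw [e]
  exact measurable_absd h2 h1

/-! ### Domination -/

/-- domination of the weight by an integrable function of the parameters -/
theorem exists_dom (hD : KData Φ β T f₀ f) [Fintype ι] {S : Tubes ι} {M : ℝ≥0}
    (hS : ∀ i, LipschitzOnWith M (S.c i) (Icc 0 T)) {tw t : ℝ} (htw : 0 ≤ tw) (ht : t ≤ T)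
    (P : CTree) :
    ∃ D : HPar P → ℝ≥0∞, Measurable D ∧ ∫⁻ θ, D θ ≠ ∞ ∧ ∀ i, ∀ᵐ θ : HPar P, ∀ x,
      wgt Φ f₀ tw t S i θ x ≤ D θ := by
  obtain ⟨C, hC, hk⟩ := exists_bound hD
  have hβ := hD.beta_pos
  obtain ⟨C', hC', hdom⟩ := wE_le_aux (b' := β) hD.adm hC M.2 (by linarith : β < 2 * β) hk T P
  refine ⟨domD C' β T P, measurable_domD hC' β T P, lintegral_domD_ne_top hC' hβ T P, fun i => ?_⟩
  filter_upwards [ae_time_ne P 0, ae_time_ne P T] with θ h0 hT x
  rw [wgt_eq]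
  refine hdom 0 ι S S i _ θ x le_rfl fun hθ => ?_
  have hb := HGood_box (T := T) htw ht θ hθ
  refine ⟨hb.1, hb.2, ?_⟩
  refine norm_deriv_le_of_lipschitzOn (s := Icc 0 T) ?_ (hS i)
  exact Icc_mem_nhds (lt_of_le_of_ne hb.1.1.1 (Ne.symm h0)) (lt_of_le_of_ne hb.1.1.2 hT)

end Crest.Agent.R122.GIVStep383
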