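import Crest.Agent.R122.GIVRecJ_383
import Crest.Agent.R122.GIVStepA_383
import Crest.Agent.R122.GIVChildConv_491

/-!
# Row 122, block F (helper383): the window step of the ghost avoidance identification

`giv_window` : there is a window length `h > 0` such that, if `0 ≤ tw ≤ t' ≤ T`, `t' ≤ tw + h`, the
first-hit identity `FluxStep tw t'` holds and `GIV` holds at time `tw`, then `GIV` holds at
time `t'`.
-/

set_option autoImplicit false
open MeasureTheory Set Filter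
open scoped Classical ENNReal Topology NNReal
open Crest.AnalysisR.Kinetic
open Crest.Agent.R122.GC311 Crest.Agent.R122.Causal291 Crest.Agent.R122.Master566
open Crest.Agent.R122.GIV566 Crest.Agent.R122.Kin796 Crest.Agent.R122.Disc416
open Crest.Agent.R122.Tree674 Crest.Agent.R122.TreeEps399 Crest.Agent.R122.Hid424
open Crest.Agent.R122.FluxDCT491 Crest.Agent.R122.GIVRec383
open Crest.Agent.R122.Quench815 (absd absd_comm absd_self le_add_absd le_add_absd' absd_le_add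
  absd_le_iff absd_triangle absd_mul_le measurable_absd absd_lintegral_le)
noncomputable section

namespace Crest.Agent.R122.GIVStep383

open CTree

variable {Φ : Space3 → ℝ} {ι κ : Type} {β T : ℝ} {f₀ : PhasePoint → ℝ} {f : ℝ → PhasePoint → ℝ}

/-! ### Elementary inequalities -/

theorem absd_main {a aw b bw gk g0 r0 : ℝ≥0∞} (hgk : gk ≠ ∞) (hg0 : g0 ≠ ∞)
    (h : b + (g0 + r0) = bw) :
    absd a b ≤ absd (a + gk) aw + (absd aw bw + (absd gk g0 + r0)) := by
  rw [absd_le_iff]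
  constructor
  · refine (ENNReal.add_le_add_iff_right hgk).1 ?_
    calc a + gk ≤ aw + absd (a + gk) aw := le_add_absd _ _
      _ ≤ (bw + absd aw bw) + absd (a + gk) aw := by gcongr; exact le_add_absd _ _
      _ = (b + (g0 + r0) + absd aw bw) + absd (a + gk) aw := by rw [h]
      _ ≤ (b + ((gk + absd gk g0) + r0) + absd aw bw) + absd (a + gk) aw := by
          gcongr; exact le_add_absd' _ _
      _ = b + (absd (a + gk) aw + (absd aw bw + (absd gk g0 + r0))) + gk := by ring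
  · refine (ENNReal.add_le_add_iff_right hg0).1 ?_
    calc b + g0 ≤ b + (g0 + r0) := by gcongr; exact le_self_add
      _ = bw := h
      _ ≤ aw + absd aw bw := le_add_absd' _ _
      _ ≤ ((a + gk) + absd (a + gk) aw) + absd aw bw := by gcongr; exact le_add_absd' _ _
      _ ≤ ((a + (g0 + absd gk g0)) + absd (a + gk) aw) + absd aw bw := by
          gcongr; exact le_add_absd _ _
      _ ≤ ((a + (g0 + absd gk g0)) + absd (a + gk) aw) + absd aw bw + r0 := le_self_add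
      _ = a + (absd (a + gk) aw + (absd aw bw + (absd gk g0 + r0))) + g0 := by ring

/-- test functions: measurable, bounded, with bounded support -/
def TFn : Set (Space3 → ℝ≥0∞) :=
  {φ | Measurable φ ∧ ∃ (C : ℝ≥0∞) (R : ℝ), C ≠ ∞ ∧ (∀ x, φ x ≤ C) ∧
    ∀ x, x ∉ Metric.closedBall (0 : Space3) R → φ x = 0}

theorem lintegral_test_le {φ : Space3 → ℝ≥0∞} {C : ℝ≥0∞} {R : ℝ} (hC : C ≠ ∞)
    (h1 : ∀ x, φ x ≤ C) (h2 : ∀ x, x ∉ Metric.closedBall (0 : Space3) R → φ x = 0)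
    (g : Space3 → ℝ≥0∞) :
    ∫⁻ x, φ x * g x ≤ C * ∫⁻ x in Metric.closedBall (0 : Space3) R, g x := by
  rw [← lintegral_const_mul' C _ hC, ← lintegral_indicator Metric.isClosed_closedBall.measurableSet]
  refine lintegral_mono fun x => ?_
  by_cases hx : x ∈ Metric.closedBall (0 : Space3) R
  · rw [indicator_of_mem hx]
    exact mul_le_mul' (h1 x) le_rfl
  · rw [h2 x hx, zero_mul]
    exact bot_le

theorem lintegral_test_ne_top {φ : Space3 → ℝ≥0∞} (hφ : φ ∈ TFn) : ∫⁻ x, φ x ≠ ∞ := by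
  obtain ⟨-, C, R, hC, h1, h2⟩ := hφ
  have h := lintegral_test_le hC h1 h2 (fun _ => 1)
  simp only [mul_one, lintegral_one, Measure.restrict_apply_univ] at h
  exact ne_top_of_le_ne_top (ENNReal.mul_ne_top hC measure_closedBall_lt_top.ne) h

/-! ### States -/

/-- the state of a family -/
def stT (Φ : Space3 → ℝ) (f₀ : PhasePoint → ℝ) (f : ℝ → PhasePoint → ℝ) (T : ℝ) (εk : ℕ → ℝ)
    (l tw : ℝ) [Fintype κ] (Sk : ℕ → Tubes κ) (S : Tubes κ) (t : ℝ) : St Space3 where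
  u := fun k x => uG Φ f₀ (εk k) ((Sk k).shift x) t
  U := fun x => dampG T f (S.shift x) t
  Uw := fun x => dampG T f (S.shift x) tw
  A := Awt l S tw t

/-- the class of the states -/
def CC (Φ : Space3 → ℝ) (f₀ : PhasePoint → ℝ) (f : ℝ → PhasePoint → ℝ) (T : ℝ) (εk : ℕ → ℝ)
    (l tw t' : ℝ) : Set (St Space3) :=
  {c | ∃ (κ : Type) (_ : Fintype κ) (Sk : ℕ → Tubes κ) (S : Tubes κ) (t : ℝ), t ∈ Icc tw t' ∧
    TubeConv T Sk S ∧ Generic T S ∧ (∀ᶠ k in atTop, c.u k = (stT Φ f₀ f T εk l tw Sk S t).u k) ∧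
    c.U = (stT Φ f₀ f T εk l tw Sk S t).U ∧ c.Uw = (stT Φ f₀ f T εk l tw Sk S t).Uw ∧
    c.A = (stT Φ f₀ f T εk l tw Sk S t).A}

theorem limsup_err_congr {c c' : St Space3} (hu : ∀ᶠ k in atTop, c.u k = c'.u k)
    (hU : c.U = c'.U) (φ : Space3 → ℝ≥0∞) :
    limsup (fun k => c.err volume φ k) atTop = limsup (fun k => c'.err volume φ k) atTop := by
  refine limsup_congr ?_
  filter_upwards [hu] with k hk
  unfold St.err
  rw [hk, hU]

/-! ### The base inequality -/

section base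

variable (hD : KData Φ β T f₀ f) {εk : ℕ → ℝ} (hε0 : ∀ k, 0 < εk k)
  (hlim : Tendsto εk atTop (𝓝 0)) {l tw t' : ℝ} (hl : 0 ≤ l) (htT : t' ≤ T)
  (hG : GIV Φ f₀ f T tw)

include hD hε0 hlim hl htT hG

theorem base_stT [Fintype κ] {Sk : ℕ → Tubes κ} {S : Tubes κ} (hc : TubeConv T Sk S)
    (hg : Generic T S) {t : ℝ} (ht : t ∈ Icc tw t') {φ : Space3 → ℝ≥0∞} (hφ : φ ∈ TFn) :
    limsup (fun k => (stT Φ f₀ f T εk l tw Sk S t).err volume φ k) atTop ≤
      2 * ((stT Φ f₀ f T εk l tw Sk S t).A *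
        ∫⁻ x, φ x * (stT Φ f₀ f T εk l tw Sk S t).Uw x) := by
  obtain ⟨hφm, C, R, hC, h1, h2⟩ := hφ
  obtain ⟨M, hlipk, hlip⟩ := hc.lip
  have htwT : tw ≤ T := ht.1.trans (ht.2.trans htT)
  have hmw : Measurable fun x : Space3 => dampG T f (S.shift x) tw :=
    measurable_dampG_fix hD.T_pos.le hD.sol hlip htwT
  have hlimw := hG κ Sk S εk hε0 hlim hc hg R
  have hle : ∀ k, (stT Φ f₀ f T εk l tw Sk S t).err volume φ k ≤
      2 * (∫⁻ x, φ x * dampG T f (S.shift x) tw) +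
        C * ∫⁻ x in Metric.closedBall (0 : Space3) R,
          adiff (uG Φ f₀ (εk k) ((Sk k).shift x) tw) (dampG T f (S.shift x) tw) := by
    intro k
    refine le_trans ?_ (add_le_add le_rfl (lintegral_test_le hC h1 h2 _))
    have hm2 : Measurable fun x : Space3 => 2 * (φ x * dampG T f (S.shift x) tw) :=
      (hφm.mul hmw).const_mul 2
    rw [← lintegral_const_mul' 2 _ (by simp), ← lintegral_add_left hm2]
    refine lintegral_mono fun x => ?_
    have e1 : uG Φ f₀ (εk k) ((Sk k).shift x) t ≤ uG Φ f₀ (εk k) ((Sk k).shift x) tw :=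
      uG_anti ht.1
    have e2 : dampG T f (S.shift x) t ≤ dampG T f (S.shift x) tw :=
      dampG_anti ht.1 (Lam_ne_top hD.beta_pos hD.T_pos hD.sol (lipschitz_shift hlip x)
        (ht.2.trans htT))
    have e3 := le_add_absd (uG Φ f₀ (εk k) ((Sk k).shift x) tw) (dampG T f (S.shift x) tw)
    calc φ x * absd (uG Φ f₀ (εk k) ((Sk k).shift x) t) (dampG T f (S.shift x) t)
        ≤ φ x * (uG Φ f₀ (εk k) ((Sk k).shift x) t + dampG T f (S.shift x) t) := by
          gcongr; exact absd_le_add _ _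
      _ ≤ φ x * ((dampG T f (S.shift x) tw + absd (uG Φ f₀ (εk k) ((Sk k).shift x) tw)
            (dampG T f (S.shift x) tw)) + dampG T f (S.shift x) tw) := by
          gcongr
          exact e1.trans e3
      _ = 2 * (φ x * dampG T f (S.shift x) tw) + φ x *
            adiff (uG Φ f₀ (εk k) ((Sk k).shift x) tw) (dampG T f (S.shift x) tw) := by
          rw [adiff_eq_absd]; ring
  have hlim2 : Tendsto (fun k => 2 * (∫⁻ x, φ x * dampG T f (S.shift x) tw) +
        C * ∫⁻ x in Metric.closedBall (0 : Space3) R,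
          adiff (uG Φ f₀ (εk k) ((Sk k).shift x) tw) (dampG T f (S.shift x) tw)) atTop
      (𝓝 (2 * (∫⁻ x, φ x * dampG T f (S.shift x) tw) + C * 0)) :=
    (ENNReal.Tendsto.const_mul hlimw (Or.inr hC)).const_add _
  rw [mul_zero, add_zero] at hlim2
  refine (limsup_le_limsup (Eventually.of_forall hle)).trans ?_
  rw [hlim2.limsup_eq]
  gcongr 2 * ?_
  refine le_trans ?_ (mul_le_mul' (one_le_Awt hl) le_rfl)
  rw [one_mul]
  exact le_rfl

end base

theorem err_fin_stT [Fintype κ] {εk : ℕ → ℝ} {l tw t : ℝ} {Sk : ℕ → Tubes κ} {S : Tubes κ}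
    {φ : Space3 → ℝ≥0∞} (hφ : φ ∈ TFn) :
    (stT Φ f₀ f T εk l tw Sk S t).A * ∫⁻ x, φ x * (stT Φ f₀ f T εk l tw Sk S t).Uw x ≠ ∞ := by
  refine ENNReal.mul_ne_top Awt_ne_top ?_
  refine ne_top_of_le_ne_top (lintegral_test_ne_top hφ) (lintegral_mono fun x => ?_)
  exact (mul_le_mul' le_rfl (dampG_le_one _)).trans (mul_one _).le

/-! ### The remainder of the series of trees -/

/-- the trees with more than `K` particles -/
def rest (Φ : Space3 → ℝ) (f₀ : PhasePoint → ℝ) (f : ℝ → PhasePoint → ℝ) (T tw t : ℝ)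
    [Fintype ι] (S : Tubes ι) (K : ℕ) (x : Space3) : ℝ≥0∞ :=
  ∑' P : CTree, if P ∈ trees K then 0 else gain0 Φ f₀ f T tw t S P x

theorem sum_add_rest [Fintype ι] {tw t : ℝ} (S : Tubes ι) (K : ℕ) (x : Space3) :
    ∑ P ∈ trees K, gain0 Φ f₀ f T tw t S P x + rest Φ f₀ f T tw t S K x =
      ∑' P : CTree, gain0 Φ f₀ f T tw t S P x := by
  have e : ∑ P ∈ trees K, gain0 Φ f₀ f T tw t S P x =
      ∑' P : CTree, if P ∈ trees K then gain0 Φ f₀ f T tw t S P x else 0 := by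
    rw [tsum_eq_sum (s := trees K) fun P hP => if_neg hP]
    exact Finset.sum_congr rfl fun P hP => (if_pos hP).symm
  rw [e, rest, ← ENNReal.tsum_add]
  refine tsum_congr fun P => ?_
  by_cases h : P ∈ trees K
  · rw [if_pos h, if_pos h, add_zero]
  · rw [if_neg h, if_neg h, zero_add]

theorem measurable_rest (hβ : 0 < β) (hT : 0 < T) (hΦ : AdmissiblePotential Φ)
    (hf : IsRegularKineticSolution Φ β T f₀ f) [Fintype ι]
    {S : Tubes ι} {M : ℝ≥0} (hS : ∀ i, LipschitzOnWith M (S.c i) (Icc 0 T)) {tw t : ℝ}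
    (htw : 0 ≤ tw) (ht : t ≤ T) (K : ℕ) : Measurable (rest Φ f₀ f T tw t S K) := by
  unfold rest
  refine Measurable.tsum fun P => ?_
  by_cases h : P ∈ trees K
  · simp only [if_pos h]; exact measurable_const
  · simp only [if_neg h]; exact measurable_gain0 hβ hT hΦ hf hS htw ht P

theorem rest_small (hβ : 0 < β) (hT : 0 < T) (hΦ : AdmissiblePotential Φ)
    (hf : IsRegularKineticSolution Φ β T f₀ f) [Fintype ι]
    {S : Tubes ι} {M : ℝ≥0} (hS : ∀ i, LipschitzOnWith M (S.c i) (Icc 0 T)) {tw t : ℝ}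
    (htw : 0 ≤ tw) (hle : tw ≤ t) (ht : t ≤ T) {φ : Space3 → ℝ≥0∞} (hφ : φ ∈ TFn) {δ : ℝ≥0∞}
    (hδ : 0 < δ) : ∃ K₁ : ℕ, ∀ K ≥ K₁, ∫⁻ x, φ x * rest Φ f₀ f T tw t S K x ≤ δ := by
  have hm : ∀ P, Measurable fun x : Space3 => gain0 Φ f₀ f T tw t S P x :=
    measurable_gain0 hβ hT hΦ hf hS htw ht
  set a : CTree → ℝ≥0∞ := fun P => ∫⁻ x, φ x * gain0 Φ f₀ f T tw t S P x with ha
  have hsum : ∑' P, a P ≠ ∞ := by
    have e1 : ∑' P, a P = ∫⁻ x, φ x * ∑' P : CTree, gain0 Φ f₀ f T tw t S P x := by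
      have hm1 : ∀ P, AEMeasurable (fun x : Space3 => φ x * gain0 Φ f₀ f T tw t S P x) volume :=
        fun P => (hφ.1.mul (hm P)).aemeasurable
      simp only [ha]
      rw [← lintegral_tsum hm1]
      exact lintegral_congr fun x => ENNReal.tsum_mul_left
    rw [e1]
    refine ne_top_of_le_ne_top (lintegral_test_ne_top hφ) (lintegral_mono fun x => ?_)
    have h1 := dampStep hβ hT hΦ hf ι S M hS tw t htw hle ht x
    calc φ x * ∑' P : CTree, gain0 Φ f₀ f T tw t S P x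
        ≤ φ x * dampG T f (S.shift x) tw := by
          gcongr
          rw [← h1]
          exact le_add_self
      _ ≤ φ x * 1 := by gcongr; exact dampG_le_one _
      _ = φ x := mul_one _
  have htail := ENNReal.tendsto_tsum_compl_atTop_zero hsum
  obtain ⟨s₀, hs₀⟩ := eventually_atTop.1 (htail.eventually_lt_const hδ)
  refine ⟨s₀.sup CTree.leaves, fun K hK => ?_⟩
  have hsub : s₀ ≤ trees K := fun P hP => mem_trees.2 ((Finset.le_sup hP).trans hK)
  refine le_trans (le_of_eq ?_) (hs₀ (trees K) hsub).le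
  have e2 : ∫⁻ x, φ x * rest Φ f₀ f T tw t S K x =
      ∑' P : CTree, ∫⁻ x, φ x * (if P ∈ trees K then 0 else gain0 Φ f₀ f T tw t S P x) := by
    rw [← lintegral_tsum]
    · exact lintegral_congr fun x => ENNReal.tsum_mul_left.symm
    · intro P
      by_cases h : P ∈ trees K
      · simp only [if_pos h, mul_zero]; exact aemeasurable_const
      · simp only [if_neg h]; exact (hφ.1.mul (hm P)).aemeasurable
  have e3 : ∑' b : {P // P ∉ trees K}, a b = ∑' P, ({P | P ∉ trees K} : Set CTree).indicator a P :=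
    tsum_subtype {P | P ∉ trees K} a
  rw [e2, e3]
  refine tsum_congr fun P => ?_
  by_cases h : P ∈ trees K
  · rw [indicator_of_notMem (show P ∉ {P | P ∉ trees K} from fun h' => h' h)]
    simp only [if_pos h, mul_zero, lintegral_zero]
  · rw [indicator_of_mem (show P ∈ {P | P ∉ trees K} from h)]
    simp only [if_neg h, ha]

/-! ### The difference of the gains -/

/-- integrated difference of the children of shape `P` -/
def dgain (Φ : Space3 → ℝ) (f₀ : PhasePoint → ℝ) (f : ℝ → PhasePoint → ℝ) (T ε tw t : ℝ)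
    [Fintype ι] (Sk S : Tubes ι) (P : CTree) (x : Space3) : ℝ≥0∞ :=
  ∑ i, ∫⁻ θ : HPar P, wgt Φ f₀ tw t S i θ x *
    absd (uG Φ f₀ ε ((childT Φ ε Sk S i θ).shift x) θ.1)
      (dampG T f ((childT0 Φ S i θ).shift x) θ.1)

theorem absd_sum_le {α : Type*} (s : Finset α) (g h : α → ℝ≥0∞) :
    absd (∑ a ∈ s, g a) (∑ a ∈ s, h a) ≤ ∑ a ∈ s, absd (g a) (h a) := by
  rw [absd_le_iff, ← Finset.sum_add_distrib, ← Finset.sum_add_distrib]
  exact ⟨Finset.sum_le_sum fun a _ => le_add_absd _ _,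
    Finset.sum_le_sum fun a _ => le_add_absd' _ _⟩

theorem absd_gain_le (hβ : 0 < β) (hT : 0 < T) (hΦ : AdmissiblePotential Φ)
    (hf : IsRegularKineticSolution Φ β T f₀ f) (hf₀ : Measurable f₀) [Fintype ι]
    {Sk S : Tubes ι} {M : ℝ≥0} (hS : ∀ i, LipschitzOnWith M (S.c i) (Icc 0 T))
    (hSk : ∀ i, ContinuousOn (Sk.c i) (Icc 0 T)) {ε : ℝ} (hε : 0 < ε) {tw t : ℝ}
    (htw : 0 ≤ tw) (ht : t ≤ T) (P : CTree) (x : Space3) :
    absd (gain Φ f₀ ε tw t Sk S P x) (gain0 Φ f₀ f T tw t S P x) ≤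
      dgain Φ f₀ f T ε tw t Sk S P x := by
  unfold gain gain0 dgain
  refine (absd_sum_le _ _ _).trans (Finset.sum_le_sum fun i _ => ?_)
  have h1 := (measurable_wgt_dampG hβ hT hΦ hf hS htw ht i P).comp
    (measurable_prodMk_left (x := x))
  have h2 := (measurable_wgt_uG hΦ hf₀ hε hT.le htw ht hSk i (hS i).continuousOn P).comp
    (measurable_prodMk_left (x := x))
  refine (absd_lintegral_le _ h2 h1).trans (lintegral_mono fun θ => ?_)
  exact absd_mul_le _ _ _

theorem gain_ne_top (hD : KData Φ β T f₀ f) [Fintype ι] {Sk S : Tubes ι} {M : ℝ≥0}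
    (hS : ∀ i, LipschitzOnWith M (S.c i) (Icc 0 T)) {ε tw t : ℝ} (htw : 0 ≤ tw) (ht : t ≤ T)
    (P : CTree) (x : Space3) : gain Φ f₀ ε tw t Sk S P x ≠ ∞ := by
  obtain ⟨D, -, hDf, hdom⟩ := exists_dom hD hS htw ht P
  have hfm : Measurable f₀ := hD.contDiff.continuous.measurable
  have h1 : ∫⁻ z, ENNReal.ofReal (f₀ z) ≤ 1 :=
    (FM167.lintegral_density_eq_one hD.nonneg hD.integrable hD.mass).le
  unfold gain
  refine (ENNReal.sum_lt_top.2 fun i _ => ?_).ne
  refine lt_of_le_of_lt (lintegral_mono_ae ?_) hDf.lt_top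
  filter_upwards [hdom i] with θ hθ
  exact (mul_le_mul' (hθ x) (uG_le_one hfm h1)).trans (mul_one _).le

/-- Tonelli for the difference of the gains -/
theorem lintegral_dgain (hβ : 0 < β) (hT : 0 < T) (hΦ : AdmissiblePotential Φ)
    (hf : IsRegularKineticSolution Φ β T f₀ f) (hf₀ : Measurable f₀) [Fintype ι]
    {Sk S : Tubes ι} {M : ℝ≥0} (hS : ∀ i, LipschitzOnWith M (S.c i) (Icc 0 T))
    (hSk : ∀ i, ContinuousOn (Sk.c i) (Icc 0 T)) {ε : ℝ} (hε : 0 < ε) {tw t : ℝ}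
    (htw : 0 ≤ tw) (ht : t ≤ T) (P : CTree) {φ : Space3 → ℝ≥0∞} (hφ : Measurable φ) :
    ∫⁻ x, φ x * dgain Φ f₀ f T ε tw t Sk S P x =
      ∑ i, ∫⁻ θ : HPar P, ∫⁻ x, φ x * wgt Φ f₀ tw t S i θ x *
        absd (uG Φ f₀ ε ((childT Φ ε Sk S i θ).shift x) θ.1)
          (dampG T f ((childT0 Φ S i θ).shift x) θ.1) := by
  have hm := fun i => measurable_wgt_absd hβ hT hΦ hf hf₀ hS hSk hε htw ht i P
  have hmi : ∀ i, Measurable fun x : Space3 => φ x * ∫⁻ θ : HPar P, wgt Φ f₀ tw t S i θ x *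
      absd (uG Φ f₀ ε ((childT Φ ε Sk S i θ).shift x) θ.1)
        (dampG T f ((childT0 Φ S i θ).shift x) θ.1) := fun i =>
    hφ.mul (hm i).lintegral_prod_right'
  unfold dgain
  have e1 : ∀ x, φ x * ∑ i, ∫⁻ θ : HPar P, wgt Φ f₀ tw t S i θ x *
      absd (uG Φ f₀ ε ((childT Φ ε Sk S i θ).shift x) θ.1)
        (dampG T f ((childT0 Φ S i θ).shift x) θ.1) =
      ∑ i, φ x * ∫⁻ θ : HPar P, wgt Φ f₀ tw t S i θ x *
      absd (uG Φ f₀ ε ((childT Φ ε Sk S i θ).shift x) θ.1)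
        (dampG T f ((childT0 Φ S i θ).shift x) θ.1) := fun x => Finset.mul_sum _ _ _
  simp only [e1]
  rw [lintegral_finsetSum _ fun i _ => hmi i]
  refine Finset.sum_congr rfl fun i _ => ?_
  have hj : Measurable fun q : Space3 × HPar P => φ q.1 * wgt Φ f₀ tw t S i q.2 q.1 *
      absd (uG Φ f₀ ε ((childT Φ ε Sk S i q.2).shift q.1) q.2.1)
        (dampG T f ((childT0 Φ S i q.2).shift q.1) q.2.1) := by
    have h0 : Measurable fun q : Space3 × HPar P => φ q.1 * (wgt Φ f₀ tw t S i q.2 q.1 *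
      absd (uG Φ f₀ ε ((childT Φ ε Sk S i q.2).shift q.1) q.2.1)
        (dampG T f ((childT0 Φ S i q.2).shift q.1) q.2.1)) :=
      (hφ.comp measurable_fst).mul (hm i)
    simpa only [mul_assoc] using h0
  rw [lintegral_lintegral_swap
    (f := fun (θ : HPar P) (x : Space3) => φ x * wgt Φ f₀ tw t S i θ x *
      absd (uG Φ f₀ ε ((childT Φ ε Sk S i θ).shift x) θ.1)
        (dampG T f ((childT0 Φ S i θ).shift x) θ.1)) (hj.comp measurable_swap).aemeasurable]
  refine lintegral_congr fun x => ?_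
  have hx : Measurable fun θ : HPar P => wgt Φ f₀ tw t S i θ x *
      absd (uG Φ f₀ ε ((childT Φ ε Sk S i θ).shift x) θ.1)
        (dampG T f ((childT0 Φ S i θ).shift x) θ.1) :=
    (hm i).comp (measurable_prodMk_left (x := x))
  rw [← lintegral_const_mul _ hx]
  exact lintegral_congr fun θ => (mul_assoc _ _ _).symm

/-! ### The step -/

section step

variable (hD : KData Φ β T f₀ f) {εk : ℕ → ℝ} (hε0 : ∀ k, 0 < εk k)
  (hlim : Tendsto εk atTop (𝓝 0)) {l tw t' : ℝ} (htw : 0 ≤ tw) (htT : t' ≤ T)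
  (hG : GIV Φ f₀ f T tw) (hF : FluxStep Φ f₀ T tw t')

/-- the states of the children -/
def chT (Φ : Space3 → ℝ) (f₀ : PhasePoint → ℝ) (f : ℝ → PhasePoint → ℝ) (T : ℝ) (εk : ℕ → ℝ)
    (l tw : ℝ) [Fintype κ] (Sk : ℕ → Tubes κ) (S : Tubes κ) (j : CTree × κ) (θ : HPar j.1) :
    St Space3 :=
  stT Φ f₀ f T εk l tw (fun k => childT Φ (εk k) (Sk k) S j.2 θ) (childT0 Φ S j.2 θ) θ.1

theorem chT_err [Fintype κ] (Sk : ℕ → Tubes κ) (S : Tubes κ) (P : CTree) (i : κ) (θ : HPar P)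
    (ψ : Space3 → ℝ≥0∞) (k : ℕ) :
    (chT Φ f₀ f T εk l tw Sk S (P, i) θ).err volume ψ k = ∫⁻ x, ψ x *
      absd (uG Φ f₀ (εk k) ((childT Φ (εk k) (Sk k) S i θ).shift x) θ.1)
        (dampG T f ((childT0 Φ S i θ).shift x) θ.1) := rfl

theorem exists_delta {C δ : ℝ≥0∞} (hC : C ≠ ∞) (hδ : 0 < δ) (hδ' : δ ≠ ∞) :
    ∃ r : ℝ, 0 < r ∧ C * ENNReal.ofReal r ≤ δ := by
  have hC1 : C + 1 ≠ 0 := by simp
  have hC2 : C + 1 ≠ ∞ := ENNReal.add_ne_top.2 ⟨hC, by simp⟩
  have h1 : δ / (C + 1) ≠ ∞ := ENNReal.div_ne_top hδ' hC1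
  have h2 : 0 < δ / (C + 1) := ENNReal.div_pos hδ.ne' hC2
  refine ⟨(δ / (C + 1)).toReal, ENNReal.toReal_pos h2.ne' h1, ?_⟩
  rw [ENNReal.ofReal_toReal h1]
  calc C * (δ / (C + 1)) ≤ (C + 1) * (δ / (C + 1)) := by gcongr; exact le_self_add
    _ = δ := ENNReal.mul_div_cancel hC1 hC2

include hD hε0 hlim htw htT hG hF

theorem step_limsup [Fintype κ] {Sk : ℕ → Tubes κ} {S : Tubes κ} (hc : TubeConv T Sk S)
    (hg : Generic T S) {t : ℝ} (ht : t ∈ Icc tw t') {φ : Space3 → ℝ≥0∞} (hφ : φ ∈ TFn)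
    {δ : ℝ≥0∞} (hδ : 0 < δ) (hδ' : δ ≠ ∞) :
    ∃ K : ℕ, limsup (fun k => (stT Φ f₀ f T εk l tw Sk S t).err volume φ k) atTop ≤
      δ + limsup (fun k => ∑ j ∈ trees K ×ˢ (Finset.univ : Finset κ), ∫⁻ θ : HPar j.1,
        (chT Φ f₀ f T εk l tw Sk S j θ).err volume
          (fun x => φ x * wgt Φ f₀ tw t S j.2 θ x) k) atTop := by
  have hβ := hD.beta_pos
  have hT := hD.T_pos
  have hΦ := hD.adm
  have hf := hD.sol
  have hfm : Measurable f₀ := hD.contDiff.continuous.measurable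
  have htT' : t ≤ T := ht.2.trans htT
  obtain ⟨hφm, C, R, hC, h1, h2⟩ := id hφ
  obtain ⟨M, hlipk, hlip⟩ := hc.lip
  have hδ2 : 0 < δ / 2 := ENNReal.div_pos hδ.ne' (by simp)
  have hδ2' : δ / 2 ≠ ∞ := ENNReal.div_ne_top hδ' (by simp)
  obtain ⟨K₁, hK₁⟩ := rest_small hβ hT hΦ hf hlip htw ht.1 htT' hφ hδ2
  obtain ⟨r, hr, hCr⟩ := exists_delta hC hδ2 hδ2'
  obtain ⟨K₀, hK₀⟩ := hF κ Sk S εk hε0 hlim hc hg t ht R r hr
  set K := max K₀ K₁ with hK
  have hX := hK₀ K (le_max_left _ _)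
  have hρ := hK₁ K (le_max_right _ _)
  have hY := hG κ Sk S εk hε0 hlim hc hg R
  refine ⟨K, ?_⟩
  have hmw : Measurable fun x : Space3 => dampG T f (S.shift x) tw :=
    measurable_dampG_fix hT.le hf hlip (ht.1.trans htT')
  have hmr : Measurable fun x : Space3 => φ x * rest Φ f₀ f T tw t S K x :=
    hφm.mul (measurable_rest hβ hT hΦ hf hlip htw htT' K)
  have hev : ∀ᶠ k in atTop, (stT Φ f₀ f T εk l tw Sk S t).err volume φ k ≤
      C * (∫⁻ x in Metric.closedBall (0 : Space3) R,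
        adiff (uG Φ f₀ (εk k) ((Sk k).shift x) t +
          ∑ P ∈ trees K, gain Φ f₀ (εk k) tw t (Sk k) S P x)
          (uG Φ f₀ (εk k) ((Sk k).shift x) tw)) +
      (C * (∫⁻ x in Metric.closedBall (0 : Space3) R,
          adiff (uG Φ f₀ (εk k) ((Sk k).shift x) tw) (dampG T f (S.shift x) tw)) +
      ((∑ j ∈ trees K ×ˢ (Finset.univ : Finset κ), ∫⁻ θ : HPar j.1,
        (chT Φ f₀ f T εk l tw Sk S j θ).err volume
          (fun x => φ x * wgt Φ f₀ tw t S j.2 θ x) k) + δ / 2)) := by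
    filter_upwards [hlipk] with k hk
    have hSk : ∀ i, ContinuousOn ((Sk k).c i) (Icc 0 T) := fun i => (hk i).continuousOn
    have hmu : Measurable fun x : Space3 => uG Φ f₀ (εk k) ((Sk k).shift x) tw :=
      measurable_uG_shift hfm hΦ (hε0 k) hT.le hSk (ht.1.trans htT')
    have hmY : Measurable fun x : Space3 => φ x *
        absd (uG Φ f₀ (εk k) ((Sk k).shift x) tw) (dampG T f (S.shift x) tw) :=
      hφm.mul (measurable_absd hmu hmw)
    have hmd : ∀ P, Measurable fun x : Space3 =>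
        φ x * dgain Φ f₀ f T (εk k) tw t (Sk k) S P x := by
      intro P
      refine hφm.mul ?_
      unfold dgain
      refine Finset.measurable_sum _ fun i _ => ?_
      exact (measurable_wgt_absd hβ hT hΦ hf hfm hlip hSk (hε0 k) htw htT' i P).lintegral_prod_right'
    have e2 : ∑ j ∈ trees K ×ˢ (Finset.univ : Finset κ), ∫⁻ θ : HPar j.1,
        (chT Φ f₀ f T εk l tw Sk S j θ).err volume
          (fun x => φ x * wgt Φ f₀ tw t S j.2 θ x) k =
        ∫⁻ x, ∑ P ∈ trees K, φ x * dgain Φ f₀ f T (εk k) tw t (Sk k) S P x := by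
      rw [lintegral_finsetSum _ fun P _ => hmd P, Finset.sum_product]
      refine Finset.sum_congr rfl fun P _ => ?_
      rw [lintegral_dgain hβ hT hΦ hf hfm hlip hSk (hε0 k) htw htT' P hφm]
      rfl
    have hms : Measurable fun x : Space3 =>
        ∑ P ∈ trees K, φ x * dgain Φ f₀ f T (εk k) tw t (Sk k) S P x :=
      Finset.measurable_sum _ fun P _ => hmd P
    calc (stT Φ f₀ f T εk l tw Sk S t).err volume φ k
        = ∫⁻ x, φ x * absd (uG Φ f₀ (εk k) ((Sk k).shift x) t) (dampG T f (S.shift x) t) := rfl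
      _ ≤ ∫⁻ x, (φ x * absd (uG Φ f₀ (εk k) ((Sk k).shift x) t +
            ∑ P ∈ trees K, gain Φ f₀ (εk k) tw t (Sk k) S P x)
            (uG Φ f₀ (εk k) ((Sk k).shift x) tw) +
          (φ x * absd (uG Φ f₀ (εk k) ((Sk k).shift x) tw) (dampG T f (S.shift x) tw) +
          ((∑ P ∈ trees K, φ x * dgain Φ f₀ f T (εk k) tw t (Sk k) S P x) +
            φ x * rest Φ f₀ f T tw t S K x))) := by
          refine lintegral_mono fun x => ?_
          have hgk : ∑ P ∈ trees K, gain Φ f₀ (εk k) tw t (Sk k) S P x ≠ ∞ :=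
            (ENNReal.sum_lt_top.2 fun P _ => (gain_ne_top hD hlip htw htT' P x).lt_top).ne
          have hds := dampStep hβ hT hΦ hf κ S M hlip tw t htw ht.1 htT' x
          rw [← sum_add_rest S K x] at hds
          have hg0 : ∑ P ∈ trees K, gain0 Φ f₀ f T tw t S P x ≠ ∞ := by
            refine ne_top_of_le_ne_top ENNReal.one_ne_top (le_trans ?_ (dampG_le_one (T := T)
              (f := f) (S.shift x) (t := tw)))
            rw [← hds]
            exact le_trans le_self_add le_add_self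
          have h3 := absd_main (a := uG Φ f₀ (εk k) ((Sk k).shift x) t)
            (aw := uG Φ f₀ (εk k) ((Sk k).shift x) tw) hgk hg0 hds
          have h4 : absd (∑ P ∈ trees K, gain Φ f₀ (εk k) tw t (Sk k) S P x)
              (∑ P ∈ trees K, gain0 Φ f₀ f T tw t S P x) ≤
              ∑ P ∈ trees K, dgain Φ f₀ f T (εk k) tw t (Sk k) S P x :=
            (absd_sum_le _ _ _).trans (Finset.sum_le_sum fun P _ =>
              absd_gain_le hβ hT hΦ hf hfm hlip hSk (hε0 k) htw htT' P x)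
          refine (mul_le_mul' le_rfl h3).trans ?_
          rw [mul_add, mul_add, mul_add, ← Finset.mul_sum]
          gcongr
      _ = (∫⁻ x, φ x * absd (uG Φ f₀ (εk k) ((Sk k).shift x) t +
            ∑ P ∈ trees K, gain Φ f₀ (εk k) tw t (Sk k) S P x)
            (uG Φ f₀ (εk k) ((Sk k).shift x) tw)) +
          ((∫⁻ x, φ x * absd (uG Φ f₀ (εk k) ((Sk k).shift x) tw) (dampG T f (S.shift x) tw)) +
          ((∫⁻ x, ∑ P ∈ trees K, φ x * dgain Φ f₀ f T (εk k) tw t (Sk k) S P x) +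
            ∫⁻ x, φ x * rest Φ f₀ f T tw t S K x)) := by
          have hm3 : Measurable fun x : Space3 =>
              (φ x * absd (uG Φ f₀ (εk k) ((Sk k).shift x) tw) (dampG T f (S.shift x) tw) +
              ((∑ P ∈ trees K, φ x * dgain Φ f₀ f T (εk k) tw t (Sk k) S P x) +
                φ x * rest Φ f₀ f T tw t S K x)) := hmY.add (hms.add hmr)
          rw [lintegral_add_right _ hm3, lintegral_add_left hmY, lintegral_add_left hms]
      _ ≤ _ := by
          rw [e2]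
          refine add_le_add (lintegral_test_le hC h1 h2 _) (add_le_add
            (lintegral_test_le hC h1 h2 _) (add_le_add le_rfl hρ))
  refine (limsup_le_limsup hev).trans ?_
  refine (limsup_add_le_enn _ _).trans ?_
  have a1 : limsup (fun k => C * ∫⁻ x in Metric.closedBall (0 : Space3) R,
        adiff (uG Φ f₀ (εk k) ((Sk k).shift x) t +
          ∑ P ∈ trees K, gain Φ f₀ (εk k) tw t (Sk k) S P x)
          (uG Φ f₀ (εk k) ((Sk k).shift x) tw)) atTop ≤ δ / 2 := by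
    rw [ENNReal.limsup_const_mul_of_ne_top hC]
    exact (mul_le_mul' le_rfl hX).trans hCr
  have a2 : limsup (fun k => C * ∫⁻ x in Metric.closedBall (0 : Space3) R,
      adiff (uG Φ f₀ (εk k) ((Sk k).shift x) tw) (dampG T f (S.shift x) tw)) atTop = 0 := by
    rw [ENNReal.limsup_const_mul_of_ne_top hC, hY.limsup_eq, mul_zero]
  refine (add_le_add a1 (limsup_add_le_enn _ _)).trans ?_
  rw [a2, zero_add]
  refine (add_le_add le_rfl (limsup_add_le_enn _ _)).trans ?_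
  rw [limsup_const]
  refine le_of_eq ?_
  rw [add_comm (limsup _ _) (δ / 2), ← add_assoc, ENNReal.add_halves]

end step

/-- the contraction inequality, as a hypothesis of the step -/
def ContrHyp (Φ : Space3 → ℝ) (f₀ : PhasePoint → ℝ) (f : ℝ → PhasePoint → ℝ) (T l tw t' : ℝ) :
    Prop :=
  ∀ t ∈ Icc tw t', ∀ (ι : Type) [Fintype ι] (S : Tubes ι) (M : ℝ≥0),
    (∀ i, LipschitzOnWith M (S.c i) (Icc 0 T)) → ∀ φ : Space3 → ℝ≥0∞, Measurable φ →
    ∀ Ps : Finset CTree,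
    ∑ P ∈ Ps, ∑ i, ∫⁻ θ : HPar P, Awt l (childT0 Φ S i θ) tw θ.1 *
      ∫⁻ x, φ x * wgt Φ f₀ tw t S i θ x * dampG T f ((childT0 Φ S i θ).shift x) tw ≤
    2⁻¹ * (Awt l S tw t * ∫⁻ x, φ x * dampG T f (S.shift x) tw)

theorem step_stT (hD : KData Φ β T f₀ f) {εk : ℕ → ℝ} (hε0 : ∀ k, 0 < εk k)
    (hlim : Tendsto εk atTop (𝓝 0)) {l tw t' : ℝ} (htw : 0 ≤ tw) (htT : t' ≤ T)
    (hG : GIV Φ f₀ f T tw) (hF : FluxStep Φ f₀ T tw t') (hC : ContrHyp Φ f₀ f T l tw t')
    {c : St Space3} (hcc : c ∈ CC Φ f₀ f T εk l tw t') {φ : Space3 → ℝ≥0∞} (hφ : φ ∈ TFn)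
    {δ : ℝ≥0∞} (hδ : 0 < δ) (hδ' : δ ≠ ∞) :
    Nonempty (StepJ volume (CC Φ f₀ f T εk l tw t') TFn 2⁻¹ c φ δ) := by
  obtain ⟨κ, _, Sk, S, t, ht, hc, hg, hu, hU, hUw, hA⟩ := hcc
  obtain ⟨K, hK⟩ := step_limsup (l := l) hD hε0 hlim htw htT hG hF hc hg ht hφ hδ hδ'
  have hβ := hD.beta_pos
  have hT := hD.T_pos
  have hΦ := hD.adm
  have hf := hD.sol
  have hfm : Measurable f₀ := hD.contDiff.continuous.measurable
  have hf1 : ∫⁻ z, ENNReal.ofReal (f₀ z) ≤ 1 :=
    (FM167.lintegral_density_eq_one hD.nonneg hD.integrable hD.mass).le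
  have htT' : t ≤ T := ht.2.trans htT
  obtain ⟨hφm, C, R, hCt, h1, h2⟩ := id hφ
  obtain ⟨M, hlipk, hlip⟩ := hc.lip
  choose D hDm hDf hDle using exists_dom hD hlip htw htT'
  refine ⟨{
    J := CTree × κ
    s := trees K ×ˢ Finset.univ
    Θ := fun j => HPar j.1
    mΘ := fun j => inferInstance
    ν := fun j => volume
    w := fun j θ x => wgt Φ f₀ tw t S j.2 θ x
    ch := fun j θ => chT Φ f₀ f T εk l tw Sk S j θ
    good := ?_
    meas := ?_
    dom := fun j θ => (C * (2 * volume (Metric.closedBall (0 : Space3) R))) * D j.1 θ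
    dom_fin := ?_
    le_dom := ?_
    step := ?_
    contr := ?_ }⟩
  · rintro ⟨P, i⟩ -
    have hCh := TubeChild491.childConv hΦ T κ Sk S εk hε0 hlim hc hg i P
    have hfin : ∀ᵐ θ : HPar P, D P θ < ∞ := ae_lt_top (hDm P) (hDf P)
    filter_upwards [hCh, hfin, hDle P i, ae_time_ne P T] with θ a1 a2 a3 a4
    by_cases hgood : HGood Φ tw t S i θ
    swap
    · exact Or.inl fun x => wgt_of_not hgood x
    refine Or.inr ⟨?_, ?_⟩
    · have hb := hgood.1
      have hθ : θ.1 ∈ Ioo 0 T :=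
        ⟨lt_of_le_of_lt htw hb.1, lt_of_le_of_ne (hb.2.trans htT') a4⟩
      obtain ⟨Ck, e1, e2, e3⟩ := a1 hθ hgood.2.1 hgood.2.2.1 hgood.2.2.2
      refine ⟨κ ⊕ Idx P, inferInstance, Ck, childT0 Φ S i θ, θ.1, ⟨hb.1.le, hb.2.trans ht.2⟩,
        e2, e3, ?_, rfl, rfl, rfl⟩
      filter_upwards [e1] with k hk
      show (fun x => uG Φ f₀ (εk k) ((childT Φ (εk k) (Sk k) S i θ).shift x) θ.1) =
        fun x => uG Φ f₀ (εk k) ((Ck k).shift x) θ.1
      rw [hk]
    · refine ⟨?_, C * D P θ, R, ENNReal.mul_ne_top hCt a2.ne, fun x => ?_, fun x hx => ?_⟩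
      · exact hφm.mul ((measurable_wgt hΦ hfm hT.le htw htT' (hlip i).continuousOn P).comp
          (measurable_prodMk_right (y := θ)))
      · exact mul_le_mul' (h1 x) (a3 x)
      · show φ x * wgt Φ f₀ tw t S i θ x = 0
        rw [h2 x hx, zero_mul]
  · rintro ⟨P, i⟩ -
    filter_upwards [hlipk] with k hk
    have hm := measurable_wgt_absd hβ hT hΦ hf hfm hlip (fun i => (hk i).continuousOn) (hε0 k)
      htw htT' i P
    have h0 : Measurable fun q : Space3 × HPar P => φ q.1 * (wgt Φ f₀ tw t S i q.2 q.1 *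
      absd (uG Φ f₀ (εk k) ((childT Φ (εk k) (Sk k) S i q.2).shift q.1) q.2.1)
        (dampG T f ((childT0 Φ S i q.2).shift q.1) q.2.1)) :=
      (hφm.comp measurable_fst).mul hm
    have h3 : Measurable fun θ : HPar P => ∫⁻ x : Space3, φ x * (wgt Φ f₀ tw t S i θ x *
      absd (uG Φ f₀ (εk k) ((childT Φ (εk k) (Sk k) S i θ).shift x) θ.1)
        (dampG T f ((childT0 Φ S i θ).shift x) θ.1)) := h0.lintegral_prod_left'
    have e : (fun θ : HPar P => (chT Φ f₀ f T εk l tw Sk S (P, i) θ).err volume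
        (fun x => φ x * wgt Φ f₀ tw t S i θ x) k) = fun θ : HPar P => ∫⁻ x : Space3,
        φ x * (wgt Φ f₀ tw t S i θ x *
      absd (uG Φ f₀ (εk k) ((childT Φ (εk k) (Sk k) S i θ).shift x) θ.1)
        (dampG T f ((childT0 Φ S i θ).shift x) θ.1)) := by
      funext θ
      rw [chT_err]
      exact lintegral_congr fun x => mul_assoc _ _ _
    show AEMeasurable (fun θ : HPar P => (chT Φ f₀ f T εk l tw Sk S (P, i) θ).err volume
        (fun x => φ x * wgt Φ f₀ tw t S i θ x) k) volume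
    rw [e]
    exact h3.aemeasurable
  · rintro ⟨P, i⟩ -
    show ∫⁻ θ, (C * (2 * volume (Metric.closedBall (0 : Space3) R))) * D P θ ≠ ∞
    have hne : C * (2 * volume (Metric.closedBall (0 : Space3) R)) ≠ ∞ :=
      ENNReal.mul_ne_top hCt (ENNReal.mul_ne_top (by simp) measure_closedBall_lt_top.ne)
    rw [lintegral_const_mul' _ _ hne]
    exact ENNReal.mul_ne_top hne (hDf P)
  · rintro ⟨P, i⟩ -
    refine Eventually.of_forall fun k => ?_
    have hfin : ∀ᵐ θ : HPar P, D P θ < ∞ := ae_lt_top (hDm P) (hDf P)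
    filter_upwards [hDle P i, hfin] with θ a1 a2
    rw [chT_err]
    calc ∫⁻ x, φ x * wgt Φ f₀ tw t S i θ x *
          absd (uG Φ f₀ (εk k) ((childT Φ (εk k) (Sk k) S i θ).shift x) θ.1)
            (dampG T f ((childT0 Φ S i θ).shift x) θ.1)
        ≤ ∫⁻ x, φ x * (D P θ * 2) := by
          refine lintegral_mono fun x => ?_
          rw [mul_assoc]
          exact mul_le_mul' le_rfl (mul_le_mul' (a1 x)
            (absd_le_two (uG_le_one hfm hf1) (dampG_le_one _)))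
      _ ≤ C * ∫⁻ _x in Metric.closedBall (0 : Space3) R, D P θ * 2 :=
          lintegral_test_le hCt h1 h2 _
      _ = (C * (2 * volume (Metric.closedBall (0 : Space3) R))) * D P θ := by
          rw [setLIntegral_const]; ring
  · rw [limsup_err_congr hu hU]
    exact hK
  · rw [hA, hUw, Finset.sum_product]
    exact hC t ht κ S M hlip φ hφm (trees K)

/-- **The window step of the ghost avoidance identification.** -/
theorem giv_window (hD : KData Φ β T f₀ f) : ∃ h : ℝ, 0 < h ∧ ∀ tw t' : ℝ, 0 ≤ tw → tw ≤ t' →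
    t' ≤ T → t' ≤ tw + h → FluxStep Φ f₀ T tw t' → GIV Φ f₀ f T tw → GIV Φ f₀ f T t' := by
  obtain ⟨h, l, hh, hl, hcontr⟩ := contraction hD.beta_pos hD.T_pos hD.adm hD.sol
  refine ⟨h, hh, fun tw t' htw hle htT hsh hF hG => ?_⟩
  intro ι _ Sk S εk hε0 hlim hc hg R
  have hC : ContrHyp Φ f₀ f T l tw t' := fun t ht =>
    hcontr tw ⟨htw, hle.trans htT⟩ t (ht.2.trans hsh) (ht.2.trans htT)
  have hcm : stT Φ f₀ f T εk l tw Sk S t' ∈ CC Φ f₀ f T εk l tw t' :=
    ⟨ι, inferInstance, Sk, S, t', ⟨hle, le_rfl⟩, hc, hg, Eventually.of_forall fun _ => rfl,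
      rfl, rfl, rfl⟩
  have hB : MeasurableSet (Metric.closedBall (0 : Space3) R) :=
    Metric.isClosed_closedBall.measurableSet
  have hφ : (Metric.closedBall (0 : Space3) R).indicator (1 : Space3 → ℝ≥0∞) ∈ TFn := by
    refine ⟨measurable_one.indicator hB, 1, R, by simp, fun x => ?_, fun x hx =>
      indicator_of_notMem hx _⟩
    exact indicator_le_self' (fun _ _ => zero_le) x
  have key := tendsto_errJ (μ := volume) (𝒞 := CC Φ f₀ f T εk l tw t') (𝒯 := TFn) (th := 2⁻¹)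
    (ENNReal.inv_lt_one.2 (by norm_num)) ?_ ?_ ?_ hcm hφ
  · refine key.congr fun k => ?_
    rw [← lintegral_indicator hB]
    unfold St.err
    refine lintegral_congr fun x => ?_
    by_cases hx : x ∈ Metric.closedBall (0 : Space3) R
    · rw [indicator_of_mem hx, indicator_of_mem hx, Pi.one_apply, one_mul]
      rfl
    · rw [indicator_of_notMem hx, indicator_of_notMem hx, zero_mul]
  · rintro c ⟨κ, _, Sk', S', t, ht, hc', hg', hu, hU, hUw, hA⟩ φ hφ'
    rw [limsup_err_congr hu hU, hUw, hA]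
    exact base_stT hD hε0 hlim hl.le htT hG hc' hg' ht hφ'
  · rintro c ⟨κ, _, Sk', S', t, ht, hc', hg', hu, hU, hUw, hA⟩ φ hφ'
    rw [hUw, hA]
    exact err_fin_stT (Sk := Sk') hφ'
  · intro c hcc φ hφ' δ hδ hδ'
    exact step_stT hD hε0 hlim htw htT hG hF hC hcc hφ' hδ hδ'

end Crest.Agent.R122.GIVStep383
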