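import Crest.Agent.R122.BoltzSeg2_814

/-!
Row 122 (helper383): exponential moments of the tree series with an energy weight on the initial
data (perturbed datum), and their window form.
-/

set_option autoImplicit false
set_option linter.unusedSectionVars false
set_option linter.unusedVariables false
open MeasureTheory ProbabilityTheory Set
open scoped ENNReal

noncomputable section

namespace Crest.Agent.R122.KinE383

open Kin796 Kin796.CTree

section main

variable {E : Type*} [NormedAddCommGroup E] [NormedSpace ℝ E] [MeasurableSpace E] [BorelSpace E]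
  [SecondCountableTopology E]
variable {κ : Kernel E (E × E)} [IsSFiniteKernel κ] {β T C0 C1 : ℝ} {D : ℝ → ℝ → E → E → ℝ≥0∞}
  {f : ℝ → E → E → ℝ≥0∞}

/-- exponential moment of the number of collisions, perturbed datum -/
theorem exp_moment_pert (hβ : 0 < β) (hT : 0 < T) (hC0 : 0 ≤ C0) (hC1 : 0 ≤ C1)
    (hκ : KernelBound κ β C1) (hD1 : ∀ s t x v, D s t x v ≤ 1) (hD : Meas4 D) (hf : Meas3 f)
    (hfb : ∀ t ∈ Icc 0 T, ∀ x v, f t x v ≤ ENNReal.ofReal C0 * wG (2 * β) v)
    (hmild : IsMild κ D T f) :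
    ∃ lam η₀ : ℝ, 1 < lam ∧ 0 < η₀ ∧ ∀ g : E → E → ℝ≥0∞, (Measurable fun p : E × E => g p.1 p.2) →
      (∀ x v, g x v ≤ f 0 x v + ENNReal.ofReal η₀ * wG (2 * β) v) → ∀ t ∈ Icc 0 T, ∀ x v,
      ∑' τ : CTree, ENNReal.ofReal lam ^ τ.size * F κ D g τ t x v ≤
        ENNReal.ofReal (C0 + 1) * wG β v := by
  have hf0 : Measurable fun p : E × E => f 0 p.1 p.2 :=
    hf.comp (f := fun p : E × E => ((0 : ℝ), p.1, p.2)) (by fun_prop)
  have hfb' : ∀ s ∈ Icc 0 T, ∀ x v, f s x v ≤
      ENNReal.ofReal C0 * wG (2 * β - β / T * s) v := by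
    intro s hs x v
    exact (hfb s hs x v).trans (mul_le_mul' le_rfl (wG_anti (rate_mem hβ hT hs).2 v))
  obtain ⟨μ, hμ, hpsi⟩ := exists_psi_le (β := β) (T := T)
    (ε := 1 / (8 * (2 * C0 + 1) * C1 + 1)) hβ hT (by positivity)
  have hpsi0 : 0 ≤ psi β T μ := psi_nonneg hμ
  have hpsi' : 2 * (2 * C0 + 1) * C1 * psi β T μ ≤ 1 / 4 := by
    have h2 : 2 * (2 * C0 + 1) * C1 * psi β T μ ≤
        2 * (2 * C0 + 1) * C1 * (1 / (8 * (2 * C0 + 1) * C1 + 1)) :=
      mul_le_mul_of_nonneg_left hpsi (by positivity)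
    refine h2.trans ?_
    rw [mul_one_div, div_le_div_iff₀ (by positivity) (by norm_num)]
    nlinarith [mul_nonneg hC0 hC1]
  set η : ℝ := Real.exp (-(μ * T)) with hη
  have hη0 : 0 < η := Real.exp_pos _
  have hη1 : η ≤ 1 := Real.exp_le_one_iff.2 (by have := mul_nonneg hμ.le hT.le; linarith)
  set δ : ℝ := min 1 (η / (4 * C0 ^ 2 * C1 * psi β T μ + 1)) with hδ
  have hδ0 : 0 < δ := lt_min one_pos (by positivity)
  have hδ1 : δ ≤ 1 := min_le_left _ _
  have hδ2 : δ * (C0 ^ 2 * C1 * psi β T μ) ≤ η / 4 := by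
    have h3 : δ ≤ η / (4 * C0 ^ 2 * C1 * psi β T μ + 1) := min_le_right _ _
    rw [le_div_iff₀ (by positivity)] at h3
    nlinarith
  refine ⟨1 + δ, η / 2, by linarith, by positivity, fun g hg hgb t ht x v => ?_⟩
  rw [tsum_eq_iSup κ hD hg]
  set H : ℝ → E → E → ℝ≥0∞ := fun t x v => f t x v + ENNReal.ofReal η * wT β T μ t v with hH
  have hHb : ∀ t ∈ Icc 0 T, ∀ x v, H t x v ≤ ENNReal.ofReal (C0 + 1) * wG β v := by
    intro t ht x v
    have h1 : ENNReal.ofReal η * wT β T μ t v ≤ ENNReal.ofReal 1 * wG β v := by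
      calc ENNReal.ofReal η * wT β T μ t v
          ≤ ENNReal.ofReal η * (ENNReal.ofReal (Real.exp (μ * T)) * wG β v) :=
            mul_le_mul' le_rfl (wT_le hβ hT hμ ht v)
        _ = ENNReal.ofReal 1 * wG β v := by
            rw [← mul_assoc, ← ENNReal.ofReal_mul hη0.le, hη, ← Real.exp_add]
            simp
    calc H t x v ≤ ENNReal.ofReal C0 * wG β v + ENNReal.ofReal 1 * wG β v :=
          add_le_add ((hfb t ht x v).trans (mul_le_mul' le_rfl (wG_anti (by linarith) v))) h1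
      _ = _ := by rw [← add_mul, ← ENNReal.ofReal_add hC0 zero_le_one]
  refine (iSup_le fun n => ?_).trans (hHb t ht x v)
  refine P_le_super κ (T := T) (fun t ht x v => ?_) n ht x v
  -- supersolution inequality
  set q1 : ℝ → E → E → ℝ≥0∞ := fun s y u => Q κ (f s y) (f s y) u with hq1
  have hq1m : Meas3 q1 := meas_Q κ hf hf
  set A : ℝ := δ * (C0 ^ 2 * C1) + 2 * ((2 * C0 + 1) * η * C1) with hA
  have hA0 : 0 ≤ A := by positivity
  -- pointwise bound of the source
  have hsrc : ∀ s ∈ Icc 0 T, ∀ y u, ENNReal.ofReal (1 + δ) * Q κ (H s y) (H s y) u ≤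
      q1 s y u + ENNReal.ofReal A * gB β T μ s u := by
    intro s hs y u
    have mf := meas_slice hD hf0 hf s y
    have hRm : Meas3 fun s (y : E) (u : E) => ENNReal.ofReal η * wT β T μ s u :=
      meas_mul3 measurable_const (meas_wT β T μ)
    have mR := meas_slice hD hf0 hRm s y
    set R : E → ℝ≥0∞ := fun w => ENNReal.ofReal η * wT β T μ s w with hRdef
    have hRb : ∀ w, R w ≤ ENNReal.ofReal (η * Real.exp (μ * s)) * wG (2 * β - β / T * s) w := by
      intro w
      rw [hRdef]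
      simp only
      rw [wT_eq, ENNReal.ofReal_mul hη0.le, mul_assoc]
    have hRb1 : ∀ w, R w ≤ ENNReal.ofReal 1 * wG (2 * β - β / T * s) w := by
      intro w
      refine (hRb w).trans (mul_le_mul' (ENNReal.ofReal_le_ofReal ?_) le_rfl)
      rw [hη, ← Real.exp_add]
      refine Real.exp_le_one_iff.2 ?_
      have := mul_le_mul_of_nonneg_left hs.2 hμ.le
      linarith
    have hexp : Q κ (H s y) (H s y) u = Q κ (f s y) (f s y) u +
        (Q κ (f s y) R u + (Q κ R (f s y) u + Q κ R R u)) := by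
      have e1 : Q κ (H s y) (H s y) u = Q κ (f s y) (H s y) u + Q κ R (H s y) u :=
        Q_add_left κ mf (mf.add mR) u
      have e2 : Q κ (f s y) (H s y) u = Q κ (f s y) (f s y) u + Q κ (f s y) R u :=
        Q_add_right κ mf mf u
      have e3 : Q κ R (H s y) u = Q κ R (f s y) u + Q κ R R u := Q_add_right κ mR mf u
      rw [e1, e2, e3, add_assoc]
    have b0 := (Q_bound hβ hT hC1 hκ μ hC0 hC0 hs 0 (mul_nonneg hμ.le hs.1) (hfb' s hs y)
      (k := f s y) (by simpa using hfb' s hs y) u).1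
    have b1 := Q_bound hβ hT hC1 hκ μ hC0 hη0.le hs (μ * s) le_rfl (hfb' s hs y) hRb u
    have b2 := (Q_bound hβ hT hC1 hκ μ zero_le_one hη0.le hs (μ * s) le_rfl hRb1 hRb u).1
    have hsum : Q κ (f s y) R u + (Q κ R (f s y) u + Q κ R R u) ≤
        ENNReal.ofReal ((2 * C0 + 1) * η * C1) * gB β T μ s u := by
      calc Q κ (f s y) R u + (Q κ R (f s y) u + Q κ R R u)
          ≤ ENNReal.ofReal (C0 * η * C1) * gB β T μ s u +
            (ENNReal.ofReal (C0 * η * C1) * gB β T μ s u +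
              ENNReal.ofReal (1 * η * C1) * gB β T μ s u) :=
            add_le_add b1.1 (add_le_add b1.2 b2)
        _ = _ := by
            rw [← add_mul, ← add_mul, ← ENNReal.ofReal_add (by positivity) (by positivity),
              ← ENNReal.ofReal_add (by positivity) (by positivity)]
            congr 2; ring
    calc ENNReal.ofReal (1 + δ) * Q κ (H s y) (H s y) u
        = q1 s y u + (ENNReal.ofReal δ * Q κ (f s y) (f s y) u + ENNReal.ofReal (1 + δ) *
          (Q κ (f s y) R u + (Q κ R (f s y) u + Q κ R R u))) := by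
          rw [hexp, mul_add, ENNReal.ofReal_add zero_le_one hδ0.le, ENNReal.ofReal_one]
          rw [add_mul 1, one_mul, hq1]
          ring
      _ ≤ q1 s y u + (ENNReal.ofReal δ * (ENNReal.ofReal (C0 * C0 * C1) * gB β T μ s u) +
          ENNReal.ofReal 2 * (ENNReal.ofReal ((2 * C0 + 1) * η * C1) * gB β T μ s u)) := by
          refine add_le_add le_rfl (add_le_add (mul_le_mul' le_rfl b0)
            (mul_le_mul' (ENNReal.ofReal_le_ofReal (by linarith)) hsum))
      _ = q1 s y u + ENNReal.ofReal A * gB β T μ s u := by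
          rw [← mul_assoc, ← mul_assoc, ← ENNReal.ofReal_mul hδ0.le,
            ← ENNReal.ofReal_mul (by norm_num : (0:ℝ) ≤ 2), ← add_mul,
            ← ENNReal.ofReal_add (by positivity) (by positivity)]
          congr 3
          rw [hA]; ring
  have hfin : η / 2 + A * psi β T μ ≤ η := by
    have e1 : A * psi β T μ = δ * (C0 ^ 2 * C1 * psi β T μ) +
        η * (2 * (2 * C0 + 1) * C1 * psi β T μ) := by rw [hA]; ring
    rw [e1]
    have e2 := mul_le_mul_of_nonneg_left hpsi' hη0.le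
    linarith
  have hgx : D 0 t x v * g (x - t • v) v ≤
      D 0 t x v * f 0 (x - t • v) v + ENNReal.ofReal (η / 2) * wT β T μ t v := by
    calc D 0 t x v * g (x - t • v) v
        ≤ D 0 t x v * (f 0 (x - t • v) v + ENNReal.ofReal (η / 2) * wG (2 * β) v) :=
          mul_le_mul' le_rfl (hgb _ _)
      _ = D 0 t x v * f 0 (x - t • v) v +
          D 0 t x v * (ENNReal.ofReal (η / 2) * wG (2 * β) v) := mul_add _ _ _
      _ ≤ D 0 t x v * f 0 (x - t • v) v + 1 * (ENNReal.ofReal (η / 2) * wT β T μ t v) :=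
          add_le_add le_rfl (mul_le_mul' (hD1 _ _ _ _) (mul_le_mul' le_rfl
            ((wG_anti (rate_mem hβ hT ht).2 v).trans (wG_le_wT hβ hT hμ ht v))))
      _ = _ := by rw [one_mul]
  calc D 0 t x v * g (x - t • v) v + ∫⁻ s in Ioc 0 t, D s t x v *
        (ENNReal.ofReal (1 + δ) * Q κ (H s (x - (t - s) • v)) (H s (x - (t - s) • v)) v)
      ≤ (D 0 t x v * f 0 (x - t • v) v + ENNReal.ofReal (η / 2) * wT β T μ t v) +
          ∫⁻ s in Ioc 0 t, (D s t x v * q1 s (x - (t - s) • v) v +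
          D s t x v * (ENNReal.ofReal A * gB β T μ s v)) := by
        refine add_le_add hgx (setLIntegral_mono' measurableSet_Ioc fun s hs => ?_)
        rw [← mul_add]
        exact mul_le_mul' le_rfl (hsrc s ⟨hs.1.le, hs.2.trans ht.2⟩ _ _)
    _ = (D 0 t x v * f 0 (x - t • v) v + ENNReal.ofReal (η / 2) * wT β T μ t v) +
          ((∫⁻ s in Ioc 0 t, D s t x v * q1 s (x - (t - s) • v) v) +
          ∫⁻ s in Ioc 0 t, D s t x v * (ENNReal.ofReal A * gB β T μ s v)) := by
        rw [lintegral_add_left (meas_integrand hD hf0 hq1m t x v)]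
    _ = f t x v + (ENNReal.ofReal (η / 2) * wT β T μ t v +
          ∫⁻ s in Ioc 0 t, D s t x v * (ENNReal.ofReal A * gB β T μ s v)) := by
        rw [hmild t ht x v]
        ring
    _ ≤ f t x v + (ENNReal.ofReal (η / 2) * wT β T μ t v +
          ENNReal.ofReal (A * psi β T μ) * wT β T μ t v) :=
        add_le_add le_rfl (add_le_add le_rfl (duh_bound hβ hT hμ hA0 hD1 (q := fun s y u =>
          ENNReal.ofReal A * gB β T μ s u) (fun s hs y u => le_rfl) ht x v))
    _ = f t x v + ENNReal.ofReal (η / 2 + A * psi β T μ) * wT β T μ t v := by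
        rw [← add_mul, ← ENNReal.ofReal_add (by positivity) (by positivity)]
    _ ≤ H t x v := add_le_add le_rfl (mul_le_mul' (ENNReal.ofReal_le_ofReal hfin) le_rfl)

end main

/-! ### Instance -/

section inst

open Crest.AnalysisR.Kinetic
open Crest.Agent.R122.Boltz814 Crest.Agent.R122.Kin416 Crest.Agent.R122.Seg814

variable {Φ : Space3 → ℝ} {β T : ℝ} {f₀ : PhasePoint → ℝ} {f : ℝ → PhasePoint → ℝ}

/-- energy weighted initial datum -/
def fW (T : ℝ) (f : ℝ → PhasePoint → ℝ) (κ : ℝ) (x v : Space3) : ℝ≥0∞ :=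
  ENNReal.ofReal (Real.exp (κ * ‖v‖ ^ 2)) * fE T f 0 x v

theorem meas_fW (hf : IsRegularKineticSolution Φ β T f₀ f) (κ : ℝ) :
    Measurable fun p : Space3 × Space3 => fW T f κ p.1 p.2 := by
  unfold fW
  refine Measurable.mul ?_ (meas_fE_zero hf)
  fun_prop

theorem exp_sub_one_mul_le {κ β ρ : ℝ} (hβ : 0 < β) (hκ0 : 0 ≤ κ) (hκ : κ ≤ β / 2) (hρ : 0 ≤ ρ) :
    Real.exp (κ * ρ) ≤ 1 + 2 * κ / β * Real.exp (β * ρ) := by
  have h1 : Real.exp (κ * ρ) - 1 ≤ κ * ρ * Real.exp (κ * ρ) := by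
    have h2 := Real.add_one_le_exp (-(κ * ρ))
    have h3 := Real.exp_pos (κ * ρ)
    have h4 : Real.exp (-(κ * ρ)) * Real.exp (κ * ρ) = 1 := by
      rw [← Real.exp_add]; simp
    nlinarith
  have h5 : β / 2 * ρ ≤ Real.exp ((β - κ) * ρ) := by
    have h6 := Real.add_one_le_exp ((β - κ) * ρ)
    nlinarith
  have h7 : Real.exp ((β - κ) * ρ) * Real.exp (κ * ρ) = Real.exp (β * ρ) := by
    rw [← Real.exp_add]; congr 1; ring
  have h8 : κ * ρ * Real.exp (κ * ρ) ≤ 2 * κ / β * Real.exp (β * ρ) := by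
    rw [← h7]
    have h9 := Real.exp_pos (κ * ρ)
    have e1 : κ * ρ = 2 * κ / β * (β / 2 * ρ) := by field_simp
    calc κ * ρ * Real.exp (κ * ρ) = 2 * κ / β * (β / 2 * ρ) * Real.exp (κ * ρ) := by rw [← e1]
      _ ≤ 2 * κ / β * Real.exp ((β - κ) * ρ) * Real.exp (κ * ρ) := by gcongr
      _ = _ := by ring
  linarith

/-- **Energy weighted window moment.** -/
theorem window_energy_moment (hβ : 0 < β) (hT : 0 < T) (hΦ : AdmissiblePotential Φ)
    (hf : IsRegularKineticSolution Φ β T f₀ f) :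
    ∃ h₀ lam κ C : ℝ, 0 < h₀ ∧ 1 < lam ∧ 0 < κ ∧ 0 ≤ C ∧
      ∀ tw ∈ Icc 0 T, ∀ t ∈ Icc 0 (tw + h₀), ∀ x v,
      ∑' τ : CTree, ENNReal.ofReal lam ^ τ.size *
        F (kapQ Φ) (Dwin (damp T f) tw) (fW T f κ) τ t x v ≤ ENNReal.ofReal C * wG (β / 4) v := by
  have S := Scat818.scatFacts hΦ
  obtain ⟨C0, hC0, hb⟩ := exists_bound hT hf
  have hβ2 : 0 < β / 2 := by positivity
  have hβ4 : 0 < β / 4 := by positivity
  have hfb : ∀ t ∈ Icc 0 T, ∀ x v, fE T f t x v ≤ ENNReal.ofReal C0 * wG (2 * (β / 2)) v :=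
    fun t _ x v => (hb t x v).trans (mul_le_mul' le_rfl (wG_anti (by linarith) v))
  obtain ⟨lam, η, hlam, hη, H⟩ := exp_moment_pert (κ := kapQ Φ) hβ2 hT hC0 (C1G_nonneg (β / 2))
    (kernelBound_kapQ S hβ2) damp_le_one (meas4_damp hf) (meas3_fE hf) hfb (isMild hβ hT hΦ hf)
  obtain ⟨h₀, hh₀, H2⟩ := exists_window_moment (κ := kapQ Φ) (β := β / 4) (C0 := C0 + 1)
    (C1 := C1G (β / 4)) hβ4 (by linarith) (C1G_nonneg _) (kernelBound_kapQ S hβ4) (lam := lam)
    (by linarith)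
  set κ : ℝ := min (β / 2) (β * η / (2 * (C0 + 1))) with hκ
  have hκ0 : 0 < κ := lt_min hβ2 (by positivity)
  have hκ1 : κ ≤ β / 2 := min_le_left _ _
  have hκ2 : C0 * (2 * κ / β) ≤ η := by
    have h1 : κ ≤ β * η / (2 * (C0 + 1)) := min_le_right _ _
    rw [le_div_iff₀ (by positivity)] at h1
    have h2 : C0 * (2 * κ / β) = (C0 * (2 * κ)) / β := by ring
    rw [h2, div_le_iff₀ hβ]
    nlinarith
  have hdat : ∀ x v, fW T f κ x v ≤ fE T f 0 x v + ENNReal.ofReal η * wG (2 * (β / 2)) v := by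
    intro x v
    have h1 := exp_sub_one_mul_le hβ hκ0.le hκ1 (sq_nonneg ‖v‖)
    unfold fW
    calc ENNReal.ofReal (Real.exp (κ * ‖v‖ ^ 2)) * fE T f 0 x v
        ≤ ENNReal.ofReal (1 + 2 * κ / β * Real.exp (β * ‖v‖ ^ 2)) * fE T f 0 x v :=
          mul_le_mul' (ENNReal.ofReal_le_ofReal h1) le_rfl
      _ = fE T f 0 x v + ENNReal.ofReal (2 * κ / β * Real.exp (β * ‖v‖ ^ 2)) * fE T f 0 x v := by
          rw [ENNReal.ofReal_add zero_le_one (by positivity), ENNReal.ofReal_one, add_mul, one_mul]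
      _ ≤ fE T f 0 x v + ENNReal.ofReal (2 * κ / β * Real.exp (β * ‖v‖ ^ 2)) *
          (ENNReal.ofReal C0 * wG (2 * β) v) :=
          add_le_add le_rfl (mul_le_mul' le_rfl (hb 0 x v))
      _ ≤ _ := by
          refine add_le_add le_rfl ?_
          unfold wG
          rw [← ENNReal.ofReal_mul hC0, ← ENNReal.ofReal_mul (by positivity),
            ← ENNReal.ofReal_mul hη.le]
          refine ENNReal.ofReal_le_ofReal ?_
          have e1 : Real.exp (β * ‖v‖ ^ 2) * Real.exp (-(2 * β * ‖v‖ ^ 2)) =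
              Real.exp (-(2 * (β / 2) * ‖v‖ ^ 2)) := by
            rw [← Real.exp_add]; congr 1; ring
          calc 2 * κ / β * Real.exp (β * ‖v‖ ^ 2) * (C0 * Real.exp (-(2 * β * ‖v‖ ^ 2)))
              = C0 * (2 * κ / β) * (Real.exp (β * ‖v‖ ^ 2) * Real.exp (-(2 * β * ‖v‖ ^ 2))) := by
                ring
            _ ≤ η * Real.exp (-(2 * (β / 2) * ‖v‖ ^ 2)) := by
                rw [e1]
                exact mul_le_mul_of_nonneg_right hκ2 (Real.exp_pos _).le
  refine ⟨h₀, lam, κ, 6 * (C0 + 1), hh₀, hlam, hκ0, by positivity, fun tw htw t ht x v => ?_⟩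
  refine H2 damp_le_one (meas4_damp hf) (meas_fW hf κ) (fun t ht x v => ?_) tw htw t ht x v
  rw [show 2 * (β / 4) = β / 2 by ring]
  exact H (fW T f κ) (meas_fW hf κ) hdat t ht x v

/-- smaller weights -/
theorem fW_mono {κ κ' : ℝ} (h : κ' ≤ κ) (x v : Space3) : fW T f κ' x v ≤ fW T f κ x v := by
  unfold fW
  refine mul_le_mul' (ENNReal.ofReal_le_ofReal (Real.exp_le_exp.2 ?_)) le_rfl
  exact mul_le_mul_of_nonneg_right h (sq_nonneg _)

end inst

end Crest.Agent.R122.KinE383
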