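import Crest.Agent.R122.GIVDamp_383
import Crest.Agent.R122.KinE_383

/-!
# Row 122, block F (helper383): (I4), the contraction inequality of the window step

The weight of a family is `Awt l S tw t = exp (l * ∫_{tw}^t ∑_i 1[u < b_i] (1 + |c_i'(u)|) du)`.
`contraction`: for a short window the integral over the children of their weight times their
damping up to `tw` is at most one half of the weight of the family times its damping up to `tw`.
-/

set_option autoImplicit false
open MeasureTheory Set Filter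
open scoped Classical ENNReal Topology NNReal
open Crest.AnalysisR.Kinetic
open Crest.Agent.R122.GC311 Crest.Agent.R122.Causal291 Crest.Agent.R122.Master566
open Crest.Agent.R122.GIV566 Crest.Agent.R122.Kin796 Crest.Agent.R122.Disc416
open Crest.Agent.R122.Tree674 Crest.Agent.R122.TreeEps399 Crest.Agent.R122.Hid424
open Crest.Agent.R122.Boltz814 (nuF fE damp exists_nuF_le measurable_nuF fE_of_mem gaussMoment
  gaussMoment_nonneg lintegral_norm_sub_mul_gauss_le)
open Crest.Agent.R122.Kin416 (kapQ)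
open Crest.Agent.R122.KinE383
noncomputable section

namespace Crest.Agent.R122.GIVStep383

open CTree

variable {Φ : Space3 → ℝ} {ι : Type} {β T : ℝ} {f₀ : PhasePoint → ℝ} {f : ℝ → PhasePoint → ℝ}

/-! ### The weight of a family -/

/-- growth exponent -/
def Gx [Fintype ι] (S : Tubes ι) (tw t : ℝ) : ℝ≥0∞ := Prim383.R (rateT aV S) tw t

/-- weight of a family -/
def Awt [Fintype ι] (l : ℝ) (S : Tubes ι) (tw t : ℝ) : ℝ≥0∞ :=
  ENNReal.ofReal (Real.exp (l * (Gx S tw t).toReal))

theorem Gx_ne_top [Fintype ι] {S : Tubes ι} {M : ℝ≥0}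
    (hS : ∀ i, LipschitzOnWith M (S.c i) (Icc 0 T)) {tw t : ℝ} (htw : 0 ≤ tw) (ht : t ≤ T) :
    Gx S tw t ≠ ∞ :=
  lintegral_rateT_ne_top (L := 1) zero_le_one (fun t x v => by rw [one_mul]; rfl) hS htw ht

theorem Awt_ne_top [Fintype ι] {l : ℝ} {S : Tubes ι} {tw t : ℝ} : Awt l S tw t ≠ ∞ :=
  ENNReal.ofReal_ne_top

theorem one_le_Awt [Fintype ι] {l : ℝ} (hl : 0 ≤ l) {S : Tubes ι} {tw t : ℝ} :
    1 ≤ Awt l S tw t := by
  unfold Awt
  rw [← ENNReal.ofReal_one]
  exact ENNReal.ofReal_le_ofReal (Real.one_le_exp (mul_nonneg hl ENNReal.toReal_nonneg))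

theorem lintegral_rateT_aV_tree (hΦ : AdmissiblePotential Φ) {P : CTree} {s : ℝ} {ℓ : PhasePoint}
    {p : Par P} (hV : Valid Φ 0 P s ℓ.2 p) {tw h : ℝ} (hs : s ≤ tw + h) (hh : 0 ≤ h) :
    ∫⁻ u in Ioc tw s, rateT aV (treeT0 Φ P s ℓ p) u ≤
      ENNReal.ofReal (h * (2 * P.leaves + (‖ℓ.2‖ ^ 2 + Tube818.wSq P p))) := by
  have hE : 0 ≤ 2 * (P.leaves : ℝ) + (‖ℓ.2‖ ^ 2 + Tube818.wSq P p) := by
    have := Tube818.wSq_nonneg P p
    positivity
  have h1 : ∫⁻ u in Ioc tw s, rateT aV (treeT0 Φ P s ℓ p) u ≤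
      ∫⁻ _u in Ioc tw s, ENNReal.ofReal (2 * P.leaves + (‖ℓ.2‖ ^ 2 + Tube818.wSq P p)) := by
    refine lintegral_mono_ae (ae_restrict_of_ae ?_)
    filter_upwards [ae_notTime P p] with u hu
    rw [rateT_tree aV P s ℓ p hu]
    exact rateP_aV_le hΦ hV u
  refine h1.trans ?_
  rw [setLIntegral_const, Real.volume_Ioc, ← ENNReal.ofReal_mul hE, mul_comm h]
  exact ENNReal.ofReal_le_ofReal (mul_le_mul_of_nonneg_left (by linarith) hE)

/-- weight of a child -/
theorem Awt_child_le (hΦ : AdmissiblePotential Φ) [Fintype ι] {S : Tubes ι} {M : ℝ≥0}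
    (hS : ∀ i, LipschitzOnWith M (S.c i) (Icc 0 T)) {l tw h : ℝ} (hl : 0 ≤ l) (hh : 0 ≤ h)
    (htw : 0 ≤ tw) (i : ι) {P : CTree} {θ : HPar P} (hs : θ.1 ∈ Icc tw (tw + h)) (hsT : θ.1 ≤ T)
    (hV : Valid Φ 0 P θ.1 θ.2.1 θ.2.2.2) :
    Awt l (childT0 Φ S i θ) tw θ.1 ≤ Awt l S tw θ.1 * ENNReal.ofReal
      (Real.exp (l * h * (2 * P.leaves + (‖θ.2.1‖ ^ 2 + Tube818.wSq P θ.2.2.2)))) := by
  set E : ℝ := 2 * (P.leaves : ℝ) + (‖θ.2.1‖ ^ 2 + Tube818.wSq P θ.2.2.2) with hE
  have hE0 : 0 ≤ E := by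
    have := Tube818.wSq_nonneg P θ.2.2.2
    positivity
  have hsub : Ioc tw θ.1 ⊆ Icc 0 T := fun u hu => ⟨htw.trans hu.1.le, hu.2.trans hsT⟩
  have h1 : Gx (childT0 Φ S i θ) tw θ.1 = Gx S tw θ.1 +
      ∫⁻ u in Ioc tw θ.1, rateT aV (treeT0 Φ P θ.1
        (S.c i θ.1 - θ.1 • θ.2.1, θ.2.1) θ.2.2.2) u := by
    unfold Gx Prim383.R childT0
    simp only [rateT_sum]
    rw [lintegral_add_left' (aemeasurable_rateT meas_aV fun j => aemeasurable_curve hS hsub j)]
  have h2 := lintegral_rateT_aV_tree hΦ (ℓ := (S.c i θ.1 - θ.1 • θ.2.1, θ.2.1)) hV hs.2 hh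
  have hG := Gx_ne_top hS htw hsT
  unfold Awt
  rw [h1, ← ENNReal.ofReal_mul (Real.exp_pos _).le, ← Real.exp_add]
  refine ENNReal.ofReal_le_ofReal (Real.exp_le_exp.2 ?_)
  have h3 : (∫⁻ u in Ioc tw θ.1, rateT aV (treeT0 Φ P θ.1
        (S.c i θ.1 - θ.1 • θ.2.1, θ.2.1) θ.2.2.2) u).toReal ≤ h * E :=
    ENNReal.toReal_le_of_le_ofReal (mul_nonneg hh hE0) h2
  rw [ENNReal.toReal_add hG (ne_top_of_le_ne_top ENNReal.ofReal_ne_top h2)]
  have h4 := mul_le_mul_of_nonneg_left h3 hl
  linarith

/-! ### Energy weighted tree weights -/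

theorem prod_fW (hΦ : AdmissiblePotential Φ) {c : ℝ} {P : CTree} {ℓ : PhasePoint} {p : Par P}
    (hA : Adm Φ P ℓ.2 p) :
    ∏ j, fW T f c (lines Φ 0 P ℓ p j).1 (lines Φ 0 P ℓ p j).2 =
      ENNReal.ofReal (Real.exp (c * (‖ℓ.2‖ ^ 2 + Tube818.wSq P p))) *
        ∏ j, fE T f 0 (lines Φ 0 P ℓ p j).1 (lines Φ 0 P ℓ p j).2 := by
  unfold fW
  rw [Finset.prod_mul_distrib]
  congr 1
  rw [← ENNReal.ofReal_prod_of_nonneg fun j _ => (Real.exp_pos _).le, ← Real.exp_sum,
    ← Finset.mul_sum, ← Tube818.sum_vels hΦ P ℓ.2 p hA]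
  simp only [lines_vel]

/-- the tree weight with damping before `tw` and energy weight -/
theorem wt_mul_eexp' (hΦ : AdmissiblePotential Φ) (hβ : 0 < β) (hT : 0 < T)
    (hf : IsRegularKineticSolution Φ β T f₀ f) {c tw : ℝ} (htw : 0 ≤ tw)
    {P : CTree} {s : ℝ} (hs : 0 ≤ s) {x v : Space3} {p : Par P} (hV : Valid Φ 0 P s v p) :
    (wt Φ P v p * ∏ j, ENNReal.ofReal (f₀ (lines Φ 0 P (x - s • v, v) p j))) *
      eexp (LamP Φ (nuF T f) tw P s (x - s • v, v) p) *
      ENNReal.ofReal (Real.exp (c * (‖v‖ ^ 2 + Tube818.wSq P p))) =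
      TreeF399.Wt Φ (Dwin (nuF T f) tw) (fW T f c) P s x v p := by
  rw [← TreeF399.weight_eq, indicator_of_mem (by exact hV), prod_fE hf hT.le,
    dens_eq (ℓ := (x - s • v, v)) (finRate_nuF hβ hT hf) htw _ hs hV.2,
    prod_fW hΦ (ℓ := (x - s • v, v)) hV.1]
  ring

/-- velocity, impact and tree factor of the contraction integrand -/
def GJ (Φ : Space3 → ℝ) (T : ℝ) (D : ℝ → ℝ → Space3 → Space3 → ℝ≥0∞) (g : Space3 → Space3 → ℝ≥0∞)
    (S : Tubes ι) (x : Space3) (i : ι) (P : CTree) (s : ℝ) (r : Space3 × Plane × Par P) : ℝ≥0∞ :=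
  ENNReal.ofReal ‖r.1 - deriv (S.c i) s‖ * ((Metric.ball (0 : Plane) 1).indicator 1 r.2.1
    * TreeF399.Wt Φ D g P s (cz T (S.c i) s + x) r.1 r.2.2)

theorem measurable_GJ (hT : 0 ≤ T) (hΦ : AdmissiblePotential Φ)
    {D : ℝ → ℝ → Space3 → Space3 → ℝ≥0∞} (hD : Meas4 D) {g : Space3 → Space3 → ℝ≥0∞}
    (hg : Measurable fun p : Space3 × Space3 => g p.1 p.2) {S : Tubes ι} {M : ℝ≥0}
    (hS : ∀ i, LipschitzOnWith M (S.c i) (Icc 0 T)) (i : ι) (P : CTree) :
    Measurable fun z : (Space3 × ℝ) × (Space3 × Plane × Par P) =>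
      GJ Φ T D g S z.1.1 i P z.1.2 z.2 := by
  unfold GJ
  have h0 : Measurable fun z : (Space3 × ℝ) × (Space3 × Plane × Par P) =>
      deriv (S.c i) z.1.2 := (measurable_deriv _).comp (measurable_snd.comp measurable_fst)
  have hB : Measurable ((Metric.ball (0 : Plane) 1).indicator (1 : Plane → ℝ≥0∞)) :=
    measurable_one.indicator measurableSet_ball
  have hv : Measurable fun z : (Space3 × ℝ) × (Space3 × Plane × Par P) => z.2.1 := by fun_prop
  have hy : Measurable fun z : (Space3 × ℝ) × (Space3 × Plane × Par P) => z.2.2.1 := by fun_prop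
  have hp : Measurable fun z : (Space3 × ℝ) × (Space3 × Plane × Par P) => z.2.2.2 := by fun_prop
  have hs : Measurable fun z : (Space3 × ℝ) × (Space3 × Plane × Par P) => z.1.2 := by fun_prop
  have hx : Measurable fun z : (Space3 × ℝ) × (Space3 × Plane × Par P) => z.1.1 := by fun_prop
  refine Measurable.mul (hv.sub h0).norm.ennreal_ofReal (Measurable.mul (hB.comp hy) ?_)
  have hc := (continuous_cz hT (hS i)).measurable.comp hs
  have h1 : Measurable fun z : (Space3 × ℝ) × (Space3 × Plane × Par P) =>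
      (((z.1.2, cz T (S.c i) z.1.2 + z.1.1, z.2.1), z.2.2.2) :
        (ℝ × Space3 × Space3) × Par P) := (hs.prodMk ((hc.add hx).prodMk hv)).prodMk hp
  exact Measurable.comp (TreeF399.measurable_Wt hΦ hD hg P) h1

theorem GJ_def (D : ℝ → ℝ → Space3 → Space3 → ℝ≥0∞) (g : Space3 → Space3 → ℝ≥0∞)
    (S : Tubes ι) (x : Space3) (i : ι) (P : CTree) (s : ℝ) (r : Space3 × Plane × Par P) :
    GJ Φ T D g S x i P s r = ENNReal.ofReal ‖r.1 - deriv (S.c i) s‖ *
      ((Metric.ball (0 : Plane) 1).indicator 1 r.2.1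
        * TreeF399.Wt Φ D g P s (cz T (S.c i) s + x) r.1 r.2.2) := rfl

attribute [irreducible] GJ

/-- the integral of `GJ` over the velocity, the impact parameter and the node parameters -/
theorem lintegral_GJ (hT : 0 ≤ T) (hΦ : AdmissiblePotential Φ)
    {D : ℝ → ℝ → Space3 → Space3 → ℝ≥0∞} (hD : Meas4 D) {g : Space3 → Space3 → ℝ≥0∞}
    (hg : Measurable fun p : Space3 × Space3 => g p.1 p.2) {S : Tubes ι} {M : ℝ≥0}
    (hS : ∀ i, LipschitzOnWith M (S.c i) (Icc 0 T)) (x : Space3) (i : ι) (P : CTree) (s : ℝ) :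
    ∫⁻ r : Space3 × Plane × Par P, GJ Φ T D g S x i P s r =
      ∫⁻ v : Space3, ENNReal.ofReal Real.pi * (ENNReal.ofReal ‖v - deriv (S.c i) s‖ *
        F (kapQ Φ) D g P s (cz T (S.c i) s + x) v) := by
  have hm : Measurable fun r : Space3 × Plane × Par P => GJ Φ T D g S x i P s r := by
    have h1 : Measurable fun r : Space3 × Plane × Par P =>
        (((x, s), r) : (Space3 × ℝ) × (Space3 × Plane × Par P)) := by fun_prop
    exact Measurable.comp (g := fun z : (Space3 × ℝ) × (Space3 × Plane × Par P) =>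
      GJ Φ T D g S z.1.1 i P z.1.2 z.2) (measurable_GJ hT hΦ hD hg hS i P) h1
  rw [Measure.volume_eq_prod, lintegral_prod _ hm.aemeasurable]
  refine lintegral_congr fun v => ?_
  have hI : Measurable ((Metric.ball (0 : Plane) 1).indicator (1 : Plane → ℝ≥0∞)) :=
    measurable_one.indicator measurableSet_ball
  have hW : Measurable fun p : Par P =>
      TreeF399.Wt Φ D g P s (cz T (S.c i) s + x) v p :=
    TreeF399.measurable_Wt_slice hΦ hD hg P s _ v
  have h0 : ∀ y : Plane × Par P, GJ Φ T D g S x i P s (v, y) =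
      ENNReal.ofReal ‖v - deriv (S.c i) s‖ * ((Metric.ball (0 : Plane) 1).indicator 1 y.1
      * TreeF399.Wt Φ D g P s (cz T (S.c i) s + x) v y.2) := fun y => GJ_def _ _ _ _ _ _ _ _
  simp only [h0]
  rw [lintegral_const_mul' _ _ ENNReal.ofReal_ne_top, Measure.volume_eq_prod]
  have h2 := lintegral_prod_mul (μ := (volume : Measure Plane)) (ν := (volume : Measure (Par P)))
    hI.aemeasurable (g := fun p => TreeF399.Wt Φ D g P s (cz T (S.c i) s + x) v p)
    hW.aemeasurable
  rw [h2, lintegral_indicator_one measurableSet_ball, EuclideanSpace.volume_ball_fin_two,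
    ENNReal.ofReal_one, one_pow, one_mul, TreeF399.lintegral_Wt hΦ hD hg]
  ring

theorem TreeF399_F_mono {D : ℝ → ℝ → Space3 → Space3 → ℝ≥0∞} {g g' : Space3 → Space3 → ℝ≥0∞}
    (h : ∀ x v, g x v ≤ g' x v) : ∀ (P : CTree) (t : ℝ) (x v : Space3),
    F (kapQ Φ) D g P t x v ≤ F (kapQ Φ) D g' P t x v
  | leaf, t, x, v => mul_le_mul' le_rfl (h _ _)
  | node l r, t, x, v => by
      refine lintegral_mono fun s => mul_le_mul' le_rfl ?_
      exact Q_mono _ (fun u => TreeF399_F_mono h l s _ u) (fun u => TreeF399_F_mono h r s _ u) v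

theorem sum_lintegral_le {α ι : Type*} [MeasurableSpace α] (μ : Measure α) (s : Finset ι)
    (g : ι → α → ℝ≥0∞) : ∑ i ∈ s, ∫⁻ a, g i a ∂μ ≤ ∫⁻ a, ∑ i ∈ s, g i a ∂μ := by
  induction s using Finset.induction_on with
  | empty => simp
  | insert q s hq ih =>
    rw [Finset.sum_insert hq]
    refine (add_le_add le_rfl ih).trans ((le_lintegral_add _ _).trans (le_of_eq ?_))
    refine lintegral_congr fun a => ?_
    rw [Finset.sum_insert hq]

/-- bound of the sum over the trees at fixed hitting time -/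
theorem fibre_bound (hT : 0 ≤ T) (hΦ : AdmissiblePotential Φ) (hβ : 0 < β)
    {D : ℝ → ℝ → Space3 → Space3 → ℝ≥0∞} (hD : Meas4 D) {g : Space3 → Space3 → ℝ≥0∞}
    (hg : Measurable fun p : Space3 × Space3 => g p.1 p.2) {S : Tubes ι} {M : ℝ≥0}
    (hS : ∀ i, LipschitzOnWith M (S.c i) (Icc 0 T)) (x : Space3) (i : ι) {s C lam c : ℝ}
    (hC : 0 ≤ C) (hc : Real.exp (2 * c) ≤ lam)
    (hb : ∀ x v, ∑' P : CTree, ENNReal.ofReal lam ^ P.size * F (kapQ Φ) D g P s x v ≤
      ENNReal.ofReal C * wG (β / 4) v) (Ps : Finset CTree) :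
    ∑ P ∈ Ps, ENNReal.ofReal (Real.exp (2 * c * P.leaves)) *
      ∫⁻ r : Space3 × Plane × Par P, GJ Φ T D g S x i P s r ≤
      ENNReal.ofReal (Real.exp (2 * c) * Real.pi * C * gaussMoment (β / 4) 1) *
        ENNReal.ofReal (1 + ‖deriv (S.c i) s‖) := by
  have hlam : 0 ≤ lam := (Real.exp_pos _).le.trans hc
  set V := deriv (S.c i) s with hV
  have hF : ∀ P, Measurable fun v => F (kapQ Φ) D g P s (cz T (S.c i) s + x) v := fun P =>
    meas_slice hD hg (meas_F (kapQ Φ) hD hg P) s _
  have hm : ∀ P : CTree, Measurable fun v : Space3 => ENNReal.ofReal Real.pi *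
      (ENNReal.ofReal ‖v - V‖ * F (kapQ Φ) D g P s (cz T (S.c i) s + x) v) := by
    intro P
    exact ((by fun_prop : Measurable fun v : Space3 => ENNReal.ofReal ‖v - V‖).mul
      (hF P)).const_mul _
  calc ∑ P ∈ Ps, ENNReal.ofReal (Real.exp (2 * c * P.leaves)) *
        ∫⁻ r : Space3 × Plane × Par P, GJ Φ T D g S x i P s r
      = ∑ P ∈ Ps, ∫⁻ v : Space3, ENNReal.ofReal (Real.exp (2 * c * P.leaves)) *
          (ENNReal.ofReal Real.pi *
          (ENNReal.ofReal ‖v - V‖ * F (kapQ Φ) D g P s (cz T (S.c i) s + x) v)) := by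
        refine Finset.sum_congr rfl fun P _ => ?_
        rw [lintegral_GJ hT hΦ hD hg hS x i P s, ← lintegral_const_mul' _ _ ENNReal.ofReal_ne_top]
    _ = ∫⁻ v : Space3, ∑ P ∈ Ps, ENNReal.ofReal (Real.exp (2 * c * P.leaves)) *
          (ENNReal.ofReal Real.pi *
          (ENNReal.ofReal ‖v - V‖ * F (kapQ Φ) D g P s (cz T (S.c i) s + x) v)) := by
        rw [lintegral_finsetSum _ fun P _ => (hm P).const_mul _]
    _ ≤ ∫⁻ v : Space3, ENNReal.ofReal (Real.exp (2 * c) * Real.pi * C) *
          (ENNReal.ofReal ‖V - v‖ * ENNReal.ofReal (Real.exp (-(β / 4) * ‖v‖ ^ 2))) := by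
        refine lintegral_mono fun v => ?_
        have h1 : ∑ P ∈ Ps, ENNReal.ofReal (Real.exp (2 * c * P.leaves)) *
            (ENNReal.ofReal Real.pi *
            (ENNReal.ofReal ‖v - V‖ * F (kapQ Φ) D g P s (cz T (S.c i) s + x) v)) ≤
            ENNReal.ofReal (Real.exp (2 * c)) * (ENNReal.ofReal Real.pi *
              (ENNReal.ofReal ‖v - V‖ * ∑ P ∈ Ps, ENNReal.ofReal lam ^ P.size *
                F (kapQ Φ) D g P s (cz T (S.c i) s + x) v)) := by
          rw [Finset.mul_sum, Finset.mul_sum, Finset.mul_sum]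
          refine Finset.sum_le_sum fun P _ => ?_
          have h2 : ENNReal.ofReal (Real.exp (2 * c * P.leaves)) ≤
              ENNReal.ofReal (Real.exp (2 * c)) * ENNReal.ofReal lam ^ P.size := by
            rw [← ENNReal.ofReal_pow hlam, ← ENNReal.ofReal_mul (Real.exp_pos _).le]
            refine ENNReal.ofReal_le_ofReal ?_
            have h3 : Real.exp (2 * c * P.leaves) =
                Real.exp (2 * c) * Real.exp (2 * c) ^ P.size := by
              rw [← Real.exp_nat_mul, ← Real.exp_add, CTree.leaves_eq]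
              congr 1
              push_cast
              ring
            rw [h3]
            exact mul_le_mul_of_nonneg_left (pow_le_pow_left₀ (Real.exp_pos _).le hc _)
              (Real.exp_pos _).le
          calc ENNReal.ofReal (Real.exp (2 * c * P.leaves)) * (ENNReal.ofReal Real.pi *
                (ENNReal.ofReal ‖v - V‖ * F (kapQ Φ) D g P s (cz T (S.c i) s + x) v))
              ≤ (ENNReal.ofReal (Real.exp (2 * c)) * ENNReal.ofReal lam ^ P.size) *
                (ENNReal.ofReal Real.pi *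
                (ENNReal.ofReal ‖v - V‖ * F (kapQ Φ) D g P s (cz T (S.c i) s + x) v)) :=
                mul_le_mul' h2 le_rfl
            _ = _ := by ring
        refine h1.trans ?_
        have h4 := (ENNReal.sum_le_tsum Ps (f := fun P : CTree => ENNReal.ofReal lam ^ P.size *
            F (kapQ Φ) D g P s (cz T (S.c i) s + x) v)).trans (hb (cz T (S.c i) s + x) v)
        calc ENNReal.ofReal (Real.exp (2 * c)) * (ENNReal.ofReal Real.pi *
              (ENNReal.ofReal ‖v - V‖ * ∑ P ∈ Ps, ENNReal.ofReal lam ^ P.size *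
                F (kapQ Φ) D g P s (cz T (S.c i) s + x) v))
            ≤ ENNReal.ofReal (Real.exp (2 * c)) * (ENNReal.ofReal Real.pi *
              (ENNReal.ofReal ‖v - V‖ * (ENNReal.ofReal C * wG (β / 4) v))) := by
              gcongr
          _ = _ := by
              have hp := Real.pi_pos.le
              rw [ENNReal.ofReal_mul (by positivity : 0 ≤ Real.exp (2 * c) * Real.pi),
                ENNReal.ofReal_mul (Real.exp_pos _).le, norm_sub_rev]
              unfold wG
              rw [← neg_mul]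
              ring
    _ ≤ ENNReal.ofReal (Real.exp (2 * c) * Real.pi * C) *
          ENNReal.ofReal ((1 + ‖V‖) * gaussMoment (β / 4) 1) := by
        rw [lintegral_const_mul' _ _ ENNReal.ofReal_ne_top]
        exact mul_le_mul' le_rfl (lintegral_norm_sub_mul_gauss_le (by positivity) V)
    _ = _ := by
        have hp := Real.pi_pos.le
        have hgm := gaussMoment_nonneg (β / 4) 1
        rw [← ENNReal.ofReal_mul (by positivity), ← ENNReal.ofReal_mul (by positivity)]
        congr 1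
        ring

/-! ### Measurability in the translation -/

theorem Lam_shift_eq [Fintype ι] (S : Tubes ι) (x : Space3) {t : ℝ} (ht : t ≤ T) :
    Lam T f (S.shift x) t = ∫⁻ s in Ioc 0 t, ∑ i, if s < S.b i then
      nuF T f s (cz T (S.c i) s + x) (deriv (S.c i) s) else 0 := by
  unfold Lam
  refine setLIntegral_congr_fun measurableSet_Ioc fun s hs => ?_
  show lam T f (S.shift x) s = _
  unfold lam
  refine Finset.sum_congr rfl fun i _ => ?_
  rw [deriv_shift, cz_eq ⟨hs.1.le, hs.2.trans ht⟩]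
  rfl

attribute [local irreducible] nuF

theorem measurable_Lam_shift (hT : 0 ≤ T) (hf : IsRegularKineticSolution Φ β T f₀ f) [Fintype ι]
    {S : Tubes ι} {M : ℝ≥0} (hS : ∀ i, LipschitzOnWith M (S.c i) (Icc 0 T)) :
    Measurable fun z : Space3 × ℝ => Lam T f (S.shift z.1) (min z.2 T) := by
  have h1 : Measurable fun z : (Space3 × ℝ) × ℝ => ∑ i, if z.2 < S.b i then
      nuF T f z.2 (cz T (S.c i) z.2 + z.1.1) (deriv (S.c i) z.2) else 0 := by
    refine Finset.measurable_sum _ fun i _ => ?_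
    refine Measurable.ite (measurableSet_lt measurable_snd measurable_const) ?_ measurable_const
    have h2 : Measurable fun z : (Space3 × ℝ) × ℝ =>
        (z.2, cz T (S.c i) z.2 + z.1.1, deriv (S.c i) z.2) := by
      have hc := (continuous_cz hT (hS i)).measurable
      have hd := measurable_deriv (S.c i)
      fun_prop
    exact Measurable.comp (g := fun p : ℝ × Space3 × Space3 => nuF T f p.1 p.2.1 p.2.2)
      (measurable_nuF hf) h2
  have h3 : Measurable fun z : (Space3 × ℝ) × ℝ => {z : (Space3 × ℝ) × ℝ |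
      0 < z.2 ∧ z.2 ≤ min z.1.2 T}.indicator (fun z : (Space3 × ℝ) × ℝ => ∑ i,
      if z.2 < S.b i then nuF T f z.2 (cz T (S.c i) z.2 + z.1.1) (deriv (S.c i) z.2) else 0) z := by
    refine h1.indicator ?_
    refine (measurableSet_lt measurable_const measurable_snd).inter
      (measurableSet_le measurable_snd ?_)
    exact (measurable_snd.comp measurable_fst).min measurable_const
  have h4 := h3.lintegral_prod_right' (ν := (volume : Measure ℝ))
  refine Eq.mp (congrArg Measurable (funext fun z => ?_)) h4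
  symm
  rw [Lam_shift_eq S z.1 (min_le_right _ _), ← lintegral_indicator measurableSet_Ioc]
  refine lintegral_congr fun s => ?_
  by_cases h : s ∈ Ioc 0 (min z.2 T)
  · rw [indicator_of_mem h, indicator_of_mem (show ((z, s) : (Space3 × ℝ) × ℝ) ∈
      {z : (Space3 × ℝ) × ℝ | 0 < z.2 ∧ z.2 ≤ min z.1.2 T} from h)]
  · rw [indicator_of_notMem h, indicator_of_notMem (show ((z, s) : (Space3 × ℝ) × ℝ) ∉
      {z : (Space3 × ℝ) × ℝ | 0 < z.2 ∧ z.2 ≤ min z.1.2 T} from h)]

/-- joint measurability of the damping of the family in the translation and the time -/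
theorem measurable_dampG_shift (hT : 0 ≤ T) (hf : IsRegularKineticSolution Φ β T f₀ f) [Fintype ι]
    {S : Tubes ι} {M : ℝ≥0} (hS : ∀ i, LipschitzOnWith M (S.c i) (Icc 0 T)) :
    Measurable fun z : Space3 × ℝ => dampG T f (S.shift z.1) (min z.2 T) := by
  unfold dampG
  exact ((measurable_Lam_shift hT hf hS).ennreal_toReal.neg.exp).ennreal_ofReal

theorem measurable_dampG_fix (hT : 0 ≤ T) (hf : IsRegularKineticSolution Φ β T f₀ f) [Fintype ι]
    {S : Tubes ι} {M : ℝ≥0} (hS : ∀ i, LipschitzOnWith M (S.c i) (Icc 0 T)) {t : ℝ} (ht : t ≤ T) :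
    Measurable fun x : Space3 => dampG T f (S.shift x) t := by
  have h1 : Measurable fun x : Space3 => ((x, t) : Space3 × ℝ) := by fun_prop
  have h2 := (measurable_dampG_shift hT hf hS).comp h1
  simp only [Function.comp_def, min_eq_left ht] at h2
  exact h2

/-! ### The contraction -/

/-- time factor of the contraction integrand -/
def QJ (T l tw t : ℝ) [Fintype ι] (S : Tubes ι) (i : ι) (s : ℝ) : ℝ≥0∞ :=
  (Ioc tw t ∩ Iio (S.b i)).indicator (fun s => Awt l S tw (min s T)) s

theorem measurable_QJ [Fintype ι] {S : Tubes ι} {M : ℝ≥0}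
    (hS : ∀ i, LipschitzOnWith M (S.c i) (Icc 0 T)) {l tw : ℝ} (hl : 0 ≤ l) (htw : 0 ≤ tw) (t : ℝ)
    (i : ι) : Measurable (QJ T l tw t S i) := by
  have h1 : Monotone fun s => Awt l S tw (min s T) := by
    intro s s' hss
    refine ENNReal.ofReal_le_ofReal (Real.exp_le_exp.2 (mul_le_mul_of_nonneg_left ?_ hl))
    exact ENNReal.toReal_mono (Gx_ne_top hS htw (min_le_right _ _))
      (Prim383.R_mono (min_le_min_right _ hss))
  exact h1.measurable.indicator (measurableSet_Ioc.inter measurableSet_Iio)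

theorem QJ_of_mem [Fintype ι] {l tw t : ℝ} (ht : t ≤ T) {S : Tubes ι} {i : ι} {s : ℝ}
    (hs : s ∈ Ioc tw t) : QJ T l tw t S i s = if s < S.b i then Awt l S tw s else 0 := by
  unfold QJ
  by_cases h : s < S.b i
  · rw [indicator_of_mem (show s ∈ Ioc tw t ∩ Iio (S.b i) from ⟨hs, h⟩), if_pos h,
      min_eq_left (hs.2.trans ht)]
  · rw [indicator_of_notMem (show s ∉ Ioc tw t ∩ Iio (S.b i) from fun h' => h h'.2), if_neg h]

theorem QJ_of_notMem [Fintype ι] {l tw t : ℝ} {S : Tubes ι} {i : ι} {s : ℝ}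
    (hs : s ∉ Ioc tw t) : QJ T l tw t S i s = 0 := by
  unfold QJ
  rw [indicator_of_notMem (show s ∉ Ioc tw t ∩ Iio (S.b i) from fun h' => hs h'.1)]

attribute [irreducible] QJ

/-- pointwise bound of the integrand -/
theorem integrand_le (hΦ : AdmissiblePotential Φ) (hβ : 0 < β) (hT : 0 < T)
    (hf : IsRegularKineticSolution Φ β T f₀ f) [Fintype ι] {S : Tubes ι} {M : ℝ≥0}
    (hS : ∀ i, LipschitzOnWith M (S.c i) (Icc 0 T)) {l tw h t : ℝ} (hl : 0 ≤ l) (hh : 0 ≤ h)
    (htw : 0 ≤ tw) (ht : t ≤ tw + h) (htT : t ≤ T) (i : ι) {P : CTree} (θ : HPar P) (x : Space3) :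
    Awt l (childT0 Φ S i θ) tw θ.1 * (wgt Φ f₀ tw t S i θ x *
      dampG T f ((childT0 Φ S i θ).shift x) tw) ≤
      dampG T f (S.shift x) tw * (QJ T l tw t S i θ.1 *
        (ENNReal.ofReal (Real.exp (2 * (l * h) * P.leaves)) *
          GJ Φ T (Dwin (nuF T f) tw) (fW T f (l * h)) S x i P θ.1 θ.2)) := by
  by_cases hG : HGood Φ tw t S i θ
  · obtain ⟨h1, h2, h3, hV⟩ := hG
    have hs0 : 0 ≤ θ.1 := htw.trans h1.1.le
    have hsT : θ.1 ≤ T := h1.2.trans htT
    have hA := Awt_child_le hΦ hS hl hh htw i (θ := θ) ⟨h1.1.le, h1.2.trans ht⟩ hsT hV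
    have hG' : HGood Φ tw t S i θ := ⟨h1, h2, h3, hV⟩
    refine (mul_le_mul' hA le_rfl).trans (le_of_eq ?_)
    rw [QJ_of_mem htT h1, if_pos h2, GJ_def, cz_eq ⟨hs0, hsT⟩,
      indicator_of_mem (by simpa using h3 : θ.2.2.1 ∈ Metric.ball (0 : Plane) 1),
      ← wt_mul_eexp' hΦ hβ hT hf htw hs0 hV,
      dampG_child hβ hT hf hS ⟨htw, h1.1.le.trans hsT⟩ i hV x]
    unfold wgt
    rw [if_pos hG']
    have e1 : Real.exp (l * h * (2 * P.leaves + (‖θ.2.1‖ ^ 2 + Tube818.wSq P θ.2.2.2))) =
        Real.exp (2 * (l * h) * P.leaves) *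
          Real.exp (l * h * (‖θ.2.1‖ ^ 2 + Tube818.wSq P θ.2.2.2)) := by
      rw [← Real.exp_add]
      congr 1
      ring
    rw [e1, ENNReal.ofReal_mul (Real.exp_pos _).le]
    simp only [Pi.one_apply, one_mul]
    ring
  · have h0 : wgt Φ f₀ tw t S i θ x = 0 := by
      unfold wgt
      rw [if_neg hG]
    rw [h0, zero_mul, mul_zero]
    exact bot_le

/-- **(I4)**: contraction for short windows. -/
theorem contraction (hβ : 0 < β) (hT : 0 < T) (hΦ : AdmissiblePotential Φ)
    (hf : IsRegularKineticSolution Φ β T f₀ f) :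
    ∃ h l : ℝ, 0 < h ∧ 0 < l ∧ ∀ tw ∈ Icc 0 T, ∀ t, t ≤ tw + h → t ≤ T →
      ∀ (ι : Type) [Fintype ι] (S : Tubes ι) (M : ℝ≥0),
      (∀ i, LipschitzOnWith M (S.c i) (Icc 0 T)) → ∀ φ : Space3 → ℝ≥0∞, Measurable φ →
      ∀ Ps : Finset CTree,
      ∑ P ∈ Ps, ∑ i, ∫⁻ θ : HPar P, Awt l (childT0 Φ S i θ) tw θ.1 *
        ∫⁻ x, φ x * wgt Φ f₀ tw t S i θ x * dampG T f ((childT0 Φ S i θ).shift x) tw ≤
      2⁻¹ * (Awt l S tw t * ∫⁻ x, φ x * dampG T f (S.shift x) tw) := by
  obtain ⟨h₀, lam, κ, C, hh₀, hlam, hκ, hC, H⟩ := window_energy_moment hβ hT hΦ hf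
  -- the exponent
  set c : ℝ := min κ (Real.log lam / 2) with hc
  have hc0 : 0 < c := lt_min hκ (half_pos (Real.log_pos hlam))
  have hcκ : c ≤ κ := min_le_left _ _
  have hclam : Real.exp (2 * c) ≤ lam := by
    have h1 : c ≤ Real.log lam / 2 := min_le_right _ _
    calc Real.exp (2 * c) ≤ Real.exp (Real.log lam) := Real.exp_le_exp.2 (by linarith)
      _ = lam := Real.exp_log (by linarith)
  set C2 : ℝ := Real.exp (2 * c) * Real.pi * C * gaussMoment (β / 4) 1 with hC2
  have hC20 : 0 ≤ C2 := by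
    have := gaussMoment_nonneg (β / 4) 1
    have := Real.pi_pos.le
    positivity
  set l : ℝ := 2 * C2 + c / h₀ with hl
  have hl0 : 0 < l := by positivity
  have hlC : 2 * C2 ≤ l := by
    have : 0 < c / h₀ := by positivity
    linarith
  set h : ℝ := c / l with hh
  have hh0 : 0 < h := by positivity
  have hlh : l * h = c := by rw [hh]; field_simp
  have hhh : h ≤ h₀ := by
    rw [hh, div_le_iff₀ hl0, hl, mul_add]
    have h1 : h₀ * (c / h₀) = c := by field_simp
    rw [h1]
    have : 0 ≤ h₀ * (2 * C2) := by positivity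
    linarith
  refine ⟨h, l, hh0, hl0, fun tw htw t ht htT ι _ S M hS φ hφ Ps => ?_⟩
  have hD : Meas4 (Dwin (nuF T f) tw) := by
    rw [← Dwin_814']
    exact Seg814.meas4_Dwin (meas4_damp hf) tw
  have hg := meas_fW hf c
  have hb : ∀ s ∈ Icc 0 (tw + h₀), ∀ x v, ∑' P : CTree, ENNReal.ofReal lam ^ P.size *
      F (kapQ Φ) (Dwin (nuF T f) tw) (fW T f c) P s x v ≤ ENNReal.ofReal C * wG (β / 4) v := by
    intro s hs x v
    refine le_trans (ENNReal.tsum_le_tsum fun P => ?_) (H tw htw s hs x v)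
    refine mul_le_mul' le_rfl ?_
    rw [Dwin_814']
    exact TreeF399_F_mono (fW_mono hcκ) P s x v
  have hdm : Measurable fun x : Space3 => dampG T f (S.shift x) tw :=
    measurable_dampG_fix hT.le hf hS htw.2
  -- bound of one term
  have hterm : ∀ P i, ∫⁻ θ : HPar P, Awt l (childT0 Φ S i θ) tw θ.1 *
      ∫⁻ x, φ x * wgt Φ f₀ tw t S i θ x * dampG T f ((childT0 Φ S i θ).shift x) tw ≤
      ∫⁻ x, φ x * dampG T f (S.shift x) tw * ∫⁻ s : ℝ, QJ T l tw t S i s *
        (ENNReal.ofReal (Real.exp (2 * c * P.leaves)) * ∫⁻ r : Space3 × Plane × Par P,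
          GJ Φ T (Dwin (nuF T f) tw) (fW T f c) S x i P s r) := by
    intro P i
    have hGm := measurable_GJ hT.le hΦ hD hg hS i P
    have hQm := measurable_QJ hS hl0.le htw.1 t i
    have hjoint : Measurable fun z : HPar P × Space3 => φ z.2 * (dampG T f (S.shift z.2) tw *
        (QJ T l tw t S i z.1.1 * (ENNReal.ofReal (Real.exp (2 * c * P.leaves)) *
          GJ Φ T (Dwin (nuF T f) tw) (fW T f c) S z.2 i P z.1.1 z.1.2))) := by
      refine (hφ.comp measurable_snd).mul ((hdm.comp measurable_snd).mul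
        ((hQm.comp (measurable_fst.comp measurable_fst)).mul (Measurable.const_mul ?_ _)))
      have h1 : Measurable fun z : HPar P × Space3 =>
          (((z.2, z.1.1), z.1.2) : (Space3 × ℝ) × (Space3 × Plane × Par P)) := by fun_prop
      exact Measurable.comp (g := fun z : (Space3 × ℝ) × (Space3 × Plane × Par P) =>
        GJ Φ T (Dwin (nuF T f) tw) (fW T f c) S z.1.1 i P z.1.2 z.2) hGm h1
    calc ∫⁻ θ : HPar P, Awt l (childT0 Φ S i θ) tw θ.1 *
          ∫⁻ x, φ x * wgt Φ f₀ tw t S i θ x * dampG T f ((childT0 Φ S i θ).shift x) tw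
        ≤ ∫⁻ θ : HPar P, ∫⁻ x, φ x * (dampG T f (S.shift x) tw * (QJ T l tw t S i θ.1 *
            (ENNReal.ofReal (Real.exp (2 * c * P.leaves)) *
              GJ Φ T (Dwin (nuF T f) tw) (fW T f c) S x i P θ.1 θ.2))) := by
          refine lintegral_mono fun θ => ?_
          rw [← lintegral_const_mul' _ _ Awt_ne_top]
          refine lintegral_mono fun x => ?_
          have h1 := integrand_le hΦ hβ hT hf hS hl0.le hh0.le htw.1 ht htT i θ x
          rw [hlh] at h1
          calc Awt l (childT0 Φ S i θ) tw θ.1 * (φ x * wgt Φ f₀ tw t S i θ x *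
                dampG T f ((childT0 Φ S i θ).shift x) tw)
              = φ x * (Awt l (childT0 Φ S i θ) tw θ.1 * (wgt Φ f₀ tw t S i θ x *
                dampG T f ((childT0 Φ S i θ).shift x) tw)) := by ring
            _ ≤ _ := mul_le_mul' le_rfl h1
      _ = ∫⁻ x, ∫⁻ θ : HPar P, φ x * (dampG T f (S.shift x) tw * (QJ T l tw t S i θ.1 *
            (ENNReal.ofReal (Real.exp (2 * c * P.leaves)) *
              GJ Φ T (Dwin (nuF T f) tw) (fW T f c) S x i P θ.1 θ.2))) :=
          lintegral_lintegral_swap hjoint.aemeasurable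
      _ = _ := by
          refine lintegral_congr fun x => ?_
          have h2 : Measurable fun θ : HPar P => QJ T l tw t S i θ.1 *
              (ENNReal.ofReal (Real.exp (2 * c * P.leaves)) *
              GJ Φ T (Dwin (nuF T f) tw) (fW T f c) S x i P θ.1 θ.2) := by
            refine (hQm.comp measurable_fst).mul (Measurable.const_mul ?_ _)
            have h1 : Measurable fun θ : HPar P =>
              (((x, θ.1), θ.2) : (Space3 × ℝ) × (Space3 × Plane × Par P)) := by fun_prop
            exact Measurable.comp (g := fun z : (Space3 × ℝ) × (Space3 × Plane × Par P) =>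
              GJ Φ T (Dwin (nuF T f) tw) (fW T f c) S z.1.1 i P z.1.2 z.2) hGm h1
          have e0 : ∫⁻ θ : HPar P, φ x * (dampG T f (S.shift x) tw * (QJ T l tw t S i θ.1 *
            (ENNReal.ofReal (Real.exp (2 * c * P.leaves)) *
              GJ Φ T (Dwin (nuF T f) tw) (fW T f c) S x i P θ.1 θ.2))) =
              φ x * dampG T f (S.shift x) tw * ∫⁻ θ : HPar P, QJ T l tw t S i θ.1 *
            (ENNReal.ofReal (Real.exp (2 * c * P.leaves)) *
              GJ Φ T (Dwin (nuF T f) tw) (fW T f c) S x i P θ.1 θ.2) := by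
            rw [← lintegral_const_mul _ h2]
            refine lintegral_congr fun θ => ?_
            ring
          rw [e0]
          congr 1
          rw [Measure.volume_eq_prod, lintegral_prod _ h2.aemeasurable]
          refine lintegral_congr fun s => ?_
          have h3 : Measurable fun r : Space3 × Plane × Par P =>
              GJ Φ T (Dwin (nuF T f) tw) (fW T f c) S x i P s r := by
            have h1 : Measurable fun r : Space3 × Plane × Par P =>
              (((x, s), r) : (Space3 × ℝ) × (Space3 × Plane × Par P)) := by fun_prop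
            exact Measurable.comp (g := fun z : (Space3 × ℝ) × (Space3 × Plane × Par P) =>
              GJ Φ T (Dwin (nuF T f) tw) (fW T f c) S z.1.1 i P z.1.2 z.2) hGm h1
          show ∫⁻ r : Space3 × Plane × Par P, QJ T l tw t S i s *
              (ENNReal.ofReal (Real.exp (2 * c * P.leaves)) *
              GJ Φ T (Dwin (nuF T f) tw) (fW T f c) S x i P s r) = _
          rw [lintegral_const_mul _ (h3.const_mul _), lintegral_const_mul _ h3]
  -- sum of the terms
  have hGm2 : ∀ P i, Measurable fun z : Space3 × ℝ => QJ T l tw t S i z.2 *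
        (ENNReal.ofReal (Real.exp (2 * c * P.leaves)) * ∫⁻ r : Space3 × Plane × Par P,
          GJ Φ T (Dwin (nuF T f) tw) (fW T f c) S z.1 i P z.2 r) := by
    intro P i
    refine ((measurable_QJ hS hl0.le htw.1 t i).comp measurable_snd).mul
      (Measurable.const_mul ?_ _)
    exact (measurable_GJ hT.le hΦ hD hg hS i P).lintegral_prod_right'
  calc ∑ P ∈ Ps, ∑ i, ∫⁻ θ : HPar P, Awt l (childT0 Φ S i θ) tw θ.1 *
        ∫⁻ x, φ x * wgt Φ f₀ tw t S i θ x * dampG T f ((childT0 Φ S i θ).shift x) tw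
      ≤ ∑ P ∈ Ps, ∑ i, ∫⁻ x, φ x * dampG T f (S.shift x) tw * ∫⁻ s : ℝ, QJ T l tw t S i s *
        (ENNReal.ofReal (Real.exp (2 * c * P.leaves)) * ∫⁻ r : Space3 × Plane × Par P,
          GJ Φ T (Dwin (nuF T f) tw) (fW T f c) S x i P s r) :=
        Finset.sum_le_sum fun P _ => Finset.sum_le_sum fun i _ => hterm P i
    _ = ∫⁻ x, φ x * dampG T f (S.shift x) tw * ∑ i, ∫⁻ s : ℝ, QJ T l tw t S i s *
        ∑ P ∈ Ps, (ENNReal.ofReal (Real.exp (2 * c * P.leaves)) *
          ∫⁻ r : Space3 × Plane × Par P,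
            GJ Φ T (Dwin (nuF T f) tw) (fW T f c) S x i P s r) := by
        have hm1 : ∀ P i, Measurable fun x : Space3 => φ x * dampG T f (S.shift x) tw *
            ∫⁻ s : ℝ, QJ T l tw t S i s * (ENNReal.ofReal (Real.exp (2 * c * P.leaves)) *
              ∫⁻ r : Space3 × Plane × Par P,
                GJ Φ T (Dwin (nuF T f) tw) (fW T f c) S x i P s r) := fun P i =>
          (hφ.mul hdm).mul (hGm2 P i).lintegral_prod_right'
        rw [Finset.sum_congr rfl fun P _ => (lintegral_finsetSum _ fun i _ => hm1 P i).symm,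
          ← lintegral_finsetSum _ fun P _ => Finset.measurable_sum _ fun i _ => hm1 P i]
        refine lintegral_congr fun x => ?_
        rw [Finset.mul_sum, Finset.sum_comm]
        refine Finset.sum_congr rfl fun i _ => ?_
        rw [← Finset.mul_sum, ← lintegral_finsetSum]
        · congr 1
          refine lintegral_congr fun s => ?_
          rw [Finset.mul_sum]
        · intro P _
          exact (hGm2 P i).comp (measurable_const.prodMk measurable_id)
    _ ≤ ∫⁻ x, φ x * dampG T f (S.shift x) tw * (2⁻¹ * Awt l S tw t) := by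
        refine lintegral_mono fun x => mul_le_mul' le_rfl ?_
        have hs : ∀ i, ∫⁻ s : ℝ, QJ T l tw t S i s *
            ∑ P ∈ Ps, (ENNReal.ofReal (Real.exp (2 * c * P.leaves)) *
              ∫⁻ r : Space3 × Plane × Par P,
                GJ Φ T (Dwin (nuF T f) tw) (fW T f c) S x i P s r) ≤
            ∫⁻ s in Ioc tw t, ENNReal.ofReal C2 * ((if s < S.b i then
              aV s (S.c i s) (deriv (S.c i) s) else 0) * Awt l S tw s) := by
          intro i
          rw [← lintegral_indicator measurableSet_Ioc]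
          refine lintegral_mono fun s => ?_
          by_cases hs : s ∈ Ioc tw t
          · have hs0 : s ∈ Icc 0 (tw + h₀) :=
              ⟨htw.1.trans hs.1.le, (hs.2.trans ht).trans (by linarith)⟩
            rw [indicator_of_mem hs, QJ_of_mem htT hs]
            have h5 := fibre_bound hT.le hΦ hβ hD hg hS x i hC hclam (hb s hs0) Ps
            rw [← hC2] at h5
            split_ifs with h6
            · calc Awt l S tw s * _ ≤ Awt l S tw s * (ENNReal.ofReal C2 *
                    ENNReal.ofReal (1 + ‖deriv (S.c i) s‖)) := mul_le_mul' le_rfl h5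
                _ = _ := by unfold aV; ring
            · rw [zero_mul]
              exact bot_le
          · rw [indicator_of_notMem hs, QJ_of_notMem hs, zero_mul]
        have hsub : Ioc tw t ⊆ Icc 0 T := fun s hs => ⟨htw.1.trans hs.1.le, hs.2.trans htT⟩
        rcases le_or_gt tw t with htt | htt
        · have hr : AEMeasurable (rateT aV S) (volume.restrict (Ioc tw t)) :=
            aemeasurable_rateT meas_aV fun i => aemeasurable_curve hS hsub i
          calc ∑ i, ∫⁻ s : ℝ, QJ T l tw t S i s *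
                ∑ P ∈ Ps, (ENNReal.ofReal (Real.exp (2 * c * P.leaves)) *
                  ∫⁻ r : Space3 × Plane × Par P,
                    GJ Φ T (Dwin (nuF T f) tw) (fW T f c) S x i P s r)
              ≤ ∑ i, ∫⁻ s in Ioc tw t, ENNReal.ofReal C2 * ((if s < S.b i then
                  aV s (S.c i s) (deriv (S.c i) s) else 0) * Awt l S tw s) :=
                Finset.sum_le_sum fun i _ => hs i
            _ ≤ ∫⁻ s in Ioc tw t, ∑ i, ENNReal.ofReal C2 * ((if s < S.b i then
                  aV s (S.c i s) (deriv (S.c i) s) else 0) * Awt l S tw s) :=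
                sum_lintegral_le _ _ _
            _ = ENNReal.ofReal C2 * ∫⁻ s in Ioc tw t, rateT aV S s *
                  ENNReal.ofReal (Real.exp (l * (Prim383.R (rateT aV S) tw s).toReal)) := by
                rw [← lintegral_const_mul' _ _ ENNReal.ofReal_ne_top]
                refine lintegral_congr fun s => ?_
                rw [← Finset.mul_sum, ← Finset.sum_mul]
                rfl
            _ ≤ ENNReal.ofReal C2 * (ENNReal.ofReal (1 / l) * Awt l S tw t) := by
                refine mul_le_mul' le_rfl ?_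
                exact Prim383.lintegral_exp_prim htt hr (Gx_ne_top hS htw.1 htT) hl0
            _ ≤ 2⁻¹ * Awt l S tw t := by
                rw [← mul_assoc, ← ENNReal.ofReal_mul hC20]
                refine mul_le_mul' ?_ le_rfl
                have e2 : (2⁻¹ : ℝ≥0∞) = ENNReal.ofReal (1 / 2) := by
                  rw [one_div, ENNReal.ofReal_inv_of_pos two_pos]
                  simp
                rw [e2]
                refine ENNReal.ofReal_le_ofReal ?_
                rw [mul_one_div, div_le_div_iff₀ hl0 two_pos]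
                linarith
        · refine (Finset.sum_le_sum fun i _ => hs i).trans ?_
          rw [Ioc_eq_empty (not_lt.2 htt.le)]
          simp
    _ = 2⁻¹ * (Awt l S tw t * ∫⁻ x, φ x * dampG T f (S.shift x) tw) := by
        rw [← mul_assoc, ← lintegral_const_mul' _ _ (ENNReal.mul_ne_top (by simp) Awt_ne_top)]
        refine lintegral_congr fun x => ?_
        ring

end Crest.Agent.R122.GIVStep383
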