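import Crest.Agent.R122.OneCDefs_285

/-!
# INEQUALITY 1 (row 122, board H2): pointwise inequality for real contact structures

* `pairT` : the pair functional of a structure; `big` switch.
* `line3` : pointwise inequality on good structures.
* `line3b` : pointwise inequality on real structures, errors `bd`.
-/

set_option autoImplicit false
set_option linter.unusedSectionVars false

open MeasureTheory Set Filter
open scoped ENNReal Classical Topology
open Crest.AnalysisR.Kinetic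
open Crest.Agent.R122.Kin796 Crest.Agent.R122.Kin796.CTree Crest.Agent.R122.Tree674
open Crest.Agent.R122.Relabel674 Crest.Agent.R122.GC311 Crest.Agent.R122.Flow671
open Crest.Agent.R122.EDefs602 Crest.Agent.R122.TreeLines335 Crest.Agent.R122.Line285
open Crest.Agent.R122.Decomp285 Crest.Agent.R122.Disc416

noncomputable section

namespace Crest.Agent.R122.OneC285

variable {Φ : Space3 → ℝ} {ε : ℝ} {K : ℕ} {Q : EPar} {P : CTree}

theorem touchW_le_one (hL : 0 ≤ Q.L) {ι : Type} [Fintype ι] (Z : MW ι) (l : ML) :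
    Z.touchW Φ ε K Q l ≤ 1 := by
  unfold MW.touchW
  split_ifs
  · exact Weight984.W_le_one hL _
  · exact zero_le_one

/-- The three successors. -/
def suc (P : CTree) : Finset (Idx P ⊕ Bool) := {Sum.inl (root P), Sum.inr false, Sum.inr true}

/-- Tagged successors: touch functional and early touch. -/
def sucT (Φ : Space3 → ℝ) (ε : ℝ) (K : ℕ) (Q : EPar) (P : CTree) (z : PhasePoint × Par P)
    {m : ℕ} (w : Config m) (l : ML) : ℝ≥0∞ :=
  ∑ k ∈ suc P, ((MW.cfg w).touchW Φ ε K Q (oneLs Φ ε P z l k) +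
    tB Q.tw ((MW.cfg w).thetaL Φ ε K Q.te (oneLs Φ ε P z l k)))

/-- Pairs of lines of the structure, the first one an exit. -/
def pairT (Φ : Space3 → ℝ) (ε : ℝ) (K : ℕ) (Q : EPar) (P : CTree) (z : PhasePoint × Par P)
    {m : ℕ} (w : Config m) (l : ML) : ℝ≥0∞ :=
  ∑ d ∈ exS P, ∑ e ∈ Finset.univ.erase d,
    (MW.cfg w).touchP Φ ε K Q (oneLs Φ ε P z l d) (oneLs Φ ε P z l e)

/-- Exits: touch functional. -/
def exT (Φ : Space3 → ℝ) (ε : ℝ) (K : ℕ) (Q : EPar) (P : CTree) (z : PhasePoint × Par P)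
    {m : ℕ} (w : Config m) : ℝ≥0∞ :=
  ∑ i ∈ Finset.univ.filter (fun i : Idx P => i ≠ root P),
    (MW.cfg w).touchW Φ ε K Q (lineML Φ ε P z i)

/-- Exits: early touch. -/
def exB (Φ : Space3 → ℝ) (ε : ℝ) (K : ℕ) (Q : EPar) (P : CTree) (z : PhasePoint × Par P)
    {m : ℕ} (w : Config m) : ℝ≥0∞ :=
  ∑ i ∈ Finset.univ.filter (fun i : Idx P => i ≠ root P),
    tB Q.tw ((MW.cfg w).thetaL Φ ε K Q.te (lineML Φ ε P z i))

theorem univ_eq (P : CTree) : (Finset.univ : Finset (Idx P ⊕ Bool)) =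
    insert (Sum.inl (root P)) (insert (Sum.inr false) (insert (Sum.inr true) (exS P))) := by
  ext x
  simp only [Finset.mem_univ, Finset.mem_insert, exS, Finset.mem_map, Finset.mem_filter,
    true_and, true_iff, Function.Embedding.inl_apply]
  rcases x with i | b
  · by_cases hi : i = root P
    · exact Or.inl (by rw [hi])
    · exact Or.inr (Or.inr (Or.inr ⟨i, hi, rfl⟩))
  · cases b
    · exact Or.inr (Or.inl rfl)
    · exact Or.inr (Or.inr (Or.inl rfl))

theorem root_notMem (P : CTree) : (Sum.inl (root P) : Idx P ⊕ Bool) ∉ exS P := by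
  simp [exS]

theorem inr_notMem (P : CTree) (b : Bool) : (Sum.inr b : Idx P ⊕ Bool) ∉ exS P := by
  simp [exS]

theorem sum_exS {M : Type*} [AddCommMonoid M] (P : CTree) (F : Idx P ⊕ Bool → M) :
    ∑ d ∈ exS P, F d = ∑ i ∈ Finset.univ.filter (fun i : Idx P => i ≠ root P), F (Sum.inl i) := by
  unfold exS
  rw [Finset.sum_map]
  rfl

theorem oneLs_ne {z : PhasePoint × Par P} {l : ML} {i : Idx P} (hi : i ≠ root P) :
    oneLs Φ ε P z l (Sum.inl i) = lineML Φ ε P z i := by
  simp only [oneLs]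
  rw [if_neg hi]

/-- **Pointwise inequality on good structures.** -/
theorem line3 (hΦ : AdmissiblePotential Φ) (hε : 0 < ε) (hL : 0 < Q.L)
    {z : PhasePoint × Par P} {m : ℕ} {w : Config m} {l : ML}
    (h4 : Good4 Φ ε K Q.te P z w l) (big : Prop) [Decidable big] :
    (MW.cfg (Fin.append (cfT Φ ε P z) w)).touchW Φ ε K Q l ≤
      sucT Φ ε K Q P z w l +
      (if big then exT Φ ε K Q P z w else pairT Φ ε K Q P z w l) +
      exB Φ ε K Q P z w +
      ENNReal.ofReal Q.L * lineM Q.γ Q.ρ K Q.te (Nbad4 Φ ε K Q.te P z w l) := by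
  have h := pointwise_MWB hΦ hε (K := K) (P := Q) hL (MW.cfg w)
    (MW.cfg (Fin.append (cfT Φ ε P z) w)) (oneLs Φ ε P z l) (E := exS P)
    (c := Sum.inl (root P)) (l' := Sum.inr false) (c' := Sum.inr true) (root_notMem P)
    (inr_notMem P false) (inr_notMem P true) (by simp)
    (F := (Finset.univ : Finset (Idx P ⊕ Bool))) (by rw [univ_eq P]; congr!)
    (by convert h4.unl1) (by convert h4.unl2) (l := l)
    (by convert h4.one) big
  refine h.trans (le_of_eq ?_)
  refine congrArg₂ (· + ·) (congrArg₂ (· + ·) (congrArg₂ (· + ·) ?_ ?_) ?_) ?_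
  · unfold sucT suc
    congr!
  · by_cases hb : big
    · rw [if_pos hb, if_pos hb, sum_exS]
      unfold exT
      refine Finset.sum_congr rfl fun i hi => ?_
      rw [oneLs_ne (Finset.mem_filter.1 hi).2]
    · rw [if_neg hb, if_neg hb]
      unfold pairT
      refine Finset.sum_congr rfl fun d _ => ?_
      congr!
  · rw [sum_exS]
    unfold exB
    refine Finset.sum_congr rfl fun i hi => ?_
    rw [oneLs_ne (Finset.mem_filter.1 hi).2]
  · unfold Nbad4
    congr!

theorem leaves_pos (P : CTree) : 0 < P.leaves := by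
  rw [← card_idx P]
  exact Fintype.card_pos_iff.2 ⟨root P⟩

/-- Sum of the pieces of the majorant of a contact structure. -/
def majT (Φ : Space3 → ℝ) (ε : ℝ) (K : ℕ) (Q : EPar) (T' : ℝ) (m₀ : ℕ) (bd : SF) (P : CTree)
    (z : PhasePoint × Par P) (m : ℕ) (w : Config m) (l : ML) : ℝ≥0∞ :=
  (if P.leaves ≤ K ∧ K < l.2 + P.leaves then 1 else 0) * uI Φ ε Q.tw P z w +
  (smI K P l * (uI Φ ε Q.tw P z w * sucT Φ ε K Q P z w l) +
  ((if m₀ < P.leaves ∧ Sep Φ ε P T' z.1 z.2 then smI K P l else 0) *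
    (uI Φ ε Q.tw P z w * exT Φ ε K Q P z w) +
  ((if P.leaves ≤ m₀ then smI K P l else 0) * pairT Φ ε K Q P z w l +
  ((if 0 < P.leaves ∧ Sep Φ ε P T' z.1 z.2 then smI K P l else 0) *
    (uI Φ ε Q.tw P z w * exB Φ ε K Q P z w) +
  (1 + ENNReal.ofReal Q.L) * bd P z m w l))))

/-- **Pointwise inequality on real structures.** -/
theorem line3b (hΦ : AdmissiblePotential Φ) (hε : 0 < ε) (hL : 0 < Q.L) (m₀ : ℕ) {bd : SF}
    {T' : ℝ} {z : PhasePoint × Par P} {m : ℕ} {w : Config m} {l : ML} (hPK : P.leaves ≤ K)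
    (hsep : Sep Φ ε P T' z.1 z.2)
    (hu : GIV566.unhit Φ ε (ptube Φ ε P z) Q.tw w)
    (hbd : l.2 + P.leaves ≤ K → (if Good4 Φ ε K Q.te P z w l then
        lineM Q.γ Q.ρ K Q.te (Nbad4 Φ ε K Q.te P z w l) else 1) ≤ bd P z m w l) :
    (MW.cfg (Fin.append (cfT Φ ε P z) w)).touchW Φ ε K Q l ≤
      majT Φ ε K Q T' m₀ bd P z m w l := by
  have huI : uI Φ ε Q.tw P z w = 1 := by
    unfold uI GIV566.unhitInd
    rw [if_pos hu]
  unfold majT
  have hex : ∀ q : Prop, (q ∧ Sep Φ ε P T' z.1 z.2) = q := fun q =>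
    propext ⟨fun h => h.1, fun h => ⟨h, hsep⟩⟩
  simp only [hex, leaves_pos P, if_true]
  rw [huI]
  by_cases hs : l.2 + P.leaves ≤ K
  swap
  · rw [if_pos ⟨hPK, not_le.1 hs⟩, one_mul]
    exact (touchW_le_one hL.le _ _).trans le_self_add
  have hsm : smI K P l = 1 := if_pos hs
  rw [hsm]
  by_cases h4 : Good4 Φ ε K Q.te P z w l
  · refine (line3 hΦ hε hL h4 (m₀ < P.leaves)).trans ?_
    have hN : ENNReal.ofReal Q.L * lineM Q.γ Q.ρ K Q.te (Nbad4 Φ ε K Q.te P z w l) ≤
        (1 + ENNReal.ofReal Q.L) * bd P z m w l := by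
      refine mul_le_mul' le_add_self ?_
      have := hbd hs
      rw [if_pos h4] at this
      exact this
    have hmid : (if m₀ < P.leaves then exT Φ ε K Q P z w else pairT Φ ε K Q P z w l) ≤
        (if m₀ < P.leaves then (1 : ℝ≥0∞) else 0) * (1 * exT Φ ε K Q P z w) +
        (if P.leaves ≤ m₀ then (1 : ℝ≥0∞) else 0) * pairT Φ ε K Q P z w l := by
      by_cases hb : m₀ < P.leaves
      · rw [if_pos hb, if_pos hb, if_neg (not_le.2 hb), one_mul, one_mul, zero_mul, add_zero]
      · rw [if_neg hb, if_neg hb, if_pos (not_lt.1 hb), zero_mul, zero_add, one_mul]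
    calc sucT Φ ε K Q P z w l +
          (if m₀ < P.leaves then exT Φ ε K Q P z w else pairT Φ ε K Q P z w l) +
          exB Φ ε K Q P z w +
          ENNReal.ofReal Q.L * lineM Q.γ Q.ρ K Q.te (Nbad4 Φ ε K Q.te P z w l)
        ≤ sucT Φ ε K Q P z w l +
          ((if m₀ < P.leaves then (1 : ℝ≥0∞) else 0) * (1 * exT Φ ε K Q P z w) +
            (if P.leaves ≤ m₀ then (1 : ℝ≥0∞) else 0) * pairT Φ ε K Q P z w l) +
          exB Φ ε K Q P z w + (1 + ENNReal.ofReal Q.L) * bd P z m w l :=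
          add_le_add (add_le_add (add_le_add le_rfl hmid) le_rfl) hN
      _ = 1 * (1 * sucT Φ ε K Q P z w l) +
          ((if m₀ < P.leaves then (1 : ℝ≥0∞) else 0) * (1 * exT Φ ε K Q P z w) +
          ((if P.leaves ≤ m₀ then (1 : ℝ≥0∞) else 0) * pairT Φ ε K Q P z w l +
          (1 * (1 * exB Φ ε K Q P z w) + (1 + ENNReal.ofReal Q.L) * bd P z m w l))) := by
          simp only [one_mul]
          ring
      _ ≤ _ := le_add_self
  · have hN : (1 : ℝ≥0∞) ≤ (1 + ENNReal.ofReal Q.L) * bd P z m w l := by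
      have h1 := hbd hs
      rw [if_neg h4] at h1
      calc (1 : ℝ≥0∞) = 1 * 1 := (one_mul 1).symm
        _ ≤ _ := mul_le_mul' le_self_add h1
    exact (touchW_le_one hL.le _ _).trans (hN.trans (le_add_self.trans (le_add_self.trans
      (le_add_self.trans (le_add_self.trans le_add_self)))))

end Crest.Agent.R122.OneC285

end
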