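import Crest.Agent.R122.RealTree_674
import Crest.Agent.R122.ClusterBC_311
import Crest.Agent.R122.GIVDefs_566
import Crest.Agent.R122.Band1_974
import Crest.Agent.R122.HidMeas_424

/-!
Row 122, block C (helper674): measurability and covariance of the events "the real history of
`(i, t)` is a collision tree" (`Good`), "… and the rest of the gas, alone, does not hit the protected
tubes" (`Clean`).
-/

set_option autoImplicit false
set_option synthInstance.maxSize 1024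

open MeasureTheory Set Filter Topology
open Crest.AnalysisR.Kinetic
open scoped ENNReal Classical

noncomputable section

namespace Crest.Agent.R122.RealTree674

open Kin796 Kin796.CTree Disc416 Scat818 Flow671 Flux663 Tree674 Final973 Causal291 GC311
  Relabel674 Master566 GIV566

variable {Φ : Space3 → ℝ} {ε t : ℝ}

section iffs

variable {κ : Type} [Fintype κ] {Z : κ → PhasePoint} {i : κ} {P : CTree} {ℓ : PhasePoint}
  {p : Par P} {e : Idx P → κ}

/-- Real trees in terms of cluster and last activity times. -/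
theorem realTree_iff (hΦ : AdmissiblePotential Φ) (hε : 0 < ε) (ht : 0 ≤ t) (hZ : Z ∈ Dom Φ κ) :
    RealTree Φ ε t Z i P ℓ p e ↔ Valid Φ ε P t ℓ.2 p ∧ Sep Φ ε P t ℓ p ∧
      e (Tree674.root P) = i ∧ Function.Injective e ∧ (∀ k, Z (e k) = lines Φ ε P ℓ p k) ∧
      bc Φ ε Z t i = range e ∧
      ∀ m, Causal291.tau (Ct (pth Φ ε Z) ε) t i (e m) = prot P t p m := by
  constructor
  · intro h
    exact ⟨h.valid, h.sep, h.root, h.inj, fun k => h.lines_eq hΦ hε ht k, h.bc_eq hε ht,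
      fun m => h.tau_eq hε ht m⟩
  · rintro ⟨hv, hs, hr, hi, hl, hb, hτ⟩
    have hC : ∀ j k, IsClosed {s | Ct (pth Φ ε Z) ε s j k} := isClosed_ct_pth hΦ hε Z
    refine RealTree.of_past hΦ hε ht hZ hv hs hr hi hl ?_
    intro u hu j
    constructor
    · intro h
      have h0 : Past (Ct (pth Φ ε Z) ε) t i 0 j := h.mono hu.1
      have h1 : j ∈ bc Φ ε Z t i := h0
      rw [hb] at h1
      obtain ⟨m, rfl⟩ := h1
      exact ⟨m, rfl, (le_tau h).trans_eq (hτ m)⟩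
    · rintro ⟨m, rfl, hm⟩
      have h1 : e m ∈ bc Φ ε Z t i := by rw [hb]; exact mem_range_self m
      have h0 : Past (Ct (pth Φ ε Z) ε) t i 0 (e m) := h1
      rw [past_iff_le_tau hC h0, hτ m]
      exact hm

end iffs

/-! ### Relabelling -/

theorem realTree_equiv (hΦ : AdmissiblePotential Φ) (hε : 0 < ε) {ι κ : Type} [Fintype ι]
    [Fintype κ] (σ : ι ≃ κ) (Z : κ → PhasePoint) (i : ι) {P : CTree} {ℓ : PhasePoint} {p : Par P}
    (e : Idx P → ι) : RealTree Φ ε t (fun j => Z (σ j)) i P ℓ p e ↔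
      RealTree Φ ε t Z (σ i) P ℓ p (fun k => σ (e k)) := by
  have hp : ∀ u k, pth Φ ε (fun j => Z (σ j)) u (e k) = pth Φ ε Z u (σ (e k)) := fun u k =>
    congrFun (Loc45.flow_equiv hΦ hε σ u Z) (e k)
  constructor
  · intro h
    refine ⟨h.valid, h.sep, congrArg σ h.root, σ.injective.comp h.inj, fun k u hu0 hu => ?_,
      fun u hu j => ?_⟩
    · rw [← hp]; exact h.agree k u hu0 hu
    · obtain ⟨j', rfl⟩ := σ.surjective j
      rw [← past_pth_equiv hΦ hε σ Z t u i j', h.past u hu j']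
      simp only [σ.injective.eq_iff]
  · intro h
    refine ⟨h.valid, h.sep, σ.injective h.root, fun k k' hk => h.inj (congrArg σ hk),
      fun k u hu0 hu => ?_, fun u hu j => ?_⟩
    · rw [hp]; exact h.agree k u hu0 hu
    · rw [past_pth_equiv hΦ hε σ Z t u i j, h.past u hu (σ j)]
      simp only [σ.injective.eq_iff]

theorem good_equiv (hΦ : AdmissiblePotential Φ) (hε : 0 < ε) {ι κ : Type} [Fintype ι]
    [Fintype κ] (σ : ι ≃ κ) (Z : κ → PhasePoint) (i : ι) :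
    Good Φ ε t (fun j => Z (σ j)) i ↔ Good Φ ε t Z (σ i) := by
  constructor
  · rintro ⟨P, ℓ, p, e, h⟩
    exact ⟨P, ℓ, p, _, (realTree_equiv hΦ hε σ Z i e).1 h⟩
  · rintro ⟨P, ℓ, p, e, h⟩
    refine ⟨P, ℓ, p, fun k => σ.symm (e k), (realTree_equiv hΦ hε σ Z i _).2 ?_⟩
    simpa using h

/-! ### Measurability -/

section meas

variable {κ : Type} [Fintype κ]

theorem measurableSet_Dom (Φ : Space3 → ℝ) (κ : Type) [Fintype κ] :
    MeasurableSet (Dom Φ κ) := by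
  unfold Dom
  by_cases h : ContDiff ℝ 2 Φ
  · simp only [h, true_or]
    exact MeasurableSet.univ
  · simp only [h, false_or]
    have : {Z : κ → PhasePoint | ∀ i j, i ≠ j → (Z i).1 ≠ (Z j).1} =
        ⋂ i, ⋂ j, ⋂ _ : i ≠ j, {Z : κ → PhasePoint | (Z i).1 = (Z j).1}ᶜ := by
      ext Z; simp
    rw [this]
    refine MeasurableSet.iInter fun i => MeasurableSet.iInter fun j => MeasurableSet.iInter
      fun _ => MeasurableSet.compl ?_
    exact measurableSet_eq_fun (measurable_pi_apply i).fst (measurable_pi_apply j).fst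

/-- **Joint measurability of the real history event**, with a measurable condition on the tree
parameters and the configuration. -/
theorem measurableSet_real (hΦ : AdmissiblePotential Φ) (hε : 0 < ε) (i : κ) (P : CTree)
    (e : Idx P → κ) (T : ℝ)
    {Q : Set (ℝ × ((PhasePoint × Par P) × (κ → PhasePoint)))} (hQ : MeasurableSet Q) :
    MeasurableSet {q : ℝ × (κ → PhasePoint) | (0 ≤ q.1 ∧ q.1 ≤ T ∧ q.2 ∈ Dom Φ κ) ∧
      ∃ (ℓ : PhasePoint) (p : Par P), RealTree Φ ε q.1 q.2 i P ℓ p e ∧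
        (q.1, ((ℓ, p), q.2)) ∈ Q} := by
  by_cases hri : e (Tree674.root P) = i ∧ Function.Injective e
  swap
  · have : {q : ℝ × (κ → PhasePoint) | (0 ≤ q.1 ∧ q.1 ≤ T ∧ q.2 ∈ Dom Φ κ) ∧
        ∃ (ℓ : PhasePoint) (p : Par P), RealTree Φ ε q.1 q.2 i P ℓ p e ∧
        (q.1, ((ℓ, p), q.2)) ∈ Q} = ∅ := by
      ext q
      simp only [mem_ofPred_eq, mem_empty_iff_false, iff_false]
      rintro ⟨_, ℓ, p, h, _⟩
      exact hri ⟨h.root, h.inj⟩
    rw [this]
    exact MeasurableSet.empty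
  obtain ⟨hr, hi⟩ := hri
  -- the restriction and its parameters
  have hres : Measurable fun q : ℝ × (κ → PhasePoint) => (fun x => q.2 (e x) : Idx P → PhasePoint) :=
    measurable_pi_iff.2 fun x => (measurable_pi_apply (e x)).comp measurable_snd
  set I : ℝ × (κ → PhasePoint) → PhasePoint × Par P := fun q =>
    Tree674.inv Φ ε P T (fun x => q.2 (e x)) with hI
  have hIm : Measurable I := (measurable_inv hΦ hε P T).comp hres
  have hset : {q : ℝ × (κ → PhasePoint) | (0 ≤ q.1 ∧ q.1 ≤ T ∧ q.2 ∈ Dom Φ κ) ∧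
      ∃ (ℓ : PhasePoint) (p : Par P), RealTree Φ ε q.1 q.2 i P ℓ p e ∧
        (q.1, ((ℓ, p), q.2)) ∈ Q} =
      {q | 0 ≤ q.1} ∩ ({q | q.1 ≤ T} ∩ ({q | q.2 ∈ Dom Φ κ} ∩
      ({q | (fun x => q.2 (e x)) ∈ Skel Φ ε P T} ∩
      ({q | Valid Φ ε P q.1 (I q).1.2 (I q).2 ∧ Sep Φ ε P q.1 (I q).1 (I q).2} ∩
      ({q | BC (Ct (pth Φ ε q.2) ε) q.1 i = range e} ∩
      ((⋂ m, {q | Causal291.tau (Ct (pth Φ ε q.2) ε) q.1 i (e m) = prot P q.1 (I q).2 m}) ∩
      {q | (q.1, (I q, q.2)) ∈ Q})))))) := by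
    ext q
    simp only [mem_inter_iff, mem_ofPred_eq, mem_iInter]
    constructor
    · rintro ⟨⟨h0, hT, hD⟩, ℓ, p, h, hq⟩
      have h1 := (realTree_iff hΦ hε h0 hD).1 h
      obtain ⟨hv, hs, -, -, hl, hb, hτ⟩ := h1
      have hl' : (fun x => q.2 (e x)) = lines Φ ε P ℓ p := funext hl
      have hIq : I q = (ℓ, p) := by
        rw [hI]
        show Tree674.inv Φ ε P T (fun x => q.2 (e x)) = (ℓ, p)
        rw [hl']
        exact inv_lines hΦ hε hv hT
      rw [hIq]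
      exact ⟨h0, hT, hD, ⟨ℓ, p, ((valid_iff_top hT).1 hv).1, hl'.symm⟩, ⟨hv, hs⟩, hb, hτ, hq⟩
    · rintro ⟨h0, hT, hD, hsk, ⟨hv, hs⟩, hb, hτ, hq⟩
      obtain ⟨_, hl⟩ := lines_inv hΦ hε hsk
      refine ⟨⟨h0, hT, hD⟩, (I q).1, (I q).2, (realTree_iff hΦ hε h0 hD).2
        ⟨hv, hs, hr, hi, fun k => ?_, hb, hτ⟩, hq⟩
      exact (congrFun hl k).symm
  rw [hset]
  refine (measurableSet_le measurable_const measurable_fst).inter
    ((measurableSet_le measurable_fst measurable_const).inter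
    ((measurable_snd (measurableSet_Dom Φ κ)).inter
    ((hres (measurableSet_skel hΦ hε P T)).inter
    (((measurable_fst.prodMk hIm) (measurableSet_validSep2 hΦ hε P)).inter
    ((measurableSet_BC_eq_pth hΦ hε i (range e)).inter
    ((MeasurableSet.iInter fun m => ?_).inter ?_))))))
  · exact measurableSet_eq_fun (measurable_tau_pth hΦ hε i (e m))
      ((measurable_prot P m).comp (measurable_fst.prodMk hIm.snd))
  · exact (measurable_fst.prodMk (hIm.prodMk measurable_snd)) hQ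

/-- `Good` is jointly measurable in the final time and the configuration. -/
theorem measurableSet_good (hΦ : AdmissiblePotential Φ) (hε : 0 < ε) (i : κ) (T : ℝ) :
    MeasurableSet {q : ℝ × (κ → PhasePoint) | (0 ≤ q.1 ∧ q.1 ≤ T ∧ q.2 ∈ Dom Φ κ) ∧
      Good Φ ε q.1 q.2 i} := by
  have h : {q : ℝ × (κ → PhasePoint) | (0 ≤ q.1 ∧ q.1 ≤ T ∧ q.2 ∈ Dom Φ κ) ∧
      Good Φ ε q.1 q.2 i} = ⋃ P : CTree, ⋃ e : Idx P → κ,
      {q : ℝ × (κ → PhasePoint) | (0 ≤ q.1 ∧ q.1 ≤ T ∧ q.2 ∈ Dom Φ κ) ∧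
      ∃ (ℓ : PhasePoint) (p : Par P), RealTree Φ ε q.1 q.2 i P ℓ p e ∧
        (q.1, ((ℓ, p), q.2)) ∈ (univ : Set (ℝ × ((PhasePoint × Par P) × (κ → PhasePoint))))} := by
    ext q
    simp only [mem_ofPred_eq, mem_iUnion, mem_univ, and_true]
    constructor
    · rintro ⟨h0, P, ℓ, p, e, h⟩
      exact ⟨P, e, h0, ℓ, p, h⟩
    · rintro ⟨P, e, h0, ℓ, p, h⟩
      exact ⟨h0, P, ℓ, p, e, h⟩
  rw [h]
  exact MeasurableSet.iUnion fun P => MeasurableSet.iUnion fun e =>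
    measurableSet_real hΦ hε i P e T MeasurableSet.univ

/-- The particles outside of the range of `e`, alone, do not hit the tubes `S`. -/
def OutUnhit (Φ : Space3 → ℝ) (ε t : ℝ) {κ : Type} [Fintype κ] (Z : κ → PhasePoint) {ι : Type}
    (e : ι → κ) {ι' : Type} (S : Tubes ι') : Prop :=
  unhit Φ ε S t (fun j : {j : κ // j ∉ range e} => Z j)

/-- The real history of `(i, t)` is a tree and the rest of the gas, alone, does not hit the
protected tubes. -/
def Clean (Φ : Space3 → ℝ) (ε t : ℝ) {κ : Type} [Fintype κ] (Z : κ → PhasePoint) (i : κ) : Prop :=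
  ∃ (P : CTree) (ℓ : PhasePoint) (p : Par P) (e : Idx P → κ), RealTree Φ ε t Z i P ℓ p e ∧
    OutUnhit Φ ε t Z e (Band974.PT Φ ε P t ℓ p)

theorem Clean.good {Z : κ → PhasePoint} {i : κ} (h : Clean Φ ε t Z i) : Good Φ ε t Z i := by
  obtain ⟨P, ℓ, p, e, h, _⟩ := h
  exact ⟨P, ℓ, p, e, h⟩

/-- measurable version of the protected tubes -/
def PTm (Φ : Space3 → ℝ) (ε : ℝ) (P : CTree) (t : ℝ) (ℓ : PhasePoint) (p : Par P) :
    Tubes (Idx P) := ⟨Hid424.curveM Φ ε P ℓ p, prot P t p⟩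

theorem unhit_PT_iff (hΦ : AdmissiblePotential Φ) (hε : 0 < ε) {P : CTree} {ℓ : PhasePoint}
    {p : Par P} (hv : Valid Φ ε P t ℓ.2 p) (hs : Sep Φ ε P t ℓ p) {ι : Type*} [Fintype ι]
    (w : ι → PhasePoint) : unhit Φ ε (Band974.PT Φ ε P t ℓ p) t w ↔
      unhit Φ ε (PTm Φ ε P t ℓ p) t w := by
  refine GIVUse424.unhit_congr rfl fun i s hs' => ?_
  show (path Φ ε P ℓ p s i).1 = Hid424.curveM Φ ε P ℓ p i s
  rw [Hid424.curveM_of_adm (ℓ := ℓ) hv.1]
  obtain ⟨X, v⟩ := ℓ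
  exact (Hid424.curve_eq_path hΦ hε hv hs ⟨hs'.1, hs'.2.trans (min_le_right _ _)⟩ i).symm

theorem measurableSet_unhit' (hΦ : AdmissiblePotential Φ) (hε : 0 < ε)
    {Ω : Type*} [MeasurableSpace Ω] {ι : Type*} [Fintype ι] {w : Ω → ι → PhasePoint}
    (hw : Measurable w) {ι' : Type} [Finite ι'] {S : Ω → Tubes ι'}
    (hc : ∀ ω i, Continuous ((S ω).c i)) (hcm : ∀ i s, Measurable fun ω => (S ω).c i s)
    (hb : ∀ i, Measurable fun ω => (S ω).b i) {t : Ω → ℝ} (ht : Measurable t) :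
    MeasurableSet {ω | unhit Φ ε (S ω) (t ω) (w ω)} :=
  Hid424.measurableSet_unhit hΦ hε (c := fun ω => (S ω).c) hc hcm (b := fun ω => (S ω).b) hb hw ht

theorem measurableSet_unhit_PTm (hΦ : AdmissiblePotential Φ) (hε : 0 < ε)
    {Ω : Type*} [MeasurableSpace Ω] {ι : Type*} [Fintype ι] {w : Ω → ι → PhasePoint}
    (hw : Measurable w) (P : CTree) {z : Ω → PhasePoint × Par P} (hz : Measurable z)
    {t : Ω → ℝ} (ht : Measurable t) :
    MeasurableSet {ω | unhit Φ ε (PTm Φ ε P (t ω) (z ω).1 (z ω).2) (t ω) (w ω)} :=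
  measurableSet_unhit' hΦ hε hw
    (S := fun ω => PTm Φ ε P (t ω) (z ω).1 (z ω).2)
    (fun ω i => Hid424.continuous_curveM hΦ hε P (z ω).1 (z ω).2 i)
    (fun i s => (Hid424.measurable_curveM hΦ hε P i).comp
      (f := fun ω => (s, z ω)) (measurable_const.prodMk hz))
    (fun i => (measurable_prot P i).comp (f := fun ω => (t ω, (z ω).2))
      (ht.prodMk hz.snd)) ht

theorem measurableSet_outUnhit_PTm (hΦ : AdmissiblePotential Φ) (hε : 0 < ε)
    {Ω : Type*} [MeasurableSpace Ω] {Z : Ω → κ → PhasePoint} (hZ : Measurable Z)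
    {ι : Type} (e : ι → κ) (P : CTree) {z : Ω → PhasePoint × Par P} (hz : Measurable z)
    {t : Ω → ℝ} (ht : Measurable t) :
    MeasurableSet {ω | OutUnhit Φ ε (t ω) (Z ω) e (PTm Φ ε P (t ω) (z ω).1 (z ω).2)} :=
  measurableSet_unhit_PTm hΦ hε (w := fun ω => fun j : {j : κ // j ∉ range e} => Z ω j)
    (measurable_pi_iff.2 fun j => (measurable_pi_apply (j : κ)).comp hZ) P hz ht

theorem outUnhit_PT_iff (hΦ : AdmissiblePotential Φ) (hε : 0 < ε) {P : CTree} {ℓ : PhasePoint}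
    {p : Par P} (hv : Valid Φ ε P t ℓ.2 p) (hs : Sep Φ ε P t ℓ p) (Z : κ → PhasePoint)
    {ι : Type} (e : ι → κ) : OutUnhit Φ ε t Z e (Band974.PT Φ ε P t ℓ p) ↔
      OutUnhit Φ ε t Z e (PTm Φ ε P t ℓ p) :=
  unhit_PT_iff hΦ hε hv hs _

/-- `Clean` is jointly measurable in the final time and the configuration. -/
theorem measurableSet_clean (hΦ : AdmissiblePotential Φ) (hε : 0 < ε) (i : κ) (T : ℝ) :
    MeasurableSet {q : ℝ × (κ → PhasePoint) | (0 ≤ q.1 ∧ q.1 ≤ T ∧ q.2 ∈ Dom Φ κ) ∧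
      Clean Φ ε q.1 q.2 i} := by
  have h : {q : ℝ × (κ → PhasePoint) | (0 ≤ q.1 ∧ q.1 ≤ T ∧ q.2 ∈ Dom Φ κ) ∧
      Clean Φ ε q.1 q.2 i} = ⋃ P : CTree, ⋃ e : Idx P → κ,
      {q : ℝ × (κ → PhasePoint) | (0 ≤ q.1 ∧ q.1 ≤ T ∧ q.2 ∈ Dom Φ κ) ∧
      ∃ (ℓ : PhasePoint) (p : Par P), RealTree Φ ε q.1 q.2 i P ℓ p e ∧
        (q.1, ((ℓ, p), q.2)) ∈ {r : ℝ × ((PhasePoint × Par P) × (κ → PhasePoint)) |
          OutUnhit Φ ε r.1 r.2.2 e (PTm Φ ε P r.1 r.2.1.1 r.2.1.2)}} := by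
    ext q
    simp only [mem_ofPred_eq, mem_iUnion]
    constructor
    · rintro ⟨h0, P, ℓ, p, e, h, hu⟩
      exact ⟨P, e, h0, ℓ, p, h, (outUnhit_PT_iff hΦ hε h.valid h.sep _ _).1 hu⟩
    · rintro ⟨P, e, h0, ℓ, p, h, hu⟩
      exact ⟨h0, P, ℓ, p, e, h, (outUnhit_PT_iff hΦ hε h.valid h.sep _ _).2 hu⟩
  rw [h]
  refine MeasurableSet.iUnion fun P => MeasurableSet.iUnion fun e =>
    measurableSet_real hΦ hε i P e T ?_
  exact measurableSet_outUnhit_PTm hΦ hε
    (Ω := ℝ × ((PhasePoint × Par P) × (κ → PhasePoint))) (Z := fun r => r.2.2)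
    measurable_snd.snd e P (z := fun r => r.2.1) measurable_snd.fst (t := fun r => r.1)
    measurable_fst

end meas

theorem outUnhit_equiv (hΦ : AdmissiblePotential Φ) (hε : 0 < ε) {ι κ : Type} [Fintype ι]
    [Fintype κ] (σ : ι ≃ κ) (Z : κ → PhasePoint) {α β : Type} (e : α → ι) (S : Tubes β) :
    OutUnhit Φ ε t (fun j => Z (σ j)) e S ↔ OutUnhit Φ ε t Z (fun k => σ (e k)) S := by
  have hσ : ∀ a : ι, a ∉ range e ↔ σ a ∉ range fun k => σ (e k) := by
    intro a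
    rw [not_iff_not]
    constructor
    · rintro ⟨m, rfl⟩; exact ⟨m, rfl⟩
    · rintro ⟨m, hm⟩; exact ⟨m, σ.injective hm⟩
  let τ : {j : ι // j ∉ range e} ≃ {j : κ // j ∉ range fun k => σ (e k)} :=
    σ.subtypeEquiv hσ
  exact unhit_relabel (w := fun j : {j : κ // j ∉ range fun k => σ (e k)} => Z j) τ
    fun s j => congrFun (Loc45.flow_equiv hΦ hε τ s
      (fun j : {j : κ // j ∉ range fun k => σ (e k)} => Z j)) j

theorem outUnhit_of_equiv (hΦ : AdmissiblePotential Φ) (hε : 0 < ε) {κ κ' : Type} [Fintype κ]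
    [Fintype κ'] (Z : κ → PhasePoint) {α β : Type} (e : α → κ) (S : Tubes β)
    (τ : κ' ≃ {j : κ // j ∉ range e}) {w : κ' → PhasePoint} (hw : ∀ a, Z (τ a) = w a) :
    OutUnhit Φ ε t Z e S ↔ unhit Φ ε S t w := by
  have h1 : w = fun a => (fun j : {j : κ // j ∉ range e} => Z j) (τ a) :=
    funext fun a => (hw a).symm
  rw [h1]
  exact (unhit_relabel (w := fun j : {j : κ // j ∉ range e} => Z j) τ
    fun s j => congrFun (Loc45.flow_equiv hΦ hε τ s
      (fun j : {j : κ // j ∉ range e} => Z j)) j).symm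

theorem clean_equiv (hΦ : AdmissiblePotential Φ) (hε : 0 < ε) {ι κ : Type} [Fintype ι]
    [Fintype κ] (σ : ι ≃ κ) (Z : κ → PhasePoint) (i : ι) :
    Clean Φ ε t (fun j => Z (σ j)) i ↔ Clean Φ ε t Z (σ i) := by
  constructor
  · rintro ⟨P, ℓ, p, e, h, hu⟩
    exact ⟨P, ℓ, p, _, (realTree_equiv hΦ hε σ Z i e).1 h, (outUnhit_equiv hΦ hε σ Z e _).1 hu⟩
  · rintro ⟨P, ℓ, p, e, h, hu⟩
    have he : (fun k => σ ((fun k => σ.symm (e k)) k)) = e := by
      funext k; exact σ.apply_symm_apply _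
    refine ⟨P, ℓ, p, fun k => σ.symm (e k), (realTree_equiv hΦ hε σ Z i _).2 ?_,
      (outUnhit_equiv hΦ hε σ Z _ _).2 ?_⟩
    · rw [he]; exact h
    · rw [he]; exact hu

end Crest.Agent.R122.RealTree674

end
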