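import Crest.Agent.R122.SplitE4_285
import Crest.Agent.R122.Line3_285
import Crest.Agent.R122.RealMeas_674
import Crest.Agent.R122.MeasEDefs_416

/-!
# INEQUALITY 1 (row 122, board H2), gas level, part A: split of `XE`

* `gInt` : integral over the lines born at time `τ` (Gaussian, marks).
* `gInt_eq` : the same as an integral with respect to `baseM (dirac τ)`.
* `XE_split` : `XE τ ≤ born in contact + direct + ∑_i 1[clM ≠ ∅]`.
* `XE_mecke` : the cluster term opened by Mecke.
-/

set_option autoImplicit false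
set_option linter.unusedSectionVars false

open MeasureTheory Set Filter
open scoped ENNReal Classical Topology
open Crest.AnalysisR.Kinetic
open Crest.Agent.R122.GC311 Crest.Agent.R122.Flow671
open Crest.Agent.R122.EDefs602 Crest.Agent.R122.Unw410 Crest.Agent.R122.Direct658
open Crest.Agent.R122.OC285

noncomputable section

namespace Crest.Agent.R122.OneC285

variable {Φ : Space3 → ℝ} {f₀ : PhasePoint → ℝ} {ε : ℝ} {K : ℕ} {P : EPar} {τ : ℝ}

/-- Integral over the marked lines born at time `τ`. -/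
def gInt (γ : ℝ → ℝ) (ρ : ℝ≥0∞) (K : ℕ) (τ : ℝ) (F : ML → ℝ≥0∞) : ℝ≥0∞ :=
  ∫⁻ v : Space3, Kin796.wG (γ τ) v * ∫⁻ y : Space3, ∑' k : ℕ, markW ρ K k * F ((τ, (y, v)), k)

theorem gInt_mono {γ : ℝ → ℝ} {ρ : ℝ≥0∞} {F G : ML → ℝ≥0∞}
    (h : ∀ l : ML, l.1.1 = τ → 1 ≤ l.2 → l.2 ≤ K → F l ≤ G l) :
    gInt γ ρ K τ F ≤ gInt γ ρ K τ G := by
  unfold gInt
  refine lintegral_mono fun v => mul_le_mul' le_rfl (lintegral_mono fun y =>
    ENNReal.tsum_le_tsum fun k => ?_)
  by_cases hk : 1 ≤ k ∧ k ≤ K
  · exact mul_le_mul' le_rfl (h _ rfl hk.1 hk.2)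
  · unfold markW
    rw [if_neg hk, zero_mul, zero_mul]

theorem measurable_born (hΦ : AdmissiblePotential Φ) (hε : 0 < ε) (n : ℕ) :
    Measurable fun q : Config n × ML => if BornIn Φ ε q.1 q.2 then (1 : ℝ≥0∞) else 0 := by
  refine Measurable.ite ?_ measurable_const measurable_const
  have h : {q : Config n × ML | BornIn Φ ε q.1 q.2} =
      ⋃ i : Fin n, {q | dist q.2.1.2.1 (flow Φ ε q.2.1.1 q.1 i).1 ≤ ε} := by
    ext q
    simp only [BornIn, mem_ofPred_eq, mem_iUnion]
  rw [h]
  refine MeasurableSet.iUnion fun i => measurableSet_le ?_ measurable_const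
  have h1 : Measurable fun q : Config n × ML => flow Φ ε q.2.1.1 q.1 :=
    (Flow671.measurable_flow_joint (ι := Fin n) hΦ hε).comp
      (f := fun q : Config n × ML => (q.2.1.1, q.1))
      ((measurable_fst.comp (measurable_fst.comp measurable_snd)).prodMk measurable_fst)
  have h2 : Measurable fun q : Config n × ML => (flow Φ ε q.2.1.1 q.1 i).1 :=
    measurable_fst.comp ((measurable_pi_apply i).comp h1)
  exact (measurable_fst.comp (measurable_snd.comp (measurable_fst.comp measurable_snd))).dist h2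

/-- The lines born at time `τ` as an integral with respect to `baseM (dirac τ)`. -/
theorem gInt_eq {γ : ℝ → ℝ} (hγ : Measurable γ) {ρ : ℝ≥0∞} {F : ML → ℝ≥0∞} (hF : Measurable F) :
    gInt γ ρ K τ F = ∫⁻ l, lineD γ ρ K l * F l ∂(OneC423.baseM (Measure.dirac τ)) := by
  have hm : Measurable fun l : ML => lineD γ ρ K l * F l :=
    (EBasic602.measurable_lineD hγ).mul hF
  rw [OneC423.lintegral_baseM _ hm]
  have h0 : ∀ n : ℕ, Measurable fun q : (ℝ × Space3) × Space3 => (((q.1.1, (q.2, q.1.2)), n) : ML) :=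
    fun n => by fun_prop
  have h1 : ∀ n : ℕ, Measurable fun q : ℝ × Space3 =>
      ∫⁻ y : Space3, lineD γ ρ K ((q.1, (y, q.2)), n) * F ((q.1, (y, q.2)), n) := fun n =>
    (hm.comp (h0 n)).lintegral_prod_right'
  have h2 : Measurable fun t : ℝ => ∑' n : ℕ, ∫⁻ v : Space3, ∫⁻ y : Space3,
      lineD γ ρ K ((t, (y, v)), n) * F ((t, (y, v)), n) :=
    Measurable.tsum fun n => (h1 n).lintegral_prod_right'
  rw [lintegral_dirac' τ h2]
  have h3 : ∀ n : ℕ, Measurable fun v : Space3 =>
      ∫⁻ y : Space3, lineD γ ρ K ((τ, (y, v)), n) * F ((τ, (y, v)), n) := fun n =>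
    (h1 n).comp (measurable_const.prodMk measurable_id)
  rw [← lintegral_tsum fun n => (h3 n).aemeasurable]
  unfold gInt
  refine lintegral_congr fun v => ?_
  have h4 : ∀ n : ℕ, Measurable fun y : Space3 =>
      lineD γ ρ K ((τ, (y, v)), n) * F ((τ, (y, v)), n) := fun n =>
    (hm.comp (h0 n)).comp (f := fun y : Space3 => (((τ, v) : ℝ × Space3), y))
      (measurable_const.prodMk measurable_id)
  rw [← lintegral_tsum fun n => (h4 n).aemeasurable]
  have h5 : Measurable fun y : Space3 => ∑' k : ℕ, markW ρ K k * F ((τ, (y, v)), k) :=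
    Measurable.tsum fun k => (((hF.comp (h0 k)).comp
      (f := fun y : Space3 => (((τ, v) : ℝ × Space3), y))
      (measurable_const.prodMk measurable_id))).const_mul _
  rw [← lintegral_const_mul _ h5]
  refine lintegral_congr fun y => ?_
  rw [← ENNReal.tsum_mul_left]
  refine tsum_congr fun k => ?_
  unfold lineD
  ring

theorem lintegral_add_baseM {κ : Measure ML} {F G : ML → ℝ≥0∞} (hF : Measurable F) :
    ∫⁻ l, (F l + G l) ∂κ = ∫⁻ l, F l ∂κ + ∫⁻ l, G l ∂κ := lintegral_add_left hF _

theorem gInt_add {γ : ℝ → ℝ} {ρ : ℝ≥0∞} {F G : ML → ℝ≥0∞} (hF : Measurable F) :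
    gInt γ ρ K τ (fun l => F l + G l) = gInt γ ρ K τ F + gInt γ ρ K τ G := by
  unfold gInt
  have h0 : ∀ n : ℕ, Measurable fun q : Space3 × Space3 => (((τ, (q.2, q.1)), n) : ML) :=
    fun n => by fun_prop
  have h1 : ∀ v : Space3, Measurable fun y : Space3 =>
      ∑' k : ℕ, markW ρ K k * F ((τ, (y, v)), k) := fun v =>
    Measurable.tsum fun k => ((hF.comp (h0 k)).comp
      (f := fun y : Space3 => (v, y)) (measurable_const.prodMk measurable_id)).const_mul _
  have h2 : Measurable fun v : Space3 => Kin796.wG (γ τ) v * ∫⁻ y : Space3, ∑' k : ℕ,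
      markW ρ K k * F ((τ, (y, v)), k) := by
    have hw : Measurable fun v : Space3 => Kin796.wG (γ τ) v := by
      unfold Kin796.wG
      fun_prop
    refine hw.mul (Measurable.lintegral_prod_right' (f := fun q : Space3 × Space3 => ∑' k : ℕ,
      markW ρ K k * F ((τ, (q.2, q.1)), k)) ?_)
    exact Measurable.tsum fun k => (hF.comp (h0 k)).const_mul _
  rw [← lintegral_add_left h2]
  refine lintegral_congr fun v => ?_
  rw [← mul_add, ← lintegral_add_left (h1 v)]
  congr 1
  refine lintegral_congr fun y => ?_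
  rw [← ENNReal.tsum_add]
  refine tsum_congr fun k => ?_
  ring

/-- Joint measurability of the cluster term. -/
theorem measurable_clTerm (hΦ : AdmissiblePotential Φ) (hε : 0 < ε) (hγ : Measurable P.γ)
    (hcl : PClusterMap ε (clM Φ ε K P.te)) (n : ℕ) (i : Fin n) :
    Measurable fun q : Config n × ML => if (clM Φ ε K P.te n q.1 i q.2).Nonempty then
      (MW.cfg q.1).touchW Φ ε K P q.2 else 0 := by
  refine Measurable.ite ?_ (MeasE416.measurable_touchW_cfg hΦ hε K P n) measurable_const
  have h : {q : Config n × ML | (clM Φ ε K P.te n q.1 i q.2).Nonempty} =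
      {q : Config n × ML | clM Φ ε K P.te n q.1 i q.2 = ∅}ᶜ := by
    ext q
    simp only [mem_ofPred_eq, mem_compl_iff, Finset.nonempty_iff_ne_empty, ne_eq]
  rw [h]
  exact (hcl.meas n i ∅).compl

/-- **Split of `XE`.** -/
theorem XE_split (hΦ : AdmissiblePotential Φ) (hf : Measurable f₀) (hε : 0 < ε)
    (hγ : Measurable P.γ) (hL : 0 ≤ P.L) (hτ : 0 < τ)
    (hcl : PClusterMap ε (clM Φ ε K P.te)) :
    XE Φ f₀ ε K P τ ≤
      gcE f₀ ε (fun n (w : Config n) => gInt P.γ P.ρ K τ fun l =>
        if BornIn Φ ε w l then 1 else 0) +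
      (gcE f₀ ε (fun n (w : Config n) => gInt P.γ P.ρ K τ (dirW Φ ε K P w)) +
      gcE f₀ ε (fun n (w : Config n) => ∑ i : Fin n, ∫⁻ l,
        (if (clM Φ ε K P.te n w i l).Nonempty then
          (if 0 < l.1.1 then lineD P.γ P.ρ K l * (MW.cfg w).touchW Φ ε K P l else 0) else 0)
          ∂(OneC423.baseM (Measure.dirac τ)))) := by
  have hTM : EBasic602.TouchMeas Φ ε K P := fun n => MeasE416.measurable_touchW_cfg hΦ hε K P n
  rw [EBasic602.XE_eq hf hTM]
  have hS : ∀ n : ℕ, Measurable fun q : Config n × ML => ∑ i : Fin n,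
      if (clM Φ ε K P.te n q.1 i q.2).Nonempty then (MW.cfg q.1).touchW Φ ε K P q.2 else 0 :=
    fun n => Finset.measurable_sum _ fun i _ => measurable_clTerm hΦ hε hγ hcl n i
  -- pointwise
  have h1 : ∀ (n : ℕ) (w : Config n), w ∈ PairExcluded ε n →
      gInt P.γ P.ρ K τ (fun l => (MW.cfg w).touchW Φ ε K P l) ≤
      gInt P.γ P.ρ K τ (fun l => if BornIn Φ ε w l then 1 else 0) +
      (gInt P.γ P.ρ K τ (dirW Φ ε K P w) + gInt P.γ P.ρ K τ (fun l => ∑ i : Fin n,
        if (clM Φ ε K P.te n w i l).Nonempty then (MW.cfg w).touchW Φ ε K P l else 0)) := by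
    intro n w hw
    have hb : Measurable fun l : ML => if BornIn Φ ε w l then (1 : ℝ≥0∞) else 0 :=
      (measurable_born hΦ hε n).comp (f := fun l : ML => (w, l))
        (measurable_const.prodMk measurable_id)
    have hs : Measurable fun l : ML => ∑ i : Fin n,
        if (clM Φ ε K P.te n w i l).Nonempty then (MW.cfg w).touchW Φ ε K P l else 0 :=
      (hS n).comp (f := fun l : ML => (w, l)) (measurable_const.prodMk measurable_id)
    rw [add_comm (gInt P.γ P.ρ K τ (dirW Φ ε K P w)), ← gInt_add hs, ← gInt_add hb]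
    refine gInt_mono fun l hl _ hm => ?_
    refine (split_touch hΦ hε hL hw (by rw [hl]; exact hτ) hm).trans (le_of_eq ?_)
    rw [add_comm (dirW Φ ε K P w l)]
  refine (gcE_mono f₀ ε h1).trans ?_
  -- the three expectations
  have hwb : ∀ n : ℕ, Measurable fun w : Config n => gInt P.γ P.ρ K τ fun l =>
      if BornIn Φ ε w l then 1 else 0 := by
    intro n
    have : (fun w : Config n => gInt P.γ P.ρ K τ fun l => if BornIn Φ ε w l then 1 else 0) =
        fun w => ∫⁻ l, lineD P.γ P.ρ K l * (if BornIn Φ ε w l then 1 else 0)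
          ∂(OneC423.baseM (Measure.dirac τ)) := by
      funext w
      exact gInt_eq hγ ((measurable_born hΦ hε n).comp (f := fun l : ML => (w, l))
        (measurable_const.prodMk measurable_id))
    rw [this]
    exact Measurable.lintegral_prod_right' (f := fun q : Config n × ML =>
      lineD P.γ P.ρ K q.2 * (if BornIn Φ ε q.1 q.2 then 1 else 0))
      (((EBasic602.measurable_lineD hγ).comp measurable_snd).mul (measurable_born hΦ hε n))
  have hG : ∀ n : ℕ, Measurable fun q : Config n × ML => if 0 < q.2.1.1 then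
      lineD P.γ P.ρ K q.2 * (MW.cfg q.1).touchW Φ ε K P q.2 else 0 := fun n =>
    Measurable.ite (measurableSet_lt measurable_const
        (measurable_fst.comp (measurable_fst.comp measurable_snd)))
      (((EBasic602.measurable_lineD hγ).comp measurable_snd).mul
        (MeasE416.measurable_touchW_cfg hΦ hε K P n)) measurable_const
  have hcT : ∀ (n : ℕ) (i : Fin n), Measurable fun q : Config n × ML =>
      (if (clM Φ ε K P.te n q.1 i q.2).Nonempty then
        (if 0 < q.2.1.1 then lineD P.γ P.ρ K q.2 * (MW.cfg q.1).touchW Φ ε K P q.2 else 0)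
        else 0) := by
    intro n i
    refine Measurable.ite ?_ (hG n) measurable_const
    have h : {q : Config n × ML | (clM Φ ε K P.te n q.1 i q.2).Nonempty} =
        {q : Config n × ML | clM Φ ε K P.te n q.1 i q.2 = ∅}ᶜ := by
      ext q
      simp only [mem_ofPred_eq, mem_compl_iff, Finset.nonempty_iff_ne_empty, ne_eq]
    rw [h]
    exact (hcl.meas n i ∅).compl
  have hws : ∀ n : ℕ, Measurable fun w : Config n => ∑ i : Fin n, ∫⁻ l,
      (if (clM Φ ε K P.te n w i l).Nonempty then
        (if 0 < l.1.1 then lineD P.γ P.ρ K l * (MW.cfg w).touchW Φ ε K P l else 0) else 0)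
        ∂(OneC423.baseM (Measure.dirac τ)) := fun n =>
    Finset.measurable_sum _ fun i _ => (hcT n i).lintegral_prod_right'
  have hse : ∀ (n : ℕ) (w : Config n), gInt P.γ P.ρ K τ (fun l => ∑ i : Fin n,
        if (clM Φ ε K P.te n w i l).Nonempty then (MW.cfg w).touchW Φ ε K P l else 0) =
      ∑ i : Fin n, ∫⁻ l, (if (clM Φ ε K P.te n w i l).Nonempty then
        (if 0 < l.1.1 then lineD P.γ P.ρ K l * (MW.cfg w).touchW Φ ε K P l else 0) else 0)
        ∂(OneC423.baseM (Measure.dirac τ)) := by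
    intro n w
    have hs1 : Measurable fun l : ML => ∑ i : Fin n,
        if (clM Φ ε K P.te n w i l).Nonempty then (MW.cfg w).touchW Φ ε K P l else 0 :=
      (hS n).comp (f := fun l : ML => (w, l)) (measurable_const.prodMk measurable_id)
    have hs2 : ∀ i : Fin n, Measurable fun l : ML =>
        (if (clM Φ ε K P.te n w i l).Nonempty then
        (if 0 < l.1.1 then lineD P.γ P.ρ K l * (MW.cfg w).touchW Φ ε K P l else 0) else 0) :=
      fun i => (hcT n i).comp (f := fun l : ML => (w, l))
        (measurable_const.prodMk measurable_id)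
    rw [gInt_eq hγ hs1, ← lintegral_finsetSum' _ fun i _ => (hs2 i).aemeasurable]
    have hae : ∀ᵐ l ∂(OneC423.baseM (Measure.dirac τ)), l.1.1 = τ := by
      unfold OneC423.baseM
      have h1 : ∀ᵐ x ∂((Measure.dirac τ).prod (volume : Measure PhasePoint)), x.1 = τ := by
        have h2 : ∀ᵐ t ∂(Measure.dirac τ : Measure ℝ), t = τ := by
          rw [ae_dirac_eq]
          exact Filter.eventually_pure.2 rfl
        exact Measure.quasiMeasurePreserving_fst.ae h2
      exact Measure.quasiMeasurePreserving_fst.ae h1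
    refine lintegral_congr_ae ?_
    filter_upwards [hae] with l hl
    rw [Finset.mul_sum]
    refine Finset.sum_congr rfl fun i _ => ?_
    rw [if_pos (show 0 < l.1.1 by rw [hl]; exact hτ), mul_ite, mul_zero]
  rw [gcE_add hf ε hwb]
  refine add_le_add le_rfl ?_
  simp only [hse]
  have hcomm : ∀ (n : ℕ) (w : Config n), gInt P.γ P.ρ K τ (dirW Φ ε K P w) +
      ∑ i : Fin n, ∫⁻ l, (if (clM Φ ε K P.te n w i l).Nonempty then
        (if 0 < l.1.1 then lineD P.γ P.ρ K l * (MW.cfg w).touchW Φ ε K P l else 0) else 0)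
        ∂(OneC423.baseM (Measure.dirac τ)) =
      ∑ i : Fin n, ∫⁻ l, (if (clM Φ ε K P.te n w i l).Nonempty then
        (if 0 < l.1.1 then lineD P.γ P.ρ K l * (MW.cfg w).touchW Φ ε K P l else 0) else 0)
        ∂(OneC423.baseM (Measure.dirac τ)) + gInt P.γ P.ρ K τ (dirW Φ ε K P w) :=
    fun n w => add_comm _ _
  simp only [hcomm]
  rw [gcE_add hf ε hws, add_comm]

/-- **The cluster term opened by Mecke.** -/
theorem clus_mecke (hΦ : AdmissiblePotential Φ) (hf : Measurable f₀) (hε : 0 < ε)
    (hγ : Measurable P.γ) (hcl : PClusterMap ε (clM Φ ε K P.te)) (κ : Measure ℝ) [SFinite κ] :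
    gcE f₀ ε (fun n (w : Config n) => ∑ i : Fin n, ∫⁻ l,
        (if (clM Φ ε K P.te n w i l).Nonempty then
          (if 0 < l.1.1 then lineD P.γ P.ρ K l * (MW.cfg w).touchW Φ ε K P l else 0) else 0)
          ∂(OneC423.baseM κ)) ≤
      ∑' k : ℕ, activity ε ^ k / (k.factorial : ℝ≥0∞) * ∫⁻ V : Config k, gcWeight f₀ ε k V *
        gcE f₀ ε (fun m w => perpInd ε V w * ∑ j : Fin k, ∫⁻ l,
          (if clM Φ ε K P.te (k + m) (Fin.append V w) (Fin.castAdd m j) l = block k m then
            (if 0 < l.1.1 then lineD P.γ P.ρ K l *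
              (MW.cfg (Fin.append V w)).touchW Φ ε K P l else 0) else 0)
          ∂(OneC423.baseM κ)) := by
  have h := param_mecke hf (OneC423.baseM κ) hcl
    (F := fun n _ _ w l => if 0 < l.1.1 then lineD P.γ P.ρ K l *
      (MW.cfg w).touchW Φ ε K P l else 0) ?_ ?_
  · rw [h]
    have h2 := ENNReal.tsum_comp_le_tsum_of_injective (Nat.succ_injective)
      (fun k : ℕ => activity ε ^ k / (k.factorial : ℝ≥0∞) * ∫⁻ V : Config k, gcWeight f₀ ε k V *
        gcE f₀ ε (fun m w => perpInd ε V w * ∑ j : Fin k, ∫⁻ l,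
          (if clM Φ ε K P.te (k + m) (Fin.append V w) (Fin.castAdd m j) l = block k m then
            (if 0 < l.1.1 then lineD P.γ P.ρ K l *
              (MW.cfg (Fin.append V w)).touchW Φ ε K P l else 0) else 0)
          ∂(OneC423.baseM κ)))
    exact h2
  · intro n σ i B Z l _
    rw [EquivE416.touchW_perm hΦ hε K P Z σ l]
  · intro n i B
    exact Measurable.ite (measurableSet_lt measurable_const
        (measurable_fst.comp (measurable_fst.comp measurable_snd)))
      (((EBasic602.measurable_lineD hγ).comp measurable_snd).mul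
        (MeasE416.measurable_touchW_cfg hΦ hε K P n)) measurable_const

end Crest.Agent.R122.OneC285

end
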