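import Crest.Agent.R122.GasE4a_285

/-!
# INEQUALITY 1 (row 122, board H2), gas level, part B: real structures

* `extP` : extension of a permutation of the cluster by the identity.
* `firstHit_of_meet`, `ent_of_real` : the first contact is the entrance into the ball of the root line.
* `real4_of_red` : a clean contact whose cluster has a real tree history is a `Real4` structure
  (after relabelling), and the touch functional is the same.
* `clus_point` : pointwise reduction to trees.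
* `clus_tree` : reduction to trees, gas level.
-/

set_option autoImplicit false
set_option linter.unusedSectionVars false

open MeasureTheory Set Filter
open scoped ENNReal Classical Topology
open Crest.AnalysisR.Kinetic
open Crest.Agent.R122.Kin796 Crest.Agent.R122.Kin796.CTree Crest.Agent.R122.Tree674
open Crest.Agent.R122.Relabel674 Crest.Agent.R122.GC311 Crest.Agent.R122.Flow671
open Crest.Agent.R122.EDefs602 Crest.Agent.R122.TreeLines335 Crest.Agent.R122.Disc416
open Crest.Agent.R122.OC285 Crest.Agent.R122.Master566 Crest.Agent.R122.Causal291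
open Crest.Agent.R122.Inf879 Crest.Agent.R122.Direct658

noncomputable section

namespace Crest.Agent.R122.OneC285

/-! ## Relabelling -/

/-- Extension of a permutation by the identity. -/
def extP {k : ℕ} (m : ℕ) (σ : Equiv.Perm (Fin k)) : Equiv.Perm (Fin (k + m)) :=
  (finSumFinEquiv.symm.trans (Equiv.sumCongr σ (Equiv.refl (Fin m)))).trans finSumFinEquiv

theorem extP_castAdd {k m : ℕ} (σ : Equiv.Perm (Fin k)) (i : Fin k) :
    extP m σ (Fin.castAdd m i) = Fin.castAdd m (σ i) := by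
  simp [extP]

theorem extP_natAdd {k m : ℕ} (σ : Equiv.Perm (Fin k)) (i : Fin m) :
    extP m σ (Fin.natAdd k i) = Fin.natAdd k i := by
  simp [extP]

theorem append_extP {k m : ℕ} (σ : Equiv.Perm (Fin k)) (V : Config k) (w : Config m) :
    (Fin.append (fun i => V (σ i)) w : Config (k + m)) = fun i => Fin.append V w (extP m σ i) := by
  funext i
  refine Fin.addCases (fun i => ?_) (fun i => ?_) i
  · rw [extP_castAdd, Fin.append_left, Fin.append_left]
  · rw [extP_natAdd, Fin.append_right, Fin.append_right]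

theorem block_map_extP {k m : ℕ} (σ : Equiv.Perm (Fin k)) :
    (block k m).map (extP m σ).toEmbedding = block k m := by
  ext i
  rw [Finset.mem_map, mem_block]
  constructor
  · rintro ⟨a, ha, rfl⟩
    obtain ⟨j, rfl⟩ := mem_block.1 ha
    exact ⟨σ j, (extP_castAdd σ j).symm⟩
  · rintro ⟨j, rfl⟩
    refine ⟨Fin.castAdd m (σ.symm j), castAdd_mem_block _, ?_⟩
    show extP m σ (Fin.castAdd m (σ.symm j)) = Fin.castAdd m j
    rw [extP_castAdd, Equiv.apply_symm_apply]

variable {Φ : Space3 → ℝ} {f₀ : PhasePoint → ℝ} {ε : ℝ} {K : ℕ} {Q : EPar}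

theorem mSet_perm (hΦ : AdmissiblePotential Φ) (hε : 0 < ε) {n : ℕ} (σ : Equiv.Perm (Fin n))
    (w : Config n) (l : ML) : mSet Φ ε (fun i => w (σ i)) l = mSet Φ ε w l := by
  ext s
  simp only [mSet, mem_ofPred_eq]
  have h : ∀ i, flow Φ ε s (fun i => w (σ i)) i = flow Φ ε s w (σ i) := fun i =>
    congrFun (Loc45.flow_equiv hΦ hε σ s w) i
  constructor
  · rintro ⟨h1, i, h2⟩
    exact ⟨h1, σ i, by rw [← h]; exact h2⟩
  · rintro ⟨h1, i, h2⟩
    exact ⟨h1, σ.symm i, by rw [h, Equiv.apply_symm_apply]; exact h2⟩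

theorem mT_perm (hΦ : AdmissiblePotential Φ) (hε : 0 < ε) {n : ℕ} (σ : Equiv.Perm (Fin n))
    (w : Config n) (l : ML) : mT Φ ε (fun i => w (σ i)) l = mT Φ ε w l := by
  unfold mT
  rw [mSet_perm hΦ hε]

/-! ## First hits -/

/-- The first contact with the gas is a first hit of the particle met. -/
theorem firstHit_of_meet (hΦ : AdmissiblePotential Φ) (hε : 0 < ε) {T : ℝ} {n : ℕ} {w : Config n}
    {l : ML} {i : Fin n} (h : Meet Φ ε T w l i) :
    OC663.FirstHit ε (fun r => (back l.1).1 + r • l.1.2.2) (fun r => (flow Φ ε r w i).1) l.1.1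
      (mT Φ ε w l) := by
  set s := mT Φ ε w l with hs
  have hcont : Continuous fun s => flow Φ ε s w := flow_continuous_time hΦ hε w
  have hd : Continuous fun r => dist (lpos l r) (flow Φ ε r w i).1 :=
    (continuous_lpos l).dist (continuous_fst.comp ((continuous_apply i).comp hcont))
  have hfar : ∀ r ∈ Ioo l.1.1 s, ε < dist (lpos l r) (flow Φ ε r w i).1 := fun r hr =>
    far_of_lt hr.1.le hr.2 i
  refine ⟨h.lt, ?_, fun r hr => ?_⟩
  · have h1 : ‖(back l.1).1 + s • l.1.2.2 - (flow Φ ε s w i).1‖ =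
        dist (lpos l s) (flow Φ ε s w i).1 := (dist_eq_norm _ _).symm
    rw [h1]
    refine le_antisymm h.dist ?_
    by_contra hlt
    push Not at hlt
    have h2 : ∀ᶠ r in 𝓝[<] s, dist (lpos l r) (flow Φ ε r w i).1 < ε :=
      (hd.continuousAt.eventually (gt_mem_nhds hlt)).filter_mono nhdsWithin_le_nhds
    have h3 : ∀ᶠ r in 𝓝[<] s, r ∈ Ioo l.1.1 s := Ioo_mem_nhdsLT h.lt
    obtain ⟨r, hr1, hr2⟩ := (h2.and h3).exists
    exact absurd (hfar r hr2) (not_lt.2 hr1.le)
  · have h1 : ‖(back l.1).1 + r • l.1.2.2 - (flow Φ ε r w i).1‖ =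
        dist (lpos l r) (flow Φ ε r w i).1 := (dist_eq_norm _ _).symm
    show ε < ‖(back l.1).1 + r • l.1.2.2 - (flow Φ ε r w i).1‖
    rw [h1]
    exact hfar r hr

/-- Times before the horizon at which the tree is still valid. -/
theorem exists_topLt {P : CTree} {s : ℝ} (hs : 0 < s) {u : Space3} {p : Par P}
    (hv : Valid Φ ε P s u p) : ∃ α, 0 ≤ α ∧ α < s ∧ ∀ r, α ≤ r → TopLt P r p := by
  cases P with
  | leaf => exact ⟨0, le_rfl, hs, fun _ _ => trivial⟩
  | node a b =>
    have h1 : p.1.1 < s := hv.2.1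
    refine ⟨(max p.1.1 0 + s) / 2, ?_, ?_, fun r hr => ?_⟩
    · have := le_max_right p.1.1 0
      linarith
    · have : max p.1.1 0 < s := max_lt h1 hs
      linarith
    · have h2 : max p.1.1 0 < s := max_lt h1 hs
      have h3 := le_max_left p.1.1 (0 : ℝ)
      show p.1.1 < r
      linarith

/-- The real path of the root of a real tree is its line after its last encounter. -/
theorem root_path_of_real (hε : 0 < ε) {κ : Type} [Fintype κ] {Z : κ → PhasePoint} {i : κ}
    {P : CTree} {ℓ : PhasePoint} {p : Par P} {e : Idx P → κ} {s : ℝ}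
    (h : RealTree674.RealTree Φ ε s Z i P ℓ p e) {r : ℝ} (h0 : 0 ≤ r) (hr : r ≤ s)
    (ht : TopLt P r p) : flow Φ ε r Z i = onLine ℓ r := by
  have h1 := h.agree (Tree674.root P) r h0 (by rw [Final973.prot_root]; exact hr)
  have hv : Valid Φ ε P r ℓ.2 p := (valid_iff_top hr).2 ⟨h.valid, ht⟩
  rw [h.root, PathFlow968.path_root_after hε.le hv.2 le_rfl] at h1
  exact h1

/-! ## Real structures -/

theorem card_preC_le_of_not_inf (hΦ : AdmissiblePotential Φ) (hε : 0 < ε) {n : ℕ} {w : Config n}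
    (hw : w ∈ PairExcluded ε n) {s : ℝ} (hs : 0 ≤ s) {i : Fin n}
    (h : ¬ (MW.cfg w).Inf Φ ε K s i) : (preC Φ ε w s i).card ≤ K := by
  rw [EBasic602.cfg_inf_iff_size hΦ hε hw, not_lt] at h
  have h1 : (↑(preC Φ ε w s i) : Set (Fin n)) ⊆ BC (Ct (pth Φ ε w) ε) s i := by
    intro k hk
    rw [Finset.mem_coe] at hk
    simp only [preC, Finset.mem_filter, Finset.mem_univ, true_and] at hk
    rcases hk with rfl | ⟨s', -, hs', hR⟩
    · exact root_mem_BC hs
    · exact BC_mono_time hs'.le hR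
  have h2 := Set.ncard_le_ncard h1 (Set.toFinite _)
  rw [Set.ncard_coe_finset] at h2
  exact h2.trans h

/-- The entrance data of a real contact. -/
theorem ent_of_real (hΦ : AdmissiblePotential Φ) (hε : 0 < ε) {T : ℝ} {n : ℕ} {w : Config n}
    {l : ML} {i : Fin n} (hl : 0 < l.1.1) (h : Meet Φ ε T w l i) {P : CTree}
    {z : PhasePoint × Par P} {e : Idx P → Fin n}
    (hr : RealTree674.RealTree Φ ε (mT Φ ε w l) w i P z.1 z.2 e) :
    OneC423.Enters ε z.1 l.1 (mT Φ ε w l) := by
  have hs : 0 < mT Φ ε w l := hl.trans h.lt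
  obtain ⟨α, hα0, hα, hα'⟩ := exists_topLt hs hr.valid
  have hc : ∀ r ∈ Icc α (mT Φ ε w l), (flow Φ ε r w i).1 = z.1.1 + r • z.1.2 := by
    intro r hrr
    rw [root_path_of_real hε hr (hα0.trans hrr.1) hrr.2 (hα' r hrr.1)]
    rfl
  obtain ⟨h1, h2, h3⟩ := (firstHit_of_meet hΦ hε h).ent hε hα hc
  exact ⟨h1, h2, h3⟩

/-- **Real structures.** -/
theorem real4_of_red (hΦ : AdmissiblePotential Φ) (hε : 0 < ε) {T' : ℝ}
    (hcl : PClusterMap ε (clM Φ ε K Q.te)) {k m : ℕ} {V : Config k} {w : Config m} {j : Fin k}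
    {l : ML} (hV : V ∈ PairExcluded ε k) (hw : w ∈ PairExcluded ε m) (hp : Perp ε V w)
    (hblk : clM Φ ε K Q.te (k + m) (Fin.append V w) (Fin.castAdd m j) l = block k m)
    (hl : 0 < l.1.1) (hm : 1 ≤ l.2 ∧ l.2 ≤ K) {P : CTree} {e : Idx P ≃ Fin k}
    {z : PhasePoint × Par P} (he : e (root P) = j) (hVl : ∀ x, V (e x) = lines Φ ε P z.1 z.2 x)
    (hv : Valid Φ ε P T' z.1.2 z.2) (hs : Sep Φ ε P T' z.1 z.2)
    (hr : RealTree674.RealTree Φ ε (mT Φ ε (Fin.append V w) l) (Fin.append V w) (Fin.castAdd m j)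
      P z.1 z.2 (fun x => Fin.castAdd m (e x))) :
    P.leaves = k ∧ Real4 Φ ε K Q.te T' P z w l ∧
      (MW.cfg (Fin.append V w)).touchW Φ ε K Q l =
        (MW.cfg (Fin.append (cfT Φ ε P z) w)).touchW Φ ε K Q l := by
  have hk : P.leaves = k := by
    have := Fintype.card_congr e
    rw [card_idx, Fintype.card_fin] at this
    exact this
  subst hk
  refine ⟨rfl, ?_⟩
  set σ : Equiv.Perm (Fin P.leaves) := (eP P).symm.trans e with hσ
  have hcf : cfT Φ ε P z = fun i => V (σ i) := by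
    funext i
    show lines Φ ε P z.1 z.2 ((eP P).symm i) = V (e ((eP P).symm i))
    rw [hVl]
  have hap : (Fin.append (cfT Φ ε P z) w : Config (P.leaves + m)) =
      fun i => Fin.append V w (extP m σ i) := by
    rw [hcf, append_extP]
  have hσr : σ (rt P) = j := by
    show e ((eP P).symm (eP P (root P))) = j
    rw [Equiv.symm_apply_apply, he]
  have hVw : (Fin.append V w : Config (P.leaves + m)) ∈ PairExcluded ε (P.leaves + m) :=
    (append_mem_pairExcluded_iff V w).2 ⟨hV, hw, hp⟩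
  -- the contact
  have hC : CMeet Φ ε K Q.te (Fin.append V w) l (Fin.castAdd m j) := by
    by_contra hC
    have h1 : clM Φ ε K Q.te (P.leaves + m) (Fin.append V w) (Fin.castAdd m j) l = ∅ := by
      unfold clM
      rw [if_neg hC]
    rw [h1] at hblk
    have : Fin.castAdd m j ∈ block P.leaves m := castAdd_mem_block j
    rw [← hblk] at this
    exact absurd this (Finset.notMem_empty _)
  have hmT : mT Φ ε (Fin.append (cfT Φ ε P z) w) l = mT Φ ε (Fin.append V w) l := by
    rw [hap, mT_perm hΦ hε]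
  have hent := ent_of_real hΦ hε hl hC.1 hr
  have hcT : cT ε z l = mT Φ ε (Fin.append V w) l := hent.2.2.symm
  refine ⟨⟨?_, hw, ?_, hv, hs, ?_, ?_, hm, hl, ?_, ?_⟩, ?_⟩
  · rw [hcf]
    intro a b hab
    exact hV _ _ fun h => hab (σ.injective h)
  · rw [hcf]
    intro a b
    exact hp _ _
  · exact OneC423.mem_ctSet hent hC.1.lt hC.1.le hr.valid
  · rw [hmT, hcT]
  · have h1 := hcl.equiv (P.leaves + m) (extP m σ) (Fin.append V w) (Fin.castAdd m (rt P)) l hVw
    rw [extP_castAdd, hσr, hblk, ← hap] at h1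
    have h2 : (block P.leaves m).map (extP m σ).toEmbedding =
        (clM Φ ε K Q.te (P.leaves + m) (Fin.append (cfT Φ ε P z) w) (Fin.castAdd m (rt P))
          l).map (extP m σ).toEmbedding := by
      rw [block_map_extP]; exact h1
    exact (Finset.map_injective _ h2).symm
  · rw [hcT, hap]
    refine (RealTree674.realTree_equiv hΦ hε (extP m σ) (Fin.append V w)
      (Fin.castAdd m (rt P)) (fun x => Fin.castAdd m (eP P x))).2 ?_
    have h3 : extP m σ (Fin.castAdd m (rt P)) = Fin.castAdd m j := by rw [extP_castAdd, hσr]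
    have h4 : (fun x => extP m σ (Fin.castAdd m (eP P x))) = fun x => Fin.castAdd m (e x) := by
      funext x
      rw [extP_castAdd]
      show Fin.castAdd m (e ((eP P).symm (eP P x))) = _
      rw [Equiv.symm_apply_apply]
    rw [h3, h4]
    exact hr
  · rw [hap, EquivE416.touchW_perm hΦ hε]

/-! ## Pointwise reduction -/

/-- The functional of contact structures, localised on the contact set. -/
def HM (Φ : Space3 → ℝ) (ε : ℝ) (K : ℕ) (Q : EPar) (M : SF) (P : CTree)
    (z : PhasePoint × Par P) (m : ℕ) (w : Config m) (l : ML) : ℝ≥0∞ :=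
  {l : ML | (z, l.1) ∈ OneC423.ctSet Φ ε Q.te P}.indicator
    (fun l => lineD Q.γ Q.ρ K l * M P z m w l) l

/-- The cluster functional. -/
def FM (Φ : Space3 → ℝ) (ε : ℝ) (K : ℕ) (Q : EPar) (k m : ℕ) (V : Config k) (w : Config m)
    (j : Fin k) (l : ML) : ℝ≥0∞ :=
  if clM Φ ε K Q.te (k + m) (Fin.append V w) (Fin.castAdd m j) l = block k m then
    (if 0 < l.1.1 then lineD Q.γ Q.ρ K l *
      (MW.cfg (Fin.append V w)).touchW Φ ε K Q l else 0) else 0

/-- The error functional. -/
def BM (Φ : Space3 → ℝ) (ε : ℝ) (K : ℕ) (Q : EPar) (B : RF) (k m : ℕ) (V : Config k)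
    (w : Config m) (j : Fin k) (l : ML) : ℝ≥0∞ :=
  lineD Q.γ Q.ρ K l * (if clM Φ ε K Q.te (k + m) (Fin.append V w) (Fin.castAdd m j) l =
    block k m then B k m V w j (mT Φ ε (Fin.append V w) l) else 0)

/-- The pointwise property of the reduction at fixed `K`, `ε` (second part of `StmtRed`). -/
def RedAt (Φ : Space3 → ℝ) (ε : ℝ) (K : ℕ) (tw te T' : ℝ) (B : RF) : Prop :=
  ∀ (k m : ℕ) (V : Config k) (w : Config m) (j : Fin k) (s : ℝ),
    V ∈ PairExcluded ε k → w ∈ PairExcluded ε m → Perp ε V w → k ≤ K → 0 < s → s ≤ te →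
    preC Φ ε (Fin.append V w) s (Fin.castAdd m j) = block k m →
    1 ≤ B k m V w j s ∨
      ∃ (P : CTree) (e : Idx P ≃ Fin k) (z : PhasePoint × Par P), e (root P) = j ∧
        (∀ x, V (e x) = lines Φ ε P z.1 z.2 x) ∧
        Valid Φ ε P T' z.1.2 z.2 ∧ Sep Φ ε P T' z.1 z.2 ∧
        RealTree674.RealTree Φ ε s (Fin.append V w) (Fin.castAdd m j) P z.1 z.2
          (fun x => Fin.castAdd m (e x)) ∧
        GIV566.unhit Φ ε (ptube Φ ε P z) tw w

/-- The majorant property of a functional of structures. -/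
def MajAt (Φ : Space3 → ℝ) (ε : ℝ) (K : ℕ) (Q : EPar) (T' : ℝ) (M : SF) : Prop :=
  ∀ (P : CTree) (z : PhasePoint × Par P) (m : ℕ) (w : Config m) (l : ML), P.leaves ≤ K →
    Real4 Φ ε K Q.te T' P z w l → GIV566.unhit Φ ε (ptube Φ ε P z) Q.tw w →
    (MW.cfg (Fin.append (cfT Φ ε P z) w)).touchW Φ ε K Q l ≤ M P z m w l

theorem clus_point (hΦ : AdmissiblePotential Φ) (hε : 0 < ε) (hL : 0 ≤ Q.L) {T' : ℝ}
    (hcl : PClusterMap ε (clM Φ ε K Q.te)) {B : RF} (hB : RedAt Φ ε K Q.tw Q.te T' B) {M : SF}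
    (hM : MajAt Φ ε K Q T' M) (k m : ℕ) (V : Config k) (w : Config m) (j : Fin k) (l : ML)
    (hV : V ∈ PairExcluded ε k) (hw : w ∈ PairExcluded ε m) (hp : Perp ε V w) :
    FM Φ ε K Q k m V w j l ≤ TreeBound335.ways Φ ε T' (fun P z => HM Φ ε K Q M P z m w l) V j +
      BM Φ ε K Q B k m V w j l := by
  unfold FM
  by_cases hblk : clM Φ ε K Q.te (k + m) (Fin.append V w) (Fin.castAdd m j) l = block k m
  swap
  · rw [if_neg hblk]; exact zero_le
  rw [if_pos hblk]
  by_cases hl : 0 < l.1.1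
  swap
  · rw [if_neg hl]; exact zero_le
  rw [if_pos hl]
  by_cases hm : 1 ≤ l.2 ∧ l.2 ≤ K
  swap
  · have : lineD Q.γ Q.ρ K l = 0 := by
      unfold lineD markW
      rw [if_neg hm, mul_zero]
    rw [this, zero_mul]; exact zero_le
  have hVw : (Fin.append V w : Config (k + m)) ∈ PairExcluded ε (k + m) :=
    (append_mem_pairExcluded_iff V w).2 ⟨hV, hw, hp⟩
  have hC : CMeet Φ ε K Q.te (Fin.append V w) l (Fin.castAdd m j) := by
    by_contra hC
    have h1 : clM Φ ε K Q.te (k + m) (Fin.append V w) (Fin.castAdd m j) l = ∅ := by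
      unfold clM
      rw [if_neg hC]
    rw [h1] at hblk
    have : Fin.castAdd m j ∈ block k m := castAdd_mem_block j
    rw [← hblk] at this
    exact absurd this (Finset.notMem_empty _)
  have hpre : preC Φ ε (Fin.append V w) (mT Φ ε (Fin.append V w) l) (Fin.castAdd m j) =
      block k m := by
    rw [← hblk]
    unfold clM
    rw [if_pos hC]
  have hs0 : 0 < mT Φ ε (Fin.append V w) l := hl.trans hC.1.lt
  have hkK : k ≤ K := by
    have h1 := card_preC_le_of_not_inf hΦ hε hVw hs0.le hC.2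
    rw [hpre, card_block] at h1
    exact h1
  rcases hB k m V w j _ hV hw hp hkK hs0 hC.1.le hpre with hb | ⟨P, e, z, he, hVl, hv, hs, hr, hu⟩
  · refine le_trans ?_ le_add_self
    unfold BM
    rw [if_pos hblk]
    exact mul_le_mul' le_rfl ((touchW_le_one hL _ _).trans hb)
  · refine le_trans ?_ le_self_add
    obtain ⟨hk, h4, hW⟩ := real4_of_red hΦ hε hcl hV hw hp hblk hl hm he hVl hv hs hr
    refine le_trans ?_ (TreeBound335.le_ways hΦ hε (G := fun P z => HM Φ ε K Q M P z m w l)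
      (ℓ := z.1) (p := z.2) he hv hVl)
    show _ ≤ HM Φ ε K Q M P z m w l
    unfold HM
    rw [indicator_of_mem (show l ∈ {l : ML | (z, l.1) ∈ OneC423.ctSet Φ ε Q.te P} from h4.ct), hW]
    exact mul_le_mul' le_rfl (hM P z m w l (hk ▸ hkK) h4 hu)

/-! ## Gas level -/

theorem measurable_HM (hΦ : AdmissiblePotential Φ) (hγ : Measurable Q.γ) {M : SF}
    (hM : MeasSF M) (P : CTree) (m : ℕ) :
    Measurable fun q : (PhasePoint × Par P) × (Config m × ML) =>
      HM Φ ε K Q M P q.1 m q.2.1 q.2.2 := by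
  have h1 : MeasurableSet {q : (PhasePoint × Par P) × (Config m × ML) |
      (q.1, q.2.2.1) ∈ OneC423.ctSet Φ ε Q.te P} := by
    have h2 : Measurable fun q : (PhasePoint × Par P) × (Config m × ML) => (q.1, q.2.2.1) :=
      measurable_fst.prodMk (measurable_fst.comp (measurable_snd.comp measurable_snd))
    exact h2 (OneC423.measurableSet_ctSet hΦ ε Q.te P)
  have h3 : Measurable fun q : (PhasePoint × Par P) × (Config m × ML) =>
      lineD Q.γ Q.ρ K q.2.2 * M P q.1 m q.2.1 q.2.2 :=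
    ((EBasic602.measurable_lineD hγ).comp (measurable_snd.comp measurable_snd)).mul (hM P m)
  have h4 : (fun q : (PhasePoint × Par P) × (Config m × ML) =>
      HM Φ ε K Q M P q.1 m q.2.1 q.2.2) =
      {q : (PhasePoint × Par P) × (Config m × ML) |
        (q.1, q.2.2.1) ∈ OneC423.ctSet Φ ε Q.te P}.indicator
      (fun q => lineD Q.γ Q.ρ K q.2.2 * M P q.1 m q.2.1 q.2.2) := by
    funext q
    rfl
  rw [h4]
  exact h3.indicator h1

theorem measurable_BM (hγ : Measurable Q.γ) (hcl : PClusterMap ε (clM Φ ε K Q.te))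
    (hmT : ∀ n : ℕ, Measurable fun q : Config n × ML => mT Φ ε q.1 q.2) {B : RF} (hB : MeasRF B)
    (k m : ℕ) (j : Fin k) :
    Measurable fun q : Config k × (Config m × ML) => BM Φ ε K Q B k m q.1 q.2.1 j q.2.2 := by
  have hap : Measurable fun q : Config k × (Config m × ML) =>
      ((Fin.append q.1 q.2.1 : Config (k + m)), q.2.2) := by
    refine Measurable.prodMk ?_ (measurable_snd.comp measurable_snd)
    refine measurable_pi_iff.2 fun i => ?_
    refine Fin.addCases (fun i => ?_) (fun i => ?_) i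
    · simp only [Fin.append_left]
      exact (measurable_pi_apply i).comp measurable_fst
    · simp only [Fin.append_right]
      exact (measurable_pi_apply i).comp (measurable_fst.comp measurable_snd)
  unfold BM
  refine ((EBasic602.measurable_lineD hγ).comp (measurable_snd.comp measurable_snd)).mul
    (Measurable.ite ?_ ?_ measurable_const)
  · exact hap (hcl.meas (k + m) (Fin.castAdd m j) (block k m))
  · have h1 : Measurable fun q : Config k × (Config m × ML) =>
        (q.1, (q.2.1, mT Φ ε (Fin.append q.1 q.2.1) q.2.2)) :=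
      measurable_fst.prodMk ((measurable_fst.comp measurable_snd).prodMk ((hmT (k + m)).comp hap))
    exact (hB k m j).comp h1

/-- The error term of the reduction to trees. -/
def errB (Φ : Space3 → ℝ) (f₀ : PhasePoint → ℝ) (ε : ℝ) (K : ℕ) (Q : EPar) (κ : Measure ℝ)
    (B : RF) : ℝ≥0∞ :=
  ∑' k : ℕ, activity ε ^ k / (k.factorial : ℝ≥0∞) * ∫⁻ V : Config k, gcWeight f₀ ε k V *
    gcE f₀ ε (fun m w => perpInd ε V w * ∑ j : Fin k, ∫⁻ l, BM Φ ε K Q B k m V w j l
      ∂(OneC423.baseM κ))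

/-- **Reduction of the cluster term to trees.** -/
theorem clus_tree (hΦ : AdmissiblePotential Φ) (hf : Measurable f₀) (hε : 0 < ε) (hL : 0 ≤ Q.L)
    (hγ : Measurable Q.γ) {T' : ℝ} (κ : Measure ℝ) [SFinite κ]
    (hcl : PClusterMap ε (clM Φ ε K Q.te))
    (hmT : ∀ n : ℕ, Measurable fun q : Config n × ML => mT Φ ε q.1 q.2) {B : RF} (hBm : MeasRF B)
    (hB : RedAt Φ ε K Q.tw Q.te T' B) {M : SF} (hMm : MeasSF M) (hM : MajAt Φ ε K Q T' M) :
    gcE f₀ ε (fun n (w : Config n) => ∑ i : Fin n, ∫⁻ l,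
        (if (clM Φ ε K Q.te n w i l).Nonempty then
          (if 0 < l.1.1 then lineD Q.γ Q.ρ K l * (MW.cfg w).touchW Φ ε K Q l else 0) else 0)
          ∂(OneC423.baseM κ)) ≤
      OS Φ f₀ ε K Q T' κ M + errB Φ f₀ ε K Q κ B := by
  refine (clus_mecke hΦ hf hε hγ hcl κ).trans ?_
  exact ToTree335.to_tree hΦ hf hε (OneC423.baseM κ) (T := T')
    (H := HM Φ ε K Q M) (fun P m => measurable_HM hΦ hγ hMm P m)
    (F := FM Φ ε K Q) (B := BM Φ ε K Q B) (fun k m j => measurable_BM hγ hcl hmT hBm k m j)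
    (fun k m V w j l hV hw hp => clus_point hΦ hε hL hcl hB hM k m V w j l hV hw hp)

end Crest.Agent.R122.OneC285

end
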