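import Crest.Agent.R122.ShpOk_581
import Crest.Agent.R122.LN2Inst2_473
import Crest.Agent.R122.ForGate2_424
import Crest.Agent.R122.GateCap_973

/-!
# Row 122, H11 (helper424): the gate of a contact tree and a structure (`osP` of helper581)

* `osB`, `osZ` : births and initial states of (tree, structure), labels `Idx P ⊕ S.κ`.
* `dom_osP` : domination, one group, anchors: the tree; `dom_osPX` : with an independent line (two
  groups).
* `badF_osP`, `badF_osPX`, `gNull_hit_osP`, `gNull_hit_osPX` : bad partitions, bad hits.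
* `gLe_runS_osP` : runs, from an exponential moment.
* `gNull_osP_of_det`, `fNull_osP_of_det` : the plain gateway and the gateway for the capped measure
  of an independent line.
-/

set_option autoImplicit false
set_option linter.unusedSectionVars false

open MeasureTheory Set Filter Topology
open scoped Classical ENNReal
open Crest.AnalysisR.Kinetic
open Crest.Agent.R122.GC311 Crest.Agent.R122.Kin796 Crest.Agent.R122.Kin796.CTree
open Crest.Agent.R122.Tree674 Crest.Agent.R122.EDefs602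
open Crest.Agent.R122.Gate424 Crest.Agent.R122.Gate973 Crest.Agent.R122.LN2
open Crest.Agent.R122.BH167 Crest.Agent.R122.LinkM547
open Crest.Agent.R122.PairRep581 (Shp ShpOk osP treeA ctOkS)

noncomputable section

namespace Crest.Agent.R122.GateOsP424

variable {Φ : Space3 → ℝ} {f₀ : PhasePoint → ℝ} {T te T' γ β : ℝ} {ρ : Space3 → ℝ≥0∞}
  {C : ℝ≥0∞} {K : ℕ} {P : CTree} {S : Shp}

/-! ### Data -/

/-- Births of (tree, structure). -/
def osB (P : CTree) (S : Shp) (ε : ℝ) (q : (PhasePoint × Par P) × S.Θ) : Idx P ⊕ S.κ → ℝ :=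
  Sum.elim (fun _ => 0) (S.b ε q.2)

/-- Initial states of (tree, structure). -/
def osZ (Φ : Space3 → ℝ) (P : CTree) (S : Shp) (ε : ℝ) (q : (PhasePoint × Par P) × S.Θ) :
    Idx P ⊕ S.κ → PhasePoint :=
  Sum.elim (linesM Φ ε P q.1.1 q.1.2) (S.z ε q.2)

theorem expW_sum {κ κ' : Type} [Fintype κ] [Fintype κ'] (a : ℝ) (z : κ → PhasePoint)
    (z' : κ' → PhasePoint) : expW a (Sum.elim z z') = expW a z * expW a z' := by
  unfold expW
  rw [Fintype.prod_sum_type]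
  rfl

theorem expW_osZ (a ε : ℝ) (q : (PhasePoint × Par P) × S.Θ) :
    expW a (osZ Φ P S ε q) = expW a (linesM Φ ε P q.1.1 q.1.2) * expW a (S.z ε q.2) :=
  expW_sum a _ _

/-- The law of the tree with the activity. -/
theorem treeA_eq (hΦ : AdmissiblePotential Φ) (hf : Measurable f₀) (ε T' : ℝ) (P : CTree) :
    treeA Φ f₀ ε T' P = activity ε • treeM Φ f₀ ε P T' := by
  unfold treeA treeM
  rw [← withDensity_smul _ (LN2.measurable_treeD hΦ hf ε P T')]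
  congr 1
  funext z
  unfold PairRep581.treeD LN2.treeD
  by_cases hz : Valid Φ ε P T' z.1.2 z.2
  · have hz' : z ∈ {z : PhasePoint × Par P | Valid Φ ε P T' z.1.2 z.2} := hz
    rw [indicator_of_mem hz', Pi.smul_apply, smul_eq_mul, indicator_of_mem hz']
  · have hz' : z ∉ {z : PhasePoint × Par P | Valid Φ ε P T' z.1.2 z.2} := hz
    rw [indicator_of_notMem hz', Pi.smul_apply, smul_eq_mul, indicator_of_notMem hz', mul_zero]

theorem sf_osP (hS : ShpOk γ β ρ S) (ε : ℝ) (i : Unit) :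
    SFinite (osP Φ f₀ te T' K P S ε i) := by
  have := hS.sf ε
  unfold osP
  infer_instance

theorem card_pos (hS : ShpOk γ β ρ S) : 1 ≤ Fintype.card S.κ := by
  obtain ⟨j₀, -⟩ := hS.pin
  exact Fintype.card_pos_iff.2 ⟨j₀⟩

theorem card_idx_pos (P : CTree) : 1 ≤ Fintype.card (Idx P) := Fintype.card_pos_iff.2 ⟨root P⟩

theorem card_le (hS : ShpOk γ β ρ S) : 2 ≤ Fintype.card (Idx P ⊕ S.κ) := by
  have h1 := card_idx_pos P
  have h2 := card_pos hS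
  rw [Fintype.card_sum]
  omega

/-! ### Domination -/

/-- **The contact tree and the structure are dominated**, one group, anchored at the tree. -/
theorem dom_osP (hΦ : AdmissiblePotential Φ) (hf : Measurable f₀) (he : Env f₀ γ ρ C)
    (hS : ShpOk γ β ρ S) (te T' : ℝ) (K : ℕ) (P : CTree) :
    ∃ (c : ℝ≥0∞) (Λ : Measure (Idx P ⊕ S.κ → ℝ)), c ≠ ∞ ∧ IsFiniteMeasure Λ ∧
      ∀ ε, 0 < ε → ∀ i, Dom γ ρ ε 1 (Finset.univ.disjSum ∅) c Λ (osP Φ f₀ te T' K P S ε i)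
        (osB P S ε) (osZ Φ P S ε) := by
  obtain ⟨c, Λ, hc, hΛ, hd⟩ := hS.dom
  refine ⟨C ^ Fintype.card (Idx P) * c, prodΛ (Measure.dirac fun _ : Idx P => (0 : ℝ)) Λ,
    ENNReal.mul_ne_top (ENNReal.pow_ne_top he.fin) hc, inferInstance, fun ε hε i => ?_⟩
  have := hS.sf ε
  have h1 := Dom.prod he.meas (dom_tree hΦ hf he hε P T') (hd ε hε) (card_idx_pos P) (card_pos hS)
  have h2 := Dom.smul_act h1 hε (card_le hS)
  have h3 := Dom.restrict h2 (ctOkS Φ ε K te P S)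
  have e1 : (activity ε • (treeM Φ f₀ ε P T').prod (S.m ε)).restrict (ctOkS Φ ε K te P S) =
      osP Φ f₀ te T' K P S ε i := by
    unfold osP
    rw [treeA_eq hΦ hf, Measure.prod_smul_left]
  rw [e1] at h3
  exact h3

/-- With an independent test line: two groups. -/
theorem dom_osPX (hΦ : AdmissiblePotential Φ) (hf : Measurable f₀) (he : Env f₀ γ ρ C)
    (hS : ShpOk γ β ρ S) (te T' : ℝ) (K : ℕ) (P : CTree) {g : ℝ → ℝ} (hgm : Measurable g)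
    (hg : ∀ τ ∈ Ioc (0 : ℝ) te, γ ≤ g τ) {ρm : ℝ≥0∞} (hρm : ρm ≠ ∞) (Km : ℕ) :
    ∃ (c : ℝ≥0∞) (Λ : Measure ((Idx P ⊕ S.κ) ⊕ Unit → ℝ)), c ≠ ∞ ∧ IsFiniteMeasure Λ ∧
      ∀ ε, 0 < ε → ∀ i, Dom γ ρ ε 2 ((Finset.univ.disjSum ∅).disjSum ∅) c Λ
        ((osP Φ f₀ te T' K P S ε i).prod (lineM g ρm Km te))
        (fun θ => Sum.elim (osB P S ε θ.1) fun _ : Unit => θ.2.1.1)
        (fun θ => Sum.elim (osZ Φ P S ε θ.1) fun _ : Unit => back θ.2.1) := by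
  obtain ⟨c, Λ, hc, hΛ, hd⟩ := dom_osP hΦ hf he hS te T' K P
  refine ⟨c * ∑' n : ℕ, markW ρm Km n, prodΛ Λ (lineΛ te),
    ENNReal.mul_ne_top hc (sum_markW_ne_top hρm Km), inferInstance, fun ε hε i => ?_⟩
  have := sf_osP (Φ := Φ) (f₀ := f₀) (te := te) (T' := T') (K := K) (P := P) hS ε i
  exact Dom.prod he.meas (hd ε hε i) (dom_line hg hgm ρm Km ε)
    ((by omega : 1 ≤ 2).trans (card_le hS)) le_rfl

section pieces

variable (hΦ : AdmissiblePotential Φ) (hf : Measurable f₀)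
  (h1 : ∫⁻ z, ENNReal.ofReal (f₀ z) ≤ 1) (he : Env f₀ γ ρ C) (hγ : 0 < γ) (hS : ShpOk γ β ρ S)
include hΦ hf h1 he hγ hS

/-! ### Bad partitions and bad hits -/

theorem badF_osP (hCN : VLMeas973.ClassNull Φ T) (te T' : ℝ) (K : ℕ) (P : CTree) (c : ℝ) (N : ℕ) :
    BadF f₀ (osP Φ f₀ te T' K P S) (fun R ς ε _ _ q w =>
      BadGas Φ T c R ς ε N 1 (Finset.univ.disjSum ∅) (osB P S ε q) (osZ Φ P S ε q) w) := by
  obtain ⟨c₁, Λ, hc, hΛ, hd⟩ := dom_osP hΦ hf he hS te T' K P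
  exact badF_badGas (m := osP Φ f₀ te T' K P S) hCN hf h1 he hγ c N
    ((by omega : 1 ≤ 2).trans (card_le hS)) _ hc Λ (fun ε i => sf_osP hS ε i)
    fun ε i hε => hd ε hε i

theorem badF_osPX (hCN : VLMeas973.ClassNull Φ T) (te T' : ℝ) (K : ℕ) (P : CTree) (c : ℝ) (N : ℕ)
    {g : ℝ → ℝ} (hgm : Measurable g) (hg : ∀ τ ∈ Ioc (0 : ℝ) te, γ ≤ g τ) {ρm : ℝ≥0∞}
    (hρm : ρm ≠ ∞) (Km : ℕ) :
    BadF f₀ (fun ε i => (osP Φ f₀ te T' K P S ε i).prod (lineM g ρm Km te))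
      (fun R ς ε _ _ θ w =>
        BadGas Φ T c R ς ε N 2 ((Finset.univ.disjSum ∅).disjSum ∅)
          (Sum.elim (osB P S ε θ.1) fun _ : Unit => θ.2.1.1)
          (Sum.elim (osZ Φ P S ε θ.1) fun _ : Unit => back θ.2.1) w) := by
  obtain ⟨c₁, Λ, hc, hΛ, hd⟩ := dom_osPX hΦ hf he hS te T' K P hgm hg hρm Km
  refine badF_badGas (m := fun ε i => (osP Φ f₀ te T' K P S ε i).prod (lineM g ρm Km te))
    (b := fun ε _ θ => Sum.elim (osB P S ε θ.1) fun _ : Unit => θ.2.1.1)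
    (z := fun ε _ θ => Sum.elim (osZ Φ P S ε θ.1) fun _ : Unit => back θ.2.1)
    hCN hf h1 he hγ c N ?_ _ hc Λ (fun ε i => ?_) fun ε i hε => hd ε hε i
  · have := card_le (P := P) hS
    rw [Fintype.card_sum]
    omega
  · have := sf_osP (Φ := Φ) (f₀ := f₀) (te := te) (T' := T') (K := K) (P := P) hS ε i
    infer_instance

theorem gNull_hit_osP (hT : 0 ≤ T) (te T' : ℝ) (K : ℕ) (P : CTree) (c R : ℝ) (N K' : ℕ) :
    GNull f₀ (osP Φ f₀ te T' K P S) (fun ε _ _ q w =>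
      BadHitGas (BPos Φ T) Φ T c R ε N K' 1 (Finset.univ.disjSum ∅) (osB P S ε q)
        (osZ Φ P S ε q) w) := by
  obtain ⟨c₁, Λ, hc, hΛ, hd⟩ := dom_osP hΦ hf he hS te T' K P
  exact gNull_badHit (m := osP Φ f₀ te T' K P S) (b := fun ε _ q => osB P S ε q)
    (z := fun ε _ q => osZ Φ P S ε q) hΦ hT hf h1 he hγ
    ((by omega : 1 ≤ 2).trans (card_le hS)) _ hc Λ (fun ε i => sf_osP hS ε i)
    (fun ε i hε => hd ε hε i) c R N K'

theorem gNull_hit_osPX (hT : 0 ≤ T) (te T' : ℝ) (K : ℕ) (P : CTree) (c R : ℝ) (N K' : ℕ)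
    {g : ℝ → ℝ} (hgm : Measurable g) (hg : ∀ τ ∈ Ioc (0 : ℝ) te, γ ≤ g τ) {ρm : ℝ≥0∞}
    (hρm : ρm ≠ ∞) (Km : ℕ) :
    GNull f₀ (fun ε i => (osP Φ f₀ te T' K P S ε i).prod (lineM g ρm Km te))
      (fun ε _ _ θ w =>
        BadHitGas (BPos Φ T) Φ T c R ε N K' 2 ((Finset.univ.disjSum ∅).disjSum ∅)
          (Sum.elim (osB P S ε θ.1) fun _ : Unit => θ.2.1.1)
          (Sum.elim (osZ Φ P S ε θ.1) fun _ : Unit => back θ.2.1) w) := by
  obtain ⟨c₁, Λ, hc, hΛ, hd⟩ := dom_osPX hΦ hf he hS te T' K P hgm hg hρm Km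
  refine gNull_badHit (m := fun ε i => (osP Φ f₀ te T' K P S ε i).prod (lineM g ρm Km te))
    (b := fun ε _ θ => Sum.elim (osB P S ε θ.1) fun _ : Unit => θ.2.1.1)
    (z := fun ε _ θ => Sum.elim (osZ Φ P S ε θ.1) fun _ : Unit => back θ.2.1)
    hΦ hT hf h1 he hγ ?_ _ hc Λ (fun ε i => ?_) (fun ε i hε => hd ε hε i) c R N K'
  · have := card_le (P := P) hS
    rw [Fintype.card_sum]
    omega
  · have := sf_osP (Φ := Φ) (f₀ := f₀) (te := te) (T' := T') (K := K) (P := P) hS ε i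
    infer_instance

omit he hγ in
/-- **Runs from the contact tree and the structure**, from an exponential moment. -/
theorem gLe_runS_osP {b C₀ : ℝ} (hb : 0 < b) (hT : 0 ≤ T) (hC₀ : 0 ≤ C₀)
    (hG : ∀ z : PhasePoint, f₀ z ≤ C₀ * Real.exp (-(2 * b * ‖z.2‖ ^ 2))) {u : ℝ} (hu : u ≤ T)
    (te T' : ℝ) (K : ℕ) (P : CTree) (K' : ℕ) {M : ℝ≥0∞} (hM : M ≠ ∞)
    (hmom : ∀ ε, 0 < ε → ∫⁻ q, expW b (linesM Φ ε P q.1.1 q.1.2) * expW b (S.z ε q.2)
      ∂(osP Φ f₀ te T' K P S ε ()) ≤ M) {δ : ℝ≥0∞} (hδ : 0 < δ) :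
    ∃ L₀ : ℕ, ∀ L, L₀ ≤ L → GLe f₀ (osP Φ f₀ te T' K P S) (fun ε _ _ q w =>
      RunS Φ ε u K' L (osB P S ε q) (osZ Φ P S ε q) w) δ := by
  refine gLe_runS (I := Unit) (m := osP Φ f₀ te T' K P S) (b := fun ε _ q => osB P S ε q)
    (z := fun ε _ q => osZ Φ P S ε q) (t := fun _ => u) hΦ hb hT hC₀ K' hf hG h1 (fun _ => hu)
    (fun ε _ hε => ?_) (fun ε _ hε => ?_) hM (fun ε _ hε => ?_) hδ
  · exact measurable_sumElim.comp (measurable_const.prodMk ((hS.mb hε).comp measurable_snd))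
  · exact measurable_sumElim.comp (((measurable_linesM hΦ ε P).comp measurable_fst).prodMk
      ((hS.mz hε).comp measurable_snd))
  · simp only [expW_osZ]
    exact hmom ε hε

/-! ### The gateways -/

/-- **The plain gateway** for a contact tree and a structure. `B` : further families of bad events
(`BadF`), `Ht` : further null events. -/
theorem gNull_osP_of_det (hCN : VLMeas973.ClassNull Φ T) {b C₀ : ℝ} (hb : 0 < b) (hT : 0 ≤ T)
    (hC₀ : 0 ≤ C₀) (hG : ∀ z : PhasePoint, f₀ z ≤ C₀ * Real.exp (-(2 * b * ‖z.2‖ ^ 2))) {u : ℝ}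
    (hu : u ≤ T) {te T' : ℝ} {K : ℕ} {P : CTree} {K' : ℕ} {M : ℝ≥0∞} (hM : M ≠ ∞)
    (hmom : ∀ ε, 0 < ε → ∫⁻ q, expW b (linesM Φ ε P q.1.1 q.1.2) * expW b (S.z ε q.2)
      ∂(osP Φ f₀ te T' K P S ε ()) ≤ M)
    {E : ℝ → Unit → (n : ℕ) → ((PhasePoint × Par P) × S.Θ) → Config n → Prop}
    (hdet : ∀ L : ℕ, ∃ (B : ℝ → ℝ → ℝ → Unit → (n : ℕ) → ((PhasePoint × Par P) × S.Θ) →
        Config n → Prop)
      (Ht : ℝ → Unit → (n : ℕ) → ((PhasePoint × Par P) × S.Θ) → Config n → Prop)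
      (N : ℕ) (c c' R₁ : ℝ) (N' K₁ : ℕ), BadF f₀ (osP Φ f₀ te T' K P S) B ∧
      GNull f₀ (osP Φ f₀ te T' K P S) Ht ∧
      ∀ R > 0, ∀ ς > 0, ∃ ε₁ : ℝ, 0 < ε₁ ∧ ∀ ε : ℝ, 0 < ε → ε < ε₁ → ∀ i n q (w : Config n),
        w ∈ PairExcluded ε n → E ε i n q w →
        RunS Φ ε u K' L (osB P S ε q) (osZ Φ P S ε q) w ∨
        (BadGas Φ T c R ς ε N 1 (Finset.univ.disjSum ∅) (osB P S ε q) (osZ Φ P S ε q) w ∨
          B R ς ε i n q w) ∨
        BadHitGas (BPos Φ T) Φ T c' R₁ ε N' K₁ 1 (Finset.univ.disjSum ∅) (osB P S ε q)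
          (osZ Φ P S ε q) w ∨ Ht ε i n q w) :
    GNull f₀ (osP Φ f₀ te T' K P S) E := by
  choose B Ht N c c' R₁ N' K₁ hB hH hdet using hdet
  refine gNull_of_fam hf (m := osP Φ f₀ te T' K P S)
    (Rn := fun L ε _ _ q w => RunS Φ ε u K' L (osB P S ε q) (osZ Φ P S ε q) w)
    (Ht := fun L ε i n q w => BadHitGas (BPos Φ T) Φ T (c' L) (R₁ L) ε (N' L) (K₁ L) 1
      (Finset.univ.disjSum ∅) (osB P S ε q) (osZ Φ P S ε q) w ∨ Ht L ε i n q w)
    (fun L => ⟨_, (badF_osP hΦ hf h1 he hγ hS hCN te T' K P (c L) (N L)).or hf (hB L), hdet L⟩)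
    (fun δ hδ => gLe_runS_osP hΦ hf h1 hS hb hT hC₀ hG hu te T' K P K' hM hmom hδ)
    fun L => (gNull_hit_osP hΦ hf h1 he hγ hS hT te T' K P (c' L) (R₁ L) (N' L) (K₁ L)).or hf
      (hH L)

omit he hγ in
/-- **The gateway for the capped measure of an independent line**, structure: contact tree and
structure. -/
theorem fNull_osP_of_det {b C₀ : ℝ} (hb : 0 < b) (hT : 0 ≤ T)
    (hC₀ : 0 ≤ C₀) (hG : ∀ z : PhasePoint, f₀ z ≤ C₀ * Real.exp (-(2 * b * ‖z.2‖ ^ 2))) {u : ℝ}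
    (hu : u ≤ T) {te T' : ℝ} (hte : te ≤ T) {K : ℕ} {P : CTree} {K' : ℕ} {M : ℝ≥0∞} (hM : M ≠ ∞)
    (hmom : ∀ ε, 0 < ε → ∫⁻ q, expW b (linesM Φ ε P q.1.1 q.1.2) * expW b (S.z ε q.2)
      ∂(osP Φ f₀ te T' K P S ε ()) ≤ M)
    (hmass : ∀ ε, 0 < ε → osP Φ f₀ te T' K P S ε () univ ≤ M)
    {βx γx A : ℝ} (hβx : 0 < βx) (hβγ : βx < γx) (hA : 0 ≤ A) {env : Space3 → ℝ≥0∞}
    (hE : EnvB βx f₀ env A) {g : ℝ → ℝ} (hgm : Measurable g)
    (hgx : ∀ τ ∈ Ioc (0 : ℝ) te, γx ≤ g τ)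
    {ρm : ℝ≥0∞} (hρm : ρm ≠ ∞) {Km : ℕ}
    {E : ℝ → Unit → (n : ℕ) → ((PhasePoint × Par P) × S.Θ) → ML → Config n → Prop}
    (hdet : ∀ L : ℕ, ∃ (BS : ℝ → ℝ → ℝ → Unit → (n : ℕ) → ((PhasePoint × Par P) × S.Θ) →
        Config n → Prop)
      (BX : ℝ → ℝ → ℝ → Unit → (n : ℕ) → ML → Config n → Prop)
      (BJ : ℝ → ℝ → ℝ → Unit → (n : ℕ) → ((PhasePoint × Par P) × S.Θ) × ML → Config n → Prop)
      (HS : ℝ → Unit → (n : ℕ) → ((PhasePoint × Par P) × S.Θ) → Config n → Prop)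
      (HX : ℝ → Unit → (n : ℕ) → ML → Config n → Prop)
      (HJ : ℝ → Unit → (n : ℕ) → ((PhasePoint × Par P) × S.Θ) × ML → Config n → Prop),
      (BadF f₀ (osP Φ f₀ te T' K P S) BS ∧
        BadF f₀ (fun (_ : ℝ) (_ : Unit) => lineM g ρm Km te) BX ∧
        BadF f₀ (fun ε i => (osP Φ f₀ te T' K P S ε i).prod (lineM g ρm Km te)) BJ) ∧
      (GNull f₀ (osP Φ f₀ te T' K P S) HS ∧
        GNull f₀ (fun (_ : ℝ) (_ : Unit) => lineM g ρm Km te) HX ∧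
        GNull f₀ (fun ε i => (osP Φ f₀ te T' K P S ε i).prod (lineM g ρm Km te)) HJ) ∧
      ∀ R > 0, ∀ ς > 0, ∃ ε₁ : ℝ, 0 < ε₁ ∧ ∀ ε : ℝ, 0 < ε → ε < ε₁ → ∀ i n q x (w : Config n),
        w ∈ PairExcluded ε n → E ε i n q x w →
        (RunS Φ ε u K' L (osB P S ε q) (osZ Φ P S ε q) w ∨ BS R ς ε i n q w ∨ HS ε i n q w) ∨
        (Run Φ ε u K' L (MW.line x) () w ∨ BX R ς ε i n x w ∨ HX ε i n x w) ∨
        (BJ R ς ε i n (q, x) w ∨ HJ ε i n (q, x) w)) :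
    FNull f₀ (osP Φ f₀ te T' K P S)
      (fun ε i n q w => min 1 ((lineM g ρm Km te) {x | E ε i n q x w})) := by
  choose BS BX BJ HS HX HJ hB hH hdet using hdet
  exact fNull_cap_of_det (m := osP Φ f₀ te T' K P S) (ν := fun _ _ => lineM g ρm Km te) hf
    (fun ε i => sf_osP hS ε i) (fun _ _ => inferInstance) hM (fun ε _ hε => hmass ε hε)
    (RS := fun L ε _ _ q w => RunS Φ ε u K' L (osB P S ε q) (osZ Φ P S ε q) w)
    (RX := fun L ε _ _ x w => Run Φ ε u K' L (MW.line x) () w)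
    (HS := HS) (HX := HX) (HJ := HJ)
    (fun L => ⟨BS L, BX L, BJ L, (hB L).1, (hB L).2.1, (hB L).2.2, hdet L⟩)
    (fun δ hδ => gLe_runS_osP hΦ hf h1 hS hb hT hC₀ hG hu te T' K P K' hM hmom hδ)
    (fun δ hδ => gLe_runX (t := fun _ => u) hΦ hβx hβγ hte hT hA K' hf h1 hE hgm hgx hρm Km
      (fun _ => hu) hδ)
    (fun L => (hH L).1) (fun L => (hH L).2.1) fun L => (hH L).2.2

end pieces

end Crest.Agent.R122.GateOsP424

end
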