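import Crest.Agent.R122.LN2Inst2_473
import Crest.Agent.R122.VLInstC_442
import Crest.Agent.R122.TouchFlux2_494

/-!
# Row 122, LN2Touch (helper494)

Bad events of a translation invariant structure (no localisation) which is touched by the gas.

* `shZ`, `TInv m b z l` : the law of the structure (births, time-0 states, marked line) is
  translation invariant.
* `transport` : mass transport `(∫ χ) ∫ H dm = ∫ χ(anchor) (∫ H(shifted by a) da) dm`.
* `invc E` : invariant closure of a measurable set; null difference.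
* `ln2_touch` : `E_w ∫ 1[BadGas with all anchors] · near touch dm ≤ δ`.
-/

set_option autoImplicit false
set_option linter.unusedSectionVars false
open MeasureTheory Set
open scoped Classical ENNReal
open Crest.AnalysisR.Kinetic
noncomputable section

namespace Crest.Agent.R122.TouchFlux494

open Crest.Agent.R122.GC311 Crest.Agent.R122.VL581 Crest.Agent.R122.LN2
open Crest.Agent.R122.Kin796
open Crest.Agent.R122.VLMeas973 (TLP)
open Crest.Agent.R122.VLInst442 (ok_vadd VCt_vadd Conn_vadd)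
open Crest.Agent.R122.Boost969 (LSt posAt)
open Crest.Agent.R122.Pair292 (shL)

/-! ## Translations -/

section shift

variable {κ : Type}

/-- Translation of a configuration. -/
def shZ (a : Space3) (z : κ → PhasePoint) : κ → PhasePoint := fun i => ((z i).1 + a, (z i).2)

theorem shZ_eq (a : Space3) (z : κ → PhasePoint) : shZ a z = fun i => z i + (a, 0) := by
  funext i
  refine Prod.ext rfl ?_
  simp [shZ]

theorem shZ_shZ (a a' : Space3) (z : κ → PhasePoint) : shZ a (shZ a' z) = shZ (a + a') z := by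
  funext i
  refine Prod.ext ?_ rfl
  simp only [shZ]
  abel

theorem shZ_zero (z : κ → PhasePoint) : shZ 0 z = z := by
  funext i
  refine Prod.ext ?_ rfl
  simp [shZ]

theorem measurable_shZ : Measurable fun p : Space3 × (κ → PhasePoint) => shZ p.1 p.2 := by
  unfold shZ
  refine measurable_pi_iff.2 fun i => ?_
  exact (((measurable_pi_apply i).comp measurable_snd).fst.add measurable_fst).prodMk
    ((measurable_pi_apply i).comp measurable_snd).snd

theorem measurable_shL : Measurable fun p : Space3 × LSt => shL p.1 p.2 := by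
  unfold shL
  fun_prop

variable [Fintype κ]

theorem measurePreserving_shZ (a : Space3) :
    MeasurePreserving (shZ a : (κ → PhasePoint) → κ → PhasePoint) volume volume := by
  have h : (shZ a : (κ → PhasePoint) → κ → PhasePoint) = fun z => z + fun _ => ((a, 0) : PhasePoint) := by
    funext z
    rw [shZ_eq]
    rfl
  rw [h]
  exact measurePreserving_add_right _ _

end shift

/-! ## Invariant structures and mass transport -/

section transport

variable {κ : Type} {Θ : Type} [MeasurableSpace Θ]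

/-- The law of `(b, z, l)` is translation invariant. -/
structure TInv (m : Measure Θ) (b : Θ → κ → ℝ) (z : Θ → κ → PhasePoint) (l : Θ → LSt) : Prop where
  ml : Measurable l
  inv : ∀ (a : Space3) (F : (κ → ℝ) × (κ → PhasePoint) × LSt → ℝ≥0∞), Measurable F →
    ∫⁻ θ, F (b θ, shZ a (z θ), shL a (l θ)) ∂m = ∫⁻ θ, F (b θ, z θ, l θ) ∂m

/-- **Mass transport.** -/
theorem transport {m : Measure Θ} [SFinite m] {b : Θ → κ → ℝ} {z : Θ → κ → PhasePoint}
    {l : Θ → LSt} (hb : Measurable b) (hz : Measurable z) (h : TInv m b z l)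
    {H : (κ → ℝ) × (κ → PhasePoint) × LSt → ℝ≥0∞} (hH : Measurable H) {χ : Space3 → ℝ≥0∞}
    (hχ : Measurable χ) (i₀ : κ) :
    (∫⁻ a, χ a) * ∫⁻ θ, H (b θ, z θ, l θ) ∂m =
      ∫⁻ θ, χ (z θ i₀).1 * (∫⁻ a : Space3, H (b θ, shZ a (z θ), shL a (l θ))) ∂m := by
  have hzi : Measurable fun θ => (z θ i₀).1 := ((measurable_pi_apply i₀).comp hz).fst
  have hm1 : Measurable fun p : Θ × Space3 => H (b p.1, shZ p.2 (z p.1), shL p.2 (l p.1)) :=
    hH.comp ((hb.comp measurable_fst).prodMk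
      ((measurable_shZ.comp (measurable_snd.prodMk (hz.comp measurable_fst))).prodMk
        (measurable_shL.comp (measurable_snd.prodMk (h.ml.comp measurable_fst)))))
  have hm2 : Measurable fun p : Θ × Space3 =>
      χ (z p.1 i₀).1 * H (b p.1, shZ p.2 (z p.1), shL p.2 (l p.1)) :=
    (hχ.comp (hzi.comp measurable_fst)).mul hm1
  have hm3 : Measurable fun p : Θ × Space3 => χ ((z p.1 i₀).1 - p.2) * H (b p.1, z p.1, l p.1) :=
    (hχ.comp ((hzi.comp measurable_fst).sub measurable_snd)).mul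
      (hH.comp ((hb.comp measurable_fst).prodMk ((hz.comp measurable_fst).prodMk
        (h.ml.comp measurable_fst))))
  have e1 : ∫⁻ θ, χ (z θ i₀).1 * (∫⁻ a : Space3, H (b θ, shZ a (z θ), shL a (l θ))) ∂m =
      ∫⁻ θ, (∫⁻ a : Space3, χ (z θ i₀).1 * H (b θ, shZ a (z θ), shL a (l θ))) ∂m := by
    refine lintegral_congr fun θ => ?_
    rw [lintegral_const_mul]
    exact hm1.comp (measurable_const.prodMk measurable_id)
  rw [e1, lintegral_lintegral_swap hm2.aemeasurable]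
  have e2 : ∀ a : Space3, ∫⁻ θ, χ (z θ i₀).1 * H (b θ, shZ a (z θ), shL a (l θ)) ∂m =
      ∫⁻ θ, χ ((z θ i₀).1 - a) * H (b θ, z θ, l θ) ∂m := by
    intro a
    have h1 := h.inv a (fun p => χ ((p.2.1 i₀).1 - a) * H p)
      ((hχ.comp (((measurable_pi_apply i₀).comp measurable_snd.fst).fst.sub measurable_const)).mul
        hH)
    rw [← h1]
    refine lintegral_congr fun θ => ?_
    simp only [shZ, add_sub_cancel_right]
  simp only [e2]
  rw [← lintegral_lintegral_swap hm3.aemeasurable]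
  have e3 : ∀ θ, ∫⁻ a : Space3, χ ((z θ i₀).1 - a) * H (b θ, z θ, l θ) =
      (∫⁻ a, χ a) * H (b θ, z θ, l θ) := by
    intro θ
    have hc1 : Measurable fun a : Space3 => χ ((z θ i₀).1 - a) :=
      hχ.comp (measurable_const.sub measurable_id)
    rw [lintegral_mul_const _ hc1, lintegral_sub_left_eq_self χ]
  simp only [e3]
  have hc2 : Measurable fun θ => H (b θ, z θ, l θ) := hH.comp (hb.prodMk (hz.prodMk h.ml))
  rw [lintegral_const_mul _ hc2]

/-- Invariant weights. -/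
theorem TInv.withDensity {m : Measure Θ} {b : Θ → κ → ℝ} {z : Θ → κ → PhasePoint} {l : Θ → LSt}
    (hb : Measurable b) (hz : Measurable z) (h : TInv m b z l)
    {g : (κ → ℝ) × (κ → PhasePoint) × LSt → ℝ≥0∞} (hg : Measurable g)
    (hgi : ∀ a p, g (p.1, shZ a p.2.1, shL a p.2.2) = g p) :
    TInv (m.withDensity fun θ => g (b θ, z θ, l θ)) b z l where
  ml := h.ml
  inv a F hF := by
    have hg' : Measurable fun θ => g (b θ, z θ, l θ) := hg.comp (hb.prodMk (hz.prodMk h.ml))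
    have hs : Measurable fun θ => (b θ, shZ a (z θ), shL a (l θ)) :=
      hb.prodMk ((measurable_shZ.comp (measurable_const.prodMk hz)).prodMk
        (measurable_shL.comp (measurable_const.prodMk h.ml)))
    have hF1 : Measurable fun θ => F (b θ, shZ a (z θ), shL a (l θ)) := hF.comp hs
    have hF2 : Measurable fun θ => F (b θ, z θ, l θ) := hF.comp (hb.prodMk (hz.prodMk h.ml))
    rw [lintegral_withDensity_eq_lintegral_mul _ hg' hF1,
      lintegral_withDensity_eq_lintegral_mul _ hg' hF2]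
    have h1 := h.inv a (fun p => g p * F p) (hg.mul hF)
    simp only [Pi.mul_apply]
    rw [← h1]
    refine lintegral_congr fun θ => ?_
    rw [← hgi a (b θ, z θ, l θ)]

end transport

/-! ## Invariant closure -/

section invc

variable {κ : Type}

/-- Invariant closure (almost all translates are in `E`). -/
def invc (E : Set ((κ → ℝ) × (κ → PhasePoint))) : Set ((κ → ℝ) × (κ → PhasePoint)) :=
  {p | volume {a : Space3 | (p.1, shZ a p.2) ∉ E} = 0}

theorem measurableSet_invc {E : Set ((κ → ℝ) × (κ → PhasePoint))} (hE : MeasurableSet E) :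
    MeasurableSet (invc E) := by
  have hD : MeasurableSet {q : ((κ → ℝ) × (κ → PhasePoint)) × Space3 |
      (q.1.1, shZ q.2 q.1.2) ∉ E} := by
    have h1 : Measurable fun q : ((κ → ℝ) × (κ → PhasePoint)) × Space3 =>
        (q.1.1, shZ q.2 q.1.2) :=
      measurable_fst.fst.prodMk (measurable_shZ.comp (measurable_snd.prodMk measurable_fst.snd))
    exact (h1 hE).compl
  exact (measurable_measure_prodMk_left hD) (measurableSet_singleton 0)

theorem invc_shZ {E : Set ((κ → ℝ) × (κ → PhasePoint))} (b : κ → ℝ) (a : Space3)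
    (z : κ → PhasePoint) : (b, shZ a z) ∈ invc E ↔ (b, z) ∈ invc E := by
  have h1 : {a' : Space3 | (b, shZ a' (shZ a z)) ∉ E} =
      (fun a' => a' + a) ⁻¹' {a' : Space3 | (b, shZ a' z) ∉ E} := by
    ext a'
    simp only [mem_setOf_eq, mem_preimage, shZ_shZ]
  have h2 : volume ((fun a' => a' + a) ⁻¹' {a' : Space3 | (b, shZ a' z) ∉ E}) =
      volume {a' : Space3 | (b, shZ a' z) ∉ E} := measure_preimage_add_right _ _ _
  show volume {a' : Space3 | (b, shZ a' (shZ a z)) ∉ E} = 0 ↔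
    volume {a' : Space3 | (b, shZ a' z) ∉ E} = 0
  rw [h1, h2]

theorem mem_invc {E : Set ((κ → ℝ) × (κ → PhasePoint))} {b : κ → ℝ} {z : κ → PhasePoint}
    (h : ∀ a, (b, shZ a z) ∈ E) : (b, z) ∈ invc E := by
  have : {a : Space3 | (b, shZ a z) ∉ E} = ∅ := by
    ext a
    simp [h a]
  show volume {a : Space3 | (b, shZ a z) ∉ E} = 0
  rw [this, measure_empty]

variable [Fintype κ]

/-- The invariant closure is contained in `E` up to a null set. -/
theorem volume_invc_diff {E : Set ((κ → ℝ) × (κ → PhasePoint))} (hE : MeasurableSet E)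
    (b : κ → ℝ) : volume {z : κ → PhasePoint | (b, z) ∈ invc E ∧ (b, z) ∉ E} = 0 := by
  set D : Set (κ → PhasePoint) := {z | (b, z) ∈ invc E ∧ (b, z) ∉ E} with hD
  have hpm : Measurable fun z : κ → PhasePoint => (b, z) := measurable_const.prodMk measurable_id
  have hDm : MeasurableSet D :=
    (hpm (measurableSet_invc hE)).inter (hpm hE).compl
  have h1 : ∀ a : Space3, volume (shZ a ⁻¹' D) = volume D := fun a =>
    (measurePreserving_shZ a).measure_preimage hDm.nullMeasurableSet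
  have hm : Measurable fun p : Space3 × (κ → PhasePoint) =>
      D.indicator (1 : (κ → PhasePoint) → ℝ≥0∞) (shZ p.1 p.2) :=
    (measurable_one.indicator hDm).comp measurable_shZ
  have h2 : ∫⁻ a : Space3, volume (shZ a ⁻¹' D) = 0 := by
    have e1 : ∀ a : Space3, volume (shZ a ⁻¹' D) =
        ∫⁻ z : κ → PhasePoint, D.indicator (1 : (κ → PhasePoint) → ℝ≥0∞) (shZ a z) := by
      intro a
      have hs : MeasurableSet (shZ a ⁻¹' D) :=
        (measurable_shZ.comp (measurable_const.prodMk measurable_id)) hDm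
      rw [← lintegral_indicator_one hs]
      rfl
    simp only [e1]
    rw [lintegral_lintegral_swap hm.aemeasurable]
    have e2 : ∀ z : κ → PhasePoint,
        ∫⁻ a : Space3, D.indicator (1 : (κ → PhasePoint) → ℝ≥0∞) (shZ a z) = 0 := by
      intro z
      have hs : MeasurableSet {a : Space3 | shZ a z ∈ D} :=
        (measurable_shZ.comp (measurable_id.prodMk measurable_const)) hDm
      have e3 : ∫⁻ a : Space3, D.indicator (1 : (κ → PhasePoint) → ℝ≥0∞) (shZ a z) =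
          volume {a : Space3 | shZ a z ∈ D} := by
        rw [← lintegral_indicator_one hs]
        rfl
      rw [e3]
      by_cases hz : (b, z) ∈ invc E
      · refine measure_mono_null (fun a ha => ?_) hz
        exact ha.2
      · have : {a : Space3 | shZ a z ∈ D} = ∅ := by
          ext a
          simp only [mem_setOf_eq, mem_empty_iff_false, iff_false]
          intro ha
          exact hz ((invc_shZ b a z).1 ha.1)
        rw [this, measure_empty]
    simp only [e2, lintegral_zero]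
  simp only [h1] at h2
  rw [lintegral_const] at h2
  rcases mul_eq_zero.1 h2 with h3 | h3
  · exact h3
  · exact absurd h3 (by simp)

theorem lintegral_invc_le {E : Set ((κ → ℝ) × (κ → PhasePoint))} (hE : MeasurableSet E)
    (b : κ → ℝ) (h : (κ → PhasePoint) → ℝ≥0∞) :
    ∫⁻ z, {z | (b, z) ∈ invc E}.indicator h z ≤ ∫⁻ z, {z | (b, z) ∈ E}.indicator h z := by
  refine lintegral_mono_ae ?_
  have h0 := volume_invc_diff hE b
  have h1 : ∀ᵐ z : κ → PhasePoint, ¬ ((b, z) ∈ invc E ∧ (b, z) ∉ E) := by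
    rw [ae_iff]
    simpa using h0
  filter_upwards [h1] with z hz
  by_cases hc : (b, z) ∈ invc E
  · have hE' : (b, z) ∈ E := by
      by_contra hn
      exact hz ⟨hc, hn⟩
    rw [indicator_of_mem (show z ∈ {z | (b, z) ∈ invc E} from hc),
      indicator_of_mem (show z ∈ {z | (b, z) ∈ E} from hE')]
  · rw [indicator_of_notMem (show z ∉ {z | (b, z) ∈ invc E} from hc)]
    exact zero_le

end invc

/-! ## Covariance of the bad partitions -/

section cov

variable {J κ' : Type} [Fintype J] {M : VSys J κ'}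

theorem tlp_vadd (hΦ : AdmissiblePotential M.Φ) (hε : 0 < M.ε) (ho : M.o = none) {C ℓ ς : ℝ}
    {P : Finset J} {Z : J → PhasePoint} (w : PhasePoint) :
    TLP M C ℓ ς P (fun j => Z j + w) ↔ TLP M C ℓ ς P Z := by
  have hn : ∀ i : J, M.o ≠ some i := fun i => by rw [ho]; simp
  unfold TLP
  have h1 : (∀ A ⊆ P, M.ok A M.T (fun j => Z j + w)) ↔ ∀ A ⊆ P, M.ok A M.T Z :=
    forall_congr' fun A => forall_congr' fun _ => ok_vadd hΦ hε w
  rw [h1]
  refine and_congr_right fun _ => exists_congr fun E => exists_congr fun σ =>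
    and_congr_right fun _ => and_congr_right fun _ => and_congr_right fun _ =>
    and_congr_right fun _ => and_congr_right fun _ => ?_
  refine forall_congr' fun i => forall_congr' fun hi => forall_congr' fun j =>
    forall_congr' fun hj => forall_congr' fun _ => forall_congr' fun t => forall_congr' fun _ => ?_
  rw [VCt_vadd hΦ hε (hn i) (hn j) w]

theorem badPart_vadd (hΦ : AdmissiblePotential M.Φ) (hε : 0 < M.ε) (ho : M.o = none) {C ℓ ς : ℝ}
    {s : ℕ} {A : Finset J} {Z : J → PhasePoint} (w : PhasePoint) :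
    M.BadPart C ℓ ς s A (fun j => Z j + w) ↔ M.BadPart C ℓ ς s A Z := by
  have hn : ∀ i : J, M.o ≠ some i := fun i => by rw [ho]; simp
  unfold VSys.BadPart
  refine exists_congr fun π => and_congr ?_ (or_congr Iff.rfl (and_congr_right fun _ => ?_))
  · refine forall_congr' fun P => forall_congr' fun _ => and_congr ?_ Iff.rfl
    exact Conn_vadd hΦ hε (fun i _ => hn i) w
  · refine exists_congr fun P => and_congr_right fun _ => ?_
    rw [tlp_vadd hΦ hε ho w]

/-- One part: any anchor will do. -/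
theorem badPart_one {C ℓ ς : ℝ} {A A' : Finset J} {x : J} (hx : x ∈ A') {Z : J → PhasePoint}
    (h : M.BadPart C ℓ ς 1 A Z) : M.BadPart C ℓ ς 1 A' Z := by
  obtain ⟨π, h1, h2⟩ := h
  rcases h2 with h2 | h2
  · have h3 : π.parts = ∅ := by
      rw [← Finset.card_eq_zero]
      omega
    exact ⟨π, fun P hP => absurd hP (by rw [h3]; simp), Or.inl h2⟩
  · refine ⟨π, fun P hP => ⟨(h1 P hP).1, x, ?_, hx⟩, Or.inr h2⟩
    obtain ⟨P', hP'⟩ := Finset.card_eq_one.1 h2.1
    rw [hP', Finset.mem_singleton] at hP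
    have h4 := π.sup_parts
    rw [hP', Finset.sup_singleton] at h4
    rw [hP, show P' = Finset.univ from h4]
    exact Finset.mem_univ x

end cov

/-! ## The near touch of an invariant structure -/

theorem near_struct_le {Φ : Space3 → ℝ} {f₀ : PhasePoint → ℝ} (hΦ : AdmissiblePotential Φ)
    (hf : Measurable f₀) (h1 : ∫⁻ z, ENNReal.ofReal (f₀ z) ≤ 1)
    (h2 : ∫⁻ z, ENNReal.ofReal (f₀ z) * ENNReal.ofReal (1 + ‖z.2‖ ^ 2) ≠ ∞) (T R : ℝ) :
    ∃ C : ℝ≥0∞, C ≠ ∞ ∧ ∀ ε : ℝ, 0 < ε → ε ≤ 1 → ∀ te : ℝ, te ≤ T →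
      ∀ (κ Θ : Type) [MeasurableSpace Θ] (m : Measure Θ) [SFinite m] (b : Θ → κ → ℝ)
        (z : Θ → κ → PhasePoint) (l : Θ → LSt), Measurable b → Measurable z → TInv m b z l →
        (∀ᵐ θ ∂m, 0 ≤ (l θ).1) → ∀ g : (κ → ℝ) × (κ → PhasePoint) → ℝ≥0∞, Measurable g →
        (∀ p, g p ≠ ∞) → (∀ a b z, g (b, shZ a z) = g (b, z)) → ∀ χ : Space3 → ℝ≥0∞,
        Measurable χ → ∀ i₀ : κ,
        (∫⁻ a, χ a) * gcE f₀ ε (fun n w => ∫⁻ θ, g (b θ, z θ) *
          nearN Φ ε R te n (w, l θ) ∂m) ≤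
          C * ∫⁻ θ, χ (z θ i₀).1 * (g (b θ, z θ) * ENNReal.ofReal (1 + ‖(l θ).2.2‖)) ∂m := by
  obtain ⟨C, hC, hN⟩ := near_le hΦ hf h1 h2 T R
  refine ⟨C, hC, ?_⟩
  intro ε hε hε1 te hte κ Θ _ m _ b z l hb hz hti hl g hg hgt hgi χ hχ i₀
  set N : LSt → ℝ≥0∞ := fun l => gcE f₀ ε fun n w => nearN Φ ε R te n (w, l) with hNdef
  have hNm : Measurable N := by
    refine BadHit370.measurable_gcE_param hf ε
      (F := fun n (l : LSt) (w : Config n) => nearN Φ ε R te n (w, l)) fun n => ?_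
    exact (measurable_nearN hΦ hε R te n).comp (measurable_snd.prodMk measurable_fst)
  have hgθ : Measurable fun θ => g (b θ, z θ) := hg.comp (hb.prodMk hz)
  have e0 : gcE f₀ ε (fun n w => ∫⁻ θ, g (b θ, z θ) * nearN Φ ε R te n (w, l θ) ∂m) =
      ∫⁻ θ, g (b θ, z θ) * N (l θ) ∂m := by
    rw [← lintegral_gcE_swap hf ε m
      (F := fun n θ w => g (b θ, z θ) * nearN Φ ε R te n (w, l θ))]
    · refine lintegral_congr fun θ => ?_
      exact gcE_const_mul f₀ ε (hgt _) _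
    · intro n
      exact (hgθ.comp measurable_fst).mul ((measurable_nearN hΦ hε R te n).comp
        (measurable_snd.prodMk (hti.ml.comp measurable_fst)))
  have hHm : Measurable fun p : (κ → ℝ) × (κ → PhasePoint) × LSt => g (p.1, p.2.1) * N p.2.2 :=
    (hg.comp (measurable_fst.prodMk measurable_snd.fst)).mul (hNm.comp measurable_snd.snd)
  rw [e0, transport hb hz hti (H := fun p => g (p.1, p.2.1) * N p.2.2) hHm hχ i₀,
    ← lintegral_const_mul' _ _ hC]
  refine lintegral_mono_ae ?_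
  filter_upwards [hl] with θ hθ
  have hNsm : Measurable fun a : Space3 => N (shL a (l θ)) :=
    hNm.comp (measurable_shL.comp (measurable_id.prodMk measurable_const))
  have h3 : ∫⁻ a : Space3, g (b θ, shZ a (z θ)) * N (shL a (l θ)) =
      g (b θ, z θ) * ∫⁻ a : Space3, N (shL a (l θ)) := by
    simp only [hgi]
    rw [lintegral_const_mul _ hNsm]
  have h4 := hN ε hε hε1 te hte (l θ) hθ
  calc χ (z θ i₀).1 * ∫⁻ a : Space3, g (b θ, shZ a (z θ)) * N (shL a (l θ))
      = χ (z θ i₀).1 * (g (b θ, z θ) * ∫⁻ a : Space3, N (shL a (l θ))) := by rw [h3]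
    _ ≤ χ (z θ i₀).1 * (g (b θ, z θ) * (C * ENNReal.ofReal (1 + ‖(l θ).2.2‖))) := by
        gcongr
    _ = C * (χ (z θ i₀).1 * (g (b θ, z θ) * ENNReal.ofReal (1 + ‖(l θ).2.2‖))) := by ring

/-! ## Weights -/

section weights

variable {κ : Type} [Fintype κ]

theorem expW_ne_top (a : ℝ) (z : κ → PhasePoint) : expW a z ≠ ∞ := by
  unfold expW
  exact ENNReal.prod_ne_top fun j _ => ENNReal.ofReal_ne_top

theorem expW_shZ (a : ℝ) (x : Space3) (z : κ → PhasePoint) : expW a (shZ x z) = expW a z := rfl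

theorem expW_add (a a' : ℝ) (z : κ → PhasePoint) : expW a z * expW a' z = expW (a + a') z := by
  unfold expW
  rw [← Finset.prod_mul_distrib]
  refine Finset.prod_congr rfl fun j _ => ?_
  rw [← ENNReal.ofReal_mul (Real.exp_pos _).le, ← Real.exp_add]
  congr 2
  ring

theorem expW_eq (a : ℝ) (z : κ → PhasePoint) :
    expW a z = ENNReal.ofReal (Real.exp (a * ∑ j, ‖(z j).2‖ ^ 2)) := by
  unfold expW
  rw [← ENNReal.ofReal_prod_of_nonneg fun j _ => (Real.exp_pos _).le, ← Real.exp_sum,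
    Finset.mul_sum]

/-- Polynomial weights are absorbed by exponential ones. -/
theorem exists_one_add_le_expW {a : ℝ} (ha : 0 < a) (B : ℝ) :
    ∃ c : ℝ≥0∞, c ≠ ∞ ∧ ∀ (z : κ → PhasePoint) (v : ℝ), v ≤ B * (1 + ∑ i, ‖(z i).2‖) →
      ENNReal.ofReal (1 + v) ≤ c * expW a z := by
  refine ⟨ENNReal.ofReal ((1 + |B|) * Real.exp (Fintype.card κ * (1 / (4 * a)))),
    ENNReal.ofReal_ne_top, ?_⟩
  intro z v hv
  rw [expW_eq, ← ENNReal.ofReal_mul (by positivity)]
  refine ENNReal.ofReal_le_ofReal ?_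
  have hS : 0 ≤ ∑ i, ‖(z i).2‖ := Finset.sum_nonneg fun i _ => norm_nonneg _
  have h1 : 1 + v ≤ (1 + |B|) * (1 + ∑ i, ‖(z i).2‖) := by
    have h2 : B * (1 + ∑ i, ‖(z i).2‖) ≤ |B| * (1 + ∑ i, ‖(z i).2‖) :=
      mul_le_mul_of_nonneg_right (le_abs_self B) (by linarith)
    nlinarith
  have h2 : 1 + ∑ i, ‖(z i).2‖ ≤ Real.exp (∑ i, ‖(z i).2‖) := by
    have := Real.add_one_le_exp (∑ i, ‖(z i).2‖)
    linarith
  have h3 : ∑ i, ‖(z i).2‖ ≤ Fintype.card κ * (1 / (4 * a)) + a * ∑ j, ‖(z j).2‖ ^ 2 := by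
    have h4 : ∀ i, ‖(z i).2‖ ≤ 1 / (4 * a) + a * ‖(z i).2‖ ^ 2 := by
      intro i
      have h5 : 0 ≤ a * (‖(z i).2‖ - 1 / (2 * a)) ^ 2 := by positivity
      have h6 : a * (‖(z i).2‖ - 1 / (2 * a)) ^ 2 =
          a * ‖(z i).2‖ ^ 2 - ‖(z i).2‖ + 1 / (4 * a) := by
        field_simp
        ring
      linarith
    calc ∑ i, ‖(z i).2‖ ≤ ∑ i, (1 / (4 * a) + a * ‖(z i).2‖ ^ 2) :=
          Finset.sum_le_sum fun i _ => h4 i
      _ = _ := by
        rw [Finset.sum_add_distrib, Finset.sum_const, Finset.card_univ, nsmul_eq_mul,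
          Finset.mul_sum]
  calc 1 + v ≤ (1 + |B|) * (1 + ∑ i, ‖(z i).2‖) := h1
    _ ≤ (1 + |B|) * Real.exp (Fintype.card κ * (1 / (4 * a)) + a * ∑ j, ‖(z j).2‖ ^ 2) := by
        refine mul_le_mul_of_nonneg_left (h2.trans (Real.exp_le_exp.2 h3)) (by positivity)
    _ = (1 + |B|) * Real.exp (Fintype.card κ * (1 / (4 * a))) *
        Real.exp (a * ∑ j, ‖(z j).2‖ ^ 2) := by rw [Real.exp_add]; ring

theorem env_anti {f₀ : PhasePoint → ℝ} {γ γ' : ℝ} {ρ : Space3 → ℝ≥0∞} {C₀ : ℝ≥0∞}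
    (he : Env f₀ γ ρ C₀) (h : γ' ≤ γ) : Env f₀ γ' ρ C₀ where
  meas := he.meas
  le_one := he.le_one
  int := he.int
  fin := he.fin
  le z := (he.le z).trans (mul_le_mul_right (mul_le_mul_right (wG_anti h _) _) _)

/-- Second velocity moment. -/
theorem moment_of_env {f₀ : PhasePoint → ℝ} {γ : ℝ} (hγ : 0 < γ) {ρ : Space3 → ℝ≥0∞}
    {C₀ : ℝ≥0∞} (he : Env f₀ γ ρ C₀) :
    ∫⁻ z, ENNReal.ofReal (f₀ z) * ENNReal.ofReal (1 + ‖z.2‖ ^ 2) ≠ ∞ := by
  set K : ℝ≥0∞ := ENNReal.ofReal (1 + 2 / γ) with hK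
  have h1 : ∀ v : Space3, wG γ v * ENNReal.ofReal (1 + ‖v‖ ^ 2) ≤
      K * ENNReal.ofReal (Real.exp (-(γ / 2 * ‖v‖ ^ 2))) := by
    intro v
    unfold wG
    rw [hK, ← ENNReal.ofReal_mul (Real.exp_pos _).le, ← ENNReal.ofReal_mul (by positivity)]
    refine ENNReal.ofReal_le_ofReal ?_
    have h2 : 1 + ‖v‖ ^ 2 ≤ (1 + 2 / γ) * Real.exp (γ / 2 * ‖v‖ ^ 2) := by
      have h3 := Real.add_one_le_exp (γ / 2 * ‖v‖ ^ 2)
      have h4 : (1 + 2 / γ) * (γ / 2 * ‖v‖ ^ 2 + 1) =
          γ / 2 * ‖v‖ ^ 2 + 1 + ‖v‖ ^ 2 + 2 / γ := by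
        field_simp
        ring
      have h5 : (1 + 2 / γ) * (γ / 2 * ‖v‖ ^ 2 + 1) ≤
          (1 + 2 / γ) * Real.exp (γ / 2 * ‖v‖ ^ 2) :=
        mul_le_mul_of_nonneg_left h3 (by positivity)
      have h6 : 0 ≤ γ / 2 * ‖v‖ ^ 2 := by positivity
      have h7 : 0 ≤ 2 / γ := by positivity
      linarith
    have h8 : Real.exp (-(γ * ‖v‖ ^ 2)) * Real.exp (γ / 2 * ‖v‖ ^ 2) =
        Real.exp (-(γ / 2 * ‖v‖ ^ 2)) := by
      rw [← Real.exp_add]
      congr 1
      ring
    calc Real.exp (-(γ * ‖v‖ ^ 2)) * (1 + ‖v‖ ^ 2)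
        ≤ Real.exp (-(γ * ‖v‖ ^ 2)) * ((1 + 2 / γ) * Real.exp (γ / 2 * ‖v‖ ^ 2)) :=
          mul_le_mul_of_nonneg_left h2 (Real.exp_pos _).le
      _ = (1 + 2 / γ) * (Real.exp (-(γ * ‖v‖ ^ 2)) * Real.exp (γ / 2 * ‖v‖ ^ 2)) := by ring
      _ = _ := by rw [h8]
  have hgm : Measurable fun v : Space3 =>
      K * ENNReal.ofReal (Real.exp (-(γ / 2 * ‖v‖ ^ 2))) := by fun_prop
  have h2 : ∫⁻ z, ENNReal.ofReal (f₀ z) * ENNReal.ofReal (1 + ‖z.2‖ ^ 2) ≤
      C₀ * ((∫⁻ x, ρ x) * ∫⁻ v : Space3, K * ENNReal.ofReal (Real.exp (-(γ / 2 * ‖v‖ ^ 2)))) := by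
    calc ∫⁻ z, ENNReal.ofReal (f₀ z) * ENNReal.ofReal (1 + ‖z.2‖ ^ 2)
        ≤ ∫⁻ z : PhasePoint, C₀ * (ρ z.1 *
          (K * ENNReal.ofReal (Real.exp (-(γ / 2 * ‖z.2‖ ^ 2))))) := by
          refine lintegral_mono fun z => ?_
          calc ENNReal.ofReal (f₀ z) * ENNReal.ofReal (1 + ‖z.2‖ ^ 2)
              ≤ C₀ * (ρ z.1 * wG γ z.2) * ENNReal.ofReal (1 + ‖z.2‖ ^ 2) :=
                mul_le_mul_left (he.le z) _
            _ = C₀ * (ρ z.1 * (wG γ z.2 * ENNReal.ofReal (1 + ‖z.2‖ ^ 2))) := by ring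
            _ ≤ _ := mul_le_mul_right (mul_le_mul_right (h1 z.2) _) _
      _ = _ := by
          rw [lintegral_const_mul' _ _ he.fin]
          congr 1
          exact lintegral_prod_mul (μ := (volume : Measure Space3))
            (ν := (volume : Measure Space3)) (f := ρ)
            (g := fun v => K * ENNReal.ofReal (Real.exp (-(γ / 2 * ‖v‖ ^ 2))))
            he.meas.aemeasurable hgm.aemeasurable
  refine ne_top_of_le_ne_top ?_ h2
  refine ENNReal.mul_ne_top he.fin (ENNReal.mul_ne_top he.int.ne ?_)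
  rw [lintegral_const_mul' _ _ ENNReal.ofReal_ne_top]
  exact ENNReal.mul_ne_top ENNReal.ofReal_ne_top
    (lintegral_gaussian_lt_top (by positivity)).ne

end weights

/-! ## Core estimate -/

theorem touch_core {Φ : Space3 → ℝ} {f₀ : PhasePoint → ℝ} (hΦ : AdmissiblePotential Φ)
    (hf : Measurable f₀) (h1 : ∫⁻ z, ENNReal.ofReal (f₀ z) ≤ 1)
    (h2 : ∫⁻ z, ENNReal.ofReal (f₀ z) * ENNReal.ofReal (1 + ‖z.2‖ ^ 2) ≠ ∞) (T R a : ℝ)
    {a₁ : ℝ} (ha₁ : 0 < a₁) (B : ℝ) (κ : Type) [Fintype κ] :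
    ∃ C : ℝ≥0∞, C ≠ ∞ ∧ ∀ ε : ℝ, 0 < ε → ε ≤ 1 → ∀ te : ℝ, te ≤ T →
      ∀ (γ : ℝ) (ρ : Space3 → ℝ≥0∞) (c : ℝ≥0∞), c ≠ ∞ →
      ∀ (Λ : Measure (κ → ℝ)) [IsFiniteMeasure Λ] (Θ : Type) [MeasurableSpace Θ]
        (m : Measure Θ) [SFinite m] (b : Θ → κ → ℝ) (z : Θ → κ → PhasePoint) (l : Θ → LSt),
        Dom γ ρ ε 1 ∅ c Λ m b z → TInv m b z l →
        (∀ᵐ θ ∂m, 0 ≤ (l θ).1 ∧ ‖(l θ).2.2‖ ≤ B * (1 + ∑ i, ‖(z θ i).2‖)) →
        ∀ χ : Space3 → ℝ≥0∞, Measurable χ → ∀ (i₀ : κ)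
        (E : Set ((κ → ℝ) × (κ → PhasePoint))), MeasurableSet E → ∀ D : ℝ≥0∞,
        (∀ b, ∫⁻ Z, {Z | (b, Z) ∈ E}.indicator (wgtA (γ - (a + a₁)) χ {i₀}) Z ≤
          D * ENNReal.ofReal (ε ^ 2) ^ (Fintype.card κ - 1)) →
        (∫⁻ x, χ x) * gcE f₀ ε (fun n w => ∫⁻ θ, (invc E).indicator (fun p => expW a p.2)
          (b θ, z θ) * nearN Φ ε R te n (w, l θ) ∂m) ≤ C * (c * (Λ univ * D)) := by
  obtain ⟨C, hC, hN⟩ := near_struct_le hΦ hf h1 h2 T R
  obtain ⟨c', hc', hB⟩ := exists_one_add_le_expW (κ := κ) ha₁ B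
  refine ⟨C * c', ENNReal.mul_ne_top hC hc', ?_⟩
  intro ε hε hε1 te hte γ ρ c hc Λ _ Θ _ m _ b z l hdom hti hl χ hχ i₀ E hE D hD
  set g : (κ → ℝ) × (κ → PhasePoint) → ℝ≥0∞ := (invc E).indicator fun p => expW a p.2 with hg
  have hgm : Measurable g :=
    ((measurable_expW a).comp measurable_snd).indicator (measurableSet_invc hE)
  have hgt : ∀ p, g p ≠ ∞ := by
    intro p
    rw [hg]
    by_cases hp : p ∈ invc E
    · rw [indicator_of_mem hp]; exact expW_ne_top _ _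
    · rw [indicator_of_notMem hp]; simp
  have hgi : ∀ (x : Space3) b z, g (b, shZ x z) = g (b, z) := by
    intro x b z
    rw [hg]
    by_cases hp : (b, z) ∈ invc E
    · rw [indicator_of_mem hp, indicator_of_mem ((invc_shZ b x z).2 hp), expW_shZ]
    · rw [indicator_of_notMem hp, indicator_of_notMem fun h => hp ((invc_shZ b x z).1 h)]
  refine (hN ε hε hε1 te hte κ Θ m b z l hdom.mb hdom.mz hti (hl.mono fun θ h => h.1) g hgm hgt
    hgi χ hχ i₀).trans ?_
  set F : (κ → ℝ) × (κ → PhasePoint) → ℝ≥0∞ := fun p =>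
    χ (p.2 i₀).1 * (invc E).indicator (fun p => expW (a + a₁) p.2) p with hF
  have hFm : Measurable F :=
    (hχ.comp ((measurable_pi_apply i₀).comp measurable_snd).fst).mul
      (((measurable_expW _).comp measurable_snd).indicator (measurableSet_invc hE))
  have hpt : ∀ᵐ θ ∂m, χ (z θ i₀).1 * (g (b θ, z θ) * ENNReal.ofReal (1 + ‖(l θ).2.2‖)) ≤
      c' * F (b θ, z θ) := by
    filter_upwards [hl] with θ hθ
    rw [hF, hg]
    by_cases hp : (b θ, z θ) ∈ invc E
    · simp only [indicator_of_mem hp]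
      calc χ (z θ i₀).1 * (expW a (z θ) * ENNReal.ofReal (1 + ‖(l θ).2.2‖))
          ≤ χ (z θ i₀).1 * (expW a (z θ) * (c' * expW a₁ (z θ))) := by
            gcongr
            exact hB _ _ hθ.2
        _ = c' * (χ (z θ i₀).1 * (expW a (z θ) * expW a₁ (z θ))) := by ring
        _ = _ := by rw [expW_add]
    · simp only [indicator_of_notMem hp, zero_mul, mul_zero]
      exact zero_le
  have hq := activity_pow_mul_pow hε (Fintype.card κ - 1)
  set q : ℕ := Fintype.card κ - 1 with hqd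
  have hle := hdom.le F hFm
  have hw : ∀ (b : κ → ℝ) (z : κ → PhasePoint), wgtA γ ρ (∅ : Finset κ) z * F (b, z) =
      {z | (b, z) ∈ invc E}.indicator (wgtA (γ - (a + a₁)) χ {i₀}) z := by
    intro b z
    rw [hF]
    by_cases hp : (b, z) ∈ invc E
    · rw [indicator_of_mem (show z ∈ {z | (b, z) ∈ invc E} from hp)]
      simp only [indicator_of_mem hp]
      have h3 := wgtA_mul_expW (γ := γ) (ρ := ρ) (A₀ := (∅ : Finset κ)) (a + a₁) z
      calc wgtA γ ρ (∅ : Finset κ) z * (χ (z i₀).1 * expW (a + a₁) z)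
          = χ (z i₀).1 * (wgtA γ ρ (∅ : Finset κ) z * expW (a + a₁) z) := by ring
        _ = χ (z i₀).1 * wgtA (γ - (a + a₁)) ρ (∅ : Finset κ) z := by rw [h3]
        _ = _ := by
            unfold wgtA
            rw [Finset.prod_empty, one_mul, Finset.prod_singleton]
    · rw [indicator_of_notMem (show z ∉ {z | (b, z) ∈ invc E} from hp)]
      simp only [indicator_of_notMem hp, mul_zero]
  have hbd : ENNReal.ofReal (ε ^ 2) ^ q * ∫⁻ θ, F (b θ, z θ) ∂m ≤
      c * (Λ univ * D) * ENNReal.ofReal (ε ^ 2) ^ q := by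
    refine hle.trans ?_
    simp only [hw]
    calc c * ∫⁻ b, (∫⁻ z, {z | (b, z) ∈ invc E}.indicator (wgtA (γ - (a + a₁)) χ {i₀}) z) ∂Λ
        ≤ c * ∫⁻ _b, (D * ENNReal.ofReal (ε ^ 2) ^ q) ∂Λ := by
          refine mul_le_mul_right (lintegral_mono fun b => ?_) _
          exact (lintegral_invc_le hE b _).trans (hD b)
      _ = _ := by
          rw [lintegral_const]
          ring
  have hmass : ∫⁻ θ, F (b θ, z θ) ∂m ≤ c * (Λ univ * D) := by
    calc ∫⁻ θ, F (b θ, z θ) ∂m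
        = activity ε ^ q * (ENNReal.ofReal (ε ^ 2) ^ q * ∫⁻ θ, F (b θ, z θ) ∂m) := by
          rw [← mul_assoc, hq, one_mul]
      _ ≤ activity ε ^ q * (c * (Λ univ * D) * ENNReal.ofReal (ε ^ 2) ^ q) :=
          mul_le_mul_right hbd _
      _ = (activity ε ^ q * ENNReal.ofReal (ε ^ 2) ^ q) * (c * (Λ univ * D)) := by ring
      _ = _ := by rw [hq, one_mul]
  calc C * ∫⁻ θ, χ (z θ i₀).1 * (g (b θ, z θ) * ENNReal.ofReal (1 + ‖(l θ).2.2‖)) ∂m
      ≤ C * ∫⁻ θ, c' * F (b θ, z θ) ∂m := mul_le_mul_right (lintegral_mono_ae hpt) _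
    _ = C * (c' * ∫⁻ θ, F (b θ, z θ) ∂m) := by rw [lintegral_const_mul' _ _ hc']
    _ ≤ C * (c' * (c * (Λ univ * D))) := by gcongr
    _ = _ := by ring

/-! ## Main theorem -/

section main

variable {Φ : Space3 → ℝ} {f₀ : PhasePoint → ℝ} {T γ : ℝ} {ρ : Space3 → ℝ≥0∞} {C₀ : ℝ≥0∞}
variable {κ : Type} [Fintype κ]

/-- The localisation function: indicator of the unit ball. -/
def chi (x : Space3) : ℝ≥0∞ := (Metric.closedBall (0 : Space3) 1).indicator 1 x

theorem measurable_chi : Measurable chi := measurable_one.indicator measurableSet_closedBall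

theorem chi_le_one (x : Space3) : chi x ≤ 1 := by
  unfold chi
  by_cases h : x ∈ Metric.closedBall (0 : Space3) 1
  · rw [indicator_of_mem h]; exact le_rfl
  · rw [indicator_of_notMem h]; exact zero_le

theorem lintegral_chi : ∫⁻ x, chi x = volume (Metric.closedBall (0 : Space3) 1) := by
  unfold chi
  exact lintegral_indicator_one measurableSet_closedBall

theorem lintegral_chi_ne_zero : ∫⁻ x, chi x ≠ 0 := by
  rw [lintegral_chi]
  exact (Metric.measure_closedBall_pos _ _ one_pos).ne'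

theorem lintegral_chi_ne_top : ∫⁻ x, chi x ≠ ∞ := by
  rw [lintegral_chi]
  exact measure_closedBall_lt_top.ne

omit [Fintype κ] in
theorem measurable_elim0 : Measurable fun p : (κ → ℝ) × (κ → PhasePoint) =>
    ((bS 0 p.1, Sum.elim (Fin.elim0 : Fin 0 → PhasePoint) p.2) :
      (Fin 0 ⊕ κ → ℝ) × (Fin 0 ⊕ κ → PhasePoint)) :=
  ((measurable_bS 0).comp measurable_fst).prodMk
    (measurable_sumElim.comp (measurable_const.prodMk measurable_snd))

theorem lintegral_fin0 (F : (Fin 0 ⊕ κ → PhasePoint) → ℝ≥0∞) (hF : Measurable F) :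
    ∫⁻ Z : Fin 0 ⊕ κ → PhasePoint, F Z =
      ∫⁻ z : κ → PhasePoint, F (Sum.elim (Fin.elim0 : Fin 0 → PhasePoint) z) := by
  rw [lintegral_sum_type F hF, lintegral_unique]
  have h1 : (volume : Measure (Fin 0 → PhasePoint)) univ = 1 := by
    rw [volume_pi, Measure.pi_univ]
    simp
  rw [h1, mul_one]
  refine lintegral_congr fun z => ?_
  congr 1

theorem classWeight_eq {J : Type} [Fintype J] (β : ℝ) (χ : Space3 → ℝ≥0∞) (A : Finset J) :
    (fun Z : J → PhasePoint => (∏ j ∈ A, χ (Z j).1) *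
      ∏ j, ENNReal.ofReal (Real.exp (-β * ‖(Z j).2‖ ^ 2))) = wgtA β χ A := by
  funext Z
  unfold wgtA
  simp only [wG_eq]

/-- **LN2Touch.** A translation invariant structure (one contact group, no localisation) whose
marked line `l` comes near the gas: bad partitions with all anchors. `G n` : bad partitions with gas
particles; `G₀` : bad structures. -/
theorem ln2_touch (hΦ : AdmissiblePotential Φ) (hCN : VLMeas973.ClassNull Φ T)
    (hf : Measurable f₀) (h1 : ∫⁻ z, ENNReal.ofReal (f₀ z) ≤ 1) (he : Env f₀ γ ρ C₀) {a : ℝ}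
    (ha0 : 0 ≤ a) (ha : a < γ) (C : ℝ) (N : ℕ) [Nonempty κ] {c : ℝ≥0∞} (hc : c ≠ ∞)
    {L : ℝ≥0∞} (hL : L ≠ ∞) (Rn B T' : ℝ) {δ : ℝ≥0∞} (hδ : 0 < δ) :
    ∃ R > 0, ∃ ς > 0, ∃ ε₀ > 0, ∀ ε : ℝ, 0 < ε → ε < ε₀ →
      ∃ (G : (n : ℕ) → Set (Config n × (κ → ℝ) × (κ → PhasePoint)))
        (G₀ : Set ((κ → ℝ) × (κ → PhasePoint))),
        (∀ n, MeasurableSet (G n)) ∧ MeasurableSet G₀ ∧
        (∀ (x : Space3) b z, (b, shZ x z) ∈ G₀ ↔ (b, z) ∈ G₀) ∧
        (∀ (R' ς' : ℝ), R ≤ R' → ς' ≤ ς → ∀ (A : Finset κ) b z,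
          (VLMeas973.vsys Φ T ε b).BadPart C (R' * ε) ς' 1 A z → (b, z) ∈ G₀) ∧
        (∀ (t R' ς' : ℝ), t ≤ T → R ≤ R' → ς' ≤ ς → ∀ (A : Finset κ) b z,
          BadPartW (VLMeas973.vsys Φ t ε b) C (R' * ε) ς' 1 A z → (b, z) ∈ G₀) ∧
        (∀ (R' ς' : ℝ), R ≤ R' → ς' ≤ ς → ∀ n (w : Config n) (A : Finset κ) b z,
          BadGas Φ T C R' ς' ε N 1 A b z w → (w, b, z) ∈ G n ∨ (b, z) ∈ G₀) ∧
        (∀ (t R' ς' : ℝ), t ≤ T → R ≤ R' → ς' ≤ ς → ∀ n (w : Config n) (A : Finset κ) b z,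
          BadGasW Φ t C R' ς' ε N 1 A b z w → (w, b, z) ∈ G n ∨ (b, z) ∈ G₀) ∧
        ∀ (Λ : Measure (κ → ℝ)) [IsFiniteMeasure Λ] (Θ : Type) [MeasurableSpace Θ] (m : Measure Θ)
          [SFinite m] (b : Θ → κ → ℝ) (z : Θ → κ → PhasePoint) (l : Θ → LSt), Λ univ ≤ L →
          Dom γ ρ ε 1 ∅ c Λ m b z → TInv m b z l →
          (∀ᵐ θ ∂m, 0 ≤ (l θ).1 ∧ ‖(l θ).2.2‖ ≤ B * (1 + ∑ i, ‖(z θ i).2‖)) →
          ∀ te ≤ T', gcE f₀ ε (fun n w => ∫⁻ θ, expW a (z θ) *
            ((if (w, b θ, z θ) ∈ G n then 1 else 0) +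
              (if (b θ, z θ) ∈ G₀ then nearN Φ ε Rn te n (w, l θ) else 0)) ∂m) ≤ δ := by
  obtain ⟨i₀⟩ := ‹Nonempty κ›
  set a₁ : ℝ := (γ - a) / 2 with ha₁d
  have ha₁ : 0 < a₁ := by rw [ha₁d]; linarith
  set β : ℝ := γ - (a + a₁) with hβd
  have hβ : 0 < β := by rw [hβd, ha₁d]; linarith
  have hγ : 0 < γ := by linarith
  have h2 := moment_of_env hγ he
  obtain ⟨Cn, hCn, hcore⟩ := touch_core hΦ hf h1 h2 T' Rn a ha₁ B κ
  set V : ℝ≥0∞ := ∫⁻ x, chi x with hV
  have hV0 : V ≠ 0 := lintegral_chi_ne_zero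
  have hVt : V ≠ ∞ := lintegral_chi_ne_top
  -- constants
  set K : ℝ≥0∞ := Cn * (c * L) with hK
  have hKt : K ≠ ∞ := ENNReal.mul_ne_top hCn (ENNReal.mul_ne_top hc hL)
  have hK0' : K + 1 ≠ 0 := by simp
  have hKt' : K + 1 ≠ ∞ := ENNReal.add_ne_top.2 ⟨hKt, ENNReal.one_ne_top⟩
  set δ₃ : ℝ≥0∞ := δ / 3 with hδ₃
  have hδ₃0 : 0 < δ₃ := ENNReal.div_pos hδ.ne' (by simp)
  set D : ℝ≥0∞ := V * δ₃ / (K + 1) with hD
  have hD0 : 0 < D := ENNReal.div_pos (mul_ne_zero hV0 hδ₃0.ne') hKt'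
  have hKD : K * D ≤ V * δ₃ := by
    calc K * D ≤ (K + 1) * D := by gcongr; exact le_self_add
      _ = V * δ₃ := by rw [hD, ENNReal.mul_div_cancel hK0' hKt']
  have hchi : ∫⁻ x, chi x < ∞ := lintegral_chi_ne_top.lt_top
  have hcard1 : 1 ≤ Fintype.card κ := Fintype.card_pos_iff.2 ⟨i₀⟩
  have hcard2 : 1 ≤ Fintype.card (Fin 0 ⊕ κ) := by
    rw [Fintype.card_sum, Fintype.card_fin]; omega
  -- the three classes
  obtain ⟨R₁, hR₁, ς₁, hς₁, ε₁, hε₁, hE₁⟩ := hCN κ β C 1 {i₀} chi hβ hcard1 measurable_chi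
    chi_le_one hchi D hD0
  obtain ⟨R₂, hR₂, ς₂, hς₂, ε₂, hε₂, hE₂⟩ := hCN (Fin 0 ⊕ κ) β C 1 {Sum.inr i₀} chi hβ hcard2
    measurable_chi chi_le_one hchi D hD0
  obtain ⟨R₃, hR₃, ς₃, hς₃, ε₃, hε₃, hG⟩ := ln2_gas_hor (γ := γ - a) (ρ := ρ) (C₀ := C₀) (κ := κ)
    hCN hf h1 (env_anti he (by linarith)) (by linarith) C N hcard1 ∅
    (c := 1 * c) (by rw [one_mul]; exact hc) hL hδ₃0
  refine ⟨max R₁ (max R₂ R₃), lt_max_of_lt_left hR₁, min ς₁ (min ς₂ ς₃),
    lt_min hς₁ (lt_min hς₂ hς₃), min 1 (min ε₁ (min ε₂ ε₃)),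
    lt_min one_pos (lt_min hε₁ (lt_min hε₂ hε₃)), ?_⟩
  intro ε hε hεlt
  have hε1 : ε ≤ 1 := (hεlt.trans_le (min_le_left _ _)).le
  have hεm := hεlt.trans_le (min_le_right _ _)
  obtain ⟨E₁, hE₁m, hE₁b, hE₁i⟩ := hE₁ ε hε (hεm.trans_le (min_le_left _ _))
  obtain ⟨E₂, hE₂m, hE₂b, hE₂i⟩ := hE₂ ε hε
    (hεm.trans_le ((min_le_right _ _).trans (min_le_left _ _)))
  obtain ⟨G, hGm, hGb, -, hGi⟩ := hG ε hε
    (hεm.trans_le ((min_le_right _ _).trans (min_le_right _ _)))
  set E₂' : Set ((κ → ℝ) × (κ → PhasePoint)) :=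
    {p | ((bS 0 p.1, Sum.elim (Fin.elim0 : Fin 0 → PhasePoint) p.2) :
      (Fin 0 ⊕ κ → ℝ) × (Fin 0 ⊕ κ → PhasePoint)) ∈ E₂} with hE₂'
  have hE₂'m : MeasurableSet E₂' := measurable_elim0 hE₂m
  -- structures: covariance
  have hinv1 : ∀ {J : Type} [Fintype J] (b : J → ℝ) (ℓ ς : ℝ) (A : Finset J) (x : Space3)
      (z : J → PhasePoint), (VLMeas973.vsys Φ T ε b).BadPart C ℓ ς 1 A z →
      (VLMeas973.vsys Φ T ε b).BadPart C ℓ ς 1 A (shZ x z) := by
    intro J _ b ℓ ς A x z h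
    rw [shZ_eq]
    exact (badPart_vadd (M := VLMeas973.vsys Φ T ε b) hΦ hε rfl (x, 0)).2 h
  have hst1 : ∀ (R' ς' : ℝ), max R₁ (max R₂ R₃) ≤ R' → ς' ≤ min ς₁ (min ς₂ ς₃) →
      ∀ (A : Finset κ) b z, (VLMeas973.vsys Φ T ε b).BadPart C (R' * ε) ς' 1 A z →
      (b, z) ∈ invc E₁ := by
    intro R' ς' hR' hς' A b z h
    refine mem_invc fun x => hE₁b _ _ ?_
    have h3 := badPart_one (Finset.mem_singleton_self i₀) (hinv1 b _ _ _ x z h)
    exact badPart_mono (mul_le_mul_of_nonneg_right ((le_max_left _ _).trans hR') hε.le)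
      (hς'.trans (min_le_left _ _)) h3
  have hst2 : ∀ (R' ς' : ℝ), max R₁ (max R₂ R₃) ≤ R' → ς' ≤ min ς₁ (min ς₂ ς₃) →
      ∀ (A : Finset (Fin 0 ⊕ κ)) b (z : κ → PhasePoint) (V : Fin 0 → PhasePoint),
      (VLMeas973.vsys Φ T ε (bS 0 b)).BadPart C (R' * ε) ς' 1 A (Sum.elim V z) →
      (b, z) ∈ invc E₂' := by
    intro R' ς' hR' hς' A b z V h
    refine mem_invc fun x => ?_
    have h3 := badPart_one (Finset.mem_singleton_self (Sum.inr i₀ : Fin 0 ⊕ κ))
      (hinv1 (bS 0 b) _ _ _ x _ h)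
    have h4 : shZ x (Sum.elim V z : Fin 0 ⊕ κ → PhasePoint) =
        Sum.elim (Fin.elim0 : Fin 0 → PhasePoint) (shZ x z) := by
      funext i
      cases i with
      | inl i => exact i.elim0
      | inr i => rfl
    rw [h4] at h3
    exact hE₂b _ _ (badPart_mono (mul_le_mul_of_nonneg_right
      (((le_max_left _ _).trans (le_max_right _ _)).trans hR') hε.le)
      (hς'.trans ((min_le_right _ _).trans (min_le_left _ _))) h3)
  have hgas : ∀ (R' ς' : ℝ), max R₁ (max R₂ R₃) ≤ R' → ς' ≤ min ς₁ (min ς₂ ς₃) →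
      ∀ n (w : Config n) (A : Finset κ) b z,
      BadGas Φ T C R' ς' ε N 1 A b z w → (w, b, z) ∈ G n ∨ (b, z) ∈ invc E₁ ∪ invc E₂' := by
    rintro R' ς' hR' hς' n w A b z ⟨k, hk, ι, h⟩
    rcases Nat.eq_zero_or_pos k with hk0 | hk0
    · subst hk0
      exact Or.inr (Or.inr (hst2 R' ς' hR' hς' _ b z _ h))
    · left
      refine hGb R' ς' (((le_max_right _ _).trans (le_max_right _ _)).trans hR')
        (hς'.trans ((min_le_right _ _).trans (min_le_right _ _))) n w b z ⟨k, hk, ι, ?_⟩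
      refine badPart_one (x := Sum.inl ⟨0, hk0⟩) ?_ h
      unfold anch
      rw [Finset.inl_mem_disjSum]
      exact Finset.mem_univ _
  obtain ⟨G₀, hG₀⟩ : ∃ G₀, G₀ = invc E₁ ∪ invc E₂' := ⟨_, rfl⟩
  rw [← hG₀] at hgas
  refine ⟨G, G₀, hGm, ?_, ?_, ?_, ?_, hgas, ?_, ?_⟩
  · rw [hG₀]
    exact (measurableSet_invc hE₁m).union (measurableSet_invc hE₂'m)
  · intro x b z
    rw [hG₀, mem_union, mem_union, invc_shZ, invc_shZ]
  · intro R' ς' hR' hς' A b z h
    rw [hG₀]
    exact Or.inl (hst1 R' ς' hR' hς' A b z h)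
  · intro t R' ς' ht hR' hς' A b z h
    rw [hG₀]
    exact Or.inl (hst1 R' ς' hR' hς' A b z
      (badPartW_of_hor (M := VLMeas973.vsys Φ T ε b) ht h).badPart)
  · intro t R' ς' ht hR' hς' n w A b z h
    exact hgas R' ς' hR' hς' n w A b z (badGasW_hor ht h).badGas
  · intro Λ _ Θ _ m _ b z l hΛ hdom hti hl te hte
    have hwm : Measurable fun θ => expW a (z θ) := (measurable_expW a).comp hdom.mz
    -- gas part
    have hdom' : Dom (γ - a) ρ ε 1 ∅ (1 * c) Λ (m.withDensity fun θ => expW a (z θ)) b z :=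
      hdom.weight a hwm (fun θ => by rw [one_mul]) ENNReal.one_ne_top
    have hg3 := hGi Λ Θ (m.withDensity fun θ => expW a (z θ)) b z hΛ hdom'
    have hsec : ∀ n (w : Config n), MeasurableSet {θ | (w, b θ, z θ) ∈ G n} := fun n w =>
      (measurable_const.prodMk (hdom.mb.prodMk hdom.mz)) (hGm n)
    have hgasE : gcE f₀ ε (fun n w => ∫⁻ θ, expW a (z θ) *
        (if (w, b θ, z θ) ∈ G n then 1 else 0) ∂m) ≤ δ₃ := by
      refine le_of_eq_of_le (gcE_congr f₀ ε fun n w _ => ?_) hg3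
      rw [withDensity_apply _ (hsec n w), ← lintegral_indicator (hsec n w)]
      refine lintegral_congr fun θ => ?_
      by_cases h : (w, b θ, z θ) ∈ G n
      · rw [if_pos h, mul_one, indicator_of_mem (show θ ∈ {θ | (w, b θ, z θ) ∈ G n} from h)]
      · rw [if_neg h, mul_zero, indicator_of_notMem (show θ ∉ {θ | (w, b θ, z θ) ∈ G n} from h)]
    -- structure parts
    have hstr : ∀ E : Set ((κ → ℝ) × (κ → PhasePoint)), MeasurableSet E →
        (∀ b, ∫⁻ Z, {Z | (b, Z) ∈ E}.indicator (wgtA β chi {i₀}) Z ≤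
          D * ENNReal.ofReal (ε ^ 2) ^ (Fintype.card κ - 1)) →
        gcE f₀ ε (fun n w => ∫⁻ θ, (invc E).indicator (fun p => expW a p.2)
          (b θ, z θ) * nearN Φ ε Rn te n (w, l θ) ∂m) ≤ δ₃ := by
      intro E hE hED
      have h3 := hcore ε hε hε1 te hte γ ρ c hc Λ Θ m b z l hdom hti hl chi measurable_chi i₀ E
        hE D hED
      have h4 : Cn * (c * (Λ univ * D)) ≤ V * δ₃ := by
        calc Cn * (c * (Λ univ * D)) ≤ Cn * (c * (L * D)) := by gcongr
          _ = K * D := by rw [hK]; ring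
          _ ≤ _ := hKD
      exact (ENNReal.mul_le_mul_iff_right hV0 hVt).1 (h3.trans h4)
    have hs1 := hstr E₁ hE₁m fun b => by
      have h3 := hE₁i b
      rw [classWeight_eq] at h3
      exact h3
    have hs2 := hstr E₂' hE₂'m fun b => by
      have h3 := hE₂i (bS 0 b)
      rw [classWeight_eq, lintegral_fin0] at h3
      · have h5 : Fintype.card (Fin 0 ⊕ κ) - 1 = Fintype.card κ - 1 := by
          rw [Fintype.card_sum, Fintype.card_fin, zero_add]
        rw [h5] at h3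
        refine le_of_eq_of_le (lintegral_congr fun z => ?_) h3
        have h6 : wgtA β chi {Sum.inr i₀}
            (Sum.elim (Fin.elim0 : Fin 0 → PhasePoint) z : Fin 0 ⊕ κ → PhasePoint) =
            wgtA β chi {i₀} z := by
          unfold wgtA
          rw [Finset.prod_singleton, Finset.prod_singleton, Fintype.prod_sum_type]
          simp
        by_cases h : (b, z) ∈ E₂'
        · rw [indicator_of_mem (show z ∈ {Z | (b, Z) ∈ E₂'} from h),
            indicator_of_mem (show (Sum.elim (Fin.elim0 : Fin 0 → PhasePoint) z :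
              Fin 0 ⊕ κ → PhasePoint) ∈ {Z | (bS 0 b, Z) ∈ E₂} from h), h6]
        · rw [indicator_of_notMem (show z ∉ {Z | (b, Z) ∈ E₂'} from h),
            indicator_of_notMem (show (Sum.elim (Fin.elim0 : Fin 0 → PhasePoint) z :
              Fin 0 ⊕ κ → PhasePoint) ∉ {Z | (bS 0 b, Z) ∈ E₂} from h)]
      · exact (measurable_wgtA measurable_chi _).indicator
          ((measurable_const.prodMk measurable_id) hE₂m)
    -- sum
    have hnm : ∀ n, Measurable fun p : Config n × LSt => nearN Φ ε Rn te n p := fun n =>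
      measurable_nearN hΦ hε Rn te n
    have hg1m : ∀ n (w : Config n), Measurable fun θ =>
        expW a (z θ) * (if (w, b θ, z θ) ∈ G n then (1 : ℝ≥0∞) else 0) := fun n w =>
      hwm.mul (Measurable.ite (hsec n w) measurable_const measurable_const)
    have hsm : ∀ (E : Set ((κ → ℝ) × (κ → PhasePoint))), MeasurableSet E → ∀ n (w : Config n),
        Measurable fun θ => (invc E).indicator (fun p => expW a p.2) (b θ, z θ) *
          nearN Φ ε Rn te n (w, l θ) := fun E hE n w =>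
      ((((measurable_expW a).comp measurable_snd).indicator (measurableSet_invc hE)).comp
        (hdom.mb.prodMk hdom.mz)).mul ((hnm n).comp (measurable_const.prodMk hti.ml))
    have hjoint : ∀ n, Measurable fun p : Config n × Θ =>
        expW a (z p.2) * (if (p.1, b p.2, z p.2) ∈ G n then (1 : ℝ≥0∞) else 0) := fun n =>
      (hwm.comp measurable_snd).mul (Measurable.ite
        ((measurable_fst.prodMk ((hdom.mb.comp measurable_snd).prodMk
          (hdom.mz.comp measurable_snd))) (hGm n)) measurable_const measurable_const)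
    have hjs : ∀ (E : Set ((κ → ℝ) × (κ → PhasePoint))), MeasurableSet E → ∀ n,
        Measurable fun p : Config n × Θ => (invc E).indicator (fun p => expW a p.2)
          (b p.2, z p.2) * nearN Φ ε Rn te n (p.1, l p.2) := fun E hE n =>
      (((((measurable_expW a).comp measurable_snd).indicator (measurableSet_invc hE)).comp
        (hdom.mb.prodMk hdom.mz)).comp measurable_snd).mul
        ((hnm n).comp (measurable_fst.prodMk (hti.ml.comp measurable_snd)))
    have hpt : ∀ n (w : Config n), ∫⁻ θ, expW a (z θ) *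
        ((if (w, b θ, z θ) ∈ G n then 1 else 0) +
          (if (b θ, z θ) ∈ G₀ then nearN Φ ε Rn te n (w, l θ) else 0)) ∂m ≤
        (∫⁻ θ, expW a (z θ) * (if (w, b θ, z θ) ∈ G n then 1 else 0) ∂m) +
        ((∫⁻ θ, (invc E₁).indicator (fun p => expW a p.2) (b θ, z θ) *
          nearN Φ ε Rn te n (w, l θ) ∂m) +
        (∫⁻ θ, (invc E₂').indicator (fun p => expW a p.2) (b θ, z θ) *
          nearN Φ ε Rn te n (w, l θ) ∂m)) := by
      intro n w
      rw [← lintegral_add_left (hsm E₁ hE₁m n w), ← lintegral_add_left (hg1m n w)]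
      refine lintegral_mono fun θ => ?_
      show expW a (z θ) * ((if (w, b θ, z θ) ∈ G n then 1 else 0) +
          (if (b θ, z θ) ∈ G₀ then nearN Φ ε Rn te n (w, l θ) else 0)) ≤
        expW a (z θ) * (if (w, b θ, z θ) ∈ G n then 1 else 0) +
        ((invc E₁).indicator (fun p => expW a p.2) (b θ, z θ) * nearN Φ ε Rn te n (w, l θ) +
        (invc E₂').indicator (fun p => expW a p.2) (b θ, z θ) * nearN Φ ε Rn te n (w, l θ))
      rw [mul_add]
      refine add_le_add le_rfl ?_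
      by_cases hh : (b θ, z θ) ∈ G₀
      · rw [if_pos hh]
        rw [hG₀] at hh
        rcases hh with hh | hh
        · rw [indicator_of_mem hh]
          exact le_self_add
        · rw [indicator_of_mem hh]
          exact le_add_self
      · rw [if_neg hh, mul_zero]
        exact zero_le
    calc gcE f₀ ε (fun n w => ∫⁻ θ, expW a (z θ) *
          ((if (w, b θ, z θ) ∈ G n then 1 else 0) +
            (if (b θ, z θ) ∈ G₀ then nearN Φ ε Rn te n (w, l θ) else 0)) ∂m)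
        ≤ gcE f₀ ε (fun n w =>
          (∫⁻ θ, expW a (z θ) * (if (w, b θ, z θ) ∈ G n then 1 else 0) ∂m) +
          ((∫⁻ θ, (invc E₁).indicator (fun p => expW a p.2) (b θ, z θ) *
            nearN Φ ε Rn te n (w, l θ) ∂m) +
          (∫⁻ θ, (invc E₂').indicator (fun p => expW a p.2) (b θ, z θ) *
            nearN Φ ε Rn te n (w, l θ) ∂m))) := gcE_mono f₀ ε fun n w _ => hpt n w
      _ ≤ δ₃ + (δ₃ + δ₃) := by
        rw [gcE_add hf ε fun n => (hjoint n).lintegral_prod_right',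
          gcE_add hf ε fun n => (hjs E₁ hE₁m n).lintegral_prod_right']
        exact add_le_add hgasE (add_le_add hs1 hs2)
      _ = δ := by
        rw [hδ₃, ← add_assoc]
        exact ENNReal.add_thirds δ

end main

end Crest.Agent.R122.TouchFlux494

end
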