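import Crest.Agent.R122.OsPMom_581
import Crest.Agent.R122.GateOsP_424
import Crest.Agent.R122.LN2Touch_494
import Crest.Agent.R122.BHMainN_167
import Crest.Agent.R122.BHFin_167

/-!
# Row 122, inequality 3, null facts of the pair laws (helper581): the gate over a structure law

* `badF_mS` : bad partitions of the structure and the gas, near the gas.
* `badHitGasN_one` : one part which is hit, the anchors do not matter; `gNull_hit_mS`.
* `gNull_mS_of_det` : **the plain gateway** over the law of an admissible shape (not localised).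
-/

set_option autoImplicit false
set_option linter.unusedSectionVars false

open MeasureTheory Set Filter Topology
open scoped Classical ENNReal
open Crest.AnalysisR.Kinetic

noncomputable section

namespace Crest.Agent.R122.PairRep581

open Crest.Agent.R122.GC311 Crest.Agent.R122.Kin796 Crest.Agent.R122.Kin796.CTree
open Crest.Agent.R122.Tree674 Crest.Agent.R122.EDefs602
open Crest.Agent.R122.Gate424 Crest.Agent.R122.Gate973 Crest.Agent.R122.LN2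
open Crest.Agent.R122.BH167
open Crest.Agent.R122.TouchFlux494 (Near)
open Crest.Agent.R122.Boost969 (LSt)
open Crest.Agent.R122.Pair292 (Lab shP shL shM)
open Crest.Agent.R122.PairD292

/-! ### Anchors -/

/-- One part which is hit: the anchors do not matter. -/
theorem badHitGasN_one {BP : PosPred} {Φ : Space3 → ℝ} {T C R ε : ℝ} {N K : ℕ} {κ : Type}
    [Fintype κ] {A₀ A₁ : Finset κ} {b : κ → ℝ} {z : κ → PhasePoint} {n : ℕ} {w : Config n}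
    (h : BadHitGasN BP Φ T C R ε N K 1 A₀ b z w) : BadHitGasN BP Φ T C R ε N K 1 A₁ b z w := by
  obtain ⟨g, hg, ι, k, hk, f, hd, π, P, hP, h1, h2, h3⟩ := h
  refine ⟨g, hg, ι, k, hk, f, hd, π, P, hP, fun Q hQ => ⟨(h1 Q hQ).1, Or.inl ?_⟩, h2, h3⟩
  exact Finset.card_le_one.1 h2 Q hQ P hP

variable {Φ : Space3 → ℝ} {f₀ : PhasePoint → ℝ} {γ β : ℝ} {ρ : Space3 → ℝ≥0∞} {S : Shp}
  {T te : ℝ} {C₀ : ℝ≥0∞}

/-- Kinetic moment from an envelope (form used by helper473). -/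
theorem moment2 (he : Env f₀ γ ρ C₀) (hγ : 0 < γ) :
    ∫⁻ z, ENNReal.ofReal (f₀ z) * ENNReal.ofReal (1 + ‖z.2‖ ^ 2) ≠ ∞ :=
  TouchFlux494.moment_of_env hγ he

/-- **Bad partitions of the structure and the gas**, near the gas. -/
theorem badF_mS (h : ShpOk γ β ρ S) (hΦ : AdmissiblePotential Φ)
    (hCN : VLMeas973.ClassNull Φ T) (hf : Measurable f₀)
    (h1 : ∫⁻ z, ENNReal.ofReal (f₀ z) ≤ 1) (he : Env f₀ γ ρ C₀) (hγ : 0 < γ) (hte : te ≤ T)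
    (C R₁ : ℝ) (N : ℕ) :
    BadF f₀ S.mI (fun R ς ε _ _ x w => Near Φ ε R₁ te w (dL (S.th ε x)).1 ∧
      BadGas Φ T C R ς ε N 1 Finset.univ (S.b ε x) (S.z ε x) w) := by
  intro δ hδ
  obtain ⟨j₀, -, -, -⟩ := h.pin
  obtain ⟨c, Λ, hΛ, H⟩ := h.touchHyp (a := γ / 2) (by linarith) (by linarith) hte
  obtain ⟨R, hR, ς, hς, h2⟩ := gLe_badGas_touch (I := Unit) hΦ hCN hf h1 (moment2 he hγ) he hγ H j₀
    C R₁ N hδ
  refine ⟨R, hR, ς, hς, fun R' ς' h3 _ h4 => h2.mono le_rfl ⟨1, one_pos, ?_⟩⟩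
  rintro ε hε - i n x w - ⟨hN, hB⟩
  exact ⟨hN, badGas_mono hε.le h3 h4 hB⟩

/-- The same near the second line. -/
theorem badF_mS_e (h : ShpOk γ β ρ S) (hΦ : AdmissiblePotential Φ)
    (hCN : VLMeas973.ClassNull Φ T) (hf : Measurable f₀)
    (h1 : ∫⁻ z, ENNReal.ofReal (f₀ z) ≤ 1) (he : Env f₀ γ ρ C₀) (hγ : 0 < γ) (hte : te ≤ T)
    (C R₁ : ℝ) (N : ℕ) :
    BadF f₀ S.mI (fun R ς ε _ _ x w => Near Φ ε R₁ te w (eL (S.th ε x)).1 ∧
      BadGas Φ T C R ς ε N 1 Finset.univ (S.b ε x) (S.z ε x) w) := by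
  intro δ hδ
  obtain ⟨j₀, -, -, -⟩ := h.pin
  obtain ⟨c, Λ, hΛ, H⟩ := h.touchHyp_e (a := γ / 2) (by linarith) (by linarith) hte
  obtain ⟨R, hR, ς, hς, h2⟩ := gLe_badGas_touch (I := Unit) hΦ hCN hf h1 (moment2 he hγ) he hγ H j₀
    C R₁ N hδ
  refine ⟨R, hR, ς, hς, fun R' ς' h3 _ h4 => h2.mono le_rfl ⟨1, one_pos, ?_⟩⟩
  rintro ε hε - i n x w - ⟨hN, hB⟩
  exact ⟨hN, badGas_mono hε.le h3 h4 hB⟩

/-- **Bad hits of the structure and the gas.** -/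
theorem gNull_hit_mS (h : ShpOk γ β ρ S) (hΦ : AdmissiblePotential Φ) (hf : Measurable f₀)
    (h1 : ∫⁻ z, ENNReal.ofReal (f₀ z) ≤ 1) (he : Env f₀ γ ρ C₀) (hγ : 0 < γ) (hT : 0 ≤ T)
    {T₁ : ℝ} (hT₁ : 0 ≤ T₁) (te : ℝ) (C R : ℝ) (N K : ℕ) (A : Finset S.κ) :
    GNull f₀ S.mI (fun ε _ _ x w =>
      BadHitGasN (bpos Φ T₁ te) Φ T C R ε N K 1 A (S.b ε x) (S.z ε x) w) := by
  obtain ⟨c, Λ, hc, hΛ, hd⟩ := h.dom
  have h2 := gNull_badPosN (I := Unit) (m := S.mI) hΦ hT te hT₁ hf h1 he hγ C R N K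
    (GateOsP424.card_pos h) (∅ : Finset S.κ) hc Λ (b := fun ε _ => S.b ε) (z := fun ε _ => S.z ε)
    (fun ε _ => h.sf ε) (fun ε _ hε => hd ε hε)
  exact h2.mono ⟨1, one_pos, fun ε _ _ _ n x w _ hB => badHitGasN_one hB⟩

/-- The same for the positions of helper424. -/
theorem gNull_hit_mS' (h : ShpOk γ β ρ S) (hΦ : AdmissiblePotential Φ) (hf : Measurable f₀)
    (h1 : ∫⁻ z, ENNReal.ofReal (f₀ z) ≤ 1) (he : Env f₀ γ ρ C₀) (hγ : 0 < γ) (hT : 0 ≤ T)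
    (C R : ℝ) (N K : ℕ) (A : Finset S.κ) :
    GNull f₀ S.mI (fun ε _ _ x w =>
      BadHitGasN (BPos Φ T) Φ T C R ε N K 1 A (S.b ε x) (S.z ε x) w) := by
  obtain ⟨c, Λ, hc, hΛ, hd⟩ := h.dom
  have h2 := gNull_badHitN (I := Unit) (m := S.mI) hΦ (VL581.vc hΦ) hT (hitClass_bPos hΦ hT) hf h1
    he hγ C R N K (GateOsP424.card_pos h) (∅ : Finset S.κ) hc Λ (b := fun ε _ => S.b ε)
    (z := fun ε _ => S.z ε) (fun ε _ => h.sf ε) (fun ε _ hε => hd ε hε)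
  exact h2.mono ⟨1, one_pos, fun ε _ _ _ n x w _ hB => badHitGasN_one hB⟩

/-! ### The gateway -/

/-- **The plain gateway over the law of an admissible shape** (not localised). `B` : further
families of bad events, `Ht` : further null events. The bad partitions of the structure and the gas
are accompanied by the closeness of the first line to the gas. -/
theorem gNull_mS_of_det (h : ShpOk γ β ρ S) (hΦ : AdmissiblePotential Φ)
    (hCN : VLMeas973.ClassNull Φ T) (hf : Measurable f₀)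
    (h1 : ∫⁻ z, ENNReal.ofReal (f₀ z) ≤ 1) (he : Env f₀ γ ρ C₀) (hγ : 0 < γ) (hT : 0 ≤ T)
    (hte : te ≤ T) {T₁ t₁ : ℝ} (hT₁ : 0 ≤ T₁) {u : ℝ} {K' : ℕ}
    (hrun : ∀ δ : ℝ≥0∞, 0 < δ → ∃ L₀ : ℕ, ∀ L, L₀ ≤ L → GLe f₀ S.mI (fun ε _ _ x w =>
      RunS Φ ε u K' L (S.b ε x) (S.z ε x) w) δ)
    {E : ℝ → Unit → (n : ℕ) → S.Θ → Config n → Prop}
    (hdet : ∀ L : ℕ, ∃ (B : ℝ → ℝ → ℝ → Unit → (n : ℕ) → S.Θ → Config n → Prop)
      (Ht : ℝ → Unit → (n : ℕ) → S.Θ → Config n → Prop)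
      (N : ℕ) (c c' R₁ R₂ : ℝ) (N' K₁ : ℕ) (A : Finset S.κ), BadF f₀ S.mI B ∧
      GNull f₀ S.mI Ht ∧
      ∀ R > 0, ∀ ς > 0, ∃ ε₁ : ℝ, 0 < ε₁ ∧ ∀ ε : ℝ, 0 < ε → ε < ε₁ → ∀ i n x (w : Config n),
        w ∈ PairExcluded ε n → E ε i n x w →
        RunS Φ ε u K' L (S.b ε x) (S.z ε x) w ∨
        ((Near Φ ε R₂ te w (dL (S.th ε x)).1 ∧
          BadGas Φ T c R ς ε N 1 Finset.univ (S.b ε x) (S.z ε x) w) ∨ B R ς ε i n x w) ∨
        BadHitGasN (bpos Φ T₁ t₁) Φ T c' R₁ ε N' K₁ 1 A (S.b ε x) (S.z ε x) w ∨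
        Ht ε i n x w) :
    GNull f₀ S.mI E := by
  choose B Ht N c c' R₁ R₂ N' K₁ A hB hH hdet using hdet
  exact gNull_of_fam hf (m := S.mI)
    (Rn := fun L ε _ _ x w => RunS Φ ε u K' L (S.b ε x) (S.z ε x) w)
    (Ht := fun L ε i n x w => BadHitGasN (bpos Φ T₁ t₁) Φ T (c' L) (R₁ L) ε (N' L) (K₁ L) 1
      (A L) (S.b ε x) (S.z ε x) w ∨ Ht L ε i n x w)
    (fun L => ⟨_, (badF_mS h hΦ hCN hf h1 he hγ hte (c L) (R₂ L) (N L)).or hf (hB L), hdet L⟩)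
    hrun
    fun L => (gNull_hit_mS h hΦ hf h1 he hγ hT hT₁ t₁ (c' L) (R₁ L) (N' L) (K₁ L) (A L)).or hf
      (hH L)

end Crest.Agent.R122.PairRep581

end
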