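import Crest.Agent.R122.GateOS2_495

/-!
# Null facts of inequality 3 from two kinds of bounds (row 122, H11)

`nullFacts_fam2` : gateway functional `F₁` (arbitrary, null on the shapes) plus a measurable functional
`F₂` whose structure integral is null for every pair law of the family (bounds uniform over `PX`).
`null_of_px` : such bounds from `OS2 ν ≤ c δ`.
-/

set_option autoImplicit false
set_option linter.unusedSectionVars false

open MeasureTheory Set Filter Topology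
open scoped Classical ENNReal
open Crest.AnalysisR.Kinetic
open Crest.Agent.R122.GC311 Crest.Agent.R122.Kin796 Crest.Agent.R122.Kin796.CTree
open Crest.Agent.R122.Tree674 Crest.Agent.R122.EDefs602 Crest.Agent.R122.GSCalc495
open Crest.Agent.R122.Gate424 Crest.Agent.R122.Gate973 Crest.Agent.R122.OS2Calc495
open Crest.Agent.R122.Boost969 (LSt)
open Crest.Agent.R122.Pair292 (Lab PPar PX)
open Crest.Agent.R122.PairD292 Crest.Agent.R122.PairRep581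

noncomputable section

namespace Crest.Agent.R122.GateOS2495

variable {Φ : Space3 → ℝ} {f₀ : PhasePoint → ℝ} {te T' : ℝ}

/-- Uniform bounds over the pair class give null structure integrals. -/
theorem null_of_px {PP : ℕ → PPar} {ν Ξ : ℕ → ℝ → Measure (Lab × LSt)} {c : ℝ≥0∞} (hc : c ≠ ∞)
    {ε₁ : ℝ} (hε₁ : 0 < ε₁) (hPX : ∀ K ε, 0 < ε → ε ≤ ε₁ → PX (PP K) (Ξ K ε) (ν K ε) c)
    {H : ℕ → ℝ → SF2} {δ : ℕ → ℝ → ℝ≥0∞} (hδ : Null δ)
    (h : ∀ K ε, 0 < ε → ε ≤ ε₁ → ∀ (Ξ ν : Measure (Lab × LSt)) (c : ℝ≥0∞), PX (PP K) Ξ ν c →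
      OS2 Φ f₀ ε te T' ν (H K ε) ≤ c * δ K ε) :
    Null fun K ε => OS2 Φ f₀ ε te T' (ν K ε) (H K ε) := by
  refine (hδ.const_mul hc).of_evK_le (EvK.of_eps hε₁ fun K ε hε hlt => ?_)
  exact h K ε hε hlt.le _ _ c (hPX K ε hε hlt.le)

/-- Additivity of the null slot. -/
theorem null_link_add (hΦ : AdmissiblePotential Φ) (hf : Measurable f₀) {tw : ℝ}
    {ν : ℕ → ℝ → Measure (Lab × LSt)} (hν : ∀ K ε, 0 < ε → SFinite (ν K ε))
    {b₁ b₂ : ℕ → ℝ → SF2} (hb₁ : ∀ K ε, 0 < ε → MeasV Φ ε T' (b₁ K ε))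
    (h₁ : Null fun K ε => OS2 Φ f₀ ε te T' (ν K ε) fun P z m w θ =>
      uG Φ ε tw K P z w θ * b₁ K ε P z m w θ)
    (h₂ : Null fun K ε => OS2 Φ f₀ ε te T' (ν K ε) fun P z m w θ =>
      uG Φ ε tw K P z w θ * b₂ K ε P z m w θ) :
    Null fun K ε => OS2 Φ f₀ ε te T' (ν K ε) fun P z m w θ =>
      uG Φ ε tw K P z w θ * (b₁ K ε P z m w θ + b₂ K ε P z m w θ) := by
  refine (h₁.add h₂).mono fun K ε hε => le_of_eq ?_
  have := hν K ε hε
  simp only [mul_add]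
  exact OS2_add hΦ hf ((measV_uG hΦ hε tw K).mul (hb₁ K ε hε)) _

/-- **The null facts of inequality 3 for a countable family of pair laws**: gateway functional `F₁`
(arbitrary) plus measurable functional `F₂`. -/
theorem nullFacts_fam2 (hΦ : AdmissiblePotential Φ) (hf : Measurable f₀) {Q : EPar} {T' : ℝ}
    {J : Type} [Countable J] {ι : J → ℕ → Type} [∀ j K, Fintype (ι j K)]
    {ν : J → ℕ → ℝ → Measure (Lab × LSt)} {S : ∀ j K, ι j K → Shp}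
    (hR : ∀ j K, Rep (ν j K) (S j K)) (hB : ∀ j K s, StandardBorelSpace (S j K s).Θ)
    (hν : ∀ j K ε, 0 < ε → SFinite (ν j K ε)) {F₁ F₂ : ℕ → ℝ → SF2}
    (hF₁ : ∀ j K P s, P.leaves ≤ K → FNull f₀ (osP Φ f₀ Q.te T' K P (S j K s))
      (pullS Φ Q.te T' K (F₁ K) P (S j K s)))
    (hF₂m : ∀ K ε, MeasSF2 (F₂ K ε))
    (hF₂ : ∀ j, Null fun K ε => OS2 Φ f₀ ε Q.te T' (ν j K ε) fun P z m w θ =>
      uG Φ ε Q.tw K P z w θ * F₂ K ε P z m w θ)
    (hok : ∀ j K ε, 0 < ε → OkAE Φ ε K (ν j K ε))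
    (hbad : ∀ j, Null fun K ε => BAD Φ f₀ ε K Q (ν j K ε)) :
    ∃ bd : ℕ → ℝ → SF2,
      (∀ (K : ℕ) (ε : ℝ), 0 < ε → ∀ P : CTree, P.leaves ≤ K →
        ∀ z (m : ℕ) (w : Config m) (θ : Lab × LSt), w ∈ PairExcluded ε m →
          Valid Φ ε P T' z.1.2 z.2 → (z, θ.2) ∈ OneC423.ctSet Φ ε Q.te P → OkL K θ →
          F₁ K ε P z m w θ + F₂ K ε P z m w θ ≤ bd K ε P z m w θ) ∧
      ∀ j, NullFacts Φ f₀ Q T' bd (ν j) := by
  obtain ⟨bd, h1, h2⟩ := nullFacts_fam hΦ hf hR hB hF₁ hok hbad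
  rcases isEmpty_or_nonempty J with hJ | ⟨⟨j₀⟩⟩
  · exact ⟨fun _ _ _ _ _ _ _ => ∞, fun _ _ _ _ _ _ _ _ _ _ _ _ _ => le_top,
      fun j => (IsEmpty.false j).elim⟩
  refine ⟨fun K ε P z m w θ => bd K ε P z m w θ + F₂ K ε P z m w θ,
    fun K ε hε P hP z m w θ hw hz hc hL => add_le_add (h1 K ε hε P hP z m w θ hw hz hc hL) le_rfl,
    fun j => ⟨hok j, hbad j, fun K ε hε P m => ((h2 j₀).meas K ε hε P m).add (hF₂m K ε P m), ?_⟩⟩
  exact null_link_add hΦ hf (hν j) (fun K ε hε => MeasSF2.measV hΦ ((h2 j).meas K ε hε))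
    (h2 j).link (hF₂ j)

end Crest.Agent.R122.GateOS2495

end
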