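import Crest.Agent.R122.GateOS2_495

/-!
# One pair law: small structure integrals from gateway bounds (row 122, H11)

`os2_of_fLe`, `os2_of_fNull` : for ANY functional `F` whose pull-backs to the shapes of one pair law
have gateway bounds `c P s`, there is for small `ε` a measurable majorant `b` of `F` on the admissible
contact structures with `OS2 (uG * b) ≤ ∑_P ∑_s c P s`.
-/

set_option autoImplicit false
set_option linter.unusedSectionVars false

open MeasureTheory Set Filter Topology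
open scoped Classical ENNReal
open Crest.AnalysisR.Kinetic
open Crest.Agent.R122.GC311 Crest.Agent.R122.Kin796 Crest.Agent.R122.Kin796.CTree
open Crest.Agent.R122.Tree674 Crest.Agent.R122.EDefs602
open Crest.Agent.R122.Gate424 Crest.Agent.R122.Gate973
open Crest.Agent.R122.Boost969 (LSt)
open Crest.Agent.R122.Pair292 (Lab)
open Crest.Agent.R122.PairD292 Crest.Agent.R122.PairRep581

noncomputable section

namespace Crest.Agent.R122.GateOS2495

variable {Φ : Space3 → ℝ} {f₀ : PhasePoint → ℝ} {te T' : ℝ} {K : ℕ}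

/-- **Gateway bounds give small structure integrals of a measurable majorant.** -/
theorem os2_of_fLe (hΦ : AdmissiblePotential Φ) (hf : Measurable f₀) {ι : Type} [Fintype ι]
    {ν : ℝ → Measure (Lab × LSt)} {S : ι → Shp} (hR : Rep ν S)
    (hB : ∀ s, StandardBorelSpace (S s).Θ) {F : ℝ → SF2} {c : CTree → ι → ℝ≥0∞}
    (h : ∀ P s, P.leaves ≤ K → FLe f₀ (osP Φ f₀ te T' K P (S s)) (pullS Φ te T' K F P (S s))
      (c P s)) (tw : ℝ) :
    ∃ ε₀ : ℝ, 0 < ε₀ ∧ ∀ ε : ℝ, 0 < ε → ε < ε₀ → ∃ b : SF2, MeasSF2 b ∧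
      (∀ (P : CTree) (z : PhasePoint × Par P) (m : ℕ) (w : Config m) (θ : Lab × LSt),
        P.leaves ≤ K → w ∈ PairExcluded ε m → Valid Φ ε P T' z.1.2 z.2 →
        (z, θ) ∈ ctOk Φ ε K te P → F ε P z m w θ ≤ b P z m w θ) ∧
      OS2 Φ f₀ ε te T' (ν ε) (fun P z m w θ => uG Φ ε tw K P z w θ * b P z m w θ) ≤
        ∑ P ∈ GIVStep383.trees K, ∑ s, c P s := by
  -- the labels
  have hL : ∀ P s, P.leaves ≤ K →
      FLe f₀ (fun ε (_ : Unit) => ((treeA Φ f₀ ε T' P).prod
        (((S s).m ε).map ((S s).th ε))).restrict (ctOk Φ ε K te P))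
        (fun ε _ n q w => cutS Φ ε K te T' (F ε) P q.1 n w q.2) (c P s) := by
    intro P s hP
    have := hB s
    exact Dis495.fLe_map hf (α := fun ε (_ : Unit) => treeA Φ f₀ ε T' P)
      (m := fun ε _ => (S s).m ε) (T := fun ε _ => (S s).th ε)
      (C := fun ε _ => ctOk Φ ε K te P) (fun ε _ _ => inferInstance) (fun ε _ _ => hR.sf s ε)
      (fun ε _ hε => hR.mth s ε hε) (fun ε _ _ => measurableSet_ctOk hΦ ε K te P) (h P s hP)
  set U : Finset (CTree × ι) := GIVStep383.trees K ×ˢ Finset.univ with hU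
  have hex : ∀ a : CTree × ι, ∃ e : ℝ, 0 < e ∧ (a.1.leaves ≤ K → ∀ ε : ℝ, 0 < ε → ε < e →
      ∃ G : (n : ℕ) → ((PhasePoint × Par a.1) × (Lab × LSt)) × Config n → ℝ≥0∞,
        (∀ n, Measurable (G n)) ∧ (∀ n q (w : Config n), w ∈ PairExcluded ε n →
          cutS Φ ε K te T' (F ε) a.1 q.1 n w q.2 ≤ G n (q, w)) ∧
        ∫⁻ q, gcE f₀ ε (fun n w => G n (q, w)) ∂(((treeA Φ f₀ ε T' a.1).prod
          (((S a.2).m ε).map ((S a.2).th ε))).restrict (ctOk Φ ε K te a.1)) ≤ c a.1 a.2) := by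
    rintro ⟨P, s⟩
    by_cases hP : P.leaves ≤ K
    · obtain ⟨e, he, h1⟩ := hL P s hP
      exact ⟨e, he, fun _ ε hε hlt => h1 ε hε hlt ()⟩
    · exact ⟨1, one_pos, fun h' => absurd h' hP⟩
  choose e he hG using hex
  obtain ⟨r, hr, hre⟩ := exists_pos_le_fin U e fun a _ => he a
  refine ⟨r, hr, fun ε hε hlt => ?_⟩
  have hG' : ∀ (P : CTree) (s : ι), P.leaves ≤ K →
      ∃ G : (n : ℕ) → ((PhasePoint × Par P) × (Lab × LSt)) × Config n → ℝ≥0∞,
        (∀ n, Measurable (G n)) ∧ (∀ n q (w : Config n), w ∈ PairExcluded ε n →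
          cutS Φ ε K te T' (F ε) P q.1 n w q.2 ≤ G n (q, w)) ∧
        ∫⁻ q, gcE f₀ ε (fun n w => G n (q, w)) ∂(((treeA Φ f₀ ε T' P).prod
          (((S s).m ε).map ((S s).th ε))).restrict (ctOk Φ ε K te P)) ≤ c P s := by
    intro P s hP
    have ha : (P, s) ∈ U := by
      rw [hU, Finset.mem_product]
      exact ⟨GIVStep383.mem_trees.2 hP, Finset.mem_univ _⟩
    exact hG (P, s) hP ε hε (hlt.trans_le (hre (P, s) ha))
  choose G hGm hGle hGi using hG'
  set b : SF2 := fun P z m w θ =>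
    if hP : P.leaves ≤ K then ⨅ s, G P s hP m ((z, θ), w) else 0 with hb
  have hb1 : ∀ (P : CTree) (hP : P.leaves ≤ K) z (m : ℕ) (w : Config m) (θ : Lab × LSt),
      b P z m w θ = ⨅ s, G P s hP m ((z, θ), w) := by
    intro P hP z m w θ
    simp only [hb, dif_pos hP]
  have hb0 : ∀ (P : CTree), ¬ P.leaves ≤ K → ∀ z (m : ℕ) (w : Config m) (θ : Lab × LSt),
      b P z m w θ = 0 := by
    intro P hP z m w θ
    simp only [hb, dif_neg hP]
  refine ⟨b, fun P m => ?_, fun P z m w θ hP hw hz hc => ?_, ?_⟩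
  · by_cases hP : P.leaves ≤ K
    · simp only [hb1 P hP]
      have h1 : Measurable fun q : (PhasePoint × Par P) × (Config m × (Lab × LSt)) =>
          (((q.1, q.2.2), q.2.1) : ((PhasePoint × Par P) × (Lab × LSt)) × Config m) :=
        (measurable_fst.prodMk measurable_snd.snd).prodMk measurable_snd.fst
      exact Measurable.iInf fun s => (hGm P s hP m).comp h1
    · simp only [hb0 P hP]
      exact measurable_const
  · rw [hb1 P hP]
    refine le_iInf fun s => ?_
    have h1 : cutS Φ ε K te T' (F ε) P z m w θ ≤ G P s hP m ((z, θ), w) :=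
      hGle P s hP m (z, θ) w hw
    unfold cutS at h1
    rwa [if_pos ⟨hz, hc⟩] at h1
  · -- the structure integral
    have h0 := os2_le (Φ := Φ) (T' := T') (te := te) (K := K) hR hΦ hf hε
      (H := fun P z m w θ => uG Φ ε tw K P z w θ * b P z m w θ)
      (G := fun P s n q => if hP : P.leaves ≤ K then
        G P s hP n ((q.1.1, (S s).th ε q.1.2), q.2) else 0)
      (fun P z m w θ h1 => by
        have h2 : uG Φ ε tw K P z w θ = 0 := if_neg fun h' => h1 ⟨h'.2, h'.1⟩
        rw [h2, zero_mul])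
      (fun P s n hP => by
        simp only [dif_pos hP]
        exact (hGm P s hP n).comp ((measurable_fst.fst.prodMk
          ((hR.mth s ε hε).comp measurable_fst.snd)).prodMk measurable_snd))
      (fun P s n z x w hP hz hc hw => by
        simp only [dif_pos hP]
        calc uG Φ ε tw K P z w ((S s).th ε x) * b P z n w ((S s).th ε x)
            ≤ 1 * b P z n w ((S s).th ε x) := by
              gcongr
              exact OS2Calc495.uG_le_one
          _ = b P z n w ((S s).th ε x) := one_mul _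
          _ ≤ _ := by
              rw [hb1 P hP]
              exact iInf_le _ s)
    refine h0.trans (Finset.sum_le_sum fun P hP => Finset.sum_le_sum fun s _ => ?_)
    have hPK : P.leaves ≤ K := GIVStep383.mem_trees.1 hP
    simp only [dif_pos hPK]
    refine le_trans (le_of_eq ?_) (hGi P s hPK)
    have hg : Measurable fun q : (PhasePoint × Par P) × (Lab × LSt) =>
        gcE f₀ ε fun n w => G P s hPK n (q, w) :=
      MeasE416.measurable_gcE_of hf ε (F := fun n q w => G P s hPK n (q, w))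
        fun n => hGm P s hPK n
    exact (lintegral_osP_map hΦ K P (hR.sf s ε) (hR.mth s ε hε) hg).symm

/-- The same from null functionals. -/
theorem os2_of_fNull (hΦ : AdmissiblePotential Φ) (hf : Measurable f₀) {ι : Type} [Fintype ι]
    {ν : ℝ → Measure (Lab × LSt)} {S : ι → Shp} (hR : Rep ν S)
    (hB : ∀ s, StandardBorelSpace (S s).Θ) {F : ℝ → SF2}
    (h : ∀ P s, P.leaves ≤ K → FNull f₀ (osP Φ f₀ te T' K P (S s))
      (pullS Φ te T' K F P (S s))) (tw : ℝ) {δ : ℝ≥0∞} (hδ : 0 < δ) :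
    ∃ ε₀ : ℝ, 0 < ε₀ ∧ ∀ ε : ℝ, 0 < ε → ε < ε₀ → ∃ b : SF2, MeasSF2 b ∧
      (∀ (P : CTree) (z : PhasePoint × Par P) (m : ℕ) (w : Config m) (θ : Lab × LSt),
        P.leaves ≤ K → w ∈ PairExcluded ε m → Valid Φ ε P T' z.1.2 z.2 →
        (z, θ) ∈ ctOk Φ ε K te P → F ε P z m w θ ≤ b P z m w θ) ∧
      OS2 Φ f₀ ε te T' (ν ε) (fun P z m w θ => uG Φ ε tw K P z w θ * b P z m w θ) ≤ δ := by
  set U : Finset (CTree × ι) := GIVStep383.trees K ×ˢ Finset.univ with hU
  obtain ⟨r, hr, h1⟩ := os2_of_fLe (te := te) (T' := T') (K := K) hΦ hf hR hB (F := F)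
    (c := fun _ _ => δ / (U.card + 1)) (fun P s hP => h P s hP _ (div_pos' U hδ)) tw
  refine ⟨r, hr, fun ε hε hlt => ?_⟩
  obtain ⟨b, hbm, hb, hbi⟩ := h1 ε hε hlt
  refine ⟨b, hbm, hb, hbi.trans ?_⟩
  calc ∑ P ∈ GIVStep383.trees K, ∑ _s : ι, δ / ((U.card : ℝ≥0∞) + 1)
      = ∑ _a ∈ U, δ / ((U.card : ℝ≥0∞) + 1) := by rw [hU, Finset.sum_product]
    _ ≤ δ := sum_div_le U δ

end Crest.Agent.R122.GateOS2495

end
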