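import Crest.Agent.R122.GateOSc_434
import Crest.Agent.R122.Line3G_984

/-!
# `StmtLink4` from gateway null facts (row 122, H2 gate OS)

* `fLe_of_OS`, `fNull_of_OS`, `fNull_of_null` : functionals with small structure integral are small
  over every `osM P`.
* `Cond4` : side conditions of `StmtLink4`.
* `stmtLink4_of_fNull` : `StmtLink4` from `FNull` of `1[Cond4] err4` over every `osM P`.
* `stmtLink4_of_le` : the same from a pointwise bound `err4 ≤ F` on `Cond4`.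
* `stmtLink4_of_trunc` : bounds depending on a truncation (chosen after `δ`).
-/

set_option autoImplicit false
set_option linter.unusedSectionVars false

open MeasureTheory Set Filter Topology
open scoped ENNReal Classical
open Crest.AnalysisR.Kinetic
open Crest.Agent.R122.Kin796 Crest.Agent.R122.Kin796.CTree Crest.Agent.R122.Tree674
open Crest.Agent.R122.GC311 Crest.Agent.R122.EDefs602 Crest.Agent.R122.OneC285
open Crest.Agent.R122.Gate424 Crest.Agent.R122.Gate973 Crest.Agent.R122.OSMeas984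

noncomputable section

namespace Crest.Agent.R122.GateOS434

variable {Φ : Space3 → ℝ} {f₀ : PhasePoint → ℝ} {Q : EPar} {T' : ℝ} {κ : Measure ℝ}

theorem lintegral_le_OS (hΦ : AdmissiblePotential Φ) (hf : Measurable f₀) (hγ : Measurable Q.γ)
    (ε : ℝ) (K : ℕ) [SFinite κ] {H : SF} (hH : MeasSF H) (P : CTree) :
    ∫⁻ θ, gcE f₀ ε (fun m w => H P θ.1 m w θ.2) ∂(osM Φ f₀ ε K Q T' κ P) ≤
      OS Φ f₀ ε K Q T' κ H := by
  rw [OS_eq' hΦ hf hγ ε K hH]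
  exact ENNReal.le_tsum P

/-- A functional with small structure integral is small over every `osM P`. -/
theorem fLe_of_OS (hΦ : AdmissiblePotential Φ) (hf : Measurable f₀) (hγ : Measurable Q.γ)
    {K : ℕ} [SFinite κ] {H : ℝ → SF} (hH : ∀ ε, 0 < ε → MeasSF (H ε)) {c : ℝ≥0∞}
    (h : ∃ ε₀ : ℝ, 0 < ε₀ ∧ ∀ ε : ℝ, 0 < ε → ε < ε₀ → OS Φ f₀ ε K Q T' κ (H ε) ≤ c) (P : CTree) :
    FLe f₀ (fun ε (_ : Unit) => osM Φ f₀ ε K Q T' κ P) (fun ε _ m θ w => H ε P θ.1 m w θ.2) c := by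
  obtain ⟨ε₀, h0, h⟩ := h
  refine ⟨ε₀, h0, fun ε hε hlt _ => ⟨fun m p => H ε P p.1.1 m p.2 p.1.2, fun m => ?_,
    fun _ _ _ _ => le_rfl, (lintegral_le_OS hΦ hf hγ ε K (hH ε hε) P).trans (h ε hε hlt)⟩⟩
  exact (hH ε hε P m).comp (measurable_fst.fst.prodMk (measurable_snd.prodMk measurable_fst.snd))

theorem fNull_of_OS (hΦ : AdmissiblePotential Φ) (hf : Measurable f₀) (hγ : Measurable Q.γ)
    {K : ℕ} [SFinite κ] {H : ℝ → SF} (hH : ∀ ε, 0 < ε → MeasSF (H ε))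
    (h : ∀ c : ℝ≥0∞, 0 < c → ∃ ε₀ : ℝ, 0 < ε₀ ∧ ∀ ε : ℝ, 0 < ε → ε < ε₀ →
      OS Φ f₀ ε K Q T' κ (H ε) ≤ c) (P : CTree) :
    FNull f₀ (fun ε (_ : Unit) => osM Φ f₀ ε K Q T' κ P)
      (fun ε _ m θ w => H ε P θ.1 m w θ.2) :=
  fun c hc => fLe_of_OS hΦ hf hγ hH (h c hc) P

/-- From `Null`. -/
theorem fNull_of_null (hΦ : AdmissiblePotential Φ) (hf : Measurable f₀) (hγ : Measurable Q.γ)
    [SFinite κ] {H : ℕ → ℝ → SF} (hH : ∀ K ε, 0 < ε → MeasSF (H K ε))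
    (h : Null fun K ε => OS Φ f₀ ε K Q T' κ (H K ε)) (K : ℕ) (P : CTree) :
    FNull f₀ (fun ε (_ : Unit) => osM Φ f₀ ε K Q T' κ P)
      (fun ε _ m θ w => H K ε P θ.1 m w θ.2) := by
  refine fNull_of_OS hΦ hf hγ (hH K) (fun c hc => ?_) P
  have hc1 : 0 < min c 1 := lt_min hc one_pos
  have hct : min c 1 ≠ ∞ := ne_top_of_le_ne_top ENNReal.one_ne_top (min_le_right _ _)
  obtain ⟨ε₀, h0, h1⟩ := h K (min c 1).toReal (ENNReal.toReal_pos hc1.ne' hct)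
  refine ⟨ε₀, h0, fun ε hε hlt => (h1 ε hε hlt).trans ?_⟩
  rw [ENNReal.ofReal_toReal hct]
  exact min_le_left _ _

/-! ### `StmtLink4` -/

/-- Side conditions of `StmtLink4`. -/
def Cond4 (Φ : Space3 → ℝ) (ε : ℝ) (K : ℕ) (Q : EPar) (T' : ℝ) (P : CTree)
    (z : PhasePoint × Par P) {m : ℕ} (w : Config m) (l : ML) : Prop :=
  l.2 + P.leaves ≤ K ∧ Real4 Φ ε K Q.te T' P z w l ∧ GIV566.unhit Φ ε (ptube Φ ε P z) Q.tw w

/-- **`StmtLink4`** from null facts over the measures `osM P`. -/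
theorem stmtLink4_of_fNull (hΦ : AdmissiblePotential Φ) (hf : Measurable f₀)
    (hγ : Measurable Q.γ)
    (h : ∀ K (P : CTree), P.leaves ≤ K →
      FNull f₀ (fun ε (_ : Unit) => osM Φ f₀ ε K Q T' (volume.restrict (Ioc 0 Q.te)) P)
        (fun ε _ _ θ w => if Cond4 Φ ε K Q T' P θ.1 w θ.2 then
          err4 Φ ε K Q P θ.1 w θ.2 else 0)) : StmtLink4 Φ f₀ Q T' := by
  obtain ⟨bd, h1, h2, _, h4⟩ := null_of_fam (T' := T') (κ := volume.restrict (Ioc 0 Q.te))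
    hΦ hf hγ (F := fun K ε P z _ w l => if Cond4 Φ ε K Q T' P z w l then
      err4 Φ ε K Q P z w l else 0) h
  refine ⟨bd, h1, fun K ε hε P z m w l hK hR hu => ?_, h4⟩
  have h5 := h2 K ε hε P (le_trans (Nat.le_add_left _ _) hK) z m w l hR.exw
  simp only [if_pos (show Cond4 Φ ε K Q T' P z w l from ⟨hK, hR, hu⟩)] at h5
  exact h5

/-- `StmtLink4` from a pointwise bound of `err4` for small `ε`. -/
theorem stmtLink4_of_le (hΦ : AdmissiblePotential Φ) (hf : Measurable f₀)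
    (hγ : Measurable Q.γ) {F : ℕ → ℝ → SF}
    (hle : ∀ K (P : CTree), P.leaves ≤ K → ∃ ε₁ : ℝ, 0 < ε₁ ∧ ∀ ε : ℝ, 0 < ε → ε < ε₁ →
      ∀ z (m : ℕ) (w : Config m) (l : ML), Cond4 Φ ε K Q T' P z w l →
      err4 Φ ε K Q P z w l ≤ F K ε P z m w l)
    (h : ∀ K (P : CTree), P.leaves ≤ K →
      FNull f₀ (fun ε (_ : Unit) => osM Φ f₀ ε K Q T' (volume.restrict (Ioc 0 Q.te)) P)
        (fun ε _ m θ w => F K ε P θ.1 m w θ.2)) : StmtLink4 Φ f₀ Q T' := by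
  refine stmtLink4_of_fNull hΦ hf hγ fun K P hP => (h K P hP).mono ?_
  obtain ⟨ε₁, h1, h2⟩ := hle K P hP
  refine ⟨ε₁, h1, fun ε hε hlt _ m θ w _ => ?_⟩
  show (if Cond4 Φ ε K Q T' P θ.1 w θ.2 then err4 Φ ε K Q P θ.1 w θ.2 else 0) ≤
    F K ε P θ.1 m w θ.2
  by_cases hc : Cond4 Φ ε K Q T' P θ.1 w θ.2
  · rw [if_pos hc]
    exact h2 ε hε hlt θ.1 m w θ.2 hc
  · rw [if_neg hc]
    exact bot_le

/-- `StmtLink4` from bounds with a truncation: for every `δ` a truncation `n` with mass `≤ δ`. -/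
theorem stmtLink4_of_trunc (hΦ : AdmissiblePotential Φ) (hf : Measurable f₀)
    (hγ : Measurable Q.γ)
    (h : ∀ K (P : CTree), P.leaves ≤ K → ∀ δ : ℝ≥0∞, 0 < δ →
      ∃ F : ℝ → (m : ℕ) → (PhasePoint × Par P) × ML → Config m → ℝ≥0∞,
      (∃ ε₁ : ℝ, 0 < ε₁ ∧ ∀ ε : ℝ, 0 < ε → ε < ε₁ → ∀ z (m : ℕ) (w : Config m) (l : ML),
        Cond4 Φ ε K Q T' P z w l → err4 Φ ε K Q P z w l ≤ F ε m (z, l) w) ∧
      FLe f₀ (fun ε (_ : Unit) => osM Φ f₀ ε K Q T' (volume.restrict (Ioc 0 Q.te)) P)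
        (fun ε _ m θ w => F ε m θ w) δ) : StmtLink4 Φ f₀ Q T' := by
  refine stmtLink4_of_fNull hΦ hf hγ fun K P hP δ hδ => ?_
  obtain ⟨F, ⟨ε₁, h1, h2⟩, h3⟩ := h K P hP δ hδ
  refine h3.mono le_rfl ⟨ε₁, h1, fun ε hε hlt _ m θ w _ => ?_⟩
  show (if Cond4 Φ ε K Q T' P θ.1 w θ.2 then err4 Φ ε K Q P θ.1 w θ.2 else 0) ≤ F ε m θ w
  by_cases hc : Cond4 Φ ε K Q T' P θ.1 w θ.2
  · rw [if_pos hc]
    exact h2 ε hε hlt θ.1 m w θ.2 hc
  · rw [if_neg hc]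
    exact bot_le

end Crest.Agent.R122.GateOS434

end
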