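import Crest.Agent.R122.InEq2Defs_311
import Crest.Agent.R122.H5Defs_994

/-!
# Grand-canonical expectation as an integral (row 122, helper994)

* `gcM f₀ ε` : the (sub-probability) measure on `Σ n, Config n` with `gcE F = ∫⁻ w, F w.1 w.2 ∂gcM`
  for ALL `F` (`gcE_eq_lintegral`);
* `TS_eq` : 311's tree integral `TS` in terms of `tw₀` (`gw`) and `gcM`.
-/

set_option autoImplicit false

open MeasureTheory Set Filter
open scoped ENNReal Topology
open Crest.AnalysisR.Kinetic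
open Crest.Agent.R122.Kin796 Crest.Agent.R122.Kin796.CTree Crest.Agent.R122.Tree674
open Crest.Agent.R122.GC311 Crest.Agent.R122.QDens815 Crest.Agent.R122.ToTree335

namespace Crest.Agent.R122.H5994

noncomputable section

/-- the grand-canonical measure -/
def gcM (f₀ : PhasePoint → ℝ) (ε : ℝ) : Measure (Σ n : ℕ, Config n) :=
  (gcPartition f₀ ε)⁻¹ • Measure.sum fun n : ℕ => (activity ε ^ n / (n.factorial : ℝ≥0∞)) •
    ((volume : Measure (Config n)).withDensity (gcWeight f₀ ε n)).map (Sigma.mk n)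

theorem gcWeight_lt_top (f₀ : PhasePoint → ℝ) (ε : ℝ) (n : ℕ) (Z : Config n) :
    gcWeight f₀ ε n Z < ∞ := by
  unfold gcWeight
  by_cases h : Z ∈ PairExcluded ε n
  · rw [Set.indicator_of_mem h]
    exact ENNReal.prod_lt_top fun i _ => ENNReal.ofReal_lt_top
  · rw [Set.indicator_of_notMem h]
    exact ENNReal.zero_lt_top

theorem gcE_eq_lintegral {f₀ : PhasePoint → ℝ} (hf : Measurable f₀) (ε : ℝ)
    (F : (n : ℕ) → Config n → ℝ≥0∞) :
    gcE f₀ ε F = ∫⁻ w, F w.1 w.2 ∂gcM f₀ ε := by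
  unfold gcE gcM
  rw [lintegral_smul_measure, lintegral_sum_measure]
  congr 1
  refine tsum_congr fun n => ?_
  rw [lintegral_smul_measure]
  congr 1
  rw [(Q1815.measurableEmbedding_sigmaMk n).lintegral_map]
  rw [lintegral_withDensity_eq_lintegral_mul_non_measurable _ (measurable_gcWeight hf ε n)
    (Filter.Eventually.of_forall fun Z => gcWeight_lt_top f₀ ε n Z)]
  rfl

instance instSFiniteGcM (f₀ : PhasePoint → ℝ) (ε : ℝ) : SFinite (gcM f₀ ε) := by
  unfold gcM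
  infer_instance

theorem tw₀_of_valid {Φ : Space3 → ℝ} {f₀ : PhasePoint → ℝ} {ε T : ℝ} {P : CTree}
    {z : PhasePoint × Par P} (h : Valid Φ ε P T z.1.2 z.2) :
    tw₀ Φ f₀ ε T P z = wt Φ P z.1.2 z.2 * pf Φ f₀ ε P z := by
  unfold tw₀
  rw [gw_of_valid h, mul_one]
  rfl

theorem tw₀_of_not_valid {Φ : Space3 → ℝ} {f₀ : PhasePoint → ℝ} {ε T : ℝ} {P : CTree}
    {z : PhasePoint × Par P} (h : ¬ Valid Φ ε P T z.1.2 z.2) : tw₀ Φ f₀ ε T P z = 0 := by
  unfold tw₀
  rw [gw_of_not_valid h]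

/-- The tree integral in terms of `tw₀`. -/
theorem TS_eq {Φ : Space3 → ℝ} {f₀ : PhasePoint → ℝ} (ε T : ℝ)
    (H : (P : CTree) → PhasePoint × Par P → (m : ℕ) → Config m → ℝ≥0∞) :
    InEq2.TS Φ f₀ ε T H = ∑' P : CTree, ∫⁻ z : PhasePoint × Par P,
      tw₀ Φ f₀ ε T P z * gcE f₀ ε fun m w => H P z m w := by
  unfold InEq2.TS
  refine tsum_congr fun P => lintegral_congr fun z => ?_
  by_cases hz : Valid Φ ε P T z.1.2 z.2
  · rw [indicator_of_mem (show z ∈ {z : PhasePoint × Par P | Valid Φ ε P T z.1.2 z.2} from hz),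
      tw₀_of_valid hz, mul_assoc]
  · rw [indicator_of_notMem (show z ∉ {z : PhasePoint × Par P | Valid Φ ε P T z.1.2 z.2} from hz),
      tw₀_of_not_valid hz, zero_mul]

theorem wtF_ne_top {Φ : Space3 → ℝ} : ∀ (P : CTree) (v : Space3) (p : Par P), wt Φ P v p ≠ ∞
  | leaf, _, _ => ENNReal.one_ne_top
  | node l r, v, p => by
      simp only [wt]
      exact ENNReal.mul_ne_top ENNReal.ofReal_ne_top
        (ENNReal.mul_ne_top (wtF_ne_top l _ _) (wtF_ne_top r _ _))

theorem tw₀_ne_top {Φ : Space3 → ℝ} {f₀ : PhasePoint → ℝ} {ε T : ℝ} {P : CTree}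
    {z : PhasePoint × Par P} : tw₀ Φ f₀ ε T P z ≠ ∞ := by
  by_cases hz : Valid Φ ε P T z.1.2 z.2
  · rw [tw₀_of_valid hz]
    exact ENNReal.mul_ne_top (wtF_ne_top _ _ _) (ENNReal.prod_ne_top fun _ _ => ENNReal.ofReal_ne_top)
  · rw [tw₀_of_not_valid hz]
    exact ENNReal.zero_ne_top

end

end Crest.Agent.R122.H5994
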