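import Crest.Agent.R122.GenericHid_491

/-!
Row 122 (helper491): the legs of a straight-line tree which are not on the root line never meet a
fixed moving point (line) other than the root line: for every root line `ℓ ≠ z` and almost every
parameter, no non-straight leg (extended to all times) is at the same place at the same time as `z`.
-/

set_option autoImplicit false

open MeasureTheory Crest.AnalysisR.Kinetic Set
open scoped Classical ENNReal RealInnerProductSpace

noncomputable section

namespace Crest.Agent.R122.Generic491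

open Kin796 Kin796.CTree Disc416 Tree674 Kin416 Boltz814 Hid424

variable {Φ : Space3 → ℝ} {l r : CTree}

/-- the relative motion `D.1 + u • D.2` vanishes at some time -/
def Hit (D : PhasePoint) : Prop := ∃ u : ℝ, D.1 + u • D.2 = 0

lemma hit_iff (D : PhasePoint) :
    Hit D ↔ (‖D.2‖ ^ 2) • D.1 = ⟪D.1, D.2⟫ • D.2 ∧ (D.2 = 0 → D.1 = 0) := by
  constructor
  · rintro ⟨u, hu⟩
    have h1 : D.1 = -(u • D.2) := eq_neg_of_add_eq_zero_left hu
    constructor
    · rw [h1, inner_neg_left, inner_smul_left, real_inner_self_eq_norm_sq]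
      simp only [conj_trivial]
      module
    · intro h; rw [h1, h]; simp
  · rintro ⟨h1, h2⟩
    by_cases h : D.2 = 0
    · exact ⟨0, by rw [h2 h, h]; simp⟩
    · have hn : ‖D.2‖ ^ 2 ≠ 0 := by
        simpa using h
      refine ⟨-(⟪D.1, D.2⟫ / ‖D.2‖ ^ 2), ?_⟩
      have : D.1 = (⟪D.1, D.2⟫ / ‖D.2‖ ^ 2) • D.2 := by
        rw [div_eq_inv_mul, mul_smul, ← h1, smul_smul, inv_mul_cancel₀ hn, one_smul]
      rw [neg_smul, ← this]
      exact add_neg_cancel _

lemma measurableSet_hit : MeasurableSet {D : PhasePoint | Hit D} := by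
  have h : {D : PhasePoint | Hit D} = {D : PhasePoint | (‖D.2‖ ^ 2) • D.1 = ⟪D.1, D.2⟫ • D.2} ∩
      ({D : PhasePoint | D.2 = 0}ᶜ ∪ {D : PhasePoint | D.1 = 0}) := by
    ext D
    simp only [mem_ofPred_eq, mem_inter_iff, mem_union, mem_compl_iff]
    rw [hit_iff]
    tauto
  rw [h]
  refine (measurableSet_eq_fun ?_ ?_).inter ?_
  · exact ((measurable_snd.norm).pow_const 2).smul measurable_fst
  · have h1 : Measurable fun D : Space3 × Space3 => ⟪D.1, D.2⟫ :=
      (measurable_fst (α := Space3) (β := Space3)).inner (𝕜 := ℝ)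
        (measurable_snd (α := Space3) (β := Space3))
    exact h1.smul measurable_snd
  · exact (measurable_snd (measurableSet_singleton 0)).compl.union
      (measurable_fst (measurableSet_singleton 0))

/-- two moving points meet -/
lemma hit_sub_iff (L z : PhasePoint) : Hit (L - z) ↔ ∃ u : ℝ, (onLine L u).1 = (onLine z u).1 := by
  unfold Hit onLine
  refine exists_congr fun u => ?_
  simp only [Prod.fst_sub, Prod.snd_sub]
  rw [← sub_eq_zero (a := L.1 + u • L.2)]
  constructor
  · intro h; rw [← h]; module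
  · intro h; rw [← h]; module

lemma hit_zero : Hit 0 := ⟨0, by simp⟩

lemma hit_shL (A c : Space3) (L z : PhasePoint) :
    Hit (shL A c L - z) ↔ Hit (L - shL (-A) (-c) z) := by
  have : shL A c L - z = L - shL (-A) (-c) z := by
    apply Prod.ext
    · simp; abel
    · simp; abel
  rw [this]

/-- a moving point through `0` at time `s` with velocity `v` meets `z`: then `v` is on a line -/
lemma hit_through {s : ℝ} {v : Space3} {z : PhasePoint} (h : Hit ((-(s • v), v) - z))
    (hz : z.1 + s • z.2 ≠ 0) : ∃ t : ℝ, v = z.2 + t • (z.1 + s • z.2) := by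
  obtain ⟨u, hu⟩ := h
  simp only [Prod.fst_sub, Prod.snd_sub] at hu
  have h1 : (u - s) • v = (z.1 + s • z.2) + (u - s) • z.2 := by
    have : (u - s) • v - ((z.1 + s • z.2) + (u - s) • z.2) = 0 := by rw [← hu]; module
    exact sub_eq_zero.1 this
  have hus : u - s ≠ 0 := by
    intro h0
    rw [h0] at h1
    apply hz
    simpa using h1.symm
  refine ⟨(u - s)⁻¹, ?_⟩
  have h2 : v = (u - s)⁻¹ • ((u - s) • v) := by rw [smul_smul, inv_mul_cancel₀ hus, one_smul]
  rw [h2, h1, smul_add, smul_smul, inv_mul_cancel₀ hus, one_smul]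
  abel

/-! ### Null lines -/

lemma ae_not_line (B C : Space3) : ∀ᵐ w : Space3, ∀ t : ℝ, w ≠ B + t • C := by
  have h1 : (volume : Measure Space3) (lineSet B C) = 0 :=
    measure_lineSet volume (fun R => R.measurePreserving.map_eq) B C
  have h2 : ∀ᵐ w : Space3, w ∉ lineSet B C := compl_mem_ae_iff.2 h1
  filter_upwards [h2, ae_ne_zero] with w h3 h4 t ht
  exact h3 ⟨h4, t, ht⟩

theorem ae_dl_line (hΦ : AdmissiblePotential Φ) (S : ScatFacts Φ) (α β : ℝ) (B C : Space3) :
    ∀ᵐ p : Space3 × Plane, dl Φ α β p ≠ 0 → ∀ t : ℝ, dl Φ α β p ≠ B + t • C := by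
  have h1 := ae_dl hΦ S α β B C
  have h2 : ∀ᵐ p : Space3 × Plane, p.1 ≠ 0 :=
    (Measure.quasiMeasurePreserving_fst (μ := (volume : Measure Space3))
      (ν := (volume : Measure Plane))).ae ae_ne_zero
  have h3 : ∀ᵐ p : Space3 × Plane, ∀ t : ℝ, p.1 ≠ (α + β)⁻¹ • B + t • ((α + β)⁻¹ • C) :=
    (Measure.quasiMeasurePreserving_fst (μ := (volume : Measure Space3))
      (ν := (volume : Measure Plane))).ae (ae_not_line _ _)
  filter_upwards [h1, h2, h3] with p hp1 hp2 hp3 hne t
  by_cases hy : ‖p.2‖ < 1
  · exact hp1 hy hne t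
  · have hnot : frameMap p.1 p.2 ∉ impactDisc p.1 := by
      intro hmem
      have h4 : ‖frameMap p.1 p.2‖ < 1 := hmem.2
      rw [norm_frameMap hp2] at h4
      exact hy h4
    have hval : dl Φ α β p = (α + β) • p.1 := by
      unfold dl exitM
      rw [if_neg hnot, add_smul]
    intro h
    rw [hval] at h hne
    have hab : α + β ≠ 0 := by
      intro h0
      rw [h0, zero_smul] at hne
      exact hne rfl
    apply hp3 t
    have h5 : p.1 = (α + β)⁻¹ • ((α + β) • p.1) := by
      rw [smul_smul, inv_mul_cancel₀ hab, one_smul]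
    rw [h5, h, smul_add, smul_comm t]

lemma ae_snd_of {p : Space3 × Plane → Prop} (h : ∀ᵐ c : Space3 × Plane, p c) :
    ∀ᵐ a : NodeP, p a.2 :=
  (Measure.quasiMeasurePreserving_snd (μ := (volume : Measure ℝ))
    (ν := (volume : Measure (Space3 × Plane)))).ae h

lemma ae_fst_ne (s : ℝ) : ∀ᵐ a : NodeP, a.1 ≠ s :=
  (Measure.quasiMeasurePreserving_fst (μ := (volume : Measure ℝ))
    (ν := (volume : Measure (Space3 × Plane)))).ae
    (compl_mem_ae_iff.2 (MeasureTheory.measure_singleton s))

/-- for almost all times, the moving point `z ≠ 0` is not at the origin -/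
lemma ae_time_ne {z : PhasePoint} (hz : z ≠ 0) : ∀ᵐ a : NodeP, z.1 + a.1 • z.2 ≠ 0 := by
  by_cases h : ∃ u : ℝ, z.1 + u • z.2 = 0
  · obtain ⟨u, hu⟩ := h
    filter_upwards [ae_fst_ne u] with a ha h2
    have h3 : (a.1 - u) • z.2 = 0 := by
      have : (a.1 - u) • z.2 = (z.1 + a.1 • z.2) - (z.1 + u • z.2) := by module
      rw [this, h2, hu, sub_zero]
    have h4 : z.2 = 0 := (smul_eq_zero.1 h3).resolve_left (sub_ne_zero.2 ha)
    rw [h4, smul_zero, add_zero] at hu
    exact hz (Prod.ext hu h4)
  · push Not at h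
    exact Filter.Eventually.of_forall fun a => h a.1

/-- velocity of a leg starting on the root line -/
theorem ae_node_line {f : NodeP → Space3} (hf : Measurable f)
    (h : ∀ B C : Space3, ∀ᵐ c : Space3 × Plane, ∀ s : ℝ, f (s, c) ≠ 0 → ∀ t : ℝ,
      f (s, c) ≠ B + t • C) {z : PhasePoint} (hz : z ≠ 0) :
    ∀ᵐ a : NodeP, f a ≠ 0 → ¬ Hit ((-(a.1 • f a), f a) - z) := by
  have hm : MeasurableSet {a : NodeP | f a ≠ 0 → z.1 + a.1 • z.2 ≠ 0 →
      ¬ Hit ((-(a.1 • f a), f a) - z)} := by
    have m1 : MeasurableSet {a : NodeP | f a = 0} := hf (measurableSet_singleton 0)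
    have m2 : MeasurableSet {a : NodeP | z.1 + a.1 • z.2 = 0} :=
      (((measurable_fst (α := ℝ) (β := Space3 × Plane)).smul_const z.2).const_add z.1)
        (measurableSet_singleton 0)
    have m3 : MeasurableSet {a : NodeP | Hit ((-(a.1 • f a), f a) - z)} :=
      ((((measurable_fst.smul hf).neg.prodMk hf)).sub_const z) measurableSet_hit
    have : {a : NodeP | f a ≠ 0 → z.1 + a.1 • z.2 ≠ 0 → ¬ Hit ((-(a.1 • f a), f a) - z)} =
        {a : NodeP | f a = 0} ∪ ({a : NodeP | z.1 + a.1 • z.2 = 0} ∪
          {a : NodeP | Hit ((-(a.1 • f a), f a) - z)}ᶜ) := by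
      ext a
      simp only [mem_ofPred_eq, mem_union, mem_compl_iff]
      tauto
    rw [this]
    exact m1.union (m2.union m3.compl)
  have h1 : ∀ᵐ a : NodeP, f a ≠ 0 → z.1 + a.1 • z.2 ≠ 0 → ¬ Hit ((-(a.1 • f a), f a) - z) := by
    refine ae_prod_of_left (μ := (volume : Measure ℝ)) (ν := (volume : Measure (Space3 × Plane)))
      hm fun s => ?_
    filter_upwards [h z.2 (z.1 + s • z.2)] with c hc h2 h3 h4
    obtain ⟨t, ht⟩ := hit_through h4 h3
    exact hc s h2 t ht
  filter_upwards [h1, ae_time_ne hz] with a ha ha' h2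
  exact ha h2 ha'

theorem ae_vM_hit (hΦ : AdmissiblePotential Φ) (S : ScatFacts Φ) {z : PhasePoint} (hz : z ≠ 0) :
    ∀ᵐ a : NodeP, vM Φ a ≠ 0 → ¬ Hit ((-(a.1 • vM Φ a), vM Φ a) - z) := by
  refine ae_node_line (measurable_vM S) (fun B C => ?_) hz
  have hneg : MeasurePreserving (fun c : Space3 => 0 - c) (volume : Measure Space3) volume := by
    have := Measure.measurePreserving_neg (volume : Measure Space3)
    simpa only [zero_sub] using this
  have hqmp : MeasurePreserving (fun c : Space3 × Plane => (0 - c.1, c.2))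
      (volume : Measure (Space3 × Plane)) volume :=
    hneg.prod (MeasurePreserving.id _)
  filter_upwards [hqmp.quasiMeasurePreserving.ae (ae_dl_line hΦ S (1 / 2) (-(1 / 2)) (-B) (-C))]
    with c hc s h2 t ht
  have e : dl Φ (1 / 2) (-(1 / 2)) (0 - c.1, c.2) = -vM Φ (s, c) := by
    unfold vM gy; rw [neg_neg]
  refine hc (fun h => h2 ?_) t ?_
  · rw [e] at h; exact neg_eq_zero.1 h
  · rw [e, ht]; module

theorem ae_wM_hit (hΦ : AdmissiblePotential Φ) (S : ScatFacts Φ) {z : PhasePoint} (hz : z ≠ 0) :
    ∀ᵐ a : NodeP, wM Φ a ≠ 0 → ¬ Hit ((-(a.1 • wM Φ a), wM Φ a) - z) := by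
  refine ae_node_line (measurable_wM S) (fun B C => ?_) hz
  have hneg : MeasurePreserving (fun c : Space3 => 0 - c) (volume : Measure Space3) volume := by
    have := Measure.measurePreserving_neg (volume : Measure Space3)
    simpa only [zero_sub] using this
  have hqmp : MeasurePreserving (fun c : Space3 × Plane => (0 - c.1, c.2))
      (volume : Measure (Space3 × Plane)) volume :=
    hneg.prod (MeasurePreserving.id _)
  filter_upwards [hqmp.quasiMeasurePreserving.ae (ae_dl_line hΦ S (1 / 2) (1 / 2) (-B) (-C))]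
    with c hc s h2 t ht
  have e : dl Φ (1 / 2) (1 / 2) (0 - c.1, c.2) = -wM Φ (s, c) := by
    unfold wM gy; rw [neg_neg]
  refine hc (fun h => h2 ?_) t ?_
  · rw [e] at h; exact neg_eq_zero.1 h
  · rw [e, ht]; module

theorem ae_out_hit {z : PhasePoint} (hz : z ≠ 0) :
    ∀ᵐ a : NodeP, ¬ Hit ((-(a.1 • a.2.1), a.2.1) - z) := by
  have h1 := ae_node_line (f := fun a : NodeP => a.2.1) (measurable_fst.comp measurable_snd)
    (fun B C => by
      have h : ∀ᵐ c : Space3 × Plane, ∀ t : ℝ, c.1 ≠ B + t • C :=
        (Measure.quasiMeasurePreserving_fst (μ := (volume : Measure Space3))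
          (ν := (volume : Measure Plane))).ae (ae_not_line B C)
      filter_upwards [h] with c hc s _ t
      exact hc t) hz
  have h2 : ∀ᵐ a : NodeP, a.2.1 ≠ 0 :=
    ae_snd_of (p := fun c : Space3 × Plane => c.1 ≠ 0)
      ((Measure.quasiMeasurePreserving_fst (μ := (volume : Measure Space3))
        (ν := (volume : Measure Plane))).ae ae_ne_zero)
  filter_upwards [h1, h2] with a h1 h2
  exact h1 h2

/-! ### Legs never meet a fixed moving point -/

lemma shL_ne_zero {A c : Space3} {z : PhasePoint} (h : z ≠ (-A, -c)) : shL A c z ≠ 0 := by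
  intro h0
  apply h
  have h1 := congrArg Prod.fst h0
  have h2 := congrArg Prod.snd h0
  simp only [shL_fst, shL_snd, Prod.fst_zero, Prod.snd_zero] at h1 h2
  exact Prod.ext (eq_neg_of_add_eq_zero_left h1) (eq_neg_of_add_eq_zero_left h2)

theorem ae_segM_hit (hΦ : AdmissiblePotential Φ) (S : ScatFacts Φ) (P : CTree) (k : Seg P)
    {z : PhasePoint} (hz : z ≠ 0) : ∀ᵐ q : Par P, ¬ StrM Φ P q k → ¬ Hit (segM Φ P q k - z) := by
  induction P generalizing z with
  | leaf => exact Filter.Eventually.of_forall fun q h => absurd trivial h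
  | node l r hl hr =>
    have hmp := measurePreserving_relM S l r
    have hfst : Measurable fun z : NodeP × (Par l × Par r) => z.1.1 :=
      measurable_fst.comp measurable_fst
    have hv1 : Measurable fun z : NodeP × (Par l × Par r) => vM Φ z.1 :=
      (measurable_vM S).comp measurable_fst
    have hw1 : Measurable fun z : NodeP × (Par l × Par r) => wM Φ z.1 :=
      (measurable_wM S).comp measurable_fst
    rcases seg_cases k with ⟨k, rfl⟩ | ⟨k, rfl⟩ | rfl | rfl
    · -- left branch
      have hs : Measurable fun z : NodeP × (Par l × Par r) => segM Φ l z.2.1 k :=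
        (measurable_segM S l k).comp (measurable_fst.comp measurable_snd)
      have h1 : ∀ᵐ b ∂((volume : Measure NodeP).prod
          ((volume : Measure (Par l)).prod (volume : Measure (Par r)))),
          ¬ StrM Φ l b.2.1 k → z ≠ (-(b.1.1 • vM Φ b.1), vM Φ b.1) →
            ¬ Hit (shL (-(b.1.1 • vM Φ b.1)) (vM Φ b.1) (segM Φ l b.2.1 k) - z) := by
        refine ae_prod_of_left ?_ ?_
        · have m1 : MeasurableSet {b : NodeP × (Par l × Par r) | StrM Φ l b.2.1 k} :=
            (measurable_fst.comp measurable_snd) (measurableSet_strM S l k)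
          have m2 : MeasurableSet {b : NodeP × (Par l × Par r) |
              Hit (shL (-(b.1.1 • vM Φ b.1)) (vM Φ b.1) (segM Φ l b.2.1 k) - z)} :=
            ((((measurable_fst.comp hs).add (hfst.smul hv1).neg).prodMk
              ((measurable_snd.comp hs).add hv1)).sub_const z) measurableSet_hit
          have m3 : MeasurableSet {b : NodeP × (Par l × Par r) |
              z = (-(b.1.1 • vM Φ b.1), vM Φ b.1)} :=
            measurableSet_eq_fun measurable_const ((hfst.smul hv1).neg.prodMk hv1)
          have hset : {b : NodeP × (Par l × Par r) | ¬ StrM Φ l b.2.1 k →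
              z ≠ (-(b.1.1 • vM Φ b.1), vM Φ b.1) →
              ¬ Hit (shL (-(b.1.1 • vM Φ b.1)) (vM Φ b.1) (segM Φ l b.2.1 k) - z)} =
              {b | StrM Φ l b.2.1 k} ∪ ({b | z = (-(b.1.1 • vM Φ b.1), vM Φ b.1)} ∪
              {b | Hit (shL (-(b.1.1 • vM Φ b.1)) (vM Φ b.1) (segM Φ l b.2.1 k) - z)}ᶜ) := by
            ext b; simp only [mem_ofPred_eq, mem_union, mem_compl_iff]; tauto
          rw [hset]; exact m1.union (m3.union m2.compl)
        · intro a
          by_cases hza : z = (-(a.1 • vM Φ a), vM Φ a)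
          · exact Filter.Eventually.of_forall fun b _ h => absurd hza h
          · have hz' : shL (a.1 • vM Φ a) (-vM Φ a) z ≠ 0 := by
              refine shL_ne_zero ?_
              rwa [neg_neg]
            have h2 := (Measure.quasiMeasurePreserving_fst (μ := (volume : Measure (Par l)))
              (ν := (volume : Measure (Par r)))).ae (hl k hz')
            filter_upwards [h2] with b hb hn _
            rw [hit_shL, neg_neg]
            exact hb hn
      have h3 : ∀ᵐ b ∂((volume : Measure NodeP).prod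
          ((volume : Measure (Par l)).prod (volume : Measure (Par r)))),
          vM Φ b.1 ≠ 0 → ¬ Hit ((-(b.1.1 • vM Φ b.1), vM Φ b.1) - z) :=
        (Measure.quasiMeasurePreserving_fst (μ := (volume : Measure NodeP))
          (ν := (volume : Measure (Par l)).prod (volume : Measure (Par r)))).ae
          (ae_vM_hit hΦ S hz)
      have h1' := hmp.quasiMeasurePreserving.ae h1
      have h3' := hmp.quasiMeasurePreserving.ae h3
      filter_upwards [h1', h3'] with q f1 f3 hn
      obtain ⟨a, pl, pr, rfl⟩ := exists_mkP q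
      rw [relM_mkP] at f1 f3
      rw [strM_segL] at hn
      rw [segM_segL]
      by_cases hk : StrM Φ l (boostP l (-vM Φ a) pl) k
      · have hv : vM Φ a ≠ 0 := fun h => hn ⟨h, hk⟩
        rw [segM_of_strM l _ k hk]
        have e : shL (-(a.1 • vM Φ a)) (vM Φ a) (0 : PhasePoint) = (-(a.1 • vM Φ a), vM Φ a) := by
          apply Prod.ext <;> simp
        rw [e]
        exact f3 hv
      · refine f1 hk ?_
        by_cases hv : vM Φ a = 0
        · rintro rfl
          apply hz
          simp only [hv]
          apply Prod.ext <;> simp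
        · rintro rfl
          apply f3 hv
          rw [sub_self]; exact hit_zero
    · -- right branch
      have hs : Measurable fun z : NodeP × (Par l × Par r) => segM Φ r z.2.2 k :=
        (measurable_segM S r k).comp (measurable_snd.comp measurable_snd)
      have h1 : ∀ᵐ b ∂((volume : Measure NodeP).prod
          ((volume : Measure (Par l)).prod (volume : Measure (Par r)))),
          ¬ StrM Φ r b.2.2 k → z ≠ (-(b.1.1 • wM Φ b.1), wM Φ b.1) →
            ¬ Hit (shL (-(b.1.1 • wM Φ b.1)) (wM Φ b.1) (segM Φ r b.2.2 k) - z) := by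
        refine ae_prod_of_left ?_ ?_
        · have m1 : MeasurableSet {b : NodeP × (Par l × Par r) | StrM Φ r b.2.2 k} :=
            (measurable_snd.comp measurable_snd) (measurableSet_strM S r k)
          have m2 : MeasurableSet {b : NodeP × (Par l × Par r) |
              Hit (shL (-(b.1.1 • wM Φ b.1)) (wM Φ b.1) (segM Φ r b.2.2 k) - z)} :=
            ((((measurable_fst.comp hs).add (hfst.smul hw1).neg).prodMk
              ((measurable_snd.comp hs).add hw1)).sub_const z) measurableSet_hit
          have m3 : MeasurableSet {b : NodeP × (Par l × Par r) |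
              z = (-(b.1.1 • wM Φ b.1), wM Φ b.1)} :=
            measurableSet_eq_fun measurable_const ((hfst.smul hw1).neg.prodMk hw1)
          have hset : {b : NodeP × (Par l × Par r) | ¬ StrM Φ r b.2.2 k →
              z ≠ (-(b.1.1 • wM Φ b.1), wM Φ b.1) →
              ¬ Hit (shL (-(b.1.1 • wM Φ b.1)) (wM Φ b.1) (segM Φ r b.2.2 k) - z)} =
              {b | StrM Φ r b.2.2 k} ∪ ({b | z = (-(b.1.1 • wM Φ b.1), wM Φ b.1)} ∪
              {b | Hit (shL (-(b.1.1 • wM Φ b.1)) (wM Φ b.1) (segM Φ r b.2.2 k) - z)}ᶜ) := by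
            ext b; simp only [mem_ofPred_eq, mem_union, mem_compl_iff]; tauto
          rw [hset]; exact m1.union (m3.union m2.compl)
        · intro a
          by_cases hza : z = (-(a.1 • wM Φ a), wM Φ a)
          · exact Filter.Eventually.of_forall fun b _ h => absurd hza h
          · have hz' : shL (a.1 • wM Φ a) (-wM Φ a) z ≠ 0 := by
              refine shL_ne_zero ?_
              rwa [neg_neg]
            have h2 := (Measure.quasiMeasurePreserving_snd (μ := (volume : Measure (Par l)))
              (ν := (volume : Measure (Par r)))).ae (hr k hz')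
            filter_upwards [h2] with b hb hn _
            rw [hit_shL, neg_neg]
            exact hb hn
      have h3 : ∀ᵐ b ∂((volume : Measure NodeP).prod
          ((volume : Measure (Par l)).prod (volume : Measure (Par r)))),
          wM Φ b.1 ≠ 0 → ¬ Hit ((-(b.1.1 • wM Φ b.1), wM Φ b.1) - z) :=
        (Measure.quasiMeasurePreserving_fst (μ := (volume : Measure NodeP))
          (ν := (volume : Measure (Par l)).prod (volume : Measure (Par r)))).ae
          (ae_wM_hit hΦ S hz)
      have h1' := hmp.quasiMeasurePreserving.ae h1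
      have h3' := hmp.quasiMeasurePreserving.ae h3
      filter_upwards [h1', h3'] with q f1 f3 hn
      obtain ⟨a, pl, pr, rfl⟩ := exists_mkP q
      rw [relM_mkP] at f1 f3
      rw [strM_segR] at hn
      rw [segM_segR]
      by_cases hk : StrM Φ r (boostP r (-wM Φ a) pr) k
      · have hv : wM Φ a ≠ 0 := fun h => hn ⟨h, hk⟩
        rw [segM_of_strM r _ k hk]
        have e : shL (-(a.1 • wM Φ a)) (wM Φ a) (0 : PhasePoint) = (-(a.1 • wM Φ a), wM Φ a) := by
          apply Prod.ext <;> simp
        rw [e]
        exact f3 hv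
      · refine f1 hk ?_
        by_cases hv : wM Φ a = 0
        · rintro rfl
          apply hz
          simp only [hv]
          apply Prod.ext <;> simp
        · rintro rfl
          apply f3 hv
          rw [sub_self]; exact hit_zero
    · refine Filter.Eventually.of_forall fun q hn => absurd ?_ hn
      obtain ⟨a, pl, pr, rfl⟩ := exists_mkP q
      exact strM_segT _ _ _
    · have h2 : ∀ᵐ b ∂((volume : Measure NodeP).prod
          ((volume : Measure (Par l)).prod (volume : Measure (Par r)))),
          ¬ Hit ((-(b.1.1 • b.1.2.1), b.1.2.1) - z) :=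
        (Measure.quasiMeasurePreserving_fst (μ := (volume : Measure NodeP))
          (ν := (volume : Measure (Par l)).prod (volume : Measure (Par r)))).ae (ae_out_hit hz)
      filter_upwards [hmp.quasiMeasurePreserving.ae h2] with q hq _
      obtain ⟨a, pl, pr, rfl⟩ := exists_mkP q
      rw [relM_mkP] at hq
      rw [segM_segF]
      exact hq

/-- **Legs never meet a fixed moving point.**  For every root line `ℓ` and every line `z ≠ ℓ`, for
almost every parameter no leg which is not on the root line ever is at the same place at the same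
time as `z`. -/
theorem seg_not_hit (hΦ : AdmissiblePotential Φ) (P : CTree) {ℓ z : PhasePoint} (hz : z ≠ ℓ) :
    ∀ᵐ p : Par P, Adm Φ P ℓ.2 p → ∀ k : Seg P, ¬ Str Φ P ℓ.2 p k →
      ∀ u : ℝ, (onLine (seg Φ P ℓ p k) u).1 ≠ (onLine z u).1 := by
  have : Countable (Seg P) := Finite.to_countable
  have hz' : shL (-ℓ.1) (-ℓ.2) z ≠ 0 := by
    refine shL_ne_zero ?_
    rwa [neg_neg, neg_neg]
  have h0 : ∀ᵐ q : Par P, ∀ k : Seg P, ¬ StrM Φ P q k →
      ¬ Hit (segM Φ P q k - shL (-ℓ.1) (-ℓ.2) z) :=
    ae_all_iff.2 fun k => ae_segM_hit hΦ (Scat818.scatFacts hΦ) P k hz'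
  have h := (measurePreserving_boostP P (-ℓ.2)).quasiMeasurePreserving.ae h0
  filter_upwards [h] with p hp hA k hk u hu
  have hA1 : Adm Φ P 0 (boostP P (-ℓ.2) p) := by
    have := (adm_boost (Φ := Φ) P (-ℓ.2) ℓ.2 p).2 hA
    rwa [add_neg_cancel] at this
  have h1 : ¬ StrM Φ P (boostP P (-ℓ.2) p) k := by
    rwa [← strM_iff P _ hA1, ← str_rest]
  apply hp k h1
  rw [← segM_eq P _ hA1, ← hit_shL, ← seg_rest P ℓ p k, hit_sub_iff]
  exact ⟨u, hu⟩

/-! ### Consequences for paths -/

/-- For every root line and every countable family of lines: almost surely, a particle which is not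
on a straight leg is never at the place of a line of the family (other than the root line). -/
theorem path_not_hit (hΦ : AdmissiblePotential Φ) (P : CTree) (ℓ : PhasePoint)
    {A : Set PhasePoint} (hA : A.Countable) :
    ∀ᵐ p : Par P, Adm Φ P ℓ.2 p → ∀ z ∈ A, z ≠ ℓ → ∀ (i : Idx P) (u : ℝ),
      ¬ Str Φ P ℓ.2 p (legOf P p u i) → (path Φ 0 P ℓ p u i).1 ≠ (onLine z u).1 := by
  have h := (ae_ball_iff hA (p := fun (p : Par P) (z : PhasePoint) (_ : z ∈ A) =>
    z ≠ ℓ → Adm Φ P ℓ.2 p → ∀ k : Seg P, ¬ Str Φ P ℓ.2 p k →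
      ∀ u : ℝ, (onLine (seg Φ P ℓ p k) u).1 ≠ (onLine z u).1)).2
    fun z _ => by
      by_cases hz : z = ℓ
      · exact Filter.Eventually.of_forall fun p h => absurd hz h
      · filter_upwards [seg_not_hit hΦ P hz] with p hp _
        exact hp
  filter_upwards [h] with p hp hAdm z hz hzl i u hk
  rw [path_eq_seg]
  exact hp z hz hzl hAdm _ hk u

/-- on a straight leg the particle is on the root line -/
lemma path_of_str (P : CTree) (ℓ : PhasePoint) (p : Par P) (i : Idx P) (u : ℝ)
    (h : Str Φ P ℓ.2 p (legOf P p u i)) : path Φ 0 P ℓ p u i = onLine ℓ u := by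
  rw [path_eq_seg, seg_of_str P ℓ p _ h]

/-- If the root line meets no line of the family `A` in the set of times `U`, then almost surely no
particle of the tree meets a line of `A` at a time of `U`. -/
theorem path_avoid (hΦ : AdmissiblePotential Φ) (P : CTree) (ℓ : PhasePoint)
    {A : Set PhasePoint} (hA : A.Countable) :
    ∀ᵐ p : Par P, Adm Φ P ℓ.2 p → ∀ z ∈ A, z ≠ ℓ → ∀ (i : Idx P) (u : ℝ),
      (onLine ℓ u).1 ≠ (onLine z u).1 → (path Φ 0 P ℓ p u i).1 ≠ (onLine z u).1 := by
  filter_upwards [path_not_hit hΦ P ℓ hA] with p hp hAdm z hz hzl i u hu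
  by_cases h : Str Φ P ℓ.2 p (legOf P p u i)
  · rw [path_of_str P ℓ p i u h]; exact hu
  · exact hp hAdm z hz hzl i u h

/-- For almost every velocity `v`, the line through `x` at time `s` with velocity `v` meets a given
line only at time `s` (and is different from it). -/
theorem ae_root_line (x : Space3) (s : ℝ) (z : PhasePoint) :
    ∀ᵐ v : Space3, ((x - s • v, v) : PhasePoint) ≠ z ∧
      ∀ u : ℝ, u ≠ s → (onLine (x - s • v, v) u).1 ≠ (onLine z u).1 := by
  filter_upwards [ae_not_line z.2 (z.1 + s • z.2 - x), ae_not_line z.2 0] with v h1 h2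
  refine ⟨?_, ?_⟩
  · intro h
    apply h2 0
    rw [← h]; simp
  · intro u hu h
    have hus : u - s ≠ 0 := sub_ne_zero.2 hu
    simp only [onLine] at h
    have h3 : (u - s) • v = (z.1 + s • z.2 - x) + (u - s) • z.2 := by
      have : (u - s) • v - ((z.1 + s • z.2 - x) + (u - s) • z.2) =
        (x - s • v + u • v) - (z.1 + u • z.2) := by module
      rw [← sub_eq_zero, this, h, sub_self]
    apply h1 (u - s)⁻¹
    have h4 : v = (u - s)⁻¹ • ((u - s) • v) := by rw [smul_smul, inv_mul_cancel₀ hus, one_smul]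
    rw [h4, h3, smul_add, smul_smul, inv_mul_cancel₀ hus, one_smul]
    abel

/-- **First hit at the root** (straight-line trees): for every point `(s, x)`, every countable family
`A` of lines, for almost all `(v, p)`: the tree glued at the line through `x` at time `s` with
velocity `v` meets no line of `A` at any time, except the particles on the root line, at time `s`. -/
theorem ae_first_hit (hΦ : AdmissiblePotential Φ) (P : CTree) (x : Space3) (s : ℝ)
    {A : Set PhasePoint} (hA : A.Countable) :
    ∀ᵐ v : Space3, ∀ᵐ p : Par P, Adm Φ P v p → ∀ z ∈ A, ∀ (i : Idx P) (u : ℝ),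
      (path Φ 0 P (x - s • v, v) p u i).1 = (onLine z u).1 →
        u = s ∧ Str Φ P v p (legOf P p u i) ∧ (onLine z s).1 = x := by
  have h := (ae_ball_iff hA (p := fun (v : Space3) (z : PhasePoint) (_ : z ∈ A) =>
    ((x - s • v, v) : PhasePoint) ≠ z ∧
      ∀ u : ℝ, u ≠ s → (onLine (x - s • v, v) u).1 ≠ (onLine z u).1)).2
    fun z _ => ae_root_line x s z
  filter_upwards [h] with v hv
  filter_upwards [path_not_hit hΦ P (x - s • v, v) hA] with p hp hAdm z hz i u hu
  have h1 := hv z hz
  have hstr : Str Φ P v p (legOf P p u i) := by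
    by_contra hn
    exact hp hAdm z hz h1.1.symm i u hn hu
  have hpos := path_of_str P ((x - s • v, v) : PhasePoint) p i u hstr
  rw [hpos] at hu
  have hus : u = s := by
    by_contra hne
    exact h1.2 u hne hu
  refine ⟨hus, hstr, ?_⟩
  rw [hus] at hu
  rw [← hu]
  simp [onLine]

end Crest.Agent.R122.Generic491

end
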