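import Crest.Agent.R122.XAvg_370
import Crest.Agent.R122.HitG4_167
import Crest.Agent.R122.GIVDefs_566
import Crest.Agent.R122.HitNull_167
import Crest.Agent.R122.IDefs_317

/-!
# From the real rest of the world to the ghost world (row 122, helper370), item F3

In the first-hit inequality of helper167 the conditional expectation `restE` (the rest of the world
evolves together with the cluster `V`) is replaced by `ghostE` (the rest of the world evolves alone
and avoids the test family and the protected tubes of `V`).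

* `Ghost`, `ghostE`, `ghostMass`, `errMass` : definitions.
* `hitMass_le`, `ghostMass_le` : `|hitMass - ghostMass| ≤ errMass`.
* `errMass_le` : `errMass` is bounded by the mass of the discrepancy event `Disc`.
* `F3` : the statement along a converging generic sequence of tube families.
* `F3_of` : assembly from Prop inputs: the discrepancy event is contained in the union of a touch
  event, a return event (both independent of the translation) and a return event to the test family.
-/

set_option autoImplicit false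
open MeasureTheory Set Filter
open scoped Classical ENNReal Topology
open Crest.AnalysisR.Kinetic
open Crest.Agent.R122.GC311 Crest.Agent.R122.Causal291 Crest.Agent.R122.Master566
open Crest.Agent.R122.Hit167 Crest.Agent.R122.GIV566 Crest.Agent.R122.XAvg370
open Crest.Agent.R122.BadHit370
noncomputable section

namespace Crest.Agent.R122.GhostErr370

section defs

variable (f₀ : PhasePoint → ℝ) (Φ : Space3 → ℝ) (ε : ℝ) {α : Type} (c : α → ℝ → Space3)
  (θ : α → ℝ)

/-- Curves of the test family together with the curves of the isolated world of `V`. -/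
def cS {k : ℕ} (V : Config k) : α ⊕ Fin k → ℝ → Space3 := Sum.elim c fun i s => (pth Φ ε V s i).1

/-- End times: those of the test family and the protected times of the cluster. -/
def thS {k : ℕ} (V : Config k) (j : Fin k) (σ : ℝ) : α ⊕ Fin k → ℝ :=
  Sum.elim θ (tauPre (pth Φ ε V) ε j σ)

/-- The world `w` alone avoids the test family and the protected tubes of `V` before `σ`. -/
def Ghost {k : ℕ} (V : Config k) (j : Fin k) (σ : ℝ) {m : ℕ} (w : Config m) : Prop :=
  Unhit (pth Φ ε w) ε (cS Φ ε c V) (thS Φ ε θ V j σ) σ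

/-- Ghost avoidance probability of the test family and the protected tubes of `V`. -/
def ghostE {k : ℕ} (V : Config k) (j : Fin k) (σ : ℝ) : ℝ≥0∞ :=
  gcE f₀ ε fun _ w => ind (Ghost Φ ε c θ V j σ w)

/-- The condition on the rest in the real world. -/
def Real1 {k : ℕ} (V : Config k) (j : Fin k) (σ : ℝ) {m : ℕ} (w : Config m) : Prop :=
  Perp ε V w ∧ RestV Φ ε c θ (Fin.append V w : Config (k + m)) (Fin.castAdd m) j σ

/-- The discrepancy event. -/
def Disc {k : ℕ} (V : Config k) (j : Fin k) (σ : ℝ) {m : ℕ} (w : Config m) : Prop :=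
  ¬ (Real1 Φ ε c θ V j σ w ↔ Ghost Φ ε c θ V j σ w)

variable (𝒢 : Cls) (t₀ t : ℝ)

/-- The cluster side of a good first hit in the window. -/
def GoodH {k : ℕ} (V : Config k) (j : Fin k) : Prop :=
  hitTime (pth Φ ε V) ε c θ 0 j ∈ Ico t₀ t ∧
    GoodV Φ ε c θ 𝒢 V j (hitTime (pth Φ ε V) ε c θ 0 j)

/-- Mass of the good first hits with the ghost avoidance probability. -/
def ghostMass (k : ℕ) : ℝ≥0∞ :=
  activity ε ^ k / (k.factorial : ℝ≥0∞) * ∫⁻ V : Config k, gcWeight f₀ ε k V *
    ∑ j : Fin k, ind (GoodH Φ ε c θ 𝒢 t₀ t V j) *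
      ghostE f₀ Φ ε c θ V j (hitTime (pth Φ ε V) ε c θ 0 j)

/-- The error. -/
def errMass (k : ℕ) : ℝ≥0∞ :=
  activity ε ^ k / (k.factorial : ℝ≥0∞) * ∫⁻ V : Config k, gcWeight f₀ ε k V *
    ∑ j : Fin k, ind (GoodH Φ ε c θ 𝒢 t₀ t V j) *
      adiff (restE f₀ Φ ε c θ V j (hitTime (pth Φ ε V) ε c θ 0 j))
        (ghostE f₀ Φ ε c θ V j (hitTime (pth Φ ε V) ε c θ 0 j))

end defs

theorem le_add_adiff (a b : ℝ≥0∞) : a ≤ b + adiff a b := by
  unfold adiff
  calc a ≤ b + (a - b) := le_add_tsub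
    _ ≤ b + ((a - b) + (b - a)) := by gcongr; exact le_self_add

theorem le_add_adiff' (a b : ℝ≥0∞) : b ≤ a + adiff a b := by
  unfold adiff
  calc b ≤ a + (b - a) := le_add_tsub
    _ ≤ a + ((a - b) + (b - a)) := by gcongr; exact le_add_self

section main

variable {f₀ : PhasePoint → ℝ} {Φ : Space3 → ℝ} {ε : ℝ} {α : Type} [Finite α]
  {c : α → ℝ → Space3} {θ : α → ℝ} {𝒢 : Cls} {t₀ t : ℝ}

/-! ### Measurability -/

theorem measurable_ghost (hΦ : AdmissiblePotential Φ) (hε : 0 < ε)
    (hc : ∀ a, Continuous (c a)) {k m : ℕ} (V : Config k) (j : Fin k) (σ : ℝ) :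
    Measurable fun w : Config m => ind (Ghost Φ ε c θ V j σ w) := by
  refine measurable_ind (measurableSet_unhit (c := cS Φ ε c V) (θ := thS Φ ε θ V j σ)
    (fun w => continuous_pth hΦ hε w) (fun s j => measurable_pth_id hΦ hε s j) ?_
    measurable_const)
  rintro (a | i)
  · exact hc a
  · exact (continuous_pth hΦ hε V i).fst

theorem measurable_real1 (hΦ : AdmissiblePotential Φ) (hε : 0 < ε)
    (hc : ∀ a, Continuous (c a)) {k m : ℕ} (V : Config k) (j : Fin k) (σ : ℝ) :
    Measurable fun w : Config m => perpInd ε V w *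
      ind (RestV Φ ε c θ (Fin.append V w : Config (k + m)) (Fin.castAdd m) j σ) :=
  (measurable_perpInd_right ε m V).mul (measurable_ind_restV hΦ hε hc V j σ)

omit [Finite α] in
theorem perp_mul_eq {k m : ℕ} (V : Config k) (j : Fin k) (σ : ℝ) (w : Config m) :
    perpInd ε V w * ind (RestV Φ ε c θ (Fin.append V w : Config (k + m)) (Fin.castAdd m) j σ) =
      ind (Real1 Φ ε c θ V j σ w) := by
  unfold Real1
  rw [ind_and]
  rfl

/-- The difference of the two conditional expectations is at most the probability of the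
discrepancy. -/
theorem adiff_rest_ghost_le (hf : Measurable f₀) (hΦ : AdmissiblePotential Φ) (hε : 0 < ε)
    (hc : ∀ a, Continuous (c a)) {k : ℕ} (V : Config k) (j : Fin k) (σ : ℝ) :
    adiff (restE f₀ Φ ε c θ V j σ) (ghostE f₀ Φ ε c θ V j σ) ≤
      2 * gcE f₀ ε fun _ w => ind (Disc Φ ε c θ V j σ w) := by
  have h1 : restE f₀ Φ ε c θ V j σ ≤ ghostE f₀ Φ ε c θ V j σ +
      gcE f₀ ε fun _ w => ind (Disc Φ ε c θ V j σ w) := by
    unfold restE ghostE
    rw [← gcE_add hf ε fun m => measurable_ghost hΦ hε hc V j σ]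
    refine gcE_mono f₀ ε fun m w _ => ?_
    rw [perp_mul_eq]
    by_cases h1 : Real1 Φ ε c θ V j σ w
    · by_cases h2 : Ghost Φ ε c θ V j σ w
      · rw [ind_true h1, ind_true h2]; exact le_self_add
      · rw [ind_true h1, ind_true (show Disc Φ ε c θ V j σ w from fun h => h2 (h.1 h1))]
        exact le_add_self
    · rw [ind_false h1]; exact bot_le
  have h2 : ghostE f₀ Φ ε c θ V j σ ≤ restE f₀ Φ ε c θ V j σ +
      gcE f₀ ε fun _ w => ind (Disc Φ ε c θ V j σ w) := by
    unfold restE ghostE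
    rw [← gcE_add hf ε fun m => measurable_real1 hΦ hε hc V j σ]
    refine gcE_mono f₀ ε fun m w _ => ?_
    rw [perp_mul_eq]
    by_cases h2 : Ghost Φ ε c θ V j σ w
    · by_cases h1 : Real1 Φ ε c θ V j σ w
      · rw [ind_true h1, ind_true h2]; exact le_self_add
      · rw [ind_true h2, ind_true (show Disc Φ ε c θ V j σ w from fun h => h1 (h.2 h2))]
        exact le_add_self
    · rw [ind_false h2]; exact bot_le
  unfold adiff
  rw [two_mul]
  exact add_le_add (tsub_le_iff_left.2 h1) (tsub_le_iff_left.2 h2)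

omit [Finite α] in
theorem cont_fst (hΦ : AdmissiblePotential Φ) (hε : 0 < ε) {k m : ℕ} (p : Config k × Config m)
    (i : Fin k) : Continuous fun s => pth Φ ε p.1 s i := continuous_pth hΦ hε _ i

omit [Finite α] in
theorem cont_snd (hΦ : AdmissiblePotential Φ) (hε : 0 < ε) {k m : ℕ} (p : Config k × Config m)
    (i : Fin m) : Continuous fun s => pth Φ ε p.2 s i := continuous_pth hΦ hε _ i

omit [Finite α] in
theorem meas_fst (hΦ : AdmissiblePotential Φ) (hε : 0 < ε) {k m : ℕ} (s : ℝ) (i : Fin k) :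
    Measurable fun p : Config k × Config m => pth Φ ε p.1 s i := by
  have h0 : Measurable fun p : Config k × Config m => p.1 := measurable_fst
  have h := (measurable_pth_id hΦ hε s i).comp h0
  exact h

omit [Finite α] in
theorem meas_snd (hΦ : AdmissiblePotential Φ) (hε : 0 < ε) {k m : ℕ} (s : ℝ) (i : Fin m) :
    Measurable fun p : Config k × Config m => pth Φ ε p.2 s i := by
  have h0 : Measurable fun p : Config k × Config m => p.2 := measurable_snd
  have h := (measurable_pth_id hΦ hε s i).comp h0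
  exact h

/-- Joint measurability of the ghost event in the cluster and the world. -/
theorem measurableSet_ghost (hΦ : AdmissiblePotential Φ) (hε : 0 < ε)
    (hc : ∀ a, Continuous (c a)) {k m : ℕ} (j : Fin k) {σ : Config k × Config m → ℝ}
    (hσ : Measurable σ) :
    MeasurableSet {p : Config k × Config m | Ghost Φ ε c θ p.1 j (σ p) p.2} := by
  have key : {p : Config k × Config m | Ghost Φ ε c θ p.1 j (σ p) p.2} =
      ((⋃ q : Fin m, ⋃ a : α, {p : Config k × Config m |
          ∃ s ∈ Ico 0 (σ p), s ≤ θ a ∧ dist (c a s) (pth Φ ε p.2 s q).1 ≤ ε}) ∪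
       (⋃ q : Fin m, ⋃ i : Fin k, {p : Config k × Config m |
          ∃ s ∈ Ico 0 (σ p), s ≤ tauPre (pth Φ ε p.1) ε j (σ p) i ∧
            dist (pth Φ ε p.1 s i).1 (pth Φ ε p.2 s q).1 ≤ ε}))ᶜ := by
    ext p
    simp only [Ghost, Unhit, HitsAt, mem_compl_iff, mem_union, mem_iUnion, mem_ofPred_eq]
    constructor
    · rintro h (⟨q, a, s, hs, ha, hd⟩ | ⟨q, i, s, hs, ha, hd⟩)
      · exact h s hs q ⟨Sum.inl a, ha, hd⟩
      · exact h s hs q ⟨Sum.inr i, ha, hd⟩
    · rintro h s hs q ⟨a | i, ha, hd⟩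
      · exact h (Or.inl ⟨q, a, s, hs, ha, hd⟩)
      · exact h (Or.inr ⟨q, i, s, hs, ha, hd⟩)
  rw [key]
  have hτ : ∀ i : Fin k, Measurable fun p : Config k × Config m =>
      tauPre (pth Φ ε p.1) ε j (σ p) i := fun i =>
    measurable_tauPre (cont_fst hΦ hε) (meas_fst hΦ hε) j i hσ
  have hθ : ∀ a : α, Measurable fun _ : Config k × Config m => θ a := fun a => measurable_const
  refine MeasurableSet.compl (MeasurableSet.union ?_ ?_)
  · refine MeasurableSet.iUnion fun q => MeasurableSet.iUnion fun a => ?_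
    have h := measurableSet_exists_window' (g := fun (p : Config k × Config m) s =>
      dist (c a s) (pth Φ ε p.2 s q).1) (fun p => (hc a).dist (cont_snd hΦ hε p q).fst)
      (fun s => measurable_const.dist (meas_snd hΦ hε s q).fst) ε hσ (hθ a)
    exact h
  · refine MeasurableSet.iUnion fun q => MeasurableSet.iUnion fun i => ?_
    have h := measurableSet_exists_window' (g := fun (p : Config k × Config m) s =>
      dist (pth Φ ε p.1 s i).1 (pth Φ ε p.2 s q).1)
      (fun p => (cont_fst hΦ hε p i).fst.dist (cont_snd hΦ hε p q).fst)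
      (fun s => (meas_fst hΦ hε s i).fst.dist (meas_snd hΦ hε s q).fst) ε hσ (hτ i)
    exact h

/-- Joint measurability of the real event in the cluster and the world. -/
theorem measurableSet_real1 (hΦ : AdmissiblePotential Φ) (hε : 0 < ε)
    (hc : ∀ a, Continuous (c a)) {k m : ℕ} (j : Fin k) {σ : Config k × Config m → ℝ}
    (hσ : Measurable σ) :
    MeasurableSet {p : Config k × Config m | Real1 Φ ε c θ p.1 j (σ p) p.2} := by
  have h1 : MeasurableSet {p : Config k × Config m | Perp ε p.1 p.2} := measurableSet_perp ε k m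
  have h0 : Measurable fun p : Config k × Config m => (Fin.append p.1 p.2 : Config (k + m)) :=
    measurable_append (k := k) (m := m)
  have h2 := measurableSet_restV (θ := θ) hΦ hε hc (Fin.castAdd_injective k m) j h0 hσ
  exact h1.inter h2

theorem meas_hitTime (hΦ : AdmissiblePotential Φ) (hε : 0 < ε)
    (hc : ∀ a, Continuous (c a)) {k : ℕ} (j : Fin k) :
    Measurable fun V : Config k => hitTime (pth Φ ε V) ε c θ 0 j :=
  measurable_hitTime (x := fun V : Config k => pth Φ ε V) (fun V => continuous_pth hΦ hε V)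
    (fun s i => measurable_pth_id hΦ hε s i) hc 0 j

theorem meas_hitTime_fst (hΦ : AdmissiblePotential Φ) (hε : 0 < ε)
    (hc : ∀ a, Continuous (c a)) {k m : ℕ} (j : Fin k) :
    Measurable fun p : Config k × Config m => hitTime (pth Φ ε p.1) ε c θ 0 j := by
  have h0 : Measurable fun p : Config k × Config m => p.1 := measurable_fst
  have h := (meas_hitTime (θ := θ) hΦ hε hc j).comp h0
  exact h

/-- The conditional ghost probability is measurable in the cluster. -/
theorem measurable_ghostE (hf : Measurable f₀) (hΦ : AdmissiblePotential Φ) (hε : 0 < ε)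
    (hc : ∀ a, Continuous (c a)) {k : ℕ} (j : Fin k) :
    Measurable fun V : Config k =>
      ghostE f₀ Φ ε c θ V j (hitTime (pth Φ ε V) ε c θ 0 j) := by
  unfold ghostE
  refine measurable_gcE_param hf ε (F := fun m V w =>
    ind (Ghost Φ ε c θ V j (hitTime (pth Φ ε V) ε c θ 0 j) w)) fun m => ?_
  exact measurable_ind (measurableSet_ghost hΦ hε hc j (meas_hitTime_fst hΦ hε hc j))

/-- The conditional real probability is measurable in the cluster. -/
theorem measurable_restE (hf : Measurable f₀) (hΦ : AdmissiblePotential Φ) (hε : 0 < ε)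
    (hc : ∀ a, Continuous (c a)) {k : ℕ} (j : Fin k) :
    Measurable fun V : Config k =>
      restE f₀ Φ ε c θ V j (hitTime (pth Φ ε V) ε c θ 0 j) := by
  unfold restE
  simp only [perp_mul_eq]
  refine measurable_gcE_param hf ε (F := fun m V w =>
    ind (Real1 Φ ε c θ V j (hitTime (pth Φ ε V) ε c θ 0 j) w)) fun m => ?_
  exact measurable_ind (measurableSet_real1 hΦ hε hc j (meas_hitTime_fst hΦ hε hc j))

theorem measurable_goodH (hΦ : AdmissiblePotential Φ) (hε : 0 < ε)
    (hc : ∀ a, Continuous (c a)) (h𝒢 : 𝒢.Meas) {k : ℕ} (j : Fin k) :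
    Measurable fun V : Config k => ind (GoodH Φ ε c θ 𝒢 t₀ t V j) := by
  have hσ := meas_hitTime (θ := θ) hΦ hε hc j
  exact measurable_ind ((hσ measurableSet_Ico).inter
    (measurableSet_goodV hΦ hε hc h𝒢 j measurable_id hσ))

theorem measurable_adiff {X : Type*} [MeasurableSpace X] {u v : X → ℝ≥0∞} (hu : Measurable u)
    (hv : Measurable v) : Measurable fun x => adiff (u x) (v x) :=
  (hu.sub hv).add (hv.sub hu)

theorem hitMass_le (hf : Measurable f₀) (hΦ : AdmissiblePotential Φ) (hε : 0 < ε)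
    (hc : ∀ a, Continuous (c a)) (h𝒢 : 𝒢.Meas) (k : ℕ) :
    hitMass f₀ Φ ε c θ 𝒢 t₀ t k ≤
      ghostMass f₀ Φ ε c θ 𝒢 t₀ t k + errMass f₀ Φ ε c θ 𝒢 t₀ t k := by
  unfold hitMass ghostMass errMass
  rw [← mul_add, ← lintegral_add_left]
  · refine mul_le_mul_right (lintegral_mono fun V => ?_) _
    rw [← mul_add, ← Finset.sum_add_distrib]
    refine mul_le_mul_right (Finset.sum_le_sum fun j _ => ?_) _
    rw [← mul_add]
    exact mul_le_mul_right (le_add_adiff _ _) _
  · exact (measurable_gcWeight hf ε k).mul (Finset.measurable_sum _ fun j _ =>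
      (measurable_goodH hΦ hε hc h𝒢 j).mul (measurable_ghostE hf hΦ hε hc j))

theorem ghostMass_le (hf : Measurable f₀) (hΦ : AdmissiblePotential Φ) (hε : 0 < ε)
    (hc : ∀ a, Continuous (c a)) (h𝒢 : 𝒢.Meas) (k : ℕ) :
    ghostMass f₀ Φ ε c θ 𝒢 t₀ t k ≤
      hitMass f₀ Φ ε c θ 𝒢 t₀ t k + errMass f₀ Φ ε c θ 𝒢 t₀ t k := by
  unfold hitMass ghostMass errMass
  rw [← mul_add, ← lintegral_add_left]
  · refine mul_le_mul_right (lintegral_mono fun V => ?_) _
    rw [← mul_add, ← Finset.sum_add_distrib]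
    refine mul_le_mul_right (Finset.sum_le_sum fun j _ => ?_) _
    change ind (GoodH Φ ε c θ 𝒢 t₀ t V j) * _ ≤ ind (GoodH Φ ε c θ 𝒢 t₀ t V j) * _ +
      ind (GoodH Φ ε c θ 𝒢 t₀ t V j) * _
    rw [← mul_add]
    exact mul_le_mul_right (le_add_adiff' _ _) _
  · exact (measurable_gcWeight hf ε k).mul (Finset.measurable_sum _ fun j _ =>
      (measurable_goodH hΦ hε hc h𝒢 j).mul (measurable_restE hf hΦ hε hc j))

omit [Finite α] in
/-- A good first hit in the window is in particular a hit of the root before `t`. -/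
theorem GoodH.rootHit {k : ℕ} {V : Config k} {j : Fin k} {x : Space3} {γ : α → ℝ → Space3}
    (h : GoodH Φ ε (fun a s => γ a s + x) θ 𝒢 t₀ t V j) (ht₀ : 0 ≤ t₀) :
    RootHit Φ ε γ t x V j := by
  obtain ⟨h1, h2⟩ := h
  obtain ⟨a, _, ha⟩ := h2.good.hits
  exact ⟨_, ⟨ht₀.trans h1.1, h1.2.le⟩, a, ha⟩

end main

/-! ### Closed and half-open avoidance -/

theorem gcE_congr_ae {f₀ : PhasePoint → ℝ} {ε : ℝ} {F G : (n : ℕ) → Config n → ℝ≥0∞}
    (h : ∀ n, ∀ᵐ Z : Config n, F n Z = G n Z) : gcE f₀ ε F = gcE f₀ ε G := by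
  unfold gcE
  congr 1
  refine tsum_congr fun n => ?_
  congr 1
  refine lintegral_congr_ae ?_
  filter_upwards [h n] with Z hZ
  rw [hZ]

section closed

variable {f₀ : PhasePoint → ℝ} {Φ : Space3 → ℝ} {ε : ℝ} {ι : Type} [Finite ι] {S : Tubes ι}
  {𝒢 : Cls} {tw t : ℝ}

/-- The ghost probability is helper566's `uG` of the family together with the protected tubes. -/
theorem ghostE_eq_uG (hΦ : AdmissiblePotential Φ) (hε : 0 < ε) {σ : ℝ} (hσ : 0 < σ)
    (hc : ∀ i, ContinuousOn (S.c i) (Icc 0 σ)) {k : ℕ} (V : Config k) (j : Fin k) :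
    ghostE f₀ Φ ε S.c S.b V j σ = uG Φ f₀ ε (S.sum (IStep317.clTubes Φ ε V j σ)) σ := by
  unfold ghostE uG
  refine gcE_congr_ae fun n => ?_
  have h := ae_unhit_closed (Φ := Φ) (ε := ε) hΦ hε (α := ι ⊕ Fin k)
    (c := (S.sum (IStep317.clTubes Φ ε V j σ)).c) (θ := (S.sum (IStep317.clTubes Φ ε V j σ)).b)
    hσ (by
      rintro (a | i)
      · exact hc a
      · exact (continuous_pth hΦ hε V i).fst.continuousOn) n
  filter_upwards [h] with Z hZ
  unfold ind unhitInd
  exact if_congr hZ rfl rfl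

/-- Error (c) of helper317 is `errMass`. -/
theorem errC_eq (hΦ : AdmissiblePotential Φ) (hε : 0 < ε) (htw : 0 ≤ tw)
    (hc : ∀ i, Continuous (S.c i)) (k : ℕ) :
    IStep317.errC Φ f₀ ε S 𝒢 tw t k = errMass f₀ Φ ε S.c S.b 𝒢 tw t k := by
  unfold IStep317.errC IStep317.hT errMass
  congr 1
  refine lintegral_congr fun V => ?_
  congr 1
  refine Finset.sum_congr rfl fun j _ => ?_
  by_cases h : hitTime (pth Φ ε V) ε S.c S.b 0 j ∈ Ico tw t ∧
      GoodV Φ ε S.c S.b 𝒢 V j (hitTime (pth Φ ε V) ε S.c S.b 0 j)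
  · have hpos : 0 < hitTime (pth Φ ε V) ε S.c S.b 0 j := h.2.good.pos (htw.trans h.1.1)
    rw [← ghostE_eq_uG hΦ hε hpos (fun i => (hc i).continuousOn)]
    rfl
  · rw [ind_false h]
    unfold GoodH
    rw [ind_false h, zero_mul, zero_mul]

end closed

/-! ### The statement and its assembly -/

section assembly

variable {f₀ : PhasePoint → ℝ} {Φ : Space3 → ℝ}

/-- Mass, counted with the energy weight, of a functional of a cluster of at most `K` particles
(with root `j`) and of the rest of the world. -/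
def evMass (f₀ : PhasePoint → ℝ) (ε : ℝ) (K : ℕ)
    (B : (k : ℕ) → Config k → Fin k → (m : ℕ) → Config m → ℝ≥0∞) : ℝ≥0∞ :=
  ∑ k ∈ Finset.range (K + 1), (activity ε)⁻¹ * (activity ε ^ k / (k.factorial : ℝ≥0∞) *
    ∫⁻ V : Config k, gcWeight f₀ ε k V * ∑ j : Fin k, wt k V * gcE f₀ ε fun m w => B k V j m w)

/-- Mass of a functional of the translation, a cluster of at most `K` particles (with root `j`) and
of the rest of the world. -/
def obMass (f₀ : PhasePoint → ℝ) (ε : ℝ) (K : ℕ) (R : ℝ)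
    (B : (k : ℕ) → Space3 → Config k → Fin k → (m : ℕ) → Config m → ℝ≥0∞) : ℝ≥0∞ :=
  ∫⁻ x in Metric.closedBall (0 : Space3) R, ∑ k ∈ Finset.range (K + 1),
    activity ε ^ k / (k.factorial : ℝ≥0∞) *
      ∫⁻ V : Config k, gcWeight f₀ ε k V * ∑ j : Fin k, gcE f₀ ε fun m w => B k x V j m w

/-- `B₁ + B₂` dominates the discrepancy event: `B₁` does not depend on the translation. -/
structure DiscMaj (Φ : Space3 → ℝ) (ε : ℝ) {ι : Type} (S : Tubes ι) (𝒢 : Cls) (tw t : ℝ) (K : ℕ)
    (R : ℝ) (B₁ : (k : ℕ) → Config k → Fin k → (m : ℕ) → Config m → ℝ≥0∞)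
    (B₂ : (k : ℕ) → Space3 → Config k → Fin k → (m : ℕ) → Config m → ℝ≥0∞) : Prop where
  meas₁ : ∀ k j m, Measurable fun p : Config k × Config m => B₁ k p.1 j m p.2
  meas₂ : ∀ k j m, Measurable fun p : (Space3 × Config k) × Config m => B₂ k p.1.1 p.1.2 j m p.2
  le : ∀ k ≤ K, ∀ x ∈ Metric.closedBall (0 : Space3) R, ∀ (V : Config k) (j : Fin k) (m : ℕ)
    (w : Config m), V ∈ PairExcluded ε k → w ∈ PairExcluded ε m →
    GoodH Φ ε (S.shift x).c (S.shift x).b 𝒢 tw t V j →
    Disc Φ ε (S.shift x).c (S.shift x).b V j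
      (hitTime (pth Φ ε V) ε (S.shift x).c (S.shift x).b 0 j) w →
    1 ≤ B₁ k V j m w + B₂ k x V j m w

variable {ε : ℝ} {ι : Type} [Fintype ι] {S : Tubes ι} {𝒢 : Cls} {tw t : ℝ} {K : ℕ} {R : ℝ}
  {B₁ : (k : ℕ) → Config k → Fin k → (m : ℕ) → Config m → ℝ≥0∞}
  {B₂ : (k : ℕ) → Space3 → Config k → Fin k → (m : ℕ) → Config m → ℝ≥0∞}

theorem errMass_integrand_le (hf : Measurable f₀) (hΦ : AdmissiblePotential Φ) (hε : 0 < ε)
    (hc : ∀ i, Continuous (S.c i)) (hB : DiscMaj Φ ε S 𝒢 tw t K R B₁ B₂) {k : ℕ} (hk : k ≤ K)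
    {x : Space3} (hx : x ∈ Metric.closedBall (0 : Space3) R) {V : Config k} (j : Fin k)
    (hV : V ∈ PairExcluded ε k) :
    ind (GoodH Φ ε (S.shift x).c (S.shift x).b 𝒢 tw t V j) *
      adiff (restE f₀ Φ ε (S.shift x).c (S.shift x).b V j
          (hitTime (pth Φ ε V) ε (S.shift x).c (S.shift x).b 0 j))
        (ghostE f₀ Φ ε (S.shift x).c (S.shift x).b V j
          (hitTime (pth Φ ε V) ε (S.shift x).c (S.shift x).b 0 j)) ≤
      2 * (ind (GoodH Φ ε (S.shift x).c (S.shift x).b 𝒢 tw t V j) *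
        gcE f₀ ε fun m w => B₁ k V j m w) + 2 * gcE f₀ ε fun m w => B₂ k x V j m w := by
  by_cases hG : GoodH Φ ε (S.shift x).c (S.shift x).b 𝒢 tw t V j
  · rw [ind_true hG, one_mul, one_mul]
    have hcx : ∀ i, Continuous ((S.shift x).c i) := fun i => (hc i).add continuous_const
    refine (adiff_rest_ghost_le (c := (S.shift x).c) (θ := (S.shift x).b) hf hΦ hε hcx V j _).trans
      ?_
    rw [← mul_add]
    refine mul_le_mul_right ?_ _
    have hm : ∀ m, Measurable fun w : Config m => B₁ k V j m w := by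
      intro m
      have h1 : Measurable fun w : Config m => (V, w) := measurable_const.prodMk measurable_id
      have h2 := (hB.meas₁ k j m).comp h1
      exact h2
    rw [← gcE_add hf ε hm]
    refine gcE_mono f₀ ε fun m w hw => ?_
    by_cases hD : Disc Φ ε (S.shift x).c (S.shift x).b V j
      (hitTime (pth Φ ε V) ε (S.shift x).c (S.shift x).b 0 j) w
    · rw [ind_true hD]
      exact hB.le k hk x hx V j m w hV hw hG hD
    · rw [ind_false hD]; exact bot_le
  · rw [ind_false hG, zero_mul]; exact bot_le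

/-- **Error (c) from majorants of the discrepancy event.** -/
theorem lintegral_errC_le (hf : Measurable f₀) (hΦ : AdmissiblePotential Φ) (hε : 0 < ε)
    (hε1 : ε ≤ 1) {M : ℝ} (hM : 0 ≤ M) (htw : 0 ≤ tw) (ht : 0 ≤ t) (hc : ∀ i, Continuous (S.c i))
    (hγ : ∀ a, ∀ s ∈ Icc 0 t, ∀ s' ∈ Icc 0 t, dist (S.c a s) (S.c a s') ≤ M * |s - s'|)
    (hB : DiscMaj Φ ε S 𝒢 tw t K R B₁ B₂) :
    ∫⁻ x in Metric.closedBall (0 : Space3) R, ∑ k ∈ Finset.range (K + 1),
        IStep317.errC Φ f₀ ε (S.shift x) 𝒢 tw t k ≤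
      2 * (cX Φ (Fintype.card ι) M t * evMass f₀ ε K B₁) + 2 * obMass f₀ ε K R B₂ := by
  -- the two parts
  set A : Space3 → ℕ → ℝ≥0∞ := fun x k => activity ε ^ k / (k.factorial : ℝ≥0∞) *
    ∫⁻ V : Config k, gcWeight f₀ ε k V * ∑ j : Fin k,
      ind (GoodH Φ ε (S.shift x).c (S.shift x).b 𝒢 tw t V j) *
        gcE f₀ ε fun m w => B₁ k V j m w with hA
  set D : Space3 → ℕ → ℝ≥0∞ := fun x k => activity ε ^ k / (k.factorial : ℝ≥0∞) *
    ∫⁻ V : Config k, gcWeight f₀ ε k V * ∑ j : Fin k, gcE f₀ ε fun m w => B₂ k x V j m w with hD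
  have hmE₂ : ∀ k j, Measurable fun p : Space3 × Config k =>
      gcE f₀ ε fun m w => B₂ k p.1 p.2 j m w := by
    intro k j
    exact measurable_gcE_param hf ε (F := fun m (p : Space3 × Config k) w =>
      B₂ k p.1 p.2 j m w) fun m => hB.meas₂ k j m
  have hmw : ∀ k, Measurable fun p : Space3 × Config k => gcWeight f₀ ε k p.2 := fun k => by
    have h0 : Measurable fun p : Space3 × Config k => p.2 := measurable_snd
    have h := (measurable_gcWeight hf ε k).comp h0
    exact h
  have hmD : ∀ k, Measurable fun x => D x k := by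
    intro k
    have h1 : Measurable fun p : Space3 × Config k => gcWeight f₀ ε k p.2 *
        ∑ j : Fin k, gcE f₀ ε fun m w => B₂ k p.1 p.2 j m w :=
      (hmw k).mul (Finset.measurable_sum _ fun j _ => hmE₂ k j)
    have h2 : Measurable fun x : Space3 => ∫⁻ V : Config k, gcWeight f₀ ε k V *
        ∑ j : Fin k, gcE f₀ ε fun m w => B₂ k x V j m w := h1.lintegral_prod_right'
    exact h2.const_mul _
  have hpt : ∀ x ∈ Metric.closedBall (0 : Space3) R, ∀ k ∈ Finset.range (K + 1),
      IStep317.errC Φ f₀ ε (S.shift x) 𝒢 tw t k ≤ 2 * A x k + 2 * D x k := by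
    intro x hx k hk
    have hk' : k ≤ K := Nat.lt_succ_iff.1 (Finset.mem_range.1 hk)
    rw [errC_eq hΦ hε htw fun i => (hc i).add continuous_const]
    unfold errMass
    rw [hA, hD]
    simp only
    rw [mul_left_comm, mul_left_comm 2 (activity ε ^ k / _), ← mul_add]
    refine mul_le_mul_right ?_ _
    have h2 : (2 : ℝ≥0∞) ≠ ∞ := ENNReal.ofNat_ne_top
    rw [← lintegral_const_mul' _ _ h2, ← lintegral_const_mul' _ _ h2, ← lintegral_add_right]
    · refine lintegral_mono fun V => ?_
      by_cases hV : V ∈ PairExcluded ε k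
      · rw [mul_left_comm, mul_left_comm 2, ← mul_add]
        refine mul_le_mul_right ?_ _
        rw [Finset.mul_sum, Finset.mul_sum, ← Finset.sum_add_distrib]
        exact Finset.sum_le_sum fun j _ =>
          errMass_integrand_le (f₀ := f₀) hf hΦ hε hc hB hk' hx j hV
      · simp [gcWeight, indicator_of_notMem hV]
    · have h0 : Measurable fun V : Config k => (x, V) := measurable_const.prodMk measurable_id
      refine Measurable.const_mul ((measurable_gcWeight hf ε k).mul
        (Finset.measurable_sum _ fun j _ => ?_)) _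
      have h := (hmE₂ k j).comp h0
      exact h
  have hA1 : ∀ k : ℕ, ∃ g : Space3 → ℝ≥0∞, Measurable g ∧ (∀ x, A x k ≤ g x) ∧
      ∫⁻ x, g x ≤ cX Φ (Fintype.card ι) M t *
      ((activity ε)⁻¹ * (activity ε ^ k / (k.factorial : ℝ≥0∞) *
        ∫⁻ V : Config k, gcWeight f₀ ε k V * ∑ j : Fin k, wt k V *
          gcE f₀ ε fun m w => B₁ k V j m w)) := by
    intro k
    obtain ⟨g, hg, h1, h2⟩ := exists_root_maj (Φ := Φ) (f₀ := f₀) hΦ hf hε hε1 (γ := S.c) hM ht hγ
      (k := k) (E := fun V j => gcE f₀ ε fun m w => B₁ k V j m w)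
      (fun j => measurable_gcE_param hf ε (F := fun m V w => B₁ k V j m w)
        fun m => hB.meas₁ k j m)
      (H := fun x V j => ind (GoodH Φ ε (S.shift x).c (S.shift x).b 𝒢 tw t V j) *
        gcE f₀ ε fun m w => B₁ k V j m w)
      (fun x V j _ => by
        by_cases h : GoodH Φ ε (S.shift x).c (S.shift x).b 𝒢 tw t V j
        · rw [ind_true h, if_pos (GoodH.rootHit (γ := S.c) h htw)]
        · rw [ind_false h, zero_mul]; exact bot_le)
    refine ⟨fun x => activity ε ^ k / (k.factorial : ℝ≥0∞) * g x, hg.const_mul _,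
      fun x => mul_le_mul_right (h1 x) _, ?_⟩
    rw [lintegral_const_mul _ hg]
    refine (mul_le_mul_right h2 _).trans (le_of_eq ?_)
    rw [inv_activity_eq hε]
    ring
  choose g hgm hgA hgI using hA1
  calc ∫⁻ x in Metric.closedBall (0 : Space3) R, ∑ k ∈ Finset.range (K + 1),
        IStep317.errC Φ f₀ ε (S.shift x) 𝒢 tw t k
      ≤ ∫⁻ x in Metric.closedBall (0 : Space3) R, ((∑ k ∈ Finset.range (K + 1), 2 * A x k) +
          ∑ k ∈ Finset.range (K + 1), 2 * D x k) := by
        refine setLIntegral_mono' Metric.isClosed_closedBall.measurableSet fun x hx => ?_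
        rw [← Finset.sum_add_distrib]
        exact Finset.sum_le_sum fun k hk => hpt x hx k hk
    _ = (∫⁻ x in Metric.closedBall (0 : Space3) R, ∑ k ∈ Finset.range (K + 1), 2 * A x k) +
          ∫⁻ x in Metric.closedBall (0 : Space3) R, ∑ k ∈ Finset.range (K + 1), 2 * D x k := by
        exact lintegral_add_right _ (Finset.measurable_sum _ fun k _ => (hmD k).const_mul 2)
    _ ≤ _ := by
        refine add_le_add ?_ (le_of_eq ?_)
        · refine (setLIntegral_le_lintegral _ _).trans ?_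
          calc ∫⁻ x, ∑ k ∈ Finset.range (K + 1), 2 * A x k
              ≤ ∫⁻ x, ∑ k ∈ Finset.range (K + 1), 2 * g k x :=
                lintegral_mono fun x => Finset.sum_le_sum fun k _ => mul_le_mul_right (hgA k x) _
            _ = 2 * ∑ k ∈ Finset.range (K + 1), ∫⁻ x, g k x := by
                rw [lintegral_finsetSum _ fun k _ => (hgm k).const_mul 2, Finset.mul_sum]
                exact Finset.sum_congr rfl fun k _ => lintegral_const_mul _ (hgm k)
            _ ≤ _ := by
                unfold evMass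
                refine mul_le_mul_right ?_ 2
                rw [Finset.mul_sum]
                exact Finset.sum_le_sum fun k _ => hgI k
        · unfold obMass
          simp only [hD, ← Finset.mul_sum]
          exact lintegral_const_mul _ (Finset.measurable_sum _ fun k _ => hmD k)

end assembly

/-! ### The limit statement -/

section limit

variable {f₀ : PhasePoint → ℝ} {Φ : Space3 → ℝ}

/-- **F3** (input of helper317's I1): along a converging generic sequence of tube families, for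
every fixed size `K`, the error of the replacement of the real rest by the ghost rest tends to zero
in `L¹(dx)`. -/
def F3 (Φ : Space3 → ℝ) (f₀ : PhasePoint → ℝ) (T tw t : ℝ) : Prop :=
  ∀ (ι : Type) [Fintype ι] (Sk : ℕ → Tubes ι) (S : Tubes ι) (εk : ℕ → ℝ),
    (∀ k, 0 < εk k) → Tendsto εk atTop (𝓝 0) → TubeConv T Sk S → Generic T S →
    (∀ n i, Continuous ((Sk n).c i)) → ∀ (K : ℕ) (R : ℝ),
      Tendsto (fun n => ∫⁻ x in Metric.closedBall (0 : Space3) R, ∑ k ∈ Finset.range (K + 1),
        IStep317.errC Φ f₀ (εk n) ((Sk n).shift x) (IStep317.treeCls Φ (εk n)) tw t k) atTop (𝓝 0)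

/-- Input of the assembly: majorants of the discrepancy with small masses. -/
def F3Input (Φ : Space3 → ℝ) (f₀ : PhasePoint → ℝ) (T tw t : ℝ) : Prop :=
  ∀ (ι : Type) [Fintype ι] (Sk : ℕ → Tubes ι) (S : Tubes ι) (εk : ℕ → ℝ),
    (∀ k, 0 < εk k) → Tendsto εk atTop (𝓝 0) → TubeConv T Sk S → Generic T S →
    (∀ n i, Continuous ((Sk n).c i)) → ∀ (K : ℕ) (R δ : ℝ), 0 < δ → ∀ᶠ n in atTop,
      ∃ (B₁ : (k : ℕ) → Config k → Fin k → (m : ℕ) → Config m → ℝ≥0∞)
        (B₂ : (k : ℕ) → Space3 → Config k → Fin k → (m : ℕ) → Config m → ℝ≥0∞),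
        DiscMaj Φ (εk n) (Sk n) (IStep317.treeCls Φ (εk n)) tw t K R B₁ B₂ ∧
        evMass f₀ (εk n) K B₁ ≤ ENNReal.ofReal δ ∧ obMass f₀ (εk n) K R B₂ ≤ ENNReal.ofReal δ

theorem cX_ne_top (Φ : Space3 → ℝ) (N : ℕ) (M t : ℝ) : cX Φ N M t ≠ ∞ := by
  unfold cX
  refine ENNReal.mul_ne_top (ENNReal.mul_ne_top (ENNReal.mul_ne_top ENNReal.ofNat_ne_top
    ENNReal.ofReal_ne_top) (ENNReal.natCast_ne_top N)) ?_
  exact ENNReal.add_ne_top.2 ⟨ENNReal.one_ne_top, ENNReal.mul_ne_top ENNReal.ofReal_ne_top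
    ENNReal.ofReal_ne_top⟩

/-- **F3 from its input.** -/
theorem F3_of (hf : Measurable f₀) (hΦ : AdmissiblePotential Φ) {T tw t : ℝ} (htw : 0 ≤ tw)
    (ht : 0 ≤ t) (htT : t ≤ T) (h : F3Input Φ f₀ T tw t) : F3 Φ f₀ T tw t := by
  intro ι _ Sk S εk hε hε0 hconv hgen hcont K R
  obtain ⟨M, hM, _⟩ := hconv.lip
  set C : ℝ≥0∞ := 2 * cX Φ (Fintype.card ι) M t + 2 with hC
  have hCt : C ≠ ∞ := ENNReal.add_ne_top.2 ⟨ENNReal.mul_ne_top ENNReal.ofNat_ne_top
    (cX_ne_top Φ _ _ _), ENNReal.ofNat_ne_top⟩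
  rw [ENNReal.tendsto_nhds_zero]
  intro η hη
  -- choose δ
  obtain ⟨δ, hδ, hδη⟩ : ∃ δ : ℝ, 0 < δ ∧ C * ENNReal.ofReal δ ≤ η := by
    by_cases htop : η = ∞
    · exact ⟨1, one_pos, by rw [htop]; exact le_top⟩
    · have hC0 : C ≠ 0 := by
        rw [hC]
        intro h0
        have := (add_eq_zero.1 h0).2
        exact two_ne_zero this
      refine ⟨(η / C).toReal, ENNReal.toReal_pos (ENNReal.div_pos hη.ne' hCt).ne'
        (ENNReal.div_ne_top htop hC0), ?_⟩
      rw [ENNReal.ofReal_toReal (ENNReal.div_ne_top htop hC0), ENNReal.mul_div_cancel hC0 hCt]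
  have hε1 : ∀ᶠ n in atTop, εk n ≤ 1 := by
    filter_upwards [hε0.eventually (Iio_mem_nhds one_pos)] with n hn
    exact le_of_lt hn
  filter_upwards [h ι Sk S εk hε hε0 hconv hgen hcont K R δ hδ, hε1, hM] with n hn hn1 hnM
  obtain ⟨B₁, B₂, hB, hb1, hb2⟩ := hn
  have hγ : ∀ a, ∀ s ∈ Icc 0 t, ∀ s' ∈ Icc 0 t,
      dist ((Sk n).c a s) ((Sk n).c a s') ≤ (M : ℝ) * |s - s'| := by
    intro a s hs s' hs'
    have := (hnM a).dist_le_mul s ⟨hs.1, hs.2.trans htT⟩ s' ⟨hs'.1, hs'.2.trans htT⟩
    rwa [Real.dist_eq] at this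
  refine (lintegral_errC_le hf hΦ (hε n) hn1 M.2 htw ht (hcont n) hγ hB).trans ?_
  calc 2 * (cX Φ (Fintype.card ι) M t * evMass f₀ (εk n) K B₁) + 2 * obMass f₀ (εk n) K R B₂
      ≤ 2 * (cX Φ (Fintype.card ι) M t * ENNReal.ofReal δ) + 2 * ENNReal.ofReal δ := by
        gcongr
    _ = C * ENNReal.ofReal δ := by rw [hC]; ring
    _ ≤ η := hδη

end limit

end Crest.Agent.R122.GhostErr370
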