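import Crest.Agent.R122.GoodBad_167
import Crest.Agent.R122.NEK_370
import Crest.Agent.R122.TopDefs_602

/-!
# `BadSmall` from no escape and small non-tree clusters (row 122, helper167)

* `NGq` : real clusters of bounded size which are not trees have small mass (input, D5).
* `ngReal` : speed weighted mass of the particles which are not good hitters, time integrated.
* `EscU` : energy weighted no escape, uniform in time; follows from `NEK` or from `JSup`.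
* `badSmall_of_esc`, `badSmall_of` : `EscU` (or `NEK`), `NGq` imply `BadSmall` of `IStep3_317`.
-/

set_option autoImplicit false

open Set Filter Topology MeasureTheory
open scoped Classical ENNReal NNReal
open Crest.AnalysisR.Kinetic

namespace Crest.Agent.R122.Hit167

open Causal291 Flow671 Loc45 GC311 Vol365 Kin796 Kin796.CTree Tree674 PathFlow968 TreeHit317
  Relabel674 RealTree674 Master566 EW370 NEK370 GIV566 IStep317

variable {Φ : Space3 → ℝ} {f₀ : PhasePoint → ℝ} {ε : ℝ}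

/-- **Small real clusters are trees** (time integrated, speed weighted): the particles whose
backward cluster has at most `K` members but which are not the root of a real tree. -/
def NGq (Φ : Space3 → ℝ) (f₀ : PhasePoint → ℝ) (t : ℝ) : Prop :=
  ∀ (K : ℕ) (M : ℝ≥0) (d : ℝ), 0 < d → ∃ e0 : ℝ, 0 < e0 ∧ ∀ ε : ℝ, 0 < ε → ε < e0 →
    ∫⁻ s in Ioo 0 t, (activity ε)⁻¹ * gcE f₀ ε (fun _ Z => ∑ i,
      ind ((bc Φ ε Z s i).ncard ≤ K ∧ ¬ Good Φ ε s Z i) * spdW Φ ε M Z i s) ≤ ENNReal.ofReal d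

theorem NGq_mono {t₁ t₂ : ℝ} (h : NGq Φ f₀ t₂) (ht : t₁ ≤ t₂) : NGq Φ f₀ t₁ := by
  intro K M d hd
  obtain ⟨e0, he0, h1⟩ := h K M d hd
  exact ⟨e0, he0, fun ε hε hlt => (lintegral_mono_set (Ioo_subset_Ioo_right ht)).trans
    (h1 ε hε hlt)⟩

/-- The speed weight against the energy weight. -/
theorem spdW_le (M : ℝ≥0) {n : ℕ} (Z : Config n) (i : Fin n) (s : ℝ) :
    spdW Φ ε M Z i s ≤ ENNReal.ofReal (M + 1) *
      ENNReal.ofReal (1 + ‖(pth Φ ε Z s i).2‖ ^ 2) := by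
  unfold spdW
  rw [← ofReal_norm, ← ENNReal.ofReal_coe_nnreal,
    ← ENNReal.ofReal_add M.coe_nonneg (norm_nonneg _), ← ENNReal.ofReal_mul (by positivity)]
  refine ENNReal.ofReal_le_ofReal ?_
  have hM : (0 : ℝ) ≤ M := M.coe_nonneg
  have hv := norm_nonneg (pth Φ ε Z s i).2
  set v := ‖(pth Φ ε Z s i).2‖
  nlinarith [sq_nonneg (v - 1), mul_nonneg hM (sq_nonneg v)]

theorem measurable_spdW' (hΦ : AdmissiblePotential Φ) (hε : 0 < ε) (M : ℝ≥0) (s : ℝ)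
    (n : ℕ) (i : Fin n) : Measurable fun Z : Config n => spdW Φ ε M Z i s := by
  unfold spdW
  exact measurable_const.add (measurable_pth_id hΦ hε s i).snd.enorm

theorem measurable_bigW (hΦ : AdmissiblePotential Φ) (hε : 0 < ε) (K : ℕ) (M : ℝ≥0) (s : ℝ)
    (n : ℕ) : Measurable fun Z : Config n =>
      ∑ i, ind (K < (bc Φ ε Z s i).ncard) * spdW Φ ε M Z i s := by
  refine Finset.measurable_sum _ fun i _ => ?_
  have h3 : MeasurableSet {Z : Config n | K < (bc Φ ε Z s i).ncard} :=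
    measurableSet_lt (measurable_const (a := K)) (measurable_ncard_bc hΦ hε s i)
  exact (measurable_ind h3).mul (measurable_spdW' hΦ hε M s n i)

theorem gcE_bigW_le (hε : 0 < ε) (K : ℕ) (M : ℝ≥0) (s : ℝ) :
    (activity ε)⁻¹ * gcE f₀ ε (fun _ Z => ∑ i, ind (K < (bc Φ ε Z s i).ncard) *
      spdW Φ ε M Z i s) ≤ ENNReal.ofReal (M + 1) * escEnergy Φ f₀ ε K s := by
  have ha : (activity ε)⁻¹ ≠ ∞ := ENNReal.inv_ne_top.2 (activity_ne_zero hε)
  unfold escEnergy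
  rw [gcE_const_mul f₀ ε ha, mul_left_comm, ← gcE_const_mul f₀ ε ENNReal.ofReal_ne_top]
  refine mul_le_mul_right (gcE_mono f₀ ε fun n Z _ => ?_) _
  unfold EW370.bad
  rw [Finset.mul_sum, Finset.sum_filter]
  refine Finset.sum_le_sum fun i _ => ?_
  by_cases h : K < (bc Φ ε Z s i).ncard
  · rw [if_pos h, ind_true h, one_mul]
    exact spdW_le M Z i s
  · rw [if_neg h, ind_false h, zero_mul]

/-- Particles which are not good hitters, at a fixed time. -/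
theorem gcE_notGood_le (hf : Measurable f₀) (hΦ : AdmissiblePotential Φ) (hε : 0 < ε) (K : ℕ)
    (M : ℝ≥0) {s : ℝ} (hs : 0 < s) :
    (activity ε)⁻¹ * gcE f₀ ε (fun _ Z => ∑ i, ind (¬ GoodD Φ ε (treeCls Φ ε) K Z i s) *
      spdW Φ ε M Z i s) ≤
    ENNReal.ofReal (M + 1) * escEnergy Φ f₀ ε K s +
      (activity ε)⁻¹ * gcE f₀ ε (fun _ Z => ∑ i,
        ind ((bc Φ ε Z s i).ncard ≤ K ∧ ¬ Good Φ ε s Z i) * spdW Φ ε M Z i s) := by
  refine le_trans (mul_le_mul_right (?_ : _ ≤ gcE f₀ ε (fun _ Z => ∑ i,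
    ind (K < (bc Φ ε Z s i).ncard) * spdW Φ ε M Z i s) + gcE f₀ ε (fun _ Z => ∑ i,
    ind ((bc Φ ε Z s i).ncard ≤ K ∧ ¬ Good Φ ε s Z i) * spdW Φ ε M Z i s)) _) ?_
  · rw [← gcE_add hf ε (measurable_bigW hΦ hε K M s)]
    refine gcE_mono f₀ ε fun n Z hZ => ?_
    rw [← Finset.sum_add_distrib]
    refine Finset.sum_le_sum fun i _ => ?_
    rw [← add_mul]
    refine mul_le_mul_left ?_ _
    by_cases h : GoodD Φ ε (treeCls Φ ε) K Z i s
    · rw [ind_false (not_not.2 h)]; exact zero_le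
    · rw [ind_true h]
      have h1 : ¬ GoodR Φ ε (treeCls Φ ε) K Z i s := by
        rwa [goodR_iff_goodD hΦ hε (pairExcluded_subset_Dom hε n hZ) hs]
      rcases not_goodR_cases hΦ hε hs h1 with h2 | h2
      · rw [ind_true h2]; exact le_self_add
      · rw [ind_true h2]; exact le_add_self
  · rw [mul_add]
    exact add_le_add (gcE_bigW_le hε K M s) le_rfl

/-- Energy weighted no escape, uniform on `[0, t]`. -/
def EscU (Φ : Space3 → ℝ) (f₀ : PhasePoint → ℝ) (t : ℝ) : Prop :=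
  ∀ δ : ℝ, 0 < δ → ∃ K₀ : ℕ, ∀ K : ℕ, K₀ ≤ K → ∃ ε₀ : ℝ, 0 < ε₀ ∧ ∀ ε : ℝ, 0 < ε → ε < ε₀ →
    ∀ s : ℝ, 0 ≤ s → s ≤ t → escEnergy Φ f₀ ε K s ≤ ENNReal.ofReal δ

theorem EscU.mono {t₁ t₂ : ℝ} (h : EscU Φ f₀ t₂) (ht : t₁ ≤ t₂) : EscU Φ f₀ t₁ := by
  intro δ hδ
  obtain ⟨K₀, h1⟩ := h δ hδ
  refine ⟨K₀, fun K hK => ?_⟩
  obtain ⟨ε₀, hε₀, h2⟩ := h1 K hK
  exact ⟨ε₀, hε₀, fun ε hε hlt s hs hst => h2 ε hε hlt s hs (hst.trans ht)⟩

theorem escU_of_nek (hΦ : AdmissiblePotential Φ) (hf : Measurable f₀)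
    (h1 : ∫⁻ z, ENNReal.ofReal (f₀ z) ≤ 1)
    (h2 : ∫⁻ z, ENNReal.ofReal (f₀ z) * ENNReal.ofReal (‖z.2‖ ^ 2) ≠ ∞)
    {t : ℝ} (hN : NEK Φ f₀ t) : EscU Φ f₀ t :=
  fun _ hδ => escEnergy_small_unif hΦ hf h1 h2 hN hδ

theorem two_mul_ofReal (a : ℝ) : ENNReal.ofReal (2 * a) = 2 * ENNReal.ofReal a := by
  rw [ENNReal.ofReal_mul (by norm_num), ENNReal.ofReal_ofNat]

theorem escEnergy_le_JE (hΦ : AdmissiblePotential Φ) (hε : 0 < ε) (K : ℕ) {s : ℝ} (hs : 0 ≤ s) :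
    escEnergy Φ f₀ ε K s ≤ 2 * EDefs602.JE Φ f₀ ε K s := by
  unfold escEnergy EDefs602.JE
  rw [← gcE_const_mul f₀ ε (by norm_num : (2 : ℝ≥0∞) ≠ ∞)]
  refine gcE_mono f₀ ε fun n Z hZ => ?_
  have W := Energy410.world_flow hΦ hε (fun i j h => (hZ i j h).le) s
  have h1 := W.stab s ⟨hs, le_rfl⟩ (EW370.bad Φ ε K Z s)
  set S := EW370.bad Φ ε K Z s with hS
  have h3 : ∑ i ∈ S, ‖(pth Φ ε Z s i).2‖ ^ 2 = ∑ i ∈ S, ‖(flow Φ ε s Z i).2‖ ^ 2 := rfl
  rw [← ENNReal.ofReal_sum_of_nonneg fun i _ => by positivity, mul_left_comm]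
  refine mul_le_mul_right ?_ _
  refine (ENNReal.ofReal_le_ofReal ?_).trans (le_of_eq (two_mul_ofReal _))
  rw [Finset.sum_add_distrib, Finset.sum_const, nsmul_eq_mul, mul_one, h3]
  have h4 : (0 : ℝ) ≤ S.card := Nat.cast_nonneg _
  nlinarith

theorem escU_of_jSup (hΦ : AdmissiblePotential Φ) {t : ℝ} (hJ : Top602.JSup Φ f₀ t) :
    EscU Φ f₀ t := by
  intro δ hδ
  obtain ⟨K₀, h1⟩ := hJ (δ / 2) (half_pos hδ)
  refine ⟨K₀, fun K hK => ?_⟩
  obtain ⟨ε₀, hε₀, h2⟩ := h1 K hK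
  refine ⟨ε₀, hε₀, fun ε hε hlt s hs hst => (escEnergy_le_JE hΦ hε K hs).trans ?_⟩
  have h3 : EDefs602.JE Φ f₀ ε K s ≤ ENNReal.ofReal (δ / 2) :=
    (le_iSup₂_of_le (f := fun s (_ : s ∈ Icc 0 t) => EDefs602.JE Φ f₀ ε K s) s ⟨hs, hst⟩
      le_rfl).trans (h2 ε hε hlt)
  calc 2 * EDefs602.JE Φ f₀ ε K s ≤ 2 * ENNReal.ofReal (δ / 2) := mul_le_mul_right h3 _
    _ = ENNReal.ofReal δ := by
        rw [← two_mul_ofReal]
        congr 1
        ring

/-- **Bad hitters are rare**: from energy weighted no escape and `NGq`. -/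
theorem ngReal (hf : Measurable f₀)
    (hΦ : AdmissiblePotential Φ) {t : ℝ} (ht : 0 ≤ t) (hN : EscU Φ f₀ t) (hG : NGq Φ f₀ t)
    (M : ℝ≥0) {δ : ℝ} (hδ : 0 < δ) :
    ∃ K₀ : ℕ, ∀ K : ℕ, K₀ ≤ K → ∃ ε₀ : ℝ, 0 < ε₀ ∧ ∀ ε : ℝ, 0 < ε → ε < ε₀ →
      ∫⁻ s in Ioo 0 t, (activity ε)⁻¹ * gcE f₀ ε (fun _ Z => ∑ i,
        ind (¬ GoodD Φ ε (treeCls Φ ε) K Z i s) * spdW Φ ε M Z i s) ≤ ENNReal.ofReal δ := by
  have hM : (0 : ℝ) ≤ M := M.coe_nonneg
  set c : ℝ := (M + 1) * (t + 1) with hc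
  have hc0 : 0 < c := by positivity
  obtain ⟨K₀, hK₀⟩ := hN (δ / 2 / c) (by positivity)
  refine ⟨K₀, fun K hK => ?_⟩
  obtain ⟨ε₁, hε₁, h3⟩ := hK₀ K hK
  obtain ⟨ε₂, hε₂, h4⟩ := hG K M (δ / 2) (by positivity)
  refine ⟨min ε₁ ε₂, lt_min hε₁ hε₂, fun ε hε hlt => ?_⟩
  have h5 := h3 ε hε (hlt.trans_le (min_le_left _ _))
  have h6 := h4 ε hε (hlt.trans_le (min_le_right _ _))
  calc ∫⁻ s in Ioo 0 t, (activity ε)⁻¹ * gcE f₀ ε (fun _ Z => ∑ i,
        ind (¬ GoodD Φ ε (treeCls Φ ε) K Z i s) * spdW Φ ε M Z i s)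
      ≤ ∫⁻ s in Ioo 0 t, (ENNReal.ofReal (M + 1) * ENNReal.ofReal (δ / 2 / c) +
          (activity ε)⁻¹ * gcE f₀ ε (fun _ Z => ∑ i,
            ind ((bc Φ ε Z s i).ncard ≤ K ∧ ¬ Good Φ ε s Z i) * spdW Φ ε M Z i s)) := by
        refine setLIntegral_mono' measurableSet_Ioo fun s hs => ?_
        refine (gcE_notGood_le hf hΦ hε K M hs.1).trans (add_le_add ?_ le_rfl)
        exact mul_le_mul_right (h5 s hs.1.le hs.2.le) _
    _ = ENNReal.ofReal (M + 1) * ENNReal.ofReal (δ / 2 / c) * ENNReal.ofReal t +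
          ∫⁻ s in Ioo 0 t, (activity ε)⁻¹ * gcE f₀ ε (fun _ Z => ∑ i,
            ind ((bc Φ ε Z s i).ncard ≤ K ∧ ¬ Good Φ ε s Z i) * spdW Φ ε M Z i s) := by
        rw [lintegral_add_left measurable_const, setLIntegral_const, Real.volume_Ioo, sub_zero]
    _ ≤ ENNReal.ofReal (δ / 2) + ENNReal.ofReal (δ / 2) := by
        refine add_le_add ?_ h6
        rw [← ENNReal.ofReal_mul (by positivity), ← ENNReal.ofReal_mul (by positivity)]
        refine ENNReal.ofReal_le_ofReal ?_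
        have h7 : (M + 1 : ℝ) * t ≤ c := by
          rw [hc]
          exact mul_le_mul_of_nonneg_left (by linarith) (by positivity)
        calc ((M : ℝ) + 1) * (δ / 2 / c) * t = ((M + 1) * t) * (δ / 2 / c) := by ring
          _ ≤ c * (δ / 2 / c) := mul_le_mul_of_nonneg_right h7 (by positivity)
          _ = δ / 2 := by field_simp
    _ = ENNReal.ofReal δ := by
        rw [← ENNReal.ofReal_add (by positivity) (by positivity), add_halves]

/-- **`BadSmall` from `EscU` and `NGq`.** -/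
theorem badSmall_of_esc (hf : Measurable f₀) (h1 : ∫⁻ z, ENNReal.ofReal (f₀ z) ≤ 1)
    (hΦ : AdmissiblePotential Φ) {T tw t : ℝ} (htw : 0 ≤ tw) (htt : tw ≤ t) (htT : t ≤ T)
    (hN : EscU Φ f₀ t) (hG : NGq Φ f₀ t) : BadSmall Φ f₀ T tw t := by
  intro ι _ Sk S εk hεk hlim hc _ R δ hδ
  obtain ⟨M, hM, -⟩ := hc.lip
  have ht0 : 0 ≤ t := htw.trans htt
  have hT : 0 ≤ T := ht0.trans htT
  -- the constant in front of the time integral
  set A : ℝ≥0∞ := ENNReal.ofReal 7 * kap * Fintype.card ι with hA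
  have hAt : A ≠ ∞ := ENNReal.mul_ne_top (ENNReal.mul_ne_top ENNReal.ofReal_ne_top kap_ne_top)
    (ENNReal.natCast_ne_top _)
  set a : ℝ := A.toReal with ha
  have haA : A = ENNReal.ofReal a := (ENNReal.ofReal_toReal hAt).symm
  have ha0 : 0 ≤ a := ENNReal.toReal_nonneg
  obtain ⟨K₀, hK₀⟩ := ngReal hf hΦ ht0 hN hG M (δ := δ / 2 / (a + 1)) (by positivity)
  refine ⟨K₀, fun K hK => ?_⟩
  obtain ⟨ε₀, hε₀, h3⟩ := hK₀ K hK
  -- the time zero term
  have hlim0 : Tendsto (fun k => (Fintype.card ι : ℝ≥0∞) * (ENNReal.ofReal (εk k) * kap)) atTop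
      (𝓝 0) := by
    have h4 : Tendsto (fun k => ENNReal.ofReal (εk k)) atTop (𝓝 0) := by
      have := (ENNReal.continuous_ofReal.tendsto _).comp hlim
      rwa [ENNReal.ofReal_zero] at this
    have h5 : Tendsto (fun k => (Fintype.card ι : ℝ≥0∞) * (ENNReal.ofReal (εk k) * kap)) atTop
        (𝓝 ((Fintype.card ι : ℝ≥0∞) * (0 * kap))) :=
      ENNReal.Tendsto.const_mul (ENNReal.Tendsto.mul_const h4 (Or.inr kap_ne_top))
        (Or.inr (ENNReal.natCast_ne_top _))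
    simpa using h5
  have hev0 : ∀ᶠ k in atTop, (Fintype.card ι : ℝ≥0∞) * (ENNReal.ofReal (εk k) * kap) ≤
      ENNReal.ofReal (δ / 2) :=
    (hlim0.eventually_lt_const (by simpa using (by positivity : 0 < δ / 2))).mono fun _ h => h.le
  have hev1 : ∀ᶠ k in atTop, εk k < ε₀ := hlim.eventually (gt_mem_nhds hε₀)
  filter_upwards [hM, hev0, hev1] with k hk1 hk2 hk3
  have hε := hεk k
  have hlip : ∀ i, LipschitzWith M ((clip T (Sk k)).c i) := fun i => clip_lip hT (hk1 i)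
  obtain ⟨maj, hm1, hm2, hm3⟩ := exists_badR_maj (f₀ := f₀) (Φ := Φ) (ε := εk k)
    (c := (clip T (Sk k)).c) (θ := (Sk k).b) (𝒢 := treeCls Φ (εk k)) (t₀ := tw) (t := t)
    hf h1 hΦ hε (fun i => (hlip i).continuous) (fun i => (hlip i).lipschitzOnWith)
    (treeCls_meas hΦ hε) htw K
  refine ⟨maj, hm1, fun x => hm2 x, (setLIntegral_le_lintegral _ _).trans (hm3.trans ?_)⟩
  have h6 := h3 (εk k) hε hk3
  calc (Fintype.card ι : ℝ≥0∞) * (ENNReal.ofReal (εk k) * kap) +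
        ENNReal.ofReal (7 * εk k ^ 2) * kap * Fintype.card ι *
          ∫⁻ s in Ioo tw t, gcE f₀ (εk k) (fun _ Z =>
            ∑ i, ind (¬ GoodD Φ (εk k) (treeCls Φ (εk k)) K Z i s) * spdW Φ (εk k) M Z i s)
      ≤ ENNReal.ofReal (δ / 2) + A * ∫⁻ s in Ioo 0 t, (activity (εk k))⁻¹ *
          gcE f₀ (εk k) (fun _ Z => ∑ i,
            ind (¬ GoodD Φ (εk k) (treeCls Φ (εk k)) K Z i s) * spdW Φ (εk k) M Z i s) := by
        refine add_le_add hk2 ?_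
        rw [lintegral_const_mul' _ _ (ENNReal.inv_ne_top.2 (activity_ne_zero hε)),
          BadHit370.inv_activity_eq hε, hA, ENNReal.ofReal_mul (by norm_num),
          ENNReal.ofReal_pow hε.le]
        calc ENNReal.ofReal 7 * ENNReal.ofReal (εk k) ^ 2 * kap * Fintype.card ι *
            ∫⁻ s in Ioo tw t, gcE f₀ (εk k) (fun _ Z => ∑ i,
              ind (¬ GoodD Φ (εk k) (treeCls Φ (εk k)) K Z i s) * spdW Φ (εk k) M Z i s)
            = ENNReal.ofReal 7 * kap * Fintype.card ι * (ENNReal.ofReal (εk k) ^ 2 *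
              ∫⁻ s in Ioo tw t, gcE f₀ (εk k) (fun _ Z => ∑ i,
              ind (¬ GoodD Φ (εk k) (treeCls Φ (εk k)) K Z i s) * spdW Φ (εk k) M Z i s)) := by
              ring
          _ ≤ _ := by
              gcongr
    _ ≤ ENNReal.ofReal (δ / 2) + ENNReal.ofReal (a * (δ / 2 / (a + 1))) := by
        refine add_le_add le_rfl ?_
        rw [ENNReal.ofReal_mul ha0, haA]
        exact mul_le_mul_right h6 _
    _ ≤ ENNReal.ofReal (δ / 2) + ENNReal.ofReal (δ / 2) := by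
        refine add_le_add le_rfl (ENNReal.ofReal_le_ofReal ?_)
        calc a * (δ / 2 / (a + 1)) = (a / (a + 1)) * (δ / 2) := by ring
          _ ≤ 1 * (δ / 2) := mul_le_mul_of_nonneg_right
              ((div_le_one (by positivity)).2 (by linarith)) (by positivity)
          _ = δ / 2 := one_mul _
    _ = ENNReal.ofReal δ := by
        rw [← ENNReal.ofReal_add (by positivity) (by positivity), add_halves]

/-- **`BadSmall` from `NEK` and `NGq`.** -/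
theorem badSmall_of (hf : Measurable f₀) (h1 : ∫⁻ z, ENNReal.ofReal (f₀ z) ≤ 1)
    (h2 : ∫⁻ z, ENNReal.ofReal (f₀ z) * ENNReal.ofReal (‖z.2‖ ^ 2) ≠ ∞)
    (hΦ : AdmissiblePotential Φ) {T tw t : ℝ} (htw : 0 ≤ tw) (htt : tw ≤ t) (htT : t ≤ T)
    (hN : NEK Φ f₀ t) (hG : NGq Φ f₀ t) : BadSmall Φ f₀ T tw t :=
  badSmall_of_esc hf h1 hΦ htw htt htT (escU_of_nek hΦ hf h1 h2 hN) hG

end Crest.Agent.R122.Hit167
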