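import Crest.Agent.R122.HitBad_167
import Crest.Agent.R122.RealTree_674
import Crest.Agent.R122.TreeHit_317
import Crest.Agent.R122.IStep3_317

/-!
# Real trees are good hitters; `BadSmall` (row 122, helper167)

* `goodR_of_realTree` : a real history which is a tree (`RealTree_674`) gives `GoodR`.
* `NGq` : real clusters of bounded size which are not trees have small mass (input, D5).
* `badSmall_of` : `NEK`, `NGq` imply `BadSmall` of `IStep3_317`.
-/

set_option autoImplicit false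

open Set Filter Topology MeasureTheory
open scoped Classical ENNReal NNReal
open Crest.AnalysisR.Kinetic

namespace Crest.Agent.R122.Hit167

open Causal291 Flow671 Loc45 GC311 Vol365 Kin796 Kin796.CTree Tree674 PathFlow968 TreeHit317
  Relabel674 RealTree674 Master566

section det

variable {Φ : Space3 → ℝ} {ε : ℝ}

/-- Explorations with a closed quiet interval. -/
theorem past_of_quiet_closed {ι : Type*} {z : ℝ → ι → PhasePoint} {j : ι} {r s u : ℝ} {k : ι}
    (hq : ∀ u ∈ Icc r s, ∀ i, i ≠ j → ¬ Ct z ε u j i) (h : Past (Ct z ε) s j u k) :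
    (u ≤ r → Past (Ct z ε) r j u k) ∧ (r < u → k = j) := by
  induction h with
  | root h => exact ⟨fun hs => .root hs, fun _ => rfl⟩
  | @step s' u l k hp hc hsu ih =>
    have hu : u ≤ s := hp.le
    rcases le_or_gt u r with hur | hur
    · exact ⟨fun _ => .step (ih.1 hur) hc hsu, fun hrs => absurd (hsu.trans hur) (not_le.2 hrs)⟩
    · have hl : l = j := ih.2 hur
      subst hl
      have hk : k = l := by
        by_contra hne
        exact hq u ⟨hur.le, hu⟩ k hne hc
      subst hk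
      exact ⟨fun hs => .root hs, fun _ => rfl⟩

variable {κ : Type} [Fintype κ] {Z : κ → PhasePoint} {i : κ} {P : CTree} {ℓ : PhasePoint}
  {p : Par P} {e : Idx P → κ} {s : ℝ}

/-- Before the final time the root of a real tree is quiet. -/
theorem exists_quiet_realTree (hε : 0 < ε) (hs : 0 < s) (h : RealTree Φ ε s Z i P ℓ p e) :
    ∃ r ∈ Ioo 0 s, ∀ u ∈ Icc r s, ∀ j, j ≠ i → ¬ Ct (pth Φ ε Z) ε u i j := by
  obtain ⟨r, hr, hv⟩ := exists_earlier h.valid hs
  refine ⟨(r + s) / 2, ⟨by linarith [hr.1, hr.2], by linarith [hr.2]⟩, fun u hu j hj hc => ?_⟩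
  have hru : r < u := by linarith [hr.2, hu.1]
  have hu0 : 0 ≤ u := (hr.1.trans hru).le
  have h1 : Past (Ct (pth Φ ε Z) ε) s i u i := .root hu.2
  obtain ⟨m, hm, hm2⟩ := (h.past u ⟨hu0, hu.2⟩ j).1 (h1.contact hc)
  by_cases hmr : m = Tree674.root P
  · subst hmr
    rw [h.root] at hm
    exact hj hm.symm
  · have h2 : prot P s p m ≤ r := by
      rw [PathFlow968.prot_eq_of_ne P s r p hmr]
      exact PathFlow968.prot_le hε.le P r ℓ.2 p hv.2 m
    linarith

/-- The exploration of `(i, s⁻)` in a real tree. -/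
theorem mem_preAct_realTree (hε : 0 < ε) (hs : 0 < s) (h : RealTree Φ ε s Z i P ℓ p e) {u : ℝ}
    (hu : u ∈ Ico 0 s) {k : κ} :
    k ∈ preAct (pth Φ ε Z) ε i s u ↔ ∃ m, e m = k ∧ u ≤ prot P s p m := by
  constructor
  · rintro ⟨s', hs', hp⟩
    exact (h.past u ⟨hu.1, hu.2.le⟩ k).1 (Past.extend hs'.2.le hp)
  · intro hk
    have hp := (h.past u ⟨hu.1, hu.2.le⟩ k).2 hk
    obtain ⟨r, hr, hq⟩ := exists_quiet_realTree hε hs h
    obtain ⟨h1, h2⟩ := past_of_quiet_closed hq hp
    rcases le_or_gt u r with hur | hur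
    · exact ⟨r, ⟨hur, hr.2⟩, h1 hur⟩
    · rw [h2 hur]
      exact mem_preAct_self hu.2

/-- **Real trees are good.** -/
theorem goodR_of_realTree {n : ℕ} {Z : Config n} {i : Fin n} {e : Idx P → Fin n}
    (hΦ : AdmissiblePotential Φ) (hε : 0 < ε) (hs : 0 < s) (h : RealTree Φ ε s Z i P ℓ p e)
    {K : ℕ} (hK : P.leaves ≤ K) : GoodR Φ ε (IStep317.treeCls Φ ε) K Z i s := by
  set g : Fin P.leaves ≃ Idx P := (eP P).symm with hg
  set f : Fin P.leaves ↪ Fin n := ⟨fun x => e (g x), fun x y hxy => g.injective (h.inj hxy)⟩ with hf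
  have hfx : ∀ x, f x = e (g x) := fun x => rfl
  have hlines : (fun x => Z (f x)) = fun x => lines Φ ε P ℓ p (g x) := by
    funext x
    exact h.lines_eq hΦ hε hs.le (g x)
  have hpth : pth Φ ε (fun x => Z (f x)) = fun u x => pth Φ ε (lines Φ ε P ℓ p) u (g x) := by
    rw [hlines]
    exact pth_relabel hΦ hε g _
  have hpath : ∀ u ∈ Icc 0 s, pth Φ ε (lines Φ ε P ℓ p) u = path Φ ε P ℓ p u := fun u hu =>
    (path_eq_flow hΦ hε h.valid h.sep hu).symm
  refine ⟨P.leaves, f, g.symm (Tree674.root P), hK, ?_, ?_, ?_, ?_, ?_⟩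
  · rw [hfx, Equiv.apply_symm_apply, h.root]
  · ext k
    rw [mem_preAct_realTree hε hs h ⟨le_rfl, hs⟩]
    constructor
    · rintro ⟨m, rfl, _⟩
      exact ⟨g.symm m, by rw [hfx, Equiv.apply_symm_apply]⟩
    · rintro ⟨x, rfl⟩
      exact ⟨g x, rfl, RealTree674.prot_nn hε hs.le h.valid _⟩
  · rw [hpth, iso_relabel g (z := pth Φ ε (lines Φ ε P ℓ p))]
    have hfam : Iso (pth Φ ε (lines Φ ε P ℓ p)) ε (fun u => {m | u ≤ prot P s p m}) s := by
      intro u hu m hm m' hm'
      have huI : u ∈ Icc 0 s := ⟨hu.1, hu.2.le⟩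
      rw [hpath u huI]
      exact sep_active hε h.valid h.sep huI hm (not_le.1 hm')
    refine hfam.congr fun u hu => ?_
    ext m
    constructor
    · intro hm
      refine ⟨g.symm m, ?_, Equiv.apply_symm_apply _ _⟩
      show f (g.symm m) ∈ preAct (pth Φ ε Z) ε i s u
      rw [hfx, Equiv.apply_symm_apply, mem_preAct_realTree hε hs h hu]
      exact ⟨m, rfl, hm⟩
    · rintro ⟨x, hx, rfl⟩
      have hx' : f x ∈ preAct (pth Φ ε Z) ε i s u := hx
      rw [hfx, mem_preAct_realTree hε hs h hu] at hx'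
      obtain ⟨m, hm, hm2⟩ := hx'
      rw [← h.inj hm]
      exact hm2
  · rw [hpth, aloneAt_relabel g (z := pth Φ ε (lines Φ ε P ℓ p)), Equiv.apply_symm_apply]
    exact aloneAt hΦ hε hs h.valid h.sep
  · refine ⟨P, g.symm, rfl, ℓ, p, h.valid, h.sep, fun x => ?_⟩
    have := congrFun hlines (g.symm x)
    simpa using this

/-- A particle which is not good has a big cluster, or a small one which is not a tree. -/
theorem not_goodR_cases {n : ℕ} {Z : Config n} {i : Fin n}
    (hΦ : AdmissiblePotential Φ) (hε : 0 < ε) (hs : 0 < s) {K : ℕ}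
    (h : ¬ GoodR Φ ε (IStep317.treeCls Φ ε) K Z i s) :
    K < (bc Φ ε Z s i).ncard ∨ ((bc Φ ε Z s i).ncard ≤ K ∧ ¬ Good Φ ε s Z i) := by
  by_cases hK : K < (bc Φ ε Z s i).ncard
  · exact Or.inl hK
  · refine Or.inr ⟨not_lt.1 hK, ?_⟩
    rintro ⟨P, ℓ, p, e, hR⟩
    refine h (goodR_of_realTree hΦ hε hs hR ?_)
    rw [not_lt, hR.bc_eq hε hs.le, ← image_univ, ncard_image_of_injective _ hR.inj,
      ncard_univ, Nat.card_eq_fintype_card, card_idx] at hK
    exact hK

end det

end Crest.Agent.R122.Hit167
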