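import Crest.Agent.R122.TransOk_151

/-!
# Gas plus one fixed line (row 122), helper151

* `ae_ok_line`: for EVERY line `l` born at a positive time, for a.e. gas configuration `w`, the world
  `w + l` is good; `gcE_ok_line`.
-/

set_option autoImplicit false
set_option linter.unusedSectionVars false

open MeasureTheory Set Filter Topology
open scoped ENNReal NNReal
open Crest.AnalysisR.Kinetic
open Crest.Agent.R122.Flow671 Crest.Agent.R122.Loc45 Crest.Agent.R122.Ins45
open Crest.Agent.R122.Simul984 Crest.Agent.R122.Inf879 Crest.Agent.R122.EDefs602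
open Crest.Agent.R122.MWAlg255 Crest.Agent.R122.GC311

namespace Crest.Agent.R122.TransOk151

noncomputable section

open scoped Classical

variable {Φ : Space3 → ℝ} {ε : ℝ}

theorem ae_pos_ne_fixed {ι : Type*} [Fintype ι] (i : ι) (y : Space3) :
    ∀ᵐ Z : ι → PhasePoint, (Z i).1 ≠ y := by
  have h1 : ∀ᵐ x : Space3, x ≠ y := by
    rw [ae_iff]
    simp
  have h2 : ∀ᵐ z : PhasePoint, z.1 ≠ y := by
    have := (Measure.quasiMeasurePreserving_fst (μ := (volume : Measure Space3))
      (ν := (volume : Measure Space3))).ae h1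
    exact this
  exact (Measure.quasiMeasurePreserving_eval (fun _ : ι => (volume : Measure PhasePoint)) i).ae h2

/-- The positions of the gas at a fixed time avoid a fixed point. -/
theorem ae_flow_ne_fixed (hΦ : AdmissiblePotential Φ) (hε : 0 < ε) {ι : Type*} [Fintype ι] (t : ℝ)
    (y : Space3) : ∀ᵐ Z : ι → PhasePoint, ∀ i, (flow Φ ε t Z i).1 ≠ y := by
  rw [ae_all_iff]
  intro i
  exact (measurePreserving_flow (ι := ι) hΦ hε t).quasiMeasurePreserving.ae (ae_pos_ne_fixed i y)

/-- A world with a new particle born at time `τ`, at a place where nobody is. -/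
theorem bworld_ins (hΦ : AdmissiblePotential Φ) (hε : 0 < ε) {ι : Type} [Fintype ι]
    {w : ι → PhasePoint} (hw : w ∈ Dom Φ ι) {τ : ℝ} (hτ : 0 < τ) {z : PhasePoint}
    (hne : ∀ i, (flow Φ ε τ w i).1 ≠ z.1) :
    ∃ Y : ℝ → ι ⊕ Unit → PhasePoint, BWorld Φ ε (Sum.elim (fun _ => 0) fun _ => τ) 0 Y ∧
      Y 0 = Sum.elim w fun _ => lineAt τ z 0 := by
  set Zτ : ι ⊕ Unit → PhasePoint := Sum.elim (flow Φ ε τ w) fun _ => z with hZτ
  have hD : Zτ ∈ Dom Φ (ι ⊕ Unit) :=
    Dom_sum_elim (flow_mem hΦ hε hw τ) (Dom_subsingleton _) fun i _ => hne i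
  have hW : World Φ ε (fun t => flow Φ ε (t - τ) Zτ) := by
    have h1 := (world_flow hΦ hε hD).shift (-τ)
    have h2 : (fun t => flow Φ ε (-τ + t) Zτ) = fun t => flow Φ ε (t - τ) Zτ := by
      funext t
      rw [neg_add_eq_sub]
    rwa [h2] at h1
  have hB : BWorld Φ ε (Sum.elim (fun _ => 0) fun _ => τ : ι ⊕ Unit → ℝ) τ
      (fun t => flow Φ ε (t - τ) Zτ) := World.bworld hW (by
    rintro (i | i)
    · exact hτ.le
    · exact le_rfl)
  set A : Finset (ι ⊕ Unit) := Finset.univ.filter fun k => k.isLeft = true with hA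
  have hinl : ∀ i : ι, (Sum.inl i : ι ⊕ Unit) ∈ A := fun i => by simp [hA]
  have hinr : ∀ u : Unit, (Sum.inr u : ι ⊕ Unit) ∉ A := fun u => by simp [hA]
  set Z0 : ι ⊕ Unit → PhasePoint := Sum.elim w fun _ => lineAt τ z 0 with hZ0
  let e : ι ≃ ↥A :=
    { toFun := fun i => ⟨Sum.inl i, hinl i⟩
      invFun := fun x => x.1.getLeft (Finset.mem_filter.1 x.2).2
      left_inv := fun _ => rfl
      right_inv := by
        rintro ⟨x | x, hx⟩
        · rfl
        · exact absurd hx (hinr x) }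
  have hrestr : (fun i : ι => (fun a : A => Z0 a) (e i)) = w := rfl
  have hDA : (fun a : A => Z0 a) ∈ Dom Φ A := by
    rw [← Dom_equiv e]
    exact hw
  obtain ⟨Y, hY, hY0, -⟩ := bworld_cons hΦ hε (b := (Sum.elim (fun _ => 0) fun _ => τ)) hτ
    (A := A) (Z := Z0) (fun t ht k => by
      rcases k with k | k
      · simp only [hinl k, Sum.elim_inl, true_iff]
        exact ht.1
      · simp only [hinr k, Sum.elim_inr, false_iff, not_le]
        exact ht.2) hDA hB (by
      funext k
      rw [sub_self, sub_zero, Flow671.flow_zero hΦ hε]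
      rcases k with k | k
      · rw [flowA_mem _ _ _ (hinl k)]
        have h1 := congrFun (flow_equiv hΦ hε e τ (fun a : A => Z0 a)) k
        exact h1
      · rw [flowA_not_mem _ _ _ (hinr k)]
        have h1 := lineAt_free τ 0 τ z
        rw [sub_zero, lineAt_self] at h1
        exact h1.symm)
  exact ⟨Y, hY, hY0⟩

/-- `w + l` is good if nobody is at the place of birth of `l`. -/
theorem ok_line (hΦ : AdmissiblePotential Φ) (hε : 0 < ε) {n : ℕ} {w : Config n}
    (hw : w ∈ PairExcluded ε n) {l : ML} (hl : 0 < l.1.1)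
    (hne : ∀ i, (flow Φ ε l.1.1 w i).1 ≠ l.1.2.1) : ((MW.cfg w).add (MW.line l)).Ok Φ ε := by
  have hD : w ∈ Dom Φ (Fin n) := pairExcluded_subset_Dom (Φ := Φ) hε n hw
  obtain ⟨Y, hY, hY0⟩ := bworld_ins hΦ hε hD hl (z := l.1.2) hne
  refine ok_of hΦ hε ?_ hY ?_ (sepB_add_lines (sepB_cfg hw) ?_ ?_)
  · rintro (i | i)
    · exact le_rfl
    · exact hl.le
  · rw [hY0]
    funext k
    rcases k with k | k
    · rfl
    · exact (back_eq l.1).symm
  · intro x y hxy
    exact absurd (Subsingleton.elim x y) hxy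
  · intro i x h
    exact absurd (show (0 : ℝ) = l.1.1 from h) hl.ne

/-- **Gas plus a fixed line**: good for a.e. gas configuration. -/
theorem ae_ok_line (hΦ : AdmissiblePotential Φ) (hε : 0 < ε) {l : ML} (hl : 0 < l.1.1) (n : ℕ) :
    ∀ᵐ w : Config n, w ∈ PairExcluded ε n → ((MW.cfg w).add (MW.line l)).Ok Φ ε := by
  filter_upwards [ae_flow_ne_fixed (ι := Fin n) hΦ hε l.1.1 l.1.2.1] with w h hw
  exact ok_line hΦ hε hw hl h

theorem gcE_ok_line (hΦ : AdmissiblePotential Φ) (hε : 0 < ε) {l : ML} (hl : 0 < l.1.1)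
    (f₀ : PhasePoint → ℝ) (G : (n : ℕ) → Config n → ℝ≥0∞) :
    gcE f₀ ε (fun n w => if ((MW.cfg w).add (MW.line l)).Ok Φ ε then 0 else G n w) = 0 := by
  have h : gcE f₀ ε (fun n w => if ((MW.cfg w).add (MW.line l)).Ok Φ ε then 0 else G n w) ≤
      gcE f₀ ε fun _ _ => 0 := by
    refine gcE_mono_ae f₀ ε fun n => ?_
    filter_upwards [ae_ok_line (l := l) hΦ hε hl n] with w h hw
    rw [if_pos (h hw)]
  refine le_antisymm (h.trans (le_of_eq ?_)) bot_le
  exact gcE_eq_zero_of_ae f₀ ε fun n => Eventually.of_forall fun _ => rfl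

end

end Crest.Agent.R122.TransOk151
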