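import Mathlib

/-!
Abstract theory of the damped collision-tree series (row 122, block F6, helper796).
-/

set_option autoImplicit false
set_option linter.unusedSectionVars false
set_option linter.unusedVariables false
open MeasureTheory ProbabilityTheory Set
open scoped ENNReal

noncomputable section

namespace Crest.Agent.R122.Kin796

/-- Binary collision trees. -/
inductive CTree : Type
  | leaf : CTree
  | node : CTree → CTree → CTree
  deriving DecidableEq

namespace CTree

/-- number of collisions -/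
def size : CTree → ℕ
  | leaf => 0
  | node l r => l.size + r.size + 1

/-- number of particles (leaves) -/
def leaves : CTree → ℕ
  | leaf => 1
  | node l r => l.leaves + r.leaves

/-- height -/
def height : CTree → ℕ
  | leaf => 0
  | node l r => max l.height r.height + 1

theorem leaves_eq (τ : CTree) : τ.leaves = τ.size + 1 := by
  induction τ with
  | leaf => rfl
  | node l r hl hr => simp only [leaves, size, hl, hr]; omega

theorem height_le_size (τ : CTree) : τ.height ≤ τ.size := by
  induction τ with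
  | leaf => rfl
  | node l r hl hr => simp only [height, size]; omega

/-- trees of height `< n` -/
def lt : ℕ → Finset CTree
  | 0 => ∅
  | n + 1 => insert leaf ((lt n ×ˢ lt n).image fun p => node p.1 p.2)

theorem mem_lt {n : ℕ} {τ : CTree} : τ ∈ lt n ↔ τ.height < n := by
  induction n generalizing τ with
  | zero => simp [lt]
  | succ n ih =>
    cases τ with
    | leaf => simp [lt, height]
    | node l r =>
      simp only [lt, Finset.mem_insert, reduceCtorEq, Finset.mem_image, Finset.mem_product, ih,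
        node.injEq, false_or, height, Prod.exists]
      constructor
      · rintro ⟨a, b, ⟨ha, hb⟩, rfl, rfl⟩; omega
      · intro h; exact ⟨l, r, ⟨by omega, by omega⟩, rfl, rfl⟩

theorem lt_mono {n m : ℕ} (h : n ≤ m) : lt n ⊆ lt m := by
  intro τ; simp only [mem_lt]; omega

theorem exists_subset_lt (s : Finset CTree) : ∃ n, s ⊆ lt n := by
  refine ⟨s.sup height + 1, fun τ hτ => ?_⟩
  rw [mem_lt]
  exact Nat.lt_succ_of_le (Finset.le_sup (f := height) hτ)

instance : Countable CTree := by
  have : (Set.univ : Set CTree) = ⋃ n, (lt n : Set CTree) := by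
    ext τ; simp only [mem_univ, mem_iUnion, Finset.mem_coe, mem_lt, true_iff]
    exact ⟨τ.height + 1, Nat.lt_succ_self _⟩
  rw [← Set.countable_univ_iff, this]
  exact Set.countable_iUnion fun n => (lt n).finite_toSet.countable

end CTree

open CTree

variable {E : Type*} [NormedAddCommGroup E] [NormedSpace ℝ E] [MeasurableSpace E] [BorelSpace E]
  [SecondCountableTopology E]

/-- The gain operator of a collision kernel. -/
def Q (κ : Kernel E (E × E)) (h k : E → ℝ≥0∞) (v : E) : ℝ≥0∞ :=
  ∫⁻ p, h p.1 * k p.2 ∂(κ v)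

theorem Q_mono (κ : Kernel E (E × E)) {h h' k k' : E → ℝ≥0∞} (hh : ∀ v, h v ≤ h' v)
    (hk : ∀ v, k v ≤ k' v) (v : E) : Q κ h k v ≤ Q κ h' k' v :=
  lintegral_mono fun p => mul_le_mul' (hh _) (hk _)

theorem Q_const_mul (κ : Kernel E (E × E)) {a b : ℝ≥0∞} (ha : a ≠ ∞) (hb : b ≠ ∞)
    (h k : E → ℝ≥0∞) (v : E) :
    Q κ (fun v => a * h v) (fun v => b * k v) v = a * b * Q κ h k v := by
  unfold Q
  rw [← lintegral_const_mul' _ _ (ENNReal.mul_ne_top ha hb)]
  refine lintegral_congr fun p => ?_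
  ring

/-- One Duhamel step with source `q` started from datum `f0` at time `0`. -/
def Duh (D : ℝ → ℝ → E → E → ℝ≥0∞) (f0 : E → E → ℝ≥0∞) (q : ℝ → E → E → ℝ≥0∞)
    (t : ℝ) (x v : E) : ℝ≥0∞ :=
  D 0 t x v * f0 (x - t • v) v + ∫⁻ s in Ioc 0 t, D s t x v * q s (x - (t - s) • v) v

/-- Weight of a collision tree. -/
def F (κ : Kernel E (E × E)) (D : ℝ → ℝ → E → E → ℝ≥0∞) (f0 : E → E → ℝ≥0∞) :
    CTree → ℝ → E → E → ℝ≥0∞
  | leaf => fun t x v => D 0 t x v * f0 (x - t • v) v
  | node l r => fun t x v => ∫⁻ s in Ioc 0 t, D s t x v *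
      Q κ (F κ D f0 l s (x - (t - s) • v)) (F κ D f0 r s (x - (t - s) • v)) v

/-- Picard iteration with collision marker `lam`. -/
def P (κ : Kernel E (E × E)) (D : ℝ → ℝ → E → E → ℝ≥0∞) (f0 : E → E → ℝ≥0∞) (lam : ℝ≥0∞) :
    ℕ → ℝ → E → E → ℝ≥0∞
  | 0 => fun _ _ _ => 0
  | n + 1 => fun t x v => D 0 t x v * f0 (x - t • v) v + ∫⁻ s in Ioc 0 t, D s t x v *
      (lam * Q κ (P κ D f0 lam n s (x - (t - s) • v)) (P κ D f0 lam n s (x - (t - s) • v)) v)

/-- joint measurability for functions of `(t, x, v)` -/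
def Meas3 (g : ℝ → E → E → ℝ≥0∞) : Prop := Measurable fun p : ℝ × E × E => g p.1 p.2.1 p.2.2

/-- joint measurability for damping functions of `(s, t, x, v)` -/
def Meas4 (D : ℝ → ℝ → E → E → ℝ≥0∞) : Prop :=
  Measurable fun p : ℝ × ℝ × E × E => D p.1 p.2.1 p.2.2.1 p.2.2.2

theorem meas_free {f0 : E → E → ℝ≥0∞} (hf : Measurable fun p : E × E => f0 p.1 p.2) :
    Meas3 fun t x v => f0 (x - t • v) v := by
  unfold Meas3
  exact hf.comp (((measurable_fst.comp measurable_snd).sub
    (measurable_fst.smul (measurable_snd.comp measurable_snd))).prodMk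
      (measurable_snd.comp measurable_snd))

theorem meas_Q (κ : Kernel E (E × E)) [IsSFiniteKernel κ] {h k : ℝ → E → E → ℝ≥0∞}
    (hh : Meas3 h) (hk : Meas3 k) : Meas3 fun t x v => Q κ (h t x) (k t x) v := by
  unfold Meas3 Q
  have hm : Measurable fun p : ℝ × E × E => p.2.2 := measurable_snd.comp measurable_snd
  have := Measurable.lintegral_kernel_prod_right (κ := κ.comap _ hm)
    (f := fun (a : ℝ × E × E) (p : E × E) => h a.1 a.2.1 p.1 * k a.1 a.2.1 p.2) ?_
  · simpa [Kernel.comap_apply] using this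
  · unfold Function.uncurry
    refine Measurable.mul ?_ ?_
    · exact hh.comp (f := fun q : (ℝ × E × E) × (E × E) => (q.1.1, q.1.2.1, q.2.1)) (by fun_prop)
    · exact hk.comp (f := fun q : (ℝ × E × E) × (E × E) => (q.1.1, q.1.2.1, q.2.2)) (by fun_prop)

theorem meas_int {D : ℝ → ℝ → E → E → ℝ≥0∞} (hD : Meas4 D) {q : ℝ → E → E → ℝ≥0∞}
    (hq : Meas3 q) :
    Meas3 fun t x v => ∫⁻ s in Ioc 0 t, D s t x v * q s (x - (t - s) • v) v := by
  unfold Meas3
  have h1 : (fun p : ℝ × E × E => ∫⁻ s in Ioc 0 p.1, D s p.1 p.2.1 p.2.2 *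
      q s (p.2.1 - (p.1 - s) • p.2.2) p.2.2) =
      fun p : ℝ × E × E => ∫⁻ s, (({r : (ℝ × E × E) × ℝ | 0 < r.2 ∧ r.2 ≤ r.1.1}).indicator
        (fun r => D r.2 r.1.1 r.1.2.1 r.1.2.2 *
          q r.2 (r.1.2.1 - (r.1.1 - r.2) • r.1.2.2) r.1.2.2)) (p, s) := by
    funext p
    rw [← lintegral_indicator measurableSet_Ioc]
    refine lintegral_congr fun s => ?_
    by_cases h : s ∈ Ioc 0 p.1
    · rw [indicator_of_mem h, indicator_of_mem (by exact h)]
    · rw [indicator_of_notMem h, indicator_of_notMem (by exact h)]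
  rw [h1]
  refine Measurable.lintegral_prod_right' (Measurable.indicator ?_ ?_)
  · refine Measurable.mul ?_ ?_
    · exact hD.comp (f := fun r : (ℝ × E × E) × ℝ => (r.2, r.1.1, r.1.2.1, r.1.2.2))
        (by fun_prop)
    · exact hq.comp (f := fun r : (ℝ × E × E) × ℝ =>
        (r.2, r.1.2.1 - (r.1.1 - r.2) • r.1.2.2, r.1.2.2)) (by fun_prop)
  · exact (measurableSet_lt measurable_const measurable_snd).inter
      (measurableSet_le measurable_snd (measurable_fst.comp measurable_fst))


theorem meas_mul3 {g h : ℝ → E → E → ℝ≥0∞} (hg : Meas3 g) (hh : Meas3 h) :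
    Meas3 fun t x v => g t x v * h t x v := Measurable.mul hg hh

theorem meas_add3 {g h : ℝ → E → E → ℝ≥0∞} (hg : Meas3 g) (hh : Meas3 h) :
    Meas3 fun t x v => g t x v + h t x v := Measurable.add hg hh

theorem meas_D0 {D : ℝ → ℝ → E → E → ℝ≥0∞} (hD : Meas4 D) : Meas3 fun t x v => D 0 t x v :=
  hD.comp (f := fun r : ℝ × E × E => ((0 : ℝ), r.1, r.2.1, r.2.2)) (by fun_prop)

section meas
variable (κ : Kernel E (E × E)) [IsSFiniteKernel κ] {D : ℝ → ℝ → E → E → ℝ≥0∞} (hD : Meas4 D)
  {f0 : E → E → ℝ≥0∞} (hf : Measurable fun p : E × E => f0 p.1 p.2)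
include hD hf

theorem meas_F (τ : CTree) : Meas3 (F κ D f0 τ) := by
  induction τ with
  | leaf => exact meas_mul3 (meas_D0 hD) (meas_free hf)
  | node l r hl hr => exact meas_int hD (meas_Q κ hl hr)

theorem meas_P (lam : ℝ≥0∞) (n : ℕ) : Meas3 (P κ D f0 lam n) := by
  induction n with
  | zero => exact measurable_const
  | succ n ih =>
    refine meas_add3 (meas_mul3 (meas_D0 hD) (meas_free hf)) ?_
    exact meas_int hD (q := fun s x v => lam * Q κ (P κ D f0 lam n s x) (P κ D f0 lam n s x) v)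
      (meas_mul3 measurable_const (meas_Q κ ih ih))

theorem meas_slice {g : ℝ → E → E → ℝ≥0∞} (hg : Meas3 g) (t : ℝ) (x : E) :
    Measurable (g t x) :=
  hg.comp (f := fun v : E => (t, x, v)) (by fun_prop)

/-- integrand of the Duhamel integral is measurable in `s` -/
theorem meas_integrand {q : ℝ → E → E → ℝ≥0∞} (hq : Meas3 q) (t : ℝ) (x v : E) :
    Measurable fun s => D s t x v * q s (x - (t - s) • v) v := by
  refine Measurable.mul ?_ ?_
  · exact hD.comp (f := fun s : ℝ => (s, t, x, v)) (by fun_prop)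
  · exact hq.comp (f := fun s : ℝ => (s, x - (t - s) • v, v)) (by fun_prop)

end meas

theorem Q_sum (κ : Kernel E (E × E)) {ι : Type*} (s : Finset ι) (h : ι → E → ℝ≥0∞)
    (hh : ∀ i ∈ s, Measurable (h i)) (c : ι → ℝ≥0∞) (v : E) :
    Q κ (fun u => ∑ i ∈ s, c i * h i u) (fun u => ∑ i ∈ s, c i * h i u) v =
      ∑ i ∈ s, ∑ j ∈ s, c i * c j * Q κ (h i) (h j) v := by
  unfold Q
  have h1 : ∀ p : E × E, (∑ i ∈ s, c i * h i p.1) * (∑ i ∈ s, c i * h i p.2) =
      ∑ i ∈ s, ∑ j ∈ s, c i * c j * (h i p.1 * h j p.2) := by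
    intro p
    rw [Finset.sum_mul_sum]
    refine Finset.sum_congr rfl fun i _ => Finset.sum_congr rfl fun j _ => by ring
  simp_rw [h1]
  rw [lintegral_finsetSum']
  · refine Finset.sum_congr rfl fun i hi => ?_
    rw [lintegral_finsetSum']
    · refine Finset.sum_congr rfl fun j hj => ?_
      rw [lintegral_const_mul]
      exact ((hh i hi).comp measurable_fst).mul ((hh j hj).comp measurable_snd)
    · intro j hj
      exact (measurable_const.mul
        (((hh i hi).comp measurable_fst).mul ((hh j hj).comp measurable_snd))).aemeasurable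
  · intro i hi
    refine (Finset.measurable_sum s fun j hj => ?_).aemeasurable
    exact measurable_const.mul
        (((hh i hi).comp measurable_fst).mul ((hh j hj).comp measurable_snd))

theorem P_eq_sum (κ : Kernel E (E × E)) [IsSFiniteKernel κ] {D : ℝ → ℝ → E → E → ℝ≥0∞}
    (hD : Meas4 D) {f0 : E → E → ℝ≥0∞} (hf : Measurable fun p : E × E => f0 p.1 p.2)
    (lam : ℝ≥0∞) (n : ℕ) (t : ℝ) (x v : E) :
    P κ D f0 lam n t x v = ∑ τ ∈ CTree.lt n, lam ^ τ.size * F κ D f0 τ t x v := by
  induction n generalizing t x v with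
  | zero => simp [P, CTree.lt]
  | succ n ih =>
    have hnot : leaf ∉ ((CTree.lt n ×ˢ CTree.lt n).image fun p => node p.1 p.2) := by simp
    have hinj : Set.InjOn (fun p : CTree × CTree => node p.1 p.2)
        (CTree.lt n ×ˢ CTree.lt n : Finset (CTree × CTree)) := by
      intro p _ q _ h
      simp only [node.injEq] at h
      exact Prod.ext h.1 h.2
    rw [CTree.lt, Finset.sum_insert hnot, Finset.sum_image hinj, Finset.sum_product]
    have hP : ∀ s y, P κ D f0 lam n s y = fun u => ∑ τ ∈ CTree.lt n, lam ^ τ.size *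
        F κ D f0 τ s y u := by
      intro s y; funext u; exact ih s y u
    have hstep : P κ D f0 lam (n + 1) t x v = D 0 t x v * f0 (x - t • v) v +
        ∫⁻ s in Ioc 0 t, D s t x v * (lam * Q κ (P κ D f0 lam n s (x - (t - s) • v))
          (P κ D f0 lam n s (x - (t - s) • v)) v) := rfl
    rw [hstep]
    congr 1
    · simp [CTree.size, F]
    · simp_rw [hP]
      have h2 : ∀ s : ℝ, D s t x v * (lam * Q κ (fun u => ∑ τ ∈ CTree.lt n, lam ^ τ.size *
          F κ D f0 τ s (x - (t - s) • v) u) (fun u => ∑ τ ∈ CTree.lt n, lam ^ τ.size *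
          F κ D f0 τ s (x - (t - s) • v) u) v) = ∑ i ∈ CTree.lt n, ∑ j ∈ CTree.lt n,
            lam ^ (node i j).size * (D s t x v * Q κ (F κ D f0 i s (x - (t - s) • v))
              (F κ D f0 j s (x - (t - s) • v)) v) := by
        intro s
        rw [Q_sum κ (CTree.lt n) (fun τ => F κ D f0 τ s (x - (t - s) • v))
          (fun τ _ => meas_slice hD hf (meas_F κ hD hf τ) _ _) (fun τ => lam ^ τ.size) v]
        rw [Finset.mul_sum, Finset.mul_sum]
        refine Finset.sum_congr rfl fun i _ => ?_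
        rw [Finset.mul_sum, Finset.mul_sum]
        refine Finset.sum_congr rfl fun j _ => ?_
        simp only [CTree.size, pow_add, pow_one]
        ring
      simp_rw [h2]
      have hm : ∀ i j, Measurable fun s => D s t x v * Q κ (F κ D f0 i s (x - (t - s) • v))
              (F κ D f0 j s (x - (t - s) • v)) v := fun i j =>
        meas_integrand hD hf (q := fun s y u => Q κ (F κ D f0 i s y) (F κ D f0 j s y) u)
          (meas_Q κ (meas_F κ hD hf i) (meas_F κ hD hf j)) t x v
      rw [lintegral_finsetSum']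
      · refine Finset.sum_congr rfl fun i _ => ?_
        rw [lintegral_finsetSum']
        · refine Finset.sum_congr rfl fun j _ => ?_
          rw [lintegral_const_mul _ (hm i j)]
          rfl
        · intro j _
          exact (measurable_const.mul (hm i j)).aemeasurable
      · intro i _
        exact (Finset.measurable_sum _ fun j _ => measurable_const.mul (hm i j)).aemeasurable

/-- The full series is the supremum of the Picard iterates. -/
theorem tsum_eq_iSup (κ : Kernel E (E × E)) [IsSFiniteKernel κ] {D : ℝ → ℝ → E → E → ℝ≥0∞}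
    (hD : Meas4 D) {f0 : E → E → ℝ≥0∞} (hf : Measurable fun p : E × E => f0 p.1 p.2)
    (lam : ℝ≥0∞) (t : ℝ) (x v : E) :
    ∑' τ : CTree, lam ^ τ.size * F κ D f0 τ t x v = ⨆ n, P κ D f0 lam n t x v := by
  rw [ENNReal.tsum_eq_iSup_sum' CTree.lt CTree.exists_subset_lt]
  refine iSup_congr fun n => ?_
  rw [P_eq_sum κ hD hf]

/-- Supersolution bound. -/
theorem P_le_super (κ : Kernel E (E × E)) {D : ℝ → ℝ → E → E → ℝ≥0∞}
    {f0 : E → E → ℝ≥0∞} {lam : ℝ≥0∞} {T : ℝ} {H : ℝ → E → E → ℝ≥0∞}
    (hH : ∀ t ∈ Icc 0 T, ∀ x v, D 0 t x v * f0 (x - t • v) v + ∫⁻ s in Ioc 0 t, D s t x v *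
      (lam * Q κ (H s (x - (t - s) • v)) (H s (x - (t - s) • v)) v) ≤ H t x v)
    (n : ℕ) {t : ℝ} (ht : t ∈ Icc 0 T) (x v : E) : P κ D f0 lam n t x v ≤ H t x v := by
  induction n generalizing t x v with
  | zero => exact zero_le
  | succ n ih =>
    refine le_trans ?_ (hH t ht x v)
    refine add_le_add le_rfl ?_
    refine setLIntegral_mono' measurableSet_Ioc fun s hs => ?_
    refine mul_le_mul' le_rfl (mul_le_mul' le_rfl ?_)
    have hs' : s ∈ Icc 0 T := ⟨hs.1.le, hs.2.trans ht.2⟩
    exact Q_mono κ (fun u => ih hs' _ _) (fun u => ih hs' _ _) v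

end Crest.Agent.R122.Kin796
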