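import Crest.Prelude.Def_KineticLimit
import Crest.Agent.R122.KinA_796
import Crest.Agent.R122.Disc_416

/-!
Row 122, block C (helper674): collision trees with parameters, in line coordinates at time `0`.

A *line* is a phase point `ℓ = (X, v)`: the free motion `u ↦ X + u • v`.  A *node* is
`a = (s, w, y)`: exit time `s`, outgoing velocity `w` of the partner, planar impact parameter `y`
(`b = frameMap (v - w) y`, `v` the outgoing velocity of the root).  At the exit time the relative
position (particle 1 minus particle 2) is `-ε • entrancePoint b g`, `g = v - w`, and the relative path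
is `u ↦ -ε • q ((s - u) / ε)` where `q` is the scattering passage of the frozen definitions, so that
the pre-collisional velocities are `postVelocities Φ b v w` and the entrance time is `s - ε τ`.
Everything makes sense for `ε = 0` (straight-line trees).
-/

set_option autoImplicit false

open MeasureTheory Crest.AnalysisR.Kinetic
open scoped Classical ENNReal

noncomputable section

namespace Crest.Agent.R122.Tree674

open Kin796 Kin796.CTree Disc416

/-! ### Two-body data -/

/-- A scattering passage exists (non-trapped). -/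
def NT (Φ : Space3 → ℝ) (b g : Space3) : Prop :=
  ∃ p : (ℝ → Space3) × ℝ, IsScatteringPassage Φ b g p.1 p.2

/-- duration of the passage (`0` if none) -/
def tau (Φ : Space3 → ℝ) (b g : Space3) : ℝ := if h : NT Φ b g then h.choose.2 else 0

/-- relative path of the passage (free if none) -/
def qpath (Φ : Space3 → ℝ) (b g : Space3) : ℝ → Space3 :=
  if h : NT Φ b g then h.choose.1 else fun s => entrancePoint b g + s • g

/-- exit point of the passage -/
def qx (Φ : Space3 → ℝ) (b g : Space3) : Space3 := qpath Φ b g (tau Φ b g)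

theorem passage_spec {Φ : Space3 → ℝ} {b g : Space3} (h : NT Φ b g) :
    IsScatteringPassage Φ b g (qpath Φ b g) (tau Φ b g) := by
  unfold qpath tau
  rw [dif_pos h, dif_pos h]
  exact h.choose_spec

theorem exitVelocity_eq {Φ : Space3 → ℝ} {b g : Space3} (h : NT Φ b g) :
    exitVelocity Φ b g = deriv (qpath Φ b g) (tau Φ b g) := by
  unfold qpath tau exitVelocity
  rw [dif_pos (show ∃ p : (ℝ → Space3) × ℝ, IsScatteringPassage Φ b g p.1 p.2 from h),
    dif_pos h, dif_pos h]

/-- Node parameters `(s, w, y)`. -/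
abbrev NodeP : Type := ℝ × Space3 × Plane

/-- relative outgoing velocity at a node -/
def ng (v : Space3) (a : NodeP) : Space3 := v - a.2.1

/-- impact parameter at a node -/
def nb (v : Space3) (a : NodeP) : Space3 := frameMap (v - a.2.1) a.2.2

/-- entrance time at a node -/
def sin (Φ : Space3 → ℝ) (ε : ℝ) (v : Space3) (a : NodeP) : ℝ :=
  a.1 - ε * tau Φ (nb v a) (ng v a)

/-- admissible node: `‖y‖ < 1`, `v ≠ w`, non-trapped -/
def Adm1 (Φ : Space3 → ℝ) (v : Space3) (a : NodeP) : Prop :=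
  ‖a.2.2‖ < 1 ∧ v ≠ a.2.1 ∧ NT Φ (nb v a) (ng v a)

/-- pre-collisional velocities at a node -/
def preV (Φ : Space3 → ℝ) (v : Space3) (a : NodeP) : Space3 × Space3 :=
  postVelocities Φ (nb v a) v a.2.1

/-- position of the centre of mass at the exit time -/
def cms (ε : ℝ) (ℓ : PhasePoint) (a : NodeP) : Space3 :=
  ℓ.1 + a.1 • ℓ.2 + (ε / 2) • entrancePoint (nb ℓ.2 a) (ng ℓ.2 a)

/-- velocity of the centre of mass -/
def cmv (v : Space3) (a : NodeP) : Space3 := (1 / 2 : ℝ) • (v + a.2.1)

/-- positions at the entrance time -/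
def xin (Φ : Space3 → ℝ) (ε : ℝ) (ℓ : PhasePoint) (a : NodeP) : Space3 × Space3 :=
  (cms ε ℓ a - (ε * tau Φ (nb ℓ.2 a) (ng ℓ.2 a)) • cmv ℓ.2 a
      - (ε / 2) • qx Φ (nb ℓ.2 a) (ng ℓ.2 a),
   cms ε ℓ a - (ε * tau Φ (nb ℓ.2 a) (ng ℓ.2 a)) • cmv ℓ.2 a
      + (ε / 2) • qx Φ (nb ℓ.2 a) (ng ℓ.2 a))

/-- incoming lines of a node, given the outgoing line of the root -/
def inMap (Φ : Space3 → ℝ) (ε : ℝ) (ℓ : PhasePoint) (a : NodeP) : PhasePoint × PhasePoint :=
  (((xin Φ ε ℓ a).1 - sin Φ ε ℓ.2 a • (preV Φ ℓ.2 a).1, (preV Φ ℓ.2 a).1),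
   ((xin Φ ε ℓ a).2 - sin Φ ε ℓ.2 a • (preV Φ ℓ.2 a).2, (preV Φ ℓ.2 a).2))

/-- outgoing line of the partner -/
def outLine (ε : ℝ) (ℓ : PhasePoint) (a : NodeP) : PhasePoint :=
  (ℓ.1 + a.1 • ℓ.2 + ε • entrancePoint (nb ℓ.2 a) (ng ℓ.2 a) - a.1 • a.2.1, a.2.1)

/-- the phase point at time `u` on a line -/
def onLine (ℓ : PhasePoint) (u : ℝ) : PhasePoint := (ℓ.1 + u • ℓ.2, ℓ.2)

/-- the two-body motion for all times (`ε > 0`) -/
def pairPath (Φ : Space3 → ℝ) (ε : ℝ) (ℓ : PhasePoint) (a : NodeP) (u : ℝ) :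
    PhasePoint × PhasePoint :=
  ((cms ε ℓ a + (u - a.1) • cmv ℓ.2 a
      - (ε / 2) • qpath Φ (nb ℓ.2 a) (ng ℓ.2 a) ((a.1 - u) / ε),
    cmv ℓ.2 a + (1 / 2 : ℝ) • deriv (qpath Φ (nb ℓ.2 a) (ng ℓ.2 a)) ((a.1 - u) / ε)),
   (cms ε ℓ a + (u - a.1) • cmv ℓ.2 a
      + (ε / 2) • qpath Φ (nb ℓ.2 a) (ng ℓ.2 a) ((a.1 - u) / ε),
    cmv ℓ.2 a - (1 / 2 : ℝ) • deriv (qpath Φ (nb ℓ.2 a) (ng ℓ.2 a)) ((a.1 - u) / ε)))

/-- the two roots after the entrance time: passage before the exit time, outgoing lines after it -/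
def colPath (Φ : Space3 → ℝ) (ε : ℝ) (ℓ : PhasePoint) (a : NodeP) (u : ℝ) :
    PhasePoint × PhasePoint :=
  if a.1 ≤ u then (onLine ℓ u, onLine (outLine ε ℓ a) u) else pairPath Φ ε ℓ a u

/-! ### Index types and parameters of a tree -/

/-- particles of a tree (leaves) -/
def Idx : CTree → Type
  | leaf => Unit
  | node l r => Idx l ⊕ Idx r

instance instFintypeIdx : ∀ P : CTree, Fintype (Idx P)
  | leaf => inferInstanceAs (Fintype Unit)
  | node l r => @instFintypeSum _ _ (instFintypeIdx l) (instFintypeIdx r)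

/-- the root particle -/
def root : ∀ P : CTree, Idx P
  | leaf => ()
  | node l _ => Sum.inl (root l)

theorem card_idx : ∀ P : CTree, Fintype.card (Idx P) = P.leaves
  | leaf => rfl
  | node l r => by
      show Fintype.card (Idx l ⊕ Idx r) = l.leaves + r.leaves
      rw [Fintype.card_sum, card_idx l, card_idx r]

/-- parameters of a tree (one node parameter for every node) -/
def Par : CTree → Type
  | leaf => Unit
  | node l r => NodeP × Par l × Par r

instance instMeasurableSpacePar : ∀ P : CTree, MeasurableSpace (Par P)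
  | leaf => inferInstanceAs (MeasurableSpace Unit)
  | node l r => @Prod.instMeasurableSpace _ _ _ (@Prod.instMeasurableSpace _ _
      (instMeasurableSpacePar l) (instMeasurableSpacePar r))

/-- reference measure on the parameters (Lebesgue) -/
def parVol : ∀ P : CTree, Measure (Par P)
  | leaf => (Measure.dirac () : Measure Unit)
  | node l r => (volume : Measure NodeP).prod ((parVol l).prod (parVol r))

instance instMeasureSpacePar (P : CTree) : MeasureSpace (Par P) := ⟨parVol P⟩

instance instSigmaFinitePar : ∀ P : CTree, SigmaFinite (volume : Measure (Par P))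
  | leaf => inferInstanceAs (SigmaFinite (Measure.dirac () : Measure Unit))
  | node l r => by
      haveI := instSigmaFinitePar l
      haveI := instSigmaFinitePar r
      exact inferInstanceAs (SigmaFinite ((volume : Measure NodeP).prod
        ((volume : Measure (Par l)).prod (volume : Measure (Par r)))))

/-- **Initial configuration** (lines of the leaves at time `0`). -/
def lines (Φ : Space3 → ℝ) (ε : ℝ) : ∀ P : CTree, PhasePoint → Par P → (Idx P → PhasePoint)
  | leaf => fun ℓ _ _ => ℓ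
  | node l r => fun ℓ p => Sum.elim (lines Φ ε l (inMap Φ ε ℓ p.1).1 p.2.1)
      (lines Φ ε r (inMap Φ ε ℓ p.1).2 p.2.2)

/-- velocities of the leaves -/
def vels (Φ : Space3 → ℝ) : ∀ P : CTree, Space3 → Par P → (Idx P → Space3)
  | leaf => fun v _ _ => v
  | node l r => fun v p => Sum.elim (vels Φ l (preV Φ v p.1).1 p.2.1)
      (vels Φ r (preV Φ v p.1).2 p.2.2)

/-- **Weight** of a tree: product of the relative speeds over the nodes. -/
def wt (Φ : Space3 → ℝ) : ∀ P : CTree, Space3 → Par P → ℝ≥0∞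
  | leaf => fun _ _ => 1
  | node l r => fun v p => ENNReal.ofReal ‖v - p.1.2.1‖ *
      (wt Φ l (preV Φ v p.1).1 p.2.1 * wt Φ r (preV Φ v p.1).2 p.2.2)

/-- admissibility of all nodes -/
def Adm (Φ : Space3 → ℝ) : ∀ P : CTree, Space3 → Par P → Prop
  | leaf => fun _ _ => True
  | node l r => fun v p => Adm1 Φ v p.1 ∧ Adm Φ l (preV Φ v p.1).1 p.2.1 ∧
      Adm Φ r (preV Φ v p.1).2 p.2.2

/-- **Time ordering**: `0 < entrance`, exit `< T`, the nodes of the branches before the entrance
time of their parent. -/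
def Ord (Φ : Space3 → ℝ) (ε : ℝ) : ∀ P : CTree, ℝ → Space3 → Par P → Prop
  | leaf => fun _ _ _ => True
  | node l r => fun T v p => p.1.1 < T ∧ 0 < sin Φ ε v p.1 ∧
      Ord Φ ε l (sin Φ ε v p.1) (preV Φ v p.1).1 p.2.1 ∧
      Ord Φ ε r (sin Φ ε v p.1) (preV Φ v p.1).2 p.2.2

/-- validity = admissible and time ordered -/
def Valid (Φ : Space3 → ℝ) (ε : ℝ) (P : CTree) (T : ℝ) (v : Space3) (p : Par P) : Prop :=
  Adm Φ P v p ∧ Ord Φ ε P T v p

/-- **Explicit trajectory** of the configuration of a tree. -/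
def path (Φ : Space3 → ℝ) (ε : ℝ) : ∀ P : CTree, PhasePoint → Par P → ℝ → (Idx P → PhasePoint)
  | leaf => fun ℓ _ u _ => onLine ℓ u
  | node l r => fun ℓ p u =>
      if u ≤ sin Φ ε ℓ.2 p.1 then
        Sum.elim (path Φ ε l (inMap Φ ε ℓ p.1).1 p.2.1 u) (path Φ ε r (inMap Φ ε ℓ p.1).2 p.2.2 u)
      else
        Sum.elim
          (Function.update (path Φ ε l (inMap Φ ε ℓ p.1).1 p.2.1 u) (root l)
            (colPath Φ ε ℓ p.1 u).1)
          (Function.update (path Φ ε r (inMap Φ ε ℓ p.1).2 p.2.2 u) (root r)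
            (colPath Φ ε ℓ p.1 u).2)

/-- **Protected times** (`T` for the root; exit time of the node at which the particle is
released for the others). -/
def prot : ∀ P : CTree, ℝ → Par P → (Idx P → ℝ)
  | leaf => fun T _ _ => T
  | node l r => fun T p => Sum.elim (prot l T p.2.1) (prot r p.1.1 p.2.2)

/-- `(i, j)` is the colliding pair of some node, and `u` is in the (closed) collision window of
this node. -/
def InWindow (Φ : Space3 → ℝ) (ε : ℝ) : ∀ P : CTree, Space3 → Par P → Idx P → Idx P → ℝ → Prop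
  | leaf => fun _ _ _ _ _ => False
  | node l r => fun v p i j u =>
      (i = Sum.inl (root l) ∧ j = Sum.inr (root r) ∧ sin Φ ε v p.1 ≤ u ∧ u ≤ p.1.1) ∨
      (∃ i' j', i = Sum.inl i' ∧ j = Sum.inl j' ∧ InWindow Φ ε l (preV Φ v p.1).1 p.2.1 i' j' u) ∨
      (∃ i' j', i = Sum.inr i' ∧ j = Sum.inr j' ∧ InWindow Φ ε r (preV Φ v p.1).2 p.2.2 i' j' u)

/-- **Separation**: on `[0, T]`, two different particles are at distance `> ε` outside of their
collision window. -/
def Sep (Φ : Space3 → ℝ) (ε : ℝ) (P : CTree) (T : ℝ) (ℓ : PhasePoint) (p : Par P) : Prop :=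
  ∀ i j : Idx P, i ≠ j → ∀ u ∈ Set.Icc 0 T, ¬ InWindow Φ ε P ℓ.2 p i j u →
    ¬ InWindow Φ ε P ℓ.2 p j i u → ε < dist (path Φ ε P ℓ p u i).1 (path Φ ε P ℓ p u j).1

end Crest.Agent.R122.Tree674

end
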