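import Crest.Agent.R122.Scat5_818
import Crest.Agent.R122.NewtonFlow_671
import Crest.Agent.R122.TreeDefs_674

/-!
# Row 122, block F2: two-body scattering, part 6

* bridge to the two-body data of `TreeDefs_674` (`NT`, `tau`, `qpath`, `qx`);
* the two-particle Newton flow at range `ε` in terms of the relative flow.
-/

set_option autoImplicit false
set_option linter.unusedSectionVars false

open MeasureTheory Filter Set
open scoped Topology NNReal ENNReal
open Crest.AnalysisR.Kinetic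

noncomputable section

namespace Crest.Agent.R122.Scat818

open Flow671

variable {Φ : Space3 → ℝ}

/-! ### Bridge to `Tree674` -/

lemma nt_iff (hΦ : AdmissiblePotential Φ) {b g : Space3} (hreg : Reg Φ (entrancePoint b g)) :
    Tree674.NT Φ b g ↔ HasPass Φ b g := exists_passage_iff hΦ hreg

lemma tau_eq_of_pass (hΦ : AdmissiblePotential Φ) {b g : Space3}
    (hreg : Reg Φ (entrancePoint b g)) {τ : ℝ} (h : HasExit Φ (inc b g) τ) :
    Tree674.tau Φ b g = τ := by
  have hnt : Tree674.NT Φ b g := (nt_iff hΦ hreg).2 ⟨τ, h⟩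
  have h1 := Tree674.passage_spec hnt
  exact ((passage_iff hΦ hreg).1 h1).1.unique h

lemma tau_of_not {b g : Space3} (h : ¬ Tree674.NT Φ b g) : Tree674.tau Φ b g = 0 := by
  unfold Tree674.tau
  rw [dif_neg h]

lemma tau_eq_exitTime (hΦ : AdmissiblePotential Φ) {b g : Space3}
    (hreg : Reg Φ (entrancePoint b g)) : Tree674.tau Φ b g = exitTime Φ b g := by
  classical
  by_cases h : HasPass Φ b g
  · exact tau_eq_of_pass hΦ hreg h.hasExit
  · rw [tau_of_not (fun h' => h ((nt_iff hΦ hreg).1 h'))]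
    have h2 : ¬ ∃ τ, HasExit Φ (inc b g) τ := h
    rw [exitTime, dif_neg h2]

lemma qpath_eq (hΦ : AdmissiblePotential Φ) {b g : Space3} (hreg : Reg Φ (entrancePoint b g))
    (h : Tree674.NT Φ b g) (s : ℝ) : Tree674.qpath Φ b g s = (relFlow Φ s (inc b g)).1 :=
  ((passage_iff hΦ hreg).1 (Tree674.passage_spec h)).2 s

lemma deriv_qpath_eq (hΦ : AdmissiblePotential Φ) {b g : Space3}
    (hreg : Reg Φ (entrancePoint b g)) (h : Tree674.NT Φ b g) (s : ℝ) :
    deriv (Tree674.qpath Φ b g) s = (relFlow Φ s (inc b g)).2 := by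
  rw [funext (qpath_eq hΦ hreg h)]
  exact ((isRel_relFlow hΦ (z := inc b g) hreg).pos s).deriv

lemma isRel_qpath (hΦ : AdmissiblePotential Φ) {b g : Space3}
    (hreg : Reg Φ (entrancePoint b g)) (h : Tree674.NT Φ b g) :
    IsRel Φ (Tree674.qpath Φ b g) (deriv (Tree674.qpath Φ b g)) := by
  rw [funext (qpath_eq hΦ hreg h)]
  have h2 : deriv (fun s => (relFlow Φ s (inc b g)).1) = fun s => (relFlow Φ s (inc b g)).2 := by
    funext s
    exact ((isRel_relFlow hΦ (z := inc b g) hreg).pos s).deriv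
  rw [h2]
  exact isRel_relFlow hΦ hreg

lemma mem_passSet_iff {p : Space3 × Space3} :
    p ∈ passSet Φ ↔ p ∈ gincid ∧ HasPass Φ p.1 p.2 := Iff.rfl

lemma mem_passSet_iff_nt (hΦ : AdmissiblePotential Φ) {p : Space3 × Space3} :
    p ∈ passSet Φ ↔ p ∈ gincid ∧ Tree674.NT Φ p.1 p.2 := by
  rw [mem_passSet_iff]
  refine and_congr_right fun hp => ?_
  exact (nt_iff hΦ (reg_entrance Φ hp.1 hp.2)).symm

/-- On nondegenerate incidence data, `tau` is the measurable function `tauM`. -/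
lemma tau_eq_tauM (hΦ : AdmissiblePotential Φ) {p : Space3 × Space3} (hp : p ∈ gincid) :
    Tree674.tau Φ p.1 p.2 = tauM Φ p := by
  classical
  rw [tau_eq_exitTime hΦ (reg_entrance Φ hp.1 hp.2)]
  by_cases h : p ∈ passSet Φ
  · rw [tauM_of_mem h]
  · rw [tauM_of_not h]
    have h2 : ¬ ∃ τ, HasExit Φ (inc p.1 p.2) τ := fun h' => h ⟨hp, h'⟩
    rw [exitTime, dif_neg h2]

/-- On nondegenerate incidence data, `qx` is the first component of the measurable map `exitM`. -/
lemma qx_eq_exitM (hΦ : AdmissiblePotential Φ) {p : Space3 × Space3} (hp : p ∈ gincid) :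
    Tree674.qx Φ p.1 p.2 = (exitM Φ p).1 := by
  have hreg := reg_entrance Φ hp.1 hp.2
  by_cases h : p ∈ passSet Φ
  · have hnt := ((mem_passSet_iff_nt hΦ).1 h).2
    rw [Tree674.qx, qpath_eq hΦ hreg hnt, tau_eq_tauM hΦ hp]
    rfl
  · have hnt : ¬ Tree674.NT Φ p.1 p.2 := fun h' => h ((mem_passSet_iff_nt hΦ).2 ⟨hp, h'⟩)
    rw [exitM_of_not hΦ h, Tree674.qx, tau_of_not hnt]
    unfold Tree674.qpath
    rw [dif_neg hnt]
    simp [inc]

/-- On nondegenerate incidence data, the exit velocity is the second component of `exitM`. -/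
lemma exitVelocity_eq_exitM (hΦ : AdmissiblePotential Φ) {p : Space3 × Space3} (hp : p ∈ gincid) :
    exitVelocity Φ p.1 p.2 = (exitM Φ p).2 := by
  have hreg := reg_entrance Φ hp.1 hp.2
  by_cases h : p ∈ passSet Φ
  · rw [exitM_of_mem hΦ h]
  · have h2 : ¬ ∃ τ, HasExit Φ (inc p.1 p.2) τ := fun h' => h ⟨hp, h'⟩
    rw [exitM_of_not hΦ h, exitVelocity_of_not hΦ hreg h2]
    rfl

/-- The set of nondegenerate non-trapped data is measurable. -/
lemma measurableSet_nt (hΦ : AdmissiblePotential Φ) :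
    MeasurableSet {p : Space3 × Space3 | p ∈ gincid ∧ Tree674.NT Φ p.1 p.2} := by
  have : {p : Space3 × Space3 | p ∈ gincid ∧ Tree674.NT Φ p.1 p.2} = passSet Φ := by
    ext p; exact (mem_passSet_iff_nt hΦ).symm
  rw [this]
  exact measurableSet_passSet hΦ

/-! ### The two-particle Newton flow -/

lemma force_neg (hΦ : AdmissiblePotential Φ) (q : Space3) : force Φ (-q) = -force Φ q := by
  rw [force, grad_neg hΦ, smul_neg, force]

/-- Time reversal combined with `q ↦ -q`. -/
lemma IsRel.negReverse (hΦ : AdmissiblePotential Φ) {q p : ℝ → Space3} (h : IsRel Φ q p) :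
    IsRel Φ (fun s => -q (-s)) (fun s => p (-s)) := by
  refine ⟨fun s => ?_, fun s => ?_⟩
  · simpa [Function.comp_def] using ((h.pos (-s)).scomp s (hasDerivAt_neg s)).fun_neg
  · rw [force_neg hΦ]
    simpa [Function.comp_def] using (h.vel (-s)).scomp s (hasDerivAt_neg s)

lemma hasDerivAt_rescale {f f' : ℝ → Space3} (h : ∀ s, HasDerivAt f (f' s) s) (ε s₀ u : ℝ) :
    HasDerivAt (fun u => f ((u - s₀) / ε)) ((1 / ε) • f' ((u - s₀) / ε)) u := by
  have h1 : HasDerivAt (fun u : ℝ => (u - s₀) / ε) (1 / ε) u :=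
    ((hasDerivAt_id u).sub_const s₀).div_const ε
  exact (h ((u - s₀) / ε)).scomp u h1

variable {ι : Type*}

/-- Two-particle configuration from centre of mass and relative coordinates at range `ε`. -/
def pairConf (ε : ℝ) (i : ι) (c V q p : Space3) : ι → PhasePoint :=
  open scoped Classical in
  fun k => if k = i then (c + (ε / 2) • q, V + (1 / 2 : ℝ) • p)
    else (c - (ε / 2) • q, V - (1 / 2 : ℝ) • p)

lemma pairConf_left (ε : ℝ) (i : ι) (c V q p : Space3) :
    pairConf ε i c V q p i = (c + (ε / 2) • q, V + (1 / 2 : ℝ) • p) := by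
  classical
  simp [pairConf]

lemma pairConf_right (ε : ℝ) {i j : ι} (hij : j ≠ i) (c V q p : Space3) :
    pairConf ε i c V q p j = (c - (ε / 2) • q, V - (1 / 2 : ℝ) • p) := by
  classical
  simp [pairConf, hij]

lemma dom_of_reg {i j : ι} (htwo : ∀ k, k = i ∨ k = j)
    {Z : ι → PhasePoint} (h : Reg Φ ((Z i).1 - (Z j).1)) : Z ∈ Dom Φ ι := by
  rcases h with h | h
  · refine Or.inr fun k l hkl => ?_
    have h' : (Z i).1 ≠ (Z j).1 := sub_ne_zero.1 h
    rcases htwo k with rfl | rfl <;> rcases htwo l with rfl | rfl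
    · exact absurd rfl hkl
    · exact h'
    · exact h'.symm
    · exact absurd rfl hkl
  · exact Or.inl h

/-- Centre-of-mass and relative coordinates of a two-particle configuration. -/
lemma eq_pairConf {ε : ℝ} (hε : 0 < ε) {i j : ι} (hij : i ≠ j) (htwo : ∀ k, k = i ∨ k = j)
    (Z : ι → PhasePoint) :
    Z = pairConf ε i ((1 / 2 : ℝ) • ((Z i).1 + (Z j).1)) ((1 / 2 : ℝ) • ((Z i).2 + (Z j).2))
      ((1 / ε) • ((Z i).1 - (Z j).1)) ((Z i).2 - (Z j).2) := by
  have h1 : (ε / 2) • (1 / ε) • ((Z i).1 - (Z j).1) = (1 / 2 : ℝ) • ((Z i).1 - (Z j).1) := by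
    rw [smul_smul]; congr 1; field_simp
  funext k
  rcases htwo k with rfl | rfl
  · rw [pairConf_left, h1]
    ext1
    · show (Z k).1 = _
      module
    · show (Z k).2 = _
      module
  · rw [pairConf_right ε hij.symm, h1]
    ext1
    · show (Z k).1 = _
      module
    · show (Z k).2 = _
      module

variable [Fintype ι]

lemma sum_two {M : Type*} [AddCommMonoid M] {i j : ι} (hij : i ≠ j) (htwo : ∀ k, k = i ∨ k = j)
    (f : ι → M) : ∑ k, f k = f i + f j := by
  classical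
  have : (Finset.univ : Finset ι) = {i, j} := by
    ext k
    simpa using htwo k
  rw [this, Finset.sum_pair hij]

lemma nf_pairConf (hΦ : AdmissiblePotential Φ) {ε : ℝ} (hε : 0 < ε) {i j : ι} (hij : i ≠ j)
    (htwo : ∀ k, k = i ∨ k = j) (c V q p : Space3) :
    nf Φ ε (pairConf ε i c V q p) i
        = (V + (1 / 2 : ℝ) • p, (1 / 2 : ℝ) • (1 / ε) • force Φ q) ∧
      nf Φ ε (pairConf ε i c V q p) j
        = (V - (1 / 2 : ℝ) • p, -((1 / 2 : ℝ) • (1 / ε) • force Φ q)) := by
  have hji : j ≠ i := hij.symm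
  have h1 : (1 / ε) • ((c + (ε / 2) • q) - (c - (ε / 2) • q)) = q := by
    have : (c + (ε / 2) • q) - (c - (ε / 2) • q) = ε • q := by
      rw [add_sub_sub_cancel, ← add_smul]; congr 1; ring
    rw [this, smul_smul, one_div, inv_mul_cancel₀ hε.ne', one_smul]
  have h2 : (1 / ε) • ((c - (ε / 2) • q) - (c + (ε / 2) • q)) = -q := by
    have h3 : (c - (ε / 2) • q) - (c + (ε / 2) • q) = -((c + (ε / 2) • q) - (c - (ε / 2) • q)) := by
      rw [neg_sub]
    rw [h3, smul_neg, h1]
  constructor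
  · unfold nf
    rw [sum_two hij htwo, pairConf_left, pairConf_right ε hji]
    simp only [sub_self, smul_zero, grad_origin hΦ, zero_add]
    rw [h1]
    ext1
    · rfl
    · simp only [force, smul_smul]
      congr 1
      ring
  · unfold nf
    rw [sum_two hij htwo, pairConf_left, pairConf_right ε hji]
    simp only [sub_self, smul_zero, grad_origin hΦ, add_zero]
    rw [h2, grad_neg hΦ]
    ext1
    · rfl
    · simp only [force, smul_smul, smul_neg, ← neg_smul]
      congr 1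
      ring

/-- **A relative solution gives a two-particle solution of Newton's equations at range `ε`.** -/
theorem hasDerivAt_pairConf (hΦ : AdmissiblePotential Φ) {ε : ℝ} (hε : 0 < ε) {i j : ι}
    (hij : i ≠ j) (htwo : ∀ k, k = i ∨ k = j) {q p : ℝ → Space3} (h : IsRel Φ q p)
    (c V : Space3) (s₀ u : ℝ) :
    HasDerivAt (fun u => pairConf ε i (c + (u - s₀) • V) V (q ((u - s₀) / ε)) (p ((u - s₀) / ε)))
      (nf Φ ε (pairConf ε i (c + (u - s₀) • V) V (q ((u - s₀) / ε)) (p ((u - s₀) / ε)))) u := by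
  obtain ⟨hn1, hn2⟩ := nf_pairConf hΦ hε hij htwo (c + (u - s₀) • V) V
    (q ((u - s₀) / ε)) (p ((u - s₀) / ε))
  have hq := hasDerivAt_rescale h.pos ε s₀ u
  have hp := hasDerivAt_rescale h.vel ε s₀ u
  have hc : HasDerivAt (fun u : ℝ => c + (u - s₀) • V) V u := by
    simpa using (((hasDerivAt_id u).sub_const s₀).smul_const V).const_add c
  rw [hasDerivAt_pi]
  intro k
  rcases htwo k with rfl | rfl
  · rw [hn1]
    simp only [pairConf_left]
    refine HasDerivAt.prodMk ?_ ?_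
    · have h1 := hc.add (hq.const_smul (ε / 2))
      have h2 : V + (ε / 2) • (1 / ε) • p ((u - s₀) / ε) = V + (1 / 2 : ℝ) • p ((u - s₀) / ε) := by
        rw [smul_smul]; congr 2; field_simp
      rw [h2] at h1
      exact h1
    · exact (hp.const_smul (1 / 2 : ℝ)).const_add V
  · rw [hn2]
    simp only [pairConf_right ε hij.symm]
    refine HasDerivAt.prodMk ?_ ?_
    · have h1 := hc.sub (hq.const_smul (ε / 2))
      have h2 : V - (ε / 2) • (1 / ε) • p ((u - s₀) / ε) = V - (1 / 2 : ℝ) • p ((u - s₀) / ε) := by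
        rw [smul_smul]; congr 2; field_simp
      rw [h2] at h1
      exact h1
    · exact (hp.const_smul (1 / 2 : ℝ)).const_sub V

/-- **The two-particle Newton flow at range `ε`**: centre of mass and relative flow. -/
theorem flow_pair (hΦ : AdmissiblePotential Φ) {ε : ℝ} (hε : 0 < ε) {i j : ι} (hij : i ≠ j)
    (htwo : ∀ k, k = i ∨ k = j) {Z : ι → PhasePoint} (hZ : Reg Φ ((Z i).1 - (Z j).1)) (t : ℝ) :
    flow Φ ε t Z =
      pairConf ε i
        ((1 / 2 : ℝ) • ((Z i).1 + (Z j).1) + t • ((1 / 2 : ℝ) • ((Z i).2 + (Z j).2)))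
        ((1 / 2 : ℝ) • ((Z i).2 + (Z j).2))
        (relFlow Φ (t / ε) ((1 / ε) • ((Z i).1 - (Z j).1), (Z i).2 - (Z j).2)).1
        (relFlow Φ (t / ε) ((1 / ε) • ((Z i).1 - (Z j).1), (Z i).2 - (Z j).2)).2 := by
  have hreg : Reg Φ ((1 / ε) • ((Z i).1 - (Z j).1)) := by
    rcases hZ with h | h
    · exact Or.inl (smul_ne_zero (by positivity) h)
    · exact Or.inr h
  have hrel := isRel_relFlow hΦ (z := ((1 / ε) • ((Z i).1 - (Z j).1), (Z i).2 - (Z j).2)) hreg
  have hsol := fun u => hasDerivAt_pairConf hΦ hε hij htwo hrel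
    ((1 / 2 : ℝ) • ((Z i).1 + (Z j).1)) ((1 / 2 : ℝ) • ((Z i).2 + (Z j).2)) 0 u
  have h0 : pairConf ε i
      ((1 / 2 : ℝ) • ((Z i).1 + (Z j).1) + ((0 : ℝ) - 0) • ((1 / 2 : ℝ) • ((Z i).2 + (Z j).2)))
      ((1 / 2 : ℝ) • ((Z i).2 + (Z j).2))
      (relFlow Φ (((0 : ℝ) - 0) / ε) ((1 / ε) • ((Z i).1 - (Z j).1), (Z i).2 - (Z j).2)).1
      (relFlow Φ (((0 : ℝ) - 0) / ε) ((1 / ε) • ((Z i).1 - (Z j).1), (Z i).2 - (Z j).2)).2 = Z := by
    rw [sub_zero, zero_div, relFlow_zero hΦ, zero_smul, add_zero]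
    exact (eq_pairConf hε hij htwo Z).symm
  have h := eq_flow_univ hΦ hε hsol (by rw [h0]; exact dom_of_reg htwo hZ) t
  rw [h0] at h
  rw [← h, sub_zero]

/-- The curve `pairPath` of `TreeDefs_674` as a `pairConf`. -/
lemma pairPath_eq (ε : ℝ) (ℓ : PhasePoint) (a : Tree674.NodeP) (u : ℝ) {i j : ι} (hij : i ≠ j) :
    (Tree674.pairPath Φ ε ℓ a u).1 = pairConf ε i
        (Tree674.cms ε ℓ a + (u - a.1) • Tree674.cmv ℓ.2 a) (Tree674.cmv ℓ.2 a)
        (-(Tree674.qpath Φ (Tree674.nb ℓ.2 a) (Tree674.ng ℓ.2 a) (-((u - a.1) / ε))))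
        (deriv (Tree674.qpath Φ (Tree674.nb ℓ.2 a) (Tree674.ng ℓ.2 a)) (-((u - a.1) / ε))) i ∧
      (Tree674.pairPath Φ ε ℓ a u).2 = pairConf ε i
        (Tree674.cms ε ℓ a + (u - a.1) • Tree674.cmv ℓ.2 a) (Tree674.cmv ℓ.2 a)
        (-(Tree674.qpath Φ (Tree674.nb ℓ.2 a) (Tree674.ng ℓ.2 a) (-((u - a.1) / ε))))
        (deriv (Tree674.qpath Φ (Tree674.nb ℓ.2 a) (Tree674.ng ℓ.2 a)) (-((u - a.1) / ε))) j := by
  have h1 : -((u - a.1) / ε) = (a.1 - u) / ε := by ring
  rw [h1, pairConf_left, pairConf_right ε hij.symm]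
  unfold Tree674.pairPath
  refine ⟨?_, ?_⟩
  · ext1
    · simp only [smul_neg, sub_eq_add_neg]
    · rfl
  · ext1
    · simp only [smul_neg, sub_neg_eq_add]
    · rfl

/-- **`pairPath` solves Newton's equations** on any two-element index type. -/
theorem hasDerivAt_pairPath (hΦ : AdmissiblePotential Φ) {ε : ℝ} (hε : 0 < ε) {i j : ι}
    (hij : i ≠ j) (htwo : ∀ k, k = i ∨ k = j) (ℓ : PhasePoint) (a : Tree674.NodeP)
    (ha : Tree674.Adm1 Φ ℓ.2 a) (u : ℝ) :
    let γ : ℝ → ι → PhasePoint := fun u k =>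
      open scoped Classical in
      if k = i then (Tree674.pairPath Φ ε ℓ a u).1 else (Tree674.pairPath Φ ε ℓ a u).2
    HasDerivAt γ (nf Φ ε (γ u)) u := by
  classical
  intro γ
  have hg : Tree674.ng ℓ.2 a ≠ 0 := sub_ne_zero.2 ha.2.1
  have hb : Tree674.nb ℓ.2 a ∈ impactDisc (Tree674.ng ℓ.2 a) := by
    refine ⟨Disc416.inner_frameMap_self _ _, ?_⟩
    have h3 := Disc416.norm_frameMap hg a.2.2
    have h4 : ‖Tree674.nb ℓ.2 a‖ = ‖a.2.2‖ := h3
    rw [h4]
    exact ha.1
  have hrel := (isRel_qpath hΦ (reg_entrance Φ hb hg) ha.2.2).negReverse hΦ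
  have h := hasDerivAt_pairConf hΦ hε hij htwo hrel (Tree674.cms ε ℓ a) (Tree674.cmv ℓ.2 a) a.1 u
  have heq : γ = fun u => pairConf ε i (Tree674.cms ε ℓ a + (u - a.1) • Tree674.cmv ℓ.2 a)
      (Tree674.cmv ℓ.2 a)
      (-(Tree674.qpath Φ (Tree674.nb ℓ.2 a) (Tree674.ng ℓ.2 a) (-((u - a.1) / ε))))
      (deriv (Tree674.qpath Φ (Tree674.nb ℓ.2 a) (Tree674.ng ℓ.2 a)) (-((u - a.1) / ε))) := by
    funext u k
    obtain ⟨h1, h2⟩ := pairPath_eq (Φ := Φ) (ι := ι) ε ℓ a u hij
    rcases htwo k with rfl | rfl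
    · show (if k = k then _ else _) = _
      rw [if_pos rfl, h1]
    · show (if k = i then _ else _) = _
      rw [if_neg hij.symm, h2]
  rw [heq]
  exact h

/-! ### Lines through the interaction region -/

/-- Half length (in time) of the free chord. -/
def chord (b g : Space3) : ℝ := Real.sqrt (1 - ‖b‖ ^ 2) / ‖g‖

lemma chord_pos {b g : Space3} (hb : b ∈ impactDisc g) (hg : g ≠ 0) : 0 < chord b g :=
  div_pos (sqrt_pos_of_mem hb) (norm_pos_iff.2 hg)

lemma entrancePoint_eq_chord (b g : Space3) : entrancePoint b g = b - chord b g • g := rfl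

/-- A point of the incoming half line is on the trajectory of the entrance point. -/
lemma line_eq_relFlow (hΦ : AdmissiblePotential Φ) {b g : Space3} (hb : b ∈ impactDisc g)
    (hg : g ≠ 0) {s : ℝ} (hs : s ≤ -chord b g) :
    ((b + s • g, g) : Space3 × Space3) = relFlow Φ (s + chord b g) (inc b g) := by
  rw [relFlow_before hΦ hb hg (by linarith), entrancePoint_eq_chord]
  ext1
  · show b + s • g = b - chord b g • g + (s + chord b g) • g
    module
  · rfl

/-- The relative flow from an incoming line, in terms of the passage. -/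
theorem relFlow_line (hΦ : AdmissiblePotential Φ) {b g : Space3} (hb : b ∈ impactDisc g)
    (hg : g ≠ 0) {s : ℝ} (hs : s ≤ -chord b g) (t : ℝ) :
    relFlow Φ t (b + s • g, g) = relFlow Φ (s + chord b g + t) (inc b g) := by
  rw [line_eq_relFlow hΦ hb hg hs, ← relFlow_add hΦ]

/-- After the passage, the relative flow from an incoming line is on the outgoing line, with time
delay `exitTime - 2 chord`. -/
theorem relFlow_line_after (hΦ : AdmissiblePotential Φ) {b g : Space3} (hb : b ∈ impactDisc g)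
    (hg : g ≠ 0) (h : HasPass Φ b g) {s t : ℝ} (hs : s ≤ -chord b g)
    (ht : exitTime Φ b g ≤ s + chord b g + t) :
    relFlow Φ t (b + s • g, g) =
      (exitImpact Φ b g + (s + t - (exitTime Φ b g - 2 * chord b g)) • exitVelocity Φ b g,
        exitVelocity Φ b g) := by
  rw [relFlow_line hΦ hb hg hs, h.after hΦ hb hg ht, h.exitPoint_eq hΦ hb hg]
  ext1
  · show exitImpact Φ b g + chord b g • exitVelocity Φ b g
        + (s + chord b g + t - exitTime Φ b g) • exitVelocity Φ b g = _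
    module
  · rfl

/-- A line which misses the open unit ball is not deflected. -/
theorem relFlow_line_miss (hΦ : AdmissiblePotential Φ) {b g : Space3} (hb : inner ℝ b g = 0)
    (hb1 : 1 ≤ ‖b‖) (s t : ℝ) : relFlow Φ t (b + s • g, g) = (b + (s + t) • g, g) := by
  have h := relFlow_free hΦ (x := b + s • g) (v := g) (a := -|t|) (b := |t|)
    ⟨by simp, abs_nonneg t⟩ (fun u _ => by
      have h1 : b + s • g + u • g = b + (s + u) • g := by module
      rw [h1, one_le_norm_iff, norm_sq_line, hb]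
      have h2 := one_le_norm_iff.1 hb1
      have h3 : 0 ≤ (s + u) ^ 2 * ‖g‖ ^ 2 := by positivity
      linarith) (t := t) ⟨neg_abs_le t, le_abs_self t⟩
  rw [h]
  ext1
  · show b + s • g + t • g = _
    module
  · rfl

/-- **An isolated encounter at range `ε`**: if the relative position is `ε (b + s g)` with
`s ≤ -chord`, then at every time `t` with `t / ε ≥ exitTime - chord - s` the velocities are the
post-collisional velocities of the frozen definitions and the positions are on the outgoing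
lines. -/
theorem flow_pair_after (hΦ : AdmissiblePotential Φ) {ε : ℝ} (hε : 0 < ε) {i j : ι} (hij : i ≠ j)
    (htwo : ∀ k, k = i ∨ k = j) {Z : ι → PhasePoint} {b : Space3}
    (hb : b ∈ impactDisc ((Z i).2 - (Z j).2)) (hg : (Z i).2 ≠ (Z j).2) {s t : ℝ}
    (hZ : (Z i).1 - (Z j).1 = ε • (b + s • ((Z i).2 - (Z j).2)))
    (h : HasPass Φ b ((Z i).2 - (Z j).2)) (hs : s ≤ -chord b ((Z i).2 - (Z j).2))
    (ht : exitTime Φ b ((Z i).2 - (Z j).2) ≤ s + chord b ((Z i).2 - (Z j).2) + t / ε) :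
    flow Φ ε t Z =
      pairConf ε i
        ((1 / 2 : ℝ) • ((Z i).1 + (Z j).1) + t • ((1 / 2 : ℝ) • ((Z i).2 + (Z j).2)))
        ((1 / 2 : ℝ) • ((Z i).2 + (Z j).2))
        (exitImpact Φ b ((Z i).2 - (Z j).2) +
          (s + t / ε - (exitTime Φ b ((Z i).2 - (Z j).2) - 2 * chord b ((Z i).2 - (Z j).2))) •
            exitVelocity Φ b ((Z i).2 - (Z j).2))
        (exitVelocity Φ b ((Z i).2 - (Z j).2)) ∧
      ((flow Φ ε t Z i).2, (flow Φ ε t Z j).2) = postVelocities Φ b (Z i).2 (Z j).2 := by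
  have hg' : (Z i).2 - (Z j).2 ≠ 0 := sub_ne_zero.2 hg
  have hne : b + s • ((Z i).2 - (Z j).2) ≠ 0 := by
    rw [← norm_pos_iff]
    have h1 : 1 ≤ ‖b + s • ((Z i).2 - (Z j).2)‖ := by
      have h2 := line_eq_relFlow hΦ hb hg' hs
      have h3 := h.one_le_norm hΦ hb hg' (t := s + chord b ((Z i).2 - (Z j).2))
        (Or.inl (by linarith))
      rw [← h2] at h3
      exact h3
    linarith
  have hreg : Reg Φ ((Z i).1 - (Z j).1) := by
    left
    rw [hZ]
    exact smul_ne_zero hε.ne' hne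
  have h1 := flow_pair hΦ hε hij htwo hreg t
  have h2 : (1 / ε) • ((Z i).1 - (Z j).1) = b + s • ((Z i).2 - (Z j).2) := by
    rw [hZ, smul_smul, one_div, inv_mul_cancel₀ hε.ne', one_smul]
  rw [h2, relFlow_line_after hΦ hb hg' h hs ht] at h1
  refine ⟨h1, ?_⟩
  rw [h1, pairConf_left, pairConf_right ε hij.symm]
  rfl

end Crest.Agent.R122.Scat818
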