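import Crest.Agent.R122.PathCausal_968
import Crest.Agent.R122.Scat6_818

/-!
# Row 122, block C, SURJ (helper968), part 1: the passage of an isolated pair

Given an isolated pair of particles which is at distance `ε` at the times `s' < s`, outgoing at time
`s`, the outgoing parameters define an admissible node whose two-body motion is the motion of the
pair on `[s', s]`.
-/

set_option autoImplicit false

open MeasureTheory Set Filter Topology
open Crest.AnalysisR.Kinetic
open scoped Classical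

noncomputable section

namespace Crest.Agent.R122.Surj968

open Kin796 Kin796.CTree Disc416 Tree674 Flow671 Loc45 Causal291 PathFlow968

variable {Φ : Space3 → ℝ} {ε : ℝ}

/-- The line through the phase point `z` at time `s`. -/
def lineOf (z : PhasePoint) (s : ℝ) : PhasePoint := (z.1 - s • z.2, z.2)

theorem onLine_lineOf (z : PhasePoint) (s : ℝ) : onLine (lineOf z s) s = z := by
  unfold onLine lineOf
  ext1
  · simp
  · rfl

theorem onLine_lineOf' (z : PhasePoint) (s u : ℝ) :
    onLine (lineOf z s) u = (z.1 + (u - s) • z.2, z.2) := by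
  unfold onLine lineOf
  ext1
  · simp only [sub_smul]
    abel
  · rfl

theorem lineOf_onLine (ℓ : PhasePoint) (s : ℝ) : lineOf (onLine ℓ s) s = ℓ := by
  unfold onLine lineOf
  ext1
  · simp
  · rfl

theorem onLine_injective {ℓ ℓ' : PhasePoint} {u : ℝ} (h : onLine ℓ u = onLine ℓ' u) : ℓ = ℓ' := by
  rw [← lineOf_onLine ℓ u, h, lineOf_onLine]

/-- Impact parameter of a unit vector `e` with respect to a velocity `g` with `e · g < 0`. -/
theorem exists_impact {e g : Space3} (he : ‖e‖ = 1) (hg : inner ℝ e g < 0) :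
    ∃ b ∈ impactDisc g, entrancePoint b g = e := by
  have hg0 : g ≠ 0 := by
    rintro rfl
    simp at hg
  have hn : 0 < ‖g‖ := norm_pos_iff.2 hg0
  set c : ℝ := inner ℝ e g with hc
  refine ⟨e - (c / ‖g‖ ^ 2) • g, ⟨?_, ?_⟩, ?_⟩
  · rw [inner_sub_left, inner_smul_left, real_inner_self_eq_norm_sq]
    simp only [conj_trivial]
    field_simp
    rw [hc]
    ring
  · have h1 : ‖e - (c / ‖g‖ ^ 2) • g‖ ^ 2 = 1 - c ^ 2 / ‖g‖ ^ 2 := by
      rw [norm_sub_sq_real, he, inner_smul_right, norm_smul, mul_pow, Real.norm_eq_abs, sq_abs,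
        ← hc]
      field_simp
      ring
    have h2 : 0 < c ^ 2 / ‖g‖ ^ 2 := by
      have : c ≠ 0 := hg.ne
      positivity
    by_contra h3
    rw [not_lt] at h3
    nlinarith [norm_nonneg (e - (c / ‖g‖ ^ 2) • g)]
  · have h1 : ‖e - (c / ‖g‖ ^ 2) • g‖ ^ 2 = 1 - c ^ 2 / ‖g‖ ^ 2 := by
      rw [norm_sub_sq_real, he, inner_smul_right, norm_smul, mul_pow, Real.norm_eq_abs, sq_abs,
        ← hc]
      field_simp
      ring
    have h2 : Real.sqrt (1 - ‖e - (c / ‖g‖ ^ 2) • g‖ ^ 2) = -c / ‖g‖ := by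
      rw [h1]
      have h3 : 1 - (1 - c ^ 2 / ‖g‖ ^ 2) = (-c / ‖g‖) ^ 2 := by
        rw [div_pow, neg_sq]
        ring
      rw [h3, Real.sqrt_sq]
      exact div_nonneg (by linarith) hn.le
    unfold entrancePoint
    rw [h2]
    have h4 : -c / ‖g‖ / ‖g‖ = -(c / ‖g‖ ^ 2) := by
      field_simp
    rw [h4, neg_smul]
    abel

/-- The relative motion of an isolated pair, backwards in time. -/
theorem pair_relFlow (hΦ : AdmissiblePotential Φ) (hε : 0 < ε) {ι : Type*} [Fintype ι]
    {γ : ℝ → ι → PhasePoint} {a s : ℝ} (has : a ≤ s) {i j : ι} (hij : i ≠ j)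
    (hγ : SolOn Φ ε γ (Icc a s))
    (hiso : ∀ u ∈ Icc a s, ∀ k, k ≠ i → k ≠ j →
      ε ≤ dist (γ u i).1 (γ u k).1 ∧ ε ≤ dist (γ u j).1 (γ u k).1)
    (hne : (γ s i).1 ≠ (γ s j).1) {u : ℝ} (hu : u ∈ Icc a s) :
    let e : Space3 := -((1 / ε) • ((γ s i).1 - (γ s j).1))
    let g : Space3 := (γ s i).2 - (γ s j).2
    let c : Space3 := (1 / 2 : ℝ) • ((γ s i).1 + (γ s j).1)
    let V : Space3 := (1 / 2 : ℝ) • ((γ s i).2 + (γ s j).2)
    γ u i = (c + (u - s) • V - (ε / 2) • (Scat818.relFlow Φ ((s - u) / ε) (e, g)).1,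
        V + (1 / 2 : ℝ) • (Scat818.relFlow Φ ((s - u) / ε) (e, g)).2) ∧
      γ u j = (c + (u - s) • V + (ε / 2) • (Scat818.relFlow Φ ((s - u) / ε) (e, g)).1,
        V - (1 / 2 : ℝ) • (Scat818.relFlow Φ ((s - u) / ε) (e, g)).2) := by
  intro e g c V
  have he : e ≠ 0 := neg_ne_zero.2 (smul_ne_zero (by positivity) (sub_ne_zero.2 hne))
  have hreg : Scat818.Reg Φ e := Or.inl he
  have hrel := (Scat818.isRel_relFlow hΦ (z := (e, g)) hreg).negReverse hΦ
  -- the embedding of the pair
  let f : Bool ↪ ι := ⟨fun b => if b then i else j, by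
    intro x y hxy
    rcases x with _ | _ <;> rcases y with _ | _
    · rfl
    · exact absurd hxy.symm (by simpa using hij)
    · exact absurd hxy (by simpa using hij)
    · rfl⟩
  have hft : f true = i := rfl
  have hff : f false = j := rfl
  have h1 : SolOn Φ ε (fun t b => γ t (f b)) (Icc a s) := by
    refine hγ.comp hΦ hε f fun t ht b k hk => ?_
    have hki : k ≠ i := fun h => hk ⟨true, h.symm⟩
    have hkj : k ≠ j := fun h => hk ⟨false, h.symm⟩
    rcases b with _ | _
    · exact (hiso t ht k hki hkj).2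
    · exact (hiso t ht k hki hkj).1
  have htwo : ∀ b : Bool, b = true ∨ b = false := fun b => by cases b <;> simp
  have h2 : SolOn Φ ε (fun u => Scat818.pairConf ε true (c + (u - s) • V) V
      (-(Scat818.relFlow Φ (-((u - s) / ε)) (e, g)).1)
      ((Scat818.relFlow Φ (-((u - s) / ε)) (e, g)).2)) (Icc a s) :=
    SolOn.of_hasDerivAt fun u => Scat818.hasDerivAt_pairConf hΦ hε (i := true) (j := false)
      (by simp) htwo hrel c V s u
  have h3 : (fun b => γ s (f b)) = Scat818.pairConf ε true (c + (s - s) • V) V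
      (-(Scat818.relFlow Φ (-((s - s) / ε)) (e, g)).1)
      ((Scat818.relFlow Φ (-((s - s) / ε)) (e, g)).2) := by
    rw [sub_self, zero_smul, zero_div, neg_zero, Scat818.relFlow_zero hΦ, add_zero, neg_neg]
    exact Scat818.eq_pairConf hε (i := true) (j := false) (by simp) htwo (fun b => γ s (f b))
  have hdom : (fun b => γ s (f b)) ∈ Dom Φ Bool := by
    refine Or.inr fun b b' hbb => ?_
    rcases b with _ | _ <;> rcases b' with _ | _
    · exact absurd rfl hbb
    · exact hne.symm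
    · exact hne
    · exact absurd rfl hbb
  have h4 := SolOn.eqOn hΦ hε h1 h2 ⟨has, le_rfl⟩ hdom h3 hu
  have h5 : -((u - s) / ε) = (s - u) / ε := by ring
  simp only [h5] at h4
  constructor
  · have h6 := congrFun h4 true
    rw [Scat818.pairConf_left] at h6
    have h7 : γ u i = (c + (u - s) • V + (ε / 2) • (-(Scat818.relFlow Φ ((s - u) / ε) (e, g)).1),
        V + (1 / 2 : ℝ) • (Scat818.relFlow Φ ((s - u) / ε) (e, g)).2) := h6
    rw [h7, smul_neg, ← sub_eq_add_neg]
  · have h6 := congrFun h4 false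
    rw [Scat818.pairConf_right ε (by simp)] at h6
    have h7 : γ u j = (c + (u - s) • V - (ε / 2) • (-(Scat818.relFlow Φ ((s - u) / ε) (e, g)).1),
        V - (1 / 2 : ℝ) • (Scat818.relFlow Φ ((s - u) / ε) (e, g)).2) := h6
    rw [h7, smul_neg, sub_neg_eq_add]

/-- **The passage of an isolated pair** in outgoing parameters. -/
theorem pair_passage (hΦ : AdmissiblePotential Φ) (hε : 0 < ε) {ι : Type*} [Fintype ι]
    {γ : ℝ → ι → PhasePoint} {s' s : ℝ} (hss : s' < s) {i j : ι} (hij : i ≠ j)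
    (hγ : SolOn Φ ε γ (Icc s' s))
    (hiso : ∀ u ∈ Icc s' s, ∀ k, k ≠ i → k ≠ j →
      ε ≤ dist (γ u i).1 (γ u k).1 ∧ ε ≤ dist (γ u j).1 (γ u k).1)
    (hs : dist (γ s i).1 (γ s j).1 = ε) (hs' : dist (γ s' i).1 (γ s' j).1 = ε)
    (hout : 0 < inner ℝ ((γ s i).1 - (γ s j).1) ((γ s i).2 - (γ s j).2)) :
    ∃ y : Plane, Adm1 Φ (γ s i).2 (s, (γ s j).2, y) ∧
      Tree674.sin Φ ε (γ s i).2 (s, (γ s j).2, y) = s' ∧
      outLine ε (lineOf (γ s i) s) (s, (γ s j).2, y) = lineOf (γ s j) s ∧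
      ∀ u ∈ Icc s' s, pairPath Φ ε (lineOf (γ s i) s) (s, (γ s j).2, y) u = (γ u i, γ u j) := by
  set e : Space3 := -((1 / ε) • ((γ s i).1 - (γ s j).1)) with hedef
  set g : Space3 := (γ s i).2 - (γ s j).2 with hgdef
  have hne : (γ s i).1 ≠ (γ s j).1 := by
    intro h
    rw [h, dist_self] at hs
    exact hε.ne hs
  have henorm : ‖e‖ = 1 := by
    rw [hedef, norm_neg, norm_smul, ← dist_eq_norm, hs, Real.norm_eq_abs, abs_of_pos (by positivity),
      one_div, inv_mul_cancel₀ hε.ne']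
  have heg : inner ℝ e g < 0 := by
    rw [hedef, inner_neg_left, inner_smul_left]
    simp only [conj_trivial]
    have : 0 < 1 / ε * inner ℝ ((γ s i).1 - (γ s j).1) g := mul_pos (by positivity) hout
    linarith
  obtain ⟨b, hb, hbe⟩ := exists_impact henorm heg
  have hg0 : g ≠ 0 := by
    rintro h
    rw [h] at heg
    simp at heg
  obtain ⟨y, hy⟩ : b ∈ Set.range (frameMap g) := by
    rw [range_frameMap hg0]
    exact hb.1
  have hynorm : ‖y‖ < 1 := by
    rw [← norm_frameMap hg0 y, hy]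
    exact hb.2
  have hpos : 0 < (s - s') / ε := div_pos (by linarith) hε
  -- the relative motion
  have hmot := fun u (hu : u ∈ Icc s' s) => pair_relFlow hΦ hε hss.le hij hγ hiso hne hu
  have hdist : ∀ u ∈ Icc s' s, dist (γ u i).1 (γ u j).1 =
      ε * ‖(Scat818.relFlow Φ ((s - u) / ε) (e, g)).1‖ := by
    intro u hu
    obtain ⟨h1, h2⟩ := hmot u hu
    rw [dist_eq_norm, h1, h2]
    simp only
    rw [show ∀ (A B : Space3), A - B - (A + B) = -(2 : ℝ) • B from fun A B => by module,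
      smul_smul, norm_smul, Real.norm_eq_abs, ← hedef, ← hgdef]
    congr 1
    rw [show -(2 : ℝ) * (ε / 2) = -ε by ring, abs_neg, abs_of_pos hε]
  have hreg : Scat818.Reg Φ (entrancePoint b g) := Scat818.reg_entrance Φ hb hg0
  have hinc : Scat818.inc b g = (e, g) := by
    unfold Scat818.inc
    rw [hbe]
  have h1 : ‖(Scat818.relFlow Φ ((s - s') / ε) (Scat818.inc b g)).1‖ = 1 := by
    have h2 := hdist s' ⟨le_rfl, hss.le⟩
    rw [hs', ← hinc] at h2
    have h3 : ε * 1 = ε * ‖(Scat818.relFlow Φ ((s - s') / ε) (Scat818.inc b g)).1‖ := by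
      rw [mul_one]
      exact h2
    exact (mul_left_cancel₀ hε.ne' h3).symm
  obtain ⟨τ, hτ, hex⟩ := Scat818.exists_exit_le hΦ (z := Scat818.inc b g) hreg
    (Scat818.enters_inc hΦ hb hg0) hpos h1.ge
  have hτeq : τ = (s - s') / ε := by
    rcases eq_or_lt_of_le hτ with h | h
    · exact h
    · exact absurd h1 (hex.one_lt_norm hΦ hreg h).ne'
  have hNT : NT Φ b g := (Scat818.exists_passage_iff hΦ hreg).2 ⟨τ, hex⟩
  have hnb : nb (γ s i).2 (s, (γ s j).2, y) = b := hy
  have hng : ng (γ s i).2 (s, (γ s j).2, y) = g := rfl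
  have hadm : Adm1 Φ (γ s i).2 (s, (γ s j).2, y) := by
    refine ⟨hynorm, sub_ne_zero.1 hg0, ?_⟩
    rw [hnb, hng]
    exact hNT
  have htau : Tree674.tau Φ b g = (s - s') / ε := by
    have h2 := hasExit hΦ hadm
    rw [hnb, hng] at h2
    rw [← hτeq]
    exact Scat818.HasExit.unique h2 hex
  refine ⟨y, hadm, ?_, ?_, ?_⟩
  · unfold Tree674.sin
    rw [hnb, hng, htau]
    show s - ε * ((s - s') / ε) = s'
    field_simp
    ring
  · unfold outLine
    rw [show (lineOf (γ s i) s).2 = (γ s i).2 from rfl, hnb, hng, hbe, hedef]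
    unfold lineOf
    refine Prod.ext ?_ rfl
    simp only
    rw [smul_neg, smul_smul, mul_one_div_cancel hε.ne', one_smul]
    abel
  · intro u hu
    obtain ⟨h2, h3⟩ := hmot u hu
    have hadm' : Adm1 Φ (lineOf (γ s i) s).2 (s, (γ s j).2, y) := hadm
    have hq : qpath Φ b g ((s - u) / ε) = (Scat818.relFlow Φ ((s - u) / ε) (e, g)).1 := by
      have := PathFlow968.qpath_eq hΦ hadm ((s - u) / ε)
      rwa [hnb, hng, hinc] at this
    have hq' : deriv (qpath Φ b g) ((s - u) / ε) =
        (Scat818.relFlow Φ ((s - u) / ε) (e, g)).2 := by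
      have := PathFlow968.deriv_qpath_eq hΦ hadm ((s - u) / ε)
      rwa [hnb, hng, hinc] at this
    have hc : cms ε (lineOf (γ s i) s) (s, (γ s j).2, y) =
        (1 / 2 : ℝ) • ((γ s i).1 + (γ s j).1) := by
      unfold cms
      rw [show (lineOf (γ s i) s).2 = (γ s i).2 from rfl, hnb, hng, hbe, hedef]
      unfold lineOf
      simp only
      rw [smul_neg, smul_smul, show ε / 2 * (1 / ε) = 1 / 2 by field_simp]
      module
    have hV : cmv (lineOf (γ s i) s).2 (s, (γ s j).2, y) =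
        (1 / 2 : ℝ) • ((γ s i).2 + (γ s j).2) := rfl
    unfold pairPath
    rw [hc, hV, show (lineOf (γ s i) s).2 = (γ s i).2 from rfl, hnb, hng]
    simp only
    rw [hq, hq', h2, h3]

end Crest.Agent.R122.Surj968

end
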