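import Crest.Agent.R122.PathCausal_968
import Crest.Agent.R122.SurjPair_968
import Crest.Agent.R122.TreeMeas_674

/-!
# Row 122, block D, D5 (helper968): grafting a cherry at a leaf of a tree

`graft P m` is the tree `P` with the leaf `m` replaced by a cherry `node leaf leaf`.  `old` are the
particles of `P`, `new` is the additional particle; `gpar` are the parameters.  All objects attached
to trees are computed for the grafted tree.
-/

set_option autoImplicit false

open MeasureTheory Set Filter Topology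
open Crest.AnalysisR.Kinetic
open scoped Classical ENNReal

noncomputable section

namespace Crest.Agent.R122.Graft968

open Kin796 Kin796.CTree Disc416 Tree674 Flow671 Loc45 Causal291 PathFlow968

variable {Φ : Space3 → ℝ} {ε : ℝ}

/-! ### Definitions -/

/-- `P` with the leaf `m` replaced by a cherry. -/
def graft : ∀ P : CTree, Idx P → CTree
  | leaf, _ => node leaf leaf
  | node l r, Sum.inl m => node (graft l m) r
  | node l r, Sum.inr m => node l (graft r m)

/-- The particles of `P` in the grafted tree. -/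
def old : ∀ (P : CTree) (m : Idx P), Idx P → Idx (graft P m)
  | leaf, _, _ => (Sum.inl () : Unit ⊕ Unit)
  | node _ _, Sum.inl _, Sum.inr k => (Sum.inr k : _ ⊕ _)
  | node l _, Sum.inl m, Sum.inl k => (Sum.inl (old l m k) : _ ⊕ _)
  | node _ _, Sum.inr _, Sum.inl k => (Sum.inl k : _ ⊕ _)
  | node _ r, Sum.inr m, Sum.inr k => (Sum.inr (old r m k) : _ ⊕ _)

/-- The additional particle of the grafted tree. -/
def new : ∀ (P : CTree) (m : Idx P), Idx (graft P m)
  | leaf, _ => (Sum.inr () : Unit ⊕ Unit)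
  | node l _, Sum.inl m => (Sum.inl (new l m) : _ ⊕ _)
  | node _ r, Sum.inr m => (Sum.inr (new r m) : _ ⊕ _)

/-- Parameters of the grafted tree. -/
def gpar : ∀ (P : CTree) (m : Idx P), NodeP × Par P → Par (graft P m)
  | leaf, _ => fun q => (q.1, (), ())
  | node l _, Sum.inl m => fun q => (q.2.1, gpar l m (q.1, q.2.2.1), q.2.2.2)
  | node _ r, Sum.inr m => fun q => (q.2.1, q.2.2.1, gpar r m (q.1, q.2.2.2))

/-- All entrance times are after `s`. -/
def After (Φ : Space3 → ℝ) (ε s : ℝ) : ∀ P : CTree, Space3 → Par P → Prop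
  | leaf, _, _ => True
  | node l r, v, p => s < Tree674.sin Φ ε v p.1 ∧ After Φ ε s l (preV Φ v p.1).1 p.2.1 ∧
      After Φ ε s r (preV Φ v p.1).2 p.2.2

/-- The entrance time of the first node of the leaf `m` (`T` if there is none). -/
def entr (Φ : Space3 → ℝ) (ε : ℝ) : ∀ P : CTree, ℝ → Space3 → Par P → Idx P → ℝ
  | leaf, T, _, _, _ => T
  | node l _, _, v, p, Sum.inl m =>
      entr Φ ε l (Tree674.sin Φ ε v p.1) (preV Φ v p.1).1 p.2.1 m
  | node _ r, _, v, p, Sum.inr m =>
      entr Φ ε r (Tree674.sin Φ ε v p.1) (preV Φ v p.1).2 p.2.2 m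


/-! ### Particles -/

theorem old_injective : ∀ (P : CTree) (m : Idx P), Function.Injective (old P m)
  | leaf, _, _, _, _ => rfl
  | node l r, Sum.inl m, k, k', h => by
      rcases k with k | k <;> rcases k' with k' | k'
      · exact congrArg Sum.inl (old_injective l m (Sum.inl_injective h))
      · exact absurd h (by rintro ⟨⟩)
      · exact absurd h (by rintro ⟨⟩)
      · exact congrArg Sum.inr (Sum.inr_injective h)
  | node l r, Sum.inr m, k, k', h => by
      rcases k with k | k <;> rcases k' with k' | k'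
      · exact congrArg Sum.inl (Sum.inl_injective h)
      · exact absurd h (by rintro ⟨⟩)
      · exact absurd h (by rintro ⟨⟩)
      · exact congrArg Sum.inr (old_injective r m (Sum.inr_injective h))

theorem old_ne_new : ∀ (P : CTree) (m k : Idx P), old P m k ≠ new P m
  | leaf, _, _ => by rintro ⟨⟩
  | node l r, Sum.inl m, Sum.inl k => fun h => old_ne_new l m k (Sum.inl_injective h)
  | node l r, Sum.inl m, Sum.inr k => by rintro ⟨⟩
  | node l r, Sum.inr m, Sum.inl k => by rintro ⟨⟩
  | node l r, Sum.inr m, Sum.inr k => fun h => old_ne_new r m k (Sum.inr_injective h)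

theorem eq_new_or_old : ∀ (P : CTree) (m : Idx P) (x : Idx (graft P m)),
    x = new P m ∨ ∃ k, x = old P m k
  | leaf, _, Sum.inl _ => Or.inr ⟨(), rfl⟩
  | leaf, _, Sum.inr _ => Or.inl rfl
  | node l r, Sum.inl m, Sum.inl x => by
      rcases eq_new_or_old l m x with h | ⟨k, h⟩
      · exact Or.inl (congrArg Sum.inl h)
      · exact Or.inr ⟨Sum.inl k, congrArg Sum.inl h⟩
  | node l r, Sum.inl m, Sum.inr x => Or.inr ⟨Sum.inr x, rfl⟩
  | node l r, Sum.inr m, Sum.inl x => Or.inr ⟨Sum.inl x, rfl⟩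
  | node l r, Sum.inr m, Sum.inr x => by
      rcases eq_new_or_old r m x with h | ⟨k, h⟩
      · exact Or.inl (congrArg Sum.inr h)
      · exact Or.inr ⟨Sum.inr k, congrArg Sum.inr h⟩

/-- The particles of the grafted tree. -/
def gE (P : CTree) (m : Idx P) : Option (Idx P) ≃ Idx (graft P m) :=
  Equiv.ofBijective (fun o => o.elim (new P m) (old P m)) ⟨by
    rintro (_ | k) (_ | k') h
    · rfl
    · exact absurd h.symm (old_ne_new P m k')
    · exact absurd h (old_ne_new P m k)
    · exact congrArg some (old_injective P m h), by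
    intro x
    rcases eq_new_or_old P m x with h | ⟨k, h⟩
    · exact ⟨none, h.symm⟩
    · exact ⟨some k, h.symm⟩⟩

@[simp] theorem gE_none (P : CTree) (m : Idx P) : gE P m none = new P m := rfl

@[simp] theorem gE_some (P : CTree) (m k : Idx P) : gE P m (some k) = old P m k := rfl

@[simp] theorem gE_symm_new (P : CTree) (m : Idx P) : (gE P m).symm (new P m) = none :=
  (gE P m).symm_apply_eq.2 rfl

@[simp] theorem gE_symm_old (P : CTree) (m k : Idx P) : (gE P m).symm (old P m k) = some k :=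
  (gE P m).symm_apply_eq.2 rfl

/-- Case distinction on the particles of the grafted tree. -/
theorem gcases {P : CTree} {m : Idx P} {motive : Idx (graft P m) → Prop} (hn : motive (new P m))
    (ho : ∀ k, motive (old P m k)) (x : Idx (graft P m)) : motive x := by
  rcases eq_new_or_old P m x with h | ⟨k, h⟩
  · rw [h]; exact hn
  · rw [h]; exact ho k

theorem root_graft : ∀ (P : CTree) (m : Idx P), root (graft P m) = old P m (root P)
  | leaf, _ => rfl
  | node l _, Sum.inl m => congrArg Sum.inl (root_graft l m)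
  | node _ _, Sum.inr _ => rfl

theorem leaves_graft : ∀ (P : CTree) (m : Idx P), (graft P m).leaves = P.leaves + 1
  | leaf, _ => rfl
  | node l r, Sum.inl m => by
      show (graft l m).leaves + r.leaves = l.leaves + r.leaves + 1
      rw [leaves_graft l m]; omega
  | node l r, Sum.inr m => by
      show l.leaves + (graft r m).leaves = l.leaves + r.leaves + 1
      rw [leaves_graft r m]; omega

theorem size_graft : ∀ (P : CTree) (m : Idx P), (graft P m).size = P.size + 1
  | leaf, _ => rfl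
  | node l r, Sum.inl m => by
      show (graft l m).size + r.size + 1 = l.size + r.size + 1 + 1
      rw [size_graft l m]; omega
  | node l r, Sum.inr m => by
      show l.size + (graft r m).size + 1 = l.size + r.size + 1 + 1
      rw [size_graft r m]; omega

/-! ### Lines, validity, weight -/

theorem lines_snd : ∀ (P : CTree) (ℓ : PhasePoint) (p : Par P) (k : Idx P),
    (lines Φ ε P ℓ p k).2 = vels Φ P ℓ.2 p k
  | leaf, _, _, _ => rfl
  | node l _, ℓ, p, Sum.inl k => lines_snd l (inMap Φ ε ℓ p.1).1 p.2.1 k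
  | node _ r, ℓ, p, Sum.inr k => lines_snd r (inMap Φ ε ℓ p.1).2 p.2.2 k

theorem adm_graft : ∀ (P : CTree) (m : Idx P) (v : Space3) (a : NodeP) (p : Par P),
    Adm Φ (graft P m) v (gpar P m (a, p)) ↔ Adm Φ P v p ∧ Adm1 Φ (vels Φ P v p m) a
  | leaf, _, v, a, _ => by
      show (Adm1 Φ v a ∧ True ∧ True) ↔ True ∧ Adm1 Φ v a
      tauto
  | node l r, Sum.inl m, v, a, p => by
      show (Adm1 Φ v p.1 ∧ Adm Φ (graft l m) (preV Φ v p.1).1 (gpar l m (a, p.2.1)) ∧
          Adm Φ r (preV Φ v p.1).2 p.2.2) ↔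
        (Adm1 Φ v p.1 ∧ Adm Φ l (preV Φ v p.1).1 p.2.1 ∧ Adm Φ r (preV Φ v p.1).2 p.2.2) ∧
          Adm1 Φ (vels Φ l (preV Φ v p.1).1 p.2.1 m) a
      rw [adm_graft l m]
      tauto
  | node l r, Sum.inr m, v, a, p => by
      show (Adm1 Φ v p.1 ∧ Adm Φ l (preV Φ v p.1).1 p.2.1 ∧
          Adm Φ (graft r m) (preV Φ v p.1).2 (gpar r m (a, p.2.2))) ↔
        (Adm1 Φ v p.1 ∧ Adm Φ l (preV Φ v p.1).1 p.2.1 ∧ Adm Φ r (preV Φ v p.1).2 p.2.2) ∧
          Adm1 Φ (vels Φ r (preV Φ v p.1).2 p.2.2 m) a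
      rw [adm_graft r m]
      tauto

theorem ord_graft : ∀ (P : CTree) (m : Idx P) (T : ℝ) (v : Space3) (a : NodeP) (p : Par P),
    Ord Φ ε (graft P m) T v (gpar P m (a, p)) ↔ Ord Φ ε P T v p ∧ a.1 < entr Φ ε P T v p m ∧
      0 < Tree674.sin Φ ε (vels Φ P v p m) a
  | leaf, _, T, v, a, _ => by
      show (a.1 < T ∧ 0 < Tree674.sin Φ ε v a ∧ True ∧ True) ↔
        True ∧ a.1 < T ∧ 0 < Tree674.sin Φ ε v a
      tauto
  | node l r, Sum.inl m, T, v, a, p => by
      show (p.1.1 < T ∧ 0 < Tree674.sin Φ ε v p.1 ∧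
          Ord Φ ε (graft l m) (Tree674.sin Φ ε v p.1) (preV Φ v p.1).1 (gpar l m (a, p.2.1)) ∧
          Ord Φ ε r (Tree674.sin Φ ε v p.1) (preV Φ v p.1).2 p.2.2) ↔
        (p.1.1 < T ∧ 0 < Tree674.sin Φ ε v p.1 ∧
          Ord Φ ε l (Tree674.sin Φ ε v p.1) (preV Φ v p.1).1 p.2.1 ∧
          Ord Φ ε r (Tree674.sin Φ ε v p.1) (preV Φ v p.1).2 p.2.2) ∧
        a.1 < entr Φ ε l (Tree674.sin Φ ε v p.1) (preV Φ v p.1).1 p.2.1 m ∧
          0 < Tree674.sin Φ ε (vels Φ l (preV Φ v p.1).1 p.2.1 m) a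
      rw [ord_graft l m]
      tauto
  | node l r, Sum.inr m, T, v, a, p => by
      show (p.1.1 < T ∧ 0 < Tree674.sin Φ ε v p.1 ∧
          Ord Φ ε l (Tree674.sin Φ ε v p.1) (preV Φ v p.1).1 p.2.1 ∧
          Ord Φ ε (graft r m) (Tree674.sin Φ ε v p.1) (preV Φ v p.1).2 (gpar r m (a, p.2.2))) ↔
        (p.1.1 < T ∧ 0 < Tree674.sin Φ ε v p.1 ∧
          Ord Φ ε l (Tree674.sin Φ ε v p.1) (preV Φ v p.1).1 p.2.1 ∧
          Ord Φ ε r (Tree674.sin Φ ε v p.1) (preV Φ v p.1).2 p.2.2) ∧
        a.1 < entr Φ ε r (Tree674.sin Φ ε v p.1) (preV Φ v p.1).2 p.2.2 m ∧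
          0 < Tree674.sin Φ ε (vels Φ r (preV Φ v p.1).2 p.2.2 m) a
      rw [ord_graft r m]
      tauto

/-- **Validity of the grafted tree.** -/
theorem valid_graft {P : CTree} {m : Idx P} {T : ℝ} {v : Space3} {a : NodeP} {p : Par P} :
    Valid Φ ε (graft P m) T v (gpar P m (a, p)) ↔ Valid Φ ε P T v p ∧
      Adm1 Φ (vels Φ P v p m) a ∧ a.1 < entr Φ ε P T v p m ∧
        0 < Tree674.sin Φ ε (vels Φ P v p m) a := by
  unfold Valid
  rw [adm_graft, ord_graft]
  tauto

theorem after_graft (s : ℝ) : ∀ (P : CTree) (m : Idx P) (v : Space3) (a : NodeP) (p : Par P),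
    After Φ ε s (graft P m) v (gpar P m (a, p)) ↔ After Φ ε s P v p ∧
      s < Tree674.sin Φ ε (vels Φ P v p m) a
  | leaf, _, v, a, _ => by
      show (s < Tree674.sin Φ ε v a ∧ True ∧ True) ↔ True ∧ s < Tree674.sin Φ ε v a
      tauto
  | node l r, Sum.inl m, v, a, p => by
      show (s < Tree674.sin Φ ε v p.1 ∧
          After Φ ε s (graft l m) (preV Φ v p.1).1 (gpar l m (a, p.2.1)) ∧
          After Φ ε s r (preV Φ v p.1).2 p.2.2) ↔
        (s < Tree674.sin Φ ε v p.1 ∧ After Φ ε s l (preV Φ v p.1).1 p.2.1 ∧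
          After Φ ε s r (preV Φ v p.1).2 p.2.2) ∧
          s < Tree674.sin Φ ε (vels Φ l (preV Φ v p.1).1 p.2.1 m) a
      rw [after_graft s l m]
      tauto
  | node l r, Sum.inr m, v, a, p => by
      show (s < Tree674.sin Φ ε v p.1 ∧ After Φ ε s l (preV Φ v p.1).1 p.2.1 ∧
          After Φ ε s (graft r m) (preV Φ v p.1).2 (gpar r m (a, p.2.2))) ↔
        (s < Tree674.sin Φ ε v p.1 ∧ After Φ ε s l (preV Φ v p.1).1 p.2.1 ∧
          After Φ ε s r (preV Φ v p.1).2 p.2.2) ∧
          s < Tree674.sin Φ ε (vels Φ r (preV Φ v p.1).2 p.2.2 m) a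
      rw [after_graft s r m]
      tauto

theorem wt_graft : ∀ (P : CTree) (m : Idx P) (v : Space3) (a : NodeP) (p : Par P),
    wt Φ (graft P m) v (gpar P m (a, p)) =
      wt Φ P v p * ENNReal.ofReal ‖vels Φ P v p m - a.2.1‖
  | leaf, _, v, a, _ => by
      show ENNReal.ofReal ‖v - a.2.1‖ * (1 * 1) = 1 * ENNReal.ofReal ‖v - a.2.1‖
      ring
  | node l r, Sum.inl m, v, a, p => by
      show ENNReal.ofReal ‖v - p.1.2.1‖ *
          (wt Φ (graft l m) (preV Φ v p.1).1 (gpar l m (a, p.2.1)) * wt Φ r (preV Φ v p.1).2 p.2.2) =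
        ENNReal.ofReal ‖v - p.1.2.1‖ *
          (wt Φ l (preV Φ v p.1).1 p.2.1 * wt Φ r (preV Φ v p.1).2 p.2.2) *
          ENNReal.ofReal ‖vels Φ l (preV Φ v p.1).1 p.2.1 m - a.2.1‖
      rw [wt_graft l m]
      ring
  | node l r, Sum.inr m, v, a, p => by
      show ENNReal.ofReal ‖v - p.1.2.1‖ *
          (wt Φ l (preV Φ v p.1).1 p.2.1 * wt Φ (graft r m) (preV Φ v p.1).2 (gpar r m (a, p.2.2))) =
        ENNReal.ofReal ‖v - p.1.2.1‖ *
          (wt Φ l (preV Φ v p.1).1 p.2.1 * wt Φ r (preV Φ v p.1).2 p.2.2) *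
          ENNReal.ofReal ‖vels Φ r (preV Φ v p.1).2 p.2.2 m - a.2.1‖
      rw [wt_graft r m]
      ring

theorem lines_graft_of_ne : ∀ (P : CTree) (m : Idx P) (ℓ : PhasePoint) (a : NodeP) (p : Par P)
    (k : Idx P), k ≠ m → lines Φ ε (graft P m) ℓ (gpar P m (a, p)) (old P m k) = lines Φ ε P ℓ p k
  | leaf, _, _, _, _, _, h => absurd rfl h
  | node l _, Sum.inl m, ℓ, a, p, Sum.inl k, h =>
      lines_graft_of_ne l m (inMap Φ ε ℓ p.1).1 a p.2.1 k fun h' => h (congrArg Sum.inl h')
  | node _ _, Sum.inl _, _, _, _, Sum.inr _, _ => rfl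
  | node _ _, Sum.inr _, _, _, _, Sum.inl _, _ => rfl
  | node _ r, Sum.inr m, ℓ, a, p, Sum.inr k, h =>
      lines_graft_of_ne r m (inMap Φ ε ℓ p.1).2 a p.2.2 k fun h' => h (congrArg Sum.inr h')

theorem lines_graft_self : ∀ (P : CTree) (m : Idx P) (ℓ : PhasePoint) (a : NodeP) (p : Par P),
    lines Φ ε (graft P m) ℓ (gpar P m (a, p)) (old P m m) = (inMap Φ ε (lines Φ ε P ℓ p m) a).1
  | leaf, _, _, _, _ => rfl
  | node l _, Sum.inl m, ℓ, a, p => lines_graft_self l m (inMap Φ ε ℓ p.1).1 a p.2.1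
  | node _ r, Sum.inr m, ℓ, a, p => lines_graft_self r m (inMap Φ ε ℓ p.1).2 a p.2.2

theorem lines_graft_new : ∀ (P : CTree) (m : Idx P) (ℓ : PhasePoint) (a : NodeP) (p : Par P),
    lines Φ ε (graft P m) ℓ (gpar P m (a, p)) (new P m) = (inMap Φ ε (lines Φ ε P ℓ p m) a).2
  | leaf, _, _, _, _ => rfl
  | node l _, Sum.inl m, ℓ, a, p => lines_graft_new l m (inMap Φ ε ℓ p.1).1 a p.2.1
  | node _ r, Sum.inr m, ℓ, a, p => lines_graft_new r m (inMap Φ ε ℓ p.1).2 a p.2.2

theorem prot_graft_old : ∀ (P : CTree) (m : Idx P) (T : ℝ) (a : NodeP) (p : Par P) (k : Idx P),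
    prot (graft P m) T (gpar P m (a, p)) (old P m k) = prot P T p k
  | leaf, _, _, _, _, _ => rfl
  | node l _, Sum.inl m, T, a, p, Sum.inl k => prot_graft_old l m T a p.2.1 k
  | node _ _, Sum.inl _, _, _, _, Sum.inr _ => rfl
  | node _ _, Sum.inr _, _, _, _, Sum.inl _ => rfl
  | node _ r, Sum.inr m, _, a, p, Sum.inr k => prot_graft_old r m p.1.1 a p.2.2 k

theorem prot_graft_new : ∀ (P : CTree) (m : Idx P) (T : ℝ) (a : NodeP) (p : Par P),
    prot (graft P m) T (gpar P m (a, p)) (new P m) = a.1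
  | leaf, _, _, _, _ => rfl
  | node l _, Sum.inl m, T, a, p => prot_graft_new l m T a p.2.1
  | node _ r, Sum.inr m, _, a, p => prot_graft_new r m p.1.1 a p.2.2


/-! ### Windows -/

theorem inWindow_graft_old : ∀ (P : CTree) (m : Idx P) (v : Space3) (a : NodeP) (p : Par P)
    (i j : Idx P) (u : ℝ), InWindow Φ ε (graft P m) v (gpar P m (a, p)) (old P m i) (old P m j) u ↔
      InWindow Φ ε P v p i j u
  | leaf, _, v, a, p, i, j, u => by
      constructor
      · rintro (⟨-, h, -⟩ | ⟨i', j', -, -, h⟩ | ⟨i', j', -, -, h⟩)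
        · exact absurd h (by rintro ⟨⟩)
        · exact h.elim
        · exact h.elim
      · intro h
        exact h.elim
  | node l r, Sum.inl m, v, a, p, i, j, u => by
      rcases i with i | i <;> rcases j with j | j
      · exact inWindow_inl.trans ((inWindow_graft_old l m _ a p.2.1 i j u).trans inWindow_inl.symm)
      · refine (inWindow_inl_inr (l := graft l m) (r := r) (i := old l m i) (j := j)).trans
          (Iff.trans ?_ inWindow_inl_inr.symm)
        rw [root_graft, (old_injective l m).eq_iff]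
        exact Iff.rfl
      · constructor
        · intro h
          exact absurd h (inWindow_inr_inl (l := graft l m) (r := r))
        · intro h
          exact absurd h inWindow_inr_inl
      · exact (inWindow_inr (l := graft l m) (r := r)).trans
          (inWindow_inr (l := l) (r := r) (p := p)).symm
  | node l r, Sum.inr m, v, a, p, i, j, u => by
      rcases i with i | i <;> rcases j with j | j
      · exact (inWindow_inl (l := l) (r := graft r m)).trans
          (inWindow_inl (l := l) (r := r) (p := p)).symm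
      · refine (inWindow_inl_inr (l := l) (r := graft r m) (i := i) (j := old r m j)).trans
          (Iff.trans ?_ inWindow_inl_inr.symm)
        rw [root_graft, (old_injective r m).eq_iff]
        exact Iff.rfl
      · constructor
        · intro h
          exact absurd h (inWindow_inr_inl (l := l) (r := graft r m))
        · intro h
          exact absurd h inWindow_inr_inl
      · exact inWindow_inr.trans ((inWindow_graft_old r m _ a p.2.2 i j u).trans inWindow_inr.symm)

theorem inWindow_graft_new : ∀ (P : CTree) (m : Idx P) (v : Space3) (a : NodeP) (p : Par P)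
    (i : Idx P) (u : ℝ), InWindow Φ ε (graft P m) v (gpar P m (a, p)) (old P m i) (new P m) u ↔
      i = m ∧ Tree674.sin Φ ε (vels Φ P v p m) a ≤ u ∧ u ≤ a.1
  | leaf, _, v, a, p, i, u => by
      constructor
      · rintro (⟨-, -, h⟩ | ⟨i', j', -, -, h⟩ | ⟨i', j', -, -, h⟩)
        · exact ⟨rfl, h⟩
        · exact h.elim
        · exact h.elim
      · rintro ⟨-, h⟩
        exact Or.inl ⟨rfl, rfl, h⟩
  | node l r, Sum.inl m, v, a, p, Sum.inl i, u => by
      refine (inWindow_inl (l := graft l m) (r := r)).trans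
        ((inWindow_graft_new l m _ a p.2.1 i u).trans ?_)
      exact and_congr_left fun _ => ⟨fun h => congrArg Sum.inl h, fun h => Sum.inl_injective h⟩
  | node l r, Sum.inl m, v, a, p, Sum.inr i, u => by
      constructor
      · intro h
        exact absurd h (inWindow_inr_inl (l := graft l m) (r := r))
      · rintro ⟨h, -⟩
        exact absurd h (by rintro ⟨⟩)
  | node l r, Sum.inr m, v, a, p, Sum.inl i, u => by
      constructor
      · intro h
        have h1 := (inWindow_inl_inr (l := l) (r := graft r m)).1 h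
        exact absurd h1.2.1 (by rw [root_graft]; exact (old_ne_new r m _).symm)
      · rintro ⟨h, -⟩
        exact absurd h (by rintro ⟨⟩)
  | node l r, Sum.inr m, v, a, p, Sum.inr i, u => by
      refine (inWindow_inr (l := l) (r := graft r m)).trans
        ((inWindow_graft_new r m _ a p.2.2 i u).trans ?_)
      exact and_congr_left fun _ => ⟨fun h => congrArg Sum.inr h, fun h => Sum.inr_injective h⟩

theorem not_inWindow_new : ∀ (P : CTree) (m : Idx P) (v : Space3) (a : NodeP) (p : Par P)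
    (x : Idx (graft P m)) (u : ℝ), ¬ InWindow Φ ε (graft P m) v (gpar P m (a, p)) (new P m) x u
  | leaf, _, v, a, p, x, u => by
      rintro (⟨h, -⟩ | ⟨i', j', -, -, h⟩ | ⟨i', j', -, -, h⟩)
      · exact absurd h (by rintro ⟨⟩)
      · exact h.elim
      · exact h.elim
  | node l r, Sum.inl m, v, a, p, Sum.inl x, u => fun h =>
      not_inWindow_new l m _ a p.2.1 x u ((inWindow_inl (l := graft l m) (r := r)).1 h)
  | node l r, Sum.inl m, v, a, p, Sum.inr x, u => fun h => by
      have h1 := (inWindow_inl_inr (l := graft l m) (r := r)).1 h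
      refine absurd h1.1 ?_
      rw [root_graft]
      exact (old_ne_new l m _).symm
  | node l r, Sum.inr m, v, a, p, Sum.inl x, u => fun h =>
      inWindow_inr_inl (l := l) (r := graft r m) h
  | node l r, Sum.inr m, v, a, p, Sum.inr x, u => fun h =>
      not_inWindow_new r m _ a p.2.2 x u ((inWindow_inr (l := l) (r := graft r m)).1 h)

/-! ### Final lines -/

theorem fin_graft_old : ∀ (P : CTree) (m : Idx P) (ℓ : PhasePoint) (a : NodeP) (p : Par P)
    (k : Idx P), fin Φ ε (graft P m) ℓ (gpar P m (a, p)) (old P m k) = fin Φ ε P ℓ p k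
  | leaf, _, _, _, _, _ => by
      show Function.update _ (root leaf) _ (root leaf) = _
      rw [Function.update_self]
      rfl
  | node l r, Sum.inl m, ℓ, a, p, Sum.inl k => by
      show Function.update (fin Φ ε (graft l m) (inMap Φ ε ℓ p.1).1 (gpar l m (a, p.2.1)))
          (root (graft l m)) ℓ (old l m k) =
        Function.update (fin Φ ε l (inMap Φ ε ℓ p.1).1 p.2.1) (root l) ℓ k
      rw [root_graft]
      by_cases hk : k = root l
      · subst hk
        rw [Function.update_self, Function.update_self]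
      · rw [Function.update_of_ne hk, Function.update_of_ne ((old_injective l m).ne hk),
          fin_graft_old l m]
  | node _ _, Sum.inl _, _, _, _, Sum.inr _ => rfl
  | node _ _, Sum.inr _, _, _, _, Sum.inl _ => rfl
  | node l r, Sum.inr m, ℓ, a, p, Sum.inr k => by
      show Function.update (fin Φ ε (graft r m) (inMap Φ ε ℓ p.1).2 (gpar r m (a, p.2.2)))
          (root (graft r m)) (outLine ε ℓ p.1) (old r m k) =
        Function.update (fin Φ ε r (inMap Φ ε ℓ p.1).2 p.2.2) (root r) (outLine ε ℓ p.1) k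
      rw [root_graft]
      by_cases hk : k = root r
      · subst hk
        rw [Function.update_self, Function.update_self]
      · rw [Function.update_of_ne hk, Function.update_of_ne ((old_injective r m).ne hk),
          fin_graft_old r m]

theorem fin_graft_new : ∀ (P : CTree) (m : Idx P) (ℓ : PhasePoint) (a : NodeP) (p : Par P),
    fin Φ ε (graft P m) ℓ (gpar P m (a, p)) (new P m) = outLine ε (lines Φ ε P ℓ p m) a
  | leaf, _, _, _, _ => by
      show Function.update _ (root leaf) _ (root leaf) = _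
      rw [Function.update_self]
      rfl
  | node l r, Sum.inl m, ℓ, a, p => by
      show Function.update (fin Φ ε (graft l m) (inMap Φ ε ℓ p.1).1 (gpar l m (a, p.2.1)))
          (root (graft l m)) ℓ (new l m) = outLine ε (lines Φ ε l (inMap Φ ε ℓ p.1).1 p.2.1 m) a
      rw [root_graft, Function.update_of_ne (old_ne_new l m _).symm, fin_graft_new l m]
  | node l r, Sum.inr m, ℓ, a, p => by
      show Function.update (fin Φ ε (graft r m) (inMap Φ ε ℓ p.1).2 (gpar r m (a, p.2.2)))
          (root (graft r m)) (outLine ε ℓ p.1) (new r m) =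
        outLine ε (lines Φ ε r (inMap Φ ε ℓ p.1).2 p.2.2 m) a
      rw [root_graft, Function.update_of_ne (old_ne_new r m _).symm, fin_graft_new r m]

/-! ### Paths -/

theorem entr_le (hε : 0 ≤ ε) : ∀ (P : CTree) (T : ℝ) (v : Space3) (p : Par P) (m : Idx P),
    Ord Φ ε P T v p → entr Φ ε P T v p m ≤ T
  | leaf, _, _, _, _, _ => le_rfl
  | node l _, _, v, p, Sum.inl m, h =>
      (entr_le hε l _ _ _ m h.2.2.1).trans ((sin_le hε v p.1).trans h.1.le)
  | node _ r, _, v, p, Sum.inr m, h =>
      (entr_le hε r _ _ _ m h.2.2.2).trans ((sin_le hε v p.1).trans h.1.le)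

/-- The path of a leaf before its first entrance time. -/
theorem path_of_le_entr (hε : 0 ≤ ε) : ∀ (P : CTree) (T : ℝ) (ℓ : PhasePoint) (p : Par P)
    (m : Idx P), Ord Φ ε P T ℓ.2 p → ∀ u, u ≤ entr Φ ε P T ℓ.2 p m →
    path Φ ε P ℓ p u m = onLine (lines Φ ε P ℓ p m) u
  | leaf, _, _, _, _, _, _, _ => rfl
  | node l _, _, ℓ, p, Sum.inl m, h, u, hu => by
      have hu' : u ≤ entr Φ ε l (Tree674.sin Φ ε ℓ.2 p.1) (preV Φ ℓ.2 p.1).1 p.2.1 m := hu
      rw [path_node_before ℓ p (hu'.trans (entr_le hε l _ _ _ m h.2.2.1))]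
      exact path_of_le_entr hε l _ (inMap Φ ε ℓ p.1).1 p.2.1 m h.2.2.1 u hu'
  | node _ r, _, ℓ, p, Sum.inr m, h, u, hu => by
      have hu' : u ≤ entr Φ ε r (Tree674.sin Φ ε ℓ.2 p.1) (preV Φ ℓ.2 p.1).2 p.2.2 m := hu
      rw [path_node_before ℓ p (hu'.trans (entr_le hε r _ _ _ m h.2.2.2))]
      exact path_of_le_entr hε r _ (inMap Φ ε ℓ p.1).2 p.2.2 m h.2.2.2 u hu'

/-- The path of a node after the entrance time (unconditional). -/
theorem path_node_gt {l r : CTree} (ℓ : PhasePoint) (p : Par (node l r)) {u : ℝ}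
    (hu : Tree674.sin Φ ε ℓ.2 p.1 < u) : path Φ ε (node l r) ℓ p u =
      Sum.elim
        (Function.update (path Φ ε l (inMap Φ ε ℓ p.1).1 p.2.1 u) (root l)
          (colPath Φ ε ℓ p.1 u).1)
        (Function.update (path Φ ε r (inMap Φ ε ℓ p.1).2 p.2.2 u) (root r)
          (colPath Φ ε ℓ p.1 u).2) := by
  simp only [path]
  rw [if_neg (not_le.2 hu)]

/-- Replacing the left branch. -/
theorem path_congr_left {l l' r : CTree} (f : Idx l → Idx l') (hf : Function.Injective f)
    (hr : root l' = f (root l)) (ℓ : PhasePoint) (a : NodeP) (q : Par l) (q' : Par l')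
    (q₂ : Par r) (u : ℝ) (k : Idx l)
    (h : path Φ ε l' (inMap Φ ε ℓ a).1 q' u (f k) = path Φ ε l (inMap Φ ε ℓ a).1 q u k) :
    path Φ ε (node l' r) ℓ (a, q', q₂) u (Sum.inl (f k)) =
      path Φ ε (node l r) ℓ (a, q, q₂) u (Sum.inl k) := by
  rcases le_or_gt u (Tree674.sin Φ ε ℓ.2 a) with h1 | h1
  · rw [path_node_before (l := l') (r := r) ℓ (a, q', q₂) h1,
      path_node_before (l := l) (r := r) ℓ (a, q, q₂) h1]
    exact h
  · rw [path_node_gt (l := l') (r := r) ℓ (a, q', q₂) h1,
      path_node_gt (l := l) (r := r) ℓ (a, q, q₂) h1, Sum.elim_inl, Sum.elim_inl, hr]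
    by_cases hk : k = root l
    · subst hk
      rw [Function.update_self, Function.update_self]
    · rw [Function.update_of_ne hk, Function.update_of_ne (hf.ne hk)]
      exact h

theorem path_congr_left' {l l' r : CTree} (ℓ : PhasePoint) (a : NodeP) (q : Par l) (q' : Par l')
    (q₂ : Par r) (u : ℝ) (k : Idx r) :
    path Φ ε (node l' r) ℓ (a, q', q₂) u (Sum.inr k) =
      path Φ ε (node l r) ℓ (a, q, q₂) u (Sum.inr k) := by
  rcases le_or_gt u (Tree674.sin Φ ε ℓ.2 a) with h1 | h1
  · rw [path_node_before (l := l') (r := r) ℓ (a, q', q₂) h1,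
      path_node_before (l := l) (r := r) ℓ (a, q, q₂) h1]
    rfl
  · rw [path_node_gt (l := l') (r := r) ℓ (a, q', q₂) h1,
      path_node_gt (l := l) (r := r) ℓ (a, q, q₂) h1]
    rfl

/-- Replacing the right branch. -/
theorem path_congr_right {l r r' : CTree} (f : Idx r → Idx r') (hf : Function.Injective f)
    (hr : root r' = f (root r)) (ℓ : PhasePoint) (a : NodeP) (q : Par l) (q₂ : Par r)
    (q₂' : Par r') (u : ℝ) (k : Idx r)
    (h : path Φ ε r' (inMap Φ ε ℓ a).2 q₂' u (f k) = path Φ ε r (inMap Φ ε ℓ a).2 q₂ u k) :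
    path Φ ε (node l r') ℓ (a, q, q₂') u (Sum.inr (f k)) =
      path Φ ε (node l r) ℓ (a, q, q₂) u (Sum.inr k) := by
  rcases le_or_gt u (Tree674.sin Φ ε ℓ.2 a) with h1 | h1
  · rw [path_node_before (l := l) (r := r') ℓ (a, q, q₂') h1,
      path_node_before (l := l) (r := r) ℓ (a, q, q₂) h1]
    exact h
  · rw [path_node_gt (l := l) (r := r') ℓ (a, q, q₂') h1,
      path_node_gt (l := l) (r := r) ℓ (a, q, q₂) h1, Sum.elim_inr, Sum.elim_inr, hr]
    by_cases hk : k = root r
    · subst hk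
      rw [Function.update_self, Function.update_self]
    · rw [Function.update_of_ne hk, Function.update_of_ne (hf.ne hk)]
      exact h

theorem path_congr_right' {l r r' : CTree} (ℓ : PhasePoint) (a : NodeP) (q : Par l) (q₂ : Par r)
    (q₂' : Par r') (u : ℝ) (k : Idx l) :
    path Φ ε (node l r') ℓ (a, q, q₂') u (Sum.inl k) =
      path Φ ε (node l r) ℓ (a, q, q₂) u (Sum.inl k) := by
  rcases le_or_gt u (Tree674.sin Φ ε ℓ.2 a) with h1 | h1
  · rw [path_node_before (l := l) (r := r') ℓ (a, q, q₂') h1,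
      path_node_before (l := l) (r := r) ℓ (a, q, q₂) h1]
    rfl
  · rw [path_node_gt (l := l) (r := r') ℓ (a, q, q₂') h1,
      path_node_gt (l := l) (r := r) ℓ (a, q, q₂) h1]
    rfl

/-- The other particles are not changed (and `m` is not changed after the exit time). -/
theorem path_graft_old (hΦ : AdmissiblePotential Φ) (hε : 0 < ε) : ∀ (P : CTree) (m : Idx P)
    (T : ℝ) (ℓ : PhasePoint) (a : NodeP) (p : Par P),
    Valid Φ ε (graft P m) T ℓ.2 (gpar P m (a, p)) → ∀ u k, (k ≠ m ∨ a.1 ≤ u) →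
    path Φ ε (graft P m) ℓ (gpar P m (a, p)) u (old P m k) = path Φ ε P ℓ p u k := by
  intro P
  induction P with
  | leaf =>
    intro m T ℓ a p hv u k hk
    rcases hk with hk | hk
    · exact absurd rfl hk
    have h1 : Tree674.sin Φ ε ℓ.2 a ≤ u := (sin_le hε.le ℓ.2 a).trans hk
    have h2 := congrFun (path_node_after hΦ hε (l := leaf) (r := leaf)
      (p := gpar leaf () (a, ())) hv h1) (Sum.inl (root leaf))
    refine h2.trans ?_
    rw [Sum.elim_inl, Function.update_self]
    have h3 : pairPath Φ ε ℓ a u = _ := pairPath_after hΦ hε hv.1.1 hk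
    exact congrArg Prod.fst h3
  | node l r ihl ihr =>
    intro m T ℓ a p hv u k hk
    rcases m with m | m
    · have hvl : Valid Φ ε (graft l m) (Tree674.sin Φ ε ℓ.2 p.1) (preV Φ ℓ.2 p.1).1
        (gpar l m (a, p.2.1)) := ⟨hv.1.2.1, hv.2.2.2.1⟩
      rcases k with k | k
      · exact path_congr_left (old l m) (old_injective l m) (root_graft l m) ℓ p.1 p.2.1 _ p.2.2
          u k (ihl m _ (inMap Φ ε ℓ p.1).1 a p.2.1 hvl u k
            (hk.imp_left fun h' h'' => h' (congrArg Sum.inl h'')))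
      · exact path_congr_left' ℓ p.1 p.2.1 _ p.2.2 u k
    · have hvr : Valid Φ ε (graft r m) (Tree674.sin Φ ε ℓ.2 p.1) (preV Φ ℓ.2 p.1).2
        (gpar r m (a, p.2.2)) := ⟨hv.1.2.2, hv.2.2.2.2⟩
      rcases k with k | k
      · exact path_congr_right' ℓ p.1 p.2.1 p.2.2 _ u k
      · exact path_congr_right (old r m) (old_injective r m) (root_graft r m) ℓ p.1 p.2.1 p.2.2 _
          u k (ihr m _ (inMap Φ ε ℓ p.1).2 a p.2.2 hvr u k
            (hk.imp_left fun h' h'' => h' (congrArg Sum.inr h'')))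

/-- The path of a cherry. -/
theorem path_cherry (hΦ : AdmissiblePotential Φ) (hε : 0 < ε) {ℓ : PhasePoint} {a : NodeP}
    (ha : Adm1 Φ ℓ.2 a) (x y : Unit) (u : ℝ) : path Φ ε (node leaf leaf) ℓ (a, x, y) u =
      Sum.elim (fun _ => (pairPath Φ ε ℓ a u).1) (fun _ => (pairPath Φ ε ℓ a u).2) := by
  rcases le_or_gt u (Tree674.sin Φ ε ℓ.2 a) with h1 | h1
  · rw [path_node_before (l := leaf) (r := leaf) ℓ (a, x, y) h1, pairPath_before hΦ hε ha h1]
    rfl
  · rw [path_node_gt (l := leaf) (r := leaf) ℓ (a, x, y) h1]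
    funext i
    rcases i with i | i
    · rw [Sum.elim_inl, Sum.elim_inl]
      have : i = root leaf := rfl
      rw [this, Function.update_self, colPath_eq hΦ hε ha]
    · rw [Sum.elim_inr, Sum.elim_inr]
      have : i = root leaf := rfl
      rw [this, Function.update_self, colPath_eq hΦ hε ha]

/-- The path of the additional particle. -/
theorem path_graft_new (hΦ : AdmissiblePotential Φ) (hε : 0 < ε) : ∀ (P : CTree) (m : Idx P)
    (ℓ : PhasePoint) (a : NodeP) (p : Par P), Adm1 Φ (lines Φ ε P ℓ p m).2 a → ∀ u,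
    path Φ ε (graft P m) ℓ (gpar P m (a, p)) u (new P m) =
      (pairPath Φ ε (lines Φ ε P ℓ p m) a u).2 := by
  intro P
  induction P with
  | leaf =>
    intro m ℓ a p ha u
    exact congrFun (path_cherry hΦ hε ha () () u) (Sum.inr ())
  | node l r ihl ihr =>
    intro m ℓ a p ha u
    rcases m with m | m
    · have h := ihl m (inMap Φ ε ℓ p.1).1 a p.2.1 ha u
      refine Eq.trans ?_ h
      rcases le_or_gt u (Tree674.sin Φ ε ℓ.2 p.1) with h1 | h1
      · exact congrFun (path_node_before (l := graft l m) (r := r) ℓ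
          (p.1, gpar l m (a, p.2.1), p.2.2) h1) (Sum.inl (new l m))
      · refine (congrFun (path_node_gt (l := graft l m) (r := r) ℓ
          (p.1, gpar l m (a, p.2.1), p.2.2) h1) (Sum.inl (new l m))).trans ?_
        rw [Sum.elim_inl, root_graft, Function.update_of_ne (old_ne_new l m _).symm]
    · have h := ihr m (inMap Φ ε ℓ p.1).2 a p.2.2 ha u
      refine Eq.trans ?_ h
      rcases le_or_gt u (Tree674.sin Φ ε ℓ.2 p.1) with h1 | h1
      · exact congrFun (path_node_before (l := l) (r := graft r m) ℓ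
          (p.1, p.2.1, gpar r m (a, p.2.2)) h1) (Sum.inr (new r m))
      · refine (congrFun (path_node_gt (l := l) (r := graft r m) ℓ
          (p.1, p.2.1, gpar r m (a, p.2.2)) h1) (Sum.inr (new r m))).trans ?_
        rw [Sum.elim_inr, root_graft, Function.update_of_ne (old_ne_new r m _).symm]

/-- The additional particle after its exit time. -/
theorem path_graft_new_after (hΦ : AdmissiblePotential Φ) (hε : 0 < ε) {P : CTree} {m : Idx P}
    {ℓ : PhasePoint} {a : NodeP} {p : Par P} (ha : Adm1 Φ (lines Φ ε P ℓ p m).2 a) {u : ℝ}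
    (hu : a.1 ≤ u) : path Φ ε (graft P m) ℓ (gpar P m (a, p)) u (new P m) =
      onLine (outLine ε (lines Φ ε P ℓ p m) a) u := by
  rw [path_graft_new hΦ hε P m ℓ a p ha u, pairPath_after hΦ hε ha hu]

/-- The path of `m` before its first entrance time in `P`. -/
theorem path_graft_self (hΦ : AdmissiblePotential Φ) (hε : 0 < ε) : ∀ (P : CTree) (m : Idx P)
    (T : ℝ) (ℓ : PhasePoint) (a : NodeP) (p : Par P), Ord Φ ε P T ℓ.2 p →
    Adm1 Φ (lines Φ ε P ℓ p m).2 a → ∀ u, u ≤ entr Φ ε P T ℓ.2 p m →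
    path Φ ε (graft P m) ℓ (gpar P m (a, p)) u (old P m m) =
      (pairPath Φ ε (lines Φ ε P ℓ p m) a u).1 := by
  intro P
  induction P with
  | leaf =>
    intro m T ℓ a p _ ha u _
    exact congrFun (path_cherry hΦ hε ha () () u) (Sum.inl ())
  | node l r ihl ihr =>
    intro m T ℓ a p ho ha u hu
    rcases m with m | m
    · have hu' : u ≤ entr Φ ε l (Tree674.sin Φ ε ℓ.2 p.1) (preV Φ ℓ.2 p.1).1 p.2.1 m := hu
      have h1 : u ≤ Tree674.sin Φ ε ℓ.2 p.1 := hu'.trans (entr_le hε.le l _ _ _ m ho.2.2.1)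
      exact (congrFun (path_node_before (l := graft l m) (r := r) ℓ
          (p.1, gpar l m (a, p.2.1), p.2.2) h1) (Sum.inl (old l m m))).trans
        (ihl m _ (inMap Φ ε ℓ p.1).1 a p.2.1 ho.2.2.1 ha u hu')
    · have hu' : u ≤ entr Φ ε r (Tree674.sin Φ ε ℓ.2 p.1) (preV Φ ℓ.2 p.1).2 p.2.2 m := hu
      have h1 : u ≤ Tree674.sin Φ ε ℓ.2 p.1 := hu'.trans (entr_le hε.le r _ _ _ m ho.2.2.2)
      exact (congrFun (path_node_before (l := l) (r := graft r m) ℓ
          (p.1, p.2.1, gpar r m (a, p.2.2)) h1) (Sum.inr (old r m m))).trans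
        (ihr m _ (inMap Φ ε ℓ p.1).2 a p.2.2 ho.2.2.2 ha u hu')

end Crest.Agent.R122.Graft968

end
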