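import Mathlib
import Crest.Prelude.Def_KineticLimit
import Crest.Agent.R122.Link6G_796
import Crest.Agent.R122.PWBirth_365

/-!
# Row 122, LINK6 (helper365): deterministic content of the guard `Gx6`

* `Gx6.noB_d`, `Gx6.noB_e`, `Gx6.noB_out` : no gas particle near the births of `d`, `e`, and of the
  outputs `c`, `e'`, `c'` (the form `PW365.NoB` of the class calculus).
* `Gx6.ct_lt_te`, `Gx6.out_le_te`, `Gx6.born_le_te` : the encounter ends before the horizon.
-/

set_option autoImplicit false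

open MeasureTheory Set Filter Topology
open scoped Classical ENNReal
open Crest.AnalysisR.Kinetic
open Crest.Agent.R122.GC311 Crest.Agent.R122.EDefs602
open Crest.Agent.R122.Kin796 Crest.Agent.R122.Kin796.CTree Crest.Agent.R122.Tree674
open Crest.Agent.R122.TreeLines335
open Crest.Agent.R122.Boost969 (LSt)
open Crest.Agent.R122.Pair292 (Lab PPar PX)
open Crest.Agent.R122.PairD292 Crest.Agent.R122.Third741
open Crest.Agent.R122.BirthOut664 (BW6)
open Crest.Agent.R122.PW365 (NoB noB_of_flow)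
open Crest.Agent.R122.Link6796
open Crest.Agent.R122.OneC285 (cT cX cD)
open Crest.Agent.R122.OCout796

noncomputable section

namespace Crest.Agent.R122.GxDet365

variable {Φ : Space3 → ℝ} {ε R T' : ℝ} {K : ℕ} {Q : EPar} {P : CTree}
  {z : PhasePoint × Par P} {m : ℕ} {w : Config m} {θ : Lab × LSt}

/-- All outputs are born at the end of the encounter. -/
theorem birth_outL6 (e : ML) (k : Option Bool) :
    (outL6 Φ ε P z e k).1.1 = cT ε z e + outT Φ ε (cD ε z e) := by
  rcases k with _ | _ | _ <;> rfl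

theorem cT_pos (h : Gx6 Φ ε R K Q T' P z w θ) : 0 < cT ε z (eL θ) :=
  h.gd.real.okL.e0.trans h.gd.real.ct.2.2.1

theorem out_le_R (hε : 0 < ε) (h : Gx6 Φ ε R K Q T' P z w θ) :
    outT Φ ε (cD ε z (eL θ)) ≤ ε * R := mul_le_mul_of_nonneg_left h.enc.tau hε.le

theorem out_le_te (hε : 0 < ε) (h : Gx6 Φ ε R K Q T' P z w θ) :
    cT ε z (eL θ) + outT Φ ε (cD ε z (eL θ)) ≤ Q.te :=
  (add_le_add le_rfl (out_le_R hε h)).trans h.enc.hor

theorem cT_le_te (h : Gx6 Φ ε R K Q T' P z w θ) : cT ε z (eL θ) ≤ Q.te :=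
  h.gd.real.ct.2.2.2.1

theorem out_pos (hε : 0 < ε) (h : Gx6 Φ ε R K Q T' P z w θ) (k : Option Bool) :
    0 < (outL6 Φ ε P z (eL θ) k).1.1 := by
  rw [birth_outL6]
  exact add_pos_of_pos_of_nonneg (cT_pos h) (outT_nonneg hε.le _)

theorem born_le_te (hε : 0 < ε) (h : Gx6 Φ ε R K Q T' P z w θ) (k : Option Bool) :
    (outL6 Φ ε P z (eL θ) k).1.1 ≤ Q.te := by
  rw [birth_outL6]
  exact out_le_te hε h

/-- No gas particle near the birth of `d`. -/
theorem noB_d (hΦ : AdmissiblePotential Φ) (hε : 0 < ε) (h : Gx6 Φ ε R K Q T' P z w θ) :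
    NoB Φ ε (MW.cfg w) (dL θ) :=
  noB_of_flow hΦ hε h.gd.real.exw h.gd.real.okL.d0.le fun h' => h.nb (Or.inl h')

/-- No gas particle near the birth of `e`. -/
theorem noB_e (hΦ : AdmissiblePotential Φ) (hε : 0 < ε) (h : Gx6 Φ ε R K Q T' P z w θ) :
    NoB Φ ε (MW.cfg w) (eL θ) :=
  noB_of_flow hΦ hε h.gd.real.exw h.gd.real.okL.e0.le fun h' => h.nb (Or.inr (Or.inl h'))

/-- No gas particle near the birth of an output. -/
theorem noB_out (hΦ : AdmissiblePotential Φ) (hε : 0 < ε) (h : Gx6 Φ ε R K Q T' P z w θ)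
    (k : Option Bool) : NoB Φ ε (MW.cfg w) (outL6 Φ ε P z (eL θ) k) :=
  noB_of_flow hΦ hε h.gd.real.exw (out_pos hε h k).le fun h' => h.nb (Or.inr (Or.inr ⟨k, h'⟩))

/-- `d` is not born with the outputs. -/
theorem d_ne_out (h : Gx6 Φ ε R K Q T' P z w θ) (k : Option Bool) :
    (dL θ).1.1 ≠ (outL6 Φ ε P z (eL θ) k).1.1 := by
  rw [birth_outL6]
  exact h.enc.nobd

end Crest.Agent.R122.GxDet365

end
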