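import Crest.Agent.R122.H5St_994

/-!
# SP-A, all shapes (row 122, helper994)

* `lintegral_ΘA_le`, `gcE_ΘA_le` : the mass of the test function of SP-A is at most `XI + tnMass tw`;
* `spa_total` : `Σ_P ∫∫∫ 1[link] gh (A) ≤ (c₆/L + c₇) (C_Q (XI + tnMass tw) + δ_Q + te TS errA)`.
-/

set_option autoImplicit false

open MeasureTheory Set Filter
open scoped ENNReal Topology
open Crest.AnalysisR.Kinetic
open Crest.Agent.R122.Kin796 Crest.Agent.R122.Kin796.CTree Crest.Agent.R122.Tree674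
open Crest.Agent.R122.EDefs602 Crest.Agent.R122.TreeLines335 Crest.Agent.R122.LineMeas994
open Crest.Agent.R122.GC311 Crest.Agent.R122.QDens815 Crest.Agent.R122.Q1815
open Crest.Agent.R122.SPV994 Crest.Agent.R122.Decomp811 Crest.Agent.R122.Weight984
open Crest.Agent.R122.MeasE416
open Crest.Agent.R122.Boost969 (LSt posAt)
open Crest.Agent.R122.Pair292 (Lab PPar PX sig shM)

namespace Crest.Agent.R122.H5994

noncomputable section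

open scoped Classical

section mass

variable {Φ : Space3 → ℝ} {f₀ : PhasePoint → ℝ} {ε : ℝ} {K : ℕ} {Q : EPar}

theorem ΘA_le_one (hL : 0 ≤ Q.L) {n : ℕ} (w : Config n) (l : ML) : ΘA Φ ε K Q n w l ≤ 1 := by
  unfold ΘA
  exact Θl_le_one hL _ _ _ _

/-- mass of the test function of SP-A -/
theorem lintegral_ΘA_le (hΦ : AdmissiblePotential Φ) (hε : 0 < ε) (hL : 0 ≤ Q.L) {n : ℕ}
    {w : Config n} (hw : w ∈ PairExcluded ε n) (htw : 0 ≤ Q.tw) (hte : Q.tw ≤ Q.te) :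
    ∫⁻ l, ΘA Φ ε K Q n w l ∂lineM Q.γ Q.ρ K Q.te ≤
      (∫⁻ l, (MW.cfg w).touchW Φ ε K Q l ∂lineM Q.γ Q.ρ K Q.te) +
        lineM Q.γ Q.ρ K Q.tw {l | (MW.cfg w).thetaL Φ ε K Q.tw l ≤ Q.tw} := by
  have hm : MeasurableSet {l : ML | (MW.cfg w).thetaL Φ ε K Q.te l ≤ Q.tw} := by
    have hq : Measurable fun l : ML => (w, l) := measurable_const.prodMk measurable_id
    have h := (measurable_thetaL_cfg hΦ hε K Q.te n).comp hq
    exact measurableSet_le h measurable_const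
  have h1 : ∀ l, ΘA Φ ε K Q n w l ≤ (MW.cfg w).touchW Φ ε K Q l +
      {l : ML | (MW.cfg w).thetaL Φ ε K Q.te l ≤ Q.tw}.indicator (fun _ => 1) l := by
    intro l
    by_cases ht : (MW.cfg w).thetaL Φ ε K Q.te l ≤ Q.tw
    · rw [indicator_of_mem (show l ∈ {l : ML | (MW.cfg w).thetaL Φ ε K Q.te l ≤ Q.tw} from ht)]
      exact (ΘA_le_one hL w l).trans le_add_self
    · by_cases ht' : (MW.cfg w).thetaL Φ ε K Q.te l ≤ Q.te
      · have h2 : (MW.cfg w).touchW Φ ε K Q l = (MW.cfg w).Wm Φ ε K Q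
            ((MW.cfg w).thetaL Φ ε K Q.te l) := by
          unfold MW.touchW
          rw [if_pos ⟨not_le.1 ht, ht'⟩]
        have h3 : ΘA Φ ε K Q n w l = (MW.cfg w).Wm Φ ε K Q
            ((MW.cfg w).thetaL Φ ε K Q.te l) := by
          unfold ΘA Θl
          rw [if_pos (show θ₀ Φ ε K Q.te ⟨n, w⟩ l ≤ Q.te from ht')]
          rfl
        rw [h2, h3]
        exact le_self_add
      · have h3 : ΘA Φ ε K Q n w l = 0 := by
          unfold ΘA Θl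
          rw [if_neg (show ¬ θ₀ Φ ε K Q.te ⟨n, w⟩ l ≤ Q.te from ht')]
        rw [h3]
        exact bot_le
  refine (lintegral_mono h1).trans ?_
  rw [lintegral_add_right _ (measurable_const.indicator hm)]
  refine add_le_add le_rfl ?_
  have h5 : ∫⁻ l, {l : ML | (MW.cfg w).thetaL Φ ε K Q.te l ≤ Q.tw}.indicator (fun _ => (1 : ℝ≥0∞)) l
      ∂lineM Q.γ Q.ρ K Q.te = lineM Q.γ Q.ρ K Q.te {l : ML | (MW.cfg w).thetaL Φ ε K Q.te l ≤ Q.tw} :=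
    lintegral_indicator_one hm
  rw [h5]
  exact Unw410.lineM_le_tw hΦ hε hw htw hte Q.γ Q.ρ

theorem gcE_ΘA_le (hΦ : AdmissiblePotential Φ) (hf : Measurable f₀) (hε : 0 < ε)
    (hγ : Measurable Q.γ) (hL : 0 ≤ Q.L) (htw : 0 ≤ Q.tw) (hte : Q.tw ≤ Q.te) :
    gcE f₀ ε (fun n w => ∫⁻ l, ΘA Φ ε K Q n w l ∂lineM Q.γ Q.ρ K Q.te) ≤
      XI Φ f₀ ε K Q + tnMass Φ f₀ Q.γ Q.ρ ε K Q.tw := by
  have h1 : gcE f₀ ε (fun n w => ∫⁻ l, ΘA Φ ε K Q n w l ∂lineM Q.γ Q.ρ K Q.te) ≤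
      gcE f₀ ε (fun n w => (∫⁻ l, (MW.cfg w).touchW Φ ε K Q l ∂lineM Q.γ Q.ρ K Q.te) +
        lineM Q.γ Q.ρ K Q.tw {l | (MW.cfg w).thetaL Φ ε K Q.tw l ≤ Q.tw}) :=
    gcE_mono f₀ ε fun n w hw => lintegral_ΘA_le hΦ hε hL hw htw hte
  refine h1.trans (le_of_eq ?_)
  have hm1 : ∀ n, Measurable fun w : Config n =>
      ∫⁻ l, (MW.cfg w).touchW Φ ε K Q l ∂lineM Q.γ Q.ρ K Q.te := fun n =>
    (measurable_touchW_cfg hΦ hε K Q n).lintegral_prod_right'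
  rw [EBasic602.XI_eq hf hγ (fun n => measurable_touchW_cfg hΦ hε K Q n)]
  unfold tnMass
  rw [gcE_add hf ε hm1]

end mass

section total

variable {ξ : CTree → Type} [∀ P, Fintype (ξ P)] {A : ∀ P : CTree, PhasePoint × Par P → MW (ξ P)}
  {G : (P : CTree) → (Σ n : ℕ, Config n) → PhasePoint × Par P → Prop}
variable {Φ : Space3 → ℝ} (hΦ : AdmissiblePotential Φ) {f₀ : PhasePoint → ℝ}
  (hf : Measurable f₀) {ε : ℝ} (hε : 0 < ε) {K : ℕ} {Q : EPar} {r : ℝ} {ν : Measure (Lab × LSt)}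
  {c₆ c₇ : ℝ≥0∞}

/-- **SP-A, all shapes.** -/
theorem spa_total (hA : ∀ P, MeasW (A P))
    (hG : ∀ P, MeasurableSet {q : (Σ n : ℕ, Config n) × (PhasePoint × Par P) | G P q.1 q.2})
    (hL : 0 < Q.L)
    (hc : c₆ * ENNReal.ofReal (1 / Q.L) + c₇ ≠ ∞)
    (h6 : ∀ P z, S6 ν (fun p => p.1.1) (lineM Q.γ Q.ρ K Q.te) volume c₆
      ((shape hΦ hf hε Q.te Q.tw Q.te r P).lt z) ((shape hΦ hf hε Q.te Q.tw Q.te r P).Bo z)
      ((shape hΦ hf hε Q.te Q.tw Q.te r P).rd z))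
    (h7 : ∀ P z, Y6 ν volume c₇
      ((shape hΦ hf hε Q.te Q.tw Q.te r P).lt z) ((shape hΦ hf hε Q.te Q.tw Q.te r P).By z)
      ((shape hΦ hf hε Q.te Q.tw Q.te r P).rd z))
    {CR δR CE δE : ℝ≥0∞}
    (hR : ∑ P ∈ GIVStep383.trees K, ∫⁻ z : PhasePoint × Par P, ∫⁻ w, ∫⁻ u,
          rootI Φ f₀ ε Q.tw Q.te P (ΘA Φ ε K Q) w z u ∂volume ∂gcM f₀ ε ≤
        CR * gcE f₀ ε (fun n w => ∫⁻ l, ΘA Φ ε K Q n w l ∂lineM Q.γ Q.ρ K Q.te) + δR)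
    (hE : InEq2.TS Φ f₀ ε Q.te (exitH Φ ε Q.tw Q.te K (ΘA Φ ε K Q)) ≤
        CE * gcE f₀ ε (fun n w => ∫⁻ l, ΘA Φ ε K Q n w l ∂lineM Q.γ Q.ρ K Q.te) + δE)
    (hγ : Measurable Q.γ) (htw : 0 ≤ Q.tw) (hte : Q.tw ≤ Q.te) :
    ∑ P ∈ GIVStep383.trees K, ∫⁻ z, ∫⁻ w, ∫⁻ p in LinkS ε Q.te P z,
        FAt A G Φ f₀ ε K Q P w z p ∂ν ∂gcM f₀ ε ≤
      (c₆ * ENNReal.ofReal (1 / Q.L) + c₇) *
        ((CR + ENNReal.ofReal Q.te * CE) * (XI Φ f₀ ε K Q + tnMass Φ f₀ Q.γ Q.ρ ε K Q.tw) +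
          (δR + ENNReal.ofReal Q.te * δE) +
          ENNReal.ofReal Q.te * InEq2.TS Φ f₀ ε Q.te (errA A G Φ ε K Q)) := by
  refine (Finset.sum_le_sum fun P _ => spa_one hΦ hf hε hA hG hL hc P (h6 P) (h7 P)).trans ?_
  rw [← Finset.mul_sum, Finset.sum_add_distrib, ← Finset.mul_sum]
  refine mul_le_mul_right ?_ _
  have h1 := EI_sum_le hΦ hf hε Q.tw Q.te r (K := K) (Θ := ΘA Φ ε K Q)
    (fun n => measurable_ΘA hΦ hε n)
  have h2 := gcE_ΘA_le (K := K) (Q := Q) hΦ hf hε hγ hL.le htw hte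
  have h3 := sum_le_TS (Φ := Φ) (ε := ε) hf (te := Q.te) (K := K)
    (F := fun P w z => ENNReal.ofReal (1 + ‖z.1.2‖) *
          (gh Φ ε Q.tw P z w * eA A G Φ ε K Q P w z))
  have h4 : InEq2.TS Φ f₀ ε Q.te (fun P z m w =>
      if P.leaves ≤ K ∧ Sep Φ ε P Q.te z.1 z.2 then ENNReal.ofReal (1 + ‖z.1.2‖) *
          (gh Φ ε Q.tw P z ⟨m, w⟩ * eA A G Φ ε K Q P ⟨m, w⟩ z) else 0) =
      InEq2.TS Φ f₀ ε Q.te (errA A G Φ ε K Q) := rfl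
  rw [h4] at h3
  refine add_le_add (h1.trans ?_) (mul_le_mul_right h3 _)
  calc _ ≤ (CR * gcE f₀ ε (fun n w => ∫⁻ l, ΘA Φ ε K Q n w l ∂lineM Q.γ Q.ρ K Q.te) + δR) +
        ENNReal.ofReal Q.te * (CE * gcE f₀ ε (fun n w => ∫⁻ l, ΘA Φ ε K Q n w l
          ∂lineM Q.γ Q.ρ K Q.te) + δE) := add_le_add hR (mul_le_mul_right hE _)
    _ = (CR + ENNReal.ofReal Q.te * CE) * gcE f₀ ε (fun n w => ∫⁻ l, ΘA Φ ε K Q n w l
          ∂lineM Q.γ Q.ρ K Q.te) + (δR + ENNReal.ofReal Q.te * δE) := by ring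
    _ ≤ _ := by gcongr

end total

end

end Crest.Agent.R122.H5994
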