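import Crest.Agent.R122.H5Q_994

/-!
# SP-A / SP-B: the quenched input, exits and root together (row 122, helper994)

* `QExitH5` : the input for the exits of a tree (helper814 / helper837) in 311's `TS` form, at the
  horizon `te`, with the weight `1 + |v_root|`;
* `EI_sum_le` : `Σ_P EI_P(Θ) ≤ (C_R + te C_E) gcE ∫ Θ dlineM + (δ_R + te δ_E)`.
-/

set_option autoImplicit false

open MeasureTheory Set Filter
open scoped ENNReal Topology
open Crest.AnalysisR.Kinetic
open Crest.Agent.R122.Kin796 Crest.Agent.R122.Kin796.CTree Crest.Agent.R122.Tree674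
open Crest.Agent.R122.EDefs602 Crest.Agent.R122.TreeLines335 Crest.Agent.R122.LineMeas994
open Crest.Agent.R122.GC311 Crest.Agent.R122.QDens815 Crest.Agent.R122.Q1815
open Crest.Agent.R122.SPV994

namespace Crest.Agent.R122.H5994

noncomputable section

open scoped Classical

/-- integrand of the exit part, in the form of 311's `TS` -/
def exitH (Φ : Space3 → ℝ) (ε tw te : ℝ) (K : ℕ) (Θ : (n : ℕ) → Config n → ML → ℝ≥0∞)
    (P : CTree) (z : PhasePoint × Par P) (m : ℕ) (w : Config m) : ℝ≥0∞ :=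
  if P.leaves ≤ K ∧ Sep Φ ε P te z.1 z.2 then
    ENNReal.ofReal (1 + ‖z.1.2‖) * (GIV566.unhitInd Φ ε (ghT Φ ε P z) tw w *
      ∑ i ∈ Finset.univ.filter (fun i => i ≠ root P), Θ m w (lineML Φ ε P z i))
  else 0

/-- **Input for the exits** (helper814, helper837). -/
def QExitH5 (Φ : Space3 → ℝ) (f₀ : PhasePoint → ℝ) (γ : ℝ → ℝ) (ρ : ℝ≥0∞) (tw te : ℝ)
    (C : ℝ≥0∞) (δ : ℕ → ℝ → ℝ≥0∞) : Prop :=
  ∀ K ε, 0 < ε → ∀ Θ : (n : ℕ) → Config n → ML → ℝ≥0∞,
    (∀ n, Measurable fun q : Config n × ML => Θ n q.1 q.2) → (∀ n w l, Θ n w l ≤ 1) →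
    InEq2.TS Φ f₀ ε te (exitH Φ ε tw te K Θ) ≤
      C * gcE f₀ ε (fun m w => ∫⁻ l, Θ m w l ∂lineM γ ρ K te) + δ K ε

/-- the test function on the disjoint union -/
def sigF (Θ : (n : ℕ) → Config n → ML → ℝ≥0∞) (w : Σ n : ℕ, Config n) (l : ML) : ℝ≥0∞ :=
  Θ w.1 w.2 l

section

variable {Φ : Space3 → ℝ} (hΦ : AdmissiblePotential Φ) {f₀ : PhasePoint → ℝ}
  (hf : Measurable f₀) {ε : ℝ} (hε : 0 < ε) (tw te r : ℝ)

theorem lintegral_rd_le {te a : ℝ} {ℓ : PhasePoint} :
    ∫⁻ u, rdL te a ℓ u ≤ ENNReal.ofReal te * ENNReal.ofReal (1 + ‖ℓ.2‖) := by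
  have h := lintegral_rdL (te := te) (a := a) (ℓ := ℓ) (fun _ => 1)
  simp only [mul_one] at h
  rw [h, setLIntegral_const, Real.volume_Ioc, mul_comm,
    ENNReal.ofReal_add (by norm_num) (norm_nonneg _), ENNReal.ofReal_one]
  gcongr
  linarith [le_max_left (0 : ℝ) a]

/-- `E` of the shape splits into the root part and the exit part -/
theorem shape_E_eq (P : CTree) (Θ : (n : ℕ) → Config n → ML → ℝ≥0∞) (w : Σ n : ℕ, Config n)
    (z : PhasePoint × Par P) (u : ℝ) :
    (shape hΦ hf hε te tw te r P).rd z u * (shape hΦ hf hε te tw te r P).E (sigF Θ) w z u =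
      rootI Φ f₀ ε tw te P Θ w z u +
      rdL te (rel P z.2 (root P)) z.1 u * (tws Φ f₀ ε te P z * gh Φ ε tw P z w *
        ∑ i ∈ Finset.univ.filter (fun i => i ≠ root P), Θ w.1 w.2 (lineMM Φ ε P z i)) := by
  have h1 : (shape hΦ hf hε te tw te r P).E (sigF Θ) w z u =
      ∑ i, tws Φ f₀ ε te P z * gh Φ ε tw P z w * Θ w.1 w.2 (lineU Φ ε P z u i) := rfl
  have h2 : (shape hΦ hf hε te tw te r P).rd z u = rdL te (rel P z.2 (root P)) z.1 u := rfl
  rw [h1, h2, ← Finset.mul_sum]
  have h3 : ∑ i, Θ w.1 w.2 (lineU Φ ε P z u i) = Θ w.1 w.2 ((u, onLine z.1 u), P.leaves) +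
      ∑ i ∈ Finset.univ.filter (fun i => i ≠ root P), Θ w.1 w.2 (lineMM Φ ε P z i) := by
    rw [← Finset.add_sum_erase Finset.univ _ (Finset.mem_univ (root P))]
    congr 1
    · unfold lineU
      rw [if_pos rfl]
    · have e : Finset.univ.erase (root P) = Finset.univ.filter (fun i => i ≠ root P) := by
        ext i
        simp
      rw [e]
      refine Finset.sum_congr rfl fun i hi => ?_
      rw [Finset.mem_filter] at hi
      unfold lineU
      rw [if_neg hi.2]
  rw [h3, mul_add, mul_add]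
  rfl

theorem measurable_rdL {α : Type*} [MeasurableSpace α] {a : α → ℝ} {ℓ : α → PhasePoint}
    {u : α → ℝ} (te : ℝ) (ha : Measurable a) (hℓ : Measurable ℓ) (hu : Measurable u) :
    Measurable fun q => rdL te (a q) (ℓ q) (u q) := by
  unfold rdL
  refine Measurable.ite ?_ ?_ measurable_const
  · exact (measurableSet_lt measurable_const hu).inter
      ((measurableSet_lt ha hu).inter (measurableSet_le hu measurable_const))
  · exact (measurable_const.add hℓ.snd.norm).ennreal_ofReal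

theorem sep_tws {P : CTree} {z : PhasePoint × Par P} (h : tws Φ f₀ ε te P z ≠ 0) :
    Valid Φ ε P te z.1.2 z.2 ∧ Sep Φ ε P te z.1 z.2 := by
  unfold tws at h
  by_contra hc
  rw [if_neg hc] at h
  exact h rfl

/-- the exit part of one shape -/
theorem exitE_le (hf : Measurable f₀) {K : ℕ} {P : CTree} (hP : P.leaves ≤ K)
    {Θ : (n : ℕ) → Config n → ML → ℝ≥0∞} (z : PhasePoint × Par P) :
    ∫⁻ w, ∫⁻ u, rdL te (rel P z.2 (root P)) z.1 u * (tws Φ f₀ ε te P z * gh Φ ε tw P z w *
        ∑ i ∈ Finset.univ.filter (fun i => i ≠ root P), Θ w.1 w.2 (lineMM Φ ε P z i))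
        ∂volume ∂gcM f₀ ε ≤
      ENNReal.ofReal te * (tw₀ Φ f₀ ε te P z *
        gcE f₀ ε fun m w => exitH Φ ε tw te K Θ P z m w) := by
  by_cases h0 : tws Φ f₀ ε te P z = 0
  · simp only [h0, zero_mul, mul_zero, lintegral_zero]
    exact bot_le
  obtain ⟨hV, hS⟩ := sep_tws te h0
  rw [gcE_eq_lintegral hf, ← lintegral_const_mul' _ _ tw₀_ne_top,
    ← lintegral_const_mul' _ _ ENNReal.ofReal_ne_top]
  refine lintegral_mono fun w => ?_
  have h1 : ∀ u, rdL te (rel P z.2 (root P)) z.1 u * (tws Φ f₀ ε te P z * gh Φ ε tw P z w *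
        ∑ i ∈ Finset.univ.filter (fun i => i ≠ root P), Θ w.1 w.2 (lineMM Φ ε P z i)) =
      (tws Φ f₀ ε te P z * gh Φ ε tw P z w *
        ∑ i ∈ Finset.univ.filter (fun i => i ≠ root P), Θ w.1 w.2 (lineMM Φ ε P z i)) *
      rdL te (rel P z.2 (root P)) z.1 u := fun u => mul_comm _ _
  simp only [h1]
  have hrdm : Measurable fun u : ℝ => rdL te (rel P z.2 (root P)) z.1 u :=
    measurable_rdL te measurable_const measurable_const measurable_id
  rw [lintegral_const_mul _ hrdm]
  have h2 : gh Φ ε tw P z w = GIV566.unhitInd Φ ε (ghT Φ ε P z) tw w.2 := by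
    unfold gh
    rw [ghTM_of_adm hV.1]
  have h3 : ∀ i, lineMM Φ ε P z i = lineML Φ ε P z i := fun i => lineMM_of_adm ε hV.1 i
  have h4 : exitH Φ ε tw te K Θ P z w.1 w.2 = ENNReal.ofReal (1 + ‖z.1.2‖) *
      (GIV566.unhitInd Φ ε (ghT Φ ε P z) tw w.2 *
      ∑ i ∈ Finset.univ.filter (fun i => i ≠ root P), Θ w.1 w.2 (lineML Φ ε P z i)) := by
    unfold exitH
    rw [if_pos ⟨hP, hS⟩]
  simp only [h3]
  rw [h2, h4]
  calc tws Φ f₀ ε te P z * GIV566.unhitInd Φ ε (ghT Φ ε P z) tw w.2 *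
        (∑ i ∈ Finset.univ.filter (fun i => i ≠ root P), Θ w.1 w.2 (lineML Φ ε P z i)) *
        ∫⁻ u, rdL te (rel P z.2 (root P)) z.1 u
      ≤ tw₀ Φ f₀ ε te P z * GIV566.unhitInd Φ ε (ghT Φ ε P z) tw w.2 *
        (∑ i ∈ Finset.univ.filter (fun i => i ≠ root P), Θ w.1 w.2 (lineML Φ ε P z i)) *
        (ENNReal.ofReal te * ENNReal.ofReal (1 + ‖z.1.2‖)) := by
        gcongr
        · exact tws_le
        · exact lintegral_rd_le
    _ = _ := by ring

include hΦ hf hε in
/-- measurability of the root part in the tree parameters -/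
theorem measurable_rootInt {P : CTree} {Θ : (n : ℕ) → Config n → ML → ℝ≥0∞}
    (hΘ : ∀ n, Measurable fun q : Config n × ML => Θ n q.1 q.2) :
    Measurable fun z : PhasePoint × Par P => ∫⁻ w, ∫⁻ u, rootI Φ f₀ ε tw te P Θ w z u
      ∂volume ∂gcM f₀ ε := by
  have h0 : Measurable fun q : ((PhasePoint × Par P) × (Σ n : ℕ, Config n)) × ℝ =>
      rootI Φ f₀ ε tw te P Θ q.1.2 q.1.1 q.2 := by
    unfold rootI
    refine (measurable_rdL te ((measurable_rel P (root P)).comp measurable_fst.fst.snd)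
      measurable_fst.fst.fst measurable_snd).mul ((((measurable_tws hΦ hf hε te P).comp
        measurable_fst.fst).mul ((measurable_gh hΦ hε tw P).comp
          (measurable_fst.snd.prodMk measurable_fst.fst))).mul ?_)
    have hq : Measurable fun q : ((PhasePoint × Par P) × (Σ n : ℕ, Config n)) × ℝ =>
        (q.1.2, (((q.2, onLine q.1.1.1 q.2), P.leaves) : ML)) :=
      measurable_fst.snd.prodMk ((measurable_snd.prodMk (measurable_onLine2.comp
        (measurable_fst.fst.fst.prodMk measurable_snd))).prodMk measurable_const)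
    have h := (measurable_sig hΘ).comp hq
    exact h
  have h1 : Measurable fun q : (PhasePoint × Par P) × (Σ n : ℕ, Config n) =>
      ∫⁻ u, rootI Φ f₀ ε tw te P Θ q.2 q.1 u := h0.lintegral_prod_right'
  exact h1.lintegral_prod_right'

/-- measurability of the test function -/
theorem measurable_sigF {Θ : (n : ℕ) → Config n → ML → ℝ≥0∞}
    (hΘ : ∀ n, Measurable fun q : Config n × ML => Θ n q.1 q.2) :
    Measurable fun q : (Σ n : ℕ, Config n) × ML => sigF Θ q.1 q.2 := measurable_sig hΘ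

/-- **The quenched input.** -/
theorem EI_sum_le {K : ℕ} {Θ : (n : ℕ) → Config n → ML → ℝ≥0∞}
    (hΘ : ∀ n, Measurable fun q : Config n × ML => Θ n q.1 q.2) :
    ∑ P ∈ GIVStep383.trees K, (shape hΦ hf hε te tw te r P).EI (gcM f₀ ε) volume volume
        (sigF Θ) ≤
      (∑ P ∈ GIVStep383.trees K, ∫⁻ z : PhasePoint × Par P, ∫⁻ w, ∫⁻ u,
          rootI Φ f₀ ε tw te P Θ w z u ∂volume ∂gcM f₀ ε) +
        ENNReal.ofReal te * InEq2.TS Φ f₀ ε te (exitH Φ ε tw te K Θ) := by
  have key : ∀ P ∈ GIVStep383.trees K,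
      (shape hΦ hf hε te tw te r P).EI (gcM f₀ ε) volume volume (sigF Θ) ≤
      (∫⁻ z : PhasePoint × Par P, ∫⁻ w, ∫⁻ u, rootI Φ f₀ ε tw te P Θ w z u ∂volume ∂gcM f₀ ε) +
        ENNReal.ofReal te * ∫⁻ z : PhasePoint × Par P, tw₀ Φ f₀ ε te P z *
          gcE f₀ ε fun m w => exitH Φ ε tw te K Θ P z m w := by
    intro P hP
    unfold Shape.EI
    simp only [shape_E_eq]
    have hx : Measurable fun q : (Σ n : ℕ, Config n) × ((PhasePoint × Par P) × ℝ) =>
        rdL te (rel P q.2.1.2 (root P)) q.2.1.1 q.2.2 *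
          (tws Φ f₀ ε te P q.2.1 * gh Φ ε tw P q.2.1 q.1 *
            ∑ i ∈ Finset.univ.filter (fun i => i ≠ root P),
              Θ q.1.1 q.1.2 (lineMM Φ ε P q.2.1 i)) := by
      refine (measurable_rdL te ((measurable_rel P (root P)).comp measurable_snd.fst.snd)
        measurable_snd.fst.fst measurable_snd.snd).mul ((((measurable_tws hΦ hf hε te P).comp
          measurable_snd.fst).mul ((measurable_gh hΦ hε tw P).comp
            (measurable_fst.prodMk measurable_snd.fst))).mul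
          (Finset.measurable_sum _ fun i _ => ?_))
      have hq : Measurable fun q : (Σ n : ℕ, Config n) × ((PhasePoint × Par P) × ℝ) =>
          (q.1, lineMM Φ ε P q.2.1 i) :=
        measurable_fst.prodMk ((measurable_lineMM hΦ ε P i).comp measurable_snd.fst)
      have h := (measurable_sig hΘ).comp hq
      exact h
    calc ∫⁻ z : PhasePoint × Par P, ∫⁻ w, ∫⁻ u, (rootI Φ f₀ ε tw te P Θ w z u +
          rdL te (rel P z.2 (root P)) z.1 u * (tws Φ f₀ ε te P z * gh Φ ε tw P z w *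
          ∑ i ∈ Finset.univ.filter (fun i => i ≠ root P), Θ w.1 w.2 (lineMM Φ ε P z i)))
          ∂volume ∂gcM f₀ ε
        = ∫⁻ z : PhasePoint × Par P, (∫⁻ w, ∫⁻ u, rootI Φ f₀ ε tw te P Θ w z u
            ∂volume ∂gcM f₀ ε +
          ∫⁻ w, ∫⁻ u, rdL te (rel P z.2 (root P)) z.1 u * (tws Φ f₀ ε te P z *
            gh Φ ε tw P z w * ∑ i ∈ Finset.univ.filter (fun i => i ≠ root P),
              Θ w.1 w.2 (lineMM Φ ε P z i)) ∂volume ∂gcM f₀ ε) := by
          refine lintegral_congr fun z => ?_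
          have h1 : Measurable fun q : (Σ n : ℕ, Config n) × ℝ =>
              rdL te (rel P z.2 (root P)) z.1 q.2 * (tws Φ f₀ ε te P z *
              gh Φ ε tw P z q.1 * ∑ i ∈ Finset.univ.filter (fun i => i ≠ root P),
                Θ q.1.1 q.1.2 (lineMM Φ ε P z i)) := by
            have hq : Measurable fun q : (Σ n : ℕ, Config n) × ℝ => (q.1, (z, q.2)) :=
              measurable_fst.prodMk (measurable_const.prodMk measurable_snd)
            have h := hx.comp hq
            exact h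
          have h2 : Measurable fun w : Σ n : ℕ, Config n => ∫⁻ u,
              rdL te (rel P z.2 (root P)) z.1 u * (tws Φ f₀ ε te P z *
              gh Φ ε tw P z w * ∑ i ∈ Finset.univ.filter (fun i => i ≠ root P),
                Θ w.1 w.2 (lineMM Φ ε P z i)) := h1.lintegral_prod_right'
          rw [← lintegral_add_right _ h2]
          refine lintegral_congr fun w => ?_
          have h3 : Measurable fun u : ℝ =>
              rdL te (rel P z.2 (root P)) z.1 u * (tws Φ f₀ ε te P z *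
              gh Φ ε tw P z w * ∑ i ∈ Finset.univ.filter (fun i => i ≠ root P),
                Θ w.1 w.2 (lineMM Φ ε P z i)) := h1.comp (measurable_const.prodMk measurable_id)
          exact lintegral_add_right _ h3
      _ ≤ ∫⁻ z : PhasePoint × Par P, (∫⁻ w, ∫⁻ u, rootI Φ f₀ ε tw te P Θ w z u
            ∂volume ∂gcM f₀ ε +
          ENNReal.ofReal te * (tw₀ Φ f₀ ε te P z *
            gcE f₀ ε fun m w => exitH Φ ε tw te K Θ P z m w)) := by
          refine lintegral_mono fun z => add_le_add le_rfl ?_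
          exact exitE_le tw te hf (GIVStep383.mem_trees.1 hP) z
      _ = _ := by
          rw [lintegral_add_left (measurable_rootInt hΦ hf hε tw te hΘ),
            lintegral_const_mul' _ _ ENNReal.ofReal_ne_top]
  refine (Finset.sum_le_sum key).trans ?_
  rw [Finset.sum_add_distrib, ← Finset.mul_sum]
  refine add_le_add le_rfl (mul_le_mul_right ?_ _)
  rw [TS_eq]
  exact ENNReal.sum_le_tsum _

end

end

end Crest.Agent.R122.H5994
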