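import Crest.Agent.R122.H5St_994
import Crest.Agent.R122.ForestFatou_399

/-!
Row 122 (helper814): **binding of the structure integral `OS2` to the shapes** of helper994.

* `linkS_of_ctSet` : a contact of the contact set (after its birth, births positive) is a link event;
* `OS2_le_link` : `OS2` of `uG · H` is at most `activity` times the sum over the trees with at most `K`
  leaves of the integrals over the link events, trees valid and separated at the horizon `te`.
-/

set_option autoImplicit false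

open MeasureTheory Set Filter
open scoped ENNReal Topology Classical
open Crest.AnalysisR.Kinetic
open Crest.Agent.R122.Kin796 Crest.Agent.R122.Kin796.CTree Crest.Agent.R122.Tree674
open Crest.Agent.R122.EDefs602 Crest.Agent.R122.TreeLines335 Crest.Agent.R122.LineMeas994
open Crest.Agent.R122.GC311 Crest.Agent.R122.QDens815 Crest.Agent.R122.Q1815
open Crest.Agent.R122.SPV994 Crest.Agent.R122.H5994
open Crest.Agent.R122.Boost969 (LSt posAt)
open Crest.Agent.R122.Pair292 (Lab)
open Crest.Agent.R122.PairD292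
open Crest.Agent.R122.OneC285 (cfT rt cT cB cD cX lpos uI ptube)

noncomputable section

namespace Crest.Agent.R122.H5OS814

variable {Φ : Space3 → ℝ} {f₀ : PhasePoint → ℝ}

/-- the contact time is the entrance time -/
theorem entT_relL (ε : ℝ) (ℓ : PhasePoint) (e : LSt) :
    OC663.entT ε (OneC423.relL ℓ e) = hitT ε ℓ e := by
  rw [relL_eq]
  exact entT_neg ε (rX ℓ e, rV ℓ e)

theorem cT_eq_hitT {P : CTree} (ε : ℝ) (z : PhasePoint × Par P) (l : EDefs602.ML) :
    cT ε z l = hitT ε z.1 l.1 := entT_relL ε z.1 l.1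

theorem age_eq {P : CTree} (ε : ℝ) (z : PhasePoint × Par P) (θ : Lab × LSt) :
    age ε z θ = hitT ε z.1 θ.2 - Pair292.sig θ.1 := by
  unfold age
  rw [cT_eq_hitT]
  rfl

/-- **contacts are link events** -/
theorem link_of_ctSet {ε te : ℝ} {P : CTree} {z : PhasePoint × Par P} {e : LSt} (h0 : 0 < e.1)
    (h : (z, e) ∈ OneC423.ctSet Φ ε te P) :
    LinkEv ε te (rel P z.2 (root P)) z.1 e ∧ Valid Φ ε P te z.1.2 z.2 := by
  obtain ⟨h1, h2, h3, h4, h5⟩ := h
  simp only at h1 h2 h3 h4 h5
  rw [entT_relL] at h3 h4 h5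
  rw [relL_eq] at h1 h2
  have hu : 0 < hitT ε z.1 e := h0.trans h3
  have h6 := (valid_at hu h4).1 h5
  refine ⟨⟨⟨?_, ?_⟩, hu, h3, h6.2, h4⟩, h6.1⟩
  · intro hc
    exact h1 (by simp only; rw [hc, neg_zero])
  · have e1 := bline_neg (rX z.1 e, rV z.1 e)
    simp only at e1
    rw [e1, norm_neg] at h2
    exact h2

theorem measurableSet_LinkS (ε te : ℝ) (P : CTree) (z : PhasePoint × Par P) :
    MeasurableSet (LinkS ε te P z) := by
  have h1 : MeasurableSet {p : Lab × LSt | LinkEv ε te (rel P z.2 (root P)) z.1 p.2} :=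
    measurableSet_linkEv ε te (ℓ := fun _ : Lab × LSt => z.1) (a := fun _ => rel P z.2 (root P))
      (e := fun p => p.2) measurable_const measurable_const measurable_snd
  exact h1

theorem uI_eq_gh {ε tw : ℝ} {P : CTree} {z : PhasePoint × Par P} (hA : Adm Φ P z.1.2 z.2)
    {m : ℕ} (w : Config m) : uI Φ ε tw P z w = gh Φ ε tw P z ⟨m, w⟩ := by
  unfold uI gh
  rw [ghTM_of_adm hA]
  rfl

/-- **The binding of `OS2`.** -/
theorem OS2_le_link (hf : Measurable f₀) {ε te T' tw : ℝ} (hT : te ≤ T') {K : ℕ}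
    {ν : Measure (Lab × LSt)} {H : SF2}
    {F : (P : CTree) → (Σ n : ℕ, Config n) → PhasePoint × Par P → Lab × LSt → ℝ≥0∞}
    (hH : ∀ P z m w θ, H P z m w θ ≤
      if Sep Φ ε P T' z.1 z.2 ∧ P.leaves ≤ K then F P ⟨m, w⟩ z θ else 0) :
    OS2 Φ f₀ ε te T' ν (fun P z m w θ => uG Φ ε tw K P z w θ * H P z m w θ) ≤
      activity ε * ∑ P ∈ GIVStep383.trees K, ∫⁻ z : PhasePoint × Par P, ∫⁻ w,
        ∫⁻ θ in LinkS ε te P z, tws Φ f₀ ε te P z * (gh Φ ε tw P z w * F P w z θ)
          ∂ν ∂gcM f₀ ε := by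
  unfold OS2
  refine mul_le_mul' le_rfl ?_
  have key : ∀ P : CTree, ∫⁻ z : PhasePoint × Par P,
      {z : PhasePoint × Par P | Valid Φ ε P T' z.1.2 z.2}.indicator
      (fun z => wt Φ P z.1.2 z.2 * (ToTree335.pf Φ f₀ ε P z *
        gcE f₀ ε (fun m w => ∫⁻ θ, {θ : Lab × LSt | (z, θ.2) ∈ OneC423.ctSet Φ ε te P}.indicator
          (fun θ => uG Φ ε tw K P z w θ * H P z m w θ) θ ∂ν))) z ≤
      if P ∈ GIVStep383.trees K then ∫⁻ z : PhasePoint × Par P, ∫⁻ w,
        ∫⁻ θ in LinkS ε te P z, tws Φ f₀ ε te P z * (gh Φ ε tw P z w * F P w z θ)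
          ∂ν ∂gcM f₀ ε else 0 := by
    intro P
    by_cases hP : P ∈ GIVStep383.trees K
    · rw [if_pos hP]
      refine lintegral_mono fun z => ?_
      by_cases hV : Valid Φ ε P T' z.1.2 z.2
      swap
      · rw [indicator_of_notMem
          (show z ∉ {z : PhasePoint × Par P | Valid Φ ε P T' z.1.2 z.2} from hV)]
        exact bot_le
      rw [indicator_of_mem
        (show z ∈ {z : PhasePoint × Par P | Valid Φ ε P T' z.1.2 z.2} from hV)]
      rw [gcE_eq_lintegral hf, ← mul_assoc]
      have hne : wt Φ P z.1.2 z.2 * ToTree335.pf Φ f₀ ε P z ≠ ∞ := by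
        have h1 := tw₀_of_valid (f₀ := f₀) hV
        rw [← h1]
        exact tw₀_ne_top
      rw [← lintegral_const_mul' _ _ hne]
      refine lintegral_mono fun w => ?_
      rw [← lintegral_const_mul' _ _ hne, ← lintegral_indicator (measurableSet_LinkS ε te P z)]
      refine lintegral_mono fun θ => ?_
      by_cases hc : (z, θ.2) ∈ OneC423.ctSet Φ ε te P
      swap
      · rw [indicator_of_notMem
          (show θ ∉ {θ : Lab × LSt | (z, θ.2) ∈ OneC423.ctSet Φ ε te P} from hc), mul_zero]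
        exact bot_le
      rw [indicator_of_mem
        (show θ ∈ {θ : Lab × LSt | (z, θ.2) ∈ OneC423.ctSet Φ ε te P} from hc)]
      unfold uG
      by_cases hO : OkL K θ ∧ P.leaves ≤ K
      swap
      · rw [if_neg hO, zero_mul, mul_zero]
        exact bot_le
      rw [if_pos hO]
      obtain ⟨hl, hVt⟩ := link_of_ctSet (Φ := Φ) hO.1.e0 hc
      rw [indicator_of_mem (show θ ∈ LinkS ε te P z from hl)]
      have h1 := hH P z w.1 w.2 θ
      by_cases hS : Sep Φ ε P T' z.1 z.2 ∧ P.leaves ≤ K
      swap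
      · rw [if_neg hS] at h1
        rw [le_antisymm h1 bot_le, mul_zero, mul_zero]
        exact bot_le
      rw [if_pos hS] at h1
      have h2 : tws Φ f₀ ε te P z = wt Φ P z.1.2 z.2 * ToTree335.pf Φ f₀ ε P z := by
        unfold tws
        rw [if_pos ⟨hVt, Crest.Agent.R122.Forest399.sep_mono hT hS.1⟩, tw₀_of_valid hVt]
      rw [h2, uI_eq_gh hV.1]
      exact mul_le_mul' le_rfl (mul_le_mul' le_rfl h1)
    · rw [if_neg hP]
      refine le_of_eq ?_
      have h0 : ∀ z : PhasePoint × Par P,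
          {z : PhasePoint × Par P | Valid Φ ε P T' z.1.2 z.2}.indicator
          (fun z => wt Φ P z.1.2 z.2 * (ToTree335.pf Φ f₀ ε P z *
            gcE f₀ ε (fun m w => ∫⁻ θ,
              {θ : Lab × LSt | (z, θ.2) ∈ OneC423.ctSet Φ ε te P}.indicator
              (fun θ => uG Φ ε tw K P z w θ * H P z m w θ) θ ∂ν))) z = 0 := by
        intro z
        by_cases hV : Valid Φ ε P T' z.1.2 z.2
        swap
        · exact indicator_of_notMem
            (show z ∉ {z : PhasePoint × Par P | Valid Φ ε P T' z.1.2 z.2} from hV) _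
        rw [indicator_of_mem
          (show z ∈ {z : PhasePoint × Par P | Valid Φ ε P T' z.1.2 z.2} from hV)]
        have h1 : ∀ (w : Σ n : ℕ, Config n), ∫⁻ θ,
            {θ : Lab × LSt | (z, θ.2) ∈ OneC423.ctSet Φ ε te P}.indicator
            (fun θ => uG Φ ε tw K P z w.2 θ * H P z w.1 w.2 θ) θ ∂ν = 0 := by
          intro w
          have h2 : ∀ θ, {θ : Lab × LSt | (z, θ.2) ∈ OneC423.ctSet Φ ε te P}.indicator
              (fun θ => uG Φ ε tw K P z w.2 θ * H P z w.1 w.2 θ) θ = 0 := by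
            intro θ
            have h3 : uG Φ ε tw K P z w.2 θ = 0 :=
              if_neg fun hh => hP (GIVStep383.mem_trees.2 hh.2)
            by_cases hc : θ ∈ {θ : Lab × LSt | (z, θ.2) ∈ OneC423.ctSet Φ ε te P}
            · rw [indicator_of_mem hc, h3, zero_mul]
            · rw [indicator_of_notMem hc]
          simp only [h2, lintegral_zero]
        rw [gcE_eq_lintegral hf]
        simp only [h1, lintegral_zero, mul_zero]
      simp only [h0, lintegral_zero]
  refine (ENNReal.tsum_le_tsum key).trans (le_of_eq ?_)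
  rw [tsum_eq_sum (s := GIVStep383.trees K) fun P hP => if_neg hP]
  exact Finset.sum_congr rfl fun P hP => if_pos hP

end Crest.Agent.R122.H5OS814

end
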