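import Crest.Agent.R122.H5Y2_814

/-!
Row 122 (helper814): the **young part** of the spread terms of inequality 3.

* `excess_le` : the excess of the quenched root density, with the flux weight;
* `young_le` : `Σ_P ∫z ∫w ∫_{young link} tws · gh · touchW (cfg w) d ≤ ε² c (C r XI + C' δ)`.
-/

set_option autoImplicit false

open MeasureTheory Set Filter
open scoped ENNReal Topology
open Crest.AnalysisR.Kinetic
open Crest.Agent.R122.Kin796 Crest.Agent.R122.Kin796.CTree Crest.Agent.R122.Tree674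
open Crest.Agent.R122.EDefs602 Crest.Agent.R122.TreeLines335 Crest.Agent.R122.LineMeas994
open Crest.Agent.R122.GC311 Crest.Agent.R122.QDens815 Crest.Agent.R122.Q1815
open Crest.Agent.R122.SPV994 Crest.Agent.R122.Boost969 Crest.Agent.R122.MeasE416
open Crest.Agent.R122.Pair292 hiding ML
open Crest.Agent.R122.Contact969 Crest.Agent.R122.PairS969 Crest.Agent.R122.Omega969
open Crest.Agent.R122.H5994

noncomputable section

namespace Crest.Agent.R122.H5Y814

variable {Φ : Space3 → ℝ} {f₀ : PhasePoint → ℝ} {f : ℝ → PhasePoint → ℝ} {β T T₀ tw : ℝ}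

/-- quenched density of the root lines of the trees with at most `K` leaves -/
def D1 (Φ : Space3 → ℝ) (f₀ : PhasePoint → ℝ) (ε : ℝ) (K : ℕ) (tw : ℝ) (w : Σ n : ℕ, Config n)
    (u : ℝ) (ℓ : PhasePoint) : ℝ≥0∞ :=
  ∑ P ∈ GIVStep383.trees K, Dw Φ f₀ P (fun _ => 1) ε tw u ℓ w.2

/-- ideal bound of the root density -/
def gI (M C b : ℝ) (ℓ : PhasePoint) : ℝ≥0∞ :=
  (2 * ENNReal.ofReal M) * (ENNReal.ofReal C * wG b ℓ.2)

/-- the error of the root density -/
def δY (Φ : Space3 → ℝ) (f₀ : PhasePoint → ℝ) (M C b tw te : ℝ) (K : ℕ) (ε : ℝ) : ℝ≥0∞ :=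
  gcE f₀ ε fun _ w => ∫⁻ y : ℝ × PhasePoint,
    ((∑' P, Dw Φ f₀ P (cutW K P (rootA P)) ε tw y.1 y.2 w) -
      (2 * ENNReal.ofReal M) * (ENNReal.ofReal C * wG b y.2.2))
        ∂((volume.restrict (Ioc 0 te)).prod volume)

theorem null_δY (X : Ctx Φ β T f₀ f T₀ tw) {h₀ kap lam C b : ℝ}
    (hK : Seg814.KinC Φ T f h₀ kap lam C b) (hkap : kap ≤ β) {te : ℝ} (hte : te ≤ tw + h₀)
    (hteT : te ≤ T₀) {lam₁ M : ℝ} (_h1 : 1 < lam₁) (h2 : lam₁ ≤ lam)
    (hM : ∀ (P : CTree) (s : ℝ) (ℓ : PhasePoint) (p : Par P),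
      wtA Φ P (s, ℓ, p) ≤ ENNReal.ofReal M * ENNReal.ofReal lam₁ ^ P.size *
        ENNReal.ofReal (Real.exp (kap * Seg814.eng Φ P ℓ.2 p))) :
    Null (δY Φ f₀ M C b tw te) := by
  have hβ := X.hβ
  have hM2 : (2 * ENNReal.ofReal M : ℝ≥0∞) ≠ ∞ :=
    ENNReal.mul_ne_top (by norm_num) ENNReal.ofReal_ne_top
  have hA : ∀ (P : CTree) (s : ℝ) (ℓ : PhasePoint) (p : Par P), Adm Φ P ℓ.2 p →
      rootA P (s, ℓ, p) ≤ (2 * ENNReal.ofReal M) * ENNReal.ofReal lam ^ P.size *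
        ENNReal.ofReal (Real.exp (kap * Seg814.eng Φ P ℓ.2 p)) := by
    intro P s ℓ p ha
    calc rootA P (s, ℓ, p) ≤ 2 * wtA Φ P (s, ℓ, p) := rootA_le_wtA X.hΦ ha
      _ ≤ 2 * (ENNReal.ofReal M * ENNReal.ofReal lam₁ ^ P.size *
        ENNReal.ofReal (Real.exp (kap * Seg814.eng Φ P ℓ.2 p))) := mul_le_mul_right (hM P s ℓ p) _
      _ ≤ 2 * (ENNReal.ofReal M * ENNReal.ofReal lam ^ P.size *
        ENNReal.ofReal (Real.exp (kap * Seg814.eng Φ P ℓ.2 p))) := by
          gcongr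
      _ = _ := by ring
  refine null_iff_tendsto.2 fun K => ?_
  have : IsFiniteMeasure ((volume : Measure ℝ).restrict (Ioc 0 te)) := by
    refine ⟨?_⟩
    rw [Measure.restrict_apply_univ, Real.volume_Ioc]
    exact ENNReal.ofReal_lt_top
  refine tendsto_excess X (κ := (volume : Measure ℝ).restrict (Ioc 0 te)) ?_ hK ?_
    (GIVStep383.trees K) (φ := fun P => cutW K P (rootA P)) ?_ ?_ hM2 ?_
  · exact (ae_restrict_iff' measurableSet_Ioc).2 (Eventually.of_forall fun s hs => hs.2.trans hteT)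
  · exact (ae_restrict_iff' measurableSet_Ioc).2
      (Eventually.of_forall fun s hs => ⟨hs.1.le, hs.2.trans hte⟩)
  · exact fun P _ => Wgt.of_le (measurable_cutW (measurable_rootA P)) (by linarith) hM2
      (fun s ℓ p ha => (cutW_le _).trans (hA P s ℓ p ha))
  · intro P hP q
    refine cutW_of_lt ?_ q
    by_contra hc
    exact hP (GIVStep383.mem_trees.2 (not_lt.1 hc))
  · exact fun P s ℓ p ha => (cutW_le _).trans (hA P s ℓ p ha)

section

variable (hΦ : AdmissiblePotential Φ) (hf : Measurable f₀) {ε : ℝ} (hε : 0 < ε) {K : ℕ}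

include hΦ hf hε in
theorem measurable_D1 (tw : ℝ) : Measurable fun q : (Σ n : ℕ, Config n) × ℝ × PhasePoint =>
    D1 Φ f₀ ε K tw q.1 q.2.1 q.2.2 := by
  unfold D1
  refine Finset.measurable_sum _ fun P _ => ?_
  exact measurable_Dw hΦ hf (φ := fun _ => 1) measurable_const hε tw

theorem measurable_gI (M C b : ℝ) : Measurable (gI M C b) := by
  unfold gI
  exact (((measurable_wG b).comp measurable_snd).const_mul _).const_mul _

/-- `(1 + |v|) D1` is the quenched density with weight `rootA` -/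
theorem rootA_D1 {tw : ℝ} {w : Σ n : ℕ, Config n} {u : ℝ} {ℓ : PhasePoint} :
    ∑' P, Dw Φ f₀ P (cutW K P (rootA P)) ε tw u ℓ w.2 =
      ENNReal.ofReal (1 + ‖ℓ.2‖) * D1 Φ f₀ ε K tw w u ℓ := by
  rw [tsum_eq_sum (s := GIVStep383.trees K)]
  · unfold D1
    rw [Finset.mul_sum]
    refine Finset.sum_congr rfl fun P hP => ?_
    have h1 := Dw_mul_left (Φ := Φ) (f₀ := f₀) (P := P) (φ := fun _ => 1)
      (c := fun _ ℓ => ENNReal.ofReal (1 + ‖ℓ.2‖)) (ε := ε) (tw := tw) (s := u) (ℓ := ℓ) (w := w.2)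
      ENNReal.ofReal_ne_top
    rw [← h1]
    congr 1
    funext q
    rw [cutW_of_le (GIVStep383.mem_trees.1 hP), mul_one]
    rfl
  · intro P hP
    refine Dw_zero fun p => cutW_of_lt ?_ _
    by_contra hc
    exact hP (GIVStep383.mem_trees.2 (not_lt.1 hc))

include hΦ hf hε in
/-- **the excess with the flux weight** -/
theorem excess_le (M C b tw te : ℝ) :
    ∫⁻ ℓ : PhasePoint, ∫⁻ w : (Σ n : ℕ, Config n), ∫⁻ u, rdL te 0 ℓ u *
      (D1 Φ f₀ ε K tw w u ℓ - gI M C b ℓ) ∂volume ∂gcM f₀ ε ≤ δY Φ f₀ M C b tw te K ε := by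
  have hD := measurable_D1 hΦ hf hε (K := K) tw
  have hg := measurable_gI M C b
  -- the majorant
  set H : PhasePoint → (Σ n : ℕ, Config n) → ℝ → ℝ≥0∞ := fun ℓ w u =>
    (Ioc 0 te).indicator (fun u => ENNReal.ofReal (1 + ‖ℓ.2‖) * D1 Φ f₀ ε K tw w u ℓ -
      gI M C b ℓ) u with hH
  have hle : ∀ ℓ w u, rdL te 0 ℓ u * (D1 Φ f₀ ε K tw w u ℓ - gI M C b ℓ) ≤ H ℓ w u := by
    intro ℓ w u
    unfold rdL
    by_cases hu : 0 < u ∧ 0 < u ∧ u ≤ te
    swap
    · rw [if_neg hu, zero_mul]; exact bot_le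
    rw [if_pos hu, hH]
    simp only
    rw [indicator_of_mem (show u ∈ Ioc 0 te from ⟨hu.1, hu.2.2⟩),
      ENNReal.mul_sub (fun _ _ => ENNReal.ofReal_ne_top)]
    refine tsub_le_tsub le_rfl ?_
    refine le_mul_of_one_le_left' ?_
    rw [ENNReal.one_le_ofReal]
    linarith [norm_nonneg ℓ.2]
  have hHm : Measurable fun q : (PhasePoint × (Σ n : ℕ, Config n)) × ℝ => H q.1.1 q.1.2 q.2 := by
    have m1 : Measurable fun q : (PhasePoint × (Σ n : ℕ, Config n)) × ℝ =>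
        D1 Φ f₀ ε K tw q.1.2 q.2 q.1.1 := by
      have hq : Measurable fun q : (PhasePoint × (Σ n : ℕ, Config n)) × ℝ =>
          (q.1.2, (q.2, q.1.1)) :=
        measurable_fst.snd.prodMk (measurable_snd.prodMk measurable_fst.fst)
      have h := hD.comp hq
      exact h
    have m2 : Measurable fun q : (PhasePoint × (Σ n : ℕ, Config n)) × ℝ =>
        ENNReal.ofReal (1 + ‖q.1.1.2‖) := by fun_prop
    have m3 : Measurable fun q : (PhasePoint × (Σ n : ℕ, Config n)) × ℝ =>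
        gI M C b q.1.1 := hg.comp measurable_fst.fst
    have m4 : MeasurableSet {q : (PhasePoint × (Σ n : ℕ, Config n)) × ℝ | q.2 ∈ Ioc 0 te} :=
      measurable_snd measurableSet_Ioc
    have m5 := ((m2.mul m1).sub m3).indicator m4
    have e1 := ind_eq (fun q : (PhasePoint × (Σ n : ℕ, Config n)) × ℝ => q.2)
      (fun _ => Ioc 0 te) (fun q u => ENNReal.ofReal (1 + ‖q.1.1.2‖) *
        D1 Φ f₀ ε K tw q.1.2 u q.1.1 - gI M C b q.1.1)
    rw [hH]
    simp only
    rw [e1]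
    exact m5
  have hHu : Measurable fun q : PhasePoint × (Σ n : ℕ, Config n) => ∫⁻ u, H q.1 q.2 u :=
    hHm.lintegral_prod_right'
  calc ∫⁻ ℓ : PhasePoint, ∫⁻ w : (Σ n : ℕ, Config n), ∫⁻ u, rdL te 0 ℓ u *
      (D1 Φ f₀ ε K tw w u ℓ - gI M C b ℓ) ∂volume ∂gcM f₀ ε
      ≤ ∫⁻ ℓ : PhasePoint, ∫⁻ w : (Σ n : ℕ, Config n), ∫⁻ u, H ℓ w u ∂volume ∂gcM f₀ ε :=
        lintegral_mono fun ℓ => lintegral_mono fun w => lintegral_mono fun u => hle ℓ w u
    _ = ∫⁻ w : (Σ n : ℕ, Config n), ∫⁻ ℓ : PhasePoint, ∫⁻ u, H ℓ w u ∂volume ∂volume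
          ∂gcM f₀ ε :=
        lintegral_lintegral_swap (f := fun (ℓ : PhasePoint) (w : Σ n : ℕ, Config n) =>
          ∫⁻ u, H ℓ w u) hHu.aemeasurable
    _ = δY Φ f₀ M C b tw te K ε := by
        unfold δY
        rw [gcE_eq_lintegral hf]
        refine lintegral_congr fun w => ?_
        have hHw : Measurable fun q : PhasePoint × ℝ => H q.1 w q.2 := by
          have hq : Measurable fun q : PhasePoint × ℝ => ((q.1, w), q.2) :=
            (measurable_fst.prodMk measurable_const).prodMk measurable_snd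
          have h := hHm.comp hq
          exact h
        have hs : ∫⁻ ℓ : PhasePoint, ∫⁻ u, H ℓ w u = ∫⁻ u, ∫⁻ ℓ : PhasePoint, H ℓ w u :=
          lintegral_lintegral_swap (f := fun (ℓ : PhasePoint) (u : ℝ) => H ℓ w u)
            hHw.aemeasurable
        rw [hs]
        have m1 : Measurable fun y : ℝ × PhasePoint =>
            ENNReal.ofReal (1 + ‖y.2.2‖) * D1 Φ f₀ ε K tw w y.1 y.2 - gI M C b y.2 := by
          have hq : Measurable fun y : ℝ × PhasePoint => (w, y) :=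
            measurable_const.prodMk measurable_id
          have h := hD.comp hq
          have h2 : Measurable fun y : ℝ × PhasePoint => D1 Φ f₀ ε K tw w y.1 y.2 := h
          have h3 : Measurable fun y : ℝ × PhasePoint => ENNReal.ofReal (1 + ‖y.2.2‖) := by
            fun_prop
          exact (h3.mul h2).sub (hg.comp measurable_snd)
        have e1 : ∀ y : ℝ × PhasePoint, ((∑' P, Dw Φ f₀ P (cutW K P (rootA P)) ε tw y.1 y.2 w.2) -
            (2 * ENNReal.ofReal M) * (ENNReal.ofReal C * wG b y.2.2)) =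
            ENNReal.ofReal (1 + ‖y.2.2‖) * D1 Φ f₀ ε K tw w y.1 y.2 - gI M C b y.2 := by
          intro y
          rw [rootA_D1]
          rfl
        simp only [e1]
        rw [lintegral_prod _ m1.aemeasurable, ← lintegral_indicator measurableSet_Ioc]
        refine lintegral_congr fun u => ?_
        rw [hH]
        by_cases hu : u ∈ Ioc 0 te
        · simp only [indicator_of_mem hu]
        · simp only [indicator_of_notMem hu, lintegral_zero]

end

/-- constant of the main term -/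
def cYm (M C b te : ℝ) : ℝ≥0∞ :=
  (2 * ENNReal.ofReal M) * ENNReal.ofReal C * cV b *
    (volume (Metric.ball (0 : Space3) 1) * (2 * (1 + ENNReal.ofReal te)))

theorem touch_rhs {Pp : PPar} {Q : EPar} {K : ℕ} {ε : ℝ} {w : Σ n : ℕ, Config n}
    (hℓ : Pp.ℓ = lineM Q.γ Q.ρ K Q.te) (ht : Pp.t' = Q.te)
    (hm : Measurable fun l : EDefs602.ML => (MW.cfg w.2).touchW Φ ε K Q l) :
    Pp.rhs (fun q => (MW.cfg w.2).touchW Φ ε K Q q.1) =
      (1 + ENNReal.ofReal Q.te) *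
        ∫⁻ l, (MW.cfg w.2).touchW Φ ε K Q l ∂lineM Q.γ Q.ρ K Q.te := by
  unfold PPar.rhs
  simp only [setLIntegral_const, Real.volume_Icc, sub_zero]
  rw [hℓ, ht, lintegral_mul_const _ hm, add_mul, one_mul, mul_comm (ENNReal.ofReal Q.te)]

/-- **The young part of the spread terms.** -/
theorem young_le (hΦ : AdmissiblePotential Φ) (hf : Measurable f₀) {ε : ℝ} (hε : 0 < ε) {K : ℕ}
    {Q : EPar} (hL : 0 ≤ Q.L) (hγ : Measurable Q.γ) {Pp : PPar} {Ξ ν : Measure (Lab × LSt)}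
    {c : ℝ≥0∞} {r : ℝ} (h : PX Pp Ξ ν c) [SFinite Pp.ℓ] (hℓ : Pp.ℓ = lineM Q.γ Q.ρ K Q.te)
    (ht : Pp.t' = Q.te) (hW : GoodW Pp) (hc : c ≠ ∞)
    (hsig : ∀ᵐ p ∂ν, Pair292.sig p.1 ≤ p.2.1) {Cl : ℝ≥0∞} (hCl : Cl ≠ ∞) (hsph : sphM univ ≠ ∞)
    (hl1 : ∀ s : ℝ, ∫⁻ l, rho0 (posd l) * (Icc (s - r) s).indicator 1 l.1.1 ∂Pp.ℓ ≤
      Cl * ENNReal.ofReal r) (hl2 : ∫⁻ l, rho0 (posd l) ∂Pp.ℓ ≤ Cl) (M C b : ℝ) :
    ∑ P ∈ GIVStep383.trees K, ∫⁻ z : PhasePoint × Par P, ∫⁻ w, ∫⁻ p in ByS ε Q.te r P z,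
      FYt Φ f₀ ε K Q P w z p ∂ν ∂gcM f₀ ε ≤
      ENNReal.ofReal (ε ^ 2) * (c * (cYm M C b Q.te * ENNReal.ofReal r * XI Φ f₀ ε K Q)) +
        c7 ε r Cl c * δY Φ f₀ M C b Q.tw Q.te K ε := by
  have := h.sfν
  refine (sum_le_root hΦ hf hε (r := r) (ν := ν) hL).trans ?_
  have hT1 : ∀ w p, tW Φ ε K Q w p ≤ 1 := fun w p => tW_le_one hL w p
  have hExm : Measurable fun q : (Σ n : ℕ, Config n) × ℝ × PhasePoint =>
      D1 Φ f₀ ε K Q.tw q.1 q.2.1 q.2.2 - gI M C b q.2.2 :=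
    (measurable_D1 hΦ hf hε Q.tw).sub ((measurable_gI M C b).comp measurable_snd.snd)
  have hc7 : c7 ε r Cl c ≠ ∞ := by
    unfold c7
    have h1 : volume (Metric.ball (0 : Space3) 1) ≠ ∞ := measure_ball_lt_top.ne
    exact ENNReal.mul_ne_top (ENNReal.mul_ne_top ENNReal.ofReal_ne_top
      (ENNReal.mul_ne_top hsph (ENNReal.mul_ne_top h1
        (ENNReal.mul_ne_top (by norm_num) hc)))) (ENNReal.mul_ne_top
          (ENNReal.mul_ne_top (by norm_num) hCl) ENNReal.ofReal_ne_top)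
  have htm : ∀ w : Σ n : ℕ, Config n, Measurable fun l : EDefs602.ML =>
      (MW.cfg w.2).touchW Φ ε K Q l := by
    intro w
    have hq : Measurable fun l : EDefs602.ML => (w.2, l) := measurable_const.prodMk measurable_id
    have h1 := (measurable_touchW_cfg hΦ hε K Q w.1).comp hq
    exact h1
  set X : (Σ n : ℕ, Config n) → ℝ≥0∞ := fun w =>
    ENNReal.ofReal (ε ^ 2) * (c * (cYm M C b Q.te * ENNReal.ofReal r *
      ∫⁻ l, (MW.cfg w.2).touchW Φ ε K Q l ∂lineM Q.γ Q.ρ K Q.te)) with hX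
  have hXle : ∀ w, ∫⁻ p, tW Φ ε K Q w p *
      ∫⁻ ℓ in {ℓ : PhasePoint | p ∈ By0 ε Q.te r ℓ}, gI M C b ℓ ∂volume ∂ν ≤ X w := by
    intro w
    set A : ℝ≥0∞ := ((2 * ENNReal.ofReal M) * ENNReal.ofReal C) *
      (cV b * (ENNReal.ofReal (ε ^ 2) * ENNReal.ofReal r)) with hA
    have h1 : ∀ᵐ p ∂ν, tW Φ ε K Q w p *
        ∫⁻ ℓ in {ℓ : PhasePoint | p ∈ By0 ε Q.te r ℓ}, gI M C b ℓ ∂volume ≤
        A * ((MW.cfg w.2).touchW Φ ε K Q p.1.1 * vI Pp.t' p.2) := by
      filter_upwards [hsig] with p hp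
      by_cases hp2 : p.2.1 ≤ Q.te
      · have e1 : ∫⁻ ℓ in {ℓ : PhasePoint | p ∈ By0 ε Q.te r ℓ}, gI M C b ℓ ∂volume =
            ((2 * ENNReal.ofReal M) * ENNReal.ofReal C) *
              ∫⁻ ℓ in {ℓ : PhasePoint | p ∈ By0 ε Q.te r ℓ}, wG b ℓ.2 := by
          rw [← lintegral_const_mul' _ _ (ENNReal.mul_ne_top (ENNReal.mul_ne_top (by norm_num)
            ENNReal.ofReal_ne_top) ENNReal.ofReal_ne_top)]
          refine lintegral_congr fun ℓ => ?_
          unfold gI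
          ring
        have e2 := vol_young (te := Q.te) (r := r) hε b hp
        have e3 : vI Pp.t' p.2 = ENNReal.ofReal (1 + ‖p.2.2.2‖) := by
          unfold vI
          rw [if_pos (by rw [ht]; exact hp2)]
        rw [e1, e3]
        calc tW Φ ε K Q w p * (((2 * ENNReal.ofReal M) * ENNReal.ofReal C) *
              ∫⁻ ℓ in {ℓ : PhasePoint | p ∈ By0 ε Q.te r ℓ}, wG b ℓ.2)
            ≤ tW Φ ε K Q w p * (((2 * ENNReal.ofReal M) * ENNReal.ofReal C) *
              (cV b * (ENNReal.ofReal (ε ^ 2) *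
                (ENNReal.ofReal r * ENNReal.ofReal (1 + ‖p.2.2.2‖))))) := by
              gcongr
          _ = _ := by
              unfold tW
              rw [hA]
              ring
      · have e1 : {ℓ : PhasePoint | p ∈ By0 ε Q.te r ℓ} = ∅ := by
          ext ℓ
          simp only [Set.mem_ofPred_eq, mem_empty_iff_false, iff_false]
          intro hc'
          have h3 := hc'.1.2.2.1
          have h4 := hc'.1.2.2.2.2
          linarith
        rw [e1, Measure.restrict_empty, lintegral_zero_measure, mul_zero]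
        exact bot_le
    have hF : Measurable fun q : EDefs602.ML × ℝ => (MW.cfg w.2).touchW Φ ε K Q q.1 :=
      (htm w).comp measurable_fst
    have hm : Measurable fun p : Lab × LSt =>
        (MW.cfg w.2).touchW Φ ε K Q p.1.1 * vI Pp.t' p.2 :=
      ((htm w).comp measurable_fst.fst).mul ((measurable_vI Pp.t').comp measurable_snd)
    calc ∫⁻ p, tW Φ ε K Q w p *
          ∫⁻ ℓ in {ℓ : PhasePoint | p ∈ By0 ε Q.te r ℓ}, gI M C b ℓ ∂volume ∂ν
        ≤ ∫⁻ p, A * ((MW.cfg w.2).touchW Φ ε K Q p.1.1 * vI Pp.t' p.2) ∂ν :=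
          lintegral_mono_ae h1
      _ = A * ∫⁻ p, (MW.cfg w.2).touchW Φ ε K Q p.1.1 * vI Pp.t' p.2 ∂ν :=
          lintegral_const_mul _ hm
      _ ≤ A * (volume (Metric.ball (0 : Space3) 1) * (2 * (c *
            Pp.rhs (fun q => (MW.cfg w.2).touchW Φ ε K Q q.1)))) :=
          mul_le_mul' le_rfl (le_rhs_vel h hW hF)
      _ = X w := by
          rw [touch_rhs hℓ ht (htm w), hX, hA]
          unfold cYm
          ring
  have hspY := spY (gcM f₀ ε) (volume : Measure PhasePoint) (volume : Measure ℝ) ν (c₇ := c7 ε r Cl c)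
    hc7 (lt := fun ℓ p => hitT ε ℓ p.2) (B := fun ℓ => By0 ε Q.te r ℓ)
    (measurableSet_By0 ε Q.te r) (rd := fun ℓ => rdL Q.te 0 ℓ)
    (fun ℓ => y6_link h hε ht hW hsig hl1 hl2
      ((measurableSet_By0 ε Q.te r).preimage measurable_prodMk_left) (fun p hp => hp.1)
      (fun p hp => hp.2))
    (D := fun w u ℓ => D1 Φ f₀ ε K Q.tw w u ℓ)
    (Ex := fun w u ℓ => D1 Φ f₀ ε K Q.tw w u ℓ - gI M C b ℓ) (g := gI M C b)
    (measurable_gI M C b) hExm (fun w u ℓ => le_add_tsub)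
    (T := fun w p => tW Φ ε K Q w p) (measurable_tW hΦ hε K Q) hT1 (X := X) hXle
  refine hspY.trans (add_le_add ?_ ?_)
  · have htmeas : EBasic602.TouchMeas Φ ε K Q := measurable_touchW_cfg hΦ hε K Q
    rw [EBasic602.XI_eq hf hγ htmeas, gcE_eq_lintegral hf, hX]
    have hI : Measurable fun w : Σ n : ℕ, Config n =>
        ∫⁻ l, (MW.cfg w.2).touchW Φ ε K Q l ∂lineM Q.γ Q.ρ K Q.te := by
      have hq : Measurable fun q : (Σ n : ℕ, Config n) × EDefs602.ML =>
          (MW.cfg q.1.2).touchW Φ ε K Q q.2 :=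
        Q1815.measurable_sigma_prod fun n => measurable_touchW_cfg hΦ hε K Q n
      exact hq.lintegral_prod_right'
    rw [lintegral_const_mul _ ((hI.const_mul _).const_mul _), lintegral_const_mul _ (hI.const_mul _),
      lintegral_const_mul _ hI]
  · exact mul_le_mul' le_rfl (excess_le hΦ hf hε M C b Q.tw Q.te)

end Crest.Agent.R122.H5Y814

end
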