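import Crest.Agent.R122.Boost8_969
import Crest.Agent.R122.ContactC1_969
import Crest.Agent.R122.PairC_292

/-!
Row 122, block E / INEQUALITY 3, helper969: flux of a spread pair law through a fixed path.

`ν` = law of a pair (first line `d` in the label, second line `e`), in 292's class `PX`.
`y` = a fixed differentiable path.  `T p` = an entrance time of `e` into the ball of radius `ε` about
`y`.
* `PX.S6` : old contacts (`T ≥ s_B + r`): `∫ ψ(e) φ(d, s_B, T) dν ≤ C r⁻³ ε² ∫ ds (1+|y' s|) rhs φ(·, s)`;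
* `PX.Y6` : all contacts, `φ` translation invariant: `≤ C ε² ∫ ds (1 + |y' s|) rhs (ρ φ(·, s))`.
-/

set_option autoImplicit false

open MeasureTheory ProbabilityTheory Set
open Crest.AnalysisR.Kinetic
open Crest.Agent.R122.Boost969 Crest.Agent.R122.Omega969 Crest.Agent.R122.Contact969
open Crest.Agent.R122.Pair292
open scoped Classical ENNReal

noncomputable section

namespace Crest.Agent.R122.PairS969

/-! ### Mass transport -/

/-- **Mass transport.** -/
lemma mass_transport {α : Type*} [MeasurableSpace α] (ν : Measure α) [SFinite ν]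
    {sh : Space3 → α → α} (hsh : Measurable (fun q : Space3 × α => sh q.1 q.2))
    (hinv : ∀ x, ν.map (sh x) = ν) {pos : α → Space3} (hpos : Measurable pos)
    (hposh : ∀ x a, pos (sh x a) = pos a + x) {ρ : Space3 → ℝ≥0∞} (hρ : Measurable ρ)
    (hρ1 : ∫⁻ x, ρ x = 1) {F : α → ℝ≥0∞} (hF : Measurable F) :
    ∫⁻ a, F a ∂ν = ∫⁻ a, ρ (pos a) * ∫⁻ x : Space3, F (sh x a) ∂volume ∂ν := by
  have hshx : ∀ x, Measurable (sh x) := fun x => hsh.comp (measurable_const.prodMk measurable_id)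
  have hm1 : Measurable (fun q : α × Space3 => F q.1 * ρ (pos q.1 - q.2)) :=
    (hF.comp measurable_fst).mul (hρ.comp ((hpos.comp measurable_fst).sub measurable_snd))
  have hm2 : Measurable (fun q : Space3 × α => F (sh q.1 q.2) * ρ (pos q.2)) :=
    (hF.comp hsh).mul (hρ.comp (hpos.comp measurable_snd))
  calc ∫⁻ a, F a ∂ν = ∫⁻ a, ∫⁻ x : Space3, F a * ρ (pos a - x) ∂volume ∂ν := by
        refine lintegral_congr fun a => ?_
        have hm : Measurable (fun x : Space3 => ρ (pos a - x)) :=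
          hρ.comp (measurable_const.sub measurable_id)
        rw [lintegral_const_mul _ hm, lintegral_sub_left_eq_self ρ (pos a), hρ1, mul_one]
    _ = ∫⁻ x : Space3, ∫⁻ a, F a * ρ (pos a - x) ∂ν := lintegral_lintegral_swap hm1.aemeasurable
    _ = ∫⁻ x : Space3, ∫⁻ a, F (sh x a) * ρ (pos a) ∂ν := by
        refine lintegral_congr fun x => ?_
        have hm : Measurable (fun a => F a * ρ (pos a - x)) :=
          hm1.comp (measurable_id.prodMk measurable_const)
        conv_lhs => rw [← hinv x]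
        rw [lintegral_map hm (hshx x)]
        refine lintegral_congr fun a => ?_
        rw [hposh, add_sub_cancel_right]
    _ = ∫⁻ a, ∫⁻ x : Space3, F (sh x a) * ρ (pos a) ∂volume ∂ν :=
        lintegral_lintegral_swap hm2.aemeasurable
    _ = _ := by
        refine lintegral_congr fun a => ?_
        have hm : Measurable (fun x : Space3 => F (sh x a)) :=
          hF.comp (hsh.comp (measurable_id.prodMk measurable_const))
        rw [lintegral_mul_const _ hm, mul_comm]

/-- a fixed probability density -/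
def rho0 (x : Space3) : ℝ≥0∞ :=
  (volume (Metric.ball (0 : Space3) 1))⁻¹ * (Metric.ball (0 : Space3) 1).indicator 1 x

lemma measurable_rho0 : Measurable rho0 := by
  unfold rho0
  exact (measurable_one.indicator measurableSet_ball).const_mul _

lemma lintegral_rho0 : ∫⁻ x, rho0 x = 1 := by
  unfold rho0
  rw [lintegral_const_mul _ (measurable_one.indicator measurableSet_ball),
    lintegral_indicator_one measurableSet_ball]
  exact ENNReal.inv_mul_cancel vol_ball_ne_zero vol_ball_ne_top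

/-! ### Joint translations -/

lemma measurable_shP' : Measurable (fun q : Space3 × (Lab × LSt) => shP q.1 q.2) := by
  unfold shP
  have h1 : Measurable (fun q : Space3 × (Lab × LSt) => (q.1, q.2.1.1)) := by fun_prop
  have h2 : Measurable (fun q : Space3 × (Lab × LSt) => (q.1, q.2.2)) := by fun_prop
  exact (Measurable.prodMk (measurable_shM'.comp h1) (by fun_prop)).prodMk
    (measurable_shL'.comp h2)

/-- position of the first line -/
def posd (l : ML) : Space3 := l.1.2.1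

lemma measurable_posd : Measurable posd := by unfold posd; fun_prop

lemma posd_shM (x : Space3) (l : ML) : posd (shM x l) = posd l + x := rfl

lemma posAt_shL (s : ℝ) (x : Space3) (z : LSt) : posAt s (shL x z) = posAt s z + x := by
  unfold posAt shL
  simp only
  abel

/-- An entrance time of the second line into the ball of radius `ε` about the path `y`. -/
structure EntrX (y : ℝ → Space3) (a b ε t' : ℝ) (X : Set (Lab × LSt)) (T : Lab × LSt → ℝ) :
    Prop where
  mX : MeasurableSet X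
  mT : Measurable T
  mem : ∀ p ∈ X, T p ∈ Ioc a b
  entr : ∀ p ∈ X, Entr (fun s => y s - posAt s p.2) ε 0 (T p)
  birth : ∀ p ∈ X, p.2.1 ≤ t'

section flux

variable {y y' : ℝ → Space3} {a b ε t' : ℝ} {X : Set (Lab × LSt)} {T : Lab × LSt → ℝ}

/-- contact coordinates for one pair (all translates) -/
lemma EntrX.translates (hX : EntrX y a b ε t' X T) (hε : 0 < ε) (hym : Measurable y)
    (hym' : Measurable y') (hy : ∀ s ∈ Ioc a b, HasDerivAt y (y' s) s) (p : Lab × LSt)
    {Φ : Space3 × ℝ → ℝ≥0∞} (hΦ : Measurable Φ) :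
    ∫⁻ x : Space3, X.indicator (fun q => Φ (posd q.1.1 - posd p.1.1, T q)) (shP x p) ≤
      ENNReal.ofReal (ε ^ 2) * ∫⁻ s in Ioc a b, ∫⁻ w,
        ((1 + ENNReal.ofReal ‖p.2.2.2‖) * (1 + ENNReal.ofReal ‖y' s‖)) *
          Φ (y s - posAt s p.2 + ε • w, s) ∂sphM := by
  have hshp : Measurable (fun x : Space3 => shP x p) :=
    measurable_shP'.comp (measurable_id.prodMk measurable_const)
  set Xp : Set Space3 := {x | shP x p ∈ X} with hXp
  have hXpm : MeasurableSet Xp := hshp hX.mX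
  have e1 : ∀ x : Space3, X.indicator (fun q => Φ (posd q.1.1 - posd p.1.1, T q)) (shP x p) =
      Xp.indicator (fun x => Φ (x, T (shP x p))) x := by
    intro x
    by_cases hx : x ∈ Xp
    · rw [indicator_of_mem hx, indicator_of_mem (show shP x p ∈ X from hx)]
      congr 2
      change posd (shM x p.1.1) - posd p.1.1 = x
      rw [posd_shM]
      abel
    · rw [indicator_of_notMem hx, indicator_of_notMem (show shP x p ∉ X from hx)]
  simp_rw [e1]
  rw [lintegral_indicator hXpm]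
  have hpos : ∀ s, HasDerivAt (fun s => posAt s p.2) p.2.2.2 s := by
    intro s
    have h2 : HasDerivAt (fun s : ℝ => (s - p.2.1) • p.2.2.2) ((1 : ℝ) • p.2.2.2) s :=
      ((hasDerivAt_id s).sub_const p.2.1).smul_const p.2.2.2
    rw [one_smul] at h2
    exact h2.const_add p.2.2.1
  have hpm : Measurable (fun s => posAt s p.2) :=
    measurable_posAt.comp (measurable_id.prodMk measurable_const)
  have h1 := contact_law (D := fun s => y s - posAt s p.2) (D' := fun s => y' s - p.2.2.2)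
    (a := a) (b := b) hε (hym.sub hpm) (hym'.sub measurable_const)
    (fun s hs => (hy s hs).sub (hpos s)) hXpm (T := fun x => T (shP x p)) (hX.mT.comp hshp)
    (by
      intro x hx
      refine ⟨hX.mem _ hx, ?_⟩
      have h2 := hX.entr _ hx
      have e : ∀ s, ‖(0 : Space3) - (y s - posAt s (shP x p).2)‖ = ‖x - (y s - posAt s p.2)‖ := by
        intro s
        have : posAt s (shP x p).2 = posAt s p.2 + x := posAt_shL s x p.2
        rw [this]
        congr 1
        abel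
      unfold Entr at h2 ⊢
      simp only [e] at h2
      exact h2) hΦ
  refine h1.trans (mul_le_mul_right (lintegral_mono fun s => lintegral_mono_ae ?_) _)
  filter_upwards [ae_norm_sphM] with w hw
  gcongr
  calc ENNReal.ofReal (inner ℝ (y' s - p.2.2.2) w)
      ≤ ENNReal.ofReal (‖y' s‖ + ‖p.2.2.2‖) := by
        refine ENNReal.ofReal_le_ofReal ?_
        calc inner ℝ (y' s - p.2.2.2) w ≤ ‖y' s - p.2.2.2‖ * ‖w‖ := real_inner_le_norm _ _
          _ ≤ _ := by rw [hw, mul_one]; exact norm_sub_le _ _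
    _ = ENNReal.ofReal ‖y' s‖ + ENNReal.ofReal ‖p.2.2.2‖ :=
        ENNReal.ofReal_add (norm_nonneg _) (norm_nonneg _)
    _ ≤ (1 + ENNReal.ofReal ‖p.2.2.2‖) * (1 + ENNReal.ofReal ‖y' s‖) := by
        rw [mul_add, mul_one, add_mul, one_mul, add_comm]
        gcongr
        · exact le_add_self
        · exact le_self_add

/-- `1[τ ≤ t'] ψ (τ, v) φ ((d + x, s_B), s)` -/
def Phi0 (t' : ℝ) (ψ : ℝ × Space3 → ℝ≥0∞) (φ : (ML × ℝ) × ℝ → ℝ≥0∞) (p : Lab × LSt)
    (q : Space3 × ℝ) : ℝ≥0∞ :=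
  {τ : ℝ | τ ≤ t'}.indicator 1 p.2.1 * (ψ (p.2.1, p.2.2.2) * φ ((shM q.1 p.1.1, p.1.2.1), q.2))

lemma measurable_Phi0 {ψ : ℝ × Space3 → ℝ≥0∞} (hψ : Measurable ψ)
    {φ : (ML × ℝ) × ℝ → ℝ≥0∞} (hφ : Measurable φ) :
    Measurable (fun q : (Lab × LSt) × (Space3 × ℝ) => Phi0 t' ψ φ q.1 q.2) := by
  unfold Phi0
  refine Measurable.mul ?_ (Measurable.mul ?_ ?_)
  · have h1 : Measurable ({τ : ℝ | τ ≤ t'}.indicator (1 : ℝ → ℝ≥0∞)) :=
      measurable_one.indicator (measurableSet_le measurable_id measurable_const)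
    exact h1.comp (by fun_prop)
  · exact hψ.comp (by fun_prop)
  · have h2 : Measurable (fun q : (Lab × LSt) × (Space3 × ℝ) => (q.2.1, q.1.1.1)) := by fun_prop
    exact hφ.comp (((measurable_shM'.comp h2).prodMk (by fun_prop)).prodMk (by fun_prop))

/-- raw form: mass transport and contact coordinates -/
lemma EntrX.raw {ν : Measure (Lab × LSt)} [SFinite ν] (htr : ∀ x, ν.map (shP x) = ν)
    (hX : EntrX y a b ε t' X T) (hε : 0 < ε) (hym : Measurable y)
    (hym' : Measurable y') (hy : ∀ s ∈ Ioc a b, HasDerivAt y (y' s) s)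
    {ψ : ℝ × Space3 → ℝ≥0∞} (hψ : Measurable ψ) {φ : (ML × ℝ) × ℝ → ℝ≥0∞} (hφ : Measurable φ) :
    ∫⁻ p in X, ψ (p.2.1, p.2.2.2) * φ ((p.1.1, p.1.2.1), T p) ∂ν ≤
      ∫⁻ p, rho0 (posd p.1.1) * (ENNReal.ofReal (ε ^ 2) * ∫⁻ s in Ioc a b, ∫⁻ w,
        ((1 + ENNReal.ofReal ‖p.2.2.2‖) * (1 + ENNReal.ofReal ‖y' s‖)) *
          Phi0 t' ψ φ p (y s - posAt s p.2 + ε • w, s) ∂sphM) ∂ν := by
  have hm0 : Measurable (fun p : Lab × LSt => ψ (p.2.1, p.2.2.2) *
      φ ((p.1.1, p.1.2.1), T p)) := by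
    refine Measurable.mul (hψ.comp (by fun_prop)) (hφ.comp ?_)
    exact Measurable.prodMk (by fun_prop) hX.mT
  rw [← lintegral_indicator hX.mX, mass_transport ν measurable_shP' htr
    (pos := fun p => posd p.1.1) (measurable_posd.comp (by fun_prop)) (fun x p => rfl)
    measurable_rho0 lintegral_rho0 (hm0.indicator hX.mX)]
  refine lintegral_mono fun p => mul_le_mul_right ?_ _
  have hmΦ : Measurable (Phi0 t' ψ φ p) :=
    (measurable_Phi0 hψ hφ).comp (measurable_const.prodMk measurable_id)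
  refine le_trans (le_of_eq ?_) (hX.translates hε hym hym' hy p hmΦ)
  refine lintegral_congr fun x => ?_
  by_cases hx : shP x p ∈ X
  · rw [indicator_of_mem hx, indicator_of_mem hx]
    unfold Phi0
    have h1 : p.2.1 ≤ t' := hX.birth (shP x p) hx
    rw [indicator_of_mem (show p.2.1 ∈ {τ : ℝ | τ ≤ t'} from h1)]
    have h2 : posd (shP x p).1.1 - posd p.1.1 = x := by
      change posd (shM x p.1.1) - posd p.1.1 = x
      rw [posd_shM]
      abel
    simp only [h2, Pi.one_apply, one_mul]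
    rfl
  · rw [indicator_of_notMem hx, indicator_of_notMem hx]

end flux

/-! ### Old contacts -/

section old

variable {P : PPar} {Ξ ν : Measure (Lab × LSt)} {c : ℝ≥0∞}
variable {y y' : ℝ → Space3} {a b ε : ℝ} {X : Set (Lab × LSt)} {T : Lab × LSt → ℝ}

/-- the two-sided marginal after mass transport -/
lemma rhs_transport (P : PPar) [SFinite P.ℓ] (hℓ : ∀ x, P.ℓ.map (shM x) = P.ℓ)
    {φ : ML × ℝ → ℝ≥0∞} (hφ : Measurable φ) :
    P.rhs (fun q => rho0 (posd q.1) * ∫⁻ x : Space3, φ (shM x q.1, q.2)) = P.rhs φ := by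
  unfold PPar.rhs
  have hms : ∀ x : Space3, Measurable (shM x) := measurable_shM
  congr 1
  · have hm : Measurable (fun l : ML => φ (l, l.1.1)) := hφ.comp (by fun_prop)
    rw [mass_transport P.ℓ measurable_shM' hℓ (pos := posd) measurable_posd
      (fun x l => posd_shM x l) measurable_rho0 lintegral_rho0 hm]
    rfl
  · have hm : Measurable (fun l : ML => ∫⁻ s in Icc 0 P.t', φ (l, s)) :=
      hφ.lintegral_prod_right'
    rw [mass_transport P.ℓ measurable_shM' hℓ (pos := posd) measurable_posd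
      (fun x l => posd_shM x l) measurable_rho0 lintegral_rho0 hm]
    refine lintegral_congr fun l => ?_
    have hm2 : Measurable (fun q : ℝ × Space3 => φ (shM q.2 l, q.1)) := by
      have h2 : Measurable (fun q : ℝ × Space3 => (q.2, l)) := by fun_prop
      exact hφ.comp ((measurable_shM'.comp h2).prodMk (by fun_prop))
    have hm3 : Measurable (fun s : ℝ => ∫⁻ x : Space3, φ (shM x l, s)) :=
      hm2.lintegral_prod_right'
    simp only
    rw [lintegral_const_mul _ hm3, lintegral_lintegral_swap hm2.aemeasurable]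

lemma measurable_rhs (P : PPar) [SFinite P.ℓ] {φ : (ML × ℝ) × ℝ → ℝ≥0∞} (hφ : Measurable φ) :
    Measurable (fun s : ℝ => P.rhs (fun q => φ (q, s))) := by
  unfold PPar.rhs
  refine Measurable.add ?_ ?_
  · have g1 : Measurable (fun g : ℝ × ML => φ ((g.2, g.2.1.1), g.1)) :=
      hφ.comp (by fun_prop)
    exact g1.lintegral_prod_right'
  · have g1 : Measurable (fun g : (ℝ × ML) × ℝ => φ ((g.1.2, g.2), g.1.1)) :=
      hφ.comp (by fun_prop)
    have g2 : Measurable (fun g : ℝ × ML => ∫⁻ s' in Icc 0 P.t', φ ((g.2, s'), g.1)) :=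
      g1.lintegral_prod_right'
    exact g2.lintegral_prod_right'

set_option maxHeartbeats 1600000 in
/-- **(S6) Old contacts of a spread pair law with a fixed path.** -/
theorem PX.S6 (h : PX P Ξ ν c) [SFinite P.ℓ] (hℓ : ∀ x, P.ℓ.map (shM x) = P.ℓ) {r : ℝ}
    (hr : 0 < r) (hε : 0 < ε) (hX : EntrX y a b ε P.t' X T) (hym : Measurable y)
    (hym' : Measurable y') (hy : ∀ s ∈ Ioc a b, HasDerivAt y (y' s) s)
    (hage : ∀ p ∈ X, sig p.1 + r ≤ T p)
    {ψ : ℝ × Space3 → ℝ≥0∞} (hψ : Measurable ψ) {φ : (ML × ℝ) × ℝ → ℝ≥0∞} (hφ : Measurable φ)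
    {Cw : ℝ≥0∞} (hψW : ∀ z : LSt, z.1 ≤ P.t' → ∀ u, ‖u‖ < 1 →
      ψ (z.1, z.2.2 + u) * (1 + ENNReal.ofReal ‖z.2.2 + u‖) ≤ Cw * P.W z) :
    ∫⁻ p in X, ψ (p.2.1, p.2.2.2) * φ ((p.1.1, p.1.2.1), T p) ∂ν ≤
      ENNReal.ofReal (r⁻¹ ^ 3) * (ENNReal.ofReal (ε ^ 2) * (sphM univ * (Cw * c))) *
        ∫⁻ s in Ioc a b, (1 + ENNReal.ofReal ‖y' s‖) * P.rhs (fun q => φ (q, s)) := by
  have := h.sfν
  have := h.sfΞ
  have hmt : Measurable ({τ : ℝ | τ ≤ P.t'}.indicator (1 : ℝ → ℝ≥0∞)) :=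
    measurable_one.indicator (measurableSet_le measurable_id measurable_const)
  set φr : (ML × ℝ) × ℝ → ℝ≥0∞ := {q : (ML × ℝ) × ℝ | q.1.2 + r ≤ q.2}.indicator φ with hφr
  have hSr : MeasurableSet {q : (ML × ℝ) × ℝ | q.1.2 + r ≤ q.2} :=
    measurableSet_le (by fun_prop) (by fun_prop)
  have hφrm : Measurable φr := hφ.indicator hSr
  -- the functional of the averaging theorem
  obtain ⟨A1, hA1⟩ : ∃ A1 : Lab × (ℝ × Space3) → ℝ≥0∞, A1 = fun g =>
      rho0 (posd g.1.1) * ENNReal.ofReal (ε ^ 2) * (1 + ENNReal.ofReal ‖y' g.2.1‖) := ⟨_, rfl⟩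
  obtain ⟨A2, hA2⟩ : ∃ A2 : (Lab × (ℝ × Space3)) × Space3 → ℝ≥0∞, A2 = fun g =>
      φr ((shM (y g.1.2.1 - g.2 + ε • g.1.2.2) g.1.1.1, g.1.1.2.1), g.1.2.1) := ⟨_, rfl⟩
  obtain ⟨A3, hA3⟩ : ∃ A3 : ℝ × Space3 → ℝ≥0∞, A3 = fun g =>
      {τ : ℝ | τ ≤ P.t'}.indicator 1 g.1 * (ψ g * (1 + ENNReal.ofReal ‖g.2‖)) := ⟨_, rfl⟩
  have hmA1 : Measurable A1 := by
    rw [hA1]
    have f1 : Measurable (fun g : Lab × (ℝ × Space3) => g.1.1) := by fun_prop
    have f2 : Measurable (fun g : Lab × (ℝ × Space3) => y' g.2.1) := hym'.comp (by fun_prop)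
    exact ((measurable_rho0.comp (measurable_posd.comp f1)).mul_const _).mul
      (measurable_const.add (ENNReal.measurable_ofReal.comp f2.norm))
  have hmA2 : Measurable A2 := by
    rw [hA2]
    have f1 : Measurable (fun g : (Lab × (ℝ × Space3)) × Space3 =>
        y g.1.2.1 - g.2 + ε • g.1.2.2) := by
      have e1 : Measurable (fun g : (Lab × (ℝ × Space3)) × Space3 => y g.1.2.1) :=
        hym.comp (by fun_prop)
      have e2 : Measurable (fun g : (Lab × (ℝ × Space3)) × Space3 => g.2) := measurable_snd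
      have e3 : Measurable (fun g : (Lab × (ℝ × Space3)) × Space3 => ε • g.1.2.2) := by fun_prop
      exact (e1.sub e2).add e3
    have f2 : Measurable (fun g : (Lab × (ℝ × Space3)) × Space3 =>
        (y g.1.2.1 - g.2 + ε • g.1.2.2, g.1.1.1)) :=
      f1.prodMk (by fun_prop)
    have f3 : Measurable (fun g : (Lab × (ℝ × Space3)) × Space3 => g.1.1.2.1) := by fun_prop
    have f4 : Measurable (fun g : (Lab × (ℝ × Space3)) × Space3 => g.1.2.1) := by fun_prop
    exact hφrm.comp (((measurable_shM'.comp f2).prodMk f3).prodMk f4)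
  have hmA3 : Measurable A3 := by
    rw [hA3]
    exact (hmt.comp measurable_fst).mul (hψ.mul (by fun_prop))
  have hBm : Measurable (fun g : (Lab × (ℝ × Space3)) × (Space3 × (ℝ × Space3)) =>
      A1 g.1 * (A3 g.2.2 * A2 (g.1, g.2.1))) := by
    have f2 : Measurable (fun g : (Lab × (ℝ × Space3)) × (Space3 × (ℝ × Space3)) => g.2.2) :=
      measurable_snd.comp measurable_snd
    have f4 : Measurable (fun g : (Lab × (ℝ × Space3)) × (Space3 × (ℝ × Space3)) =>
        (g.1, g.2.1)) := measurable_fst.prodMk (measurable_fst.comp measurable_snd)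
    exact (hmA1.comp measurable_fst).mul ((hmA3.comp f2).mul (hmA2.comp f4))
  have hBm' : Measurable (fun g : (Lab × (ℝ × Space3)) × (Space3 × LSt) =>
      A1 g.1 * ((Cw * P.W g.2.2) * A2 (g.1, g.2.1))) := by
    have f2 : Measurable (fun g : (Lab × (ℝ × Space3)) × (Space3 × LSt) => g.2.2) :=
      measurable_snd.comp measurable_snd
    have f4 : Measurable (fun g : (Lab × (ℝ × Space3)) × (Space3 × LSt) =>
        (g.1, g.2.1)) := measurable_fst.prodMk (measurable_fst.comp measurable_snd)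
    exact (hmA1.comp measurable_fst).mul (((P.hW.comp f2).const_mul _).mul (hmA2.comp f4))
  have hgen := h.spr.gen' hr ((volume.restrict (Ioc a b)).prod sphM)
    (T := fun g : Lab × (ℝ × Space3) => g.2.1) (measurable_fst.comp measurable_snd) hBm hBm'
    (by
      intro g x hx
      have hA20 : A2 (g, x.1) ≠ 0 := by
        intro h0
        apply hx
        simp only [h0, mul_zero]
      rw [hA2] at hA20
      have hmem : ((shM (y g.2.1 - x.1 + ε • g.2.2) g.1.1, g.1.2.1), g.2.1) ∈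
          {q : (ML × ℝ) × ℝ | q.1.2 + r ≤ q.2} := by
        by_contra hn
        exact hA20 (indicator_of_notMem hn _)
      have hmem' : g.1.2.1 + r ≤ g.2.1 := hmem
      change r ≤ |g.2.1 - g.1.2.1|
      rw [abs_of_nonneg (by linarith)]
      linarith)
    (by
      intro g x u z hu
      simp only
      gcongr
      rw [hA3]
      simp only
      by_cases hz : z.1 ≤ P.t'
      · rw [indicator_of_mem (show z.1 ∈ {τ : ℝ | τ ≤ P.t'} from hz)]
        simp only [Pi.one_apply, one_mul]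
        exact hψW z hz u hu
      · rw [indicator_of_notMem (show z.1 ∉ {τ : ℝ | τ ≤ P.t'} from hz), zero_mul]
        exact bot_le)
  -- left side
  have hleft : ∫⁻ p in X, ψ (p.2.1, p.2.2.2) * φ ((p.1.1, p.1.2.1), T p) ∂ν ≤
      ∫⁻ p, ∫⁻ q, A1 (p.1, q) * (A3 (p.2.1, p.2.2.2) * A2 ((p.1, q), posAt q.1 p.2))
        ∂((volume.restrict (Ioc a b)).prod sphM) ∂ν := by
    have e1 : ∫⁻ p in X, ψ (p.2.1, p.2.2.2) * φ ((p.1.1, p.1.2.1), T p) ∂ν =
        ∫⁻ p in X, ψ (p.2.1, p.2.2.2) * φr ((p.1.1, p.1.2.1), T p) ∂ν := by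
      refine setLIntegral_congr_fun hX.mX fun p hp => ?_
      rw [hφr, indicator_of_mem (show ((p.1.1, p.1.2.1), T p) ∈
        {q : (ML × ℝ) × ℝ | q.1.2 + r ≤ q.2} from hage p hp)]
    rw [e1]
    refine (hX.raw h.trans hε hym hym' hy hψ hφrm).trans (lintegral_mono fun p => ?_)
    have hmq : Measurable (fun q : ℝ × Space3 =>
        A1 (p.1, q) * (A3 (p.2.1, p.2.2.2) * A2 ((p.1, q), posAt q.1 p.2))) := by
      have f1 : Measurable (fun q : ℝ × Space3 => (p.1, q)) := measurable_const.prodMk measurable_id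
      have f2 : Measurable (fun q : ℝ × Space3 => posAt q.1 p.2) :=
        measurable_posAt.comp (measurable_fst.prodMk measurable_const)
      exact (hmA1.comp f1).mul ((hmA2.comp (f1.prodMk f2)).const_mul _)
    rw [lintegral_prod _ hmq.aemeasurable]
    have hmΦ : Measurable (fun q : ℝ × Space3 =>
        ((1 + ENNReal.ofReal ‖p.2.2.2‖) * (1 + ENNReal.ofReal ‖y' q.1‖)) *
          Phi0 P.t' ψ φr p (y q.1 - posAt q.1 p.2 + ε • q.2, q.1)) := by
      have f1 : Measurable (fun q : ℝ × Space3 => 1 + ENNReal.ofReal ‖y' q.1‖) :=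
        measurable_const.add (ENNReal.measurable_ofReal.comp (hym'.comp measurable_fst).norm)
      have f2 : Measurable (fun q : ℝ × Space3 =>
          (y q.1 - posAt q.1 p.2 + ε • q.2, q.1)) := by
        refine Measurable.prodMk ?_ measurable_fst
        have g1 : Measurable (fun q : ℝ × Space3 => y q.1) := hym.comp measurable_fst
        have g2 : Measurable (fun q : ℝ × Space3 => posAt q.1 p.2) :=
          measurable_posAt.comp (measurable_fst.prodMk measurable_const)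
        exact (g1.sub g2).add (measurable_snd.const_smul ε)
      have f3 : Measurable (Phi0 P.t' ψ φr p) :=
        (measurable_Phi0 hψ hφrm).comp (measurable_const.prodMk measurable_id)
      exact (f1.const_mul _).mul (f3.comp f2)
    have hmΦs : Measurable (fun s : ℝ => ∫⁻ w,
        ((1 + ENNReal.ofReal ‖p.2.2.2‖) * (1 + ENNReal.ofReal ‖y' s‖)) *
          Phi0 P.t' ψ φr p (y s - posAt s p.2 + ε • w, s) ∂sphM) := hmΦ.lintegral_prod_right'
    rw [← mul_assoc, ← lintegral_const_mul _ hmΦs]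
    refine le_of_eq (lintegral_congr fun s => ?_)
    have hsw : Measurable (fun w : Space3 => (s, w)) := measurable_const.prodMk measurable_id
    have hmw : Measurable (fun w : Space3 =>
        ((1 + ENNReal.ofReal ‖p.2.2.2‖) * (1 + ENNReal.ofReal ‖y' s‖)) *
          Phi0 P.t' ψ φr p (y s - posAt s p.2 + ε • w, s)) := by
      have := hmΦ.comp hsw
      exact this
    rw [← lintegral_const_mul _ hmw]
    refine lintegral_congr fun w => ?_
    rw [hA1, hA2, hA3]
    unfold Phi0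
    ring
  -- right side
  have hG : Measurable (fun g : (Lab × LSt) × ℝ =>
      ∫⁻ x : Space3, φr ((shM x g.1.1.1, g.1.1.2.1), g.2)) := by
    have f1 : Measurable (fun g : ((Lab × LSt) × ℝ) × Space3 =>
        φr ((shM g.2 g.1.1.1.1, g.1.1.1.2.1), g.1.2)) := by
      have g1 : Measurable (fun g : ((Lab × LSt) × ℝ) × Space3 => (g.2, g.1.1.1.1)) := by
        fun_prop
      have g2 : Measurable (fun g : ((Lab × LSt) × ℝ) × Space3 => g.1.1.1.2.1) := by fun_prop
      have g3 : Measurable (fun g : ((Lab × LSt) × ℝ) × Space3 => g.1.2) := by fun_prop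
      exact hφrm.comp (((measurable_shM'.comp g1).prodMk g2).prodMk g3)
    exact f1.lintegral_prod_right'
  have hW2 : Measurable (fun g : (Lab × LSt) × ℝ => rho0 (posd g.1.1.1) * P.W g.1.2) := by
    have g1 : Measurable (fun g : (Lab × LSt) × ℝ => g.1.1.1) := by fun_prop
    have g2 : Measurable (fun g : (Lab × LSt) × ℝ => g.1.2) := by fun_prop
    exact (measurable_rho0.comp (measurable_posd.comp g1)).mul (P.hW.comp g2)
  have hy1 : Measurable (fun s : ℝ => 1 + ENNReal.ofReal ‖y' s‖) :=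
    measurable_const.add (ENNReal.measurable_ofReal.comp hym'.norm)
  have hpt : ∀ p : Lab × LSt, ∫⁻ q, ∫⁻ x : Space3,
      A1 (p.1, q) * ((Cw * P.W p.2) * A2 ((p.1, q), x)) ∂volume
        ∂((volume.restrict (Ioc a b)).prod sphM) =
      ∫⁻ s in Ioc a b, (ENNReal.ofReal (ε ^ 2) * (sphM univ * Cw) *
        (1 + ENNReal.ofReal ‖y' s‖)) * ((rho0 (posd p.1.1) * P.W p.2) *
          ∫⁻ x : Space3, φr ((shM x p.1.1, p.1.2.1), s)) := by
    intro p
    have e1 : ∀ q : ℝ × Space3, ∫⁻ x : Space3,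
        A1 (p.1, q) * ((Cw * P.W p.2) * A2 ((p.1, q), x)) =
        A1 (p.1, q) * ((Cw * P.W p.2) * ∫⁻ x : Space3, φr ((shM x p.1.1, p.1.2.1), q.1)) := by
      intro q
      have f1 : Measurable (fun x : Space3 => A2 ((p.1, q), x)) :=
        hmA2.comp (measurable_const.prodMk measurable_id)
      rw [lintegral_const_mul _ (f1.const_mul _), lintegral_const_mul _ f1]
      congr 2
      rw [hA2]
      simp only
      have e2 : ∀ x : Space3, y q.1 - x + ε • q.2 = (y q.1 + ε • q.2) - x := by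
        intro x; abel
      simp_rw [e2]
      exact lintegral_sub_left_eq_self
        (fun x => φr ((shM x p.1.1, p.1.2.1), q.1)) (y q.1 + ε • q.2)
    simp_rw [e1]
    have f3 : Measurable (fun s : ℝ => ∫⁻ x : Space3, φr ((shM x p.1.1, p.1.2.1), s)) := by
      have g1 : Measurable (fun s : ℝ => (p, s)) := measurable_const.prodMk measurable_id
      exact hG.comp g1
    have f4 : Measurable (fun q : ℝ × Space3 => A1 (p.1, q) * ((Cw * P.W p.2) *
        ∫⁻ x : Space3, φr ((shM x p.1.1, p.1.2.1), q.1))) := by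
      have g1 : Measurable (fun q : ℝ × Space3 => (p.1, q)) :=
        measurable_const.prodMk measurable_id
      exact (hmA1.comp g1).mul ((f3.comp measurable_fst).const_mul _)
    rw [lintegral_prod _ f4.aemeasurable]
    refine lintegral_congr fun s => ?_
    rw [hA1]
    simp only
    rw [lintegral_const]
    ring
  have hright : ∫⁻ p, ∫⁻ q, ∫⁻ x : Space3,
      A1 (p.1, q) * ((Cw * P.W p.2) * A2 ((p.1, q), x)) ∂volume
        ∂((volume.restrict (Ioc a b)).prod sphM) ∂Ξ ≤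
      (ENNReal.ofReal (ε ^ 2) * (sphM univ * (Cw * c))) *
        ∫⁻ s in Ioc a b, (1 + ENNReal.ofReal ‖y' s‖) * P.rhs (fun q => φ (q, s)) := by
    simp_rw [hpt]
    have f1 : Measurable (fun g : (Lab × LSt) × ℝ => (ENNReal.ofReal (ε ^ 2) *
        (sphM univ * Cw) * (1 + ENNReal.ofReal ‖y' g.2‖)) *
        ((rho0 (posd g.1.1.1) * P.W g.1.2) *
          ∫⁻ x : Space3, φr ((shM x g.1.1.1, g.1.1.2.1), g.2))) :=
      ((hy1.comp measurable_snd).const_mul _).mul (hW2.mul hG)
    rw [lintegral_lintegral_swap f1.aemeasurable]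
    have hstep : ∀ s : ℝ, ∫⁻ p, (rho0 (posd p.1.1) * P.W p.2) *
        (∫⁻ x : Space3, φr ((shM x p.1.1, p.1.2.1), s)) ∂Ξ ≤ c * P.rhs (fun q => φ (q, s)) := by
      intro s
      have hφs : Measurable (fun q : ML × ℝ => φ (q, s)) :=
        hφ.comp (measurable_id.prodMk measurable_const)
      rw [← rhs_transport P hℓ hφs]
      have hF : Measurable (fun q : ML × ℝ =>
          rho0 (posd q.1) * ∫⁻ x : Space3, φ ((shM x q.1, q.2), s)) := by
        have g0 : Measurable (fun g : (ML × ℝ) × Space3 => φ ((shM g.2 g.1.1, g.1.2), s)) := by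
          have g1 : Measurable (fun g : (ML × ℝ) × Space3 => (g.2, g.1.1)) := by fun_prop
          have g2 : Measurable (fun g : (ML × ℝ) × Space3 => g.1.2) := by fun_prop
          exact hφs.comp ((measurable_shM'.comp g1).prodMk g2)
        exact (measurable_rho0.comp (measurable_posd.comp measurable_fst)).mul
          g0.lintegral_prod_right'
      refine le_trans (lintegral_mono fun p => ?_) (h.marg _ hF)
      simp only
      have h1 : ∫⁻ x : Space3, φr ((shM x p.1.1, p.1.2.1), s) ≤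
          ∫⁻ x : Space3, φ ((shM x p.1.1, p.1.2.1), s) := by
        refine lintegral_mono fun x => ?_
        rw [hφr]
        exact indicator_le_self _ _ _
      have h2 : P.W p.2 ≤ P.lam₁ ^ p.1.2.2 * P.W p.2 :=
        le_mul_of_one_le_left' (one_le_pow_of_one_le' P.hlam₁ _)
      calc (rho0 (posd p.1.1) * P.W p.2) * ∫⁻ x : Space3, φr ((shM x p.1.1, p.1.2.1), s)
          ≤ (rho0 (posd p.1.1) * (P.lam₁ ^ p.1.2.2 * P.W p.2)) *
            ∫⁻ x : Space3, φ ((shM x p.1.1, p.1.2.1), s) := by gcongr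
        _ = _ := by ring
    have hrm := measurable_rhs P hφ
    have hfin : ∫⁻ s in Ioc a b, ∫⁻ p, (ENNReal.ofReal (ε ^ 2) * (sphM univ * Cw) *
        (1 + ENNReal.ofReal ‖y' s‖)) * ((rho0 (posd p.1.1) * P.W p.2) *
          ∫⁻ x : Space3, φr ((shM x p.1.1, p.1.2.1), s)) ∂Ξ ≤
        ∫⁻ s in Ioc a b, (ENNReal.ofReal (ε ^ 2) * (sphM univ * (Cw * c))) *
          ((1 + ENNReal.ofReal ‖y' s‖) * P.rhs (fun q => φ (q, s))) := by
      refine lintegral_mono fun s => ?_
      have g1 : Measurable (fun p : Lab × LSt => (p, s)) := measurable_id.prodMk measurable_const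
      have g2 : Measurable (fun p : Lab × LSt => (rho0 (posd p.1.1) * P.W p.2) *
          ∫⁻ x : Space3, φr ((shM x p.1.1, p.1.2.1), s)) := by
        have := (hW2.mul hG).comp g1
        exact this
      simp only
      rw [lintegral_const_mul _ g2]
      calc _ ≤ (ENNReal.ofReal (ε ^ 2) * (sphM univ * Cw) * (1 + ENNReal.ofReal ‖y' s‖)) *
            (c * P.rhs (fun q => φ (q, s))) := mul_le_mul_right (hstep s) _
        _ = _ := by ring
    refine hfin.trans (le_of_eq ?_)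
    exact lintegral_const_mul _ (hy1.mul hrm)
  refine hleft.trans (hgen.trans ?_)
  rw [mul_assoc]
  exact mul_le_mul_right hright _

/-! ### All contacts (young version) -/

/-- marginal bound of the law itself, with a velocity weight -/
lemma PX.marg' (h : PX P Ξ ν c) {ψ : ℝ × Space3 → ℝ≥0∞} (hψ : Measurable ψ)
    {Cw : ℝ≥0∞} (hψW : ∀ z : LSt, z.1 ≤ P.t' → ∀ u, ‖u‖ < 1 →
      ψ (z.1, z.2.2 + u) ≤ Cw * P.W z) {F : ML × ℝ → ℝ≥0∞} (hF : Measurable F) :
    ∫⁻ p, F (p.1.1, p.1.2.1) * ({τ : ℝ | τ ≤ P.t'}.indicator 1 p.2.1 * ψ (p.2.1, p.2.2.2)) ∂ν ≤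
      volume (Metric.ball (0 : Space3) 1) * (Cw * (c * P.rhs F)) := by
  have hmt : Measurable ({τ : ℝ | τ ≤ P.t'}.indicator (1 : ℝ → ℝ≥0∞)) :=
    measurable_one.indicator (measurableSet_le measurable_id measurable_const)
  have f1 : Measurable (fun p : Lab × LSt => F (p.1.1, p.1.2.1)) := hF.comp (by fun_prop)
  have f2 : Measurable (fun p : Lab × LSt => ({τ : ℝ | τ ≤ P.t'}.indicator 1 p.2.1 : ℝ≥0∞)) :=
    hmt.comp (by fun_prop)
  have f3 : Measurable (fun p : Lab × LSt => ψ (p.2.1, p.2.2.2)) := hψ.comp (by fun_prop)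
  have f4 : Measurable (fun p : Lab × LSt =>
      F (p.1.1, p.1.2.1) * (P.lam₁ ^ p.1.2.2 * P.W p.2)) := by
    refine f1.mul (Measurable.mul ?_ (P.hW.comp measurable_snd))
    exact (Measurable.of_discrete (f := fun n : ℕ => P.lam₁ ^ n)).comp (by fun_prop)
  refine (h.spr _ (f1.mul (f2.mul f3))).trans ?_
  calc ∫⁻ p, avgL sig (fun p => F (p.1.1, p.1.2.1) *
        ({τ : ℝ | τ ≤ P.t'}.indicator 1 p.2.1 * ψ (p.2.1, p.2.2.2))) p ∂Ξ
      ≤ ∫⁻ p, (volume (Metric.ball (0 : Space3) 1) * Cw) *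
          (F (p.1.1, p.1.2.1) * (P.lam₁ ^ p.1.2.2 * P.W p.2)) ∂Ξ := by
        refine lintegral_mono fun p => ?_
        unfold avgL
        calc ∫⁻ u in Metric.ball (0 : Space3) 1, F (p.1.1, p.1.2.1) *
              ({τ : ℝ | τ ≤ P.t'}.indicator 1 (gal (sig p.1) u p.2).1 *
                ψ ((gal (sig p.1) u p.2).1, (gal (sig p.1) u p.2).2.2))
            ≤ ∫⁻ _u in Metric.ball (0 : Space3) 1, F (p.1.1, p.1.2.1) *
                (Cw * (P.lam₁ ^ p.1.2.2 * P.W p.2)) := by
              refine setLIntegral_mono' measurableSet_ball fun u hu => ?_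
              have hu' : ‖u‖ < 1 := by simpa using hu
              refine mul_le_mul_right ?_ _
              have e1 : (gal (sig p.1) u p.2).1 = p.2.1 := rfl
              have e2 : (gal (sig p.1) u p.2).2.2 = p.2.2.2 + u := rfl
              rw [e1, e2]
              by_cases hz : p.2.1 ≤ P.t'
              · rw [indicator_of_mem (show p.2.1 ∈ {τ : ℝ | τ ≤ P.t'} from hz)]
                simp only [Pi.one_apply, one_mul]
                refine (hψW p.2 hz u hu').trans (mul_le_mul_right ?_ _)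
                exact le_mul_of_one_le_left' (one_le_pow_of_one_le' P.hlam₁ _)
              · rw [indicator_of_notMem (show p.2.1 ∉ {τ : ℝ | τ ≤ P.t'} from hz), zero_mul]
                exact bot_le
          _ = _ := by
              rw [setLIntegral_const]
              ring
    _ = (volume (Metric.ball (0 : Space3) 1) * Cw) *
          ∫⁻ p, F (p.1.1, p.1.2.1) * (P.lam₁ ^ p.1.2.2 * P.W p.2) ∂Ξ := lintegral_const_mul _ f4
    _ ≤ (volume (Metric.ball (0 : Space3) 1) * Cw) * (c * P.rhs F) :=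
        mul_le_mul_right (h.marg F hF) _
    _ = _ := by ring

set_option maxHeartbeats 1600000 in
/-- **(Y6) Contacts of a pair law with a fixed path, translation invariant functional.** -/
theorem PX.Y6 (h : PX P Ξ ν c) [SFinite P.ℓ] (hε : 0 < ε) (hX : EntrX y a b ε P.t' X T)
    (hym : Measurable y) (hym' : Measurable y') (hy : ∀ s ∈ Ioc a b, HasDerivAt y (y' s) s)
    {ψ : ℝ × Space3 → ℝ≥0∞} (hψ : Measurable ψ) {φ : (ML × ℝ) × ℝ → ℝ≥0∞} (hφ : Measurable φ)
    (hφinv : ∀ x l s₀ s, φ ((shM x l, s₀), s) = φ ((l, s₀), s))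
    {Cw : ℝ≥0∞} (hψW : ∀ z : LSt, z.1 ≤ P.t' → ∀ u, ‖u‖ < 1 →
      ψ (z.1, z.2.2 + u) * (1 + ENNReal.ofReal ‖z.2.2 + u‖) ≤ Cw * P.W z) :
    ∫⁻ p in X, ψ (p.2.1, p.2.2.2) * φ ((p.1.1, p.1.2.1), T p) ∂ν ≤
      (ENNReal.ofReal (ε ^ 2) * (sphM univ *
        (volume (Metric.ball (0 : Space3) 1) * (Cw * c)))) *
        ∫⁻ s in Ioc a b, (1 + ENNReal.ofReal ‖y' s‖) *
          P.rhs (fun q => rho0 (posd q.1) * φ (q, s)) := by
  have := h.sfν
  have hmt : Measurable ({τ : ℝ | τ ≤ P.t'}.indicator (1 : ℝ → ℝ≥0∞)) :=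
    measurable_one.indicator (measurableSet_le measurable_id measurable_const)
  have hy1 : Measurable (fun s : ℝ => 1 + ENNReal.ofReal ‖y' s‖) :=
    measurable_const.add (ENNReal.measurable_ofReal.comp hym'.norm)
  obtain ⟨A4, hA4⟩ : ∃ A4 : ℝ × Space3 → ℝ≥0∞, A4 = fun g =>
      ψ g * (1 + ENNReal.ofReal ‖g.2‖) := ⟨_, rfl⟩
  have hmA4 : Measurable A4 := by
    rw [hA4]
    exact hψ.mul (by fun_prop)
  obtain ⟨A3, hA3⟩ : ∃ A3 : Lab × LSt → ℝ≥0∞, A3 = fun p =>
      {τ : ℝ | τ ≤ P.t'}.indicator 1 p.2.1 * A4 (p.2.1, p.2.2.2) := ⟨_, rfl⟩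
  have hmA3 : Measurable A3 := by
    rw [hA3]
    have g1 : Measurable (fun p : Lab × LSt => p.2.1) := by fun_prop
    have g2 : Measurable (fun p : Lab × LSt => (p.2.1, p.2.2.2)) := by fun_prop
    exact (hmt.comp g1).mul (hmA4.comp g2)
  obtain ⟨R, hR⟩ : ∃ R : (ML × ℝ) × ℝ → ℝ≥0∞, R = fun q => rho0 (posd q.1.1) * φ q := ⟨_, rfl⟩
  have hmR : Measurable R := by
    rw [hR]
    have g1 : Measurable (fun q : (ML × ℝ) × ℝ => q.1.1) := by fun_prop
    exact (measurable_rho0.comp (measurable_posd.comp g1)).mul hφ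
  have hmJ : Measurable (fun g : (Lab × LSt) × ℝ =>
      R ((g.1.1.1, g.1.1.2.1), g.2) * A3 g.1) := by
    have g1 : Measurable (fun g : (Lab × LSt) × ℝ => ((g.1.1.1, g.1.1.2.1), g.2)) := by fun_prop
    exact (hmR.comp g1).mul (hmA3.comp measurable_fst)
  have hkey : ∀ p : Lab × LSt, rho0 (posd p.1.1) * (ENNReal.ofReal (ε ^ 2) *
      ∫⁻ s in Ioc a b, ∫⁻ w, ((1 + ENNReal.ofReal ‖p.2.2.2‖) * (1 + ENNReal.ofReal ‖y' s‖)) *
          Phi0 P.t' ψ φ p (y s - posAt s p.2 + ε • w, s) ∂sphM) =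
      ∫⁻ s in Ioc a b, (ENNReal.ofReal (ε ^ 2) * sphM univ * (1 + ENNReal.ofReal ‖y' s‖)) *
        (R ((p.1.1, p.1.2.1), s) * A3 p) := by
    intro p
    have e1 : ∀ s, ∫⁻ w, ((1 + ENNReal.ofReal ‖p.2.2.2‖) * (1 + ENNReal.ofReal ‖y' s‖)) *
          Phi0 P.t' ψ φ p (y s - posAt s p.2 + ε • w, s) ∂sphM =
        (sphM univ * (1 + ENNReal.ofReal ‖y' s‖)) * (φ ((p.1.1, p.1.2.1), s) * A3 p) := by
      intro s
      unfold Phi0
      simp only [hφinv]
      rw [lintegral_const, hA3, hA4]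
      ring
    simp_rw [e1]
    have g1 : Measurable (fun s : ℝ => φ ((p.1.1, p.1.2.1), s)) :=
      hφ.comp (measurable_const.prodMk measurable_id)
    have g2 : Measurable (fun s : ℝ => (sphM univ * (1 + ENNReal.ofReal ‖y' s‖)) *
        (φ ((p.1.1, p.1.2.1), s) * A3 p)) := (hy1.const_mul _).mul (g1.mul_const _)
    rw [← mul_assoc, ← lintegral_const_mul _ g2]
    refine lintegral_congr fun s => ?_
    rw [hR]
    ring
  refine (hX.raw h.trans hε hym hym' hy hψ hφ).trans ?_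
  simp_rw [hkey]
  have f1 : Measurable (fun g : (Lab × LSt) × ℝ => (ENNReal.ofReal (ε ^ 2) *
      sphM univ * (1 + ENNReal.ofReal ‖y' g.2‖)) *
      (R ((g.1.1.1, g.1.1.2.1), g.2) * A3 g.1)) :=
    ((hy1.comp measurable_snd).const_mul _).mul hmJ
  rw [lintegral_lintegral_swap f1.aemeasurable]
  have hstep : ∀ s : ℝ, ∫⁻ p, R ((p.1.1, p.1.2.1), s) * A3 p ∂ν ≤
      volume (Metric.ball (0 : Space3) 1) * (Cw * (c * P.rhs (fun q => R (q, s)))) := by
    intro s
    have g2 : Measurable (fun q : ML × ℝ => (q, s)) := measurable_id.prodMk measurable_const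
    have g1 : Measurable (fun q : ML × ℝ => R (q, s)) := hmR.comp g2
    have h1 := PX.marg' h hmA4 (Cw := Cw) (by
      intro z hz u hu
      rw [hA4]
      exact hψW z hz u hu) g1
    refine le_trans (le_of_eq ?_) h1
    rw [hA3]
  have hrm := measurable_rhs P hmR
  have hfin : ∀ s : ℝ, ∫⁻ p, (ENNReal.ofReal (ε ^ 2) * sphM univ *
      (1 + ENNReal.ofReal ‖y' s‖)) * (R ((p.1.1, p.1.2.1), s) * A3 p) ∂ν ≤
      (ENNReal.ofReal (ε ^ 2) * (sphM univ * (volume (Metric.ball (0 : Space3) 1) * (Cw * c)))) *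
        ((1 + ENNReal.ofReal ‖y' s‖) * P.rhs (fun q => R (q, s))) := by
    intro s
    have g1 : Measurable (fun p : Lab × LSt => (p, s)) := measurable_id.prodMk measurable_const
    have g2 : Measurable (fun p : Lab × LSt => R ((p.1.1, p.1.2.1), s) * A3 p) := hmJ.comp g1
    rw [lintegral_const_mul _ g2]
    calc _ ≤ (ENNReal.ofReal (ε ^ 2) * sphM univ * (1 + ENNReal.ofReal ‖y' s‖)) *
          (volume (Metric.ball (0 : Space3) 1) * (Cw * (c * P.rhs (fun q => R (q, s))))) :=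
          mul_le_mul_right (hstep s) _
      _ = _ := by ring
  refine (lintegral_mono fun s => hfin s).trans ?_
  have hyr : Measurable (fun s : ℝ => (1 + ENNReal.ofReal ‖y' s‖) * P.rhs (fun q => R (q, s))) :=
    hy1.mul hrm
  rw [lintegral_const_mul _ hyr, hR]

/-- **(S6*)**: old contacts, functional of the first line and the contact time. -/
theorem PX.S6_star (h : PX P Ξ ν c) [SFinite P.ℓ] (hℓ : ∀ x, P.ℓ.map (shM x) = P.ℓ) {r : ℝ}
    (hr : 0 < r) (hε : 0 < ε) (hX : EntrX y a b ε P.t' X T) (hym : Measurable y)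
    (hym' : Measurable y') (hy : ∀ s ∈ Ioc a b, HasDerivAt y (y' s) s)
    (hage : ∀ p ∈ X, sig p.1 + r ≤ T p)
    {ψ : ℝ × Space3 → ℝ≥0∞} (hψ : Measurable ψ) {φ : ML × ℝ → ℝ≥0∞} (hφ : Measurable φ)
    {Cw : ℝ≥0∞} (hψW : ∀ z : LSt, z.1 ≤ P.t' → ∀ u, ‖u‖ < 1 →
      ψ (z.1, z.2.2 + u) * (1 + ENNReal.ofReal ‖z.2.2 + u‖) ≤ Cw * P.W z) :
    ∫⁻ p in X, ψ (p.2.1, p.2.2.2) * φ (p.1.1, T p) ∂ν ≤
      ENNReal.ofReal (r⁻¹ ^ 3) * (ENNReal.ofReal (ε ^ 2) * (sphM univ * (Cw * c))) *
        (1 + ENNReal.ofReal P.t') *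
        ∫⁻ s in Ioc a b, (1 + ENNReal.ofReal ‖y' s‖) * ∫⁻ l, φ (l, s) ∂P.ℓ := by
  have hφ2 : Measurable (fun q : (ML × ℝ) × ℝ => φ (q.1.1, q.2)) := by
    have g1 : Measurable (fun q : (ML × ℝ) × ℝ => (q.1.1, q.2)) := by fun_prop
    exact hφ.comp g1
  have h1 := PX.S6 h hℓ hr hε hX hym hym' hy hage hψ hφ2 hψW
  refine h1.trans (le_of_eq ?_)
  have e1 : ∀ s : ℝ, P.rhs (fun q => φ (q.1, s)) =
      (1 + ENNReal.ofReal P.t') * ∫⁻ l, φ (l, s) ∂P.ℓ := by
    intro s
    have g2 : Measurable (fun l : ML => φ (l, s)) := hφ.comp (measurable_id.prodMk measurable_const)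
    unfold PPar.rhs
    simp only [lintegral_const, Measure.restrict_apply MeasurableSet.univ, univ_inter,
      Real.volume_Icc, sub_zero]
    rw [lintegral_mul_const _ g2]
    ring
  have hm : Measurable (fun s : ℝ => (1 + ENNReal.ofReal ‖y' s‖) * ∫⁻ l, φ (l, s) ∂P.ℓ) := by
    have g0 : Measurable (fun q : ℝ × ML => φ (q.2, q.1)) := hφ.comp measurable_swap
    exact (measurable_const.add (ENNReal.measurable_ofReal.comp hym'.norm)).mul
      g0.lintegral_prod_right'
  have e2 : ∫⁻ s in Ioc a b, (1 + ENNReal.ofReal ‖y' s‖) * P.rhs (fun q => φ (q.1, s)) =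
      (1 + ENNReal.ofReal P.t') *
        ∫⁻ s in Ioc a b, (1 + ENNReal.ofReal ‖y' s‖) * ∫⁻ l, φ (l, s) ∂P.ℓ := by
    rw [← lintegral_const_mul _ hm]
    refine lintegral_congr fun s => ?_
    rw [e1]
    ring
  simp only
  rw [e2]
  ring

/-- **(Y6*)**: young contacts, functional of the contact time. -/
theorem PX.Y6_star (h : PX P Ξ ν c) [SFinite P.ℓ] (hε : 0 < ε) (hX : EntrX y a b ε P.t' X T)
    (hym : Measurable y) (hym' : Measurable y') (hy : ∀ s ∈ Ioc a b, HasDerivAt y (y' s) s)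
    {r : ℝ} (hyg : ∀ p ∈ X, T p - r ≤ sig p.1 ∧ sig p.1 ≤ T p)
    {Cl : ℝ≥0∞} (hl1 : ∀ s : ℝ, ∫⁻ l, rho0 (posd l) * (Icc (s - r) s).indicator 1 l.1.1 ∂P.ℓ ≤
      Cl * ENNReal.ofReal r) (hl2 : ∫⁻ l, rho0 (posd l) ∂P.ℓ ≤ Cl)
    {ψ : ℝ × Space3 → ℝ≥0∞} (hψ : Measurable ψ) {φ : ℝ → ℝ≥0∞} (hφ : Measurable φ)
    {Cw : ℝ≥0∞} (hψW : ∀ z : LSt, z.1 ≤ P.t' → ∀ u, ‖u‖ < 1 →
      ψ (z.1, z.2.2 + u) * (1 + ENNReal.ofReal ‖z.2.2 + u‖) ≤ Cw * P.W z) :
    ∫⁻ p in X, ψ (p.2.1, p.2.2.2) * φ (T p) ∂ν ≤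
      (ENNReal.ofReal (ε ^ 2) * (sphM univ *
        (volume (Metric.ball (0 : Space3) 1) * (Cw * c)))) * (2 * Cl * ENNReal.ofReal r) *
        ∫⁻ s in Ioc a b, (1 + ENNReal.ofReal ‖y' s‖) * φ s := by
  obtain ⟨φ2, hφ2⟩ : ∃ φ2 : (ML × ℝ) × ℝ → ℝ≥0∞, φ2 = fun q =>
      {q : ℝ × ℝ | q.2 - r ≤ q.1 ∧ q.1 ≤ q.2}.indicator 1 (q.1.2, q.2) * φ q.2 := ⟨_, rfl⟩
  have hSm : MeasurableSet {q : ℝ × ℝ | q.2 - r ≤ q.1 ∧ q.1 ≤ q.2} :=
    (measurableSet_le (measurable_snd.sub_const r) measurable_fst).inter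
      (measurableSet_le measurable_fst measurable_snd)
  have hφ2m : Measurable φ2 := by
    rw [hφ2]
    have g1 : Measurable (fun q : (ML × ℝ) × ℝ => (q.1.2, q.2)) := by fun_prop
    have g2 : Measurable ({q : ℝ × ℝ | q.2 - r ≤ q.1 ∧ q.1 ≤ q.2}.indicator
      (1 : ℝ × ℝ → ℝ≥0∞)) := measurable_one.indicator hSm
    exact (g2.comp g1).mul (hφ.comp measurable_snd)
  have h1 := PX.Y6 h hε hX hym hym' hy hψ hφ2m (by intro x l s₀ s; rw [hφ2]) hψW
  have h0 : ∫⁻ p in X, ψ (p.2.1, p.2.2.2) * φ (T p) ∂ν =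
      ∫⁻ p in X, ψ (p.2.1, p.2.2.2) * φ2 ((p.1.1, p.1.2.1), T p) ∂ν := by
    refine setLIntegral_congr_fun hX.mX fun p hp => ?_
    rw [hφ2]
    simp only
    rw [indicator_of_mem (show (p.1.2.1, T p) ∈ {q : ℝ × ℝ | q.2 - r ≤ q.1 ∧ q.1 ≤ q.2} from
      hyg p hp)]
    simp
  rw [h0]
  refine h1.trans ?_
  rw [mul_assoc (ENNReal.ofReal (ε ^ 2) * _)]
  refine mul_le_mul_right ?_ _
  have hy1 : Measurable (fun s : ℝ => (1 + ENNReal.ofReal ‖y' s‖) * φ s) :=
    (measurable_const.add (ENNReal.measurable_ofReal.comp hym'.norm)).mul hφ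
  rw [← lintegral_const_mul _ hy1]
  refine lintegral_mono fun s => ?_
  have hrhs : P.rhs (fun q => rho0 (posd q.1) * φ2 (q, s)) ≤
      (2 * Cl * ENNReal.ofReal r) * φ s := by
    unfold PPar.rhs
    have hρm : Measurable (fun l : ML => rho0 (posd l)) := measurable_rho0.comp measurable_posd
    have e1 : ∀ l : ML, rho0 (posd l) * φ2 ((l, l.1.1), s) =
        (rho0 (posd l) * (Icc (s - r) s).indicator 1 l.1.1) * φ s := by
      intro l
      rw [hφ2]
      simp only
      by_cases hl : l.1.1 ∈ Icc (s - r) s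
      · rw [indicator_of_mem hl, indicator_of_mem (show (l.1.1, s) ∈
          {q : ℝ × ℝ | q.2 - r ≤ q.1 ∧ q.1 ≤ q.2} from hl)]
        simp
      · rw [indicator_of_notMem hl, indicator_of_notMem (show (l.1.1, s) ∉
          {q : ℝ × ℝ | q.2 - r ≤ q.1 ∧ q.1 ≤ q.2} from hl)]
        simp
    have e2 : ∀ (l : ML) (s' : ℝ), rho0 (posd l) * φ2 ((l, s'), s) =
        (Icc (s - r) s).indicator (fun _ => rho0 (posd l) * φ s) s' := by
      intro l s'
      rw [hφ2]
      simp only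
      by_cases hl : s' ∈ Icc (s - r) s
      · rw [indicator_of_mem hl, indicator_of_mem (show (s', s) ∈
          {q : ℝ × ℝ | q.2 - r ≤ q.1 ∧ q.1 ≤ q.2} from hl)]
        simp
      · rw [indicator_of_notMem hl, indicator_of_notMem (show (s', s) ∉
          {q : ℝ × ℝ | q.2 - r ≤ q.1 ∧ q.1 ≤ q.2} from hl)]
        simp
    have hind : Measurable (fun l : ML => ((Icc (s - r) s).indicator 1 l.1.1 : ℝ≥0∞)) := by
      have g1 : Measurable ((Icc (s - r) s).indicator (1 : ℝ → ℝ≥0∞)) :=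
        measurable_one.indicator measurableSet_Icc
      have g2 : Measurable (fun l : ML => l.1.1) := by fun_prop
      exact g1.comp g2
    have hρi : Measurable (fun l : ML =>
        rho0 (posd l) * (Icc (s - r) s).indicator 1 l.1.1) := hρm.mul hind
    have b1 : ∫⁻ l, rho0 (posd l) * φ2 ((l, l.1.1), s) ∂P.ℓ ≤ Cl * ENNReal.ofReal r * φ s := by
      simp_rw [e1]
      rw [lintegral_mul_const _ hρi]
      exact mul_le_mul_left (hl1 s) _
    have b2 : ∫⁻ l, (∫⁻ s' in Icc 0 P.t', rho0 (posd l) * φ2 ((l, s'), s)) ∂P.ℓ ≤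
        Cl * ENNReal.ofReal r * φ s := by
      calc ∫⁻ l, (∫⁻ s' in Icc 0 P.t', rho0 (posd l) * φ2 ((l, s'), s)) ∂P.ℓ
          ≤ ∫⁻ l, rho0 (posd l) * (φ s * ENNReal.ofReal r) ∂P.ℓ := by
            refine lintegral_mono fun l => ?_
            simp_rw [e2]
            refine (setLIntegral_le_lintegral _ _).trans (le_of_eq ?_)
            rw [lintegral_indicator measurableSet_Icc, setLIntegral_const, Real.volume_Icc]
            rw [show s - (s - r) = r by ring]
            ring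
        _ = (∫⁻ l, rho0 (posd l) ∂P.ℓ) * (φ s * ENNReal.ofReal r) := lintegral_mul_const _ hρm
        _ ≤ Cl * (φ s * ENNReal.ofReal r) := mul_le_mul_left hl2 _
        _ = _ := by ring
    refine (add_le_add b1 b2).trans (le_of_eq ?_)
    ring
  calc (1 + ENNReal.ofReal ‖y' s‖) * P.rhs (fun q => rho0 (posd q.1) * φ2 (q, s))
      ≤ (1 + ENNReal.ofReal ‖y' s‖) * ((2 * Cl * ENNReal.ofReal r) * φ s) :=
        mul_le_mul_right hrhs _
    _ = _ := by ring

end old

end Crest.Agent.R122.PairS969
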