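import Crest.Agent.R122.Simul1_984
import Crest.Agent.R122.MeasEvo_416
import Crest.Agent.R122.GCBasic_311

/-!
# Simultaneous arrivals are negligible: flow, gas and random births (row 122, N6 / H15)

* `ae_no_simul_flow`, `ae_dist_ne_at_flow` : Newton flow, all times `t : ℝ`.
* `gcE_eq_zero_of_ae`, `gcE_simul`, `gcE_dist_eq` : grand canonical versions.
* `exists_onset` : at each time all edges `dist ≤ ε` except at most one are strict, hence present
  on a neighbourhood of this time.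
* `ae_no_simul_births` : random births (any s-finite parameter).
-/

set_option autoImplicit false
set_option linter.unusedSectionVars false

open MeasureTheory Set Filter Topology
open scoped ENNReal NNReal
open Crest.AnalysisR.Kinetic
open Crest.Agent.R122.Flow671 Crest.Agent.R122.Loc45 Crest.Agent.R122.Ins45
open Crest.Agent.R122.MeasE416 Crest.Agent.R122.GC311

namespace Crest.Agent.R122.Simul984

noncomputable section

variable {Φ : Space3 → ℝ} {ε : ℝ} {ι : Type*} [Fintype ι]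

/-- No two different pairs at distance exactly `ε`. -/
def NoSimul (ε : ℝ) (Z : ι → PhasePoint) : Prop :=
  ∀ a a' c c', a ≠ a' → c ≠ c' → s(a, a') ≠ s(c, c') →
    dist (Z a).1 (Z a').1 = ε → dist (Z c).1 (Z c').1 ≠ ε

/-- No pair at distance exactly `ε`. -/
def NoEq (ε : ℝ) (Z : ι → PhasePoint) : Prop := ∀ i j, i ≠ j → dist (Z i).1 (Z j).1 ≠ ε

theorem ae_noSimul_evo (hΦ : AdmissiblePotential Φ) (hε : 0 < ε) (b : ι → ℝ) (t₀ : ℝ) :
    ∀ᵐ Z : ι → PhasePoint, ∀ t, t₀ ≤ t → NoSimul ε (evo Φ ε b t₀ t Z) := ae_no_simul hΦ hε b t₀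

theorem ae_noEq_evo (hΦ : AdmissiblePotential Φ) (hε : 0 < ε) (b : ι → ℝ) (t₀ t : ℝ) :
    ∀ᵐ Z : ι → PhasePoint, NoEq ε (evo Φ ε b t₀ t Z) := ae_dist_ne_at hΦ hε b t₀ t

theorem ae_noSimul_flow_nonneg (hΦ : AdmissiblePotential Φ) (hε : 0 < ε) :
    ∀ᵐ Z : ι → PhasePoint, ∀ t, 0 ≤ t → NoSimul ε (flow Φ ε t Z) := by
  filter_upwards [ae_noSimul_evo (ι := ι) hΦ hε (fun _ => 0) 0, ae_bworld (ι := ι) hΦ hε (fun _ => 0) 0]
    with Z h1 h2 t ht
  have h3 := h2.eq_flow hΦ hε (fun _ => le_rfl) ht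
  simp only [evo_self hΦ hε, sub_zero] at h3
  have h4 := h1 t ht
  simp only [h3] at h4
  exact h4

/-- **N6 for the Newton flow**, all times. -/
theorem ae_noSimul_flow (hΦ : AdmissiblePotential Φ) (hε : 0 < ε) :
    ∀ᵐ Z : ι → PhasePoint, ∀ t : ℝ, NoSimul ε (flow Φ ε t Z) := by
  have h1 : ∀ᵐ Z : ι → PhasePoint, ∀ N : ℕ, ∀ t, 0 ≤ t →
      NoSimul ε (flow Φ ε t (flow Φ ε (-(N : ℝ)) Z)) :=
    ae_all_iff.2 fun N =>
      (measurePreserving_flow (ι := ι) hΦ hε (-(N : ℝ))).quasiMeasurePreserving.ae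
        (ae_noSimul_flow_nonneg hΦ hε)
  filter_upwards [h1] with Z hZ t
  obtain ⟨N, hN⟩ := exists_nat_ge (-t)
  have h2 := hZ N (t + N) (by linarith)
  rw [← flow_add hΦ hε] at h2
  have e : -(N : ℝ) + (t + N) = t := by ring
  rwa [e] at h2

theorem ae_noEq_flow (hΦ : AdmissiblePotential Φ) (hε : 0 < ε) (t : ℝ) :
    ∀ᵐ Z : ι → PhasePoint, NoEq ε (flow Φ ε t Z) := by
  refine (measurePreserving_flow (ι := ι) hΦ hε t).quasiMeasurePreserving.ae ?_
  filter_upwards [ae_noEq_evo (ι := ι) hΦ hε (fun _ => 0) 0 0] with Z h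
  rwa [evo_self hΦ hε] at h

/-! ### Onset of contacts -/

/-- At every time all contacts except at most one are strict, hence present on a neighbourhood. -/
theorem exists_onset {X : ℝ → ι → PhasePoint} {s : ℝ} (hns : NoSimul ε (X s))
    (hc : ∀ i, ContinuousAt (fun t => (X t i).1) s) :
    ∃ p : Option (Sym2 ι), ∃ δ > 0, ∀ i j, i ≠ j → some s(i, j) ≠ p →
      dist (X s i).1 (X s j).1 ≤ ε → ∀ t, |t - s| < δ → dist (X t i).1 (X t j).1 < ε := by
  classical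
  by_cases h : ∃ i j, i ≠ j ∧ dist (X s i).1 (X s j).1 = ε
  · obtain ⟨a, a', haa', hd⟩ := h
    have key : ∀ p : ι × ι, ∃ δ > 0, p.1 ≠ p.2 → s(p.1, p.2) ≠ s(a, a') →
        dist (X s p.1).1 (X s p.2).1 ≤ ε → ∀ t, |t - s| < δ →
          dist (X t p.1).1 (X t p.2).1 < ε := by
      rintro ⟨i, j⟩
      by_cases h1 : i ≠ j ∧ s(i, j) ≠ s(a, a') ∧ dist (X s i).1 (X s j).1 ≤ ε
      · obtain ⟨h2, h3, h4⟩ := h1
        have h5 : dist (X s i).1 (X s j).1 < ε :=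
          lt_of_le_of_ne h4 (hns a a' i j haa' h2 h3.symm hd)
        have h6 : ContinuousAt (fun t => dist (X t i).1 (X t j).1) s := (hc i).dist (hc j)
        obtain ⟨δ, hδ, h7⟩ := Metric.eventually_nhds_iff.1
          (h6.eventually (Iio_mem_nhds h5))
        exact ⟨δ, hδ, fun _ _ _ t ht => h7 (by rwa [Real.dist_eq])⟩
      · exact ⟨1, one_pos, fun h2 h3 h4 => absurd ⟨h2, h3, h4⟩ h1⟩
    choose δ hδ hkey using key
    obtain ⟨η, hη, hle⟩ : ∃ η > 0, ∀ p, η ≤ δ p := by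
      obtain ⟨p₀, hp₀⟩ := @Finite.exists_min _ _ _ ⟨(a, a')⟩ _ δ
      exact ⟨δ p₀, hδ p₀, hp₀⟩
    refine ⟨some s(a, a'), η, hη, fun i j hij hne hd' t ht => ?_⟩
    exact hkey (i, j) hij (fun h => hne (by rw [h])) hd' t (ht.trans_le (hle _))
  · push Not at h
    have key : ∀ p : ι × ι, ∃ δ > 0, p.1 ≠ p.2 →
        dist (X s p.1).1 (X s p.2).1 ≤ ε → ∀ t, |t - s| < δ →
          dist (X t p.1).1 (X t p.2).1 < ε := by
      rintro ⟨i, j⟩
      by_cases h1 : i ≠ j ∧ dist (X s i).1 (X s j).1 ≤ ε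
      · obtain ⟨h2, h4⟩ := h1
        have h5 : dist (X s i).1 (X s j).1 < ε := lt_of_le_of_ne h4 (h i j h2)
        have h6 : ContinuousAt (fun t => dist (X t i).1 (X t j).1) s := (hc i).dist (hc j)
        obtain ⟨δ, hδ, h7⟩ := Metric.eventually_nhds_iff.1
          (h6.eventually (Iio_mem_nhds h5))
        exact ⟨δ, hδ, fun _ _ t ht => h7 (by rwa [Real.dist_eq])⟩
      · exact ⟨1, one_pos, fun h2 h4 => absurd ⟨h2, h4⟩ h1⟩
    choose δ hδ hkey using key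
    rcases isEmpty_or_nonempty ι with he | hne
    · exact ⟨none, 1, one_pos, fun i => (he.false i).elim⟩
    · obtain ⟨η, hη, hle⟩ : ∃ η > 0, ∀ p, η ≤ δ p := by
        obtain ⟨p₀, hp₀⟩ := Finite.exists_min δ
        exact ⟨δ p₀, hδ p₀, hp₀⟩
      exact ⟨none, η, hη, fun i j hij _ hd' t ht =>
        hkey (i, j) hij hd' t (ht.trans_le (hle _))⟩

/-! ### Gas versions -/

theorem gcE_eq_zero_of_ae (f₀ : PhasePoint → ℝ) (ε : ℝ) {F : (n : ℕ) → Config n → ℝ≥0∞}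
    (h : ∀ n, ∀ᵐ Z : Config n, F n Z = 0) : gcE f₀ ε F = 0 := by
  unfold gcE
  have h1 : ∀ n, ∫⁻ Z, gcWeight f₀ ε n Z * F n Z = 0 := by
    intro n
    rw [lintegral_congr_ae (g := fun _ => 0) ?_]
    · simp
    · filter_upwards [h n] with Z hZ
      rw [hZ, mul_zero]
  simp [h1]

/-- `gcE` does not see null sets (inequality form). -/
theorem gcE_mono_ae (f₀ : PhasePoint → ℝ) (ε : ℝ) {F G : (n : ℕ) → Config n → ℝ≥0∞}
    (h : ∀ n, ∀ᵐ Z : Config n, Z ∈ PairExcluded ε n → F n Z ≤ G n Z) :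
    gcE f₀ ε F ≤ gcE f₀ ε G := by
  unfold gcE
  refine mul_le_mul_right (ENNReal.tsum_le_tsum fun n => mul_le_mul_right
    (lintegral_mono_ae ?_) _) _
  filter_upwards [h n] with Z hZ
  by_cases hp : Z ∈ PairExcluded ε n
  · exact mul_le_mul_right (hZ hp) _
  · simp [gcWeight, hp]

open scoped Classical in
/-- In the gas no two different pairs are ever at distance exactly `ε` at the same time. -/
theorem gcE_simul (hΦ : AdmissiblePotential Φ) (hε : 0 < ε) (f₀ : PhasePoint → ℝ)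
    (G : (n : ℕ) → Config n → ℝ≥0∞) :
    gcE f₀ ε (fun n Z => if ∃ t : ℝ, ¬ NoSimul ε (flow Φ ε t Z) then G n Z else 0) = 0 := by
  refine gcE_eq_zero_of_ae f₀ ε fun n => ?_
  filter_upwards [ae_noSimul_flow (ι := Fin n) hΦ hε] with Z hZ
  rw [if_neg]
  push Not
  exact hZ

open scoped Classical in
/-- At a fixed time no pair of the gas is at distance exactly `ε`. -/
theorem gcE_dist_eq (hΦ : AdmissiblePotential Φ) (hε : 0 < ε) (f₀ : PhasePoint → ℝ) (t : ℝ)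
    (G : (n : ℕ) → Config n → ℝ≥0∞) :
    gcE f₀ ε (fun n Z => if ¬ NoEq ε (flow Φ ε t Z) then G n Z else 0) = 0 := by
  refine gcE_eq_zero_of_ae f₀ ε fun n => ?_
  filter_upwards [ae_noEq_flow (ι := Fin n) hΦ hε t] with Z hZ
  rw [if_neg (not_not.2 hZ)]

/-! ### Random births -/

section births

variable {Ω : Type*} [MeasurableSpace Ω]

theorem measurableSet_simul (hΦ : AdmissiblePotential Φ) (hε : 0 < ε) {b : Ω → ι → ℝ}
    (hb : ∀ i, Measurable fun ω => b ω i) {t₀ : Ω → ℝ} (ht₀ : Measurable t₀)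
    {Z : Ω → ι → PhasePoint} (hZ : Measurable Z) (a a' c c' : ι) :
    MeasurableSet {ω | ∃ t, t₀ ω ≤ t ∧
      dist (evo Φ ε (b ω) (t₀ ω) t (Z ω) a).1 (evo Φ ε (b ω) (t₀ ω) t (Z ω) a').1 = ε ∧
      dist (evo Φ ε (b ω) (t₀ ω) t (Z ω) c).1 (evo Φ ε (b ω) (t₀ ω) t (Z ω) c').1 = ε} := by
  have h1 := CF0.dist_evo hΦ hε hb ht₀ hZ a a'
  have h2 := CF0.dist_evo hΦ hε hb ht₀ hZ c c'
  -- the continuous functional `max |d₁ - ε| |d₂ - ε|`
  have habs : ∀ {f : Ω → ℝ → ℝ}, CF0 f → CF0 fun ω s => |f ω s - ε| := fun {f} hf =>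
    ⟨fun ω => ((hf.cont ω).sub continuous_const).abs,
      fun s => continuous_abs.measurable.comp ((hf.meas s).sub_const ε)⟩
  have h3 := (habs h1).max (habs h2)
  have hR : RCE fun ω t =>
      dist (evo Φ ε (b ω) (t₀ ω) t (Z ω) a).1 (evo Φ ε (b ω) (t₀ ω) t (Z ω) a').1 = ε ∧
      dist (evo Φ ε (b ω) (t₀ ω) t (Z ω) c).1 (evo Φ ε (b ω) (t₀ ω) t (Z ω) c').1 = ε := by
    refine ⟨_, h3, fun ω s => ?_⟩
    simp only [max_le_iff, abs_nonpos_iff, sub_eq_zero]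
  have h4 : ∀ N : ℕ, MeasurableSet {ω | ∃ t ∈ Icc (t₀ ω) (t₀ ω + N),
      dist (evo Φ ε (b ω) (t₀ ω) t (Z ω) a).1 (evo Φ ε (b ω) (t₀ ω) t (Z ω) a').1 = ε ∧
      dist (evo Φ ε (b ω) (t₀ ω) t (Z ω) c).1 (evo Φ ε (b ω) (t₀ ω) t (Z ω) c').1 = ε} :=
    fun N => hR.existsIcc ht₀ (ht₀.add_const _)
  have h5 : {ω | ∃ t, t₀ ω ≤ t ∧
      dist (evo Φ ε (b ω) (t₀ ω) t (Z ω) a).1 (evo Φ ε (b ω) (t₀ ω) t (Z ω) a').1 = ε ∧
      dist (evo Φ ε (b ω) (t₀ ω) t (Z ω) c).1 (evo Φ ε (b ω) (t₀ ω) t (Z ω) c').1 = ε} =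
      ⋃ N : ℕ, {ω | ∃ t ∈ Icc (t₀ ω) (t₀ ω + N),
      dist (evo Φ ε (b ω) (t₀ ω) t (Z ω) a).1 (evo Φ ε (b ω) (t₀ ω) t (Z ω) a').1 = ε ∧
      dist (evo Φ ε (b ω) (t₀ ω) t (Z ω) c).1 (evo Φ ε (b ω) (t₀ ω) t (Z ω) c').1 = ε} := by
    ext ω
    simp only [mem_iUnion]
    constructor
    · rintro ⟨t, ht, h⟩
      obtain ⟨N, hN⟩ := exists_nat_ge (t - t₀ ω)
      exact ⟨N, t, ⟨ht, by linarith⟩, h⟩
    · rintro ⟨N, t, ht, h⟩
      exact ⟨t, ht.1, h⟩
  rw [h5]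
  exact MeasurableSet.iUnion h4

/-- **N6, random births.** -/
theorem ae_noSimul_births (hΦ : AdmissiblePotential Φ) (hε : 0 < ε) (ν : Measure Ω) [SFinite ν]
    {b : Ω → ι → ℝ} (hb : ∀ i, Measurable fun ω => b ω i) (t₀ : ℝ) :
    ∀ᵐ p ∂(ν.prod (volume : Measure (ι → PhasePoint))), ∀ t, t₀ ≤ t →
      NoSimul ε (evo Φ ε (b p.1) t₀ t p.2) := by
  have key : ∀ a a' c c' : ι, a ≠ a' → c ≠ c' → s(a, a') ≠ s(c, c') →
      ∀ᵐ p ∂(ν.prod (volume : Measure (ι → PhasePoint))), ∀ t, t₀ ≤ t →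
        dist (evo Φ ε (b p.1) t₀ t p.2 a).1 (evo Φ ε (b p.1) t₀ t p.2 a').1 = ε →
        dist (evo Φ ε (b p.1) t₀ t p.2 c).1 (evo Φ ε (b p.1) t₀ t p.2 c').1 ≠ ε := by
    intro a a' c c' h1 h2 h3
    have hms := measurableSet_simul (Ω := Ω × (ι → PhasePoint)) hΦ hε
      (b := fun p => b p.1) (fun i => (hb i).comp measurable_fst) (t₀ := fun _ => t₀)
      measurable_const (Z := fun p => p.2) measurable_snd a a' c c'
    have hz := (Measure.measure_prod_null (μ := ν) (ν := (volume : Measure (ι → PhasePoint)))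
      hms).2 (Eventually.of_forall fun ω => ?_)
    · filter_upwards [measure_eq_zero_iff_ae_notMem.1 hz] with p hp t ht h4 h5
      exact hp ⟨t, ht, h4, h5⟩
    · have h4 := ae_no_simul hΦ hε (b ω) t₀
      refine measure_eq_zero_iff_ae_notMem.2 ?_
      filter_upwards [h4] with Z hZ
      rintro ⟨t, ht, h5, h6⟩
      exact hZ t ht a a' c c' h1 h2 h3 h5 h6
  have hall : ∀ᵐ p ∂(ν.prod (volume : Measure (ι → PhasePoint))), ∀ a a' c c' : ι, a ≠ a' →
      c ≠ c' → s(a, a') ≠ s(c, c') → ∀ t, t₀ ≤ t →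
        dist (evo Φ ε (b p.1) t₀ t p.2 a).1 (evo Φ ε (b p.1) t₀ t p.2 a').1 = ε →
        dist (evo Φ ε (b p.1) t₀ t p.2 c).1 (evo Φ ε (b p.1) t₀ t p.2 c').1 ≠ ε := by
    simp only [ae_all_iff]
    exact key
  filter_upwards [hall] with p hp t ht a a' c c' h1 h2 h3 h4
  exact hp a a' c c' h1 h2 h3 t ht h4

/-- At a (random) time depending only on the parameter no pair is at distance exactly `ε`
(birth times, ends of windows). -/
theorem ae_noEq_births (hΦ : AdmissiblePotential Φ) (hε : 0 < ε) (ν : Measure Ω) [SFinite ν]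
    {b : Ω → ι → ℝ} (hb : ∀ i, Measurable fun ω => b ω i) (t₀ : ℝ) {τ : Ω → ℝ}
    (hτ : Measurable τ) :
    ∀ᵐ p ∂(ν.prod (volume : Measure (ι → PhasePoint))), NoEq ε (evo Φ ε (b p.1) t₀ (τ p.1) p.2) := by
  have hms : MeasurableSet {p : Ω × (ι → PhasePoint) |
      ¬ NoEq ε (evo Φ ε (b p.1) t₀ (τ p.1) p.2)} := by
    have hev : Measurable fun p : Ω × (ι → PhasePoint) => evo Φ ε (b p.1) t₀ (τ p.1) p.2 :=
      measurable_evo hΦ hε (fun i => (hb i).comp measurable_fst) measurable_const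
        (hτ.comp measurable_fst) measurable_snd
    have h1 : {p : Ω × (ι → PhasePoint) | ¬ NoEq ε (evo Φ ε (b p.1) t₀ (τ p.1) p.2)} =
        ⋃ i, ⋃ j, {p | i ≠ j ∧ dist (evo Φ ε (b p.1) t₀ (τ p.1) p.2 i).1
          (evo Φ ε (b p.1) t₀ (τ p.1) p.2 j).1 = ε} := by
      ext p
      simp only [NoEq, mem_iUnion, mem_ofPred_eq]
      push Not
      exact Iff.rfl
    rw [h1]
    refine MeasurableSet.iUnion fun i => MeasurableSet.iUnion fun j => ?_
    have hd : Measurable fun p : Ω × (ι → PhasePoint) =>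
        dist (evo Φ ε (b p.1) t₀ (τ p.1) p.2 i).1 (evo Φ ε (b p.1) t₀ (τ p.1) p.2 j).1 :=
      (((measurable_pi_apply i).comp hev).fst).dist (((measurable_pi_apply j).comp hev).fst)
    exact (MeasurableSet.const _).inter (measurableSet_eq_fun hd measurable_const)
  have hz := (Measure.measure_prod_null (μ := ν) (ν := (volume : Measure (ι → PhasePoint)))
    hms).2 (Eventually.of_forall fun ω => ?_)
  · filter_upwards [measure_eq_zero_iff_ae_notMem.1 hz] with p hp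
    exact not_not.1 hp
  · refine measure_eq_zero_iff_ae_notMem.2 ?_
    filter_upwards [ae_noEq_evo hΦ hε (b ω) t₀ (τ ω)] with Z hZ
    exact fun h => h hZ

end births

end

end Crest.Agent.R122.Simul984
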