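import Crest.Agent.R122.RedFlux_663
import Crest.Agent.R122.PairDefs_292
import Crest.Agent.R122.PairS6_969
import Crest.Agent.R122.EBasic_602
import Crest.Agent.R122.UnwE_410
import Crest.Agent.R122.Simul2_984

/-!
# Row 122 (helper663): flux of errors for pair laws (helper292's `StmtRF6a`, `StmtRF6`)

* `hT` : first hitting time (after its birth) of the `ε`-ball around a fixed path by a free line.
* `pair_firstHit_le` : a functional of the pair supported on first hits of a fixed path by the second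
  line.
* `rf6a`, `rf6` : `StmtRF6a`, `StmtRF6`.
-/

set_option autoImplicit false

open MeasureTheory Set Filter
open scoped ENNReal Classical Topology
open Crest.AnalysisR.Kinetic
open Crest.Agent.R122.Kin796 Crest.Agent.R122.GC311 Crest.Agent.R122.Flow671
open Crest.Agent.R122.EDefs602 Crest.Agent.R122.Loc45 Crest.Agent.R122.OC663
open Crest.Agent.R122.InEq2 Crest.Agent.R122.Relabel674 Crest.Agent.R122.Causal291
open Crest.Agent.R122.EBasic602 Crest.Agent.R122.RedFlux663
open Crest.Agent.R122.Boost969 Crest.Agent.R122.Contact969 Crest.Agent.R122.PairS969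
open Crest.Agent.R122.Omega969
open Crest.Agent.R122.Pair292 hiding ML
open Crest.Agent.R122.OneC285 (RF MeasRF rfl4 lpos)

noncomputable section

namespace Crest.Agent.R122.RedFlux6

open PairD292

/-! ### First hitting time of a fixed path -/

/-- Times after the birth of the line at which it is within `ε` of the path (or `≥ te + 1`). -/
def hS (te ε : ℝ) (y : ℝ → Space3) (z : LSt) : Set ℝ :=
  {r | max z.1 0 < r ∧ (dist (posAt r z) (y r) ≤ ε ∨ te + 1 ≤ r)}

/-- First hitting time. -/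
def hT (te ε : ℝ) (y : ℝ → Space3) (z : LSt) : ℝ := sInf (hS te ε y z)

variable {te ε : ℝ} {y : ℝ → Space3}

theorem hS_nonempty (te ε : ℝ) (y : ℝ → Space3) (z : LSt) : (hS te ε y z).Nonempty := by
  refine ⟨max (max z.1 0 + 1) (te + 1), ?_, Or.inr (le_max_right _ _)⟩
  exact lt_of_lt_of_le (by linarith) (le_max_left _ _)

theorem hS_bddBelow (te ε : ℝ) (y : ℝ → Space3) (z : LSt) : BddBelow (hS te ε y z) :=
  ⟨0, fun _ hr => (le_max_right _ _).trans hr.1.le⟩

theorem measurable_hT (hy : Continuous y) (te ε : ℝ) : Measurable (hT te ε y) := by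
  refine measurable_of_Iio fun t => ?_
  have key : hT te ε y ⁻¹' Iio t = ⋃ n : ℕ, {z : LSt | ∃ r : Icc (0 : ℝ) t,
      (max z.1 0 + 1 / ((n : ℝ) + 1) ≤ r ∧ (r : ℝ) + 1 / ((n : ℝ) + 1) ≤ t) ∧
      (dist (posAt r z) (y r) ≤ ε ∨ te + 1 ≤ (r : ℝ))} := by
    ext z
    simp only [mem_preimage, mem_Iio, mem_iUnion, mem_ofPred_eq]
    constructor
    · intro h
      obtain ⟨r, hr, hrt⟩ := exists_lt_of_csInf_lt (hS_nonempty te ε y z) h
      have h1 : 0 < min (r - max z.1 0) (t - r) := lt_min (sub_pos.2 hr.1) (sub_pos.2 hrt)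
      obtain ⟨n, hn⟩ := exists_nat_one_div_lt h1
      have h2 := hn.trans_le (min_le_left _ _)
      have h3 := hn.trans_le (min_le_right _ _)
      have h4 : 0 ≤ r := (le_max_right z.1 0).trans hr.1.le
      exact ⟨n, ⟨r, h4, hrt.le⟩, ⟨by linarith, by linarith⟩, hr.2⟩
    · rintro ⟨n, r, ⟨h1, h2⟩, h3⟩
      have hn : (0 : ℝ) < 1 / ((n : ℝ) + 1) := by positivity
      have hmem : (r : ℝ) ∈ hS te ε y z := ⟨by linarith, h3⟩
      exact lt_of_le_of_lt (csInf_le (hS_bddBelow te ε y z) hmem) (by linarith)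
  rw [key]
  refine MeasurableSet.iUnion fun n => ?_
  have hcl : IsClosed {q : LSt × Icc (0 : ℝ) t |
      (max q.1.1 0 + 1 / ((n : ℝ) + 1) ≤ (q.2 : ℝ) ∧ (q.2 : ℝ) + 1 / ((n : ℝ) + 1) ≤ t) ∧
      (dist (posAt q.2 q.1) (y q.2) ≤ ε ∨ te + 1 ≤ (q.2 : ℝ))} := by
    have hp : Continuous fun q : LSt × Icc (0 : ℝ) t => posAt (q.2 : ℝ) q.1 := by
      unfold posAt
      fun_prop
    have hyc : Continuous fun q : LSt × Icc (0 : ℝ) t => y (q.2 : ℝ) := by fun_prop
    have c1 : IsClosed {q : LSt × Icc (0 : ℝ) t |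
        max q.1.1 0 + 1 / ((n : ℝ) + 1) ≤ (q.2 : ℝ)} :=
      isClosed_le (by fun_prop) (by fun_prop)
    have c2 : IsClosed {q : LSt × Icc (0 : ℝ) t | (q.2 : ℝ) + 1 / ((n : ℝ) + 1) ≤ t} :=
      isClosed_le (by fun_prop) continuous_const
    have c3 : IsClosed {q : LSt × Icc (0 : ℝ) t | dist (posAt q.2 q.1) (y q.2) ≤ ε} :=
      isClosed_le (hp.dist hyc) continuous_const
    have c4 : IsClosed {q : LSt × Icc (0 : ℝ) t | te + 1 ≤ (q.2 : ℝ)} :=
      isClosed_le continuous_const (by fun_prop)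
    exact (c1.inter c2).inter (c3.union c4)
  have h2 := isClosedMap_fst_of_compactSpace (X := LSt) (Y := Icc (0 : ℝ) t) _ hcl
  have h3 : {z : LSt | ∃ r : Icc (0 : ℝ) t,
      (max z.1 0 + 1 / ((n : ℝ) + 1) ≤ r ∧ (r : ℝ) + 1 / ((n : ℝ) + 1) ≤ t) ∧
      (dist (posAt r z) (y r) ≤ ε ∨ te + 1 ≤ (r : ℝ))} = Prod.fst '' {q : LSt × Icc (0 : ℝ) t |
      (max q.1.1 0 + 1 / ((n : ℝ) + 1) ≤ (q.2 : ℝ) ∧ (q.2 : ℝ) + 1 / ((n : ℝ) + 1) ≤ t) ∧
      (dist (posAt q.2 q.1) (y q.2) ≤ ε ∨ te + 1 ≤ (q.2 : ℝ))} := by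
    ext z
    simp only [mem_image, mem_ofPred_eq, Prod.exists, exists_and_right, exists_eq_right]
  rw [h3]
  exact h2.measurableSet

/-- At the hitting time the line enters the ball. -/
theorem entr_hT (hy : Continuous y) {z : LSt} (h0 : 0 < z.1) (h1 : z.1 < hT te ε y z)
    (h2 : hT te ε y z ≤ te) : Entr (fun s => y s - posAt s z) ε 0 (hT te ε y z) := by
  set s := hT te ε y z with hs
  have hmax : max z.1 0 = z.1 := max_eq_left h0.le
  have hp : Continuous fun r : ℝ => posAt r z := by unfold posAt; fun_prop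
  have hd : Continuous fun r : ℝ => dist (posAt r z) (y r) := hp.dist hy
  have hbef : ∀ r ∈ Ioo z.1 s, ε < dist (posAt r z) (y r) := by
    intro r hr
    by_contra hle
    have hmem : r ∈ hS te ε y z := ⟨by rw [hmax]; exact hr.1, Or.inl (not_lt.1 hle)⟩
    exact absurd (csInf_le (hS_bddBelow te ε y z) hmem) (not_le.2 hr.2)
  have hge : ε ≤ dist (posAt s z) (y s) := by
    have h3 : s ∈ closure (Ioo z.1 s) := by
      rw [closure_Ioo h1.ne]
      exact right_mem_Icc.2 h1.le
    exact closure_minimal (fun r hr => (hbef r hr).le) (isClosed_le continuous_const hd) h3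
  have hle : dist (posAt s z) (y s) ≤ ε := by
    by_contra hgt
    rw [not_le] at hgt
    have hev : ∀ᶠ r in 𝓝 s, ε < dist (posAt r z) (y r) := hd.continuousAt.eventually (lt_mem_nhds hgt)
    obtain ⟨δ, hδ, hball⟩ := Metric.eventually_nhds_iff.1 hev
    obtain ⟨r, hr, hrs⟩ := exists_lt_of_csInf_lt (hS_nonempty te ε y z)
      (show sInf (hS te ε y z) < s + min δ (1 / 2) from by
        have : 0 < min δ (1 / 2 : ℝ) := lt_min hδ (by norm_num)
        have h4 : sInf (hS te ε y z) = s := rfl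
        linarith)
    have hsr : s ≤ r := csInf_le (hS_bddBelow te ε y z) hr
    have h5 : r < s + δ := hrs.trans_le (by linarith [min_le_left δ (1 / 2 : ℝ)])
    have h6 : r < s + 1 / 2 := hrs.trans_le (by linarith [min_le_right δ (1 / 2 : ℝ)])
    rcases hr.2 with h7 | h7
    · have := hball (y := r) (by rw [Real.dist_eq, abs_of_nonneg (by linarith)]; linarith)
      exact absurd h7 (not_le.2 this)
    · linarith
  have e : ∀ r, ‖(0 : Space3) - (y r - posAt r z)‖ = dist (posAt r z) (y r) := by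
    intro r
    rw [dist_eq_norm, zero_sub, neg_sub]
  refine ⟨?_, z.1, h1, fun r hr => ?_⟩
  · rw [e]; exact le_antisymm hle hge
  · show ε < ‖(0 : Space3) - (y r - posAt r z)‖
    rw [e]
    exact hbef r hr

/-- The hitting time of a first hit. -/
theorem hT_eq {z : LSt} (h0 : 0 < z.1) {s : ℝ} (hs : s ≤ te)
    (h : FirstHit ε (fun r => posAt r z) y z.1 s) : hT te ε y z = s := by
  have hmax : max z.1 0 = z.1 := max_eq_left h0.le
  have hmem : s ∈ hS te ε y z := ⟨by rw [hmax]; exact h.1, Or.inl (by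
    rw [dist_eq_norm]; exact h.2.1.le)⟩
  refine le_antisymm (csInf_le (hS_bddBelow te ε y z) hmem)
    (le_csInf (hS_nonempty te ε y z) fun r hr => ?_)
  by_contra hlt
  rw [not_le] at hlt
  have h1 : z.1 < r := by rw [← hmax]; exact hr.1
  rcases hr.2 with h2 | h2
  · rw [dist_eq_norm] at h2
    exact absurd (h.2.2 r ⟨h1, hlt⟩) (not_lt.2 h2)
  · linarith

/-! ### The line measure (copied from `LinkS6_969`, helper969) -/

section lines

variable {γ : ℝ → ℝ} {ρ : ℝ≥0∞} {K : ℕ} {T : ℝ}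

/-- the mass of the line measure per unit volume, birth times in `S` -/
theorem lineM_rho_le (hγ : Measurable γ) {g : ℝ} (hg : ∀ τ ∈ Ioc 0 T, g ≤ γ τ) {S : Set ℝ}
    (hS : MeasurableSet S) :
    ∫⁻ l, rho0 (posd l) * S.indicator 1 l.1.1 ∂lineM γ ρ K T ≤
      volume (Ioc 0 T ∩ S) * ((1 - ρ)⁻¹ * ∫⁻ v : Space3, Kin796.wG g v) := by
  have hF : Measurable (fun l : ML => rho0 (posd l) * S.indicator (1 : ℝ → ℝ≥0∞) l.1.1) :=
    (measurable_rho0.comp measurable_posd).mul
      ((measurable_one.indicator hS).comp (measurable_fst.comp measurable_fst))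
  rw [lintegral_lineM hγ hF]
  have h1 : ∀ (τ : ℝ) (v : Space3), ∫⁻ y : Space3, ∑' n : ℕ, markW ρ K n *
      (rho0 (posd ((τ, (y, v)), n)) * S.indicator 1 ((((τ, (y, v)), n) : ML)).1.1) =
      S.indicator 1 τ * ∑' n : ℕ, markW ρ K n := by
    intro τ v
    have h2 : ∀ y : Space3, ∑' n : ℕ, markW ρ K n *
        (rho0 (posd ((τ, (y, v)), n)) * S.indicator 1 ((((τ, (y, v)), n) : ML)).1.1) =
        (S.indicator 1 τ * ∑' n : ℕ, markW ρ K n) * rho0 y := by
      intro y
      have h3 : ∀ n : ℕ, markW ρ K n *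
          (rho0 (posd ((τ, (y, v)), n)) * S.indicator 1 ((((τ, (y, v)), n) : ML)).1.1) =
          markW ρ K n * (S.indicator 1 τ * rho0 y) := by
        intro n
        change markW ρ K n * (rho0 y * S.indicator 1 τ) = _
        ring
      simp only [h3]
      rw [ENNReal.tsum_mul_right]
      ring
    simp only [h2]
    rw [lintegral_const_mul _ measurable_rho0, lintegral_rho0, mul_one]
  simp only [h1]
  calc ∫⁻ τ in Ioc 0 T, (∫⁻ v : Space3, Kin796.wG (γ τ) v *
        (S.indicator 1 τ * ∑' n : ℕ, markW ρ K n))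
      ≤ ∫⁻ τ in Ioc 0 T, S.indicator 1 τ * ((1 - ρ)⁻¹ * ∫⁻ v : Space3, Kin796.wG g v) := by
        refine setLIntegral_mono' measurableSet_Ioc fun τ hτ => ?_
        have hm : Measurable (fun v : Space3 => Kin796.wG (γ τ) v) := by
          unfold Kin796.wG
          exact ENNReal.measurable_ofReal.comp (Continuous.measurable (by fun_prop))
        rw [lintegral_mul_const _ hm]
        calc (∫⁻ v : Space3, Kin796.wG (γ τ) v) * (S.indicator 1 τ * ∑' n : ℕ, markW ρ K n)
            ≤ (∫⁻ v : Space3, Kin796.wG g v) * (S.indicator 1 τ * (1 - ρ)⁻¹) := by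
              refine mul_le_mul' (lintegral_mono fun v => ?_) (mul_le_mul_right
                (tsum_markW_le K) _)
              unfold Kin796.wG
              refine ENNReal.ofReal_le_ofReal (Real.exp_le_exp.2 ?_)
              have := mul_le_mul_of_nonneg_right (hg τ hτ) (sq_nonneg ‖v‖)
              linarith
          _ = _ := by ring
    _ = (∫⁻ τ in Ioc 0 T, S.indicator (1 : ℝ → ℝ≥0∞) τ) *
          ((1 - ρ)⁻¹ * ∫⁻ v : Space3, Kin796.wG g v) :=
        lintegral_mul_const _ (measurable_one.indicator hS)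
    _ = _ := by
        rw [setLIntegral_indicator hS]
        simp only [Pi.one_apply, lintegral_one, Measure.restrict_apply MeasurableSet.univ,
          univ_inter]
        rw [inter_comm]

/-- local mass constant of the line measure -/
def Cline (ρ : ℝ≥0∞) (g T : ℝ) : ℝ≥0∞ :=
  (1 + ENNReal.ofReal T) * ((1 - ρ)⁻¹ * ∫⁻ v : Space3, Kin796.wG g v)

theorem Cline_ne_top {ρ : ℝ≥0∞} (hρ : ρ < 1) {g : ℝ} (hg : 0 < g) (T : ℝ) :
    Cline ρ g T ≠ ∞ := by
  unfold Cline
  refine ENNReal.mul_ne_top (by finiteness) (ENNReal.mul_ne_top ?_ ?_)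
  · exact ENNReal.inv_ne_top.2 (tsub_pos_of_lt hρ).ne'
  · have h : ∀ v : Space3, Kin796.wG g v = Kin416.gau g v := by
      intro v
      unfold Kin796.wG Kin416.gau
      rw [neg_mul]
    simp only [h]
    exact (Kin416.lintegral_gau_lt_top hg).ne

theorem lineM_rho (hγ : Measurable γ) {g : ℝ} (hg : ∀ τ ∈ Ioc 0 T, g ≤ γ τ) :
    ∫⁻ l, rho0 (posd l) ∂lineM γ ρ K T ≤ Cline ρ g T := by
  have h := lineM_rho_le (ρ := ρ) (K := K) hγ hg MeasurableSet.univ
  simp only [indicator_univ, Pi.one_apply, mul_one, inter_univ, Real.volume_Ioc, sub_zero] at h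
  refine h.trans ?_
  unfold Cline
  exact mul_le_mul_left le_add_self _

end lines

/-! ### Pair laws -/

/-- Constant of the flux inequality for pair laws. -/
def cPair (Q : EPar) (g : ℝ) : ℝ≥0∞ :=
  (sphM univ * (volume (Metric.ball (0 : Space3) 1) * 2)) *
    ((1 + ENNReal.ofReal Q.te) * Cline Q.ρ g Q.te)

theorem cPair_ne_top {Q : EPar} {g : ℝ} (hg : 0 < g) (hρ : Q.ρ < 1) : cPair Q g ≠ ∞ := by
  unfold cPair
  refine ENNReal.mul_ne_top (ENNReal.mul_ne_top (measure_ne_top _ _)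
    (ENNReal.mul_ne_top measure_ball_lt_top.ne (by norm_num))) (ENNReal.mul_ne_top (by finiteness)
    (Cline_ne_top hρ hg _))

/-- **Flux of the first hits of a fixed path by the second line of a pair law.** -/
theorem pair_firstHit_le {Q : EPar} {PP : ℕ → PPar} (hPP : PPOk Q PP) (hγm : Measurable Q.γ)
    {g : ℝ} (hg : ∀ τ ∈ Ioc 0 Q.te, g ≤ Q.γ τ) (hε : 0 < ε) {K : ℕ}
    {Ξ ν : Measure (Lab × LSt)} {c : ℝ≥0∞} (h : PX (PP K) Ξ ν c) {y' : ℝ → Space3}
    (hy : Continuous y) (hy' : Measurable y')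
    (hyd : ∀ s ∈ Ioc 0 Q.te, HasDerivAt y (y' s) s) {G : ℝ → ℝ≥0∞} (hG : Measurable G)
    {H : Lab × LSt → ℝ≥0∞}
    (hH : ∀ᵐ θ ∂ν, H θ ≠ 0 → 0 < θ.2.1 ∧ ∃ s ≤ Q.te,
      FirstHit ε (fun r => posAt r θ.2) y θ.2.1 s ∧ H θ ≤ G s) :
    ∫⁻ θ, H θ ∂ν ≤ cPair Q g * (c * ∫⁻ s in Ioc 0 Q.te,
      ENNReal.ofReal (ε ^ 2 * (1 + ‖y' s‖)) * G s) := by
  have hℓe : (PP K).ℓ = lineM Q.γ Q.ρ K Q.te := hPP.ell K
  have ht' : (PP K).t' = Q.te := hPP.hor K
  have : SFinite (PP K).ℓ := by rw [hℓe]; infer_instance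
  set T : Lab × LSt → ℝ := fun p => hT Q.te ε y p.2 with hTdef
  have hTm : Measurable T := (measurable_hT hy Q.te ε).comp measurable_snd
  set X : Set (Lab × LSt) := {p | 0 < p.2.1 ∧ p.2.1 < T p ∧ T p ≤ Q.te} with hXdef
  have hXm : MeasurableSet X := by
    have m1 : Measurable fun p : Lab × LSt => p.2.1 := by fun_prop
    exact ((measurableSet_lt measurable_const m1).inter ((measurableSet_lt m1 hTm).inter
      (measurableSet_le hTm measurable_const)))
  have hX : EntrX y 0 Q.te ε (PP K).t' X T := by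
    refine ⟨hXm, hTm, fun p hp => ⟨hp.1.trans hp.2.1, hp.2.2⟩, fun p hp => ?_, fun p hp => ?_⟩
    · exact entr_hT hy hp.1 hp.2.1 hp.2.2
    · rw [ht']; exact hp.2.1.le.trans hp.2.2
  -- the majorant
  have hle : ∫⁻ θ, H θ ∂ν ≤ ∫⁻ p in X, 1 * G (T p) ∂ν := by
    rw [← lintegral_indicator hXm]
    refine lintegral_mono_ae ?_
    filter_upwards [hH] with θ hθ
    by_cases hz : H θ = 0
    · rw [hz]; exact bot_le
    obtain ⟨h0, s, hs, hF, hle⟩ := hθ hz
    have hTs : T θ = s := hT_eq h0 hs hF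
    have hmem : θ ∈ X := ⟨h0, by rw [hTs]; exact hF.1, by rw [hTs]; exact hs⟩
    rw [indicator_of_mem hmem, one_mul, hTs]
    exact hle
  refine hle.trans ?_
  have hY := PairS969.PX.Y6 h (y := y) (y' := y') (a := 0) (b := Q.te) (X := X) (T := T) hε hX hy.measurable hy'
    hyd (ψ := fun _ => 1) measurable_const (φ := fun q => G q.2) (hG.comp measurable_snd)
    (fun _ _ _ _ => rfl) (Cw := 2) (fun z hz u hu => by
      rw [ht'] at hz
      refine le_trans ?_ (mul_le_mul_right (hPP.vel K z hz) 2)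
      rw [one_mul]
      have h1 : ‖z.2.2 + u‖ ≤ ‖z.2.2‖ + 1 := (norm_add_le _ _).trans (by linarith)
      calc 1 + ENNReal.ofReal ‖z.2.2 + u‖ = ENNReal.ofReal (1 + ‖z.2.2 + u‖) := by
            rw [ENNReal.ofReal_add zero_le_one (norm_nonneg _), ENNReal.ofReal_one]
        _ ≤ ENNReal.ofReal (2 * (1 + ‖z.2.2‖)) := by
            refine ENNReal.ofReal_le_ofReal ?_
            nlinarith [norm_nonneg z.2.2]
        _ = 2 * ENNReal.ofReal (1 + ‖z.2.2‖) := by
            rw [ENNReal.ofReal_mul (by norm_num), ENNReal.ofReal_ofNat])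
  refine hY.trans ?_
  -- the right side
  have hR : ∀ s, (PP K).rhs (fun q => rho0 (posd q.1) * G s) ≤
      ((1 + ENNReal.ofReal Q.te) * Cline Q.ρ g Q.te) * G s := by
    intro s
    have hm : Measurable fun l : ML => rho0 (posd l) := measurable_rho0.comp measurable_posd
    have h1 : ∫⁻ l, rho0 (posd l) ∂(PP K).ℓ ≤ Cline Q.ρ g Q.te := by
      rw [hℓe]
      exact lineM_rho hγm hg
    unfold PPar.rhs
    simp only [setLIntegral_const, Real.volume_Icc, sub_zero, ht']
    rw [lintegral_mul_const _ hm]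
    have h2 : ∫⁻ l, rho0 (posd l) * G s * ENNReal.ofReal Q.te ∂(PP K).ℓ =
        (∫⁻ l, rho0 (posd l) ∂(PP K).ℓ) * (G s * ENNReal.ofReal Q.te) := by
      rw [← lintegral_mul_const _ hm]
      exact lintegral_congr fun l => mul_assoc _ _ _
    rw [h2]
    calc (∫⁻ l, rho0 (posd l) ∂(PP K).ℓ) * G s +
          (∫⁻ l, rho0 (posd l) ∂(PP K).ℓ) * (G s * ENNReal.ofReal Q.te)
        ≤ Cline Q.ρ g Q.te * G s + Cline Q.ρ g Q.te * (G s * ENNReal.ofReal Q.te) := by gcongr
      _ = _ := by ring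
  have hdm : Measurable fun s => (1 + ENNReal.ofReal ‖y' s‖) * G s :=
    (hy'.norm.ennreal_ofReal.const_add 1).mul hG
  calc (ENNReal.ofReal (ε ^ 2) * (sphM univ * (volume (Metric.ball (0 : Space3) 1) * (2 * c)))) *
        ∫⁻ s in Ioc 0 Q.te, (1 + ENNReal.ofReal ‖y' s‖) *
          (PP K).rhs (fun q => rho0 (posd q.1) * G s)
      ≤ (ENNReal.ofReal (ε ^ 2) * (sphM univ * (volume (Metric.ball (0 : Space3) 1) * (2 * c)))) *
        ∫⁻ s in Ioc 0 Q.te, ((1 + ENNReal.ofReal Q.te) * Cline Q.ρ g Q.te) *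
          ((1 + ENNReal.ofReal ‖y' s‖) * G s) := by
        refine mul_le_mul_right (lintegral_mono fun s => ?_) _
        calc (1 + ENNReal.ofReal ‖y' s‖) * (PP K).rhs (fun q => rho0 (posd q.1) * G s)
            ≤ (1 + ENNReal.ofReal ‖y' s‖) *
              (((1 + ENNReal.ofReal Q.te) * Cline Q.ρ g Q.te) * G s) :=
              mul_le_mul_right (hR s) _
          _ = _ := by ring
    _ = cPair Q g * (c * (ENNReal.ofReal (ε ^ 2) *
          ∫⁻ s in Ioc 0 Q.te, (1 + ENNReal.ofReal ‖y' s‖) * G s)) := by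
        rw [lintegral_const_mul _ hdm, cPair]
        ring
    _ = _ := by
        rw [← lintegral_const_mul _ hdm]
        congr 2
        refine lintegral_congr fun s => ?_
        rw [ENNReal.ofReal_mul (by positivity), ENNReal.ofReal_add zero_le_one (norm_nonneg _),
          ENNReal.ofReal_one, mul_assoc]

/-! ### First contacts of the second line -/

variable {Φ : Space3 → ℝ} {n : ℕ} {w : Config n} {θ : Lab × LSt} {K : ℕ} {T : ℝ} {i : Fin n}

theorem lpos_eL (θ : Lab × LSt) (r : ℝ) : lpos (eL θ) r = posAt r θ.2 := by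
  simp only [lpos, back, eL, posAt]
  rw [sub_smul]
  abel

/-- The clean gas particle met first, not influenced by `d`, is hit for the first time on its path in
the gas alone. -/
theorem CMeet2.firstHit (hΦ : AdmissiblePotential Φ) (hε : 0 < ε) (hw : w ∈ PairExcluded ε n)
    (hL : OkL K θ) (hW : OkW Φ ε w θ) (h : CMeet2 Φ ε K T w θ i) :
    FirstHit ε (fun r => posAt r θ.2) (fun s => (flow Φ ε s w i).1) θ.2.1 (tC Φ ε T w θ) := by
  set s := tC Φ ε T w θ with hs
  have he0 : 0 < θ.2.1 := hL.e0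
  have hlt : θ.2.1 < s := h.lt
  have hle : s ≤ T := h.le
  have hs0 : 0 < s := he0.trans hlt
  -- the paths agree up to time `s`
  have hpath : ∀ r, 0 ≤ r → r ≤ s → (Zd w θ).path Φ ε r (Sum.inl i) = flow Φ ε r w i := by
    intro r h0 hr
    have hnf : ¬ (MW.cfg w).Fut Φ ε (MW.line (dL θ)) r i := fun hf => h.nofut (fut_mono hr hf)
    have e1 := MW.path_eq_of_not_fut hΦ hε (Unw410.cfg_ok hΦ hε hw) (A := MW.line (dL θ)) hW.1 h0 hnf
    have e2 : (MW.cfg w).path Φ ε r i = flow Φ ε r w i := by rw [cfg_path hΦ hε w]; rfl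
    rw [← e2, e1]
    rfl
  have hcont : Continuous fun s => flow Φ ε s w := flow_continuous_time hΦ hε w
  have hy : Continuous fun s => (flow Φ ε s w i).1 := ((continuous_apply i).comp hcont).fst
  have hp : Continuous fun r : ℝ => posAt r θ.2 := by unfold posAt; fun_prop
  -- the first contact
  have hfirst : ∀ r ∈ Ioo θ.2.1 s, ¬ ∃ j, CtL Φ ε (Zd w θ) (eL θ) r j := by
    intro r hr hex
    have hrT : r ≤ T := hr.2.le.trans hle
    have h1 : s = sInf {r | r ∈ Icc θ.2.1 T ∧ ∃ j, CtL Φ ε (Zd w θ) (eL θ) r j} := by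
      have hex' : ∃ r ∈ Icc (eL θ).1.1 T, ∃ j, CtL Φ ε (Zd w θ) (eL θ) r j :=
        ⟨r, ⟨hr.1.le, hrT⟩, hex⟩
      show mT2 Φ ε T (Zd w θ) (eL θ) = _
      unfold mT2 MeasE416.first
      rw [if_pos hex']
      rfl
    have h2 : s ≤ r := by
      rw [h1]
      exact csInf_le ⟨θ.2.1, fun x hx => hx.1.1⟩ ⟨⟨hr.1.le, hrT⟩, hex⟩
    exact absurd h2 (not_le.2 hr.2)
  have hbef : ∀ r ∈ Ioo θ.2.1 s, ε < ‖posAt r θ.2 - (flow Φ ε r w i).1‖ := by
    intro r hr
    by_contra hnl
    rw [not_lt, ← dist_eq_norm] at hnl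
    have hr0 : 0 < r := he0.trans hr.1
    refine hfirst r hr ⟨Sum.inl i, ?_, hr.1.le, Or.inr hr.1, ?_⟩
    · exact hr0.le
    · rw [lpos_eL, hpath r hr0.le hr.2.le]
      exact hnl
  refine ⟨hlt, le_antisymm ?_ ?_, hbef⟩
  · have h1 := h.ct.2.2.2
    rw [lpos_eL, hpath s hs0.le le_rfl, dist_eq_norm] at h1
    exact h1
  · have hc : Continuous fun r => ‖posAt r θ.2 - (flow Φ ε r w i).1‖ := (hp.sub hy).norm
    have h1 : s ∈ closure (Ioo θ.2.1 s) := by
      rw [closure_Ioo hlt.ne]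
      exact right_mem_Icc.2 hlt.le
    exact closure_minimal (fun r hr => (hbef r hr).le) (isClosed_le continuous_const hc) h1

/-- **`StmtRF6a`** (fixed gas). -/
theorem rf6a (hΦ : AdmissiblePotential Φ) {Q : EPar} (PP : ℕ → PPar) (hγm : Measurable Q.γ)
    {g : ℝ} (hg : ∀ τ ∈ Ioc 0 Q.te, g ≤ Q.γ τ) : StmtRF6a Φ Q PP (cPair Q g) := by
  intro hPP K ε hε Ξ ν c h n w hw hok i G hG
  have hD : w ∈ Dom Φ (Fin n) := pairExcluded_subset_Dom hε _ hw
  have hcont : Continuous fun s => flow Φ ε s w := flow_continuous_time hΦ hε w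
  have hy : Continuous fun s => (flow Φ ε s w i).1 := ((continuous_apply i).comp hcont).fst
  have hy' : Continuous fun s => (flow Φ ε s w i).2 := ((continuous_apply i).comp hcont).snd
  refine pair_firstHit_le hPP hγm hg hε h hy hy'.measurable
    (fun s _ => hasDerivAt_pos_flow hΦ hε hD s i) hG ?_
  filter_upwards [hok] with θ hθ hne
  have hc : OkL K θ ∧ CMeet2 Φ ε K Q.te w θ i := by
    by_contra hc
    exact hne (if_neg hc)
  refine ⟨hc.1.e0, tC Φ ε Q.te w θ, hc.2.le, CMeet2.firstHit hΦ hε hw hc.1 (hθ hc.1) hc.2, ?_⟩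
  rw [if_pos hc]

/-! ### Mecke'd form -/

/-- Null sets of configurations split in two blocks. -/
theorem ae_append {k m : ℕ} {p : Config (k + m) → Prop} (h : ∀ᵐ Z : Config (k + m), p Z) :
    ∀ᵐ V : Config k, ∀ᵐ w : Config m, p (Fin.append V w) := by
  set M : Set (Config (k + m)) := toMeasurable volume {Z | ¬ p Z} with hM
  have hM0 : volume M = 0 := by
    rw [hM, measure_toMeasurable]
    exact h
  have hMm : MeasurableSet M := measurableSet_toMeasurable _ _
  have h1 : ∫⁻ Z : Config (k + m), M.indicator (fun _ => (1 : ℝ≥0∞)) Z = 0 := by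
    rw [lintegral_indicator_const hMm, hM0, mul_zero]
  rw [lintegral_append _ (measurable_const.indicator hMm)] at h1
  have hm2 : Measurable fun V : Config k => ∫⁻ w : Config m,
      M.indicator (fun _ => (1 : ℝ≥0∞)) (Fin.append V w : Config (k + m)) :=
    Measurable.lintegral_prod_right' (f := fun p : Config k × Config m =>
      M.indicator (fun _ => (1 : ℝ≥0∞)) (Fin.append p.1 p.2 : Config (k + m)))
      ((measurable_const.indicator hMm).comp measurable_append)
  rw [lintegral_eq_zero_iff hm2] at h1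
  filter_upwards [h1] with V hV
  have hV' : ∫⁻ w : Config m,
      M.indicator (fun _ => (1 : ℝ≥0∞)) (Fin.append V w : Config (k + m)) = 0 := hV
  have hm3 : Measurable fun w : Config m =>
      M.indicator (fun _ => (1 : ℝ≥0∞)) (Fin.append V w : Config (k + m)) :=
    (measurable_const.indicator hMm).comp (measurable_append_right V)
  rw [lintegral_eq_zero_iff hm3] at hV'
  filter_upwards [hV'] with w hw
  by_contra hp
  have hmem : (Fin.append V w : Config (k + m)) ∈ M := subset_toMeasurable _ _ hp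
  rw [Pi.zero_apply, indicator_of_mem hmem] at hw
  exact one_ne_zero hw

/-- A clean particle which is not influenced by `d` has a small past in the gas alone. -/
theorem CMeet2.card_le (hΦ : AdmissiblePotential Φ) (hε : 0 < ε) (hw : w ∈ PairExcluded ε n)
    (hL : OkL K θ) (hW : OkW Φ ε w θ) (h : CMeet2 Φ ε K T w θ i) :
    (preC Φ ε w (tC Φ ε T w θ) i).card ≤ K := by
  set s := tC Φ ε T w θ with hs
  have hs0 : 0 < s := hL.e0.trans h.lt
  have h1 : ¬ (Zd w θ).Inf Φ ε K s (Sum.inl i) := fun hi => h.clean ⟨_, h.ct, hi⟩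
  have hH := MW.histEq_of_not_fut hΦ hε (Unw410.cfg_ok hΦ hε hw) (A := MW.line (dL θ)) hW.1 hs0.le
    h.nofut
  have h2 : (MW.cfg w).Inf Φ ε K s i ↔ (Zd w θ).Inf Φ ε K s (Sum.inl i) :=
    (MW.com_add (MW.cfg w) (MW.line (dL θ))).coh hH
  have h3 : ¬ K < gasSize Φ ε n w s i := fun h' =>
    h1 (h2.1 ((cfg_inf_iff_size hΦ hε hw _ _).2 h'))
  rw [not_lt] at h3
  have h4 := Finset.card_le_card (preC_subset (Φ := Φ) (ε := ε) w hs0.le i)
  have h5 : gasSize Φ ε n w s i = (BC (Causal291.Ct (pth Φ ε w) ε) s i).toFinset.card := by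
    rw [← ncard_eq_toFinset_card']
    rfl
  rw [← h5] at h4
  exact h4.trans h3

/-- `gcE` and constants (possibly infinite). -/
theorem gcE_const_mul_meas {f₀ : PhasePoint → ℝ} (hf : Measurable f₀) (ε : ℝ) (κ : ℝ≥0∞)
    {F : (n : ℕ) → Config n → ℝ≥0∞} (hF : ∀ n, Measurable (F n)) :
    gcE f₀ ε (fun n Z => κ * F n Z) = κ * gcE f₀ ε F := by
  unfold gcE
  have h1 : ∀ n : ℕ, activity ε ^ n / (n.factorial : ℝ≥0∞) *
      ∫⁻ Z : Config n, gcWeight f₀ ε n Z * (κ * F n Z) =
      κ * (activity ε ^ n / (n.factorial : ℝ≥0∞) * ∫⁻ Z : Config n, gcWeight f₀ ε n Z * F n Z) := by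
    intro n
    have : ∀ Z : Config n, gcWeight f₀ ε n Z * (κ * F n Z) = κ * (gcWeight f₀ ε n Z * F n Z) :=
      fun Z => by ring
    have hm : Measurable fun Z : Config n => gcWeight f₀ ε n Z * F n Z :=
      (measurable_gcWeight hf ε n).mul (hF n)
    simp_rw [this]
    rw [lintegral_const_mul κ hm]
    ring
  simp_rw [h1]
  rw [ENNReal.tsum_mul_left]
  ring

/-- The real flux functional. -/
def XF (Φ : Space3 → ℝ) (ε : ℝ) (K : ℕ) (te : ℝ) (B : RF) (k m : ℕ) (V : Config k) (w : Config m)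
    (j : Fin k) : ℝ≥0∞ :=
  ∫⁻ s in Ioc 0 te,
    ENNReal.ofReal (ε ^ 2 * (1 + ‖(flow Φ ε s (Fin.append V w) (Fin.castAdd m j)).2‖)) *
      (if k ≤ K ∧ preC Φ ε (Fin.append V w) s (Fin.castAdd m j) = block k m then
        B k m V w j s else 0)

theorem measurable_XF (hΦ : AdmissiblePotential Φ) (hε : 0 < ε) (K : ℕ) (te : ℝ) {B : RF}
    (hB : MeasRF B) (k m : ℕ) (j : Fin k) :
    Measurable fun p : Config k × Config m => XF Φ ε K te B k m p.1 p.2 j := by
  unfold XF
  refine Measurable.lintegral_prod_right' (f := fun q : (Config k × Config m) × ℝ =>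
    ENNReal.ofReal (ε ^ 2 * (1 + ‖(flow Φ ε q.2 (Fin.append q.1.1 q.1.2) (Fin.castAdd m j)).2‖)) *
      (if k ≤ K ∧ preC Φ ε (Fin.append q.1.1 q.1.2) q.2 (Fin.castAdd m j) = block k m then
        B k m q.1.1 q.1.2 j q.2 else 0)) ?_
  have hZ : Measurable fun q : (Config k × Config m) × ℝ =>
      (Fin.append q.1.1 q.1.2 : Config (k + m)) := measurable_append.comp measurable_fst
  have hfl : Measurable fun q : (Config k × Config m) × ℝ =>
      flow Φ ε q.2 (Fin.append q.1.1 q.1.2 : Config (k + m)) :=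
    (measurable_flow_joint hΦ hε).comp (measurable_snd.prodMk hZ)
  refine Measurable.mul ?_ (Measurable.ite ?_ ?_ measurable_const)
  · have h1 : Measurable fun q : (Config k × Config m) × ℝ =>
        (flow Φ ε q.2 (Fin.append q.1.1 q.1.2 : Config (k + m)) (Fin.castAdd m j)).2 :=
      ((measurable_pi_apply _).comp hfl).snd
    exact ((h1.norm.const_add 1).const_mul _).ennreal_ofReal
  · have h2 : {q : (Config k × Config m) × ℝ |
        k ≤ K ∧ preC Φ ε (Fin.append q.1.1 q.1.2) q.2 (Fin.castAdd m j) = block k m} =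
        {_q | k ≤ K} ∩ ⋂ x : Fin (k + m), {q : (Config k × Config m) × ℝ |
          x ∈ preC Φ ε (Fin.append q.1.1 q.1.2) q.2 (Fin.castAdd m j) ↔ x ∈ block k m} := by
      ext q
      simp only [mem_inter_iff, mem_ofPred_eq, mem_iInter, Finset.ext_iff]
    rw [h2]
    refine (MeasurableSet.const _).inter (MeasurableSet.iInter fun x => ?_)
    have h3 := MeasE416.measurableSet_mem_preC hΦ hε hZ
      (σ := fun q : (Config k × Config m) × ℝ => q.2) measurable_snd (Fin.castAdd m j) x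
    by_cases hx : x ∈ block k m
    · simp only [hx, iff_true]
      exact h3
    · simp only [hx, iff_false]
      exact h3.compl
  · have h4 : Measurable fun q : (Config k × Config m) × ℝ => (q.1.1, (q.1.2, q.2)) := by fun_prop
    exact (hB k m j).comp h4

set_option maxHeartbeats 400000 in
/-- Fixed gas and block. -/
theorem rf6_key (hΦ : AdmissiblePotential Φ) {Q : EPar} {PP : ℕ → PPar} (hPP : PPOk Q PP)
    (hγm : Measurable Q.γ) {g : ℝ} (hg : ∀ τ ∈ Ioc 0 Q.te, g ≤ Q.γ τ) (K : ℕ) (hε : 0 < ε)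
    {Ξ ν : Measure (Lab × LSt)} {c : ℝ≥0∞} (h : PX (PP K) Ξ ν c) {B : RF} (hB : MeasRF B)
    (k m : ℕ) (V : Config k) (w : Config m) (j : Fin k)
    (hZ : (Fin.append V w : Config (k + m)) ∈ PairExcluded ε (k + m))
    (hokZ : ∀ᵐ θ ∂ν, OkL K θ → OkW Φ ε (Fin.append V w : Config (k + m)) θ) :
    ∫⁻ θ, (if OkL K θ ∧ clM2 Φ ε K Q.te (k + m) (Fin.append V w) (Fin.castAdd m j) θ = block k m
        then B k m V w j (tC Φ ε Q.te (Fin.append V w) θ) else 0) ∂ν ≤
      cPair Q g * c * XF Φ ε K Q.te B k m V w j := by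
  set Z : Config (k + m) := Fin.append V w with hZdef
  set q : Fin (k + m) := Fin.castAdd m j with hq
  have hD : Z ∈ Dom Φ (Fin (k + m)) := pairExcluded_subset_Dom hε _ hZ
  have hcont : Continuous fun s => flow Φ ε s Z := flow_continuous_time hΦ hε Z
  have hy : Continuous fun s => (flow Φ ε s Z q).1 := ((continuous_apply q).comp hcont).fst
  have hy' : Continuous fun s => (flow Φ ε s Z q).2 := ((continuous_apply q).comp hcont).snd
  set G : ℝ → ℝ≥0∞ := fun s => if k ≤ K ∧ preC Φ ε Z s q = block k m then B k m V w j s else 0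
    with hGdef
  have hBm : Measurable fun s => B k m V w j s :=
    (hB k m j).comp (measurable_const.prodMk (measurable_const.prodMk measurable_id))
  have hGm : Measurable G := by
    refine Measurable.ite ?_ hBm measurable_const
    by_cases hk : k ≤ K
    · have : {s : ℝ | k ≤ K ∧ preC Φ ε Z s q = block k m} =
          {s : ℝ | preC Φ ε Z s q = block k m} := by
        ext s; simp [hk]
      rw [this]
      exact measurableSet_preC_eq Z q _
    · have : {s : ℝ | k ≤ K ∧ preC Φ ε Z s q = block k m} = ∅ := by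
        ext s; simp [hk]
      rw [this]
      exact MeasurableSet.empty
  rw [mul_assoc]
  refine pair_firstHit_le hPP hγm hg hε h (y := fun s => (flow Φ ε s Z q).1)
    (y' := fun s => (flow Φ ε s Z q).2) hy hy'.measurable
    (fun s _ => hasDerivAt_pos_flow hΦ hε hD s q) hGm ?_
  filter_upwards [hokZ] with θ hθ hne
  have hc : OkL K θ ∧ clM2 Φ ε K Q.te (k + m) Z q θ = block k m := by
    by_contra hc
    exact hne (if_neg hc)
  have hcl := hc.2
  unfold clM2 at hcl
  split_ifs at hcl with hM'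
  swap
  · exact absurd hcl.symm (block_ne_empty j)
  have hM : CMeet2 Φ ε K Q.te Z θ q := by first | exact hM' | exact hM'.1
  have hcard := CMeet2.card_le hΦ hε hZ hc.1 (hθ hc.1) hM
  rw [hcl, RedFlux663.card_block] at hcard
  refine ⟨hc.1.e0, tC Φ ε Q.te Z θ, hM.le, CMeet2.firstHit hΦ hε hZ hc.1 (hθ hc.1) hM, ?_⟩
  rw [if_pos hc, hGdef]
  simp only [hcard, hcl, and_self, if_true, le_refl]

set_option maxHeartbeats 400000 in
/-- **`StmtRF6`** (flux of the errors of the reduction, pair laws). -/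
theorem rf6 (hΦ : AdmissiblePotential Φ) {f₀ : PhasePoint → ℝ} (hf : Measurable f₀) {Q : EPar}
    (PP : ℕ → PPar) (hγm : Measurable Q.γ) {g : ℝ} (hg : ∀ τ ∈ Ioc 0 Q.te, g ≤ Q.γ τ) :
    StmtRF6 Φ f₀ Q PP (cPair Q g) := by
  intro hPP K ε hε Ξ ν c h hok B hB
  have := h.sfν
  -- almost every block
  have hae : ∀ k : ℕ, ∀ᵐ V : Config k, ∀ m : ℕ, ∀ᵐ w : Config m, ∀ᵐ θ ∂ν,
      (Fin.append V w : Config (k + m)) ∈ PairExcluded ε (k + m) → OkL K θ →
        OkW Φ ε (Fin.append V w : Config (k + m)) θ := fun k =>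
    ae_all_iff.2 fun m => ae_append (Measure.ae_ae_of_ae_prod (hok (k + m)))
  -- the sums
  have hXm : ∀ (k m : ℕ), Measurable fun p : Config k × Config m =>
      perpInd ε p.1 p.2 * ∑ j : Fin k, XF Φ ε K Q.te B k m p.1 p.2 j := fun k m =>
    (measurable_perpInd ε k m).mul (Finset.measurable_sum _ fun j _ => measurable_XF hΦ hε K Q.te hB k m j)
  have hRF : rfl4 Φ f₀ ε K Q.te B = ∑' k : ℕ, activity ε ^ k / (k.factorial : ℝ≥0∞) *
      ∫⁻ V : Config k, gcWeight f₀ ε k V *
        gcE f₀ ε (fun m w => perpInd ε V w * ∑ j : Fin k, XF Φ ε K Q.te B k m V w j) := by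
    simp only [rfl4, XF]
  rw [← mul_assoc, hRF, ← ENNReal.tsum_mul_left]
  refine ENNReal.tsum_le_tsum fun k => ?_
  rw [mul_left_comm (cPair Q g * c)]
  refine mul_le_mul_right ?_ _
  have hVm : Measurable fun V : Config k => gcWeight f₀ ε k V *
      gcE f₀ ε (fun m w => perpInd ε V w * ∑ j : Fin k, XF Φ ε K Q.te B k m V w j) :=
    (measurable_gcWeight hf ε k).mul (BadHit370.measurable_gcE_param hf ε
      (F := fun m (V : Config k) (w : Config m) => perpInd ε V w *
        ∑ j : Fin k, XF Φ ε K Q.te B k m V w j) fun m => hXm k m)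
  rw [← lintegral_const_mul _ hVm]
  refine lintegral_mono_ae ?_
  filter_upwards [hae k] with V hV
  by_cases hVe : V ∈ PairExcluded ε k
  swap
  · have h0 : gcWeight f₀ ε k V = 0 := by simp [gcWeight, Set.indicator_of_notMem hVe]
    rw [h0, zero_mul]
    exact bot_le
  rw [mul_left_comm (cPair Q g * c)]
  refine mul_le_mul_right ?_ _
  have hwm : ∀ m, Measurable fun w : Config m =>
      perpInd ε V w * ∑ j : Fin k, XF Φ ε K Q.te B k m V w j := by
    intro m
    exact (measurable_perpInd_right ε m V).mul (Finset.measurable_sum _ fun j _ =>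
      Measurable.of_uncurry_left (f := fun (V : Config k) (w : Config m) =>
        XF Φ ε K Q.te B k m V w j) (measurable_XF hΦ hε K Q.te hB k m j))
  rw [← gcE_const_mul_meas hf ε (cPair Q g * c) hwm]
  refine Simul984.gcE_mono_ae f₀ ε fun m => ?_
  filter_upwards [hV m] with w hw hwe
  show perpInd ε V w * _ ≤ cPair Q g * c * (perpInd ε V w * ∑ j : Fin k, XF Φ ε K Q.te B k m V w j)
  rw [mul_left_comm (cPair Q g * c), Finset.mul_sum (Finset.univ : Finset (Fin k)) _ (cPair Q g * c)]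
  unfold perpInd
  by_cases hp : Perp ε V w
  · rw [if_pos hp, one_mul, one_mul]
    have hZ : (Fin.append V w : Config (k + m)) ∈ PairExcluded ε (k + m) :=
      (append_mem_pairExcluded_iff V w).2 ⟨hVe, hwe, hp⟩
    refine Finset.sum_le_sum fun j _ => rf6_key hΦ hPP hγm hg K hε h hB k m V w j hZ ?_
    filter_upwards [hw] with θ hθ using hθ hZ
  · rw [if_neg hp, zero_mul, zero_mul]

end Crest.Agent.R122.RedFlux6

end
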