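import Crest.Agent.R122.H5B_994
import Crest.Agent.R122.H5OS_814
import Crest.Agent.R122.H5Y_814
import Crest.Agent.R122.RedFlux6_663
import Crest.Agent.R122.PairStep_292

/-!
# StmtSP6: assembly (row 122, helper994)

* `os2_split` : splitting of the spread terms into (A), (B) on old contacts, touch of the first line
  on young contacts;
* `sp6_le` : the bound of the spread terms for one pair law;
* `stmtSP6_of` : helper292's `StmtSP6`.
-/

set_option autoImplicit false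

open MeasureTheory Set Filter
open scoped ENNReal Topology
open Crest.AnalysisR.Kinetic
open Crest.Agent.R122.Kin796 Crest.Agent.R122.Kin796.CTree Crest.Agent.R122.Tree674
open Crest.Agent.R122.EDefs602 Crest.Agent.R122.TreeLines335 Crest.Agent.R122.LineMeas994
open Crest.Agent.R122.GC311 Crest.Agent.R122.QDens815 Crest.Agent.R122.Q1815
open Crest.Agent.R122.SPV994 Crest.Agent.R122.Decomp811 Crest.Agent.R122.Weight984
open Crest.Agent.R122.MeasE416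
open Crest.Agent.R122.Boost969 (LSt posAt)
open Crest.Agent.R122.Pair292 (Lab PPar PX sig shM)
open Crest.Agent.R122.PairD292
open Crest.Agent.R122.OneC285 (cfT rt cT cB cD cX lpos uI ptube)

namespace Crest.Agent.R122.H5994

noncomputable section

open scoped Classical

section pieces

variable {ξ : CTree → Type} [∀ P, Fintype (ξ P)] (A : ∀ P : CTree, PhasePoint × Par P → MW (ξ P))
  (G : (P : CTree) → (Σ n : ℕ, Config n) → PhasePoint × Par P → Prop)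

/-- (A) on valid, separated trees -/
def pA6 (Φ : Space3 → ℝ) (Q : EPar) (T' : ℝ) (K : ℕ) (ε : ℝ) : SF2 := fun P z m w θ =>
  if (Valid Φ ε P T' z.1.2 z.2 ∧ Sep Φ ε P T' z.1 z.2) ∧ P.leaves ≤ K then
    tA6 A G Φ Q K ε P z ⟨m, w⟩ θ else 0

/-- (B) on old contacts -/
def pB6 (Φ : Space3 → ℝ) (Q : EPar) (T' r : ℝ) (K : ℕ) (ε : ℝ) : SF2 := fun P z m w θ =>
  if (Valid Φ ε P T' z.1.2 z.2 ∧ Sep Φ ε P T' z.1 z.2) ∧ P.leaves ≤ K then
    (if r ≤ hitT ε z.1 θ.2 - sig θ.1 then tB6 Φ Q K ε P z ⟨m, w⟩ θ else 0) else 0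

/-- touch of the first line on young contacts -/
def pY6 (Φ : Space3 → ℝ) (Q : EPar) (T' r : ℝ) (K : ℕ) (ε : ℝ) : SF2 := fun P z _m w θ =>
  if (Valid Φ ε P T' z.1.2 z.2 ∧ Sep Φ ε P T' z.1 z.2) ∧ P.leaves ≤ K then
    (if hitT ε z.1 θ.2 - sig θ.1 < r then (MW.cfg w).touchW Φ ε K Q θ.1.1 else 0) else 0

variable {A G}
variable {Φ : Space3 → ℝ} {f₀ : PhasePoint → ℝ} {ε : ℝ} {K : ℕ} {Q : EPar} {T' r : ℝ}

theorem spI_le (P : CTree) (z : PhasePoint × Par P) (m : ℕ) (w : Config m) (θ : Lab × LSt) :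
    (if r ≤ age ε z θ then tO6 A G Φ Q T' K ε P z m w θ else tY6 A G Φ Q T' K ε P z m w θ) ≤
      pA6 A G Φ Q T' K ε P z m w θ + (pB6 Φ Q T' r K ε P z m w θ + pY6 Φ Q T' r K ε P z m w θ) := by
  rw [age_eq]
  by_cases h : (Valid Φ ε P T' z.1.2 z.2 ∧ Sep Φ ε P T' z.1 z.2) ∧ P.leaves ≤ K
  · unfold tO6 tY6 pA6 pB6 pY6
    rw [if_pos h, if_pos h, if_pos h, if_pos h, if_pos h]
    by_cases ha : r ≤ hitT ε z.1 θ.2 - sig θ.1
    · rw [if_pos ha, if_pos ha]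
      exact add_le_add le_rfl le_self_add
    · rw [if_neg ha, if_neg ha, if_pos (not_le.1 ha), zero_add]
  · unfold tO6 tY6
    rw [if_neg h, if_neg h]
    split_ifs <;> exact bot_le

theorem measurableSet_hit (ε r : ℝ) (P : CTree) (m : ℕ) :
    MeasurableSet {q : (PhasePoint × Par P) × (Config m × (Lab × LSt)) |
      r ≤ hitT ε q.1.1 q.2.2.2 - sig q.2.2.1} :=
  measurableSet_le measurable_const ((measurable_hitT' ε
    (ℓ := fun q : (PhasePoint × Par P) × (Config m × (Lab × LSt)) => q.1.1)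
    (e := fun q => q.2.2.2) measurable_fst.fst measurable_snd.snd.snd).sub
    (Pair292.measurable_sig.comp measurable_snd.snd.fst))

theorem measSF2_pA6 (hΦ : AdmissiblePotential Φ) (hε : 0 < ε) (hA : ∀ P, MeasW (A P))
    (hG : ∀ P, MeasurableSet {q : (Σ n : ℕ, Config n) × (PhasePoint × Par P) | G P q.1 q.2}) :
    MeasSF2 (pA6 A G Φ Q T' K ε) := by
  intro P m
  unfold pA6
  exact Measurable.ite (measurableSet_vs hΦ hε P m) (measSF2_tA6 hΦ hε hA hG P m) measurable_const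

theorem measSF2_pB6 (hΦ : AdmissiblePotential Φ) (hε : 0 < ε) :
    MeasSF2 (pB6 Φ Q T' r K ε) := by
  intro P m
  unfold pB6
  exact Measurable.ite (measurableSet_vs hΦ hε P m)
    (Measurable.ite (measurableSet_hit ε r P m) (measSF2_tB6 hΦ hε P m) measurable_const)
    measurable_const

theorem os2_mono {te : ℝ} {ν : Measure (Lab × LSt)} {H H' : SF2}
    (h : ∀ P z m w θ, H P z m w θ ≤ H' P z m w θ) :
    OS2 Φ f₀ ε te T' ν H ≤ OS2 Φ f₀ ε te T' ν H' := by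
  unfold OS2
  refine mul_le_mul_right (ENNReal.tsum_le_tsum fun P => lintegral_mono fun z => ?_) _
  refine indicator_le_indicator ?_
  refine mul_le_mul_right (mul_le_mul_right (gcE_mono f₀ ε fun m w _ => ?_) _) _
  refine lintegral_mono fun θ => ?_
  exact indicator_le_indicator (h P z m w θ)

/-- splitting of the spread terms -/
theorem os2_split (hΦ : AdmissiblePotential Φ) (hf : Measurable f₀) (hε : 0 < ε)
    (hA : ∀ P, MeasW (A P))
    (hG : ∀ P, MeasurableSet {q : (Σ n : ℕ, Config n) × (PhasePoint × Par P) | G P q.1 q.2})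
    {te : ℝ} {ν : Measure (Lab × LSt)} [SFinite ν] :
    OS2 Φ f₀ ε te T' ν (fun P z m w θ => uG Φ ε Q.tw K P z w θ *
      (if r ≤ age ε z θ then tO6 A G Φ Q T' K ε P z m w θ else tY6 A G Φ Q T' K ε P z m w θ)) ≤
    OS2 Φ f₀ ε te T' ν (fun P z m w θ => uG Φ ε Q.tw K P z w θ * pA6 A G Φ Q T' K ε P z m w θ) +
    (OS2 Φ f₀ ε te T' ν (fun P z m w θ => uG Φ ε Q.tw K P z w θ *
        pB6 Φ Q T' r K ε P z m w θ) +
      OS2 Φ f₀ ε te T' ν (fun P z m w θ => uG Φ ε Q.tw K P z w θ *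
        pY6 Φ Q T' r K ε P z m w θ)) := by
  refine (os2_mono fun P z m w θ => mul_le_mul_right (spI_le P z m w θ) _).trans (le_of_eq ?_)
  rw [os2_add hΦ hf hε (measSF2_pA6 hΦ hε hA hG), os2_add hΦ hf hε (measSF2_pB6 hΦ hε)]

end pieces


/-! ## Constants -/

section cst

variable {ε r te : ℝ} {Cl c : ℝ≥0∞}

/-- constant of the old link events, without `ε²` -/
def k6 (r te : ℝ) : ℝ≥0∞ :=
  ENNReal.ofReal (r⁻¹ ^ 3) * (Omega969.sphM univ * 2) * (1 + ENNReal.ofReal te)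

/-- constant of the young link events, without `ε²` -/
def k7 (r : ℝ) (Cl : ℝ≥0∞) : ℝ≥0∞ :=
  (Omega969.sphM univ * (volume (Metric.ball (0 : Space3) 1) * 2)) * (2 * Cl * ENNReal.ofReal r)

theorem c6_eq : c6 ε r te c = ENNReal.ofReal (ε ^ 2) * (c * k6 r te) := by
  unfold c6 k6
  ring

theorem c7_eq : c7 ε r Cl c = ENNReal.ofReal (ε ^ 2) * (c * k7 r Cl) := by
  unfold c7 k7
  ring

theorem k6_ne_top : k6 r te ≠ ∞ := by
  unfold k6
  exact ENNReal.mul_ne_top (ENNReal.mul_ne_top ENNReal.ofReal_ne_top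
    (ENNReal.mul_ne_top (measure_ne_top _ _) (by norm_num))) (by finiteness)

theorem k7_ne_top (hCl : Cl ≠ ∞) : k7 r Cl ≠ ∞ := by
  unfold k7
  exact ENNReal.mul_ne_top (ENNReal.mul_ne_top (measure_ne_top _ _)
    (ENNReal.mul_ne_top measure_ball_lt_top.ne (by norm_num)))
    (ENNReal.mul_ne_top (ENNReal.mul_ne_top (by norm_num) hCl) ENNReal.ofReal_ne_top)

end cst

/-! ## The bound for one pair law -/

section main

variable {ξ : CTree → Type} [∀ P, Fintype (ξ P)] {A : ∀ P : CTree, PhasePoint × Par P → MW (ξ P)}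
  {G : (P : CTree) → (Σ n : ℕ, Config n) → PhasePoint × Par P → Prop}
variable {Φ : Space3 → ℝ} {f₀ : PhasePoint → ℝ} {ε : ℝ} {K : ℕ} {Q : EPar} {T' r : ℝ}

theorem measurableSet_hitz (ε r : ℝ) (ℓ : PhasePoint) :
    MeasurableSet {θ : Lab × LSt | r ≤ hitT ε ℓ θ.2 - sig θ.1} :=
  measurableSet_le measurable_const ((measurable_hitT' ε
    (ℓ := fun _ : Lab × LSt => ℓ) (e := fun θ => θ.2) measurable_const measurable_snd).sub
    (Pair292.measurable_sig.comp measurable_fst))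

theorem setL_old {ν : Measure (Lab × LSt)} {te : ℝ} {P : CTree} (z : PhasePoint × Par P)
    (a g : ℝ≥0∞) (G : Lab × LSt → ℝ≥0∞) :
    ∫⁻ θ in LinkS ε te P z, a * (g * (if r ≤ hitT ε z.1 θ.2 - sig θ.1 then G θ else 0)) ∂ν =
      ∫⁻ θ in {θ | θ ∈ LinkS ε te P z ∧ r ≤ hitT ε z.1 θ.2 - sig θ.1}, a * (g * G θ) ∂ν := by
  have h1 : ∀ θ : Lab × LSt, a * (g * (if r ≤ hitT ε z.1 θ.2 - sig θ.1 then G θ else 0)) =
      {θ : Lab × LSt | r ≤ hitT ε z.1 θ.2 - sig θ.1}.indicator (fun θ => a * (g * G θ)) θ := by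
    intro θ
    by_cases h : r ≤ hitT ε z.1 θ.2 - sig θ.1
    · rw [if_pos h, indicator_of_mem
        (show θ ∈ {θ : Lab × LSt | r ≤ hitT ε z.1 θ.2 - sig θ.1} from h)]
    · rw [if_neg h, indicator_of_notMem
        (show θ ∉ {θ : Lab × LSt | r ≤ hitT ε z.1 θ.2 - sig θ.1} from h), mul_zero, mul_zero]
  simp only [h1]
  rw [setLIntegral_indicator (measurableSet_hitz ε r z.1)]
  have e : {θ : Lab × LSt | r ≤ hitT ε z.1 θ.2 - sig θ.1} ∩ LinkS ε te P z =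
      {θ | θ ∈ LinkS ε te P z ∧ r ≤ hitT ε z.1 θ.2 - sig θ.1} := by
    ext θ
    exact and_comm
  rw [e]

theorem setL_young {ν : Measure (Lab × LSt)} {te : ℝ} {P : CTree} (z : PhasePoint × Par P)
    (a g : ℝ≥0∞) (G : Lab × LSt → ℝ≥0∞) :
    ∫⁻ θ in LinkS ε te P z, a * (g * (if hitT ε z.1 θ.2 - sig θ.1 < r then G θ else 0)) ∂ν =
      ∫⁻ θ in H5Y814.ByS ε te r P z, a * (g * G θ) ∂ν := by
  have h1 : ∀ θ : Lab × LSt, a * (g * (if hitT ε z.1 θ.2 - sig θ.1 < r then G θ else 0)) =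
      {θ : Lab × LSt | r ≤ hitT ε z.1 θ.2 - sig θ.1}ᶜ.indicator (fun θ => a * (g * G θ)) θ := by
    intro θ
    by_cases h : hitT ε z.1 θ.2 - sig θ.1 < r
    · rw [if_pos h, indicator_of_mem
        (show θ ∈ {θ : Lab × LSt | r ≤ hitT ε z.1 θ.2 - sig θ.1}ᶜ from fun h' => absurd h (not_lt.2 h'))]
    · rw [if_neg h, indicator_of_notMem
        (show θ ∉ {θ : Lab × LSt | r ≤ hitT ε z.1 θ.2 - sig θ.1}ᶜ from fun h' => h' (not_lt.1 h)),
        mul_zero, mul_zero]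
  simp only [h1]
  rw [setLIntegral_indicator (measurableSet_hitz ε r z.1).compl]
  have e : {θ : Lab × LSt | r ≤ hitT ε z.1 θ.2 - sig θ.1}ᶜ ∩ LinkS ε te P z =
      H5Y814.ByS ε te r P z := by
    ext θ
    constructor
    · rintro ⟨h1, h2⟩
      exact ⟨h2, not_le.1 h1⟩
    · rintro ⟨h1, h2⟩
      exact ⟨not_le.2 h2, h1⟩
  rw [e]

theorem cut_le {P : CTree} {z : PhasePoint × Par P} {x : ℝ≥0∞} :
    (if (Valid Φ ε P T' z.1.2 z.2 ∧ Sep Φ ε P T' z.1 z.2) ∧ P.leaves ≤ K then x else 0) ≤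
      if Sep Φ ε P T' z.1 z.2 ∧ P.leaves ≤ K then x else 0 := by
  by_cases h : (Valid Φ ε P T' z.1.2 z.2 ∧ Sep Φ ε P T' z.1 z.2) ∧ P.leaves ≤ K
  · rw [if_pos h, if_pos ⟨h.1.2, h.2⟩]
  · rw [if_neg h]
    exact bot_le

theorem alg1 {a e c x y l X : ℝ≥0∞} (h : a * e = 1) :
    a * ((e * (c * x) * l + e * (c * y)) * X) = c * ((x * l + y) * X) := by
  calc a * ((e * (c * x) * l + e * (c * y)) * X) = (a * e) * (c * ((x * l + y) * X)) := by ring
    _ = _ := by rw [h, one_mul]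

theorem alg2 {a e c x l X : ℝ≥0∞} (h : a * e = 1) :
    a * (e * (c * x) * l * X) = c * (x * l * X) := by
  calc a * (e * (c * x) * l * X) = (a * e) * (c * (x * l * X)) := by ring
    _ = _ := by rw [h, one_mul]

theorem alg3 {a e c y X Z : ℝ≥0∞} (h : a * e = 1) :
    a * (e * (c * X) + e * (c * y) * Z) = c * (X + y * Z) := by
  calc a * (e * (c * X) + e * (c * y) * Z) = (a * e) * (c * (X + y * Z)) := by ring
    _ = _ := by rw [h, one_mul]

/-- **The spread terms for one pair law.** -/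
theorem sp6_le (hΦ : AdmissiblePotential Φ) (hf : Measurable f₀) (hε : 0 < ε)
    (hA : ∀ P, MeasW (A P))
    (hG : ∀ P, MeasurableSet {q : (Σ n : ℕ, Config n) × (PhasePoint × Par P) | G P q.1 q.2})
    (hL : 0 < Q.L) (hT : Q.te ≤ T') (hγ : Measurable Q.γ)
    (htw : 0 ≤ Q.tw) (hte : Q.tw ≤ Q.te) (hr : 0 < r)
    {Pp : PPar} {Ξ ν : Measure (Lab × LSt)} {c : ℝ≥0∞} (h : PX Pp Ξ ν c)
    (hℓ : Pp.ℓ = lineM Q.γ Q.ρ K Q.te) (hinv : ∀ x, Pp.ℓ.map (shM x) = Pp.ℓ)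
    (ht : Pp.t' = Q.te) (hW : GoodW Pp) (hc : c ≠ ∞)
    (hsig : ∀ᵐ p : Lab × LSt ∂ν, Pair292.sig p.1 ≤ p.2.1) {Cl : ℝ≥0∞} (hCl : Cl ≠ ∞)
    (hl1 : ∀ s : ℝ, ∫⁻ l, PairS969.rho0 (PairS969.posd l) *
      (Icc (s - r) s).indicator 1 l.1.1 ∂Pp.ℓ ≤ Cl * ENNReal.ofReal r)
    (hl2 : ∫⁻ l, PairS969.rho0 (PairS969.posd l) ∂Pp.ℓ ≤ Cl)
    {CR δR CE δE : ℝ≥0∞}
    (hR : ∀ Θ : (n : ℕ) → Config n → ML → ℝ≥0∞,
      (∀ n, Measurable fun q : Config n × ML => Θ n q.1 q.2) → (∀ n w l, Θ n w l ≤ 1) →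
      ∑ P ∈ GIVStep383.trees K, ∫⁻ z : PhasePoint × Par P, ∫⁻ w, ∫⁻ u,
          rootI Φ f₀ ε Q.tw Q.te P Θ w z u ∂volume ∂gcM f₀ ε ≤
        CR * gcE f₀ ε (fun n w => ∫⁻ l, Θ n w l ∂lineM Q.γ Q.ρ K Q.te) + δR)
    (hE : ∀ Θ : (n : ℕ) → Config n → ML → ℝ≥0∞,
      (∀ n, Measurable fun q : Config n × ML => Θ n q.1 q.2) → (∀ n w l, Θ n w l ≤ 1) →
      InEq2.TS Φ f₀ ε Q.te (exitH Φ ε Q.tw Q.te K Θ) ≤
        CE * gcE f₀ ε (fun n w => ∫⁻ l, Θ n w l ∂lineM Q.γ Q.ρ K Q.te) + δE)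
    (M C b : ℝ) :
    OS2 Φ f₀ ε Q.te T' ν (fun P z m w θ => uG Φ ε Q.tw K P z w θ *
      (if r ≤ age ε z θ then tO6 A G Φ Q T' K ε P z m w θ else tY6 A G Φ Q T' K ε P z m w θ)) ≤
    c * ((k6 r Q.te * ENNReal.ofReal (1 / Q.L) + k7 r Cl) *
        ((CR + ENNReal.ofReal Q.te * CE) * (XI Φ f₀ ε K Q + tnMass Φ f₀ Q.γ Q.ρ ε K Q.tw) +
          (δR + ENNReal.ofReal Q.te * δE) +
          ENNReal.ofReal Q.te * InEq2.TS Φ f₀ ε Q.te (errA A G Φ ε K Q)) +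
      (k6 r Q.te * ENNReal.ofReal (1 / Q.L) *
        ((CR + ENNReal.ofReal Q.te * CE) * (XI Φ f₀ ε K Q + errB Φ f₀ ε K Q) +
          (δR + ENNReal.ofReal Q.te * δE)) +
      (H5Y814.cYm M C b Q.te * ENNReal.ofReal r * XI Φ f₀ ε K Q +
        k7 r Cl * H5Y814.δY Φ f₀ M C b Q.tw Q.te K ε))) := by
  have := h.sfν
  have hsf : SFinite Pp.ℓ := by rw [hℓ]; infer_instance
  have hact : activity ε * ENNReal.ofReal (ε ^ 2) = 1 := act_mul_sq hε
  have h6 : ∀ P z, S6 ν (fun p => p.1.1) (lineM Q.γ Q.ρ K Q.te) volume (c6 ε r Q.te c)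
      ((shape hΦ hf hε Q.te Q.tw Q.te r P).lt z) ((shape hΦ hf hε Q.te Q.tw Q.te r P).Bo z)
      ((shape hΦ hf hε Q.te Q.tw Q.te r P).rd z) := by
    intro P z
    have h1 := s6_shape (T := Q.te) (tw := Q.tw) (te := Q.te) hΦ hf hε h hinv hr ht hW P z
    rwa [hℓ] at h1
  have h7 : ∀ P z, Y6 ν volume (c7 ε r Cl c)
      ((shape hΦ hf hε Q.te Q.tw Q.te r P).lt z) ((shape hΦ hf hε Q.te Q.tw Q.te r P).By z)
      ((shape hΦ hf hε Q.te Q.tw Q.te r P).rd z) := fun P z =>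
    y6_shape (T := Q.te) (tw := Q.tw) (te := Q.te) hΦ hf hε h ht hW hsig hl1 hl2 P z
  have hc6 : c6 ε r Q.te c ≠ ∞ := by
    rw [c6_eq]
    exact ENNReal.mul_ne_top ENNReal.ofReal_ne_top (ENNReal.mul_ne_top hc k6_ne_top)
  have hc7 : c7 ε r Cl c ≠ ∞ := by
    rw [c7_eq]
    exact ENNReal.mul_ne_top ENNReal.ofReal_ne_top (ENNReal.mul_ne_top hc (k7_ne_top hCl))
  have hc1 : c6 ε r Q.te c * ENNReal.ofReal (1 / Q.L) ≠ ∞ :=
    ENNReal.mul_ne_top hc6 ENNReal.ofReal_ne_top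
  refine (os2_split hΦ hf hε hA hG).trans ?_
  rw [mul_add c, mul_add c]
  refine add_le_add ?_ (add_le_add ?_ ?_)
  · -- (A)
    refine (H5OS814.OS2_le_link hf hT (F := fun P w z θ => tA6 A G Φ Q K ε P z w θ)
      fun P z m w θ => cut_le).trans ?_
    have h2 := spa_total hΦ hf hε (K := K) (Q := Q) (r := r) (ν := ν) hA hG hL
      (ENNReal.add_ne_top.2 ⟨hc1, hc7⟩) h6 h7
      (hR _ (fun n => measurable_ΘA hΦ hε n) fun n w l => ΘA_le_one hL.le w l)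
      (hE _ (fun n => measurable_ΘA hΦ hε n) fun n w l => ΘA_le_one hL.le w l) hγ htw hte
    refine (mul_le_mul_right h2 _).trans (le_of_eq ?_)
    rw [c6_eq, c7_eq]
    exact alg1 hact
  · -- (B)
    refine (H5OS814.OS2_le_link hf hT (F := fun P w z θ =>
      if r ≤ hitT ε z.1 θ.2 - sig θ.1 then tB6 Φ Q K ε P z w θ else 0)
      fun P z m w θ => cut_le).trans ?_
    simp only [setL_old]
    have h2 := spb_total hΦ hf hε (K := K) (Q := Q) (r := r) (ν := ν) hL hc1 h6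
      (hR _ (fun n => measurable_ΘBg hΦ hε n) fun n w l => ΘBg_le_one hΦ hε hL w l)
      (hE _ (fun n => measurable_ΘBg hΦ hε n) fun n w l => ΘBg_le_one hΦ hε hL w l) hγ
    refine (mul_le_mul_right h2 _).trans (le_of_eq ?_)
    rw [c6_eq]
    exact alg2 hact
  · -- young
    refine (H5OS814.OS2_le_link hf hT (F := fun P w z θ =>
      if hitT ε z.1 θ.2 - sig θ.1 < r then (MW.cfg w.2).touchW Φ ε K Q θ.1.1 else 0)
      fun P z m w θ => cut_le).trans ?_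
    simp only [setL_young]
    have h2 := H5Y814.young_le hΦ hf hε (K := K) (Q := Q) hL.le hγ (r := r) h hℓ ht hW hc hsig
      hCl (measure_ne_top _ _) hl1 hl2 M C b
    refine (mul_le_mul_right h2 _).trans (le_of_eq ?_)
    rw [c7_eq]
    exact alg3 hact

end main

end

end Crest.Agent.R122.H5994
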