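import Crest.Agent.R122.GcM_994
import Crest.Agent.R122.Q1Use_815
import Crest.Agent.R122.Q1Wgt_815
import Crest.Agent.R122.Q1Data_815
import Crest.Agent.R122.H5S6_994

/-!
# SP-A / SP-B: the quenched input (row 122, helper994)

* `hS_le_rel`, `gh_le_hid` : the ghost indicator with the tubes `(curve, rel)` is at most the hidden
  ghost indicator of helper815/424;
* `rootT`, `qroot` : the root line born at the link time: `Σ_P ∫z ∫w ∫u rd · tws · gh · Θ(root line
  born at u) ≤ C gcE ∫ Θ dlineM + null`, from `Q1815.root_marked`.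
-/

set_option autoImplicit false

open MeasureTheory Set Filter
open scoped ENNReal Topology
open Crest.AnalysisR.Kinetic
open Crest.Agent.R122.Kin796 Crest.Agent.R122.Kin796.CTree Crest.Agent.R122.Tree674
open Crest.Agent.R122.EDefs602 Crest.Agent.R122.TreeLines335 Crest.Agent.R122.LineMeas994
open Crest.Agent.R122.GC311 Crest.Agent.R122.QDens815 Crest.Agent.R122.Q1815
open Crest.Agent.R122.SPV994

namespace Crest.Agent.R122.H5994

noncomputable section

/-! ## Ghost indicators -/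

theorem prot_root' : ∀ (P : CTree) (T : ℝ) (p : Par P), prot P T p (root P) = T
  | leaf, _, _ => rfl
  | node l _, T, p => prot_root' l T p.2.1

theorem hS_le_rel {Φ : Space3 → ℝ} {ε : ℝ} (hε : 0 ≤ ε) : ∀ {P : CTree} {T : ℝ} {v : Space3}
    {p : Par P}, 0 < T → Valid Φ ε P T v p → ∀ i, Hid424.hS Φ P v p i ≤ rel P p i
  | leaf, _, _, _, _, _, _ => by
      simp only [Hid424.hS, rel]
      norm_num
  | node l r, T, v, p, hT, hV, i => by
      have hs : 0 < Tree674.sin Φ ε v p.1 := hV.2.2.1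
      have hle : Tree674.sin Φ ε v p.1 ≤ p.1.1 := Tree674.sin_le Φ hε v p.1
      have hl : Valid Φ ε l (Tree674.sin Φ ε v p.1) (preV Φ v p.1).1 p.2.1 :=
        ⟨hV.1.2.1, hV.2.2.2.1⟩
      have hr : Valid Φ ε r (Tree674.sin Φ ε v p.1) (preV Φ v p.1).2 p.2.2 :=
        ⟨hV.1.2.2, hV.2.2.2.2⟩
      rcases i with i | i
      · simp only [Hid424.hS, rel, Sum.elim_inl]
        split_ifs with h1 h2 h2
        · rw [h1] at hl
          exact (hS_le_rel hε hs hl i).trans ((rel_lt hε hs hl.2 i).le.trans hle)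
        · rw [h1] at hl
          exact hS_le_rel hε hs hl i
        · rw [h2, prot_root']
        · rw [rel_eq_prot l p.1.1 p.2.1 i h2]
      · simp only [Hid424.hS, rel, Sum.elim_inr]
        split_ifs with h1 h2 h2
        · rw [h1] at hr
          exact (hS_le_rel hε hs hr i).trans ((rel_lt hε hs hr.2 i).le.trans hle)
        · rw [h1] at hr
          exact hS_le_rel hε hs hr i
        · rw [h2, prot_root']
        · rw [rel_eq_prot r p.1.1 p.2.2 i h2]

theorem unhitInd_mono {Φ : Space3 → ℝ} {ε tw : ℝ} {ι : Type} {S S' : GIV566.Tubes ι}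
    (hc : ∀ i s, S.c i s = S'.c i s) (hb : ∀ i, S'.b i ≤ S.b i) {κ : Type*} [Fintype κ]
    (w : κ → PhasePoint) : GIV566.unhitInd Φ ε S tw w ≤ GIV566.unhitInd Φ ε S' tw w := by
  unfold GIV566.unhitInd
  by_cases h : GIV566.unhit Φ ε S tw w
  · have h' : GIV566.unhit Φ ε S' tw w := by
      intro i j s hs
      rw [← hc]
      exact h i j s ⟨hs.1, hs.2.trans (min_le_min_right _ (hb i))⟩
    rw [if_pos h, if_pos h']
  · rw [if_neg h]; exact bot_le

theorem gh_le_hid {Φ : Space3 → ℝ} {ε tw T : ℝ} (hε : 0 ≤ ε) (hT : 0 < T) {P : CTree}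
    {z : PhasePoint × Par P} (hV : Valid Φ ε P T z.1.2 z.2) (w : Σ n : ℕ, Config n) :
    gh Φ ε tw P z w ≤ GIV566.unhitInd Φ ε (Hid424.hid Φ ε P z.1 z.2) tw w.2 := by
  unfold gh
  rw [ghTM_of_adm hV.1]
  exact unhitInd_mono (S := ghT Φ ε P z) (S' := Hid424.hid Φ ε P z.1 z.2) (fun i s => rfl)
    (fun i => hS_le_rel hε hT hV i) w.2

/-! ## The root line born at the link time -/

/-- joint measurability on the disjoint union -/
theorem measurable_sig {Θ : (n : ℕ) → Config n → ML → ℝ≥0∞}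
    (hΘ : ∀ n, Measurable fun q : Config n × ML => Θ n q.1 q.2) :
    Measurable fun q : (Σ n : ℕ, Config n) × ML => Θ q.1.1 q.1.2 q.2 :=
  Q1815.measurable_sigma_prod fun n => hΘ n

/-- the integrand of the root part -/
def rootI (Φ : Space3 → ℝ) (f₀ : PhasePoint → ℝ) (ε tw te : ℝ) (P : CTree)
    (Θ : (n : ℕ) → Config n → ML → ℝ≥0∞) (w : Σ n : ℕ, Config n) (z : PhasePoint × Par P)
    (u : ℝ) : ℝ≥0∞ :=
  rdL te (rel P z.2 (root P)) z.1 u *
    (tws Φ f₀ ε te P z * gh Φ ε tw P z w * Θ w.1 w.2 ((u, onLine z.1 u), P.leaves))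

/-- the majorant of the root part -/
def rootM (Φ : Space3 → ℝ) (f₀ : PhasePoint → ℝ) (ε tw te : ℝ) (P : CTree)
    (Θ : (n : ℕ) → Config n → ML → ℝ≥0∞) (w : Σ n : ℕ, Config n) (z : PhasePoint × Par P)
    (u : ℝ) : ℝ≥0∞ :=
  (Ioc 0 te).indicator (fun u => gw Φ f₀ P (rootA P) ε u z.1 z.2 *
    GIV566.unhitInd Φ ε (Q1815.hidM Φ ε P z.1 z.2) tw w.2 *
      Θ w.1 w.2 ((u, onLine z.1 u), P.leaves)) u

theorem rootI_le {Φ : Space3 → ℝ} {f₀ : PhasePoint → ℝ} {ε tw te : ℝ} (hε : 0 ≤ ε) {P : CTree}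
    {Θ : (n : ℕ) → Config n → ML → ℝ≥0∞} {w : Σ n : ℕ, Config n} {z : PhasePoint × Par P}
    {u : ℝ} : rootI Φ f₀ ε tw te P Θ w z u ≤ rootM Φ f₀ ε tw te P Θ w z u := by
  unfold rootI rootM rdL
  by_cases hu : 0 < u ∧ rel P z.2 (root P) < u ∧ u ≤ te
  swap
  · rw [if_neg hu, zero_mul]; exact bot_le
  rw [if_pos hu, indicator_of_mem (show u ∈ Ioc 0 te from ⟨hu.1, hu.2.2⟩)]
  unfold tws
  by_cases hV : Valid Φ ε P te z.1.2 z.2 ∧ Sep Φ ε P te z.1 z.2
  swap
  · rw [if_neg hV, zero_mul, zero_mul, mul_zero]; exact bot_le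
  rw [if_pos hV]
  have hVu : Valid Φ ε P u z.1.2 z.2 := (valid_at hu.1 hu.2.2).2 ⟨hV.1, hu.2.1⟩
  have h1 : gw Φ f₀ P (rootA P) ε u z.1 z.2 = tw₀ Φ f₀ ε te P z * ENNReal.ofReal (1 + ‖z.1.2‖) := by
    unfold tw₀
    rw [gw_of_valid hVu, gw_of_valid hV.1, mul_one]
    rfl
  rw [h1, hidM_of_adm (ℓ := z.1) hVu.1]
  calc ENNReal.ofReal (1 + ‖z.1.2‖) * (tw₀ Φ f₀ ε te P z * gh Φ ε tw P z w *
        Θ w.1 w.2 ((u, onLine z.1 u), P.leaves))
      ≤ ENNReal.ofReal (1 + ‖z.1.2‖) * (tw₀ Φ f₀ ε te P z *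
        GIV566.unhitInd Φ ε (Hid424.hid Φ ε P z.1 z.2) tw w.2 *
        Θ w.1 w.2 ((u, onLine z.1 u), P.leaves)) := by
        gcongr
        exact gh_le_hid hε hu.1 hVu w
    _ = _ := by ring

theorem measurable_rootM {Φ : Space3 → ℝ} (hΦ : AdmissiblePotential Φ) {f₀ : PhasePoint → ℝ}
    (hf : Measurable f₀) {ε : ℝ} (hε : 0 < ε) (tw te : ℝ) (P : CTree)
    {Θ : (n : ℕ) → Config n → ML → ℝ≥0∞}
    (hΘ : ∀ n, Measurable fun q : Config n × ML => Θ n q.1 q.2) :
    Measurable fun q : (Σ n : ℕ, Config n) × ((PhasePoint × Par P) × ℝ) =>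
      rootM Φ f₀ ε tw te P Θ q.1 q.2.1 q.2.2 := by
  have h1 : Measurable fun q : (Σ n : ℕ, Config n) × ((PhasePoint × Par P) × ℝ) =>
      gw Φ f₀ P (rootA P) ε q.2.2 q.2.1.1 q.2.1.2 := by
    have hq : Measurable fun q : (Σ n : ℕ, Config n) × ((PhasePoint × Par P) × ℝ) =>
        ((q.2.2, q.2.1.1), q.2.1.2) :=
      (measurable_snd.snd.prodMk measurable_snd.fst.fst).prodMk measurable_snd.fst.snd
    have h := (measurable_gw hΦ hf (measurable_rootA P) ε).comp hq
    exact h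
  have h2 : Measurable fun q : (Σ n : ℕ, Config n) × ((PhasePoint × Par P) × ℝ) =>
      GIV566.unhitInd Φ ε (Q1815.hidM Φ ε P q.2.1.1 q.2.1.2) tw q.1.2 := by
    have h := measurable_unhit_hidM hΦ hε P (tw := tw) (W := (PhasePoint × Par P) × ℝ)
      (ℓ := fun z => z.1.1) measurable_fst.fst (p := fun z => z.1.2) measurable_fst.snd
    exact h
  have h3 : Measurable fun q : (Σ n : ℕ, Config n) × ((PhasePoint × Par P) × ℝ) =>
      Θ q.1.1 q.1.2 ((q.2.2, onLine q.2.1.1 q.2.2), P.leaves) := by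
    have hq : Measurable fun q : (Σ n : ℕ, Config n) × ((PhasePoint × Par P) × ℝ) =>
        (q.1, (((q.2.2, onLine q.2.1.1 q.2.2), P.leaves) : ML)) :=
      measurable_fst.prodMk ((measurable_snd.snd.prodMk (measurable_onLine2.comp
        (measurable_snd.fst.fst.prodMk measurable_snd.snd))).prodMk measurable_const)
    have h := (measurable_sig hΘ).comp hq
    exact h
  have h4 : MeasurableSet {q : (Σ n : ℕ, Config n) × ((PhasePoint × Par P) × ℝ) |
      q.2.2 ∈ Ioc 0 te} := measurable_snd.snd measurableSet_Ioc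
  have h5 := ((h1.mul h2).mul h3).indicator h4
  convert h5 using 1
  funext q
  unfold rootM
  by_cases hq : q.2.2 ∈ Ioc 0 te
  · rw [indicator_of_mem hq, indicator_of_mem (show q ∈ {q : (Σ n : ℕ, Config n) ×
      ((PhasePoint × Par P) × ℝ) | q.2.2 ∈ Ioc 0 te} from hq)]
    rfl
  · rw [indicator_of_notMem hq, indicator_of_notMem (show q ∉ {q : (Σ n : ℕ, Config n) ×
      ((PhasePoint × Par P) × ℝ) | q.2.2 ∈ Ioc 0 te} from hq)]

/-- the root part of one shape is at most helper815's quenched root functional -/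
theorem rootE_le {Φ : Space3 → ℝ} (hΦ : AdmissiblePotential Φ) {f₀ : PhasePoint → ℝ}
    (hf : Measurable f₀) {ε : ℝ} (hε : 0 < ε) (tw te : ℝ) (P : CTree)
    {Θ : (n : ℕ) → Config n → ML → ℝ≥0∞}
    (hΘ : ∀ n, Measurable fun q : Config n × ML => Θ n q.1 q.2) :
    ∫⁻ z : PhasePoint × Par P, ∫⁻ w, ∫⁻ u, rootI Φ f₀ ε tw te P Θ w z u ∂volume ∂gcM f₀ ε ≤
      gcE f₀ ε (fun n w => ∫⁻ y : ℝ × PhasePoint, Dw Φ f₀ P (rootA P) ε tw y.1 y.2 w *
        Θ n w ((y.1, onLine y.2 y.1), P.leaves) ∂((volume.restrict (Ioc 0 te)).prod volume)) := by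
  have hM := measurable_rootM hΦ hf hε tw te P hΘ
  rw [gcE_eq_lintegral hf]
  calc ∫⁻ z : PhasePoint × Par P, ∫⁻ w, ∫⁻ u, rootI Φ f₀ ε tw te P Θ w z u ∂volume ∂gcM f₀ ε
      ≤ ∫⁻ z : PhasePoint × Par P, ∫⁻ w, ∫⁻ u, rootM Φ f₀ ε tw te P Θ w z u ∂volume ∂gcM f₀ ε :=
        lintegral_mono fun z => lintegral_mono fun w => lintegral_mono fun u => rootI_le hε.le
    _ = ∫⁻ w, (∫⁻ z : PhasePoint × Par P, (∫⁻ u, rootM Φ f₀ ε tw te P Θ w z u)) ∂gcM f₀ ε := by
        refine lintegral_lintegral_swap (f := fun (z : PhasePoint × Par P)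
          (w : Σ n : ℕ, Config n) => ∫⁻ u, rootM Φ f₀ ε tw te P Θ w z u) ?_
        have h1 : Measurable fun q : ((PhasePoint × Par P) × (Σ n : ℕ, Config n)) × ℝ =>
            rootM Φ f₀ ε tw te P Θ q.1.2 q.1.1 q.2 :=
          hM.comp (measurable_fst.snd.prodMk (measurable_fst.fst.prodMk measurable_snd))
        exact h1.lintegral_prod_right'.aemeasurable
    _ ≤ _ := by
        refine lintegral_mono fun w => ?_
        have hθ : Measurable fun y : ℝ × PhasePoint =>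
            Θ w.1 w.2 ((y.1, onLine y.2 y.1), P.leaves) := by
          have hq : Measurable fun y : ℝ × PhasePoint =>
              (w, (((y.1, onLine y.2 y.1), P.leaves) : ML)) :=
            measurable_const.prodMk ((measurable_fst.prodMk (measurable_onLine2.comp
              (measurable_snd.prodMk measurable_fst))).prodMk measurable_const)
          have h := (measurable_sig hΘ).comp hq
          exact h
        have e1 := lintegral_Dw_mul hΦ hf (measurable_rootA P) hε tw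
          (volume.restrict (Ioc 0 te)) w.2 hθ
        rw [e1]
        have hMw : Measurable fun q : (PhasePoint × Par P) × ℝ =>
            rootM Φ f₀ ε tw te P Θ w q.1 q.2 := hM.comp (measurable_const.prodMk measurable_id)
        have e2 : ∫⁻ z : PhasePoint × Par P, ∫⁻ u, rootM Φ f₀ ε tw te P Θ w z u =
            ∫⁻ u, ∫⁻ z : PhasePoint × Par P, rootM Φ f₀ ε tw te P Θ w z u :=
          lintegral_lintegral_swap (f := fun (z : PhasePoint × Par P) (u : ℝ) =>
            rootM Φ f₀ ε tw te P Θ w z u) hMw.aemeasurable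
        rw [e2, ← lintegral_indicator measurableSet_Ioc]
        refine lintegral_mono fun u => ?_
        by_cases hu : u ∈ Ioc 0 te
        · rw [indicator_of_mem hu]
          refine lintegral_mono fun z => ?_
          unfold rootM
          rw [indicator_of_mem hu]
          refine le_of_eq ?_
          by_cases hV : Valid Φ ε P u z.1.2 z.2
          · rw [hidM_of_adm (ℓ := z.1) hV.1]
          · rw [gw_of_not_valid hV]
            ring
        · rw [indicator_of_notMem hu]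
          have e3 : ∀ z : PhasePoint × Par P, rootM Φ f₀ ε tw te P Θ w z u = 0 := fun z => by
            unfold rootM
            rw [indicator_of_notMem hu]
          simp only [e3, lintegral_zero, le_refl]

/-- constant of the root part -/
def cRoot (M lam lam₁ C : ℝ) : ℝ≥0∞ :=
  (2 * ENNReal.ofReal M) * ENNReal.ofReal (lam / lam₁) * ENNReal.ofReal C

theorem cRoot_ne_top (M lam lam₁ C : ℝ) : cRoot M lam lam₁ C ≠ ∞ := by
  unfold cRoot
  exact ENNReal.mul_ne_top (ENNReal.mul_ne_top (ENNReal.mul_ne_top (by norm_num)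
    ENNReal.ofReal_ne_top) ENNReal.ofReal_ne_top) ENNReal.ofReal_ne_top

/-- **The root part of the quenched input.** -/
theorem qroot {Φ : Space3 → ℝ} {f₀ : PhasePoint → ℝ} {f : ℝ → PhasePoint → ℝ} {β T T₀ tw : ℝ}
    (X : Ctx Φ β T f₀ f T₀ tw) {h₀ kap lam C b : ℝ} (hK : Seg814.KinC Φ T f h₀ kap lam C b)
    (hkap : kap ≤ β) {te : ℝ} (hte : te ≤ tw + h₀) (hteT : te ≤ T₀) {γ : ℝ → ℝ}
    (hγ : Measurable γ) (hγb : ∀ u ∈ Ioc (0 : ℝ) te, γ u ≤ b) {lam₁ M : ℝ} (h1 : 1 < lam₁)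
    (h2 : lam₁ ≤ lam) (hM : ∀ (P : CTree) (s : ℝ) (ℓ : PhasePoint) (p : Par P),
      wtA Φ P (s, ℓ, p) ≤ ENNReal.ofReal M * ENNReal.ofReal lam₁ ^ P.size *
        ENNReal.ofReal (Real.exp (kap * Seg814.eng Φ P ℓ.2 p)))
    {ρ : ℝ≥0∞} (hρ : ENNReal.ofReal (lam₁ / lam) ≤ ρ) :
    ∃ δ : ℕ → ℝ → ℝ≥0∞, Null δ ∧ ∀ K ε, 0 < ε →
      ∀ Θ : (n : ℕ) → Config n → ML → ℝ≥0∞,
        (∀ n, Measurable fun q : Config n × ML => Θ n q.1 q.2) → (∀ n w l, Θ n w l ≤ 1) →
        ∑ P ∈ GIVStep383.trees K, ∫⁻ z : PhasePoint × Par P, ∫⁻ w, ∫⁻ u,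
          rootI Φ f₀ ε tw te P Θ w z u ∂volume ∂gcM f₀ ε ≤
        cRoot M lam lam₁ C * gcE f₀ ε (fun n w => ∫⁻ l, Θ n w l ∂lineM γ ρ K te) + δ K ε := by
  have hM2 : (2 * ENNReal.ofReal M : ℝ≥0∞) ≠ ∞ :=
    ENNReal.mul_ne_top (by norm_num) ENNReal.ofReal_ne_top
  have hA : ∀ (P : CTree) (s : ℝ) (ℓ : PhasePoint) (p : Par P), Adm Φ P ℓ.2 p →
      rootA P (s, ℓ, p) ≤ (2 * ENNReal.ofReal M) * ENNReal.ofReal lam₁ ^ P.size *
        ENNReal.ofReal (Real.exp (kap * Seg814.eng Φ P ℓ.2 p)) := by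
    intro P s ℓ p ha
    calc rootA P (s, ℓ, p) ≤ 2 * wtA Φ P (s, ℓ, p) := rootA_le_wtA X.hΦ ha
      _ ≤ 2 * (ENNReal.ofReal M * ENNReal.ofReal lam₁ ^ P.size *
        ENNReal.ofReal (Real.exp (kap * Seg814.eng Φ P ℓ.2 p))) := mul_le_mul_right (hM P s ℓ p) _
      _ = _ := by ring
  have hβ := X.hβ
  obtain ⟨δ, hδ, hmain⟩ := root_marked X hK hte hteT hγ hγb (φ := fun P => rootA P)
    (fun P => Wgt.of_le (measurable_rootA P) (by linarith) hM2 (fun s ℓ p ha => hA P s ℓ p ha))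
    hM2 (by linarith) h2 (fun P s ℓ p ha => hA P s ℓ p ha) hρ
  refine ⟨δ, hδ, fun K ε hε Θ hΘm hΘ => ?_⟩
  have h3 := hmain K ε hε Θ (fun n w => (hΘm n).comp (measurable_const.prodMk measurable_id)) hΘ
  refine le_trans ?_ h3
  have hf := X.cont.measurable
  rw [gcE_finset_sum hf ε]
  · exact Finset.sum_le_sum fun P _ => rootE_le X.hΦ hf hε tw te P hΘm
  · intro P _ n
    have hD := measurable_Dw_n X.hΦ hf (measurable_rootA P) hε tw n
    have hq : Measurable fun q : Config n × (ℝ × PhasePoint) =>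
        (q.1, (((q.2.1, onLine q.2.2 q.2.1), P.leaves) : ML)) :=
      measurable_fst.prodMk ((measurable_snd.fst.prodMk (measurable_onLine2.comp
        (measurable_snd.snd.prodMk measurable_snd.fst))).prodMk measurable_const)
    have hΘ' := (hΘm n).comp hq
    have h4 : Measurable fun q : Config n × (ℝ × PhasePoint) =>
        Dw Φ f₀ P (rootA P) ε tw q.2.1 q.2.2 q.1 *
          Θ n q.1 ((q.2.1, onLine q.2.2 q.2.1), P.leaves) := hD.mul hΘ'
    exact h4.lintegral_prod_right'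

end

end Crest.Agent.R122.H5994
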