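import Crest.Agent.R122.H5Fin_994

/-!
# StmtSP6 (row 122, helper994)

* `map_shM_lineM`, `lineM_rho_young` : translation invariance and local masses of the line measure
  (from helper969's `LinkS6_969`, helper663's `RedFlux6_663`);
* `Csp` : the constant; `SP6Body` : the bound, uniform over the class; `sp6Body_of` : the theorem.
-/

set_option autoImplicit false

open MeasureTheory Set Filter
open scoped ENNReal Topology
open Crest.AnalysisR.Kinetic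
open Crest.Agent.R122.Kin796 Crest.Agent.R122.Kin796.CTree Crest.Agent.R122.Tree674
open Crest.Agent.R122.EDefs602 Crest.Agent.R122.TreeLines335 Crest.Agent.R122.LineMeas994
open Crest.Agent.R122.GC311 Crest.Agent.R122.QDens815 Crest.Agent.R122.Q1815
open Crest.Agent.R122.SPV994 Crest.Agent.R122.Decomp811 Crest.Agent.R122.Weight984
open Crest.Agent.R122.MeasE416 Crest.Agent.R122.Master566
open Crest.Agent.R122.Boost969 (LSt posAt)
open Crest.Agent.R122.Pair292 (Lab PPar PX shM)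
open Crest.Agent.R122.PairS969 (rho0 posd)
open Crest.Agent.R122.PairD292

namespace Crest.Agent.R122.H5994

noncomputable section

open scoped Classical

/-! ## The line measure -/

section lines

variable {γ : ℝ → ℝ} {ρ : ℝ≥0∞} {K : ℕ} {T : ℝ}

/-- translation invariance of the line measure (helper969) -/
theorem map_shM_lineM (hγ : Measurable γ) (x : Space3) :
    (lineM γ ρ K T).map (shM x) = lineM γ ρ K T := by
  refine Measure.ext_of_lintegral _ fun F hF => ?_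
  have h1 := EBasic602.lintegral_lineM (ρ := ρ) (K := K) (T := T) hγ
    (hF.comp (Pair292.measurable_shM x))
  simp only [Function.comp] at h1
  rw [lintegral_map hF (Pair292.measurable_shM x), EBasic602.lintegral_lineM hγ hF]
  refine h1.trans ?_
  refine lintegral_congr fun τ => lintegral_congr fun v => ?_
  congr 1
  exact lintegral_add_right_eq_self
    (fun y : Space3 => ∑' n : ℕ, markW ρ K n * F ((τ, (y, v)), n)) x

/-- mass of the young lines (helper969) -/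
theorem lineM_rho_young (hγ : Measurable γ) {g : ℝ} (hg : ∀ τ ∈ Ioc 0 T, g ≤ γ τ) (r s : ℝ) :
    ∫⁻ l, rho0 (posd l) * (Icc (s - r) s).indicator 1 l.1.1 ∂lineM γ ρ K T ≤
      RedFlux6.Cline ρ g T * ENNReal.ofReal r := by
  refine (RedFlux6.lineM_rho_le (ρ := ρ) (K := K) hγ hg measurableSet_Icc).trans ?_
  have h1 : volume (Ioc 0 T ∩ Icc (s - r) s) ≤ ENNReal.ofReal r := by
    refine (measure_mono inter_subset_right).trans (le_of_eq ?_)
    rw [Real.volume_Icc]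
    congr 1
    ring
  unfold RedFlux6.Cline
  calc volume (Ioc 0 T ∩ Icc (s - r) s) * ((1 - ρ)⁻¹ * ∫⁻ v : Space3, Kin796.wG g v)
      ≤ ENNReal.ofReal r * ((1 - ρ)⁻¹ * ∫⁻ v : Space3, Kin796.wG g v) := mul_le_mul_left h1 _
    _ ≤ ENNReal.ofReal r * ((1 + ENNReal.ofReal T) * ((1 - ρ)⁻¹ *
          ∫⁻ v : Space3, Kin796.wG g v)) := by
        refine mul_le_mul_right ?_ _
        exact le_mul_of_one_le_left' le_self_add
    _ = _ := by ring

end lines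

/-! ## The statement -/

/-- constant of the spread terms -/
def Csp (r te L : ℝ) (Cl CQ cY : ℝ≥0∞) : ℝ≥0∞ :=
  (k6 r te * ENNReal.ofReal (1 / L) + k7 r Cl) * CQ + k6 r te * ENNReal.ofReal (1 / L) * CQ +
    cY * ENNReal.ofReal r

/-- The bound of `StmtSP6`, uniform over the class. -/
def SP6Body (Φ : Space3 → ℝ) (f₀ : PhasePoint → ℝ) (Q : EPar) (T' r : ℝ) (PP : ℕ → PPar)
    (tO tY : ℕ → ℝ → SF2) (C : ℝ≥0∞) : Prop :=
  ∃ δ : ℕ → ℝ → ℝ≥0∞, Null δ ∧ ∀ (K : ℕ) (ε : ℝ), 0 < ε →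
    ∀ (Ξ ν : Measure (Lab × LSt)) (c : ℝ≥0∞), PX (PP K) Ξ ν c →
    (∀ᵐ θ : Lab × LSt ∂ν, Pair292.sig θ.1 ≤ θ.2.1) →
    OS2 Φ f₀ ε Q.te T' ν (fun P z m w θ => uG Φ ε Q.tw K P z w θ *
      (if r ≤ age ε z θ then tO K ε P z m w θ else tY K ε P z m w θ)) ≤
    c * (C * (XI Φ f₀ ε K Q + tnMass Φ f₀ Q.γ Q.ρ ε K Q.tw) + δ K ε)

/-- The root part of the quenched input. -/
def QRootH5 (Φ : Space3 → ℝ) (f₀ : PhasePoint → ℝ) (γ : ℝ → ℝ) (ρ : ℝ≥0∞) (tw te : ℝ)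
    (C : ℝ≥0∞) (δ : ℕ → ℝ → ℝ≥0∞) : Prop :=
  ∀ K ε, 0 < ε → ∀ Θ : (n : ℕ) → Config n → ML → ℝ≥0∞,
    (∀ n, Measurable fun q : Config n × ML => Θ n q.1 q.2) → (∀ n w l, Θ n w l ≤ 1) →
    ∑ P ∈ GIVStep383.trees K, ∫⁻ z : PhasePoint × Par P, ∫⁻ w, ∫⁻ u,
      rootI Φ f₀ ε tw te P Θ w z u ∂volume ∂gcM f₀ ε ≤
    C * gcE f₀ ε (fun n w => ∫⁻ l, Θ n w l ∂lineM γ ρ K te) + δ K ε

section main

variable {ξ : CTree → Type} [∀ P, Fintype (ξ P)]
  {AA : ℝ → ∀ P : CTree, PhasePoint × Par P → MW (ξ P)}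
  {GG : ℝ → (P : CTree) → (Σ n : ℕ, Config n) → PhasePoint × Par P → Prop}
variable {Φ : Space3 → ℝ} {f₀ : PhasePoint → ℝ} {Q : EPar} {T' r : ℝ}

theorem final_alg {k l x y CQ X tn dQ t eA eB cy rr dY : ℝ≥0∞} :
    (k * l + x) * (CQ * (X + tn) + dQ + t * eA) + (k * l * (CQ * (X + eB) + dQ) +
      (cy * rr * X + x * dY)) ≤
    ((k * l + x) * CQ + k * l * CQ + cy * rr) * (X + tn) +
      ((k * l + x) * (dQ + t * eA) + (k * l * (CQ * eB + dQ) + x * dY) + y) := by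
  calc (k * l + x) * (CQ * (X + tn) + dQ + t * eA) + (k * l * (CQ * (X + eB) + dQ) +
      (cy * rr * X + x * dY))
      ≤ (k * l + x) * (CQ * (X + tn) + dQ + t * eA) + (k * l * (CQ * (X + tn + eB) + dQ) +
      (cy * rr * (X + tn) + x * dY)) + y := by
        refine le_trans ?_ le_self_add
        gcongr <;> exact le_self_add
    _ = _ := by ring

/-- **The spread terms, uniform over the class.** -/
theorem sp6Body_of (hΦ : AdmissiblePotential Φ) (hf : Measurable f₀)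
    (hA : ∀ ε, 0 < ε → ∀ P, MeasW (AA ε P))
    (hG : ∀ ε, 0 < ε → ∀ P, MeasurableSet
      {q : (Σ n : ℕ, Config n) × (PhasePoint × Par P) | GG ε P q.1 q.2}) (hL : 0 < Q.L) (hT : Q.te ≤ T')
    (hγ : Measurable Q.γ) {g : ℝ} (hg0 : 0 < g) (hg : ∀ τ ∈ Ioc 0 Q.te, g ≤ Q.γ τ)
    (hρ : Q.ρ < 1) (htw : 0 ≤ Q.tw) (hte : Q.tw ≤ Q.te) (hr : 0 < r) {PP : ℕ → PPar}
    (hPP : PPOk Q PP) {CR CE : ℝ≥0∞} (hCR : CR ≠ ∞) (hCE : CE ≠ ∞) {δR δE : ℕ → ℝ → ℝ≥0∞}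
    (hδR : Null δR) (hδE : Null δE) (hR : QRootH5 Φ f₀ Q.γ Q.ρ Q.tw Q.te CR δR)
    (hE : QExitH5 Φ f₀ Q.γ Q.ρ Q.tw Q.te CE δE) {M C b : ℝ}
    (hY : Null (H5Y814.δY Φ f₀ M C b Q.tw Q.te))
    (nA : Null fun K ε => InEq2.TS Φ f₀ ε Q.te (errA (AA ε) (GG ε) Φ ε K Q))
    (nB : Null fun K ε => errB Φ f₀ ε K Q) :
    SP6Body Φ f₀ Q T' r PP (fun K ε => tO6 (AA ε) (GG ε) Φ Q T' K ε)
      (fun K ε => tY6 (AA ε) (GG ε) Φ Q T' K ε)
      (Csp r Q.te Q.L (RedFlux6.Cline Q.ρ g Q.te) (CR + ENNReal.ofReal Q.te * CE)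
        (H5Y814.cYm M C b Q.te)) := by
  have hCl := RedFlux6.Cline_ne_top hρ hg0 Q.te
  have hte' : ENNReal.ofReal Q.te ≠ ∞ := ENNReal.ofReal_ne_top
  have hk6 : k6 r Q.te ≠ ∞ := k6_ne_top
  have hk7 : k7 r (RedFlux6.Cline Q.ρ g Q.te) ≠ ∞ := k7_ne_top hCl
  have hk6L : k6 r Q.te * ENNReal.ofReal (1 / Q.L) ≠ ∞ :=
    ENNReal.mul_ne_top hk6 ENNReal.ofReal_ne_top
  have hCQ : CR + ENNReal.ofReal Q.te * CE ≠ ∞ :=
    ENNReal.add_ne_top.2 ⟨hCR, ENNReal.mul_ne_top hte' hCE⟩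
  refine ⟨fun K ε => (k6 r Q.te * ENNReal.ofReal (1 / Q.L) +
      k7 r (RedFlux6.Cline Q.ρ g Q.te)) * ((δR K ε + ENNReal.ofReal Q.te * δE K ε) +
        ENNReal.ofReal Q.te * InEq2.TS Φ f₀ ε Q.te (errA (AA ε) (GG ε) Φ ε K Q)) +
      (k6 r Q.te * ENNReal.ofReal (1 / Q.L) * ((CR + ENNReal.ofReal Q.te * CE) *
        errB Φ f₀ ε K Q + (δR K ε + ENNReal.ofReal Q.te * δE K ε)) +
      k7 r (RedFlux6.Cline Q.ρ g Q.te) * H5Y814.δY Φ f₀ M C b Q.tw Q.te K ε) +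
      ENNReal.ofReal ε, ?_, ?_⟩
  · have hQ : Null fun K ε => δR K ε + ENNReal.ofReal Q.te * δE K ε :=
      hδR.add (hδE.const_mul hte')
    have h0 : Null fun (_ : ℕ) (ε : ℝ) => ENNReal.ofReal ε := fun _ δ hδ =>
      ⟨δ, hδ, fun ε _ h => ENNReal.ofReal_le_ofReal h.le⟩
    exact (((hQ.add (nA.const_mul hte')).const_mul (ENNReal.add_ne_top.2 ⟨hk6L, hk7⟩)).add
      ((((nB.const_mul hCQ).add hQ).const_mul hk6L).add (hY.const_mul hk7))).add h0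
  intro K ε hε Ξ ν c hν hsig
  by_cases hc : c = ∞
  · subst hc
    rw [ENNReal.top_mul]
    · exact le_top
    · refine (lt_of_lt_of_le (ENNReal.ofReal_pos.2 hε) ?_).ne'
      exact le_add_self.trans le_add_self
  have hl := hPP.ell K
  have ht := hPP.hor K
  have hW : GoodW (PP K) := fun z hz => hPP.vel K z (by rw [← ht]; exact hz)
  have hinv : ∀ x, (PP K).ℓ.map (shM x) = (PP K).ℓ := fun x => by
    rw [hl]; exact map_shM_lineM hγ x
  have hl1 : ∀ s : ℝ, ∫⁻ l, rho0 (posd l) * (Icc (s - r) s).indicator 1 l.1.1 ∂(PP K).ℓ ≤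
      RedFlux6.Cline Q.ρ g Q.te * ENNReal.ofReal r := fun s => by
    rw [hl]; exact lineM_rho_young hγ hg r s
  have hl2 : ∫⁻ l, rho0 (posd l) ∂(PP K).ℓ ≤ RedFlux6.Cline Q.ρ g Q.te := by
    rw [hl]; exact RedFlux6.lineM_rho hγ hg
  have h1 := sp6_le hΦ hf hε (hA ε hε) (hG ε hε) hL hT hγ htw hte hr hν hl hinv ht hW hc hsig hCl hl1 hl2
    (hR K ε hε) (hE K ε hε) M C b
  refine h1.trans (mul_le_mul_right ?_ _)
  unfold Csp
  exact final_alg

end main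

end

end Crest.Agent.R122.H5994
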