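import Crest.Agent.R122.QDensC_815
import Crest.Agent.R122.GIVDefs_566
import Crest.Agent.R122.HidMeas_424
import Crest.Agent.R122.QL_424
import Crest.Agent.R122.GCFinset_311

/-!
helper815, row 122, block Q (quenched densities), part 2: **theorem (Q1)**.

* `Hid424.hid`, `Hid424.hid0` : the hidden tubes of a tree (root line `ℓ`, parameters `p`), at `ε > 0`
  and `ε = 0`;
* `Dw` : the quenched root density of the tree shape `P` (weight `φ`) in the world `w`:
  `∫_{Par P} 1[Valid] wt ∏ f₀(lines) φ 1[hidden tubes unhit by w alone before tw]`;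
* `D0` : its kinetic limit;
* `QInput` : the one- and two-point functions (from `GIV`);
* `Q1` : `gcE ∫ |Dw - D0| → 0`.
-/

set_option autoImplicit false

open MeasureTheory Set Filter
open scoped ENNReal Topology Classical
open Crest.AnalysisR.Kinetic Crest.Agent.R122.Kin796 Crest.Agent.R122.Disc416
  Crest.Agent.R122.Kin416 Crest.Agent.R122.Tree674
  Crest.Agent.R122.Scat818 Crest.Agent.R122.TreeF399 Crest.Agent.R122.TreeEps399
  Crest.Agent.R122.Hid424 Crest.Agent.R122.Quench815 Crest.Agent.R122.QDens815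
  Crest.Agent.R122.GC311

noncomputable section

namespace Crest.Agent.R122.Q1815

open CTree

variable {Φ : Space3 → ℝ} {f₀ : PhasePoint → ℝ} {f : ℝ → PhasePoint → ℝ}

/-! ### Measurability on `(Σ n, Config n) × W` -/

theorem measurableEmbedding_sigmaMk (n : ℕ) :
    MeasurableEmbedding (Sigma.mk n : Config n → Σ n : ℕ, Config n) where
  injective := sigma_mk_injective
  measurable := measurable_sigmaMk' n
  measurableSet_image' := by
    intro s hs
    have : MeasurableSet[⨅ n : ℕ, MeasurableSpace.map (Sigma.mk n)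
        (inferInstance : MeasurableSpace (Config n))] (Sigma.mk n '' s) := by
      rw [MeasurableSpace.measurableSet_iInf]
      intro m
      show MeasurableSet (Sigma.mk m ⁻¹' (Sigma.mk n '' s))
      by_cases h : m = n
      · subst h
        rwa [preimage_image_eq _ sigma_mk_injective]
      · have : (Sigma.mk m : Config m → Σ n : ℕ, Config n) ⁻¹' (Sigma.mk n '' s) = ∅ := by
          ext Z
          simp only [mem_preimage, mem_image, mem_empty_iff_false, iff_false, not_exists, not_and]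
          intro Z' _ he
          exact h (congrArg Sigma.fst he).symm
        rw [this]
        exact MeasurableSet.empty
    exact this

theorem measurable_sigma_prod {W β : Type*} [MeasurableSpace W] [MeasurableSpace β]
    {F : (Σ n : ℕ, Config n) × W → β}
    (h : ∀ n, Measurable fun q : Config n × W => F (⟨n, q.1⟩, q.2)) : Measurable F := by
  intro s hs
  have e : F ⁻¹' s = ⋃ n : ℕ, (Prod.map (Sigma.mk n : Config n → Σ n : ℕ, Config n) id) ''
      ((fun q : Config n × W => F (⟨n, q.1⟩, q.2)) ⁻¹' s) := by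
    ext ⟨⟨n, Z⟩, w⟩
    simp only [mem_preimage, mem_iUnion, mem_image]
    constructor
    · intro h1
      exact ⟨n, (Z, w), h1, rfl⟩
    · rintro ⟨m, ⟨Z', w'⟩, h1, h2⟩
      rw [← h2]
      exact h1
  rw [e]
  exact MeasurableSet.iUnion fun n =>
    ((measurableEmbedding_sigmaMk n).prodMap MeasurableEmbedding.id).measurableSet_image.2
      (h n hs)

/-! ### Tubes -/

/-- measurable version of `hid` -/
def hidM (Φ : Space3 → ℝ) (ε : ℝ) (P : CTree) (ℓ : PhasePoint) (p : Par P) :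
    GIV566.Tubes (Idx P) := ⟨curveM Φ ε P ℓ p, hSM Φ P ℓ.2 p⟩

theorem hidM_of_adm {ε : ℝ} {P : CTree} {ℓ : PhasePoint} {p : Par P} (h : Adm Φ P ℓ.2 p) :
    hidM Φ ε P ℓ p = hid Φ ε P ℓ p := by
  unfold hidM hid treeT
  rw [hSM_of_adm h]
  congr 1
  funext i
  exact curveM_of_adm (ℓ := ℓ) h i

/-- joint measurability of the avoidance of the hidden tubes -/
theorem measurable_unhit_hidM (hΦ : AdmissiblePotential Φ) {ε : ℝ} (hε : 0 < ε) (P : CTree)
    {tw : ℝ} {W : Type*} [MeasurableSpace W] {ℓ : W → PhasePoint} (hℓ : Measurable ℓ)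
    {p : W → Par P} (hp : Measurable p) :
    Measurable fun q : (Σ n : ℕ, Config n) × W =>
      GIV566.unhitInd Φ ε (hidM Φ ε P (ℓ q.2) (p q.2)) tw q.1.2 := by
  refine measurable_sigma_prod fun n => ?_
  refine GIV566.measurable_unhitInd (Ω := Config n × W) (T := max tw 0) hΦ hε (le_max_right _ _)
    (S := fun q => hidM Φ ε P (ℓ q.2) (p q.2)) (fun q i => ?_) (fun i s => ?_) (fun i => ?_)
    (t := fun _ => tw) measurable_const (fun _ => le_max_left _ _) (w := fun q => q.1)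
    measurable_fst
  · exact (continuous_curveM hΦ hε P (ℓ q.2) (p q.2) i).continuousOn
  · exact (measurable_curveM hΦ hε P i).comp (f := fun q : Config n × W => (s, (ℓ q.2, p q.2)))
      (measurable_const.prodMk ((hℓ.comp measurable_snd).prodMk (hp.comp measurable_snd)))
  · exact (measurable_pi_apply i).comp ((measurable_hSM hΦ P).comp
      (f := fun q : Config n × W => ((ℓ q.2).2, p q.2))
      ((hℓ.comp measurable_snd).snd.prodMk (hp.comp measurable_snd)))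

/-! ### Densities -/

/-- quenched root density of the tree shape `P` in the world `w` -/
def Dw (Φ : Space3 → ℝ) (f₀ : PhasePoint → ℝ) (P : CTree) (φ : ℝ × PhasePoint × Par P → ℝ≥0∞)
    (ε tw s : ℝ) (ℓ : PhasePoint) {n : ℕ} (w : Config n) : ℝ≥0∞ :=
  ∫⁻ p : Par P, gw Φ f₀ P φ ε s ℓ p * GIV566.unhitInd Φ ε (hid Φ ε P ℓ p) tw w

/-- kinetic limit of the quenched root density -/
def D0 (Φ : Space3 → ℝ) (f₀ : PhasePoint → ℝ) (f : ℝ → PhasePoint → ℝ) (T : ℝ) (P : CTree)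
    (φ : ℝ × PhasePoint × Par P → ℝ≥0∞) (tw s : ℝ) (ℓ : PhasePoint) : ℝ≥0∞ :=
  ∫⁻ p : Par P, gw Φ f₀ P φ 0 s ℓ p * GIV566.dampG T f (hid0 Φ P ℓ p) tw

/-- the one- and two-point functions of the hidden tubes (consequence of `GIV`) -/
structure QInput (Φ : Space3 → ℝ) (f₀ : PhasePoint → ℝ) (f : ℝ → PhasePoint → ℝ) (T : ℝ)
    (P : CTree) (T₀ tw : ℝ) : Prop where
  one : ∀ᵐ z : Space3 × Par P, Valid Φ 0 P T₀ z.1 z.2 → ∀ R : ℝ,
    Tendsto (fun ε => ∫⁻ X in Metric.closedBall (0 : Space3) R,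
      GIV566.adiff (GIV566.uG Φ f₀ ε (hid Φ ε P (X, z.1) z.2) tw)
        (GIV566.dampG T f (hid0 Φ P (X, z.1) z.2) tw)) L (𝓝 0)
  two : ∀ᵐ z : Space3 × (Par P × Par P), Valid Φ 0 P T₀ z.1 z.2.1 → Valid Φ 0 P T₀ z.1 z.2.2 →
    ∀ R : ℝ, Tendsto (fun ε => ∫⁻ X in Metric.closedBall (0 : Space3) R,
      GIV566.adiff (GIV566.uG Φ f₀ ε
        ((hid Φ ε P (X, z.1) z.2.1).sum (hid Φ ε P (X, z.1) z.2.2)) tw)
        (GIV566.dampG T f (hid0 Φ P (X, z.1) z.2.1) tw *
          GIV566.dampG T f (hid0 Φ P (X, z.1) z.2.2) tw)) L (𝓝 0)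
  meas : Measurable fun z : PhasePoint × Par P =>
    {z : PhasePoint × Par P | Valid Φ 0 P T₀ z.1.2 z.2}.indicator
      (fun z => GIV566.dampG T f (hid0 Φ P z.1 z.2) tw) z

theorem absd_le_one {a b : ℝ≥0∞} (ha : a ≤ 1) (hb : b ≤ 1) : absd a b ≤ 1 := by
  rw [absd_le_iff]
  exact ⟨ha.trans le_add_self, hb.trans le_add_self⟩

/-- valid indicator -/
def vI (Φ : Space3 → ℝ) (P : CTree) (T₀ : ℝ) (ℓ : PhasePoint) (p : Par P) : ℝ≥0∞ :=
  {z : PhasePoint × Par P | Valid Φ 0 P T₀ z.1.2 z.2}.indicator 1 (ℓ, p)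

theorem measurable_vI (hΦ : AdmissiblePotential Φ) (P : CTree) (T₀ : ℝ) :
    Measurable fun z : PhasePoint × Par P => vI Φ P T₀ z.1 z.2 :=
  measurable_one.indicator (measurableSet_valid hΦ 0 P T₀)

theorem vI_of_valid {P : CTree} {T₀ : ℝ} {ℓ : PhasePoint} {p : Par P}
    (h : Valid Φ 0 P T₀ ℓ.2 p) : vI Φ P T₀ ℓ p = 1 :=
  indicator_of_mem (show (ℓ, p) ∈ {z : PhasePoint × Par P | Valid Φ 0 P T₀ z.1.2 z.2} from h) _

theorem vI_of_not {P : CTree} {T₀ : ℝ} {ℓ : PhasePoint} {p : Par P}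
    (h : ¬ Valid Φ 0 P T₀ ℓ.2 p) : vI Φ P T₀ ℓ p = 0 :=
  indicator_of_notMem
    (show (ℓ, p) ∉ {z : PhasePoint × Par P | Valid Φ 0 P T₀ z.1.2 z.2} from h) _

theorem vI_le_one {P : CTree} {T₀ : ℝ} {ℓ : PhasePoint} {p : Par P} : vI Φ P T₀ ℓ p ≤ 1 := by
  by_cases h : Valid Φ 0 P T₀ ℓ.2 p
  · rw [vI_of_valid h]
  · rw [vI_of_not h]; exact bot_le

theorem vI_congr {P : CTree} {T₀ : ℝ} {X X' v : Space3} {p : Par P} :
    vI Φ P T₀ (X, v) p = vI Φ P T₀ (X', v) p := by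
  by_cases h : Valid Φ 0 P T₀ v p
  · rw [vI_of_valid (ℓ := (X, v)) h, vI_of_valid (ℓ := (X', v)) h]
  · rw [vI_of_not (ℓ := (X, v)) h, vI_of_not (ℓ := (X', v)) h]

/-- the random fibre function -/
def HH (Φ : Space3 → ℝ) (P : CTree) (T₀ tw ε : ℝ) (ω : Σ n : ℕ, Config n) (y : ℝ × PhasePoint)
    (p : Par P) : ℝ≥0∞ :=
  vI Φ P T₀ y.2 p * GIV566.unhitInd Φ ε (hidM Φ ε P y.2 p) tw ω.2

/-- the limit fibre function -/
def hh (Φ : Space3 → ℝ) (f : ℝ → PhasePoint → ℝ) (T : ℝ) (P : CTree) (T₀ tw : ℝ)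
    (y : ℝ × PhasePoint) (p : Par P) : ℝ≥0∞ :=
  {z : PhasePoint × Par P | Valid Φ 0 P T₀ z.1.2 z.2}.indicator
      (fun z => GIV566.dampG T f (hid0 Φ P z.1 z.2) tw) (y.2, p)

theorem hh_of_valid {P : CTree} {T T₀ tw : ℝ} {y : ℝ × PhasePoint} {p : Par P}
    (h : Valid Φ 0 P T₀ y.2.2 p) :
    hh Φ f T P T₀ tw y p = GIV566.dampG T f (hid0 Φ P y.2 p) tw :=
  indicator_of_mem (show (y.2, p) ∈ {z : PhasePoint × Par P | Valid Φ 0 P T₀ z.1.2 z.2} from h) _

theorem hh_of_not {P : CTree} {T T₀ tw : ℝ} {y : ℝ × PhasePoint} {p : Par P}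
    (h : ¬ Valid Φ 0 P T₀ y.2.2 p) : hh Φ f T P T₀ tw y p = 0 :=
  indicator_of_notMem
    (show (y.2, p) ∉ {z : PhasePoint × Par P | Valid Φ 0 P T₀ z.1.2 z.2} from h) _

theorem hh_le_one {P : CTree} {T T₀ tw : ℝ} {y : ℝ × PhasePoint} {p : Par P} :
    hh Φ f T P T₀ tw y p ≤ 1 := by
  by_cases h : Valid Φ 0 P T₀ y.2.2 p
  · rw [hh_of_valid h]; exact GIV566.dampG_le_one _
  · rw [hh_of_not h]; exact bot_le

theorem HH_le_one {P : CTree} {T₀ tw ε : ℝ} {ω : Σ n : ℕ, Config n} {y : ℝ × PhasePoint}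
    {p : Par P} : HH Φ P T₀ tw ε ω y p ≤ 1 := by
  unfold HH
  calc vI Φ P T₀ y.2 p * GIV566.unhitInd Φ ε (hidM Φ ε P y.2 p) tw ω.2 ≤ 1 * 1 := by
        gcongr
        · exact vI_le_one
        · exact GIV566.unhitInd_le_one
    _ = 1 := one_mul 1

theorem measurable_HH (hΦ : AdmissiblePotential Φ) {ε : ℝ} (hε : 0 < ε) (P : CTree) (T₀ tw : ℝ) :
    Measurable fun q : ((Σ n : ℕ, Config n) × (ℝ × PhasePoint)) × Par P =>
      HH Φ P T₀ tw ε q.1.1 q.1.2 q.2 := by
  unfold HH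
  refine Measurable.mul ?_ ?_
  · exact (measurable_vI hΦ P T₀).comp
      (f := fun q : ((Σ n : ℕ, Config n) × (ℝ × PhasePoint)) × Par P => (q.1.2.2, q.2))
      (measurable_fst.snd.snd.prodMk measurable_snd)
  · have h := measurable_unhit_hidM hΦ hε P (tw := tw) (W := PhasePoint × Par P)
      (ℓ := fun z => z.1) measurable_fst (p := fun z => z.2) measurable_snd
    exact h.comp (f := fun q : ((Σ n : ℕ, Config n) × (ℝ × PhasePoint)) × Par P =>
      (q.1.1, (q.1.2.2, q.2)))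
      (measurable_fst.fst.prodMk (measurable_fst.snd.snd.prodMk measurable_snd))

theorem measurable_hh {P : CTree} {T T₀ tw : ℝ} (hQ : QInput Φ f₀ f T P T₀ tw) :
    Measurable (Function.uncurry (hh Φ f T P T₀ tw)) :=
  hQ.meas.comp (f := fun q : (ℝ × PhasePoint) × Par P => (q.1.2, q.2))
    (measurable_fst.snd.prodMk measurable_snd)

/-- one-point function -/
theorem lintegral_HH (hΦ : AdmissiblePotential Φ) (hf : Measurable f₀) {ε : ℝ} (hε : 0 < ε)
    {P : CTree} {T₀ tw : ℝ} (y : ℝ × PhasePoint) (p : Par P) (h : Valid Φ 0 P T₀ y.2.2 p) :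
    ∫⁻ ω, HH Φ P T₀ tw ε ω y p ∂(gcMeasure f₀ ε) = GIV566.uG Φ f₀ ε (hid Φ ε P y.2 p) tw := by
  unfold HH GIV566.uG
  rw [vI_of_valid h, hidM_of_adm (ℓ := y.2) h.1]
  simp only [one_mul]
  refine lintegral_gcMeasure hf ε (F := fun n w => GIV566.unhitInd Φ ε (hid Φ ε P y.2 p) tw w)
    fun n => ?_
  have := measurable_unhit_hidM hΦ hε P (tw := tw) (W := Unit) (ℓ := fun _ => y.2)
    measurable_const (p := fun _ => p) measurable_const
  rw [hidM_of_adm (ℓ := y.2) h.1] at this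
  exact this.comp (f := fun w : Config n => ((⟨n, w⟩ : Σ n : ℕ, Config n), ()))
    ((measurable_sigmaMk' n).prodMk measurable_const)

/-- two-point function -/
theorem lintegral_HH2 (hΦ : AdmissiblePotential Φ) (hf : Measurable f₀) {ε : ℝ} (hε : 0 < ε)
    {P : CTree} {T₀ tw : ℝ} (y : ℝ × PhasePoint) (p p' : Par P) (h : Valid Φ 0 P T₀ y.2.2 p)
    (h' : Valid Φ 0 P T₀ y.2.2 p') :
    ∫⁻ ω, HH Φ P T₀ tw ε ω y p * HH Φ P T₀ tw ε ω y p' ∂(gcMeasure f₀ ε) =
      GIV566.uG Φ f₀ ε ((hid Φ ε P y.2 p).sum (hid Φ ε P y.2 p')) tw := by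
  unfold HH GIV566.uG
  rw [vI_of_valid h, vI_of_valid h', hidM_of_adm (ℓ := y.2) h.1, hidM_of_adm (ℓ := y.2) h'.1]
  simp only [one_mul]
  have hm : ∀ (p : Par P) (_ : Valid Φ 0 P T₀ y.2.2 p) (n : ℕ), Measurable fun w : Config n =>
      GIV566.unhitInd Φ ε (hid Φ ε P y.2 p) tw w := by
    intro p h n
    have := measurable_unhit_hidM hΦ hε P (tw := tw) (W := Unit) (ℓ := fun _ => y.2)
      measurable_const (p := fun _ => p) measurable_const
    rw [hidM_of_adm (ℓ := y.2) h.1] at this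
    exact this.comp (f := fun w : Config n => ((⟨n, w⟩ : Σ n : ℕ, Config n), ()))
      ((measurable_sigmaMk' n).prodMk measurable_const)
  have e := lintegral_gcMeasure hf ε (F := fun n w => GIV566.unhitInd Φ ε (hid Φ ε P y.2 p) tw w *
    GIV566.unhitInd Φ ε (hid Φ ε P y.2 p') tw w) fun n => (hm p h n).mul (hm p' h' n)
  rw [e]
  refine gcE_congr f₀ ε fun n Z _ => ?_
  rw [GIV566.unhitInd_sum]

end Crest.Agent.R122.Q1815

end
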