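import Crest.Agent.R122.H5Q_994
import Crest.Agent.R122.QExitBind1_837
import Crest.Agent.R122.QExitF_814

/-!
Row 122 (helper814), SP-A / SP-B of inequality 3: the **exits part of the quenched input** in the
form of helper994's `qroot`.

* `exS` : sum over the exit lines (measurable lines `lineMM`);
* `qexit_gh` : `QExit814.qexit_gen` with the ghost indicator `gh` and the weight `tws`;
* `qexits` : the exits part of the quenched input, with the flux density `rdL` of the root.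
-/

set_option autoImplicit false

open MeasureTheory Set Filter
open scoped ENNReal Topology Classical
open Crest.AnalysisR.Kinetic
open Crest.Agent.R122.Kin796 Crest.Agent.R122.Kin796.CTree Crest.Agent.R122.Tree674
open Crest.Agent.R122.EDefs602 Crest.Agent.R122.TreeLines335 Crest.Agent.R122.LineMeas994
open Crest.Agent.R122.GC311 Crest.Agent.R122.QDens815 Crest.Agent.R122.Q1815
open Crest.Agent.R122.SPV994 Crest.Agent.R122.H5994 Crest.Agent.R122.QExit814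
open Crest.Agent.R122.Master566 Crest.Agent.R122.ToTree335

noncomputable section

namespace Crest.Agent.R122.H5X814

variable {Φ : Space3 → ℝ} {f₀ : PhasePoint → ℝ} {f : ℝ → PhasePoint → ℝ} {β T : ℝ}

/-- sum of `φ` over the exit lines of the tree -/
def exS (Φ : Space3 → ℝ) (ε : ℝ) (P : CTree) (φ : EDefs602.ML → ℝ≥0∞) (z : PhasePoint × Par P) :
    ℝ≥0∞ := ∑ x : {i : Idx P // i ≠ root P}, φ (lineMM Φ ε P z x)

theorem measurable_exS (hΦ : AdmissiblePotential Φ) (ε : ℝ) (P : CTree)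
    {φ : EDefs602.ML → ℝ≥0∞} (hφ : Measurable φ) : Measurable (exS Φ ε P φ) := by
  unfold exS
  exact Finset.measurable_sum _ fun x _ => hφ.comp (measurable_lineMM hΦ ε P x)

/-- joint measurability with the gas -/
theorem measurable_exS2 (hΦ : AdmissiblePotential Φ) (ε : ℝ) (P : CTree)
    {Θ : (n : ℕ) → Config n → EDefs602.ML → ℝ≥0∞}
    (hΘ : ∀ n, Measurable fun q : Config n × EDefs602.ML => Θ n q.1 q.2) :
    Measurable fun q : (Σ n : ℕ, Config n) × (PhasePoint × Par P) =>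
      exS Φ ε P (Θ q.1.1 q.1.2) q.2 := by
  unfold exS
  refine Finset.measurable_sum _ fun x _ => ?_
  have hq : Measurable fun q : (Σ n : ℕ, Config n) × (PhasePoint × Par P) =>
      (q.1, (lineMM Φ ε P q.2 x : EDefs602.ML)) :=
    measurable_fst.prodMk ((measurable_lineMM hΦ ε P x).comp measurable_snd)
  have h := (H5994.measurable_sig hΘ).comp hq
  exact h

/-- pointwise: the exits against the ghost indicator -/
theorem tws_gh_exS_le (hΦ : AdmissiblePotential Φ) {ε : ℝ} (hε : 0 < ε) {T' tw : ℝ} {P : CTree}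
    {n : ℕ} (w : Config n) (φ : EDefs602.ML → ℝ≥0∞) (th : PhasePoint × Par P → ℝ≥0∞)
    (z : PhasePoint × Par P) :
    tws Φ f₀ ε T' P z * gh Φ ε tw P z ⟨n, w⟩ * th z * exS Φ ε P φ z ≤
      {z : PhasePoint × Par P | Valid Φ ε P T' z.1.2 z.2}.indicator
          (fun z => wt Φ P z.1.2 z.2 * (∏ i, ENNReal.ofReal (f₀ (lines Φ ε P z.1 z.2 i))) *
            th z * ES Φ ε (fun Q y => GIV566.unhitInd Φ ε (Q1815.hidM Φ ε Q y.1 y.2) tw w)
              φ P z) z := by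
  unfold tws
  by_cases hV : Valid Φ ε P T' z.1.2 z.2 ∧ Sep Φ ε P T' z.1 z.2
  swap
  · rw [if_neg hV, zero_mul, zero_mul, zero_mul]
    exact bot_le
  rw [if_pos hV, indicator_of_mem
    (show z ∈ {z : PhasePoint × Par P | Valid Φ ε P T' z.1.2 z.2} from hV.1),
    tw₀_of_valid hV.1]
  have h1 : exS Φ ε P φ z = ∑ x : {i : Idx P // i ≠ root P}, φ (lineML Φ ε P z x) := by
    unfold exS
    refine Finset.sum_congr rfl fun x _ => ?_
    rw [lineMM_of_adm ε hV.1.1]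
  have h2 := QExit837.ghost_sum_le (tw := tw) (w := w) hΦ hε hV.1 hV.2
    (b := TreeLines335.rel P z.2) (fun _ => le_rfl) φ
  have h3 : gh Φ ε tw P z ⟨n, w⟩ =
      GIV566.unhitInd Φ ε (Hid424.treeT Φ ε P z.1 z.2 (TreeLines335.rel P z.2)) tw w := by
    unfold gh
    rw [ghTM_of_adm hV.1.1]
    rfl
  rw [h1, h3]
  show wt Φ P z.1.2 z.2 * pf Φ f₀ ε P z * _ * th z * _ ≤
    wt Φ P z.1.2 z.2 * pf Φ f₀ ε P z * th z * ES Φ ε (QExit837.U814 Φ ε tw w) φ P z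
  calc wt Φ P z.1.2 z.2 * pf Φ f₀ ε P z *
        GIV566.unhitInd Φ ε (Hid424.treeT Φ ε P z.1 z.2 (TreeLines335.rel P z.2)) tw w * th z *
        ∑ x : {i : Idx P // i ≠ root P}, φ (lineML Φ ε P z x)
      = wt Φ P z.1.2 z.2 * pf Φ f₀ ε P z * th z *
        (GIV566.unhitInd Φ ε (Hid424.treeT Φ ε P z.1 z.2 (TreeLines335.rel P z.2)) tw w *
          ∑ x : {i : Idx P // i ≠ root P}, φ (lineML Φ ε P z x)) := by ring
    _ ≤ _ := mul_le_mul' le_rfl h2

/-- integral of the flux density -/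
theorem lintegral_rdL_le {te a : ℝ} (ℓ : PhasePoint) :
    ∫⁻ u, rdL te a ℓ u ≤ ENNReal.ofReal te * ENNReal.ofReal (1 + ‖ℓ.2‖) := by
  have h := lintegral_rdL (te := te) (a := a) (ℓ := ℓ) (fun _ => 1)
  simp only [mul_one] at h
  rw [h, setLIntegral_const, Real.volume_Ioc, mul_comm]
  refine mul_le_mul' (ENNReal.ofReal_le_ofReal (by linarith [le_max_left (0 : ℝ) a])) ?_
  rw [ENNReal.ofReal_add (by norm_num) (norm_nonneg _), ENNReal.ofReal_one]

/-- the integrand of the exits part -/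
def exitI (Φ : Space3 → ℝ) (f₀ : PhasePoint → ℝ) (ε tw te : ℝ) (P : CTree)
    (Θ : (n : ℕ) → Config n → EDefs602.ML → ℝ≥0∞) (w : Σ n : ℕ, Config n)
    (z : PhasePoint × Par P) (u : ℝ) : ℝ≥0∞ :=
  rdL te (rel P z.2 (root P)) z.1 u *
    (tws Φ f₀ ε te P z * gh Φ ε tw P z w * exS Φ ε P (Θ w.1 w.2) z)

theorem measurable_rdL_u (te a : ℝ) (ℓ : PhasePoint) : Measurable (rdL te a ℓ) := by
  unfold rdL
  refine Measurable.ite ?_ measurable_const measurable_const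
  exact measurableSet_Ioi.inter (measurableSet_Ioi.inter measurableSet_Iic)

/-- the exits part of one shape is a quenched exit sum -/
theorem exitE_le (hΦ : AdmissiblePotential Φ) (hf : Measurable f₀) {ε : ℝ} (hε : 0 < ε)
    (tw te : ℝ) (P : CTree) {Θ : (n : ℕ) → Config n → EDefs602.ML → ℝ≥0∞}
    (hΘ : ∀ n, Measurable fun q : Config n × EDefs602.ML => Θ n q.1 q.2) :
    ∫⁻ z : PhasePoint × Par P, ∫⁻ w, ∫⁻ u, exitI Φ f₀ ε tw te P Θ w z u ∂volume ∂gcM f₀ ε ≤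
      gcE f₀ ε (fun n w => ∫⁻ z : PhasePoint × Par P, tws Φ f₀ ε te P z *
        gh Φ ε tw P z ⟨n, w⟩ * (ENNReal.ofReal te * ENNReal.ofReal (1 + ‖z.1.2‖)) *
          exS Φ ε P (Θ n w) z) := by
  rw [gcE_eq_lintegral hf]
  calc ∫⁻ z : PhasePoint × Par P, ∫⁻ w, ∫⁻ u, exitI Φ f₀ ε tw te P Θ w z u ∂volume ∂gcM f₀ ε
      ≤ ∫⁻ z : PhasePoint × Par P, ∫⁻ w : (Σ n : ℕ, Config n), tws Φ f₀ ε te P z *
          gh Φ ε tw P z w * (ENNReal.ofReal te * ENNReal.ofReal (1 + ‖z.1.2‖)) *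
            exS Φ ε P (Θ w.1 w.2) z ∂gcM f₀ ε := by
        refine lintegral_mono fun z => lintegral_mono fun w => ?_
        unfold exitI
        rw [lintegral_mul_const _ (measurable_rdL_u te _ z.1)]
        calc (∫⁻ u, rdL te (rel P z.2 (root P)) z.1 u) *
              (tws Φ f₀ ε te P z * gh Φ ε tw P z w * exS Φ ε P (Θ w.1 w.2) z)
            ≤ (ENNReal.ofReal te * ENNReal.ofReal (1 + ‖z.1.2‖)) *
              (tws Φ f₀ ε te P z * gh Φ ε tw P z w * exS Φ ε P (Θ w.1 w.2) z) :=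
              mul_le_mul' (lintegral_rdL_le z.1) le_rfl
          _ = _ := by ring
    _ = ∫⁻ w : (Σ n : ℕ, Config n), (∫⁻ z : PhasePoint × Par P, tws Φ f₀ ε te P z *
          gh Φ ε tw P z w * (ENNReal.ofReal te * ENNReal.ofReal (1 + ‖z.1.2‖)) *
            exS Φ ε P (Θ w.1 w.2) z) ∂gcM f₀ ε := by
        refine lintegral_lintegral_swap (f := fun (z : PhasePoint × Par P)
          (w : Σ n : ℕ, Config n) => tws Φ f₀ ε te P z *
          gh Φ ε tw P z w * (ENNReal.ofReal te * ENNReal.ofReal (1 + ‖z.1.2‖)) *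
            exS Φ ε P (Θ w.1 w.2) z) (Measurable.aemeasurable ?_)
        have m1 : Measurable fun q : (PhasePoint × Par P) × (Σ n : ℕ, Config n) =>
            tws Φ f₀ ε te P q.1 := (measurable_tws hΦ hf hε te P).comp measurable_fst
        have m2 : Measurable fun q : (PhasePoint × Par P) × (Σ n : ℕ, Config n) =>
            gh Φ ε tw P q.1 q.2 := (measurable_gh hΦ hε tw P).comp measurable_swap
        have m3 : Measurable fun q : (PhasePoint × Par P) × (Σ n : ℕ, Config n) =>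
            ENNReal.ofReal te * ENNReal.ofReal (1 + ‖q.1.1.2‖) := by fun_prop
        have m4 : Measurable fun q : (PhasePoint × Par P) × (Σ n : ℕ, Config n) =>
            exS Φ ε P (Θ q.2.1 q.2.2) q.1 := (measurable_exS2 hΦ ε P hΘ).comp measurable_swap
        have m5 := ((m1.mul m2).mul m3).mul m4
        exact m5

/-- **`qexit_gen` with the ghost indicator** -/
theorem qexit_gh (hD : KData Φ β T f₀ f) {h₀ kap lam C b : ℝ}
    (hK : Seg814.KinC Φ T f h₀ kap lam C b) (hkap : kap ≤ β) {lam₁ : ℝ} (h1 : 1 < lam₁)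
    (h2 : lam₁ < lam) :
    ∃ g₁ : ℝ, 0 < g₁ ∧ ∃ ρ₁ : ℝ≥0∞, ρ₁ < 1 ∧ ∃ C₁ : ℝ≥0∞, C₁ ≠ ∞ ∧
      ∀ (γ : ℝ → ℝ) (ρ : ℝ≥0∞), ρ₁ ≤ ρ → ∀ tw ∈ Icc 0 T, GIV566.GIV Φ f₀ f T tw →
      ∀ T' : ℝ, 0 < T' → T' ≤ tw + h₀ → (∀ τ ∈ Ioc 0 T', γ τ ≤ g₁) → ∀ K : ℕ,
      ∃ δ : ℝ → ℝ≥0∞, Tendsto δ (𝓝[>] 0) (𝓝 0) ∧ ∀ ε : ℝ, 0 < ε →
      ∀ φ : (n : ℕ) → Config n → EDefs602.ML → ℝ≥0∞, (∀ n w, Measurable (φ n w)) →
        (∀ n w l, φ n w l ≤ 1) →
      ∀ M : ℝ≥0∞, M ≠ ∞ →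
      ∀ th : (n : ℕ) → Config n → (P : CTree) → PhasePoint × Par P → ℝ≥0∞,
        (∀ n w P z, Valid Φ ε P T' z.1.2 z.2 → th n w P z ≤ M * ENNReal.ofReal lam₁ ^ P.size *
          ENNReal.ofReal (Real.exp (kap * Seg814.eng Φ P z.1.2 z.2))) →
      gcE f₀ ε (fun n w => ∑' P : CTree, if P.leaves ≤ K then ∫⁻ z : PhasePoint × Par P,
        tws Φ f₀ ε T' P z * gh Φ ε tw P z ⟨n, w⟩ * th n w P z * exS Φ ε P (φ n w) z else 0) ≤
        M * (C₁ * gcE f₀ ε (fun n w => ∫⁻ l, φ n w l ∂EDefs602.lineM γ ρ K T') + δ ε) := by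
  obtain ⟨g₁, hg₁, ρ₁, hρ₁, C₁, hC₁, h⟩ := qexit_gen hD hK hkap h1 h2
  refine ⟨g₁, hg₁, ρ₁, hρ₁, C₁, hC₁, fun γ ρ hρ tw htw hG T' hT'0 hT'h hγ K => ?_⟩
  obtain ⟨δ, hδ, hmain⟩ := h γ ρ hρ tw htw hG T' hT'0 hT'h hγ K
  refine ⟨δ, hδ, fun ε hε φ hφ hφ1 M hM th hth => ?_⟩
  refine le_trans (gcE_mono f₀ ε fun n w _ => ?_) (hmain ε hε φ hφ hφ1 M hM th hth)
  refine ENNReal.tsum_le_tsum fun P => ?_
  by_cases hP : P.leaves ≤ K
  · rw [if_pos hP, if_pos hP]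
    exact lintegral_mono fun z => tws_gh_exS_le hD.adm hε w (φ n w) (th n w P) z
  · rw [if_neg hP, if_neg hP]

/-- **The exits part of the quenched input.** -/
theorem qexits (hD : KData Φ β T f₀ f) {h₀ kap lam C b : ℝ}
    (hK : Seg814.KinC Φ T f h₀ kap lam C b) (hkap : kap ≤ β) {lam₁ : ℝ} (h1 : 1 < lam₁)
    (h2 : lam₁ < lam) :
    ∃ g₁ : ℝ, 0 < g₁ ∧ ∃ ρ₁ : ℝ≥0∞, ρ₁ < 1 ∧ ∃ C₂ : ℝ≥0∞, C₂ ≠ ∞ ∧
      ∀ (γ : ℝ → ℝ) (ρ : ℝ≥0∞), ρ₁ ≤ ρ → ∀ tw ∈ Icc 0 T, GIV566.GIV Φ f₀ f T tw →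
      ∀ te : ℝ, 0 < te → te ≤ tw + h₀ → (∀ τ ∈ Ioc 0 te, γ τ ≤ g₁) →
      ∃ δ : ℕ → ℝ → ℝ≥0∞, Null δ ∧ ∀ K ε, 0 < ε →
      ∀ Θ : (n : ℕ) → Config n → EDefs602.ML → ℝ≥0∞,
        (∀ n, Measurable fun q : Config n × EDefs602.ML => Θ n q.1 q.2) →
        (∀ n w l, Θ n w l ≤ 1) →
        ∑ P ∈ GIVStep383.trees K, ∫⁻ z : PhasePoint × Par P, ∫⁻ w, ∫⁻ u,
          exitI Φ f₀ ε tw te P Θ w z u ∂volume ∂gcM f₀ ε ≤
        C₂ * gcE f₀ ε (fun n w => ∫⁻ l, Θ n w l ∂EDefs602.lineM γ ρ K te) + δ K ε := by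
  obtain ⟨g₁, hg₁, ρ₁, hρ₁, C₁, hC₁, h⟩ := qexit_gh hD hK hkap h1 h2
  obtain ⟨M, hM, hMb⟩ := exists_wtA_le Φ h1 hK.2.1
  have hf := hD.contDiff.continuous.measurable
  set M' : ℝ≥0∞ := ENNReal.ofReal (T + h₀) * (2 * ENNReal.ofReal M) with hM'
  have hM't : M' ≠ ∞ := ENNReal.mul_ne_top ENNReal.ofReal_ne_top
    (ENNReal.mul_ne_top (by norm_num) ENNReal.ofReal_ne_top)
  refine ⟨g₁, hg₁, ρ₁, hρ₁, M' * C₁, ENNReal.mul_ne_top hM't hC₁,
    fun γ ρ hρ tw htw hG te hte hteh hγ => ?_⟩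
  choose δ hδ hmain using h γ ρ hρ tw htw hG te hte hteh hγ
  refine ⟨fun K ε => M' * δ K ε, (null_iff_tendsto.2 hδ).const_mul hM't,
    fun K ε hε Θ hΘm hΘ => ?_⟩
  have hm1 : ∀ n w, Measurable (Θ n w) := fun n w =>
    (hΘm n).comp (measurable_const.prodMk measurable_id)
  have h3 := hmain K ε hε Θ hm1 hΘ M' hM't
    (fun _ _ P z => ENNReal.ofReal te * ENNReal.ofReal (1 + ‖z.1.2‖))
    (fun n w P z hV => by
      have h4 : ENNReal.ofReal (1 + ‖z.1.2‖) ≤ 2 * wtA Φ P (te, z.1, z.2) :=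
        rootA_le_wtA (s := te) (ℓ := z.1) (p := z.2) hD.adm hV.1
      calc ENNReal.ofReal te * ENNReal.ofReal (1 + ‖z.1.2‖)
          ≤ ENNReal.ofReal (T + h₀) * (2 * (ENNReal.ofReal M * ENNReal.ofReal lam₁ ^ P.size *
            ENNReal.ofReal (Real.exp (kap * Seg814.eng Φ P z.1.2 z.2)))) := by
            refine mul_le_mul' (ENNReal.ofReal_le_ofReal (by linarith [htw.2])) ?_
            exact h4.trans (mul_le_mul' le_rfl (hMb P te z.1 z.2))
        _ = _ := by rw [hM']; ring)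
  have h5 : ∑ P ∈ GIVStep383.trees K, ∫⁻ z : PhasePoint × Par P, ∫⁻ w, ∫⁻ u,
          exitI Φ f₀ ε tw te P Θ w z u ∂volume ∂gcM f₀ ε ≤
      gcE f₀ ε (fun n w => ∑' P : CTree, if P.leaves ≤ K then ∫⁻ z : PhasePoint × Par P,
        tws Φ f₀ ε te P z * gh Φ ε tw P z ⟨n, w⟩ *
          (ENNReal.ofReal te * ENNReal.ofReal (1 + ‖z.1.2‖)) *
            exS Φ ε P (Θ n w) z else 0) := by
    have e1 : gcE f₀ ε (fun n w => ∑' P : CTree, if P.leaves ≤ K then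
        ∫⁻ z : PhasePoint × Par P, tws Φ f₀ ε te P z * gh Φ ε tw P z ⟨n, w⟩ *
          (ENNReal.ofReal te * ENNReal.ofReal (1 + ‖z.1.2‖)) *
            exS Φ ε P (Θ n w) z else 0) =
        ∑ P ∈ GIVStep383.trees K, gcE f₀ ε (fun n w => ∫⁻ z : PhasePoint × Par P,
          tws Φ f₀ ε te P z * gh Φ ε tw P z ⟨n, w⟩ *
          (ENNReal.ofReal te * ENNReal.ofReal (1 + ‖z.1.2‖)) *
            exS Φ ε P (Θ n w) z) := by
      rw [← gcE_finset_sum hf ε]
      · refine gcE_congr f₀ ε fun n w _ => ?_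
        rw [tsum_eq_sum (s := GIVStep383.trees K) fun P hP =>
          if_neg fun hh => hP (GIVStep383.mem_trees.2 hh)]
        exact Finset.sum_congr rfl fun P hP => if_pos (GIVStep383.mem_trees.1 hP)
      · intro P _ n
        have hq : Measurable fun q : Config n × (PhasePoint × Par P) =>
            ((⟨n, q.1⟩ : Σ n : ℕ, Config n), q.2) :=
          ((measurable_sigmaMk' n).comp measurable_fst).prodMk measurable_snd
        have m1 : Measurable fun q : Config n × (PhasePoint × Par P) =>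
            tws Φ f₀ ε te P q.2 := (measurable_tws hD.adm hf hε te P).comp measurable_snd
        have m2 : Measurable fun q : Config n × (PhasePoint × Par P) =>
            gh Φ ε tw P q.2 ⟨n, q.1⟩ := (measurable_gh hD.adm hε tw P).comp hq
        have m3 : Measurable fun q : Config n × (PhasePoint × Par P) =>
            ENNReal.ofReal te * ENNReal.ofReal (1 + ‖q.2.1.2‖) := by fun_prop
        have m4 : Measurable fun q : Config n × (PhasePoint × Par P) =>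
            exS Φ ε P (Θ n q.1) q.2 := (measurable_exS2 hD.adm ε P hΘm).comp hq
        have m5 := ((m1.mul m2).mul m3).mul m4
        exact m5.lintegral_prod_right'
    rw [e1]
    exact Finset.sum_le_sum fun P _ => exitE_le hD.adm hf hε tw te P hΘm
  refine h5.trans (h3.trans (le_of_eq ?_))
  rw [mul_add, ← mul_assoc M' C₁]

end Crest.Agent.R122.H5X814

end
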