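import Crest.Agent.R122.H5EI_994
import Crest.Agent.R122.H5X_814

/-!
Row 122 (helper814), SP-A / SP-B of inequality 3: helper994's input `QExitH5` is proved, and the
quenched input for the shapes in one line (`qEI`).
-/

set_option autoImplicit false

open MeasureTheory Set Filter
open scoped ENNReal Topology Classical
open Crest.AnalysisR.Kinetic
open Crest.Agent.R122.Kin796 Crest.Agent.R122.Kin796.CTree Crest.Agent.R122.Tree674
open Crest.Agent.R122.EDefs602 Crest.Agent.R122.TreeLines335 Crest.Agent.R122.LineMeas994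
open Crest.Agent.R122.GC311 Crest.Agent.R122.QDens815 Crest.Agent.R122.Q1815
open Crest.Agent.R122.SPV994 Crest.Agent.R122.H5994 Crest.Agent.R122.QExit814
open Crest.Agent.R122.Master566 Crest.Agent.R122.ToTree335

noncomputable section

namespace Crest.Agent.R122.H5X814

variable {Φ : Space3 → ℝ} {f₀ : PhasePoint → ℝ} {f : ℝ → PhasePoint → ℝ} {β T : ℝ}

/-- pointwise identity between the two forms of the exit functional -/
theorem tw₀_exitH_eq {ε tw te : ℝ} {K : ℕ} {P : CTree} (hP : P.leaves ≤ K)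
    (Θ : (n : ℕ) → Config n → EDefs602.ML → ℝ≥0∞) (z : PhasePoint × Par P)
    (w : Σ n : ℕ, Config n) :
    tw₀ Φ f₀ ε te P z * exitH Φ ε tw te K Θ P z w.1 w.2 =
      tws Φ f₀ ε te P z * gh Φ ε tw P z w * ENNReal.ofReal (1 + ‖z.1.2‖) *
        exS Φ ε P (Θ w.1 w.2) z := by
  by_cases hV : Valid Φ ε P te z.1.2 z.2
  swap
  · have h1 : tws Φ f₀ ε te P z = 0 := if_neg fun hc => hV hc.1
    rw [tw₀_of_not_valid hV, h1, zero_mul, zero_mul, zero_mul, zero_mul]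
  by_cases hS : Sep Φ ε P te z.1 z.2
  swap
  · have h1 : tws Φ f₀ ε te P z = 0 := if_neg fun hc => hS hc.2
    have h2 : exitH Φ ε tw te K Θ P z w.1 w.2 = 0 := if_neg fun hc => hS hc.2
    rw [h1, h2, mul_zero, zero_mul, zero_mul, zero_mul]
  have h1 : tws Φ f₀ ε te P z = tw₀ Φ f₀ ε te P z := if_pos ⟨hV, hS⟩
  have h2 : exitH Φ ε tw te K Θ P z w.1 w.2 = ENNReal.ofReal (1 + ‖z.1.2‖) *
      (GIV566.unhitInd Φ ε (ghT Φ ε P z) tw w.2 *
      ∑ i ∈ Finset.univ.filter (fun i => i ≠ root P), Θ w.1 w.2 (lineML Φ ε P z i)) :=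
    if_pos ⟨hP, hS⟩
  have h3 : gh Φ ε tw P z w = GIV566.unhitInd Φ ε (ghT Φ ε P z) tw w.2 := by
    unfold gh
    rw [ghTM_of_adm hV.1]
  have h4 : exS Φ ε P (Θ w.1 w.2) z =
      ∑ i ∈ Finset.univ.filter (fun i => i ≠ root P), Θ w.1 w.2 (lineML Φ ε P z i) := by
    unfold exS
    have e1 : ∀ x : {i : Idx P // i ≠ root P}, Θ w.1 w.2 (lineMM Φ ε P z x) =
        Θ w.1 w.2 (lineML Φ ε P z x) := fun x => by rw [lineMM_of_adm ε hV.1]
    rw [Finset.sum_congr rfl fun x _ => e1 x]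
    exact (Finset.sum_subtype (Finset.univ.filter (fun i => i ≠ root P)) (by simp)
      (fun i => Θ w.1 w.2 (lineML Φ ε P z i))).symm
  rw [h1, h2, h3, h4]
  ring

/-- **`QExitH5`** (helper994's input) is true. -/
theorem qexitH5 (hD : KData Φ β T f₀ f) {h₀ kap lam C b : ℝ}
    (hK : Seg814.KinC Φ T f h₀ kap lam C b) (hkap : kap ≤ β) {lam₁ : ℝ} (h1 : 1 < lam₁)
    (h2 : lam₁ < lam) :
    ∃ g₁ : ℝ, 0 < g₁ ∧ ∃ ρ₁ : ℝ≥0∞, ρ₁ < 1 ∧ ∃ C₂ : ℝ≥0∞, C₂ ≠ ∞ ∧
      ∀ (γ : ℝ → ℝ) (ρ : ℝ≥0∞), ρ₁ ≤ ρ → ∀ tw ∈ Icc 0 T, GIV566.GIV Φ f₀ f T tw →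
      ∀ te : ℝ, 0 < te → te ≤ tw + h₀ → (∀ τ ∈ Ioc 0 te, γ τ ≤ g₁) →
      ∃ δ : ℕ → ℝ → ℝ≥0∞, Null δ ∧ QExitH5 Φ f₀ γ ρ tw te C₂ δ := by
  obtain ⟨g₁, hg₁, ρ₁, hρ₁, C₁, hC₁, h⟩ := qexit_gh hD hK hkap h1 h2
  obtain ⟨M, hM, hMb⟩ := exists_wtA_le Φ h1 hK.2.1
  have hf := hD.contDiff.continuous.measurable
  set M' : ℝ≥0∞ := 2 * ENNReal.ofReal M with hM'
  have hM't : M' ≠ ∞ := ENNReal.mul_ne_top (by norm_num) ENNReal.ofReal_ne_top
  refine ⟨g₁, hg₁, ρ₁, hρ₁, M' * C₁, ENNReal.mul_ne_top hM't hC₁,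
    fun γ ρ hρ tw htw hG te hte hteh hγ => ?_⟩
  choose δ hδ hmain using h γ ρ hρ tw htw hG te hte hteh hγ
  refine ⟨fun K ε => M' * δ K ε, (null_iff_tendsto.2 hδ).const_mul hM't,
    fun K ε hε Θ hΘm hΘ => ?_⟩
  have hm1 : ∀ n w, Measurable (Θ n w) := fun n w =>
    (hΘm n).comp (measurable_const.prodMk measurable_id)
  have h3 := hmain K ε hε Θ hm1 hΘ M' hM't
    (fun _ _ P z => ENNReal.ofReal (1 + ‖z.1.2‖))
    (fun n w P z hV => by
      have h4 : ENNReal.ofReal (1 + ‖z.1.2‖) ≤ 2 * wtA Φ P (te, z.1, z.2) :=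
        rootA_le_wtA (s := te) (ℓ := z.1) (p := z.2) hD.adm hV.1
      calc ENNReal.ofReal (1 + ‖z.1.2‖)
          ≤ 2 * (ENNReal.ofReal M * ENNReal.ofReal lam₁ ^ P.size *
            ENNReal.ofReal (Real.exp (kap * Seg814.eng Φ P z.1.2 z.2))) :=
            h4.trans (mul_le_mul' le_rfl (hMb P te z.1 z.2))
        _ = _ := by rw [hM']; ring)
  -- joint measurability
  have hmz : ∀ P : CTree, Measurable fun q : (PhasePoint × Par P) × (Σ n : ℕ, Config n) =>
      tws Φ f₀ ε te P q.1 * gh Φ ε tw P q.1 q.2 * ENNReal.ofReal (1 + ‖q.1.1.2‖) *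
        exS Φ ε P (Θ q.2.1 q.2.2) q.1 := by
    intro P
    have m1 : Measurable fun q : (PhasePoint × Par P) × (Σ n : ℕ, Config n) =>
        tws Φ f₀ ε te P q.1 := (measurable_tws hD.adm hf hε te P).comp measurable_fst
    have m2 : Measurable fun q : (PhasePoint × Par P) × (Σ n : ℕ, Config n) =>
        gh Φ ε tw P q.1 q.2 := (measurable_gh hD.adm hε tw P).comp measurable_swap
    have m3 : Measurable fun q : (PhasePoint × Par P) × (Σ n : ℕ, Config n) =>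
        ENNReal.ofReal (1 + ‖q.1.1.2‖) := by fun_prop
    have m4 : Measurable fun q : (PhasePoint × Par P) × (Σ n : ℕ, Config n) =>
        exS Φ ε P (Θ q.2.1 q.2.2) q.1 := (measurable_exS2 hD.adm ε P hΘm).comp measurable_swap
    have m5 := ((m1.mul m2).mul m3).mul m4
    exact m5
  have h5 : InEq2.TS Φ f₀ ε te (exitH Φ ε tw te K Θ) ≤
      gcE f₀ ε (fun n w => ∑' P : CTree, if P.leaves ≤ K then ∫⁻ z : PhasePoint × Par P,
        tws Φ f₀ ε te P z * gh Φ ε tw P z ⟨n, w⟩ * ENNReal.ofReal (1 + ‖z.1.2‖) *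
            exS Φ ε P (Θ n w) z else 0) := by
    have e1 : gcE f₀ ε (fun n w => ∑' P : CTree, if P.leaves ≤ K then
        ∫⁻ z : PhasePoint × Par P, tws Φ f₀ ε te P z * gh Φ ε tw P z ⟨n, w⟩ *
          ENNReal.ofReal (1 + ‖z.1.2‖) * exS Φ ε P (Θ n w) z else 0) =
        ∑ P ∈ GIVStep383.trees K, gcE f₀ ε (fun n w => ∫⁻ z : PhasePoint × Par P,
          tws Φ f₀ ε te P z * gh Φ ε tw P z ⟨n, w⟩ *
          ENNReal.ofReal (1 + ‖z.1.2‖) * exS Φ ε P (Θ n w) z) := by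
      rw [← gcE_finset_sum hf ε]
      · refine gcE_congr f₀ ε fun n w _ => ?_
        rw [tsum_eq_sum (s := GIVStep383.trees K) fun P hP =>
          if_neg fun hh => hP (GIVStep383.mem_trees.2 hh)]
        exact Finset.sum_congr rfl fun P hP => if_pos (GIVStep383.mem_trees.1 hP)
      · intro P _ n
        have hq : Measurable fun q : Config n × (PhasePoint × Par P) =>
            (q.2, (⟨n, q.1⟩ : Σ n : ℕ, Config n)) :=
          measurable_snd.prodMk ((measurable_sigmaMk' n).comp measurable_fst)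
        have m5 := (hmz P).comp hq
        have m6 : Measurable fun q : Config n × (PhasePoint × Par P) =>
            tws Φ f₀ ε te P q.2 * gh Φ ε tw P q.2 ⟨n, q.1⟩ *
              ENNReal.ofReal (1 + ‖q.2.1.2‖) * exS Φ ε P (Θ n q.1) q.2 := m5
        exact m6.lintegral_prod_right'
    rw [e1, TS_eq]
    have e2 : ∀ P : CTree, P ∉ GIVStep383.trees K →
        (∫⁻ z : PhasePoint × Par P, tw₀ Φ f₀ ε te P z *
          gcE f₀ ε fun m w => exitH Φ ε tw te K Θ P z m w) = 0 := by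
      intro P hP
      have hP' : ¬ P.leaves ≤ K := fun hh => hP (GIVStep383.mem_trees.2 hh)
      have e3 : ∀ z : PhasePoint × Par P,
          (gcE f₀ ε fun m w => exitH Φ ε tw te K Θ P z m w) = 0 := by
        intro z
        rw [gcE_eq_lintegral hf]
        have e4 : ∀ w : Σ n : ℕ, Config n, exitH Φ ε tw te K Θ P z w.1 w.2 = 0 :=
          fun w => if_neg fun hc => hP' hc.1
        simp only [e4, lintegral_zero]
      simp only [e3, mul_zero, lintegral_zero]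
    rw [tsum_eq_sum e2]
    refine Finset.sum_le_sum fun P hP => ?_
    have hP' : P.leaves ≤ K := GIVStep383.mem_trees.1 hP
    rw [gcE_eq_lintegral hf]
    calc (∫⁻ z : PhasePoint × Par P, tw₀ Φ f₀ ε te P z *
          gcE f₀ ε fun m w => exitH Φ ε tw te K Θ P z m w)
        = ∫⁻ z : PhasePoint × Par P, ∫⁻ w : (Σ n : ℕ, Config n), tws Φ f₀ ε te P z *
            gh Φ ε tw P z w * ENNReal.ofReal (1 + ‖z.1.2‖) *
              exS Φ ε P (Θ w.1 w.2) z ∂gcM f₀ ε := by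
          refine lintegral_congr fun z => ?_
          rw [gcE_eq_lintegral hf, ← lintegral_const_mul' _ _ tw₀_ne_top]
          exact lintegral_congr fun w => tw₀_exitH_eq hP' Θ z w
      _ = ∫⁻ w : (Σ n : ℕ, Config n), (∫⁻ z : PhasePoint × Par P, tws Φ f₀ ε te P z *
            gh Φ ε tw P z w * ENNReal.ofReal (1 + ‖z.1.2‖) *
              exS Φ ε P (Θ w.1 w.2) z) ∂gcM f₀ ε :=
          lintegral_lintegral_swap (f := fun (z : PhasePoint × Par P)
            (w : Σ n : ℕ, Config n) => tws Φ f₀ ε te P z *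
            gh Φ ε tw P z w * ENNReal.ofReal (1 + ‖z.1.2‖) *
              exS Φ ε P (Θ w.1 w.2) z) (hmz P).aemeasurable
      _ ≤ _ := le_rfl
  refine h5.trans (h3.trans (le_of_eq ?_))
  rw [mul_add, ← mul_assoc M' C₁]

end Crest.Agent.R122.H5X814

end
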