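import Crest.Agent.R122.H5S6_994

/-!
Row 122 (helper814), young contacts of SP-B:

* `By0` : young link event of a root line (no tree);
* `vol_young` : `∫_{ℓ : p ∈ By0 ℓ} wG b ≤ C ε² r (1 + |v_e|)`;
* `le_rhs_vel` : marginal bound of a pair law with the velocity weight of the second line.
-/

set_option autoImplicit false

open MeasureTheory Set Filter
open scoped ENNReal Topology
open Crest.AnalysisR.Kinetic
open Crest.Agent.R122.Kin796 Crest.Agent.R122.Kin796.CTree Crest.Agent.R122.Tree674
open Crest.Agent.R122.SPV994 Crest.Agent.R122.Boost969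
open Crest.Agent.R122.Pair292 Crest.Agent.R122.H5994

noncomputable section

namespace Crest.Agent.R122.H5Y814

/-- young link event of a root line -/
def By0 (ε te r : ℝ) (ℓ : PhasePoint) : Set (Lab × LSt) :=
  {p | LinkEv ε te 0 ℓ p.2 ∧ hitT ε ℓ p.2 - sig p.1 < r}

theorem measurableSet_By0 (ε te r : ℝ) :
    MeasurableSet {q : PhasePoint × (Lab × LSt) | q.2 ∈ By0 ε te r q.1} := by
  have h1 : MeasurableSet {q : PhasePoint × (Lab × LSt) | LinkEv ε te 0 q.1 q.2.2} :=
    measurableSet_linkEv ε te (ℓ := fun q : PhasePoint × (Lab × LSt) => q.1) (a := fun _ => 0)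
      (e := fun q => q.2.2) measurable_fst measurable_const measurable_snd.snd
  have h2 : Measurable fun q : PhasePoint × (Lab × LSt) => hitT ε q.1 q.2.2 - sig q.2.1 :=
    (measurable_hitT' ε (ℓ := fun q : PhasePoint × (Lab × LSt) => q.1)
      (e := fun q => q.2.2) measurable_fst measurable_snd.snd).sub
      (measurable_sig.comp measurable_snd.fst)
  exact mset_ind_lt h1 h2 measurable_const

theorem By0_of {ε te a r : ℝ} {ℓ : PhasePoint} {p : Lab × LSt}
    (h : LinkEv ε te a ℓ p.2 ∧ hitT ε ℓ p.2 - sig p.1 < r) : p ∈ By0 ε te r ℓ :=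
  ⟨⟨h.1.1, h.1.2.1, h.1.2.2.1, h.1.2.1, h.1.2.2.2.2⟩, h.2⟩

/-- volume of the entrance cylinder -/
theorem vol_ent {ε : ℝ} (hε : 0 < ε) {v u c₀ : Space3} (hg : v - u ≠ 0) {J : Set ℝ}
    (hJ : MeasurableSet J) :
    volume {x : Space3 | ‖Flux663.bline (x - c₀, v - u)‖ ≤ ε ∧ OC663.entT ε (x - c₀, v - u) ∈ J} ≤
      ENNReal.ofReal (ε ^ 2) * (ENNReal.ofReal ‖v - u‖ *
        (volume J * volume (Metric.ball (0 : Disc416.Plane) 1))) := by
  have h1 : volume {x : Space3 | ‖Flux663.bline (x - c₀, v - u)‖ < ε ∧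
      OC663.entT ε (x - c₀, v - u) ∈ J} = ENNReal.ofReal (ε ^ 2) * (ENNReal.ofReal ‖v - u‖ *
        (volume J * volume (Metric.ball (0 : Disc416.Plane) 1))) := by
    have hF : Measurable (Function.uncurry fun (s : ℝ) (_ : Space3) =>
        J.indicator (fun _ => (1 : ℝ≥0∞)) s) :=
      (measurable_const.indicator hJ).comp measurable_fst
    have h2 := OC663.lintegral_ent_line hε c₀ hg hF
    have h3 : ∀ s : ℝ, ∫⁻ _b in impactDisc (v - u),
        J.indicator (fun _ => (1 : ℝ≥0∞)) s ∂μHE[2] =
        J.indicator (fun _ => volume (Metric.ball (0 : Disc416.Plane) 1)) s := by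
      intro s
      rw [Disc416.lintegral_impactDisc hg, setLIntegral_const]
      by_cases hs : s ∈ J
      · rw [indicator_of_mem hs, indicator_of_mem hs, one_mul]
      · rw [indicator_of_notMem hs, indicator_of_notMem hs, zero_mul]
    simp only [h3] at h2
    rw [lintegral_indicator hJ, setLIntegral_const] at h2
    rw [mul_comm (volume J)]
    rw [← h2]
    have hms : MeasurableSet {x : Space3 | ‖Flux663.bline (x - c₀, v - u)‖ < ε ∧
      OC663.entT ε (x - c₀, v - u) ∈ J} := by
      have h0 : Measurable (fun x : Space3 => (x - c₀, v - u)) :=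
        (measurable_id.sub_const c₀).prodMk measurable_const
      exact (measurableSet_lt (Flux663.measurable_bline.comp h0).norm measurable_const).inter
        (((OC663.measurable_entT ε).comp h0) hJ)
    rw [← lintegral_indicator_one hms]
    refine lintegral_congr fun x => ?_
    by_cases hx : ‖Flux663.bline (x - c₀, v - u)‖ < ε
    · by_cases hs : OC663.entT ε (x - c₀, v - u) ∈ J
      · rw [if_pos hx, indicator_of_mem hs, indicator_of_mem
          (show x ∈ {x : Space3 | ‖Flux663.bline (x - c₀, v - u)‖ < ε ∧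
            OC663.entT ε (x - c₀, v - u) ∈ J} from ⟨hx, hs⟩)]
        rfl
      · rw [if_pos hx, indicator_of_notMem hs, indicator_of_notMem fun hc => hs hc.2]
    · rw [if_neg hx, indicator_of_notMem fun hc => hx hc.1]
  rw [← h1]
  refine measure_mono_ae ?_
  have hnull : ∀ᵐ x : Space3, ‖Flux663.bline (x - c₀, v - u)‖ ≠ ε := by
    rw [ae_iff]
    simpa using OC663.volume_grazing hg c₀ hε
  filter_upwards [hnull] with x hx hm
  exact ⟨lt_of_le_of_ne hm.1 hx, hm.2⟩

/-- velocity integral of the Gaussian with flux weight -/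
def gV (b : ℝ) : ℝ≥0∞ := ∫⁻ v : Space3, wG b v * ENNReal.ofReal (1 + ‖v‖)

/-- constant of `vol_young` -/
def cV (b : ℝ) : ℝ≥0∞ := gV b * volume (Metric.ball (0 : Disc416.Plane) 1)

theorem measurable_wG (b : ℝ) : Measurable (wG b : Space3 → ℝ≥0∞) := by
  unfold wG
  fun_prop

theorem norm_sub_le_mul (v u : Space3) : ‖v - u‖ ≤ (1 + ‖v‖) * (1 + ‖u‖) := by
  have h1 := norm_sub_le v u
  have h2 := norm_nonneg v
  have h3 := norm_nonneg u
  nlinarith [mul_nonneg h2 h3]

/-- **Volume of the young links.** -/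
theorem vol_young {ε te r : ℝ} (hε : 0 < ε) (b : ℝ) {p : Lab × LSt}
    (hs : sig p.1 ≤ p.2.1) :
    ∫⁻ ℓ in {ℓ : PhasePoint | p ∈ By0 ε te r ℓ}, wG b ℓ.2 ≤
      cV b * (ENNReal.ofReal (ε ^ 2) * (ENNReal.ofReal r * ENNReal.ofReal (1 + ‖p.2.2.2‖))) := by
  set u := p.2.2.2 with hu
  have hms : MeasurableSet {ℓ : PhasePoint | p ∈ By0 ε te r ℓ} :=
    (measurableSet_By0 ε te r).preimage measurable_prodMk_right
  have hwG : Measurable (fun ℓ : PhasePoint => wG b ℓ.2) := (measurable_wG b).comp measurable_snd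
  rw [← lintegral_indicator hms]
  have hi := hwG.indicator hms
  rw [show (volume : Measure PhasePoint) = (volume : Measure Space3).prod volume from rfl,
    lintegral_prod_symm _ hi.aemeasurable]
  have key : ∀ v : Space3, ∫⁻ x : Space3,
      {ℓ : PhasePoint | p ∈ By0 ε te r ℓ}.indicator (fun ℓ => wG b ℓ.2) (x, v) ≤
      (wG b v * ENNReal.ofReal (1 + ‖v‖)) * (volume (Metric.ball (0 : Disc416.Plane) 1) *
        (ENNReal.ofReal (ε ^ 2) * (ENNReal.ofReal r * ENNReal.ofReal (1 + ‖u‖)))) := by
    intro v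
    by_cases hg : v - u = 0
    · have h0 : ∀ x : Space3, {ℓ : PhasePoint | p ∈ By0 ε te r ℓ}.indicator
          (fun ℓ => wG b ℓ.2) (x, v) = 0 := by
        intro x
        refine indicator_of_notMem (fun hc => ?_) _
        exact hc.1.1.1 hg
      simp only [h0, lintegral_zero]
      exact bot_le
    · have h1 : ∀ x : Space3, {ℓ : PhasePoint | p ∈ By0 ε te r ℓ}.indicator
          (fun ℓ => wG b ℓ.2) (x, v) ≤ wG b v *
          {x : Space3 | ‖Flux663.bline (x - posAt 0 p.2, v - u)‖ ≤ ε ∧
            OC663.entT ε (x - posAt 0 p.2, v - u) ∈ Ioo p.2.1 (sig p.1 + r)}.indicator 1 x := by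
        intro x
        by_cases hx : (x, v) ∈ {ℓ : PhasePoint | p ∈ By0 ε te r ℓ}
        · rw [indicator_of_mem hx]
          have h2 : p ∈ By0 ε te r (x, v) := hx
          have h3 : x ∈ {x : Space3 | ‖Flux663.bline (x - posAt 0 p.2, v - u)‖ ≤ ε ∧
              OC663.entT ε (x - posAt 0 p.2, v - u) ∈ Ioo p.2.1 (sig p.1 + r)} := by
            refine ⟨h2.1.1.2, h2.1.2.2.1, ?_⟩
            have h4 : hitT ε (x, v) p.2 - sig p.1 < r := h2.2
            have h5 : hitT ε (x, v) p.2 = OC663.entT ε (x - posAt 0 p.2, v - u) := rfl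
            linarith
          rw [indicator_of_mem h3, Pi.one_apply, mul_one]
        · rw [indicator_of_notMem hx]
          exact bot_le
      have hms2 : MeasurableSet {x : Space3 | ‖Flux663.bline (x - posAt 0 p.2, v - u)‖ ≤ ε ∧
            OC663.entT ε (x - posAt 0 p.2, v - u) ∈ Ioo p.2.1 (sig p.1 + r)} := by
        have h0 : Measurable (fun x : Space3 => (x - posAt 0 p.2, v - u)) :=
          (measurable_id.sub_const _).prodMk measurable_const
        exact (measurableSet_le (Flux663.measurable_bline.comp h0).norm measurable_const).inter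
          (((OC663.measurable_entT ε).comp h0) measurableSet_Ioo)
      calc ∫⁻ x : Space3, {ℓ : PhasePoint | p ∈ By0 ε te r ℓ}.indicator (fun ℓ => wG b ℓ.2) (x, v)
          ≤ ∫⁻ x : Space3, wG b v *
            {x : Space3 | ‖Flux663.bline (x - posAt 0 p.2, v - u)‖ ≤ ε ∧
            OC663.entT ε (x - posAt 0 p.2, v - u) ∈ Ioo p.2.1 (sig p.1 + r)}.indicator 1 x :=
            lintegral_mono h1
        _ = wG b v * volume {x : Space3 | ‖Flux663.bline (x - posAt 0 p.2, v - u)‖ ≤ ε ∧
            OC663.entT ε (x - posAt 0 p.2, v - u) ∈ Ioo p.2.1 (sig p.1 + r)} := by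
            rw [lintegral_const_mul _ (measurable_one.indicator hms2),
              lintegral_indicator_one hms2]
        _ ≤ wG b v * (ENNReal.ofReal (ε ^ 2) * (ENNReal.ofReal ‖v - u‖ *
            (volume (Ioo p.2.1 (sig p.1 + r)) * volume (Metric.ball (0 : Disc416.Plane) 1)))) :=
            mul_le_mul' le_rfl (vol_ent hε hg measurableSet_Ioo)
        _ ≤ wG b v * (ENNReal.ofReal (ε ^ 2) *
            ((ENNReal.ofReal (1 + ‖v‖) * ENNReal.ofReal (1 + ‖u‖)) *
            (ENNReal.ofReal r * volume (Metric.ball (0 : Disc416.Plane) 1)))) := by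
            have e1 : ENNReal.ofReal ‖v - u‖ ≤
                ENNReal.ofReal (1 + ‖v‖) * ENNReal.ofReal (1 + ‖u‖) := by
              rw [← ENNReal.ofReal_mul (by positivity)]
              exact ENNReal.ofReal_le_ofReal (norm_sub_le_mul v u)
            have e2 : volume (Ioo p.2.1 (sig p.1 + r)) ≤ ENNReal.ofReal r := by
              rw [Real.volume_Ioo]
              exact ENNReal.ofReal_le_ofReal (by linarith)
            gcongr
        _ = _ := by ring
  refine (lintegral_mono key).trans ?_
  rw [lintegral_mul_const]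
  · unfold cV gV
    exact le_of_eq (by ring)
  · exact (measurable_wG b).mul (by fun_prop)

/-! ### Marginal bound with the velocity of the second line -/

/-- velocity weight of the second line, born before the horizon -/
def vI (t' : ℝ) (z : LSt) : ℝ≥0∞ := if z.1 ≤ t' then ENNReal.ofReal (1 + ‖z.2.2‖) else 0

theorem measurable_vI (t' : ℝ) : Measurable (vI t') := by
  unfold vI
  exact Measurable.ite (measurableSet_le measurable_fst measurable_const) (by fun_prop)
    measurable_const

/-- **Marginal bound**, with the velocity of the second line. -/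
theorem le_rhs_vel {P : PPar} {Ξ ν : Measure (Lab × LSt)} {c : ℝ≥0∞} (h : PX P Ξ ν c)
    (hW : GoodW P) {F : ML × ℝ → ℝ≥0∞} (hF : Measurable F) :
    ∫⁻ p, F (p.1.1, p.1.2.1) * vI P.t' p.2 ∂ν ≤
      volume (Metric.ball (0 : Space3) 1) * (2 * (c * P.rhs F)) := by
  have hF' : Measurable fun p : Lab × LSt => F (p.1.1, p.1.2.1) := hF.comp (by fun_prop)
  have hm : Measurable fun p : Lab × LSt => F (p.1.1, p.1.2.1) * vI P.t' p.2 :=
    hF'.mul ((measurable_vI P.t').comp measurable_snd)
  have hwm : Measurable fun p : Lab × LSt =>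
      F (p.1.1, p.1.2.1) * (P.lam₁ ^ p.1.2.2 * P.W p.2) := by
    refine hF'.mul (Measurable.mul ?_ (P.hW.comp measurable_snd))
    exact (Measurable.of_discrete (f := fun n : ℕ => P.lam₁ ^ n)).comp (by fun_prop)
  calc ∫⁻ p, F (p.1.1, p.1.2.1) * vI P.t' p.2 ∂ν
      ≤ ∫⁻ p, avgL sig (fun p => F (p.1.1, p.1.2.1) * vI P.t' p.2) p ∂Ξ := h.spr _ hm
    _ ≤ ∫⁻ p, (volume (Metric.ball (0 : Space3) 1) * 2) *
          (F (p.1.1, p.1.2.1) * (P.lam₁ ^ p.1.2.2 * P.W p.2)) ∂Ξ := by
        refine lintegral_mono fun p => ?_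
        unfold avgL
        calc ∫⁻ u in Metric.ball (0 : Space3) 1,
              F (p.1.1, p.1.2.1) * vI P.t' (gal (sig p.1) u p.2)
            ≤ ∫⁻ _u in Metric.ball (0 : Space3) 1, F (p.1.1, p.1.2.1) * (2 * P.W p.2) := by
              refine setLIntegral_mono' measurableSet_ball fun u hu => ?_
              refine mul_le_mul' le_rfl ?_
              unfold vI gal
              simp only
              split_ifs with hp
              · have h2 := hW.weight p.2 hp u (by simpa using hu)
                have h3 : (1 : ℝ≥0∞) + ENNReal.ofReal ‖p.2.2.2 + u‖ ≤ 2 * P.W p.2 := by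
                  simpa using h2
                rwa [ENNReal.ofReal_add (by norm_num) (norm_nonneg _), ENNReal.ofReal_one]
              · exact bot_le
          _ = (volume (Metric.ball (0 : Space3) 1) * 2) * (F (p.1.1, p.1.2.1) * P.W p.2) := by
              rw [setLIntegral_const]
              ring
          _ ≤ _ := by
              refine mul_le_mul' le_rfl (mul_le_mul' le_rfl ?_)
              exact le_mul_of_one_le_left' (one_le_pow_of_one_le' P.hlam₁ _)
    _ = (volume (Metric.ball (0 : Space3) 1) * 2) * ∫⁻ p,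
          F (p.1.1, p.1.2.1) * (P.lam₁ ^ p.1.2.2 * P.W p.2) ∂Ξ := lintegral_const_mul _ hwm
    _ ≤ (volume (Metric.ball (0 : Space3) 1) * 2) * (c * P.rhs F) :=
        mul_le_mul_right (h.marg F hF) _
    _ = _ := by ring

end Crest.Agent.R122.H5Y814

end
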