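import Crest.Agent.R122.H5Y1_814
import Crest.Agent.R122.H5Q_994

/-!
Row 122 (helper814), young contacts of SP-B: from the trees to the root lines.

* `FYt` : integrand of the young part, `ByS` : young link event of a tree;
* `shape_le`, `sum_le_root` : the young part against the quenched density `Dw` of the root line at the
  link time.
-/

set_option autoImplicit false

open MeasureTheory Set Filter
open scoped ENNReal Topology
open Crest.AnalysisR.Kinetic
open Crest.Agent.R122.Kin796 Crest.Agent.R122.Kin796.CTree Crest.Agent.R122.Tree674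
open Crest.Agent.R122.EDefs602 Crest.Agent.R122.TreeLines335 Crest.Agent.R122.LineMeas994
open Crest.Agent.R122.GC311 Crest.Agent.R122.QDens815 Crest.Agent.R122.Q1815
open Crest.Agent.R122.SPV994 Crest.Agent.R122.Boost969 Crest.Agent.R122.MeasE416
open Crest.Agent.R122.Pair292 hiding ML
open Crest.Agent.R122.H5994

noncomputable section

namespace Crest.Agent.R122.H5Y814

variable {Φ : Space3 → ℝ} {f₀ : PhasePoint → ℝ}

/-- young link event of a tree -/
def ByS (ε te r : ℝ) (P : CTree) (z : PhasePoint × Par P) : Set (Lab × LSt) :=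
  {p | LinkEv ε te (rel P z.2 (root P)) z.1 p.2 ∧ hitT ε z.1 p.2 - sig p.1 < r}

/-- weight of the touch of the first line -/
def tW (Φ : Space3 → ℝ) (ε : ℝ) (K : ℕ) (Q : EPar) (w : Σ n : ℕ, Config n) (p : Lab × LSt) :
    ℝ≥0∞ := (MW.cfg w.2).touchW Φ ε K Q p.1.1

theorem measurable_tW (hΦ : AdmissiblePotential Φ) {ε : ℝ} (hε : 0 < ε) (K : ℕ) (Q : EPar) :
    Measurable fun q : (Σ n : ℕ, Config n) × (Lab × LSt) => tW Φ ε K Q q.1 q.2 := by
  refine Q1815.measurable_sigma_prod fun n => ?_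
  have hq : Measurable fun q : Config n × (Lab × LSt) => (q.1, q.2.1.1) :=
    measurable_fst.prodMk measurable_snd.fst.fst
  have h := (measurable_touchW_cfg hΦ hε K Q n).comp hq
  exact h

theorem tW_le_one {ε : ℝ} {K : ℕ} {Q : EPar} (hL : 0 ≤ Q.L) (w : Σ n : ℕ, Config n)
    (p : Lab × LSt) : tW Φ ε K Q w p ≤ 1 := EBasic602.touchW_le_one hL _

theorem tW_ne_top {ε : ℝ} {K : ℕ} {Q : EPar} (hL : 0 ≤ Q.L) (w : Σ n : ℕ, Config n)
    (p : Lab × LSt) : tW Φ ε K Q w p ≠ ∞ := ne_top_of_le_ne_top ENNReal.one_ne_top (tW_le_one hL w p)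

/-- integrand of the young part -/
def FYt (Φ : Space3 → ℝ) (f₀ : PhasePoint → ℝ) (ε : ℝ) (K : ℕ) (Q : EPar) (P : CTree)
    (w : Σ n : ℕ, Config n) (z : PhasePoint × Par P) (p : Lab × LSt) : ℝ≥0∞ :=
  tws Φ f₀ ε Q.te P z * (gh Φ ε Q.tw P z w * tW Φ ε K Q w p)

/-- the same with the quenched density of the root line -/
def J (Φ : Space3 → ℝ) (f₀ : PhasePoint → ℝ) (ε : ℝ) (K : ℕ) (Q : EPar) (r : ℝ) (P : CTree)
    (ℓ : PhasePoint) (w : Σ n : ℕ, Config n) (p : Lab × LSt) : ℝ≥0∞ :=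
  (By0 ε Q.te r ℓ).indicator (fun p =>
    Dw Φ f₀ P (fun _ => 1) ε Q.tw (hitT ε ℓ p.2) ℓ w.2 * tW Φ ε K Q w p) p

/-- intermediate integrand -/
def G (Φ : Space3 → ℝ) (f₀ : PhasePoint → ℝ) (ε : ℝ) (K : ℕ) (Q : EPar) (r : ℝ) (P : CTree)
    (z : PhasePoint × Par P) (w : Σ n : ℕ, Config n) (p : Lab × LSt) : ℝ≥0∞ :=
  (By0 ε Q.te r z.1).indicator (fun p =>
    gw Φ f₀ P (fun _ => 1) ε (hitT ε z.1 p.2) z.1 z.2 *
      GIV566.unhitInd Φ ε (Q1815.hidM Φ ε P z.1 z.2) Q.tw w.2 * tW Φ ε K Q w p) p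

section

variable (hΦ : AdmissiblePotential Φ) (hf : Measurable f₀) {ε : ℝ} (hε : 0 < ε) {K : ℕ} {Q : EPar}
  {r : ℝ} {ν : Measure (Lab × LSt)}

theorem mset_pull {α : Type*} [MeasurableSpace α] {ℓ : α → PhasePoint} {p : α → Lab × LSt}
    (ε te r : ℝ) (hℓ : Measurable ℓ) (hp : Measurable p) :
    MeasurableSet {q : α | p q ∈ By0 ε te r (ℓ q)} :=
  (hℓ.prodMk hp) (measurableSet_By0 ε te r)

theorem ind_eq {α β : Type*} (p : α → β) (S : α → Set β) (F : α → β → ℝ≥0∞) :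
    (fun q : α => (S q).indicator (fun b => F q b) (p q)) =
      {q : α | p q ∈ S q}.indicator fun q => F q (p q) := by
  funext q
  by_cases h : p q ∈ S q
  · rw [indicator_of_mem h, indicator_of_mem (show q ∈ {q : α | p q ∈ S q} from h)]
  · rw [indicator_of_notMem h, indicator_of_notMem (show q ∉ {q : α | p q ∈ S q} from h)]

include hΦ hf hε

theorem measurable_G (P : CTree) :
    Measurable fun q : ((PhasePoint × Par P) × (Σ n : ℕ, Config n)) × (Lab × LSt) =>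
      G Φ f₀ ε K Q r P q.1.1 q.1.2 q.2 := by
  have hhit : Measurable fun q : ((PhasePoint × Par P) × (Σ n : ℕ, Config n)) × (Lab × LSt) =>
      hitT ε q.1.1.1 q.2.2 := measurable_hitT' ε measurable_fst.fst.fst measurable_snd.snd
  have h1 : Measurable fun q : ((PhasePoint × Par P) × (Σ n : ℕ, Config n)) × (Lab × LSt) =>
      gw Φ f₀ P (fun _ => 1) ε (hitT ε q.1.1.1 q.2.2) q.1.1.1 q.1.1.2 := by
    have hq : Measurable fun q : ((PhasePoint × Par P) × (Σ n : ℕ, Config n)) × (Lab × LSt) =>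
        ((hitT ε q.1.1.1 q.2.2, q.1.1.1), q.1.1.2) :=
      (hhit.prodMk measurable_fst.fst.fst).prodMk measurable_fst.fst.snd
    have h := (measurable_gw hΦ hf (φ := fun _ => 1) measurable_const ε (P := P)).comp hq
    exact h
  have h2 : Measurable fun q : ((PhasePoint × Par P) × (Σ n : ℕ, Config n)) × (Lab × LSt) =>
      GIV566.unhitInd Φ ε (Q1815.hidM Φ ε P q.1.1.1 q.1.1.2) Q.tw q.1.2.2 := by
    have h := measurable_unhit_hidM hΦ hε P (tw := Q.tw) (W := PhasePoint × Par P)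
      (ℓ := fun z => z.1) measurable_fst (p := fun z => z.2) measurable_snd
    have hq : Measurable fun q : ((PhasePoint × Par P) × (Σ n : ℕ, Config n)) × (Lab × LSt) =>
        (q.1.2, q.1.1) := measurable_fst.snd.prodMk measurable_fst.fst
    have h' := h.comp hq
    exact h'
  have h3 : Measurable fun q : ((PhasePoint × Par P) × (Σ n : ℕ, Config n)) × (Lab × LSt) =>
      tW Φ ε K Q q.1.2 q.2 := by
    have hq : Measurable fun q : ((PhasePoint × Par P) × (Σ n : ℕ, Config n)) × (Lab × LSt) =>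
        (q.1.2, q.2) := measurable_fst.snd.prodMk measurable_snd
    have h := (measurable_tW hΦ hε K Q).comp hq
    exact h
  have h4 := ((h1.mul h2).mul h3).indicator (mset_pull ε Q.te r
    (ℓ := fun q : ((PhasePoint × Par P) × (Σ n : ℕ, Config n)) × (Lab × LSt) => q.1.1.1)
    (p := fun q => q.2) measurable_fst.fst.fst measurable_snd)
  unfold G
  rw [ind_eq (fun q : ((PhasePoint × Par P) × (Σ n : ℕ, Config n)) × (Lab × LSt) => q.2)
    (fun q => By0 ε Q.te r q.1.1.1) (fun q p =>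
      gw Φ f₀ P (fun _ => 1) ε (hitT ε q.1.1.1 p.2) q.1.1.1 q.1.1.2 *
      GIV566.unhitInd Φ ε (Q1815.hidM Φ ε P q.1.1.1 q.1.1.2) Q.tw q.1.2.2 *
        tW Φ ε K Q q.1.2 p)]
  exact h4

theorem measurable_J (P : CTree) :
    Measurable fun q : (PhasePoint × (Σ n : ℕ, Config n)) × (Lab × LSt) =>
      J Φ f₀ ε K Q r P q.1.1 q.1.2 q.2 := by
  have hhit : Measurable fun q : (PhasePoint × (Σ n : ℕ, Config n)) × (Lab × LSt) =>
      hitT ε q.1.1 q.2.2 := measurable_hitT' ε measurable_fst.fst measurable_snd.snd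
  have h1 : Measurable fun q : (PhasePoint × (Σ n : ℕ, Config n)) × (Lab × LSt) =>
      Dw Φ f₀ P (fun _ => 1) ε Q.tw (hitT ε q.1.1 q.2.2) q.1.1 q.1.2.2 := by
    have hq : Measurable fun q : (PhasePoint × (Σ n : ℕ, Config n)) × (Lab × LSt) =>
        (q.1.2, (hitT ε q.1.1 q.2.2, q.1.1)) :=
      measurable_fst.snd.prodMk (hhit.prodMk measurable_fst.fst)
    have h := (measurable_Dw hΦ hf (P := P) (φ := fun _ => 1) measurable_const hε Q.tw).comp hq
    exact h
  have h3 : Measurable fun q : (PhasePoint × (Σ n : ℕ, Config n)) × (Lab × LSt) =>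
      tW Φ ε K Q q.1.2 q.2 := by
    have hq : Measurable fun q : (PhasePoint × (Σ n : ℕ, Config n)) × (Lab × LSt) =>
        (q.1.2, q.2) := measurable_fst.snd.prodMk measurable_snd
    have h := (measurable_tW hΦ hε K Q).comp hq
    exact h
  have h4 := (h1.mul h3).indicator (mset_pull ε Q.te r
    (ℓ := fun q : (PhasePoint × (Σ n : ℕ, Config n)) × (Lab × LSt) => q.1.1)
    (p := fun q => q.2) measurable_fst.fst measurable_snd)
  unfold J
  rw [ind_eq (fun q : (PhasePoint × (Σ n : ℕ, Config n)) × (Lab × LSt) => q.2)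
    (fun q => By0 ε Q.te r q.1.1) (fun q p =>
      Dw Φ f₀ P (fun _ => 1) ε Q.tw (hitT ε q.1.1 p.2) q.1.1 q.1.2.2 *
        tW Φ ε K Q q.1.2 p)]
  exact h4

omit hΦ hf hε in
theorem measurableSet_ByS (ε te r : ℝ) (P : CTree) (z : PhasePoint × Par P) :
    MeasurableSet (ByS ε te r P z) := by
  have h1 : MeasurableSet {p : Lab × LSt | LinkEv ε te (rel P z.2 (root P)) z.1 p.2} :=
    measurableSet_linkEv ε te (ℓ := fun _ : Lab × LSt => z.1) (a := fun _ => rel P z.2 (root P))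
      (e := fun p => p.2) measurable_const measurable_const measurable_snd
  have h2 : Measurable fun p : Lab × LSt => hitT ε z.1 p.2 - sig p.1 :=
    (measurable_hitT' ε (ℓ := fun _ : Lab × LSt => z.1) (e := fun p => p.2) measurable_const
      measurable_snd).sub (measurable_sig.comp measurable_fst)
  exact mset_ind_lt h1 h2 measurable_const

omit hΦ hf in
theorem FYt_le_G (P : CTree) (z : PhasePoint × Par P) (w : Σ n : ℕ, Config n) {p : Lab × LSt}
    (hp : p ∈ ByS ε Q.te r P z) : FYt Φ f₀ ε K Q P w z p ≤ G Φ f₀ ε K Q r P z w p := by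
  have h0 : p ∈ By0 ε Q.te r z.1 := By0_of hp
  unfold G
  rw [indicator_of_mem h0]
  unfold FYt tws
  by_cases hV : Valid Φ ε P Q.te z.1.2 z.2 ∧ Sep Φ ε P Q.te z.1 z.2
  swap
  · rw [if_neg hV, zero_mul]; exact bot_le
  rw [if_pos hV]
  obtain ⟨⟨-, hu0, -, hur, hut⟩, -⟩ := hp
  have hVu : Valid Φ ε P (hitT ε z.1 p.2) z.1.2 z.2 := (valid_at hu0 hut).2 ⟨hV.1, hur⟩
  have h1 : gw Φ f₀ P (fun _ => 1) ε (hitT ε z.1 p.2) z.1 z.2 = tw₀ Φ f₀ ε Q.te P z := by
    unfold tw₀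
    rw [gw_of_valid hVu, gw_of_valid hV.1]
  rw [h1, hidM_of_adm (ℓ := z.1) hVu.1, mul_assoc]
  refine mul_le_mul' le_rfl (mul_le_mul' ?_ le_rfl)
  exact gh_le_hid hε.le hu0 hVu w

/-- one shape -/
theorem shape_le (hL : 0 ≤ Q.L) [SFinite ν] (P : CTree) :
    ∫⁻ z : PhasePoint × Par P, ∫⁻ w, ∫⁻ p in ByS ε Q.te r P z, FYt Φ f₀ ε K Q P w z p
      ∂ν ∂gcM f₀ ε ≤
      ∫⁻ ℓ : PhasePoint, ∫⁻ w, ∫⁻ p, J Φ f₀ ε K Q r P ℓ w p ∂ν ∂gcM f₀ ε := by
  have hG := measurable_G hΦ hf hε (K := K) (Q := Q) (r := r) P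
  have hGp : Measurable fun q : (PhasePoint × Par P) × (Σ n : ℕ, Config n) =>
      ∫⁻ p, G Φ f₀ ε K Q r P q.1 q.2 p ∂ν := hG.lintegral_prod_right'
  have hGw : Measurable fun z : PhasePoint × Par P =>
      ∫⁻ w, ∫⁻ p, G Φ f₀ ε K Q r P z w p ∂ν ∂gcM f₀ ε := hGp.lintegral_prod_right'
  calc ∫⁻ z : PhasePoint × Par P, ∫⁻ w, ∫⁻ p in ByS ε Q.te r P z, FYt Φ f₀ ε K Q P w z p
      ∂ν ∂gcM f₀ ε
      ≤ ∫⁻ z : PhasePoint × Par P, ∫⁻ w, ∫⁻ p, G Φ f₀ ε K Q r P z w p ∂ν ∂gcM f₀ ε := by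
        refine lintegral_mono fun z => lintegral_mono fun w => ?_
        rw [← lintegral_indicator (measurableSet_ByS ε Q.te r P z)]
        refine lintegral_mono fun p => ?_
        by_cases hp : p ∈ ByS ε Q.te r P z
        · rw [indicator_of_mem hp]
          exact FYt_le_G hε P z w hp
        · rw [indicator_of_notMem hp]
          exact bot_le
    _ = ∫⁻ ℓ : PhasePoint, ∫⁻ q : Par P, ∫⁻ w, ∫⁻ p, G Φ f₀ ε K Q r P (ℓ, q) w p
          ∂ν ∂gcM f₀ ε := lintegral_prod _ hGw.aemeasurable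
    _ = ∫⁻ ℓ : PhasePoint, ∫⁻ w, ∫⁻ p, J Φ f₀ ε K Q r P ℓ w p ∂ν ∂gcM f₀ ε := by
        refine lintegral_congr fun ℓ => ?_
        have hs1 : ∫⁻ q : Par P, ∫⁻ w, ∫⁻ p, G Φ f₀ ε K Q r P (ℓ, q) w p ∂ν ∂gcM f₀ ε =
            ∫⁻ w, ∫⁻ q : Par P, ∫⁻ p, G Φ f₀ ε K Q r P (ℓ, q) w p ∂ν ∂volume ∂gcM f₀ ε := by
          refine lintegral_lintegral_swap (f := fun (q : Par P) (w : Σ n : ℕ, Config n) =>
            ∫⁻ p, G Φ f₀ ε K Q r P (ℓ, q) w p ∂ν) ?_
          have hq : Measurable fun x : Par P × (Σ n : ℕ, Config n) => ((ℓ, x.1), x.2) :=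
            (measurable_const.prodMk measurable_fst).prodMk measurable_snd
          exact (hGp.comp hq).aemeasurable
        rw [hs1]
        refine lintegral_congr fun w => ?_
        have hs2 : ∫⁻ q : Par P, ∫⁻ p, G Φ f₀ ε K Q r P (ℓ, q) w p ∂ν =
            ∫⁻ p, ∫⁻ q : Par P, G Φ f₀ ε K Q r P (ℓ, q) w p ∂volume ∂ν := by
          refine lintegral_lintegral_swap (f := fun (q : Par P) (p : Lab × LSt) =>
            G Φ f₀ ε K Q r P (ℓ, q) w p) ?_
          have hq : Measurable fun x : Par P × (Lab × LSt) => (((ℓ, x.1), w), x.2) :=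
            ((measurable_const.prodMk measurable_fst).prodMk measurable_const).prodMk
              measurable_snd
          exact (hG.comp hq).aemeasurable
        rw [hs2]
        refine lintegral_congr fun p => ?_
        unfold J G
        by_cases hp : p ∈ By0 ε Q.te r ℓ
        · simp only [indicator_of_mem hp]
          rw [Dw_eq_M, ← lintegral_mul_const' _ _ (tW_ne_top hL w p)]
        · simp only [indicator_of_notMem hp, lintegral_zero]

/-- all shapes -/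
theorem sum_le_root (hL : 0 ≤ Q.L) [SFinite ν] :
    ∑ P ∈ GIVStep383.trees K, ∫⁻ z : PhasePoint × Par P, ∫⁻ w, ∫⁻ p in ByS ε Q.te r P z,
      FYt Φ f₀ ε K Q P w z p ∂ν ∂gcM f₀ ε ≤
      ∫⁻ ℓ : PhasePoint, ∫⁻ w : (Σ n : ℕ, Config n), ∫⁻ p in By0 ε Q.te r ℓ,
        (∑ P ∈ GIVStep383.trees K, Dw Φ f₀ P (fun _ => 1) ε Q.tw (hitT ε ℓ p.2) ℓ w.2) *
          tW Φ ε K Q w p ∂ν ∂gcM f₀ ε := by
  refine (Finset.sum_le_sum fun P _ => shape_le hΦ hf hε (K := K) (Q := Q) (r := r) (ν := ν) hL P).trans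
    (le_of_eq ?_)
  have hJ := fun P => measurable_J hΦ hf hε (K := K) (Q := Q) (r := r) P
  have hJp : ∀ P, Measurable fun q : PhasePoint × (Σ n : ℕ, Config n) =>
      ∫⁻ p, J Φ f₀ ε K Q r P q.1 q.2 p ∂ν := fun P => (hJ P).lintegral_prod_right'
  have hJw : ∀ P, Measurable fun ℓ : PhasePoint =>
      ∫⁻ w, ∫⁻ p, J Φ f₀ ε K Q r P ℓ w p ∂ν ∂gcM f₀ ε := fun P => (hJp P).lintegral_prod_right'
  rw [← lintegral_finsetSum _ fun P _ => hJw P]
  refine lintegral_congr fun ℓ => ?_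
  have h2 : ∀ P, Measurable fun w : Σ n : ℕ, Config n => ∫⁻ p, J Φ f₀ ε K Q r P ℓ w p ∂ν := by
    intro P
    have hq : Measurable fun w : Σ n : ℕ, Config n => (ℓ, w) :=
      measurable_const.prodMk measurable_id
    have h := (hJp P).comp hq
    exact h
  rw [← lintegral_finsetSum _ fun P _ => h2 P]
  refine lintegral_congr fun w => ?_
  have h3 : ∀ P, Measurable fun p : Lab × LSt => J Φ f₀ ε K Q r P ℓ w p := by
    intro P
    have hq : Measurable fun p : Lab × LSt => ((ℓ, w), p) :=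
      measurable_const.prodMk measurable_id
    have h := (hJ P).comp hq
    exact h
  rw [← lintegral_finsetSum _ fun P _ => h3 P]
  have hB : MeasurableSet (By0 ε Q.te r ℓ) :=
    (measurableSet_By0 ε Q.te r).preimage measurable_prodMk_left
  rw [← lintegral_indicator hB]
  refine lintegral_congr fun p => ?_
  unfold J
  by_cases hp : p ∈ By0 ε Q.te r ℓ
  · simp only [indicator_of_mem hp]
    rw [Finset.sum_mul]
  · simp only [indicator_of_notMem hp, Finset.sum_const_zero]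

end

end Crest.Agent.R122.H5Y814

end
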