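import Crest.Agent.R122.InEq2Defs_311
import Crest.Agent.R122.BandUp_674

/-!
Row 122, F7 (helper674): real histories on a fixed horizon (`HTreeC` of `InEq2Defs_311`):
characterisation by cluster and last activity times, joint measurability, relabelling, and the
fixed time form `RealTree`.
-/

set_option autoImplicit false
set_option synthInstance.maxSize 1024

open MeasureTheory Set Filter Topology
open Crest.AnalysisR.Kinetic
open scoped ENNReal Classical

noncomputable section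

namespace Crest.Agent.R122.HTree674

open Kin796 Kin796.CTree Disc416 Scat818 Flow671 Flux663 Tree674 Final973 Causal291 GC311
  Relabel674 Master566 GIV566 RealTree674 InEq2

variable {Φ : Space3 → ℝ} {ε T' u t : ℝ}

section iffs

variable {κ : Type} [Fintype κ] {Z : κ → PhasePoint} {i : κ} {P : CTree} {ℓ : PhasePoint}
  {p : Par P} {e : Idx P → κ}

/-- the last activity times of a history on a fixed horizon -/
theorem hTreeC_tau (h : HTreeC Φ ε T' u Z i P ℓ p e) (hε : 0 < ε) (hu : 0 ≤ u) (huT : u ≤ T')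
    (m : Idx P) : Causal291.tau (Ct (pth Φ ε Z) ε) u i (e m) = min (prot P T' p m) u := by
  have h0 := h.prot_nonneg hε (hu.trans huT) m
  have hm0 : 0 ≤ min (prot P T' p m) u := le_min h0 hu
  have hpm : Past (Ct (pth Φ ε Z) ε) u i (min (prot P T' p m) u) (e m) :=
    (h.past _ ⟨hm0, min_le_right _ _⟩ _).2 ⟨m, rfl, min_le_left _ _⟩
  refine le_antisymm (csSup_le ⟨_, hpm⟩ fun s hs => ?_) (le_csSup (bddAbove_past _) hpm)
  rcases le_total s 0 with h1 | h1
  · exact h1.trans hm0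
  · refine le_min ?_ hs.le
    obtain ⟨m', hm', h2⟩ := (h.past s ⟨h1, hs.le⟩ _).1 hs
    rwa [h.inj hm'] at h2

theorem hTreeC_iff (hΦ : AdmissiblePotential Φ) (hε : 0 < ε) (hu : 0 ≤ u) (huT : u ≤ T')
    (hZ : Z ∈ Dom Φ κ) : HTreeC Φ ε T' u Z i P ℓ p e ↔ Valid Φ ε P T' ℓ.2 p ∧ Sep Φ ε P T' ℓ p ∧
      e (Tree674.root P) = i ∧ Function.Injective e ∧ topIn Φ ε P ℓ.2 p ≤ u ∧
      (∀ k, Z (e k) = lines Φ ε P ℓ p k) ∧ bc Φ ε Z u i = range e ∧
      ∀ m, Causal291.tau (Ct (pth Φ ε Z) ε) u i (e m) = min (prot P T' p m) u := by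
  have hT : 0 ≤ T' := hu.trans huT
  constructor
  · intro h
    exact ⟨h.valid, h.sep, h.root, h.inj, h.top, fun k => h.lines_eq hΦ hε hT hu k,
      (h.range_eq hε hT hu).symm, hTreeC_tau h hε hu huT⟩
  · rintro ⟨hv, hs, hr, hi, htop, hl, hb, hτ⟩
    have hC : ∀ j k, IsClosed {s | Ct (pth Φ ε Z) ε s j k} := isClosed_ct_pth hΦ hε Z
    have hp : ∀ s ∈ Icc 0 u, ∀ j, Past (Ct (pth Φ ε Z) ε) u i s j ↔
        ∃ m, e m = j ∧ s ≤ prot P T' p m := by
      intro s hs' j
      constructor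
      · intro h
        have h1 : j ∈ bc Φ ε Z u i := h.mono hs'.1
        rw [hb] at h1
        obtain ⟨m, rfl⟩ := h1
        exact ⟨m, rfl, ((le_tau h).trans_eq (hτ m)).trans (min_le_left _ _)⟩
      · rintro ⟨m, rfl, hm⟩
        have h1 : e m ∈ bc Φ ε Z u i := by rw [hb]; exact mem_range_self m
        have h0 : Past (Ct (pth Φ ε Z) ε) u i 0 (e m) := h1
        rw [past_iff_le_tau hC h0, hτ m]
        exact le_min hm hs'.2
    refine ⟨hv, hs, hr, hi, htop, ?_, hp⟩
    have hpath : ∀ s ∈ Icc 0 u, pth Φ ε (lines Φ ε P ℓ p) s = path Φ ε P ℓ p s := fun s hs' =>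
      (PathFlow968.path_eq_flow hΦ hε hv hs ⟨hs'.1, hs'.2.trans huT⟩).symm
    have key := agree_of_antitone (ι₁ := κ) (ι₂ := Idx P) (κ := Idx P) (ε := ε) (T := u)
      (z₁ := pth Φ ε Z) (z₂ := pth Φ ε (lines Φ ε P ℓ p)) (e₁ := e) (e₂ := id)
      (fun j => (continuous_pth hΦ hε Z j).continuousOn)
      (fun j => (continuous_pth hΦ hε _ j).continuousOn)
      (locUniq_pth hΦ hε u hZ (RealTree674.lines_dom hε hT hv hs)) hi Function.injective_id
      (fun s => {k | s ≤ prot P T' p k}) (fun s s' _ hss' _ k hk => hss'.trans hk)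
      (fun k _ => by
        show flow Φ ε 0 Z (e k) = flow Φ ε 0 (lines Φ ε P ℓ p) k
        rw [Flow671.flow_zero hΦ hε, Flow671.flow_zero hΦ hε]
        exact hl k)
      (fun s hs' hag => by
        have hsI : s ∈ Icc 0 u := ⟨hs'.1, hs'.2.le⟩
        refine ⟨?_, ?_⟩
        · intro k hk j hj
          by_contra hle
          rw [not_lt] at hle
          have h1 : Past (Ct (pth Φ ε Z) ε) u i s (e k) := (hp s hsI _).2 ⟨k, rfl, hk⟩
          obtain ⟨m, hm, hm2⟩ := (hp s hsI _).1 (h1.contact hle)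
          exact hj ⟨m, hm2, hm⟩
        · intro k hk j hj
          have hj' : prot P T' p j < s := by
            by_contra hle
            exact hj ⟨j, not_lt.1 hle, rfl⟩
          rw [hpath s hsI]
          exact RealTree674.sep_active hε hv hs ⟨hsI.1, hsI.2.trans huT⟩ hk hj')
    intro k s hs0 hsu hsp
    have := key s ⟨hs0, hsu⟩ k hsp
    rw [hpath s ⟨hs0, hsu⟩] at this
    exact this

/-- A history on the horizon `T'` whose top collision is finished before `t` is a real tree. -/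
theorem realTree_of_hTreeC (h : HTreeC Φ ε T' t Z i P ℓ p e) (hε : 0 < ε) (htT : t ≤ T')
    (htop : TopLt P t p) : RealTree Φ ε t Z i P ℓ p e := by
  have hv : Valid Φ ε P t ℓ.2 p := (valid_iff_top htT).2 ⟨h.valid, htop⟩
  have hprot : ∀ s ≤ t, ∀ k, s ≤ prot P T' p k ↔ s ≤ prot P t p k := by
    intro s hs k
    by_cases hk : k = Tree674.root P
    · subst hk
      rw [Final973.prot_root, Final973.prot_root]
      exact ⟨fun _ => hs, fun _ => hs.trans htT⟩
    · rw [PathFlow968.prot_eq_of_ne P T' t p hk]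
  refine ⟨hv, ?_, h.root, h.inj, ?_, ?_⟩
  · intro k k' hkk' s hs hw hw'
    exact h.sep k k' hkk' s ⟨hs.1, hs.2.trans htT⟩ hw hw'
  · intro k s hs0 hs
    have hst : s ≤ t := hs.trans (Final973.prot_le P p k hε.le hv.2)
    exact h.agree k s hs0 hst ((hprot s hst k).2 hs)
  · intro s hs j
    rw [h.past s hs j]
    constructor
    · rintro ⟨m, hm, h1⟩; exact ⟨m, hm, (hprot s hs.2 m).1 h1⟩
    · rintro ⟨m, hm, h1⟩; exact ⟨m, hm, (hprot s hs.2 m).2 h1⟩

/-- If the history is a tree on the horizon `T'` but not a real tree at `t`, then `t` is in the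
window of the top collision. -/
theorem window_of_not_good (h : HTreeC Φ ε T' t Z i P ℓ p e) (hε : 0 < ε) (htT : t ≤ T')
    (hng : ¬ Good Φ ε t Z i) : topIn Φ ε P ℓ.2 p ≤ t ∧ t ≤ topOut P p ∧ P ≠ leaf := by
  refine ⟨h.top, ?_, ?_⟩
  · by_contra hlt
    rw [not_le] at hlt
    refine hng ⟨P, ℓ, p, e, realTree_of_hTreeC h hε htT ?_⟩
    cases P with
    | leaf => trivial
    | node l r => exact hlt
  · rintro rfl
    exact hng ⟨leaf, ℓ, p, e, realTree_of_hTreeC h hε htT trivial⟩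

end iffs

/-! ### Relabelling -/

theorem hTreeC_equiv (hΦ : AdmissiblePotential Φ) (hε : 0 < ε) {ι κ : Type} [Fintype ι]
    [Fintype κ] (σ : ι ≃ κ) (Z : κ → PhasePoint) (i : ι) {P : CTree} {ℓ : PhasePoint} {p : Par P}
    (e : Idx P → ι) : HTreeC Φ ε T' u (fun j => Z (σ j)) i P ℓ p e ↔
      HTreeC Φ ε T' u Z (σ i) P ℓ p (fun k => σ (e k)) := by
  have hp : ∀ s k, pth Φ ε (fun j => Z (σ j)) s (e k) = pth Φ ε Z s (σ (e k)) := fun s k =>
    congrFun (Loc45.flow_equiv hΦ hε σ s Z) (e k)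
  constructor
  · intro h
    refine ⟨h.valid, h.sep, congrArg σ h.root, σ.injective.comp h.inj, h.top,
      fun k s hs0 hs hs' => ?_, fun s hs j => ?_⟩
    · rw [← hp]; exact h.agree k s hs0 hs hs'
    · obtain ⟨j', rfl⟩ := σ.surjective j
      rw [← past_pth_equiv hΦ hε σ Z u s i j', h.past s hs j']
      simp only [σ.injective.eq_iff]
  · intro h
    refine ⟨h.valid, h.sep, σ.injective h.root, fun k k' hk => h.inj (congrArg σ hk), h.top,
      fun k s hs0 hs hs' => ?_, fun s hs j => ?_⟩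
    · rw [hp]; exact h.agree k s hs0 hs hs'
    · rw [past_pth_equiv hΦ hε σ Z u s i j, h.past s hs (σ j)]
      simp only [σ.injective.eq_iff]

/-! ### Measurability -/

/-- measurable version of the entrance time of the top collision -/
def topInM (Φ : Space3 → ℝ) (ε : ℝ) : ∀ P : CTree, Space3 → Par P → ℝ
  | leaf => fun _ _ => 0
  | node _ _ => fun v p => sM Φ ε (v, p.1)

theorem topInM_of_adm {P : CTree} {v : Space3} {p : Par P} (h : Adm Φ P v p) :
    topInM Φ ε P v p = topIn Φ ε P v p := by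
  cases P with
  | leaf => rfl
  | node l r => exact sM_of_adm (z := (v, p.1)) h.1

theorem measurable_topInM (hΦ : AdmissiblePotential Φ) (P : CTree) :
    Measurable fun z : Space3 × Par P => topInM Φ ε P z.1 z.2 := by
  cases P with
  | leaf => exact measurable_const
  | node l r =>
    exact (measurable_sM hΦ ε).comp (f := fun z : Space3 × Par (node l r) => (z.1, z.2.1))
      (measurable_fst.prodMk ((measurable_par1 l r).comp measurable_snd))

theorem measurable_topOut (P : CTree) : Measurable (topOut P) := by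
  cases P with
  | leaf => exact measurable_const
  | node l r => exact (measurable_par1 l r).fst

section meas

variable {κ : Type} [Fintype κ]

/-- **Joint measurability of histories on a fixed horizon**, with a measurable condition on the
tree parameters and the configuration. -/
theorem measurableSet_hTreeC (hΦ : AdmissiblePotential Φ) (hε : 0 < ε) (i : κ) (P : CTree)
    (e : Idx P → κ) (T' : ℝ)
    {Q : Set (ℝ × ((PhasePoint × Par P) × (κ → PhasePoint)))} (hQ : MeasurableSet Q) :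
    MeasurableSet {q : ℝ × (κ → PhasePoint) | (0 ≤ q.1 ∧ q.1 ≤ T' ∧ q.2 ∈ Dom Φ κ) ∧
      ∃ (ℓ : PhasePoint) (p : Par P), HTreeC Φ ε T' q.1 q.2 i P ℓ p e ∧
        (q.1, ((ℓ, p), q.2)) ∈ Q} := by
  by_cases hri : e (Tree674.root P) = i ∧ Function.Injective e
  swap
  · have : {q : ℝ × (κ → PhasePoint) | (0 ≤ q.1 ∧ q.1 ≤ T' ∧ q.2 ∈ Dom Φ κ) ∧
        ∃ (ℓ : PhasePoint) (p : Par P), HTreeC Φ ε T' q.1 q.2 i P ℓ p e ∧
        (q.1, ((ℓ, p), q.2)) ∈ Q} = ∅ := by
      ext q
      simp only [mem_ofPred_eq, mem_empty_iff_false, iff_false]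
      rintro ⟨_, ℓ, p, h, _⟩
      exact hri ⟨h.root, h.inj⟩
    rw [this]
    exact MeasurableSet.empty
  obtain ⟨hr, hi⟩ := hri
  have hres : Measurable fun q : ℝ × (κ → PhasePoint) => (fun x => q.2 (e x) : Idx P → PhasePoint) :=
    measurable_pi_iff.2 fun x => (measurable_pi_apply (e x)).comp measurable_snd
  set I : ℝ × (κ → PhasePoint) → PhasePoint × Par P := fun q =>
    Tree674.inv Φ ε P T' (fun x => q.2 (e x)) with hI
  have hIm : Measurable I := (measurable_inv hΦ hε P T').comp hres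
  have hset : {q : ℝ × (κ → PhasePoint) | (0 ≤ q.1 ∧ q.1 ≤ T' ∧ q.2 ∈ Dom Φ κ) ∧
      ∃ (ℓ : PhasePoint) (p : Par P), HTreeC Φ ε T' q.1 q.2 i P ℓ p e ∧
        (q.1, ((ℓ, p), q.2)) ∈ Q} =
      {q | 0 ≤ q.1} ∩ ({q | q.1 ≤ T'} ∩ ({q | q.2 ∈ Dom Φ κ} ∩
      ({q | (fun x => q.2 (e x)) ∈ SkS Φ ε P T'} ∩
      ({q | topInM Φ ε P (I q).1.2 (I q).2 ≤ q.1} ∩
      ({q | BC (Ct (pth Φ ε q.2) ε) q.1 i = range e} ∩
      ((⋂ m, {q | Causal291.tau (Ct (pth Φ ε q.2) ε) q.1 i (e m) =
        min (prot P T' (I q).2 m) q.1}) ∩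
      {q | (q.1, (I q, q.2)) ∈ Q})))))) := by
    ext q
    simp only [mem_inter_iff, mem_ofPred_eq, mem_iInter]
    constructor
    · rintro ⟨⟨h0, hT, hD⟩, ℓ, p, h, hq⟩
      have h1 := (hTreeC_iff hΦ hε h0 hT hD).1 h
      obtain ⟨hv, hs, -, -, htop, hl, hb, hτ⟩ := h1
      have hl' : (fun x => q.2 (e x)) = lines Φ ε P ℓ p := funext hl
      have hIq : I q = (ℓ, p) := by
        rw [hI]
        show Tree674.inv Φ ε P T' (fun x => q.2 (e x)) = (ℓ, p)
        rw [hl']
        exact inv_lines hΦ hε hv le_rfl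
      rw [hIq]
      refine ⟨h0, hT, hD, ⟨ℓ, p, hv, hs, hl'.symm⟩, ?_, hb, hτ, hq⟩
      rw [topInM_of_adm hv.1]
      exact htop
    · rintro ⟨h0, hT, hD, hsk, htop, hb, hτ, hq⟩
      obtain ⟨hsk1, hs⟩ := (mem_skS_iff hΦ hε).1 hsk
      obtain ⟨hv, hl⟩ := lines_inv hΦ hε hsk1
      rw [topInM_of_adm hv.1] at htop
      refine ⟨⟨h0, hT, hD⟩, (I q).1, (I q).2, (hTreeC_iff hΦ hε h0 hT hD).2
        ⟨hv, hs, hr, hi, htop, fun k => ?_, hb, hτ⟩, hq⟩
      exact (congrFun hl k).symm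
  rw [hset]
  refine (measurableSet_le measurable_const measurable_fst).inter
    ((measurableSet_le measurable_fst measurable_const).inter
    ((measurable_snd (measurableSet_Dom Φ κ)).inter
    ((hres (measurableSet_skS hΦ hε P T')).inter
    ((measurableSet_le ((measurable_topInM hΦ P).comp
      (f := fun q => ((I q).1.2, (I q).2)) (hIm.fst.snd.prodMk hIm.snd)) measurable_fst).inter
    ((measurableSet_BC_eq_pth hΦ hε i (range e)).inter
    ((MeasurableSet.iInter fun m => ?_).inter ?_))))))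
  · exact measurableSet_eq_fun (measurable_tau_pth hΦ hε i (e m))
      (((measurable_prot P m).comp (f := fun q => (T', (I q).2))
        (measurable_const.prodMk hIm.snd)).min measurable_fst)
  · exact (measurable_fst.prodMk (hIm.prodMk measurable_snd)) hQ

/-- "the history is a tree on the horizon `T'`" is jointly measurable. -/
theorem measurableSet_hist (hΦ : AdmissiblePotential Φ) (hε : 0 < ε) (i : κ) (T' : ℝ) :
    MeasurableSet {q : ℝ × (κ → PhasePoint) | (0 ≤ q.1 ∧ q.1 ≤ T' ∧ q.2 ∈ Dom Φ κ) ∧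
      ∃ (P : CTree) (ℓ : PhasePoint) (p : Par P) (e : Idx P → κ),
        HTreeC Φ ε T' q.1 q.2 i P ℓ p e} := by
  have h : {q : ℝ × (κ → PhasePoint) | (0 ≤ q.1 ∧ q.1 ≤ T' ∧ q.2 ∈ Dom Φ κ) ∧
      ∃ (P : CTree) (ℓ : PhasePoint) (p : Par P) (e : Idx P → κ),
        HTreeC Φ ε T' q.1 q.2 i P ℓ p e} = ⋃ P : CTree, ⋃ e : Idx P → κ,
      {q : ℝ × (κ → PhasePoint) | (0 ≤ q.1 ∧ q.1 ≤ T' ∧ q.2 ∈ Dom Φ κ) ∧
      ∃ (ℓ : PhasePoint) (p : Par P), HTreeC Φ ε T' q.1 q.2 i P ℓ p e ∧
        (q.1, ((ℓ, p), q.2)) ∈ (univ : Set (ℝ × ((PhasePoint × Par P) × (κ → PhasePoint))))} := by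
    ext q
    simp only [mem_ofPred_eq, mem_iUnion, mem_univ, and_true]
    constructor
    · rintro ⟨h0, P, ℓ, p, e, h⟩
      exact ⟨P, e, h0, ℓ, p, h⟩
    · rintro ⟨P, e, h0, ℓ, p, h⟩
      exact ⟨h0, P, ℓ, p, e, h⟩
  rw [h]
  exact MeasurableSet.iUnion fun P => MeasurableSet.iUnion fun e =>
    measurableSet_hTreeC hΦ hε i P e T' MeasurableSet.univ

end meas

end Crest.Agent.R122.HTree674

end
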