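import Crest.Agent.R122.LNS1_674
import Crest.Agent.R122.LNGraft_410
import Crest.Agent.R122.PWBirth_365
import Crest.Agent.R122.EFam_879
import Crest.Agent.R122.MWFam2_255

/-!
# Row 122, LN1 (helper515): exits of ONE class as a family of helper674's frame

* `OneCls` : the lines `ls x` (labels `p x`) are exits of the class `S` of the structure.
* `OneCls.exits0` : `Exits` over the base world `cfg w`.
* `OneCls.exits1` : `Exits` over the base world `(cfg w).ins (ls d)`, off the birth events (`NoB`).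
-/

set_option autoImplicit false
set_option linter.unusedSectionVars false

open MeasureTheory Set Filter Topology
open scoped NNReal ENNReal
open Crest.AnalysisR.Kinetic
open Crest.Agent.R122.Loc45 Crest.Agent.R122.Ins45 Crest.Agent.R122.EDefs602
open Crest.Agent.R122.VL581 Crest.Agent.R122.VL581.VSys
open Crest.Agent.R122.LN304 Crest.Agent.R122.LNg410 Crest.Agent.R122.LNEv968
open Crest.Agent.R122.PWGlue491 Crest.Agent.R122.PWInst442 Crest.Agent.R122.LNPart424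
open Crest.Agent.R122.MWFam255 Crest.Agent.R122.LNEv818 Crest.Agent.R122.LNS674
open Crest.Agent.R122.LNGraft410 Crest.Agent.R122.PathFlow968 Crest.Agent.R122.Tree674
open scoped Classical

noncomputable section

namespace Crest.Agent.R122.LNCls515

variable {σ μ : Type} [Fintype σ] [Fintype μ] {n : ℕ}
variable {Φ : Space3 → ℝ} {T te ε c : ℝ} {b : σ → ℝ} {V : σ → PhasePoint} {w : Config n}
  {cl : Fin n ⊕ σ → Finset (Fin n ⊕ σ)} {R : ℝ → Fin n ⊕ σ → Fin n ⊕ σ → Prop}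
  {S : Finset (Fin n ⊕ σ)} {bE : Fin n ⊕ σ → ℝ} {ls : μ → ML} {p : μ → σ}

/-- The lines `ls x` are exits (labels `p x`) of the class `S` of the structure. -/
structure OneCls (Φ : Space3 → ℝ) (T ε c : ℝ) (b : σ → ℝ) (V : σ → PhasePoint) (w : Config n)
    (cl : Fin n ⊕ σ → Finset (Fin n ⊕ σ)) (R : ℝ → Fin n ⊕ σ → Fin n ⊕ σ → Prop)
    (S : Finset (Fin n ⊕ σ)) (bE : Fin n ⊕ σ → ℝ) (ls : μ → ML) (p : μ → σ) : Prop where
  one : One Φ T ε c b V w cl R
  cls : Cls (gsys Φ T ε n b) (Sum.elim w V) S bE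
  cl_eq : ∀ x, cl (Sum.inr (p x)) = S
  mem : ∀ x, Sum.inr (p x) ∈ S
  inj : Function.Injective p
  birth : ∀ x, (ls x).1.1 = bE (Sum.inr (p x))
  st : ∀ x, (ls x).1.1 ≤ T →
    (gsys Φ T ε n b).st S (ls x).1.1 (Sum.elim w V) (Sum.inr (p x)) = (ls x).1.2
  old : ∀ j ∈ S, ∀ k ∈ S, j ≠ k → ∀ r, R r j k → r ≤ bE j ∧ r ≤ bE k

theorem onLine_back_self (l : ML) : onLine (back l.1) l.1.1 = l.1.2 := by
  unfold onLine back
  refine Prod.ext ?_ rfl
  simp

namespace OneCls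

variable (h : OneCls Φ T ε c b V w cl R S bE ls p)
include h

theorem lab (x : μ) : Lab (gsys Φ T ε n b) (Sum.elim w V) cl (Sum.inr (p x)) (ls x).1.1
    (back (ls x).1) := by
  refine Or.inr ⟨⟨?_, ?_, ?_, ?_⟩, ?_⟩
  · rw [h.cl_eq]
    exact h.mem x
  · rw [h.birth]
    exact h.cls.bb_le _ (h.mem x)
  · intro hT
    rw [h.cl_eq, onLine_back_self]
    exact (h.st x hT).symm
  · rw [h.cl_eq, h.birth]
    exact h.cls.exit _ (h.mem x)
  · intro hT
    rw [h.birth] at hT ⊢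
    rw [h.cl_eq]
    exact h.cls.last _ (h.mem x) hT

theorem old_of {x y : μ} (hxy : x ≠ y) {r : ℝ} (hr : R r (Sum.inr (p x)) (Sum.inr (p y))) :
    Sum.inr (p y) ∈ cl (Sum.inr (p x)) ∧ r ≤ (ls x).1.1 ∧ r ≤ (ls y).1.1 := by
  have h1 := h.old _ (h.mem x) _ (h.mem y) (fun h' => hxy (h.inj (Sum.inr_injective h'))) r hr
  rw [h.cl_eq, h.birth, h.birth]
  exact ⟨h.mem y, h1⟩

/-- Sub-families. -/
theorem comp {ν : Type} [Fintype ν] (g : ν ↪ μ) :
    OneCls Φ T ε c b V w cl R S bE (fun x => ls (g x)) (fun x => p (g x)) where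
  one := h.one
  cls := h.cls
  cl_eq x := h.cl_eq _
  mem x := h.mem _
  inj x y hxy := g.injective (h.inj hxy)
  birth x := h.birth _
  st x := h.st _
  old := h.old

variable (hΦ : AdmissiblePotential Φ) (hε : 0 < ε)
  (hOk : MW.OkFam Φ ε (MW.cfg w) ls)
include hΦ hε hOk

/-- **The family over the gas.** -/
theorem exits0 : Exits Φ T te ε b V w cl R (MW.cfg w) (gasE n σ) ls p where
  inj := h.inj
  out _ _ h' := by cases h'
  mark _ _ := le_rfl
  memC x := by
    rw [h.cl_eq]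
    exact h.mem x
  memB i hi := absurd hi (inl_not_mem_pS i)
  ok0 := hOk.base hΦ hε
  ok1 x := hOk.line hΦ hε x
  gd0 := h.one.base.gd0 hΦ hε (hOk.base hΦ hε)
  gd1 x := h.one.base.gd1 hΦ hε (h.lab x) (hOk.line hΦ hε x)
  cb0 := PW365.cleanB_gas (M := gsys Φ T ε n b) (h.one.base.gd0 hΦ hε (hOk.base hΦ hε))
    (fun i => h.one.base.gas_cl i) te
  cb1 x := PW365.cleanB_ins (M := gsys Φ T ε n b)
    (h.one.base.gd1 hΦ hε (h.lab x) (hOk.line hΦ hε x)) (fun i => h.one.base.gas_cl i)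
    (fun _ => le_rfl) te
  old x y hxy r hr := ⟨(h.old_of hxy hr).1, (h.old_of hxy hr).2.1⟩
  oldB i _ _ _ hi := by cases hi
  oldX _ i _ hi := by cases hi

/-- **The family over the gas and one of its lines.** -/
theorem exits1 (d : μ) (hBd : (ls d).1.1 ≤ te → PW365.NoB Φ ε (MW.cfg w) (ls d))
    (hBa : ∀ x, x ≠ d → (ls x).1.1 ≤ (ls d).1.1 → (ls x).1.1 ≤ te →
      PW365.NoB Φ ε (MW.cfg w) (ls x)) :
    Exits Φ T te ε b V w cl R ((MW.cfg w).ins (ls d)) (lab1 n (p d))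
      (fun x : {x : μ // x ≠ d} => ls x.1) (fun x : {x : μ // x ≠ d} => p x.1) := by
  have hda : ∀ x : {x : μ // x ≠ d}, p d ≠ p x.1 := fun x h' => x.2 (h.inj h').symm
  have hok2 : ∀ x : {x : μ // x ≠ d}, (((MW.cfg w).ins (ls d)).ins (ls x.1)).Ok Φ ε := fun x =>
    ok_lines_add hΦ hε hOk ⟨fun _ : Unit => d, fun _ _ _ => rfl⟩
      ⟨fun _ : Unit => x.1, fun _ _ _ => rfl⟩ fun _ _ => x.2.symm
  have hgd1 := h.one.base.gd1 hΦ hε (h.lab d) (hOk.line hΦ hε d)
  have hgd2 : ∀ x : {x : μ // x ≠ d}, _ := fun x =>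
    h.one.base.gd2 hΦ hε (hda x) (h.lab d) (h.lab x.1) (hok2 x)
  refine ⟨?_, fun x i => lab1_ne (hda x) i, ?_, ?_, ?_, hOk.line hΦ hε d, hok2, hgd1, hgd2, ?_,
    ?_, ?_, ?_, ?_⟩
  · exact fun x y hxy => Subtype.ext (h.inj hxy)
  · rintro (i | i) hi
    · exact le_rfl
    · exact absurd (inr_mem_pS (p d)) hi
  · intro x
    rw [h.cl_eq]
    exact h.mem x.1
  · rintro (i | i) hi
    · exact absurd hi (inl_not_mem_pS i)
    · have h1 : lab1 n (p d) (Sum.inr i) = Sum.inr (p d) := rfl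
      rw [h1, h.cl_eq]
      exact h.mem d
  · exact PW365.cleanB_ins (M := gsys Φ T ε n b) hgd1 (fun i => h.one.base.gas_cl i)
      (fun _ => le_rfl) te
  · intro x
    refine PW365.cleanB_ins2 (M := gsys Φ T ε n b) (hgd2 x) hΦ hε (hOk.base hΦ hε)
      (hOk.line hΦ hε d) (hok2 x) (fun i => h.one.base.gas_cl i) (fun _ => le_rfl)
      (fun _ _ h2 => hBd h2) (fun _ h1 h2 => hBa x.1 x.2 h1 h2) fun _ _ => Or.inl ?_
    change Sum.inr (p x.1) ∈ cl (Sum.inr (p d))
    rw [h.cl_eq]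
    exact h.mem x.1
  · intro x y hxy r hr
    have h1 := h.old_of (fun h' => hxy (Subtype.ext h')) hr
    exact ⟨h1.1, h1.2.1⟩
  · rintro (i | i) (j | j) x y hi hj hij r hr
    · cases hi
    · cases hi
    · cases hj
    · exact absurd rfl hij
  · rintro x (i | i) y hi r hr
    · cases hi
    · have h2 : y = p d := (Sum.inr_injective hi).symm
      subst h2
      exact h.old_of x.2 hr

end OneCls

end Crest.Agent.R122.LNCls515

end
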