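import Crest.Agent.R122.LNSra_515
import Crest.Agent.R122.XShape_692

/-!
# Row 122, LN1 (helper515): runs and (RA) for one structure, from helper692's alternatives

* `runS_of_runD` : `RunD` (helper818) of a one-part structure gives `RunS` (helper424).
* `badHit_mono` : monotonicity of `BadHit` in the size.
* `reachAll_of_salt` : off `SAlt` (helper692) everything which is influenced by an exit is reached.
-/

set_option autoImplicit false
set_option linter.unusedSectionVars false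

open MeasureTheory Set Filter Topology
open scoped NNReal ENNReal
open Crest.AnalysisR.Kinetic
open Crest.Agent.R122.Loc45 Crest.Agent.R122.Ins45 Crest.Agent.R122.EDefs602
open Crest.Agent.R122.VL581 Crest.Agent.R122.VL581.VSys Crest.Agent.R122.VLInst442
open Crest.Agent.R122.LN304 Crest.Agent.R122.LNg410 Crest.Agent.R122.LNEv968
open Crest.Agent.R122.PWGlue491 Crest.Agent.R122.PWInst442 Crest.Agent.R122.LNPart424
open Crest.Agent.R122.MWFam255 Crest.Agent.R122.LNEv818 Crest.Agent.R122.LinkD331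
open Crest.Agent.R122.LNS674
open scoped Classical

noncomputable section

namespace Crest.Agent.R122.LNCls515

section hit

variable {J κ : Type} [Fintype J] {M : VSys J κ} {c : ℝ} {Z : J → PhasePoint}
  {X : ℝ → J → PhasePoint} {C : ℝ → J → J → Prop} {Λ : Finset (Finset J)} {N N' : ℕ}

theorem badHit_mono (h : BadHit M c Z X C Λ N) (hN : N ≤ N') : BadHit M c Z X C Λ N' := by
  obtain ⟨G, A, j, k, v, h1, h2, h3, h4, h5, h6, h7, h8, h9⟩ := h
  exact ⟨G, A, j, k, v, h1, h2, h3.trans hN, h4, h5, h6, h7, h8.trans hN, h9⟩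

end hit

variable {σ : Type} [Fintype σ] {n : ℕ} {ι μ : Type} [Fintype ι] {Φ : Space3 → ℝ}
  {T te ε c ℓ ς : ℝ} {b : σ → ℝ} {V : σ → PhasePoint} {w : Config n}
  {cl : Fin n ⊕ σ → Finset (Fin n ⊕ σ)} {R : ℝ → Fin n ⊕ σ → Fin n ⊕ σ → Prop} {W : MW ι}
  {f : ι ↪ Fin n ⊕ σ} {ls : μ → ML} {p : μ → σ} {K N m : ℕ}

/-- Sub-structures are admissible. -/
theorem ok_sub (h : One Φ T ε c b V w cl R)
    (hX : Ctx (gsys Φ T ε n b) c ℓ ς (Sum.elim w V) (LS n σ) N) (hN : Fintype.card σ ≤ N)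
    {D : Finset (Fin n ⊕ σ)} (hD : D ⊆ pS n σ) : (gsys Φ T ε n b).ok D T (Sum.elim w V) := by
  refine (hX.nb _ h.conn ⟨_, mem_LS.2 rfl, subset_rfl⟩ ?_).1 D hD
  refine (Finset.card_le_card (t := pS n σ) fun j hj => ?_).trans ?_
  · rcases (@Finset.mem_union _ (fun a b => Classical.propDecidable _) _ _ _).1 hj with h1 | h1
    · exact h1
    · rwa [uni_LS] at h1
  · rw [Finset.card_map, Finset.card_univ]
    exact hN

/-- A run which starts in a part of the structure. -/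
theorem runS_of_runD (h : One Φ T ε c b V w cl R)
    (hX : Ctx (gsys Φ T ε n b) c ℓ ς (Sum.elim w V) (LS n σ) N) (hN : Fintype.card σ ≤ N) {x : σ}
    (hR : RunD (gsys Φ T ε n b) (Sum.elim w V) (pS n σ) (Sum.inr x) K m w) :
    Gate424.RunS Φ ε T K m b V w := by
  obtain ⟨D, hD, ha, hR⟩ := hR
  set D' : Finset σ := Finset.univ.filter fun y => (Sum.inr y : Fin n ⊕ σ) ∈ D with hD'
  have hx : x ∈ D' := Finset.mem_filter.2 ⟨Finset.mem_univ _, ha⟩
  refine ⟨D', ⟨x, hx⟩, hR D' (Gate424.sMW b V D')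
    ⟨fun y => Sum.inr y.1, fun y y' hy => Subtype.ext (Sum.inr_injective hy)⟩ ⟨x, hx⟩ ?_ rfl⟩
  refine ⟨fun y => rfl, fun y => rfl, (fun y h' => by cases h'), fun j => ⟨fun hj => ?_, ?_⟩,
    ok_sub h hX hN hD⟩
  · obtain ⟨y, rfl⟩ := mem_pS.1 (hD hj)
    exact ⟨⟨y, Finset.mem_filter.2 ⟨Finset.mem_univ _, hj⟩⟩, rfl⟩
  · rintro ⟨y, rfl⟩
    exact (Finset.mem_filter.1 y.2).2

/-- **(RA) off helper692's alternatives** of the structure. -/
theorem reachAll_of_salt (h : One Φ T ε c b V w cl R) (E : Exits Φ T te ε b V w cl R W f ls p)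
    (hΦ : AdmissiblePotential Φ) (hε : 0 < ε) (hT0 : 0 ≤ T) (hte : te ≤ T) (hc : 1 ≤ c)
    {T₁ ρ : ℝ} (hρ : 2 * (ρ * ε) ≤ ς) (hT₁ : T < T₁) {A₀ : Finset σ} (hA : A₀.Nonempty)
    {N' : ℕ} (hNN : N ≤ N')
    (hS : ¬ X692.SAlt Φ T T₁ T c ρ ς ε K m N' A₀ b V w)
    (hgf : ∀ i : Fin n, ∃ k, f k = Sum.inl i)
    (hN : Fintype.card σ + 2 * K * (m + 2) ≤ N) (x : μ) :
    ReachAll (Reach (gsys Φ T ε n b) c (Sum.elim w V) (LS n σ) (pS n σ) (Sum.inr (p x)) N)
      Φ ε K te W f (ls x) (Sum.inr (p x)) := by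
  unfold X692.SAlt at hS
  push Not at hS
  obtain ⟨hS1, hS2, hS3⟩ := hS
  have hX : Ctx (gsys Φ T ε n b) c (ρ * ε) ς (Sum.elim w V) (LS n σ) N :=
    (h.ctx hΦ hε hc hρ le_rfl hA hS2).mono hNN
  refine (reachAll_or_run h E hT0 hte hX x (fun β => ?_) hgf m hN).resolve_left fun hR =>
    hS1 (runS_of_runD h hX (by omega) hR)
  intro hbh
  cases β
  · exact (h.wd hΦ hε hT0 hc hρ le_rfl le_rfl hT₁ hA hS3 E.gd0).bh (badHit_mono hbh hNN)
  · exact (h.wd hΦ hε hT0 hc hρ le_rfl le_rfl hT₁ hA hS3 (E.gd1 x)).bh (badHit_mono hbh hNN)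

end Crest.Agent.R122.LNCls515

end
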