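import Crest.Agent.R122.LNOSdet_515
import Crest.Agent.R122.LNOneCls_515
import Crest.Agent.R122.LNSrun_515

/-!
# Row 122, LN1: the instance (OS), deterministic theorem (helper515)

* `oneR`, `oneP` : the lines of the tree resp. the lines `l'`, `c'`, exits as exits of one class.
* `BT` : birth event: a gas particle is within `ε` of the birth point of a line of the tree.
* `rao_of_salt_bt` : **off helper692's `SAlt` and off `BT`: `RAO`**; `rao_of_salt` : the same off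
  the larger event `BW`.
-/

set_option autoImplicit false
set_option linter.unusedSectionVars false

open MeasureTheory Set Filter
open scoped ENNReal Topology
open Crest.AnalysisR.Kinetic
open Crest.Agent.R122.GIV566 Crest.Agent.R122.VL581 Crest.Agent.R122.LN304
open Crest.Agent.R122.LNTree410 Crest.Agent.R122.PWInst442 Crest.Agent.R122.PWGlue491
open Crest.Agent.R122.LNPart424 Crest.Agent.R122.EDefs602 Crest.Agent.R122.TreeLines335
open Crest.Agent.R122.Kin796 Crest.Agent.R122.Kin796.CTree Crest.Agent.R122.Tree674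
open Crest.Agent.R122.Loc45 Crest.Agent.R122.Ins45 Crest.Agent.R122.LNg410
open Crest.Agent.R122.Scat818 Crest.Agent.R122.OCout796 Crest.Agent.R122.Inf879
open Crest.Agent.R122.LNGraft410 Crest.Agent.R122.MWFam255 Crest.Agent.R122.LNEv968
open Crest.Agent.R122.LNEv818 Crest.Agent.R122.LNEv383 Crest.Agent.R122.LNCls515
open Crest.Agent.R122.OneC285 (lpos cT cB cD cX oneLs exS)

noncomputable section

namespace Crest.Agent.R122.LNOS515

open scoped Classical

variable {Φ : Space3 → ℝ} {ε T te c ρ ς : ℝ} {K N n : ℕ} {P : CTree} {z : PhasePoint × Par P}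
  {w : Config n} {l : ML}

theorem pS_eq : pS n P = LNS674.pS n (Idx P ⊕ Unit) := by
  ext j
  rw [mem_pS, LNS674.mem_pS]

theorem Lo_eq : Lo n P = LNS674.LS n (Idx P ⊕ Unit) := by
  unfold Lo
  rw [pS_eq]

/-- Birth event of a line. -/
def BL (Φ : Space3 → ℝ) (ε te : ℝ) {n : ℕ} (w : Config n) (x : ML) : Prop :=
  x.1.1 ≤ te ∧ LN2.Birth Φ ε 1 w x.1.1 x.1.2.1

/-- **Birth event** of the structure: a gas particle is within `ε` of the birth point of a line of
the tree, of `l'` or of `c'`, at its birth before the horizon. -/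
def BW (Φ : Space3 → ℝ) (ε te : ℝ) {n : ℕ} {P : CTree} (z : PhasePoint × Par P) (w : Config n)
    (l : ML) : Prop :=
  (∃ i : Idx P, BL Φ ε te w (lineML Φ ε P z i)) ∨ ∃ b : Bool, BL Φ ε te w (oneLs Φ ε P z l (Sum.inr b))

/-- Birth event of the tree. -/
def BT (Φ : Space3 → ℝ) (ε te : ℝ) {n : ℕ} {P : CTree} (z : PhasePoint × Par P) (w : Config n) :
    Prop :=
  ∃ i : Idx P, BL Φ ε te w (lineML Φ ε P z i)

theorem noB_of_bl {x : ML} (h : ¬ BL Φ ε te w x) (hx : x.1.1 ≤ te) :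
    PW365.NoB Φ ε (MW.cfg w) x := PW365.noB_cfg fun h' => h ⟨hx, h'⟩

theorem noB_line (h : ¬ BT Φ ε te z w) (i : Idx P) (hx : (lineML Φ ε P z i).1.1 ≤ te) :
    PW365.NoB Φ ε (MW.cfg w) (lineML Φ ε P z i) := noB_of_bl (fun h' => h ⟨i, h'⟩) hx

namespace OSIn

variable (h : OSIn Φ ε T P z l) (hΦ : AdmissiblePotential Φ) (hε : 0 < ε) (hc : 1 ≤ c)
  (hw : w ∈ PairExcluded ε n)
include h hΦ hε hc hw

/-- The lines of the tree as exits of the class `pT`. -/
theorem oneR : OneCls Φ T ε c (bO P l) (zO Φ ε z l) w (clR n P)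
    (LNFam255.RG (Mo Φ T ε n P l) (Zo Φ ε w z l) {aL n P} (pT n P) (aL n P) (eT n P (root P))
      (cT ε z l)) (pT n P) (bd0 n P z l) (lineML Φ ε P z) (fun i : Idx P => Sum.inl i) where
  one := ⟨h.baseR hΦ hε, hw, by rw [← pS_eq]; exact h.famR hΦ hε hc⟩
  cls := h.clsT hΦ hε
  cl_eq x := clR_inl x
  mem x := eT_mem_pT x
  inj := Sum.inl_injective
  birth x := rfl
  st x hx := by
    have h1 := h.treeIn.line_tree (M := Mo Φ T ε n P l) (Z := Zo Φ ε w z l) hΦ hε x le_rfl hx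
    refine h1.trans ?_
    have h2 := onLine_back_self (lineML Φ ε P z x)
    rw [back_lineML] at h2
    exact h2
  old j hj k hk hjk r hr := h.oldR hΦ hε hj hk hjk hr

variable (hTL : TL (Mo Φ T ε n P l) c (ρ * ε) ς (pS n P) (Zo Φ ε w z l))
  (hℓς : 2 * (ρ * ε) ≤ ς) (hlT : cT ε z l + 2 * (ρ * ε) < T)
include hTL hℓς hlT

/-- The lines `l'`, `c'`, exits as exits of the class `pS`. -/
theorem oneP : OneCls Φ T ε c (bO P l) (zO Φ ε z l) w (clP n P)
    (LNFam255.RC' (Mo Φ T ε n P l) (Zo Φ ε w z l) (pS n P)) (pS n P) (bd2 Φ ε n P z l)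
    (fun x : F2 P => oneLs Φ ε P z l x) (fun x : F2 P => gO P x) where
  one := ⟨h.baseP hΦ hε hTL hc hℓς hlT, hw, by
    rw [← pS_eq]; exact h.famP hΦ hε hTL hc hℓς hlT⟩
  cls := h.clsS hΦ hε hTL hc hℓς hlT
  cl_eq x := clP_inr _
  mem x := inr_mem_pS _
  inj x y hxy := Subtype.ext (gO_inj x.2 y.2 hxy)
  birth x := bd2_gO x.2
  st x hx := by
    have h1 := h.st_gO hΦ hε hTL hc hℓς hlT x.2 (w := w) (bd2_gO x.2).ge hx
    refine h1.trans ?_
    unfold lineAt
    refine Prod.ext ?_ rfl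
    simp
  old j _ k _ hjk r hr := h.oldP hΦ hε hTL hc hℓς hlT hjk hr

end OSIn

/-- The anchors. -/
theorem anchors_nonempty : ((Finset.univ : Finset (Idx P)).disjSum (∅ : Finset Unit)).Nonempty :=
  ⟨Sum.inl (root P), Finset.inl_mem_disjSum.2 (Finset.mem_univ _)⟩

/-- **The deterministic theorem of the instance (OS).** -/
theorem rao_of_salt_bt (hΦ : AdmissiblePotential Φ) (hε : 0 < ε) (hc : 1 ≤ c)
    (hℓς : 2 * (ρ * ε) ≤ ς) (h : OSIn Φ ε T P z l) (hw : w ∈ PairExcluded ε n) (hte : te ≤ T)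
    (hlT : cT ε z l + 2 * (ρ * ε) < T) (hok1 : MW.OkFam Φ ε (MW.cfg w) (lineML Φ ε P z))
    (hok2 : MW.OkFam Φ ε (MW.cfg w) (fun x : F2 P => oneLs Φ ε P z l x)) {T₁ : ℝ} (hT₁ : T < T₁)
    {m : ℕ} (hN : P.leaves + 1 + 2 * K * (m + 2) ≤ N)
    (hS : ¬ X692.SAlt Φ T T₁ T c ρ ς ε K m (N + N + (N + N))
      ((Finset.univ : Finset (Idx P)).disjSum ∅) (bO P l) (zO Φ ε z l) w)
    (hB : ¬ BT Φ ε te z w) : RAO Φ T te c (ρ * ε) ς ε K N z w l := by
  have hT0 : 0 ≤ T := h.T_pos.le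
  have hcard : Fintype.card (Idx P ⊕ Unit) = P.leaves + 1 := by
    rw [Fintype.card_sum, Fintype.card_unit, card_idx]
  have hN' : Fintype.card (Idx P ⊕ Unit) + 2 * K * (m + 2) ≤ N := by rw [hcard]; exact hN
  have hNN : N ≤ N + N + (N + N) := by omega
  have hR := h.oneR hΦ hε hc hw
  have hNB : NoBad (Mo Φ T ε n P l) c (ρ * ε) ς (Zo Φ ε w z l) (Lo n P) (N + N + (N + N)) := by
    rw [Lo_eq]
    refine hR.one.noBad_of hΦ hε le_rfl anchors_nonempty fun h' => hS (Or.inr (Or.inl h'))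
  have hTL : TL (Mo Φ T ε n P l) c (ρ * ε) ς (pS n P) (Zo Φ ε w z l) :=
    h.tl hΦ hε hc (by omega : P.leaves + 1 ≤ N) (Bind302.noBad_mono hNB hNN)
  have hP := h.oneP hΦ hε hc hw hTL hℓς hlT
  -- reachability over the base world `w`
  have a0 : ∀ i : Idx P, RaO Φ T te c ε K N z w l (MW.cfg w) Sum.inl (lineML Φ ε P z i)
      (Sum.inl i) := by
    intro i
    have E := hR.exits0 hΦ hε hok1 (te := te)
    have h1 := reachAll_of_salt hR.one E hΦ hε hT0 hte hc hℓς hT₁ anchors_nonempty hNN hS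
      (fun i => ⟨i, rfl⟩) hN' i
    rw [← Lo_eq, ← pS_eq] at h1
    exact h1
  have b0 : ∀ x : F2 P, RaO Φ T te c ε K N z w l (MW.cfg w) Sum.inl (oneLs Φ ε P z l x)
      (gO P x) := by
    intro x
    have E := hP.exits0 hΦ hε hok2 (te := te)
    have h1 := reachAll_of_salt hP.one E hΦ hε hT0 hte hc hℓς hT₁ anchors_nonempty hNN hS
      (fun i => ⟨i, rfl⟩) hN' x
    rw [← Lo_eq, ← pS_eq] at h1
    exact h1
  refine ⟨hNB, by omega, a0, ?_, ?_, ?_⟩
  · intro d hd i hid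
    have E := hR.exits1 hΦ hε hok1 (te := te) d (fun h1 => noB_line hB d h1)
      fun x _ _ h2 => noB_line hB x h2
    have h1 := reachAll_of_salt hR.one E hΦ hε hT0 hte hc hℓς hT₁ anchors_nonempty hNN hS
      (fun i => ⟨Sum.inl i, rfl⟩) hN' ⟨i, hid⟩
    rw [← Lo_eq, ← pS_eq] at h1
    exact h1
  · intro x
    exact b0 ⟨Sum.inr x, mem_F2.2 (by cases x <;> simp)⟩
  · intro d hd x
    have hdF : (Sum.inl d : Idx P ⊕ Bool) ∈ F2 P := mem_F2.2 (Or.inr (Or.inr ⟨d, hd, rfl⟩))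
    have hxF : (Sum.inr x : Idx P ⊕ Bool) ∈ F2 P := mem_F2.2 (by cases x <;> simp)
    have hout : 0 ≤ outT Φ ε (cD ε z l) := OCout796.outT_nonneg hε.le _
    have hdl : (oneLs Φ ε P z l (Sum.inl d)).1.1 < cT ε z l := by
      rw [oneLs_exit hd]
      exact h.rel_lt hε d
    have E := hP.exits1 hΦ hε hok2 (te := te) ⟨Sum.inl d, hdF⟩
      (fun h1 => by
        change (oneLs Φ ε P z l (Sum.inl d)).1.1 ≤ te at h1
        change PW365.NoB Φ ε (MW.cfg w) (oneLs Φ ε P z l (Sum.inl d))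
        rw [oneLs_exit hd] at h1 ⊢
        exact noB_line hB d h1) fun y _ h1 h2 => by
        change (oneLs Φ ε P z l y.1).1.1 ≤ (oneLs Φ ε P z l (Sum.inl d)).1.1 at h1
        change (oneLs Φ ε P z l y.1).1.1 ≤ te at h2
        rcases mem_F2.1 y.2 with h3 | h3 | ⟨i, hi, h3⟩
        · rw [h3] at h1
          have h4 : (oneLs Φ ε P z l (Sum.inr false)).1.1 = cT ε z l + outT Φ ε (cD ε z l) :=
            (bd2_gO (n := n) (mem_F2.2 (Or.inl rfl))).trans bd2_aL
          rw [h4] at h1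
          linarith
        · rw [h3] at h1
          have h4 : (oneLs Φ ε P z l (Sum.inr true)).1.1 = cT ε z l + outT Φ ε (cD ε z l) :=
            (bd2_gO (n := n) (mem_F2.2 (Or.inr (Or.inl rfl)))).trans bd2_root
          rw [h4] at h1
          linarith
        · rw [h3, oneLs_exit hi] at h2 ⊢
          exact noB_line hB i h2
    have h1 := reachAll_of_salt hP.one E hΦ hε hT0 hte hc hℓς hT₁ anchors_nonempty hNN hS
      (fun i => ⟨Sum.inl i, rfl⟩) hN' ⟨⟨Sum.inr x, hxF⟩, fun h' => by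
        have h2 := congrArg Subtype.val h'
        cases h2⟩
    rw [← Lo_eq, ← pS_eq] at h1
    have h2 : oneLs Φ ε P z l (Sum.inl d) = lineML Φ ε P z d := oneLs_exit hd
    simp only [h2] at h1
    exact h1

/-- The same off the larger birth event. -/
theorem rao_of_salt (hΦ : AdmissiblePotential Φ) (hε : 0 < ε) (hc : 1 ≤ c)
    (hℓς : 2 * (ρ * ε) ≤ ς) (h : OSIn Φ ε T P z l) (hw : w ∈ PairExcluded ε n) (hte : te ≤ T)
    (hlT : cT ε z l + 2 * (ρ * ε) < T) (hok1 : MW.OkFam Φ ε (MW.cfg w) (lineML Φ ε P z))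
    (hok2 : MW.OkFam Φ ε (MW.cfg w) (fun x : F2 P => oneLs Φ ε P z l x)) {T₁ : ℝ} (hT₁ : T < T₁)
    {m : ℕ} (hN : P.leaves + 1 + 2 * K * (m + 2) ≤ N)
    (hS : ¬ X692.SAlt Φ T T₁ T c ρ ς ε K m (N + N + (N + N))
      ((Finset.univ : Finset (Idx P)).disjSum ∅) (bO P l) (zO Φ ε z l) w)
    (hB : ¬ BW Φ ε te z w l) : RAO Φ T te c (ρ * ε) ς ε K N z w l :=
  rao_of_salt_bt hΦ hε hc hℓς h hw hte hlT hok1 hok2 hT₁ hN hS fun h' => hB (Or.inl h')

end Crest.Agent.R122.LNOS515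

end
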