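import Crest.Agent.R122.OkE4_167

/-!
# Good worlds of inequality 1, almost surely (row 122), helper167

* `qmp_back`, `qmp_join` : null sets of time-`0` states are not seen by the lines.
* `ae_okE4` : for every s-finite law `κ` of the birth of the test line, for almost every `(z, w, l)`:
  `Real4` and a passage imply the three `OkFam` fields of helper263's `E4Pairs`.
* `os_eq_zero` : structure integrals of a.e. vanishing functionals.
* `os_not_ok` : the structure integral of the structures with a bad world is zero.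
-/

set_option autoImplicit false
set_option linter.unusedSectionVars false

open MeasureTheory Set Filter Topology
open scoped ENNReal NNReal
open Crest.AnalysisR.Kinetic
open Crest.Agent.R122.Flow671 hiding rel
open Crest.Agent.R122.Loc45 Crest.Agent.R122.Ins45
open Crest.Agent.R122.Simul984 Crest.Agent.R122.Inf879 Crest.Agent.R122.EDefs602
open Crest.Agent.R122.MWAlg255
open Crest.Agent.R122.Kin796 Crest.Agent.R122.Kin796.CTree Crest.Agent.R122.Tree674
open Crest.Agent.R122.PathFlow968 Crest.Agent.R122.TreeLines335 Crest.Agent.R122.Relabel674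
open Crest.Agent.R122.GC311
open Crest.Agent.R122.Scat818 Crest.Agent.R122.OCout796
open Crest.Agent.R122.OneC285 (lpos mSet mT Meet clM cfT rt cT cB cD cX oneLs exS Real4 OS SF)
open Crest.Agent.R122.OneC423 (baseM)
open Crest.Agent.R122.TransOk151

namespace Crest.Agent.R122.OkE167

noncomputable section

open scoped Classical

variable {Φ : Space3 → ℝ} {ε : ℝ}

/-! ### Null sets -/

theorem back_eq_onLine (l : ℝ × PhasePoint) : back l = onLine l.2 (-l.1) := by
  unfold back onLine
  refine Prod.ext ?_ rfl
  simp only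
  rw [neg_smul, sub_eq_add_neg]

theorem qmp_back (κ : Measure ℝ) [SFinite κ] :
    Measure.QuasiMeasurePreserving (fun l : ML => back l.1) (baseM κ)
      (volume : Measure PhasePoint) := by
  have hb : Measurable fun p : ℝ × PhasePoint => back p := by
    unfold back
    fun_prop
  have h1 : Measure.QuasiMeasurePreserving (fun p : ℝ × PhasePoint => back p)
      (κ.prod (volume : Measure PhasePoint)) (volume : Measure PhasePoint) := by
    refine QuasiMeasurePreserving.prod_of_right hb (Eventually.of_forall fun τ => ?_)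
    have h2 : (fun y : PhasePoint => back (τ, y)) = fun y => onLine y (-τ) := by
      funext y
      exact back_eq_onLine (τ, y)
    rw [h2]
    exact (measurePreserving_onLine (-τ)).quasiMeasurePreserving
  exact h1.comp Measure.quasiMeasurePreserving_fst

section join

variable {α : Type} [Fintype α] {Ω : Type*} [MeasurableSpace Ω]

/-- State of the group, state of the line. -/
theorem qmp_elim : Measure.QuasiMeasurePreserving
    (fun q : (α → PhasePoint) × PhasePoint => (Sum.elim q.1 fun _ : Unit => q.2))
    ((volume : Measure (α → PhasePoint)).prod (volume : Measure PhasePoint))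
    (volume : Measure (α ⊕ Unit → PhasePoint)) := by
  have h1 := volume_measurePreserving_sumPiEquivProdPi_symm
    (fun _ : α ⊕ Unit => PhasePoint)
  have h2 : MeasurePreserving (fun q : (α → PhasePoint) × PhasePoint =>
      (q.1, fun _ : Unit => q.2))
      ((volume : Measure (α → PhasePoint)).prod (volume : Measure PhasePoint))
      ((volume : Measure (α → PhasePoint)).prod (volume : Measure (Unit → PhasePoint))) :=
    (MeasurePreserving.id _).prod (volume_preserving_funUnique Unit PhasePoint).symm
  rw [Measure.volume_eq_prod] at h1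
  have h3 := (h1.comp h2).quasiMeasurePreserving
  exact h3

/-- State of the group, the rest, the line. -/
theorem qmp_join (μ : Measure Ω) [SFinite μ] (κ : Measure ℝ) [SFinite κ] :
    Measure.QuasiMeasurePreserving
      (fun q : (α → PhasePoint) × (Ω × ML) => ((Sum.elim q.1 fun _ : Unit => back q.2.2.1), q.2.1))
      ((volume : Measure (α → PhasePoint)).prod (μ.prod (baseM κ)))
      ((volume : Measure (α ⊕ Unit → PhasePoint)).prod μ) := by
  have h1 : Measure.QuasiMeasurePreserving
      (fun q : (α → PhasePoint) × (Ω × ML) => (q.1, (back q.2.2.1, q.2.1)))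
      ((volume : Measure (α → PhasePoint)).prod (μ.prod (baseM κ)))
      ((volume : Measure (α → PhasePoint)).prod ((volume : Measure PhasePoint).prod μ)) := by
    have h2 : Measure.QuasiMeasurePreserving (fun q : Ω × ML => (back q.2.1, q.1))
        (μ.prod (baseM κ)) ((volume : Measure PhasePoint).prod μ) := by
      have h3 := (Measure.measurePreserving_swap (μ := μ)
        (ν := (volume : Measure PhasePoint))).quasiMeasurePreserving
      have h4 : Measure.QuasiMeasurePreserving (Prod.map id fun l : ML => back l.1)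
          (μ.prod (baseM κ)) (μ.prod (volume : Measure PhasePoint)) :=
        QuasiMeasurePreserving.prodMap (Measure.QuasiMeasurePreserving.id μ) (qmp_back κ)
      exact h3.comp h4
    exact QuasiMeasurePreserving.prodMap (Measure.QuasiMeasurePreserving.id _) h2
  have h5 : Measure.QuasiMeasurePreserving
      (fun q : (α → PhasePoint) × (PhasePoint × Ω) => ((q.1, q.2.1), q.2.2))
      ((volume : Measure (α → PhasePoint)).prod ((volume : Measure PhasePoint).prod μ))
      (((volume : Measure (α → PhasePoint)).prod (volume : Measure PhasePoint)).prod μ) :=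
    (MeasurePreserving.symm MeasurableEquiv.prodAssoc
      (measurePreserving_prodAssoc (volume : Measure (α → PhasePoint))
        (volume : Measure PhasePoint) μ)).quasiMeasurePreserving
  have h6 : Measure.QuasiMeasurePreserving
      (Prod.map (fun q : (α → PhasePoint) × PhasePoint => (Sum.elim q.1 fun _ : Unit => q.2))
        (id : Ω → Ω))
      (((volume : Measure (α → PhasePoint)).prod (volume : Measure PhasePoint)).prod μ)
      ((volume : Measure (α ⊕ Unit → PhasePoint)).prod μ) :=
    QuasiMeasurePreserving.prodMap qmp_elim (Measure.QuasiMeasurePreserving.id μ)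
  exact h6.comp (h5.comp h1)

end join

/-! ### The families of inequality 1 -/

variable {te T' : ℝ} {K : ℕ} {P : CTree} {z : PhasePoint × Par P} {m : ℕ} {w : Config m} {l : ML}

/-- The three good-world facts of a one-contact structure. -/
structure OkE4 (Φ : Space3 → ℝ) (ε : ℝ) (P : CTree) (z : PhasePoint × Par P) {m : ℕ}
    (w : Config m) (l : ML) : Prop where
  okR : MW.OkFam Φ ε (MW.cfg w) (lineML Φ ε P z)
  ok1 : MW.OkFam Φ ε (MW.cfg w)
    (fun x : (insert (Sum.inl (root P)) (exS P) : Finset (Idx P ⊕ Bool)) => oneLs Φ ε P z l x)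
  ok2 : MW.OkFam Φ ε (MW.cfg w)
    (fun x : (insert (Sum.inr false) (insert (Sum.inr true) (exS P)) : Finset (Idx P ⊕ Bool)) =>
      oneLs Φ ε P z l x)

/-- **Good worlds of inequality 1**, almost surely, for every s-finite law of the birth. -/
theorem ae_okE4 (hΦ : AdmissiblePotential Φ) (hε : 0 < ε) (P : CTree) (m : ℕ) (T' : ℝ)
    (κ : Measure ℝ) [SFinite κ] :
    ∀ᵐ q ∂((volume : Measure (PhasePoint × Par P)).prod
        ((volume : Measure (Config m)).prod (baseM κ))),
      ∀ (K : ℕ) (te : ℝ), Real4 Φ ε K te T' P q.1 q.2.1 q.2.2 → CDpass Φ (cD ε q.1 q.2.2) →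
        OkE4 Φ ε P q.1 q.2.1 q.2.2 := by
  -- the families with `l', c'`
  have h2 : ∀ᵐ q ∂((volume : Measure (PhasePoint × Par P)).prod
      ((volume : Measure (Config m)).prod (baseM κ))),
      Valid Φ ε P T' q.1.1.2 q.1.2 → ∀ r : ℚ, GoodP Φ ε (bE P r) (fun _ : Fin m => 0)
        (Sum.elim (lines Φ ε P q.1.1 q.1.2) (fun _ : Unit => back q.2.2.1), q.2.1) := by
    refine AllOk663.ae_tree_prod hΦ hε P T'
      (Q := fun q : (Idx P → PhasePoint) × (Config m × ML) => ∀ r : ℚ,
        GoodP Φ ε (bE P r) (fun _ : Fin m => 0)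
          (Sum.elim q.1 (fun _ : Unit => back q.2.2.1), q.2.1)) ?_
    rw [ae_all_iff]
    intro r
    exact (qmp_join (α := Idx P) (volume : Measure (Config m)) κ).ae
      (ae_goodP hΦ hε (bE P r) (fun _ : Fin m => (0 : ℝ)) fun _ => le_rfl)
  -- the exits
  have h1 : ∀ᵐ q ∂((volume : Measure (PhasePoint × Par P)).prod
      ((volume : Measure (Config m)).prod (baseM κ))),
      Valid Φ ε P T' q.1.1.2 q.1.2 → GoodP Φ ε (fun _ : Idx P => 0) (fun _ : Fin m => 0)
        (lines Φ ε P q.1.1 q.1.2, q.2.1) := by
    refine AllOk663.ae_tree_prod hΦ hε P T'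
      (Q := fun q : (Idx P → PhasePoint) × (Config m × ML) =>
        GoodP Φ ε (fun _ : Idx P => 0) (fun _ : Fin m => 0) (q.1, q.2.1)) ?_
    have h3 : Measure.QuasiMeasurePreserving
        (fun q : (Idx P → PhasePoint) × (Config m × ML) => (q.1, q.2.1))
        ((volume : Measure (Idx P → PhasePoint)).prod
          ((volume : Measure (Config m)).prod (baseM κ)))
        ((volume : Measure (Idx P → PhasePoint)).prod (volume : Measure (Config m))) :=
      QuasiMeasurePreserving.prodMap (Measure.QuasiMeasurePreserving.id _)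
        Measure.quasiMeasurePreserving_fst
    exact h3.ae (ae_goodP hΦ hε (fun _ : Idx P => (0 : ℝ)) (fun _ : Fin m => (0 : ℝ))
      fun _ => le_rfl)
  -- the lines of the tree
  have h0 : ∀ᵐ q ∂((volume : Measure (PhasePoint × Par P)).prod
      ((volume : Measure (Config m)).prod (baseM κ))), Valid Φ ε P T' q.1.1.2 q.1.2 →
      Sep Φ ε P T' q.1.1 q.1.2 → q.2.1 ∈ PairExcluded ε m →
      (P = leaf → ∀ i, ε < dist q.1.1.1 (q.2.1 i).1) →
        MW.OkFam Φ ε (MW.cfg q.2.1) (lineML Φ ε P q.1) := by
    have h3 : Measure.QuasiMeasurePreserving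
        (fun q : (PhasePoint × Par P) × (Config m × ML) => (q.1, q.2.1))
        ((volume : Measure (PhasePoint × Par P)).prod
          ((volume : Measure (Config m)).prod (baseM κ)))
        ((volume : Measure (PhasePoint × Par P)).prod (volume : Measure (Config m))) :=
      QuasiMeasurePreserving.prodMap (Measure.QuasiMeasurePreserving.id _)
        Measure.quasiMeasurePreserving_fst
    have h4 := AllOk663.ae_okR hΦ hε P T' m
    rw [Measure.volume_eq_prod] at h4
    exact h3.ae h4
  filter_upwards [h0, h1, h2] with q hq0 hq1 hq2 K te h hp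
  refine ⟨hq0 h.valid h.sep h.exw fun hP i => ?_, ok1_of h hΦ hε hp (hq1 h.valid),
    ok2_of h hΦ hε hp (hq2 h.valid)⟩
  subst hP
  exact h.perp (eP leaf (root leaf)) i

/-- Structure integrals of functionals which vanish almost everywhere. -/
theorem os_eq_zero {f₀ : PhasePoint → ℝ} {K : ℕ} {Q : EPar} {T' : ℝ} {κ : Measure ℝ} [SFinite κ]
    {H : SF} (h : ∀ (P : CTree) (m : ℕ), ∀ᵐ q ∂((volume : Measure (PhasePoint × Par P)).prod
      ((volume : Measure (Config m)).prod (baseM κ))),
      Valid Φ ε P T' q.1.1.2 q.1.2 → H P q.1 m q.2.1 q.2.2 = 0) :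
    OS Φ f₀ ε K Q T' κ H = 0 := by
  unfold OneC285.OS
  refine mul_eq_zero.2 (Or.inr (ENNReal.tsum_eq_zero.2 fun P => ?_))
  have h1 : ∀ᵐ z : PhasePoint × Par P, ∀ m : ℕ, ∀ᵐ w : Config m, ∀ᵐ l ∂(baseM κ),
      Valid Φ ε P T' z.1.2 z.2 → H P z m w l = 0 := by
    rw [ae_all_iff]
    intro m
    filter_upwards [Measure.ae_ae_of_ae_prod (h P m)] with z hz
    exact Measure.ae_ae_of_ae_prod hz
  refine (lintegral_congr_ae (g := fun _ => 0) ?_).trans lintegral_zero
  filter_upwards [h1] with z hz
  by_cases hv : Valid Φ ε P T' z.1.2 z.2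
  · rw [indicator_of_mem (show z ∈ {z : PhasePoint × Par P | Valid Φ ε P T' z.1.2 z.2} from hv)]
    have h2 : gcE f₀ ε (fun m w => ∫⁻ l, {l : ML | (z, l.1) ∈ OneC423.ctSet Φ ε Q.te P}.indicator
        (fun l => lineD Q.γ Q.ρ K l * H P z m w l) l ∂(baseM κ)) = 0 := by
      refine gcE_eq_zero_of_ae f₀ ε fun m => ?_
      filter_upwards [hz m] with w hw
      refine (lintegral_congr_ae (g := fun _ => 0) ?_).trans lintegral_zero
      filter_upwards [hw] with l hl
      by_cases hc : (z, l.1) ∈ OneC423.ctSet Φ ε Q.te P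
      · rw [indicator_of_mem (show l ∈ {l : ML | (z, l.1) ∈ OneC423.ctSet Φ ε Q.te P} from hc),
          hl hv, mul_zero]
      · rw [indicator_of_notMem
          (show l ∉ {l : ML | (z, l.1) ∈ OneC423.ctSet Φ ε Q.te P} from hc)]
    rw [h2, mul_zero, mul_zero]
  · rw [indicator_of_notMem
      (show z ∉ {z : PhasePoint × Par P | Valid Φ ε P T' z.1.2 z.2} from hv)]

/-- The structures with a bad world have measure zero. -/
theorem os_not_ok (hΦ : AdmissiblePotential Φ) (hε : 0 < ε) {f₀ : PhasePoint → ℝ} {K : ℕ}
    {Q : EPar} {T' : ℝ} {κ : Measure ℝ} [SFinite κ] (G : SF) :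
    OS Φ f₀ ε K Q T' κ (fun P z _ w l => if Real4 Φ ε K Q.te T' P z w l ∧
      CDpass Φ (cD ε z l) ∧ ¬ OkE4 Φ ε P z w l then G P z _ w l else 0) = 0 := by
  refine os_eq_zero fun P m => ?_
  filter_upwards [ae_okE4 hΦ hε P m T' κ] with q hq _
  rw [if_neg]
  rintro ⟨h1, h2, h3⟩
  exact h3 (hq K Q.te h1 h2)

end

end Crest.Agent.R122.OkE167
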