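import Crest.Agent.R122.LinkAsm_984
import Crest.Agent.R122.OkE4AE_167

/-!
# Slot `hok` of helper984's assembly of inequality 1 (row 122), helper167

`hok` : the structures of inequality 1 with a bad world are null.
-/

set_option autoImplicit false
set_option linter.unusedSectionVars false

open MeasureTheory Set Filter Topology
open scoped ENNReal Classical
open Crest.AnalysisR.Kinetic
open Crest.Agent.R122.Kin796 Crest.Agent.R122.Kin796.CTree Crest.Agent.R122.Tree674
open Crest.Agent.R122.GC311 Crest.Agent.R122.EDefs602 Crest.Agent.R122.OneC285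
open Crest.Agent.R122.Long984 Crest.Agent.R122.Third741 Crest.Agent.R122.ThirdV796
open Crest.Agent.R122.OSCalc495 Crest.Agent.R122.GSCalc495
open Crest.Agent.R122.Scat818 Crest.Agent.R122.OCout796 Crest.Agent.R122.Ins45
open Crest.Agent.R122.LinkAsm984

noncomputable section

namespace Crest.Agent.R122.OkE167

variable {Φ : Space3 → ℝ} {f₀ : PhasePoint → ℝ} {K : ℕ} {Q : EPar} {T' : ℝ}

/-- No passage: the functional is one. -/
theorem passS_eq_one {ε : ℝ} {P : CTree} {z : PhasePoint × Par P} {m : ℕ} {w : Config m} {l : ML}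
    (hP : P.leaves ≤ K) (hc : ¬ CDpass Φ (cD ε z l)) : passS Φ K ε P z m w l = 1 := by
  unfold passS sfOf passG
  rw [if_pos hP]
  exact if_neg hc

/-- A real structure with a passage and a bad world. -/
def NOk4 (Φ : Space3 → ℝ) (K : ℕ) (Q : EPar) (T' ε : ℝ) (P : CTree) (z : PhasePoint × Par P)
    (m : ℕ) (w : Config m) (l : ML) : Prop :=
  Real4 Φ ε K Q.te T' P z w l ∧ CDpass Φ (cD ε z l) ∧ ¬ OkE4 Φ ε P z w l

/-- **Slot `hok`** of `LinkAsm984.stmtLink4_of_parts`. -/
theorem hok {g0 : ℝ} (hΦ : AdmissiblePotential Φ) (hf : Measurable f₀) (hQ : QOk Q g0) (K : ℕ)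
    (T' : ℝ) : OSNull Φ f₀ K Q T'
      fun ε P z _ w l => if ¬ LinkAsm984.OkE4 Φ ε P z w l then 1 else 0 := by
  have h1 : OSNull Φ f₀ K Q T' fun ε P z m w l =>
      if NOk4 Φ K Q T' ε P z m w l then 1 else 0 := by
    refine osNull_of_ae K T' fun ε hε P m => ?_
    filter_upwards [ae_okE4 hΦ hε P m T' (volume.restrict (Ioc 0 Q.te))] with q hq h
    exact h.2.2 (hq K Q.te h.1 h.2.1)
  refine (h1.add hΦ hf hQ.γ_meas (osNull_pass hΦ hQ K T')).congr fun ε _ P z m w l hg => ?_
  by_cases hok : LinkAsm984.OkE4 Φ ε P z w l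
  · rw [if_neg (not_not_intro hok)]
    exact zero_le
  rw [if_pos hok]
  by_cases hc : CDpass Φ (cD ε z l)
  · have h2 : NOk4 Φ K Q T' ε P z m w l := ⟨hg.real, hc, fun h => hok ⟨h.okR, h.ok1, h.ok2⟩⟩
    rw [if_pos h2]
    exact le_self_add
  · rw [passS_eq_one ((Nat.le_add_left _ _).trans hg.small) hc]
    exact le_add_self

end Crest.Agent.R122.OkE167

end
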