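import Crest.Agent.R122.LinkNbad_984
import Crest.Agent.R122.OkSlot4_167
import Crest.Agent.R122.TLBind_311

/-!
# `StmtLink4` (row 122, board H1): the slots

* `ctx_of` : helper311's context of the gateway from `KData` and `QOk`.
* `SlotLk`, `SlotX` : the two open slots; `slots4_of` : `Slots4`.
-/

set_option autoImplicit false

open MeasureTheory Set Filter Topology
open scoped ENNReal
open Crest.AnalysisR.Kinetic
open Crest.Agent.R122.Kin796 Crest.Agent.R122.Kin796.CTree Crest.Agent.R122.Tree674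
open Crest.Agent.R122.GC311 Crest.Agent.R122.EDefs602 Crest.Agent.R122.OneC285
open Crest.Agent.R122.Third741 Crest.Agent.R122.Master566 Crest.Agent.R122.Top602
open Crest.Agent.R122.Ineq1815 Crest.Agent.R122.InEq2 Crest.Agent.R122.TL311

noncomputable section

open scoped Classical

namespace Crest.Agent.R122.LinkAsm984

variable {Φ : Space3 → ℝ} {f₀ : PhasePoint → ℝ} {f : ℝ → PhasePoint → ℝ} {β T : ℝ}
  {K : ℕ} {Q : EPar} {T' g0 : ℝ}

/-- **The context of the gateway.** -/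
theorem ctx_of (hD : KData Φ β T f₀ f) (hQ : QOk Q g0) (hte : 0 ≤ Q.te) (hlt : Q.te < T') :
    Ctx Φ f₀ β T' Q.te (min g0 β) Q.γ Q.ρ where
  adm := hD.adm
  cont := hD.contDiff.continuous
  gauss := hD.gaussian
  mass := (Q1815.lintegral_mass hD).le
  T_nonneg := hte.trans hlt.le
  te_le := hlt.le
  g_pos := lt_min hQ.g0_pos hD.beta_pos
  g_le := min_le_right _ _
  rate τ hτ := (min_le_left _ _).trans (hQ.γ_ge τ hτ)
  meas := hQ.γ_meas
  mark := hQ.ρ_ne

/-- The slot of the almost sure facts. -/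
theorem slotOk (hD : KData Φ β T f₀ f) (hQ : QOk Q g0) (K : ℕ) (T' : ℝ) :
    OSNull Φ f₀ K Q T' fun ε P z _ w l => if ¬ OkE4 Φ ε P z w l then 1 else 0 :=
  OkE167.hok hD.adm hD.contDiff.continuous.measurable hQ K T'

/-- **`Slots4`** from the two other slots. -/
theorem slots4_of (hD : KData Φ β T f₀ f)
    (hlk : ∀ (Q : EPar) (g0 T' : ℝ) (K : ℕ) (R : ℝ), QOk Q g0 → 0 ≤ Q.te → Q.te < T' → 0 ≤ R →
      OSNull Φ f₀ K Q T' fun ε P z _ w l => if LinkE4 Φ ε R K Q.te P z w l then 1 else 0)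
    (hx : ∀ (Q : EPar) (g0 T' : ℝ) (K : ℕ), QOk Q g0 → 0 ≤ Q.te → Q.te < T' →
      OSNull Φ f₀ K Q T' fun ε P z _ w _ =>
        min 1 (EDefs602.lineM Q.γ Q.ρ K Q.te (Xbad4 Φ ε K Q.te P z w))) : Slots4 Φ f₀ where
  ok _ _ T' K hQ _ _ := slotOk hD hQ K T'
  lk := hlk
  x := hx

end Crest.Agent.R122.LinkAsm984

end
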