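import Crest.Agent.R122.InEq2Fun_311
import Crest.Agent.R122.EMDefs_602
import Crest.Agent.R122.EquivE_416

/-!
# Row 122, INEQUALITY 2' (helper311): assembly

`InB F C o` : for short windows and large `L`, the functional `F` of the joinings has a majorant of
mass `Small + C · XI + o h L · aE` (trees valid at the horizon `tw + h₀`).

`ineq2_of` : Ineq2 of 602's master from the nine bounds (`FT`, `FNG`, `FR`, `FL`, `FA`, `FB` of the
open part; `FNC`, `FRC`, `FM` of the closed part).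
-/

set_option autoImplicit false

open MeasureTheory Set Filter Topology
open scoped ENNReal
open Crest.AnalysisR.Kinetic
open Crest.Agent.R122.Master566 Crest.Agent.R122.GIV566 Crest.Agent.R122.Top602
open Crest.Agent.R122.EDefs602 Crest.Agent.R122.GC311

noncomputable section

open scoped Classical

namespace Crest.Agent.R122.InEq2

/-- A Mecke'd functional of the window: parameters `Φ ε K A T'`. -/
abbrev Fun : Type := (Space3 → ℝ) → ℝ → ℕ → EPar → ℝ → (k m : ℕ) → Config k → Config m →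
  Fin k → ℝ≥0∞

/-- The functional `F` has a majorant of mass `Small + C · XI + o h L · aE`. -/
def InB (Φ : Space3 → ℝ) (f₀ : PhasePoint → ℝ) (f : ℝ → PhasePoint → ℝ) (T : ℝ) (γ : ℝ → ℝ)
    (ρ : ℝ≥0∞) (h₀ : ℝ) (F : Fun) : Prop :=
  ∃ C : ℝ≥0∞, C ≠ ∞ ∧ ∃ o : ℝ → ℝ → ℝ≥0∞, Vanish o ∧ EvW T fun h L tw te =>
    IH Φ f₀ f T γ ρ tw → ∃ S : ℕ → ℝ → ℝ≥0∞, Small S ∧ Ev fun K ε =>
      Bnd Φ f₀ ε (tw + h₀) (F Φ ε K (epar γ ρ L tw te) (tw + h₀))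
        (S K ε + (C * XI Φ f₀ ε K (epar γ ρ L tw te) + o h L * aE Φ f₀ ε K (epar γ ρ L tw te)))

variable {Φ : Space3 → ℝ} {f₀ : PhasePoint → ℝ} {f : ℝ → PhasePoint → ℝ} {T : ℝ} {γ : ℝ → ℝ}
  {ρ : ℝ≥0∞} {h₀ : ℝ}

/-- Every `K` fixed: a null majorant is enough. -/
theorem InB.of_null {F : Fun}
    (h : EvW T fun _ L tw te => IH Φ f₀ f T γ ρ tw → ∀ K : ℕ, ∃ q : ℝ → ℝ≥0∞,
      Tendsto q (𝓝[>] 0) (𝓝 0) ∧ ∀ᶠ ε in 𝓝[>] (0 : ℝ),
        Bnd Φ f₀ ε (tw + h₀) (F Φ ε K (epar γ ρ L tw te) (tw + h₀)) (q ε)) :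
    InB Φ f₀ f T γ ρ h₀ F := by
  refine ⟨0, ENNReal.zero_ne_top, fun _ _ => 0, Vanish.zero, h.mono
    fun h' L tw te _ _ _ hq hIH => ?_⟩
  choose q hq0 hqb using hq hIH
  refine ⟨fun K ε => q K ε, (null_iff_tendsto.2 hq0).small, ?_⟩
  refine ⟨0, fun K _ => ?_⟩
  have h1 := hqb K
  rw [eventually_nhdsWithin_iff, Metric.eventually_nhds_iff] at h1
  obtain ⟨ε₀, hε₀, h2⟩ := h1
  refine ⟨ε₀, hε₀, fun ε hε hlt => ?_⟩
  have h3 := h2 (by rw [Real.dist_eq, sub_zero, abs_of_pos hε]; exact hlt) hε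
  simpa using h3

/-- A small majorant is enough. -/
theorem InB.of_small {F : Fun}
    (h : EvW T fun _ L tw te => IH Φ f₀ f T γ ρ tw → ∃ S : ℕ → ℝ → ℝ≥0∞, Small S ∧
      Ev fun K ε => Bnd Φ f₀ ε (tw + h₀) (F Φ ε K (epar γ ρ L tw te) (tw + h₀)) (S K ε)) :
    InB Φ f₀ f T γ ρ h₀ F := by
  refine ⟨0, ENNReal.zero_ne_top, fun _ _ => 0, Vanish.zero, h.mono
    fun h' L tw te _ _ _ hq hIH => ?_⟩
  obtain ⟨S, hS, hb⟩ := hq hIH
  refine ⟨S, hS, hb.mono fun K ε _ hB => ?_⟩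
  simpa using hB

/-- The sum of two bounds. -/
theorem InB.add {F G : Fun} (hD : AdmissiblePotential Φ) (hf : Measurable f₀)
    (h : InB Φ f₀ f T γ ρ h₀ F) (h' : InB Φ f₀ f T γ ρ h₀ G) :
    InB Φ f₀ f T γ ρ h₀ fun Φ ε K A T' k m V w j => F Φ ε K A T' k m V w j +
      G Φ ε K A T' k m V w j := by
  obtain ⟨C, hC, o, ho, hw⟩ := h
  obtain ⟨C', hC', o', ho', hw'⟩ := h'
  refine ⟨C + C', ENNReal.add_ne_top.2 ⟨hC, hC'⟩, fun x y => o x y + o' x y, ho.add ho',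
    (hw.and hw').mono fun x L tw te _ _ _ hq hIH => ?_⟩
  obtain ⟨S, hS, hb⟩ := hq.1 hIH
  obtain ⟨S', hS', hb'⟩ := hq.2 hIH
  refine ⟨fun K ε => S K ε + S' K ε, hS.add hS', (hb.and hb').mono fun K ε _ hB => ?_⟩
  have h1 := hB.1.add hD hf hB.2
  refine h1.mono_le (le_of_eq ?_)
  ring

/-- **Inequality 2 from the bounds of the parts.** -/
theorem ineq2_of {β : ℝ} (hD : KData Φ β T f₀ f)
    (hT : InB Φ f₀ f T γ ρ h₀ fun Φ ε K A _ => FT Φ ε K A)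
    (hN : InB Φ f₀ f T γ ρ h₀ FNG) (hR : InB Φ f₀ f T γ ρ h₀ FR)
    (hLl : InB Φ f₀ f T γ ρ h₀ FL) (hA : InB Φ f₀ f T γ ρ h₀ FA)
    (hB : InB Φ f₀ f T γ ρ h₀ FB) (hNC : InB Φ f₀ f T γ ρ h₀ FNC)
    (hRC : InB Φ f₀ f T γ ρ h₀ FRC) (hM : InB Φ f₀ f T γ ρ h₀ FM) :
    Ineq2 Φ f₀ f T γ ρ := by
  have hΦ := hD.adm
  have hf : Measurable f₀ := hD.contDiff.continuous.measurable
  have hop := ((((hT.add hΦ hf hN).add hΦ hf hR).add hΦ hf hLl).add hΦ hf hA).add hΦ hf hB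
  have hcl := (hNC.add hΦ hf hRC).add hΦ hf hM
  obtain ⟨C, hC, o, ho, hw⟩ := hop
  obtain ⟨C', hC', o', ho', hw'⟩ := hcl
  refine ⟨C + C', ENNReal.add_ne_top.2 ⟨hC, hC'⟩, fun x y => o x y + o' x y, ho.add ho',
    (hw.and hw').mono fun x L tw te _ hL hwin hq hIH => ?_⟩
  obtain ⟨S, hS, hb⟩ := hq.1 hIH
  obtain ⟨S', hS', hb'⟩ := hq.2 hIH
  refine ⟨fun K ε => S K ε + S' K ε, hS.add hS', (hb.and hb').mono fun K ε hε hB' => ?_⟩
  have hL0 : 0 ≤ (epar γ ρ L tw te).L := zero_le_one.trans hL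
  have htw : 0 ≤ (epar γ ρ L tw te).tw := hwin.nonneg
  have hte : 0 ≤ (epar γ ρ L tw te).te := hwin.nonneg.trans hwin.le
  have hWm : ∀ (n : ℕ) (q : Fin n), Measurable fun w : Config n =>
      (MW.cfg w).Wm Φ ε K (epar γ ρ L tw te) (iTime Φ ε K (epar γ ρ L tw te).te w q) :=
    fun n q => (MeasE416.MeasW.cfg measurable_id).Wm hΦ hε K _ (measurable_iTime hΦ hε _ q)
  have hWe : ∀ (n : ℕ) (σ : Equiv.Perm (Fin n)) (w : Config n) (s : ℝ), w ∈ PairExcluded ε n →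
      (MW.cfg w).Wm Φ ε K (epar γ ρ L tw te) s =
        (MW.cfg fun i => w (σ i)).Wm Φ ε K (epar γ ρ L tw te) s :=
    fun n σ w s _ => (EquivE416.Wm_perm hΦ hε K _ w σ s).symm
  -- the open part
  have h1 : aI Φ f₀ ε K (epar γ ρ L tw te) ≤ S K ε +
      (C * XI Φ f₀ ε K (epar γ ρ L tw te) + o x L * aE Φ f₀ ε K (epar γ ρ L tw te)) := by
    rw [aI_eq_MS hΦ hf hε hWm hWe]
    refine (Bnd.of_ae (F := FaI Φ ε K (epar γ ρ L tw te))
      (Good := fun n Z => ∀ t : ℝ, Simul984.NoSimul ε (Flow671.flow Φ ε t Z)) hΦ hf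
      (fun n => Simul984.ae_noSimul_flow hΦ hε) hB'.1
      fun k m V w j hV hw hp hg => ?_).MS_le hΦ hf hε
    exact split_aI hΦ hε htw hL0 (append_dom hε hV hw hp) hg
  -- the closed part
  have h2 : aC Φ f₀ ε K (epar γ ρ L tw te) ≤ S' K ε +
      (C' * XI Φ f₀ ε K (epar γ ρ L tw te) + o' x L * aE Φ f₀ ε K (epar γ ρ L tw te)) := by
    refine (aC_le hΦ hε htw hL0).trans ?_
    rw [mC_eq_MS hΦ hf hε hte]
    exact (hB'.2.mono fun k m V w j _ _ _ => split_mC V w j).MS_le hΦ hf hε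
  calc aE Φ f₀ ε K (epar γ ρ L tw te)
      = aI Φ f₀ ε K (epar γ ρ L tw te) + aC Φ f₀ ε K (epar γ ρ L tw te) :=
        aE_split hΦ hf hε hWm
    _ ≤ (S K ε + (C * XI Φ f₀ ε K (epar γ ρ L tw te) +
          o x L * aE Φ f₀ ε K (epar γ ρ L tw te))) +
        (S' K ε + (C' * XI Φ f₀ ε K (epar γ ρ L tw te) +
          o' x L * aE Φ f₀ ε K (epar γ ρ L tw te))) := add_le_add h1 h2
    _ = _ := by ring

end Crest.Agent.R122.InEq2

end
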