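import Crest.Agent.R122.Hit3_167

/-!
# Ghost first hits (row 122, helper167), deterministic part

A test family: continuous curves `c a : ℝ → Space3` (`a : α`, finite) with end times `θ a`.
`Unhit z ε c θ t`: no particle of the world `z` comes within `ε` of a curve `c a` at a time
`s < t`, `s ≤ θ a`.

* `exists_first_hit`: the first hitting time is attained.
* `GhostHit` (real world), `GoodGhostHit` (isolated world of the backward cluster `B` of the
  hitter), `ghostHit_iff`: the dictionary.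
-/

set_option autoImplicit false

open Set Filter Topology
open Crest.AnalysisR.Kinetic

namespace Crest.Agent.R122.Hit167

open Causal291

section defs

variable {α ι β : Type*}

/-- The particle `k` is within `ε` of a curve of the test family at time `s`. -/
def HitsAt (z : ℝ → ι → PhasePoint) (ε : ℝ) (c : α → ℝ → Space3) (θ : α → ℝ) (s : ℝ) (k : ι) :
    Prop :=
  ∃ a, s ≤ θ a ∧ dist (c a s) (z s k).1 ≤ ε

/-- The test family is not hit before time `t`. -/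
def Unhit (z : ℝ → ι → PhasePoint) (ε : ℝ) (c : α → ℝ → Space3) (θ : α → ℝ) (t : ℝ) : Prop :=
  ∀ s ∈ Ico 0 t, ∀ k, ¬ HitsAt z ε c θ s k

variable {z : ℝ → ι → PhasePoint} {ε : ℝ} {c : α → ℝ → Space3} {θ : α → ℝ} {t t' s : ℝ}

theorem Unhit.mono (h : Unhit z ε c θ t) (ht : t' ≤ t) : Unhit z ε c θ t' :=
  fun s hs => h s ⟨hs.1, hs.2.trans_le ht⟩

theorem unhit_iff : Unhit z ε c θ t ↔
    ∀ s ∈ Ico 0 t, ∀ a, s ≤ θ a → ∀ k, ε < dist (c a s) (z s k).1 := by
  unfold Unhit HitsAt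
  constructor
  · intro h s hs a ha k
    by_contra hle
    exact h s hs k ⟨a, ha, not_lt.1 hle⟩
  · rintro h s hs k ⟨a, ha, hd⟩
    exact absurd hd (not_le.2 (h s hs a ha k))

/-- **First hit** in the window `[t₀, t)`. -/
theorem exists_first_hit [Finite α] [Finite ι] (hz : ∀ k, Continuous fun s => z s k)
    (hc : ∀ a, Continuous (c a)) {t₀ : ℝ} (h0 : Unhit z ε c θ t₀) (hnot : ¬ Unhit z ε c θ t) :
    ∃ σ ∈ Ico 0 t, t₀ ≤ σ ∧ Unhit z ε c θ σ ∧ ∃ k, HitsAt z ε c θ σ k := by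
  set S : Set ℝ := Ici 0 ∩ ⋃ k : ι, {s | HitsAt z ε c θ s k} with hS
  have hcl : IsClosed S := by
    refine isClosed_Ici.inter (isClosed_iUnion_of_finite fun k => ?_)
    have : {s | HitsAt z ε c θ s k} = ⋃ a : α, (Iic (θ a) ∩ {s | dist (c a s) (z s k).1 ≤ ε}) := by
      ext s
      simp only [HitsAt, mem_iUnion, mem_inter_iff, mem_Iic, mem_ofPred_eq]
    rw [this]
    exact isClosed_iUnion_of_finite fun a =>
      isClosed_Iic.inter (isClosed_le ((hc a).dist (hz k).fst) continuous_const)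
  unfold Unhit at hnot
  push Not at hnot
  obtain ⟨s, hs, k, hk⟩ := hnot
  have hsS : s ∈ S := ⟨hs.1, mem_iUnion.2 ⟨k, hk⟩⟩
  have hbdd : BddBelow S := ⟨0, fun u hu => hu.1⟩
  have hσ := hcl.csInf_mem ⟨s, hsS⟩ hbdd
  have hlt : sInf S < t := (csInf_le hbdd hsS).trans_lt hs.2
  obtain ⟨k', hk'⟩ := mem_iUnion.1 hσ.2
  refine ⟨sInf S, ⟨hσ.1, hlt⟩, ?_, ?_, k', hk'⟩
  · by_contra hlt'
    push Not at hlt'
    exact h0 (sInf S) ⟨hσ.1, hlt'⟩ k' hk'
  · intro u hu k'' hk''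
    exact absurd (csInf_le hbdd (show u ∈ S from ⟨hu.1, mem_iUnion.2 ⟨k'', hk''⟩⟩)) (not_le.2 hu.2)

/-- The first hitting time is unique. -/
theorem first_hit_unique {σ σ' : ℝ} {k k' : ι} (hσ0 : 0 ≤ σ) (hσ0' : 0 ≤ σ')
    (h : Unhit z ε c θ σ) (hk : HitsAt z ε c θ σ k) (h' : Unhit z ε c θ σ')
    (hk' : HitsAt z ε c θ σ' k') : σ = σ' := by
  by_contra hne
  rcases lt_or_gt_of_ne hne with hlt | hlt
  · exact h' σ ⟨hσ0, hlt⟩ k hk
  · exact h σ' ⟨hσ0', hlt⟩ k' hk'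

/-- **Ghost hit** in the real world: `f j` hits the test family at time `σ`, which is unhit before,
and the backward exploration of `(f j, σ⁻)` is exactly `f B`. -/
structure GhostHit (z : ℝ → ι → PhasePoint) (ε : ℝ) (c : α → ℝ → Space3) (θ : α → ℝ) (f : β → ι)
    (j : β) (σ : ℝ) : Prop where
  unhit : Unhit z ε c θ σ
  hits : HitsAt z ε c θ σ (f j)
  full : preAct z ε (f j) σ 0 = range f

/-- **Good ghost hit** in the isolated world of `B`: `j` hits the test family at time `σ`, its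
backward exploration is all of `B`, and the protected members do not hit the test family before. -/
structure GoodGhostHit (zB : ℝ → β → PhasePoint) (ε : ℝ) (c : α → ℝ → Space3) (θ : α → ℝ) (j : β)
    (σ : ℝ) : Prop where
  hits : HitsAt zB ε c θ σ j
  full : preAct zB ε j σ 0 = univ
  unhit : ∀ s ∈ Ico 0 σ, ∀ k ∈ preAct zB ε j σ s, ¬ HitsAt zB ε c θ s k

/-- At time `σ` the particle `j` is not in contact with any other particle. -/
def AloneAt (zB : ℝ → β → PhasePoint) (ε : ℝ) (j : β) (σ : ℝ) : Prop :=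
  ∀ i, i ≠ j → ε < dist (zB σ j).1 (zB σ i).1

/-- Protected times of the backward cluster of `(j, σ⁻)`. -/
noncomputable def tauPre (zB : ℝ → β → PhasePoint) (ε : ℝ) (j : β) (σ : ℝ) : β → ℝ :=
  fun m => sSup {s | s < σ ∧ m ∈ preAct zB ε j σ s}

end defs

section main

variable {α β ι : Type} [Finite β] [Finite ι]
variable {z : ℝ → ι → PhasePoint} {zB : ℝ → β → PhasePoint} {f : β → ι}
variable {ε T : ℝ} {c : α → ℝ → Space3} {θ : α → ℝ} {j : β} {σ : ℝ}

omit [Finite β] [Finite ι] in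
theorem GhostHit.pos (h : GhostHit z ε c θ f j σ) (hσ0 : 0 ≤ σ) : 0 < σ := by
  rcases hσ0.lt_or_eq with h1 | h1
  · exact h1
  · exfalso
    have h2 : f j ∈ preAct z ε (f j) σ 0 := by rw [h.full]; exact ⟨j, rfl⟩
    obtain ⟨s', hs', _⟩ := h2
    rw [← h1] at hs'
    simp at hs'

omit [Finite β] [Finite ι] in
theorem GoodGhostHit.pos (h : GoodGhostHit zB ε c θ j σ) (hσ0 : 0 ≤ σ) : 0 < σ := by
  rcases hσ0.lt_or_eq with h1 | h1
  · exact h1
  · exfalso
    have h2 : j ∈ preAct zB ε j σ 0 := by rw [h.full]; exact mem_univ j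
    obtain ⟨s', hs', _⟩ := h2
    rw [← h1] at hs'
    simp at hs'

omit [Finite β] [Finite ι] in
/-- Left limits: states of `j` agree at time `σ` if they agree before. -/
theorem agree_at_end {i : ι} (hzB : ContinuousOn (fun s => zB s j) (Icc 0 T))
    (hz : ContinuousOn (fun s => z s i) (Icc 0 T)) (hσ : 0 < σ) (hσT : σ ≤ T)
    (h : ∀ s ∈ Ico 0 σ, zB s j = z s i) : zB σ j = z σ i := by
  have hne : (𝓝[Ico 0 σ] σ).NeBot := by
    rw [← mem_closure_iff_nhdsWithin_neBot, closure_Ico hσ.ne]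
    exact ⟨hσ.le, le_rfl⟩
  have hsub : Ico 0 σ ⊆ Icc 0 T := fun s hs => ⟨hs.1, hs.2.le.trans hσT⟩
  have h3 : Tendsto (fun s => zB s j) (𝓝[Ico 0 σ] σ) (𝓝 (zB σ j)) :=
    (hzB σ ⟨hσ.le, hσT⟩).mono hsub
  have h4 : Tendsto (fun s => z s i) (𝓝[Ico 0 σ] σ) (𝓝 (z σ i)) := (hz σ ⟨hσ.le, hσT⟩).mono hsub
  refine tendsto_nhds_unique_of_eventuallyEq h3 h4 ?_
  filter_upwards [self_mem_nhdsWithin] with s hs
  exact h s hs

/-- **Ghost dictionary, from the real world to the isolated world.** -/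
theorem GhostHit.good (hzB : ∀ j, ContinuousOn (fun s => zB s j) (Icc 0 T))
    (hz : ∀ j, ContinuousOn (fun s => z s j) (Icc 0 T))
    (hloc : LocUniq ε T zB z) (hf : Function.Injective f) (h0 : ∀ i, zB 0 i = z 0 (f i))
    (hσ0 : 0 ≤ σ) (hσT : σ ≤ T) (h : GhostHit z ε c θ f j σ)
    (hI : Iso zB ε (fun s => f ⁻¹' preAct z ε (f j) σ s) σ) :
    GoodGhostHit zB ε c θ j σ ∧ Iso z ε (fun s => f '' preAct zB ε j σ s) σ ∧
      (∀ s ∈ Ico 0 σ, preAct zB ε j σ s = f ⁻¹' preAct z ε (f j) σ s) ∧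
      (∀ s ∈ Ico 0 σ, ∀ k ∈ preAct zB ε j σ s, zB s k = z s (f k)) := by
  have hσpos := h.pos hσ0
  have hsub : ∀ s ∈ Ico 0 σ, preAct z ε (f j) σ s ⊆ range f := by
    intro s hs
    rw [← h.full]
    exact preAct_anti 0 s le_rfl hs.1 hs.2.le
  have himg : ∀ s ∈ Ico 0 σ, f '' (f ⁻¹' preAct z ε (f j) σ s) = preAct z ε (f j) σ s :=
    fun s hs => image_preimage_eq_of_subset (hsub s hs)
  have hI2 : Iso z ε (fun s => f '' (f ⁻¹' preAct z ε (f j) σ s)) σ :=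
    iso_preAct.congr fun s hs => (himg s hs).symm
  have hanti : Anti (fun s => f ⁻¹' preAct z ε (f j) σ s) σ :=
    fun s s' h0 h1 h2 => preimage_mono (preAct_anti s s' h0 h1 h2)
  have hag : ∀ s ∈ Icc 0 σ, ∀ k ∈ f ⁻¹' preAct z ε (f j) σ s, zB s k = z s (f k) :=
    Iso.agree hzB hz hloc hf hσT hanti (fun k _ => h0 k) hI hI2
  have hj : ∀ s ∈ Ico 0 σ, j ∈ f ⁻¹' preAct z ε (f j) σ s := fun s hs =>
    mem_preAct_self (j := f j) hs.2
  have hpre : ∀ s ∈ Ico 0 σ, preAct zB ε j σ s = f ⁻¹' preAct z ε (f j) σ s := by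
    intro s hs
    have h1 : preAct z ε (f j) σ s = f '' preAct zB ε j σ s :=
      preAct_eq hf hanti hI hI2 hag le_rfl hj hs.1
    rw [h1, preimage_image_eq _ hf]
  have hag' : ∀ s ∈ Ico 0 σ, ∀ k ∈ preAct zB ε j σ s, zB s k = z s (f k) := by
    intro s hs k hk
    rw [hpre s hs] at hk
    exact hag s ⟨hs.1, hs.2.le⟩ k hk
  refine ⟨⟨?_, ?_, ?_⟩, ?_, hpre, hag'⟩
  · obtain ⟨a, ha, hd⟩ := h.hits
    refine ⟨a, ha, ?_⟩
    rw [agree_at_end (hzB j) (hz (f j)) hσpos hσT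
      (fun s hs => hag' s hs j (mem_preAct_self hs.2))]
    exact hd
  · rw [hpre 0 ⟨le_rfl, hσpos⟩, h.full, preimage_range]
  · rintro s hs k hk ⟨a, ha, hd⟩
    refine h.unhit s hs (f k) ⟨a, ha, ?_⟩
    rw [← hag' s hs k hk]
    exact hd
  · refine (iso_preAct (z := z) (j := f j)).congr fun s hs => ?_
    rw [hpre s hs, himg s hs]

/-- **Ghost dictionary, from the isolated world to the real world.** -/
theorem GoodGhostHit.ghost (hzB : ∀ j, ContinuousOn (fun s => zB s j) (Icc 0 T))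
    (hz : ∀ j, ContinuousOn (fun s => z s j) (Icc 0 T))
    (hloc : LocUniq ε T zB z) (hf : Function.Injective f) (h0 : ∀ i, zB 0 i = z 0 (f i))
    (hσ0 : 0 ≤ σ) (hσT : σ ≤ T) (h : GoodGhostHit zB ε c θ j σ)
    (hI : Iso z ε (fun s => f '' preAct zB ε j σ s) σ) (hU : Unhit z ε c θ σ) :
    GhostHit z ε c θ f j σ ∧ Iso zB ε (fun s => f ⁻¹' preAct z ε (f j) σ s) σ ∧
      (∀ s ∈ Ico 0 σ, preAct zB ε j σ s = f ⁻¹' preAct z ε (f j) σ s) := by
  have hσpos := h.pos hσ0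
  have hag : ∀ s ∈ Icc 0 σ, ∀ k ∈ preAct zB ε j σ s, zB s k = z s (f k) :=
    Iso.agree hzB hz hloc hf hσT preAct_anti (fun k _ => h0 k) iso_preAct hI
  have hj : ∀ s ∈ Ico 0 σ, j ∈ preAct zB ε j σ s := fun s hs => mem_preAct_self hs.2
  have hpre : ∀ s ∈ Ico 0 σ, preAct z ε (f j) σ s = f '' preAct zB ε j σ s := by
    intro s hs
    exact preAct_eq hf preAct_anti iso_preAct hI hag le_rfl hj hs.1
  have hpre' : ∀ s ∈ Ico 0 σ, preAct zB ε j σ s = f ⁻¹' preAct z ε (f j) σ s := by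
    intro s hs
    rw [hpre s hs, preimage_image_eq _ hf]
  refine ⟨⟨hU, ?_, ?_⟩, ?_, hpre'⟩
  · obtain ⟨a, ha, hd⟩ := h.hits
    refine ⟨a, ha, ?_⟩
    rw [← agree_at_end (hzB j) (hz (f j)) hσpos hσT
      (fun s hs => hag s ⟨hs.1, hs.2.le⟩ j (mem_preAct_self hs.2))]
    exact hd
  · rw [hpre 0 ⟨le_rfl, hσpos⟩, h.full, image_univ]
  · exact (iso_preAct (z := zB) (j := j)).congr hpre'

/-- **The ghost dictionary.** -/
theorem ghostHit_iff (hzB : ∀ j, ContinuousOn (fun s => zB s j) (Icc 0 T))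
    (hz : ∀ j, ContinuousOn (fun s => z s j) (Icc 0 T))
    (hloc : LocUniq ε T zB z) (hf : Function.Injective f) (h0 : ∀ i, zB 0 i = z 0 (f i))
    (hσ0 : 0 ≤ σ) (hσT : σ ≤ T) :
    (GhostHit z ε c θ f j σ ∧ Iso zB ε (fun s => f ⁻¹' preAct z ε (f j) σ s) σ) ↔
      (GoodGhostHit zB ε c θ j σ ∧ Iso z ε (fun s => f '' preAct zB ε j σ s) σ ∧
        Unhit z ε c θ σ) := by
  constructor
  · rintro ⟨h, hI⟩
    obtain ⟨h1, h2, _⟩ := h.good hzB hz hloc hf h0 hσ0 hσT hI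
    exact ⟨h1, h2, h.unhit⟩
  · rintro ⟨h, hI, hU⟩
    obtain ⟨h1, h2, _⟩ := h.ghost hzB hz hloc hf h0 hσ0 hσT hI hU
    exact ⟨h1, h2⟩

omit [Finite ι] in
/-- If the hitter is alone at time `σ` it has no contact shortly before `σ`. -/
theorem AloneAt.exists_quiet (hzB : ∀ j, Continuous (fun s => zB s j)) (hσ : 0 < σ)
    (h : AloneAt zB ε j σ) :
    ∃ r ∈ Ico 0 σ, ∀ u ∈ Icc r σ, ∀ i, i ≠ j → ¬ Ct zB ε u j i := by
  have h1 : ∀ i, i ≠ j → ∀ᶠ u in 𝓝 σ, ε < dist (zB u j).1 (zB u i).1 := by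
    intro i hi
    have hc : Continuous (fun s' => dist (zB s' j).1 (zB s' i).1) := (hzB j).fst.dist (hzB i).fst
    exact hc.continuousAt.eventually (lt_mem_nhds (h i hi))
  have h2 : ∀ᶠ u in 𝓝 σ, ∀ i, i ≠ j → ε < dist (zB u j).1 (zB u i).1 := by
    rw [Filter.eventually_all]
    intro i
    by_cases hi : i ≠ j
    · exact (h1 i hi).mono fun s' h _ => h
    · exact Eventually.of_forall fun s' hA => absurd hA hi
  obtain ⟨δ, hδ, h2⟩ := Metric.eventually_nhds_iff.1 h2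
  refine ⟨max 0 (σ - δ / 2), ⟨le_max_left _ _, max_lt hσ (by linarith)⟩, ?_⟩
  intro u hu i hi hc
  have huσ : σ - δ / 2 ≤ u := (le_max_right _ _).trans hu.1
  exact absurd hc (not_le.2 (h2 (y := u) (by
    rw [Real.dist_eq, abs_lt]; constructor <;> linarith [hu.2]) i hi))

omit [Finite ι] in
/-- Protected times describe the backward cluster of `(j, σ⁻)` if the hitter is alone. -/
theorem preAct_eq_fam (hzB : ∀ j, Continuous (fun s => zB s j)) (hσ : 0 < σ)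
    (hfull : preAct zB ε j σ 0 = univ) (h : AloneAt zB ε j σ) {s : ℝ} (hsσ : s ∈ Ico 0 σ) :
    preAct zB ε j σ s = fam (tauPre zB ε j σ) s := by
  obtain ⟨r, hr, hq'⟩ := h.exists_quiet hzB hσ
  have hq : ∀ u ∈ Ico r σ, ∀ i, i ≠ j → ¬ Ct zB ε u j i := fun u hu => hq' u ⟨hu.1, hu.2.le⟩
  ext m
  have h0 : m ∈ preAct zB ε j σ 0 := by rw [hfull]; exact mem_univ m
  set S : Set ℝ := {s | s < σ ∧ m ∈ preAct zB ε j σ s} with hS
  have hbdd : BddAbove S := ⟨σ, fun u hu => hu.1.le⟩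
  have h0S : (0 : ℝ) ∈ S := ⟨hσ, h0⟩
  have hdown : ∀ u v, u ≤ v → v ∈ S → u ∈ S := by
    rintro u v huv ⟨hv, w, hw, hp⟩
    exact ⟨huv.trans_lt hv, w, ⟨huv.trans hw.1, hw.2⟩, hp.mono huv⟩
  have key : m ∈ preAct zB ε j σ s ↔ s ∈ S := ⟨fun hm => ⟨hsσ.2, hm⟩, fun hm => hm.2⟩
  rw [key]
  change s ∈ S ↔ s ≤ sSup S
  refine ⟨fun hsS => le_csSup hbdd hsS, fun hle => ?_⟩
  rcases hle.lt_or_eq with hlt | heq
  · obtain ⟨u, hu, hsu⟩ := exists_lt_of_lt_csSup ⟨0, h0S⟩ hlt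
    exact hdown s u hsu.le hu
  · by_cases hmj : m = j
    · subst hmj
      exact ⟨hsσ.2, mem_preAct_self hsσ.2⟩
    · have hSr : ∀ u ∈ S, u ≤ r := by
        rintro u ⟨huσ, hu⟩
        by_contra hlt
        push Not at hlt
        exact hmj ((mem_preAct_of_quiet' hq ⟨hlt, huσ⟩).1 hu)
      have hP : {u | Past (Ct zB ε) r j u m} = S := by
        ext u
        constructor
        · intro hu
          have hur : u ≤ r := Past.le hu
          exact ⟨hur.trans_lt hr.2, (mem_preAct_of_quiet hq hr.2 hur).2 hu⟩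
        · intro hu
          exact (mem_preAct_of_quiet hq hr.2 (hSr u hu)).1 hu.2
      have hcl : IsClosed S := by
        rw [← hP]
        exact isClosed_past (fun i k => isClosed_ct hzB i k) m
      rw [heq]
      exact hcl.csSup_mem ⟨0, h0S⟩ hbdd

omit [Finite β] [Finite ι] in
theorem tauPre_self : tauPre zB ε j σ j = σ := by
  unfold tauPre
  have : {s | s < σ ∧ j ∈ preAct zB ε j σ s} = Iio σ := by
    ext s
    exact ⟨fun h => h.1, fun h => ⟨h, mem_preAct_self h⟩⟩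
  rw [this, csSup_Iio]

omit [Finite β] [Finite ι] in
theorem tauPre_le (hσ0 : 0 ≤ σ) (i : β) : tauPre zB ε j σ i ≤ σ :=
  Real.sSup_le (fun _ hu => hu.1.le) hσ0

end main

end Crest.Agent.R122.Hit167
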