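import Crest.Agent.R122.InEq2Case_311
import Crest.Agent.R122.CausalTheta_291
import Crest.Agent.R122.ClusterPre_311
import Crest.Agent.R122.HitG1_167

/-!
# Row 122, INEQUALITY 2' (helper311): worlds `w` and `V ∪ w`

`TchV s`: at time `s` a particle of `w` influenced by `V` (or a particle of `V`) is infected in one
of the worlds `w`, `V ∪ w` (gas worlds, all marks `1`).  If `V` is untouched before `σ`, then every
particle of `V ∪ w` infected before `σ` is a particle of `w`, infected before `σ` in the world `w`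
alone, with the same trajectory up to `σ`.
-/

set_option autoImplicit false

open Set Filter Topology MeasureTheory
open Crest.AnalysisR.Kinetic

namespace Crest.Agent.R122.InEq2

open Causal291 Inf879 Flow671 Loc45 GC311

variable {Φ : Space3 → ℝ} {ε : ℝ}

/-- Infected in the gas `Z` at time `s` (all marks are `1`). -/
def GInf (Φ : Space3 → ℝ) (ε : ℝ) (K : ℕ) {n : ℕ} (Z : Config n) (s : ℝ) (i : Fin n) : Prop :=
  Infd (Ct (pth Φ ε Z) ε) (fun _ => 1) K s i

/-- Infected strictly before `σ` in the gas `Z`. -/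
def GInfB (Φ : Space3 → ℝ) (ε : ℝ) (K : ℕ) {n : ℕ} (Z : Config n) (σ : ℝ) (i : Fin n) : Prop :=
  InfB (Ct (pth Φ ε Z) ε) (fun _ => 1) K σ i

theorem gInf_iff {K n : ℕ} {Z : Config n} {s : ℝ} {i : Fin n} :
    GInf Φ ε K Z s i ↔ K < gasSize Φ ε n Z s i := by
  unfold GInf Infd gasSize
  rw [msize_one]

theorem gInfB_iff_sig (hΦ : AdmissiblePotential Φ) (hε : 0 < ε) {K n : ℕ} {Z : Config n}
    {σ b : ℝ} (hσ : σ ≤ b) {i : Fin n} :
    GInfB Φ ε K Z σ i ↔ sig (gasSize Φ ε) K b n Z i < σ := by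
  constructor
  · rintro ⟨u, hu, hi⟩
    have h0 : 0 ≤ u := Infd.nonneg hi
    exact (utime_le_of_mem h0 (gInf_iff.1 hi)).trans_lt hu
  · intro h
    obtain ⟨u, hu1, hu2⟩ := exists_between h
    exact ⟨u, hu2, gInf_iff.2 (lt_size_of_sig_lt (sizeFam_gasSize hΦ hε) (hu2.le.trans hσ) hu1)⟩

/-- The infection time is attained. -/
theorem gInf_sig (hΦ : AdmissiblePotential Φ) (hε : 0 < ε) {K n : ℕ} {Z : Config n}
    {b : ℝ} {i : Fin n} (h : sig (gasSize Φ ε) K b n Z i < b) :
    GInf Φ ε K Z (sig (gasSize Φ ε) K b n Z i) i := by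
  have hcl : IsClosed {t | GInf Φ ε K Z t i} := isClosed_infd (isClosed_ct_pth hΦ hε Z) i
  set σ := sig (gasSize Φ ε) K b n Z i with hσ
  have hlim : Tendsto (fun n : ℕ => σ + (b - σ) / ((n : ℝ) + 1)) atTop (𝓝 σ) := by
    have h1 : Tendsto (fun n : ℕ => (b - σ) * (1 / ((n : ℝ) + 1))) atTop (𝓝 ((b - σ) * 0)) :=
      tendsto_one_div_add_atTop_nhds_zero_nat.const_mul (b - σ)
    have h2 := h1.const_add σ
    simpa [div_eq_mul_inv, mul_comm] using h2
  refine hcl.mem_of_tendsto hlim (Eventually.of_forall fun n => ?_)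
  refine gInf_iff.2 (lt_size_of_sig_lt (b := b) (sizeFam_gasSize hΦ hε) ?_ ?_)
  · have h3 : (b - σ) / ((n : ℝ) + 1) ≤ b - σ :=
      div_le_self (by linarith) (by linarith [Nat.cast_nonneg (α := ℝ) n])
    linarith
  · have h3 : 0 < (b - σ) / ((n : ℝ) + 1) := div_pos (by linarith) (by positivity)
    linarith

/-- The set of particles infected before the infection time does not contain the particle. -/
theorem not_gInfB_sig {K n : ℕ} {Z : Config n} {b : ℝ} {i : Fin n} :
    ¬ GInfB Φ ε K Z (sig (gasSize Φ ε) K b n Z i) i := by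
  rintro ⟨u, hu, hi⟩
  have h0 : 0 ≤ u := Infd.nonneg hi
  exact absurd (utime_le_of_mem h0 (gInf_iff.1 hi)) (not_le.2 hu)

/-- `V` (as an inserted object) touches the infection of the gas `w` before or at time `s`. -/
def TchV (Φ : Space3 → ℝ) (ε : ℝ) (K : ℕ) {k m : ℕ} (V : Config k) (w : Config m) (s : ℝ) : Prop :=
  Touched (pth Φ ε w) (pth Φ ε (Fin.append V w)) (Fin.natAdd k) ε
    (fun s l => GInf Φ ε K w s l) (fun s j => GInf Φ ε K (Fin.append V w) s j) s

theorem dom_append_right {k m : ℕ} {V : Config k} {w : Config m}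
    (hVW : Fin.append V w ∈ Dom Φ (Fin (k + m))) : w ∈ Dom Φ (Fin m) := by
  have := dom_comp hVW (e := Fin.natAdd k) (Fin.natAdd_injective m k)
  simpa using this

theorem dom_append_left {k m : ℕ} {V : Config k} {w : Config m}
    (hVW : Fin.append V w ∈ Dom Φ (Fin (k + m))) : V ∈ Dom Φ (Fin k) := by
  have := dom_comp hVW (e := Fin.castAdd m) (Fin.castAdd_injective k m)
  simpa using this

/-- If `V` does not touch before or at `s`, then a particle infected at `s` in `V ∪ w` is a particle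
of `w`, infected at `s` in `w`, with the same trajectory up to `s`. -/
theorem inf_of_not_tchV (hΦ : AdmissiblePotential Φ) (hε : 0 < ε) {K k m : ℕ} {V : Config k}
    {w : Config m} (hVW : Fin.append V w ∈ Dom Φ (Fin (k + m))) {s : ℝ}
    (h : ¬ TchV Φ ε K V w s) {p : Fin (k + m)} (hp : GInf Φ ε K (Fin.append V w) s p) :
    ∃ l : Fin m, p = Fin.natAdd k l ∧ GInf Φ ε K w s l ∧
      ∀ s' ∈ Icc 0 s, pth Φ ε w s' l = pth Φ ε (Fin.append V w) s' (Fin.natAdd k l) := by
  have h0 : 0 ≤ s := Infd.nonneg hp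
  induction p using Fin.addCases with
  | left i =>
    exfalso
    refine h (Or.inr ⟨Fin.castAdd m i, ?_, hp⟩)
    rintro ⟨l, hl⟩
    have := congrArg Fin.val hl
    simp only [Fin.val_natAdd, Fin.val_castAdd] at this
    omega
  | right l =>
    have hf : ¬ Fut (pth Φ ε w) (pth Φ ε (Fin.append V w)) id (Fin.natAdd k) ε s l :=
      fun hf => h (Or.inl ⟨l, hf, Or.inr hp⟩)
    have hw : w ∈ Dom Φ (Fin m) := dom_append_right hVW
    have hist : HistEq (pth Φ ε w) (pth Φ ε (Fin.append V w)) id (Fin.natAdd k) ε s l :=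
      histEq_of_not_fut (T := s) (fun j => (continuous_pth hΦ hε w j).continuousOn)
        (fun j => (continuous_pth hΦ hε _ j).continuousOn) (locUniq_pth hΦ hε s hw hVW)
        (Fin.natAdd_injective m k) ⟨h0, le_rfl⟩ hf
    refine ⟨l, rfl, ?_, fun s' hs' => agree_append hΦ hε hVW le_rfl hf hs'⟩
    exact (infd_iff_of_histEq Function.injective_id (Fin.natAdd_injective m k)
      (m₁ := fun _ => 1) (m₂ := fun _ => 1) (fun _ => rfl) hist K).2 hp

/-- **Untouched case**: partners infected before `σ` are particles of `w` alone. -/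
theorem infB_of_untouched (hΦ : AdmissiblePotential Φ) (hε : 0 < ε) {K k m : ℕ} {V : Config k}
    {w : Config m} (hVW : Fin.append V w ∈ Dom Φ (Fin (k + m))) {σ : ℝ}
    (h : ∀ s < σ, ¬ TchV Φ ε K V w s) {p : Fin (k + m)}
    (hp : GInfB Φ ε K (Fin.append V w) σ p) :
    ∃ l : Fin m, p = Fin.natAdd k l ∧ GInfB Φ ε K w σ l ∧
      ∀ s ∈ Icc 0 σ, pth Φ ε w s l = pth Φ ε (Fin.append V w) s (Fin.natAdd k l) := by
  obtain ⟨u, hu, hi⟩ := hp
  obtain ⟨l, rfl, hl, hag⟩ := inf_of_not_tchV hΦ hε hVW (h u hu) hi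
  have h0 : 0 ≤ u := Infd.nonneg hi
  refine ⟨l, rfl, ⟨u, hu, hl⟩, ?_⟩
  have key : ∀ s ∈ Ico 0 σ, pth Φ ε w s l = pth Φ ε (Fin.append V w) s (Fin.natAdd k l) := by
    intro s hs
    rcases le_total s u with hsu | hsu
    · exact hag s ⟨hs.1, hsu⟩
    · obtain ⟨l', hl', -, hag'⟩ := inf_of_not_tchV hΦ hε hVW (h s hs.2) (Infd.mono hi hsu)
      have : l = l' := Fin.natAdd_injective m k hl'
      subst this
      exact hag' s ⟨hs.1, le_rfl⟩
  have hσ0 : 0 < σ := h0.trans_lt hu
  intro s hs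
  rcases hs.2.lt_or_eq with hsσ | rfl
  · exact key s ⟨hs.1, hsσ⟩
  · exact (Hit167.agree_at_end (T := s) (continuous_pth hΦ hε w l).continuousOn
      (continuous_pth hΦ hε _ (Fin.natAdd k l)).continuousOn hσ0 le_rfl key)

end Crest.Agent.R122.InEq2
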