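import Crest.Agent.R122.EDefs_602
import Crest.Agent.R122.InEq2World_311

/-!
# Row 122, INEQUALITY 2' (helper311): splitting of `aE` and Mecke at the infection time

* `aC`: joinings at which the cluster is still of size `≤ 2K` (all partners clean): bounded by the
  mass `mC` of real clusters of size in `(K, 2K]` formed at the infection time.
* `aI`: the other joinings (contact with a particle infected before).
* `aE_split : aE = aI + aC`, `aC_le : aC ≤ mC`, `aI_mecke`: Mecke formula for `aI`.
-/

set_option autoImplicit false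

open MeasureTheory Set Filter Topology
open scoped ENNReal
open Crest.AnalysisR.Kinetic
open Crest.Agent.R122.Flow671 Crest.Agent.R122.Loc45 Crest.Agent.R122.Causal291
open Crest.Agent.R122.Inf879 Crest.Agent.R122.GC311 Crest.Agent.R122.EDefs602

noncomputable section

open scoped Classical

namespace Crest.Agent.R122.InEq2

variable {Φ : Space3 → ℝ} {f₀ : PhasePoint → ℝ} {ε : ℝ} {K : ℕ} {P : EPar}

/-- The particle `q` joins the infection in the window. -/
def Joins (Φ : Space3 → ℝ) (ε : ℝ) (K : ℕ) (P : EPar) {n : ℕ} (w : Config n) (q : Fin n) : Prop :=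
  P.tw < iTime Φ ε K P.te w q ∧ iTime Φ ε K P.te w q ≤ P.te

/-- The joinings with a cluster of size `≤ 2K` at the infection time. -/
def aC (Φ : Space3 → ℝ) (f₀ : PhasePoint → ℝ) (ε : ℝ) (K : ℕ) (P : EPar) : ℝ≥0∞ :=
  gcE f₀ ε fun n w => (activity ε)⁻¹ * ∑ q : Fin n,
    if Joins Φ ε K P w q ∧ gasSize Φ ε n w (iTime Φ ε K P.te w q) q ≤ 2 * K then
      eW w (preC Φ ε w (iTime Φ ε K P.te w q) q) *
        (MW.cfg w).Wm Φ ε K P (iTime Φ ε K P.te w q)
    else 0

/-- The joinings with a cluster of size `> 2K` at the infection time. -/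
def aI (Φ : Space3 → ℝ) (f₀ : PhasePoint → ℝ) (ε : ℝ) (K : ℕ) (P : EPar) : ℝ≥0∞ :=
  gcE f₀ ε fun n w => (activity ε)⁻¹ * ∑ q : Fin n,
    if Joins Φ ε K P w q ∧ 2 * K < gasSize Φ ε n w (iTime Φ ε K P.te w q) q then
      eW w (preC Φ ε w (iTime Φ ε K P.te w q) q) *
        (MW.cfg w).Wm Φ ε K P (iTime Φ ε K P.te w q)
    else 0

/-- Mass of the real clusters of size in `(K, 2K]` formed at an infection time in the window. -/
def mC (Φ : Space3 → ℝ) (f₀ : PhasePoint → ℝ) (ε : ℝ) (K : ℕ) (P : EPar) : ℝ≥0∞ :=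
  gcE f₀ ε fun n w => (activity ε)⁻¹ * ∑ q : Fin n,
    if Joins Φ ε K P w q ∧ K < gasSize Φ ε n w (iTime Φ ε K P.te w q) q ∧
        gasSize Φ ε n w (iTime Φ ε K P.te w q) q ≤ 2 * K then
      eW w (BC (Ct (pth Φ ε w) ε) (iTime Φ ε K P.te w q) q).toFinset
    else 0

/-! ### Measurability and equivariance of the elementary ingredients -/

theorem measurable_iTime (hΦ : AdmissiblePotential Φ) (hε : 0 < ε) (T : ℝ) {n : ℕ}
    (q : Fin n) :
    Measurable fun w : Config n => iTime Φ ε K T w q :=
  measurable_sig (sizeFam_gasSize hΦ hε) n q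

theorem iTime_equiv (hΦ : AdmissiblePotential Φ) (hε : 0 < ε) (T : ℝ) {n : ℕ}
    (σ : Equiv.Perm (Fin n)) {w : Config n} (hw : w ∈ PairExcluded ε n) (q : Fin n) :
    iTime Φ ε K T w (σ q) = iTime Φ ε K T (fun i => w (σ i)) q :=
  sig_equiv (sizeFam_gasSize hΦ hε) n σ w hw q

theorem measurable_gasSize_at (hΦ : AdmissiblePotential Φ) (hε : 0 < ε) {n : ℕ} (q : Fin n)
    {t : Config n → ℝ} (ht : Measurable t) :
    Measurable fun w : Config n => gasSize Φ ε n w (t w) q := by
  have h1 := measurable_ncard_BC_pth (Φ := Φ) (ε := ε) (ι := Fin n) hΦ hε q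
  have h2 := h1.comp (ht.prodMk (measurable_id (α := Fin n → PhasePoint)))
  exact h2

theorem eW_equiv {n : ℕ} (σ : Equiv.Perm (Fin n)) (w : Config n) (B : Finset (Fin n)) :
    eW w (B.map σ.toEmbedding) = eW (fun i => w (σ i)) B := by
  unfold eW
  rw [Finset.sum_map]
  rfl

theorem measurable_eW {n : ℕ} (B : Finset (Fin n)) : Measurable fun w : Config n => eW w B := by
  unfold eW
  refine Finset.measurable_sum _ fun b _ => ?_
  have h1 : Measurable fun w : Config n => (w b).2 := measurable_snd.comp (measurable_pi_apply b)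
  exact ENNReal.measurable_ofReal.comp (measurable_const.add (h1.norm.pow_const 2))

theorem eW_mono {n : ℕ} {w : Config n} {A B : Finset (Fin n)} (h : A ⊆ B) : eW w A ≤ eW w B :=
  Finset.sum_le_sum_of_subset h

/-- `preC` is the past strictly before the infection time of `ClusterPre`. -/
theorem preC_eq (T : ℝ) {n : ℕ} (w : Config n) (q : Fin n) :
    preC Φ ε w (iTime Φ ε K T w q) q =
      preR (gasR Φ ε) (r := 1) (fun n Z ι j => iTime Φ ε K T Z (ι j)) n w fun _ => q := by
  ext k
  rw [mem_preR]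
  simp [preC, gasR]

theorem preC_subset {n : ℕ} (w : Config n) {σ : ℝ} (hσ : 0 ≤ σ) (q : Fin n) :
    preC Φ ε w σ q ⊆ (BC (Ct (pth Φ ε w) ε) σ q).toFinset := by
  intro k hk
  simp only [preC, Finset.mem_filter, Finset.mem_univ, true_and] at hk
  rw [Set.mem_toFinset]
  rcases hk with rfl | ⟨s, -, hs, hR⟩
  · exact root_mem_BC hσ
  · exact BC_mono_time hs.le hR

theorem mem_preC_iff_pre {n : ℕ} (w : Config n) {σ : ℝ} (hσ : 0 < σ) (q k : Fin n) :
    k ∈ preC Φ ε w σ q ↔ k ∈ pre (Ct (pth Φ ε w) ε) q σ 0 := by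
  simp only [preC, Finset.mem_filter, Finset.mem_univ, true_and]
  constructor
  · rintro (rfl | ⟨s, h0, hs, hR⟩)
    · exact mem_pre_self hσ
    · exact ⟨s, ⟨h0, hs⟩, hR⟩
  · rintro ⟨s, hs, hp⟩
    exact Or.inr ⟨s, hs.1, hs.2, hp⟩

/-! ### The splitting -/

theorem wm_le_one (hL : 0 ≤ P.L) {ι : Type} [Fintype ι] (Z : MW ι) (s : ℝ) :
    Z.Wm Φ ε K P s ≤ 1 := Weight984.W_le_one hL _

theorem aE_split (hΦ : AdmissiblePotential Φ) (hf : Measurable f₀) (hε : 0 < ε)
    (hWm : ∀ (n : ℕ) (q : Fin n), Measurable fun w : Config n =>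
      (MW.cfg w).Wm Φ ε K P (iTime Φ ε K P.te w q)) :
    aE Φ f₀ ε K P = aI Φ f₀ ε K P + aC Φ f₀ ε K P := by
  unfold aE aI aC
  rw [← gcE_add hf ε]
  · congr 1
    funext n w
    rw [← mul_add, ← Finset.sum_add_distrib]
    congr 1
    refine Finset.sum_congr rfl fun q _ => ?_
    unfold Joins
    by_cases hj : P.tw < iTime Φ ε K P.te w q ∧ iTime Φ ε K P.te w q ≤ P.te
    · rcases le_or_gt (gasSize Φ ε n w (iTime Φ ε K P.te w q) q) (2 * K) with h | h
      · rw [if_pos hj, if_neg (fun h' => absurd h'.2 (not_lt.2 h)), if_pos ⟨hj, h⟩, zero_add]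
      · rw [if_pos hj, if_pos ⟨hj, h⟩, if_neg (fun h' => absurd h'.2 (not_le.2 h)), add_zero]
    · rw [if_neg hj, if_neg (fun h => hj h.1), if_neg (fun h => hj h.1), zero_add]
  · intro n
    refine Measurable.const_mul (Finset.measurable_sum _ fun q _ => ?_) _
    refine Measurable.ite ?_ (Measurable.mul ?_ (hWm n q)) measurable_const
    · have h1 := measurable_iTime (K := K) hΦ hε P.te q
      have h2 := measurable_gasSize_at (ε := ε) hΦ hε q h1
      exact ((measurableSet_lt measurable_const h1).inter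
        (measurableSet_le h1 measurable_const)).inter (measurableSet_lt measurable_const h2)
    · -- `w ↦ eW w (preC ..)` : finitely many values of the cluster
      have h3 : ∀ B : Finset (Fin n), MeasurableSet {w : Config n |
          preC Φ ε w (iTime Φ ε K P.te w q) q = B} := by
        intro B
        have h4 := (clusterMap_preR (r := 1) (pastFam_gasR hΦ hε)
          (t := fun n Z ι j => iTime Φ ε K P.te Z (ι j))
          (fun n ι j => measurable_iTime hΦ hε P.te (ι j))
          (fun n σ Z ι j hZ => iTime_equiv hΦ hε P.te σ hZ (ι j))).meas n (fun _ => q) B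
        simpa only [preC_eq] using h4
      have h5 : (fun w : Config n => eW w (preC Φ ε w (iTime Φ ε K P.te w q) q)) =
          fun w => ∑ B : Finset (Fin n),
            if preC Φ ε w (iTime Φ ε K P.te w q) q = B then eW w B else 0 := by
        funext w
        rw [Finset.sum_ite_eq]
        simp
      rw [h5]
      exact Finset.measurable_sum _ fun B _ => Measurable.ite (h3 B) (measurable_eW B)
        measurable_const

/-- The clean joinings are bounded by the mass of the clusters of size in `(K, 2K]`. -/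
theorem aC_le (hΦ : AdmissiblePotential Φ) (hε : 0 < ε) (htw : 0 ≤ P.tw) (hL : 0 ≤ P.L) :
    aC Φ f₀ ε K P ≤ mC Φ f₀ ε K P := by
  refine gcE_mono f₀ ε fun n w hw => ?_
  refine mul_le_mul_right (Finset.sum_le_sum fun q _ => ?_) _
  by_cases h : Joins Φ ε K P w q ∧ gasSize Φ ε n w (iTime Φ ε K P.te w q) q ≤ 2 * K
  · rw [if_pos h]
    have hσ0 : 0 < iTime Φ ε K P.te w q := htw.trans_lt h.1.1
    have hinf : GInf Φ ε K w (iTime Φ ε K P.te w q) q :=
      gInf_sig hΦ hε (lt_of_le_of_lt h.1.2 (by linarith))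
    have hK : K < gasSize Φ ε n w (iTime Φ ε K P.te w q) q := gInf_iff.1 hinf
    rw [if_pos ⟨h.1, hK, h.2⟩]
    calc eW w (preC Φ ε w (iTime Φ ε K P.te w q) q) *
          (MW.cfg w).Wm Φ ε K P (iTime Φ ε K P.te w q)
        ≤ eW w (preC Φ ε w (iTime Φ ε K P.te w q) q) * 1 := mul_le_mul_right (wm_le_one hL _ _) _
      _ = eW w (preC Φ ε w (iTime Φ ε K P.te w q) q) := mul_one _
      _ ≤ _ := eW_mono (preC_subset w hσ0.le q)
  · rw [if_neg h]
    exact zero_le

/-- **Mecke at the infection time** for the joinings by contact with infected particles. -/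
theorem aI_mecke (hΦ : AdmissiblePotential Φ) (hf : Measurable f₀) (hε : 0 < ε)
    (hWm : ∀ (n : ℕ) (q : Fin n), Measurable fun w : Config n =>
      (MW.cfg w).Wm Φ ε K P (iTime Φ ε K P.te w q))
    (hWe : ∀ (n : ℕ) (σ : Equiv.Perm (Fin n)) (w : Config n) (s : ℝ), w ∈ PairExcluded ε n →
      (MW.cfg w).Wm Φ ε K P s = (MW.cfg fun i => w (σ i)).Wm Φ ε K P s) :
    aI Φ f₀ ε K P =
      ∑' k : ℕ, activity ε ^ k / (k.factorial : ℝ≥0∞) * ∫⁻ V : Config k, gcWeight f₀ ε k V *
        gcE f₀ ε (fun m w => perpInd ε V w * ∑ j : Fin k,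
          if preC Φ ε (Fin.append V w : Config (k + m))
              (iTime Φ ε K P.te (Fin.append V w : Config (k + m)) (Fin.castAdd m j))
              (Fin.castAdd m j) = block k m then
            (if Joins Φ ε K P (Fin.append V w : Config (k + m)) (Fin.castAdd m j) ∧
                2 * K < gasSize Φ ε (k + m) (Fin.append V w)
                  (iTime Φ ε K P.te (Fin.append V w : Config (k + m)) (Fin.castAdd m j))
                  (Fin.castAdd m j) then
              (activity ε)⁻¹ * (eW (Fin.append V w : Config (k + m)) (block k m) *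
                (MW.cfg (Fin.append V w : Config (k + m))).Wm Φ ε K P
                  (iTime Φ ε K P.te (Fin.append V w : Config (k + m)) (Fin.castAdd m j)))
              else 0) else 0) := by
  have hmeck := pre_mecke hf (pastFam_gasR (Φ := Φ) hΦ hε)
    (t := fun n Z i => iTime Φ ε K P.te Z i)
    (fun n i => measurable_iTime hΦ hε P.te i)
    (fun n σ Z i hZ => iTime_equiv hΦ hε P.te σ hZ i)
    (F := fun n q B w => if Joins Φ ε K P w q ∧
        2 * K < gasSize Φ ε n w (iTime Φ ε K P.te w q) q then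
      (activity ε)⁻¹ * (eW w B * (MW.cfg w).Wm Φ ε K P (iTime Φ ε K P.te w q)) else 0)
    (by
      intro n σ q B w hw
      have e1 : iTime Φ ε K P.te w (σ q) = iTime Φ ε K P.te (fun i => w (σ i)) q :=
        iTime_equiv hΦ hε P.te σ hw q
      have e2 : ∀ s, gasSize Φ ε n w s (σ q) = gasSize Φ ε n (fun i => w (σ i)) s q :=
        fun s => gasSize_equiv hΦ hε n σ w s q
      simp only [Joins, e1, e2, eW_equiv, hWe n σ w _ hw]
      congr)
    (by
      intro n q B
      have h1 := measurable_iTime (K := K) hΦ hε P.te q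
      have h2 := measurable_gasSize_at (ε := ε) hΦ hε q h1
      refine Measurable.ite ?_ (((measurable_eW B).mul (hWm n q)).const_mul _) measurable_const
      exact ((measurableSet_lt measurable_const h1).inter
        (measurableSet_le h1 measurable_const)).inter (measurableSet_lt measurable_const h2))
  have hL : aI Φ f₀ ε K P = gcE f₀ ε (fun n Z => ∑ i : Fin n,
      (fun (n : ℕ) (q : Fin n) (B : Finset (Fin n)) (w : Config n) =>
        if Joins Φ ε K P w q ∧ 2 * K < gasSize Φ ε n w (iTime Φ ε K P.te w q) q then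
          (activity ε)⁻¹ * (eW w B * (MW.cfg w).Wm Φ ε K P (iTime Φ ε K P.te w q)) else 0)
        n i (preR (gasR Φ ε) (r := 1) (fun n Z ι j => iTime Φ ε K P.te Z (ι j)) n Z fun _ => i)
        Z) := by
    unfold aI
    congr 1
    funext n w
    rw [Finset.mul_sum]
    refine Finset.sum_congr rfl fun q _ => ?_
    rw [preC_eq]
    by_cases h : Joins Φ ε K P w q ∧ 2 * K < gasSize Φ ε n w (iTime Φ ε K P.te w q) q
    · simp only [if_pos h]
    · simp only [if_neg h, mul_zero]
  rw [hL, hmeck]
  refine tsum_congr fun k => ?_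
  congr 1
  refine lintegral_congr fun V => ?_
  congr 2
  funext m w
  congr 1
  refine Finset.sum_congr rfl fun j _ => ?_
  rw [preC_eq]

end Crest.Agent.R122.InEq2
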