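import Crest.Agent.R122.InEq2Bnd_311
import Crest.Agent.R122.InEq2World_311
import Crest.Agent.R122.InEq2Case_311
import Crest.Agent.R122.InEq2Split_311
import Crest.Agent.R122.ClusterBC_311

/-!
# Row 122, INEQUALITY 2' (helper311): the functionals of the joinings

Open part (`aI`, past strictly before the infection time): `FaI ≤ FT + FNG + FR + FL + FA + FB`.
Closed part (`mC`, clusters of size in `(K, 2K]`): `FmC ≤ FNC + FRC + FM`.
-/

set_option autoImplicit false

open MeasureTheory Set Filter Topology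
open scoped ENNReal
open Crest.AnalysisR.Kinetic
open Crest.Agent.R122.Flow671 Crest.Agent.R122.Loc45 Crest.Agent.R122.Causal291
open Crest.Agent.R122.Inf879 Crest.Agent.R122.GC311 Crest.Agent.R122.EDefs602
open Crest.Agent.R122.Kin796 Crest.Agent.R122.Kin796.CTree Crest.Agent.R122.Tree674
open Crest.Agent.R122.Relabel674 Crest.Agent.R122.TreeBound335 Crest.Agent.R122.ToTree335
open Crest.Agent.R122.GIV566 (unhit unhitInd)
open Crest.Agent.R122.Band974 (PT)

noncomputable section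

open scoped Classical

namespace Crest.Agent.R122.InEq2

/-! ### Definitions -/

section defs

variable (Φ : Space3 → ℝ) (ε : ℝ) (K : ℕ) (A : EPar) (T' : ℝ) {k m : ℕ} (V : Config k)
  (w : Config m) (j : Fin k)

/-- The joint gas. -/
abbrev cat {k m : ℕ} (V : Config k) (w : Config m) : Config (k + m) := Fin.append V w

/-- Infection time of the particle `j` of `V` in the joint gas. -/
def sgm : ℝ := iTime Φ ε K A.te (cat V w) (Fin.castAdd m j)

/-- `V` is the past strictly before the infection time of `j`, which joins in the window by a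
contact with infected particles. -/
def JI : Prop :=
  preC Φ ε (cat V w) (sgm Φ ε K A V w j) (Fin.castAdd m j) = block k m ∧
  Joins Φ ε K A (cat V w) (Fin.castAdd m j) ∧
  2 * K < gasSize Φ ε (k + m) (cat V w) (sgm Φ ε K A V w j) (Fin.castAdd m j)

/-- `V` is the closed past at the infection time of `j`, which joins in the window, of size in
`(K, 2K]`. -/
def JC : Prop :=
  (BC (Ct (pth Φ ε (cat V w)) ε) (sgm Φ ε K A V w j) (Fin.castAdd m j)).toFinset = block k m ∧
  Joins Φ ε K A (cat V w) (Fin.castAdd m j) ∧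
  K < gasSize Φ ε (k + m) (cat V w) (sgm Φ ε K A V w j) (Fin.castAdd m j) ∧
  gasSize Φ ε (k + m) (cat V w) (sgm Φ ε K A V w j) (Fin.castAdd m j) ≤ 2 * K

/-- Energy weight of the cluster. -/
def bwt : ℝ≥0∞ := (activity ε)⁻¹ * eW (cat V w) (block k m)

/-- Weight of the joint gas at the infection time. -/
def wmZ : ℝ≥0∞ := (MW.cfg (cat V w)).Wm Φ ε K A (sgm Φ ε K A V w j)

/-- Weight of the rest of the gas at the infection time. -/
def wmw : ℝ≥0∞ := (MW.cfg w).Wm Φ ε K A (sgm Φ ε K A V w j)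

/-- `V` does not touch the infection of `w` before the infection time. -/
def Untch : Prop := ∀ s < sgm Φ ε K A V w j, ¬ TchV Φ ε K V w s

/-- The history strictly before the infection time is a tree. -/
def HT : Prop := ∃ (P : CTree) (ℓ : PhasePoint) (p : Par P) (e : Idx P → Fin (k + m)),
  HTreeP Φ ε T' (sgm Φ ε K A V w j) (cat V w) (Fin.castAdd m j) P ℓ p e

/-- The same with the protected tubes not hit by the rest of the gas before the window. -/
def HTU : Prop := ∃ (P : CTree) (ℓ : PhasePoint) (p : Par P) (e : Idx P → Fin (k + m)),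
  HTreeP Φ ε T' (sgm Φ ε K A V w j) (cat V w) (Fin.castAdd m j) P ℓ p e ∧
    unhit Φ ε (PT Φ ε P T' ℓ p) A.tw w

/-- The closed history is a tree. -/
def HTc : Prop := ∃ (P : CTree) (ℓ : PhasePoint) (p : Par P) (e : Idx P → Fin (k + m)),
  HTreeC Φ ε T' (sgm Φ ε K A V w j) (cat V w) (Fin.castAdd m j) P ℓ p e

/-- The same with the protected tubes not hit by the rest of the gas before the window. -/
def HTUc : Prop := ∃ (P : CTree) (ℓ : PhasePoint) (p : Par P) (e : Idx P → Fin (k + m)),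
  HTreeC Φ ε T' (sgm Φ ε K A V w j) (cat V w) (Fin.castAdd m j) P ℓ p e ∧
    unhit Φ ε (PT Φ ε P T' ℓ p) A.tw w

/-- The root is free and meets a particle of `w` infected in `w` before. -/
def HitA : Prop :=
  (∀ r, r ≠ Fin.castAdd m j →
    ¬ OldCt (Ct (pth Φ ε (cat V w)) ε) (sgm Φ ε K A V w j) (Fin.castAdd m j) r) ∧
  ∃ l : Fin m, GInfB Φ ε K w (sgm Φ ε K A V w j) l ∧
    dist (pth Φ ε w (sgm Φ ε K A V w j) l).1
      (pth Φ ε (cat V w) (sgm Φ ε K A V w j) (Fin.castAdd m j)).1 ≤ ε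

/-- The root is in an old contact, and a member `p` of its old contact cluster meets a particle of
`w` infected in `w` before. -/
def HitB : Prop :=
  ∃ (r p : Fin (k + m)) (l : Fin m), r ≠ Fin.castAdd m j ∧
    OldCt (Ct (pth Φ ε (cat V w)) ε) (sgm Φ ε K A V w j) (Fin.castAdd m j) r ∧
    Relation.ReflTransGen (OldCt (Ct (pth Φ ε (cat V w)) ε) (sgm Φ ε K A V w j))
      (Fin.castAdd m j) p ∧ GInfB Φ ε K w (sgm Φ ε K A V w j) l ∧
    dist (pth Φ ε w (sgm Φ ε K A V w j) l).1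
      (pth Φ ε (cat V w) (sgm Φ ε K A V w j) p).1 ≤ ε

end defs

section functionals

variable (Φ : Space3 → ℝ) (ε : ℝ) (K : ℕ) (A : EPar) (T' : ℝ)

/-- Integrand of `aI`. -/
def FaI (k m : ℕ) (V : Config k) (w : Config m) (j : Fin k) : ℝ≥0∞ :=
  if JI Φ ε K A V w j then bwt ε V w * wmZ Φ ε K A V w j else 0

/-- Touched half (335). -/
def FT (k m : ℕ) (V : Config k) (w : Config m) (j : Fin k) : ℝ≥0∞ :=
  if JI Φ ε K A V w j ∧ ¬ Untch Φ ε K A V w j then bwt ε V w * wmZ Φ ε K A V w j else 0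

/-- The history is not a tree (726, 416). -/
def FNG (k m : ℕ) (V : Config k) (w : Config m) (j : Fin k) : ℝ≥0∞ :=
  if JI Φ ε K A V w j ∧ ¬ HT Φ ε K A T' V w j then bwt ε V w else 0

/-- Real to ghost before the window (302). -/
def FR (k m : ℕ) (V : Config k) (w : Config m) (j : Fin k) : ℝ≥0∞ :=
  if JI Φ ε K A V w j ∧ HT Φ ε K A T' V w j ∧ ¬ HTU Φ ε K A T' V w j then bwt ε V w else 0

/-- The two weights (335). -/
def FL (k m : ℕ) (V : Config k) (w : Config m) (j : Fin k) : ℝ≥0∞ :=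
  if JI Φ ε K A V w j ∧ Untch Φ ε K A V w j ∧ HTU Φ ε K A T' V w j then
    bwt ε V w * (wmZ Φ ε K A V w j - wmw Φ ε K A V w j) else 0

/-- Main term: the root meets the infection of `w` (263, 815). -/
def FA (k m : ℕ) (V : Config k) (w : Config m) (j : Fin k) : ℝ≥0∞ :=
  if JI Φ ε K A V w j ∧ Untch Φ ε K A V w j ∧ HTU Φ ε K A T' V w j ∧ HitA Φ ε K A V w j then
    bwt ε V w * wmw Φ ε K A V w j else 0

/-- The root is in the middle of its last encounter (263). -/
def FB (k m : ℕ) (V : Config k) (w : Config m) (j : Fin k) : ℝ≥0∞ :=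
  if JI Φ ε K A V w j ∧ Untch Φ ε K A V w j ∧ HTU Φ ε K A T' V w j ∧ HitB Φ ε K A V w j then
    bwt ε V w else 0

/-- Integrand of `mC`. -/
def FmC (k m : ℕ) (V : Config k) (w : Config m) (j : Fin k) : ℝ≥0∞ :=
  if JC Φ ε K A V w j then bwt ε V w else 0

/-- The closed history is not a tree (726, 416, level `2K`). -/
def FNC (k m : ℕ) (V : Config k) (w : Config m) (j : Fin k) : ℝ≥0∞ :=
  if JC Φ ε K A V w j ∧ ¬ HTc Φ ε K A T' V w j then bwt ε V w else 0

/-- Real to ghost before the window, closed history of size in `(K, 2K]` (302). -/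
def FRC (k m : ℕ) (V : Config k) (w : Config m) (j : Fin k) : ℝ≥0∞ :=
  if JC Φ ε K A V w j ∧ HTc Φ ε K A T' V w j ∧ ¬ HTUc Φ ε K A T' V w j then bwt ε V w else 0

/-- Trees with more than `K` leaves, not hit before the window (974). -/
def FM (k m : ℕ) (V : Config k) (w : Config m) (j : Fin k) : ℝ≥0∞ :=
  if JC Φ ε K A V w j ∧ HTUc Φ ε K A T' V w j then bwt ε V w else 0

end functionals

variable {Φ : Space3 → ℝ} {f₀ : PhasePoint → ℝ} {ε : ℝ} {K : ℕ} {A : EPar} {T' : ℝ}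

/-! ### Mecke -/

theorem aI_eq_MS (hΦ : AdmissiblePotential Φ) (hf : Measurable f₀) (hε : 0 < ε)
    (hWm : ∀ (n : ℕ) (q : Fin n), Measurable fun w : Config n =>
      (MW.cfg w).Wm Φ ε K A (iTime Φ ε K A.te w q))
    (hWe : ∀ (n : ℕ) (σ : Equiv.Perm (Fin n)) (w : Config n) (s : ℝ), w ∈ PairExcluded ε n →
      (MW.cfg w).Wm Φ ε K A s = (MW.cfg fun i => w (σ i)).Wm Φ ε K A s) :
    aI Φ f₀ ε K A = MS f₀ ε (FaI Φ ε K A) := by
  rw [aI_mecke hΦ hf hε hWm hWe]
  unfold MS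
  refine tsum_congr fun k => ?_
  congr 1
  refine lintegral_congr fun V => ?_
  congr 2
  funext m w
  congr 1
  refine Finset.sum_congr rfl fun j _ => ?_
  unfold FaI JI bwt wmZ sgm
  by_cases h1 : preC Φ ε (Fin.append V w : Config (k + m))
      (iTime Φ ε K A.te (Fin.append V w : Config (k + m)) (Fin.castAdd m j))
      (Fin.castAdd m j) = block k m
  · rw [if_pos h1]
    by_cases h2 : Joins Φ ε K A (Fin.append V w : Config (k + m)) (Fin.castAdd m j) ∧
        2 * K < gasSize Φ ε (k + m) (Fin.append V w)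
          (iTime Φ ε K A.te (Fin.append V w : Config (k + m)) (Fin.castAdd m j))
          (Fin.castAdd m j)
    · rw [if_pos h2, if_pos ⟨h1, h2⟩, mul_assoc]
    · rw [if_neg h2, if_neg fun h => h2 h.2]
  · rw [if_neg h1, if_neg fun h => h1 h.1]

theorem iTime_nonneg {T : ℝ} (hT : 0 ≤ T) {n : ℕ} (w : Config n) (q : Fin n) :
    0 ≤ iTime Φ ε K T w q := by
  unfold iTime sig utime
  refine le_csInf ⟨T + 1, Or.inr (mem_Ici.2 le_rfl)⟩ ?_
  rintro x (hx | hx)
  · exact hx.2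
  · exact (by linarith : (0 : ℝ) ≤ T + 1).trans hx

theorem mC_eq_MS (hΦ : AdmissiblePotential Φ) (hf : Measurable f₀) (hε : 0 < ε)
    (hte : 0 ≤ A.te) : mC Φ f₀ ε K A = MS f₀ ε (FmC Φ ε K A) := by
  set F : (n : ℕ) → (Fin 1 → Fin n) → Finset (Fin n) → Config n → ℝ≥0∞ := fun n ι B w =>
    if Joins Φ ε K A w (ι 0) ∧ K < gasSize Φ ε n w (iTime Φ ε K A.te w (ι 0)) (ι 0) ∧
        gasSize Φ ε n w (iTime Φ ε K A.te w (ι 0)) (ι 0) ≤ 2 * K then
      (activity ε)⁻¹ * eW w B else 0 with hF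
  have hcl := clusterMap_bcU (r := 1) (t := fun n Z ι j => iTime Φ ε K A.te Z (ι j)) hΦ hε
    (fun n Z ι j _ => iTime_nonneg hte Z (ι j)) (fun n ι j => measurable_iTime hΦ hε A.te (ι j))
    (fun n σ Z ι j hZ => iTime_equiv hΦ hε A.te σ hZ (ι j))
  have hFe : MarkedEquiv ε 1 F := by
    intro n σ ι B w hw
    have e1 : iTime Φ ε K A.te w (σ (ι 0)) = iTime Φ ε K A.te (fun i => w (σ i)) (ι 0) :=
      iTime_equiv hΦ hε A.te σ hw (ι 0)
    have e2 : ∀ s, gasSize Φ ε n w s (σ (ι 0)) = gasSize Φ ε n (fun i => w (σ i)) s (ι 0) :=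
      fun s => gasSize_equiv hΦ hε n σ w s (ι 0)
    simp only [hF, Joins, e1, e2, eW_equiv]
    congr
  have hFm : ∀ n ι B, Measurable (F n ι B) := by
    intro n ι B
    have h1 := measurable_iTime (K := K) hΦ hε A.te (ι 0)
    have h2 := measurable_gasSize_at (ε := ε) hΦ hε (ι 0) h1
    refine Measurable.ite ?_ ((measurable_eW B).const_mul _) measurable_const
    exact ((measurableSet_lt measurable_const h1).inter
      (measurableSet_le h1 measurable_const)).inter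
        ((measurableSet_lt measurable_const h2).inter (measurableSet_le h2 measurable_const))
  have hmeck := cluster_mecke hf hcl hFe hFm
  have e0 : ∀ (n : ℕ) (w : Config n) (ι : Fin 1 → Fin n),
      bcU Φ ε (fun n Z ι j => iTime Φ ε K A.te Z (ι j)) n w ι =
        (BC (Ct (pth Φ ε w) ε) (iTime Φ ε K A.te w (ι 0)) (ι 0)).toFinset := by
    intro n w ι
    ext k
    rw [mem_bcU, Set.mem_toFinset]
    constructor
    · rintro ⟨j, hj⟩
      rwa [Subsingleton.elim j 0] at hj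
    · intro h
      exact ⟨0, h⟩
  have e1 : mC Φ f₀ ε K A = gcE f₀ ε (fun n w => ∑ ι : Fin 1 → Fin n,
      F n ι (bcU Φ ε (fun n Z ι j => iTime Φ ε K A.te Z (ι j)) n w ι) w) := by
    unfold mC
    congr 1
    funext n w
    rw [Finset.mul_sum]
    rw [← sum_fin_one (fun q : Fin n => (activity ε)⁻¹ *
      if Joins Φ ε K A w q ∧ K < gasSize Φ ε n w (iTime Φ ε K A.te w q) q ∧
          gasSize Φ ε n w (iTime Φ ε K A.te w q) q ≤ 2 * K then
        eW w (BC (Ct (pth Φ ε w) ε) (iTime Φ ε K A.te w q) q).toFinset else 0)]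
    refine Finset.sum_congr rfl fun ι _ => ?_
    rw [e0]
    simp only [hF]
    rw [mul_ite, mul_zero]
  rw [e1, hmeck]
  unfold MS
  refine tsum_congr fun k => ?_
  congr 1
  refine lintegral_congr fun V => ?_
  congr 2
  funext m w
  congr 1
  rw [← sum_fin_one (fun j : Fin k => FmC Φ ε K A k m V w j)]
  refine Finset.sum_congr rfl fun ι _ => ?_
  rw [e0]
  unfold FmC JC bwt sgm
  by_cases h1 : (BC (Ct (pth Φ ε (Fin.append V w : Config (k + m))) ε)
      (iTime Φ ε K A.te (Fin.append V w : Config (k + m)) (Fin.castAdd m (ι 0)))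
      (Fin.castAdd m (ι 0))).toFinset = block k m
  · rw [if_pos h1]
    by_cases h2 : Joins Φ ε K A (Fin.append V w : Config (k + m)) (Fin.castAdd m (ι 0)) ∧
        K < gasSize Φ ε (k + m) (Fin.append V w)
          (iTime Φ ε K A.te (Fin.append V w : Config (k + m)) (Fin.castAdd m (ι 0)))
          (Fin.castAdd m (ι 0)) ∧
        gasSize Φ ε (k + m) (Fin.append V w)
          (iTime Φ ε K A.te (Fin.append V w : Config (k + m)) (Fin.castAdd m (ι 0)))
          (Fin.castAdd m (ι 0)) ≤ 2 * K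
    · rw [if_pos ⟨h1, h2⟩]
      simp only [hF]
      rw [if_pos h2]
    · rw [if_neg fun h => h2 h.2]
      simp only [hF]
      rw [if_neg h2]
  · rw [if_neg h1, if_neg fun h => h1 h.1]

/-! ### Pointwise splitting -/

/-- No two different pairs enter contact at the same time. -/
theorem oneNew_of_noSimul (hΦ : AdmissiblePotential Φ) (hε : 0 < ε) {κ : Type*} [Fintype κ]
    {Z : κ → PhasePoint} (h : ∀ t : ℝ, Simul984.NoSimul ε (flow Φ ε t Z)) (σ : ℝ) :
    OneNew (Ct (pth Φ ε Z) ε) σ := by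
  have key : ∀ a b : κ, NewCt (Ct (pth Φ ε Z) ε) σ a b →
      dist (flow Φ ε σ Z a).1 (flow Φ ε σ Z b).1 = ε := by
    rintro a b ⟨h1, h2⟩
    refine le_antisymm h1 ?_
    unfold OldCt at h2
    rw [not_frequently] at h2
    have hc : Continuous fun t => dist (pth Φ ε Z t a).1 (pth Φ ε Z t b).1 :=
      ((continuous_pth hΦ hε Z a).fst).dist ((continuous_pth hΦ hε Z b).fst)
    have h3 : Tendsto (fun t => dist (pth Φ ε Z t a).1 (pth Φ ε Z t b).1) (𝓝[<] σ)
        (𝓝 (dist (pth Φ ε Z σ a).1 (pth Φ ε Z σ b).1)) :=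
      (hc.tendsto σ).mono_left nhdsWithin_le_nhds
    refine ge_of_tendsto h3 ?_
    filter_upwards [h2] with t ht
    exact (not_le.1 ht).le
  intro a b c d hab hnab hcd hncd
  by_contra hne
  have hs : s(a, b) ≠ s(c, d) := by
    intro h3
    rw [Sym2.eq_iff] at h3
    exact hne h3
  exact h σ a b c d hab hcd hs (key a b hnab) (key c d hncd)

theorem wmZ_le_one (hL : 0 ≤ A.L) {k m : ℕ} (V : Config k) (w : Config m) (j : Fin k) :
    wmZ Φ ε K A V w j ≤ 1 := wm_le_one hL _ _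

theorem append_dom (hε : 0 < ε) {k m : ℕ} {V : Config k} {w : Config m}
    (hV : V ∈ PairExcluded ε k) (hw : w ∈ PairExcluded ε m) (hp : Perp ε V w) :
    (cat V w) ∈ Dom Φ (Fin (k + m)) :=
  pairExcluded_subset_Dom hε _ ((append_mem_pairExcluded_iff V w).2 ⟨hV, hw, hp⟩)

/-- The alternative at an infection time, any world. -/
theorem hit_cases_aux (hΦ : AdmissiblePotential Φ) (hε : 0 < ε) {k m : ℕ}
    {V : Config k} {w : Config m} {i : Fin (k + m)} {σ : ℝ} (hσ0 : 0 < σ)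
    (hD : (Fin.append V w : Config (k + m)) ∈ Dom Φ (Fin (k + m)))
    (hns : ∀ t : ℝ, Simul984.NoSimul ε (flow Φ ε t (Fin.append V w : Config (k + m))))
    (hinf : GInf Φ ε K (Fin.append V w : Config (k + m)) σ i)
    (hcl : ¬ GInfB Φ ε K (Fin.append V w : Config (k + m)) σ i)
    (hbig : 2 * K < gasSize Φ ε (k + m) (Fin.append V w) σ i)
    (hU : ∀ s < σ, ¬ TchV Φ ε K V w s) :
    ((∀ r, r ≠ i → ¬ OldCt (Ct (pth Φ ε (Fin.append V w : Config (k + m))) ε) σ i r) ∧
      ∃ l : Fin m, GInfB Φ ε K w σ l ∧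
        dist (pth Φ ε w σ l).1 (pth Φ ε (Fin.append V w : Config (k + m)) σ i).1 ≤ ε) ∨
    ∃ (r p : Fin (k + m)) (l : Fin m), r ≠ i ∧
      OldCt (Ct (pth Φ ε (Fin.append V w : Config (k + m))) ε) σ i r ∧
      Relation.ReflTransGen (OldCt (Ct (pth Φ ε (Fin.append V w : Config (k + m))) ε) σ) i p ∧
      GInfB Φ ε K w σ l ∧
      dist (pth Φ ε w σ l).1 (pth Φ ε (Fin.append V w : Config (k + m)) σ p).1 ≤ ε := by
  have hdist : ∀ {p l'}, NewCt (Ct (pth Φ ε (Fin.append V w : Config (k + m))) ε) σ p l' →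
      GInfB Φ ε K (Fin.append V w : Config (k + m)) σ l' → ∃ l : Fin m, GInfB Φ ε K w σ l ∧
        dist (pth Φ ε w σ l).1 (pth Φ ε (Fin.append V w : Config (k + m)) σ p).1 ≤ ε := by
    intro p l' hn hi
    obtain ⟨l, rfl, hl, hag⟩ := infB_of_untouched hΦ hε hD hU hi
    refine ⟨l, hl, ?_⟩
    rw [hag _ ⟨hσ0.le, le_rfl⟩, dist_comm]
    exact hn.1
  rcases infection_cases (C := Ct (pth Φ ε (Fin.append V w : Config (k + m))) ε)
    (m := fun _ => 1) (K := K) (q := i) (fun s j k h => Ct.symm h) (isClosed_ct_pth hΦ hε _) hσ0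
    hinf hcl (oneNew_of_noSimul hΦ hε hns σ) with ⟨hfree, l', hn, hi⟩ | ⟨r, p, l', hr, ho, hch, hn, hi⟩ |
      ⟨hsz, -⟩
  · exact Or.inl ⟨hfree, hdist hn hi⟩
  · obtain ⟨l, hl, hd⟩ := hdist hn hi
    exact Or.inr ⟨r, p, l, hr, ho, hch, hl, hd⟩
  · exfalso
    have h9 : gasSize Φ ε (k + m) (Fin.append V w) σ i =
        msize (Ct (pth Φ ε (Fin.append V w : Config (k + m))) ε) (fun _ => 1) σ i :=
      (msize_one σ i).symm
    rw [h9] at hbig
    exact not_lt.2 hsz hbig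

/-- **The alternative at the infection time.** -/
theorem hit_cases (hΦ : AdmissiblePotential Φ) (hε : 0 < ε) (htw : 0 ≤ A.tw) {k m : ℕ}
    {V : Config k} {w : Config m} {j : Fin k} (hD : cat V w ∈ Dom Φ (Fin (k + m)))
    (hns : ∀ t : ℝ, Simul984.NoSimul ε (flow Φ ε t (cat V w)))
    (hJ : JI Φ ε K A V w j) (hU : Untch Φ ε K A V w j) :
    HitA Φ ε K A V w j ∨ HitB Φ ε K A V w j := by
  have hσ0 : 0 < sgm Φ ε K A V w j := htw.trans_lt hJ.2.1.1
  have hσe : sgm Φ ε K A V w j ≤ A.te := hJ.2.1.2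
  have heq : sgm Φ ε K A V w j =
      sig (gasSize Φ ε) K (A.te + 1) (k + m) (cat V w) (Fin.castAdd m j) := rfl
  have hinf : GInf Φ ε K (cat V w) (sgm Φ ε K A V w j) (Fin.castAdd m j) := by
    rw [heq]
    refine gInf_sig hΦ hε ?_
    rw [← heq]
    linarith
  have hcl : ¬ GInfB Φ ε K (cat V w) (sgm Φ ε K A V w j) (Fin.castAdd m j) := by
    rw [heq]
    exact not_gInfB_sig
  exact hit_cases_aux hΦ hε hσ0 hD hns hinf hcl hJ.2.2 hU

/-- **Pointwise splitting of the joinings.** -/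
theorem split_aI (hΦ : AdmissiblePotential Φ) (hε : 0 < ε) (htw : 0 ≤ A.tw) (hL : 0 ≤ A.L)
    {k m : ℕ} {V : Config k} {w : Config m} {j : Fin k} (hD : cat V w ∈ Dom Φ (Fin (k + m)))
    (hns : ∀ t : ℝ, Simul984.NoSimul ε (flow Φ ε t (cat V w))) :
    FaI Φ ε K A k m V w j ≤ FT Φ ε K A k m V w j + FNG Φ ε K A T' k m V w j +
      FR Φ ε K A T' k m V w j + FL Φ ε K A T' k m V w j + FA Φ ε K A T' k m V w j +
      FB Φ ε K A T' k m V w j := by
  by_cases hJ : JI Φ ε K A V w j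
  swap
  · unfold FaI
    rw [if_neg hJ]
    exact zero_le
  have h0 : FaI Φ ε K A k m V w j = bwt ε V w * wmZ Φ ε K A V w j := if_pos hJ
  have hle : bwt ε V w * wmZ Φ ε K A V w j ≤ bwt ε V w :=
    (mul_le_mul_right (wmZ_le_one hL V w j) _).trans (mul_one _).le
  rw [h0]
  by_cases hU : Untch Φ ε K A V w j
  swap
  · have h1 : FT Φ ε K A k m V w j = bwt ε V w * wmZ Φ ε K A V w j := if_pos ⟨hJ, hU⟩
    rw [h1]
    simp only [add_assoc]
    exact le_self_add
  by_cases hH : HT Φ ε K A T' V w j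
  swap
  · have h1 : FNG Φ ε K A T' k m V w j = bwt ε V w := if_pos ⟨hJ, hH⟩
    rw [h1]
    refine hle.trans ?_
    rw [add_comm (FT Φ ε K A k m V w j)]
    simp only [add_assoc]
    exact le_self_add
  by_cases hHU : HTU Φ ε K A T' V w j
  swap
  · have h1 : FR Φ ε K A T' k m V w j = bwt ε V w := if_pos ⟨hJ, hH, hHU⟩
    rw [h1]
    refine hle.trans ?_
    rw [add_comm (FT Φ ε K A k m V w j + FNG Φ ε K A T' k m V w j)]
    simp only [add_assoc]
    exact le_self_add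
  rcases hit_cases hΦ hε htw hD hns hJ hU with hA | hB
  · have h1 : FL Φ ε K A T' k m V w j =
        bwt ε V w * (wmZ Φ ε K A V w j - wmw Φ ε K A V w j) := if_pos ⟨hJ, hU, hHU⟩
    have h2 : FA Φ ε K A T' k m V w j = bwt ε V w * wmw Φ ε K A V w j :=
      if_pos ⟨hJ, hU, hHU, hA⟩
    have h3 : bwt ε V w * wmZ Φ ε K A V w j ≤
        FL Φ ε K A T' k m V w j + FA Φ ε K A T' k m V w j := by
      rw [h1, h2, ← mul_add]
      exact mul_le_mul_right le_tsub_add _
    refine h3.trans ?_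
    rw [add_assoc (FT Φ ε K A k m V w j + FNG Φ ε K A T' k m V w j + FR Φ ε K A T' k m V w j)]
    exact le_add_self.trans le_self_add
  · have h1 : FB Φ ε K A T' k m V w j = bwt ε V w := if_pos ⟨hJ, hU, hHU, hB⟩
    rw [h1]
    exact hle.trans le_add_self

theorem split_mC {k m : ℕ} (V : Config k) (w : Config m) (j : Fin k) :
    FmC Φ ε K A k m V w j ≤ FNC Φ ε K A T' k m V w j + FRC Φ ε K A T' k m V w j +
      FM Φ ε K A T' k m V w j := by
  by_cases hJ : JC Φ ε K A V w j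
  swap
  · unfold FmC
    rw [if_neg hJ]
    exact zero_le
  have h0 : FmC Φ ε K A k m V w j = bwt ε V w := if_pos hJ
  rw [h0]
  by_cases hHU : HTUc Φ ε K A T' V w j
  · have h1 : FM Φ ε K A T' k m V w j = bwt ε V w := if_pos ⟨hJ, hHU⟩
    rw [h1]
    exact le_add_self
  by_cases hH : HTc Φ ε K A T' V w j
  · have h1 : FRC Φ ε K A T' k m V w j = bwt ε V w := if_pos ⟨hJ, hH, hHU⟩
    rw [h1]
    exact le_add_self.trans le_self_add
  · have h1 : FNC Φ ε K A T' k m V w j = bwt ε V w := if_pos ⟨hJ, hH⟩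
    rw [h1, add_assoc]
    exact le_self_add

/-! ### The parts give the whole -/

/-- **The joinings** from the six bounds. -/
theorem aI_le (hΦ : AdmissiblePotential Φ) (hf : Measurable f₀) (hε : 0 < ε) (htw : 0 ≤ A.tw)
    (hL : 0 ≤ A.L)
    (hWm : ∀ (n : ℕ) (q : Fin n), Measurable fun w : Config n =>
      (MW.cfg w).Wm Φ ε K A (iTime Φ ε K A.te w q))
    (hWe : ∀ (n : ℕ) (σ : Equiv.Perm (Fin n)) (w : Config n) (s : ℝ), w ∈ PairExcluded ε n →
      (MW.cfg w).Wm Φ ε K A s = (MW.cfg fun i => w (σ i)).Wm Φ ε K A s)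
    {qT qN qR qL qA qB : ℝ≥0∞} (hT : Bnd Φ f₀ ε T' (FT Φ ε K A) qT)
    (hN : Bnd Φ f₀ ε T' (FNG Φ ε K A T') qN) (hR : Bnd Φ f₀ ε T' (FR Φ ε K A T') qR)
    (hLl : Bnd Φ f₀ ε T' (FL Φ ε K A T') qL) (hA : Bnd Φ f₀ ε T' (FA Φ ε K A T') qA)
    (hB : Bnd Φ f₀ ε T' (FB Φ ε K A T') qB) :
    aI Φ f₀ ε K A ≤ qT + qN + qR + qL + qA + qB := by
  rw [aI_eq_MS hΦ hf hε hWm hWe]
  have h1 := ((((hT.add hΦ hf hN).add hΦ hf hR).add hΦ hf hLl).add hΦ hf hA).add hΦ hf hB
  refine (Bnd.of_ae (F := FaI Φ ε K A)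
    (Good := fun n Z => ∀ t : ℝ, Simul984.NoSimul ε (flow Φ ε t Z)) hΦ hf
    (fun n => Simul984.ae_noSimul_flow hΦ hε) h1
    fun k m V w j hV hw hp hg => ?_).MS_le hΦ hf hε
  exact split_aI hΦ hε htw hL (append_dom hε hV hw hp) hg

/-- **The clusters of size in `(K, 2K]`** from the three bounds. -/
theorem mC_le (hΦ : AdmissiblePotential Φ) (hf : Measurable f₀) (hε : 0 < ε) (hte : 0 ≤ A.te)
    {qN qR qM : ℝ≥0∞} (hN : Bnd Φ f₀ ε T' (FNC Φ ε K A T') qN)
    (hR : Bnd Φ f₀ ε T' (FRC Φ ε K A T') qR) (hM : Bnd Φ f₀ ε T' (FM Φ ε K A T') qM) :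
    mC Φ f₀ ε K A ≤ qN + qR + qM := by
  rw [mC_eq_MS hΦ hf hε hte]
  exact (((hN.add hΦ hf hR).add hΦ hf hM).mono fun k m V w j _ _ _ =>
    split_mC V w j).MS_le hΦ hf hε

end Crest.Agent.R122.InEq2

end
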