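import Crest.Agent.R122.InEq2TPt_335
import Crest.Agent.R122.InEq2Fun_311

/-!
# Row 122, INEQUALITY 2', touched half (helper335): integration

* `lineM_restrict` : the measure on lines restricted to the births `≤ T`.
* `bnd_FT`, `bnd_FL` : majorants (`InEq2.Bnd`) of helper311's functionals `FT`, `FL`.
-/

set_option autoImplicit false
set_option linter.unusedSectionVars false

open MeasureTheory Set Filter Topology
open scoped ENNReal
open Crest.AnalysisR.Kinetic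
open Crest.Agent.R122.Flow671 Crest.Agent.R122.Causal291 Crest.Agent.R122.Loc45
open Crest.Agent.R122.Inf879 Crest.Agent.R122.GC311 Crest.Agent.R122.EDefs602
open Crest.Agent.R122.InEq2 Crest.Agent.R122.EBasic602
open Crest.Agent.R122.Kin796 Crest.Agent.R122.Kin796.CTree Crest.Agent.R122.Tree674
open Crest.Agent.R122.PathFlow968 Crest.Agent.R122.TreeLines335 Crest.Agent.R122.LineMeas994
open Crest.Agent.R122.RtG302 Crest.Agent.R122.Weight984 Crest.Agent.R122.MeasE416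
open Crest.Agent.R122.TreeBound335 Crest.Agent.R122.ToTree335

namespace Crest.Agent.R122.InEq2T

noncomputable section

open scoped Classical

variable {Φ : Space3 → ℝ} {f₀ : PhasePoint → ℝ} {ε : ℝ} {K : ℕ} {Q : EPar} {T' : ℝ}

/-! ### Restriction of the births -/

theorem lineV_restrict {T T' : ℝ} (h : T ≤ T') :
    (lineV T').restrict {l : ML | l.1.1 ≤ T} = lineV T := by
  have h1 : {l : ML | l.1.1 ≤ T} = ((Iic T ×ˢ (univ : Set PhasePoint)) ×ˢ (univ : Set ℕ)) := by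
    ext l
    simp
  unfold lineV
  rw [h1, ← Measure.prod_restrict, ← Measure.prod_restrict, Measure.restrict_univ,
    Measure.restrict_univ, Measure.restrict_restrict measurableSet_Iic]
  congr 3
  ext x
  simp only [mem_inter_iff, mem_Iic, mem_Ioc]
  constructor
  · rintro ⟨h2, h3, -⟩
    exact ⟨h3, h2⟩
  · rintro ⟨h2, h3⟩
    exact ⟨h3, h2, h3.trans h⟩

theorem measurableSet_birth (T : ℝ) : MeasurableSet {l : ML | l.1.1 ≤ T} :=
  measurableSet_le measurable_fst.fst measurable_const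

theorem lineM_restrict {γ : ℝ → ℝ} {ρ : ℝ≥0∞} {T T' : ℝ} (h : T ≤ T') :
    (lineM γ ρ K T').restrict {l : ML | l.1.1 ≤ T} = lineM γ ρ K T := by
  unfold lineM
  rw [restrict_withDensity (measurableSet_birth T), lineV_restrict h]

theorem lintegral_birth {γ : ℝ → ℝ} {ρ : ℝ≥0∞} {T T' : ℝ} (h : T ≤ T') (F : ML → ℝ≥0∞) :
    ∫⁻ l, (if l.1.1 ≤ T then F l else 0) ∂lineM γ ρ K T' = ∫⁻ l, F l ∂lineM γ ρ K T := by
  rw [← lineM_restrict h, ← lintegral_indicator (measurableSet_birth T)]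
  refine lintegral_congr fun l => ?_
  by_cases hl : l.1.1 ≤ T
  · rw [if_pos hl, indicator_of_mem (show l ∈ {l : ML | l.1.1 ≤ T} from hl)]
  · rw [if_neg hl, indicator_of_notMem (show l ∉ {l : ML | l.1.1 ≤ T} from hl)]

theorem lintegral_phi1 (hteT : Q.te ≤ T') (m : ℕ) (w : Config m) :
    ∫⁻ l, phi1 Φ ε K Q m w l ∂lineM Q.γ Q.ρ K T' =
      ∫⁻ l, (MW.cfg w).touchW Φ ε K Q l ∂lineM Q.γ Q.ρ K Q.te := by
  unfold phi1
  exact lintegral_birth hteT _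

theorem lintegral_phi2 (hΦ : AdmissiblePotential Φ) (hε : 0 < ε) (htwT : Q.tw ≤ T') (m : ℕ)
    (w : Config m) :
    ∫⁻ l, phi2 Φ ε K Q m w l ∂lineM Q.γ Q.ρ K T' =
      lineM Q.γ Q.ρ K Q.tw {l | (MW.cfg w).thetaL Φ ε K Q.tw l ≤ Q.tw} := by
  set A : Set ML := {l : ML | (MW.cfg w).thetaL Φ ε K Q.tw l ≤ Q.tw} with hA
  have h1 : ∀ l : ML, phi2 Φ ε K Q m w l = if l.1.1 ≤ Q.tw then
      A.indicator (fun _ => (1 : ℝ≥0∞)) l else 0 := by
    intro l
    unfold phi2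
    by_cases h2 : l.1.1 ≤ Q.tw
    · rw [if_pos h2]
      by_cases h3 : l ∈ A
      · rw [if_pos ⟨h2, h3⟩, indicator_of_mem h3]
      · rw [if_neg fun h => h3 h.2, indicator_of_notMem h3]
    · rw [if_neg fun h => h2 h.1, if_neg h2]
  have hm : MeasurableSet A := by
    have h0 : Measurable fun l : ML => ((w, l) : Config m × ML) :=
      measurable_const.prodMk measurable_id
    have h2 : Measurable fun l : ML => (MW.cfg w).thetaL Φ ε K Q.tw l :=
      Measurable.comp (g := fun p : Config m × ML => (MW.cfg p.1).thetaL Φ ε K Q.tw p.2)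
        (f := fun l : ML => ((w, l) : Config m × ML)) (measurable_thetaL_cfg hΦ hε K Q.tw m) h0
    exact measurableSet_le h2 measurable_const
  have h3 : ∫⁻ l, phi2 Φ ε K Q m w l ∂lineM Q.γ Q.ρ K T' =
      ∫⁻ l, (if l.1.1 ≤ Q.tw then A.indicator (fun _ => (1 : ℝ≥0∞)) l else 0)
        ∂lineM Q.γ Q.ρ K T' := lintegral_congr h1
  rw [h3, lintegral_birth htwT, lintegral_indicator_const hm, one_mul]

/-! ### The bounds -/

/-- The bound on the exit lines (helper814, helper837), for one `K` and one `ε`: the sum over the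
exit lines of a functional `φ ≤ 1` is at most `C` times the integral of `φ` over all lines, up to
`δ`. -/
def QXE (Φ : Space3 → ℝ) (f₀ : PhasePoint → ℝ) (ε : ℝ) (K : ℕ) (T' tw : ℝ) (γ : ℝ → ℝ)
    (ρ C δ : ℝ≥0∞) : Prop :=
  ∀ φ : (m : ℕ) → Config m → ML → ℝ≥0∞, (∀ m, Measurable fun p : Config m × ML => φ m p.1 p.2) →
    (∀ m w l, φ m w l ≤ 1) →
    TS Φ f₀ ε T' (HX Φ ε K T' tw φ) ≤
      C * gcE f₀ ε (fun m w => ∫⁻ l, φ m w l ∂lineM γ ρ K T') + δ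

/-- Weighted tree functional with at most `K` leaves. -/
def HN (Φ : Space3 → ℝ) (ε : ℝ) (K : ℕ) (T : ℝ)
    (N : (P : CTree) → PhasePoint × Par P → (m : ℕ) → Config m → ℝ≥0∞)
    (P : CTree) (z : PhasePoint × Par P) (m : ℕ) (w : Config m) : ℝ≥0∞ :=
  vsI Φ ε K T P z * (pI Φ ε P z w * (wQ Φ ε P z * N P z m w))

theorem measTS_HN (hΦ : AdmissiblePotential Φ) (hε : 0 < ε) (K : ℕ) (T : ℝ)
    {N : (P : CTree) → PhasePoint × Par P → (m : ℕ) → Config m → ℝ≥0∞} (hN : MeasTS N) :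
    MeasTS (HN Φ ε K T N) := by
  intro P m
  unfold HN
  exact ((measurable_vsI hΦ hε K T P).comp measurable_fst).mul
    ((measurable_pI hΦ ε P m).mul (((measurable_wQ hΦ P).comp measurable_fst).mul (hN P m)))

/-- `N` dominates the exceptional events of the exit lines. -/
def ExMaj (Φ : Space3 → ℝ) (ε : ℝ) (K : ℕ) (T u₀ : ℝ)
    (N : (P : CTree) → PhasePoint × Par P → (m : ℕ) → Config m → ℝ≥0∞) : Prop :=
  ∀ P z m (w : Config m), P.leaves ≤ K → Valid Φ ε P T z.1.2 z.2 → Sep Φ ε P T z.1 z.2 →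
    w ∈ PairExcluded ε m → PerpT Φ ε P z w →
    ¬ (AllOk Φ ε w (exL Φ ε P z) ∧ ¬ LinkEx Φ ε K u₀ w (exL Φ ε P z)) → 1 ≤ N P z m w

theorem HEx_le {u₀ : ℝ} {N : (P : CTree) → PhasePoint × Par P → (m : ℕ) → Config m → ℝ≥0∞}
    (hN : ExMaj Φ ε K T' u₀ N) {P : CTree} {z : PhasePoint × Par P} {m : ℕ} {w : Config m}
    (hw : w ∈ PairExcluded ε m) : HEx Φ ε K T' u₀ P z m w ≤ HN Φ ε K T' N P z m w := by
  unfold HEx HN vsI
  split_ifs with h
  · by_cases hp : PerpT Φ ε P z w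
    · refine mul_le_mul_right (mul_le_mul_right (mul_le_mul_right ?_ _) _) _
      unfold exE
      split_ifs with h1
      · exact bot_le
      · exact hN P z m w h.1 h.2.1 h.2.2 hw hp h1
    · have h0 : pI Φ ε P z w = 0 := if_neg hp
      rw [h0, zero_mul, zero_mul]
  · rw [zero_mul, zero_mul]

theorem act_TS (hε : 0 < ε) (H : (P : CTree) → PhasePoint × Par P → (m : ℕ) → Config m → ℝ≥0∞) :
    activity ε * TS Φ f₀ ε T' (fun P z m w => (activity ε)⁻¹ * H P z m w) = TS Φ f₀ ε T' H := by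
  rw [TS_const_mul (ENNReal.inv_ne_top.2 (activity_ne_zero hε)), ← mul_assoc,
    ENNReal.mul_inv_cancel (activity_ne_zero hε) (activity_ne_top ε), one_mul]

/-- **The touched half** for histories with unhit protected tubes. -/
theorem bnd_FTg (hΦ : AdmissiblePotential Φ) (hf : Measurable f₀) (hε : 0 < ε) (hT : 0 ≤ T')
    (hL : 0 < Q.L) (hγ : Measurable Q.γ) (htw : 0 ≤ Q.tw) (htwe : Q.tw ≤ Q.te) (hteT : Q.te ≤ T')
    {C δ : ℝ≥0∞} (hQ : QXE Φ f₀ ε K T' Q.tw Q.γ Q.ρ C δ)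
    {N : (P : CTree) → PhasePoint × Par P → (m : ℕ) → Config m → ℝ≥0∞} (hN : MeasTS N)
    (hNE : ExMaj Φ ε K T' Q.te N) :
    Bnd Φ f₀ ε T' (FTg Φ ε K Q T') (C * XI Φ f₀ ε K Q + C * tnMass Φ f₀ Q.γ Q.ρ ε K Q.tw +
      2 * δ + ENNReal.ofReal Q.L * TS Φ f₀ ε T' (HLn Φ ε K T' Q) +
      TS Φ f₀ ε T' (HN Φ ε K T' N)) := by
  have m1 := measTS_HX (φ := phi1 Φ ε K Q) hΦ hε K T' Q.tw (measurable_phi1 hΦ hε K Q)
  have m2 := measTS_HX (φ := phi2 Φ ε K Q) hΦ hε K T' Q.tw (measurable_phi2 hΦ hε K Q)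
  have m3 : MeasTS fun P z m w => ENNReal.ofReal Q.L * HLn Φ ε K T' Q P z m w := fun P m =>
    (measTS_HLn hΦ hε K T' Q P m).const_mul _
  have m4 := measTS_HN hΦ hε K T' hN
  have m12 : MeasTS fun P z m w => HX Φ ε K T' Q.tw (phi1 Φ ε K Q) P z m w +
      HX Φ ε K T' Q.tw (phi2 Φ ε K Q) P z m w := fun P m => (m1 P m).add (m2 P m)
  have m123 : MeasTS fun P z m w => HX Φ ε K T' Q.tw (phi1 Φ ε K Q) P z m w +
      HX Φ ε K T' Q.tw (phi2 Φ ε K Q) P z m w +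
      ENNReal.ofReal Q.L * HLn Φ ε K T' Q P z m w := fun P m => (m12 P m).add (m3 P m)
  refine Bnd.of_H (H := fun P z m w => (activity ε)⁻¹ *
      (HX Φ ε K T' Q.tw (phi1 Φ ε K Q) P z m w + HX Φ ε K T' Q.tw (phi2 Φ ε K Q) P z m w +
        ENNReal.ofReal Q.L * HLn Φ ε K T' Q P z m w + HN Φ ε K T' N P z m w))
    (fun P m => ((m123 P m).add (m4 P m)).const_mul _) ?_ ?_
  · intro k m V w j hV hw hp
    refine (FTg_le hΦ hε hT hL htw htwe hteT hV hw hp).trans (ways_mono fun P e _ _ => ?_)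
    exact mul_le_mul_right (add_le_add le_rfl (HEx_le hNE hw)) _
  · rw [act_TS (Φ := Φ) (f₀ := f₀) (T' := T') hε (fun P z m w =>
      HX Φ ε K T' Q.tw (phi1 Φ ε K Q) P z m w + HX Φ ε K T' Q.tw (phi2 Φ ε K Q) P z m w +
        ENNReal.ofReal Q.L * HLn Φ ε K T' Q P z m w + HN Φ ε K T' N P z m w)]
    rw [TS_add hΦ hf m123, TS_add hΦ hf m12, TS_add hΦ hf m1,
      TS_const_mul (c := ENNReal.ofReal Q.L) ENNReal.ofReal_ne_top]
    refine add_le_add (add_le_add ?_ le_rfl) le_rfl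
    have e1 := hQ (phi1 Φ ε K Q) (measurable_phi1 hΦ hε K Q) (phi1_le_one hL.le)
    have e2 := hQ (phi2 Φ ε K Q) (measurable_phi2 hΦ hε K Q) phi2_le_one
    simp only [lintegral_phi1 hteT] at e1
    simp only [lintegral_phi2 hΦ hε (htwe.trans hteT)] at e2
    rw [← XI_eq hf hγ (measurable_touchW_cfg hΦ hε K Q)] at e1
    refine (add_le_add e1 e2).trans (le_of_eq ?_)
    unfold tnMass
    ring

/-- **The weight comparison** (untouched case). -/
theorem bnd_FLg (hΦ : AdmissiblePotential Φ) (hε : 0 < ε) (hT : 0 ≤ T')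
    (hL : 0 < Q.L) (htw : 0 ≤ Q.tw) :
    Bnd Φ f₀ ε T' (FLg Φ ε K Q T') (ENNReal.ofReal Q.L * TS Φ f₀ ε T' (HLn Φ ε K T' Q)) := by
  have m3 : MeasTS fun P z m w => ENNReal.ofReal Q.L * HLn Φ ε K T' Q P z m w := fun P m =>
    (measTS_HLn hΦ hε K T' Q P m).const_mul _
  refine Bnd.of_H (H := fun P z m w => (activity ε)⁻¹ *
      (ENNReal.ofReal Q.L * HLn Φ ε K T' Q P z m w))
    (fun P m => (m3 P m).const_mul _) ?_ ?_
  · intro k m V w j hV hw hp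
    exact FLg_le hΦ hε hT hL htw hV hw hp
  · rw [act_TS (Φ := Φ) (f₀ := f₀) (T' := T') hε (fun P z m w =>
      ENNReal.ofReal Q.L * HLn Φ ε K T' Q P z m w),
      TS_const_mul (c := ENNReal.ofReal Q.L) ENNReal.ofReal_ne_top]

/-! ### helper311's functionals -/

theorem FT_le_split {k m : ℕ} (V : Config k) (w : Config m) (j : Fin k) (hL : 0 ≤ Q.L) :
    FT Φ ε K Q k m V w j ≤ FTg Φ ε K Q T' k m V w j + FNG Φ ε K Q T' k m V w j +
      FR Φ ε K Q T' k m V w j := by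
  by_cases h : JI Φ ε K Q V w j ∧ ¬ Untch Φ ε K Q V w j
  swap
  · have h1 : FT Φ ε K Q k m V w j = 0 := if_neg h
    rw [h1]
    exact bot_le
  have h0 : FT Φ ε K Q k m V w j = bwt ε V w * wmZ Φ ε K Q V w j := if_pos h
  have hle : bwt ε V w * wmZ Φ ε K Q V w j ≤ bwt ε V w :=
    (mul_le_mul_right (wmZ_le_one hL V w j) _).trans (mul_one _).le
  have htch : TchB Φ ε K Q V w j := by
    have h1 := h.2
    unfold Untch at h1
    push Not at h1
    exact h1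
  rw [h0]
  by_cases hH : HT Φ ε K Q T' V w j
  swap
  · have h1 : FNG Φ ε K Q T' k m V w j = bwt ε V w := if_pos ⟨h.1, hH⟩
    rw [h1]
    exact hle.trans (le_add_self.trans le_self_add)
  by_cases hHU : HTU Φ ε K Q T' V w j
  swap
  · have h1 : FR Φ ε K Q T' k m V w j = bwt ε V w := if_pos ⟨h.1, hH, hHU⟩
    rw [h1]
    exact hle.trans le_add_self
  have hG : HisG Φ ε K Q T' V w j := by
    obtain ⟨P, ℓ, p, e, h1, h2⟩ := hHU
    exact ⟨P, (ℓ, p), e, h1, h2⟩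
  have hJT : JT Φ ε K Q V w j := ⟨h.1.1, h.1.2.1⟩
  have h1 : FTg Φ ε K Q T' k m V w j = bwt ε V w * wmZ Φ ε K Q V w j := by
    unfold FTg
    rw [if_pos ⟨hJT, htch, hG⟩]
    unfold bwt wmZ sgm
    rw [mul_assoc]
  rw [h1, add_assoc]
  exact le_self_add

theorem FL_le {k m : ℕ} (V : Config k) (w : Config m) (j : Fin k) :
    FL Φ ε K Q T' k m V w j ≤ FLg Φ ε K Q T' k m V w j := by
  by_cases h : JI Φ ε K Q V w j ∧ Untch Φ ε K Q V w j ∧ HTU Φ ε K Q T' V w j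
  swap
  · have h1 : FL Φ ε K Q T' k m V w j = 0 := if_neg h
    rw [h1]
    exact bot_le
  have h0 : FL Φ ε K Q T' k m V w j = bwt ε V w * (wmZ Φ ε K Q V w j - wmw Φ ε K Q V w j) :=
    if_pos h
  have hnt : ¬ TchB Φ ε K Q V w j := by
    rintro ⟨s, hs, ht⟩
    exact h.2.1 s hs ht
  have hG : HisP Φ ε K Q T' V w j := by
    obtain ⟨P, ℓ, p, e, h1, h2⟩ := h.2.2
    exact ⟨P, (ℓ, p), e, h1⟩
  have hJT : JT Φ ε K Q V w j := ⟨h.1.1, h.1.2.1⟩
  have h1 : FLg Φ ε K Q T' k m V w j =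
      bwt ε V w * (wmZ Φ ε K Q V w j - wmw Φ ε K Q V w j) := by
    unfold FLg
    rw [if_pos ⟨hJT, hnt, hG⟩]
    unfold bwt wmZ wmw sgm
    rw [mul_assoc]
  rw [h0, h1]

/-- **helper311's touched functional.** -/
theorem bnd_FT (hΦ : AdmissiblePotential Φ) (hf : Measurable f₀) (hε : 0 < ε) (hT : 0 ≤ T')
    (hL : 0 < Q.L) (hγ : Measurable Q.γ) (htw : 0 ≤ Q.tw) (htwe : Q.tw ≤ Q.te) (hteT : Q.te ≤ T')
    {C δ : ℝ≥0∞} (hQ : QXE Φ f₀ ε K T' Q.tw Q.γ Q.ρ C δ)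
    {N : (P : CTree) → PhasePoint × Par P → (m : ℕ) → Config m → ℝ≥0∞} (hN : MeasTS N)
    (hNE : ExMaj Φ ε K T' Q.te N) {qN qR : ℝ≥0∞}
    (hNG : Bnd Φ f₀ ε T' (FNG Φ ε K Q T') qN) (hR : Bnd Φ f₀ ε T' (FR Φ ε K Q T') qR) :
    Bnd Φ f₀ ε T' (FT Φ ε K Q) (C * XI Φ f₀ ε K Q + C * tnMass Φ f₀ Q.γ Q.ρ ε K Q.tw +
      2 * δ + ENNReal.ofReal Q.L * TS Φ f₀ ε T' (HLn Φ ε K T' Q) +
      TS Φ f₀ ε T' (HN Φ ε K T' N) + qN + qR) :=
  (((bnd_FTg hΦ hf hε hT hL hγ htw htwe hteT hQ hN hNE).add hΦ hf hNG).add hΦ hf hR).mono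
    fun _ _ V w j _ _ _ => FT_le_split V w j hL.le

/-- **helper311's weight functional.** -/
theorem bnd_FL (hΦ : AdmissiblePotential Φ) (hε : 0 < ε) (hT : 0 ≤ T')
    (hL : 0 < Q.L) (htw : 0 ≤ Q.tw) :
    Bnd Φ f₀ ε T' (FL Φ ε K Q T') (ENNReal.ofReal Q.L * TS Φ f₀ ε T' (HLn Φ ε K T' Q)) :=
  (bnd_FLg hΦ hε hT hL htw).mono fun _ _ V w j _ _ _ => FL_le V w j

end

end Crest.Agent.R122.InEq2T
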