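import Crest.Agent.R122.QExitBind3_837
import Crest.Agent.R122.InEq2TInt_335
import Crest.Agent.R122.EMDefs_602

/-!
# Row 122 (helper837): `QXE` of helper335 (touched half of INEQUALITY 2)

* `null_of_tendsto` : a family tending to `0` for every `K` is `Null`.
* `qxe` : `QXE Φ f₀ ε K T' tw γ ρ C (δ K ε)`, `C` uniform in the windows, `K` and `ε`; `δ` null.
* `qxe_win` : the same for `LinePar` and windows.
-/

set_option autoImplicit false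

open MeasureTheory Set Filter Topology
open Crest.AnalysisR.Kinetic
open scoped ENNReal

noncomputable section

open scoped Classical

namespace Crest.Agent.R122.QExit837

open Kin796 Kin796.CTree Disc416 Scat818 Flow671 Flux663 Tree674 Mark307
open Crest.Agent.R122.GIV566 Crest.Agent.R122.TreeLines335 Crest.Agent.R122.QExit814
open Crest.Agent.R122.Hid424 Crest.Agent.R122.RtG302 Crest.Agent.R122.GC311
open Crest.Agent.R122.InEq2 Crest.Agent.R122.ToTree335 Crest.Agent.R122.Boltz814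
open Crest.Agent.R122.EDefs602 Crest.Agent.R122.Master566 Crest.Agent.R122.Top602

variable {Φ : Space3 → ℝ} {f₀ : PhasePoint → ℝ} {f : ℝ → PhasePoint → ℝ} {ε : ℝ}

theorem null_of_tendsto {δ : ℕ → ℝ → ℝ≥0∞} (h : ∀ K, Tendsto (δ K) (𝓝[>] 0) (𝓝 0)) : Null δ := by
  intro K a ha
  have h5 : ∀ᶠ x in 𝓝[>] (0 : ℝ), δ K x ≤ ENNReal.ofReal a :=
    ((h K).eventually (gt_mem_nhds (ENNReal.ofReal_pos.2 ha))).mono fun _ h => le_of_lt h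
  rw [eventually_nhdsWithin_iff, Metric.eventually_nhds_iff] at h5
  obtain ⟨η, hη, h6⟩ := h5
  refine ⟨η, hη, fun x hx hxη => h6 ?_ hx⟩
  rw [Real.dist_eq, sub_zero, abs_of_pos hx]
  exact hxη

/-- **`QXE`**, constants uniform in the windows and horizons. -/
theorem qxe {β T : ℝ} (hD : KData Φ β T f₀ f) {h₀ kap lam C b : ℝ}
    (hK : Seg814.KinC Φ T f h₀ kap lam C b) (hkap : kap ≤ β) :
    ∃ g₁ : ℝ, 0 < g₁ ∧ ∃ ρ₁ : ℝ≥0∞, ρ₁ < 1 ∧ ∃ C₀ : ℝ≥0∞, C₀ ≠ ∞ ∧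
      ∀ (γ : ℝ → ℝ) (ρ : ℝ≥0∞), ρ₁ ≤ ρ → ∀ tw ∈ Icc 0 T, GIV566.GIV Φ f₀ f T tw →
      ∀ T' : ℝ, 0 < T' → T' ≤ tw + h₀ → (∀ τ ∈ Ioc 0 T', γ τ ≤ g₁) →
      ∃ δ : ℕ → ℝ → ℝ≥0∞, Null δ ∧ ∀ (K : ℕ) (ε : ℝ), 0 < ε →
        InEq2T.QXE Φ f₀ ε K T' tw γ ρ C₀ (δ K ε) := by
  have hΦ := hD.adm
  have hf : Measurable f₀ := hD.contDiff.continuous.measurable
  have hlam : 1 < lam := hK.2.2.1
  have hkap0 : 0 < kap := hK.2.1
  set lam₁ : ℝ := (1 + lam) / 2 with hl₁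
  set lam₀ : ℝ := (1 + lam₁) / 2 with hl₀
  have h1 : 1 < lam₁ := by rw [hl₁]; linarith
  have h2 : lam₁ < lam := by rw [hl₁]; linarith
  have h3 : 1 < lam₀ := by rw [hl₀]; linarith
  have h4 : lam₀ < lam₁ := by rw [hl₀]; linarith
  obtain ⟨g₁, hg₁, ρ₁, hρ₁, C₁, hC₁, hQ⟩ := exists_qx hD hK hkap h1 h2
  obtain ⟨M₀, hM₀, hw⟩ := exists_wQ Φ h3 h4 hkap0
  refine ⟨g₁, hg₁, ρ₁, hρ₁, M₀ * C₁, ENNReal.mul_ne_top hM₀ hC₁, ?_⟩
  intro γ ρ hρ tw htw hG T' hT' hT'h hup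
  have hδ := fun K => hQ γ ρ hρ tw htw hG T' hT' hT'h hup K
  choose δ hδ0 hδ1 using hδ
  refine ⟨fun K ε => M₀ * δ K ε, null_of_tendsto fun K => ?_, ?_⟩
  · have h := ENNReal.Tendsto.const_mul (a := M₀) (hδ0 K) (Or.inr hM₀)
    rw [mul_zero] at h
    exact h
  · intro K ε hε φ hφ hφ1
    have hQX := hδ1 K ε hε
    have s2 : InEq2.TS Φ f₀ ε T' (InEq2T.HX Φ ε K T' tw φ) ≤ M₀ *
        (C₁ * gcE f₀ ε (fun m w => ∫⁻ l, φ m w l ∂EDefs602.lineM γ ρ K T') + δ K ε) := by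
      refine hQX.ts_rel hΦ hf hε (φ := φ) hφ hφ1 hM₀ (th := fun P z => wQ Φ ε P z)
        (fun P => measurable_wQ hΦ P) (fun P z hz => ?_)
        (b := fun P z => TreeLines335.rel P z.2) (fun P z i => le_rfl) (fun P z m w hz => ?_)
      · have h7 := hw 0 ε T' P z hz
        rw [if_pos (Nat.zero_le _), pow_zero, mul_one] at h7
        exact h7
      · unfold InEq2T.HX InEq2T.vsI
        by_cases hcs : P.leaves ≤ K ∧ Sep Φ ε P T' z.1 z.2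
        · rw [if_pos ⟨hcs.1, hz, hcs.2⟩, if_pos hcs, one_mul]
          refine mul_le_mul' le_rfl (le_of_eq ?_)
          unfold InEq2T.gI InEq2T.exS
          rw [H5994.ghTM_of_adm hz.1]
          have h9 : ∀ x : {x : Idx P // x ≠ root P}, φ m w (LineMeas994.lineMM Φ ε P z x) =
              φ m w (lineML Φ ε P z x) := fun x => by rw [LineMeas994.lineMM_of_adm ε hz.1]
          rw [Finset.sum_congr rfl fun x _ => h9 x]
          rfl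
        · rw [if_neg (fun hh => hcs ⟨hh.1, hh.2.2⟩), zero_mul]
          exact bot_le
    refine s2.trans (le_of_eq ?_)
    ring

/-- `QXE` for admissible line parameters and all windows. -/
theorem qxe_win {β T : ℝ} (hD : KData Φ β T f₀ f) {h₀ kap lam C b : ℝ}
    (hK : Seg814.KinC Φ T f h₀ kap lam C b) (hkap : kap ≤ β) :
    ∃ g1 : ℝ, 0 < g1 ∧ ∃ r1 : ℝ≥0∞, r1 < 1 ∧ ∃ C₀ : ℝ≥0∞, C₀ ≠ ∞ ∧
      ∀ (γ : ℝ → ℝ) (ρ : ℝ≥0∞), LinePar g1 r1 T γ ρ →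
        ∀ h tw te : ℝ, Win h T tw te → GIV566.GIV Φ f₀ f T tw →
        ∀ T' : ℝ, 0 < T' → T' ≤ tw + h₀ →
        ∃ δ : ℕ → ℝ → ℝ≥0∞, Null δ ∧ ∀ (K : ℕ) (ε : ℝ), 0 < ε →
          InEq2T.QXE Φ f₀ ε K T' tw γ ρ C₀ (δ K ε) := by
  obtain ⟨g₁, hg₁, ρ₁, hρ₁, C₀, hC₀, H⟩ := qxe hD hK hkap
  refine ⟨g₁, hg₁, ρ₁, hρ₁, C₀, hC₀, fun γ ρ hP h tw te hW hG T' hT' hT'h => ?_⟩
  obtain ⟨g0, κ, hκ, hγ, hlow, hup⟩ := hP.lin
  refine H γ ρ hP.lo tw ⟨hW.nonneg, hW.le.trans hW.le_T⟩ hG T' hT' hT'h (fun τ hτ => ?_)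
  rw [hγ]
  have h2 := mul_pos hκ hτ.1
  show g0 - κ * τ ≤ g₁
  linarith

end Crest.Agent.R122.QExit837

end
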