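import Crest.Agent.R122.InEq2TInt_335
import Crest.Agent.R122.InEq2Main_311
import Crest.Agent.R122.QXE_837
import Crest.Agent.R122.Q1Data_815
import Crest.Agent.R122.RtG_302

/-!
# Row 122, INEQUALITY 2', touched half (helper718, second hand of helper335): the bounds `InB`

* `LNln` : (input) the mass of the lines linked to a tree is null.
* `ExN` : (input) the exceptional events of the exit lines are null (`TNull` of helper302).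
* `inB_FLg` : the weight comparison of the untouched case.
* `inB_FTg` : the touched half, mass `Small + C · XI`.
-/

set_option autoImplicit false
set_option maxHeartbeats 400000

open MeasureTheory Set Filter Topology
open scoped ENNReal
open Crest.AnalysisR.Kinetic
open Crest.Agent.R122.GC311 Crest.Agent.R122.EDefs602 Crest.Agent.R122.InEq2
open Crest.Agent.R122.Kin796 Crest.Agent.R122.Kin796.CTree Crest.Agent.R122.Tree674
open Crest.Agent.R122.RtG302 Crest.Agent.R122.GIV566 Crest.Agent.R122.Master566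
open Crest.Agent.R122.Top602 Crest.Agent.R122.QExit837

namespace Crest.Agent.R122.InEq2T

noncomputable section

open scoped Classical

variable {Φ : Space3 → ℝ} {f₀ : PhasePoint → ℝ} {f : ℝ → PhasePoint → ℝ} {ε : ℝ} {K : ℕ}
  {T T' : ℝ} {γ : ℝ → ℝ} {ρ : ℝ≥0∞} {h₀ : ℝ}

/-! ### Null functions from `δ`-forms -/

/-- A monotone family of bounds which holds at every `δ > 0` for small `ε` holds at a null
function. -/
theorem exists_null_of_delta {B : ℝ → ℝ≥0∞ → Prop}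
    (hm : ∀ ε a b, a ≤ b → B ε a → B ε b)
    (h : ∀ δ : ℝ, 0 < δ → ∃ ε₀ : ℝ, 0 < ε₀ ∧ ∀ ε : ℝ, 0 < ε → ε < ε₀ → B ε (ENNReal.ofReal δ)) :
    ∃ q : ℝ → ℝ≥0∞, Tendsto q (𝓝[>] 0) (𝓝 0) ∧ ∀ᶠ ε in 𝓝[>] (0 : ℝ), B ε (q ε) := by
  refine ⟨fun ε => sInf {a | B ε a} + ENNReal.ofReal ε, ?_, ?_⟩
  · rw [ENNReal.tendsto_nhds_zero]
    intro η hη
    rcases eq_or_ne η ∞ with rfl | hηt
    · exact Eventually.of_forall fun _ => le_top
    have hη2 : 0 < η.toReal / 2 := by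
      have := ENNReal.toReal_pos hη.ne' hηt
      positivity
    obtain ⟨ε₀, hε₀, hb⟩ := h (η.toReal / 2) hη2
    have h1 : Ioo (0 : ℝ) (min ε₀ (η.toReal / 2)) ∈ 𝓝[>] (0 : ℝ) :=
      Ioo_mem_nhdsGT (lt_min hε₀ hη2)
    filter_upwards [h1] with ε hε
    have h2 : sInf {a | B ε a} ≤ ENNReal.ofReal (η.toReal / 2) :=
      sInf_le (hb ε hε.1 (hε.2.trans_le (min_le_left _ _)))
    calc sInf {a | B ε a} + ENNReal.ofReal ε
        ≤ ENNReal.ofReal (η.toReal / 2) + ENNReal.ofReal (η.toReal / 2) :=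
          add_le_add h2 (ENNReal.ofReal_le_ofReal (hε.2.le.trans (min_le_right _ _)))
      _ = ENNReal.ofReal η.toReal := by
          rw [← ENNReal.ofReal_add hη2.le hη2.le, add_halves]
      _ = η := ENNReal.ofReal_toReal hηt
  · obtain ⟨ε₀, hε₀, hb⟩ := h 1 one_pos
    have h1 : Ioo (0 : ℝ) ε₀ ∈ 𝓝[>] (0 : ℝ) := Ioo_mem_nhdsGT hε₀
    filter_upwards [h1] with ε hε
    have h2 : sInf {a | B ε a} ≤ ENNReal.ofReal 1 := sInf_le (hb ε hε.1 hε.2)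
    have h3 : sInf {a | B ε a} ≠ ∞ := ne_top_of_le_ne_top ENNReal.ofReal_ne_top h2
    have h4 : sInf {a | B ε a} < sInf {a | B ε a} + ENNReal.ofReal ε :=
      ENNReal.lt_add_right h3 (by simpa using hε.1)
    obtain ⟨a, ha, hlt⟩ := sInf_lt_iff.1 h4
    exact hm ε a _ hlt.le ha

/-- Null functions of `TNull`. -/
theorem TNull.exists_fun {E : TEv} (h : TNull Φ f₀ T' K E) :
    ∃ q : ℝ → ℝ≥0∞, Tendsto q (𝓝[>] 0) (𝓝 0) ∧ ∀ᶠ ε in 𝓝[>] (0 : ℝ), ∃ G, TMaj Φ ε T' K E G ∧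
      TS Φ f₀ ε T' (fun P z m w => wQ Φ ε P z * G P z m w) ≤ q ε :=
  exists_null_of_delta (B := fun ε a => ∃ G, TMaj Φ ε T' K E G ∧
      TS Φ f₀ ε T' (fun P z m w => wQ Φ ε P z * G P z m w) ≤ a)
    (fun _ _ _ hab ⟨G, hG, hm⟩ => ⟨G, hG, hm.trans hab⟩) h

theorem TNull.or (hΦ : AdmissiblePotential Φ) (hf : Measurable f₀) {E E' : TEv}
    (h : TNull Φ f₀ T' K E) (h' : TNull Φ f₀ T' K E') :
    TNull Φ f₀ T' K fun ε P z m w => E ε P z m w ∨ E' ε P z m w := by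
  intro δ hδ
  obtain ⟨K₀, h1⟩ := (h.to2.or hΦ hf h'.to2) δ hδ
  exact h1 K₀ le_rfl

/-! ### The inputs -/

/-- **Input**: the mass of the lines linked to the leaves of a tree is null (`K` fixed). -/
def LNln (Φ : Space3 → ℝ) (f₀ : PhasePoint → ℝ) (f : ℝ → PhasePoint → ℝ) (T : ℝ) (γ : ℝ → ℝ)
    (ρ : ℝ≥0∞) (h₀ : ℝ) : Prop :=
  EvW T fun _ L tw te => IH Φ f₀ f T γ ρ tw → ∀ K : ℕ, ∃ q : ℝ → ℝ≥0∞,
    Tendsto q (𝓝[>] 0) (𝓝 0) ∧ ∀ᶠ ε in 𝓝[>] (0 : ℝ),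
      TS Φ f₀ ε (tw + h₀) (HLn Φ ε K (tw + h₀) (epar γ ρ L tw te)) ≤ q ε

/-- **Input**: the exceptional events of the exit lines are null (`K` fixed). -/
def ExN (Φ : Space3 → ℝ) (f₀ : PhasePoint → ℝ) (f : ℝ → PhasePoint → ℝ) (T : ℝ) (γ : ℝ → ℝ)
    (ρ : ℝ≥0∞) (h₀ : ℝ) : Prop :=
  EvW T fun _ _ tw te => IH Φ f₀ f T γ ρ tw → ∀ K : ℕ,
    OkNull Φ f₀ (tw + h₀) K ∧ LinkNull Φ f₀ te (tw + h₀) K K

/-- The exceptional event. -/
def exEv (Φ : Space3 → ℝ) (K : ℕ) (u₀ : ℝ) : TEv := fun ε P z _ w =>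
  ¬ AllOk Φ ε w (exL Φ ε P z) ∨ LinkEx Φ ε K u₀ w (exL Φ ε P z)

theorem exMaj_of {u₀ : ℝ} {G : (P : CTree) → PhasePoint × Par P → (m : ℕ) → Config m → ℝ≥0∞}
    (hG : TMaj Φ ε T' K (exEv Φ K u₀) G) : ExMaj Φ ε K T' u₀ G := by
  intro P z m w h1 h2 h3 h4 _ h5
  refine hG.maj P z m w h1 h2 h3 h4 ?_
  by_cases h6 : AllOk Φ ε w (exL Φ ε P z)
  · exact Or.inr (by_contra fun h7 => h5 ⟨h6, h7⟩)
  · exact Or.inl h6

theorem TS_HN_le {G : (P : CTree) → PhasePoint × Par P → (m : ℕ) → Config m → ℝ≥0∞} :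
    TS Φ f₀ ε T' (HN Φ ε K T' G) ≤ TS Φ f₀ ε T' fun P z m w => wQ Φ ε P z * G P z m w := by
  refine TS_mono fun P z m w _ _ => ?_
  unfold HN vsI pI
  split_ifs
  · rw [one_mul, one_mul]
  · rw [zero_mul, mul_zero]
    exact bot_le
  · rw [zero_mul]
    exact bot_le
  · rw [zero_mul]
    exact bot_le

theorem evK_of_forall {p : ℕ → ℝ → Prop} (h : ∀ K, ∀ᶠ ε in 𝓝[>] (0 : ℝ), p K ε) : EvK p := by
  intro K
  have h1 := h K
  rw [eventually_nhdsWithin_iff, Metric.eventually_nhds_iff] at h1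
  obtain ⟨ε₀, hε₀, h2⟩ := h1
  exact ⟨ε₀, hε₀, fun ε hε hlt => h2 (by rw [Real.dist_eq, sub_zero, abs_of_pos hε]; exact hlt) hε⟩

theorem tendsto_const_mul {q : ℝ → ℝ≥0∞} {c : ℝ≥0∞} (hc : c ≠ ∞)
    (h : Tendsto q (𝓝[>] 0) (𝓝 0)) : Tendsto (fun ε => c * q ε) (𝓝[>] 0) (𝓝 0) := by
  have := ENNReal.Tendsto.const_mul (a := c) h (Or.inr hc)
  rwa [mul_zero] at this

/-- Measurability of the Gaussian rate. -/
theorem measurable_rate {g1 : ℝ} {r1 : ℝ≥0∞} (h : LinePar g1 r1 T γ ρ) : Measurable γ := by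
  obtain ⟨g0, κ, -, rfl, -, -⟩ := h.lin
  fun_prop

/-! ### The bounds -/

/-- **Weight comparison** (untouched case): null. -/
theorem inB_FLg (hΦ : AdmissiblePotential Φ) (hh : 0 < h₀) (h : LNln Φ f₀ f T γ ρ h₀) :
    InB Φ f₀ f T γ ρ h₀ FLg := by
  refine InB.of_null (h.mono fun x L tw te hx hL hwin hq hIH K => ?_)
  obtain ⟨q, hq0, hqb⟩ := hq hIH K
  refine ⟨fun ε => ENNReal.ofReal L * q ε, tendsto_const_mul ENNReal.ofReal_ne_top hq0, ?_⟩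
  filter_upwards [hqb, self_mem_nhdsWithin] with ε hb hε
  have hT : (0 : ℝ) ≤ tw + h₀ := by linarith [hwin.nonneg]
  have hL0 : (0 : ℝ) < (epar γ ρ L tw te).L := lt_of_lt_of_le one_pos hL
  exact (bnd_FLg hΦ hε hT hL0 hwin.nonneg).mono_le (mul_le_mul_right hb _)

/-- **The touched half.** -/
theorem inB_FTg {β : ℝ} (hD : KData Φ β T f₀ f) :
    ∃ g1 : ℝ, 0 < g1 ∧ ∃ r1 : ℝ≥0∞, r1 < 1 ∧ ∃ h₁ : ℝ, 0 < h₁ ∧
      ∀ (γ : ℝ → ℝ) (ρ : ℝ≥0∞), LinePar g1 r1 T γ ρ → ∀ h₀ : ℝ, 0 < h₀ → h₀ ≤ h₁ →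
        LNln Φ f₀ f T γ ρ h₀ → ExN Φ f₀ f T γ ρ h₀ → InB Φ f₀ f T γ ρ h₀ FTg := by
  have hΦ := hD.adm
  have hf : Measurable f₀ := hD.contDiff.continuous.measurable
  obtain ⟨h₁, kap, lam, C, b, hK, hkap⟩ := Q1815.exists_kinC_kdata hD
  obtain ⟨g₁, hg₁, ρ₁, hρ₁, C₀, hC₀, hqx⟩ := qxe_win hD hK hkap
  refine ⟨g₁, hg₁, ρ₁, hρ₁, h₁, hK.1, fun γ ρ hpar h₀ hh₀ hle hLn hEx => ?_⟩
  have hγ : Measurable γ := measurable_rate hpar
  refine ⟨C₀, hC₀, fun _ _ => 0, Vanish.zero, ?_⟩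
  have hW : EvW T fun h _ _ _ => h ≤ h₀ := ⟨h₀, hh₀, 1, fun h _ _ _ _ hle _ _ _ => hle⟩
  refine ((hLn.and hEx).and hW).mono fun h L tw te hh hL hwin hq hIH => ?_
  obtain ⟨⟨hq1, hq2⟩, hhle⟩ := hq
  have hT' : 0 < tw + h₀ := by linarith [hwin.nonneg]
  have hteT : te ≤ tw + h₀ := by linarith [hwin.short]
  have hL0 : (0 : ℝ) < (epar γ ρ L tw te).L := lt_of_lt_of_le one_pos hL
  -- the null functions
  obtain ⟨δ, hδ0, hδ1⟩ := hqx γ ρ hpar h tw te hwin hIH.giv (tw + h₀) hT' (by linarith)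
  choose qL hqL0 hqL1 using hq1 hIH
  have hx : ∀ K : ℕ, ∃ q : ℝ → ℝ≥0∞, Tendsto q (𝓝[>] 0) (𝓝 0) ∧
      ∀ᶠ ε in 𝓝[>] (0 : ℝ), ∃ G, TMaj Φ ε (tw + h₀) K (exEv Φ K te) G ∧
        TS Φ f₀ ε (tw + h₀) (fun P z m w => wQ Φ ε P z * G P z m w) ≤ q ε := fun K =>
    TNull.exists_fun (TNull.or hΦ hf (hq2 hIH K).1 (hq2 hIH K).2)
  choose qE hqE0 hqE1 using hx
  refine ⟨fun K ε => C₀ * tnMass Φ f₀ γ ρ ε K tw + 2 * δ K ε + ENNReal.ofReal L * qL K ε +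
    qE K ε, ?_, ?_⟩
  · exact (((Small.const_mul hIH.tn hC₀).add (hδ0.small.const_mul (by norm_num))).add
      ((null_of_tendsto hqL0).small.const_mul ENNReal.ofReal_ne_top)).add
      (null_of_tendsto hqE0).small
  · refine EvK.ev (evK_of_forall fun K => ?_)
    filter_upwards [hqL1 K, hqE1 K, self_mem_nhdsWithin] with ε hbL hbE hε
    obtain ⟨G, hG, hGm⟩ := hbE
    refine (bnd_FTg (Q := epar γ ρ L tw te) hΦ hf hε hT'.le hL0 hγ hwin.nonneg hwin.le hteT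
      (hδ1 K ε hε) hG.meas (exMaj_of hG)).mono_le ?_
    calc _ ≤ C₀ * XI Φ f₀ ε K (epar γ ρ L tw te) + C₀ * tnMass Φ f₀ γ ρ ε K tw + 2 * δ K ε +
          ENNReal.ofReal L * qL K ε + qE K ε :=
          add_le_add (add_le_add le_rfl (mul_le_mul_right hbL _)) (TS_HN_le.trans hGm)
      _ = _ := by
          rw [zero_mul, add_zero]
          ring

end

end Crest.Agent.R122.InEq2T
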