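import Crest.Agent.R122.InEq2TXN_718
import Crest.Agent.R122.InEq2TInB_718
import Crest.Agent.R122.TLGate_311

/-!
# Row 122, INEQUALITY 2', touched half, v3 (helper718): adapters of the inputs

* `lnN_of_tsn` : `LnN` from helper311's `TSN` (capped mass of the lines which are not good).
* `exR_of_tNull` : `ExR` from helper302's `TNull` of `¬ GoodT`.
-/

set_option autoImplicit false
set_option maxHeartbeats 400000

open MeasureTheory Set Filter Topology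
open scoped ENNReal
open Crest.AnalysisR.Kinetic
open Crest.Agent.R122.GC311 Crest.Agent.R122.EDefs602 Crest.Agent.R122.InEq2
open Crest.Agent.R122.Kin796 Crest.Agent.R122.Kin796.CTree Crest.Agent.R122.Tree674
open Crest.Agent.R122.RtG302 Crest.Agent.R122.GIV566 Crest.Agent.R122.Master566
open Crest.Agent.R122.Top602 Crest.Agent.R122.TL311

namespace Crest.Agent.R122.InEq2T

noncomputable section

open scoped Classical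

variable {Φ : Space3 → ℝ} {f₀ : PhasePoint → ℝ} {f : ℝ → PhasePoint → ℝ} {ε : ℝ} {K : ℕ}
  {T T' te : ℝ} {γ : ℝ → ℝ} {ρ : ℝ≥0∞} {h₀ : ℝ}

/-- The capped mass of the lines which are not good, as a functional of trees. -/
def lnF (Φ : Space3 → ℝ) (K : ℕ) (T te : ℝ) (γ : ℝ → ℝ) (ρ : ℝ≥0∞) (ε : ℝ) (P : CTree)
    (z : PhasePoint × Par P) (m : ℕ) (w : Config m) : ℝ≥0∞ :=
  if Valid Φ ε P T z.1.2 z.2 ∧ Sep Φ ε P T z.1 z.2 ∧ PerpT Φ ε P z w then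
    min 1 (lineM γ ρ K te (lkX Φ ε K te P z w)) else 0

/-- One window: the majorants from `TSN`. -/
theorem exists_ln_of_tsn (h : TSN Φ f₀ T' K (lnF Φ K T' te γ ρ)) : ∃ q : ℝ → ℝ≥0∞,
    Tendsto q (𝓝[>] 0) (𝓝 0) ∧ ∀ᶠ ε in 𝓝[>] (0 : ℝ), ∃ NL, MeasTS NL ∧
      LnMaj Φ ε K T' te γ ρ NL ∧ TS Φ f₀ ε T' (HN Φ ε K T' NL) ≤ q ε := by
  refine exists_null_of_delta (B := fun ε a => ∃ NL, MeasTS NL ∧
      LnMaj Φ ε K T' te γ ρ NL ∧ TS Φ f₀ ε T' (HN Φ ε K T' NL) ≤ a)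
    (fun _ _ _ hab ⟨G, h1, h2, h3⟩ => ⟨G, h1, h2, h3.trans hab⟩) fun δ hδ => ?_
  obtain ⟨ε₀, hε₀, hq⟩ := h (ENNReal.ofReal δ) (ENNReal.ofReal_pos.2 hδ)
  refine ⟨ε₀, hε₀, fun ε hε hlt => ?_⟩
  obtain ⟨N, hN, hle, hm⟩ := hq ε hε hlt
  refine ⟨N, hN, fun P z m w h1 h2 h3 h4 h5 => ?_, TS_HN_le.trans hm⟩
  refine le_trans (le_of_eq ?_) (hle P z m w h1 h4)
  unfold lnF
  rw [if_pos ⟨h2, h3, h5⟩]

/-- **`LnN` from `TSN`.** -/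
theorem lnN_of_tsn (h : EvW T fun _ _ tw te => IH Φ f₀ f T γ ρ tw → ∀ K : ℕ,
    TSN Φ f₀ (tw + h₀) K (lnF Φ K (tw + h₀) te γ ρ)) : LnN Φ f₀ f T γ ρ h₀ :=
  h.mono fun _ _ _ _ _ _ _ hq hIH K => exists_ln_of_tsn (hq hIH K)

/-- One window: the majorants from `TNull`. -/
theorem exists_ex_of_tNull (h : TNull Φ f₀ T' K fun ε P z _ w => ¬ GoodT Φ ε K te P z w) :
    ∃ q : ℝ → ℝ≥0∞, Tendsto q (𝓝[>] 0) (𝓝 0) ∧ ∀ᶠ ε in 𝓝[>] (0 : ℝ), ∃ N, MeasTS N ∧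
      ExMajR Φ ε K T' te N ∧ TS Φ f₀ ε T' (HN Φ ε K T' N) ≤ q ε := by
  obtain ⟨q, hq0, hq⟩ := TNull.exists_fun h
  refine ⟨q, hq0, hq.mono fun ε hε => ?_⟩
  obtain ⟨G, hG, hm⟩ := hε
  exact ⟨G, hG.meas, fun P z m w h1 h2 h3 h4 _ h5 => hG.maj P z m w h1 h2 h3 h4 h5,
    TS_HN_le.trans hm⟩

/-- **`ExR` from `TNull`.** -/
theorem exR_of_tNull (h : EvW T fun _ _ tw te => IH Φ f₀ f T γ ρ tw → ∀ K : ℕ,
    TNull Φ f₀ (tw + h₀) K fun ε P z _ w => ¬ GoodT Φ ε K te P z w) : ExR Φ f₀ f T γ ρ h₀ :=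
  h.mono fun _ _ _ _ _ _ _ hq hIH K => exists_ex_of_tNull (hq hIH K)

end

end Crest.Agent.R122.InEq2T
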