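import Crest.Agent.R122.PWGlue_491

/-!
# Exit data of the glued world (row 122, LN1, chain level)

Conditions `PartS`, `PartD` of helper304 (#12311) for the multi-exit glue `GD` of helper491.

* `FamG`: a connecting family of virtual contacts of the part `π`; a pair of two exits of the
  derived world in the family is a contact of their (common) class before both hand-overs.
* `partS_of_gd`, `partD_of_gd`; `partS_singleton`, `partD_singleton`.
* `lt_dist_of_noC`: two exits of one class, without third contacts after the first hand-over, are at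
  distance greater than `ε`.
-/

set_option autoImplicit false
set_option linter.unusedSectionVars false

open MeasureTheory Set Filter Topology
open scoped NNReal ENNReal
open Crest.AnalysisR.Kinetic
open Crest.Agent.R122.Flow671 Crest.Agent.R122.Loc45 Crest.Agent.R122.Ins45
open Crest.Agent.R122.VL581 Crest.Agent.R122.VL581.VSys Crest.Agent.R122.VLInst442
open Crest.Agent.R122.LNInst491 Crest.Agent.R122.LN304 Crest.Agent.R122.LNg410
open Crest.Agent.R122.PWGlue491 Crest.Agent.R122.LNW291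

noncomputable section

namespace Crest.Agent.R122.LNPartS291

variable {J κ : Type} [Fintype J] {M : VSys J κ} {Z : J → PhasePoint}

/-- A connecting family of virtual contacts inside `π`. -/
def Fam (M : VSys J κ) (c : ℝ) (Z : J → PhasePoint) (π : Finset J) (F : J → J → Prop) : Prop :=
  CutConn π F ∧ ∀ i ∈ π, ∀ j ∈ π, i ≠ j → F i j → ∃ t ∈ Icc 0 M.T, M.VCt c π i j t Z

/-- Contacts of an exit `d` with outsiders come after its contacts with its part. -/
def PartS (M : VSys J κ) (c : ℝ) (Z : J → PhasePoint) (C : ℝ → J → J → Prop) (π : Finset J) :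
    Prop :=
  ∀ p d g s s', p ∈ π → d ∈ π → p ≠ d → g ∉ π → 0 ≤ s' → s' ≤ s → s ≤ M.T → C s p d →
    C s' d g → s' = s ∨ ∃ F, Fam M c Z π F ∧ (F p d ∨ F d p → ∃ s0 ∈ Icc 0 s', M.VCt c π p d s0 Z)

/-- Direct contacts of two exits of one part. -/
def PartD (M : VSys J κ) (c : ℝ) (Z : J → PhasePoint) (C C' : ℝ → J → J → Prop) (π : Finset J)
    (a : J) : Prop :=
  ∀ d v, d ∈ π → d ≠ a → v ≤ M.T → C' v a d → ∃ F, Fam M c Z π F ∧ (F a d ∨ F d a →
    ∃ s0, 0 ≤ s0 ∧ M.VCt c π a d s0 Z ∧ ∃ r, s0 ≤ r ∧ r < v ∧ ∃ m, m ≠ a ∧ m ≠ d ∧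
      (C r a m ∨ C r d m))

theorem partS_singleton {c : ℝ} {C : ℝ → J → J → Prop} (a : J) : PartS M c Z C {a} := by
  intro p d g s s' hp hd hpd
  rw [Finset.mem_singleton] at hp hd
  exact absurd (hp.trans hd.symm) hpd

theorem partD_singleton {c : ℝ} {C C' : ℝ → J → J → Prop} (a : J) : PartD M c Z C C' {a} a := by
  intro d v hd hda
  rw [Finset.mem_singleton] at hd
  exact absurd hd hda

variable {Sp : J → Finset J} {bD : J → ℝ} {A : Finset J} {XD : ℝ → J → PhasePoint}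

/-- Contacts of the derived world. -/
def CD (ε : ℝ) (bD : J → ℝ) (A : Finset J) (XD : ℝ → J → PhasePoint) (v : ℝ) (i j : J) : Prop :=
  i ∈ A ∧ j ∈ A ∧ bD i ≤ v ∧ bD j ≤ v ∧ (bD i < v ∨ bD j < v) ∧
    dist (XD v i).1 (XD v j).1 ≤ ε

section

variable (H : GD M Z Sp bD A XD)
include H

/-- Up to the hand-over the path of a member of a part is the isolated one. -/
theorem XG_eq_st {k : J} {t : ℝ} (hne : (Sp k).Nonempty) (ht : t ≤ M.T) (hk : k ∈ A → t ≤ bD k) :
    XG M Z Sp bD A XD t k = M.st (Sp k) t Z k := by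
  by_cases h : InG Sp bD A t k
  · have h1 : bD k = t := le_antisymm (h.2 hne) (hk h.1)
    rw [XG_of_inG h, ← h1]
    exact H.hand k h.1 hne (by rw [h1]; exact ht)
  · exact XG_of_not h

/-- Contacts of a class before the hand-overs are contacts of the glued world. -/
theorem cG_of_cv {k m : J} {t : ℝ} (ht : t ≤ M.T) (hm : m ∈ Sp k) (hk : k ∈ A → t ≤ bD k)
    (hmA : m ∈ A → t ≤ bD m) (h : CV M Z (Sp k) t k m) : CG M Z Sp bD A XD t k m := by
  obtain ⟨_, _, h1, h2, h3, h4, h5, h6⟩ := h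
  have hSp : Sp m = Sp k := H.eq k m hm
  refine ⟨h1, h2, Or.inr ⟨hm, hk, hmA⟩, h3, h4, h5, ?_⟩
  rw [XG_eq_st H ⟨m, hm⟩ ht hk, XG_eq_st H (H.nonempty hm) ht hmA, hSp]
  exact h6

variable (hΦ : AdmissiblePotential M.Φ) (hε : 0 < M.ε)
include hΦ hε

/-- After its exit a member of a class is on its free line in the isolated class. -/
theorem st_free {x : J} (hx : x ∈ A) (hne : (Sp x).Nonempty) {t : ℝ} (ht : t ≤ M.T) :
    ∀ u ∈ Icc (bD x) t, M.st (Sp x) u Z x = ((M.st (Sp x) (bD x) Z x).1 +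
      (u - bD x) • (M.st (Sp x) (bD x) Z x).2, (M.st (Sp x) (bD x) Z x).2) := by
  have h0 : 0 ≤ bD x := (bb_nonneg M x).trans (H.bb_le x hx)
  refine free_of_iso (s := bD x) (t := t) (i := x) hΦ hε (st_lworld hΦ hε (H.ok x) 0) h0 ht
    fun u hu k hkx _ hbk => ?_
  have huT : u < M.T := hu.2.trans_le ht
  obtain ⟨⟨hk, _⟩, hbk'⟩ := (ba_le_iff M huT).1 hbk
  exact H.exit_le hΦ hε hx hu.1 huT (h0.trans hu.1) hk hkx hbk'

/-- **Two exits of one class** do not meet without third contacts. -/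
theorem lt_dist_of_noC (hT : 0 ≤ M.T) {x y : J} (hx : x ∈ A) (hy : y ∈ A) (hyx : y ≠ x)
    (hSp : y ∈ Sp x) (hb : bD x ≤ bD y) {v : ℝ} (hv : bD y ≤ v) (hv' : bD x < v) (hvT : v ≤ M.T)
    (hno : ∀ r ∈ Ico (bD x) v, ∀ m, m ≠ x → m ≠ y →
      ¬ CG M Z Sp bD A XD r x m ∧ ¬ CG M Z Sp bD A XD r y m) :
    M.ε < dist (XG M Z Sp bD A XD v x).1 (XG M Z Sp bD A XD v y).1 := by
  classical
  have hSy : Sp y = Sp x := H.eq x y hSp
  have hne : (Sp x).Nonempty := ⟨y, hSp⟩
  have hney : (Sp y).Nonempty := H.nonempty hSp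
  have hxx : x ∈ Sp x := H.mem x hne
  have h0x : 0 ≤ bD x := (bb_nonneg M x).trans (H.bb_le x hx)
  have h0y : 0 ≤ bD y := h0x.trans hb
  have hbyT : bD y ≤ M.T := hv.trans hvT
  have hRW := H.rw hΦ hε hT
  -- distance in the isolated class
  have hdist : M.ε < dist (M.st (Sp x) v Z x).1 (M.st (Sp x) v Z y).1 :=
    H.exit x hx v hv' hvT y hSp hyx ((H.bb_le y hy).trans hv)
  -- states at the second hand-over
  have hXx : XG M Z Sp bD A XD (bD y) x = M.st (Sp x) (bD y) Z x := by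
    have h1 := H.free_of_noC hΦ hε (k := x) h0x hbyT (fun t ht j hj h => by
      by_cases hjy : j = y
      · subst hjy
        rcases h.2.2.1 with h' | h'
        · exact absurd (h'.2.2 hney) (not_le.2 ht.2)
        · exact absurd (h'.2.1 hx) (not_le.2 ht.1)
      · exact (hno t ⟨ht.1.le, ht.2.trans_le hv⟩ j hj hjy).1 h) (bD y) ⟨hb, le_rfl⟩
    have h2 := st_free H hΦ hε hx hne hbyT (bD y) ⟨hb, le_rfl⟩
    rw [h1, h2, XG_eq_st H hne (hb.trans hbyT) fun _ => le_rfl]
  have hXy : XG M Z Sp bD A XD (bD y) y = M.st (Sp x) (bD y) Z y := by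
    rw [XG_eq_st H hney hbyT fun _ => le_rfl, hSy]
  rcases hv.lt_or_eq with hlt | heq
  swap
  · rw [← heq, hXx, hXy]
    rw [← heq] at hdist
    exact hdist
  -- agreement on `[bD y, v)`
  have hG : ∀ b ∈ Ico (bD y) v, ∀ k ∈ ({x, y} : Finset J),
      XG M Z Sp bD A XD b k = M.st (Sp x) b Z k := by
    intro b hb'
    have hbT : b ≤ M.T := hb'.2.le.trans hvT
    refine hRW.loc {x, y} (Sp x) (bD y) b ?_ h0y hb'.1 hbT (ok_anti hbT (H.ok x)) ?_ ?_ ?_ ?_ b
      ⟨hb'.1, le_rfl⟩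
    · intro k hk
      rw [Finset.mem_insert, Finset.mem_singleton] at hk
      rcases hk with rfl | rfl
      · exact hxx
      · exact hSp
    · intro s hs k hk j hj h
      rw [Finset.mem_insert, Finset.mem_singleton, not_or] at hj
      have h1 := hno s ⟨hb.trans hs.1, hs.2.trans_lt hb'.2⟩ j hj.1 hj.2
      rw [Finset.mem_insert, Finset.mem_singleton] at hk
      rcases hk with rfl | rfl
      · exact h1.1 h
      · exact h1.2 h
    · intro s hs k hk l hl hkl hok hol hg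
      have hin : ∀ k ∈ ({x, y} : Finset J), InG Sp bD A s k := by
        intro k hk
        rw [Finset.mem_insert, Finset.mem_singleton] at hk
        rcases hk with rfl | rfl
        · exact ⟨hx, fun _ => hb.trans hs.1⟩
        · exact ⟨hy, fun _ => hs.1⟩
      exact ⟨hok, hol, Or.inl ⟨hin k hk, hin l hl⟩, hg⟩
    · intro s hs k hk j hj h
      rw [Finset.mem_insert, Finset.mem_singleton, not_or] at hj
      have hsT : s ≤ M.T := hs.2.trans hbT
      have hjS : j ∈ Sp x := h.2.1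
      have hsv : s ∈ Ico (bD x) v := ⟨hb.trans hs.1, hs.2.trans_lt hb'.2⟩
      have hd := h.2.2.2.2.2.2.2
      have hbj := h.2.2.2.2.2.1
      have hjex : ∀ k ∈ Sp x, k ≠ j → M.bb k ≤ s →
          dist (M.st (Sp x) s Z k).1 (M.st (Sp x) s Z j).1 ≤ M.ε → j ∈ A → s ≤ bD j := by
        intro k hk hkj hbk hd hjA
        by_contra hcon
        have hSj : Sp j = Sp x := H.eq x j hjS
        have h1 := H.exit j hjA s (not_le.1 hcon) hsT k (by rw [hSj]; exact hk) hkj hbk
        rw [hSj, dist_comm] at h1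
        exact absurd hd (not_le.2 h1)
      rw [Finset.mem_insert, Finset.mem_singleton] at hk
      rcases hk with rfl | rfl
      · rcases hsv.1.lt_or_eq with h1 | h1
        · exact absurd hd (not_le.2 (H.exit k hx s h1 hsT j hjS hj.1 hbj))
        · exact (hno s hsv j hj.1 hj.2).1 (cG_of_cv H hsT hjS (fun _ => h1.symm.le)
            (hjex k hxx (Ne.symm hj.1) h.2.2.2.2.1 hd) h)
      · rcases hs.1.lt_or_eq with h1 | h1
        · have h2 := H.exit k hy s h1 hsT j (by rw [hSy]; exact hjS) hj.2 hbj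
          rw [hSy] at h2
          exact absurd hd (not_le.2 h2)
        · refine (hno s hsv j hj.1 hj.2).2 (cG_of_cv H hsT (by rw [hSy]; exact hjS)
            (fun _ => h1.symm.le) (hjex k hSp (Ne.symm hj.2) h.2.2.2.2.1 hd) ?_)
          rw [hSy]
          exact h
    · intro k hk
      rw [Finset.mem_insert, Finset.mem_singleton] at hk
      rcases hk with rfl | rfl
      · exact hXx
      · exact hXy
  -- the end point
  have hend : ∀ k ∈ ({x, y} : Finset J), XG M Z Sp bD A XD v k = M.st (Sp x) v Z k := by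
    intro k hk
    have hv0 : v ∈ Icc 0 M.T := ⟨h0y.trans hv, hvT⟩
    have c1 : ContinuousWithinAt (fun t => XG M Z Sp bD A XD t k) (Ico (bD y) v) v :=
      (hRW.cont k v hv0).mono fun t ht => ⟨h0y.trans ht.1, ht.2.le.trans hvT⟩
    have c2 : ContinuousWithinAt (fun t => M.st (Sp x) t Z k) (Ico (bD y) v) v :=
      (H.cont_st' hΦ hε x k 0 v hv0).mono fun t ht => ⟨h0y.trans ht.1, ht.2.le.trans hvT⟩
    have hne' : (𝓝[Ico (bD y) v] v).NeBot := by
      rw [← mem_closure_iff_nhdsWithin_neBot, closure_Ico hlt.ne]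
      exact ⟨hv, le_rfl⟩
    refine tendsto_nhds_unique c1 (c2.congr' ?_)
    filter_upwards [self_mem_nhdsWithin] with t ht
    exact (hG t ht k hk).symm
  rw [hend x (by simp), hend y (by simp)]
  exact hdist

end

/-- A connecting family of the part `π`, in which a pair of two exits of the derived world is a
contact before both hand-overs, of their common class. -/
structure FamG (M : VSys J κ) (c : ℝ) (Z : J → PhasePoint) (Sp : J → Finset J) (bD : J → ℝ)
    (A : Finset J) (π : Finset J) (F : J → J → Prop) : Prop where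
  fam : Fam M c Z π F
  old : ∀ i ∈ π, ∀ j ∈ π, i ≠ j → F i j → i ∈ A → j ∈ A → j ∈ Sp i ∧
    ∃ s, 0 ≤ s ∧ s ≤ bD i ∧ s ≤ bD j ∧ M.VCt c π i j s Z

section

variable [Nonempty κ] {c ℓ ς : ℝ} {π : Finset J} {F : J → J → Prop}
variable (hΦ : AdmissiblePotential M.Φ) (hε : 0 < M.ε) (H : GD M Z Sp bD A XD) (hc : 1 ≤ c)
  (hsub : ∀ i ∈ π, Sp i ⊆ π)

include hε H hc hsub in
/-- A class contact of two exits is before both hand-overs and is a virtual contact of `π`. -/
theorem class_contact {i j : J} (hi : i ∈ π) (hij : i ≠ j) (hiA : i ∈ A) (hjA : j ∈ A)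
    (hj : j ∈ Sp i) {s : ℝ} (hs : s ∈ Icc 0 M.T) (hbi : M.bb i ≤ s) (hbj : M.bb j ≤ s)
    (hd : dist (M.st (Sp i) s Z i).1 (M.st (Sp i) s Z j).1 ≤ M.ε) :
    s ≤ bD i ∧ s ≤ bD j ∧ M.VCt c π i j s Z := by
  have hSj : Sp j = Sp i := H.eq i j hj
  have hii : i ∈ Sp i := H.mem i ⟨j, hj⟩
  refine ⟨?_, ?_, ?_⟩
  · by_contra hcon
    exact absurd hd (not_le.2 (H.exit i hiA s (not_le.1 hcon) hs.2 j hj hij.symm hbj))
  · by_contra hcon
    have h1 := H.exit j hjA s (not_le.1 hcon) hs.2 i (by rw [hSj]; exact hii) hij hbi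
    rw [hSj, dist_comm] at h1
    exact absurd hd (not_le.2 h1)
  · exact vct_of_dist hε hc (hsub i hi) (hsub i hi) hii hj (H.obsS i i hii) (H.obsS i j hj)
      (ok_anti hs.2 (H.ok i)) (ok_anti hs.2 (H.ok i)) hd

include hε H hc hsub in
/-- Family of the isolated class contacts. -/
theorem famG_of_dist (hfam : Fam M c Z π F)
    (hreal : ∀ i ∈ π, ∀ j ∈ π, i ≠ j → F i j → i ∈ A → j ∈ A → j ∈ Sp i ∧
      ∃ s ∈ Icc 0 M.T, M.bb i ≤ s ∧ M.bb j ≤ s ∧
        dist (M.st (Sp i) s Z i).1 (M.st (Sp i) s Z j).1 ≤ M.ε) :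
    FamG M c Z Sp bD A π F := by
  refine ⟨hfam, fun i hi j hj hij h hiA hjA => ?_⟩
  obtain ⟨h1, s, hs, hbi, hbj, hdd⟩ := hreal i hi j hj hij h hiA hjA
  obtain ⟨h2, h3, h4⟩ := class_contact hε H hc hsub hi hij hiA hjA h1 hs hbi hbj hdd
  exact ⟨h1, s, hs.1, h2, h3, h4⟩

omit [Nonempty κ] in
/-- At most one exit of the part in the derived world. -/
theorem famG_of_one (hfam : Fam M c Z π F) {a : J} (h1 : ∀ i ∈ π, i ∈ A → i = a) :
    FamG M c Z Sp bD A π F := by
  refine ⟨hfam, fun i hi j hj hij _ hiA hjA => ?_⟩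
  exact absurd ((h1 i hi hiA).trans (h1 j hj hjA).symm) hij

include H

omit [Nonempty κ] in
theorem famG_contact (hF : FamG M c Z Sp bD A π F) {p d : J} (hp : p ∈ π) (hd : d ∈ π)
    (hpd : p ≠ d) (hpA : p ∈ A) (hdA : d ∈ A) (h : F p d ∨ F d p) :
    d ∈ Sp p ∧ ∃ s, 0 ≤ s ∧ s ≤ bD p ∧ s ≤ bD d ∧ M.VCt c π p d s Z := by
  rcases h with h | h
  · exact hF.old p hp d hd hpd h hpA hdA
  · obtain ⟨h1, s, hs, h2, h3, h4⟩ := hF.old d hd p hp hpd.symm h hdA hpA
    exact ⟨H.symm_mem h1, s, hs, h3, h2, vct_symm h4⟩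

include hsub

omit [Nonempty κ] in
/-- **PartS** for the glued world. -/
theorem partS_of_gd (hnon : ∀ i ∈ π, i ∈ A → (Sp i).Nonempty) (hF : FamG M c Z Sp bD A π F) :
    PartS M c Z (CG M Z Sp bD A XD) π := by
  intro p d g s s' hp hd hpd hg h0 hs's hsT hpdc hdg
  rcases hs's.lt_or_eq with hlt | heq
  swap
  · exact Or.inl heq
  right
  have hdG : InG Sp bD A s' d := by
    rcases hdg.2.2.1 with h | h
    · exact h.1
    · exact absurd (hsub d hd h.1) hg
  have hbd : bD d ≤ s' := hdG.2 (hnon d hd hdG.1)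
  have hpG : InG Sp bD A s p := by
    rcases hpdc.2.2.1 with h | h
    · exact h.1
    · exact absurd (h.2.2 hdG.1) (not_le.2 (hbd.trans_lt hlt))
  refine ⟨F, hF.fam, fun h => ?_⟩
  obtain ⟨_, s0, h1, _, h3, h4⟩ := famG_contact H hF hp hd hpd hpG.1 hdG.1 h
  exact ⟨s0, ⟨h1, h3.trans hbd⟩, h4⟩

include hΦ hε

omit [Nonempty κ] hsub in

/-- **PartD** for the glued world. -/
theorem partD_of_gd (hT : 0 ≤ M.T) (hF : FamG M c Z Sp bD A π F) {C' : ℝ → J → J → Prop} {a : J}
    (ha : a ∈ π) (hC' : ∀ v d, C' v a d → CD M.ε bD A XD v a d) :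
    PartD M c Z (CG M Z Sp bD A XD) C' π a := by
  intro d v hd hda hvT hc'
  obtain ⟨haA, hdA, hba, hbd, hb, hdist⟩ := hC' v d hc'
  refine ⟨F, hF.fam, fun h => ?_⟩
  obtain ⟨hdS, s0, h1, h2, h3, h4⟩ := famG_contact H hF ha hd (Ne.symm hda) haA hdA h
  refine ⟨s0, h1, h4, ?_⟩
  by_contra hcon
  push Not at hcon
  have hno : ∀ r, s0 ≤ r → r < v → ∀ m, m ≠ a → m ≠ d →
      ¬ CG M Z Sp bD A XD r a m ∧ ¬ CG M Z Sp bD A XD r d m := fun r hr hrv m hma hmd =>
    hcon r hr hrv m hma hmd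
  have haG : InG Sp bD A v a := ⟨haA, fun _ => hba⟩
  have hdG : InG Sp bD A v d := ⟨hdA, fun _ => hbd⟩
  rcases le_total (bD a) (bD d) with hle | hle
  · have hlt : bD a < v := by
      rcases hb with hb | hb
      · exact hb
      · exact hle.trans_lt hb
    have h5 := lt_dist_of_noC H hΦ hε hT haA hdA hda hdS hle hbd hlt hvT
      fun r hr m hma hmd => hno r (h2.trans hr.1) hr.2 m hma hmd
    rw [XG_of_inG haG, XG_of_inG hdG] at h5
    exact absurd hdist (not_le.2 h5)
  · have hlt : bD d < v := by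
      rcases hb with hb | hb
      · exact hle.trans_lt hb
      · exact hb
    have h5 := lt_dist_of_noC H hΦ hε hT hdA haA (Ne.symm hda) (H.symm_mem hdS) hle hba hlt hvT
      fun r hr m hmd hma => (hno r (h3.trans hr.1) hr.2 m hma hmd).symm
    rw [XG_of_inG haG, XG_of_inG hdG, dist_comm] at h5
    exact absurd hdist (not_le.2 h5)

end

end Crest.Agent.R122.LNPartS291

end
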