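import Crest.Agent.R122.XShape_692
import Crest.Agent.R122.LNReachGD_818
import Crest.Agent.R122.PWInst3_442

/-!
# Row 122, LN1 (helper522): the small system of one independent line

Labels `Fin n ⊕ Unit` : the gas `w` and one line `x`; one part `{inr ()}`, no class; base world
`cfg w`.

* `M1`, `Z1`, `L1` : the master system, its configuration at time `0`, the parts.
* `gd0`, `gd1` : the glued worlds of `cfg w` and `(cfg w).ins x`; `twoW`, `bindW` (818).
* `RAll1` : everything cleanly influenced by the line is reached.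
* `xalt_of_not` : `¬ NoBad`, `BadHit` give helper692's `XAlt`.
-/

set_option autoImplicit false
set_option linter.unusedSectionVars false

open MeasureTheory Set Filter Topology
open scoped Classical ENNReal
open Crest.AnalysisR.Kinetic
open Crest.Agent.R122.Ins45 Crest.Agent.R122.EDefs602
open Crest.Agent.R122.VL581 Crest.Agent.R122.VLMeas973 Crest.Agent.R122.LNg410
open Crest.Agent.R122.LN304 Crest.Agent.R122.LNBridge968 Crest.Agent.R122.LNPart424
open Crest.Agent.R122.PWInst442 Crest.Agent.R122.PWGlue491 Crest.Agent.R122.LNEv818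
open Crest.Agent.R122.LNEv968 Crest.Agent.R122.Causal291 Crest.Agent.R122.LinkD331
open Crest.Agent.R122.X692 Crest.Agent.R122.PW365 Crest.Agent.R122.BH167

noncomputable section

namespace Crest.Agent.R122.Line522

variable {Φ : Space3 → ℝ} {ε t T T₁ c C R ℓ ς τ : ℝ} {n N K L m : ℕ} {w : Config n} {x : ML}
  {y : PhasePoint}

/-! ### Definitions -/

/-- The master system of the gas and one line. -/
abbrev M1 (Φ : Space3 → ℝ) (t ε : ℝ) (n : ℕ) (τ : ℝ) : VSys (Fin n ⊕ Unit) Unit :=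
  LNPart424.gsys Φ t ε n fun _ : Unit => τ

/-- The configuration at time `0`. -/
abbrev Z1 (w : Config n) (y : PhasePoint) : Fin n ⊕ Unit → PhasePoint := Sum.elim w fun _ => y

/-- The label of the line. -/
abbrev p1 (n : ℕ) : Fin n ⊕ Unit := Sum.inr ()

/-- The parts. -/
def L1 (n : ℕ) : Finset (Finset (Fin n ⊕ Unit)) := {{p1 n}}

/-- No classes. -/
abbrev cl1' (n : ℕ) : Fin n ⊕ Unit → Finset (Fin n ⊕ Unit) :=
  clOf n (fun _ : Unit => (none : Option Unit))

theorem cl_eq (j : Fin n ⊕ Unit) : cl1' n j = ∅ := by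
  rcases j with i | i
  · rfl
  · exact clOf_none rfl

theorem mem_L1 {π : Finset (Fin n ⊕ Unit)} : π ∈ L1 n ↔ π = {p1 n} := Finset.mem_singleton

theorem uni_L1 : uni (L1 n) = {p1 n} := by
  ext j
  rw [LNPart424.mem_uni]
  constructor
  · rintro ⟨π, hπ, hj⟩
    rwa [mem_L1.1 hπ] at hj
  · intro hj
    exact ⟨_, mem_L1.2 rfl, hj⟩

theorem none_ne (j : Fin n ⊕ Unit) : (M1 Φ t ε n τ).o ≠ some j := by
  intro h
  have h1 : (none : Option (Fin n ⊕ Unit)) = some _ := h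
  exact absurd h1 (by simp)

theorem base : Base (M1 Φ t ε n τ) w (fun _ : Unit => y) (cl1' n) :=
  base_clOf (fun _ => le_rfl) (fun _ => none_ne _) (fun _ h => absurd rfl h)
    (fun _ h => absurd rfl h)

/-- The line is an admissible label. -/
theorem lab (hx : 0 ≤ x.1.1) :
    Lab (M1 Φ t ε n x.1.1) (Z1 w (back x.1)) (cl1' n) (p1 n) x.1.1 (back x.1) :=
  Or.inl ⟨cl_eq _, none_ne _, max_eq_left hx, rfl⟩

section worlds

variable (hΦ : AdmissiblePotential Φ) (hε : 0 < ε)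
include hΦ hε

/-- The glued world `cfg w`. -/
theorem gd0 (hW : (MW.cfg w).Ok Φ ε) :
    GD (M1 Φ t ε n τ) (Z1 w y) (cl1' n) (bD (MW.cfg w) (gasE n Unit)) (labs (gasE n Unit))
      (XD (MW.cfg w) (gasE n Unit) Φ ε) :=
  base.gd0 (M := M1 Φ t ε n τ) hΦ hε hW

/-- The glued world `(cfg w).ins x`. -/
theorem gd1 (hx : 0 ≤ x.1.1) (hW : ((MW.cfg w).ins x).Ok Φ ε) :
    GD (M1 Φ t ε n x.1.1) (Z1 w (back x.1)) (cl1' n) (bD ((MW.cfg w).ins x) (lab1 n ()))
      (labs (lab1 n ())) (XD ((MW.cfg w).ins x) (lab1 n ()) Φ ε) :=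
  base.gd1 (M := M1 Φ t ε n x.1.1) hΦ hε (lab hx) hW

end worlds

/-! ### Parts -/

theorem card_left {J : Type} {P U : Finset J} (hN : (P ∪ U).card ≤ N) : P.card ≤ N :=
  (Finset.card_le_card Finset.subset_union_left).trans hN

theorem parts (hw : w ∈ PairExcluded ε n) : Parts (M1 Φ t ε n τ) c (Z1 w y) (L1 n) where
  conn π hπ := by
    rw [mem_L1.1 hπ]
    exact LNg410.conn_singleton _
  gas_o i _ := none_ne i
  gas_b i hi := by
    rcases i with i | i
    · exact le_rfl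
    · exact absurd (Finset.mem_singleton_self _) (hi _ (mem_L1.2 rfl))
  gas_sep i j hi hj hij := by
    have hi' := hi _ (mem_L1.2 rfl)
    have hj' := hj _ (mem_L1.2 rfl)
    rcases i with i | i
    · rcases j with j | j
      · exact hw i j fun h => hij (by rw [h])
      · exact absurd (Finset.mem_singleton_self _) hj'
    · exact absurd (Finset.mem_singleton_self _) hi'

theorem noTwo : NoTwo (M1 Φ t ε n τ) c (Z1 w y) (L1 n) N :=
  fun _ _ _ _ hπ _ hπ' _ _ => (mem_L1.1 hπ).trans (mem_L1.1 hπ').symm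

/-! ### The bad alternatives -/

/-- **`¬ NoBad`** : a bad set contains a gas particle. -/
theorem badGas_of_not (hΦ : AdmissiblePotential Φ) (hε : 0 < ε) (htT : t ≤ T)
    (h : ¬ NoBad (M1 Φ t ε n τ) c (R * ε) ς (Z1 w y) (L1 n) N) :
    LN2.BadGas Φ T c R ς ε N 1 (∅ : Finset Unit) (fun _ => τ) (fun _ => y) w := by
  unfold NoBad at h
  push Not at h
  obtain ⟨P, hP, ⟨π, hπ, hs⟩, hN, hT⟩ := h
  rw [mem_L1.1 hπ] at hs
  have hp : p1 n ∈ P := hs (Finset.mem_singleton_self _)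
  have hN' : P.card ≤ N := card_left hN
  refine (LN2.badGasW_hor htT (badGasW_one hΦ hε hP (fun _ => hp) hN' (Or.inr ?_)
    (Or.inr ⟨rfl, hT⟩))).badGas
  by_contra hcon
  push Not at hcon
  apply hT
  have h3 : P = {p1 n} := by
    ext j
    rw [Finset.mem_singleton]
    constructor
    · intro hj
      rcases j with i | i
      · exact absurd hj (hcon i)
      · rfl
    · rintro rfl
      exact hp
  rw [h3]
  exact tl_singleton _

/-- **`BadHit`** of a glued world over the gas and the line. -/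
theorem hit_of_badHit (hΦ : AdmissiblePotential Φ) (hε : 0 < ε) (htT : t ≤ T) (hT₁ : T < T₁)
    (hw : w ∈ PairExcluded ε n) {Sp : Fin n ⊕ Unit → Finset (Fin n ⊕ Unit)}
    {bD : Fin n ⊕ Unit → ℝ} {A : Finset (Fin n ⊕ Unit)} {XD : ℝ → Fin n ⊕ Unit → PhasePoint}
    (H : GD (M1 Φ t ε n τ) (Z1 w y) Sp bD A XD) (hSp : ∀ j, Sp j = ∅)
    (h : BadHit (M1 Φ t ε n τ) c (Z1 w y) (XG (M1 Φ t ε n τ) (Z1 w y) Sp bD A XD)
      (CG (M1 Φ t ε n τ) (Z1 w y) Sp bD A XD) (L1 n) N) :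
    BH167.BadHitGasN (bpos Φ T₁ T) Φ T c 1 ε N N 1 (∅ : Finset Unit) (fun _ => τ)
      (fun _ => y) w := by
  have hP : Parts (M1 Φ t ε n τ) c (Z1 w y) (L1 n) := parts hw
  have hSp' : ∀ x, (Sp x).Nonempty → x ∈ uni (L1 n) := by
    intro x hx
    rw [hSp x] at hx
    exact absurd hx Finset.not_nonempty_empty
  obtain ⟨G, A', j, k, v, hG, hπ, hN, hA'G, hj, hok, hv, hVN, hVG, hVu, hd, hkV, hbad⟩ :=
    Chain726.badPos_of_badHit (M := M1 Φ t ε n τ) hΦ hε H htT hT₁ hP hSp' h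
  have hinr : (p1 n) ∈ uni (L1 n) := by
    rw [uni_L1]
    exact Finset.mem_singleton_self _
  obtain ⟨f, hf⟩ := Chain726.exists_embV _ fun (y : Unit) hy =>
    Finset.disjoint_left.1 hVu hy hinr
  obtain ⟨i₀, hi₀⟩ := (hf k).1 hkV
  have hb := hbad (Fin _) (f.trans ⟨Sum.inl, Sum.inl_injective⟩) i₀ hf hi₀
  have hfG : ∀ x, Sum.inl (f x) ∉ G := fun x hx =>
    Finset.disjoint_left.1 hVG ((hf _).2 ⟨x, rfl⟩) hx
  have hpG : p1 n ∈ G := by
    obtain ⟨π, hπ, hs⟩ := hπ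
    rw [mem_L1.1 hπ] at hs
    exact hs (Finset.mem_singleton_self _)
  obtain ⟨g, hg, ι, h3, h4, h5⟩ := hit_one (T := T) (BP := bpos Φ T₁ T) hΦ hε htT hG
    (fun _ => hpG) (card_left hN) hA'G hj hok hv (f := f) hfG hb hd
  exact ⟨g, hg, ι, _, hVN, f, h3, badHitPN_univ le_rfl h4 h5⟩

/-! ### (RA) -/

/-- **Everything cleanly influenced by the line alone is reached** (base `cfg w`). -/
def RAll1 (Φ : Space3 → ℝ) (t c ε : ℝ) (K N : ℕ) (x : ML) {n : ℕ} (w : Config n) : Prop :=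
  ReachAll (Reach (M1 Φ t ε n x.1.1) c (Z1 w (back x.1)) (L1 n) {p1 n} (p1 n) N) Φ ε K t
    (MW.cfg w) Sum.inl x (p1 n)

section ra

variable (hΦ : AdmissiblePotential Φ) (hε : 0 < ε) (hx : 0 ≤ x.1.1) (hW : (MW.cfg w).Ok Φ ε)
  (hWx : ((MW.cfg w).ins x).Ok Φ ε)
include hΦ hε hx hW hWx

theorem gd2 : GD2 (M1 Φ t ε n x.1.1) (Z1 w (back x.1)) (cl1' n) (MW.cfg w) x (gasE n Unit) (p1 n)
    (gasE_ne ()) where
  g0 := gd0 hΦ hε hW
  g1 := gd1 hΦ hε hx hWx
  ok := hW
  okA := hWx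

theorem cb2 : CB2 (M1 Φ t ε n x.1.1) (Z1 w (back x.1)) (cl1' n) (MW.cfg w) x (gasE n Unit) (p1 n)
    (gasE_ne ()) t :=
  ⟨cleanB_of (gd0 hΦ hε hW) (fun y _ _ e _ he => by
      rw [cl_eq] at he
      exact absurd he (Finset.notMem_empty _)) (fun i _ hne => by
      rw [cl_eq] at hne
      exact absurd hne Finset.not_nonempty_empty),
    cleanB_of (gd1 hΦ hε hx hWx) (fun y _ _ e _ he => by
      rw [cl_eq] at he
      exact absurd he (Finset.notMem_empty _)) (fun i _ hne => by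
      rw [cl_eq] at hne
      exact absurd hne Finset.not_nonempty_empty)⟩

omit hx hW hWx in
/-- The run of a sub-part of the part of the line is a run of the line. -/
theorem run_of_runD (h : RunD (M1 Φ t ε n x.1.1) (Z1 w (back x.1)) {p1 n} (p1 n) K m w) :
    LinkM547.Run Φ ε t K m (MW.line x) () w := by
  obtain ⟨D, hD, ha, h⟩ := h
  refine h Unit (MW.line x) ⟨fun _ => p1 n, fun _ _ _ => rfl⟩ () ?_ rfl
  have hD' : ∀ j, j ∈ D ↔ j = p1 n := fun j =>
    ⟨fun hj => Finset.mem_singleton.1 (hD hj), fun hj => hj ▸ ha⟩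
  refine ⟨fun _ => rfl, fun _ => rfl, fun _ => none_ne _, fun j => ?_, ?_⟩
  · rw [hD']
    exact ⟨fun h => ⟨(), h.symm⟩, fun ⟨_, h⟩ => h.symm⟩
  · intro i hi _ _ j hj _ hji _
    rw [hD'] at hi hj
    exact absurd (hj.trans hi.symm) hji

/-- **(RA)** or an alternative of the line alone (helper692's `XAlt`). -/
theorem rAll1_or (ht : 0 < t) (htT : t ≤ T) (hT₁ : T < T₁) (hc : 1 ≤ c) (hς : 2 * (R * ε) ≤ ς)
    (hw : w ∈ PairExcluded ε n) (hN : 1 + 2 * K * (m + 2) ≤ N) :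
    RAll1 Φ t c ε K (1 + 2 * K * (m + 2)) x w ∨ XAlt Φ T T₁ t c R ς ε K m N x w := by
  by_cases hNB : NoBad (M1 Φ t ε n x.1.1) c (R * ε) ς (Z1 w (back x.1)) (L1 n) N
  swap
  · exact Or.inr (Or.inr (Or.inl (badGas_of_not hΦ hε htT hNB)))
  have G := gd2 (t := t) hΦ hε hx hW hWx
  by_cases hBH : ∀ b, ¬ BadHit (M1 Φ t ε n x.1.1) c (Z1 w (back x.1))
      (Xb (M1 Φ t ε n x.1.1) (Z1 w (back x.1)) (cl1' n) (MW.cfg w) x (gasE n Unit) (p1 n)
        (gasE_ne ()) b)
      (Cb (M1 Φ t ε n x.1.1) (Z1 w (back x.1)) (cl1' n) (MW.cfg w) x (gasE n Unit) (p1 n)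
        (gasE_ne ()) b) (L1 n) N
  swap
  · push Not at hBH
    obtain ⟨b, hb⟩ := hBH
    refine Or.inr (Or.inr (Or.inr ?_))
    cases b
    · exact hit_of_badHit hΦ hε htT hT₁ hw G.g0 cl_eq hb
    · exact hit_of_badHit hΦ hε htT hT₁ hw G.g1 cl_eq hb
  have hu : (uni (L1 n)).card = 1 := by
    rw [uni_L1]
    exact Finset.card_singleton _
  have h1 := G.reachAll_of_glue (N := N) (T := t) (K := K) (Λ := L1 n) (π := {p1 n}) (c := c)
    (ℓ := R * ε) (ς := ς) hΦ hε ht.le le_rfl hc hς (cb2 hΦ hε hx hW hWx)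
    (fun j => by
      rw [cl_eq]
      exact Finset.empty_subset _) (fun k _ => le_rfl) (parts hw) hNB noTwo hBH (mem_L1.2 rfl)
    (Finset.mem_singleton_self _) (fun b => LNPartS291.partS_singleton _)
    (LNPartS291.partD_singleton _) (w := w) (g := gasE n Unit) (fun _ => rfl) (fun _ => rfl)
    (fun _ => none_ne _) (fun i hi => by
      rw [uni_L1, Finset.mem_singleton] at hi
      rcases i with i | i
      · exact ⟨i, rfl⟩
      · exact absurd rfl hi) (fun i => ⟨i, rfl⟩) m (by rw [hu]; exact hN)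
  rcases h1 with h1 | h1
  · exact Or.inr (Or.inl (run_of_runD hΦ hε h1))
  · left
    rw [hu] at h1
    exact h1

end ra

end Crest.Agent.R122.Line522

end
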