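import Crest.Agent.R122.InEq2TX_335

/-!
# Row 122, INEQUALITY 2', touched half, v3 (helper335): pointwise bounds and integration

* `treeIn_of_hTreeP` : helper311's history gives helper811's `TreeIn` at every earlier time.
* `thV_le_theta` : the tree touches the gas not later than its lines (root included).
* `thetaL_add_le` : a good line which touches `w` before the tree touches `w + V` not later.
* `wm_append_le3`, `wm_touched_le3` : comparison of the weights.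
* `bnd_FTg3`, `bnd_FLg3`, `bnd_FT3`, `bnd_FL3`.
-/

set_option autoImplicit false
set_option linter.unusedSectionVars false

open MeasureTheory Set Filter Topology
open scoped ENNReal
open Crest.AnalysisR.Kinetic
open Crest.Agent.R122.Flow671 hiding rel
open Crest.Agent.R122.Causal291 Crest.Agent.R122.Loc45
open Crest.Agent.R122.Inf879 Crest.Agent.R122.GC311 Crest.Agent.R122.EDefs602
open Crest.Agent.R122.InEq2 Crest.Agent.R122.EBasic602
open Crest.Agent.R122.Kin796 Crest.Agent.R122.Kin796.CTree Crest.Agent.R122.Tree674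
open Crest.Agent.R122.PathFlow968 Crest.Agent.R122.TreeLines335 Crest.Agent.R122.LineMeas994
open Crest.Agent.R122.RtG302 Crest.Agent.R122.Weight984 Crest.Agent.R122.MeasE416
open Crest.Agent.R122.TreeBound335 Crest.Agent.R122.ToTree335
open Crest.Agent.R122.MWFam255 (PairNL)
open Crest.Agent.R122.MWFam255
open Crest.Agent.R122.E6Hyp879 (withD)

namespace Crest.Agent.R122.InEq2T

noncomputable section

open scoped Classical

variable {Φ : Space3 → ℝ} {f₀ : PhasePoint → ℝ} {ε : ℝ} {K : ℕ} {Q : EPar} {T' σ v te : ℝ}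

section det3

variable {k m : ℕ} {V : Config k} {w : Config m} {P : CTree} {z : PhasePoint × Par P}

/-- Labels of `w + V`. -/
def gV (m : ℕ) (e : Idx P ≃ Fin k) : Fin m ⊕ Idx P ≃ Fin (k + m) :=
  (Equiv.sumCongr (Equiv.refl (Fin m)) e).trans (appE k m)

theorem comap_gV (e : Idx P ≃ Fin k) (hV : ∀ x, V (e x) = lines Φ ε P z.1 z.2 x) :
    (MW.cfg (Fin.append V w : Config (k + m))).comap (gV m e) =
      (MW.cfg w).add (RealL811.treeW Φ ε P z) := by
  unfold MW.comap MW.add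
  congr 1
  · funext x
    rcases x with x | x <;> rfl
  · funext x
    rcases x with x | x
    · exact Fin.append_right V w x
    · exact (Fin.append_left V w (e x)).trans (hV x)
  · funext x
    rcases x with x | x <;> rfl

theorem comap_e (e : Idx P ≃ Fin k) (hV : ∀ x, V (e x) = lines Φ ε P z.1 z.2 x) :
    (MW.cfg V).comap e = RealL811.treeW Φ ε P z := by
  unfold MW.comap
  congr 1
  funext x
  exact hV x

theorem ok_gV (hΦ : AdmissiblePotential Φ) (hε : 0 < ε)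
    (hX : (Fin.append V w : Config (k + m)) ∈ PairExcluded ε (k + m)) (e : Idx P ≃ Fin k)
    (hV : ∀ x, V (e x) = lines Φ ε P z.1 z.2 x) :
    ((MW.cfg w).add (RealL811.treeW Φ ε P z)).Ok Φ ε := by
  rw [← comap_gV e hV]
  exact (Unw410.cfg_ok hΦ hε hX).comap hΦ hε _

theorem wm_gV (hΦ : AdmissiblePotential Φ) (hε : 0 < ε) (e : Idx P ≃ Fin k)
    (hV : ∀ x, V (e x) = lines Φ ε P z.1 z.2 x) (s : ℝ) :
    (MW.cfg (Fin.append V w : Config (k + m))).Wm Φ ε K Q s =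
      ((MW.cfg w).add (RealL811.treeW Φ ε P z)).Wm Φ ε K Q s := by
  rw [← comap_gV e hV, EquivE416.Wm_comap hΦ hε]

theorem thV_eq (hΦ : AdmissiblePotential Φ) (hε : 0 < ε) (e : Idx P ≃ Fin k)
    (hV : ∀ x, V (e x) = lines Φ ε P z.1 z.2 x) :
    thV Φ ε K te V w = (MW.cfg w).theta Φ ε K te (RealL811.treeW Φ ε P z) := by
  unfold thV
  rw [← comap_e e hV, MWAlg255.theta_comap_right hΦ hε]

/-- **The history is a tree of the world `w + V`** up to every time before `σ`. -/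
theorem treeIn_of_hTreeP (hΦ : AdmissiblePotential Φ) (hε : 0 < ε)
    (hX : (Fin.append V w : Config (k + m)) ∈ PairExcluded ε (k + m)) (e : Idx P ≃ Fin k)
    {i : Fin (k + m)}
    (h : HTreeP Φ ε T' σ (Fin.append V w : Config (k + m)) i P z.1 z.2 (Fin.castAdd m ∘ e))
    (hV : ∀ x, V (e x) = lines Φ ε P z.1 z.2 x) (hσT : σ ≤ T') (hv : v < σ) :
    RealL811.TreeIn Φ ε ((MW.cfg w).add (RealL811.treeW Φ ε P z)) P z Sum.inr v := by
  have hpr : ∀ x : Idx P, ∀ u, u < σ → u ≤ rel P z.2 x → u ≤ prot P T' z.2 x := by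
    intro x u hu hx
    by_cases hi : x = root P
    · rw [hi, PathFlow968.prot_root]
      exact hu.le.trans hσT
    · rw [← rel_eq_prot P T' z.2 x hi]
      exact hx
  have hag : ∀ (x : Idx P) (u : ℝ), 0 ≤ u → u ≤ v → u ≤ rel P z.2 x →
      pth Φ ε (Fin.append V w : Config (k + m)) u (gV m e (Sum.inr x)) =
        path Φ ε P z.1 z.2 u x := fun x u h0 hu hx =>
    h.agree x u h0 (hu.trans_lt hv) (hpr x u (hu.trans_lt hv) hx)
  refine ⟨Sum.inr_injective, fun _ => rfl, fun _ => rfl, fun x u h0 hu hx => ?_,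
    fun x u y h0 hu hx hc => ?_⟩
  · rw [← comap_gV e hV, EquivE416.path_comap hΦ hε]
    show (MW.cfg (Fin.append V w : Config (k + m))).path Φ ε u (gV m e (Sum.inr x)) = _
    rw [EBasic602.cfg_path hΦ hε]
    exact hag x u h0 hu hx
  · rw [← comap_gV e hV, EquivE416.C_comap hΦ hε] at hc
    have hc' := (EBasic602.cfg_C_iff hΦ hε hX h0 _ _).1 hc
    have huσ : u < σ := hu.trans_lt hv
    have h1 : gV m e (Sum.inr x) ∈
        pre (Ct (pth Φ ε (Fin.append V w : Config (k + m))) ε) i σ u :=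
      (h.past u h0 huσ _).2 ⟨x, rfl, hpr x u huσ hx⟩
    obtain ⟨r, hr, hp⟩ := h1
    obtain ⟨y', hy', hy2⟩ := (h.past u h0 huσ _).1 ⟨r, hr, hp.contact hc'⟩
    have hyy : y = Sum.inr y' := (gV m e).injective (by rw [← hy']; rfl)
    subst hyy
    refine ⟨y', rfl, ?_⟩
    by_cases hi : y' = root P
    · have h2 : dist (pth Φ ε (Fin.append V w : Config (k + m)) u (gV m e (Sum.inr x))).1
          (pth Φ ε (Fin.append V w : Config (k + m)) u (gV m e (Sum.inr y'))).1 ≤ ε := hc'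
      have h3 : pth Φ ε (Fin.append V w : Config (k + m)) u (gV m e (Sum.inr y')) =
          path Φ ε P z.1 z.2 u y' := h.agree y' u h0 huσ hy2
      rw [hag x u h0 hu hx, h3] at h2
      have hw := (ct_iff hΦ hε h.valid h.sep ⟨h0, huσ.le.trans hσT⟩).1 h2
      rcases hw with rfl | hw | hw
      · exact hx
      · exact (RealL811.inWindow_rel hε.le h.valid.2 hw).2.2
      · exact (RealL811.inWindow_rel hε.le h.valid.2 hw).2.1
    · rw [rel_eq_prot P T' z.2 y' hi]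
      exact hy2

/-! ### Good trees -/

theorem GoodT.exits (hΦ : AdmissiblePotential Φ) (hε : 0 < ε) (h : GoodT Φ ε K te P z w) :
    AllOk Φ ε w (exL Φ ε P z) ∧ ¬ LinkEx Φ ε K te w (exL Φ ε P z) := by
  exact ⟨MWFam255.okFam_comp hΦ hε h.1 ⟨Subtype.val, Subtype.val_injective⟩,
    not_not.2 (h.2.comp ⟨Subtype.val, Subtype.val_injective⟩)⟩

/-- Standing data of the pointwise comparison. -/
structure PD (Φ : Space3 → ℝ) (ε : ℝ) (K : ℕ) (T' σ te : ℝ) {k m : ℕ} (V : Config k)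
    (w : Config m) (P : CTree) (z : PhasePoint × Par P) (e : Idx P ≃ Fin k)
    (i : Fin (k + m)) : Prop where
  hX : (Fin.append V w : Config (k + m)) ∈ PairExcluded ε (k + m)
  hw : w ∈ PairExcluded ε m
  h : HTreeP Φ ε T' σ (Fin.append V w : Config (k + m)) i P z.1 z.2 (Fin.castAdd m ∘ e)
  ln : ∀ x, V (e x) = lines Φ ε P z.1 z.2 x
  card : P.leaves ≤ K
  perp : Perp ε V w
  te0 : 0 ≤ te
  σte : σ ≤ te
  σT : σ ≤ T'
  good : GoodT Φ ε K te P z w

namespace PD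

variable {e : Idx P ≃ Fin k} {i : Fin (k + m)}

theorem tree (h : PD Φ ε K T' σ te V w P z e i) (hΦ : AdmissiblePotential Φ) (hε : 0 < ε)
    {v : ℝ} (hv : v < σ) :
    RealL811.TreeIn Φ ε ((MW.cfg w).add (RealL811.treeW Φ ε P z)) P z Sum.inr v :=
  treeIn_of_hTreeP hΦ hε h.hX e h.h h.ln h.σT hv

theorem okA (h : PD Φ ε K T' σ te V w P z e i) (hΦ : AdmissiblePotential Φ) (hε : 0 < ε) :
    ((MW.cfg w).add (RealL811.treeW Φ ε P z)).Ok Φ ε := ok_gV hΦ hε h.hX e h.ln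

theorem sep0 (h : PD Φ ε K T' σ te V w P z e i) (hΦ : AdmissiblePotential Φ) (hε : 0 < ε)
    (x : Idx P) (y : Fin m) (_ : (MW.cfg w).b y ≤ 0) :
    ε < dist (((MW.cfg w).add (RealL811.treeW Φ ε P z)).path Φ ε 0 (Sum.inr x)).1
      (((MW.cfg w).add (RealL811.treeW Φ ε P z)).path Φ ε 0 (Sum.inl y)).1 := by
  rw [MW.path_zero hΦ hε]
  have h1 := h.perp (e x) y
  rw [h.ln x] at h1
  exact h1

/-- The tree touches the gas not later than its lines (root included). -/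
theorem thV_le (h : PD Φ ε K T' σ te V w P z e i) (hΦ : AdmissiblePotential Φ) (hε : 0 < ε)
    (hlt : (MW.cfg w).theta Φ ε K te (MW.lines (lineML Φ ε P z)) < σ) :
    thV Φ ε K te V w ≤ (MW.cfg w).theta Φ ε K te (MW.lines (lineML Φ ε P z)) := by
  set t0 := (MW.cfg w).theta Φ ε K te (MW.lines (lineML Φ ε P z)) with ht0
  have h0 : 0 ≤ t0 := MW.theta_nonneg h.te0
  have hte : t0 ≤ te := hlt.le.trans h.σte
  have hnf := MWFam255.noLinkFam hΦ hε h.te0 h.good.1 h.good.2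
  have hF : FamNL Φ ε K te (MW.cfg w) (lineML Φ ε P z) t0 :=
    famNL_of_pair h.good.1 h.good.2 h0 hte fun x =>
      MW.theta_lines_le hΦ hε h.good.1 hnf h.te0 x
  have h1 : (MW.cfg w).Touched Φ ε K (MW.lines (lineML Φ ε P z)) t0 :=
    (MW.touched_iff hΦ hε (Unw410.cfg_ok hΦ hε h.hw) (h.good.1.lines hΦ hε) ⟨h0, hte⟩).2 le_rfl
  have h2 := (LinkVh335.touched_tree_iff hΦ hε h.h.valid h.h.sep h.card (hlt.le.trans h.σT)
    (fun _ => le_rfl) (h.tree hΦ hε hlt) (h.okA hΦ hε) hF).2 h1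
  rw [thV_eq hΦ hε e h.ln]
  exact MW.theta_le_of_touched ⟨h0, hte⟩ h2

/-- **A good line** which touches `w` before the tree touches `w + V` not later. -/
theorem thetaL_le (h : PD Φ ε K T' σ te V w P z e i) (hΦ : AdmissiblePotential Φ) (hε : 0 < ε)
    {l : ML} (hl : GoodX Φ ε K te P z w l) (hl0 : 0 ≤ l.1.1)
    (hlσ : (MW.cfg w).thetaL Φ ε K te l < σ)
    (hF : ∀ x, (MW.cfg w).thetaL Φ ε K te l ≤ (MW.cfg w).thetaL Φ ε K te (lineML Φ ε P z x)) :
    ((MW.cfg w).add (RealL811.treeW Φ ε P z)).thetaL Φ ε K te l ≤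
      (MW.cfg w).thetaL Φ ε K te l := by
  have hNL : PairNL Φ ε K te (MW.cfg w) (withD (lineML Φ ε P z) l) := by
    rintro (x | x) (y | y) hxy
    · exact h.good.2 x y fun h' => hxy (congrArg Sum.inl h')
    · exact hl.nl x
    · exact MW.NoLink.symm (hl.nl y)
    · exact absurd rfl hxy
  exact LinkVh335.thetaL_le hΦ hε h.h.valid h.h.sep h.card (v := (MW.cfg w).thetaL Φ ε K te l)
    (hlσ.le.trans h.σT) h.te0 (fun _ => le_rfl) hl0 (h.tree hΦ hε hlσ) (h.okA hΦ hε) hl.okr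
    (h.sep0 hΦ hε) hl.ok hNL hl.ret le_rfl (hlσ.le.trans h.σte) hF

end PD

/-- Lines born at negative times are not charged. -/
theorem lineM_neg (γ : ℝ → ℝ) (ρ : ℝ≥0∞) (K : ℕ) (T : ℝ) :
    lineM γ ρ K T {l : ML | l.1.1 < 0} = 0 := by
  have h1 : lineV T {l : ML | l.1.1 < 0} = 0 := by
    have h2 : {l : ML | l.1.1 < 0} = ((Iio 0 ×ˢ (univ : Set PhasePoint)) ×ˢ (univ : Set ℕ)) := by
      ext l
      simp
    unfold lineV
    rw [h2, Measure.prod_prod, Measure.prod_prod, Measure.restrict_apply measurableSet_Iio]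
    have h3 : Iio (0 : ℝ) ∩ Ioc 0 T = ∅ := by
      ext x
      simp only [mem_inter_iff, mem_Iio, mem_Ioc, mem_empty_iff_false, iff_false]
      rintro ⟨h3, h4, -⟩
      exact absurd h3 (not_lt.2 h4.le)
    rw [h3]
    simp
  exact withDensity_absolutelyContinuous _ _ h1

theorem mul_min_le {L : ℝ≥0∞} {a W W' : ℝ≥0∞} (h1 : W' ≤ W + L * a) (h2 : W' ≤ 1) :
    W' ≤ W + (1 + L) * min 1 a := by
  rcases le_total 1 a with h | h
  · rw [min_eq_left h, mul_one]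
    exact h2.trans (le_self_add.trans le_add_self)
  · rw [min_eq_right h]
    exact h1.trans (add_le_add le_rfl (mul_le_mul_left (le_add_self) _))

/-- **Comparison of the weights** at a time `t₁ ≤ σ` before which the lines of the tree do not
touch. -/
theorem PD.wm_le {e : Idx P ≃ Fin k} {i : Fin (k + m)} (h : PD Φ ε K T' σ Q.te V w P z e i)
    (hΦ : AdmissiblePotential Φ) (hε : 0 < ε) (hL : 0 < Q.L) {t₁ : ℝ} (ht₁ : t₁ ≤ σ)
    (hF : ∀ x, t₁ ≤ (MW.cfg w).thetaL Φ ε K Q.te (lineML Φ ε P z x)) :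
    (MW.cfg (Fin.append V w : Config (k + m))).Wm Φ ε K Q σ ≤ (MW.cfg w).Wm Φ ε K Q t₁ +
      (1 + ENNReal.ofReal Q.L) * min 1 (lineM Q.γ Q.ρ K Q.te (lkX Φ ε K Q.te P z w)) := by
  refine mul_min_le ?_ (wm_le_one hL.le _ _)
  rw [wm_gV hΦ hε e h.ln]
  refine (Weight984.W_anti hL.le (XRm_mono ht₁)).trans (W_le_add hL ?_)
  set Y := MW.cfg w with hY
  set YA := (MW.cfg w).add (RealL811.treeW Φ ε P z) with hYA
  have hsub : {l : ML | Y.thetaL Φ ε K Q.te l < t₁} ⊆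
      {l : ML | YA.thetaL Φ ε K Q.te l < t₁} ∪ (lkX Φ ε K Q.te P z w ∪ {l : ML | l.1.1 < 0}) := by
    intro l hl
    have hl' : Y.thetaL Φ ε K Q.te l < t₁ := hl
    by_cases h1 : l ∈ lkX Φ ε K Q.te P z w
    · exact Or.inr (Or.inl h1)
    by_cases h2 : l.1.1 < 0
    · exact Or.inr (Or.inr h2)
    left
    have h3 : GoodX Φ ε K Q.te P z w l := not_not.1 h1
    exact (h.thetaL_le hΦ hε h3 (not_lt.1 h2) (hl'.trans_le ht₁) fun x =>
      hl'.le.trans (hF x)).trans_lt hl'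
  refine (measure_mono hsub).trans ((measure_union_le _ _).trans (add_le_add le_rfl ?_))
  refine (measure_union_le _ _).trans ?_
  rw [lineM_neg, add_zero]

/-- **The weight at the infection time**, untouched case. -/
theorem PD.wm_untouched {e : Idx P ≃ Fin k} {i : Fin (k + m)}
    (h : PD Φ ε K T' σ Q.te V w P z e i) (hΦ : AdmissiblePotential Φ) (hε : 0 < ε)
    (hL : 0 < Q.L) (hun : σ ≤ thV Φ ε K Q.te V w) :
    (MW.cfg (Fin.append V w : Config (k + m))).Wm Φ ε K Q σ ≤ (MW.cfg w).Wm Φ ε K Q σ +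
      (1 + ENNReal.ofReal Q.L) * min 1 (lineM Q.γ Q.ρ K Q.te (lkX Φ ε K Q.te P z w)) := by
  refine h.wm_le hΦ hε hL le_rfl fun x => ?_
  have hnf := MWFam255.noLinkFam hΦ hε h.te0 h.good.1 h.good.2
  refine le_trans ?_ (MW.theta_lines_le hΦ hε h.good.1 hnf h.te0 x)
  by_contra hlt
  push Not at hlt
  exact absurd (h.thV_le hΦ hε hlt) (not_le.2 (hlt.trans_le hun))

/-- **The weight at the infection time**, touched case. -/
theorem PD.wm_touched {e : Idx P ≃ Fin k} {i : Fin (k + m)}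
    (h : PD Φ ε K T' σ Q.te V w P z e i) (hΦ : AdmissiblePotential Φ) (hε : 0 < ε)
    (hT : 0 ≤ T') (hL : 0 < Q.L) (htw : 0 ≤ Q.tw) (htwe : Q.tw ≤ Q.te) (hteT : Q.te ≤ T')
    {s : ℝ} (hs : s < σ) (ht : TchV Φ ε K V w s) :
    (MW.cfg (Fin.append V w : Config (k + m))).Wm Φ ε K Q σ ≤
      (∑ x, (phi1 Φ ε K Q m w (exL Φ ε P z x) + phi2 Φ ε K Q m w (exL Φ ε P z x))) +
        (1 + ENNReal.ofReal Q.L) * min 1 (lineM Q.γ Q.ρ K Q.te (lkX Φ ε K Q.te P z w)) := by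
  have h0 : 0 ≤ s := tchV_nonneg hΦ hε ht
  have hte : 0 ≤ Q.te := h.te0
  obtain ⟨hOk, hLk⟩ := h.good.exits hΦ hε
  set θ := thV Φ ε K Q.te V w with hθ
  have hθs : θ ≤ s := thV_le_of_tchV hΦ hε h.hw h.hX ⟨h0, hs.le.trans h.σte⟩ ht
  have hθσ : θ < σ := hθs.trans_lt hs
  obtain ⟨x₀, hx₀⟩ := exists_exit_touch hΦ hε hT h.hX h.hw e h.h h.card h.σte hteT hOk hLk hs ht
  rw [← hθ] at hx₀
  have : Nonempty {x : Idx P // x ≠ root P} := ⟨x₀⟩
  obtain ⟨x, hmin⟩ := Finite.exists_min fun x => (MW.cfg w).thetaL Φ ε K Q.te (exL Φ ε P z x)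
  set θx := (MW.cfg w).thetaL Φ ε K Q.te (exL Φ ε P z x) with hθx
  have hx : θx ≤ θ := (hmin x₀).trans hx₀
  have hnf := MWFam255.noLinkFam hΦ hε h.te0 h.good.1 h.good.2
  have hF : (MW.cfg w).theta Φ ε K Q.te (MW.lines (lineML Φ ε P z)) ≤ θx :=
    MW.theta_lines_le hΦ hε h.good.1 hnf h.te0 x.1
  have hall : ∀ y, θx ≤ (MW.cfg w).thetaL Φ ε K Q.te (lineML Φ ε P z y) := fun y =>
    (hx.trans (h.thV_le hΦ hε (hF.trans_lt (hx.trans_lt hθσ)))).trans
      (MW.theta_lines_le hΦ hε h.good.1 hnf h.te0 y)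
  have hok := MWFam255.okF_of_okFam hΦ hε hOk
  have hbirth : (exL Φ ε P z x).1.1 ≤ θx := by
    have h1 := MW.birth_le_theta (K := K) (T := Q.te) hΦ hε hok.z (hok.line hΦ hε x)
      (τ := min (exL Φ ε P z x).1.1 Q.te) (min_le_right _ _) (fun _ => min_le_left _ _) (by
        show ∑ _y : Unit, (exL Φ ε P z x).2 ≤ K
        rw [Finset.univ_unique, Finset.sum_singleton]
        exact (mk_le P x.1).trans h.card)
    have hb0 : 0 ≤ (exL Φ ε P z x).1.1 := TreeLines335.rel_nonneg hε.le h.h.valid.2 x.1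
    rcases h1 with h1 | h1
    · rcases min_le_iff.1 h1 with h2 | h2
      · exact h2
      · exact absurd ((h2.trans hx).trans_lt hθσ) (not_lt.2 h.σte)
    · exact absurd h1 (not_lt.2 (le_min hb0 hte))
  refine (h.wm_le hΦ hε hL (hx.trans hθσ.le) hall).trans (add_le_add ?_ le_rfl)
  refine le_trans ?_ (Finset.single_le_sum (f := fun x => phi1 Φ ε K Q m w (exL Φ ε P z x) +
    phi2 Φ ε K Q m w (exL Φ ε P z x)) (fun _ _ => bot_le) (Finset.mem_univ x))
  rcases lt_or_ge Q.tw θx with h3 | h3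
  · refine le_trans ?_ le_self_add
    unfold phi1
    rw [if_pos (hbirth.trans ((hx.trans hθσ.le).trans h.σte))]
    unfold MW.touchW
    rw [if_pos ⟨h3, (hx.trans hθσ.le).trans h.σte⟩]
  · refine le_trans ?_ le_add_self
    unfold phi2
    have h4 : (MW.cfg w).thetaL Φ ε K Q.tw (exL Φ ε P z x) ≤ Q.tw :=
      (MW.theta_le_iff_horizon hΦ hε hok.z (hok.line hΦ hε x) htw htwe le_rfl).1 h3
    rw [if_pos ⟨hbirth.trans h3, h4⟩]
    exact Weight984.W_le_one hL.le _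

end det3

/-! ### Pointwise bounds by tree functionals -/

section point3

variable {k m : ℕ} {V : Config k} {w : Config m} {j : Fin k}
  {NL N : (P : CTree) → PhasePoint × Par P → (m : ℕ) → Config m → ℝ≥0∞}

theorem perpT_of {P : CTree} {z : PhasePoint × Par P} (e : Idx P → Fin k)
    (h : Adm Φ P z.1.2 z.2) (hV : ∀ x, V (e x) = lines Φ ε P z.1 z.2 x) (hp : Perp ε V w) :
    PerpT Φ ε P z w := by
  intro x i
  rw [linesM_of_adm ε h, ← hV x]
  exact hp (e x) i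

/-- **Touched half, pointwise**, v3. -/
theorem FTg_le3 (hΦ : AdmissiblePotential Φ) (hε : 0 < ε) (hT : 0 ≤ T') (hL : 0 < Q.L)
    (htw : 0 ≤ Q.tw) (htwe : Q.tw ≤ Q.te) (hteT : Q.te ≤ T')
    (hNL : LnMaj Φ ε K T' Q.te Q.γ Q.ρ NL) (hN : ExMajR Φ ε K T' Q.te N)
    (hV : V ∈ PairExcluded ε k) (hw : w ∈ PairExcluded ε m) (hp : Perp ε V w) :
    FTg Φ ε K Q T' k m V w j ≤ ways Φ ε T' (fun P z => (activity ε)⁻¹ *
      (HX Φ ε K T' Q.tw (phi1 Φ ε K Q) P z m w + HX Φ ε K T' Q.tw (phi2 Φ ε K Q) P z m w +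
        (1 + ENNReal.ofReal Q.L) * HN Φ ε K T' NL P z m w + HN Φ ε K T' N P z m w)) V j := by
  unfold FTg
  split_ifs with hall
  swap
  · exact bot_le
  obtain ⟨hJ, ⟨s, hs, hts⟩, P, z, e', h, hun⟩ := hall
  obtain ⟨hPK, e, he, hroot, hlines⟩ := tree_data hΦ hε hT htw hJ h
  have hX := append_mem hV hw hp
  refine le_trans ?_ (le_ways (Φ := Φ) (V := V) (j := j) (P := P) (e := e) (ℓ := z.1) (p := z.2)
    hΦ hε hroot h.valid hlines)
  refine mul_le_mul_right ?_ _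
  have hvs : vsI Φ ε K T' P z = 1 := by
    unfold vsI
    rw [if_pos ⟨hPK, h.valid, h.sep⟩]
  have hpt := perpT_of e h.valid.1 hlines hp
  have hg : gI Φ ε Q.tw P z w = 1 := gI_eq_one hΦ hε h.valid h.sep (htwe.trans hteT) hun
  show _ ≤ HX Φ ε K T' Q.tw (phi1 Φ ε K Q) P z m w + HX Φ ε K T' Q.tw (phi2 Φ ε K Q) P z m w +
    (1 + ENNReal.ofReal Q.L) * HN Φ ε K T' NL P z m w + HN Φ ε K T' N P z m w
  unfold HX HN
  rw [hvs, hg, pI_eq_one e h.valid.1 hlines hp, exS_eq h.valid.1, exS_eq h.valid.1,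
    eW_block e h.valid.1 hlines]
  simp only [one_mul]
  set a := wQ Φ ε P z with ha
  by_cases hgood : GoodT Φ ε K Q.te P z w
  · rw [he] at h
    have hD : PD Φ ε K T' _ Q.te V w P z e (Fin.castAdd m j) :=
      ⟨hX, hw, h, hlines, hPK, hp, htw.trans htwe, hJ.2.2, hJ.2.2.trans hteT, hgood⟩
    have h1 := hD.wm_touched (Q := Q) hΦ hε hT hL htw htwe hteT hs hts
    rw [Finset.sum_add_distrib] at h1
    have h2 := hNL P z m w hPK h.valid h.sep hw hpt
    refine (mul_le_mul_right (h1.trans (add_le_add le_rfl (mul_le_mul_right h2 _))) a).trans ?_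
    rw [mul_add, mul_add]
    refine le_trans (le_of_eq ?_) le_self_add
    ring
  · refine le_trans ?_ le_add_self
    refine mul_le_mul_right ?_ a
    exact (wm_le_one hL.le _ _).trans (hN P z m w hPK h.valid h.sep hw hpt hgood)

/-- **Weight comparison, pointwise**, v3. -/
theorem FLg_le3 (hΦ : AdmissiblePotential Φ) (hε : 0 < ε) (hT : 0 ≤ T') (hL : 0 < Q.L)
    (htw : 0 ≤ Q.tw) (htwe : Q.tw ≤ Q.te) (hteT : Q.te ≤ T')
    (hNL : LnMaj Φ ε K T' Q.te Q.γ Q.ρ NL) (hN : ExMajR Φ ε K T' Q.te N)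
    (hV : V ∈ PairExcluded ε k) (hw : w ∈ PairExcluded ε m) (hp : Perp ε V w) :
    FLg Φ ε K Q T' k m V w j ≤ ways Φ ε T' (fun P z => (activity ε)⁻¹ *
      ((1 + ENNReal.ofReal Q.L) * HN Φ ε K T' NL P z m w + HN Φ ε K T' N P z m w)) V j := by
  unfold FLg
  split_ifs with hall
  swap
  · exact bot_le
  obtain ⟨hJ, hnt, P, z, e', h⟩ := hall
  obtain ⟨hPK, e, he, hroot, hlines⟩ := tree_data hΦ hε hT htw hJ h
  have hX := append_mem hV hw hp
  refine le_trans ?_ (le_ways (Φ := Φ) (V := V) (j := j) (P := P) (e := e) (ℓ := z.1) (p := z.2)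
    hΦ hε hroot h.valid hlines)
  refine mul_le_mul_right ?_ _
  have hvs : vsI Φ ε K T' P z = 1 := by
    unfold vsI
    rw [if_pos ⟨hPK, h.valid, h.sep⟩]
  have hpt := perpT_of e h.valid.1 hlines hp
  show _ ≤ (1 + ENNReal.ofReal Q.L) * HN Φ ε K T' NL P z m w + HN Φ ε K T' N P z m w
  unfold HN
  rw [hvs, pI_eq_one e h.valid.1 hlines hp, eW_block e h.valid.1 hlines]
  simp only [one_mul]
  set a := wQ Φ ε P z with ha
  have hσ0 : 0 ≤ iTime Φ ε K Q.te (Fin.append V w : Config (k + m)) (Fin.castAdd m j) :=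
    htw.trans hJ.2.1.le
  have hle : iTime Φ ε K Q.te (Fin.append V w : Config (k + m)) (Fin.castAdd m j) ≤
      thV Φ ε K Q.te V w :=
    le_thV hΦ hε hw hX hσ0 hJ.2.2 fun s hs ht => hnt ⟨s, hs, ht⟩
  by_cases hgood : GoodT Φ ε K Q.te P z w
  · rw [he] at h
    have hD : PD Φ ε K T' _ Q.te V w P z e (Fin.castAdd m j) :=
      ⟨hX, hw, h, hlines, hPK, hp, htw.trans htwe, hJ.2.2, hJ.2.2.trans hteT, hgood⟩
    have h1 := hD.wm_untouched (Q := Q) hΦ hε hL hle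
    have h2 := hNL P z m w hPK h.valid h.sep hw hpt
    refine le_trans ?_ le_self_add
    rw [mul_left_comm]
    refine mul_le_mul_right ?_ a
    rw [tsub_le_iff_left]
    exact h1.trans (add_le_add le_rfl (mul_le_mul_right h2 _))
  · refine le_trans ?_ le_add_self
    refine mul_le_mul_right ?_ a
    exact (tsub_le_self.trans (wm_le_one hL.le _ _)).trans
      (hN P z m w hPK h.valid h.sep hw hpt hgood)

end point3

/-! ### The bounds -/

/-- **The touched half** for histories with unhit protected tubes, v3. -/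
theorem bnd_FTg3 (hΦ : AdmissiblePotential Φ) (hf : Measurable f₀) (hε : 0 < ε) (hT : 0 ≤ T')
    (hL : 0 < Q.L) (hγ : Measurable Q.γ) (htw : 0 ≤ Q.tw) (htwe : Q.tw ≤ Q.te) (hteT : Q.te ≤ T')
    {C δ : ℝ≥0∞} (hQ : QXE Φ f₀ ε K T' Q.tw Q.γ Q.ρ C δ)
    {NL : (P : CTree) → PhasePoint × Par P → (m : ℕ) → Config m → ℝ≥0∞} (hNL : MeasTS NL)
    (hNLE : LnMaj Φ ε K T' Q.te Q.γ Q.ρ NL)
    {N : (P : CTree) → PhasePoint × Par P → (m : ℕ) → Config m → ℝ≥0∞} (hN : MeasTS N)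
    (hNE : ExMajR Φ ε K T' Q.te N) :
    Bnd Φ f₀ ε T' (FTg Φ ε K Q T') (C * XI Φ f₀ ε K Q + C * tnMass Φ f₀ Q.γ Q.ρ ε K Q.tw +
      2 * δ + (1 + ENNReal.ofReal Q.L) * TS Φ f₀ ε T' (HN Φ ε K T' NL) +
      TS Φ f₀ ε T' (HN Φ ε K T' N)) := by
  have m1 := measTS_HX (φ := phi1 Φ ε K Q) hΦ hε K T' Q.tw (measurable_phi1 hΦ hε K Q)
  have m2 := measTS_HX (φ := phi2 Φ ε K Q) hΦ hε K T' Q.tw (measurable_phi2 hΦ hε K Q)
  have m3 : MeasTS fun P z m w => (1 + ENNReal.ofReal Q.L) * HN Φ ε K T' NL P z m w := fun P m =>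
    (measTS_HN hΦ hε K T' hNL P m).const_mul _
  have m4 := measTS_HN hΦ hε K T' hN
  have m12 : MeasTS fun P z m w => HX Φ ε K T' Q.tw (phi1 Φ ε K Q) P z m w +
      HX Φ ε K T' Q.tw (phi2 Φ ε K Q) P z m w := fun P m => (m1 P m).add (m2 P m)
  have m123 : MeasTS fun P z m w => HX Φ ε K T' Q.tw (phi1 Φ ε K Q) P z m w +
      HX Φ ε K T' Q.tw (phi2 Φ ε K Q) P z m w +
      (1 + ENNReal.ofReal Q.L) * HN Φ ε K T' NL P z m w := fun P m => (m12 P m).add (m3 P m)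
  have hne : (1 + ENNReal.ofReal Q.L) ≠ ∞ := ENNReal.add_ne_top.2
    ⟨ENNReal.one_ne_top, ENNReal.ofReal_ne_top⟩
  refine Bnd.of_H (H := fun P z m w => (activity ε)⁻¹ *
      (HX Φ ε K T' Q.tw (phi1 Φ ε K Q) P z m w + HX Φ ε K T' Q.tw (phi2 Φ ε K Q) P z m w +
        (1 + ENNReal.ofReal Q.L) * HN Φ ε K T' NL P z m w + HN Φ ε K T' N P z m w))
    (fun P m => ((m123 P m).add (m4 P m)).const_mul _) ?_ ?_
  · intro k m V w j hV hw hp
    exact FTg_le3 hΦ hε hT hL htw htwe hteT hNLE hNE hV hw hp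
  · rw [act_TS (Φ := Φ) (f₀ := f₀) (T' := T') hε (fun P z m w =>
      HX Φ ε K T' Q.tw (phi1 Φ ε K Q) P z m w + HX Φ ε K T' Q.tw (phi2 Φ ε K Q) P z m w +
        (1 + ENNReal.ofReal Q.L) * HN Φ ε K T' NL P z m w + HN Φ ε K T' N P z m w)]
    rw [TS_add hΦ hf m123, TS_add hΦ hf m12, TS_add hΦ hf m1, TS_const_mul hne]
    refine add_le_add (add_le_add ?_ le_rfl) le_rfl
    have e1 := hQ (phi1 Φ ε K Q) (measurable_phi1 hΦ hε K Q) (phi1_le_one hL.le)
    have e2 := hQ (phi2 Φ ε K Q) (measurable_phi2 hΦ hε K Q) phi2_le_one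
    simp only [lintegral_phi1 hteT] at e1
    simp only [lintegral_phi2 hΦ hε (htwe.trans hteT)] at e2
    rw [← XI_eq hf hγ (measurable_touchW_cfg hΦ hε K Q)] at e1
    refine (add_le_add e1 e2).trans (le_of_eq ?_)
    unfold tnMass
    ring

/-- **The weight comparison** (untouched case), v3. -/
theorem bnd_FLg3 (hΦ : AdmissiblePotential Φ) (hf : Measurable f₀) (hε : 0 < ε) (hT : 0 ≤ T')
    (hL : 0 < Q.L) (htw : 0 ≤ Q.tw) (htwe : Q.tw ≤ Q.te) (hteT : Q.te ≤ T')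
    {NL : (P : CTree) → PhasePoint × Par P → (m : ℕ) → Config m → ℝ≥0∞} (hNL : MeasTS NL)
    (hNLE : LnMaj Φ ε K T' Q.te Q.γ Q.ρ NL)
    {N : (P : CTree) → PhasePoint × Par P → (m : ℕ) → Config m → ℝ≥0∞} (hN : MeasTS N)
    (hNE : ExMajR Φ ε K T' Q.te N) :
    Bnd Φ f₀ ε T' (FLg Φ ε K Q T') ((1 + ENNReal.ofReal Q.L) * TS Φ f₀ ε T' (HN Φ ε K T' NL) +
      TS Φ f₀ ε T' (HN Φ ε K T' N)) := by
  have m3 : MeasTS fun P z m w => (1 + ENNReal.ofReal Q.L) * HN Φ ε K T' NL P z m w := fun P m =>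
    (measTS_HN hΦ hε K T' hNL P m).const_mul _
  have m4 := measTS_HN hΦ hε K T' hN
  have hne : (1 + ENNReal.ofReal Q.L) ≠ ∞ := ENNReal.add_ne_top.2
    ⟨ENNReal.one_ne_top, ENNReal.ofReal_ne_top⟩
  refine Bnd.of_H (H := fun P z m w => (activity ε)⁻¹ *
      ((1 + ENNReal.ofReal Q.L) * HN Φ ε K T' NL P z m w + HN Φ ε K T' N P z m w))
    (fun P m => ((m3 P m).add (m4 P m)).const_mul _) ?_ ?_
  · intro k m V w j hV hw hp
    exact FLg_le3 hΦ hε hT hL htw htwe hteT hNLE hNE hV hw hp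
  · rw [act_TS (Φ := Φ) (f₀ := f₀) (T' := T') hε (fun P z m w =>
      (1 + ENNReal.ofReal Q.L) * HN Φ ε K T' NL P z m w + HN Φ ε K T' N P z m w),
      TS_add hΦ hf m3, TS_const_mul hne]

/-- **helper311's touched functional**, v3. -/
theorem bnd_FT3 (hΦ : AdmissiblePotential Φ) (hf : Measurable f₀) (hε : 0 < ε) (hT : 0 ≤ T')
    (hL : 0 < Q.L) (hγ : Measurable Q.γ) (htw : 0 ≤ Q.tw) (htwe : Q.tw ≤ Q.te) (hteT : Q.te ≤ T')
    {C δ : ℝ≥0∞} (hQ : QXE Φ f₀ ε K T' Q.tw Q.γ Q.ρ C δ)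
    {NL : (P : CTree) → PhasePoint × Par P → (m : ℕ) → Config m → ℝ≥0∞} (hNL : MeasTS NL)
    (hNLE : LnMaj Φ ε K T' Q.te Q.γ Q.ρ NL)
    {N : (P : CTree) → PhasePoint × Par P → (m : ℕ) → Config m → ℝ≥0∞} (hN : MeasTS N)
    (hNE : ExMajR Φ ε K T' Q.te N) {qN qR : ℝ≥0∞}
    (hNG : Bnd Φ f₀ ε T' (FNG Φ ε K Q T') qN) (hR : Bnd Φ f₀ ε T' (FR Φ ε K Q T') qR) :
    Bnd Φ f₀ ε T' (FT Φ ε K Q) (C * XI Φ f₀ ε K Q + C * tnMass Φ f₀ Q.γ Q.ρ ε K Q.tw +
      2 * δ + (1 + ENNReal.ofReal Q.L) * TS Φ f₀ ε T' (HN Φ ε K T' NL) +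
      TS Φ f₀ ε T' (HN Φ ε K T' N) + qN + qR) :=
  (((bnd_FTg3 hΦ hf hε hT hL hγ htw htwe hteT hQ hNL hNLE hN hNE).add hΦ hf hNG).add hΦ hf
    hR).mono fun _ _ V w j _ _ _ => FT_le_split V w j hL.le

/-- **helper311's weight functional**, v3. -/
theorem bnd_FL3 (hΦ : AdmissiblePotential Φ) (hf : Measurable f₀) (hε : 0 < ε) (hT : 0 ≤ T')
    (hL : 0 < Q.L) (htw : 0 ≤ Q.tw) (htwe : Q.tw ≤ Q.te) (hteT : Q.te ≤ T')
    {NL : (P : CTree) → PhasePoint × Par P → (m : ℕ) → Config m → ℝ≥0∞} (hNL : MeasTS NL)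
    (hNLE : LnMaj Φ ε K T' Q.te Q.γ Q.ρ NL)
    {N : (P : CTree) → PhasePoint × Par P → (m : ℕ) → Config m → ℝ≥0∞} (hN : MeasTS N)
    (hNE : ExMajR Φ ε K T' Q.te N) :
    Bnd Φ f₀ ε T' (FL Φ ε K Q T') ((1 + ENNReal.ofReal Q.L) * TS Φ f₀ ε T' (HN Φ ε K T' NL) +
      TS Φ f₀ ε T' (HN Φ ε K T' N)) :=
  (bnd_FLg3 hΦ hf hε hT hL htw htwe hteT hNL hNLE hN hNE).mono fun _ _ V w j _ _ _ => FL_le V w j

end

end Crest.Agent.R122.InEq2T
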