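import Crest.Agent.R122.InEq2TXN_718
import Crest.Agent.R122.InEq2TXInt_335
import Crest.Agent.R122.InEq2TInB_718

/-!
# Row 122, INEQUALITY 2', touched half, v3 (helper718): the bounds `InB` of `FTg` and `FLg`

* `inB_FLg3`, `inB_FTg3` : the weight comparison and the touched half.
* `inHL_FLg`, `inHL_FTg` : the same with the quantifiers of helper311's `I2Parts`.
-/

set_option autoImplicit false
set_option maxHeartbeats 400000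

open MeasureTheory Set Filter Topology
open scoped ENNReal
open Crest.AnalysisR.Kinetic
open Crest.Agent.R122.GC311 Crest.Agent.R122.EDefs602 Crest.Agent.R122.InEq2
open Crest.Agent.R122.Kin796 Crest.Agent.R122.Kin796.CTree Crest.Agent.R122.Tree674
open Crest.Agent.R122.RtG302 Crest.Agent.R122.GIV566 Crest.Agent.R122.Master566
open Crest.Agent.R122.Top602 Crest.Agent.R122.QExit837

namespace Crest.Agent.R122.InEq2T

noncomputable section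

open scoped Classical

variable {Φ : Space3 → ℝ} {f₀ : PhasePoint → ℝ} {f : ℝ → PhasePoint → ℝ} {ε : ℝ} {K : ℕ}
  {T T' : ℝ} {γ : ℝ → ℝ} {ρ : ℝ≥0∞} {h₀ : ℝ}

/-! ### The bounds -/

/-- **Weight comparison** (untouched case): null. -/
theorem inB_FLg3 (hΦ : AdmissiblePotential Φ) (hf : Measurable f₀) (hh : 0 < h₀)
    (hLn : LnN Φ f₀ f T γ ρ h₀) (hEx : ExR Φ f₀ f T γ ρ h₀) : InB Φ f₀ f T γ ρ h₀ FLg := by
  have hW : EvW T fun h _ _ _ => h ≤ h₀ := ⟨h₀, hh, 1, fun h _ _ _ _ hle _ _ _ => hle⟩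
  refine InB.of_null (((hLn.and hEx).and hW).mono fun h L tw te hh hL hwin hq hIH K => ?_)
  obtain ⟨⟨hq1, hq2⟩, hhle⟩ := hq
  obtain ⟨q, hq0, hqb⟩ := hq1 hIH K
  obtain ⟨q', hq0', hqb'⟩ := hq2 hIH K
  have hc : (1 : ℝ≥0∞) + ENNReal.ofReal L ≠ ∞ :=
    ENNReal.add_ne_top.2 ⟨ENNReal.one_ne_top, ENNReal.ofReal_ne_top⟩
  refine ⟨fun ε => (1 + ENNReal.ofReal L) * q ε + q' ε, ?_, ?_⟩
  · have := (tendsto_const_mul hc hq0).add hq0'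
    rwa [add_zero] at this
  · filter_upwards [hqb, hqb', self_mem_nhdsWithin] with ε hb hb' hε
    obtain ⟨NL, hNL, hNLM, hm⟩ := hb
    obtain ⟨N, hN, hNM, hm'⟩ := hb'
    have hT : (0 : ℝ) ≤ tw + h₀ := by linarith [hwin.nonneg]
    have hteT : te ≤ tw + h₀ := by linarith [hwin.short]
    have hL0 : (0 : ℝ) < (epar γ ρ L tw te).L := lt_of_lt_of_le one_pos hL
    exact (bnd_FLg3 (Q := epar γ ρ L tw te) hΦ hf hε hT hL0 hwin.nonneg hwin.le hteT hNL hNLM hN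
      hNM).mono_le (add_le_add (mul_le_mul_right hm _) hm')

/-- **The touched half.** -/
theorem inB_FTg3 {β : ℝ} (hD : KData Φ β T f₀ f) :
    ∃ h₁ : ℝ, 0 < h₁ ∧ ∃ g1 : ℝ, 0 < g1 ∧ ∃ r1 : ℝ≥0∞, r1 < 1 ∧
      ∀ h₀ : ℝ, 0 < h₀ → h₀ ≤ h₁ → ∀ (γ : ℝ → ℝ) (ρ : ℝ≥0∞), LinePar g1 r1 T γ ρ →
        LnN Φ f₀ f T γ ρ h₀ → ExR Φ f₀ f T γ ρ h₀ → InB Φ f₀ f T γ ρ h₀ FTg := by
  have hΦ := hD.adm
  have hf : Measurable f₀ := hD.contDiff.continuous.measurable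
  obtain ⟨h₁, kap, lam, C, b, hK, hkap⟩ := Q1815.exists_kinC_kdata hD
  obtain ⟨g₁, hg₁, ρ₁, hρ₁, C₀, hC₀, hqx⟩ := qxe_win hD hK hkap
  refine ⟨h₁, hK.1, g₁, hg₁, ρ₁, hρ₁, fun h₀ hh₀ hle γ ρ hpar hLn hEx => ?_⟩
  have hγ : Measurable γ := measurable_rate hpar
  refine ⟨C₀, hC₀, fun _ _ => 0, Vanish.zero, ?_⟩
  have hW : EvW T fun h _ _ _ => h ≤ h₀ := ⟨h₀, hh₀, 1, fun h _ _ _ _ hle _ _ _ => hle⟩
  refine ((hLn.and hEx).and hW).mono fun h L tw te hh hL hwin hq hIH => ?_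
  obtain ⟨⟨hq1, hq2⟩, hhle⟩ := hq
  have hT' : 0 < tw + h₀ := by linarith [hwin.nonneg]
  have hteT : te ≤ tw + h₀ := by linarith [hwin.short]
  have hL0 : (0 : ℝ) < (epar γ ρ L tw te).L := lt_of_lt_of_le one_pos hL
  have hc : (1 : ℝ≥0∞) + ENNReal.ofReal L ≠ ∞ :=
    ENNReal.add_ne_top.2 ⟨ENNReal.one_ne_top, ENNReal.ofReal_ne_top⟩
  -- the null functions
  obtain ⟨δ, hδ0, hδ1⟩ := hqx γ ρ hpar h tw te hwin hIH.giv (tw + h₀) hT' (by linarith)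
  choose qL hqL0 hqL1 using hq1 hIH
  choose qE hqE0 hqE1 using hq2 hIH
  refine ⟨fun K ε => C₀ * tnMass Φ f₀ γ ρ ε K tw + 2 * δ K ε +
    (1 + ENNReal.ofReal L) * qL K ε + qE K ε, ?_, ?_⟩
  · exact (((Small.const_mul hIH.tn hC₀).add (hδ0.small.const_mul (by norm_num))).add
      ((null_of_tendsto hqL0).small.const_mul hc)).add (null_of_tendsto hqE0).small
  · refine EvK.ev (evK_of_forall fun K => ?_)
    filter_upwards [hqL1 K, hqE1 K, self_mem_nhdsWithin] with ε hbL hbE hε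
    obtain ⟨NL, hNL, hNLM, hm⟩ := hbL
    obtain ⟨N, hN, hNM, hm'⟩ := hbE
    refine (bnd_FTg3 (Q := epar γ ρ L tw te) hΦ hf hε hT'.le hL0 hγ hwin.nonneg hwin.le hteT
      (hδ1 K ε hε) hNL hNLM hN hNM).mono_le ?_
    calc _ ≤ C₀ * XI Φ f₀ ε K (epar γ ρ L tw te) + C₀ * tnMass Φ f₀ γ ρ ε K tw + 2 * δ K ε +
          (1 + ENNReal.ofReal L) * qL K ε + qE K ε :=
          add_le_add (add_le_add le_rfl (mul_le_mul_right hm _)) hm'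
      _ = _ := by
          rw [zero_mul, add_zero]
          ring

/-! ### Quantifiers of `I2Parts` -/

theorem inHL_FTg {β : ℝ} (hD : KData Φ β T f₀ f)
    (hLn : InHL T fun h₀ γ ρ => LnN Φ f₀ f T γ ρ h₀)
    (hEx : InHL T fun h₀ γ ρ => ExR Φ f₀ f T γ ρ h₀) :
    InHL T fun h₀ γ ρ => InB Φ f₀ f T γ ρ h₀ FTg := by
  have h1 : InHL T fun h₀ γ ρ => LnN Φ f₀ f T γ ρ h₀ → ExR Φ f₀ f T γ ρ h₀ →
      InB Φ f₀ f T γ ρ h₀ FTg := inB_FTg3 hD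
  obtain ⟨a, ha, g1, hg1, r1, hr1, hq⟩ := (h1.and hLn).and hEx
  exact ⟨a, ha, g1, hg1, r1, hr1, fun h₀ h0 hle γ ρ hLP =>
    (hq h₀ h0 hle γ ρ hLP).1.1 (hq h₀ h0 hle γ ρ hLP).1.2 (hq h₀ h0 hle γ ρ hLP).2⟩

theorem inHL_FLg {β : ℝ} (hD : KData Φ β T f₀ f)
    (hLn : InHL T fun h₀ γ ρ => LnN Φ f₀ f T γ ρ h₀)
    (hEx : InHL T fun h₀ γ ρ => ExR Φ f₀ f T γ ρ h₀) :
    InHL T fun h₀ γ ρ => InB Φ f₀ f T γ ρ h₀ FLg := by
  obtain ⟨a, ha, g1, hg1, r1, hr1, hq⟩ := hLn.and hEx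
  exact ⟨a, ha, g1, hg1, r1, hr1, fun h₀ h0 hle γ ρ hLP =>
    inB_FLg3 hD.adm hD.contDiff.continuous.measurable h0 (hq h₀ h0 hle γ ρ hLP).1
      (hq h₀ h0 hle γ ρ hLP).2⟩

end

end Crest.Agent.R122.InEq2T
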