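import Crest.Agent.R122.RetNull_424
import Crest.Agent.R122.TopR_602

/-!
# Row 122 (helper424): the input `RetIn` of the top skeleton from the null facts for forests
-/

set_option autoImplicit false

open Crest.AnalysisR.Kinetic
open Crest.Agent.R122.Master566 Crest.Agent.R122.Top602

noncomputable section

namespace Crest.Agent.R122.Ret424

/-- `RetIn` from the null facts for forests. -/
theorem retIn_of_facts {Φ : Space3 → ℝ} {β T : ℝ} {f₀ : PhasePoint → ℝ}
    {f : ℝ → PhasePoint → ℝ} (hD : KData Φ β T f₀ f) (hR : RetFacts Φ f₀ T) : RetIn Φ f₀ f T :=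
  retIn_of_retNull hD (retNull_of_facts hD hR)

end Crest.Agent.R122.Ret424

end
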