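import Crest.Agent.R122.LNForBind_317
import Crest.Agent.R122.ForGate2_424
import Crest.Agent.R122.BHPull_726
import Crest.Agent.R122.ForOk_424
import Crest.Agent.R122.RetTop_424

/-!
# Row 122, LN1 (helper317): the deterministic theorem for forests and `RetFacts`

* `Hit0`, `Hit1` : bad hits in the glued worlds of `cfg w` and `(cfg w).ins l`.
* `RAF` : the reachability theorem for forests (one of the alternatives, or `RAllF`).
* `fOut_or` : `FOut`, or one of the alternatives of the gateway.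
* `retFacts_of_raf` : `RetFacts` from `RAF`.
-/

set_option autoImplicit false
set_option linter.unusedSectionVars false
set_option linter.unusedVariables false

open MeasureTheory Set Filter Topology
open scoped Classical ENNReal
open Crest.AnalysisR.Kinetic
open Crest.Agent.R122.VL581 Crest.Agent.R122.EDefs602 Crest.Agent.R122.LN2
open Crest.Agent.R122.Kin796 Crest.Agent.R122.Kin796.CTree Crest.Agent.R122.Tree674
open Crest.Agent.R122.TreeLines335 Crest.Agent.R122.LNTree410 Crest.Agent.R122.PWInst442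
open Crest.Agent.R122.PWGlue491 Crest.Agent.R122.LN304 Crest.Agent.R122.BH167
open Crest.Agent.R122.LNPart424 Crest.Agent.R122.Ret424 Crest.Agent.R122.LNFor424
open Crest.Agent.R122.Gate424 Crest.Agent.R122.ForBind317
open Crest.Agent.R122.RtG302 (AllOk)
open Crest.Agent.R122.Forest399 (FIdx FPar flines FValid FVS)
open Crest.Agent.R122.Final973 (PerpC)

noncomputable section

namespace Crest.Agent.R122.ForDet317

variable {Φ : Space3 → ℝ} {f₀ : PhasePoint → ℝ} {ε t T c ℓ ς : ℝ} {s n K L N : ℕ}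
  {Ps : Fin s → CTree} {q : FPar Ps} {w : Config n}

/-- Bad hit in the glued world of `W`. -/
def HitF (Φ : Space3 → ℝ) (t c ε : ℝ) (N : ℕ) (q : FPar Ps) (w : Config n) {ι : Type} [Fintype ι]
    (W : MW ι) (f : ι ↪ FJ n Ps) : Prop :=
  BadHit (fM Φ ε t n Ps) c (fZ Φ ε q w)
    (XG (fM Φ ε t n Ps) (fZ Φ ε q w) (Sp (fe n Ps)) (bD W f) (labs f) (XD W f Φ ε))
    (CG (fM Φ ε t n Ps) (fZ Φ ε q w) (Sp (fe n Ps)) (bD W f) (labs f) (XD W f Φ ε)) (fΛ n Ps) N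

/-- **Reachability for forests.** -/
def RAF (Φ : Space3 → ℝ) (K : ℕ) (Ps : Fin s → CTree) : Prop :=
  ∀ L : ℕ, ∃ N N' : ℕ, N + N + (N + N) ≤ N' ∧ ∀ (ε t ℓ ς : ℝ), 0 < ε → 0 < t → 2 * ℓ ≤ ς →
    ∀ (q : FPar Ps) (n : ℕ) (w : Config n), q ∈ FVS Φ ε Ps t → w ∈ PairExcluded ε n →
      AllOk Φ ε w (fexL Φ ε Ps q) →
      NoBad (fM Φ ε t n Ps) 1 ℓ ς (fZ Φ ε q w) (fΛ n Ps) N' →
      NoTwo (fM Φ ε t n Ps) 1 (fZ Φ ε q w) (fΛ n Ps) N' →
      ¬ HitF Φ t 1 ε N' q w (MW.cfg w) (fg n Ps) →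
      (∀ x : FEx Ps, ¬ HitF Φ t 1 ε N' q w ((MW.cfg w).ins (fexL Φ ε Ps q x)) (fgx n x.1)) →
      ¬ RunS Φ ε t K L (b0 Ps) (flines Φ ε Ps q) w → RAllF Φ t 1 ε K N q w

/-- **`FOut` or one of the alternatives.** -/
theorem fOut_or (hΦ : AdmissiblePotential Φ) (hR : RAF Φ K Ps) (L : ℕ) :
    ∃ N N' : ℕ, ∀ R > 0, ∀ ς > 0, ∃ ε₁ : ℝ, 0 < ε₁ ∧ ∀ ε : ℝ, 0 < ε → ε < ε₁ →
      2 * (R * ε) ≤ ς ∧ ∀ (t : Icc (0 : ℝ) T), 0 < (t : ℝ) →
        ∀ (n : ℕ) (q : FPar Ps) (w : Config n), w ∈ PairExcluded ε n → q ∈ FVS Φ ε Ps t →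
        AllOk Φ ε w (fexL Φ ε Ps q) → FOut Φ t 1 (R * ε) ς ε K N q w ∨
          RunS Φ ε t K L (b0 Ps) (flines Φ ε Ps q) w ∨
          BadGas Φ T 1 R ς ε N' s Finset.univ (b0 Ps) (flines Φ ε Ps q) w ∨
          BadHitGas (BPos Φ T) Φ T 1 1 ε N' N' s Finset.univ (b0 Ps) (flines Φ ε Ps q) w := by
  obtain ⟨N, N', hN, h⟩ := hR L
  refine ⟨N, N', fun R hR0 ς hς => ⟨ς / (2 * R), by positivity, fun ε hε hlt => ?_⟩⟩
  have hℓ : 2 * (R * ε) ≤ ς := by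
    have h1 := (lt_div_iff₀ (by positivity : (0 : ℝ) < 2 * R)).1 hlt
    nlinarith
  refine ⟨hℓ, fun t ht n q w hw hq hok => ?_⟩
  by_cases hrun : RunS Φ ε t K L (b0 Ps) (flines Φ ε Ps q) w
  · exact Or.inr (Or.inl hrun)
  by_cases hbad : BadGas Φ T 1 R ς ε N' s Finset.univ (b0 Ps) (flines Φ ε Ps q) w
  · exact Or.inr (Or.inr (Or.inl hbad))
  by_cases hhit : BadHitGas (BPos Φ T) Φ T 1 1 ε N' N' s Finset.univ (b0 Ps) (flines Φ ε Ps q) w
  · exact Or.inr (Or.inr (Or.inr hhit))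
  left
  have hok' := MWFam255.okF_of_okFam hΦ hε hok
  have htT : (t : ℝ) ≤ T := t.2.2
  have hNB : NoBad (fM Φ ε t n Ps) 1 (R * ε) ς (fZ Φ ε q w) (fΛ n Ps) N' := by
    by_contra hc
    exact hbad (badGas_of_not hΦ hε htT sparts (conn_parts hΦ hε le_rfl hq) (Or.inl hc))
  have hNT : NoTwo (fM Φ ε t n Ps) 1 (fZ Φ ε q w) (fΛ n Ps) N' := by
    by_contra hc
    exact hbad (badGas_of_not (R := R) (ς := ς) hΦ hε htT sparts (conn_parts hΦ hε le_rfl hq)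
      (Or.inr hc))
  have hP := parts (n := n) (w := w) hΦ hε (le_refl (1 : ℝ)) hq hw
  have h0 : ¬ HitF Φ t 1 ε N' q w (MW.cfg w) (fg n Ps) := fun hc =>
    hhit (Chain726.badHitGas_of_badHit hΦ hε htT le_rfl (by linarith : T < T + 1) sparts hP
      (gd0 hΦ hε ht.le hq hok'.z) (fun i => Sp_inl i) hc)
  have h1 : ∀ x : FEx Ps, ¬ HitF Φ t 1 ε N' q w ((MW.cfg w).ins (fexL Φ ε Ps q x))
      (fgx n x.1) := fun x hc =>
    hhit (Chain726.badHitGas_of_badHit hΦ hε htT le_rfl (by linarith : T < T + 1) sparts hP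
      (gd1 hΦ hε ht hq x.1 (hok'.line hΦ hε x)) (fun i => Sp_inl i) hc)
  exact {
    nb := Bind302.noBad_mono hNB hN
    nt := noTwo_mono hNT (le_trans (by omega) hN)
    reach := h ε t (R * ε) ς hε ht hℓ q n w hq hw hok hNB hNT h0 h1 hrun }

/-- The gateway input from `RAF`. -/
theorem forNull_of_raf {β : ℝ} {f : ℝ → PhasePoint → ℝ} (hD : Master566.KData Φ β T f₀ f)
    (hR : RAF Φ K Ps) {E : (ε t : ℝ) → (m : ℕ) → FPar Ps → Config m → Prop}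
    (hpos : ∀ (ε t : ℝ) (n : ℕ) (q : FPar Ps) (w : Config n), 0 < ε → q ∈ FVS Φ ε Ps t →
      E ε t n q w → 0 < t)
    (hE : ∀ (ε t ℓ ς : ℝ) (N n : ℕ) (q : FPar Ps) (w : Config n), 0 < ε → 2 * ℓ ≤ ς →
      q ∈ FVS Φ ε Ps t → AllOk Φ ε w (fexL Φ ε Ps q) → FOut Φ t 1 ℓ ς ε K N q w →
      ¬ E ε t n q w) : ForNull Φ f₀ T Ps E := by
  refine forNull_of_det2 hD (K := K) fun L => ?_
  obtain ⟨N, N', h⟩ := fOut_or (T := T) hD.adm hR L
  refine ⟨N', 1, 1, N', N', fun R hR0 ς hς => ?_⟩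
  obtain ⟨ε₁, h0, h⟩ := h R hR0 ς hς
  refine ⟨ε₁, h0, fun ε hε hlt t n q w hw hq _ hok hEv => ?_⟩
  obtain ⟨hℓ, h⟩ := h ε hε hlt
  rcases h t (hpos ε t n q w hε hq hEv) n q w hw hq hok with h1 | h1
  · exact absurd hEv (hE ε t (R * ε) ς N n q w hε hℓ hq hok h1)
  · exact h1

/-- **`RetFacts` from the reachability theorem for forests.** -/
theorem retFacts_of_raf {β : ℝ} {f : ℝ → PhasePoint → ℝ} (hD : Master566.KData Φ β T f₀ f)
    (hR : ∀ (s : ℕ) (Ps : Fin s → CTree) (K : ℕ), RAF Φ K Ps) : RetFacts Φ f₀ T where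
  ok := forOk hD.adm T
  link s Ps x y hxy K := forNull_of_raf hD (hR s Ps K)
    (fun ε t n q w hε hq _ => pos_of_exit hε hq x)
    (fun ε t ℓ ς N n q w hε hℓ hq hok h => h.not_linkEv hD.adm hε hq hok le_rfl hℓ hxy)
  ret s Ps x i K := forNull_of_raf hD (hR s Ps K)
    (fun ε t n q w hε hq _ => pos_of_exit hε hq x)
    (fun ε t ℓ ς N n q w hε hℓ hq hok h => h.not_retEv hD.adm hε hq hok le_rfl hℓ x i)

end Crest.Agent.R122.ForDet317

end
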