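import Crest.Agent.R122.LNGraft_410
import Crest.Agent.R122.LNExit_968

/-!
# Row 122, LN1, events (helper255): connecting families of classes, for `LNExit_968`

* `RC` : real contacts of a class; `famC` : they are a connecting family (helper968's `Fam`).
* `RG` : real contacts of two classes and one contact across (helper410's `GraftH`); `famG`.
* `old_rc`, `old_rg` : real contacts of an exit with the other members of its class are not later
  than the exit.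
* `tree_line` : tree and a line on the contact with its root as a `GraftH`.
-/

set_option autoImplicit false
set_option linter.unusedSectionVars false

open MeasureTheory Set Filter Topology
open Crest.AnalysisR.Kinetic
open Crest.Agent.R122.Flow671 hiding rel
open Crest.Agent.R122.Loc45 Crest.Agent.R122.Ins45
open Crest.Agent.R122.Kin796 Crest.Agent.R122.Kin796.CTree Crest.Agent.R122.Tree674
open Crest.Agent.R122.PathFlow968 Crest.Agent.R122.TreeLines335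
open Crest.Agent.R122.VL581 Crest.Agent.R122.VL581.VSys Crest.Agent.R122.VLInst442
open Crest.Agent.R122.LN304 Crest.Agent.R122.LNg410
open Crest.Agent.R122.LNTree410 Crest.Agent.R122.OCout796 Crest.Agent.R122.Scat818
open Crest.Agent.R122.LNGraft410
open scoped Classical

noncomputable section

namespace Crest.Agent.R122.LNFam255

variable {J κ : Type} [Fintype J] {M : VSys J κ} {Z : J → PhasePoint} {S S₁ S₂ π : Finset J}
  {bD : J → ℝ} {C : ℝ}

/-- Real contact at time `r` of two members of the isolated class `S`. -/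
def RC (M : VSys J κ) (Z : J → PhasePoint) (S : Finset J) (r : ℝ) (i j : J) : Prop :=
  i ∈ S ∧ j ∈ S ∧ M.bb i ≤ r ∧ M.bb j ≤ r ∧ dist (M.st S r Z i).1 (M.st S r Z j).1 ≤ M.ε

theorem RC.symm {r : ℝ} {i j : J} (h : RC M Z S r i j) : RC M Z S r j i :=
  ⟨h.2.1, h.1, h.2.2.2.1, h.2.2.1, by rw [dist_comm]; exact h.2.2.2.2⟩

theorem RC.rct {r : ℝ} {i j : J} (h : RC M Z S r i j) (hr : r ∈ Icc 0 M.T) : RCt M Z S i j :=
  ⟨r, hr, h.2.2⟩

/-- The real contacts of an exit are not later than its exit time. -/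
theorem RC.le (hS : Cls M Z S bD) {r : ℝ} (hr : r ≤ M.T) {i j : J} (hij : i ≠ j)
    (h : RC M Z S r i j) : r ≤ bD i := by
  by_contra hlt
  exact absurd (hS.exit i h.1 r (not_le.1 hlt) hr j h.2.1 hij.symm h.2.2.2.1)
    (not_lt.2 h.2.2.2.2)

theorem RC.vct [Nonempty κ] (hS : Cls M Z S bD) (hε : 0 < M.ε) (hC : 1 ≤ C) (hSπ : S ⊆ π)
    {r : ℝ} (hr : r ≤ M.T) {i j : J} (h : RC M Z S r i j) : M.VCt C π i j r Z :=
  vct_st hC hε hSπ hSπ h.1 h.2.1 (ok_anti hr hS.ok) (ok_anti hr hS.ok) (hS.obs i h.1)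
    (hS.obs j h.2.1) h.2.2.2.2

/-- The real contacts of a class, during `[0, T]`. -/
def RC' (M : VSys J κ) (Z : J → PhasePoint) (S : Finset J) (r : ℝ) (i j : J) : Prop :=
  r ∈ Icc 0 M.T ∧ RC M Z S r i j

/-- **The real contacts of a class are a connecting family.** -/
theorem famC [Nonempty κ] (hS : Cls M Z S bD) (hε : 0 < M.ε) (hC : 1 ≤ C) :
    LNEv968.Fam M C Z S (RC' M Z S) where
  conn := hS.conn.mono fun i hi j hj _ ⟨r, hr, h⟩ => Or.inl ⟨r, hr, hr, hi, hj, h⟩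
  symm _ _ _ h := ⟨h.1, h.2.symm⟩
  vct _ hr _ _ _ _ _ h := h.2.vct hS hε hC subset_rfl hr.2

theorem old_rc {Sp : J → Finset J} (hS : Cls M Z S bD) {a b : J} (hab : a ≠ b) (hSp : Sp a = S) :
    LNEv968.Old Sp bD (RC' M Z S) a b :=
  fun _ h => ⟨hSp ▸ h.2.2.1, h.2.le hS h.1.2 hab⟩

/-- Real contacts of two classes and the contact of `a`, `c` at time `s`. -/
def RG (M : VSys J κ) (Z : J → PhasePoint) (S₁ S₂ : Finset J) (a c : J) (s r : ℝ) (i j : J) :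
    Prop :=
  RC' M Z S₁ r i j ∨ RC' M Z S₂ r i j ∨ (r = s ∧ ((i = a ∧ j = c) ∨ (i = c ∧ j = a)))

/-- Two classes in contact. -/
structure Touch (M : VSys J κ) (Z : J → PhasePoint) (S₁ S₂ : Finset J) (bD : J → ℝ) (a c : J)
    (s : ℝ) : Prop where
  cls₁ : Cls M Z S₁ bD
  cls₂ : Cls M Z S₂ bD
  ha : a ∈ S₁
  hc : c ∈ S₂
  hs : s ∈ Icc 0 M.T
  hd : dist (M.st S₁ s Z a).1 (M.st S₂ s Z c).1 ≤ M.ε

theorem _root_.Crest.Agent.R122.LNGraft410.GraftH.touch {a c : J} {s : ℝ} {y : Space3} {q : CD}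
    (h : GraftH M Z S₁ S₂ bD a c s y q) (hε : 0 < M.ε) : Touch M Z S₁ S₂ bD a c s :=
  ⟨h.cls₁, h.cls₂, h.ha, h.hc, h.mem_s, (h.dist_s hε).le⟩

namespace Touch

variable {a c : J} {s : ℝ}

theorem vct [Nonempty κ] (h : Touch M Z S₁ S₂ bD a c s) (hε : 0 < M.ε) (hC : 1 ≤ C) :
    M.VCt C (S₁ ∪ S₂) a c s Z :=
  vct_st hC hε Finset.subset_union_left Finset.subset_union_right h.ha h.hc
    (ok_anti h.hs.2 h.cls₁.ok) (ok_anti h.hs.2 h.cls₂.ok) (h.cls₁.obs a h.ha)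
    (h.cls₂.obs c h.hc) h.hd

theorem vct' [Nonempty κ] (h : Touch M Z S₁ S₂ bD a c s) (hε : 0 < M.ε) (hC : 1 ≤ C) :
    M.VCt C (S₁ ∪ S₂) c a s Z :=
  vct_st hC hε Finset.subset_union_right Finset.subset_union_left h.hc h.ha
    (ok_anti h.hs.2 h.cls₂.ok) (ok_anti h.hs.2 h.cls₁.ok) (h.cls₂.obs c h.hc)
    (h.cls₁.obs a h.ha) (by rw [dist_comm]; exact h.hd)

/-- **The real contacts of the two classes and the contact across are a connecting family.** -/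
theorem fam [Nonempty κ] (h : Touch M Z S₁ S₂ bD a c s) (hε : 0 < M.ε) (hC : 1 ≤ C) :
    LNEv968.Fam M C Z (S₁ ∪ S₂) (RG M Z S₁ S₂ a c s) where
  conn := by
    refine (h.cls₁.conn.mono fun i hi j hj _ hr => ?_).union_of_edge
      (h.cls₂.conn.mono fun i hi j hj _ hr => ?_) h.ha h.hc
      (Or.inl ⟨s, h.hs, Or.inr (Or.inr ⟨rfl, Or.inl ⟨rfl, rfl⟩⟩)⟩)
    · obtain ⟨r, hr, h1⟩ := hr
      exact Or.inl ⟨r, hr, Or.inl ⟨hr, hi, hj, h1⟩⟩
    · obtain ⟨r, hr, h1⟩ := hr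
      exact Or.inl ⟨r, hr, Or.inr (Or.inl ⟨hr, hi, hj, h1⟩)⟩
  symm r j k hr := by
    rcases hr with h1 | h1 | ⟨h1, h2⟩
    · exact Or.inl ⟨h1.1, h1.2.symm⟩
    · exact Or.inr (Or.inl ⟨h1.1, h1.2.symm⟩)
    · exact Or.inr (Or.inr ⟨h1, h2.elim (fun h3 => Or.inr ⟨h3.2, h3.1⟩)
        fun h3 => Or.inl ⟨h3.2, h3.1⟩⟩)
  vct r hr j hj k hk hjk h1 := by
    rcases h1 with h1 | h1 | ⟨rfl, ⟨rfl, rfl⟩ | ⟨rfl, rfl⟩⟩
    · exact h1.2.vct h.cls₁ hε hC Finset.subset_union_left hr.2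
    · exact h1.2.vct h.cls₂ hε hC Finset.subset_union_right hr.2
    · exact h.vct hε hC
    · exact h.vct' hε hC

/-- The union is connected. -/
theorem conn [Nonempty κ] (h : Touch M Z S₁ S₂ bD a c s) (hε : 0 < M.ε) (hC : 1 ≤ C) :
    M.Conn C (S₁ ∪ S₂) Z :=
  conn_of_cut (h.fam hε hC).conn fun i hi j hj hij ⟨r, hr, hR⟩ =>
    ⟨r, hr, (h.fam hε hC).vct r hr i hi j hj hij hR⟩

/-- Two members of the first class. -/
theorem old₁ {Sp : J → Finset J} (h : Touch M Z S₁ S₂ bD a c s) (hdis : Disjoint S₁ S₂)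
    {i j : J} (hi : i ∈ S₁) (hj : j ∈ S₁) (hij : i ≠ j) (hSp : Sp i = S₁) :
    LNEv968.Old Sp bD (RG M Z S₁ S₂ a c s) i j := by
  have hn : ∀ {x}, x ∈ S₁ → x ∉ S₂ := fun hx hx' => Finset.disjoint_left.1 hdis hx hx'
  intro r h1
  rcases h1 with h1 | h1 | ⟨rfl, ⟨rfl, rfl⟩ | ⟨rfl, rfl⟩⟩
  · exact ⟨hSp ▸ h1.2.2.1, h1.2.le h.cls₁ h1.1.2 hij⟩
  · exact absurd h1.2.1 (hn hi)
  · exact absurd h.hc (hn hj)
  · exact absurd h.hc (hn hi)

/-- Two members of the second class. -/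
theorem old₂ {Sp : J → Finset J} (h : Touch M Z S₁ S₂ bD a c s) (hdis : Disjoint S₁ S₂)
    {i j : J} (hi : i ∈ S₂) (hj : j ∈ S₂) (hij : i ≠ j) (hSp : Sp i = S₂) :
    LNEv968.Old Sp bD (RG M Z S₁ S₂ a c s) i j := by
  have hn : ∀ {x}, x ∈ S₂ → x ∉ S₁ := fun hx hx' => Finset.disjoint_left.1 hdis hx' hx
  intro r h1
  rcases h1 with h1 | h1 | ⟨rfl, ⟨rfl, rfl⟩ | ⟨rfl, rfl⟩⟩
  · exact absurd h1.2.1 (hn hi)
  · exact ⟨hSp ▸ h1.2.2.1, h1.2.le h.cls₂ h1.1.2 hij⟩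
  · exact absurd h.ha (hn hi)
  · exact absurd h.ha (hn hj)

/-- Members of different classes, not the pair in contact. -/
theorem old₁₂ {Sp : J → Finset J} (h : Touch M Z S₁ S₂ bD a c s) (hdis : Disjoint S₁ S₂)
    {i j : J} (hi : i ∈ S₁) (hj : j ∈ S₂) (hne : ¬ (i = a ∧ j = c)) :
    LNEv968.Old Sp bD (RG M Z S₁ S₂ a c s) i j ∧ LNEv968.Old Sp bD (RG M Z S₁ S₂ a c s) j i := by
  have hn : ∀ {x}, x ∈ S₁ → x ∉ S₂ := fun hx hx' => Finset.disjoint_left.1 hdis hx hx'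
  have key : ∀ r, ¬ RG M Z S₁ S₂ a c s r i j := by
    intro r h1
    rcases h1 with h1 | h1 | ⟨-, h1 | ⟨rfl, -⟩⟩
    · exact hn h1.2.2.1 hj
    · exact hn hi h1.2.1
    · exact hne h1
    · exact hn hi h.hc
  have key' : ∀ r, ¬ RG M Z S₁ S₂ a c s r j i := by
    intro r h1
    rcases h1 with h1 | h1 | ⟨-, ⟨rfl, -⟩ | h1⟩
    · exact hn h1.2.1 hj
    · exact hn hi h1.2.2.1
    · exact hn h.ha hj
    · exact hne ⟨h1.2, h1.1⟩
  exact ⟨fun r h1 => absurd h1 (key r), fun r h1 => absurd h1 (key' r)⟩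

end Touch

/-! ### Tree and a line -/

section tree

variable {P : CTree} {ℓ : PhasePoint} {p : Par P} {e : Idx P ↪ J} {j : J} {s : ℝ}

/-- A tree and one more label, born before `s`, whose free line is in contact with the root line at
time `s`. -/
theorem touch_tree (hΦ : AdmissiblePotential M.Φ) (hε : 0 < M.ε) (h : TreeIn M Z M.T P ℓ p e)
    (hb : ∀ i, bD (e i) = rel P p i) (ho : M.o ≠ some j) (hbj : bD j = M.bb j)
    (hs : s ∈ Icc 0 M.T) (hT : 0 < M.T) (hr : rel P p (root P) ≤ s)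
    (hd : dist (onLine ℓ s).1 (M.st {j} s Z j).1 ≤ M.ε) :
    Touch M Z (part e) {j} bD (e (root P)) j s where
  cls₁ := Cls.of_tree hΦ hε hT h hb
  cls₂ := Cls.single ho hbj
  ha := mem_part_self _
  hc := Finset.mem_singleton_self j
  hs := hs
  hd := by
    rw [h.line_tree hΦ hε (root P) hr hs.2]
    rw [fin_root P ℓ p]
    exact hd

end tree

end Crest.Agent.R122.LNFam255

end
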