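import Crest.Agent.R122.LNReachA_818

/-!
# Contacts of the marked worlds on labels (row 122, EVENTS, helper818)

* `CL Φ ε W f` : contacts of the marked world `W : MW ι`, on the labels, through `f : ι → J`.
* `CM Φ ε Z A f g b` : contacts of `Z` (`b = false`) and of `Z + A` (`b = true`).
* `cm_symm`, `cm_closed`, `cm_pos`, `cm_S` : hypotheses of helper331's `exists_ec`.
* `fut_of_fj` : influence on the labels is influence.
* `bc_cl`, `pre_cl` : backward clusters on the labels.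
* `ncard_pre_le_of_fj`, `ncard_bc_le_of_fj` : sizes of the pasts of everything which is influenced
  before the touch time, in both worlds.
-/

set_option autoImplicit false
set_option linter.unusedSectionVars false

open MeasureTheory Set Filter Topology
open Crest.AnalysisR.Kinetic
open Crest.Agent.R122.Ins45 Crest.Agent.R122.EDefs602 Crest.Agent.R122.CausalGen291
open Crest.Agent.R122.MWFam255 Crest.Agent.R122.Inf879 Crest.Agent.R122.Causal291
open Crest.Agent.R122.LinkD331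
open scoped Classical

noncomputable section

namespace Crest.Agent.R122.LNEv818

variable {ι κ J : Type} [Fintype ι] [Fintype κ]
variable {Φ : Space3 → ℝ} {ε T : ℝ} {K : ℕ} {Z : MW ι} {A : MW κ} {u v : ℝ}
variable {f : ι → J} {g : κ → J}

/-- Contacts of a marked world, on labels. -/
def CL (Φ : Space3 → ℝ) (ε : ℝ) (W : MW ι) (f : ι → J) (s : ℝ) (j k : J) : Prop :=
  ∃ x y, x ≠ y ∧ f x = j ∧ f y = k ∧ W.C Φ ε s x y

/-- Contacts of `Z` (`false`) and of `Z + A` (`true`), on labels. -/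
def CM (Φ : Space3 → ℝ) (ε : ℝ) (Z : MW ι) (A : MW κ) (f : ι → J) (g : κ → J) :
    Bool → ℝ → J → J → Prop
  | false => CL Φ ε Z f
  | true => CL Φ ε (Z.add A) (Sum.elim f g)

theorem cl_of_C {W : MW ι} {s : ℝ} {x y : ι} (hxy : x ≠ y) (h : W.C Φ ε s x y) :
    CL Φ ε W f s (f x) (f y) := ⟨x, y, hxy, rfl, rfl, h⟩

theorem cl_symm {W : MW ι} {s : ℝ} {j k : J} (h : CL Φ ε W f s j k) : CL Φ ε W f s k j := by
  obtain ⟨x, y, h1, h2, h3, h4⟩ := h
  exact ⟨y, x, h1.symm, h3, h2, MW.C_symm W h4⟩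

theorem cm_symm {b : Bool} {s : ℝ} {j k : J} (h : CM Φ ε Z A f g b s j k) :
    CM Φ ε Z A f g b s k j := by
  cases b
  · exact cl_symm (ι := ι) h
  · exact cl_symm (ι := ι ⊕ κ) h

theorem cl_closed {W : MW ι} (hf : Function.Injective f) (hW : W.Ok Φ ε) (T : ℝ) (j k : J) :
    IsClosed {s | s ∈ Icc 0 T ∧ CL Φ ε W f s j k} := by
  by_cases h : ∃ x y, x ≠ y ∧ f x = j ∧ f y = k
  · obtain ⟨x, y, h1, h2, h3⟩ := h
    have h4 : {s | s ∈ Icc 0 T ∧ CL Φ ε W f s j k} = {s | s ∈ Icc 0 T ∧ W.C Φ ε s x y} := by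
      ext s
      refine and_congr_right fun _ => ⟨?_, fun h => ⟨x, y, h1, h2, h3, h⟩⟩
      rintro ⟨x', y', _, h5, h6, h7⟩
      rw [← h2] at h5
      rw [← h3] at h6
      rwa [← hf h5, ← hf h6]
    rw [h4]
    exact hW.closed T x y
  · have h4 : {s | s ∈ Icc 0 T ∧ CL Φ ε W f s j k} = ∅ := by
      ext s
      simp only [mem_setOf_eq, mem_empty_iff_false, iff_false]
      rintro ⟨_, x, y, h1, h2, h3, _⟩
      exact h ⟨x, y, h1, h2, h3⟩
    rw [h4]
    exact isClosed_empty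

theorem cm_closed (hF : Function.Injective (Sum.elim f g)) (hZ : Z.Ok Φ ε)
    (hZA : (Z.add A).Ok Φ ε) (T : ℝ) (b : Bool) (j k : J) :
    IsClosed {s | s ∈ Icc 0 T ∧ CM Φ ε Z A f g b s j k} := by
  cases b
  · exact cl_closed (ι := ι) (fun x y h => Sum.inl_injective (hF (a₁ := Sum.inl x)
      (a₂ := Sum.inl y) h)) hZ T j k
  · exact cl_closed (ι := ι ⊕ κ) hF hZA T j k

theorem cl_pos {W : MW ι} (hb : ∀ x, 0 ≤ W.b x) {s : ℝ} {j k : J} (h : CL Φ ε W f s j k) :
    0 < s := by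
  obtain ⟨x, y, h1, h2, h3, h4, h5, h6, h7⟩ := h
  rcases h6 with h6 | h6 | h6
  · exact absurd h6 h1
  · exact (hb x).trans_lt h6
  · exact (hb y).trans_lt h6

theorem cm_pos (hb : ∀ x, 0 ≤ (Z.add A).b x) {b : Bool} {s : ℝ} {j k : J}
    (h : CM Φ ε Z A f g b s j k) : 0 < s := by
  cases b
  · exact cl_pos (ι := ι) (fun x => hb (Sum.inl x)) h
  · exact cl_pos (ι := ι ⊕ κ) hb h

theorem cm_ne (hF : Function.Injective (Sum.elim f g)) {b : Bool} {s : ℝ} {j k : J}
    (h : CM Φ ε Z A f g b s j k) : j ≠ k := by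
  cases b
  · obtain ⟨x, y, h1, rfl, rfl, h4⟩ := h
    exact fun h => h1 (Sum.inl_injective (hF (a₁ := Sum.inl x) (a₂ := Sum.inl y) h))
  · obtain ⟨x, y, h1, rfl, rfl, h4⟩ := h
    exact fun h => h1 (hF h)

/-- The labels of a contact are labels of the marked worlds. -/
theorem cm_mem {b : Bool} {s : ℝ} {j k : J} (h : CM Φ ε Z A f g b s j k) :
    j ∈ range (Sum.elim f g) ∧ k ∈ range (Sum.elim f g) := by
  cases b
  · obtain ⟨x, y, h1, rfl, rfl, h4⟩ := h
    exact ⟨⟨Sum.inl x, rfl⟩, ⟨Sum.inl y, rfl⟩⟩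
  · obtain ⟨x, y, h1, rfl, rfl, h4⟩ := h
    exact ⟨⟨x, rfl⟩, ⟨y, rfl⟩⟩

theorem range_disj (hF : Function.Injective (Sum.elim f g)) {x : ι} {y : κ} : f x ≠ g y :=
  fun h => Sum.inl_ne_inr (hF (a₁ := Sum.inl x) (a₂ := Sum.inr y) h)

/-- **Influence on the labels is influence.** -/
theorem fut_of_fj (hF : Function.Injective (Sum.elim f g)) (hb : ∀ x, 0 ≤ (Z.add A).b x) {s : ℝ}
    {j : J} (h : FJ (CM Φ ε Z A f g) (range g) s j) :
    (∃ c, j = g c) ∨ ∃ k, j = f k ∧ Z.Fut Φ ε A s k := by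
  have key : ∀ {s : ℝ} {j : J}, FJ (CM Φ ε Z A f g) (range g) s j →
      (∃ c, j = g c) ∨ ∃ k, j = f k ∧ Z.Fut Φ ε A s k := by
    intro s j h
    induction h with
    | base h =>
      obtain ⟨c, hc⟩ := h
      exact Or.inl ⟨c, hc.symm⟩
    | @step s s' l k b h hc hs ih =>
      have h0 : 0 < s' := cm_pos hb hc
      cases b with
      | false =>
        obtain ⟨x, y, h1, h2, h3, h4⟩ := hc
        rcases ih with ⟨c, hc⟩ | ⟨k', hk', hfut⟩
        · exact absurd (h2.trans hc) (range_disj hF)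
        · have h5 : x = k' := Sum.inl_injective (hF (a₁ := Sum.inl x) (a₂ := Sum.inl k')
            (h2.trans hk'))
          subst h5
          exact Or.inr ⟨y, h3.symm, .chain₁ hfut h4 hs⟩
      | true =>
        obtain ⟨x, y, h1, h2, h3, h4⟩ := hc
        rcases y with y | c
        · refine Or.inr ⟨y, h3.symm, ?_⟩
          rcases x with x | c
          · rcases ih with ⟨c, hc⟩ | ⟨k', hk', hfut⟩
            · exact absurd (h2.trans hc) (range_disj hF)
            · have h5 : x = k' := Sum.inl_injective (hF (a₁ := Sum.inl x) (a₂ := Sum.inl k')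
                (h2.trans hk'))
              subst h5
              exact .chain₂ hfut h4 hs
          · refine .new₂ (Sum.inr c) ?_ h4 h0.le hs
            rintro ⟨k, hk⟩
            cases hk
        · exact Or.inl ⟨c, h3.symm⟩
  exact key h

/-- **Influence on the labels**, with the relation `CM`. -/
theorem fj_of_ci_cm (hΦ : AdmissiblePotential Φ) (hε : 0 < ε) {s : ℝ} {x : ι ⊕ κ}
    (h : CI Φ ε K Z A s x) : FJ (CM Φ ε Z A f g) (range g) s (Sum.elim f g x) :=
  fj_of_ci (C := CM Φ ε Z A f g) (S := range g) hΦ hε (fun _ i j hij hc => ⟨i, j, hij, rfl, rfl, hc⟩)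
    (fun _ x y hxy hc => ⟨x, y, hxy, rfl, rfl, hc⟩) (fun x => ⟨x, rfl⟩) h

/-- Influenced labels which are not inserted are influenced. -/
theorem fut_of_fj_inl (hF : Function.Injective (Sum.elim f g)) (hb : ∀ x, 0 ≤ (Z.add A).b x) {s : ℝ}
    {k : ι} (h : FJ (CM Φ ε Z A f g) (range g) s (f k)) : Z.Fut Φ ε A s k := by
  rcases fut_of_fj hF hb h with ⟨c, hc⟩ | ⟨k', hk', hfut⟩
  · exact absurd hc (range_disj hF)
  · have h5 : k = k' := Sum.inl_injective (hF (a₁ := Sum.inl k) (a₂ := Sum.inl k') hk')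
    rwa [h5]

/-! ### Pasts on the labels -/

section past

variable {W : MW ι}

theorem past_cl {t s : ℝ} {x y : ι} (h : Past (W.C Φ ε) t x s y) :
    Past (CL Φ ε W f) t (f x) s (f y) := by
  induction h with
  | root h => exact .root h
  | @step s s' j k h hc hs ih =>
    by_cases hjk : j = k
    · subst hjk
      exact ih.mono hs
    · exact .step ih (cl_of_C hjk hc) hs

theorem past_of_cl (hf : Function.Injective f) {t s : ℝ} {x : ι} {j : J}
    (h : Past (CL Φ ε W f) t (f x) s j) : ∃ y, j = f y ∧ Past (W.C Φ ε) t x s y := by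
  induction h with
  | root h => exact ⟨x, rfl, .root h⟩
  | @step s s' j k h hc hs ih =>
    obtain ⟨y, rfl, ih⟩ := ih
    obtain ⟨y', k', h1, h2, rfl, h4⟩ := hc
    rw [hf h2] at h4
    exact ⟨k', rfl, .step ih h4 hs⟩

theorem bc_cl (hf : Function.Injective f) (t : ℝ) (x : ι) :
    BC (CL Φ ε W f) t (f x) = f '' BC (W.C Φ ε) t x := by
  apply Subset.antisymm
  · intro j hj
    obtain ⟨y, rfl, hy⟩ := past_of_cl hf hj
    exact ⟨y, hy, rfl⟩
  · rintro _ ⟨y, hy, rfl⟩
    exact past_cl hy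

theorem pre_cl (hf : Function.Injective f) (t : ℝ) (x : ι) :
    Inf879.pre (CL Φ ε W f) (f x) t 0 = f '' Inf879.pre (W.C Φ ε) x t 0 := by
  apply Subset.antisymm
  · rintro j ⟨s', hs', hj⟩
    obtain ⟨y, rfl, hy⟩ := past_of_cl hf hj
    exact ⟨y, ⟨s', hs', hy⟩, rfl⟩
  · rintro _ ⟨y, ⟨s', hs', hy⟩, rfl⟩
    exact ⟨s', hs', past_cl hy⟩

theorem ncard_le_sum {S : Set ι} {m : ι → ℕ} (hm : ∀ k ∈ S, 1 ≤ m k) :
    S.ncard ≤ ∑ k, if k ∈ S then m k else 0 := by
  have h1 : S.ncard = ∑ k, if k ∈ S then 1 else 0 := by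
    rw [Finset.sum_boole, Set.ncard_eq_toFinset_card']
    simp only [Nat.cast_id]
    congr 1
    ext k
    simp
  rw [h1]
  refine Finset.sum_le_sum fun k _ => ?_
  by_cases hk : k ∈ S
  · rw [if_pos hk, if_pos hk]
    exact hm k hk
  · rw [if_neg hk, if_neg hk]

theorem ncard_bc_le {C : ℝ → ι → ι → Prop} {m : ι → ℕ} (hm : ∀ k, 1 ≤ m k) (t : ℝ) (x : ι) :
    (BC C t x).ncard ≤ msize C m t x := ncard_le_sum fun k _ => hm k

theorem ncard_pre_le {C : ℝ → ι → ι → Prop} {m : ι → ℕ} (hm : ∀ k, 1 ≤ m k) (t : ℝ) (x : ι) :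
    (Inf879.pre C x t 0).ncard ≤ msizePre C m t x := ncard_le_sum fun k _ => hm k

end past

/-! ### Sizes -/

section sizes

variable (hF : Function.Injective (Sum.elim f g)) (hb : ∀ x, 0 ≤ (Z.add A).b x)
  (hu : u ≤ Z.theta Φ ε K T A) (huT : u ≤ T)
include hF hb hu huT

/-- Influenced particles are not infected before the touch time. -/
theorem not_inf_of_fj {x : ι ⊕ κ} (hv0 : 0 ≤ v) (hv : v < u)
    (h : FJ (CM Φ ε Z A f g) (range g) v (Sum.elim f g x)) :
    ¬ (Z.add A).Inf Φ ε K v x ∧ ∀ k, x = Sum.inl k → ¬ Z.Inf Φ ε K v k := by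
  rcases x with k | c
  · have h1 := not_inf_of_fut hu huT (fut_of_fj_inl hF hb h) hv0 hv
    refine ⟨h1.2, fun k' hk' => ?_⟩
    rw [← Sum.inl_injective hk']
    exact h1.1
  · refine ⟨not_inf_of_new hu huT c hv0 hv, fun k hk => ?_⟩
    cases hk

/-- Marked sizes of the closed pasts before the touch time. -/
theorem msize_le_of_fj {x : ι ⊕ κ} (hv0 : 0 ≤ v) (hv : v < u)
    (h : FJ (CM Φ ε Z A f g) (range g) v (Sum.elim f g x)) :
    msize ((Z.add A).C Φ ε) (Z.add A).m v x ≤ K ∧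
      ∀ k, x = Sum.inl k → msize (Z.C Φ ε) Z.m v k ≤ K := by
  have h1 := not_inf_of_fj hF hb hu huT hv0 hv h
  exact ⟨not_lt.1 h1.1, fun k hk => not_lt.1 (h1.2 k hk)⟩

/-- Marked sizes of the strict pasts up to the touch time (cleanly influenced particles). -/
theorem msizePre_le_of_ci (hu0 : 0 < u) {x : ι ⊕ κ} (h : CI Φ ε K Z A u x) :
    msizePre ((Z.add A).C Φ ε) (Z.add A).m u x ≤ K ∧
      ∀ k, x = Sum.inl k → msizePre (Z.C Φ ε) Z.m u k ≤ K := by
  rcases x with k | c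
  · have h1 := msizePre_le_of_cf hu huT hu0 h.inl
    refine ⟨h1.2, fun k' hk' => ?_⟩
    rw [← Sum.inl_injective hk']
    exact h1.1
  · refine ⟨msizePre_le_of_new hu huT hu0 c, fun k hk => ?_⟩
    cases hk

end sizes

end Crest.Agent.R122.LNEv818

end
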