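import Crest.Agent.R122.LNForest_424
import Crest.Agent.R122.LNFam_255
import Crest.Agent.R122.LNPartS3_291
import Crest.Agent.R122.PWPast_365

/-!
# Row 122, LN1 (helper317): forests, exit data of the glued worlds

Master system `fM` of helper424 (gas and a forest, `q ∈ FVS`), worlds `cfg w` and
`(cfg w).ins l`, `l` an exit line.
* `fam` : the contacts of a tree are a connecting family of its part (helper968's `Fam`).
* `partS0`, `partS1`, `partD0`, `partD1` : helper304's exit conditions.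
* `cleanB0`, `cleanB1` : clean births (helper365).
* `Sp_sub_uni` : the classes are in the structure.
-/

set_option autoImplicit false
set_option linter.unusedSectionVars false

open MeasureTheory Set Filter Topology
open scoped Classical ENNReal
open Crest.AnalysisR.Kinetic
open Crest.Agent.R122.VL581 Crest.Agent.R122.EDefs602
open Crest.Agent.R122.Kin796 Crest.Agent.R122.Kin796.CTree Crest.Agent.R122.Tree674
open Crest.Agent.R122.TreeLines335 Crest.Agent.R122.LNTree410 Crest.Agent.R122.PWInst442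
open Crest.Agent.R122.PWGlue491 Crest.Agent.R122.LN304 Crest.Agent.R122.LNGraft410
open Crest.Agent.R122.LNPart424 Crest.Agent.R122.Ret424 Crest.Agent.R122.LNFor424
open Crest.Agent.R122.LNFam255 Crest.Agent.R122.PW365 Crest.Agent.R122.LNPartS291
open Crest.Agent.R122.Forest399 (FIdx FPar flines FValid FVS)

noncomputable section

namespace Crest.Agent.R122.LNForFam317

variable {Φ : Space3 → ℝ} {ε t c : ℝ} {s n : ℕ} {Ps : Fin s → CTree} {q : FPar Ps} {w : Config n}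

/-- Exit times of the labels. -/
def bF (n : ℕ) (q : FPar Ps) : FJ n Ps → ℝ :=
  Sum.elim (fun _ => 0) fun k => rel (Ps k.1) (q k.1).2 k.2

variable (hΦ : AdmissiblePotential Φ) (hε : 0 < ε)
include hΦ hε

theorem cls (ht : 0 < t) (hq : q ∈ FVS Φ ε Ps t) (i : Fin s) :
    Cls (fM Φ ε t n Ps) (fZ Φ ε q w) (part (fe n Ps i)) (bF n q) :=
  Cls.of_tree (M := fM Φ ε t n Ps) hΦ hε ht ((forest hq).tree i) fun _ => rfl

/-- **The contacts of a tree are a connecting family.** -/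
theorem fam (hc : 1 ≤ c) (ht : 0 < t) (hq : q ∈ FVS Φ ε Ps t) (i : Fin s) :
    LNEv968.Fam (fM Φ ε t n Ps) c (fZ Φ ε q w) (part (fe n Ps i))
      (RC' (fM Φ ε t n Ps) (fZ Φ ε q w) (part (fe n Ps i))) :=
  famC (cls hΦ hε ht hq i) hε hc

omit hΦ hε in
theorem Sp_of_part (hq : q ∈ FVS Φ ε Ps t) {i : Fin s} {j : FJ n Ps} (hj : j ∈ part (fe n Ps i)) :
    Sp (fe n Ps) j = part (fe n Ps i) :=
  (forest (n := n) (w := fun _ => 0) hq).Sp_of_mem hj

omit hΦ hε in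
theorem Sp_sub_uni (hq : q ∈ FVS Φ ε Ps t) (j : FJ n Ps) : Sp (fe n Ps) j ⊆ uni (fΛ n Ps) := by
  rcases j with k | k
  · rw [Sp_inl]
    exact Finset.empty_subset _
  · rw [Sp_inr hq]
    intro x hx
    exact LNPart424.mem_uni.2 ⟨_, part_mem k.1, hx⟩

omit hΦ hε in
theorem fgx_cases (k : FIdx Ps) {j : FJ n Ps} (hj : j ∈ labs (fgx n k)) :
    (∃ i, j = Sum.inl i) ∨ j = Sum.inr k := by
  obtain ⟨i, rfl⟩ := (mem_labs _).1 hj
  rcases i with i | i
  · exact Or.inl ⟨i, rfl⟩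
  · exact Or.inr rfl

omit hΦ hε in
theorem fg_cases {j : FJ n Ps} (hj : j ∈ labs (fg n Ps)) : ∃ i, j = Sum.inl i := by
  obtain ⟨i, rfl⟩ := (mem_labs _).1 hj
  exact ⟨i, rfl⟩

/-! ### The gas alone -/

section gas

variable (hc : 1 ≤ c) (ht : 0 < t) (hq : q ∈ FVS Φ ε Ps t) (hW : (MW.cfg w).Ok Φ ε)
include hc ht hq hW

theorem partS0 (i : Fin s) : LN304.PartS (fM Φ ε t n Ps) c (fZ Φ ε q w)
    (CG (fM Φ ε t n Ps) (fZ Φ ε q w) (Sp (fe n Ps)) (bD (MW.cfg w) (fg n Ps)) (labs (fg n Ps))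
      (XD (MW.cfg w) (fg n Ps) Φ ε)) (part (fe n Ps i)) :=
  partS_lab (M := fM Φ ε t n Ps) (gd0 hΦ hε ht.le hq hW)
    (fun j hj => (Sp_of_part hq hj).le) (fun j hj => absurd hj (inl_notMem_part i j))
    (fam hΦ hε hc ht hq i) (fun j _ hj => absurd hj (inl_notMem_part i j))

theorem partD0 (i : Fin s) {a : FJ n Ps} (ha : a ∈ part (fe n Ps i)) :
    LN304.PartD (fM Φ ε t n Ps) c (fZ Φ ε q w)
    (CG (fM Φ ε t n Ps) (fZ Φ ε q w) (Sp (fe n Ps)) (bD (MW.cfg w) (fg n Ps)) (labs (fg n Ps))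
      (XD (MW.cfg w) (fg n Ps) Φ ε)) (LNEv818.CL Φ ε (MW.cfg w) (fg n Ps))
      (part (fe n Ps i)) a :=
  partD_lab (M := fM Φ ε t n Ps) (gd0 hΦ hε ht.le hq hW) hΦ hε ht.le
    (fam hΦ hε hc ht hq i) (fun j _ hj => absurd hj (inl_notMem_part i j)) ha

omit hc in
theorem cleanB0 (u : ℝ) : CleanB (fM Φ ε t n Ps) (fZ Φ ε q w) (Sp (fe n Ps))
    (bD (MW.cfg w) (fg n Ps)) (labs (fg n Ps)) (XD (MW.cfg w) (fg n Ps) Φ ε) u := by
  refine cleanB_of (gd0 hΦ hε ht.le hq hW) (fun y hy _ e _ he => ?_) (fun i hi hne => ?_)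
  · obtain ⟨i, rfl⟩ := fg_cases hy
    rw [Sp_inl] at he
    exact absurd he (Finset.notMem_empty _)
  · obtain ⟨i, rfl⟩ := fg_cases hi
    rw [Sp_inl] at hne
    exact absurd hne Finset.not_nonempty_empty

end gas

/-! ### The gas and an exit line -/

section exit

variable (hc : 1 ≤ c) (ht : 0 < t) (hq : q ∈ FVS Φ ε Ps t) (k : FIdx Ps)
  (hW : ((MW.cfg w).ins (lineML Φ ε (Ps k.1) (q k.1) k.2)).Ok Φ ε)
include hc ht hq hW

omit hΦ hε hc ht hq hW in
theorem inr_of_fgx {i : Fin s} {j : Fin n ⊕ Unit} (h : fgx n k j ∈ part (fe n Ps i)) :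
    ∃ u, j = Sum.inr u := by
  rcases j with j | j
  · exact absurd h (inl_notMem_part i j)
  · exact ⟨j, rfl⟩

theorem partS1 (i : Fin s) : LN304.PartS (fM Φ ε t n Ps) c (fZ Φ ε q w)
    (CG (fM Φ ε t n Ps) (fZ Φ ε q w) (Sp (fe n Ps))
      (bD ((MW.cfg w).ins (lineML Φ ε (Ps k.1) (q k.1) k.2)) (fgx n k)) (labs (fgx n k))
      (XD ((MW.cfg w).ins (lineML Φ ε (Ps k.1) (q k.1) k.2)) (fgx n k) Φ ε))
      (part (fe n Ps i)) :=
  partS_lab (M := fM Φ ε t n Ps) (gd1 hΦ hε ht hq k hW)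
    (fun _ hj => (Sp_of_part hq hj).le) (fun _ hj => ⟨_, by
      rw [Sp_of_part hq hj]
      exact hj⟩)
    (fam hΦ hε hc ht hq i) (fun j j' hj hj' hjj => by
      obtain ⟨⟨⟩, rfl⟩ := inr_of_fgx k hj
      obtain ⟨⟨⟩, rfl⟩ := inr_of_fgx k hj'
      exact absurd rfl hjj)

theorem partD1 (i : Fin s) {a : FJ n Ps} (ha : a ∈ part (fe n Ps i)) :
    LN304.PartD (fM Φ ε t n Ps) c (fZ Φ ε q w)
    (CG (fM Φ ε t n Ps) (fZ Φ ε q w) (Sp (fe n Ps))
      (bD ((MW.cfg w).ins (lineML Φ ε (Ps k.1) (q k.1) k.2)) (fgx n k)) (labs (fgx n k))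
      (XD ((MW.cfg w).ins (lineML Φ ε (Ps k.1) (q k.1) k.2)) (fgx n k) Φ ε))
      (LNEv818.CL Φ ε ((MW.cfg w).ins (lineML Φ ε (Ps k.1) (q k.1) k.2)) (fgx n k))
      (part (fe n Ps i)) a :=
  partD_lab (M := fM Φ ε t n Ps) (gd1 hΦ hε ht hq k hW) hΦ hε ht.le
    (fam hΦ hε hc ht hq i) (fun j j' hj hj' hjj => by
      obtain ⟨⟨⟩, rfl⟩ := inr_of_fgx k hj
      obtain ⟨⟨⟩, rfl⟩ := inr_of_fgx k hj'
      exact absurd rfl hjj) ha

omit hc in
theorem cleanB1 (u : ℝ) : CleanB (fM Φ ε t n Ps) (fZ Φ ε q w) (Sp (fe n Ps))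
    (bD ((MW.cfg w).ins (lineML Φ ε (Ps k.1) (q k.1) k.2)) (fgx n k)) (labs (fgx n k))
      (XD ((MW.cfg w).ins (lineML Φ ε (Ps k.1) (q k.1) k.2)) (fgx n k) Φ ε) u := by
  refine cleanB_of (gd1 hΦ hε ht hq k hW) (fun y hy _ e hA he hne => ?_)
    (fun i hi hne _ hpos j hj hij hb => ?_)
  · rcases fgx_cases k hy with ⟨i, rfl⟩ | rfl
    · rw [Sp_inl] at he
      exact absurd he (Finset.notMem_empty _)
    · rw [Sp_inr hq] at he
      rcases fgx_cases k hA with ⟨i, rfl⟩ | rfl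
      · exact absurd he (inl_notMem_part k.1 i)
      · exact absurd rfl hne
  · rcases fgx_cases k hi with ⟨i, rfl⟩ | rfl
    · rw [Sp_inl] at hne
      exact absurd hne Finset.not_nonempty_empty
    · rcases fgx_cases k hj with ⟨i, rfl⟩ | rfl
      · have h1 : bD ((MW.cfg w).ins (lineML Φ ε (Ps k.1) (q k.1) k.2)) (fgx n k)
            (Sum.inl i : FJ n Ps) = 0 :=
          bD_apply ((MW.cfg w).ins (lineML Φ ε (Ps k.1) (q k.1) k.2)) (fgx n k) (Sum.inl i)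
        rw [hb, h1] at hpos
        exact absurd hpos (lt_irrefl _)
      · exact absurd rfl hij

end exit

end Crest.Agent.R122.LNForFam317

end
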