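import Crest.Agent.R122.LNReachGD_818
import Crest.Agent.R122.LNForFam_317
import Crest.Agent.R122.LNForDet_317

/-!
# Row 122, LN1 (helper317): reachability for forests, and `RetFacts`

* `runS_of_runD` : a run from a group of labels of one tree of the forest.
* `raf` : **`RAF`** from helper818's `reachAll_of_glue`.
* `retFacts` : **`RetFacts`** from `KData`.
-/

set_option autoImplicit false
set_option linter.unusedSectionVars false
set_option linter.unusedVariables false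

open MeasureTheory Set Filter Topology
open scoped Classical ENNReal
open Crest.AnalysisR.Kinetic
open Crest.Agent.R122.VL581 Crest.Agent.R122.EDefs602 Crest.Agent.R122.LNEv818
open Crest.Agent.R122.Kin796 Crest.Agent.R122.Kin796.CTree Crest.Agent.R122.Tree674
open Crest.Agent.R122.TreeLines335 Crest.Agent.R122.LNTree410 Crest.Agent.R122.PWInst442
open Crest.Agent.R122.PWGlue491 Crest.Agent.R122.LN304
open Crest.Agent.R122.LNPart424 Crest.Agent.R122.Ret424 Crest.Agent.R122.LNFor424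
open Crest.Agent.R122.Gate424 Crest.Agent.R122.ForBind317 Crest.Agent.R122.ForDet317
open Crest.Agent.R122.LNForFam317
open Crest.Agent.R122.RtG302 (AllOk)
open Crest.Agent.R122.Forest399 (FIdx FPar flines FValid FVS)

noncomputable section

namespace Crest.Agent.R122.ForRA317

variable {Φ : Space3 → ℝ} {f₀ : PhasePoint → ℝ} {ε t T c ℓ ς : ℝ} {s n K L N : ℕ}
  {Ps : Fin s → CTree} {q : FPar Ps} {w : Config n}

theorem ok_sub (hΦ : AdmissiblePotential Φ) (hε : 0 < ε) (ht : 0 ≤ t) (hq : q ∈ FVS Φ ε Ps t)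
    {i : Fin s} {D : Finset (FJ n Ps)} (hD : D ⊆ part (fe n Ps i)) (u : ℝ) :
    (fM Φ ε t n Ps).ok D u (fZ Φ ε q w) := by
  rw [LNBridge968.ok_iff_of_births_nonpos (fun j hj => ?_) (fun j hj h => ?_)]
  · intro _ a ha b hb hab
    obtain ⟨a, rfl⟩ := mem_part_fe.1 (hD ha)
    obtain ⟨b, rfl⟩ := mem_part_fe.1 (hD hb)
    exact PathFlow968.Sep.zero hε.le ht (hq.1 i).2 (hq.2.1 i) fun h => hab (congrArg (fun v => (Sum.inr ⟨i, v⟩ : FJ n Ps)) h)
  · obtain ⟨a, rfl⟩ := mem_part_fe.1 (hD hj)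
    exact le_rfl
  · have h1 : (none : Option (FJ n Ps)) = some _ := h
    exact absurd h1 (by simp)

/-- **Runs from a group of labels of one tree.** -/
theorem runS_of_runD (hΦ : AdmissiblePotential Φ) (hε : 0 < ε) (ht : 0 ≤ t)
    (hq : q ∈ FVS Φ ε Ps t) {i : Fin s} {a : FJ n Ps}
    (h : RunD (fM Φ ε t n Ps) (fZ Φ ε q w) (part (fe n Ps i)) a K L w) :
    RunS Φ ε t K L (b0 Ps) (flines Φ ε Ps q) w := by
  obtain ⟨D, hD, ha, h⟩ := h
  set D' : Finset (FIdx Ps) := Finset.univ.filter fun x => (Sum.inr x : FJ n Ps) ∈ D with hD'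
  obtain ⟨b, rfl⟩ := mem_part_fe.1 (hD ha)
  have hb : (⟨i, b⟩ : FIdx Ps) ∈ D' := Finset.mem_filter.2 ⟨Finset.mem_univ _, ha⟩
  refine ⟨D', ⟨⟨i, b⟩, hb⟩, h D' (sMW (b0 Ps) (flines Φ ε Ps q) D')
    ⟨fun x => Sum.inr x.1, fun x y hxy => Subtype.ext (Sum.inr_injective hxy)⟩ ⟨⟨i, b⟩, hb⟩ ?_ rfl⟩
  refine ⟨fun x => rfl, fun x => rfl, fun x h => ?_, fun j => ⟨fun hj => ?_, ?_⟩,
    ok_sub hΦ hε ht hq hD _⟩
  · have h1 : (none : Option (FJ n Ps)) = some _ := h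
    exact absurd h1 (by simp)
  · obtain ⟨y, rfl⟩ := mem_part_fe.1 (hD hj)
    exact ⟨⟨⟨i, y⟩, Finset.mem_filter.2 ⟨Finset.mem_univ _, hj⟩⟩, rfl⟩
  · rintro ⟨x, rfl⟩
    exact (Finset.mem_filter.1 x.2).2

theorem card_uni_le (n : ℕ) (Ps : Fin s → CTree) :
    (uni (fΛ n Ps)).card ≤ Fintype.card (FIdx Ps) := by
  have h1 : uni (fΛ n Ps) ⊆ (Finset.univ : Finset (FIdx Ps)).map ⟨Sum.inr, Sum.inr_injective⟩ := by
    intro x hx
    obtain ⟨k, rfl⟩ := mem_uni_fΛ.1 hx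
    exact Finset.mem_map.2 ⟨k, Finset.mem_univ _, rfl⟩
  refine (Finset.card_le_card h1).trans ?_
  rw [Finset.card_map, Finset.card_univ]

/-- **Reachability for forests.** -/
theorem raf (hΦ : AdmissiblePotential Φ) (K : ℕ) (Ps : Fin s → CTree) : RAF Φ K Ps := by
  intro L
  refine ⟨Fintype.card (FIdx Ps) + 2 * K * (L + 2), 4 * (Fintype.card (FIdx Ps) + 2 * K * (L + 2)),
    by omega, ?_⟩
  intro ε t ℓ ς hε ht hℓς q n w hq hw hok hNB hNT h0 h1 hrun x
  have hok' := MWFam255.okF_of_okFam hΦ hε hok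
  have hcard := card_uni_le n Ps
  have ha : ∀ i, fg n Ps i ≠ (Sum.inr x.1 : FJ n Ps) := fun i h => by cases h
  have hWx : ((MW.cfg w).ins (lineML Φ ε (Ps x.1.1) (q x.1.1) x.1.2)).Ok Φ ε :=
    hok'.line hΦ hε x
  have G : GD2 (fM Φ ε t n Ps) (fZ Φ ε q w) (Sp (fe n Ps)) (MW.cfg w) (fexL Φ ε Ps q x)
      (fg n Ps) (Sum.inr x.1) ha :=
    ⟨gd0 hΦ hε ht.le hq hok'.z, gd1 hΦ hε ht hq x.1 hWx, hok'.z, hWx⟩
  have hN : (uni (fΛ n Ps)).card + 2 * K * (L + 2) ≤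
      4 * (Fintype.card (FIdx Ps) + 2 * K * (L + 2)) := by omega
  have hR := G.reachAll_of_glue (c := 1) (ℓ := ℓ) (ς := ς) (Λ := fΛ n Ps)
    (π := part (fe n Ps x.1.1)) (N := 4 * (Fintype.card (FIdx Ps) + 2 * K * (L + 2))) (K := K)
    (T := t) hΦ hε ht.le le_rfl le_rfl hℓς
    ⟨cleanB0 hΦ hε ht hq hok'.z t, cleanB1 hΦ hε ht hq x.1 hWx t⟩ (Sp_sub_uni hq)
    (fun _ _ => le_rfl) (parts hΦ hε le_rfl hq hw) hNB hNT
    (fun b => by
      cases b
      · exact h0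
      · exact h1 x) (part_mem x.1.1) (inr_mem_part.2 rfl)
    (fun b => by
      cases b
      · exact partS0 hΦ hε le_rfl ht hq hok'.z x.1.1
      · exact partS1 hΦ hε le_rfl ht hq x.1 hWx x.1.1)
    (partD1 hΦ hε le_rfl ht hq x.1 hWx x.1.1 (inr_mem_part.2 rfl)) (w := w) (g := fg n Ps)
    (fun i => rfl) (fun i => rfl)
    (fun i h => by
      have h1 : (none : Option (FJ n Ps)) = some _ := h
      exact absurd h1 (by simp))
    (fun i hi => by
      rcases i with i | i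
      · exact ⟨i, rfl⟩
      · exact absurd (mem_uni_fΛ.2 ⟨i, rfl⟩) hi) (fun i => ⟨i, rfl⟩) L hN
  rcases hR with hR | hR
  · exact absurd (runS_of_runD hΦ hε ht.le hq hR) hrun
  · intro u hu hθ y hy hb
    obtain ⟨h2, h3⟩ := hR u hu hθ y hy hb
    exact ⟨h2.mono (by omega), fun k hk => (h3 k hk).mono (by omega)⟩

/-- **`RetFacts`.** -/
theorem retFacts {β : ℝ} {f : ℝ → PhasePoint → ℝ} (hD : Master566.KData Φ β T f₀ f) :
    RetFacts Φ f₀ T :=
  retFacts_of_raf hD fun _ Ps K => raf hD.adm K Ps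

/-- **`RetIn`.** -/
theorem retIn {β : ℝ} {f : ℝ → PhasePoint → ℝ} (hD : Master566.KData Φ β T f₀ f) :
    Top602.RetIn Φ f₀ f T :=
  retIn_of_facts hD (retFacts hD)

end Crest.Agent.R122.ForRA317

end
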