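import Crest.Agent.R122.InEq2NG_311
import Crest.Agent.R122.TouchNull_302

/-!
# Row 122, INEQUALITY 2' (helper311): real to ghost before the window (`FR`, `FRC`)

From helper302's `rtgIn`.
-/

set_option autoImplicit false

open MeasureTheory Set Filter Topology
open scoped ENNReal
open Crest.AnalysisR.Kinetic
open Crest.Agent.R122.Master566 Crest.Agent.R122.GIV566 Crest.Agent.R122.Top602
open Crest.Agent.R122.EDefs602 Crest.Agent.R122.GC311 Crest.Agent.R122.Causal291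
open Crest.Agent.R122.Kin796 Crest.Agent.R122.Kin796.CTree Crest.Agent.R122.Tree674
open Crest.Agent.R122.Band974 (PT)
open Crest.Agent.R122.RtG302 (RtGMaj LinkNull RetNullT OkNull protT rtgMaj rtgIn)

noncomputable section

open scoped Classical

namespace Crest.Agent.R122.InEq2

variable {Φ : Space3 → ℝ} {f₀ : PhasePoint → ℝ} {f : ℝ → PhasePoint → ℝ} {ε : ℝ} {K : ℕ}
  {A : EPar} {T' te : ℝ} {β T : ℝ} {γ : ℝ → ℝ} {ρ : ℝ≥0∞} {h₀ : ℝ}

/-- Real to ghost before the window, for all short windows (helper302's majorants). -/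
def RtGWin (Φ : Space3 → ℝ) (f₀ : PhasePoint → ℝ) (f : ℝ → PhasePoint → ℝ) (T : ℝ) (γ : ℝ → ℝ)
    (ρ : ℝ≥0∞) (h₀ : ℝ) : Prop :=
  EvW T fun _ _ tw _ => IH Φ f₀ f T γ ρ tw → ∀ K : ℕ, RtGMaj Φ f₀ tw (tw + h₀) K

/-- The labels of the tree of the closed history write the block. -/
theorem JC.range_eq {k m : ℕ} {V : Config k} {w : Config m} {j : Fin k}
    (h : JC Φ ε K A V w j) (hε : 0 < ε) (hte : 0 ≤ A.te) (hT' : 0 ≤ T')
    {P : CTree} {ℓ : PhasePoint} {p : Par P} {e : Idx P → Fin (k + m)}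
    (hH : HTreeC Φ ε T' (sgm Φ ε K A V w j) (cat V w) (Fin.castAdd m j) P ℓ p e) :
    range e = ↑(block k m) := by
  rw [hH.range_eq hε hT' (iTime_nonneg hte _ _), ← h.1, Set.coe_toFinset]

/-- **`FR`.** -/
theorem inB_FR (hD : KData Φ β T f₀ f) (hh₀ : 0 < h₀) (hR : RtGWin Φ f₀ f T γ ρ h₀) :
    InB Φ f₀ f T γ ρ h₀ FR := by
  have hW : EvW T fun h _ _ _ => h ≤ h₀ := ⟨h₀, hh₀, 1, fun _ _ _ _ _ h _ _ _ => h⟩
  refine InB.of_null ((hR.and hW).mono fun h L tw te hh _ hwin hq hIH K => ?_)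
  have hmaj := hq.1 hIH K
  have hle := hq.2
  have htw0 : 0 ≤ tw := hwin.nonneg
  have hteT : te ≤ tw + h₀ := by linarith [hwin.short]
  have hT' : 0 ≤ tw + h₀ := by linarith
  obtain ⟨N, hNm, hN0, hN⟩ := rtgIn hD.adm hmaj htw0 (le_refl tw)
  refine ⟨fun ε => MS f₀ ε (N ε), hN0, ?_⟩
  filter_upwards [self_mem_nhdsWithin] with ε hε
  refine Bnd.of_B (hNm ε) (fun k m V w j hV hw hp => ?_) le_rfl
  unfold FR
  by_cases hF : JI Φ ε K (epar γ ρ L tw te) V w j ∧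
      HT Φ ε K (epar γ ρ L tw te) (tw + h₀) V w j ∧
      ¬ HTU Φ ε K (epar γ ρ L tw te) (tw + h₀) V w j
  swap
  · rw [if_neg hF]
    exact zero_le
  rw [if_pos hF]
  obtain ⟨hJ, ⟨P, ℓ, p, e, hH⟩, hno⟩ := hF
  have htw : 0 ≤ (epar γ ρ L tw te).tw := htw0
  have h1 : tw < sgm Φ ε K (epar γ ρ L tw te) V w j := hJ.2.1.1
  have h2 : sgm Φ ε K (epar γ ρ L tw te) V w j ≤ te := hJ.2.1.2
  rcases hN ε hε k m V w j (hJ.le_K hD.adm hε htw) hV hw hp P ℓ p e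
    (sgm Φ ε K (epar γ ρ L tw te) V w j) (hJ.pos htw).le (h2.trans hteT)
    (hJ.range_eq hε htw hT' hH) (Or.inr ⟨h1, hH⟩) with h3 | h3
  · rw [min_eq_right h1.le] at h3
    exact absurd ⟨P, ℓ, p, e, hH, h3⟩ hno
  · exact h3

/-- **`FRC`.** -/
theorem inB_FRC (hD : KData Φ β T f₀ f) (hh₀ : 0 < h₀) (hR : RtGWin Φ f₀ f T γ ρ h₀) :
    InB Φ f₀ f T γ ρ h₀ FRC := by
  have hW : EvW T fun h _ _ _ => h ≤ h₀ := ⟨h₀, hh₀, 1, fun _ _ _ _ _ h _ _ _ => h⟩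
  refine InB.of_null ((hR.and hW).mono fun h L tw te hh _ hwin hq hIH K => ?_)
  have hmaj := hq.1 hIH (2 * K)
  have hle := hq.2
  have htw0 : 0 ≤ tw := hwin.nonneg
  have hte0 : 0 ≤ te := htw0.trans hwin.le
  have hteT : te ≤ tw + h₀ := by linarith [hwin.short]
  have hT' : 0 ≤ tw + h₀ := by linarith
  obtain ⟨N, hNm, hN0, hN⟩ := rtgIn hD.adm hmaj htw0 (le_refl tw)
  refine ⟨fun ε => MS f₀ ε (N ε), hN0, ?_⟩
  filter_upwards [self_mem_nhdsWithin] with ε hε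
  refine Bnd.of_B (hNm ε) (fun k m V w j hV hw hp => ?_) le_rfl
  unfold FRC
  by_cases hF : JC Φ ε K (epar γ ρ L tw te) V w j ∧
      HTc Φ ε K (epar γ ρ L tw te) (tw + h₀) V w j ∧
      ¬ HTUc Φ ε K (epar γ ρ L tw te) (tw + h₀) V w j
  swap
  · rw [if_neg hF]
    exact zero_le
  rw [if_pos hF]
  obtain ⟨hJ, ⟨P, ℓ, p, e, hH⟩, hno⟩ := hF
  have h1 : tw < sgm Φ ε K (epar γ ρ L tw te) V w j := hJ.2.1.1
  have h2 : sgm Φ ε K (epar γ ρ L tw te) V w j ≤ te := hJ.2.1.2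
  rcases hN ε hε k m V w j hJ.le hV hw hp P ℓ p e
    (sgm Φ ε K (epar γ ρ L tw te) V w j) (htw0.trans h1.le) (h2.trans hteT)
    (hJ.range_eq hε hte0 hT' hH) (Or.inl hH) with h3 | h3
  · rw [min_eq_right h1.le] at h3
    exact absurd ⟨P, ℓ, p, e, hH, h3⟩ hno
  · exact h3

end Crest.Agent.R122.InEq2

end
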