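import Crest.Agent.R122.Ineq1D_815
import Crest.Agent.R122.RedW_674
import Crest.Agent.R122.InEq2R_311

/-!
helper815, row 122, INEQUALITY 1: the literal input `Top602.I1In` from its two open parts.

* `I1Parts` : `rtg` = majorants of the bad trees (`RtGWin`, shared with inequality 2),
  `link` = `StmtLink4` in the windows;
* `i1In_of_parts` : `I1Parts → Top602.I1In`; `ptAll_of_parts` for the young lines.
-/

set_option autoImplicit false

open MeasureTheory Set Filter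
open scoped ENNReal Topology
open Crest.AnalysisR.Kinetic
open Crest.Agent.R122.Master566 Crest.Agent.R122.EDefs602 Crest.Agent.R122.Top602
  Crest.Agent.R122.OneC285

noncomputable section

namespace Crest.Agent.R122.Ineq1815

variable {Φ : Space3 → ℝ} {f₀ : PhasePoint → ℝ} {f : ℝ → PhasePoint → ℝ} {β T : ℝ}

/-- `StmtLink4` in the windows. -/
def Link4In (Φ : Space3 → ℝ) (f₀ : PhasePoint → ℝ) (f : ℝ → PhasePoint → ℝ) (T : ℝ) : Prop :=
  InHL T fun h₀ γ ρ => EvW T fun _ L tw te => IH Φ f₀ f T γ ρ tw →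
    StmtLink4 Φ f₀ (epar γ ρ L tw te) (tw + h₀)

/-- The open parts of INEQUALITY 1. -/
structure I1Parts (Φ : Space3 → ℝ) (f₀ : PhasePoint → ℝ) (f : ℝ → PhasePoint → ℝ) (T : ℝ) :
    Prop where
  /-- the majorants of the bad trees -/
  rtg : InHL T fun h₀ γ ρ => InEq2.RtGWin Φ f₀ f T γ ρ h₀
  /-- the long connections -/
  link : Link4In Φ f₀ f T

theorem rl4In_of_parts (hD : KData Φ β T f₀ f) (h : I1Parts Φ f₀ f T) : RL4In Φ f₀ f T :=
  (h.rtg.and h.link).mono fun _ _ _ h0 _ hq =>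
    ((Red674.stmtRed_evW_of_maj hD h0 hq.1).and hq.2).mono fun _ _ _ _ _ _ _ hp hIH =>
      ⟨hp.1 hIH, hp.2 hIH⟩

/-- The pointwise form of INEQUALITY 1 from its open parts. -/
theorem ptAll_of_parts (hD : KData Φ β T f₀ f) (h : I1Parts Φ f₀ f T) : PtAll Φ f₀ f T :=
  ptAll_of_rl4 hD (rl4In_of_parts hD h)

/-- **INEQUALITY 1** from its open parts. -/
theorem i1In_of_parts (hD : KData Φ β T f₀ f) (h : I1Parts Φ f₀ f T) : I1In Φ f₀ f T :=
  i1In_of_rl4 hD (rl4In_of_parts hD h)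

/-- Young lines, for all small horizons and all line parameters. -/
def YoungAll (Φ : Space3 → ℝ) (f₀ : PhasePoint → ℝ) (f : ℝ → PhasePoint → ℝ) (T : ℝ) : Prop :=
  InHL T fun h₀ γ ρ => ∀ m : ℕ, ∃ Cy : ℝ≥0∞, Cy ≠ ∞ ∧ ∀ r : ℝ, 0 ≤ r → r < 1 →
    EvW T fun h L tw te => IH Φ f₀ f T γ ρ tw →
      ∃ S : ℕ → ℝ → ℝ≥0∞, Small S ∧ Ev fun K ε =>
        XJ Φ f₀ ε K (epar γ ρ L tw te) (Ioc (max 0 (tw - r)) te) ≤ S K ε +
          Cy * ENNReal.ofReal (Real.sqrt (r + h)) * (XI Φ f₀ ε K (epar γ ρ L tw te) +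
            aE Φ f₀ ε K (epar γ ρ L tw te) + PMn Φ f₀ γ ρ h₀ m L tw te K ε)

theorem youngAll_of_ptAll (hD : KData Φ β T f₀ f) (h : PtAll Φ f₀ f T) : YoungAll Φ f₀ f T :=
  h.mono fun _ _ _ _ hl hp m => by
    obtain ⟨g1, r1, hl⟩ := hl
    exact youngX_of_ptIn hD hl hp m

end Crest.Agent.R122.Ineq1815

end
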