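import Crest.Agent.R122.HitGate_522
import Crest.Agent.R122.BHGate_167
import Crest.Agent.R122.HitClass_416
import Crest.Agent.R122.BadVolP_350
import Crest.Agent.R122.TreeGate_302

/-!
# Bad hits of trees are null (row 122), helper522

* `BPr Φ te T₁` : the predicate `Chain726.BadPos` as a `BH167.PosPred`; `hitClass` : its class
  estimate.
* `gNull_hit` : `BH167.gNull_badHit`, unconditional, for every dominated structure.
* `gNull_hit_tree`, `tNull_hit_tree` : the instance for trees with the energy weight, as `GNull` and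
  as `TNull`.
-/

set_option autoImplicit false
set_option linter.unusedSectionVars false

open MeasureTheory Set Filter Topology
open scoped Classical ENNReal
open Crest.AnalysisR.Kinetic
open Crest.Agent.R122.GC311 Crest.Agent.R122.EDefs602
open Crest.Agent.R122.Kin796 Crest.Agent.R122.Kin796.CTree Crest.Agent.R122.Tree674
open Crest.Agent.R122.TreeLines335 Crest.Agent.R122.LineMeas994
open Crest.Agent.R122.InEq2 Crest.Agent.R122.LN2 Crest.Agent.R122.Gate424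
open Crest.Agent.R122.BH167

noncomputable section

namespace Crest.Agent.R122.HitGate522

variable {Φ : Space3 → ℝ} {f₀ : PhasePoint → ℝ}

/-- Possible positions of the root of a bad past. -/
def BPr (Φ : Space3 → ℝ) (te T₁ : ℝ) : PosPred := fun ε _ V i t x =>
  Chain726.BadPos Φ ε T₁ te V i t x

/-- The hit estimate for the bad pasts. -/
theorem hitClass (hΦ : AdmissiblePotential Φ) (T te : ℝ) {T₁ : ℝ} (hT₁ : 0 ≤ T₁) :
    HitClass T (BPr Φ te T₁) :=
  HitClass416.hitClass_of (T := T) (te := te) (T' := T₁) hΦ fun _ hγ K =>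
    Flux350.badVolP hΦ te hT₁ hγ K

variable {I Θ : Type} [MeasurableSpace Θ] {m : ℝ → I → Measure Θ}

/-- **Bad hits of a dominated structure are null**, unconditional. -/
theorem gNull_hit (hΦ : AdmissiblePotential Φ) {T : ℝ} (hT : 0 ≤ T) (te : ℝ) {T₁ : ℝ}
    (hT₁ : 0 ≤ T₁) {γ : ℝ} {ρ : Space3 → ℝ≥0∞} {C₀ : ℝ≥0∞}
    {κ : Type} [Fintype κ] (hf : Measurable f₀)
    (h1 : ∫⁻ z, ENNReal.ofReal (f₀ z) ≤ 1) (he : Env f₀ γ ρ C₀) (hγ : 0 < γ) (C R : ℝ) (N K : ℕ)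
    {s : ℕ} (hs : s ≤ Fintype.card κ) (A₀ : Finset κ) {c : ℝ≥0∞} (hc : c ≠ ∞)
    (Λ : Measure (κ → ℝ)) [IsFiniteMeasure Λ] {b : ℝ → I → Θ → κ → ℝ}
    {z : ℝ → I → Θ → κ → PhasePoint} (hm : ∀ ε i, SFinite (m ε i))
    (hdom : ∀ ε i, 0 < ε → Dom γ ρ ε s A₀ c Λ (m ε i) (b ε i) (z ε i)) :
    GNull f₀ m (fun ε i _ θ w =>
      BadHitGas (BPr Φ te T₁) Φ T C R ε N K s A₀ (b ε i θ) (z ε i θ) w) :=
  gNull_badHit hΦ (VC973.vc hΦ) hT (hitClass hΦ T te hT₁) hf h1 he hγ C R N K hs A₀ hc Λ hm hdom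

/-- **Bad hits of a tree are null**, uniformly in the horizon `t i`. -/
theorem gNull_hit_tree (hΦ : AdmissiblePotential Φ) {b : ℝ} (hb : 0 < b) (hf : Measurable f₀)
    (H : HasSummableGaussianBound b (fun x v => f₀ (x, v)))
    (h1 : ∫⁻ z, ENNReal.ofReal (f₀ z) ≤ 1) {T : ℝ} (hT : 0 ≤ T) (te : ℝ) {T₁ : ℝ}
    (hT₁ : 0 ≤ T₁) (t : I → ℝ) (P : CTree) (C R : ℝ) (N K : ℕ) :
    GNull f₀ (fun ε i => GateT522.treeQ Φ f₀ ε P (t i)) (fun ε _ _ z w =>
      BadHitGas (BPr Φ te T₁) Φ T C R ε N K 1 Finset.univ (fun _ => 0)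
        (linesM Φ ε P z.1 z.2) w) := by
  obtain ⟨ρ, C₀, he⟩ := exists_env (le_refl b) H
  have he' : Env f₀ (b - b / 2) ρ C₀ := ⟨he.meas, he.le_one, he.int, he.fin, fun z =>
    (he.le z).trans (mul_le_mul_right (mul_le_mul_right (LN2.wG_anti (by linarith) z.2) _) _)⟩
  have hs : 1 ≤ Fintype.card (Idx P) := Fintype.card_pos_iff.2 ⟨root P⟩
  exact gNull_hit (I := I) (m := fun ε i => GateT522.treeQ Φ f₀ ε P (t i)) hΦ hT te hT₁ hf h1
    he' (by linarith) C R N K hs Finset.univ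
    (ENNReal.mul_ne_top (GateT522.card_mul_ne_top (a := b / 2) P) (ENNReal.pow_ne_top he.fin))
    (Measure.dirac fun _ : Idx P => (0 : ℝ)) (b := fun _ _ _ _ => 0)
    (z := fun ε _ z => linesM Φ ε P z.1 z.2) (fun ε i => inferInstance)
    (fun ε i hε => GateT522.dom_treeQ hΦ hf he hε (by positivity) P (t i))

/-- Bad hit of the leaves of a tree. -/
def HitTE (Φ : Space3 → ℝ) (T te T₁ C R : ℝ) (N K : ℕ) : RtG302.TEv := fun ε P z _ w =>
  BadHitGas (BPr Φ te T₁) Φ T C R ε N K 1 Finset.univ (fun _ : Idx P => 0)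
    (Tree674.lines Φ ε P z.1 z.2) w

/-- **Bad hits of trees are null.** -/
theorem tNull_hit_tree (hΦ : AdmissiblePotential Φ) {b : ℝ} (hb : 0 < b) (hf : Measurable f₀)
    (H : HasSummableGaussianBound b (fun x v => f₀ (x, v)))
    (h1 : ∫⁻ z, ENNReal.ofReal (f₀ z) ≤ 1) {T : ℝ} (hT : 0 ≤ T) (te : ℝ) {T₁ : ℝ}
    (hT₁ : 0 ≤ T₁) (T' : ℝ) (K₀ : ℕ) (C R : ℝ) (N K : ℕ) :
    RtG302.TNull Φ f₀ T' K₀ (HitTE Φ T te T₁ C R N K) := by
  refine GateT522.tNull_of_gNull hΦ hf fun P _ => ?_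
  refine (gNull_hit_tree (I := Unit) hΦ hb hf H h1 hT te hT₁ (fun _ => T') P C R N K).mono' ?_
  rintro ε - n z w ⟨hV, -, hE⟩
  rw [linesM_of_adm ε hV.1]
  exact hE

end Crest.Agent.R122.HitGate522

end
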