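import Crest.Agent.R122.TreeGate2_302
import Crest.Agent.R122.LNTreeHit_399
import Crest.Agent.R122.F3RAT_370
import Crest.Agent.R122.Ineq2_311
import Crest.Agent.R122.HitTree_522

/-!
# The null facts of trees from `RAT` and `OkNull` (row 122, helper302)

* `linkNull_of_rat`, `retNullT_of_rat` : `LinkNull`, `RetNullT` for `KData`.
* `hitPN` : helper370's `HitPN`, unconditional.
* `errIn_of_rat` : `Top602.ErrIn` from `RAT` and `OkNull`.
* `rtg_of_rat` : `RtGWin` for all small `h₀` from `RAT` and `OkNull`.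
* `linkR_of_ratR` : pairwise links of all lines of the tree, root line included.
-/

set_option autoImplicit false
set_option linter.unusedSectionVars false

open MeasureTheory Set Filter Topology
open scoped ENNReal
open Crest.AnalysisR.Kinetic
open Crest.Agent.R122.GC311 Crest.Agent.R122.EDefs602
open Crest.Agent.R122.Kin796 Crest.Agent.R122.Kin796.CTree Crest.Agent.R122.Tree674
open Crest.Agent.R122.TreeLines335 Crest.Agent.R122.LineMeas994
open Crest.Agent.R122.LN2 Crest.Agent.R122.Master566 Crest.Agent.R122.Top602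
open Crest.Agent.R122.Gate424 Crest.Agent.R122.RtG302 Crest.Agent.R122.Excl302
open Crest.Agent.R122.LNTree399 Crest.Agent.R122.TreeGate2302
open Crest.Agent.R122.PWInst442 Crest.Agent.R122.InEq2

noncomputable section

open scoped Classical

namespace Crest.Agent.R122.TreeFin302

variable {Φ : Space3 → ℝ} {β T : ℝ} {f₀ : PhasePoint → ℝ} {f : ℝ → PhasePoint → ℝ}
  {T' u₀ : ℝ} {K K' : ℕ}

theorem classNull (hΦ : AdmissiblePotential Φ) (hT : 0 < T') : VLMeas973.ClassNull Φ T' :=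
  VLMeas973.class_null hΦ hT (VL581.vc hΦ) (VL581.vlu hΦ)

theorem mass_le (hD : KData Φ β T f₀ f) : ∫⁻ z, ENNReal.ofReal (f₀ z) ≤ 1 :=
  (FM167.lintegral_density_eq_one hD.nonneg hD.integrable hD.mass).le

/-- Links and returns of the exit lines are null. -/
theorem lr_of_rat (hD : KData Φ β T f₀ f) (hT : 0 ≤ T') (hu : u₀ ≤ T')
    (hok : OkNull Φ f₀ T' K) (hR : 0 < T' → RAT Φ T' K K') :
    TNull Φ f₀ T' K (LREv Φ K' u₀ T') := by
  have hγ : (0 : ℝ) < 2 * β := by linarith [hD.beta_pos]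
  obtain ⟨ρ, C₀, he⟩ := exists_env (le_refl (2 * β)) hD.gaussian
  exact lr_null' hD.adm hγ hD.contDiff.continuous hD.gaussian (mass_le hD) hT hu
    (classNull hD.adm) hok (Ht := fun N ε _ z _ w => HitS Φ T' 1 ε N z w)
    (fun h => ⟨hR h, fun N ε _ P z n w _ _ hS _ hOk hh => ⟨hS, hOk, hh⟩⟩)
    fun N => tNull_hitS hD.adm hγ hD.contDiff.continuous.measurable (mass_le hD) he le_rfl K T' N

/-- **`LinkNull`** from `RAT` and `OkNull`. -/
theorem linkNull_of_rat (hD : KData Φ β T f₀ f) (hT : 0 ≤ T') (hu : u₀ ≤ T')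
    (hok : OkNull Φ f₀ T' K) (hR : 0 < T' → RAT Φ T' K K') : LinkNull Φ f₀ u₀ T' K K' :=
  tNull_mono (lr_of_rat hD hT hu hok hR) fun _ _ _ _ _ h => Or.inl h

/-- **`RetNullT`** from `RAT` and `OkNull`. -/
theorem retNullT_of_rat (hD : KData Φ β T f₀ f) (hT : 0 ≤ T') (hu : u₀ ≤ T')
    (hok : OkNull Φ f₀ T' K) (hR : 0 < T' → RAT Φ T' K K') : RetNullT Φ f₀ u₀ T' K K' :=
  tNull_mono (lr_of_rat hD hT hu hok hR) fun _ _ _ _ _ h => Or.inr h

/-- Monotonicity of null events on valid separated trees. -/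
theorem tNull_mono' {E E' : TEv} (h : TNull Φ f₀ T' K E)
    (hE : ∀ ε, 0 < ε → ∀ P z m w, P.leaves ≤ K → Valid Φ ε P T' z.1.2 z.2 →
      Sep Φ ε P T' z.1 z.2 → w ∈ PairExcluded ε m → E' ε P z m w → E ε P z m w) :
    TNull Φ f₀ T' K E' := by
  intro δ hδ
  obtain ⟨e, he, h⟩ := h δ hδ
  refine ⟨e, he, fun ε hε hlt => ?_⟩
  obtain ⟨G, hG, hm⟩ := h ε hε hlt
  exact ⟨G, ⟨hG.meas, fun P z m w hP hV hS hw h' => hG.maj P z m w hP hV hS hw
    (hE ε hε P z m w hP hV hS hw h')⟩, hm⟩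

/-- **helper370's `HitPN`**, unconditional. -/
theorem hitPN (hD : KData Φ β T f₀ f) (t : ℝ) : F3RAT370.HitPN Φ f₀ t := by
  have hγ : (0 : ℝ) < 2 * β := by linarith [hD.beta_pos]
  obtain ⟨ρ, C₀, he⟩ := exists_env (le_refl (2 * β)) hD.gaussian
  refine F3RAT370.hitPN_of_tNull fun K N => ?_
  exact tNull_mono' (tNull_hitS hD.adm hγ hD.contDiff.continuous.measurable (mass_le hD) he
    le_rfl K t N) fun ε _ P z m w _ _ hS _ h => ⟨hS, h⟩

/-- **`ErrIn`** from `RAT` and `OkNull`. -/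
theorem errIn_of_rat (hD : KData Φ β T f₀ f) (hR : ∀ t, 0 < t → t ≤ T → ∀ K K', RAT Φ t K K')
    (hok : ∀ t, 0 < t → t ≤ T → ∀ K, OkNull Φ f₀ t K) : ErrIn Φ f₀ f T :=
  F3RAT370.errIn_of hD (fun t ht K K' => hR t ht.1 ht.2 K K') (fun t _ => hitPN hD t)
    (fun t ht K K' => linkNull_of_rat hD ht.1.le le_rfl (hok t ht.1 ht.2 K)
      fun h => hR t h ht.2 K K')
    (fun t ht K K' => retNullT_of_rat hD ht.1.le le_rfl (hok t ht.1 ht.2 K)
      fun h => hR t h ht.2 K K')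
    fun t ht K => hok t ht.1 ht.2 K

/-- **`RtGWin`** for all small `h₀` from `RAT` and `OkNull`. -/
theorem rtg_of_rat (hD : KData Φ β T f₀ f) {h₁ : ℝ} (hh₁ : 0 < h₁)
    (hR : ∀ t, 0 < t → ∀ K K', RAT Φ t K K') (hok : ∀ t, 0 < t → ∀ K, OkNull Φ f₀ t K) :
    InHL T fun h₀ γ ρ => RtGWin Φ f₀ f T γ ρ h₀ :=
  inHL_rtGWin hD hh₁
    (fun h₀ h0 _ tw htw K K' => linkNull_of_rat hD (by linarith [htw.1]) (by linarith)
      (hok _ (by linarith [htw.1]) K) fun h => hR _ h K K')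
    (fun h₀ h0 _ tw htw K K' => retNullT_of_rat hD (by linarith [htw.1]) (by linarith)
      (hok _ (by linarith [htw.1]) K) fun h => hR _ h K K')
    fun h₀ h0 _ tw htw K => hok _ (by linarith [htw.1]) K

/-! ### Root line included -/

/-- Bad hits with the root line. -/
theorem badHitGas_of_hitTR {ε : ℝ} {n N : ℕ} {P : CTree} {z : PhasePoint × Par P} {w : Config n}
    (hΦ : AdmissiblePotential Φ) (hε : 0 < ε) (hV : Valid Φ ε P T' z.1.2 z.2)
    (hS : Sep Φ ε P T' z.1 z.2) (hw : w ∈ PairExcluded ε n)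
    (hok : MW.OkFam Φ ε (MW.cfg w) (lineML Φ ε P z)) (h : HitTR Φ T' 1 ε N z w) :
    HitGate522.HitTE Φ T' T' (T' + 1) 1 1 N N ε P z n w := by
  rcases h with h | ⟨x, h⟩
  · exact badHitGas_of_hitW hΦ hε le_rfl le_rfl hV hS hw
      (glue_cfg hV hS (MW.OkFam.base hΦ hε hok)) h
  · exact badHitGas_of_hitW hΦ hε le_rfl le_rfl hV hS hw
      (glue_ins hV hS x (MW.OkFam.line hΦ hε hok x)) h

/-- **Links of all lines of a tree (root line included) are null.** -/
theorem linkR_of_ratR (hD : KData Φ β T f₀ f) (hT : 0 < T') (hu : u₀ ≤ T')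
    (hok : TNull Φ f₀ T' K (NOkR Φ)) (hR : RATR Φ T' K K') :
    TNull Φ f₀ T' K (LinkR Φ K' u₀) := by
  have hγ : (0 : ℝ) < 2 * β := by linarith [hD.beta_pos]
  exact linkR_null hD.adm hγ hD.contDiff.continuous hD.gaussian (mass_le hD) hT.le hu
    (classNull hD.adm hT) hok hR (Ht := fun N => HitGate522.HitTE Φ T' T' (T' + 1) 1 1 N N)
    (fun N => HitGate522.tNull_hit_tree hD.adm hγ hD.contDiff.continuous.measurable hD.gaussian
      (mass_le hD) hT.le T' (by linarith) T' K 1 1 N N)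
    fun N ε hε P z n w _ hV hS hE hOk hh => badHitGas_of_hitTR hD.adm hε hV hS hE.2.1 hOk hh

/-- With the root line the family of the exits is included. -/
theorem okNull_of_nOkR (hΦ : AdmissiblePotential Φ) (hok : TNull Φ f₀ T' K (NOkR Φ)) :
    OkNull Φ f₀ T' K :=
  tNull_mono' hok fun ε hε P z m w _ _ _ _ h h' => h
    (MWFam255.okFam_comp hΦ hε h' (Function.Embedding.subtype fun x => x ≠ root P))

end Crest.Agent.R122.TreeFin302
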