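import Crest.Agent.R122.TopI_602
import Crest.Agent.R122.Ineq1E_815
import Crest.Agent.R122.TreeFacts_302
import Crest.Agent.R122.LNForRA_317

/-!
# Row 122: the open inputs of S0162, current list (helper602)

* `Open122` : what is not proved yet; `parts_of_open`.
* `result_of_open122` : S0162 from `Open122`.
-/

set_option autoImplicit false

open MeasureTheory Set Filter Topology
open scoped ENNReal
open Crest.AnalysisR.Kinetic
open Crest.Agent.R122.Master566 Crest.Agent.R122.EDefs602 Crest.Agent.R122.GIV566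

namespace Crest.Agent.R122.Top602

noncomputable section

/-- The open inputs of S0162. -/
structure Open122 (Φ : Space3 → ℝ) (T : ℝ) (f₀ : PhasePoint → ℝ) (f : ℝ → PhasePoint → ℝ) :
    Prop where
  /-- links and bad encounters of the one-contact structures -/
  link4 : Ineq1815.Link4In Φ f₀ f T
  /-- the touched half of INEQUALITY 2 -/
  ftg : InHL T fun h₀ γ ρ => InEq2.InB Φ f₀ f T γ ρ h₀ InEq2T.FTg
  /-- the weight comparison of INEQUALITY 2 -/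
  flg : InHL T fun h₀ γ ρ => InEq2.InB Φ f₀ f T γ ρ h₀ InEq2T.FLg
  /-- INEQUALITY 3 -/
  i3 : I3In Φ f₀ f T

theorem parts_of_open {Φ : Space3 → ℝ} {β T : ℝ} {f₀ : PhasePoint → ℝ}
    {f : ℝ → PhasePoint → ℝ} (hD : KData Φ β T f₀ f) (h : Open122 Φ T f₀ f) :
    Parts Φ T f₀ f :=
  ⟨Ineq1815.i1In_of_parts hD ⟨TreeFacts302.rtgIn hD, h.link4⟩,
    InEq2.i2In_of_parts hD ⟨h.ftg, h.flg, TreeFacts302.rtgIn hD⟩, h.i3, TreeFacts302.errIn hD,
    ForRA317.retFacts hD⟩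

/-- **The statement of S0162 from the open inputs.** -/
theorem result_of_open122
    (H : ∀ (Φ : Space3 → ℝ) (β T : ℝ) (f₀ : PhasePoint → ℝ) (f : ℝ → PhasePoint → ℝ),
      KData Φ β T f₀ f → Open122 Φ T f₀ f)
    (Φ : Space3 → ℝ) (hΦ : AdmissiblePotential Φ) (β : ℝ) (hβ : 0 < β) (T : ℝ) (hT : 0 < T)
    (f₀ : PhasePoint → ℝ) (hf₀ : ∀ z, 0 ≤ f₀ z) (hf₀d : ContDiff ℝ 1 f₀)
    (hf₀i : Integrable f₀) (hf₀m : ∫ z, f₀ z = 1)
    (hf₀b : HasSummableGaussianBound (2 * β) (fun x v => f₀ (x, v)))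
    (hf₀g : HasSummableGaussianBound (2 * β) (fun x v => fderiv ℝ (fun y => f₀ (y, v)) x))
    (f : ℝ → PhasePoint → ℝ) (hf : IsRegularKineticSolution Φ β T f₀ f)
    (Ψ : ℝ → (n : ℕ) → ℝ → Config n → Config n)
    (hΨ : ∀ ε : ℝ, 0 < ε → IsNewtonianEvolution Φ ε (Ψ ε))
    (s : ℕ) (hs : 1 ≤ s) (δ : ℝ) (hδ : 0 < δ) :
    ∃ ε₀ : ℝ, 0 < ε₀ ∧ ∀ ε : ℝ, 0 < ε → ε < ε₀ → ∀ t ∈ Set.Icc 0 T,
      ∀ A : Set (Config s), MeasurableSet A →
        factorialMarginal f₀ ε (Ψ ε) s t A ≤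
            (∫⁻ Z in A, ∏ k, ENNReal.ofReal (f t (Z k))) + ENNReal.ofReal δ ∧
          (∫⁻ Z in A, ∏ k, ENNReal.ofReal (f t (Z k))) ≤
            factorialMarginal f₀ ε (Ψ ε) s t A + ENNReal.ofReal δ :=
  result_of_open (fun Φ β T f₀ f hD => openIn_of_parts hD (parts_of_open hD (H Φ β T f₀ f hD)))
    Φ hΦ β hβ T hT f₀ hf₀ hf₀d hf₀i hf₀m hf₀b hf₀g f hf Ψ hΨ s hs δ hδ

end

end Crest.Agent.R122.Top602
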