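import Crest.Agent.R122.LNRoot_291
import Crest.Agent.R122.LNTreeRATR_399
import Crest.Agent.R122.ErrIn_370
import Crest.Agent.R122.TopJ_602
import Crest.Agent.R122.LNForRA_317
import Crest.Agent.R122.InEq2TInX_718

/-!
# Row 122 (helper291): the inputs of S0162, what is closed and what is open

Closed, for `KData` only (from helper399's `rat`, `ratR`, helper317's `retFacts`, helper663's a.e.
good worlds):
* `treeFacts` : `Top602.TreeFacts`; `errIn` : `Top602.ErrIn`; `rtgIn` : `RtGWin` on short windows;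
  `redIn` : the reduction to good trees; `exRIn` : helper718's `ExR` on short windows.

Open: `Open3` = `Link4In`, `LnN`, `I3In`; `parts_of_open3` : `Top602.Parts`.
-/

set_option autoImplicit false
set_option linter.unusedSectionVars false

open MeasureTheory Set Filter Topology
open scoped ENNReal Classical
open Crest.AnalysisR.Kinetic
open Crest.Agent.R122.GC311 Crest.Agent.R122.EDefs602 Crest.Agent.R122.Master566
open Crest.Agent.R122.GIV566 Crest.Agent.R122.Top602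
open Crest.Agent.R122.Kin796 Crest.Agent.R122.Kin796.CTree Crest.Agent.R122.Tree674
open Crest.Agent.R122.RtG302 Crest.Agent.R122.Excl302
open Crest.Agent.R122.LNTree399 Crest.Agent.R122.TreeGate2302
open Crest.Agent.R122.LNRoot291

noncomputable section

namespace Crest.Agent.R122.LNSkel291

variable {Φ : Space3 → ℝ} {f₀ : PhasePoint → ℝ} {f : ℝ → PhasePoint → ℝ} {β T : ℝ}

/-- **`TreeFacts`**: links, returns and non-good worlds of the exit lines of one tree are null. -/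
theorem treeFacts (hD : KData Φ β T f₀ f) : TreeFacts Φ f₀ := by
  have hΦ := hD.adm
  have hβ := hD.beta_pos
  have hγ : (0 : ℝ) < 2 * β := by linarith
  have hf := hD.contDiff.continuous
  have h1 : ∫⁻ z, ENNReal.ofReal (f₀ z) ≤ 1 :=
    (FM167.lintegral_density_eq_one hD.nonneg hD.integrable hD.mass).le
  obtain ⟨ρ, C₀, he⟩ := LN2.exists_env (le_refl (2 * β)) hD.gaussian
  have hCN : ∀ T' : ℝ, 0 < T' → VLMeas973.ClassNull Φ T' := fun T' hT =>
    VLMeas973.class_null hΦ hT (VL581.vc hΦ) (VL581.vlu hΦ)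
  have hTD : ∀ (T' : ℝ) (K K' : ℕ), 0 < T' →
      TreeDet Φ T' K K' (fun N ε P z m w => HitS Φ T' 1 ε N z w) := fun T' K K' _ =>
    ⟨rat hΦ K K', fun N ε _ P z n w _ _ hS _ hok h => ⟨hS, hok, h⟩⟩
  have hH : ∀ (T' : ℝ) (K N : ℕ), TNull Φ f₀ T' K (fun ε P z m w => HitS Φ T' 1 ε N z w) :=
    fun T' K N => tNull_hitS hΦ hγ hf.measurable h1 he le_rfl K T' N
  refine ⟨fun u T' hu huT K K' => ?_, fun u T' hu huT K K' => ?_,
    fun T' _ K => AllOk663.okNull hΦ f₀ T' K⟩
  · exact linkNull hΦ hγ hf hD.gaussian h1 (hu.trans huT) huT (hCN T')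
      (AllOk663.okNull hΦ f₀ T' K) (hTD T' K K') (hH T' K)
  · exact retNullT hΦ hγ hf hD.gaussian h1 (hu.trans huT) huT (hCN T')
      (AllOk663.okNull hΦ f₀ T' K) (hTD T' K K') (hH T' K)

/-- **`ErrIn`**: the input (C) of section F. -/
theorem errIn (hD : KData Φ β T f₀ f) : ErrIn Φ f₀ f T := by
  have h := treeFacts hD
  exact ErrIn370.errIn_of_rat hD (fun _ _ K K' => rat hD.adm K K')
    (fun t ht => h.link t t ht.1.le le_rfl) (fun t ht => h.ret t t ht.1.le le_rfl)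
    (fun t ht => h.ok t ht.1.le)

/-- **H12** (`RtGWin`) on all short windows. -/
theorem rtgIn (hD : KData Φ β T f₀ f) :
    InHL T fun h₀ γ ρ => InEq2.RtGWin Φ f₀ f T γ ρ h₀ := rtgIn_of hD (treeFacts hD)

/-- **The reduction to good trees** on all short windows. -/
theorem redIn (hD : KData Φ β T f₀ f) :
    InHL T fun h₀ γ ρ => EvW T fun _ _ tw te => IH Φ f₀ f T γ ρ tw →
      OneC285.StmtRed Φ f₀ tw te (tw + h₀) := redIn_of hD (treeFacts hD)

/-- **`ExR`** (helper718): the exceptional events of the tree are null, root line included. -/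
theorem exR (hD : KData Φ β T f₀ f) {h₀ : ℝ} (h0 : 0 < h₀) (γ : ℝ → ℝ) (ρ : ℝ≥0∞) :
    InEq2T.ExR Φ f₀ f T γ ρ h₀ := by
  have hβ := hD.beta_pos
  have hγ : (0 : ℝ) < 2 * β := by linarith
  have h1 : ∫⁻ z, ENNReal.ofReal (f₀ z) ≤ 1 :=
    (FM167.lintegral_density_eq_one hD.nonneg hD.integrable hD.mass).le
  refine ⟨h₀, h0, 1, fun h L tw te _ hh _ _ hW _ K => ?_⟩
  have hte : te ≤ tw + h₀ := hW.short.trans (by linarith)
  have hT : 0 < tw + h₀ := by linarith [hW.nonneg]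
  obtain ⟨q, hq, hE⟩ := InEq2T.TNull.exists_fun (tNull_goodT (K := K) hD.adm hγ
    hD.contDiff.continuous hD.gaussian h1 hT hte (ratR hD.adm K K))
  refine ⟨q, hq, hE.mono fun ε h => ?_⟩
  obtain ⟨G, hG, hm⟩ := h
  exact ⟨G, hG.meas, fun P z m w h1 h2 h3 h4 _ h5 => hG.maj P z m w h1 h2 h3 h4 h5,
    InEq2T.TS_HN_le.trans hm⟩

/-- **`ExR`** on all short windows. -/
theorem exRIn (hD : KData Φ β T f₀ f) :
    InHL T fun h₀ γ ρ => InEq2T.ExR Φ f₀ f T γ ρ h₀ :=
  ⟨1, one_pos, 1, one_pos, 1 / 2, ENNReal.half_lt_self one_ne_zero ENNReal.one_ne_top,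
    fun _ h0 _ γ ρ _ => exR hD h0 γ ρ⟩

/-- **INEQUALITY 1** from `Link4In`. -/
theorem i1In_of (hD : KData Φ β T f₀ f) (h : Ineq1815.Link4In Φ f₀ f T) : I1In Φ f₀ f T :=
  Ineq1815.i1In_of_parts hD ⟨rtgIn hD, h⟩

/-- **INEQUALITY 2** from `LnN`. -/
theorem i2In_of (hD : KData Φ β T f₀ f)
    (h : InHL T fun h₀ γ ρ => InEq2T.LnN Φ f₀ f T γ ρ h₀) : I2In Φ f₀ f T :=
  InEq2.i2In_of_parts hD ⟨InEq2T.inHL_FTg hD h (exRIn hD), InEq2T.inHL_FLg hD h (exRIn hD),
    rtgIn hD⟩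

/-- The open inputs of S0162. -/
structure Open3 (Φ : Space3 → ℝ) (T : ℝ) (f₀ : PhasePoint → ℝ) (f : ℝ → PhasePoint → ℝ) :
    Prop where
  /-- links and bad encounters of the one-contact structures -/
  link4 : Ineq1815.Link4In Φ f₀ f T
  /-- the lines which are not good for a tree -/
  ln : InHL T fun h₀ γ ρ => InEq2T.LnN Φ f₀ f T γ ρ h₀
  /-- INEQUALITY 3 -/
  i3 : I3In Φ f₀ f T

/-- **helper602's `Parts`** from `Open3`. -/
theorem parts_of_open3 (hD : KData Φ β T f₀ f) (h : Open3 Φ T f₀ f) : Parts Φ T f₀ f :=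
  ⟨i1In_of hD h.link4, i2In_of hD h.ln, h.i3, errIn hD, ForRA317.retFacts hD⟩

/-- **helper602's `OpenIn`** from `Open3`. -/
theorem openIn_of_open3 (hD : KData Φ β T f₀ f) (h : Open3 Φ T f₀ f) : OpenIn Φ β T f₀ f :=
  openIn_of_parts hD (parts_of_open3 hD h)

end Crest.Agent.R122.LNSkel291

end
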