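import Crest.Agent.R122.InEq2TX_335
import Crest.Agent.R122.TopE_602

/-!
# Row 122, INEQUALITY 2', touched half, v3 (helper718): the inputs

* `LnN` : (input) the capped mass of the lines which are not good (`lkX` of helper335) is null.
* `ExR` : (input) the exceptional events of the tree (`GoodT`, root included) are null.
-/

set_option autoImplicit false

open MeasureTheory Set Filter Topology
open scoped ENNReal
open Crest.AnalysisR.Kinetic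
open Crest.Agent.R122.GC311 Crest.Agent.R122.EDefs602 Crest.Agent.R122.InEq2
open Crest.Agent.R122.Top602 Crest.Agent.R122.Master566

namespace Crest.Agent.R122.InEq2T

noncomputable section

open scoped Classical

/-! ### The inputs -/

/-- **Input**: the (capped) mass of the lines which are not good for the tree is null (`K` fixed). -/
def LnN (Φ : Space3 → ℝ) (f₀ : PhasePoint → ℝ) (f : ℝ → PhasePoint → ℝ) (T : ℝ) (γ : ℝ → ℝ)
    (ρ : ℝ≥0∞) (h₀ : ℝ) : Prop :=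
  EvW T fun _ _ tw te => IH Φ f₀ f T γ ρ tw → ∀ K : ℕ, ∃ q : ℝ → ℝ≥0∞,
    Tendsto q (𝓝[>] 0) (𝓝 0) ∧ ∀ᶠ ε in 𝓝[>] (0 : ℝ), ∃ NL, MeasTS NL ∧
      LnMaj Φ ε K (tw + h₀) te γ ρ NL ∧ TS Φ f₀ ε (tw + h₀) (HN Φ ε K (tw + h₀) NL) ≤ q ε

/-- **Input**: the exceptional events of the tree are null (`K` fixed). -/
def ExR (Φ : Space3 → ℝ) (f₀ : PhasePoint → ℝ) (f : ℝ → PhasePoint → ℝ) (T : ℝ) (γ : ℝ → ℝ)
    (ρ : ℝ≥0∞) (h₀ : ℝ) : Prop :=
  EvW T fun _ _ tw te => IH Φ f₀ f T γ ρ tw → ∀ K : ℕ, ∃ q : ℝ → ℝ≥0∞,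
    Tendsto q (𝓝[>] 0) (𝓝 0) ∧ ∀ᶠ ε in 𝓝[>] (0 : ℝ), ∃ N, MeasTS N ∧
      ExMajR Φ ε K (tw + h₀) te N ∧ TS Φ f₀ ε (tw + h₀) (HN Φ ε K (tw + h₀) N) ≤ q ε

end

end Crest.Agent.R122.InEq2T
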