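import Crest.Agent.R122.XDet_692
import Crest.Agent.R122.XMap_547
import Crest.Agent.R122.TreeGate2_302
import Crest.Agent.R122.LNTreeHitA_399
import Crest.Agent.R122.TLGate_311
import Crest.Agent.R122.BadX_974
import Crest.Agent.R122.InEq2TXN_718

/-!
# Row 122, LN1, instance (TL) (helper692): one tree and one independent line

* `Reach1`, `RAX` : (input) reachability for the line alone, or `XAlt`.
* `reachS_of_tree`, `salt_of_tree` : helper302's `RATR` in the joint system.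
* `tl_det` : **a line which is not good for the tree** (helper335's `lkX`) gives
  `SAlt ∨ XAlt ∨ JAlt`, if the families are good (`OkX`).
* `tsn_lkX` : the capped mass of the lines which are not good is null.
-/

set_option autoImplicit false
set_option linter.unusedSectionVars false

open MeasureTheory Set Filter Topology
open scoped Classical ENNReal
open Crest.AnalysisR.Kinetic
open Crest.Agent.R122.GC311 Crest.Agent.R122.EDefs602 Crest.Agent.R122.GIV566
open Crest.Agent.R122.VL581 Crest.Agent.R122.LN304 Crest.Agent.R122.LNg410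
open Crest.Agent.R122.LNPart424 Crest.Agent.R122.LNEv968 Crest.Agent.R122.LNEv818
open Crest.Agent.R122.LNEv383 Crest.Agent.R122.TreeLines335
open Crest.Agent.R122.Kin796 Crest.Agent.R122.Kin796.CTree Crest.Agent.R122.Tree674
open Crest.Agent.R122.E6Hyp879 (withD)
open Crest.Agent.R122.OneC285 (ptube)
open Crest.Agent.R122.Gate973 (BadF)

noncomputable section

namespace Crest.Agent.R122.X692

variable {Φ : Space3 → ℝ} {f₀ : PhasePoint → ℝ} {T te ε c R ς u₀ : ℝ} {n N K K₂ L : ℕ}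
  {P : CTree} {z : PhasePoint × Par P} {w : Config n} {x : ML}

theorem reach_mono {J κ : Type} [Fintype J] {M : VSys J κ} {c : ℝ} {Z : J → PhasePoint}
    {Λ : Finset (Finset J)} {π : Finset J} {a i : J} {N N' : ℕ} {v : ℝ} {q : Space3} (hN : N ≤ N')
    (h : Reach M c Z Λ π a N i v q) : Reach M c Z Λ π a N' i v q := by
  obtain ⟨Y, hY, h⟩ := h
  exact ⟨Y, hY.mono hN, h⟩

/-! ### The line alone -/

/-- Everything which is influenced by the line `x` in the gas is reached (gas and line). -/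
def Reach1 (Φ : Space3 → ℝ) (t c ε : ℝ) (K N : ℕ) (u₀ : ℝ) {n : ℕ} (w : Config n) (x : ML) :
    Prop :=
  ReachAll (Reach (gsys Φ t ε n (fun _ : Unit => x.1.1)) c (Sum.elim w fun _ => back x.1)
    {{Sum.inr ()}} {Sum.inr ()} (Sum.inr ()) N) Φ ε K u₀ (MW.cfg w) Sum.inl x (Sum.inr ())

/-- **Input**: the deterministic alternative for a line and the gas. -/
def RAX (Φ : Space3 → ℝ) (T : ℝ) (K₂ : ℕ) : Prop :=
  ∀ L : ℕ, ∃ N : ℕ, ∀ c R ς ε u₀ : ℝ, 1 ≤ c → 0 < ε → 0 ≤ R → 2 * (R * ε) ≤ ς → u₀ ≤ T →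
    ∀ (n : ℕ) (w : Config n) (x : ML), w ∈ PairExcluded ε n → 0 ≤ x.1.1 →
      ((MW.cfg w).ins x).Ok Φ ε →
        Reach1 Φ T c ε K₂ N u₀ w x ∨ XAlt Φ T (T + 1) T c R ς ε K₂ L N x w

/-- In the joint system. -/
theorem reachX_of_1 (hΦ : AdmissiblePotential Φ) (hε : 0 < ε) {S : Type} [Fintype S] {b : S → ℝ}
    {z : S → PhasePoint} {N' : ℕ} (hN : N + Fintype.card S ≤ N')
    (h : Reach1 Φ T c ε K N u₀ w x) : ReachX Φ T c ε u₀ K N' b z w x (MW.cfg w) Sum.inl := by
  have h1 : (Sum.inr () : Fin n ⊕ Unit) ∈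
      uni ({{Sum.inr ()}} : Finset (Finset (Fin n ⊕ Unit))) :=
    LNPart424.mem_uni.2 ⟨_, Finset.mem_singleton_self _, Finset.mem_singleton_self _⟩
  have h2 := XG547.reachAll_eL (S := S) (b := b) (z := z) hΦ hε h1
    (lab' := fun i => eS n S (Sum.inl i)) (fun _ => rfl) h
  intro u hu hθ y hy hb
  obtain ⟨h3, h4⟩ := h2 u hu hθ y hy hb
  exact ⟨reach_mono hN h3, fun k hk => reach_mono hN (h4 k hk)⟩

/-! ### The tree -/

theorem reachS_of_tree (hΦ : AdmissiblePotential Φ) (hε : 0 < ε) (hu : u₀ ≤ T) {N' : ℕ}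
    (hN : N + 1 ≤ N') (h : TreeGate2302.RAllR Φ T c ε K N z w) (i : Idx P) :
    ReachS Φ T c ε u₀ K N' (fun _ => 0) (Tree674.lines Φ ε P z.1 z.2) w x (MW.cfg w) Sum.inl
      (lineML Φ ε P z i) i := by
  have h1 : ∀ y : Idx P, (Sum.inr y : Fin n ⊕ Idx P) ∈ uni (LNTree399.Lt n P) := fun y => by
    rw [LNTree399.uni_Lt]
    exact LNTree399.inr_mem y
  have h2 := XG547.reachAll_eS (b := fun _ : Idx P => 0) (τ := x.1.1) (y := back x.1) hΦ hε h1
    (π' := LNTree399.pT n P) (fun _ => LNTree399.mem_pT)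
    (lab' := fun k => eS n (Idx P) (Sum.inl k)) (fun _ => rfl)
    (TreeGate2302.reachAll_hor hu (h i))
  intro u hu hθ y hy hb
  obtain ⟨h3, h4⟩ := h2 u hu hθ y hy hb
  exact ⟨reach_mono hN h3, fun k hk => reach_mono hN (h4 k hk)⟩

/-- The alternatives of `RATR` are alternatives of the structure alone. -/
theorem salt_of_tree (hΦ : AdmissiblePotential Φ) (hε : 0 < ε) (hc : 1 ≤ c)
    (hV : Valid Φ ε P T z.1.2 z.2) (hS : Sep Φ ε P T z.1 z.2) (hw : w ∈ PairExcluded ε n)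
    (hok : MW.OkFam Φ ε (MW.cfg w) (lineML Φ ε P z))
    (h : LNTree399.RunS Φ T K L ε z w ∨
      ¬ NoBad (LNTree399.Mt Φ T ε n P) c (R * ε) ς (LNTree399.Zt Φ ε w z) (LNTree399.Lt n P)
        (N + N) ∨ TreeGate2302.HitTR Φ T c ε N z w) :
    SAlt Φ T (T + 1) T c R ς ε K L (N + N) Finset.univ (fun _ => 0)
      (Tree674.lines Φ ε P z.1 z.2) w := by
  rcases h with ⟨D, a, h⟩ | h | h
  · exact Or.inl ⟨D, a, h⟩
  · exact Or.inr (Or.inl (LNTree399.badGas_tree hΦ hε hc hV hS le_rfl h))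
  · refine Or.inr (Or.inr ?_)
    have h1 := LNTree399.badHitGas_of_hitA (T := T) hΦ hε le_rfl hc hV hS hw hok h
    exact BH167.badHitGas_mono hε.le le_rfl (Nat.le_add_right _ _) (Nat.le_add_right _ _) h1

/-- The families are good (X1). -/
def OkX (Φ : Space3 → ℝ) (ε : ℝ) (P : CTree) (z : PhasePoint × Par P) {n : ℕ} (w : Config n)
    (x : ML) : Prop :=
  MW.OkFam Φ ε (MW.cfg w) (withD (lineML Φ ε P z) x) ∧
    (((MW.cfg w).add (RealL811.treeW Φ ε P z)).add (MW.line x)).Ok Φ ε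

/-- **The deterministic alternative for a tree and an independent line.** -/
theorem tl_det (hΦ : AdmissiblePotential Φ) (hT : 0 ≤ T) (hR : TreeGate2302.RATR Φ T K K)
    (hX : RAX Φ T K) (L : ℕ) : ∃ N : ℕ, ∀ R ς ε te : ℝ, 0 ≤ R → 0 < ε → 2 * (R * ε) ≤ ς →
      te ≤ T → ∀ (P : CTree) (z : PhasePoint × Par P) (n : ℕ) (w : Config n) (x : ML),
        P.leaves ≤ K → Valid Φ ε P T z.1.2 z.2 → Sep Φ ε P T z.1 z.2 → w ∈ PairExcluded ε n →
        InEq2T.PerpT Φ ε P z w → 0 ≤ x.1.1 → OkX Φ ε P z w x →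
        x ∈ InEq2T.lkX Φ ε K te P z w →
        SAlt Φ T (T + 1) T 1 R ς ε K L N Finset.univ (fun _ => 0)
            (Tree674.lines Φ ε P z.1 z.2) w ∨
          XAlt Φ T (T + 1) T 1 R ς ε K L N x w ∨
          JAlt Φ T 1 R ς ε N Finset.univ (fun _ => 0) (Tree674.lines Φ ε P z.1 z.2) x w := by
  obtain ⟨N₁, h1⟩ := hR L
  obtain ⟨N₂, h2⟩ := hX L
  refine ⟨(N₁ + 1 + (N₂ + K)) + (N₁ + 1 + (N₂ + K)), ?_⟩
  intro R ς ε te hR0 hε hς hte P z n w x hK hV hS hw hp hx hok hlk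
  set N := N₁ + 1 + (N₂ + K) with hN
  have hT1 : T < T + 1 := by linarith
  have hsep : ∀ i q, ε < dist (Tree674.lines Φ ε P z.1 z.2 i).1 (w q).1 := fun i q => by
    have h3 := hp i q
    rwa [Tree674.linesM_of_adm ε hV.1] at h3
  have hokT : MW.OkFam Φ ε (MW.cfg w) (lineML Φ ε P z) :=
    MWFam255.okFam_comp hΦ hε hok.1 (E6Hyp879.inlEmb (Idx P) Unit)
  have hokx : ((MW.cfg w).ins x).Ok Φ ε := MW.OkFam.line hΦ hε hok.1 (Sum.inr ())
  have hcard : Fintype.card (Idx P) ≤ K := by rw [Tree674.card_idx]; exact hK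
  have hSalt : (∀ i, ReachS Φ T 1 ε te K N (fun _ => 0) (Tree674.lines Φ ε P z.1 z.2) w x
      (MW.cfg w) Sum.inl (lineML Φ ε P z i) i) ∨
      SAlt Φ T (T + 1) T 1 R ς ε K L (N + N) Finset.univ (fun _ => 0)
        (Tree674.lines Φ ε P z.1 z.2) w := by
    rcases h1 1 ε (R * ε) ς le_rfl hε (by positivity) hς P z n w hK hV hS hw hsep hokT with
      h3 | h3 | h3 | h3
    · exact Or.inr (SAlt.mono hε.le (by omega)
        (salt_of_tree (N := N₁) hΦ hε le_rfl hV hS hw hokT (Or.inl h3)))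
    · exact Or.inr (SAlt.mono hε.le (by omega)
        (salt_of_tree (N := N₁) hΦ hε le_rfl hV hS hw hokT (Or.inr (Or.inl h3))))
    · exact Or.inr (SAlt.mono hε.le (by omega)
        (salt_of_tree (N := N₁) hΦ hε le_rfl hV hS hw hokT (Or.inr (Or.inr h3))))
    · exact Or.inl fun i => reachS_of_tree hΦ hε hte (by omega) h3 i
  rcases h2 1 R ς ε te le_rfl hε hR0 hς hte n w x hw hx hokx with h3 | h3
  · have hXr : ReachX Φ T 1 ε te K N (fun _ : Idx P => 0) (Tree674.lines Φ ε P z.1 z.2) w x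
        (MW.cfg w) Sum.inl := reachX_of_1 hΦ hε (by omega) h3
    have htr : LNTree410.TreeIn (Mx Φ T ε n (fun _ : Idx P => 0) x)
        (Zx w (Tree674.lines Φ ε P z.1 z.2) x) T P z.1 z.2
        ⟨fun y : Idx P => Sum.inr (Sum.inl y), fun a b h => by simpa using h⟩ :=
      { b := fun _ => le_rfl
        Z := fun _ => rfl
        o := fun _ h => by
          have h5 : (none : Option (Fin n ⊕ (Idx P ⊕ Unit))) = some _ := h
          cases h5
        valid := hV
        sep := hS }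
    have hpart : LNTree410.part (⟨fun y : Idx P => (Sum.inr (Sum.inl y) :
        Fin n ⊕ (Idx P ⊕ Unit)), fun a b h => by simpa using h⟩ : Idx P ↪ _) = piS n (Idx P) := rfl
    have hc : (Mx Φ T ε n (fun _ : Idx P => 0) x).Conn 1 (piS n (Idx P))
        (Zx w (Tree674.lines Φ ε P z.1 z.2) x) := by
      rw [← hpart]
      exact htr.Conn_tree (M := Mx Φ T ε n (fun _ : Idx P => 0) x) hΦ hε le_rfl le_rfl
    have hO := tubeOf_ptube (M := Mx Φ T ε n (fun _ : Idx P => 0) x)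
      (Λ := Lx (piS n (Idx P)) (px n (Idx P))) hΦ hε htr (by rw [hpart]; exact pi_mem) hte
    rcases x_alt (ls := lineML Φ ε P z) (p := fun i => i) (T₁ := T + 1) (R := R) (ς := ς) (L := L)
      hΦ hε hte le_rfl hT1 le_rfl (Finset.univ_nonempty_iff.2 ⟨root P⟩) hw hc
      Sum.inl_injective hSalt (Or.inl hXr) hO with h4 | h4
    · exact absurd ⟨hok.1, hok.2, h4.1, h4.2⟩ hlk
    · exact h4
  · exact Or.inr (Or.inl (XAlt.mono hε.le (by omega) h3))

end Crest.Agent.R122.X692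

end
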