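import Crest.Agent.R122.TLBind_311
import Crest.Agent.R122.TLDet_692
import Crest.Agent.R122.LNLine_522
import Crest.Agent.R122.GoodXOk_663
import Crest.Agent.R122.InEq2TAd_718
import Crest.Agent.R122.LNSkel_291

/-!
# Row 122 (helper291): INEQUALITY 2 is closed

* `rax` : helper692's input `RAX` from helper522's `rAll1_or`.
* `tlDet` : helper311's `TLDet`; `okXae` : helper311's `OkXae` (from helper663's `ae_goodX_lineV`).
* `lnN`, `lnIn` : helper718's `LnN`.
* `i2In` : **INEQUALITY 2** (`Top602.I2In`) from `KData` alone.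
-/

set_option autoImplicit false
set_option linter.unusedSectionVars false

open MeasureTheory Set Filter Topology
open scoped Classical ENNReal
open Crest.AnalysisR.Kinetic
open Crest.Agent.R122.GC311 Crest.Agent.R122.EDefs602 Crest.Agent.R122.Master566
open Crest.Agent.R122.GIV566 Crest.Agent.R122.Top602
open Crest.Agent.R122.Kin796 Crest.Agent.R122.Kin796.CTree Crest.Agent.R122.Tree674
open Crest.Agent.R122.TreeLines335
open Crest.Agent.R122.E6Hyp879 (withD)

noncomputable section

namespace Crest.Agent.R122.LnN291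

variable {Φ : Space3 → ℝ} {f₀ : PhasePoint → ℝ} {f : ℝ → PhasePoint → ℝ} {β T T' te : ℝ}

/-- **The line alone.** -/
theorem rax (hΦ : AdmissiblePotential Φ) (hT : 0 < T) (K : ℕ) : X692.RAX Φ T K := by
  intro L
  refine ⟨1 + 2 * K * (L + 2), ?_⟩
  intro c R ς ε u₀ hc hε _ hς hu n w x hw hx hok
  have hW : (MW.cfg w).Ok Φ ε :=
    LNRoot291.ok_of_zero hΦ hε (fun _ => rfl) fun i j hij => hw i j hij
  rcases Line522.rAll1_or (T := T) (T₁ := T + 1) (t := T) (m := L) hΦ hε hx hW hok hT le_rfl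
    (by linarith) hc hς hw le_rfl with h | h
  · exact Or.inl (TreeGate2302.reachAll_hor hu h)
  · exact Or.inr h

/-- **The deterministic theorem** for a tree and a line in the form of helper311. -/
theorem tlDet (hΦ : AdmissiblePotential Φ) (hT : 0 < T') (hte : te ≤ T') :
    TL311.TLDet Φ T' te := by
  intro K P hP
  refine ⟨K, T', T', hT, hte, le_rfl, fun L => ?_⟩
  obtain ⟨N, h⟩ := X692.tl_det hΦ hT.le (LNTree399.ratR hΦ K K) (rax hΦ hT K) L
  refine ⟨N, 1, T' + 1, by linarith, fun R hR ς hς => ⟨ς / (2 * R), by positivity, ?_⟩⟩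
  intro ε hε hlt n z x w hw hV hS hPe _ hok hokr hx hn
  have h2 : 2 * (R * ε) ≤ ς := by
    have h3 := (lt_div_iff₀ (by positivity : 0 < 2 * R)).1 hlt
    linarith
  exact h R ς ε te hR.le hε h2 hte P z n w x hP hV hS hw hPe hx.1.le ⟨hok, hokr⟩ hn

/-- **The worlds with an independent line are good**, in the form of helper311. -/
theorem okXae (hΦ : AdmissiblePotential Φ) (hT : 0 ≤ T') (te : ℝ) : TL311.OkXae Φ T' te := by
  intro P ε hε n
  have h := AllOk663.ae_goodX_lineV hΦ hε P hT n te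
  rw [Measure.volume_eq_prod] at h
  have e1 := measurePreserving_prodAssoc (volume : Measure (PhasePoint × Par P)) (lineV te)
    (volume : Measure (Config n))
  have e2 : MeasurePreserving (Prod.map (id : PhasePoint × Par P → _)
      (Prod.swap : ML × Config n → Config n × ML))
      ((volume : Measure (PhasePoint × Par P)).prod
        ((lineV te).prod (volume : Measure (Config n))))
      ((volume : Measure (PhasePoint × Par P)).prod
        ((volume : Measure (Config n)).prod (lineV te))) :=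
    (MeasurePreserving.id _).prod Measure.measurePreserving_swap
  have e3 := (measurePreserving_prodAssoc (volume : Measure (PhasePoint × Par P))
    (volume : Measure (Config n)) (lineV te)).symm
  have h2 := ((e3.comp e2).comp e1).quasiMeasurePreserving.ae h
  filter_upwards [h2] with p hp
  exact hp

/-- The constants of a window. -/
theorem ctx (hD : KData Φ β T f₀ f) {g1 : ℝ} {r1 : ℝ≥0∞} {γ : ℝ → ℝ} {ρ : ℝ≥0∞}
    (hLP : LinePar g1 r1 T γ ρ) (hT' : 0 ≤ T') (hte : te ≤ T') (hteT : te ≤ T) :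
    ∃ g : ℝ, TL311.Ctx Φ f₀ β T' te g γ ρ := by
  obtain ⟨g0, κ, hκ, hγ, hg, -⟩ := hLP.lin
  refine ⟨min (g0 - κ * T) β, ?_⟩
  exact
    { adm := hD.adm
      cont := hD.contDiff.continuous
      gauss := hD.gaussian
      mass := (FM167.lintegral_density_eq_one hD.nonneg hD.integrable hD.mass).le
      T_nonneg := hT'
      te_le := hte
      g_pos := lt_min hg hD.beta_pos
      g_le := min_le_right _ _
      rate := fun τ hτ => by
        rw [hγ]
        have h1 : κ * τ ≤ κ * T := mul_le_mul_of_nonneg_left (hτ.2.trans hteT) hκ.le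
        exact (min_le_left _ _).trans (by linarith)
      meas := hLP.measurable
      mark := (hLP.hi.trans ENNReal.one_lt_top).ne }

/-- **The lines which are not good for a tree are null** (`LnN` of helper718). -/
theorem lnN (hD : KData Φ β T f₀ f) {g1 : ℝ} {r1 : ℝ≥0∞} {γ : ℝ → ℝ} {ρ : ℝ≥0∞}
    (hLP : LinePar g1 r1 T γ ρ) {h₀ : ℝ} (h0 : 0 < h₀) : InEq2T.LnN Φ f₀ f T γ ρ h₀ := by
  refine InEq2T.lnN_of_tsn ⟨h₀, h0, 1, fun h L tw te _ hh _ _ hW _ K => ?_⟩
  have hte : te ≤ tw + h₀ := hW.short.trans (by linarith)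
  have hT : 0 < tw + h₀ := by linarith [hW.nonneg]
  have hβ := hD.beta_pos
  obtain ⟨g, hC⟩ := ctx hD hLP hT.le hte hW.le_T
  exact TL311.tsn_lkX hC (okXae hD.adm hT.le te) (tlDet hD.adm hT hte)
    (LNRoot291.tNull_goodT hD.adm (by linarith : (0 : ℝ) < 2 * β) hD.contDiff.continuous
      hD.gaussian (FM167.lintegral_density_eq_one hD.nonneg hD.integrable hD.mass).le hT hte
      (LNTree399.ratR hD.adm K K))

/-- `LnN` on all short windows. -/
theorem lnIn (hD : KData Φ β T f₀ f) :
    InHL T fun h₀ γ ρ => InEq2T.LnN Φ f₀ f T γ ρ h₀ :=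
  ⟨1, one_pos, 1, one_pos, 1 / 2, ENNReal.half_lt_self one_ne_zero ENNReal.one_ne_top,
    fun _ h0 _ _ _ hLP => lnN hD hLP h0⟩

/-- **The touched half** of INEQUALITY 2. -/
theorem ftg (hD : KData Φ β T f₀ f) :
    InHL T fun h₀ γ ρ => InEq2.InB Φ f₀ f T γ ρ h₀ InEq2T.FTg :=
  InEq2T.inHL_FTg hD (lnIn hD) (LNSkel291.exRIn hD)

/-- **The weight comparison** of INEQUALITY 2. -/
theorem flg (hD : KData Φ β T f₀ f) :
    InHL T fun h₀ γ ρ => InEq2.InB Φ f₀ f T γ ρ h₀ InEq2T.FLg :=
  InEq2T.inHL_FLg hD (lnIn hD) (LNSkel291.exRIn hD)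

/-- **INEQUALITY 2.** -/
theorem i2In (hD : KData Φ β T f₀ f) : I2In Φ f₀ f T := LNSkel291.i2In_of hD (lnIn hD)

end Crest.Agent.R122.LnN291

end
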