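import Crest.Agent.R122.LNOSb_515
import Crest.Agent.R122.LNOneCls_515
import Crest.Agent.R122.LNSrun_515

/-!
# Row 122, LN1 (helper515): the tree as a one-part structure

The system of the gas and the tree (`σ = Idx P`, births `0`): helper674's frame.

* `oneT` : all lines of the tree (root included) are exits of one class.
* `exitsT0`, `exitsT1` : helper674's `Exits` over `cfg w` and over `cfg w + d`.
* `reachAllT0`, `reachAllT1` : (RA) off helper692's `SAlt`.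
-/

set_option autoImplicit false
set_option linter.unusedSectionVars false

open MeasureTheory Set Filter
open scoped ENNReal Topology
open Crest.AnalysisR.Kinetic
open Crest.Agent.R122.GIV566 Crest.Agent.R122.VL581 Crest.Agent.R122.LN304
open Crest.Agent.R122.LNTree410 Crest.Agent.R122.PWInst442 Crest.Agent.R122.PWGlue491
open Crest.Agent.R122.LNPart424 Crest.Agent.R122.EDefs602 Crest.Agent.R122.TreeLines335
open Crest.Agent.R122.Kin796 Crest.Agent.R122.Kin796.CTree Crest.Agent.R122.Tree674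
open Crest.Agent.R122.Loc45 Crest.Agent.R122.Ins45 Crest.Agent.R122.LNg410
open Crest.Agent.R122.LNGraft410 Crest.Agent.R122.MWFam255 Crest.Agent.R122.LNEv968
open Crest.Agent.R122.LNEv818 Crest.Agent.R122.LNCls515 Crest.Agent.R122.LNS674

noncomputable section

namespace Crest.Agent.R122.LNTree515

open scoped Classical

variable {Φ : Space3 → ℝ} {ε T te c ρ ς : ℝ} {K N n : ℕ} {P : CTree} {z : PhasePoint × Par P}
  {w : Config n}

/-- Births of the tree. -/
abbrev bT (P : CTree) : Idx P → ℝ := fun _ => 0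

/-- The tree at time `0`. -/
abbrev zT (Φ : Space3 → ℝ) (ε : ℝ) (z : PhasePoint × Par P) : Idx P → PhasePoint :=
  Tree674.lines Φ ε P z.1 z.2

/-- Exit times. -/
def beT (n : ℕ) (P : CTree) (z : PhasePoint × Par P) : Fin n ⊕ Idx P → ℝ :=
  Sum.elim (fun _ => 0) fun i => TreeLines335.rel P z.2 i

/-- Real contacts of the tree. -/
abbrev RT (Φ : Space3 → ℝ) (T ε : ℝ) (z : PhasePoint × Par P) (w : Config n) :
    ℝ → Fin n ⊕ Idx P → Fin n ⊕ Idx P → Prop :=
  LNFam255.RC' (gsys Φ T ε n (bT P)) (Sum.elim w (zT Φ ε z)) (pS n (Idx P))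

theorem gsys_o (b : Idx P → ℝ) (j : Fin n ⊕ Idx P) : (gsys Φ T ε n b).o ≠ some j := by
  intro h
  have h1 : (none : Option (Fin n ⊕ Idx P)) = some j := h
  simp at h1

theorem treeInT (hV : Valid Φ ε P T z.1.2 z.2) (hS : Sep Φ ε P T z.1 z.2) :
    TreeIn (gsys Φ T ε n (bT P)) (Sum.elim w (zT Φ ε z)) T P z.1 z.2 (strE n (Idx P)) where
  b _ := le_rfl
  Z _ := rfl
  o _ := gsys_o _ _
  valid := hV
  sep := hS

variable (hΦ : AdmissiblePotential Φ) (hε : 0 < ε) (hT : 0 < T) (hc : 1 ≤ c)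
  (hV : Valid Φ ε P T z.1.2 z.2) (hS : Sep Φ ε P T z.1 z.2)
include hΦ hε hT hV hS

theorem clsT : Cls (gsys Φ T ε n (bT P)) (Sum.elim w (zT Φ ε z)) (pS n (Idx P)) (beT n P z) :=
  Cls.of_tree (M := gsys Φ T ε n (bT P)) hΦ hε hT (treeInT hV hS) fun _ => rfl

theorem baseT : Base (gsys Φ T ε n (bT P)) w (zT Φ ε z) (cl1 n (Idx P)) := by
  refine base_clOf (fun i => le_rfl) (fun i => gsys_o _ _) (fun x _ => gsys_o _ _) fun x _ => ?_
  have h1 : clOf n (fun _ : Idx P => some ()) (Sum.inr x) = pS n (Idx P) := by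
    ext j
    rw [mem_clOf, LNS674.mem_pS]
    simp
  rw [h1]
  exact (clsT hΦ hε hT hV hS).ok

theorem cl1_inr (x : Idx P) : cl1 n (Idx P) (Sum.inr x) = pS n (Idx P) := by
  ext j
  rw [mem_clOf, LNS674.mem_pS]
  simp

include hc

/-- **The lines of the tree as exits of one class.** -/
theorem oneT (hw : w ∈ PairExcluded ε n) : OneCls Φ T ε c (bT P) (zT Φ ε z) w (cl1 n (Idx P))
    (RT Φ T ε z w) (pS n (Idx P)) (beT n P z) (lineML Φ ε P z) (fun i : Idx P => i) where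
  one := ⟨baseT hΦ hε hT hV hS, hw, LNFam255.famC (M := gsys Φ T ε n (bT P))
    (clsT hΦ hε hT hV hS) hε hc⟩
  cls := clsT hΦ hε hT hV hS
  cl_eq x := cl1_inr hΦ hε hT hV hS x
  mem x := inr_mem_pS x
  inj := Function.injective_id
  birth x := rfl
  st x hx := by
    have h1 := (treeInT (n := n) (w := w) hV hS).line_tree (M := gsys Φ T ε n (bT P)) hΦ hε x
      le_rfl hx
    refine h1.trans ?_
    have h2 := onLine_back_self (lineML Φ ε P z x)
    rw [back_lineML] at h2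
    exact h2
  old j hj k hk hjk r hr := by
    have h1 := clsT (n := n) (w := w) hΦ hε hT hV hS
    exact ⟨hr.2.le h1 hr.1.2 hjk, hr.2.symm.le h1 hr.1.2 hjk.symm⟩

variable (hw : w ∈ PairExcluded ε n) (hok : MW.OkFam Φ ε (MW.cfg w) (lineML Φ ε P z))
include hw hok

/-- **The lines of the tree over the gas.** -/
theorem exitsT0 : Exits Φ T te ε (bT P) (zT Φ ε z) w (cl1 n (Idx P)) (RT Φ T ε z w) (MW.cfg w)
    (gasE n (Idx P)) (lineML Φ ε P z) (fun i : Idx P => i) :=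
  (oneT hΦ hε hT hc hV hS hw).exits0 hΦ hε hok

/-- **The other lines of the tree over the gas and the line `d`**, off the births. -/
theorem exitsT1 (hB : ∀ i : Idx P, (lineML Φ ε P z i).1.1 ≤ te →
      PW365.NoB Φ ε (MW.cfg w) (lineML Φ ε P z i)) (d : Idx P) :
    Exits Φ T te ε (bT P) (zT Φ ε z) w (cl1 n (Idx P)) (RT Φ T ε z w)
      ((MW.cfg w).ins (lineML Φ ε P z d)) (lab1 n d)
      (fun i : {i : Idx P // i ≠ d} => lineML Φ ε P z i.1)
      (fun i : {i : Idx P // i ≠ d} => i.1) :=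
  (oneT hΦ hε hT hc hV hS hw).exits1 hΦ hε hok d (hB d) fun x _ _ h2 => hB x h2

variable (hte : te ≤ T) (hℓς : 2 * (ρ * ε) ≤ ς) {T₁ : ℝ} (hT₁ : T < T₁) {m : ℕ}
  (hN : P.leaves + 2 * K * (m + 2) ≤ N) {N' : ℕ} (hNN : N ≤ N')
  (hSA : ¬ X692.SAlt Φ T T₁ T c ρ ς ε K m N' (Finset.univ : Finset (Idx P)) (bT P) (zT Φ ε z) w)
include hte hℓς hT₁ hN hNN hSA

/-- (RA), base `w`. -/
theorem reachAllT0 (i : Idx P) :
    ReachAll (Reach (gsys Φ T ε n (bT P)) c (Sum.elim w (zT Φ ε z)) (LS n (Idx P))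
      (pS n (Idx P)) (Sum.inr i) N) Φ ε K te (MW.cfg w) (gasE n (Idx P)) (lineML Φ ε P z i)
      (Sum.inr i) :=
  reachAll_of_salt (oneT hΦ hε hT hc hV hS hw).one (exitsT0 hΦ hε hT hc hV hS hw hok (te := te))
    hΦ hε hT.le hte hc hℓς hT₁ ⟨root P, Finset.mem_univ _⟩ hNN hSA (fun i => ⟨i, rfl⟩)
    (by rw [card_idx]; exact hN) i

/-- (RA), base `w + d`. -/
theorem reachAllT1 (hB : ∀ i : Idx P, (lineML Φ ε P z i).1.1 ≤ te →
      PW365.NoB Φ ε (MW.cfg w) (lineML Φ ε P z i)) (d : Idx P) (i : Idx P) (hid : i ≠ d) :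
    ReachAll (Reach (gsys Φ T ε n (bT P)) c (Sum.elim w (zT Φ ε z)) (LS n (Idx P))
      (pS n (Idx P)) (Sum.inr i) N) Φ ε K te ((MW.cfg w).ins (lineML Φ ε P z d)) (lab1 n d)
      (lineML Φ ε P z i) (Sum.inr i) :=
  reachAll_of_salt (oneT hΦ hε hT hc hV hS hw).one
    (exitsT1 hΦ hε hT hc hV hS hw hok (te := te) hB d)
    hΦ hε hT.le hte hc hℓς hT₁ ⟨root P, Finset.mem_univ _⟩ hNN hSA (fun i => ⟨Sum.inl i, rfl⟩)
    (by rw [card_idx]; exact hN) ⟨i, hid⟩

end Crest.Agent.R122.LNTree515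

end
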