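import Crest.Agent.R122.LNS2_674
import Crest.Agent.R122.LNReachGD_818

/-!
# Row 122, LN1 (helper674): reachability for the exits of one structure, conclusion

* `Exits.gasW` : the pasts of gas labels.
* `One.runS_of_runD` : a run from a group of labels is a run of the structure.
* `One.reachAll_or_run` : everything which an exit influences is reached, or there is a run.
* `One.pairNL_or_run`, `One.pairNL` : exits of one structure are pairwise unlinked off the bad events.
-/

set_option autoImplicit false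
set_option linter.unusedSectionVars false

open MeasureTheory Set Filter Topology
open scoped NNReal ENNReal
open Crest.AnalysisR.Kinetic
open Crest.Agent.R122.Loc45 Crest.Agent.R122.Ins45 Crest.Agent.R122.EDefs602
open Crest.Agent.R122.VL581 Crest.Agent.R122.VL581.VSys Crest.Agent.R122.VLInst442
open Crest.Agent.R122.LN304 Crest.Agent.R122.LNg410 Crest.Agent.R122.LNEv968
open Crest.Agent.R122.PWGlue491 Crest.Agent.R122.PWInst442 Crest.Agent.R122.LNPart424
open Crest.Agent.R122.MWFam255 Crest.Agent.R122.LNEv818 Crest.Agent.R122.LinkD331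
open Crest.Agent.R122.Causal291
open scoped Classical

noncomputable section

namespace Crest.Agent.R122.LNS674

variable {σ : Type} [Fintype σ] {n : ℕ} {ι μ : Type} [Fintype ι] {Φ : Space3 → ℝ}
  {T te ε c ℓ ς : ℝ} {b : σ → ℝ} {V : σ → PhasePoint} {w : Config n}
  {cl : Fin n ⊕ σ → Finset (Fin n ⊕ σ)} {R : ℝ → Fin n ⊕ σ → Fin n ⊕ σ → Prop} {W : MW ι}
  {f : ι ↪ Fin n ⊕ σ} {ls : μ → ML} {p : μ → σ} {K N m : ℕ}

theorem card_uni : (uni (LS n σ)).card = Fintype.card σ := by
  rw [uni_LS, Finset.card_map, Finset.card_univ]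

/-- Gas labels. -/
abbrev gE (n : ℕ) (σ : Type) : Fin n ↪ Fin n ⊕ σ := ⟨Sum.inl, Sum.inl_injective⟩

theorem gas_iff {j : Fin n ⊕ σ} : j ∉ uni (LS n σ) ↔ ∃ i, j = Sum.inl i := by
  rw [uni_LS]
  constructor
  · intro hj
    rcases j with j | j
    · exact ⟨j, rfl⟩
    · exact absurd (inr_mem_pS j) hj
  · rintro ⟨i, rfl⟩
    exact inl_not_mem_pS i

/-- A gas label which is not a label of the derived world has no contacts. -/
theorem not_cg {ν : Type} [Fintype ν] {U : MW ν} {g : ν ↪ Fin n ⊕ σ}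
    (h : One Φ T ε c b V w cl R) {s : ℝ} {i : Fin n} {k : Fin n ⊕ σ}
    (hi : ∀ x, g x ≠ Sum.inl i) (hc : CG (gsys Φ T ε n b) (Sum.elim w V) cl (bD U g) (labs g)
      (XD U g Φ ε) s (Sum.inl i) k) : False := by
  obtain ⟨_, _, h1, _⟩ := hc
  rcases h1 with ⟨h1, _⟩ | ⟨h1, _⟩
  · obtain ⟨x, hx⟩ := (mem_labs g).1 h1.1
    exact hi x hx
  · rw [h.base.gas_cl] at h1
    exact absurd h1 (Finset.notMem_empty _)

namespace Exits

variable (E : Exits Φ T te ε b V w cl R W f ls p)
include E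

/-- The data of helper818. -/
theorem gd2 (x : μ) : GD2 (gsys Φ T ε n b) (Sum.elim w V) cl W (ls x) f (Sum.inr (p x))
    (E.out x) where
  g0 := E.gd0
  g1 := E.gd1 x
  ok := E.ok0
  okA := E.ok1 x

/-- Contacts and pasts of gas labels. -/
theorem gasW (h : One Φ T ε c b V w cl R) (hΦ : AdmissiblePotential Φ) (hε : 0 < ε) (x : μ) :
    GasW (gsys Φ T ε n b) (E.C x) (LS n σ) W (ls x) f (Sum.inr (p x)) where
  gas β s j k hjk hj hc := by
    obtain ⟨i, rfl⟩ := gas_iff.1 hj
    by_cases hi : ∃ y, f y = Sum.inl i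
    · obtain ⟨y, hy⟩ := hi
      rw [← hy] at hc hjk ⊢
      have h1 : cl (f y) = ∅ := by rw [hy]; exact h.base.gas_cl i
      have h2 : (gsys Φ T ε n b).b (f y) ≤ 0 := by rw [hy]; exact le_rfl
      cases β
      · exact cl_of_cg_gas (M := gsys Φ T ε n b) E.gd0 h1 h2 hjk hc
      · exact cl_of_cg_gas (M := gsys Φ T ε n b) (x := Sum.inl y) (E.gd1 x) h1 h2 hjk hc
    · push Not at hi
      exfalso
      cases β
      · exact not_cg h hi hc
      · refine not_cg h (g := insF f (Sum.inr (p x)) (E.out x)) (U := W.ins (ls x)) (fun y => ?_) hc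
        rcases y with y | y
        · exact hi y
        · exact fun h' => by cases h'
  un β r k hr hk hF := by
    by_cases hi : ∃ y, f y = k
    · obtain ⟨y, rfl⟩ := hi
      exact (E.gd2 x).unM hΦ hε hr y hF β
    · push Not at hi
      obtain ⟨i, rfl⟩ := gas_iff.1 hk
      have key : ∀ β, BC (cmL (gsys Φ T ε n b) W (ls x) f (Sum.inr (p x)) β) r
          (Sum.inl i : Fin n ⊕ σ) ⊆ {Sum.inl i} := by
        intro β y hy
        have key2 : ∀ (s : ℝ) (y : Fin n ⊕ σ),
            Past (cmL (gsys Φ T ε n b) W (ls x) f (Sum.inr (p x)) β) r (Sum.inl i) s y →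
              y = Sum.inl i := by
          intro s y hy
          induction hy with
          | root _ => rfl
          | @step s s' j k' _ hc _ ih =>
            subst ih
            exfalso
            cases β
            · obtain ⟨a1, _, _, h2, _⟩ := hc
              exact hi a1 h2
            · obtain ⟨a1, _, _, h2, _⟩ := hc
              rcases a1 with a1 | a1
              · exact hi a1 h2
              · cases h2
        exact key2 0 y hy
      have key' : ∀ β, BC (cmL (gsys Φ T ε n b) W (ls x) f (Sum.inr (p x)) β) r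
          (Sum.inl i : Fin n ⊕ σ) = {Sum.inl i} := by
        intro β
        refine Subset.antisymm (key β) ?_
        rintro y rfl
        exact Past.root hr
      rw [key', key']

end Exits

/-- A run from a group of labels is a run of the structure. -/
theorem One.runS_of_runD (h : One Φ T ε c b V w cl R)
    (hX : Ctx (gsys Φ T ε n b) c ℓ ς (Sum.elim w V) (LS n σ) N) (hN : Fintype.card σ ≤ N) {x : σ}
    (hR : RunD (gsys Φ T ε n b) (Sum.elim w V) (pS n σ) (Sum.inr x) K m w) :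
    Gate424.RunS Φ ε T K m b V w := by
  obtain ⟨D, hD, ha, hR⟩ := hR
  have hTL := hX.nb (pS n σ) h.conn ⟨_, mem_LS.2 rfl, subset_rfl⟩ (by
    refine (Finset.card_le_card (t := pS n σ) fun j hj => ?_).trans
      ((Finset.card_map _).le.trans (Finset.card_univ.le.trans hN))
    rcases (@Finset.mem_union _ (fun a b => Classical.propDecidable _) _ _ _).1 hj with h1 | h1
    · exact h1
    · rwa [uni_LS] at h1)
  set D' : Finset σ := Finset.univ.filter fun y => (Sum.inr y : Fin n ⊕ σ) ∈ D with hD'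
  have hx : x ∈ D' := Finset.mem_filter.2 ⟨Finset.mem_univ _, ha⟩
  refine ⟨D', ⟨x, hx⟩, hR D' (Gate424.sMW b V D') ⟨fun y => Sum.inr y.1, fun y z hyz =>
    Subtype.ext (Sum.inr_injective hyz)⟩ ⟨x, hx⟩ ?_ rfl⟩
  refine ⟨fun y => rfl, fun y => rfl, fun y h' => ?_, fun j => ⟨fun hj => ?_, ?_⟩, hTL.1 _ hD⟩
  · have h1 : (none : Option (Fin n ⊕ σ)) = some _ := h'
    exact absurd h1 (by simp)
  · obtain ⟨y, rfl⟩ := mem_pS.1 (hD hj)
    exact ⟨⟨y, Finset.mem_filter.2 ⟨Finset.mem_univ _, hj⟩⟩, rfl⟩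
  · rintro ⟨y, rfl⟩
    exact (Finset.mem_filter.1 y.2).2

/-- **(RA) for one structure**: a run, or everything which is cleanly influenced by an exit up to the
touch time is reached. -/
theorem One.reachAll_or_run (h : One Φ T ε c b V w cl R)
    (E : Exits Φ T te ε b V w cl R W f ls p) (hT0 : 0 ≤ T) (hte : te ≤ T)
    (hX : Ctx (gsys Φ T ε n b) c ℓ ς (Sum.elim w V) (LS n σ) N) (x : μ)
    (hH : ∀ β, ¬ BadHit (gsys Φ T ε n b) c (Sum.elim w V) (E.X x β) (E.C x β) (LS n σ) N)
    (hN : Fintype.card σ + 2 * K * (m + 2) ≤ N) :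
    Gate424.RunS Φ ε T K m b V w ∨
      ReachAll (Reach (gsys Φ T ε n b) c (Sum.elim w V) (LS n σ) (pS n σ) (Sum.inr (p x))
        (Fintype.card σ + 2 * K * (m + 2))) Φ ε K te W f (ls x) (Sum.inr (p x)) := by
  have hN' : (uni (LS n σ)).card + 2 * K * (m + 2) ≤ N := by rw [card_uni]; exact hN
  rcases LNEv818.reachAll_or_run (E.bindW h hX.hΦ hX.hε hte x) (E.twoW h hT0 hX x hH)
    (E.gasW h hX.hΦ hX.hε x) (w := w) (g := gE n σ) (fun _ => rfl) (fun _ => rfl)
    (fun i h' => by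
      have h1 : (none : Option (Fin n ⊕ σ)) = some _ := h'
      exact absurd h1 (by simp))
    (fun i hi => by
      obtain ⟨j, rfl⟩ := gas_iff.1 hi
      exact ⟨j, rfl⟩) m hN' with h1 | h1
  · exact Or.inl (h.runS_of_runD hX (by omega) h1)
  · rw [card_uni] at h1
    exact Or.inr h1

/-- **Exits of one structure are pairwise unlinked**, or there is a run. -/
theorem One.pairNL_or_run [Fintype μ] (h : One Φ T ε c b V w cl R)
    (E : Exits Φ T te ε b V w cl R W f ls p) (hT0 : 0 ≤ T) (hte : te ≤ T) {N₁ : ℕ}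
    (hX : Ctx (gsys Φ T ε n b) c ℓ ς (Sum.elim w V) (LS n σ) N₁)
    (hH : ∀ x β, ¬ BadHit (gsys Φ T ε n b) c (Sum.elim w V) (E.X x β) (E.C x β) (LS n σ) N₁)
    (hN : (Fintype.card σ + 2 * K * (m + 2)) + (Fintype.card σ + 2 * K * (m + 2)) ≤ N₁) :
    Gate424.RunS Φ ε T K m b V w ∨ PairNL Φ ε K te W ls := by
  by_cases hR : Gate424.RunS Φ ε T K m b V w
  · exact Or.inl hR
  refine Or.inr (h.pairNL_of_reachAll E hX.hΦ hX.hε hte hX (fun x => ?_)
    (N := Fintype.card σ + 2 * K * (m + 2)) (fun x => ?_) hN ?_)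
  · have h1 := (E.gd1 x).rw hX.hΦ hX.hε hT0
    exact ⟨h1, LNW291.wcore (M := gsys Φ T ε n b) hX.hΦ hX.hε h1 hX.hc hX.hℓς, hH x true⟩
  · exact (h.reachAll_or_run E hT0 hte hX x (hH x) (by omega)).resolve_left hR
  · have h1 : 2 * K * (m + 2) = 2 * K * m + 4 * K := by ring
    omega

/-- **Exits of one structure are pairwise unlinked off the bad events** (`T'` : horizon of the bad
events, `te` : horizon of the lines). -/
theorem One.pairNL [Fintype μ] (h : One Φ T ε c b V w cl R)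
    (E : Exits Φ T te ε b V w cl R W f ls p) (hΦ : AdmissiblePotential Φ) (hε : 0 < ε)
    (hT0 : 0 ≤ T) (hte : te ≤ T) (hc : 1 ≤ c) {T' Te T₁ ρ ς : ℝ} (hρ : 2 * (ρ * ε) ≤ ς)
    (hT : T ≤ T') (hTe : T' ≤ Te) (hT₁ : Te < T₁) {N₁ : ℕ} {A₀ : Finset σ} (hA : A₀.Nonempty)
    (hN : (Fintype.card σ + 2 * K * (m + 2)) + (Fintype.card σ + 2 * K * (m + 2)) ≤ N₁)
    (hB : ¬ LN2.BadGas Φ T' c ρ ς ε N₁ 1 A₀ b V w)
    (hBH : ¬ BH167.BadHitGas (BH167.bpos Φ T₁ Te) Φ T' c 1 ε N₁ N₁ 1 A₀ b V w)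
    (hR : ¬ Gate424.RunS Φ ε T K m b V w) : PairNL Φ ε K te W ls := by
  have hX := h.ctx hΦ hε hc hρ hT hA hB
  refine (h.pairNL_or_run E hT0 hte hX (fun x β => ?_) hN).resolve_left hR
  cases β
  · exact (h.wd hΦ hε hT0 hc hρ hT hTe hT₁ hA hBH E.gd0).bh
  · exact (h.wd hΦ hε hT0 hc hρ hT hTe hT₁ hA hBH (E.gd1 x)).bh

end Crest.Agent.R122.LNS674

end
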