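import Crest.Agent.R122.XShape_692
import Crest.Agent.R122.XGood_547

/-!
# Row 122, LN1, independent lines (helper692): the deterministic alternative, generic

A structure (births `b`, states `z`, labels `S`) in ONE part, an independent line `x`, a base world
`Y` with labels `f` in the gas and the structure, a family of exit lines `ls` with labels `p`.

* `Mx`, `Zx` : the master system of the gas, the structure and the line, its configuration.
* `ReachS`, `ReachX` : everything influenced by an exit line, by the line `x`, is reached.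
* `HitG` : `BadHit` of some glued world over `Mx`.
* `SAlt.mono`, `XAlt.mono`, `JAlt.mono`.
* `x_good` : no link of an exit line with `x`, no return of `x` to tubes of the structure, from
  `ReachS`, `ReachX` and `¬ Joint`.
* `x_alt` : `x` is good, or `SAlt ∨ XAlt ∨ JAlt`.
-/

set_option autoImplicit false
set_option linter.unusedSectionVars false

open MeasureTheory Set
open scoped Classical ENNReal
open Crest.AnalysisR.Kinetic
open Crest.Agent.R122.VL581 Crest.Agent.R122.VLMeas973 Crest.Agent.R122.LNg410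
open Crest.Agent.R122.LN304 Crest.Agent.R122.LNBridge968 Crest.Agent.R122.LNPart424
open Crest.Agent.R122.EDefs602 Crest.Agent.R122.PWGlue491 Crest.Agent.R122.BH167
open Crest.Agent.R122.LNEv968 Crest.Agent.R122.LNEv818 Crest.Agent.R122.LNEv383
open Crest.Agent.R122.GIV566

noncomputable section

namespace Crest.Agent.R122.X692

variable {Φ : Space3 → ℝ} {t T te T₁ ε c C R ς : ℝ} {S : Type} [Fintype S] {n : ℕ} {b : S → ℝ}
  {z : S → PhasePoint} {w : Config n} {N N' K L : ℕ} {x : ML} {A₀ : Finset S}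

/-! ### Monotonicity -/

theorem badGas_monoN {κ : Type} [Fintype κ] {s : ℕ} {A₀ : Finset κ} {b : κ → ℝ}
    {z : κ → PhasePoint} (hN : N ≤ N') (h : LN2.BadGas Φ T C R ς ε N s A₀ b z w) :
    LN2.BadGas Φ T C R ς ε N' s A₀ b z w := by
  obtain ⟨k, hk, h⟩ := h
  exact ⟨k, hk.trans hN, h⟩

theorem SAlt.mono (hε : 0 ≤ ε) (hN : N ≤ N') (h : SAlt Φ T T₁ t C R ς ε K L N A₀ b z w) :
    SAlt Φ T T₁ t C R ς ε K L N' A₀ b z w :=
  h.imp id (Or.imp (badGas_monoN hN) (badHitGas_mono hε le_rfl hN hN))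

theorem XAlt.mono (hε : 0 ≤ ε) (hN : N ≤ N') (h : XAlt Φ T T₁ t C R ς ε K L N x w) :
    XAlt Φ T T₁ t C R ς ε K L N' x w :=
  h.imp id (Or.imp (badGas_monoN hN) (badHitGasN_mono hε le_rfl hN hN le_rfl))

theorem JAlt.mono (hN : N ≤ N') (h : JAlt Φ T C R ς ε N A₀ b z x w) :
    JAlt Φ T C R ς ε N' A₀ b z x w := badGas_monoN hN h

/-! ### The system -/

/-- The master system of the gas, the structure and the line `x`. -/
abbrev Mx (Φ : Space3 → ℝ) (t ε : ℝ) (n : ℕ) (b : S → ℝ) (x : ML) :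
    VSys (Fin n ⊕ (S ⊕ Unit)) Unit := gsys Φ t ε n (bx b x.1.1)

/-- Its configuration at time `0`. -/
abbrev Zx (w : Config n) (z : S → PhasePoint) (x : ML) : Fin n ⊕ (S ⊕ Unit) → PhasePoint :=
  Sum.elim w (zx z (back x.1))

/-- `BadHit` of some glued world over the gas, the structure and the line. -/
def HitG (Φ : Space3 → ℝ) (t c ε : ℝ) (N : ℕ) (b : S → ℝ) (z : S → PhasePoint) (w : Config n)
    (x : ML) : Prop :=
  ∃ (Sp : Fin n ⊕ (S ⊕ Unit) → Finset (Fin n ⊕ (S ⊕ Unit))) (bD : Fin n ⊕ (S ⊕ Unit) → ℝ)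
    (A : Finset (Fin n ⊕ (S ⊕ Unit))) (XD : ℝ → Fin n ⊕ (S ⊕ Unit) → PhasePoint),
    GD (Mx Φ t ε n b x) (Zx w z x) Sp bD A XD ∧ (∀ i : Fin n, Sp (Sum.inl i) = ∅) ∧
      BadHit (Mx Φ t ε n b x) c (Zx w z x) (XG (Mx Φ t ε n b x) (Zx w z x) Sp bD A XD)
        (CG (Mx Φ t ε n b x) (Zx w z x) Sp bD A XD) (Lx (piS n S) (px n S)) N

/-- **Alternatives of the reachability of the line `x`.** -/
def XRes (Φ : Space3 → ℝ) (t c R ς ε : ℝ) (K L N : ℕ) (b : S → ℝ) (z : S → PhasePoint)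
    (w : Config n) (x : ML) : Prop :=
  LinkM547.Run Φ ε t K L (MW.line x) () w ∨
    ¬ NoBad (Mx Φ t ε n b x) c (R * ε) ς (Zx w z x) (Lx (piS n S) (px n S)) N ∨
    ¬ NoTwo (Mx Φ t ε n b x) c (Zx w z x) (Lx (piS n S) (px n S)) N ∨ HitG Φ t c ε N b z w x

theorem XRes.alt (hΦ : AdmissiblePotential Φ) (hε : 0 < ε) (htT : t ≤ T) (hT₁ : T < T₁)
    (hA₀ : A₀.Nonempty) (hP : Parts (Mx Φ t ε n b x) c (Zx w z x) (Lx (piS n S) (px n S)))
    (h : XRes Φ t c R ς ε K L N b z w x) :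
    SAlt Φ T T₁ t c R ς ε K L N A₀ b z w ∨ XAlt Φ T T₁ t c R ς ε K L N x w ∨
      JAlt Φ T c R ς ε N A₀ b z x w := by
  refine alt_of_not hΦ hε htT hT₁ hA₀ hP ?_
  rcases h with h | h | h | h
  · exact Or.inr (Or.inr (Or.inr (Or.inr h)))
  · exact Or.inl h
  · exact Or.inr (Or.inl h)
  · exact Or.inr (Or.inr (Or.inl h))

/-- The parts of the gas, the structure and the line. -/
theorem parts_x (hw : w ∈ PairExcluded ε n)
    (hc : (Mx Φ t ε n b x).Conn c (piS n S) (Zx w z x)) :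
    Parts (Mx Φ t ε n b x) c (Zx w z x) (Lx (piS n S) (px n S)) := by
  refine parts_Lx hc (fun i _ _ h => ?_) (fun i hi hi' => ?_) fun i j hi hi' hj hj' hij => ?_
  · have h1 : (none : Option (Fin n ⊕ (S ⊕ Unit))) = some _ := h
    exact absurd h1 (by simp)
  · rcases i with i | i | i
    · exact le_rfl
    · exact absurd (mem_piS.2 ⟨i, rfl⟩) hi
    · exact absurd rfl hi'
  · rcases i with i | i | i
    · rcases j with j | j | j
      · exact hw i j fun h => hij (by rw [h])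
      · exact absurd (mem_piS.2 ⟨j, rfl⟩) hj
      · exact absurd rfl hj'
    · exact absurd (mem_piS.2 ⟨i, rfl⟩) hi
    · exact absurd rfl hi'

/-- The structure is connected in the large system if it is in the small one. -/
theorem conn_x (hΦ : AdmissiblePotential Φ) (hε : 0 < ε)
    (h : (gsys Φ t ε n b).Conn c (Finset.univ.map ⟨Sum.inr, Sum.inr_injective⟩) (Sum.elim w z)) :
    (Mx Φ t ε n b x).Conn c (piS n S) (Zx w z x) := by
  have hpull := pull_eS (Φ := Φ) (T := t) (ε := ε) (n := n) b x.1.1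
  have h1 : piS n S = (Finset.univ.map ⟨Sum.inr, Sum.inr_injective⟩ :
      Finset (Fin n ⊕ S)).map (eS n S) := by
    ext j
    rw [mem_piS, Finset.mem_map]
    constructor
    · rintro ⟨y, rfl⟩
      exact ⟨Sum.inr y, Finset.mem_map.2 ⟨y, Finset.mem_univ _, rfl⟩, rfl⟩
    · rintro ⟨y, hy, rfl⟩
      obtain ⟨y, _, rfl⟩ := Finset.mem_map.1 hy
      exact ⟨y, rfl⟩
  rw [h1]
  refine (hpull.conn hΦ hε).2 ?_
  rw [elim_eS]
  exact h

section base

variable {ι μ ξ : Type} [Fintype ι] {Y : MW ι} {f : ι → Fin n ⊕ S} {l : ML} {q : S}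
  {ls : μ → ML} {p : μ → S} {O : Tubes ξ} {m : ξ → Fin n ⊕ (S ⊕ Unit)}

/-- Everything which is influenced by the exit line `l` with the label `q` is reached. -/
def ReachS (Φ : Space3 → ℝ) (t c ε u₀ : ℝ) (K N : ℕ) (b : S → ℝ) (z : S → PhasePoint)
    (w : Config n) (x : ML) (Y : MW ι) (f : ι → Fin n ⊕ S) (l : ML) (q : S) : Prop :=
  ReachAll (Reach (Mx Φ t ε n b x) c (Zx w z x) (Lx (piS n S) (px n S)) (piS n S)
    (Sum.inr (Sum.inl q)) N) Φ ε K u₀ Y (fun i => eS n S (f i)) l (Sum.inr (Sum.inl q))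

/-- Everything which is influenced by the independent line is reached. -/
def ReachX (Φ : Space3 → ℝ) (t c ε u₀ : ℝ) (K N : ℕ) (b : S → ℝ) (z : S → PhasePoint)
    (w : Config n) (x : ML) (Y : MW ι) (f : ι → Fin n ⊕ S) : Prop :=
  ReachAll (Reach (Mx Φ t ε n b x) c (Zx w z x) (Lx (piS n S) (px n S)) {px n S} (px n S) N)
    Φ ε K u₀ Y (fun i => eS n S (f i)) x (px n S)

/-- **The line is good**: no link, no return. -/
theorem x_good (hΦ : AdmissiblePotential Φ) (hε : 0 < ε) (hu : te ≤ t) (h1c : 1 ≤ c)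
    (hc : (Mx Φ t ε n b x).Conn c (piS n S) (Zx w z x)) (hf : Function.Injective f)
    (hS : ∀ i, ReachS Φ t c ε te K N b z w x Y f (ls i) (p i))
    (hX : ReachX Φ t c ε te K N b z w x Y f)
    (hJ : ¬ Joint (Mx Φ t ε n b x) c (Zx w z x) (piS n S) (px n S) (N + N))
    (hO : TubeOf (Mx Φ t ε n b x) (Zx w z x) (Lx (piS n S) (px n S)) O te
      (fun _ => piS n S) m) :
    (∀ i, MW.NoLink Φ ε K te Y (MW.line (ls i)) (MW.line x)) ∧ ¬ RetC Φ ε ε K te Y x O := by
  have hf' : Function.Injective fun i => eS n S (f i) := (eS n S).injective.comp hf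
  refine ⟨fun i => ?_, ?_⟩
  · exact XG547.noLink_x (M := Mx Φ t ε n b x) (q := Sum.inr (Sum.inl (p i))) hΦ hε rfl hu h1c hc
      (mem_piS.2 ⟨p i, rfl⟩) px_notMem_piS hJ hf' (hS i) hX
  · refine XG547.not_retC_x (M := Mx Φ t ε n b x) (N := N) hΦ hε hu ?_ hc px_notMem_piS
      (fun h => hJ (h.mono (Nat.le_add_right _ _))) hO hX
    show ε ≤ c * ε
    nlinarith

/-- **The deterministic alternative.** -/
theorem x_alt (hΦ : AdmissiblePotential Φ) (hε : 0 < ε) (hu : te ≤ t) (htT : t ≤ T) (hT₁ : T < T₁)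
    (h1c : 1 ≤ c) (hA₀ : A₀.Nonempty) (hw : w ∈ PairExcluded ε n)
    (hc : (Mx Φ t ε n b x).Conn c (piS n S) (Zx w z x)) (hf : Function.Injective f)
    (hS : (∀ i, ReachS Φ t c ε te K N b z w x Y f (ls i) (p i)) ∨
      SAlt Φ T T₁ t c R ς ε K L (N + N) A₀ b z w)
    (hX : ReachX Φ t c ε te K N b z w x Y f ∨ XRes Φ t c R ς ε K L (N + N) b z w x)
    (hO : TubeOf (Mx Φ t ε n b x) (Zx w z x) (Lx (piS n S) (px n S)) O te
      (fun _ => piS n S) m) :
    ((∀ i, MW.NoLink Φ ε K te Y (MW.line (ls i)) (MW.line x)) ∧ ¬ RetC Φ ε ε K te Y x O) ∨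
      SAlt Φ T T₁ t c R ς ε K L (N + N) A₀ b z w ∨ XAlt Φ T T₁ t c R ς ε K L (N + N) x w ∨
        JAlt Φ T c R ς ε (N + N) A₀ b z x w := by
  by_cases hJ : Joint (Mx Φ t ε n b x) c (Zx w z x) (piS n S) (px n S) (N + N)
  · exact Or.inr (Or.inr (Or.inr (jalt_of_joint hΦ hε htT hA₀ hJ)))
  rcases hS with hS | hS
  · rcases hX with hX | hX
    · exact Or.inl (x_good hΦ hε hu h1c hc hf hS hX hJ hO)
    · exact Or.inr (hX.alt hΦ hε htT hT₁ hA₀ (parts_x hw hc))
  · exact Or.inr (Or.inl hS)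

end base

end Crest.Agent.R122.X692

end
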