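import Crest.Agent.R122.LNReachGD_818
import Crest.Agent.R122.LNPartS3_291
import Crest.Agent.R122.PWBirth_365

/-!
# (RA) from admissible labels (row 122, EVENTS, helper818)

* `gd2_of_lab` : `GD2` from helper442's `Cover`, `Lab`.
* `PartData` : exit data of the part of the exit: one line, or a connecting family of real contacts.
* `PartData.partS`, `PartData.partD`.
* `cb2_of_gas` : clean births, base world without exits.
* `reachAll_of_lab` : (RA).
-/

set_option autoImplicit false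
set_option linter.unusedSectionVars false

open MeasureTheory Set Filter Topology
open Crest.AnalysisR.Kinetic
open Crest.Agent.R122.GIV566 Crest.Agent.R122.VL581 Crest.Agent.R122.LNg410
open Crest.Agent.R122.Causal291 Crest.Agent.R122.VLInst442 Crest.Agent.R122.LNEv968
open Crest.Agent.R122.LN304 Crest.Agent.R122.LinkD331
open Crest.Agent.R122.Ins45 Crest.Agent.R122.EDefs602
open Crest.Agent.R122.MWFam255 Crest.Agent.R122.Inf879
open Crest.Agent.R122.PWGlue491 Crest.Agent.R122.PWInst442 Crest.Agent.R122.PW365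
open scoped Classical

noncomputable section

namespace Crest.Agent.R122.LNEv818

variable {J κ ι : Type} [Fintype J] [Fintype ι] {M : VSys J κ} {c ℓ ς : ℝ} {Z : J → PhasePoint}
  {cl : J → Finset J} {W : MW ι} {l : ML} {f : ι ↪ J} {a : J} {ha : ∀ i, f i ≠ a}
  {Λ : Finset (Finset J)} {π : Finset J} {N K m : ℕ} {T : ℝ}

/-- The glued worlds of admissible labels. -/
theorem gd2_of_lab (hΦ : AdmissiblePotential M.Φ) (hε : 0 < M.ε) (hC : Cover M Z cl)
    (hW : W.Ok M.Φ M.ε) (hWl : (W.add (MW.line l)).Ok M.Φ M.ε)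
    (hL : ∀ i, Lab M Z cl (f i) (W.b i) (W.z i)) (hl : Lab M Z cl a l.1.1 (back l.1)) :
    GD2 M Z cl W l f a ha :=
  ⟨gd_of_lab hΦ hε hC hW hL,
    gd_of_lab (W := W.add (MW.line l)) hΦ hε hC hWl fun i => lab_ins hL ha hl i, hW, hWl⟩

/-- **Exit data** of the part `π` of the exit `a`: the part is one line, or its real contacts are a
connecting family, in which the pairs of two exits of the derived world are contacts of their common
class before the hand-over. -/
def PartData (M : VSys J κ) (c : ℝ) (Z : J → PhasePoint) (cl : J → Finset J) (W : MW ι) (l : ML)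
    (f : ι ↪ J) (a : J) (ha : ∀ i, f i ≠ a) (π : Finset J) : Prop :=
  π = {a} ∨ ((∀ i ∈ π, cl i ⊆ π) ∧ (∀ i, insF f a ha i ∈ π → (cl (insF f a ha i)).Nonempty) ∧
    ∃ R : ℝ → J → J → Prop, LNEv968.Fam M c Z π R ∧
      ∀ i i' : ι ⊕ Unit, insF f a ha i ∈ π → insF f a ha i' ∈ π → i ≠ i' →
        ∀ r, R r (insF f a ha i) (insF f a ha i') →
          insF f a ha i' ∈ cl (insF f a ha i) ∧ r ≤ (W.add (MW.line l)).b i)

namespace PartData

variable (h : PartData M c Z cl W l f a ha π) (G : GD2 M Z cl W l f a ha)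
include h G

theorem partS (b : Bool) : PartS M c Z (Cb M Z cl W l f a ha b) π := by
  rcases h with h | ⟨h1, h2, R, h3, h4⟩
  · rw [h]
    exact LNPartS291.partS_singleton a
  · cases b
    · exact LNPartS291.partS_lab G.g0 h1 (fun i hi => h2 (Sum.inl i) hi) h3
        fun i i' hi hi' hne r hr => h4 (Sum.inl i) (Sum.inl i') hi hi'
          (fun h => hne (Sum.inl_injective h)) r hr
    · exact LNPartS291.partS_lab G.g1 h1 h2 h3 h4

theorem partD (hΦ : AdmissiblePotential M.Φ) (hε : 0 < M.ε) (hT : 0 ≤ M.T) (haπ : a ∈ π) :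
    PartD M c Z (Cb M Z cl W l f a ha true) (cmL M W l f a true) π a := by
  rcases h with h | ⟨h1, h2, R, h3, h4⟩
  · rw [h]
    exact LNPartS291.partD_singleton a
  · exact LNPartS291.partD_lab G.g1 hΦ hε hT h3 h4 haπ

end PartData

/-- Clean births, base world without exits. -/
theorem cb2_of_gas (G : GD2 M Z cl W l f a ha) (hg : ∀ i, cl (f i) = ∅) (hb : ∀ i, W.b i ≤ 0)
    (T : ℝ) : CB2 M Z cl W l f a ha T :=
  ⟨cleanB_gas G.g0 hg T, cleanB_ins (Z := W) (a := l) (f := insF f a ha) G.g1 hg hb T⟩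

/-- **(RA) from admissible labels.** -/
theorem reachAll_of_lab [Nonempty κ] (hΦ : AdmissiblePotential M.Φ) (hε : 0 < M.ε)
    (hT0 : 0 ≤ M.T) (hTM : T ≤ M.T) (hc : 1 ≤ c) (hℓς : 2 * ℓ ≤ ς) (G : GD2 M Z cl W l f a ha)
    (hCB : CB2 M Z cl W l f a ha T) (hΛ : ∀ j, cl j ⊆ uni Λ)
    (hm : ∀ k, f k ∉ uni Λ → 1 ≤ W.m k) (hP : Parts M c Z Λ) (hNB : NoBad M c ℓ ς Z Λ N)
    (hNT : NoTwo M c Z Λ N)
    (hBH : ∀ b, ¬ BadHit M c Z (Xb M Z cl W l f a ha b) (Cb M Z cl W l f a ha b) Λ N)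
    (hπ : π ∈ Λ) (haπ : a ∈ π) (hPart : PartData M c Z cl W l f a ha π) {n : ℕ}
    {w : Config n} {g : Fin n ↪ J} (hw : ∀ i, w i = Z (g i)) (hgb : ∀ i, M.b (g i) = 0)
    (hgo : ∀ i, M.o ≠ some (g i)) (hgas : ∀ i, i ∉ uni Λ → i ∈ range g)
    (hgf : ∀ i, ∃ k, f k = g i) (m : ℕ) (hN : (uni Λ).card + 2 * K * (m + 2) ≤ N) :
    RunD M Z π a K m w ∨ ReachAll (Reach M c Z Λ π a N) M.Φ M.ε K T W f l a := by
  refine (G.reachAll_of_glue hΦ hε hT0 hTM hc hℓς hCB hΛ hm hP hNB hNT hBH hπ haπ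
    (hPart.partS G) (hPart.partD G hΦ hε hT0 haπ) hw hgb hgo hgas hgf m hN).imp id ?_
  intro h u hu hθ x hx hb
  have h1 := h u hu hθ x hx hb
  have mono : ∀ {i : J} {v : ℝ} {q : Space3},
      Reach M c Z Λ π a ((uni Λ).card + 2 * K * (m + 2)) i v q → Reach M c Z Λ π a N i v q := by
    rintro i v q ⟨Y, hY, hi, h⟩
    exact ⟨Y, hY.mono hN, hi, h⟩
  exact ⟨mono h1.1, fun k hk => mono (h1.2 k hk)⟩

end Crest.Agent.R122.LNEv818

end
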