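import Crest.Agent.R122.XMap_547
import Crest.Agent.R122.PWInst3_442

/-!
# Row 122, LN1 (helper547): classes and admissible labels along an embedding of labels

`Pull M' M e` (helper968): `M'` is the master system `M` seen through the injection `e`.

* `clMap e cl'` : the classes of the image; `cover_map`, `lab_map`.
* `base_eS` : helper442's `Base` of the gas and a structure gives the `Base` of the gas, the structure
  and an independent line; `lab_eS` : admissible labels; `lab_px` : the line.
-/

set_option autoImplicit false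
set_option linter.unusedSectionVars false
set_option maxHeartbeats 400000

open MeasureTheory Set Filter Topology
open scoped ENNReal
open Crest.AnalysisR.Kinetic
open Crest.Agent.R122.EDefs602 Crest.Agent.R122.GIV566
open Crest.Agent.R122.VL581 Crest.Agent.R122.VL581.VSys Crest.Agent.R122.VLInst442
open Crest.Agent.R122.LNInst491 Crest.Agent.R122.LN304 Crest.Agent.R122.LNg410
open Crest.Agent.R122.LNBridge968 Crest.Agent.R122.LNPart424
open Crest.Agent.R122.PWGlue491 Crest.Agent.R122.PWInst442
open Crest.Agent.R122.Inf879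
open scoped Classical

noncomputable section

namespace Crest.Agent.R122.XG547

section map

variable {J J' κ : Type} [Fintype J] [Fintype J'] {M : VSys J κ} {M' : VSys J' κ} {e : J' ↪ J}
  {Z : J → PhasePoint} {cl' : J' → Finset J'}

/-- Classes of the image labels. -/
def clMap (e : J' ↪ J) (cl' : J' → Finset J') (j : J) : Finset J :=
  if h : ∃ i, e i = j then (cl' h.choose).map e else ∅

theorem clMap_apply (e : J' ↪ J) (cl' : J' → Finset J') (i : J') :
    clMap e cl' (e i) = (cl' i).map e := by
  have h : ∃ i', e i' = e i := ⟨i, rfl⟩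
  unfold clMap
  rw [dif_pos h, e.injective h.choose_spec]

theorem clMap_out {j : J} (h : ∀ i, e i ≠ j) : clMap e cl' j = ∅ := by
  unfold clMap
  rw [dif_neg]
  rintro ⟨i, hi⟩
  exact h i hi

theorem clMap_cases (e : J' ↪ J) (cl' : J' → Finset J') (j : J) :
    (∃ i, e i = j ∧ clMap e cl' j = (cl' i).map e) ∨ clMap e cl' j = ∅ := by
  by_cases h : ∃ i, e i = j
  · obtain ⟨i, rfl⟩ := h
    exact Or.inl ⟨i, rfl, clMap_apply e cl' i⟩
  · exact Or.inr (clMap_out fun i hi => h ⟨i, hi⟩)

/-- Classes along an embedding. -/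
theorem cover_map (h : Pull M' M e) (hΦ : AdmissiblePotential M.Φ) (hε : 0 < M.ε)
    (H : Cover M' (fun k => Z (e k)) cl') : Cover M Z (clMap e cl') where
  mem j hj := by
    rcases clMap_cases e cl' j with ⟨i, rfl, h1⟩ | h1
    · rw [h1] at hj ⊢
      exact Finset.mem_map_of_mem e (H.mem i (Finset.map_nonempty.1 hj))
    · rw [h1] at hj
      exact absurd hj Finset.not_nonempty_empty
  eq j k hk := by
    rcases clMap_cases e cl' j with ⟨i, rfl, h1⟩ | h1
    · rw [h1] at hk ⊢
      obtain ⟨k', hk', rfl⟩ := Finset.mem_map.1 hk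
      rw [clMap_apply, H.eq i k' hk']
    · rw [h1] at hk
      exact absurd hk (Finset.notMem_empty _)
  obs j k hk := by
    rcases clMap_cases e cl' j with ⟨i, rfl, h1⟩ | h1
    · rw [h1] at hk
      obtain ⟨k', hk', rfl⟩ := Finset.mem_map.1 hk
      exact fun h' => H.obs i k' hk' ((h.o k').2 h')
    · rw [h1] at hk
      exact absurd hk (Finset.notMem_empty _)
  ok j := by
    rcases clMap_cases e cl' j with ⟨i, rfl, h1⟩ | h1
    · rw [h1, h.ok hΦ hε, ← h.T]
      exact H.ok i
    · rw [h1]
      intro i hi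
      exact absurd hi (Finset.notMem_empty _)

/-- Admissible labels along an embedding. -/
theorem lab_map (h : Pull M' M e) (hΦ : AdmissiblePotential M.Φ) (hε : 0 < M.ε) {i : J'} {b : ℝ}
    {v : PhasePoint} (H : Lab M' (fun k => Z (e k)) cl' i b v) : Lab M Z (clMap e cl') (e i) b v := by
  rcases H with H | ⟨H, H2⟩
  · refine Or.inl ⟨?_, fun h' => H.o ((h.o i).2 h'), ?_, H.z⟩
    · rw [clMap_apply, H.cl, Finset.map_empty]
    · rw [← h.bb]
      exact H.b
  · refine Or.inr ⟨⟨?_, ?_, ?_, ?_⟩, ?_⟩
    · rw [clMap_apply]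
      exact Finset.mem_map_of_mem e H.mem
    · rw [← h.bb]
      exact H.bb_le
    · intro hb
      rw [clMap_apply, h.st hΦ hε]
      exact H.hand (by rwa [h.T])
    · intro t ht htT k hk hki hbk
      rw [clMap_apply] at hk ⊢
      obtain ⟨k, hk', rfl⟩ := Finset.mem_map.1 hk
      rw [h.st hΦ hε, h.st hΦ hε, ← h.ε]
      exact H.exit t ht (by rwa [h.T]) k hk' (fun h' => hki (by rw [h'])) (by rwa [h.bb])
    · intro hb
      rcases H2 (by rwa [h.T]) with h1 | ⟨k, hk, hki, hbk, hd⟩
      · exact Or.inl (by rw [h1, h.bb])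
      · refine Or.inr ⟨e k, ?_, fun h' => hki (e.injective h'), by rwa [← h.bb], ?_⟩
        · rw [clMap_apply]
          exact Finset.mem_map_of_mem e hk
        · rw [clMap_apply, h.st hΦ hε, h.st hΦ hε, ← h.ε]
          exact hd

end map

/-! ### The gas, a structure and an independent line -/

section gas

variable {Φ : Space3 → ℝ} {T ε : ℝ} {S : Type} [Fintype S] {n : ℕ} {b : S → ℝ}
  {z : S → PhasePoint} {w : Config n} {τ : ℝ} {y : PhasePoint}
  {cl : Fin n ⊕ S → Finset (Fin n ⊕ S)}

/-- The classes of the structure, with the label of an independent line added. -/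
def clX (n : ℕ) (S : Type) [Fintype S] (cl : Fin n ⊕ S → Finset (Fin n ⊕ S)) :
    Fin n ⊕ (S ⊕ Unit) → Finset (Fin n ⊕ (S ⊕ Unit)) := clMap (X692.eS n S) cl

theorem clX_inl (h : ∀ i : Fin n, cl (Sum.inl i) = ∅) (i : Fin n) : clX n S cl (Sum.inl i) = ∅ := by
  have h1 := clMap_apply (X692.eS n S) cl (Sum.inl i)
  rw [h i, Finset.map_empty] at h1
  exact h1

theorem clX_px : clX n S cl (X692.px n S) = ∅ := clMap_out fun i h => by
  rcases i with i | i
  · cases h
  · cases h

theorem clX_inr (s : S) : clX n S cl (Sum.inr (Sum.inl s)) = (cl (Sum.inr s)).map (X692.eS n S) :=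
  clMap_apply (X692.eS n S) cl (Sum.inr s)

/-- The base of the joint system. -/
theorem base_eS (hΦ : AdmissiblePotential Φ) (hε : 0 < ε)
    (H : Base (gsys Φ T ε n b) w z cl) :
    Base (gsys Φ T ε n (X692.bx b τ)) w (X692.zx z y) (clX n S cl) where
  gas_b i := H.gas_b i
  gas_o i h := by
    have h1 : (none : Option (Fin n ⊕ (S ⊕ Unit))) = some _ := h
    cases h1
  gas_cl i := clX_inl H.gas_cl i
  cover := by
    refine cover_map (M := gsys Φ T ε n (X692.bx b τ))
      (X692.pull_eS (Φ := Φ) (T := T) (ε := ε) (n := n) b τ) hΦ hε ?_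
    rw [X692.elim_eS]
    exact H.cover

/-- Admissible labels of the structure in the joint system. -/
theorem lab_eS (hΦ : AdmissiblePotential Φ) (hε : 0 < ε) {s : S} {β : ℝ} {v : PhasePoint}
    (H : Lab (gsys Φ T ε n b) (Sum.elim w z) cl (Sum.inr s) β v) :
    Lab (gsys Φ T ε n (X692.bx b τ)) (Sum.elim w (X692.zx z y)) (clX n S cl)
      (Sum.inr (Sum.inl s)) β v := by
  have h1 := lab_map (M := gsys Φ T ε n (X692.bx b τ)) (Z := Sum.elim w (X692.zx z y)) (cl' := cl)
    (X692.pull_eS (Φ := Φ) (T := T) (ε := ε) (n := n) b τ) hΦ hε (i := Sum.inr s) (b := β)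
    (v := v) (by
      rw [X692.elim_eS]
      exact H)
  exact h1

/-- The independent line is an admissible label. -/
theorem lab_px (hτ : 0 ≤ τ) :
    Lab (gsys Φ T ε n (X692.bx b τ)) (Sum.elim w (X692.zx z y)) (clX n S cl) (X692.px n S) τ y := by
  refine Or.inl ⟨clX_px, fun h => ?_, max_eq_left hτ, rfl⟩
  have h1 : (none : Option (Fin n ⊕ (S ⊕ Unit))) = some _ := h
  cases h1

end gas

end Crest.Agent.R122.XG547

end
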