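import Mathlib
import Crest.Prelude.Def_KineticLimit
import Crest.Agent.R122.XBase_547
import Crest.Agent.R122.LNReachGD_818

/-!
# Row 122, LN1 (helper442): worlds with an independent line

System of helper692 / helper547: gas, structure `S` (births `b`, states `V` at time `0`, classes
`cl`), independent line `x` (label `px n S`, classes `clX n S cl`).

* `fX f`, `fXx f` : labels of a world `W` (labels `f` in the system without `x`) and of `W.ins x`.
* `gd_x`, `gd_ins_x` : `GD` of `W` and `W.ins x` from admissible labels of the system without `x`;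
  `gd2_x` : helper818's `GD2` for the line `x`.
* `gd_ins2_x`, `gd2_exit_x` : the same for `W.ins l`, `l` a line with an admissible label.
* `base_lines`, `lab_lines` : gas and independent lines only.
-/

set_option autoImplicit false
set_option linter.unusedSectionVars false

open MeasureTheory Set Filter Topology
open scoped NNReal ENNReal
open Crest.AnalysisR.Kinetic
open Crest.Agent.R122.Flow671 Crest.Agent.R122.Loc45 Crest.Agent.R122.Ins45
open Crest.Agent.R122.VL581 Crest.Agent.R122.VL581.VSys Crest.Agent.R122.VLInst442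
open Crest.Agent.R122.LNInst491 Crest.Agent.R122.LN304 Crest.Agent.R122.LNg410
open Crest.Agent.R122.EDefs602 Crest.Agent.R122.PWGlue491 Crest.Agent.R122.Inf879
open Crest.Agent.R122.LNBridge968 Crest.Agent.R122.LNPart424 Crest.Agent.R122.LNEv818
open Crest.Agent.R122.X692 (bx zx eS eL px piS Lx pull_eS pull_eL elim_eS elim_eL)
open Crest.Agent.R122.XG547 (clX clMap base_eS lab_px)
open scoped Classical

noncomputable section

namespace Crest.Agent.R122.PWInst442

section world

variable {Φ : Space3 → ℝ} {T ε : ℝ} {n : ℕ} {S : Type} [Fintype S] {b : S → ℝ}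
  {V : S → PhasePoint} {w : Config n} {cl : Fin n ⊕ S → Finset (Fin n ⊕ S)} {x : ML}
  {ι : Type} [Fintype ι] {W : MW ι} {f : ι ↪ Fin n ⊕ S}

theorem px_not_range (i : Fin n ⊕ S) : eS n S i ≠ px n S := by
  rcases i with i | i
  · exact Sum.inl_ne_inr
  · exact fun h => absurd (Sum.inr_injective h) Sum.inl_ne_inr

/-- Labels of `W` in the system with the line. -/
abbrev fX (f : ι ↪ Fin n ⊕ S) : ι ↪ Fin n ⊕ (S ⊕ Unit) := f.trans (eS n S)

theorem fX_ne (f : ι ↪ Fin n ⊕ S) (i : ι) : fX f i ≠ px n S := px_not_range _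

/-- Labels of `W.ins x`. -/
abbrev fXx (f : ι ↪ Fin n ⊕ S) : ι ⊕ Unit ↪ Fin n ⊕ (S ⊕ Unit) := insF (fX f) (px n S) (fX_ne f)

theorem insF_fX (f : ι ↪ Fin n ⊕ S) {a : S} (ha : ∀ i, f i ≠ Sum.inr a) (i : ι) :
    fX f i ≠ Sum.inr (Sum.inl a) := fun h => ha i ((eS n S).injective h)

variable (hΦ : AdmissiblePotential Φ) (hε : 0 < ε)

section

include hΦ hε

/-- Labels of the system without the line. -/
theorem lab_eX {j : Fin n ⊕ S} {b' τ : ℝ} {z y : PhasePoint}
    (H : Lab (gsys Φ T ε n b) (Sum.elim w V) cl j b' z) :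
    Lab (gsys Φ T ε n (bx b τ)) (Sum.elim w (zx V y)) (clX n S cl) (eS n S j) b' z := by
  refine XG547.lab_map (M := gsys Φ T ε n (bx b τ)) (pull_eS b τ) hΦ hε ?_
  rw [elim_eS]
  exact H

end

variable (H : Base (gsys Φ T ε n b) w V cl)
  (hL : ∀ i, Lab (gsys Φ T ε n b) (Sum.elim w V) cl (f i) (W.b i) (W.z i))
include hΦ hε hL

theorem lab_fX (i : ι) :
    Lab (gsys Φ T ε n (bx b x.1.1)) (Sum.elim w (zx V (back x.1))) (clX n S cl) (fX f i) (W.b i)
      (W.z i) := lab_eX hΦ hε (hL i)

theorem lab_fXx (hx : 0 ≤ x.1.1) (i : ι ⊕ Unit) :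
    Lab (gsys Φ T ε n (bx b x.1.1)) (Sum.elim w (zx V (back x.1))) (clX n S cl) (fXx f i)
      ((W.ins x).b i) ((W.ins x).z i) :=
  lab_ins (f := fX f) (W := W) (lab_fX hΦ hε hL) (fX_ne f) (lab_px hx) i

include H

/-- **The world without the line.** -/
theorem gd_x (hW : W.Ok Φ ε) :
    GD (gsys Φ T ε n (bx b x.1.1)) (Sum.elim w (zx V (back x.1))) (clX n S cl)
      (bD W (fX f)) (labs (fX f)) (XD W (fX f) Φ ε) :=
  gd_of_lab (M := gsys Φ T ε n (bx b x.1.1)) hΦ hε (base_eS hΦ hε H).cover hW (lab_fX hΦ hε hL)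

/-- **The world with the line.** -/
theorem gd_ins_x (hx : 0 ≤ x.1.1) (hW : (W.ins x).Ok Φ ε) :
    GD (gsys Φ T ε n (bx b x.1.1)) (Sum.elim w (zx V (back x.1))) (clX n S cl)
      (bD (W.ins x) (fXx f)) (labs (fXx f)) (XD (W.ins x) (fXx f) Φ ε) :=
  gd_of_lab (M := gsys Φ T ε n (bx b x.1.1)) hΦ hε (base_eS hΦ hε H).cover hW
    (lab_fXx hΦ hε hL hx)

/-- **helper818's data for the independent line** over the base world `W`. -/
theorem gd2_x (hx : 0 ≤ x.1.1) (hW : W.Ok Φ ε) (hWx : (W.ins x).Ok Φ ε) :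
    GD2 (gsys Φ T ε n (bx b x.1.1)) (Sum.elim w (zx V (back x.1))) (clX n S cl) W x (fX f)
      (px n S) (fX_ne f) where
  g0 := gd_x hΦ hε H hL hW
  g1 := gd_ins_x hΦ hε H hL hx hWx
  ok := hW
  okA := hWx

end world

/-! ### Gas and independent lines only -/

section line

variable {Φ : Space3 → ℝ} {T ε : ℝ} {n : ℕ} {w : Config n} {σ : Type} [Fintype σ]

/-- Gas and lines: no classes. -/
abbrev clN (n : ℕ) (σ : Type) [Fintype σ] : Fin n ⊕ σ → Finset (Fin n ⊕ σ) := fun _ => ∅

theorem cover_clN {κ : Type} {M : VSys (Fin n ⊕ σ) κ} {Z : Fin n ⊕ σ → PhasePoint} :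
    Cover M Z (clN n σ) where
  mem _ h := absurd h Finset.not_nonempty_empty
  eq _ _ h := absurd h (Finset.notMem_empty _)
  obs _ _ h := absurd h (Finset.notMem_empty _)
  ok _ := fun _ hi => absurd hi (Finset.notMem_empty _)

/-- Gas and independent lines. -/
theorem base_lines (ls : σ → ML) :
    Base (gsys Φ T ε n fun s => (ls s).1.1) w (fun s => back (ls s).1) (clN n σ) where
  gas_b _ := le_rfl
  gas_o _ := by
    show (none : Option _) ≠ some _
    simp
  gas_cl _ := rfl
  cover := cover_clN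

/-- An independent line is an admissible label. -/
theorem lab_lines (ls : σ → ML) (s : σ) (hs : 0 ≤ (ls s).1.1) :
    Lab (gsys Φ T ε n fun s => (ls s).1.1) (Sum.elim w fun s => back (ls s).1) (clN n σ)
      (Sum.inr s) (ls s).1.1 (back (ls s).1) := by
  refine Or.inl ⟨rfl, ?_, ?_, rfl⟩
  · show (none : Option _) ≠ some _
    simp
  · show max (ls s).1.1 0 = (ls s).1.1
    exact max_eq_left hs

end line

end Crest.Agent.R122.PWInst442

end
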