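import Crest.Agent.R122.XBase_547
import Crest.Agent.R122.PWBirth_365
import Crest.Agent.R122.LNGraftCt_410

/-!
# Row 122, LN1 (helper547): clean births with an independent line

* `dist_of_not_joint` : an exit of the structure and an independent line which are born at the same
  instant are not in contact, off `Joint`.
* `cleanB_x0`, `cleanB_x1`, `cleanB_xd`, `cleanB_xdx` : helper365's `CleanB` for the worlds `cfg w`,
  `+ x`, `+ d`, `+ d + x` over the joint system.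
-/

set_option autoImplicit false
set_option linter.unusedSectionVars false
set_option maxHeartbeats 400000

open MeasureTheory Set Filter Topology
open scoped ENNReal
open Crest.AnalysisR.Kinetic
open Crest.Agent.R122.EDefs602 Crest.Agent.R122.GIV566 Crest.Agent.R122.Ins45
open Crest.Agent.R122.VL581 Crest.Agent.R122.VL581.VSys Crest.Agent.R122.VLInst442
open Crest.Agent.R122.LNInst491 Crest.Agent.R122.LN304 Crest.Agent.R122.LNg410
open Crest.Agent.R122.LNBridge968 Crest.Agent.R122.LNPart424 Crest.Agent.R122.LNEv968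
open Crest.Agent.R122.PWGlue491 Crest.Agent.R122.PWInst442 Crest.Agent.R122.PW365
open Crest.Agent.R122.Inf879 Crest.Agent.R122.Tree674
open scoped Classical

noncomputable section

namespace Crest.Agent.R122.XG547

section generic

variable {J κ : Type} [Fintype J] [Nonempty κ] {M : VSys J κ} {c : ℝ} {Z : J → PhasePoint}
  {cl : J → Finset J} {π : Finset J} {p q : J} {N : ℕ} {d x : ML}

/-- Position of an admissible label at its birth, in a sub-world of the part. -/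
theorem exists_st_birth (hΦ : AdmissiblePotential M.Φ) (hε : 0 < M.ε) (hC : Cover M Z cl)
    (hd : Lab M Z cl q d.1.1 (back d.1)) (hcl : cl q ⊆ π) (hq : q ∈ π) (hT : d.1.1 ≤ M.T) :
    ∃ A ⊆ π, q ∈ A ∧ M.ok A d.1.1 Z ∧ M.o ≠ some q ∧ (M.st A d.1.1 Z q).1 = d.1.2.1 := by
  rcases hd with h | ⟨h, -⟩
  · refine ⟨{q}, Finset.singleton_subset_iff.2 hq, Finset.mem_singleton_self q, ?_, h.o, ?_⟩
    · intro i hi ho b j hj hj' hji hbj
      rw [Finset.mem_singleton] at hi hj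
      exact absurd (hj.trans hi.symm) hji
    · rw [LNGraft410.st_line hΦ hε h.o (l := d.1) h.z hT]
      simp
  · refine ⟨cl q, hcl, h.mem, ?_, hC.obs q q h.mem, ?_⟩
    · exact ok_anti hT (hC.ok q)
    · rw [← h.hand hT]
      have h1 : onLine (back d.1) d.1.1 = fl d.1.1 (back d.1) := rfl
      rw [h1, LNGraft410.fl_back]
      simp

/-- An exit of the structure and an independent line which are born at the same instant are not in
contact then. -/
theorem dist_of_not_joint (hΦ : AdmissiblePotential M.Φ) (hε : 0 < M.ε) (h1c : 1 ≤ c)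
    (hC : Cover M Z cl) (hd : Lab M Z cl q d.1.1 (back d.1)) (hcl : cl q ⊆ π) (hq : q ∈ π)
    (hx : Lab M Z cl p x.1.1 (back x.1)) (hclp : cl p = ∅) (h0 : 0 ≤ d.1.1) (hT : d.1.1 ≤ M.T)
    (heq : d.1.1 = x.1.1) (hc : M.Conn c π Z) (hJ : ¬ X692.Joint M c Z π p N)
    (hN : π.card + 1 ≤ N) : M.ε < dist d.1.2.1 x.1.2.1 := by
  by_contra hcon
  obtain ⟨A, hA, hqA, hokA, hoq, hpos⟩ := exists_st_birth hΦ hε hC hd hcl hq hT
  have hpx : p ∈ ({p} : Finset J) := Finset.mem_singleton_self p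
  obtain ⟨B, hB, hpB, hokB, hop, hposB⟩ := exists_st_birth (π := {p}) hΦ hε hC hx
    (by rw [hclp]; exact Finset.empty_subset _) hpx (heq ▸ hT)
  rw [← heq] at hokB hposB
  apply hJ
  refine ⟨π ∪ {p}, LNg410.conn_union_of_vct hc (LNg410.conn_singleton p) hq hpx ⟨h0, hT⟩ ?_,
    Finset.subset_union_left, Finset.mem_union_right _ hpx,
    ((Finset.card_union_le _ _).trans (by rw [Finset.card_singleton])).trans hN⟩
  refine vct_of_st (hA.trans Finset.subset_union_left) (hB.trans Finset.subset_union_right) hqA hpB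
    hokA hokB hoq hop ?_
  rw [hpos, hposB]
  exact (not_lt.1 hcon).trans (le_mul_of_one_le_left hε.le h1c)

end generic

/-! ### The worlds with an independent line -/

section worlds

variable {Φ : Space3 → ℝ} {T ε c : ℝ} {S : Type} [Fintype S] {n N : ℕ} {b : S → ℝ}
  {z : S → PhasePoint} {w : Config n} {x d : ML} {s : S}
  {cl : Fin n ⊕ S → Finset (Fin n ⊕ S)}

/-- The joint master system of the gas, a structure and an independent line. -/
abbrev Mx (Φ : Space3 → ℝ) (T ε : ℝ) (n : ℕ) {S : Type} (b : S → ℝ) (x : ML) :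
    VSys (Fin n ⊕ (S ⊕ Unit)) Unit := gsys Φ T ε n (X692.bx b x.1.1)

/-- The configuration of the gas, a structure and an independent line. -/
abbrev Zx {n : ℕ} {S : Type} (w : Config n) (z : S → PhasePoint) (x : ML) :
    Fin n ⊕ (S ⊕ Unit) → PhasePoint := Sum.elim w (X692.zx z (back x.1))

theorem cl_sub_piS (hB : Base (gsys Φ T ε n b) w z cl) (j : Fin n ⊕ (S ⊕ Unit)) :
    clX n S cl j ⊆ X692.piS n S := by
  intro k hk
  rcases clMap_cases (X692.eS n S) cl j with ⟨i, rfl, h1⟩ | h1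
  · change k ∈ clMap (X692.eS n S) cl (X692.eS n S i) at hk
    rw [h1] at hk
    obtain ⟨k', hk', rfl⟩ := Finset.mem_map.1 hk
    rcases k' with k' | s
    · have h2 := hB.cover.eq i _ hk'
      have h3 : cl (Sum.inl k') = ∅ := hB.gas_cl k'
      rw [h3] at h2
      rw [← h2] at hk'
      exact absurd hk' (Finset.notMem_empty _)
    · exact X692.mem_piS.2 ⟨s, rfl⟩
  · change k ∈ clMap (X692.eS n S) cl j at hk
    rw [h1] at hk
    exact absurd hk (Finset.notMem_empty _)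

/-- The world `cfg w`. -/
theorem cleanB_x0 (hB : Base (gsys Φ T ε n b) w z cl)
    (H : GD (Mx Φ T ε n b x) (Zx w z x) (clX n S cl) (bD (MW.cfg w) (gasE n (S ⊕ Unit)))
      (labs (gasE n (S ⊕ Unit))) (XD (MW.cfg w) (gasE n (S ⊕ Unit)) Φ ε)) (u : ℝ) :
    CleanB (Mx Φ T ε n b x) (Zx w z x) (clX n S cl) (bD (MW.cfg w) (gasE n (S ⊕ Unit)))
      (labs (gasE n (S ⊕ Unit))) (XD (MW.cfg w) (gasE n (S ⊕ Unit)) Φ ε) u :=
  cleanB_gas (M := Mx Φ T ε n b x) H (fun i => clX_inl hB.gas_cl i) u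

/-- The world `cfg w + x`. -/
theorem cleanB_x1 (hB : Base (gsys Φ T ε n b) w z cl)
    (H : GD (Mx Φ T ε n b x) (Zx w z x) (clX n S cl)
      (bD ((MW.cfg w).ins x) (lab1 n (Sum.inr () : S ⊕ Unit)))
      (labs (lab1 n (Sum.inr () : S ⊕ Unit)))
      (XD ((MW.cfg w).ins x) (lab1 n (Sum.inr () : S ⊕ Unit)) Φ ε)) (u : ℝ) :
    CleanB (Mx Φ T ε n b x) (Zx w z x) (clX n S cl)
      (bD ((MW.cfg w).ins x) (lab1 n (Sum.inr () : S ⊕ Unit)))
      (labs (lab1 n (Sum.inr () : S ⊕ Unit)))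
      (XD ((MW.cfg w).ins x) (lab1 n (Sum.inr () : S ⊕ Unit)) Φ ε) u := by
  refine cleanB_gas (M := Mx Φ T ε n b x) H (fun i => ?_) u
  rcases i with i | i
  · exact clX_inl hB.gas_cl i
  · exact clX_px

/-- The world `cfg w + d`. -/
theorem cleanB_xd (hB : Base (gsys Φ T ε n b) w z cl)
    (H : GD (Mx Φ T ε n b x) (Zx w z x) (clX n S cl)
      (bD ((MW.cfg w).ins d) (lab1 n (Sum.inl s : S ⊕ Unit)))
      (labs (lab1 n (Sum.inl s : S ⊕ Unit)))
      (XD ((MW.cfg w).ins d) (lab1 n (Sum.inl s : S ⊕ Unit)) Φ ε)) (u : ℝ) :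
    CleanB (Mx Φ T ε n b x) (Zx w z x) (clX n S cl)
      (bD ((MW.cfg w).ins d) (lab1 n (Sum.inl s : S ⊕ Unit)))
      (labs (lab1 n (Sum.inl s : S ⊕ Unit)))
      (XD ((MW.cfg w).ins d) (lab1 n (Sum.inl s : S ⊕ Unit)) Φ ε) u :=
  cleanB_ins (M := Mx Φ T ε n b x) H (fun i => clX_inl hB.gas_cl i) (fun _ => le_rfl) u

/-- The world `cfg w + d + x`. -/
theorem cleanB_xdx (hΦ : AdmissiblePotential Φ) (hε : 0 < ε) (h1c : 1 ≤ c)
    (hB : Base (gsys Φ T ε n b) w z cl)
    (hd : Lab (gsys Φ T ε n b) (Sum.elim w z) cl (Sum.inr s) d.1.1 (back d.1))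
    (h0 : 0 ≤ d.1.1) (hx0 : 0 ≤ x.1.1)
    (hcS : (Mx Φ T ε n b x).Conn c (X692.piS n S) (Zx w z x))
    (hJ : ¬ X692.Joint (Mx Φ T ε n b x) c (Zx w z x) (X692.piS n S) (X692.px n S) N)
    (hN : Fintype.card S + 1 ≤ N) (hw : (MW.cfg w).Ok Φ ε) (hok : ((MW.cfg w).ins d).Ok Φ ε)
    (hokx : (((MW.cfg w).ins d).ins x).Ok Φ ε)
    (hne : (Sum.inl s : S ⊕ Unit) ≠ Sum.inr ())
    (H : GD (Mx Φ T ε n b x) (Zx w z x) (clX n S cl)
      (bD (((MW.cfg w).ins d).ins x) (lab2 n (Sum.inl s : S ⊕ Unit) (Sum.inr ()) hne))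
      (labs (lab2 n (Sum.inl s : S ⊕ Unit) (Sum.inr ()) hne))
      (XD (((MW.cfg w).ins d).ins x) (lab2 n (Sum.inl s : S ⊕ Unit) (Sum.inr ()) hne) Φ ε)) {u : ℝ}
    (hu : u ≤ T) :
    CleanB (Mx Φ T ε n b x) (Zx w z x) (clX n S cl)
      (bD (((MW.cfg w).ins d).ins x) (lab2 n (Sum.inl s : S ⊕ Unit) (Sum.inr ()) hne))
      (labs (lab2 n (Sum.inl s : S ⊕ Unit) (Sum.inr ()) hne))
      (XD (((MW.cfg w).ins d).ins x) (lab2 n (Sum.inl s : S ⊕ Unit) (Sum.inr ()) hne) Φ ε) u := by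
  have hno : X692.px n S ∉ clX n S cl (Sum.inr (Sum.inl s)) := fun h =>
    X692.px_notMem_piS (cl_sub_piS hB _ h)
  refine cleanB_ins2 (M := Mx Φ T ε n b x) H hΦ hε hw hok hokx (fun i => clX_inl hB.gas_cl i)
    (fun _ => le_rfl) (fun h => absurd h hno) (fun h => absurd h hno) fun heq hdu => Or.inr ?_
  refine dist_of_not_joint (M := Mx Φ T ε n b x) (c := c) (Z := Zx w z x) (cl := clX n S cl)
    (π := X692.piS n S) (p := X692.px n S) (q := Sum.inr (Sum.inl s)) (N := N) hΦ hε h1c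
    (base_eS hΦ hε hB).cover (lab_eS hΦ hε hd) (cl_sub_piS hB _) (X692.mem_piS.2 ⟨s, rfl⟩)
    (lab_px hx0) clX_px h0 (hdu.trans hu) heq hcS hJ ?_
  unfold X692.piS
  rw [Finset.card_map, Finset.card_univ]
  exact hN

end worlds

end Crest.Agent.R122.XG547

end
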