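import Mathlib
import Crest.Prelude.Def_KineticLimit
import Crest.Agent.R122.XDet_692
import Crest.Agent.R122.XClean_547
import Crest.Agent.R122.PWInstX_442
import Crest.Agent.R122.LNReachLab_818

/-!
# Row 122, LN1 (helper442): everything influenced by an independent line is reached

System of helper692: gas, structure `S` in one part, independent line `x`, part `{px n S}`.

* `reach_core` : `ReachAll` of the line over any base world `Y` of admissible labels, or helper692's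
  alternatives `XRes` (run of the line, `¬ NoBad`, `¬ NoTwo`, `BadHit`).
* `reachX0` : base world `cfg w`; `reachX1` : base world `(cfg w).ins d`, `d` an exit of the
  structure.
-/

set_option autoImplicit false
set_option linter.unusedSectionVars false

open MeasureTheory Set Filter Topology
open scoped NNReal ENNReal
open Crest.AnalysisR.Kinetic
open Crest.Agent.R122.Ins45 Crest.Agent.R122.EDefs602
open Crest.Agent.R122.VL581 Crest.Agent.R122.VL581.VSys Crest.Agent.R122.VLInst442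
open Crest.Agent.R122.LN304 Crest.Agent.R122.LNg410 Crest.Agent.R122.LNPart424
open Crest.Agent.R122.PWGlue491 Crest.Agent.R122.PWInst442 Crest.Agent.R122.PW365
open Crest.Agent.R122.LNEv968 Crest.Agent.R122.LNEv818
open Crest.Agent.R122.X692 (bx zx eS px piS Lx Mx Zx HitG XRes ReachX)
open Crest.Agent.R122.XG547 (clX base_eS lab_px cl_sub_piS)
open scoped Classical

noncomputable section

namespace Crest.Agent.R122.XR442

variable {Φ : Space3 → ℝ} {t te c R ς ε : ℝ} {S : Type} [Fintype S] {n : ℕ} {b : S → ℝ}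
  {z : S → PhasePoint} {w : Config n} {N N' K m : ℕ} {x d : ML}
  {cl : Fin n ⊕ S → Finset (Fin n ⊕ S)}

theorem none_ne (j : Fin n ⊕ (S ⊕ Unit)) : (Mx Φ t ε n b x).o ≠ some j := by
  intro h
  have h1 : (none : Option (Fin n ⊕ (S ⊕ Unit))) = some _ := h
  exact absurd h1 (by simp)

/-- A run of a sub-part of the part of the line is a run of the line. -/
theorem run_of_runD (h : RunD (Mx Φ t ε n b x) (Zx w z x) {px n S} (px n S) K m w) :
    LinkM547.Run Φ ε t K m (MW.line x) () w := by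
  obtain ⟨D, hD, ha, h⟩ := h
  refine h Unit (MW.line x) ⟨fun _ => px n S, fun _ _ _ => rfl⟩ () ?_ rfl
  have hD' : ∀ j, j ∈ D ↔ j = px n S := fun j =>
    ⟨fun hj => Finset.mem_singleton.1 (hD hj), fun hj => hj ▸ ha⟩
  refine ⟨fun _ => rfl, fun _ => rfl, fun _ => none_ne _, fun j => ?_, ?_⟩
  · rw [hD']
    exact ⟨fun h => ⟨(), h.symm⟩, fun ⟨_, h⟩ => h.symm⟩
  · intro i hi _ _ j hj _ hji _
    rw [hD'] at hi hj
    exact absurd (hj.trans hi.symm) hji

theorem card_uni : (uni (Lx (piS n S) (px n S))).card = Fintype.card S + 1 := by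
  have h1 : uni (Lx (piS n S) (px n S)) =
      (Finset.univ : Finset (S ⊕ Unit)).map ⟨Sum.inr, Sum.inr_injective⟩ := by
    ext j
    rw [X692.mem_uni_Lx, X692.mem_piS, Finset.mem_map]
    constructor
    · rintro (⟨y, rfl⟩ | rfl)
      · exact ⟨Sum.inl y, Finset.mem_univ _, rfl⟩
      · exact ⟨Sum.inr (), Finset.mem_univ _, rfl⟩
    · rintro ⟨y | y, _, rfl⟩
      · exact Or.inl ⟨y, rfl⟩
      · exact Or.inr rfl
  rw [h1, Finset.card_map, Finset.card_univ, Fintype.card_sum, Fintype.card_unit]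

theorem mem_range_gasE {j : Fin n ⊕ (S ⊕ Unit)} (hj : j ∉ uni (Lx (piS n S) (px n S))) :
    ∃ i : Fin n, Sum.inl i = j := by
  rw [X692.mem_uni_Lx, X692.mem_piS] at hj
  rcases j with j | j | j
  · exact ⟨j, rfl⟩
  · exact absurd (Or.inl ⟨j, rfl⟩) hj
  · exact absurd (Or.inr rfl) hj

/-- A joint set violates `NoTwo`. -/
theorem not_noTwo_of_joint {J κ : Type} [Fintype J] {M : VSys J κ} {Z : J → PhasePoint}
    {π : Finset J} {p : J} (hp : p ∉ π) (h : X692.Joint M c Z π p N) :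
    ¬ NoTwo M c Z (Lx π p) N := by
  intro hNT
  obtain ⟨P, hP, hπ, hpP, hcard⟩ := h
  refine XG547.ne_singleton hp (hNT P hP ?_ π X692.pi_mem {p} X692.p_mem hπ
    ⟨p, Finset.mem_singleton_self p, hpP⟩)
  refine (Finset.card_le_card ?_).trans hcard
  intro i hi
  rcases Finset.mem_union.1 hi with hi | hi
  · exact hi
  · rcases X692.mem_uni_Lx.1 hi with hi | rfl
    · exact hπ hi
    · exact hpP

section core

variable {ι : Type} [Fintype ι] {Y : MW ι} {f : ι ↪ Fin n ⊕ (S ⊕ Unit)}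
  {ha : ∀ i, f i ≠ px n S}

/-- **(RA) for the independent line** over any base world of admissible labels. -/
theorem reach_core (hΦ : AdmissiblePotential Φ) (hε : 0 < ε) (ht : 0 ≤ t) (hte : te ≤ t)
    (hc : 1 ≤ c) (hς : 2 * (R * ε) ≤ ς) (hw : w ∈ PairExcluded ε n)
    (H : Base (gsys Φ t ε n b) w z cl)
    (hcS : (Mx Φ t ε n b x).Conn c (piS n S) (Zx w z x))
    (G : GD2 (Mx Φ t ε n b x) (Zx w z x) (clX n S cl) Y x f (px n S) ha)
    (hCB : CB2 (Mx Φ t ε n b x) (Zx w z x) (clX n S cl) Y x f (px n S) ha te)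
    (hgf : ∀ i : Fin n, ∃ k, f k = Sum.inl i) (hm : ∀ k (i : Fin n), f k = Sum.inl i → 1 ≤ Y.m k)
    (hN : Fintype.card S + 1 + 2 * K * (m + 2) ≤ N) :
    ReachAll (Reach (Mx Φ t ε n b x) c (Zx w z x) (Lx (piS n S) (px n S)) {px n S} (px n S) N)
      Φ ε K te Y f x (px n S) ∨ XRes Φ t c R ς ε K m N b z w x := by
  by_cases hNB : NoBad (Mx Φ t ε n b x) c (R * ε) ς (Zx w z x) (Lx (piS n S) (px n S)) N
  swap
  · exact Or.inr (Or.inr (Or.inl hNB))
  by_cases hNT : NoTwo (Mx Φ t ε n b x) c (Zx w z x) (Lx (piS n S) (px n S)) N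
  swap
  · exact Or.inr (Or.inr (Or.inr (Or.inl hNT)))
  have hgas : ∀ i : Fin n, clX n S cl (Sum.inl i) = ∅ := XG547.clX_inl H.gas_cl
  by_cases hBH : ∀ b', ¬ BadHit (Mx Φ t ε n b x) c (Zx w z x)
      (Xb (Mx Φ t ε n b x) (Zx w z x) (clX n S cl) Y x f (px n S) ha b')
      (Cb (Mx Φ t ε n b x) (Zx w z x) (clX n S cl) Y x f (px n S) ha b')
      (Lx (piS n S) (px n S)) N
  swap
  · push Not at hBH
    obtain ⟨b', hb⟩ := hBH
    refine Or.inr (Or.inr (Or.inr (Or.inr ?_)))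
    cases b'
    · exact ⟨_, _, _, _, G.g0, hgas, hb⟩
    · exact ⟨_, _, _, _, G.g1, hgas, hb⟩
  have h1 := reachAll_of_lab (N := N) (T := te) (K := K) (Λ := Lx (piS n S) (px n S))
    (π := {px n S}) (c := c) (ℓ := R * ε) (ς := ς) (M := Mx Φ t ε n b x) hΦ hε ht hte hc hς G hCB
    (fun j k hk => X692.mem_uni_Lx.2 (Or.inl (cl_sub_piS H j hk)))
    (fun k hk => by
      obtain ⟨i, hi⟩ := mem_range_gasE hk
      exact hm k i hi.symm)
    (X692.parts_x hw hcS) hNB hNT hBH X692.p_mem (Finset.mem_singleton_self _) (Or.inl rfl)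
    (w := w) (g := gasE n (S ⊕ Unit)) (fun _ => rfl) (fun _ => rfl) (fun _ => none_ne _)
    (fun i hi => by
      obtain ⟨j, hj⟩ := mem_range_gasE hi
      exact ⟨j, hj⟩)
    hgf m (by rw [card_uni]; exact hN)
  rcases h1 with h1 | h1
  · exact Or.inr (Or.inl (run_of_runD h1))
  · exact Or.inl h1

end core

/-! ### Base worlds `cfg w` and `(cfg w).ins d` -/

section inst

variable (hΦ : AdmissiblePotential Φ) (hε : 0 < ε) (ht : 0 ≤ t) (hte : te ≤ t) (hc : 1 ≤ c)
  (hς : 2 * (R * ε) ≤ ς) (hw : w ∈ PairExcluded ε n) (H : Base (gsys Φ t ε n b) w z cl)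
  (hcS : (Mx Φ t ε n b x).Conn c (piS n S) (Zx w z x)) (hx : 0 ≤ x.1.1)
  (hN : Fintype.card S + 1 + 2 * K * (m + 2) ≤ N)
include hΦ hε ht hte hc hς hw H hcS hx hN

/-- **Base world `cfg w`.** -/
theorem reachX0 (hW : (MW.cfg w).Ok Φ ε) (hWx : ((MW.cfg w).ins x).Ok Φ ε) :
    ReachX Φ t c ε te K N b z w x (MW.cfg w) (gasE n S) ∨ XRes Φ t c R ς ε K m N b z w x := by
  have G := gd2_of_lab (M := Mx Φ t ε n b x) (Z := Zx w z x) (cl := clX n S cl) (W := MW.cfg w)
    (l := x) (f := gasE n (S ⊕ Unit)) (a := px n S) (ha := gasE_ne (Sum.inr ())) hΦ hε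
    (base_eS hΦ hε H).cover hW hWx (base_eS hΦ hε H).lab_gas (lab_px hx)
  exact reach_core hΦ hε ht hte hc hς hw H hcS G
    (cb2_of_gas G (fun i => XG547.clX_inl H.gas_cl i) (fun _ => le_rfl) te) (fun i => ⟨i, rfl⟩)
    (fun _ _ _ => le_rfl) hN

/-- **Base world `(cfg w).ins d`**, `d` an exit of the structure with the label `s`. -/
theorem reachX1 {s : S} (hd : Lab (gsys Φ t ε n b) (Sum.elim w z) cl (Sum.inr s) d.1.1 (back d.1))
    (h0 : 0 ≤ d.1.1) (hdm : 1 ≤ d.2) (hW : (MW.cfg w).Ok Φ ε) (hWd : ((MW.cfg w).ins d).Ok Φ ε)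
    (hWdx : (((MW.cfg w).ins d).ins x).Ok Φ ε) :
    ReachX Φ t c ε te K N b z w x ((MW.cfg w).ins d) (lab1 n s) ∨
      XRes Φ t c R ς ε K m N b z w x := by
  have hfun : (fun i => eS n S (lab1 n s i)) =
      ((lab1 n (Sum.inl s : S ⊕ Unit) : Fin n ⊕ Unit ↪ Fin n ⊕ (S ⊕ Unit)) :
        Fin n ⊕ Unit → Fin n ⊕ (S ⊕ Unit)) := by
    funext i
    rcases i with i | i <;> rfl
  have hne : (Sum.inl s : S ⊕ Unit) ≠ Sum.inr () := Sum.inl_ne_inr
  have hBX := base_eS (τ := x.1.1) (y := back x.1) hΦ hε H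
  have G := gd2_of_lab (M := Mx Φ t ε n b x) (Z := Zx w z x) (cl := clX n S cl)
    (W := (MW.cfg w).ins d) (l := x) (f := lab1 n (Sum.inl s : S ⊕ Unit)) (a := px n S)
    (ha := lab1_ne hne) hΦ hε hBX.cover hWd hWdx (hBX.lab1_lab (XG547.lab_eS hΦ hε hd))
    (lab_px hx)
  by_cases hJ : X692.Joint (Mx Φ t ε n b x) c (Zx w z x) (piS n S) (px n S) N
  · refine Or.inr (Or.inr (Or.inr (Or.inl fun hNT => ?_)))
    exact not_noTwo_of_joint X692.px_notMem_piS hJ hNT
  have hCB : CB2 (Mx Φ t ε n b x) (Zx w z x) (clX n S cl) ((MW.cfg w).ins d) x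
      (lab1 n (Sum.inl s : S ⊕ Unit)) (px n S) (lab1_ne hne) te :=
    ⟨XG547.cleanB_xd H G.g0 te, XG547.cleanB_xdx hΦ hε hc H hd h0 hx hcS hJ (by omega) hW hWd hWdx
      hne G.g1 hte⟩
  have h1 := reach_core (m := m) hΦ hε ht hte hc hς hw H hcS G hCB (fun i => ⟨Sum.inl i, rfl⟩)
    (fun k i hk => by
      rcases k with k | k
      · exact le_rfl
      · exact hdm) hN
  unfold ReachX
  rw [hfun]
  exact h1

end inst

end Crest.Agent.R122.XR442

end
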