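import Mathlib
import Crest.Prelude.Def_KineticLimit
import Crest.Agent.R122.XReach_442

/-!
# Row 122, LN1 (helper442): monotonicity in the size

* `noBad_anti`, `noTwo_anti`, `badHit_mono`, `hitG_mono`, `xres_mono`, `reachX_mono`.
* `hX0`, `hX1` : the slot `hX` of helper692's `x_alt` (sizes `N` and `N + N`).
-/

set_option autoImplicit false
set_option linter.unusedSectionVars false

open MeasureTheory Set Filter Topology
open scoped NNReal ENNReal
open Crest.AnalysisR.Kinetic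
open Crest.Agent.R122.Ins45 Crest.Agent.R122.EDefs602
open Crest.Agent.R122.VL581 Crest.Agent.R122.VL581.VSys Crest.Agent.R122.VLInst442
open Crest.Agent.R122.LN304 Crest.Agent.R122.LNg410 Crest.Agent.R122.LNPart424
open Crest.Agent.R122.PWGlue491 Crest.Agent.R122.PWInst442 Crest.Agent.R122.PW365
open Crest.Agent.R122.LNEv968 Crest.Agent.R122.LNEv818
open Crest.Agent.R122.X692 (bx zx eS px piS Lx Mx Zx HitG XRes ReachX)
open scoped Classical

noncomputable section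

namespace Crest.Agent.R122.XR442

section mono

variable {J κ : Type} [Fintype J] {M : VSys J κ} {c ℓ ς : ℝ} {Z : J → PhasePoint}
  {Λ : Finset (Finset J)} {N N' : ℕ} {X : ℝ → J → PhasePoint} {C : ℝ → J → J → Prop}

theorem noBad_anti (hN : N ≤ N') (h : NoBad M c ℓ ς Z Λ N') : NoBad M c ℓ ς Z Λ N :=
  fun P hP hπ hc => h P hP hπ (hc.trans hN)

theorem noTwo_anti (hN : N ≤ N') (h : NoTwo M c Z Λ N') : NoTwo M c Z Λ N :=
  fun P hP hc => h P hP (hc.trans hN)

theorem badHit_mono (hN : N ≤ N') (h : BadHit M c Z X C Λ N) : BadHit M c Z X C Λ N' := by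
  obtain ⟨G, A, j, k, v, h1, h2, h3, h4, h5, h6, h7, h8, h9⟩ := h
  exact ⟨G, A, j, k, v, h1, h2, h3.trans hN, h4, h5, h6, h7, h8.trans hN, h9⟩

end mono

variable {Φ : Space3 → ℝ} {t te c R ς ε : ℝ} {S : Type} [Fintype S] {n : ℕ} {b : S → ℝ}
  {z : S → PhasePoint} {w : Config n} {N N' K m : ℕ} {x d : ML}
  {cl : Fin n ⊕ S → Finset (Fin n ⊕ S)}

theorem hitG_mono (hN : N ≤ N') (h : HitG Φ t c ε N b z w x) : HitG Φ t c ε N' b z w x := by
  obtain ⟨Sp, bD, A, XD, h1, h2, h3⟩ := h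
  exact ⟨Sp, bD, A, XD, h1, h2, badHit_mono hN h3⟩

theorem xres_mono (hN : N ≤ N') (h : XRes Φ t c R ς ε K m N b z w x) :
    XRes Φ t c R ς ε K m N' b z w x := by
  rcases h with h | h | h | h
  · exact Or.inl h
  · exact Or.inr (Or.inl fun h' => h (noBad_anti hN h'))
  · exact Or.inr (Or.inr (Or.inl fun h' => h (noTwo_anti hN h')))
  · exact Or.inr (Or.inr (Or.inr (hitG_mono hN h)))

section inst

variable (hΦ : AdmissiblePotential Φ) (hε : 0 < ε) (ht : 0 ≤ t) (hte : te ≤ t) (hc : 1 ≤ c)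
  (hς : 2 * (R * ε) ≤ ς) (hw : w ∈ PairExcluded ε n) (H : Base (gsys Φ t ε n b) w z cl)
  (hcS : (Mx Φ t ε n b x).Conn c (piS n S) (Zx w z x)) (hx : 0 ≤ x.1.1)
  (hN : Fintype.card S + 1 + 2 * K * (m + 2) ≤ N)
include hΦ hε ht hte hc hς hw H hcS hx hN

/-- Slot `hX` of `x_alt`, base world `cfg w`. -/
theorem hX0 (hW : (MW.cfg w).Ok Φ ε) (hWx : ((MW.cfg w).ins x).Ok Φ ε) :
    ReachX Φ t c ε te K N b z w x (MW.cfg w) (gasE n S) ∨
      XRes Φ t c R ς ε K m (N + N) b z w x :=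
  (reachX0 hΦ hε ht hte hc hς hw H hcS hx hN hW hWx).imp id (xres_mono (Nat.le_add_right _ _))

/-- Slot `hX` of `x_alt`, base world `(cfg w).ins d`. -/
theorem hX1 {s : S} (hd : Lab (gsys Φ t ε n b) (Sum.elim w z) cl (Sum.inr s) d.1.1 (back d.1))
    (h0 : 0 ≤ d.1.1) (hdm : 1 ≤ d.2) (hW : (MW.cfg w).Ok Φ ε) (hWd : ((MW.cfg w).ins d).Ok Φ ε)
    (hWdx : (((MW.cfg w).ins d).ins x).Ok Φ ε) :
    ReachX Φ t c ε te K N b z w x ((MW.cfg w).ins d) (lab1 n s) ∨
      XRes Φ t c R ς ε K m (N + N) b z w x :=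
  (reachX1 hΦ hε ht hte hc hς hw H hcS hx hN hd h0 hdm hW hWd hWdx).imp id
    (xres_mono (Nat.le_add_right _ _))

end inst

end Crest.Agent.R122.XR442

end
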