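import Mathlib
import Crest.Prelude.Def_KineticLimit
import Crest.Agent.R122.XMap_547
import Crest.Agent.R122.XDet_692
import Crest.Agent.R122.XResM_442
import Crest.Agent.R122.LNS3_674

/-!
# Row 122, LN1 (helper442): the slot `hS` of `x_alt` for exits of one structure

* `hS_of_one` : helper674's `One` and `Exits` give `ReachS` for all exits of the family, or helper692's
  `SAlt`, sizes `N` and `N + N`.
-/

set_option autoImplicit false
set_option linter.unusedSectionVars false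

open MeasureTheory Set Filter Topology
open scoped NNReal ENNReal
open Crest.AnalysisR.Kinetic
open Crest.Agent.R122.Ins45 Crest.Agent.R122.EDefs602
open Crest.Agent.R122.VL581 Crest.Agent.R122.VL581.VSys Crest.Agent.R122.VLInst442
open Crest.Agent.R122.LN304 Crest.Agent.R122.LNg410 Crest.Agent.R122.LNPart424
open Crest.Agent.R122.PWGlue491 Crest.Agent.R122.PWInst442 Crest.Agent.R122.PW365
open Crest.Agent.R122.LNEv968 Crest.Agent.R122.LNEv818 Crest.Agent.R122.LNS674
open Crest.Agent.R122.X692 (bx zx eS px piS Lx Mx Zx HitG XRes ReachX ReachS SAlt)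
open scoped Classical

noncomputable section

namespace Crest.Agent.R122.XR442

variable {σ : Type} [Fintype σ] {n : ℕ} {ι μ : Type} [Fintype ι] {Φ : Space3 → ℝ}
  {t te T T₁ ε c R ς : ℝ} {b : σ → ℝ} {V : σ → PhasePoint} {w : Config n}
  {cl : Fin n ⊕ σ → Finset (Fin n ⊕ σ)} {R0 : ℝ → Fin n ⊕ σ → Fin n ⊕ σ → Prop} {W : MW ι}
  {f : ι ↪ Fin n ⊕ σ} {ls : μ → ML} {p : μ → σ} {K N N₁ m : ℕ} {x : ML} {A₀ : Finset σ}

/-- Reachability in the joint system, from the gas and the structure. -/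
theorem reachS_of_reachAll (hΦ : AdmissiblePotential Φ) (hε : 0 < ε) {l : ML} {q : σ}
    (hN : N + 1 ≤ N₁)
    (h : ReachAll (Reach (gsys Φ t ε n b) c (Sum.elim w V) (LS n σ) (pS n σ) (Sum.inr q) N)
      Φ ε K te W f l (Sum.inr q)) :
    ReachS Φ t c ε te K N₁ b V w x W f l q := by
  have h2 := XG547.reachAll_eS (b := b) (z := V) (τ := x.1.1) (y := back x.1) hΦ hε
    (Λ' := LS n σ) (fun y => by rw [uni_LS]; exact inr_mem_pS y)
    (π' := pS n σ) (fun _ => mem_pS) (lab' := fun k => eS n σ (f k)) (fun _ => rfl) h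
  intro u hu hθ y hy hb
  obtain ⟨h3, h4⟩ := h2 u hu hθ y hy hb
  exact ⟨h3.mono hN, fun k hk => (h4 k hk).mono hN⟩

/-- **The slot `hS` for exits of one structure.** -/
theorem hS_of_one (h : One Φ t ε c b V w cl R0) (E : Exits Φ t te ε b V w cl R0 W f ls p)
    (hΦ : AdmissiblePotential Φ) (hε : 0 < ε) (ht : 0 ≤ t) (hte : te ≤ t) (htT : t ≤ T)
    (hT₁ : T < T₁) (hc : 1 ≤ c) (hς : 2 * (R * ε) ≤ ς) (hA : A₀.Nonempty)
    (hN : Fintype.card σ + 1 + 2 * K * (m + 2) ≤ N) :
    (∀ i, ReachS Φ t c ε te K N b V w x W f (ls i) (p i)) ∨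
      SAlt Φ T T₁ t c R ς ε K m (N + N) A₀ b V w := by
  by_cases hR : Gate424.RunS Φ ε t K m b V w
  · exact Or.inr (Or.inl hR)
  by_cases hB : LN2.BadGas Φ T c R ς ε (N + N) 1 A₀ b V w
  · exact Or.inr (Or.inr (Or.inl hB))
  by_cases hBH : BH167.BadHitGas (BH167.bpos Φ T₁ T) Φ T c 1 ε (N + N) (N + N) 1 A₀ b V w
  · exact Or.inr (Or.inr (Or.inr hBH))
  have hX := h.ctx hΦ hε hc hς htT hA hB
  refine Or.inl fun i => ?_
  have h1 := (h.reachAll_or_run (m := m) (K := K) E ht hte hX i (fun β => ?_)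
    (by omega)).resolve_left hR
  · exact reachS_of_reachAll hΦ hε (by omega) h1
  · cases β
    · exact (h.wd hΦ hε ht hc hς htT le_rfl hT₁ hA hBH E.gd0).bh
    · exact (h.wd hΦ hε ht hc hς htT le_rfl hT₁ hA hBH (E.gd1 i)).bh

end Crest.Agent.R122.XR442

end
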