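import Crest.Agent.R122.TLDetB_692
import Crest.Agent.R122.XHS_442
import Crest.Agent.R122.LNTree1_515
import Crest.Agent.R122.LNOSra_515
import Crest.Agent.R122.LinkAsm_984

/-!
# Row 122, board H1 (helper692): exceptional test lines, base world `w + d`

* `xd_good` : the test line `x` is good in the base world `(cfg w).ins d`, `d` any line of the tree
  (no link with the other lines of the tree, no return to the tree), or `SAlt ∨ XAlt ∨ JAlt`, off
  the births of the tree.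
* `xd_det` : **`LinkAsm984.XbadD`** gives `SAlt ∨ BT ∨ XAlt ∨ JAlt`.
* `xbad4_det` : the same for helper984's `Xbad4 = lkX ∪ XbadD`.
-/

set_option autoImplicit false
set_option linter.unusedSectionVars false

open MeasureTheory Set Filter Topology
open scoped Classical ENNReal
open Crest.AnalysisR.Kinetic
open Crest.Agent.R122.GC311 Crest.Agent.R122.EDefs602 Crest.Agent.R122.GIV566
open Crest.Agent.R122.VL581 Crest.Agent.R122.LN304 Crest.Agent.R122.LNg410
open Crest.Agent.R122.LNPart424 Crest.Agent.R122.LNEv968 Crest.Agent.R122.LNEv818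
open Crest.Agent.R122.LNEv383 Crest.Agent.R122.TreeLines335 Crest.Agent.R122.PWInst442
open Crest.Agent.R122.Kin796 Crest.Agent.R122.Kin796.CTree Crest.Agent.R122.Tree674
open Crest.Agent.R122.E6Hyp879 (withD)
open Crest.Agent.R122.OneC285 (ptube)

noncomputable section

namespace Crest.Agent.R122.X692

variable {Φ : Space3 → ℝ} {T te ε R ς : ℝ} {n K L N : ℕ} {P : CTree} {z : PhasePoint × Par P}
  {w : Config n} {x : ML}

/-- **The test line is good in the base world `w + d`**, or one of the alternatives. -/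
theorem xd_good (hΦ : AdmissiblePotential Φ) (hT : 0 < T) (hε : 0 < ε) (hς : 2 * (R * ε) ≤ ς)
    (hte : te ≤ T) (hV : Valid Φ ε P T z.1.2 z.2) (hS : Sep Φ ε P T z.1 z.2)
    (hw : w ∈ PairExcluded ε n) (hx : 0 ≤ x.1.1)
    (hok : MW.OkFam Φ ε (MW.cfg w) (withD (lineML Φ ε P z) x))
    (hB : ¬ LNOS515.BT Φ ε te z w) (hN : P.leaves + 1 + 2 * K * (L + 2) ≤ N) (d : Idx P) :
    ((∀ i : {i : Idx P // i ≠ d}, MW.NoLink Φ ε K te ((MW.cfg w).ins (lineML Φ ε P z d))
        (MW.line (lineML Φ ε P z i.1)) (MW.line x)) ∧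
      ¬ RetC Φ ε ε K te ((MW.cfg w).ins (lineML Φ ε P z d)) x (ptube Φ ε P z)) ∨
    SAlt Φ T (T + 1) T 1 R ς ε K L (N + N) Finset.univ (fun _ => 0)
        (Tree674.lines Φ ε P z.1 z.2) w ∨
      XAlt Φ T (T + 1) T 1 R ς ε K L (N + N) x w ∨
      JAlt Φ T 1 R ς ε (N + N) Finset.univ (fun _ => 0) (Tree674.lines Φ ε P z.1 z.2) x w := by
  have hT1 : T < T + 1 := by linarith
  have hcard : Fintype.card (Idx P) + 1 + 2 * K * (L + 2) ≤ N := by
    rw [Tree674.card_idx]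
    exact hN
  have hokT : MW.OkFam Φ ε (MW.cfg w) (lineML Φ ε P z) :=
    MWFam255.okFam_comp hΦ hε hok (E6Hyp879.inlEmb (Idx P) Unit)
  have hok0 : (MW.cfg w).Ok Φ ε := MW.OkFam.base hΦ hε hok
  have hokd : ((MW.cfg w).ins (lineML Φ ε P z d)).Ok Φ ε := MW.OkFam.line hΦ hε hokT d
  have hokdx : (((MW.cfg w).ins (lineML Φ ε P z d)).ins x).Ok Φ ε :=
    MWFam255.ok_lines_add hΦ hε hok (⟨fun _ : Unit => Sum.inl d, fun _ _ _ => rfl⟩ : Unit ↪ Idx P ⊕ Unit)
      (⟨fun _ : Unit => Sum.inr (), fun _ _ _ => rfl⟩ : Unit ↪ Idx P ⊕ Unit)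
      fun _ _ h => Sum.inl_ne_inr h
  have hone := LNTree515.oneT (c := 1) hΦ hε hT le_rfl hV hS hw
  have hex := LNTree515.exitsT1 (te := te) hΦ hε hT le_rfl hV hS hw hokT
    (fun i hi => LNOS515.noB_line hB i hi) d
  have hSalt := XR442.hS_of_one (x := x) (T := T) (T₁ := T + 1) (R := R) (ς := ς) (K := K)
    (m := L) (A₀ := Finset.univ) hone.one hex hΦ hε hT.le hte le_rfl hT1 le_rfl hς
    (Finset.univ_nonempty_iff.2 ⟨root P⟩) hcard
  have hc := conn_tree_x (n := n) (w := w) (x := x) hΦ hε le_rfl hV hS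
  have hX := XR442.hX1 (N := N) (m := L) (R := R) (ς := ς) (K := K) (x := x) hΦ hε hT.le hte
    le_rfl hς hw hone.one.base hc hx hcard (hone.lab d) (rel_nonneg hε.le hV.2 d) (one_le_mk P d)
    hok0 hokd hokdx
  have hO := tubeOf_ptube (M := Mx Φ T ε n (fun _ : Idx P => 0) x)
    (Λ := Lx (piS n (Idx P)) (px n (Idx P))) hΦ hε (treeIn_x (w := w) hV hS)
    (by rw [part_eTx]; exact pi_mem) hte
  exact x_alt (ls := fun i : {i : Idx P // i ≠ d} => lineML Φ ε P z i.1) (p := fun i => i.1)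
    (T₁ := T + 1) (R := R) (ς := ς) (L := L)
    hΦ hε hte le_rfl hT1 le_rfl (Finset.univ_nonempty_iff.2 ⟨root P⟩) hw hc
    (lab1 n d).injective hSalt hX hO

/-- **Exceptional test lines, base world `w + d`.** -/
theorem xd_det (hΦ : AdmissiblePotential Φ) (hT : 0 < T) (K L : ℕ) : ∃ N : ℕ,
    ∀ R ς ε te : ℝ, 0 ≤ R → 0 < ε → 2 * (R * ε) ≤ ς → te ≤ T →
      ∀ (P : CTree) (z : PhasePoint × Par P) (n : ℕ) (w : Config n) (x : ML),
        P.leaves ≤ K → Valid Φ ε P T z.1.2 z.2 → Sep Φ ε P T z.1 z.2 → w ∈ PairExcluded ε n →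
        0 ≤ x.1.1 → OkX Φ ε P z w x → x ∈ LinkAsm984.XbadD Φ ε K te P z w →
        (SAlt Φ T (T + 1) T 1 R ς ε K L N Finset.univ (fun _ => 0)
            (Tree674.lines Φ ε P z.1 z.2) w ∨ LNOS515.BT Φ ε te z w) ∨
          XAlt Φ T (T + 1) T 1 R ς ε K L N x w ∨
          JAlt Φ T 1 R ς ε N Finset.univ (fun _ => 0) (Tree674.lines Φ ε P z.1 z.2) x w := by
  refine ⟨(K + 1 + 2 * K * (L + 2)) + (K + 1 + 2 * K * (L + 2)), ?_⟩
  intro R ς ε te _ hε hς hte P z n w x hK hV hS hw hx hok hbad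
  by_cases hB : LNOS515.BT Φ ε te z w
  · exact Or.inl (Or.inr hB)
  obtain ⟨d, _, hbad⟩ := hbad
  have hN : P.leaves + 1 + 2 * K * (L + 2) ≤ K + 1 + 2 * K * (L + 2) := by omega
  rcases xd_good (K := K) (L := L) hΦ hT hε hς hte hV hS hw hx hok.1 hB hN d with h | h | h
  · rcases hbad with h1 | ⟨i, hi, h1⟩
    · exact absurd h1 h.2
    · exact absurd (h.1 ⟨i, hi⟩) h1
  · exact Or.inl (Or.inl h)
  · exact Or.inr h

/-- **helper984's exceptional test lines**, both base worlds. -/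
theorem xbad4_det (hΦ : AdmissiblePotential Φ) (hT : 0 < T) (K L : ℕ) : ∃ N : ℕ,
    ∀ R ς ε te : ℝ, 0 ≤ R → 0 < ε → 2 * (R * ε) ≤ ς → te ≤ T →
      ∀ (P : CTree) (z : PhasePoint × Par P) (n : ℕ) (w : Config n) (x : ML),
        P.leaves ≤ K → Valid Φ ε P T z.1.2 z.2 → Sep Φ ε P T z.1 z.2 → w ∈ PairExcluded ε n →
        InEq2T.PerpT Φ ε P z w → 0 ≤ x.1.1 → OkX Φ ε P z w x →
        x ∈ LinkAsm984.Xbad4 Φ ε K te P z w →
        (SAlt Φ T (T + 1) T 1 R ς ε K L N Finset.univ (fun _ => 0)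
            (Tree674.lines Φ ε P z.1 z.2) w ∨ LNOS515.BT Φ ε te z w) ∨
          XAlt Φ T (T + 1) T 1 R ς ε K L N x w ∨
          JAlt Φ T 1 R ς ε N Finset.univ (fun _ => 0) (Tree674.lines Φ ε P z.1 z.2) x w := by
  obtain ⟨N₁, h1⟩ := tl_det' hΦ hT K L
  obtain ⟨N₂, h2⟩ := xd_det hΦ hT K L
  refine ⟨N₁ + N₂, ?_⟩
  intro R ς ε te hR hε hς hte P z n w x hK hV hS hw hp hx hok hbad
  rcases hbad with hbad | hbad
  · rcases h1 R ς ε te hR hε hς hte P z n w x hK hV hS hw hp hx hok hbad with h | h | h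
    · exact Or.inl (Or.inl (SAlt.mono hε.le (Nat.le_add_right _ _) h))
    · exact Or.inr (Or.inl (XAlt.mono hε.le (Nat.le_add_right _ _) h))
    · exact Or.inr (Or.inr (JAlt.mono (Nat.le_add_right _ _) h))
  · rcases h2 R ς ε te hR hε hς hte P z n w x hK hV hS hw hx hok hbad with (h | h) | h | h
    · exact Or.inl (Or.inl (SAlt.mono hε.le (Nat.le_add_left _ _) h))
    · exact Or.inl (Or.inr h)
    · exact Or.inr (Or.inl (XAlt.mono hε.le (Nat.le_add_left _ _) h))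
    · exact Or.inr (Or.inr (JAlt.mono (Nat.le_add_left _ _) h))

end Crest.Agent.R122.X692

end
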