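import Crest.Agent.R122.XSlot_434
import Crest.Agent.R122.TLBind_311
import Crest.Agent.R122.XbadD_692
import Crest.Agent.R122.LnNClose_291
import Crest.Agent.R122.BWNull_302
import Crest.Agent.R122.LNOSra_515
import Crest.Agent.R122.LinkFin_984

/-!
# The slot `x` of helper984's `Slots4` (row 122)

* `DetX Φ T K lk` : the deterministic alternative for the exceptional lines `lk` of a tree (literal
  form of helper692's `tl_det'` / `xd_det`, with the birth event `BT` of the tree).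
* `tsn_of_detX`, `osNull_of_detX` : the capped mass is null for trees / contact structures.
* `slotX` : **984's slot `x`** from `KData` (helper692's `xbad4_det`).
-/

set_option autoImplicit false
set_option linter.unusedSectionVars false

open MeasureTheory Set Filter Topology
open scoped ENNReal Classical
open Crest.AnalysisR.Kinetic
open Crest.Agent.R122.Kin796 Crest.Agent.R122.Kin796.CTree Crest.Agent.R122.Tree674
open Crest.Agent.R122.GC311 Crest.Agent.R122.EDefs602 Crest.Agent.R122.OneC285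
open Crest.Agent.R122.LinkM547 Crest.Agent.R122.LN2
open Crest.Agent.R122.Gate424 Crest.Agent.R122.Gate973 Crest.Agent.R122.OSMeas984
open Crest.Agent.R122.OneC423 Crest.Agent.R122.LinkAsm984
open Crest.Agent.R122.Third741 Crest.Agent.R122.Master566 Crest.Agent.R122.Top602
open Crest.Agent.R122.X692
open Crest.Agent.R122.TL311 (mT nL TSN Ctx OkXae NOkX)
open Crest.Agent.R122.LNOS515 (BT BL)

noncomputable section

namespace Crest.Agent.R122.GateOS434

variable {Φ : Space3 → ℝ} {f₀ : PhasePoint → ℝ}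

/-- Exceptional sets of lines of a tree: `lk ε te P z w`. -/
abbrev LkF : Type := ℝ → ℝ → (P : CTree) → PhasePoint × Par P → (m : ℕ) → Config m → Set ML

/-- **The deterministic alternative** for the exceptional lines `lk` (at most `K` leaves). -/
def DetX (Φ : Space3 → ℝ) (T : ℝ) (K : ℕ) (lk : LkF) : Prop :=
  ∀ L : ℕ, ∃ N : ℕ, ∀ R ς ε te : ℝ, 0 ≤ R → 0 < ε → 2 * (R * ε) ≤ ς →
    te ≤ T → ∀ (P : CTree) (z : PhasePoint × Par P) (n : ℕ) (w : Config n) (x : ML),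
      P.leaves ≤ K → Valid Φ ε P T z.1.2 z.2 → Sep Φ ε P T z.1 z.2 → w ∈ PairExcluded ε n →
      InEq2T.PerpT Φ ε P z w → 0 ≤ x.1.1 → OkX Φ ε P z w x →
      x ∈ lk ε te P z n w →
      (SAlt Φ T (T + 1) T 1 R ς ε K L N Finset.univ (fun _ => 0)
          (Tree674.lines Φ ε P z.1 z.2) w ∨ BT Φ ε te z w) ∨
        XAlt Φ T (T + 1) T 1 R ς ε K L N x w ∨
        JAlt Φ T 1 R ς ε N Finset.univ (fun _ => 0) (Tree674.lines Φ ε P z.1 z.2) x w

/-- **The birth event of the tree** is null under the law of the tree. -/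
theorem gNull_bt {β T' te g : ℝ} {γ : ℝ → ℝ} {ρ : ℝ≥0∞} (h : Ctx Φ f₀ β T' te g γ ρ)
    (P : CTree) : GNull f₀ (mT Φ f₀ T' P)
      (fun ε _ _ z w => Valid Φ ε P T' z.1.2 z.2 ∧ BT Φ ε te z w) := by
  have hβ : 0 < 2 * β := by linarith [h.g_pos, h.g_le]
  refine (GNull.exists_fintype h.hf fun i : Idx P =>
    BW302.gNull_birthT h.adm hβ h.hf h.gauss h.mass 1 P T' i).mono' ?_
  rintro ε - n z w ⟨hV, i, -, hi⟩
  refine ⟨i, ?_⟩
  rw [BW302.yT_of_adm hV.1]
  exact hi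

theorem tsn_inst {T' : ℝ} {K : ℕ}
    {G : ℝ → (P : CTree) → PhasePoint × Par P → (m : ℕ) → Config m → Prop}
    {i1 i2 : ∀ ε P z m w, Decidable (G ε P z m w)}
    {F : ℝ → (P : CTree) → PhasePoint × Par P → (m : ℕ) → Config m → ℝ≥0∞}
    (h : TSN Φ f₀ T' K (fun ε P z m w => @ite _ (G ε P z m w) (i1 ε P z m w) (F ε P z m w) 0)) :
    TSN Φ f₀ T' K (fun ε P z m w => @ite _ (G ε P z m w) (i2 ε P z m w) (F ε P z m w) 0) := by
  have e : i1 = i2 := by
    funext ε P z m w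
    exact Subsingleton.elim _ _
  subst e
  exact h

/-- **The capped mass of the exceptional lines is null for trees.** -/
theorem tsn_of_detX {β T' te g : ℝ} {γ : ℝ → ℝ} {ρ : ℝ≥0∞} (h : Ctx Φ f₀ β T' te g γ ρ)
    (hT' : 0 < T') (hX : OkXae Φ T' te) {K : ℕ} (Km : ℕ) {lk : LkF} (hd : DetX Φ T' K lk) :
    TSN Φ f₀ T' K (fun ε P z m w => if Valid Φ ε P T' z.1.2 z.2 ∧ Sep Φ ε P T' z.1 z.2 ∧
      InEq2T.PerpT Φ ε P z w then min 1 (lineM γ ρ Km te (lk ε te P z m w)) else 0) := by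
  refine tsn_inst (TL311.tsn_of_alt h K K Km hT' h.te_le le_rfl (T := T')
    (G := fun ε P z m w => Valid Φ ε P T' z.1.2 z.2 ∧ Sep Φ ε P T' z.1 z.2 ∧
      InEq2T.PerpT Φ ε P z w)
    (lk := fun ε P z m w => lk ε te P z m w) (fun ε P z m w hg => hg.1.1)
    (HS := fun _ ε P z _ w => Valid Φ ε P T' z.1.2 z.2 ∧ BT Φ ε te z w)
    (HX := fun _ _ _ _ _ => False)
    (HJ := fun _ ε P z _ w x => NOkX Φ T' te ε P (z, x) w) (fun P hP L => ?_)
    (fun P L => ?_) (fun L => ?_) fun P L => TL311.gNull_okX h.hf hX P)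
  · obtain ⟨N, hd⟩ := hd L
    refine ⟨N, 1, T' + 1, by linarith, fun R hR ς hς => ?_⟩
    have h2R : 0 < 2 * R := by positivity
    refine ⟨ς / (2 * R), div_pos hς h2R, fun ε hε hlt n z x w hw hg hx => ?_⟩
    by_cases hok : NOkX Φ T' te ε P (z, x) w
    · exact Or.inr (Or.inr (Or.inr hok))
    have hok' : x.1.1 ∈ Ioc (0 : ℝ) te ∧ OkX Φ ε P z w x := by
      by_contra hn
      refine hok ⟨hg.1, hg.2.1, hg.2.2, ?_⟩
      by_contra hn'
      push Not at hn'
      exact hn ⟨hn'.1, hn'.2.1, hn'.2.2⟩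
    have hς' : 2 * (R * ε) ≤ ς := by
      have := (lt_div_iff₀ h2R).1 hlt
      linarith
    rcases hd R ς ε te hR.le hε hς' h.te_le P z n w x hP hg.1 hg.2.1 hw hg.2.2 hok'.1.1.le
      hok'.2 hx with (h1 | h1) | h1 | h1
    · exact Or.inl (Or.inl h1)
    · exact Or.inl (Or.inr ⟨hg.1, h1⟩)
    · exact Or.inr (Or.inl (Or.inl h1))
    · exact Or.inr (Or.inr (Or.inl h1))
  · exact gNull_bt h P
  · exact fun δ _ => (GLe.zero f₀ _).mono bot_le ⟨1, one_pos, fun _ _ _ _ _ _ _ _ h => h⟩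

/-- **The capped mass of the exceptional lines is null for contact structures.** -/
theorem osNull_of_detX {Q : EPar} {β T' g : ℝ} (h : Ctx Φ f₀ β T' Q.te g Q.γ Q.ρ)
    (hT' : 0 < T') (hX : OkXae Φ T' Q.te) {K : ℕ} (Km : ℕ) {lk : LkF} (hd : DetX Φ T' K lk) :
    OSNull Φ f₀ K Q T' (fun ε P z m w _ => min 1 (lineM Q.γ Q.ρ Km Q.te (lk ε Q.te P z m w))) :=
  osNull_of_tsn_guard h.adm h.hf h.meas h.mark h.g_pos h.rate
    (F := fun ε P z m w => min 1 (lineM Q.γ Q.ρ Km Q.te (lk ε Q.te P z m w)))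
    (tsn_of_detX h hT' hX Km hd)

/-- **helper984's slot `x`** (`LinkFin_984.slots4_of`), from `KData` alone. -/
theorem slotX {f : ℝ → PhasePoint → ℝ} {β T : ℝ} (hD : KData Φ β T f₀ f) (Q : EPar)
    (g0 T' : ℝ) (K : ℕ) (hQ : QOk Q g0) (hte : 0 ≤ Q.te) (hT' : Q.te < T') :
    OSNull Φ f₀ K Q T' fun ε P z _ w _ =>
      min 1 (lineM Q.γ Q.ρ K Q.te (Xbad4 Φ ε K Q.te P z w)) :=
  osNull_of_detX (ctx_of hD hQ hte hT') (hte.trans_lt hT')
    (LnN291.okXae hD.adm (hte.trans hT'.le) Q.te) K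
    (lk := fun ε te P z _ w => Xbad4 Φ ε K te P z w)
    (xbad4_det hD.adm (hte.trans_lt hT') K)

end Crest.Agent.R122.GateOS434

end
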