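import Crest.Agent.R122.Hid_424

/-!
# Row 122 (helper424): the damping exponent of (hidden) tubes of a straight-line tree

For a rate `a : ℝ → Space3 → Space3 → ℝ≥0∞` and a final damping time `tw`,

* `LamP a tw P T ℓ p` : total rate along all protected legs up to `tw`;
* `LamS a tw P ℓ p` : total rate along all hidden legs up to `tw` (end times `hS`);
* recursions `LamP_node`, `LamS_node`;
* `densS` : product of the damping factors over the hidden legs and of the initial densities;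
* `dens_eq`, `densS_eq` : the densities are `exp (- Lam)` times the product of the initial densities.
-/

set_option autoImplicit false

open MeasureTheory Set Filter
open scoped ENNReal Topology Classical
open Crest.AnalysisR.Kinetic Crest.Agent.R122.Kin796 Crest.Agent.R122.Disc416
  Crest.Agent.R122.Tree674 Crest.Agent.R122.TreeEps399

noncomputable section

namespace Crest.Agent.R122.Hid424

open CTree

variable {Φ : Space3 → ℝ}

/-- rate along the trajectory of particle `i` on `(0, e]` -/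
def legR (Φ : Space3 → ℝ) (a : ℝ → Space3 → Space3 → ℝ≥0∞) (P : CTree) (ℓ : PhasePoint)
    (p : Par P) (i : Idx P) (e : ℝ) : ℝ≥0∞ :=
  ∫⁻ s in Ioc 0 e, a s (path Φ 0 P ℓ p s i).1 (path Φ 0 P ℓ p s i).2

/-- exponent of all protected tubes -/
def LamP (Φ : Space3 → ℝ) (a : ℝ → Space3 → Space3 → ℝ≥0∞) (tw : ℝ) (P : CTree) (T : ℝ)
    (ℓ : PhasePoint) (p : Par P) : ℝ≥0∞ :=
  ∑ i, legR Φ a P ℓ p i (min (prot P T p i) tw)

/-- exponent of the hidden tubes -/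
def LamS (Φ : Space3 → ℝ) (a : ℝ → Space3 → Space3 → ℝ≥0∞) (tw : ℝ) (P : CTree)
    (ℓ : PhasePoint) (p : Par P) : ℝ≥0∞ :=
  ∑ i, legR Φ a P ℓ p i (min (hS Φ P ℓ.2 p i) tw)

variable {a : ℝ → Space3 → Space3 → ℝ≥0∞} {tw : ℝ}

theorem legR_inl {l r : CTree} {ℓ : PhasePoint} {p : Par (node l r)} {i : Idx l} {e : ℝ}
    (he : e ≤ p.1.1) :
    legR Φ a (node l r) ℓ p (Sum.inl i) e = legR Φ a l (inMap Φ 0 ℓ p.1).1 p.2.1 i e := by
  unfold legR
  refine setLIntegral_congr_fun measurableSet_Ioc fun s hs => ?_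
  have h : s ≤ Tree674.sin Φ 0 ℓ.2 p.1 := by rw [sin_zero]; exact hs.2.trans he
  simp only [path_node_le h, Sum.elim_inl]

theorem legR_inr {l r : CTree} {ℓ : PhasePoint} {p : Par (node l r)} {i : Idx r} {e : ℝ}
    (he : e ≤ p.1.1) :
    legR Φ a (node l r) ℓ p (Sum.inr i) e = legR Φ a r (inMap Φ 0 ℓ p.1).2 p.2.2 i e := by
  unfold legR
  refine setLIntegral_congr_fun measurableSet_Ioc fun s hs => ?_
  have h : s ≤ Tree674.sin Φ 0 ℓ.2 p.1 := by rw [sin_zero]; exact hs.2.trans he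
  simp only [path_node_le h, Sum.elim_inr]

theorem LamP_leaf (T : ℝ) (ℓ : PhasePoint) (p : Par leaf) :
    LamP Φ a tw leaf T ℓ p = ∫⁻ s in Ioc 0 (min T tw), a s (ℓ.1 + s • ℓ.2) ℓ.2 := by
  unfold LamP
  rw [Finset.sum_eq_single (root leaf) (fun b _ hb => absurd (Generic491.idx_leaf b (root leaf)) hb)
    (fun h => absurd (Finset.mem_univ _) h)]
  rfl

theorem LamS_leaf (ℓ : PhasePoint) (p : Par leaf) : LamS Φ a tw leaf ℓ p = 0 := by
  unfold LamS legR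
  refine Finset.sum_eq_zero fun i _ => ?_
  have h : Ioc (0 : ℝ) (min (hS Φ leaf ℓ.2 p i) tw) = ∅ := by
    refine Ioc_eq_empty (not_lt.mpr ((min_le_left _ _).trans ?_))
    show (-1 : ℝ) ≤ 0
    norm_num
  rw [h, Measure.restrict_empty, lintegral_zero_measure]

theorem LamP_node {l r : CTree} {T : ℝ} {ℓ : PhasePoint} {p : Par (node l r)}
    (hO : Tree674.Ord Φ 0 (node l r) T ℓ.2 p) (htw : 0 ≤ tw) :
    LamP Φ a tw (node l r) T ℓ p =
      (∫⁻ s in Ioc (min p.1.1 tw) (min T tw), a s (ℓ.1 + s • ℓ.2) ℓ.2) +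
      (LamP Φ a tw l p.1.1 (inMap Φ 0 ℓ p.1).1 p.2.1 +
        LamP Φ a tw r p.1.1 (inMap Φ 0 ℓ p.1).2 p.2.2) := by
  obtain ⟨h1, h2, hl, hr⟩ := hO
  rw [sin_zero] at h2 hl hr
  have hpl : ∀ i, prot l p.1.1 p.2.1 i ≤ p.1.1 := PathFlow968.prot_le le_rfl l _ _ p.2.1 hl
  have hpr : ∀ i, prot r p.1.1 p.2.2 i ≤ p.1.1 := PathFlow968.prot_le le_rfl r _ _ p.2.2 hr
  have hR : ∑ i : Idx r, legR Φ a (node l r) ℓ p (Sum.inr i)
      (min (prot (node l r) T p (Sum.inr i)) tw) =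
      LamP Φ a tw r p.1.1 (inMap Φ 0 ℓ p.1).2 p.2.2 := by
    unfold LamP
    refine Finset.sum_congr rfl fun i _ => ?_
    exact legR_inr ((min_le_left _ _).trans (hpr i))
  have hL : ∑ i : Idx l, legR Φ a (node l r) ℓ p (Sum.inl i)
      (min (prot (node l r) T p (Sum.inl i)) tw) =
      (∫⁻ s in Ioc (min p.1.1 tw) (min T tw), a s (ℓ.1 + s • ℓ.2) ℓ.2) +
      LamP Φ a tw l p.1.1 (inMap Φ 0 ℓ p.1).1 p.2.1 := by
    unfold LamP
    rw [← Finset.add_sum_erase _ _ (Finset.mem_univ (root l)),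
      ← Finset.add_sum_erase (a := root l) _
        (fun i => legR Φ a l (inMap Φ 0 ℓ p.1).1 p.2.1 i (min (prot l p.1.1 p.2.1 i) tw))
        (Finset.mem_univ (root l)), ← add_assoc]
    congr 1
    · -- the root
      have e1 : prot (node l r) T p (Sum.inl (root l)) = T := PathFlow968.prot_root (node l r) T p
      rw [e1, PathFlow968.prot_root, ← legR_inl (r := r) (p := p) (min_le_left p.1.1 tw)]
      unfold legR
      have hle : min p.1.1 tw ≤ min T tw := min_le_min_right _ h1.le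
      have h0 : (0 : ℝ) ≤ min p.1.1 tw := le_min h2.le htw
      rw [← Ioc_union_Ioc_eq_Ioc h0 hle, lintegral_union measurableSet_Ioc
        (Set.disjoint_left.mpr fun s hs hs' => absurd hs.2 (not_le.mpr hs'.1)), add_comm]
      congr 1
      refine setLIntegral_congr_fun measurableSet_Ioc fun s hs => ?_
      have hs1 : p.1.1 < s := by
        rcases le_total p.1.1 tw with h | h
        · rw [min_eq_left h] at hs; exact hs.1
        · rw [min_eq_right h] at hs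
          exact absurd (hs.2.trans (min_le_right _ _)) (not_le.mpr hs.1)
      have hs2 : Tree674.sin Φ 0 ℓ.2 p.1 < s := by rw [sin_zero]; exact hs1
      simp only [path_node_gt hs2, Sum.elim_inl, Function.update_self, colPath_out hs1.le]
      rfl
    · refine Finset.sum_congr rfl fun i hi => ?_
      have hne : i ≠ root l := (Finset.mem_erase.mp hi).1
      have e1 : prot (node l r) T p (Sum.inl i) = prot l p.1.1 p.2.1 i :=
        PathFlow968.prot_eq_of_ne l T p.1.1 p.2.1 hne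
      rw [e1]
      exact legR_inl ((min_le_left _ _).trans (hpl i))
  have hS : LamP Φ a tw (node l r) T ℓ p =
      (∑ i : Idx l, legR Φ a (node l r) ℓ p (Sum.inl i)
        (min (prot (node l r) T p (Sum.inl i)) tw)) +
      ∑ i : Idx r, legR Φ a (node l r) ℓ p (Sum.inr i)
        (min (prot (node l r) T p (Sum.inr i)) tw) := by
    unfold LamP
    exact Fintype.sum_sum_type _
  rw [hS, hL, hR, add_assoc]

theorem LamS_node {l r : CTree} {T : ℝ} {ℓ : PhasePoint} {p : Par (node l r)}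
    (hV : Valid Φ 0 (node l r) T ℓ.2 p) :
    LamS Φ a tw (node l r) ℓ p =
      (if (preV Φ ℓ.2 p.1).1 = ℓ.2 then LamS Φ a tw l (inMap Φ 0 ℓ p.1).1 p.2.1
        else LamP Φ a tw l p.1.1 (inMap Φ 0 ℓ p.1).1 p.2.1) +
      (if (preV Φ ℓ.2 p.1).2 = ℓ.2 then LamS Φ a tw r (inMap Φ 0 ℓ p.1).2 p.2.2
        else LamP Φ a tw r p.1.1 (inMap Φ 0 ℓ p.1).2 p.2.2) := by
  obtain ⟨⟨_, hAl, hAr⟩, h1, h2, hl, hr⟩ := hV
  rw [sin_zero] at h2 hl hr
  have hS : LamS Φ a tw (node l r) ℓ p =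
      (∑ i : Idx l, legR Φ a (node l r) ℓ p (Sum.inl i)
        (min (hS Φ (node l r) ℓ.2 p (Sum.inl i)) tw)) +
      ∑ i : Idx r, legR Φ a (node l r) ℓ p (Sum.inr i)
        (min (hS Φ (node l r) ℓ.2 p (Sum.inr i)) tw) := by
    unfold LamS
    exact Fintype.sum_sum_type _
  rw [hS]
  congr 1
  · split_ifs with h
    · unfold LamS
      have hv : (inMap Φ 0 ℓ p.1).1.2 = ℓ.2 := h
      rw [hv]
      refine Finset.sum_congr rfl fun i _ => ?_
      have e : Hid424.hS Φ (node l r) ℓ.2 p (Sum.inl i) = Hid424.hS Φ l ℓ.2 p.2.1 i := by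
        simp only [Hid424.hS, Sum.elim_inl, if_pos h]
      rw [e]
      refine legR_inl ((min_le_left _ _).trans ?_)
      rw [h] at hAl hl
      exact (hS_le_prot l (by linarith) ℓ.2 p.2.1 ⟨hAl, hl⟩ i).trans
        (PathFlow968.prot_le le_rfl l _ _ p.2.1 hl i)
    · unfold LamP
      refine Finset.sum_congr rfl fun i _ => ?_
      have e : Hid424.hS Φ (node l r) ℓ.2 p (Sum.inl i) = prot l p.1.1 p.2.1 i := by
        simp only [Hid424.hS, Sum.elim_inl, if_neg h]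
      rw [e]
      exact legR_inl ((min_le_left _ _).trans (PathFlow968.prot_le le_rfl l _ _ p.2.1 hl i))
  · split_ifs with h
    · unfold LamS
      have hv : (inMap Φ 0 ℓ p.1).2.2 = ℓ.2 := h
      rw [hv]
      refine Finset.sum_congr rfl fun i _ => ?_
      have e : Hid424.hS Φ (node l r) ℓ.2 p (Sum.inr i) = Hid424.hS Φ r ℓ.2 p.2.2 i := by
        simp only [Hid424.hS, Sum.elim_inr, if_pos h]
      rw [e]
      refine legR_inr ((min_le_left _ _).trans ?_)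
      rw [h] at hAr hr
      exact (hS_le_prot r (by linarith) ℓ.2 p.2.2 ⟨hAr, hr⟩ i).trans
        (PathFlow968.prot_le le_rfl r _ _ p.2.2 hr i)
    · unfold LamP
      refine Finset.sum_congr rfl fun i _ => ?_
      have e : Hid424.hS Φ (node l r) ℓ.2 p (Sum.inr i) = prot r p.1.1 p.2.2 i := by
        simp only [Hid424.hS, Sum.elim_inr, if_neg h]
      rw [e]
      exact legR_inr ((min_le_left _ _).trans (PathFlow968.prot_le le_rfl r _ _ p.2.2 hr i))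

/-! ### Densities -/

/-- Product of the damping factors over the hidden legs and of the initial densities. -/
def densS (Φ : Space3 → ℝ) (D : ℝ → ℝ → Space3 → Space3 → ℝ≥0∞) (f0 : Space3 → Space3 → ℝ≥0∞) :
    ∀ P : CTree, PhasePoint → Par P → ℝ≥0∞
  | leaf => fun ℓ _ => f0 ℓ.1 ℓ.2
  | node l r => fun ℓ p =>
      (if (preV Φ ℓ.2 p.1).1 = ℓ.2 then densS Φ D f0 l (inMap Φ 0 ℓ p.1).1 p.2.1
        else dens Φ D f0 l p.1.1 (inMap Φ 0 ℓ p.1).1 p.2.1) *
      (if (preV Φ ℓ.2 p.1).2 = ℓ.2 then densS Φ D f0 r (inMap Φ 0 ℓ p.1).2 p.2.2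
        else dens Φ D f0 r p.1.1 (inMap Φ 0 ℓ p.1).2 p.2.2)

/-- `exp (-x)` for `x : ℝ≥0∞` (finite) -/
def eexp (x : ℝ≥0∞) : ℝ≥0∞ := ENNReal.ofReal (Real.exp (-x.toReal))

theorem eexp_add {x y : ℝ≥0∞} (hx : x ≠ ∞) (hy : y ≠ ∞) : eexp (x + y) = eexp x * eexp y := by
  unfold eexp
  rw [ENNReal.toReal_add hx hy, neg_add, Real.exp_add, ENNReal.ofReal_mul (Real.exp_nonneg _)]

theorem eexp_zero : eexp 0 = 1 := by simp [eexp]

theorem eexp_le_one (x : ℝ≥0∞) : eexp x ≤ 1 := by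
  unfold eexp
  rw [← ENNReal.ofReal_one]
  refine ENNReal.ofReal_le_ofReal (Real.exp_le_one_iff.2 ?_)
  simp

/-- damping with rate `a`, stopped at `tw` -/
def Dwin (a : ℝ → Space3 → Space3 → ℝ≥0∞) (tw s t : ℝ) (x v : Space3) : ℝ≥0∞ :=
  eexp (∫⁻ r in Ioc (min s tw) (min t tw), a r (x - (t - r) • v) v)

theorem Dwin_line (s t : ℝ) (ℓ : PhasePoint) :
    Dwin a tw s t (ℓ.1 + t • ℓ.2) ℓ.2 =
      eexp (∫⁻ r in Ioc (min s tw) (min t tw), a r (ℓ.1 + r • ℓ.2) ℓ.2) := by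
  unfold Dwin
  congr 1
  refine lintegral_congr fun r => ?_
  congr 1
  module

/-- finiteness of the rates along lines -/
def FinRate (a : ℝ → Space3 → Space3 → ℝ≥0∞) : Prop :=
  ∀ (ℓ : PhasePoint) (s t : ℝ), ∫⁻ r in Ioc s t, a r (ℓ.1 + r • ℓ.2) ℓ.2 ≠ ∞

theorem LamP_ne_top (ha : FinRate a) (htw : 0 ≤ tw) : ∀ {P : CTree} {T : ℝ} {ℓ : PhasePoint}
    {p : Par P}, Tree674.Ord Φ 0 P T ℓ.2 p → LamP Φ a tw P T ℓ p ≠ ∞
  | leaf, T, ℓ, p, _ => by
      rw [LamP_leaf]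
      exact ha ℓ _ _
  | node l r, T, ℓ, p, h => by
      rw [LamP_node h htw]
      have hl := h.2.2.1
      have hr := h.2.2.2
      rw [sin_zero] at hl hr
      refine ENNReal.add_ne_top.2 ⟨ha ℓ _ _, ENNReal.add_ne_top.2 ⟨?_, ?_⟩⟩
      · exact LamP_ne_top ha htw (ℓ := (inMap Φ 0 ℓ p.1).1) hl
      · exact LamP_ne_top ha htw (ℓ := (inMap Φ 0 ℓ p.1).2) hr

theorem LamS_ne_top (ha : FinRate a) (htw : 0 ≤ tw) : ∀ {P : CTree} {T : ℝ} {ℓ : PhasePoint}
    {p : Par P}, Valid Φ 0 P T ℓ.2 p → LamS Φ a tw P ℓ p ≠ ∞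
  | leaf, T, ℓ, p, _ => by
      rw [LamS_leaf]
      exact ENNReal.zero_ne_top
  | node l r, T, ℓ, p, h => by
      rw [LamS_node h]
      have hl := h.2.2.2.1
      have hr := h.2.2.2.2
      rw [sin_zero] at hl hr
      refine ENNReal.add_ne_top.2 ⟨?_, ?_⟩
      · split_ifs with hv
        · exact LamS_ne_top ha htw (ℓ := (inMap Φ 0 ℓ p.1).1) ⟨h.1.2.1, hl⟩
        · exact LamP_ne_top ha htw (ℓ := (inMap Φ 0 ℓ p.1).1) hl
      · split_ifs with hv
        · exact LamS_ne_top ha htw (ℓ := (inMap Φ 0 ℓ p.1).2) ⟨h.1.2.2, hr⟩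
        · exact LamP_ne_top ha htw (ℓ := (inMap Φ 0 ℓ p.1).2) hr

theorem prod_lines_node (f0 : Space3 → Space3 → ℝ≥0∞) (l r : CTree) (ℓ : PhasePoint)
    (p : Par (node l r)) :
    ∏ i, f0 (lines Φ 0 (node l r) ℓ p i).1 (lines Φ 0 (node l r) ℓ p i).2 =
      (∏ i, f0 (lines Φ 0 l (inMap Φ 0 ℓ p.1).1 p.2.1 i).1
        (lines Φ 0 l (inMap Φ 0 ℓ p.1).1 p.2.1 i).2) *
      ∏ i, f0 (lines Φ 0 r (inMap Φ 0 ℓ p.1).2 p.2.2 i).1
        (lines Φ 0 r (inMap Φ 0 ℓ p.1).2 p.2.2 i).2 :=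
  Fintype.prod_sum_type _

theorem prod_lines_leaf (f0 : Space3 → Space3 → ℝ≥0∞) (ℓ : PhasePoint) (p : Par leaf) :
    ∏ i, f0 (lines Φ 0 leaf ℓ p i).1 (lines Φ 0 leaf ℓ p i).2 = f0 ℓ.1 ℓ.2 := by
  rw [Finset.prod_eq_single (root leaf)
    (fun b _ hb => absurd (Generic491.idx_leaf b (root leaf)) hb)
    (fun h => absurd (Finset.mem_univ _) h)]
  rfl

/-- **The damped density of a tree is `exp (-Λ)` times the product of the initial densities.** -/
theorem dens_eq (ha : FinRate a) (htw : 0 ≤ tw) (f0 : Space3 → Space3 → ℝ≥0∞) :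
    ∀ {P : CTree} {T : ℝ} {ℓ : PhasePoint} {p : Par P}, 0 ≤ T → Tree674.Ord Φ 0 P T ℓ.2 p →
    dens Φ (Dwin a tw) f0 P T ℓ p = eexp (LamP Φ a tw P T ℓ p) *
      ∏ i, f0 (lines Φ 0 P ℓ p i).1 (lines Φ 0 P ℓ p i).2
  | leaf, T, ℓ, p, hT, _ => by
      rw [LamP_leaf, prod_lines_leaf]
      simp only [dens]
      rw [Dwin_line, min_eq_left htw]
  | node l r, T, ℓ, p, hT, h => by
      have hl := h.2.2.1
      have hr := h.2.2.2
      have h0 := h.2.1
      rw [sin_zero] at hl hr h0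
      have e1 := dens_eq ha htw f0 (ℓ := (inMap Φ 0 ℓ p.1).1) h0.le hl
      have e2 := dens_eq ha htw f0 (ℓ := (inMap Φ 0 ℓ p.1).2) h0.le hr
      rw [LamP_node h htw, prod_lines_node, eexp_add (ha ℓ _ _) (ENNReal.add_ne_top.2
        ⟨LamP_ne_top ha htw (ℓ := (inMap Φ 0 ℓ p.1).1) hl,
          LamP_ne_top ha htw (ℓ := (inMap Φ 0 ℓ p.1).2) hr⟩),
        eexp_add (LamP_ne_top ha htw (ℓ := (inMap Φ 0 ℓ p.1).1) hl)
          (LamP_ne_top ha htw (ℓ := (inMap Φ 0 ℓ p.1).2) hr)]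
      simp only [dens]
      rw [e1, e2, Dwin_line]
      ring

/-- **The hidden density of a tree is `exp (-Λ_hidden)` times the product of the initial
densities.** -/
theorem densS_eq (ha : FinRate a) (htw : 0 ≤ tw) (f0 : Space3 → Space3 → ℝ≥0∞) :
    ∀ {P : CTree} {T : ℝ} {ℓ : PhasePoint} {p : Par P}, Valid Φ 0 P T ℓ.2 p →
    densS Φ (Dwin a tw) f0 P ℓ p = eexp (LamS Φ a tw P ℓ p) *
      ∏ i, f0 (lines Φ 0 P ℓ p i).1 (lines Φ 0 P ℓ p i).2
  | leaf, T, ℓ, p, _ => by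
      rw [LamS_leaf, prod_lines_leaf, eexp_zero, one_mul]
      rfl
  | node l r, T, ℓ, p, h => by
      have hl := h.2.2.2.1
      have hr := h.2.2.2.2
      have h0 := h.2.2.1
      rw [sin_zero] at hl hr h0
      have hVl : Valid Φ 0 l p.1.1 (inMap Φ 0 ℓ p.1).1.2 p.2.1 := ⟨h.1.2.1, hl⟩
      have hVr : Valid Φ 0 r p.1.1 (inMap Φ 0 ℓ p.1).2.2 p.2.2 := ⟨h.1.2.2, hr⟩
      have e1 : (if (preV Φ ℓ.2 p.1).1 = ℓ.2 then
            densS Φ (Dwin a tw) f0 l (inMap Φ 0 ℓ p.1).1 p.2.1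
          else dens Φ (Dwin a tw) f0 l p.1.1 (inMap Φ 0 ℓ p.1).1 p.2.1) =
          eexp (if (preV Φ ℓ.2 p.1).1 = ℓ.2 then LamS Φ a tw l (inMap Φ 0 ℓ p.1).1 p.2.1
            else LamP Φ a tw l p.1.1 (inMap Φ 0 ℓ p.1).1 p.2.1) *
          ∏ i, f0 (lines Φ 0 l (inMap Φ 0 ℓ p.1).1 p.2.1 i).1
            (lines Φ 0 l (inMap Φ 0 ℓ p.1).1 p.2.1 i).2 := by
        split_ifs with hv
        · exact densS_eq ha htw f0 (ℓ := (inMap Φ 0 ℓ p.1).1) hVl
        · exact dens_eq ha htw f0 (ℓ := (inMap Φ 0 ℓ p.1).1) h0.le hl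
      have e2 : (if (preV Φ ℓ.2 p.1).2 = ℓ.2 then
            densS Φ (Dwin a tw) f0 r (inMap Φ 0 ℓ p.1).2 p.2.2
          else dens Φ (Dwin a tw) f0 r p.1.1 (inMap Φ 0 ℓ p.1).2 p.2.2) =
          eexp (if (preV Φ ℓ.2 p.1).2 = ℓ.2 then LamS Φ a tw r (inMap Φ 0 ℓ p.1).2 p.2.2
            else LamP Φ a tw r p.1.1 (inMap Φ 0 ℓ p.1).2 p.2.2) *
          ∏ i, f0 (lines Φ 0 r (inMap Φ 0 ℓ p.1).2 p.2.2 i).1
            (lines Φ 0 r (inMap Φ 0 ℓ p.1).2 p.2.2 i).2 := by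
        split_ifs with hv
        · exact densS_eq ha htw f0 (ℓ := (inMap Φ 0 ℓ p.1).2) hVr
        · exact dens_eq ha htw f0 (ℓ := (inMap Φ 0 ℓ p.1).2) h0.le hr
      have n1 : (if (preV Φ ℓ.2 p.1).1 = ℓ.2 then LamS Φ a tw l (inMap Φ 0 ℓ p.1).1 p.2.1
            else LamP Φ a tw l p.1.1 (inMap Φ 0 ℓ p.1).1 p.2.1) ≠ ∞ := by
        split_ifs with hv
        · exact LamS_ne_top ha htw (ℓ := (inMap Φ 0 ℓ p.1).1) hVl
        · exact LamP_ne_top ha htw (ℓ := (inMap Φ 0 ℓ p.1).1) hl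
      have n2 : (if (preV Φ ℓ.2 p.1).2 = ℓ.2 then LamS Φ a tw r (inMap Φ 0 ℓ p.1).2 p.2.2
            else LamP Φ a tw r p.1.1 (inMap Φ 0 ℓ p.1).2 p.2.2) ≠ ∞ := by
        split_ifs with hv
        · exact LamS_ne_top ha htw (ℓ := (inMap Φ 0 ℓ p.1).2) hVr
        · exact LamP_ne_top ha htw (ℓ := (inMap Φ 0 ℓ p.1).2) hr
      rw [LamS_node h, eexp_add n1 n2, prod_lines_node]
      simp only [densS]
      rw [e1, e2]
      ring

end Crest.Agent.R122.Hid424
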