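import Crest.Agent.R122.BPair_45

/-!
# Hidden particles which are not hit (row 122, blocks A7/A9), path level

`X` a world (labels `α`, births `b`), `X'` a larger world (labels `γ`, embedding `j`), `D ⊆ range j` a
family, `W'` the world with the labels of `X'` in which the members of `D` are born at their exit
times `σ'`. If the hidden members are isolated in `X` up to `t`, and no visible particle of `W'` comes
near the curve (in `X`) of a hidden member, then up to `t` the hidden members have in `X'` the same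
paths as in `X`, and the visible particles have in `X'` the same paths as in `W'`.

* `HidHyp`, `HidHyp.agree`.
-/

set_option autoImplicit false
set_option linter.unusedSectionVars false

open MeasureTheory Set Filter Topology
open Crest.AnalysisR.Kinetic
open Crest.Agent.R122.Flow671 Crest.Agent.R122.Loc45 Crest.Agent.R122.Ins45

namespace Crest.Agent.R122.Hid879

noncomputable section

open scoped Classical

variable {α γ : Type} [Fintype α] [Fintype γ]

/-- Hypotheses of the hiding lemma up to time `t`. -/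
structure HidHyp (Φ : Space3 → ℝ) (ε t : ℝ) (b : α → ℝ) (X : ℝ → α → PhasePoint)
    (b' : γ → ℝ) (X' : ℝ → γ → PhasePoint) (σ' : γ → ℝ) (W' : ℝ → γ → PhasePoint)
    (j : α → γ) (D : Set γ) : Prop where
  hX : BWorld Φ ε b 0 X
  hX' : BWorld Φ ε b' 0 X'
  hW : BWorld Φ ε σ' 0 W'
  inj : Function.Injective j
  sub : D ⊆ range j
  birth : ∀ a, b' (j a) = b a
  off : ∀ y, y ∉ D → σ' y = b' y
  le : ∀ y, b' y ≤ σ' y
  pos : ∀ y ∈ D, 0 ≤ σ' y
  init : ∀ a, X' 0 (j a) = X 0 a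
  init' : ∀ y, y ∉ D → X' 0 y = W' 0 y
  match_ : ∀ a, j a ∈ D → σ' (j a) ≤ t → W' (σ' (j a)) (j a) = X (σ' (j a)) a
  /-- in `X` the hidden members are near hidden members only -/
  closed : ∀ u ∈ Icc 0 t, ∀ a a', j a ∈ D → u ≤ σ' (j a) → b a' ≤ u →
    dist (X u a).1 (X u a').1 ≤ ε → j a' ∈ D ∧ u ≤ σ' (j a')
  /-- the visible particles of `W'` avoid the curves of the hidden members -/
  avoid : ∀ u ∈ Icc 0 t, ∀ a, j a ∈ D → u ≤ σ' (j a) → ∀ y, σ' y ≤ u →
    ¬ (y ∈ D ∧ u ≤ σ' y) → ε < dist (X u a).1 (W' u y).1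

namespace HidHyp

variable {Φ : Space3 → ℝ} {ε t : ℝ} {b : α → ℝ} {X : ℝ → α → PhasePoint} {b' : γ → ℝ}
  {X' : ℝ → γ → PhasePoint} {σ' : γ → ℝ} {W' : ℝ → γ → PhasePoint} {j : α → γ} {D : Set γ}

/-- The conclusion at time `u`. -/
def Agr (X : ℝ → α → PhasePoint) (X' : ℝ → γ → PhasePoint) (σ' : γ → ℝ)
    (W' : ℝ → γ → PhasePoint) (j : α → γ) (D : Set γ) (u : ℝ) : Prop :=
  (∀ a, j a ∈ D → u ≤ σ' (j a) → X' u (j a) = X u a) ∧
    ∀ y, (y ∈ D → σ' y ≤ u) → X' u y = W' u y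

theorem eq_of_left {x : Type} {f g : ℝ → x} [TopologicalSpace x] [T2Space x] {c u : ℝ}
    (hf : ContinuousOn f (Ici 0)) (hg : ContinuousOn g (Ici 0)) (hc : 0 ≤ c) (hcu : c < u)
    (h : ∀ r ∈ Ico c u, f r = g r) : f u = g u := by
  have h0 : (0 : ℝ) ≤ u := hc.trans hcu.le
  have hf' : Tendsto f (𝓝[<] u) (𝓝 (f u)) := by
    have h1 : ContinuousWithinAt f (Ico 0 u) u := (hf u h0).mono fun r hr => hr.1
    refine h1.tendsto.mono_left (nhdsWithin_le_of_mem ?_)
    exact Ico_mem_nhdsLT (hc.trans_lt hcu)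
  have hg' : Tendsto g (𝓝[<] u) (𝓝 (g u)) := by
    have h1 : ContinuousWithinAt g (Ico 0 u) u := (hg u h0).mono fun r hr => hr.1
    refine h1.tendsto.mono_left (nhdsWithin_le_of_mem ?_)
    exact Ico_mem_nhdsLT (hc.trans_lt hcu)
  refine tendsto_nhds_unique (hf'.congr' ?_) hg'
  filter_upwards [Ico_mem_nhdsLT hcu] with r hr
  exact h r hr

theorem agr_zero (h : HidHyp Φ ε t b X b' X' σ' W' j D) (ht : 0 ≤ t) : Agr X X' σ' W' j D 0 := by
  refine ⟨fun a _ _ => h.init a, fun y hy => ?_⟩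
  by_cases hD : y ∈ D
  · obtain ⟨a, rfl⟩ := h.sub hD
    have h1 : σ' (j a) = 0 := le_antisymm (hy hD) (h.pos _ hD)
    have h2 := h.match_ a hD (h1.le.trans ht)
    rw [h1] at h2
    rw [h.init, h2]
  · exact h.init' y hD

theorem agr_left (h : HidHyp Φ ε t b X b' X' σ' W' j D) {u : ℝ} (hu : 0 < u) (hut : u ≤ t)
    (hr : ∀ r ∈ Ico 0 u, Agr X X' σ' W' j D r) : Agr X X' σ' W' j D u := by
  have h1 : ∀ a, j a ∈ D → u ≤ σ' (j a) → X' u (j a) = X u a := fun a ha hua =>
    eq_of_left (h.hX'.cont_apply (j a)) (h.hX.cont_apply a) le_rfl hu fun r hr' =>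
      (hr r hr').1 a ha (hr'.2.le.trans hua)
  refine ⟨h1, fun y hy => ?_⟩
  by_cases hyu : y ∈ D ∧ u ≤ σ' y
  · obtain ⟨hD, hyu⟩ := hyu
    obtain ⟨a, rfl⟩ := h.sub hD
    have h2 : σ' (j a) = u := le_antisymm (hy hD) hyu
    have h3 := h.match_ a hD (h2.le.trans hut)
    rw [h2] at h3
    rw [h1 a hD hyu, h3]
  · by_cases hD : y ∈ D
    · have h2 : σ' y < u := not_le.1 fun h' => hyu ⟨hD, h'⟩
      exact eq_of_left (h.hX'.cont_apply y) (h.hW.cont_apply y) (h.pos y hD) h2 fun r hr' =>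
        (hr r ⟨(h.pos y hD).trans hr'.1, hr'.2⟩).2 y fun _ => hr'.1
    · exact eq_of_left (h.hX'.cont_apply y) (h.hW.cont_apply y) le_rfl hu fun r hr' =>
        (hr r hr').2 y fun h' => absurd h' hD

theorem ev_dist {μ : Type} [Fintype μ] {Y : ℝ → μ → PhasePoint}
    {c : μ → ℝ} (hY : BWorld Φ ε c 0 Y) {u : ℝ} (hu : 0 ≤ u) {p q : μ}
    (hd : ε < dist (Y u p).1 (Y u q).1) :
    ∀ᶠ r in 𝓝[≥] u, ε < dist (Y r p).1 (Y r q).1 := by
  have h1 : ContinuousWithinAt (fun r => dist (Y r p).1 (Y r q).1) (Ici u) u := by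
    have h2 : ContinuousOn (fun r => dist (Y r p).1 (Y r q).1) (Ici 0) :=
      continuous_dist.comp_continuousOn ((hY.cont_pos p).prodMk (hY.cont_pos q))
    exact (h2 u hu).mono (Ici_subset_Ici.2 hu)
  exact h1.eventually (lt_mem_nhds hd)

theorem agr_step (h : HidHyp Φ ε t b X b' X' σ' W' j D) (hΦ : AdmissiblePotential Φ) (hε : 0 < ε)
    {u : ℝ} (hu : 0 ≤ u) (hut : u < t) (ha : Agr X X' σ' W' j D u) :
    ∃ v, u < v ∧ v ≤ t ∧ ∀ r ∈ Icc u v, Agr X X' σ' W' j D r := by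
  obtain ⟨ha1, ha2⟩ := ha
  -- members which are hidden at time `u`
  set S₁ : Set α := {a | j a ∈ D ∧ u ≤ σ' (j a)} with hS₁
  have F1 : ∀ a ∈ S₁, ∀ a', a' ∉ S₁ → b a' ≤ u → ε < dist (X u a).1 (X u a').1 := by
    intro a haS a' ha' hb
    by_contra hle
    exact ha' (h.closed u ⟨hu, hut.le⟩ a a' haS.1 haS.2 hb (not_lt.1 hle))
  have F2 : ∀ a ∈ S₁, ∀ y, y ∉ j '' S₁ → b' y ≤ u → ε < dist (X' u (j a)).1 (X' u y).1 := by
    intro a haS y hy hb
    have hvis : ¬ (y ∈ D ∧ u ≤ σ' y) := by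
      rintro ⟨hD, hyu⟩
      obtain ⟨a', rfl⟩ := h.sub hD
      exact hy ⟨a', ⟨hD, hyu⟩, rfl⟩
    have hσ : σ' y ≤ u := by
      by_cases hD : y ∈ D
      · exact (not_le.1 fun h' => hvis ⟨hD, h'⟩).le
      · rw [h.off y hD]; exact hb
    rw [ha1 a haS.1 haS.2, ha2 y fun _ => hσ]
    exact h.avoid u ⟨hu, hut.le⟩ a haS.1 haS.2 y hσ hvis
  have ev : ∀ᶠ r in 𝓝[≥] u, (∀ a ∈ S₁, ∀ a', a' ∉ S₁ → b a' ≤ u →
      ε < dist (X r a).1 (X r a').1) ∧ (∀ a ∈ S₁, ∀ y, y ∉ j '' S₁ → b' y ≤ u →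
      ε < dist (X' r (j a)).1 (X' r y).1) ∧ (∀ y, u < b' y → r < b' y) ∧
      (∀ y, u < σ' y → r < σ' y) ∧ r < t := by
    refine (eventually_all.2 fun a => ?_).and ((eventually_all.2 fun a => ?_).and
      ((eventually_all.2 fun y => ?_).and ((eventually_all.2 fun y => ?_).and ?_)))
    · by_cases haS : a ∈ S₁
      · have h1 : ∀ᶠ r in 𝓝[≥] u, ∀ a', a' ∉ S₁ → b a' ≤ u → ε < dist (X r a).1 (X r a').1 := by
          refine eventually_all.2 fun a' => ?_
          by_cases hc : a' ∉ S₁ ∧ b a' ≤ u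
          · filter_upwards [ev_dist h.hX hu (F1 a haS a' hc.1 hc.2)] with r hr _ _
            exact hr
          · exact Eventually.of_forall fun r h1 h2 => absurd ⟨h1, h2⟩ hc
        filter_upwards [h1] with r hr _
        exact hr
      · exact Eventually.of_forall fun r h1 => absurd h1 haS
    · by_cases haS : a ∈ S₁
      · have h1 : ∀ᶠ r in 𝓝[≥] u, ∀ y, y ∉ j '' S₁ → b' y ≤ u →
            ε < dist (X' r (j a)).1 (X' r y).1 := by
          refine eventually_all.2 fun y => ?_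
          by_cases hc : y ∉ j '' S₁ ∧ b' y ≤ u
          · filter_upwards [ev_dist h.hX' hu (F2 a haS y hc.1 hc.2)] with r hr _ _
            exact hr
          · exact Eventually.of_forall fun r h1 h2 => absurd ⟨h1, h2⟩ hc
        filter_upwards [h1] with r hr _
        exact hr
      · exact Eventually.of_forall fun r h1 => absurd h1 haS
    · by_cases hy : u < b' y
      · filter_upwards [mem_nhdsWithin_of_mem_nhds (Iio_mem_nhds hy)] with r hr _
        exact hr
      · exact Eventually.of_forall fun r h1 => absurd h1 hy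
    · by_cases hy : u < σ' y
      · filter_upwards [mem_nhdsWithin_of_mem_nhds (Iio_mem_nhds hy)] with r hr _
        exact hr
      · exact Eventually.of_forall fun r h1 => absurd h1 hy
    · exact mem_nhdsWithin_of_mem_nhds (Iio_mem_nhds hut)
  obtain ⟨v, huv, hv⟩ := mem_nhdsGE_iff_exists_Icc_subset.1 ev
  have huv' : u < v := huv
  have hvt : v < t := (hv ⟨huv'.le, le_rfl⟩).2.2.2.2
  -- the hidden members
  have A1 : ∀ a ∈ S₁, ∀ r ∈ Icc u v, X' r (j a) = X r a := by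
    refine BWorld.agree_own hΦ hε h.hX' h.hX (e := j) (f := id) h.inj Function.injective_id
      (S := S₁) (A := ∅) hu hu (fun a _ r _ => ?_) (fun _ h' => absurd h' (notMem_empty _))
      (fun a haS => ha1 a haS.1 haS.2) ?_ ?_
    · rw [h.birth a]; rfl
    · intro r hr a haS _ y hby hne
      refine ((hv ⟨hr.1, hr.2.le⟩).2.1 a haS y ?_ ?_).le
      · rintro ⟨a', ha', rfl⟩
        exact hne a' (Or.inl ha') rfl
      · by_contra hlt
        exact absurd hby (not_le.2 ((hv ⟨hr.1, hr.2.le⟩).2.2.1 y (not_le.1 hlt)))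
    · intro r hr a haS _ a' hba hne
      refine ((hv ⟨hr.1, hr.2.le⟩).1 a haS a' (fun ha' => hne a' (Or.inl ha') rfl) ?_).le
      by_contra hlt
      have h1 := (hv ⟨hr.1, hr.2.le⟩).2.2.1 (j a') (by rw [h.birth]; exact not_le.1 hlt)
      rw [h.birth] at h1
      exact absurd hba (not_le.2 h1)
  -- the visible particles
  have A2 : ∀ y ∈ {y : γ | ¬ (y ∈ D ∧ u < σ' y)}, ∀ r ∈ Icc u v, X' r (id y) = W' r (id y) := by
    refine BWorld.agree_own hΦ hε h.hX' h.hW (e := id) (f := id) Function.injective_id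
      Function.injective_id (S := {y : γ | ¬ (y ∈ D ∧ u < σ' y)}) (A := ∅) hu hu
      (fun y hy r hr => ?_) (fun _ h' => absurd h' (notMem_empty _)) (fun y hy => ?_) ?_ ?_
    · have hy' : y ∈ {y : γ | ¬ (y ∈ D ∧ u < σ' y)} := hy.resolve_right (notMem_empty _)
      change b' y ≤ r ↔ σ' y ≤ r
      by_cases hD : y ∈ D
      · have h1 : σ' y ≤ u := not_lt.1 fun h2 => hy' ⟨hD, h2⟩
        exact ⟨fun _ => h1.trans hr.1, fun _ => (h.le y).trans (h1.trans hr.1)⟩
      · rw [h.off y hD]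
    · exact ha2 y fun hD => not_lt.1 fun h2 => hy ⟨hD, h2⟩
    · intro r hr m hm hbm k hbk hk
      change ε ≤ dist (X' r m).1 (X' r k).1
      have hk' : k ∈ D ∧ u < σ' k := by
        by_contra hcon
        exact hk k (Or.inl hcon) rfl
      obtain ⟨hkD, hku⟩ := hk'
      obtain ⟨a, rfl⟩ := h.sub hkD
      have haS : a ∈ S₁ := ⟨hkD, hku.le⟩
      have hbm' : b' m ≤ u := by
        by_contra hlt
        exact absurd hbm (not_le.2 ((hv ⟨hr.1, hr.2.le⟩).2.2.1 m (not_le.1 hlt)))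
      by_cases hmS : m ∈ j '' S₁
      · obtain ⟨a₂, ha₂, rfl⟩ := hmS
        have hσ : σ' (j a₂) = u :=
          le_antisymm (not_lt.1 fun h2 => hm ⟨ha₂.1, h2⟩) ha₂.2
        have key : ∀ q ∈ Ioc u v, ε < dist (X q a).1 (X q a₂).1 := by
          intro q hq
          by_contra hle
          have h1 := h.closed q ⟨hu.trans hq.1.le, hq.2.trans hvt.le⟩ a a₂ hkD
            ((hv ⟨hq.1.le, hq.2⟩).2.2.2.1 _ hku).le
            (by rw [h.birth] at hbm'; exact hbm'.trans hq.1.le) (not_lt.1 hle)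
          rw [hσ] at h1
          exact absurd h1.2 (not_le.2 hq.1)
        rw [A1 a haS r ⟨hr.1, hr.2.le⟩, A1 a₂ ha₂ r ⟨hr.1, hr.2.le⟩, dist_comm]
        rcases hr.1.lt_or_eq with hlt | heq
        · exact (key r ⟨hlt, hr.2.le⟩).le
        · subst heq
          have hc : ContinuousWithinAt (fun q => dist (X q a).1 (X q a₂).1) (Ioi u) u := by
            have h2 : ContinuousOn (fun q => dist (X q a).1 (X q a₂).1) (Ici 0) :=
              continuous_dist.comp_continuousOn ((h.hX.cont_pos a).prodMk (h.hX.cont_pos a₂))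
            exact (h2 u hu).mono fun q hq => hu.trans (le_of_lt hq)
          refine ge_of_tendsto hc.tendsto ?_
          filter_upwards [Ioc_mem_nhdsGT huv'] with q hq
          exact (key q hq).le
      · rw [dist_comm]
        exact ((hv ⟨hr.1, hr.2.le⟩).2.1 a haS m hmS hbm').le
    · intro r hr m _ _ k hbk hk
      exfalso
      have hk' : k ∈ D ∧ u < σ' k := by
        by_contra hcon
        exact hk k (Or.inl hcon) rfl
      exact absurd hbk (not_le.2 ((hv ⟨hr.1, hr.2.le⟩).2.2.2.1 k hk'.2))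
  refine ⟨v, huv', hvt.le, fun r hr => ⟨fun a hD har => ?_, fun y hy => ?_⟩⟩
  · exact A1 a ⟨hD, hr.1.trans har⟩ r hr
  · refine A2 y ?_ r hr
    rintro ⟨hD, hlt⟩
    exact absurd (hy hD) (not_le.2 ((hv hr).2.2.2.1 y hlt))

/-- **Hidden members which are not hit.** -/
theorem agree (h : HidHyp Φ ε t b X b' X' σ' W' j D) (hΦ : AdmissiblePotential Φ) (hε : 0 < ε)
    (ht : 0 ≤ t) : ∀ u ∈ Icc 0 t, Agr X X' σ' W' j D u := by
  set s : Set ℝ := {u | ∀ r ∈ Icc 0 u, Agr X X' σ' W' j D r} with hs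
  have hcl : IsClosed (s ∩ Icc 0 t) := by
    refine IsSeqClosed.isClosed fun x u hx hxu => ?_
    have hu : u ∈ Icc 0 t := isClosed_Icc.mem_of_tendsto hxu (Eventually.of_forall fun n => (hx n).2)
    refine ⟨fun r hr => ?_, hu⟩
    have key : ∀ r ∈ Ico 0 u, Agr X X' σ' W' j D r := by
      intro r hr
      obtain ⟨n, hn⟩ := (hxu.eventually (lt_mem_nhds hr.2)).exists
      exact (hx n).1 r ⟨hr.1, hn.le⟩
    rcases hr.2.lt_or_eq with hlt | heq
    · exact key r ⟨hr.1, hlt⟩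
    · subst heq
      rcases hr.1.lt_or_eq with h0 | h0
      · exact h.agr_left h0 hu.2 key
      · rw [← h0]
        exact h.agr_zero ht
  have h1 : Icc 0 t ⊆ s := by
    refine hcl.Icc_subset_of_forall_exists_gt ?_ fun u hu y hy => ?_
    · intro r hr
      have h2 : r = 0 := le_antisymm hr.2 hr.1
      rw [h2]
      exact h.agr_zero ht
    · obtain ⟨v, huv, hvt, hv⟩ := h.agr_step hΦ hε hu.2.1 hu.2.2 (hu.1 u ⟨hu.2.1, le_rfl⟩)
      refine ⟨min v y, fun r hr => ?_, lt_min huv hy, min_le_right _ _⟩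
      rcases le_total r u with h2 | h2
      · exact hu.1 r ⟨hr.1, h2⟩
      · exact hv r ⟨h2, hr.2.trans (min_le_left _ _)⟩
  exact fun u hu => h1 hu u ⟨hu.1, le_rfl⟩

end HidHyp

end

end Crest.Agent.R122.Hid879
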