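import Crest.Agent.R122.Hit1_167

/-!
# First hits of a protected family (row 122, helper167), the dictionary

`G`-world on `κ`, `G ∪ B`-world `z'` on `κ ⊕ β`, real world `z` on `ι`; `e : κ → ι`, `f : β → ι`
with disjoint ranges. `A : ℝ → Set κ` is the protected family of `G`.

* `GoodHit z' ε A j σ` (isolated world `G ∪ B`): the family `A` is isolated on `[0, σ)`, `j ∈ B`
  touches it at time `σ`, and the backward exploration of `(j, σ⁻)` is exactly `B`.
* `RealHit z ε e f A j σ` (real world): the same in the real world.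
* `realHit_iff`: `RealHit` and "the real families are isolated in the isolated world `G ∪ B`"
  is equivalent to `GoodHit` and "the families of the isolated world are isolated in the real
  world", i.e. the structure `G ∪ B` is present in the real world up to time `σ`.
* `exists_first_touch`: first touch in a window.
* uniqueness of the first touching time.
-/

set_option autoImplicit false

open Set Filter Topology
open Crest.AnalysisR.Kinetic

namespace Crest.Agent.R122.Hit167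

open Causal291

section

variable {κ β ι : Type}

/-- Image of the family of `G` in the world `G ∪ B`. -/
def famL (A : ℝ → Set κ) : ℝ → Set (κ ⊕ β) := fun s => Sum.inl '' A s

/-- **Good hit** in the isolated world `G ∪ B`. -/
structure GoodHit (z' : ℝ → (κ ⊕ β) → PhasePoint) (ε : ℝ) (A : ℝ → Set κ) (j : β) (σ : ℝ) :
    Prop where
  iso : Iso z' ε (famL A) σ
  touch : TouchAt z' ε (famL A) σ (Sum.inr j)
  full : preAct z' ε (Sum.inr j) σ 0 = range Sum.inr

/-- **Real hit**: in the real world the family of `G` is isolated on `[0, σ)`, `f j` touches it at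
time `σ`, and the backward exploration of `(f j, σ⁻)` is exactly `f B`. -/
structure RealHit (z : ℝ → ι → PhasePoint) (ε : ℝ) (e : κ → ι) (f : β → ι) (A : ℝ → Set κ) (j : β)
    (σ : ℝ) : Prop where
  iso : Iso z ε (fun s => e '' A s) σ
  touch : TouchAt z ε (fun s => e '' A s) σ (f j)
  full : preAct z ε (f j) σ 0 = range f

/-- The family of the structure `G ∪ B` after a hit at `(j, σ)`. -/
def famHit (z' : ℝ → (κ ⊕ β) → PhasePoint) (ε : ℝ) (A : ℝ → Set κ) (j : β) (σ : ℝ) :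
    ℝ → Set (κ ⊕ β) := fun s => famL A s ∪ preAct z' ε (Sum.inr j) σ s

/-- The real family (of `G` and of the hitter) pulled back to the index set of `G ∪ B`. -/
def famReal (z : ℝ → ι → PhasePoint) (ε : ℝ) (e : κ → ι) (f : β → ι) (A : ℝ → Set κ) (j : β)
    (σ : ℝ) : ℝ → Set (κ ⊕ β) :=
  fun s => famL A s ∪ Sum.elim e f ⁻¹' preAct z ε (f j) σ s

theorem famL_anti {A : ℝ → Set κ} {t : ℝ} (hA : Anti A t) :
    Anti (famL A : ℝ → Set (κ ⊕ β)) t :=
  fun s s' h0 h1 h2 => image_mono (hA s s' h0 h1 h2)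

theorem famHit_anti {z' : ℝ → (κ ⊕ β) → PhasePoint} {ε : ℝ} {A : ℝ → Set κ} {j : β} {σ : ℝ}
    (hA : Anti A σ) : Anti (famHit z' ε A j σ) σ :=
  (famL_anti hA).union preAct_anti

theorem famReal_anti {z : ℝ → ι → PhasePoint} {ε : ℝ} {e : κ → ι} {f : β → ι} {A : ℝ → Set κ}
    {j : β} {σ : ℝ} (hA : Anti A σ) : Anti (famReal z ε e f A j σ) σ :=
  (famL_anti hA).union fun s s' h0 h1 h2 => preimage_mono (preAct_anti s s' h0 h1 h2)

theorem GoodHit.iso_famHit {z' : ℝ → (κ ⊕ β) → PhasePoint} {ε : ℝ} {A : ℝ → Set κ} {j : β} {σ : ℝ}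
    (h : GoodHit z' ε A j σ) : Iso z' ε (famHit z' ε A j σ) σ := h.iso.union iso_preAct

theorem elim_image_famL {e : κ → ι} {f : β → ι} (A : ℝ → Set κ) (s : ℝ) :
    Sum.elim e f '' (famL A s : Set (κ ⊕ β)) = e '' A s := by
  unfold famL
  rw [← image_comp]
  rfl

variable {z : ℝ → ι → PhasePoint} {z' : ℝ → (κ ⊕ β) → PhasePoint} {e : κ → ι} {f : β → ι}
variable {ε T : ℝ} {A : ℝ → Set κ} {j : β} {σ : ℝ}

theorem RealHit.pos (h : RealHit z ε e f A j σ) (hσ0 : 0 ≤ σ) : 0 < σ := by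
  rcases hσ0.lt_or_eq with h1 | h1
  · exact h1
  · exfalso
    have h2 : f j ∈ preAct z ε (f j) σ 0 := by rw [h.full]; exact ⟨j, rfl⟩
    obtain ⟨s', hs', _⟩ := h2
    rw [← h1] at hs'
    simp at hs'

theorem GoodHit.pos (h : GoodHit z' ε A j σ) (hσ0 : 0 ≤ σ) : 0 < σ := by
  rcases hσ0.lt_or_eq with h1 | h1
  · exact h1
  · exfalso
    have h2 : (Sum.inr j : κ ⊕ β) ∈ preAct z' ε (Sum.inr j) σ 0 := by rw [h.full]; exact ⟨j, rfl⟩
    obtain ⟨s', hs', _⟩ := h2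
    rw [← h1] at hs'
    simp at hs'

/-- The real exploration family is contained in `f B`. -/
theorem RealHit.preAct_subset_range (h : RealHit z ε e f A j σ) {s : ℝ} (hs : s ∈ Ico 0 σ) :
    preAct z ε (f j) σ s ⊆ range f := by
  rw [← h.full]
  exact preAct_anti 0 s le_rfl hs.1 hs.2.le

theorem elim_image_famReal (h : RealHit z ε e f A j σ) {s : ℝ} (hs : s ∈ Ico 0 σ) :
    Sum.elim e f '' famReal z ε e f A j σ s = e '' A s ∪ preAct z ε (f j) σ s := by
  unfold famReal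
  rw [image_union, elim_image_famL, image_preimage_eq_of_subset]
  intro i hi
  obtain ⟨b, rfl⟩ := h.preAct_subset_range hs hi
  exact ⟨Sum.inr b, rfl⟩

end

section main

variable {κ β ι : Type} [Finite κ] [Finite β] [Finite ι]
variable {z : ℝ → ι → PhasePoint} {z' : ℝ → (κ ⊕ β) → PhasePoint} {e : κ → ι} {f : β → ι}
variable {ε T : ℝ} {A : ℝ → Set κ} {j : β} {σ : ℝ}

theorem elim_injective (he : Function.Injective e) (hf : Function.Injective f)
    (hd : ∀ k b, e k ≠ f b) : Function.Injective (Sum.elim e f) := by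
  rintro (a | a) (b | b) h
  · exact congrArg _ (he h)
  · exact absurd h (hd a b)
  · exact absurd h.symm (hd b a)
  · exact congrArg _ (hf h)

/-- **Dictionary, from the real world to the isolated world.** -/
theorem RealHit.goodHit (hz' : ∀ j, ContinuousOn (fun s => z' s j) (Icc 0 T))
    (hz : ∀ j, ContinuousOn (fun s => z s j) (Icc 0 T))
    (hloc : LocUniq ε T z' z) (he : Function.Injective e) (hf : Function.Injective f)
    (hd : ∀ k b, e k ≠ f b) (h0 : ∀ i, z' 0 i = z 0 (Sum.elim e f i))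
    (hσ0 : 0 ≤ σ) (hσT : σ ≤ T) (hA : Anti A σ)
    (h : RealHit z ε e f A j σ) (hI : Iso z' ε (famReal z ε e f A j σ) σ) :
    GoodHit z' ε A j σ ∧ Iso z ε (fun s => Sum.elim e f '' famHit z' ε A j σ s) σ ∧
      (∀ s ∈ Ico 0 σ, famHit z' ε A j σ s = famReal z ε e f A j σ s) ∧
      (∀ s ∈ Ico 0 σ, ∀ k ∈ famHit z' ε A j σ s, z' s k = z s (Sum.elim e f k)) := by
  have hinj := elim_injective he hf hd
  have hσpos := h.pos hσ0
  have hI2 : Iso z ε (fun s => Sum.elim e f '' famReal z ε e f A j σ s) σ :=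
    (h.iso.union iso_preAct).congr fun s hs => (elim_image_famReal h hs).symm
  have hanti := famReal_anti (z := z) (ε := ε) (e := e) (f := f) (j := j) hA
  have hag : ∀ s ∈ Icc 0 σ, ∀ k ∈ famReal z ε e f A j σ s, z' s k = z s (Sum.elim e f k) :=
    Iso.agree hz' hz hloc hinj hσT hanti (fun k _ => h0 k) hI hI2
  have hj : ∀ s ∈ Ico 0 σ, (Sum.inr j : κ ⊕ β) ∈ famReal z ε e f A j σ s := fun s hs =>
    Or.inr (mem_preAct_self (j := f j) hs.2)
  have hpre : ∀ s ∈ Ico 0 σ, preAct z' ε (Sum.inr j) σ s =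
      Sum.elim e f ⁻¹' preAct z ε (f j) σ s := by
    intro s hs
    have h1 : preAct z ε (Sum.elim e f (Sum.inr j)) σ s =
        Sum.elim e f '' preAct z' ε (Sum.inr j) σ s :=
      preAct_eq hinj hanti hI hI2 hag le_rfl hj hs.1
    rw [Sum.elim_inr] at h1
    rw [h1, preimage_image_eq _ hinj]
  have hfam : ∀ s ∈ Ico 0 σ, famHit z' ε A j σ s = famReal z ε e f A j σ s := by
    intro s hs
    unfold famHit famReal
    rw [hpre s hs]
  refine ⟨⟨?_, ?_, ?_⟩, ?_, hfam, ?_⟩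
  · -- isolation of `A` in `z'`
    rintro s hs _ ⟨k, hk, rfl⟩ i hi
    by_cases hi2 : i ∈ famReal z ε e f A j σ s
    · have hk2 : (Sum.inl k : κ ⊕ β) ∈ famReal z ε e f A j σ s := Or.inl ⟨k, hk, rfl⟩
      rw [hag s ⟨hs.1, hs.2.le⟩ _ hk2, hag s ⟨hs.1, hs.2.le⟩ i hi2]
      refine h.iso s hs (e k) ⟨k, hk, rfl⟩ _ ?_
      rintro ⟨k', hk', h1⟩
      have : (Sum.inl k' : κ ⊕ β) = i := hinj h1
      exact hi ⟨k', hk', this⟩
    · exact hI s hs _ (Or.inl ⟨k, hk, rfl⟩) i hi2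
  · -- touch at time `σ`
    refine ⟨?_, ?_⟩
    · rintro ⟨k, _, h1⟩
      exact absurd h1 (by simp)
    · obtain ⟨_, _, ⟨k, hk, rfl⟩, hdist⟩ := h.touch
      refine ⟨Sum.inl k, ⟨k, hk, rfl⟩, ?_⟩
      have h1 : z' σ (Sum.inl k) = z σ (e k) :=
        hag σ ⟨hσ0, le_rfl⟩ _ (Or.inl ⟨k, hk, rfl⟩)
      have h2 : z' σ (Sum.inr j) = z σ (f j) := by
        -- by continuity from the left
        have hne : (𝓝[Ico 0 σ] σ).NeBot := by
          rw [← mem_closure_iff_nhdsWithin_neBot, closure_Ico hσpos.ne]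
          exact ⟨hσ0, le_rfl⟩
        have hsub : Ico 0 σ ⊆ Icc 0 T := fun s hs => ⟨hs.1, hs.2.le.trans hσT⟩
        have h3 : Tendsto (fun s => z' s (Sum.inr j)) (𝓝[Ico 0 σ] σ) (𝓝 (z' σ (Sum.inr j))) :=
          ((hz' (Sum.inr j)) σ ⟨hσ0, hσT⟩).mono hsub
        have h4 : Tendsto (fun s => z s (f j)) (𝓝[Ico 0 σ] σ) (𝓝 (z σ (f j))) :=
          ((hz (f j)) σ ⟨hσ0, hσT⟩).mono hsub
        refine tendsto_nhds_unique_of_eventuallyEq h3 h4 ?_
        filter_upwards [self_mem_nhdsWithin] with s hs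
        exact hag s ⟨hs.1, hs.2.le⟩ _ (hj s hs)
      rw [h1, h2]
      exact hdist
  · -- full
    rw [hpre 0 ⟨le_rfl, hσpos⟩, h.full]
    ext i
    constructor
    · rintro ⟨b, hb⟩
      have : (Sum.inr b : κ ⊕ β) = i := hinj hb
      exact ⟨b, this⟩
    · rintro ⟨b, rfl⟩
      exact ⟨b, rfl⟩
  · refine hI2.congr fun s hs => ?_
    rw [hfam s hs]
  · intro s hs k hk
    rw [hfam s hs] at hk
    exact hag s ⟨hs.1, hs.2.le⟩ k hk

/-- **Dictionary, from the isolated world to the real world.** -/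
theorem GoodHit.realHit (hz' : ∀ j, ContinuousOn (fun s => z' s j) (Icc 0 T))
    (hz : ∀ j, ContinuousOn (fun s => z s j) (Icc 0 T))
    (hloc : LocUniq ε T z' z) (he : Function.Injective e) (hf : Function.Injective f)
    (hd : ∀ k b, e k ≠ f b) (h0 : ∀ i, z' 0 i = z 0 (Sum.elim e f i))
    (hσ0 : 0 ≤ σ) (hσT : σ ≤ T) (hA : Anti A σ)
    (h : GoodHit z' ε A j σ)
    (hI : Iso z ε (fun s => Sum.elim e f '' famHit z' ε A j σ s) σ) :
    RealHit z ε e f A j σ ∧ Iso z' ε (famReal z ε e f A j σ) σ ∧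
      (∀ s ∈ Ico 0 σ, famHit z' ε A j σ s = famReal z ε e f A j σ s) := by
  have hinj := elim_injective he hf hd
  have hσpos := h.pos hσ0
  have hanti := famHit_anti (z' := z') (ε := ε) (j := j) hA
  have hag : ∀ s ∈ Icc 0 σ, ∀ k ∈ famHit z' ε A j σ s, z' s k = z s (Sum.elim e f k) :=
    Iso.agree hz' hz hloc hinj hσT hanti (fun k _ => h0 k) h.iso_famHit hI
  have hj : ∀ s ∈ Ico 0 σ, (Sum.inr j : κ ⊕ β) ∈ famHit z' ε A j σ s := fun s hs =>
    Or.inr (mem_preAct_self hs.2)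
  have hpre : ∀ s ∈ Ico 0 σ, preAct z ε (f j) σ s =
      Sum.elim e f '' preAct z' ε (Sum.inr j) σ s := by
    intro s hs
    exact preAct_eq (j := Sum.inr j) hinj hanti h.iso_famHit hI hag le_rfl hj hs.1
  have hfam : ∀ s ∈ Ico 0 σ, famHit z' ε A j σ s = famReal z ε e f A j σ s := by
    intro s hs
    unfold famHit famReal
    rw [hpre s hs, preimage_image_eq _ hinj]
  refine ⟨⟨?_, ?_, ?_⟩, ?_, hfam⟩
  · rintro s hs _ ⟨k, hk, rfl⟩ i hi
    have hk2 : (Sum.inl k : κ ⊕ β) ∈ famHit z' ε A j σ s := Or.inl ⟨k, hk, rfl⟩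
    by_cases hi2 : i ∈ Sum.elim e f '' famHit z' ε A j σ s
    · obtain ⟨m, hm, rfl⟩ := hi2
      have h1 := hag s ⟨hs.1, hs.2.le⟩ _ hk2
      have h2 := hag s ⟨hs.1, hs.2.le⟩ m hm
      rw [Sum.elim_inl] at h1
      rw [← h1, ← h2]
      refine h.iso s hs _ ⟨k, hk, rfl⟩ m ?_
      rintro ⟨k', hk', rfl⟩
      exact hi ⟨k', hk', rfl⟩
    · exact hI s hs (e k) ⟨Sum.inl k, hk2, rfl⟩ i hi2
  · refine ⟨?_, ?_⟩
    · rintro ⟨k, _, h1⟩
      exact hd k j h1
    · obtain ⟨_, _, ⟨k, hk, rfl⟩, hdist⟩ := h.touch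
      refine ⟨e k, ⟨k, hk, rfl⟩, ?_⟩
      have h1 : z' σ (Sum.inl k) = z σ (e k) :=
        hag σ ⟨hσ0, le_rfl⟩ _ (Or.inl ⟨k, hk, rfl⟩)
      have h2 : z' σ (Sum.inr j) = z σ (f j) := by
        have hne : (𝓝[Ico 0 σ] σ).NeBot := by
          rw [← mem_closure_iff_nhdsWithin_neBot, closure_Ico hσpos.ne]
          exact ⟨hσ0, le_rfl⟩
        have hsub : Ico 0 σ ⊆ Icc 0 T := fun s hs => ⟨hs.1, hs.2.le.trans hσT⟩
        have h3 : Tendsto (fun s => z' s (Sum.inr j)) (𝓝[Ico 0 σ] σ) (𝓝 (z' σ (Sum.inr j))) :=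
          ((hz' (Sum.inr j)) σ ⟨hσ0, hσT⟩).mono hsub
        have h4 : Tendsto (fun s => z s (f j)) (𝓝[Ico 0 σ] σ) (𝓝 (z σ (f j))) :=
          ((hz (f j)) σ ⟨hσ0, hσT⟩).mono hsub
        refine tendsto_nhds_unique_of_eventuallyEq h3 h4 ?_
        filter_upwards [self_mem_nhdsWithin] with s hs
        exact hag s ⟨hs.1, hs.2.le⟩ _ (hj s hs)
      rw [← h1, ← h2]
      exact hdist
  · rw [hpre 0 ⟨le_rfl, hσpos⟩, h.full]
    ext i
    constructor
    · rintro ⟨_, ⟨b, rfl⟩, rfl⟩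
      exact ⟨b, rfl⟩
    · rintro ⟨b, rfl⟩
      exact ⟨Sum.inr b, ⟨b, rfl⟩, rfl⟩
  · exact h.iso_famHit.congr hfam

/-- **The dictionary.** -/
theorem realHit_iff (hz' : ∀ j, ContinuousOn (fun s => z' s j) (Icc 0 T))
    (hz : ∀ j, ContinuousOn (fun s => z s j) (Icc 0 T))
    (hloc : LocUniq ε T z' z) (he : Function.Injective e) (hf : Function.Injective f)
    (hd : ∀ k b, e k ≠ f b) (h0 : ∀ i, z' 0 i = z 0 (Sum.elim e f i))
    (hσ0 : 0 ≤ σ) (hσT : σ ≤ T) (hA : Anti A σ) :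
    (RealHit z ε e f A j σ ∧ Iso z' ε (famReal z ε e f A j σ) σ) ↔
      (GoodHit z' ε A j σ ∧ Iso z ε (fun s => Sum.elim e f '' famHit z' ε A j σ s) σ) := by
  constructor
  · rintro ⟨h, hI⟩
    obtain ⟨h1, h2, _⟩ := h.goodHit hz' hz hloc he hf hd h0 hσ0 hσT hA hI
    exact ⟨h1, h2⟩
  · rintro ⟨h, hI⟩
    obtain ⟨h1, h2, _⟩ := h.realHit hz' hz hloc he hf hd h0 hσ0 hσT hA hI
    exact ⟨h1, h2⟩

end main

section first

variable {κ ι : Type} [Finite κ] [Finite ι]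
variable {zG : ℝ → κ → PhasePoint} {z : ℝ → ι → PhasePoint} {e : κ → ι}
variable {ε T : ℝ} {A : ℝ → Set κ} {t t₀ : ℝ}

/-- **First touch in a window `[t₀, t)`.** -/
theorem exists_first_touch (hzG : ∀ j, ContinuousOn (fun s => zG s j) (Icc 0 T))
    (hz : ∀ j, ContinuousOn (fun s => z s j) (Icc 0 T))
    (hloc : LocUniq ε T zG z) (he : Function.Injective e)
    (htT : t ≤ T) (hA : Anti A t) (h0 : ∀ k ∈ A 0, zG 0 k = z 0 (e k))
    (hI : Iso zG ε A t) (hI0 : Iso z ε (fun s => e '' A s) t₀)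
    (hnot : ¬ Iso z ε (fun s => e '' A s) t) :
    ∃ σ ∈ Ico 0 t, t₀ ≤ σ ∧ Iso z ε (fun s => e '' A s) σ ∧
      ∃ j, TouchAt z ε (fun s => e '' A s) σ j := by
  rcases iso_or_first_touch hzG hz hloc he htT hA h0 hI with h | ⟨σ, hσ, h1, j, hj⟩
  · exact absurd h hnot
  · refine ⟨σ, hσ, ?_, h1, j, hj⟩
    by_contra hlt
    push Not at hlt
    exact hj.not_iso ⟨hσ.1, hlt⟩ hI0

omit [Finite κ] [Finite ι] in
/-- The first touching time is unique. -/
theorem first_touch_unique {B : ℝ → Set ι} {σ σ' : ℝ} {j j' : ι} (hσ0 : 0 ≤ σ) (hσ0' : 0 ≤ σ')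
    (h : Iso z ε B σ) (ht : TouchAt z ε B σ j) (h' : Iso z ε B σ') (ht' : TouchAt z ε B σ' j') :
    σ = σ' := by
  by_contra hne
  rcases lt_or_gt_of_ne hne with hlt | hlt
  · exact ht.not_iso ⟨hσ0, hlt⟩ h'
  · exact ht'.not_iso ⟨hσ0', hlt⟩ h

end first

end Crest.Agent.R122.Hit167
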