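import Crest.Agent.R122.Hit2_167
import Crest.Agent.R122.CausalNewton_291
import Crest.Agent.R122.LocFlow_45

/-!
# First hits (row 122, helper167): families given by protected times

* `fam τ s = {m | s ≤ τ m}`: the family with protected times `τ`.
* `StrictAt`: at the hitting time the hitter is in contact only with members of the family.
* `tauHit`: the protected times of the structure `G ∪ B` after a strict good hit;
  `GoodHit.famHit_eq`: `famHit = fam tauHit` on `[0, σ)`.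
-/

set_option autoImplicit false

open Set Filter Topology
open Crest.AnalysisR.Kinetic

namespace Crest.Agent.R122.Hit167

open Causal291

/-- The family with protected times `τ`. -/
def fam {κ : Type*} (τ : κ → ℝ) : ℝ → Set κ := fun s => {m | s ≤ τ m}

theorem mem_fam {κ : Type*} {τ : κ → ℝ} {s : ℝ} {m : κ} : m ∈ fam τ s ↔ s ≤ τ m := Iff.rfl

theorem fam_anti {κ : Type*} (τ : κ → ℝ) (t : ℝ) : Anti (fam τ) t :=
  fun _ _ _ h _ _ hk => h.trans hk

/-- At time `σ` the hitter `j` is in contact only with members of the family. -/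
def StrictAt {κ β : Type*} (z' : ℝ → (κ ⊕ β) → PhasePoint) (ε : ℝ) (A : ℝ → Set κ) (j : β)
    (σ : ℝ) : Prop :=
  ∀ i : κ ⊕ β, i ≠ Sum.inr j → i ∉ Sum.inl '' A σ → ε < dist (z' σ (Sum.inr j)).1 (z' σ i).1

/-- Protected times of the structure `G ∪ B` after the hit `(j, σ)`. -/
noncomputable def tauHit {κ β : Type*} (z' : ℝ → (κ ⊕ β) → PhasePoint) (ε : ℝ) (τ : κ → ℝ) (j : β)
    (σ : ℝ) : κ ⊕ β → ℝ :=
  Sum.elim (fun m => min (τ m) σ)
    (fun m => sSup {s | s < σ ∧ (Sum.inr m : κ ⊕ β) ∈ preAct z' ε (Sum.inr j) σ s})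

section quiet

variable {ι : Type*} {z : ℝ → ι → PhasePoint} {ε : ℝ} {j : ι} {r r' s σ : ℝ} {k : ι}

/-- If `j` has no contact in `[r, σ)` then the exploration from a later root time is the one from
the root time `r`. -/
theorem past_of_quiet (hq : ∀ u ∈ Ico r σ, ∀ i, i ≠ j → ¬ Ct z ε u j i) (hr' : r' < σ)
    (h : Past (Ct z ε) r' j s k) :
    (s ≤ r → Past (Ct z ε) r j s k) ∧ (r < s → k = j) := by
  induction h with
  | root h => exact ⟨fun hs => .root hs, fun _ => rfl⟩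
  | @step s u l k hp hc hsu ih =>
    have hu : u ≤ r' := hp.le
    rcases le_or_gt u r with hur | hur
    · exact ⟨fun _ => .step (ih.1 hur) hc hsu, fun hrs => absurd (hsu.trans hur) (not_le.2 hrs)⟩
    · have hl : l = j := ih.2 hur
      subst hl
      have hk : k = l := by
        by_contra hne
        exact hq u ⟨hur.le, hu.trans_lt hr'⟩ k hne hc
      subst hk
      exact ⟨fun hs => .root hs, fun _ => rfl⟩

theorem mem_preAct_of_quiet (hq : ∀ u ∈ Ico r σ, ∀ i, i ≠ j → ¬ Ct z ε u j i) (hr : r < σ)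
    (hs : s ≤ r) : k ∈ preAct z ε j σ s ↔ Past (Ct z ε) r j s k := by
  constructor
  · rintro ⟨u, hu, hp⟩
    exact (past_of_quiet hq hu.2 hp).1 hs
  · intro h
    exact ⟨r, ⟨hs, hr⟩, h⟩

theorem mem_preAct_of_quiet' (hq : ∀ u ∈ Ico r σ, ∀ i, i ≠ j → ¬ Ct z ε u j i)
    (hs : s ∈ Ioo r σ) : k ∈ preAct z ε j σ s ↔ k = j := by
  constructor
  · rintro ⟨u, hu, hp⟩
    exact (past_of_quiet hq hu.2 hp).2 hs.1
  · rintro rfl
    exact mem_preAct_self hs.2

end quiet

section main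

variable {κ β : Type} [Finite κ] [Finite β]
variable {z' : ℝ → (κ ⊕ β) → PhasePoint} {ε T : ℝ} {τ : κ → ℝ} {j : β} {σ : ℝ}

/-- A strict good hit: the hitter has no contact shortly before the hitting time. -/
theorem GoodHit.exists_quiet {A : ℝ → Set κ} (hz' : ∀ j, ContinuousOn (fun s => z' s j) (Icc 0 T))
    (hA : Anti A σ) (hσ0 : 0 ≤ σ) (hσT : σ ≤ T) (h : GoodHit z' ε A j σ)
    (hs : StrictAt z' ε A j σ) :
    ∃ r ∈ Ico 0 σ, ∀ u ∈ Ico r σ, ∀ i, i ≠ (Sum.inr j : κ ⊕ β) → ¬ Ct z' ε u (Sum.inr j) i := by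
  have hσpos := h.pos hσ0
  have h1 : ∀ i : κ ⊕ β, i ≠ Sum.inr j → i ∉ Sum.inl '' A σ →
      ∀ᶠ u in 𝓝[Icc 0 T] σ, ε < dist (z' u (Sum.inr j)).1 (z' u i).1 := by
    intro i hi hi2
    have hc : ContinuousWithinAt (fun s' => dist (z' s' (Sum.inr j)).1 (z' s' i).1) (Icc 0 T) σ :=
      ((hz' (Sum.inr j) σ ⟨hσ0, hσT⟩).fst).dist ((hz' i σ ⟨hσ0, hσT⟩).fst)
    exact hc.eventually (lt_mem_nhds (hs i hi hi2))
  have h2 : ∀ᶠ u in 𝓝[Icc 0 T] σ, ∀ i : κ ⊕ β, i ≠ Sum.inr j → i ∉ Sum.inl '' A σ →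
      ε < dist (z' u (Sum.inr j)).1 (z' u i).1 := by
    rw [Filter.eventually_all]
    intro i
    by_cases hi : i ≠ Sum.inr j ∧ i ∉ Sum.inl '' A σ
    · exact (h1 i hi.1 hi.2).mono fun s' h _ _ => h
    · exact Eventually.of_forall fun s' hA hB => absurd ⟨hA, hB⟩ hi
  rw [eventually_nhdsWithin_iff, Metric.eventually_nhds_iff] at h2
  obtain ⟨δ, hδ, h2⟩ := h2
  refine ⟨max 0 (σ - δ / 2), ⟨le_max_left _ _, max_lt hσpos (by linarith)⟩, ?_⟩
  intro u hu i hi hc
  have hu0 : 0 ≤ u := (le_max_left _ _).trans hu.1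
  have huσ : σ - δ / 2 ≤ u := (le_max_right _ _).trans hu.1
  by_cases hiA : i ∈ Sum.inl '' A σ
  · obtain ⟨k, hk, rfl⟩ := hiA
    have hkA : k ∈ A u := hA u σ hu0 hu.2.le le_rfl hk
    have h3 := h.iso u ⟨hu0, hu.2⟩ (Sum.inl k) ⟨k, hkA, rfl⟩ (Sum.inr j) (by
      rintro ⟨m, _, hm⟩
      exact absurd hm (by simp))
    rw [dist_comm] at h3
    exact absurd hc (not_le.2 h3)
  · have h3 := h2 (y := u) (by rw [Real.dist_eq, abs_lt]; constructor <;> linarith [hu.2])
      ⟨hu0, hu.2.le.trans hσT⟩ i hi hiA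
    exact absurd hc (not_le.2 h3)

/-- The protected times describe the family after a strict good hit. -/
theorem GoodHit.famHit_eq (hz' : ∀ j, Continuous (fun s => z' s j))
    (hσ0 : 0 ≤ σ) (h : GoodHit z' ε (fam τ) j σ) (hs : StrictAt z' ε (fam τ) j σ) {s : ℝ}
    (hsσ : s ∈ Ico 0 σ) : famHit z' ε (fam τ) j σ s = fam (tauHit z' ε τ j σ) s := by
  obtain ⟨r, hr, hq⟩ := h.exists_quiet (T := σ) (fun i => (hz' i).continuousOn) (fam_anti τ σ) hσ0
    le_rfl hs
  have hclosed : ∀ i k, IsClosed {s | Ct z' ε s i k} := fun i k => isClosed_ct hz' i k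
  ext i
  rcases i with m | m
  · constructor
    · rintro (⟨m', hm', hmm⟩ | hm)
      · obtain rfl : m' = m := Sum.inl_injective hmm
        exact le_min hm' hsσ.2.le
      · exfalso
        have h1 : (Sum.inl m : κ ⊕ β) ∈ preAct z' ε (Sum.inr j) σ 0 :=
          preAct_anti 0 s le_rfl hsσ.1 hsσ.2.le hm
        rw [h.full] at h1
        obtain ⟨b, hb⟩ := h1
        exact absurd hb (by simp)
    · intro hm
      exact Or.inl ⟨m, (le_min_iff.1 (show s ≤ min (τ m) σ from hm)).1, rfl⟩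
  · have h0 : (Sum.inr m : κ ⊕ β) ∈ preAct z' ε (Sum.inr j) σ 0 := by
      rw [h.full]; exact ⟨m, rfl⟩
    set S : Set ℝ := {s | s < σ ∧ (Sum.inr m : κ ⊕ β) ∈ preAct z' ε (Sum.inr j) σ s} with hS
    have hτ : tauHit z' ε τ j σ (Sum.inr m) = sSup S := rfl
    have hbdd : BddAbove S := ⟨σ, fun u hu => hu.1.le⟩
    have h0S : (0 : ℝ) ∈ S := ⟨h.pos hσ0, h0⟩
    have hdown : ∀ u v, u ≤ v → v ∈ S → u ∈ S := by
      rintro u v huv ⟨hv, w, hw, hp⟩
      exact ⟨huv.trans_lt hv, w, ⟨huv.trans hw.1, hw.2⟩, hp.mono huv⟩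
    have key : (Sum.inr m : κ ⊕ β) ∈ famHit z' ε (fam τ) j σ s ↔ s ∈ S := by
      constructor
      · rintro (⟨m', _, hmm⟩ | hm)
        · exact absurd hmm (by simp)
        · exact ⟨hsσ.2, hm⟩
      · intro hm
        exact Or.inr hm.2
    rw [key]
    change s ∈ S ↔ s ≤ tauHit z' ε τ j σ (Sum.inr m)
    rw [hτ]
    refine ⟨fun hsS => le_csSup hbdd hsS, fun hle => ?_⟩
    rcases hle.lt_or_eq with hlt | heq
    · obtain ⟨u, hu, hsu⟩ := exists_lt_of_lt_csSup ⟨0, h0S⟩ hlt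
      exact hdown s u hsu.le hu
    · -- `s = sSup S`: closedness
      by_cases hmj : m = j
      · subst hmj
        exact ⟨hsσ.2, mem_preAct_self hsσ.2⟩
      · have hne : (Sum.inr m : κ ⊕ β) ≠ Sum.inr j := fun h => hmj (Sum.inr_injective h)
        -- members of `S` are `≤ r`
        have hSr : ∀ u ∈ S, u ≤ r := by
          rintro u ⟨huσ, hu⟩
          by_contra hlt
          push Not at hlt
          exact hne ((mem_preAct_of_quiet' hq ⟨hlt, huσ⟩).1 hu)
        have hsr : s ≤ r := by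
          rw [heq]
          exact csSup_le ⟨0, h0S⟩ hSr
        have hP : {u | Past (Ct z' ε) r (Sum.inr j) u (Sum.inr m)} = S := by
          ext u
          constructor
          · intro hu
            have hur : u ≤ r := Past.le hu
            exact ⟨hur.trans_lt hr.2, (mem_preAct_of_quiet hq hr.2 hur).2 hu⟩
          · intro hu
            exact (mem_preAct_of_quiet hq hr.2 (hSr u hu)).1 hu.2
        have hcl : IsClosed S := by
          rw [← hP]
          exact isClosed_past hclosed (Sum.inr m)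
        rw [heq]
        exact hcl.csSup_mem ⟨0, h0S⟩ hbdd

omit [Finite κ] [Finite β] in
/-- The hitter is protected up to time `σ`. -/
theorem tauHit_self : tauHit z' ε τ j σ (Sum.inr j) = σ := by
  unfold tauHit
  rw [Sum.elim_inr]
  have : {s | s < σ ∧ (Sum.inr j : κ ⊕ β) ∈ preAct z' ε (Sum.inr j) σ s} = Iio σ := by
    ext s
    constructor
    · rintro ⟨h, _⟩; exact h
    · intro h; exact ⟨h, mem_preAct_self h⟩
  rw [this, csSup_Iio]

omit [Finite κ] [Finite β] in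
theorem tauHit_le (hσ0 : 0 ≤ σ) (i : κ ⊕ β) : tauHit z' ε τ j σ i ≤ σ := by
  rcases i with m | m
  · exact min_le_right _ _
  · exact Real.sSup_le (fun u hu => hu.1.le) hσ0

/-- The structure after the hit is isolated in its own world. -/
theorem GoodHit.iso_fam (hz' : ∀ j, Continuous (fun s => z' s j))
    (hσ0 : 0 ≤ σ) (h : GoodHit z' ε (fam τ) j σ) (hs : StrictAt z' ε (fam τ) j σ) :
    Iso z' ε (fam (tauHit z' ε τ j σ)) σ :=
  h.iso_famHit.congr fun _ hs' => h.famHit_eq hz' hσ0 hs hs'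

end main

/-! ### Relabelling -/

section relabel

variable {ι ι' : Type*} {z : ℝ → ι' → PhasePoint} {ε : ℝ} {t : ℝ}

theorem iso_relabel (g : ι ≃ ι') {A : ℝ → Set ι} :
    Iso (fun s i => z s (g i)) ε A t ↔ Iso z ε (fun s => g '' A s) t := by
  constructor
  · rintro h s hs _ ⟨k, hk, rfl⟩ j hj
    have hj' : g.symm j ∉ A s := fun h' => hj ⟨g.symm j, h', by simp⟩
    have := h s hs k hk (g.symm j) hj'
    simpa using this
  · intro h s hs k hk j hj
    exact h s hs (g k) ⟨k, hk, rfl⟩ (g j) (by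
      rintro ⟨m, hm, h1⟩
      exact hj (by rw [← g.injective h1]; exact hm))

theorem pth_relabel {ι ι' : Type*} [Fintype ι] [Fintype ι'] {Φ : Space3 → ℝ} {ε : ℝ}
    (hΦ : AdmissiblePotential Φ) (hε : 0 < ε) (g : ι ≃ ι') (Z : ι' → PhasePoint) :
    pth Φ ε (fun i => Z (g i)) = fun s i => pth Φ ε Z s (g i) := by
  funext s
  exact Loc45.flow_equiv hΦ hε g s Z

theorem past_relabel {C : ℝ → ι' → ι' → Prop} (g : ι ≃ ι') {s' s : ℝ} {j k : ι} :
    Past (fun s a b => C s (g a) (g b)) s' j s k ↔ Past C s' (g j) s (g k) :=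
  past_equiv C g

theorem preAct_relabel (g : ι ≃ ι') {j : ι} {σ s : ℝ} :
    preAct (fun s i => z s (g i)) ε j σ s = g ⁻¹' preAct z ε (g j) σ s := by
  ext k
  constructor
  · rintro ⟨r, hr, hp⟩
    exact ⟨r, hr, (past_relabel (C := Ct z ε) g).1 hp⟩
  · rintro ⟨r, hr, hp⟩
    exact ⟨r, hr, (past_relabel (C := Ct z ε) g).2 hp⟩

end relabel

end Crest.Agent.R122.Hit167
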