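import Crest.Agent.R122.BaseAe_45

/-!
# The outputs of an encounter, without horizon (row 122, S^(j), helper45)

The outgoing lines may be born after the horizon `T`; then the classes are not merged.

* `Pair.Hit.outL_any`, `outC'_any` : the outputs `lineL'`, `lineC'`.
* `outP3` : the three outgoing lines; `Pair.Hit.any` : pair structure for each of them.
* `pair_any`, `pair0_any`, `Good0.pair_any` : the pairs of a one-contact structure; base law.
-/

set_option autoImplicit false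
set_option linter.unusedSectionVars false

open MeasureTheory Set Filter Topology
open scoped NNReal ENNReal
open Crest.AnalysisR.Kinetic
open Crest.Agent.R122.Flow671 hiding rel
open Crest.Agent.R122.Loc45 Crest.Agent.R122.Ins45
open Crest.Agent.R122.VL581 Crest.Agent.R122.VL581.VSys Crest.Agent.R122.VLInst442
open Crest.Agent.R122.LNInst491 Crest.Agent.R122.LN304 Crest.Agent.R122.LNg410
open Crest.Agent.R122.Kin796 Crest.Agent.R122.Kin796.CTree Crest.Agent.R122.Tree674
open Crest.Agent.R122.PathFlow968 Crest.Agent.R122.TreeLines335 Crest.Agent.R122.EDefs602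
open Crest.Agent.R122.LNTree410 Crest.Agent.R122.PWGlue491 Crest.Agent.R122.Inf879
open Crest.Agent.R122.LNGraft410 Crest.Agent.R122.LNEv968
open Crest.Agent.R122.PWInst442 (LineIn oLab exists_bE)
open Crest.Agent.R122.StrG491
open Crest.Agent.R122.OCout796 Crest.Agent.R122.Scat818
open Crest.Agent.R122.OneC285 (cT cB cD cX oneLs)
open scoped Classical

noncomputable section

namespace Crest.Agent.R122.BasePair45

variable {J κ : Type} [Fintype J] {M : VSys J κ} {Z : J → PhasePoint}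
variable {c : ℝ} {R R₂ : ℝ → J → J → Prop} {π π₂ : Finset J} {cl cl₂ : J → Finset J}
  {bD : J → ℝ} {E₂ : Finset J} {x y a : J} {s ℓ ς : ℝ} {d e : ℝ × PhasePoint} {p : Space3} {q : CD}

/-- The outgoing lines: `none` = the hit particle, undeflected, reborn at the end of the encounter;
`some false` = the deflected second line; `some true` = the deflected hit particle. -/
def out3 (Φ : Space3 → ℝ) (ε s : ℝ) (p : Space3) (q : CD) : Option Bool → ℝ × PhasePoint
  | none => lineC Φ ε s p q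
  | some false => lineL' Φ ε s p q
  | some true => lineC' Φ ε s p q

section hit

variable (h : Pair.Hit M c Z R R₂ π π₂ cl cl₂ bD E₂ x y a d e s p q) [Nonempty κ] (hC : 1 ≤ c)
  (hΦ : AdmissiblePotential M.Φ) (hε : 0 < M.ε) (hp : CDpass M.Φ q)
include h hC hΦ hε hp

/-- Output `lineL'`, born after the horizon. -/
theorem outL_late (hlt : M.T < s + outT M.Φ M.ε q) :
    Pair M c Z (joinR R R₂ y a s) (π ∪ π₂) (clSep cl cl₂) bD x y d (lineL' M.Φ M.ε s p q) := by
  have hm := (h.enc hΦ hε).meet hε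
  have hay : a ∉ ({x, y} : Finset J) := by
    rw [Finset.mem_insert, Finset.mem_singleton]
    rintro (h1 | h1)
    · exact h.xa h1.symm
    · exact hm.ne h1.symm
  have hpos := hp.outT_pos hε
  refine ⟨hm.join hC hε (E := {x, y}) (fun k hk => ?_) (fun h' => hay h'.2), h.pr.ne, h.pr.bx, ?_,
    ?_, ?_⟩
  · exact Finset.mem_union_left _ hk
  · exact ((h.pr.bY.trans_lt h.lte).trans (lt_add_of_pos_right s hpos)).le
  · intro ht
    rw [hm.cl₁_of h.pr.xπ]
    exact h.pr.lx ht
  · intro ht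
    exact absurd ht (not_le.2 hlt)

/-- Output `lineC'`, born after the horizon. -/
theorem outC'_late (hlt : M.T < s + outT M.Φ M.ε q) :
    Pair M c Z (joinR R R₂ y a s) (π ∪ π₂) (clSep cl cl₂) bD x a d (lineC' M.Φ M.ε s p q) := by
  have h1 := h.outC hC hΦ hε hp
  exact ⟨h1.str, h1.ne, h1.bx, h1.bY, h1.lx, fun ht => absurd ht (not_le.2 hlt)⟩

variable (hT : TL M c ℓ ς (π ∪ π₂) Z) (hℓς : 2 * ℓ ≤ ς)
include hT hℓς

/-- **The three outputs**, no condition on the horizon. -/
theorem hit_any (k : Option Bool) :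
    ∃ (R' : ℝ → J → J → Prop) (cl' : J → Finset J) (bD' : J → ℝ) (y' : J),
      Pair M c Z R' (π ∪ π₂) cl' bD' x y' d (out3 M.Φ M.ε s p q k) := by
  rcases le_or_gt (s + outT M.Φ M.ε q) M.T with hle | hlt
  · rcases k with _ | (_ | _)
    · exact ⟨_, _, _, _, h.outC hC hΦ hε hp⟩
    · exact ⟨_, _, _, _, h.outL hC hΦ hε hT hℓς hp hle⟩
    · exact ⟨_, _, _, _, h.outC' hC hΦ hε hT hℓς hp hle⟩
  · rcases k with _ | (_ | _)
    · exact ⟨_, _, _, _, h.outC hC hΦ hε hp⟩
    · exact ⟨_, _, _, _, outL_late h hC hΦ hε hp hlt⟩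
    · exact ⟨_, _, _, _, outC'_late h hC hΦ hε hp hlt⟩

end hit

/-! ### The one-contact structure -/

section base

variable {te : ℝ} {P : CTree} {z : PhasePoint × Par P} {eP : Idx P ↪ J} {l : ML}
  (h : Base1 M Z te P z eP a l) [Nonempty κ] (hC : 1 ≤ c) (hΦ : AdmissiblePotential M.Φ)
  (hε : 0 < M.ε) (hT : TL M c ℓ ς ({a} ∪ part eP) Z) (hℓς : 2 * ℓ ≤ ς)
  (hp : CDpass M.Φ (cD M.ε z l))
include h hC hΦ hε hT hℓς hp

/-- **The pairs of lines of a one-contact structure**, no condition on the horizon. -/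
theorem pair_any {i : Idx P} (hi : i ≠ root P) {y : Idx P ⊕ Bool} (hy : y ≠ Sum.inl i) :
    ∃ (R : ℝ → J → J → Prop) (cl : J → Finset J) (bD : J → ℝ),
      Pair M c Z R ({a} ∪ part eP) cl bD (eP i) (oLab eP a y)
        (oneLs M.Φ M.ε P z l (Sum.inl i)).1 (oneLs M.Φ M.ε P z l y).1 := by
  rcases le_or_gt (cT M.ε z l + outT M.Φ M.ε (cD M.ε z l)) M.T with hle | hlt
  · exact h.pair hC hΦ hε hT hℓς hp hle hi hy
  obtain ⟨bD, hb⟩ := h.exists_bd
  have hm := (h.enc hC hΦ hε hb).meet hε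
  have hpos := hp.outT_pos hε
  rw [oneLs_exit hi]
  rcases y with j | (_ | _)
  · have hij : i ≠ j := fun h' => hy (by rw [h'])
    by_cases hj : j = root P
    · subst hj
      rw [oneLs_root]
      exact ⟨_, _, _, h.pair_er hC hΦ hε hb hi hp⟩
    · rw [oneLs_exit hj]
      exact ⟨_, _, _, h.pair_ee hC hΦ hε hb hij⟩
  · -- `l'`, born after the horizon
    have hn : eP (root P) ∉ ({eP i, a} : Finset J) := by
      rw [Finset.mem_insert, Finset.mem_singleton]
      rintro (h1 | h1)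
      · exact hi (eP.injective h1).symm
      · exact h.ha _ h1
    refine ⟨_, clSep (clOf {a}) (clOf (part eP)), bD, hm.join hC hε (E := {eP i, a})
      (fun k hk => ?_) (fun h' => hn h'.2), h.ha i, (hb.tr i).symm, ?_, fun _ => ?_,
      fun ht => absurd ht (not_le.2 hlt)⟩
    · rcases Finset.mem_insert.1 hk with rfl | hk
      · exact Finset.mem_union_right _ (mem_part_self i)
      · rw [Finset.mem_singleton.1 hk]
        exact Finset.mem_union_left _ (Finset.mem_singleton_self a)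
    · change bD a ≤ cT M.ε z l + outT M.Φ M.ε (cD M.ε z l)
      rw [hb.ln]
      exact (h.lt_cT.trans (lt_add_of_pos_right _ hpos)).le
    · rw [hm.cl₂_of (mem_part_self i), clOf_mem (mem_part_self i)]
      exact h.st_rel hΦ hε i
  · -- `c'`, born after the horizon
    have h1 := h.pair_er hC hΦ hε hb hi hp
    exact ⟨_, _, _, h1.str, h1.ne, h1.bx, h1.bY, h1.lx, fun ht => absurd ht (not_le.2 hlt)⟩

end base

/-! ### The base law -/

section nu

open Crest.Agent.R122.NuL735 (lnO zE oneE oneE_of_adm thE)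

variable {Φ : Space3 → ℝ} {ε T te T' : ℝ} {P : CTree} {q : NuL735.Th P}

/-- The pairs of lines of a tree-like base structure, no condition on the horizon. -/
theorem pair0_any (hC : 1 ≤ c) (hΦ : AdmissiblePotential Φ) (hε : 0 < ε)
    (hct : (q.1, (lnO q.2).1) ∈ OneC423.ctSet Φ ε te P) (hte : te < T)
    (hsep : Sep Φ ε P T q.1.1 q.1.2) (hp : CDpass Φ (cD ε q.1 (lnO q.2)))
    (hT : TL (sys0 Φ T ε P) c ℓ ς Finset.univ (zE Φ ε q)) (hℓς : 2 * ℓ ≤ ς)
    {x y : Idx P ⊕ Bool} (hx : x ∈ OneC285.exS P) (hy : y ≠ x) :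
    ∃ (R : ℝ → Idx P ⊕ Unit → Idx P ⊕ Unit → Prop)
      (cl : Idx P ⊕ Unit → Finset (Idx P ⊕ Unit)) (bD : Idx P ⊕ Unit → ℝ),
      Pair (sys0 Φ T ε P) c (zE Φ ε q) R Finset.univ cl bD (lB P x) (lB P y)
        (oneE Φ ε q x).1 (oneE Φ ε q y).1 := by
  have h := base1 hct hte hsep hp.ok
  have hadm : Adm Φ P q.1.1.2 q.1.2 := hct.2.2.2.2.1
  rcases x with i | b
  · have hi : i ≠ root P := mem_exS.1 hx
    obtain ⟨R, cl, bD, h1⟩ := pair_any h hC hΦ hε (ℓ := ℓ) (ς := ς)
      (by rw [union_eB]; exact hT) hℓς hp hi hy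
    rw [union_eB] at h1
    refine ⟨R, cl, bD, ?_⟩
    rw [oneE_of_adm hadm, oneE_of_adm hadm]
    exact h1
  · exact absurd hx inr_not_mem_exS

/-- The same, in the letters of the labelled pair `thE`. -/
theorem Good0.pair_any (h : Good0 Φ ε te T' P q) (hC : 1 ≤ c) (hΦ : AdmissiblePotential Φ)
    (hε : 0 < ε) (hte : te < T) (hT' : T ≤ T') (hp : CDpass Φ (cD ε q.1 (lnO q.2)))
    (hT : TL (sys0 Φ T ε P) c ℓ ς Finset.univ (zE Φ ε q)) (hℓς : 2 * ℓ ≤ ς)
    {x y : Idx P ⊕ Bool} (hx : x ∈ OneC285.exS P) (hy : y ≠ x) (σ : Bool) :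
    ∃ (R : ℝ → Idx P ⊕ Unit → Idx P ⊕ Unit → Prop)
      (cl : Idx P ⊕ Unit → Finset (Idx P ⊕ Unit)) (bD : Idx P ⊕ Unit → ℝ),
      Pair (sys0 Φ T ε P) c (zE Φ ε q) R Finset.univ cl bD (lB P x) (lB P y)
        (PairD292.dL (thE Φ ε σ x y q)).1 (PairD292.eL (thE Φ ε σ x y q)).1 :=
  pair0_any hC hΦ hε h.ct hte (LNTree410.sep_anti hT' h.sep) hp hT hℓς hx hy

end nu

end Crest.Agent.R122.BasePair45

end
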