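import Crest.Agent.R122.HitSwG_167

/-!
# The bad first hits (row 122, helper167)

`lintegral_badR_le`: the translation average of the probability of a bad first hit (hitter whose
backward cluster is not `K`-good) is at most
`|α| kap (ε + 7 ε² ∫ ds E ∑_i 1[not GoodD K i s] (M + |v_i(s)|))`.
-/

set_option autoImplicit false

open Set Filter Topology MeasureTheory
open scoped Classical ENNReal NNReal
open Crest.AnalysisR.Kinetic

namespace Crest.Agent.R122.Hit167

open Causal291 Flow671 Loc45 GC311 Vol365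

section dict

variable {β ι : Type} [Finite β] [Finite ι]
variable {z : ℝ → ι → PhasePoint} {zB : ℝ → β → PhasePoint} {f : β → ι}
variable {ε T : ℝ} {j : β} {σ : ℝ}

/-- Real family in the isolated world versus isolated family in the real world. -/
theorem full_iff (hzB : ∀ j, ContinuousOn (fun s => zB s j) (Icc 0 T))
    (hz : ∀ j, ContinuousOn (fun s => z s j) (Icc 0 T))
    (hloc : LocUniq ε T zB z) (hf : Function.Injective f) (h0 : ∀ i, zB 0 i = z 0 (f i))
    (hσpos : 0 < σ) (hσT : σ ≤ T) :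
    (preAct z ε (f j) σ 0 = range f ∧ Iso zB ε (fun s => f ⁻¹' preAct z ε (f j) σ s) σ) ↔
      (preAct zB ε j σ 0 = univ ∧ Iso z ε (fun s => f '' preAct zB ε j σ s) σ) := by
  constructor
  · rintro ⟨hfull, hI⟩
    have hsub : ∀ s ∈ Ico 0 σ, preAct z ε (f j) σ s ⊆ range f := by
      intro s hs
      rw [← hfull]
      exact preAct_anti 0 s le_rfl hs.1 hs.2.le
    have himg : ∀ s ∈ Ico 0 σ, f '' (f ⁻¹' preAct z ε (f j) σ s) = preAct z ε (f j) σ s :=
      fun s hs => image_preimage_eq_of_subset (hsub s hs)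
    have hI2 : Iso z ε (fun s => f '' (f ⁻¹' preAct z ε (f j) σ s)) σ :=
      iso_preAct.congr fun s hs => (himg s hs).symm
    have hanti : Anti (fun s => f ⁻¹' preAct z ε (f j) σ s) σ :=
      fun s s' h0 h1 h2 => preimage_mono (preAct_anti s s' h0 h1 h2)
    have hag : ∀ s ∈ Icc 0 σ, ∀ k ∈ f ⁻¹' preAct z ε (f j) σ s, zB s k = z s (f k) :=
      Iso.agree hzB hz hloc hf hσT hanti (fun k _ => h0 k) hI hI2
    have hj : ∀ s ∈ Ico 0 σ, j ∈ f ⁻¹' preAct z ε (f j) σ s := fun s hs =>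
      mem_preAct_self (j := f j) hs.2
    have hpre : ∀ s ∈ Ico 0 σ, preAct zB ε j σ s = f ⁻¹' preAct z ε (f j) σ s := by
      intro s hs
      have h1 : preAct z ε (f j) σ s = f '' preAct zB ε j σ s :=
        preAct_eq hf hanti hI hI2 hag le_rfl hj hs.1
      rw [h1, preimage_image_eq _ hf]
    refine ⟨?_, ?_⟩
    · rw [hpre 0 ⟨le_rfl, hσpos⟩, hfull, preimage_range]
    · refine (iso_preAct (z := z) (j := f j)).congr fun s hs => ?_
      rw [hpre s hs, himg s hs]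
  · rintro ⟨hfull, hI⟩
    have hag : ∀ s ∈ Icc 0 σ, ∀ k ∈ preAct zB ε j σ s, zB s k = z s (f k) :=
      Iso.agree hzB hz hloc hf hσT preAct_anti (fun k _ => h0 k) iso_preAct hI
    have hj : ∀ s ∈ Ico 0 σ, j ∈ preAct zB ε j σ s := fun s hs => mem_preAct_self hs.2
    have hpre : ∀ s ∈ Ico 0 σ, preAct z ε (f j) σ s = f '' preAct zB ε j σ s := by
      intro s hs
      exact preAct_eq hf preAct_anti iso_preAct hI hag le_rfl hj hs.1
    have hpre' : ∀ s ∈ Ico 0 σ, preAct zB ε j σ s = f ⁻¹' preAct z ε (f j) σ s := by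
      intro s hs
      rw [hpre s hs, preimage_image_eq _ hf]
    refine ⟨?_, (iso_preAct (z := zB) (j := j)).congr hpre'⟩
    rw [hpre 0 ⟨le_rfl, hσpos⟩, hfull, image_univ]

end dict

section defs

variable (Φ : Space3 → ℝ) (ε : ℝ) (𝒢 : Cls)

/-- `GoodR` in the coordinates cluster / real world (measurable form). -/
def GoodD (K : ℕ) {n : ℕ} (Z : Config n) (i : Fin n) (σ : ℝ) : Prop :=
  ∃ (k : ℕ) (f : Fin k ↪ Fin n) (j : Fin k), k ≤ K ∧ f j = i ∧
    preAct (pth Φ ε (fun l => Z (f l))) ε j σ 0 = univ ∧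
    Iso (pth Φ ε Z) ε (fun s => f '' fam (tauPre (pth Φ ε fun l => Z (f l)) ε j σ) s) σ ∧
    AloneAt (pth Φ ε (fun l => Z (f l))) ε j σ ∧ 𝒢 k (fun l => Z (f l)) j σ

end defs

section main

variable {f₀ : PhasePoint → ℝ} {Φ : Space3 → ℝ} {ε : ℝ} {α : Type}
  {c : α → ℝ → Space3} {θ : α → ℝ} {𝒢 : Cls} {t₀ t : ℝ}

theorem goodR_iff_goodD (hΦ : AdmissiblePotential Φ) (hε : 0 < ε) {K n : ℕ} {Z : Config n}
    (hZ : Z ∈ Dom Φ (Fin n)) {i : Fin n} {σ : ℝ} (hσ : 0 < σ) :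
    GoodR Φ ε 𝒢 K Z i σ ↔ GoodD Φ ε 𝒢 K Z i σ := by
  have key : ∀ (k : ℕ) (f : Fin k ↪ Fin n) (j : Fin k), f j = i →
      AloneAt (pth Φ ε (fun l => Z (f l))) ε j σ →
      ((preAct (pth Φ ε Z) ε i σ 0 = range f ∧
        Iso (pth Φ ε (fun l => Z (f l))) ε (fun s => f ⁻¹' preAct (pth Φ ε Z) ε i σ s) σ) ↔
      (preAct (pth Φ ε (fun l => Z (f l))) ε j σ 0 = univ ∧
        Iso (pth Φ ε Z) ε (fun s => f '' fam (tauPre (pth Φ ε fun l => Z (f l)) ε j σ) s) σ)) := by
    intro k f j hj hal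
    subst hj
    have hZf : (fun l => Z (f l)) ∈ Dom Φ (Fin k) := Dom_comp f hZ
    have hzB : ∀ l, Continuous fun s => pth Φ ε (fun l => Z (f l)) s l := continuous_pth hΦ hε _
    have hz : ∀ l, Continuous fun s => pth Φ ε Z s l := continuous_pth hΦ hε _
    have h0 : ∀ l, pth Φ ε (fun l => Z (f l)) 0 l = pth Φ ε Z 0 (f l) := by
      intro l
      simp only [pth]
      rw [flow_zero hΦ hε, flow_zero hΦ hε]
    have h1 := full_iff (j := j) (σ := σ) (T := σ) (fun l => (hzB l).continuousOn)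
      (fun l => (hz l).continuousOn) (locUniq_pth hΦ hε σ hZf hZ) f.injective h0 hσ le_rfl
    rw [h1]
    constructor
    · rintro ⟨ha, hb⟩
      refine ⟨ha, hb.congr fun s hs => ?_⟩
      rw [preAct_eq_fam hzB hσ ha hal hs]
    · rintro ⟨ha, hb⟩
      refine ⟨ha, hb.congr fun s hs => ?_⟩
      rw [preAct_eq_fam hzB hσ ha hal hs]
  constructor
  · rintro ⟨k, f, j, hk, hj, h1, h2, h3, h4⟩
    obtain ⟨h5, h6⟩ := (key k f j hj h3).1 ⟨h1, h2⟩
    exact ⟨k, f, j, hk, hj, h5, h6, h3, h4⟩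
  · rintro ⟨k, f, j, hk, hj, h1, h2, h3, h4⟩
    obtain ⟨h5, h6⟩ := (key k f j hj h3).2 ⟨h1, h2⟩
    exact ⟨k, f, j, hk, hj, h5, h6, h3, h4⟩

theorem measurableSet_goodD (hΦ : AdmissiblePotential Φ) (hε : 0 < ε) (h𝒢 : 𝒢.Meas) (K n : ℕ)
    (i : Fin n) : MeasurableSet {p : Config n × ℝ | GoodD Φ ε 𝒢 K p.1 i p.2} := by
  have key : {p : Config n × ℝ | GoodD Φ ε 𝒢 K p.1 i p.2} =
      ⋃ k : ℕ, ⋃ f : Fin k ↪ Fin n, ⋃ j : Fin k, ({_p : Config n × ℝ | k ≤ K ∧ f j = i} ∩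
        ((⋂ l : Fin k, {p : Config n × ℝ |
            l ∈ preAct (pth Φ ε (fun l => p.1 (f l))) ε j p.2 0}) ∩
        ({p : Config n × ℝ | Iso (pth Φ ε p.1) ε
          (fun s => f '' fam (tauPre (pth Φ ε fun l => p.1 (f l)) ε j p.2) s) p.2} ∩
        ({p : Config n × ℝ | AloneAt (pth Φ ε (fun l => p.1 (f l))) ε j p.2} ∩
          {p : Config n × ℝ | 𝒢 k (fun l => p.1 (f l)) j p.2})))) := by
    ext p
    simp only [GoodD, mem_iUnion, mem_inter_iff, mem_iInter, mem_ofPred_eq]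
    constructor
    · rintro ⟨k, f, j, hk, hj, h1, h2, h3, h4⟩
      exact ⟨k, f, j, ⟨hk, hj⟩, fun l => by rw [h1]; exact mem_univ l, h2, h3, h4⟩
    · rintro ⟨k, f, j, ⟨hk, hj⟩, h1, h2, h3, h4⟩
      exact ⟨k, f, j, hk, hj, eq_univ_of_forall h1, h2, h3, h4⟩
  rw [key]
  refine MeasurableSet.iUnion fun k => MeasurableSet.iUnion fun f => MeasurableSet.iUnion fun j => ?_
  have hXf : Measurable fun p : Config n × ℝ => (fun l => p.1 (f l) : Config k) :=
    measurable_pi_iff.2 fun l => (measurable_pi_apply (f l)).comp measurable_fst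
  have hx : ∀ (p : Config n × ℝ) l, Continuous fun s => pth Φ ε p.1 s l :=
    fun p => continuous_pth hΦ hε _
  have hm : ∀ s l, Measurable fun p : Config n × ℝ => pth Φ ε p.1 s l :=
    fun s l => (measurable_pth_id hΦ hε s l).comp measurable_fst
  have hx' : ∀ (p : Config n × ℝ) l, Continuous fun s => pth Φ ε (fun l => p.1 (f l)) s l :=
    fun p => continuous_pth hΦ hε _
  have hm' : ∀ s l, Measurable fun p : Config n × ℝ => pth Φ ε (fun l => p.1 (f l)) s l :=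
    fun s l => (measurable_pth_id hΦ hε s l).comp hXf
  refine (MeasurableSet.const _).inter ((MeasurableSet.iInter fun l =>
    measurableSet_preAct hx' hm' j l measurable_snd measurable_const).inter
    ((measurableSet_iso_fam hx hm f.injective
      (fun b => measurable_tauPre hx' hm' j b measurable_snd) measurable_snd).inter
    ((measurableSet_aloneAt hx' hm' measurable_snd j).inter ?_)))
  exact (hXf.prodMk measurable_snd) (h𝒢 k j)

/-- Hit at time `0`. -/
def Hit0 (ε : ℝ) (c : α → ℝ → Space3) {n : ℕ} (Z : Config n) : Prop :=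
  ∃ a i, dist (c a 0) (Z i).1 ≤ ε

theorem BadR.cases (hΦ : AdmissiblePotential Φ) (hε : 0 < ε) (ht₀ : 0 ≤ t₀) {K n : ℕ}
    {Z : Config n} (hZ : Z ∈ PairExcluded ε n) (h : BadR Φ ε c θ 𝒢 t₀ t K Z) :
    Hit0 ε c Z ∨ QHit Φ ε c θ t₀ t (fun Z i s => ¬ GoodD Φ ε 𝒢 K Z i s) Z := by
  obtain ⟨σ, hσ, hU, i, hi, hg⟩ := h
  rcases (ht₀.trans hσ.1).lt_or_eq with h1 | h1
  · refine Or.inr ⟨σ, hσ, h1, hU, i, hi, ?_⟩
    rwa [goodR_iff_goodD hΦ hε (pairExcluded_subset_Dom hε n hZ) h1] at hg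
  · left
    obtain ⟨a, ha, hd⟩ := hi
    rw [← h1] at hd
    refine ⟨a, i, ?_⟩
    simpa only [pth, flow_zero hΦ hε] using hd

variable [Fintype α]

/-- Translation average of the hits at time `0`. -/
theorem lintegral_hit0_le (hf : Measurable f₀) (h1 : ∫⁻ z, ENNReal.ofReal (f₀ z) ≤ 1)
    (hε : 0 < ε) :
    ∫⁻ x : Space3, gcE f₀ ε (fun _ Z => ind (Hit0 ε (shiftC c x) Z)) ≤
      Fintype.card α * (ENNReal.ofReal ε * kap) := by
  set F : (n : ℕ) → Space3 → Config n → ℝ≥0∞ := fun n x Z =>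
    ∑ a : α, ∑ i : Fin n, ind (x ∈ Metric.closedBall ((Z i).1 - c a 0) ε) with hF
  have hFm : ∀ n, Measurable (Function.uncurry (F n)) := by
    intro n
    refine Finset.measurable_sum _ fun a _ => Finset.measurable_sum _ fun i _ => measurable_ind ?_
    have : {p : Space3 × Config n | p.1 ∈ Metric.closedBall ((p.2 i).1 - c a 0) ε} =
        {p : Space3 × Config n | dist p.1 ((p.2 i).1 - c a 0) ≤ ε} := rfl
    rw [this]
    exact (isClosed_le (by fun_prop) continuous_const).measurableSet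
  have h2 : ∀ x : Space3, gcE f₀ ε (fun _ Z => ind (Hit0 ε (shiftC c x) Z)) ≤
      gcE f₀ ε (fun n Z => F n x Z) := by
    intro x
    refine gcE_mono f₀ ε fun n Z _ => ?_
    by_cases h : Hit0 ε (shiftC c x) Z
    · obtain ⟨a, i, hd⟩ := h
      have hx : x ∈ Metric.closedBall ((Z i).1 - c a 0) ε := by
        rw [Metric.mem_closedBall, dist_eq_norm]
        unfold shiftC at hd
        rw [dist_eq_norm] at hd
        convert hd using 2
        abel
      have h3 : ind (x ∈ Metric.closedBall ((Z i).1 - c a 0) ε) ≤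
          ∑ i : Fin n, ind (x ∈ Metric.closedBall ((Z i).1 - c a 0) ε) :=
        Finset.single_le_sum (f := fun i : Fin n => ind (x ∈ Metric.closedBall
          ((Z i).1 - c a 0) ε)) (fun _ _ => zero_le) (Finset.mem_univ i)
      have h4 : ∑ i : Fin n, ind (x ∈ Metric.closedBall ((Z i).1 - c a 0) ε) ≤ F n x Z :=
        Finset.single_le_sum (f := fun a : α => ∑ i : Fin n,
          ind (x ∈ Metric.closedBall ((Z i).1 - c a 0) ε)) (fun _ _ => zero_le)
          (Finset.mem_univ a)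
      rw [ind_true hx] at h3
      exact (ind_le_one _).trans (h3.trans h4)
    · rw [ind_false h]; exact zero_le
  have h3 : ∀ n (Z : Config n), ∫⁻ x : Space3, F n x Z =
      Fintype.card α * (ENNReal.ofReal ε ^ 3 * kap) * ∑ _i : Fin n, 1 := by
    intro n Z
    have hmi : ∀ (a : α) (i : Fin n), Measurable fun x : Space3 =>
        ind (x ∈ Metric.closedBall ((Z i).1 - c a 0) ε) := fun a i =>
      measurable_ind (p := fun x : Space3 => x ∈ Metric.closedBall ((Z i).1 - c a 0) ε)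
        Metric.isClosed_closedBall.measurableSet
    simp only [hF]
    rw [lintegral_finsetSum _ fun a _ => Finset.measurable_sum _ fun i _ => hmi a i]
    have h5 : ∀ a : α, ∫⁻ x : Space3, ∑ i : Fin n,
        ind (x ∈ Metric.closedBall ((Z i).1 - c a 0) ε) = ∑ _i : Fin n,
          (ENNReal.ofReal ε ^ 3 * kap) := by
      intro a
      rw [lintegral_finsetSum _ fun i _ => hmi a i]
      refine Finset.sum_congr rfl fun i _ => ?_
      rw [lintegral_ind_mem _ Metric.isClosed_closedBall.measurableSet,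
        Vol365.vol_closedBall _ hε.le]
    simp only [h5, Finset.sum_const, Finset.card_univ, nsmul_eq_mul, Fintype.card_fin]
    ring
  have h6 : gcE f₀ ε (fun n _ => ∑ _i : Fin n, (1 : ℝ≥0∞)) ≤ activity ε := by
    have := gcE_sum_le hf h1 ε (fun _ => 1) measurable_const
    refine this.trans ?_
    simp only [mul_one]
    exact mul_le_of_le_one_right' h1
  calc ∫⁻ x : Space3, gcE f₀ ε (fun _ Z => ind (Hit0 ε (shiftC c x) Z))
      ≤ ∫⁻ x : Space3, gcE f₀ ε (fun n Z => F n x Z) := lintegral_mono h2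
    _ = gcE f₀ ε (fun n Z => ∫⁻ x : Space3, F n x Z) := BadHit370.lintegral_gcE hf ε volume hFm
    _ = gcE f₀ ε (fun n Z => Fintype.card α * (ENNReal.ofReal ε ^ 3 * kap) *
          ∑ _i : Fin n, 1) := gcE_congr f₀ ε fun n Z _ => h3 n Z
    _ = Fintype.card α * (ENNReal.ofReal ε ^ 3 * kap) *
          gcE f₀ ε (fun n _ => ∑ _i : Fin n, (1 : ℝ≥0∞)) := by
        refine gcE_const_mul f₀ ε ?_ _
        exact ENNReal.mul_ne_top (ENNReal.natCast_ne_top _)
          (ENNReal.mul_ne_top (ENNReal.pow_ne_top ENNReal.ofReal_ne_top) kap_ne_top)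
    _ ≤ Fintype.card α * (ENNReal.ofReal ε ^ 3 * kap) * activity ε := mul_le_mul_right h6 _
    _ = Fintype.card α * (ENNReal.ofReal ε * kap) := by
        have h7 : ENNReal.ofReal ε ^ 2 * activity ε = 1 := by
          rw [← BadHit370.inv_activity_eq hε]
          exact ENNReal.inv_mul_cancel (activity_ne_zero hε) (activity_ne_top ε)
        calc (Fintype.card α : ℝ≥0∞) * (ENNReal.ofReal ε ^ 3 * kap) * activity ε
            = Fintype.card α * (ENNReal.ofReal ε * kap) * (ENNReal.ofReal ε ^ 2 * activity ε) := by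
              ring
          _ = _ := by rw [h7, mul_one]

theorem measurable_gcE_hit0 (hf : Measurable f₀) :
    Measurable fun x : Space3 => gcE f₀ ε (fun _ Z => ind (Hit0 ε (shiftC c x) Z)) := by
  refine BadHit370.measurable_gcE_param hf ε (F := fun n x Z => ind (Hit0 ε (shiftC c x) Z))
    fun n => measurable_ind (p := fun p : Space3 × Config n => Hit0 ε (shiftC c p.1) p.2) ?_
  have : {p : Space3 × Config n | Hit0 ε (shiftC c p.1) p.2} =
      ⋃ a : α, ⋃ i : Fin n, {p : Space3 × Config n | dist (c a 0 + p.1) (p.2 i).1 ≤ ε} := by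
    ext p
    simp only [Hit0, shiftC, mem_iUnion, mem_ofPred_eq]
  rw [this]
  exact MeasurableSet.iUnion fun a => MeasurableSet.iUnion fun i =>
    (isClosed_le (by fun_prop) continuous_const).measurableSet

theorem gcE_badR_le (hf : Measurable f₀) (hΦ : AdmissiblePotential Φ) (hε : 0 < ε)
    (ht₀ : 0 ≤ t₀) (K : ℕ) (x : Space3) :
    gcE f₀ ε (fun _ Z => ind (BadR Φ ε (shiftC c x) θ 𝒢 t₀ t K Z)) ≤
      gcE f₀ ε (fun _ Z => ind (Hit0 ε (shiftC c x) Z)) +
      gcE f₀ ε (fun n Z => majQ Φ ε c t₀ t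
        (fun (Z : Config n) i s => ¬ GoodD Φ ε 𝒢 K Z i s) x Z) := by
  have hm0 : ∀ n, Measurable fun Z : Config n => ind (Hit0 ε (shiftC c x) Z) := by
    intro n
    refine measurable_ind ?_
    have : {Z : Config n | Hit0 ε (shiftC c x) Z} =
        ⋃ a : α, ⋃ i : Fin n, {Z : Config n | dist (shiftC c x a 0) (Z i).1 ≤ ε} := by
      ext Z
      simp only [Hit0, mem_iUnion, mem_ofPred_eq]
    rw [this]
    exact MeasurableSet.iUnion fun a => MeasurableSet.iUnion fun i =>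
      (isClosed_le (by fun_prop) continuous_const).measurableSet
  rw [← gcE_add hf ε hm0]
  refine gcE_mono f₀ ε fun n Z hZ => ?_
  by_cases h : BadR Φ ε (shiftC c x) θ 𝒢 t₀ t K Z
  · rw [ind_true h]
    rcases h.cases hΦ hε ht₀ hZ with h5 | h5
    · rw [ind_true h5]; exact le_self_add
    · have h6 := ind_qHit_le (fun (Z : Config n) i s => ¬ GoodD Φ ε 𝒢 K Z i s) x Z
        (Φ := Φ) (ε := ε) (c := c) (θ := θ) (t₀ := t₀) (t := t)
      rw [ind_true h5] at h6
      exact h6.trans le_add_self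
  · rw [ind_false h]; exact zero_le

/-- **Bad first hits, majorant form.** -/
theorem exists_badR_maj (hf : Measurable f₀) (h1 : ∫⁻ z, ENNReal.ofReal (f₀ z) ≤ 1)
    (hΦ : AdmissiblePotential Φ) (hε : 0 < ε) (hc : ∀ a, Continuous (c a)) {M : ℝ≥0}
    (hcM : ∀ a, LipschitzOnWith M (c a) (Icc 0 t)) (h𝒢 : 𝒢.Meas) (ht₀ : 0 ≤ t₀) (K : ℕ) :
    ∃ maj : Space3 → ℝ≥0∞, Measurable maj ∧
      (∀ x, gcE f₀ ε (fun _ Z => ind (BadR Φ ε (shiftC c x) θ 𝒢 t₀ t K Z)) ≤ maj x) ∧
      ∫⁻ x, maj x ≤ Fintype.card α * (ENNReal.ofReal ε * kap) +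
        ENNReal.ofReal (7 * ε ^ 2) * kap * Fintype.card α *
          ∫⁻ s in Ioo t₀ t, gcE f₀ ε (fun _ Z =>
            ∑ i, ind (¬ GoodD Φ ε 𝒢 K Z i s) * spdW Φ ε M Z i s) := by
  have hQ : ∀ n i, MeasurableSet {p : Config n × ℝ | ¬ GoodD Φ ε 𝒢 K p.1 i p.2} :=
    fun n i => (measurableSet_goodD hΦ hε h𝒢 K n i).compl
  refine ⟨_, (measurable_gcE_hit0 (c := c) hf).add (measurable_gcE_majQ (t₀ := t₀) (t := t)
    (Q := fun _ Z i s => ¬ GoodD Φ ε 𝒢 K Z i s) hf hΦ hε hc hQ),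
    fun x => gcE_badR_le hf hΦ hε ht₀ K x, ?_⟩
  have h2 := lintegral_hit0_le (c := c) hf h1 hε
  have h3 := lintegral_gcE_majQ_le (t₀ := t₀) (t := t) hf hΦ hε hc hcM
    (Q := fun _ Z i s => ¬ GoodD Φ ε 𝒢 K Z i s) hQ ht₀
  simp only [Pi.add_apply]
  rw [lintegral_add_left (measurable_gcE_hit0 (c := c) hf)]
  exact add_le_add h2 h3

/-- **Bad first hits.** -/
theorem lintegral_badR_le (hf : Measurable f₀) (h1 : ∫⁻ z, ENNReal.ofReal (f₀ z) ≤ 1)
    (hΦ : AdmissiblePotential Φ) (hε : 0 < ε) (hc : ∀ a, Continuous (c a)) {M : ℝ≥0}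
    (hcM : ∀ a, LipschitzOnWith M (c a) (Icc 0 t)) (h𝒢 : 𝒢.Meas) (ht₀ : 0 ≤ t₀) (K : ℕ) :
    ∫⁻ x : Space3, gcE f₀ ε (fun _ Z => ind (BadR Φ ε (shiftC c x) θ 𝒢 t₀ t K Z)) ≤
      Fintype.card α * (ENNReal.ofReal ε * kap) +
      ENNReal.ofReal (7 * ε ^ 2) * kap * Fintype.card α *
        ∫⁻ s in Ioo t₀ t, gcE f₀ ε (fun _ Z =>
          ∑ i, ind (¬ GoodD Φ ε 𝒢 K Z i s) * spdW Φ ε M Z i s) := by
  obtain ⟨maj, _, h2, h3⟩ := exists_badR_maj (θ := θ) hf h1 hΦ hε hc hcM h𝒢 ht₀ K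
  exact (lintegral_mono h2).trans h3

end main

end Crest.Agent.R122.Hit167
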