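import Crest.Agent.R122.HitMeas_167
import Crest.Agent.R122.ClusterMecke_311
import Crest.Agent.R122.CausalNewton_291

/-!
# The first-hit identity in the gas (row 122, helper167)

`Cls` is a class of clusters `𝒢 k V j σ` (`V : Config k` with root `j` at time `σ⁻`).
`HitF` is the good first hit in the real world `X` by the particle `f j` with backward cluster `f`,
`HitD` the same event in the coordinates "isolated world of the cluster" / "rest".
-/

set_option autoImplicit false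

open Set Filter Topology MeasureTheory
open scoped Classical ENNReal
open Crest.AnalysisR.Kinetic

namespace Crest.Agent.R122.Hit167

open Causal291 Flow671 Loc45 GC311

/-- Classes of clusters. -/
abbrev Cls : Type := (k : ℕ) → Config k → Fin k → ℝ → Prop

/-- Relabelling invariance of a class. -/
def Cls.Inv (𝒢 : Cls) : Prop :=
  ∀ (k : ℕ) (V : Config k) (j : Fin k) (σ : ℝ) (e : Equiv.Perm (Fin k)),
    𝒢 k (fun i => V (e i)) j σ ↔ 𝒢 k V (e j) σ

/-- Joint measurability of a class. -/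
def Cls.Meas (𝒢 : Cls) : Prop :=
  ∀ (k : ℕ) (j : Fin k), MeasurableSet {p : Config k × ℝ | 𝒢 k p.1 j p.2}

section defs

variable (Φ : Space3 → ℝ) (ε : ℝ) {α : Type} (c : α → ℝ → Space3) (θ : α → ℝ) (𝒢 : Cls)

/-- Good first hit of the test family at time `σ` by the particle `f j` of the world `X`, whose
backward cluster (of `(f j, σ⁻)`) is `f`. -/
structure HitF {ι : Type} [Fintype ι] (X : ι → PhasePoint) {k : ℕ} (f : Fin k → ι) (j : Fin k)
    (σ : ℝ) : Prop where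
  ghost : GhostHit (pth Φ ε X) ε c θ f j σ
  iso : Iso (pth Φ ε (fun i => X (f i))) ε (fun s => f ⁻¹' preAct (pth Φ ε X) ε (f j) σ s) σ
  alone : AloneAt (pth Φ ε (fun i => X (f i))) ε j σ
  cls : 𝒢 k (fun i => X (f i)) j σ

/-- Good cluster in its isolated world. -/
structure GoodV {k : ℕ} (V : Config k) (j : Fin k) (σ : ℝ) : Prop where
  good : GoodGhostHit (pth Φ ε V) ε c θ j σ
  alone : AloneAt (pth Φ ε V) ε j σ
  cls : 𝒢 k V j σ

/-- The condition on the rest of the world: the protected family `fam (tauPre ..)` is isolated in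
the world `X` on `[0, σ)` and the test family is unhit before `σ`. -/
structure RestV {ι : Type} [Fintype ι] (X : ι → PhasePoint) {k : ℕ} (f : Fin k → ι) (j : Fin k)
    (σ : ℝ) : Prop where
  iso : Iso (pth Φ ε X) ε (fun s => f '' fam (tauPre (pth Φ ε fun i => X (f i)) ε j σ) s) σ
  unhit : Unhit (pth Φ ε X) ε c θ σ

/-- The first-hit event in the coordinates cluster / rest. -/
def HitD {ι : Type} [Fintype ι] (X : ι → PhasePoint) {k : ℕ} (f : Fin k → ι) (j : Fin k)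
    (σ : ℝ) : Prop :=
  GoodV Φ ε c θ 𝒢 (fun i => X (f i)) j σ ∧ RestV Φ ε c θ X f j σ

end defs

section relabel

variable {Φ : Space3 → ℝ} {ε : ℝ} {α : Type} {c : α → ℝ → Space3} {θ : α → ℝ} {𝒢 : Cls}

theorem aloneAt_relabel {ι ι' : Type*} (g : ι ≃ ι') {z : ℝ → ι' → PhasePoint} {j : ι} {σ : ℝ} :
    AloneAt (fun s i => z s (g i)) ε j σ ↔ AloneAt z ε (g j) σ := by
  constructor
  · intro h i hi
    have := h (g.symm i) (by
      rintro rfl
      exact hi (by simp))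
    simpa using this
  · intro h i hi
    exact h (g i) (fun h' => hi (g.injective h'))

theorem unhit_relabel {ι ι' : Type*} (g : ι ≃ ι') {z : ℝ → ι' → PhasePoint} {σ : ℝ} :
    Unhit (fun s i => z s (g i)) ε c θ σ ↔ Unhit z ε c θ σ := by
  constructor
  · intro h s hs k hk
    refine h s hs (g.symm k) ?_
    obtain ⟨a, ha, hd⟩ := hk
    exact ⟨a, ha, by simpa using hd⟩
  · intro h s hs k hk
    exact h s hs (g k) hk

theorem HitF.perm (hΦ : AdmissiblePotential Φ) (hε : 0 < ε) (h𝒢 : 𝒢.Inv) {ι : Type} [Fintype ι]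
    (X : ι → PhasePoint) {k : ℕ} (f : Fin k → ι) (e : Equiv.Perm (Fin k)) (j : Fin k) (σ : ℝ) :
    HitF Φ ε c θ 𝒢 X (fun i => f (e i)) j σ ↔ HitF Φ ε c θ 𝒢 X f (e j) σ := by
  have hp : pth Φ ε (fun i => X (f (e i))) = fun s i => pth Φ ε (fun i => X (f i)) s (e i) :=
    pth_relabel hΦ hε e (fun i => X (f i))
  have hrange : range (fun i => f (e i)) = range f := by
    rw [← Function.comp_def, e.surjective.range_comp]
  have h1 : GhostHit (pth Φ ε X) ε c θ (fun i => f (e i)) j σ ↔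
      GhostHit (pth Φ ε X) ε c θ f (e j) σ := by
    constructor
    · rintro ⟨a, b, d⟩
      exact ⟨a, b, by rw [← hrange]; exact d⟩
    · rintro ⟨a, b, d⟩
      exact ⟨a, b, by rw [hrange]; exact d⟩
  have h2 : Iso (pth Φ ε (fun i => X (f (e i)))) ε
        (fun s => (fun i => f (e i)) ⁻¹' preAct (pth Φ ε X) ε (f (e j)) σ s) σ ↔
      Iso (pth Φ ε (fun i => X (f i))) ε (fun s => f ⁻¹' preAct (pth Φ ε X) ε (f (e j)) σ s) σ := by
    rw [hp]
    have := iso_relabel (ε := ε) (t := σ) (z := pth Φ ε (fun i => X (f i))) e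
      (A := fun s => (fun i => f (e i)) ⁻¹' preAct (pth Φ ε X) ε (f (e j)) σ s)
    rw [this]
    have he : (fun s => e '' ((fun i => f (e i)) ⁻¹' preAct (pth Φ ε X) ε (f (e j)) σ s)) =
        fun s => f ⁻¹' preAct (pth Φ ε X) ε (f (e j)) σ s := by
      funext s
      rw [show (fun i => f (e i)) = f ∘ e from rfl, preimage_comp,
        image_preimage_eq _ e.surjective]
    rw [he]
  have h3 : AloneAt (pth Φ ε (fun i => X (f (e i)))) ε j σ ↔
      AloneAt (pth Φ ε (fun i => X (f i))) ε (e j) σ := by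
    rw [hp]
    exact aloneAt_relabel e
  have h4 := h𝒢 k (fun i => X (f i)) j σ e
  constructor
  · rintro ⟨a, b, d, g⟩
    exact ⟨h1.1 a, h2.1 b, h3.1 d, h4.1 g⟩
  · rintro ⟨a, b, d, g⟩
    exact ⟨h1.2 a, h2.2 b, h3.2 d, h4.2 g⟩

theorem HitF.relabel (hΦ : AdmissiblePotential Φ) (hε : 0 < ε) {ι ι' : Type} [Fintype ι]
    [Fintype ι'] (g : ι ≃ ι') (X : ι' → PhasePoint) {k : ℕ} (f : Fin k → ι) (j : Fin k) (σ : ℝ) :
    HitF Φ ε c θ 𝒢 (fun i => X (g i)) f j σ ↔ HitF Φ ε c θ 𝒢 X (fun i => g (f i)) j σ := by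
  have hp : pth Φ ε (fun i => X (g i)) = fun s i => pth Φ ε X s (g i) := pth_relabel hΦ hε g X
  have hpre : ∀ s, preAct (pth Φ ε fun i => X (g i)) ε (f j) σ s =
      g ⁻¹' preAct (pth Φ ε X) ε (g (f j)) σ s := by
    intro s
    rw [hp]
    exact preAct_relabel g
  have h1 : GhostHit (pth Φ ε fun i => X (g i)) ε c θ f j σ ↔
      GhostHit (pth Φ ε X) ε c θ (fun i => g (f i)) j σ := by
    have hfull : preAct (pth Φ ε fun i => X (g i)) ε (f j) σ 0 = range f ↔
        preAct (pth Φ ε X) ε (g (f j)) σ 0 = range (fun i => g (f i)) := by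
      rw [hpre 0, show (fun i => g (f i)) = g ∘ f from rfl, range_comp]
      constructor
      · intro h
        rw [← h, image_preimage_eq _ g.surjective]
      · intro h
        rw [h, preimage_image_eq _ g.injective]
    constructor
    · rintro ⟨a, b, d⟩
      rw [hp] at a b
      exact ⟨(unhit_relabel g).1 a, b, hfull.1 d⟩
    · rintro ⟨a, b, d⟩
      refine ⟨?_, ?_, hfull.2 d⟩
      · rw [hp]
        exact (unhit_relabel g).2 a
      · rw [hp]
        exact b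
  have h2 : (fun s => f ⁻¹' preAct (pth Φ ε fun i => X (g i)) ε (f j) σ s) =
      fun s => (fun i => g (f i)) ⁻¹' preAct (pth Φ ε X) ε (g (f j)) σ s := by
    funext s
    rw [hpre s]
    rfl
  constructor
  · rintro ⟨a, b, d, g'⟩
    rw [h2] at b
    exact ⟨h1.1 a, b, d, g'⟩
  · rintro ⟨a, b, d, g'⟩
    refine ⟨h1.2 a, ?_, d, g'⟩
    rw [h2]
    exact b

end relabel

section dict

variable {Φ : Space3 → ℝ} {ε : ℝ} {α : Type} {c : α → ℝ → Space3} {θ : α → ℝ} {𝒢 : Cls}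

theorem HitD.nonneg_pos {ι : Type} [Fintype ι] {X : ι → PhasePoint} {k : ℕ} {f : Fin k → ι}
    {j : Fin k} {σ : ℝ} (hσ : 0 ≤ σ) (h : HitD Φ ε c θ 𝒢 X f j σ) : 0 < σ := h.1.good.pos hσ

/-- **The dictionary**: real world versus cluster / rest. -/
theorem hitF_iff_hitD (hΦ : AdmissiblePotential Φ) (hε : 0 < ε) {ι : Type} [Fintype ι]
    {X : ι → PhasePoint} (hX : X ∈ Dom Φ ι) {k : ℕ} {f : Fin k → ι} (hf : Function.Injective f)
    {j : Fin k} {σ : ℝ} (hσ : 0 ≤ σ) :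
    HitF Φ ε c θ 𝒢 X f j σ ↔ HitD Φ ε c θ 𝒢 X f j σ := by
  have hXf : (fun i => X (f i)) ∈ Dom Φ (Fin k) := Dom_comp ⟨f, hf⟩ hX
  have hzB : ∀ i, Continuous fun s => pth Φ ε (fun i => X (f i)) s i := continuous_pth hΦ hε _
  have hz : ∀ i, Continuous fun s => pth Φ ε X s i := continuous_pth hΦ hε _
  have hloc : LocUniq ε σ (pth Φ ε (fun i => X (f i))) (pth Φ ε X) :=
    locUniq_pth hΦ hε σ hXf hX
  have h0 : ∀ i, pth Φ ε (fun i => X (f i)) 0 i = pth Φ ε X 0 (f i) := by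
    intro i
    simp only [pth]
    rw [flow_zero hΦ hε, flow_zero hΦ hε]
  have key := ghostHit_iff (c := c) (θ := θ) (j := j) (fun i => (hzB i).continuousOn)
    (fun i => (hz i).continuousOn) hloc hf h0 hσ le_rfl
  constructor
  · rintro ⟨h1, h2, h3, h4⟩
    obtain ⟨g1, g2, g3⟩ := key.1 ⟨h1, h2⟩
    refine ⟨⟨g1, h3, h4⟩, ⟨g2.congr fun s hs => ?_, g3⟩⟩
    rw [preAct_eq_fam hzB (g1.pos hσ) g1.full h3 hs]
  · rintro ⟨⟨g1, h3, h4⟩, ⟨g2, g3⟩⟩
    have g2' : Iso (pth Φ ε X) ε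
        (fun s => f '' preAct (pth Φ ε fun i => X (f i)) ε j σ s) σ := by
      refine g2.congr fun s hs => ?_
      rw [preAct_eq_fam hzB (g1.pos hσ) g1.full h3 hs]
    obtain ⟨h1, h2⟩ := key.2 ⟨g1, g2', g3⟩
    exact ⟨h1, h2, h3, h4⟩

theorem hitD_time {ι : Type} [Fintype ι] {X : ι → PhasePoint} {k : ℕ} {f : Fin k → ι}
    {j : Fin k} {σ : ℝ} (hσ : 0 ≤ σ) (h : GoodV Φ ε c θ 𝒢 (fun i => X (f i)) j σ) :
    hitTime (pth Φ ε fun i => X (f i)) ε c θ 0 j = σ :=
  hitTime_eq hσ h.good.hits fun s hs => h.good.unhit s hs j (mem_preAct_self hs.2)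

theorem goodV_time {k : ℕ} {V : Config k} {j : Fin k} {σ : ℝ} (hσ : 0 ≤ σ)
    (h : GoodV Φ ε c θ 𝒢 V j σ) : hitTime (pth Φ ε V) ε c θ 0 j = σ :=
  hitTime_eq hσ h.good.hits fun s hs => h.good.unhit s hs j (mem_preAct_self hs.2)

/-- The first-hit event in the window `[t₀, t)`, with the explicit time. -/
theorem exists_hitD_iff {ι : Type} [Fintype ι] {X : ι → PhasePoint} {k : ℕ} {f : Fin k → ι}
    {j : Fin k} {t₀ t : ℝ} (ht₀ : 0 ≤ t₀) :
    (∃ σ ∈ Ico t₀ t, HitD Φ ε c θ 𝒢 X f j σ) ↔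
      (hitTime (pth Φ ε fun i => X (f i)) ε c θ 0 j ∈ Ico t₀ t ∧
        HitD Φ ε c θ 𝒢 X f j (hitTime (pth Φ ε fun i => X (f i)) ε c θ 0 j)) := by
  constructor
  · rintro ⟨σ, hσ, h⟩
    have := hitD_time (ht₀.trans hσ.1) h.1
    rw [this]
    exact ⟨hσ, h⟩
  · rintro ⟨h1, h2⟩
    exact ⟨_, h1, h2⟩

end dict

section meas

variable {Φ : Space3 → ℝ} {ε : ℝ} {α : Type} [Finite α] {c : α → ℝ → Space3} {θ : α → ℝ}
  {𝒢 : Cls}

theorem measurable_pth (hΦ : AdmissiblePotential Φ) (hε : 0 < ε) {k n : ℕ} (f : Fin k → Fin n)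
    (s : ℝ) (j : Fin k) :
    Measurable fun X : Config n => pth Φ ε (fun i => X (f i)) s j := by
  have h1 : Measurable fun X : Config n => (fun i => X (f i) : Config k) :=
    measurable_pi_iff.2 fun i => measurable_pi_apply (f i)
  exact (measurable_pi_apply j).comp ((measurable_flow hΦ hε s).comp h1)

omit [Finite α] in
theorem measurable_pth_id (hΦ : AdmissiblePotential Φ) (hε : 0 < ε) {n : ℕ} (s : ℝ) (j : Fin n) :
    Measurable fun X : Config n => pth Φ ε X s j :=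
  (measurable_pi_apply j).comp (measurable_flow hΦ hε s)

theorem measurableSet_goodV (hΦ : AdmissiblePotential Φ) (hε : 0 < ε)
    (hc : ∀ a, Continuous (c a)) (h𝒢 : 𝒢.Meas) {k : ℕ} (j : Fin k) {Ω : Type*}
    [MeasurableSpace Ω] {X : Ω → Config k} (hX : Measurable X) {σ : Ω → ℝ} (hσ : Measurable σ) :
    MeasurableSet {ω | GoodV Φ ε c θ 𝒢 (X ω) j (σ ω)} := by
  have hx : ∀ ω i, Continuous fun s => pth Φ ε (X ω) s i := fun ω => continuous_pth hΦ hε _
  have hm : ∀ s i, Measurable fun ω => pth Φ ε (X ω) s i := fun s i =>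
    (measurable_pth_id hΦ hε s i).comp hX
  have : {ω | GoodV Φ ε c θ 𝒢 (X ω) j (σ ω)} =
      {ω | GoodGhostHit (pth Φ ε (X ω)) ε c θ j (σ ω)} ∩
        {ω | AloneAt (pth Φ ε (X ω)) ε j (σ ω)} ∩ {ω | 𝒢 k (X ω) j (σ ω)} := by
    ext ω
    exact ⟨fun h => ⟨⟨h.good, h.alone⟩, h.cls⟩, fun h => ⟨h.1.1, h.1.2, h.2⟩⟩
  rw [this]
  exact ((measurableSet_goodGhostHit hx hm hc j hσ).inter (measurableSet_aloneAt hx hm hσ j)).inter
    ((hX.prodMk hσ) (h𝒢 k j))

theorem measurableSet_restV (hΦ : AdmissiblePotential Φ) (hε : 0 < ε)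
    (hc : ∀ a, Continuous (c a)) {k n : ℕ} {f : Fin k → Fin n} (hf : Function.Injective f)
    (j : Fin k) {Ω : Type*} [MeasurableSpace Ω] {X : Ω → Config n} (hX : Measurable X)
    {σ : Ω → ℝ} (hσ : Measurable σ) :
    MeasurableSet {ω | RestV Φ ε c θ (X ω) f j (σ ω)} := by
  have hx : ∀ ω i, Continuous fun s => pth Φ ε (X ω) s i := fun ω => continuous_pth hΦ hε _
  have hm : ∀ s i, Measurable fun ω => pth Φ ε (X ω) s i := fun s i =>
    (measurable_pth_id hΦ hε s i).comp hX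
  have hx' : ∀ ω i, Continuous fun s => pth Φ ε (fun i => X ω (f i)) s i :=
    fun ω => continuous_pth hΦ hε _
  have hm' : ∀ s i, Measurable fun ω => pth Φ ε (fun i => X ω (f i)) s i := fun s i =>
    (measurable_pth hΦ hε f s i).comp hX
  have : {ω | RestV Φ ε c θ (X ω) f j (σ ω)} =
      {ω | Iso (pth Φ ε (X ω)) ε
        (fun s => f '' fam (tauPre (pth Φ ε fun i => X ω (f i)) ε j (σ ω)) s) (σ ω)} ∩
        {ω | Unhit (pth Φ ε (X ω)) ε c θ (σ ω)} := by
    ext ω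
    exact ⟨fun h => ⟨h.iso, h.unhit⟩, fun h => ⟨h.1, h.2⟩⟩
  rw [this]
  exact (measurableSet_iso_fam hx hm hf (fun b => measurable_tauPre hx' hm' j b hσ) hσ).inter
    (measurableSet_unhit hx hm hc hσ)

theorem measurableSet_hitD (hΦ : AdmissiblePotential Φ) (hε : 0 < ε)
    (hc : ∀ a, Continuous (c a)) (h𝒢 : 𝒢.Meas) {k n : ℕ} {f : Fin k → Fin n}
    (hf : Function.Injective f) (j : Fin k) {t₀ t : ℝ} (ht₀ : 0 ≤ t₀) :
    MeasurableSet {X : Config n | ∃ σ ∈ Ico t₀ t, HitD Φ ε c θ 𝒢 X f j σ} := by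
  have hXf : Measurable fun X : Config n => (fun i => X (f i) : Config k) :=
    measurable_pi_iff.2 fun i => measurable_pi_apply (f i)
  have hx' : ∀ (X : Config n) i, Continuous fun s => pth Φ ε (fun i => X (f i)) s i :=
    fun X => continuous_pth hΦ hε _
  have hm' : ∀ s i, Measurable fun X : Config n => pth Φ ε (fun i => X (f i)) s i :=
    fun s i => measurable_pth hΦ hε f s i
  have hσ := measurable_hitTime (θ := θ) (ε := ε) hx' hm' hc 0 j
  have : {X : Config n | ∃ σ ∈ Ico t₀ t, HitD Φ ε c θ 𝒢 X f j σ} =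
      {X | hitTime (pth Φ ε fun i => X (f i)) ε c θ 0 j ∈ Ico t₀ t} ∩
      ({X | GoodV Φ ε c θ 𝒢 (fun i => X (f i)) j
        (hitTime (pth Φ ε fun i => X (f i)) ε c θ 0 j)} ∩
      {X | RestV Φ ε c θ X f j (hitTime (pth Φ ε fun i => X (f i)) ε c θ 0 j)}) := by
    ext X
    exact exists_hitD_iff ht₀
  rw [this]
  exact (hσ measurableSet_Ico).inter ((measurableSet_goodV hΦ hε hc h𝒢 j hXf hσ).inter
    (measurableSet_restV hΦ hε hc hf j measurable_id hσ))

end meas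

end Crest.Agent.R122.Hit167
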