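import Crest.Agent.R122.HitG2_167

/-!
# The first-hit identity in the gas, II: Mecke formula (row 122, helper167)
-/

set_option autoImplicit false

open Set Filter Topology MeasureTheory
open scoped Classical ENNReal
open Crest.AnalysisR.Kinetic

namespace Crest.Agent.R122.Hit167

open Causal291 Flow671 Loc45 GC311

section defs

variable (Φ : Space3 → ℝ) (ε : ℝ) {α : Type} (c : α → ℝ → Space3) (θ : α → ℝ) (𝒢 : Cls)
  (t₀ t : ℝ)

/-- First hit in the window by the particle `i` with backward cluster `B`. -/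
def EvS {n : ℕ} (Z : Config n) (B : Finset (Fin n)) (i : Fin n) : Prop :=
  ∃ (k : ℕ) (f : Fin k ↪ Fin n) (j : Fin k), Finset.univ.map f = B ∧ f j = i ∧
    ∃ σ ∈ Ico t₀ t, HitD Φ ε c θ 𝒢 Z f j σ

/-- Indicator in `ℝ≥0∞`. -/
noncomputable def ind (p : Prop) : ℝ≥0∞ := if p then 1 else 0

/-- Number of good first hitters with backward cluster `B`. -/
noncomputable def Gfun (n : ℕ) (B : Finset (Fin n)) (Z : Config n) : ℝ≥0∞ :=
  ∑ i ∈ B, ind (EvS Φ ε c θ 𝒢 t₀ t Z B i)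

end defs

theorem ind_le_one (p : Prop) : ind p ≤ 1 := by
  unfold ind; split_ifs <;> simp

theorem ind_congr {p q : Prop} (h : p ↔ q) : ind p = ind q := by
  unfold ind; simp [h]

theorem ind_mono {p q : Prop} (h : p → q) : ind p ≤ ind q := by
  unfold ind
  split_ifs with h1 h2 <;> simp_all

theorem ind_true {p : Prop} (h : p) : ind p = 1 := by simp [ind, h]

theorem ind_false {p : Prop} (h : ¬ p) : ind p = 0 := by simp [ind, h]

theorem ind_and (p q : Prop) : ind (p ∧ q) = ind p * ind q := by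
  unfold ind
  by_cases hp : p <;> by_cases hq : q <;> simp [hp, hq]

theorem measurable_ind {Ω : Type*} [MeasurableSpace Ω] {p : Ω → Prop}
    (h : MeasurableSet {ω | p ω}) : Measurable fun ω => ind (p ω) :=
  Measurable.ite h measurable_const measurable_const

section main

variable {Φ : Space3 → ℝ} {ε : ℝ} {α : Type} {c : α → ℝ → Space3} {θ : α → ℝ}
  {𝒢 : Cls} {t₀ t : ℝ}

/-- Two embeddings of the same set differ by a permutation. -/
theorem exists_perm_of_map_eq {k k' n : ℕ} (f : Fin k ↪ Fin n) (f' : Fin k' ↪ Fin n)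
    (h : Finset.univ.map f = Finset.univ.map f') :
    ∃ hk : k = k', ∃ e : Equiv.Perm (Fin k'), ∀ i : Fin k, f i = f' (e (Fin.cast hk i)) := by
  have hk : k = k' := by
    have := congrArg Finset.card h
    simpa using this
  subst hk
  have h1 : ∀ i : Fin k, ∃ i' : Fin k, f' i' = f i := by
    intro i
    have : f i ∈ Finset.univ.map f' := by
      rw [← h]; simp
    simpa using this
  choose e he using h1
  have hinj : Function.Injective e := by
    intro a b hab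
    apply f.injective
    rw [← he a, ← he b, hab]
  refine ⟨rfl, Equiv.ofBijective e (Finite.injective_iff_bijective.1 hinj), fun i => ?_⟩
  simp [he i]

/-- `EvS` can be read in any enumeration of `B`. -/
theorem evS_iff (hΦ : AdmissiblePotential Φ) (hε : 0 < ε) (h𝒢 : 𝒢.Inv) (ht₀ : 0 ≤ t₀) {n : ℕ}
    {Z : Config n} (hZ : Z ∈ Dom Φ (Fin n)) {k : ℕ} (f : Fin k ↪ Fin n) (j : Fin k) :
    EvS Φ ε c θ 𝒢 t₀ t Z (Finset.univ.map f) (f j) ↔
      ∃ σ ∈ Ico t₀ t, HitD Φ ε c θ 𝒢 Z f j σ := by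
  constructor
  · rintro ⟨k', f', j', hB, hj, σ, hσ, h⟩
    obtain ⟨rfl, e, he⟩ := exists_perm_of_map_eq f' f hB
    simp only [Fin.cast_refl, id] at he
    refine ⟨σ, hσ, ?_⟩
    have hσ0 : 0 ≤ σ := ht₀.trans hσ.1
    rw [← hitF_iff_hitD hΦ hε hZ f'.injective hσ0] at h
    rw [← hitF_iff_hitD hΦ hε hZ f.injective hσ0]
    have hf' : (f' : Fin k' → Fin n) = fun i => f (e i) := funext he
    rw [hf'] at h
    rw [HitF.perm hΦ hε h𝒢] at h
    have hj' : e j' = j := by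
      apply f.injective
      rw [← he j', hj]
    rwa [hj'] at h
  · rintro ⟨σ, hσ, h⟩
    exact ⟨k, f, j, rfl, rfl, σ, hσ, h⟩

theorem evS_map (hΦ : AdmissiblePotential Φ) (hε : 0 < ε) (ht₀ : 0 ≤ t₀) {n : ℕ}
    (π : Equiv.Perm (Fin n)) {Z : Config n} (hZ : Z ∈ Dom Φ (Fin n)) (B : Finset (Fin n))
    (i : Fin n) :
    EvS Φ ε c θ 𝒢 t₀ t Z (B.map π.toEmbedding) (π i) ↔
      EvS Φ ε c θ 𝒢 t₀ t (fun i => Z (π i)) B i := by
  have hZ' : (fun i => Z (π i)) ∈ Dom Φ (Fin n) := (Dom_equiv π).2 hZ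
  constructor
  · rintro ⟨k, f, j, hB, hj, σ, hσ, h⟩
    refine ⟨k, f.trans π.symm.toEmbedding, j, ?_, ?_, σ, hσ, ?_⟩
    · rw [← Finset.map_map, hB, Finset.map_map]
      ext x
      simp
    · simp [hj]
    · have hσ0 : 0 ≤ σ := ht₀.trans hσ.1
      rw [← hitF_iff_hitD hΦ hε hZ f.injective hσ0] at h
      rw [← hitF_iff_hitD hΦ hε hZ' (f.trans π.symm.toEmbedding).injective hσ0,
        HitF.relabel hΦ hε π Z]
      have : (fun i => π ((f.trans π.symm.toEmbedding) i)) = f := by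
        funext i; simp
      rw [this]
      exact h
  · rintro ⟨k, f, j, hB, hj, σ, hσ, h⟩
    refine ⟨k, f.trans π.toEmbedding, j, ?_, ?_, σ, hσ, ?_⟩
    · rw [← Finset.map_map, hB]
    · simp [hj]
    · have hσ0 : 0 ≤ σ := ht₀.trans hσ.1
      rw [← hitF_iff_hitD hΦ hε hZ' f.injective hσ0, HitF.relabel hΦ hε π Z] at h
      rw [← hitF_iff_hitD hΦ hε hZ (f.trans π.toEmbedding).injective hσ0]
      exact h

theorem gfun_map (hΦ : AdmissiblePotential Φ) (hε : 0 < ε) (ht₀ : 0 ≤ t₀) (n : ℕ)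
    (π : Equiv.Perm (Fin n)) (B : Finset (Fin n)) (Z : Config n) (hZ : Z ∈ PairExcluded ε n) :
    Gfun Φ ε c θ 𝒢 t₀ t n (B.map π.toEmbedding) Z =
      Gfun Φ ε c θ 𝒢 t₀ t n B (fun i => Z (π i)) := by
  unfold Gfun
  rw [Finset.sum_map]
  refine Finset.sum_congr rfl fun i _ => ?_
  exact ind_congr (evS_map hΦ hε ht₀ π (pairExcluded_subset_Dom hε n hZ) B i)

/-- The enumeration of a finite set. -/
theorem evS_iff_orderEmb (hΦ : AdmissiblePotential Φ) (hε : 0 < ε) (h𝒢 : 𝒢.Inv) (ht₀ : 0 ≤ t₀)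
    {n : ℕ} {Z : Config n} (hZ : Z ∈ Dom Φ (Fin n)) (B : Finset (Fin n)) {i : Fin n} (hi : i ∈ B) :
    EvS Φ ε c θ 𝒢 t₀ t Z B i ↔ ∃ σ ∈ Ico t₀ t, HitD Φ ε c θ 𝒢 Z (B.orderEmbOfFin rfl).toEmbedding
      ((B.orderIsoOfFin rfl).symm ⟨i, hi⟩) σ := by
  have h1 : Finset.univ.map (B.orderEmbOfFin rfl).toEmbedding = B :=
    Finset.map_orderEmbOfFin_univ B rfl
  have h2 : (B.orderEmbOfFin rfl).toEmbedding ((B.orderIsoOfFin rfl).symm ⟨i, hi⟩) = i := by
    change ((B.orderIsoOfFin rfl) ((B.orderIsoOfFin rfl).symm ⟨i, hi⟩) : Fin n) = i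
    simp
  have := evS_iff (c := c) (θ := θ) (t := t) hΦ hε h𝒢 ht₀ hZ (B.orderEmbOfFin rfl).toEmbedding
    ((B.orderIsoOfFin rfl).symm ⟨i, hi⟩)
  rw [h1, h2] at this
  exact this

/-- `Gfun` with the indicator of admissible configurations (measurable). -/
theorem gfun_eq (hΦ : AdmissiblePotential Φ) (hε : 0 < ε) (h𝒢 : 𝒢.Inv) (ht₀ : 0 ≤ t₀)
    {n : ℕ} (B : Finset (Fin n)) (Z : Config n) (hZ : Z ∈ PairExcluded ε n) :
    Gfun Φ ε c θ 𝒢 t₀ t n B Z = ∑ j : Fin B.card,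
      ind (∃ σ ∈ Ico t₀ t, HitD Φ ε c θ 𝒢 Z (B.orderEmbOfFin rfl).toEmbedding j σ) := by
  unfold Gfun
  have h1 : Finset.univ.map (B.orderEmbOfFin rfl).toEmbedding = B :=
    Finset.map_orderEmbOfFin_univ B rfl
  conv_lhs => rw [← h1]
  rw [Finset.sum_map]
  refine Finset.sum_congr rfl fun j _ => ?_
  exact ind_congr (evS_iff hΦ hε h𝒢 ht₀ (pairExcluded_subset_Dom hε n hZ) _ j)

/-- The conditional expectation of the rest of the world given the cluster `V` with root `j` at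
time `σ`. -/
noncomputable def restE (f₀ : PhasePoint → ℝ) (Φ : Space3 → ℝ) (ε : ℝ) {α : Type}
    (c : α → ℝ → Space3) (θ : α → ℝ) {k : ℕ} (V : Config k) (j : Fin k) (σ : ℝ) : ℝ≥0∞ :=
  gcE f₀ ε fun m w => perpInd ε V w *
    ind (RestV Φ ε c θ (Fin.append V w : Config (k + m)) (Fin.castAdd m) j σ)

/-- Mass of the first hits in `[t₀, t)` by clusters of size `k` in the class `𝒢`. -/
noncomputable def hitMass (f₀ : PhasePoint → ℝ) (Φ : Space3 → ℝ) (ε : ℝ) {α : Type}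
    (c : α → ℝ → Space3) (θ : α → ℝ) (𝒢 : Cls) (t₀ t : ℝ) (k : ℕ) : ℝ≥0∞ :=
  activity ε ^ k / (k.factorial : ℝ≥0∞) * ∫⁻ V : Config k, gcWeight f₀ ε k V *
    ∑ j : Fin k, ind (hitTime (pth Φ ε V) ε c θ 0 j ∈ Ico t₀ t ∧
      GoodV Φ ε c θ 𝒢 V j (hitTime (pth Φ ε V) ε c θ 0 j)) *
      restE f₀ Φ ε c θ V j (hitTime (pth Φ ε V) ε c θ 0 j)

theorem append_comp_castAdd {k m : ℕ} (V : Config k) (w : Config m) :
    (fun i => (Fin.append V w : Config (k + m)) (Fin.castAdd m i)) = V := by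
  funext i
  exact Fin.append_left V w i

/-- Splitting of the first-hit event. -/
theorem ind_hitD_append (ht₀ : 0 ≤ t₀) {k m : ℕ} (V : Config k) (w : Config m) (j : Fin k) :
    ind (∃ σ ∈ Ico t₀ t, HitD Φ ε c θ 𝒢 (Fin.append V w : Config (k + m)) (Fin.castAdd m) j σ) =
      ind (hitTime (pth Φ ε V) ε c θ 0 j ∈ Ico t₀ t ∧
        GoodV Φ ε c θ 𝒢 V j (hitTime (pth Φ ε V) ε c θ 0 j)) *
      ind (RestV Φ ε c θ (Fin.append V w : Config (k + m)) (Fin.castAdd m) j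
        (hitTime (pth Φ ε V) ε c θ 0 j)) := by
  rw [← ind_and]
  refine ind_congr ?_
  rw [exists_hitD_iff ht₀, append_comp_castAdd]
  unfold HitD
  rw [append_comp_castAdd]
  tauto

variable [Finite α]

theorem measurable_ind_restV (hΦ : AdmissiblePotential Φ) (hε : 0 < ε)
    (hc : ∀ a, Continuous (c a)) {k m : ℕ} (V : Config k) (j : Fin k) (σ : ℝ) :
    Measurable fun w : Config m =>
      ind (RestV Φ ε c θ (Fin.append V w : Config (k + m)) (Fin.castAdd m) j σ) :=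
  measurable_ind (measurableSet_restV hΦ hε hc (Fin.castAdd_injective k m) j
    (measurable_append_right V) measurable_const)

/-- **Mecke formula for the first hits.** -/
theorem mecke_hit {f₀ : PhasePoint → ℝ} (hf : Measurable f₀) (hΦ : AdmissiblePotential Φ)
    (hε : 0 < ε) (hc : ∀ a, Continuous (c a)) (h𝒢 : 𝒢.Inv) (h𝒢m : 𝒢.Meas) (ht₀ : 0 ≤ t₀)
    (k : ℕ) :
    gcE f₀ ε (fun n Z => ∑ B ∈ (Finset.univ : Finset (Fin n)).powersetCard k,
      Gfun Φ ε c θ 𝒢 t₀ t n B Z) = hitMass f₀ Φ ε c θ 𝒢 t₀ t k := by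
  set G : (n : ℕ) → Finset (Fin n) → Config n → ℝ≥0∞ := fun n B Z => ∑ j : Fin B.card,
      ind (∃ σ ∈ Ico t₀ t, HitD Φ ε c θ 𝒢 Z (B.orderEmbOfFin rfl).toEmbedding j σ) with hG
  have hGe : ∀ n B Z, Z ∈ PairExcluded ε n → G n B Z = Gfun Φ ε c θ 𝒢 t₀ t n B Z :=
    fun n B Z hZ => (gfun_eq hΦ hε h𝒢 ht₀ B Z hZ).symm
  have hGm : ∀ n B, Measurable (G n B) := by
    intro n B
    refine Finset.measurable_sum _ fun j _ => measurable_ind ?_
    exact measurableSet_hitD hΦ hε hc h𝒢m (B.orderEmbOfFin rfl).toEmbedding.injective j ht₀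
  have hGi : ∀ (n : ℕ) (π : Equiv.Perm (Fin n)) (B : Finset (Fin n)) (Z : Config n),
      Z ∈ PairExcluded ε n → G n (B.map π.toEmbedding) Z = G n B (fun i => Z (π i)) := by
    intro n π B Z hZ
    rw [hGe n _ Z hZ, hGe n _ _ ((pairExcluded_comp_iff π Z).2 hZ), gfun_map hΦ hε ht₀ n π B Z hZ]
  have h1 : gcE f₀ ε (fun n Z => ∑ B ∈ (Finset.univ : Finset (Fin n)).powersetCard k,
      Gfun Φ ε c θ 𝒢 t₀ t n B Z) =
      gcE f₀ ε (fun n Z => ∑ B ∈ (Finset.univ : Finset (Fin n)).powersetCard k, G n B Z) :=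
    gcE_congr f₀ ε fun n Z hZ => Finset.sum_congr rfl fun B _ => (hGe n B Z hZ).symm
  rw [h1, mecke_finset hf k hGi hGm]
  unfold hitMass
  congr 1
  refine lintegral_congr fun V => ?_
  by_cases hV : V ∈ PairExcluded ε k
  swap
  · have : gcWeight f₀ ε k V = 0 := by simp [gcWeight, Set.indicator_of_notMem hV]
    rw [this, zero_mul, zero_mul]
  congr 1
  -- identify the integrand of the rest
  have h2 : gcE f₀ ε (fun m w => perpInd ε V w *
      G (k + m) (Finset.univ.map (Fin.castAddEmb m)) (Fin.append V w)) =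
      gcE f₀ ε (fun m w => ∑ j : Fin k, ind (hitTime (pth Φ ε V) ε c θ 0 j ∈ Ico t₀ t ∧
        GoodV Φ ε c θ 𝒢 V j (hitTime (pth Φ ε V) ε c θ 0 j)) * (perpInd ε V w *
        ind (RestV Φ ε c θ (Fin.append V w : Config (k + m)) (Fin.castAdd m) j
          (hitTime (pth Φ ε V) ε c θ 0 j)))) := by
    refine gcE_congr f₀ ε fun m w hw => ?_
    unfold perpInd
    by_cases hp : Perp ε V w
    swap
    · simp [if_neg hp]
    rw [if_pos hp, one_mul]
    have hVw : (Fin.append V w : Config (k + m)) ∈ PairExcluded ε (k + m) :=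
      (append_mem_pairExcluded_iff V w).2 ⟨hV, hw, hp⟩
    rw [hGe _ _ _ hVw]
    unfold Gfun
    rw [Finset.sum_map]
    refine Finset.sum_congr rfl fun j _ => ?_
    rw [one_mul, ← ind_hitD_append ht₀ V w j]
    refine ind_congr ?_
    exact evS_iff hΦ hε h𝒢 ht₀ (pairExcluded_subset_Dom hε _ hVw) (Fin.castAddEmb m) j
  have h3 := gcE_finset_sum hf ε (Finset.univ : Finset (Fin k))
    (F := fun j m w => ind (hitTime (pth Φ ε V) ε c θ 0 j ∈ Ico t₀ t ∧
        GoodV Φ ε c θ 𝒢 V j (hitTime (pth Φ ε V) ε c θ 0 j)) * (perpInd ε V w *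
        ind (RestV Φ ε c θ (Fin.append V w : Config (k + m)) (Fin.castAdd m) j
          (hitTime (pth Φ ε V) ε c θ 0 j))))
    (fun j _ m => measurable_const.mul
      ((measurable_perpInd_right ε m V).mul (measurable_ind_restV hΦ hε hc V j _)))
  rw [h2]
  refine h3.trans ?_
  refine Finset.sum_congr rfl fun j _ => ?_
  rw [gcE_const_mul f₀ ε]
  · rfl
  · exact ne_top_of_le_ne_top ENNReal.one_ne_top (ind_le_one _)

end main

end Crest.Agent.R122.Hit167
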