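import Crest.Agent.R122.HitG1_167
import Crest.Agent.R122.CausalMeas_291

/-!
# Measurability of first-hit events (row 122, helper167)

Random worlds `x : Ω → ℝ → ι → PhasePoint` (continuous in time, measurable in `ω`), measurable
random times `σ : Ω → ℝ`.
-/

set_option autoImplicit false

open Set Filter Topology MeasureTheory
open Crest.AnalysisR.Kinetic

namespace Crest.Agent.R122.Hit167

open Causal291

section

variable {Ω : Type*} [MeasurableSpace Ω] {ι α β : Type*}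
variable {x : Ω → ℝ → ι → PhasePoint} {ε : ℝ} {c : α → ℝ → Space3} {θ : α → ℝ}

/-- Evaluation at a random time. -/
theorem measurable_eval (hx : ∀ ω j, Continuous fun s => x ω s j)
    (hm : ∀ s j, Measurable fun ω => x ω s j) {σ : Ω → ℝ} (hσ : Measurable σ) (j : ι) :
    Measurable fun ω => x ω (σ ω) j := by
  have h : Measurable (Function.uncurry fun (s : ℝ) (ω : Ω) => x ω s j) :=
    measurable_uncurry_of_continuous_of_measurable (fun ω => hx ω j) (fun s => hm s j)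
  exact h.comp (hσ.prodMk measurable_id)

theorem measurableSet_hitsAt [Finite α] (hx : ∀ ω j, Continuous fun s => x ω s j)
    (hm : ∀ s j, Measurable fun ω => x ω s j) (hc : ∀ a, Continuous (c a)) {σ : Ω → ℝ}
    (hσ : Measurable σ) (j : ι) : MeasurableSet {ω | HitsAt (x ω) ε c θ (σ ω) j} := by
  have : {ω | HitsAt (x ω) ε c θ (σ ω) j} =
      ⋃ a : α, ({ω | σ ω ≤ θ a} ∩ {ω | dist (c a (σ ω)) (x ω (σ ω) j).1 ≤ ε}) := by
    ext ω
    simp only [HitsAt, mem_iUnion, mem_inter_iff, mem_ofPred_eq]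
  rw [this]
  refine MeasurableSet.iUnion fun a => (measurableSet_le hσ measurable_const).inter ?_
  exact measurableSet_le (((hc a).measurable.comp hσ).dist (measurable_eval hx hm hσ j).fst)
    measurable_const

theorem measurableSet_aloneAt [Finite ι] (hx : ∀ ω j, Continuous fun s => x ω s j)
    (hm : ∀ s j, Measurable fun ω => x ω s j) {σ : Ω → ℝ}
    (hσ : Measurable σ) (j : ι) : MeasurableSet {ω | AloneAt (x ω) ε j (σ ω)} := by
  have : {ω | AloneAt (x ω) ε j (σ ω)} =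
      ⋂ i : ι, ⋂ _ : i ≠ j, {ω | ε < dist (x ω (σ ω) j).1 (x ω (σ ω) i).1} := by
    ext ω
    simp only [AloneAt, mem_iInter, mem_ofPred_eq]
  rw [this]
  refine MeasurableSet.iInter fun i => MeasurableSet.iInter fun _ => ?_
  exact measurableSet_lt measurable_const
    ((measurable_eval hx hm hσ j).fst.dist (measurable_eval hx hm hσ i).fst)

/-- "Somewhere in `[0, σ)`, below the random time `τ`, above (strictly) the random time `τ'`, a
continuous process is at most `ε`". -/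
theorem measurableSet_exists_window {g : Ω → ℝ → ℝ} (hgc : ∀ ω, Continuous (g ω))
    (hgm : ∀ s, Measurable fun ω => g ω s) (ε : ℝ) {σ τ τ' : Ω → ℝ} (hσ : Measurable σ)
    (hτ : Measurable τ) (hτ' : Measurable τ') :
    MeasurableSet {ω | ∃ s ∈ Ico 0 (σ ω), s ≤ τ ω ∧ τ' ω < s ∧ g ω s ≤ ε} := by
  have key : {ω | ∃ s ∈ Ico 0 (σ ω), s ≤ τ ω ∧ τ' ω < s ∧ g ω s ≤ ε} =
      ⋃ n : ℕ, {ω | ∃ s ∈ Icc (max 0 (τ' ω + 1 / ((n : ℝ) + 1)))
        (min (τ ω) (σ ω - 1 / ((n : ℝ) + 1))), g ω s ≤ ε} := by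
    ext ω
    simp only [mem_iUnion, mem_ofPred_eq]
    constructor
    · rintro ⟨s, hs, hsτ, hs', hg⟩
      obtain ⟨n, hn⟩ := exists_nat_one_div_lt (lt_min (sub_pos.2 hs') (sub_pos.2 hs.2))
      have h1 := hn.trans_le (min_le_left _ _)
      have h2 := hn.trans_le (min_le_right _ _)
      refine ⟨n, s, ⟨max_le hs.1 (by linarith), le_min hsτ (by linarith)⟩, hg⟩
    · rintro ⟨n, s, hs, hg⟩
      have hn : (0 : ℝ) < 1 / ((n : ℝ) + 1) := by positivity
      have h1 := max_le_iff.1 hs.1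
      have h2 := le_min_iff.1 hs.2
      exact ⟨s, ⟨h1.1, by linarith [h2.2]⟩, h2.1, by linarith [h1.2], hg⟩
  rw [key]
  exact MeasurableSet.iUnion fun n => measurableSet_exists_Icc
    (measurable_const.max (hτ'.add_const _)) (hτ.min (hσ.sub_const _)) hgc hgm ε

/-- The version without lower bound. -/
theorem measurableSet_exists_window' {g : Ω → ℝ → ℝ} (hgc : ∀ ω, Continuous (g ω))
    (hgm : ∀ s, Measurable fun ω => g ω s) (ε : ℝ) {σ τ : Ω → ℝ} (hσ : Measurable σ)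
    (hτ : Measurable τ) :
    MeasurableSet {ω | ∃ s ∈ Ico 0 (σ ω), s ≤ τ ω ∧ g ω s ≤ ε} := by
  have key : {ω | ∃ s ∈ Ico 0 (σ ω), s ≤ τ ω ∧ g ω s ≤ ε} =
      {ω | ∃ s ∈ Ico 0 (σ ω), s ≤ τ ω ∧ (-1 : ℝ) < s ∧ g ω s ≤ ε} := by
    ext ω
    constructor
    · rintro ⟨s, hs, h1, h2⟩
      exact ⟨s, hs, h1, by linarith [hs.1], h2⟩
    · rintro ⟨s, hs, h1, _, h2⟩
      exact ⟨s, hs, h1, h2⟩
  rw [key]
  exact measurableSet_exists_window hgc hgm ε hσ hτ (measurable_const (a := (-1 : ℝ)))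

theorem measurableSet_unhit [Finite α] [Finite ι] (hx : ∀ ω j, Continuous fun s => x ω s j)
    (hm : ∀ s j, Measurable fun ω => x ω s j) (hc : ∀ a, Continuous (c a)) {σ : Ω → ℝ}
    (hσ : Measurable σ) : MeasurableSet {ω | Unhit (x ω) ε c θ (σ ω)} := by
  have : {ω | Unhit (x ω) ε c θ (σ ω)} =
      (⋃ k : ι, ⋃ a : α, {ω | ∃ s ∈ Ico 0 (σ ω), s ≤ θ a ∧ dist (c a s) (x ω s k).1 ≤ ε})ᶜ := by
    ext ω
    simp only [Unhit, HitsAt, mem_compl_iff, mem_iUnion, mem_ofPred_eq]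
    constructor
    · rintro h ⟨k, a, s, hs, ha, hd⟩
      exact h s hs k ⟨a, ha, hd⟩
    · rintro h s hs k ⟨a, ha, hd⟩
      exact h ⟨k, a, s, hs, ha, hd⟩
  rw [this]
  refine (MeasurableSet.iUnion fun k => MeasurableSet.iUnion fun a => ?_).compl
  exact measurableSet_exists_window' (g := fun ω s => dist (c a s) (x ω s k).1)
    (fun ω => (hc a).dist (hx ω k).fst) (fun s => measurable_const.dist (hm s k).fst) ε hσ
    measurable_const

/-- Isolation of a family given by random protected times. -/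
theorem measurableSet_iso_fam [Finite ι] [Finite β] (hx : ∀ ω j, Continuous fun s => x ω s j)
    (hm : ∀ s j, Measurable fun ω => x ω s j) {f : β → ι} (hf : Function.Injective f)
    {τ : Ω → β → ℝ} (hτ : ∀ b, Measurable fun ω => τ ω b) {σ : Ω → ℝ} (hσ : Measurable σ) :
    MeasurableSet {ω | Iso (x ω) ε (fun s => f '' fam (τ ω) s) (σ ω)} := by
  classical
  have : {ω | Iso (x ω) ε (fun s => f '' fam (τ ω) s) (σ ω)} =
      (⋃ k : β, ⋃ i : ι, if h : ∃ l, f l = i then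
        {ω | ∃ s ∈ Ico 0 (σ ω), s ≤ τ ω k ∧ τ ω h.choose < s ∧
          dist (x ω s (f k)).1 (x ω s i).1 ≤ ε}
        else {ω | ∃ s ∈ Ico 0 (σ ω), s ≤ τ ω k ∧ dist (x ω s (f k)).1 (x ω s i).1 ≤ ε})ᶜ := by
    ext ω
    simp only [mem_compl_iff, mem_iUnion, mem_ofPred_eq]
    constructor
    · rintro h ⟨k, i, hi⟩
      split_ifs at hi with hl
      · obtain ⟨s, hs, h1, h2, h3⟩ := hi
        refine absurd h3 (not_le.2 (h s hs (f k) ⟨k, h1, rfl⟩ i ?_))
        rintro ⟨l, hl1, hl2⟩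
        have : hl.choose = l := hf (hl.choose_spec.trans hl2.symm)
        rw [this] at h2
        exact absurd hl1 (not_le.2 h2)
      · obtain ⟨s, hs, h1, h3⟩ := hi
        refine absurd h3 (not_le.2 (h s hs (f k) ⟨k, h1, rfl⟩ i ?_))
        rintro ⟨l, _, hl2⟩
        exact hl ⟨l, hl2⟩
    · rintro h s hs _ ⟨k, hk, rfl⟩ i hi
      by_contra hle
      push Not at hle
      refine h ⟨k, i, ?_⟩
      split_ifs with hl
      · refine ⟨s, hs, hk, ?_, hle⟩
        by_contra hle2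
        push Not at hle2
        exact hi ⟨hl.choose, hle2, hl.choose_spec⟩
      · exact ⟨s, hs, hk, hle⟩
  rw [this]
  refine (MeasurableSet.iUnion fun k => MeasurableSet.iUnion fun i => ?_).compl
  split_ifs with hl
  · exact measurableSet_exists_window (g := fun ω s => dist (x ω s (f k)).1 (x ω s i).1)
      (fun ω => (hx ω _).fst.dist (hx ω i).fst) (fun s => (hm s _).fst.dist (hm s i).fst) ε hσ
      (hτ k) (hτ _)
  · exact measurableSet_exists_window' (g := fun ω s => dist (x ω s (f k)).1 (x ω s i).1)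
      (fun ω => (hx ω _).fst.dist (hx ω i).fst) (fun s => (hm s _).fst.dist (hm s i).fst) ε hσ
      (hτ k)

/-- The exploration of `(j, σ⁻)`. -/
theorem measurableSet_preAct [Finite ι] (hx : ∀ ω j, Continuous fun s => x ω s j)
    (hm : ∀ s j, Measurable fun ω => x ω s j) (j k : ι) {σ s : Ω → ℝ} (hσ : Measurable σ)
    (hs : Measurable s) : MeasurableSet {ω | k ∈ preAct (x ω) ε j (σ ω) (s ω)} := by
  have hP : MeasurableSet {p : ℝ × ℝ × Ω | Past (Ct (x p.2.2) ε) p.1 j p.2.1 k} :=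
    measurableSet_past_joint (ε := ε)
    (d := fun ω s j k => dist (x ω s j).1 (x ω s k).1)
    (fun ω j k => (hx ω j).fst.dist (hx ω k).fst) (fun s j k => (hm s j).fst.dist (hm s k).fst) j k
  have hf : ∀ q : ℚ, Measurable (fun ω : Ω => ((q : ℝ), s ω, ω)) := fun q =>
    measurable_const.prodMk (hs.prodMk measurable_id)
  have hpre : ∀ q : ℚ, MeasurableSet {ω | Past (Ct (x ω) ε) (q : ℝ) j (s ω) k} := fun q => hf q hP
  have key : {ω | k ∈ preAct (x ω) ε j (σ ω) (s ω)} =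
      ⋃ q : ℚ, ({ω | (q : ℝ) < σ ω} ∩ {ω | Past (Ct (x ω) ε) (q : ℝ) j (s ω) k}) := by
    ext ω
    simp only [preAct, mem_iUnion, mem_inter_iff, mem_ofPred_eq]
    constructor
    · rintro ⟨r, hr, hp⟩
      obtain ⟨q, hq1, hq2⟩ := exists_rat_btwn hr.2
      exact ⟨q, hq2, Past.extend hq1.le hp⟩
    · rintro ⟨q, hq, hp⟩
      exact ⟨q, ⟨hp.le, hq⟩, hp⟩
  rw [key]
  exact MeasurableSet.iUnion fun q => (measurableSet_lt measurable_const hσ).inter (hpre q)

/-- Protected times of the backward cluster of `(j, σ⁻)`. -/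
theorem measurable_tauPre [Finite ι] (hx : ∀ ω j, Continuous fun s => x ω s j)
    (hm : ∀ s j, Measurable fun ω => x ω s j) (j k : ι) {σ : Ω → ℝ} (hσ : Measurable σ) :
    Measurable fun ω => tauPre (x ω) ε j (σ ω) k := by
  refine measurable_of_Ioi fun a => ?_
  set S : Ω → Set ℝ := fun ω => {s | s < σ ω ∧ k ∈ preAct (x ω) ε j (σ ω) s} with hS
  have hdown : ∀ ω u v, u ≤ v → v ∈ S ω → u ∈ S ω := by
    rintro ω u v huv ⟨hv, w, hw, hp⟩
    exact ⟨huv.trans_lt hv, w, ⟨huv.trans hw.1, hw.2⟩, hp.mono huv⟩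
  have hbdd : ∀ ω, BddAbove (S ω) := fun ω => ⟨σ ω, fun u hu => hu.1.le⟩
  have hmS : ∀ q : ℝ, MeasurableSet {ω | q ∈ S ω} := fun q =>
    (measurableSet_lt measurable_const hσ).inter
      (measurableSet_preAct hx hm j k hσ (measurable_const (a := q)))
  have key : (fun ω => tauPre (x ω) ε j (σ ω) k) ⁻¹' Ioi a =
      (⋃ q : ℚ, {ω | a < (q : ℝ) ∧ (q : ℝ) ∈ S ω}) ∪
        ((⋃ q : ℚ, {ω | (q : ℝ) ∈ S ω})ᶜ ∩ {_ω | a < 0}) := by
    ext ω
    simp only [mem_preimage, mem_Ioi, mem_union, mem_inter_iff, mem_compl_iff, mem_iUnion,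
      mem_ofPred_eq]
    change a < sSup (S ω) ↔ _
    by_cases hne : (S ω).Nonempty
    · constructor
      · intro h
        obtain ⟨u, hu, hau⟩ := exists_lt_of_lt_csSup hne h
        obtain ⟨q, hq1, hq2⟩ := exists_rat_btwn hau
        exact Or.inl ⟨q, hq1, hdown ω q u hq2.le hu⟩
      · rintro (⟨q, hq1, hq2⟩ | ⟨h1, _⟩)
        · exact hq1.trans_le (le_csSup (hbdd ω) hq2)
        · exfalso
          obtain ⟨u, hu⟩ := hne
          obtain ⟨q, hq1, hq2⟩ := exists_rat_btwn (show u - 1 < u by linarith)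
          exact h1 ⟨q, hdown ω q u hq2.le hu⟩
    · rw [not_nonempty_iff_eq_empty] at hne
      rw [hne, Real.sSup_empty]
      simp
  rw [key]
  refine (MeasurableSet.iUnion fun q => ?_).union
    ((MeasurableSet.iUnion fun q : ℚ => hmS q).compl.inter (MeasurableSet.const _))
  by_cases hq : a < (q : ℝ)
  · simp only [hq, true_and]
    exact hmS q
  · simp only [hq, false_and]
    exact MeasurableSet.const _

/-- The good ghost hit event at a random time (hitter alone). -/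
theorem measurableSet_goodGhostHit [Finite ι] [Finite α]
    (hx : ∀ ω j, Continuous fun s => x ω s j)
    (hm : ∀ s j, Measurable fun ω => x ω s j) (hc : ∀ a, Continuous (c a)) (j : ι) {σ : Ω → ℝ}
    (hσ : Measurable σ) : MeasurableSet {ω | GoodGhostHit (x ω) ε c θ j (σ ω)} := by
  have hd : ∀ ω (j k : ι), Continuous fun s => dist (x ω s j).1 (x ω s k).1 :=
    fun ω j k => (hx ω j).fst.dist (hx ω k).fst
  have hdm : ∀ s (j k : ι), Measurable fun ω => dist (x ω s j).1 (x ω s k).1 :=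
    fun s j k => (hm s j).fst.dist (hm s k).fst
  have key : {ω | GoodGhostHit (x ω) ε c θ j (σ ω)} =
      {ω | HitsAt (x ω) ε c θ (σ ω) j} ∩ (⋂ k : ι, {ω | k ∈ preAct (x ω) ε j (σ ω) 0}) ∩
      (⋃ q : ℚ, ⋃ k : ι, ⋃ a : α, ({ω | (q : ℝ) < σ ω} ∩
        {ω | ∃ s ∈ Icc 0 (θ a), Past (Ct (x ω) ε) (q : ℝ) j s k ∧
          dist (c a s) (x ω s k).1 ≤ ε}))ᶜ := by
    ext ω
    simp only [mem_inter_iff, mem_iInter, mem_compl_iff, mem_iUnion, mem_ofPred_eq]
    constructor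
    · intro h
      refine ⟨⟨h.hits, fun k => by rw [h.full]; exact mem_univ k⟩, ?_⟩
      rintro ⟨q, k, a, hq, s, hs, hp, hdist⟩
      have hsq : s ≤ q := hp.le
      exact h.unhit s ⟨hs.1, hsq.trans_lt hq⟩ k ⟨q, ⟨hsq, hq⟩, hp⟩ ⟨a, hs.2, hdist⟩
    · rintro ⟨⟨h1, h2⟩, h3⟩
      refine ⟨h1, eq_univ_of_forall h2, ?_⟩
      rintro s hs k ⟨r, hr, hp⟩ ⟨a, ha, hdist⟩
      obtain ⟨q, hq1, hq2⟩ := exists_rat_btwn hr.2
      exact h3 ⟨q, k, a, hq2, s, ⟨hs.1, ha⟩, Past.extend hq1.le hp, hdist⟩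
  rw [key]
  refine ((measurableSet_hitsAt hx hm hc hσ j).inter (MeasurableSet.iInter fun k =>
    measurableSet_preAct hx hm j k hσ measurable_const)).inter
    (MeasurableSet.iUnion fun q => MeasurableSet.iUnion fun k => MeasurableSet.iUnion fun a => ?_).compl
  refine (measurableSet_lt measurable_const hσ).inter ?_
  have h1 : MeasurableSet {p : ℝ × Ω | ∃ s ∈ Icc 0 (θ a), Past (Ct (x p.2) ε) p.1 j s k ∧
      dist (c a s) (x p.2 s k).1 ≤ ε} :=
    measurableSet_touch (ε := ε) (d := fun ω s j k => dist (x ω s j).1 (x ω s k).1)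
    hd hdm j k (α := fun _ => 0) (β := fun _ => θ a) measurable_const measurable_const
    (g := fun ω s => dist (c a s) (x ω s k).1) (fun ω => (hc a).dist (hx ω k).fst)
    (fun s => measurable_const.dist (hm s k).fst) ε
  have h2 : Measurable (fun ω : Ω => ((q : ℝ), ω)) := measurable_const.prodMk measurable_id
  exact h2 h1

/-- First time `≥ t₀` at which `j` hits the test family. -/
noncomputable def hitTime (z : ℝ → ι → PhasePoint) (ε : ℝ) (c : α → ℝ → Space3) (θ : α → ℝ)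
    (t₀ : ℝ) (j : ι) : ℝ := sInf {s | t₀ ≤ s ∧ HitsAt z ε c θ s j}

theorem isClosed_hitsAt [Finite α] {z : ℝ → ι → PhasePoint} (hz : ∀ k, Continuous fun s => z s k)
    (hc : ∀ a, Continuous (c a)) (k : ι) : IsClosed {s | HitsAt z ε c θ s k} := by
  have : {s | HitsAt z ε c θ s k} = ⋃ a : α, (Iic (θ a) ∩ {s | dist (c a s) (z s k).1 ≤ ε}) := by
    ext s
    simp only [HitsAt, mem_iUnion, mem_inter_iff, mem_Iic, mem_ofPred_eq]
  rw [this]
  exact isClosed_iUnion_of_finite fun a =>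
    isClosed_Iic.inter (isClosed_le ((hc a).dist (hz k).fst) continuous_const)

/-- A hit at time `σ ≥ t₀` with no hit in `[t₀, σ)` identifies `hitTime`. -/
theorem hitTime_eq {z : ℝ → ι → PhasePoint} {t₀ σ : ℝ} {j : ι} (h0 : t₀ ≤ σ)
    (h : HitsAt z ε c θ σ j) (hno : ∀ s ∈ Ico t₀ σ, ¬ HitsAt z ε c θ s j) :
    hitTime z ε c θ t₀ j = σ := by
  refine le_antisymm (csInf_le ⟨t₀, fun s hs => hs.1⟩ ⟨h0, h⟩) ?_
  refine le_csInf ⟨σ, h0, h⟩ ?_
  rintro s ⟨hs0, hs⟩
  by_contra hlt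
  push Not at hlt
  exact hno s ⟨hs0, hlt⟩ hs

theorem measurable_hitTime [Finite ι] [Finite α] (hx : ∀ ω j, Continuous fun s => x ω s j)
    (hm : ∀ s j, Measurable fun ω => x ω s j) (hc : ∀ a, Continuous (c a)) (t₀ : ℝ) (j : ι) :
    Measurable fun ω => hitTime (x ω) ε c θ t₀ j := by
  have hex : ∀ b : ℝ, MeasurableSet {ω | ∃ s ∈ Icc t₀ b, HitsAt (x ω) ε c θ s j} := by
    intro b
    have : {ω | ∃ s ∈ Icc t₀ b, HitsAt (x ω) ε c θ s j} =
        ⋃ a : α, {ω | ∃ s ∈ Icc t₀ (min b (θ a)), dist (c a s) (x ω s j).1 ≤ ε} := by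
      ext ω
      simp only [mem_iUnion, mem_ofPred_eq]
      constructor
      · rintro ⟨s, hs, a, ha, hd⟩
        exact ⟨a, s, ⟨hs.1, le_min hs.2 ha⟩, hd⟩
      · rintro ⟨a, s, hs, hd⟩
        exact ⟨s, ⟨hs.1, hs.2.trans (min_le_left _ _)⟩, a, hs.2.trans (min_le_right _ _), hd⟩
    rw [this]
    exact MeasurableSet.iUnion fun a => measurableSet_exists_Icc
      (g := fun ω s => dist (c a s) (x ω s j).1) measurable_const measurable_const
      (fun ω => (hc a).dist (hx ω j).fst) (fun s => measurable_const.dist (hm s j).fst) ε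
  refine measurable_of_Iic fun b => ?_
  have key : (fun ω => hitTime (x ω) ε c θ t₀ j) ⁻¹' Iic b =
      {ω | ∃ s ∈ Icc t₀ b, HitsAt (x ω) ε c θ s j} ∪
        ((⋃ n : ℕ, {ω | ∃ s ∈ Icc t₀ (n : ℝ), HitsAt (x ω) ε c θ s j})ᶜ ∩ {_ω | 0 ≤ b}) := by
    ext ω
    simp only [mem_preimage, mem_Iic, mem_union, mem_inter_iff, mem_compl_iff, mem_iUnion,
      mem_ofPred_eq]
    set S : Set ℝ := {s | t₀ ≤ s ∧ HitsAt (x ω) ε c θ s j} with hS
    change sInf S ≤ b ↔ _
    have hcl : IsClosed S := isClosed_Ici.inter (isClosed_hitsAt (hx ω) hc j)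
    by_cases hne : S.Nonempty
    · have hmem := hcl.csInf_mem hne ⟨t₀, fun s hs => hs.1⟩
      constructor
      · intro h
        exact Or.inl ⟨sInf S, ⟨hmem.1, h⟩, hmem.2⟩
      · rintro (⟨s, hs, h⟩ | ⟨h1, _⟩)
        · exact (csInf_le ⟨t₀, fun s hs => hs.1⟩ (show s ∈ S from ⟨hs.1, h⟩)).trans hs.2
        · exfalso
          obtain ⟨n, hn⟩ := exists_nat_ge (sInf S)
          exact h1 ⟨n, sInf S, ⟨hmem.1, hn⟩, hmem.2⟩
    · have hemp : S = ∅ := not_nonempty_iff_eq_empty.1 hne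
      rw [hemp, Real.sInf_empty]
      constructor
      · intro hb
        refine Or.inr ⟨?_, hb⟩
        rintro ⟨n, s, hs, h⟩
        exact hne ⟨s, hs.1, h⟩
      · rintro (⟨s, hs, h⟩ | ⟨_, hb⟩)
        · exact absurd ⟨s, hs.1, h⟩ hne
        · exact hb
  rw [key]
  exact (hex b).union ((MeasurableSet.iUnion fun n : ℕ => hex n).compl.inter (MeasurableSet.const _))

end

end Crest.Agent.R122.Hit167
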