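import Crest.Agent.R122.HitNull_167

/-!
# First-hit sweep over arbitrary sets of times (row 122, helper167)
-/

set_option autoImplicit false

open Set Filter Topology MeasureTheory
open scoped Classical ENNReal NNReal
open Crest.AnalysisR.Kinetic

namespace Crest.Agent.R122.Hit167

open Causal291 Flow671 Loc45 GC311 Vol365

/-! ### Comparison of measures on half-open intervals -/

/-- Grid cell. -/
def cell (h : ℝ) (k : ℤ) : Set ℝ := Ioc (k * h) ((k + 1) * h)

theorem cell_disjoint {h : ℝ} (hh : 0 < h) : Pairwise (Function.onFun Disjoint (cell h)) := by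
  intro k l hkl
  rw [Function.onFun, Set.disjoint_left]
  rintro s ⟨h1, h2⟩ ⟨h3, h4⟩
  have h5 : (k : ℝ) < l + 1 := by
    have : (k : ℝ) * h < (l + 1) * h := h1.trans_le h4
    exact lt_of_mul_lt_mul_right this hh.le
  have h6 : (l : ℝ) < k + 1 := by
    have : (l : ℝ) * h < (k + 1) * h := h3.trans_le h2
    exact lt_of_mul_lt_mul_right this hh.le
  have h7 : k < l + 1 := by exact_mod_cast h5
  have h8 : l < k + 1 := by exact_mod_cast h6
  exact hkl (by omega)

theorem exists_mem_cell {h : ℝ} (hh : 0 < h) (s : ℝ) : ∃ k : ℤ, s ∈ cell h k := by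
  refine ⟨⌈s / h⌉ - 1, ?_, ?_⟩
  · push_cast
    have : (⌈s / h⌉ : ℝ) - 1 < s / h := by linarith [Int.ceil_lt_add_one (s / h)]
    rw [lt_div_iff₀ hh] at this
    exact this
  · push_cast
    have : s / h ≤ ⌈s / h⌉ := Int.le_ceil _
    rw [div_le_iff₀ hh] at this
    linarith

/-- Measures on `ℝ` compare on all Borel sets if they compare on short half-open intervals. -/
theorem measure_le_of_Ioc {ν ρ : Measure ℝ} [IsFiniteMeasure ν] [IsFiniteMeasure ρ] {h0 : ℝ}
    (hh0 : 0 < h0) (h : ∀ p q : ℝ, p < q → q - p ≤ h0 → ν (Ioc p q) ≤ ρ (Ioc p q)) {A : Set ℝ}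
    (hA : MeasurableSet A) : ν A ≤ ρ A := by
  rw [hA.measure_eq_iSup_isCompact_of_ne_top (μ := ν) (measure_ne_top _ _)]
  refine iSup_le fun K => iSup_le fun hKA => iSup_le fun hK => ?_
  refine le_trans ?_ (measure_mono hKA)
  refine ENNReal.le_of_forall_pos_le_add fun δ hδ _ => ?_
  obtain ⟨O, hKO, hO, hOδ⟩ := Set.exists_isOpen_lt_add (μ := ρ) K (measure_ne_top _ _)
    (ENNReal.coe_pos.2 hδ).ne'
  obtain ⟨r, hr, hrO⟩ := hK.exists_thickening_subset_open hO hKO
  set g : ℝ := min (r / 2) h0 with hg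
  have hg0 : 0 < g := lt_min (half_pos hr) hh0
  have hgr : g ≤ r / 2 := min_le_left _ _
  set I : Set ℤ := {k | (cell g k ∩ K).Nonempty} with hI
  have hsub : K ⊆ ⋃ k ∈ I, cell g k := by
    intro s hs
    obtain ⟨k, hk⟩ := exists_mem_cell hg0 s
    exact mem_biUnion (show k ∈ I from ⟨s, hk, hs⟩) hk
  have hsub2 : (⋃ k ∈ I, cell g k) ⊆ O := by
    intro s hs
    obtain ⟨k, ⟨s', hs', hsK⟩, hsk⟩ := mem_iUnion₂.1 hs
    refine hrO (Metric.mem_thickening_iff.2 ⟨s', hsK, ?_⟩)
    rw [Real.dist_eq, abs_lt]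
    have e : ((k : ℝ) + 1) * g = k * g + g := by ring
    constructor <;> linarith [hs'.1, hs'.2, hsk.1, hsk.2, e]
  have hdis : I.PairwiseDisjoint (cell g) := fun k _ l _ hkl => cell_disjoint hg0 hkl
  calc ν K ≤ ν (⋃ k ∈ I, cell g k) := measure_mono hsub
    _ ≤ ∑' k : I, ν (cell g k) := measure_biUnion_le _ (to_countable I) _
    _ ≤ ∑' k : I, ρ (cell g k) := ENNReal.tsum_le_tsum fun k => by
        have e : ((k : ℤ) + 1 : ℝ) * g = k * g + g := by ring
        refine h _ _ (by rw [e]; linarith) (by rw [e]; linarith [min_le_right (r / 2) h0])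
    _ = ρ (⋃ k ∈ I, cell g k) := (measure_biUnion (to_countable I) hdis
        fun k _ => measurableSet_Ioc).symm
    _ ≤ ρ O := measure_mono hsub2
    _ ≤ ρ K + δ := hOδ.le

/-! ### First entrance of a ball around a moving point -/

/-- `x` enters the `r`-neighbourhood of the moving point `η` for the first time at time `σ`. -/
def FirstIn (η : ℝ → Space3) (r σ : ℝ) (x : Space3) : Prop :=
  dist x (η σ) ≤ r ∧ ∀ s ∈ Ico 0 σ, r < dist x (η s)

theorem FirstIn.unique {η : ℝ → Space3} {r σ σ' : ℝ} {x : Space3} (hσ : 0 ≤ σ) (hσ' : 0 ≤ σ')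
    (h : FirstIn η r σ x) (h' : FirstIn η r σ' x) : σ = σ' := by
  by_contra hne
  rcases lt_or_gt_of_ne hne with hlt | hlt
  · exact absurd h.1 (not_le.2 (h'.2 σ ⟨hσ, hlt⟩))
  · exact absurd h'.1 (not_le.2 (h.2 σ' ⟨hσ', hlt⟩))

/-- Auxiliary one-particle world seen from `x`. -/
def oneW (η : ℝ → Space3) (x : Space3) : ℝ → Unit → PhasePoint := fun s _ => (η s - x, 0)

/-- Entrance time. -/
noncomputable def inTime (η : ℝ → Space3) (r t : ℝ) (x : Space3) : ℝ :=
  hitTime (oneW η x) r (fun (_ : Unit) (_ : ℝ) => (0 : Space3)) (fun _ => t) 0 ()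

theorem hitsAt_oneW {η : ℝ → Space3} {r t s : ℝ} {x : Space3} :
    HitsAt (oneW η x) r (fun (_ : Unit) (_ : ℝ) => (0 : Space3)) (fun _ => t) s () ↔
      s ≤ t ∧ dist x (η s) ≤ r := by
  unfold HitsAt oneW
  simp only [exists_const, dist_eq_norm, zero_sub, neg_sub]

theorem FirstIn.inTime_eq {η : ℝ → Space3} {r t σ : ℝ} {x : Space3} (hσ : 0 ≤ σ) (hσt : σ ≤ t)
    (h : FirstIn η r σ x) : inTime η r t x = σ :=
  hitTime_eq hσ (hitsAt_oneW.2 ⟨hσt, h.1⟩) fun s hs hh =>
    absurd (hitsAt_oneW.1 hh).2 (not_le.2 (h.2 s hs))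

theorem measurable_inTime {η : ℝ → Space3} (hη : Continuous η) (r t : ℝ) :
    Measurable (inTime η r t) :=
  measurable_hitTime (x := oneW η) (fun x _ => ((hη.sub continuous_const).prodMk continuous_const))
    (fun s _ => (measurable_const.sub measurable_id).prodMk measurable_const)
    (fun _ => continuous_const) 0 ()

/-- Set of points entering at a time in `A`. -/
def inSet (η : ℝ → Space3) (r : ℝ) (A : Set ℝ) : Set Space3 := {x | ∃ σ ∈ A, FirstIn η r σ x}

theorem inSet_eq {η : ℝ → Space3} {r t : ℝ} {A : Set ℝ} (hA : A ⊆ Icc 0 t) :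
    inSet η r A = inTime η r t ⁻¹' A ∩ {x | dist x (η (inTime η r t x)) ≤ r ∧
      inTime η r t x ∈ Icc 0 t} := by
  ext x
  constructor
  · rintro ⟨σ, hσ, h⟩
    have h1 := h.inTime_eq (hA hσ).1 (hA hσ).2
    refine ⟨?_, ?_⟩
    · rw [mem_preimage, h1]; exact hσ
    · rw [mem_ofPred_eq, h1]; exact ⟨h.1, hA hσ⟩
  · rintro ⟨h1, h2, h3⟩
    refine ⟨inTime η r t x, h1, h2, ?_⟩
    intro s hs
    by_contra hle
    push Not at hle
    have : inTime η r t x ≤ s := by
      refine csInf_le ⟨0, fun u hu => hu.1⟩ ⟨hs.1, hitsAt_oneW.2 ⟨?_, hle⟩⟩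
      exact hs.2.le.trans h3.2
    exact absurd this (not_le.2 hs.2)

theorem measurableSet_inSet {η : ℝ → Space3} (hη : Continuous η) {r t : ℝ} {A : Set ℝ}
    (hA : A ⊆ Icc 0 t) (hAm : MeasurableSet A) : MeasurableSet (inSet η r A) := by
  rw [inSet_eq hA]
  have hm := measurable_inTime hη r t
  refine (hm hAm).inter ?_
  exact (measurableSet_le (measurable_id.dist (hη.measurable.comp hm)) measurable_const).inter
    (hm measurableSet_Icc)

/-- The volume entered in a short time interval. -/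
theorem volume_inSet_short {η : ℝ → Space3} {r p q : ℝ} (hr : 0 < r) (hp : 0 ≤ p) {D : ℝ}
    (hD0 : 0 ≤ D) (hDr : D ≤ r) (hd : ∀ s ∈ Ioc p q, dist (η p) (η s) ≤ D) :
    volume (inSet η r (Ioc p q)) ≤ ENNReal.ofReal (7 * r ^ 2 * D) * kap := by
  have hsub : inSet η r (Ioc p q) ⊆
      Metric.closedBall (η p) (r + D) \ Metric.closedBall (η p) r := by
    rintro x ⟨σ, hσ, h1, h2⟩
    refine ⟨?_, ?_⟩
    · rw [Metric.mem_closedBall]
      have := dist_triangle x (η σ) (η p)
      have h3 := hd σ hσ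
      rw [dist_comm (η p)] at h3
      linarith
    · rw [Metric.mem_closedBall, not_le]
      exact h2 p ⟨hp, hσ.1⟩
  refine (measure_mono hsub).trans ?_
  rw [measure_sdiff (Metric.closedBall_subset_closedBall (by linarith))
    Metric.isClosed_closedBall.measurableSet.nullMeasurableSet measure_closedBall_lt_top.ne,
    Vol365.vol_closedBall _ (by linarith), Vol365.vol_closedBall _ hr.le,
    ← ENNReal.sub_mul (fun _ _ => kap_ne_top), ← ENNReal.ofReal_pow (by linarith),
    ← ENNReal.ofReal_pow hr.le, ← ENNReal.ofReal_sub _ (by positivity)]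
  refine mul_le_mul_left (ENNReal.ofReal_le_ofReal ?_) _
  nlinarith [mul_nonneg hD0 (mul_nonneg hr.le (sub_nonneg.2 hDr)), mul_nonneg hD0
    (mul_nonneg hD0 (sub_nonneg.2 hDr)), mul_nonneg hD0 (mul_nonneg (sub_nonneg.2 hDr)
    (sub_nonneg.2 hDr))]

/-- **First-hit sweep.** -/
theorem volume_inSet_le {η : ℝ → Space3} (hη : Continuous η) {φ : ℝ → ℝ≥0∞} (hφm : Measurable φ)
    {t : ℝ} (hφ : ∫⁻ s in Ioc 0 t, φ s ≠ ∞)
    (hd : ∀ s s', 0 ≤ s → s ≤ s' → s' ≤ t →
      ENNReal.ofReal (dist (η s) (η s')) ≤ ∫⁻ u in Ioc s s', φ u)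
    {r : ℝ} (hr : 0 < r) {A : Set ℝ} (hA : MeasurableSet A) (hAt : A ⊆ Ioc 0 t) :
    volume (inSet η r A) ≤ ENNReal.ofReal (7 * r ^ 2) * kap * ∫⁻ s in A, φ s := by
  have hAt' : A ⊆ Icc 0 t := hAt.trans Ioc_subset_Icc_self
  set H : Set Space3 := inSet η r (Ioc 0 t) with hH
  have hHm : MeasurableSet H := measurableSet_inSet hη Ioc_subset_Icc_self measurableSet_Ioc
  have hm := measurable_inTime hη r t
  set C : ℝ≥0∞ := ENNReal.ofReal (7 * r ^ 2) * kap with hC
  have hCt : C ≠ ∞ := ENNReal.mul_ne_top ENNReal.ofReal_ne_top kap_ne_top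
  -- boundedness
  have hHfin : volume H ≠ ∞ := by
    have hcomp : IsCompact (η '' Icc 0 t) := isCompact_Icc.image hη
    obtain ⟨R, hR⟩ := hcomp.isBounded.subset_closedBall 0
    refine ne_top_of_le_ne_top (measure_closedBall_lt_top (x := (0 : Space3)) (r := R + r)).ne
      (measure_mono ?_)
    rintro x ⟨σ, hσ, h1, _⟩
    have h2 := hR ⟨σ, ⟨hσ.1.le, hσ.2⟩, rfl⟩
    rw [Metric.mem_closedBall] at h2 ⊢
    linarith [dist_triangle x (η σ) 0]
  set ν : Measure ℝ := (volume.restrict H).map (inTime η r t) with hν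
  haveI : IsFiniteMeasure (volume.restrict H) := ⟨by
    rw [Measure.restrict_apply_univ]; exact lt_top_iff_ne_top.2 hHfin⟩
  haveI : IsFiniteMeasure ν := Measure.isFiniteMeasure_map _ _
  set ρ : Measure ℝ := (volume.restrict (Ioc 0 t)).withDensity (fun s => C * φ s) with hρ
  haveI : IsFiniteMeasure ρ := isFiniteMeasure_withDensity (by
    rw [lintegral_const_mul _ hφm]
    exact ENNReal.mul_ne_top hCt hφ)
  have hνB : ∀ B : Set ℝ, MeasurableSet B → ν B = volume (inSet η r (B ∩ Ioc 0 t)) := by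
    intro B hB
    rw [hν, Measure.map_apply hm hB, Measure.restrict_apply (hm hB)]
    congr 1
    ext x
    constructor
    · rintro ⟨h1, σ, hσ, h2⟩
      refine ⟨σ, ⟨?_, hσ⟩, h2⟩
      rw [mem_preimage, h2.inTime_eq hσ.1.le hσ.2] at h1
      exact h1
    · rintro ⟨σ, ⟨h1, hσ⟩, h2⟩
      refine ⟨?_, σ, hσ, h2⟩
      rw [mem_preimage, h2.inTime_eq hσ.1.le hσ.2]
      exact h1
  have hρB : ∀ B : Set ℝ, MeasurableSet B → ρ B = C * ∫⁻ s in B ∩ Ioc 0 t, φ s := by
    intro B hB
    rw [hρ, withDensity_apply _ hB, Measure.restrict_restrict hB, lintegral_const_mul _ hφm]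
  -- absolute continuity
  obtain ⟨δ, hδ, hδφ⟩ := exists_pos_setLIntegral_lt_of_measure_lt (μ := volume.restrict (Ioc 0 t))
    hφ (ε := ENNReal.ofReal r) (ENNReal.ofReal_pos.2 hr).ne'
  have hδ1 : 0 < min δ 1 := lt_min hδ one_pos
  have hδ1t : min δ 1 ≠ ∞ := ne_top_of_le_ne_top ENNReal.one_ne_top (min_le_right _ _)
  set h0 : ℝ := (min δ 1).toReal / 2 with hh0
  have hh0p : 0 < h0 := half_pos (ENNReal.toReal_pos hδ1.ne' hδ1t)
  have key : ν A ≤ ρ A := by
    refine measure_le_of_Ioc hh0p (fun p q hpq hqp => ?_) hA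
    rw [hνB _ measurableSet_Ioc, hρB _ measurableSet_Ioc]
    have hint : Ioc p q ∩ Ioc 0 t = Ioc (max p 0) (min q t) := Ioc_inter_Ioc
    rw [hint]
    set p' := max p 0 with hp'
    set q' := min q t with hq'
    rcases le_or_gt q' p' with hle | hlt
    · rw [Ioc_eq_empty (not_lt.2 hle)]
      have : inSet η r ∅ = ∅ := by
        ext x; simp [inSet]
      rw [this]; simp
    have hp0 : 0 ≤ p' := le_max_right _ _
    have hqt : q' ≤ t := min_le_right _ _
    have hlen : q' - p' ≤ h0 := by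
      have h1 := le_max_left p 0
      have h2 := min_le_left q t
      linarith
    have hI : ∫⁻ u in Ioc p' q', φ u ≤ ENNReal.ofReal r := by
      have h1 := hδφ (Ioc p' q') (by
        refine (Measure.restrict_apply_le _ _).trans_lt ?_
        rw [Real.volume_Ioc]
        refine lt_of_lt_of_le ?_ (min_le_left δ 1)
        rw [ENNReal.ofReal_lt_iff_lt_toReal (by linarith) hδ1t]
        linarith)
      rw [Measure.restrict_restrict measurableSet_Ioc] at h1
      have h2 : Ioc p' q' ∩ Ioc 0 t = Ioc p' q' :=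
        inter_eq_left.2 (Ioc_subset_Ioc hp0 hqt)
      rw [h2] at h1
      exact h1.le
    have hIt : ∫⁻ u in Ioc p' q', φ u ≠ ∞ := ne_top_of_le_ne_top ENNReal.ofReal_ne_top hI
    set D : ℝ := (∫⁻ u in Ioc p' q', φ u).toReal with hD
    have hDr : D ≤ r := by
      have := ENNReal.toReal_mono ENNReal.ofReal_ne_top hI
      rwa [ENNReal.toReal_ofReal hr.le] at this
    have hds : ∀ s ∈ Ioc p' q', dist (η p') (η s) ≤ D := by
      intro s hs
      have h1 := (hd p' s hp0 hs.1.le (hs.2.trans hqt)).trans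
        (lintegral_mono_set (Ioc_subset_Ioc_right hs.2))
      have h2 := ENNReal.toReal_mono hIt h1
      rwa [ENNReal.toReal_ofReal dist_nonneg] at h2
    refine (volume_inSet_short hr hp0 ENNReal.toReal_nonneg hDr hds).trans (le_of_eq ?_)
    rw [ENNReal.ofReal_mul (by positivity), ENNReal.ofReal_toReal hIt, hC]
    ring
  rw [hνB A hA, hρB A hA, inter_eq_left.2 hAt] at key
  exact key

end Crest.Agent.R122.Hit167
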