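import Crest.Agent.R122.Reborn_45

/-!
# The one-contact lemma in entrance coordinates (row 122, block A7, helper45)

`GoodEnc.one_std`: (1.6) with the lines `lineL'`, `lineC'`, `lineC` of `OCout_796` (all born at the exit
time), `GoodEnc.hitE`: `Hit`, outgoing lines and undeflected line in one statement.

* `UnIso` : the UNDEFLECTED partner is isolated during the encounter.
* `GoodEnc.path_c` : the path of `c` in `Z` during the encounter is the free line.
* `GoodEnc.reb_eq` : `reb cl s' = (lineC, Z.m c)`.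
-/

set_option autoImplicit false
set_option linter.unusedSectionVars false

open MeasureTheory Set Filter Topology
open scoped ENNReal
open Crest.AnalysisR.Kinetic
open Crest.Agent.R122.Flow671 Crest.Agent.R122.Loc45 Crest.Agent.R122.Causal291
open Crest.Agent.R122.Inf879 Crest.Agent.R122.EDefs602 Crest.Agent.R122.Tree674
open Crest.Agent.R122.Scat818 Crest.Agent.R122.OCout796 Crest.Agent.R122.MWAlg255

namespace Crest.Agent.R122.Ins45

noncomputable section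

open scoped Classical

variable {ι : Type} [Fintype ι] {Φ : Space3 → ℝ} {ε : ℝ} {Z : MW ι} {l : ML} {c : ι}
  {s s' : ℝ} {y : Space3} {q : CD} {K : ℕ}

/-- The free line through `(s, (y, u))` keeps distance `> ε` to the particles of `rest Z c` during
`[s, s']`. -/
def UnIso (Φ : Space3 → ℝ) (ε : ℝ) (Z : MW ι) (c : ι) (s s' : ℝ) (z : PhasePoint) : Prop :=
  ∀ t (k : Oth c), s ≤ t → t ≤ s' → Z.b k ≤ t →
    ε < dist (lineAt s z t).1 ((rest Z c).path Φ ε t k).1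

/-- The path of an isolated line `c` in `Z`. -/
theorem UnIso.path_c {z : PhasePoint} (h : UnIso Φ ε Z c s s' z) (hΦ : AdmissiblePotential Φ)
    (hε : 0 < ε) (hZ : Z.Ok Φ ε) (hR : (rest Z c).Ok Φ ε) (hs : 0 ≤ s) (hbc : Z.b c ≤ s)
    (hfree : ∀ t k, t < s → Z.C Φ ε t c k → k = c) (hz : Z.path Φ ε s c = z) {t : ℝ}
    (ht : t ∈ Icc s s') :
    Z.path Φ ε t c = lineAt s z t ∧ ∀ k : Oth c, Z.path Φ ε t k = (rest Z c).path Φ ε t k := by
  have hline : BWorld Φ ε (fun _ : Unit => Z.b c) s (fun t _ => lineAt s z t) :=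
    (bworld_line hΦ s z s).congr_births fun _ r hr => ⟨fun _ => hbc.trans hr, fun _ => hr⟩
  have key := BWorld.agree_sum hΦ hε (b := Z.b) (t₀ := s)
    (X := fun t (_ : Unit) => lineAt s z t) (Y := (rest Z c).path Φ ε)
    (W := Z.path Φ ε) (e := fun _ : Unit => c) (f := (Subtype.val : Oth c → ι))
    (fun _ _ _ => rfl) Subtype.val_injective
    (fun x => by
      by_cases hx : x = c
      · exact Or.inl ⟨(), hx.symm⟩
      · exact Or.inr ⟨⟨x, hx⟩, rfl⟩)
    (hZ.bw.mono hs) hline (hR.bw.mono hs)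
    (fun _ => by rw [hz, lineAt_self])
    (fun k => (rest_path hΦ hε hZ hR hfree ⟨hs, le_rfl⟩ k).symm)
    (s := s') (fun r hr _ k _ hk => h r k hr.1 hr.2.le hk) t ht
  exact ⟨key.1 (), key.2⟩

theorem UnIso.free {z : PhasePoint} (h : UnIso Φ ε Z c s s' z) (hΦ : AdmissiblePotential Φ)
    (hε : 0 < ε) (hZ : Z.Ok Φ ε) (hR : (rest Z c).Ok Φ ε) (hs : 0 ≤ s) (hbc : Z.b c ≤ s)
    (hfree : ∀ t k, t < s → Z.C Φ ε t c k → k = c) (hz : Z.path Φ ε s c = z) (t : ℝ) (k : ι)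
    (ht : t ≤ s') (hc : Z.C Φ ε t c k) : k = c := by
  rcases lt_or_ge t s with h1 | h1
  · exact hfree t k h1 hc
  · by_contra hk
    have h2 := h.path_c hΦ hε hZ hR hs hbc hfree hz (t := t) ⟨h1, ht⟩
    have h3 : dist (Z.path Φ ε t c).1 (Z.path Φ ε t k).1 ≤ ε := hc.2.2.2
    rw [h2.1, h2.2 ⟨k, hk⟩] at h3
    exact absurd (h t ⟨k, hk⟩ h1 ht (MW.C_born' hc)) (not_lt.2 h3)

/-- A line without contact is on its free extension. -/
theorem path_line_of_free (hΦ : AdmissiblePotential Φ) (hε : 0 < ε) (hZ : Z.Ok Φ ε) {cl : ML}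
    (hcl : IsLine Z c cl) (hfree : ∀ t k, t < s → Z.C Φ ε t c k → k = c) {t : ℝ}
    (ht : t ∈ Icc 0 s) : Z.path Φ ε t c = lineAt cl.1.1 cl.1.2 t := by
  have h1 := hZ.bw.free hΦ hε c (a := 0) (T := s) le_rfl
    (fun r hr hb x hx hbx => hZ.bw.le_dist_of_not_ctB hr.1 hr.2 hb hbx fun r' hr' hc =>
      hx (hfree r' x hr'.2 hc)) t ht
  rw [h1, MW.path_zero hΦ hε, hcl.z, back_eq_lineAt]
  exact lineAt_lineAt cl.1.1 0 t cl.1.2

namespace GoodEnc

variable (h : GoodEnc Φ ε Z l c s y q) (hΦ : AdmissiblePotential Φ) (hε : 0 < ε)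
  (hZ : Z.Ok Φ ε) (hZl : (Z.ins l).Ok Φ ε) (hR : (rest Z c).Ok Φ ε)

include h hΦ hε hZ in
/-- The undeflected line, reborn at the exit time. -/
theorem reb_eq {cl : ML} (hcl : IsLine Z c cl) :
    reb cl (s + outT Φ ε q) = (lineC Φ ε s y q, Z.m c) := by
  have h1 := path_line_of_free (s := s) hΦ hε hZ hcl (fun t k ht => h.free t k ht.le)
    ⟨h.nonneg_s, le_rfl⟩
  rw [h.state_c] at h1
  unfold reb
  rw [hcl.m]
  refine Prod.ext (Prod.ext rfl ?_) rfl
  change lineAt cl.1.1 cl.1.2 (s + outT Φ ε q) = (lineC Φ ε s y q).2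
  rw [← lineAt_lineAt cl.1.1 s (s + outT Φ ε q) cl.1.2, ← h1]
  unfold lineAt lineC
  rw [add_sub_cancel_left]

include h hΦ hε hZ hR in
/-- The touch time of `c` in `Z₀` is the touch time of the line born at the exit time. -/
theorem thetaL_lineC {cl : ML} (hcl : IsLine Z c cl)
    (hu : UnIso Φ ε Z c s (s + outT Φ ε q) (y, q.2.1)) (T : ℝ) :
    (rest Z c).thetaL Φ ε K T (lineC Φ ε s y q, Z.m c) = (rest Z c).thetaL Φ ε K T cl ∧
      ((rest Z c).ins (lineC Φ ε s y q, Z.m c)).Ok Φ ε := by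
  rw [← h.reb_eq hΦ hε hZ hcl]
  refine thetaL_reb_rest hΦ hε hZ hcl h.born ?_ ?_ T
  · have := h.pass.outT_pos hε
    linarith [h.bc]
  · exact hu.free hΦ hε hZ hR h.nonneg_s h.bc (fun t k ht => h.free t k ht.le) h.state_c

include h hΦ hε hZ hZl hR in
/-- **(1.6) in entrance coordinates.** -/
theorem one_std (hRl : ((rest Z c).ins (lineL' Φ ε s y q, l.2 + Z.m c)).Ok Φ ε)
    (hK : l.2 + Z.m c ≤ K) {cl : ML} (hcl : IsLine Z c cl) (T : ℝ) :
    min ((rest Z c).thetaL Φ ε K T cl)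
      (min ((rest Z c).thetaL Φ ε K T (lineL' Φ ε s y q, l.2 + Z.m c))
        (((rest Z c).ins (lineL' Φ ε s y q, l.2 + Z.m c)).thetaL Φ ε K T
          (lineC' Φ ε s y q, l.2 + Z.m c))) ≤ Z.thetaL Φ ε K T l := by
  have h1 := h.outL_eq hΦ hε hZ hZl hR
  have h2 := h.outC_eq hΦ hε hZ hZl hR
  have h3 := (h.hit hΦ hε hZ hZl hR).one hΦ hε hZ hZl hR (by rw [h1]; exact hRl) hK hcl T
  rw [h1, h2] at h3
  exact h3

include h hΦ hε hZ hZl hR in
/-- **(1.6) in entrance coordinates**, undeflected line born at the exit time. -/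
theorem one_std' (hRl : ((rest Z c).ins (lineL' Φ ε s y q, l.2 + Z.m c)).Ok Φ ε)
    (hK : l.2 + Z.m c ≤ K) {cl : ML} (hcl : IsLine Z c cl)
    (hu : UnIso Φ ε Z c s (s + outT Φ ε q) (y, q.2.1)) (T : ℝ) :
    min ((rest Z c).thetaL Φ ε K T (lineC Φ ε s y q, Z.m c))
      (min ((rest Z c).thetaL Φ ε K T (lineL' Φ ε s y q, l.2 + Z.m c))
        (((rest Z c).ins (lineL' Φ ε s y q, l.2 + Z.m c)).thetaL Φ ε K T
          (lineC' Φ ε s y q, l.2 + Z.m c))) ≤ Z.thetaL Φ ε K T l := by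
  rw [(h.thetaL_lineC hΦ hε hZ hR hcl hu T).1]
  exact h.one_std hΦ hε hZ hZl hR hRl hK hcl T

/-! ### No touch before the contact, direct touch, size crossing -/

include h hΦ hε hZ hZl in
/-- No touch before the contact. -/
theorem le_thetaL (hl : l.2 ≤ K) {T : ℝ} (hsT : s ≤ T + 1) : s ≤ Z.thetaL Φ ε K T l := by
  by_contra hlt
  rw [not_le] at hlt
  have hex : ∃ r ∈ Icc 0 T, Z.Touched Φ ε K (MW.line l) r := by
    by_contra hno
    push Not at hno
    have h1 : Z.thetaL Φ ε K T l = T + 1 := MW.theta_eq_of_not_touched hno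
    linarith
  have h1 : Z.thetaL Φ ε K T l = sInf {r | r ∈ Icc 0 T ∧ Z.Touched Φ ε K (MW.line l) r} := by
    unfold MW.thetaL MW.theta CausalGen291.theta
    exact if_pos hex
  rw [h1] at hlt
  obtain ⟨r, hr, hrs⟩ := exists_lt_of_csInf_lt (by obtain ⟨r, hr, hr'⟩ := hex; exact ⟨r, hr, hr'⟩) hlt
  refine MW.not_touched_of_no_contact (s := r) (A := MW.line l) (Z := Z) hΦ hε ?_ ?_ hr.2
  · intro r' hr' x k hc
    cases x
    exact h.first.not_C hΦ hε hZ hZl h.nonneg (hr'.2.trans_lt hrs) k hc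
  · simpa [MW.line, MW.lines] using hl

include h hΦ hε hZ hZl hR in
/-- Contact with an infected particle: touch at the contact time. -/
theorem thetaL_direct (hl : l.2 ≤ K) {T : ℝ} (hsT : s ≤ T) (hc : Z.Inf Φ ε K s c) :
    Z.thetaL Φ ε K T l = s := by
  refine le_antisymm ?_ (h.le_thetaL hΦ hε hZ hZl hl (by linarith))
  exact MW.theta_le_of_touched ⟨h.nonneg_s, hsT⟩
    (MW.touched_of_contact h.nonneg_s (h.hit hΦ hε hZ hZl hR).hit (Or.inl hc))

include h hΦ hε hZ hZl hR in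
/-- Size crossing at the contact: touch at the contact time. -/
theorem thetaL_crossing (hl : l.2 ≤ K) {T : ℝ} (hsT : s ≤ T) (hc : K < l.2 + Z.m c) :
    Z.thetaL Φ ε K T l = s := by
  refine le_antisymm ?_ (h.le_thetaL hΦ hε hZ hZl hl (by linarith))
  have hhit := (h.hit hΦ hε hZ hZl hR).hit
  refine MW.theta_le_of_touched ⟨h.nonneg_s, hsT⟩ (MW.touched_of_inf_new (x := ()) ?_)
  change K < msize ((Z.ins l).C Φ ε) (Z.ins l).m s (Sum.inr ())
  refine hc.trans_le ?_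
  unfold msize
  rw [Fintype.sum_sum_type, add_comm l.2]
  refine add_le_add ?_ ?_
  · have h1 : (Sum.inl c : ι ⊕ Unit) ∈ BC ((Z.ins l).C Φ ε) s (Sum.inr ()) :=
      Past.step (.root le_rfl) hhit h.nonneg_s
    have h2 : Z.m c = (if (Sum.inl c : ι ⊕ Unit) ∈ BC ((Z.ins l).C Φ ε) s (Sum.inr ()) then
        (Z.ins l).m (Sum.inl c) else 0) := by
      rw [if_pos h1]; rfl
    rw [h2]
    exact Finset.single_le_sum (f := fun k : ι =>
      (if (Sum.inl k : ι ⊕ Unit) ∈ BC ((Z.ins l).C Φ ε) s (Sum.inr ()) then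
        (Z.ins l).m (Sum.inl k) else 0)) (fun _ _ => Nat.zero_le _) (Finset.mem_univ c)
  · have h1 : (Sum.inr () : ι ⊕ Unit) ∈ BC ((Z.ins l).C Φ ε) s (Sum.inr ()) :=
      root_mem_BC h.nonneg_s
    rw [Fintype.sum_unique]
    have h2 : (default : Unit) = () := rfl
    rw [h2, if_pos h1]
    exact le_rfl

end GoodEnc

/-! ### First contact of the free line -/

/-- Either the free line keeps distance `> ε` up to `T` or there is a first time at which it is within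
`ε` of somebody. -/
theorem exists_first_contact (hZ : Z.Ok Φ ε) (hl : 0 ≤ l.1.1) (T : ℝ) :
    (∀ t k, l.1.1 ≤ t → t ≤ T → Z.b k ≤ t →
      ε < dist (lineAt l.1.1 l.1.2 t).1 (Z.path Φ ε t k).1) ∨
    ∃ s c, l.1.1 ≤ s ∧ s ≤ T ∧ Z.b c ≤ s ∧ FreeFar Φ ε Z l s ∧
      dist (lineAt l.1.1 l.1.2 s).1 (Z.path Φ ε s c).1 ≤ ε := by
  set S : Set ℝ := {t | t ∈ Icc l.1.1 T ∧ ∃ k, Z.b k ≤ t ∧
    dist (lineAt l.1.1 l.1.2 t).1 (Z.path Φ ε t k).1 ≤ ε} with hS
  by_cases hne : S.Nonempty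
  · right
    have hclosed : IsClosed S := by
      have h1 : S = ⋃ k : ι, {t | t ∈ Icc (max l.1.1 (Z.b k)) T ∧
          dist (lineAt l.1.1 l.1.2 t).1 (Z.path Φ ε t k).1 ≤ ε} := by
        ext t
        simp only [hS, mem_ofPred_eq, mem_iUnion, mem_Icc, max_le_iff]
        constructor
        · rintro ⟨⟨h1, h2⟩, k, h3, h4⟩
          exact ⟨k, ⟨⟨h1, h3⟩, h2⟩, h4⟩
        · rintro ⟨k, ⟨⟨h1, h3⟩, h2⟩, h4⟩
          exact ⟨⟨h1, h2⟩, k, h3, h4⟩
      rw [h1]
      refine isClosed_iUnion_of_finite fun k => ?_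
      have h2 : {t | t ∈ Icc (max l.1.1 (Z.b k)) T ∧
          dist (lineAt l.1.1 l.1.2 t).1 (Z.path Φ ε t k).1 ≤ ε} =
          Icc (max l.1.1 (Z.b k)) T ∩
            (fun t => dist (lineAt l.1.1 l.1.2 t).1 (Z.path Φ ε t k).1) ⁻¹' Iic ε := rfl
      rw [h2]
      refine ContinuousOn.preimage_isClosed_of_isClosed ?_ isClosed_Icc isClosed_Iic
      exact continuous_dist.comp_continuousOn
        (((continuous_lineAt l.1.1 l.1.2).fst).continuousOn.prodMk
          ((hZ.bw.cont_pos k).mono fun t ht => hl.trans ((le_max_left _ _).trans ht.1)))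
    have hbdd : BddBelow S := ⟨l.1.1, fun t ht => ht.1.1⟩
    obtain ⟨⟨h1, h2⟩, c, h3, h4⟩ := hclosed.csInf_mem hne hbdd
    refine ⟨sInf S, c, h1, h2, h3, fun t k ht hts hk => ?_, h4⟩
    by_contra hle
    exact absurd (csInf_le hbdd ⟨⟨ht, hts.le.trans h2⟩, k, hk, not_lt.1 hle⟩) (not_le.2 hts)
  · left
    intro t k h1 h2 h3
    by_contra hle
    exact hne ⟨t, ⟨h1, h2⟩, k, h3, not_lt.1 hle⟩

/-- Without contact of the free line up to `T` there is no touch. -/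
theorem thetaL_of_far (hΦ : AdmissiblePotential Φ) (hε : 0 < ε) (hZ : Z.Ok Φ ε)
    (hZl : (Z.ins l).Ok Φ ε) (hK : l.2 ≤ K) {T : ℝ}
    (h : ∀ t k, l.1.1 ≤ t → t ≤ T → Z.b k ≤ t →
      ε < dist (lineAt l.1.1 l.1.2 t).1 (Z.path Φ ε t k).1) :
    Z.thetaL Φ ε K T l = T + 1 := by
  refine MW.theta_eq_of_not_touched fun r hr => ?_
  refine MW.not_touched_of_no_contact (s := r) (A := MW.line l) (Z := Z) hΦ hε ?_ ?_
  · intro r' hr' x k hc
    cases x
    have h1 : l.1.1 ≤ r' := MW.C_born hc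
    have h2 : (Z.ins l).b (Sum.inl k) ≤ r' := MW.C_born' hc
    have hF : FreeFar Φ ε Z l T := fun t k a b c => h t k a b.le c
    have h3 := hF.path_ins hΦ hε hZ hZl (t := r') ⟨hr'.1, hr'.2.trans hr.2⟩
    have h4 : dist ((Z.ins l).path Φ ε r' (Sum.inr ())).1
        ((Z.ins l).path Φ ε r' (Sum.inl k)).1 ≤ ε := hc.2.2.2
    rw [h3.1, h3.2 k] at h4
    exact absurd (h r' k h1 (hr'.2.trans hr.2) h2) (not_lt.2 h4)
  · simpa [MW.line, MW.lines] using hK

/-- A touch at time `≤ T` needs a contact of the free line. -/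
theorem exists_contact_of_thetaL_le (hΦ : AdmissiblePotential Φ) (hε : 0 < ε) (hZ : Z.Ok Φ ε)
    (hZl : (Z.ins l).Ok Φ ε) (hl : 0 ≤ l.1.1) (hK : l.2 ≤ K) {T : ℝ}
    (h : Z.thetaL Φ ε K T l ≤ T) :
    ∃ s c, l.1.1 ≤ s ∧ s ≤ T ∧ Z.b c ≤ s ∧ FreeFar Φ ε Z l s ∧
      dist (lineAt l.1.1 l.1.2 s).1 (Z.path Φ ε s c).1 ≤ ε := by
  rcases exists_first_contact hZ hl T with h1 | h1
  · rw [thetaL_of_far hΦ hε hZ hZl hK h1] at h
    linarith
  · exact h1

end

end Crest.Agent.R122.Ins45
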