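import Crest.Agent.R122.NbadG_263
import Crest.Agent.R122.LinkAsm_984

/-!
# The deterministic statement on `Nbad4` (row 122, H1), helper263

* `nbadDet` : helper984's `NbadDet`.
-/

set_option autoImplicit false
set_option linter.unusedSectionVars false

open MeasureTheory Set Filter Topology
open scoped ENNReal
open Crest.AnalysisR.Kinetic
open Crest.Agent.R122.Kin796 Crest.Agent.R122.Kin796.CTree Crest.Agent.R122.Tree674
open Crest.Agent.R122.GC311 Crest.Agent.R122.EDefs602

namespace Crest.Agent.R122.NbadR263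

open scoped Classical in
/-- **Good test lines are not in `Nbad4`.** -/
theorem nbadDet {Φ : Space3 → ℝ} (hΦ : AdmissiblePotential Φ) : LinkAsm984.NbadDet Φ := by
  intro ε R K te T' P z m w l x hε hTT hK h h4 hP hx0 _ _ _ hx hxd
  refine h.not_mem_nbad4_of_good (R := R) hΦ hε hTT (by omega)
    (Ins45.EncEv.of_parts hΦ hε hP h.pos.le h4.okR (E4Pairs.pairR h4)) h4 hx0.le hx
    fun d hd => ⟨fun k hk => ?_, fun hret => hxd ⟨d, hd, Or.inl hret⟩⟩
  by_contra hno
  exact hxd ⟨d, hd, Or.inr ⟨k, hk, hno⟩⟩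

end Crest.Agent.R122.NbadR263
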