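import Crest.Agent.R122.LinkWin_984
import Crest.Agent.R122.NbadDet_263
import Crest.Agent.R122.ErrClose_370

/-!
# INEQUALITY 1 from the three null slots (row 122), helper263

* `i1In_of_slots` : `Top602.I1In` from `KData` and helper984's `Slots4`.
* `ptAll_of_slots` : helper815's `PtAll` from the same data.
-/

set_option autoImplicit false

open MeasureTheory Set Filter Topology
open scoped ENNReal
open Crest.AnalysisR.Kinetic
open Crest.Agent.R122.EDefs602 Crest.Agent.R122.Master566 Crest.Agent.R122.Top602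

namespace Crest.Agent.R122.I1Close263

variable {Φ : Space3 → ℝ} {f₀ : PhasePoint → ℝ} {f : ℝ → PhasePoint → ℝ} {β T : ℝ}

/-- `Link4In` from the slots. -/
theorem link4In (hD : KData Φ β T f₀ f) (hS : LinkAsm984.Slots4 Φ f₀) :
    Ineq1815.Link4In Φ f₀ f T :=
  LinkAsm984.link4In_of_slots hD (NbadR263.nbadDet hD.adm) hS

/-- The tree majorants. -/
theorem rtg (hD : KData Φ β T f₀ f) :
    InHL T fun h₀ γ ρ => InEq2.RtGWin Φ f₀ f T γ ρ h₀ :=
  rtgIn_of hD (ErrClose370.treeFacts hD)

/-- **INEQUALITY 1** from the three null slots. -/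
theorem i1In_of_slots (hD : KData Φ β T f₀ f) (hS : LinkAsm984.Slots4 Φ f₀) :
    I1In Φ f₀ f T :=
  Ineq1815.i1In_of_parts hD ⟨rtg hD, link4In hD hS⟩

/-- The pointwise form of INEQUALITY 1, for all small horizons (input of INEQUALITY 3). -/
theorem ptAll_of_slots (hD : KData Φ β T f₀ f) (hS : LinkAsm984.Slots4 Φ f₀) :
    Ineq1815.PtAll Φ f₀ f T :=
  Ineq1815.ptAll_of_parts hD ⟨rtg hD, link4In hD hS⟩

end Crest.Agent.R122.I1Close263
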