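import Crest.Agent.R122.InEq2TInX_718
import Crest.Agent.R122.InEq2TAd_718
import Crest.Agent.R122.Ineq2_311
import Crest.Agent.R122.TreeFin_302
import Crest.Agent.R122.LNRoot_291
import Crest.Agent.R122.LNTreeRATR_399

/-!
# Row 122: INEQUALITY 2, assembly (helper335)

* `okNull`, `rtg`, `exR` : the tree facts, unconditional.
* `i2In_of_lnN` : INEQUALITY 2 (`Top602.I2In`) from `KData` and `LnN` (the capped mass of the
  independent lines which are not good for a tree is null).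
* `i2In_of_tsn` : the same from helper311's `TSN`.
-/

set_option autoImplicit false

open MeasureTheory Set Filter Topology
open scoped ENNReal
open Crest.AnalysisR.Kinetic
open Crest.Agent.R122.GC311 Crest.Agent.R122.EDefs602 Crest.Agent.R122.InEq2
open Crest.Agent.R122.Kin796 Crest.Agent.R122.Kin796.CTree Crest.Agent.R122.Tree674
open Crest.Agent.R122.RtG302 Crest.Agent.R122.GIV566 Crest.Agent.R122.Master566
open Crest.Agent.R122.Top602

noncomputable section

open scoped Classical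

namespace Crest.Agent.R122.I2Skel335

variable {Φ : Space3 → ℝ} {f₀ : PhasePoint → ℝ} {f : ℝ → PhasePoint → ℝ} {β T : ℝ}

/-- **`OkNull`**, unconditional. -/
theorem okNull (hD : KData Φ β T f₀ f) {t : ℝ} (ht : 0 ≤ t) (K : ℕ) : OkNull Φ f₀ t K := by
  have hγ : (0 : ℝ) < 2 * β := by linarith [hD.beta_pos]
  exact TreeFin302.okNull_of_nOkR hD.adm (LNRoot291.nOkR_null hD.adm hγ hD.contDiff.continuous
    hD.gaussian (TreeFin302.mass_le hD) ht)

/-- **`GoodT`** off a null event, unconditional. -/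
theorem tNull_goodT (hD : KData Φ β T f₀ f) {T' te : ℝ} (hT : 0 < T') (hte : te ≤ T')
    (K K' : ℕ) : TNull Φ f₀ T' K fun ε P z _ w => ¬ InEq2T.GoodT Φ ε K' te P z w := by
  have hγ : (0 : ℝ) < 2 * β := by linarith [hD.beta_pos]
  exact LNRoot291.tNull_goodT hD.adm hγ hD.contDiff.continuous hD.gaussian
    (TreeFin302.mass_le hD) hT hte (LNTree399.ratR hD.adm K K')

/-- **The exceptional events of the tree**, unconditional. -/
theorem exR (hD : KData Φ β T f₀ f) {h₀ : ℝ} (h0 : 0 < h₀) (γ : ℝ → ℝ) (ρ : ℝ≥0∞) :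
    InEq2T.ExR Φ f₀ f T γ ρ h₀ := by
  have hW : EvW T fun h _ _ _ => h ≤ h₀ := ⟨h₀, h0, 1, fun h _ _ _ _ hle _ _ _ => hle⟩
  refine InEq2T.exR_of_tNull (hW.mono fun h L tw te _ _ hwin hhle _ K => ?_)
  exact tNull_goodT hD (by linarith [hwin.nonneg]) (by linarith [hwin.short]) K K

/-- `ExR` for all small `h₀` and all line parameters. -/
theorem inHL_exR (hD : KData Φ β T f₀ f) :
    InHL T fun h₀ γ ρ => InEq2T.ExR Φ f₀ f T γ ρ h₀ :=
  ⟨1, one_pos, 1, one_pos, 1 / 2, by norm_num, fun _ h0 _ γ ρ _ => exR hD h0 γ ρ⟩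

/-- **Real to ghost before the window**, unconditional. -/
theorem rtg (hD : KData Φ β T f₀ f) : InHL T fun h₀ γ ρ => RtGWin Φ f₀ f T γ ρ h₀ :=
  TreeFin302.rtg_of_rat hD one_pos (fun _ _ K K' => LNTree399.rat hD.adm K K')
    fun _ ht K => okNull hD ht.le K

/-- **INEQUALITY 2** from the null mass of the lines which are not good. -/
theorem i2In_of_lnN (hD : KData Φ β T f₀ f)
    (hLn : InHL T fun h₀ γ ρ => InEq2T.LnN Φ f₀ f T γ ρ h₀) : I2In Φ f₀ f T :=
  i2In_of_parts hD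
    { touched := InEq2T.inHL_FTg hD hLn (inHL_exR hD)
      weight := InEq2T.inHL_FLg hD hLn (inHL_exR hD)
      rtg := rtg hD }

/-- **INEQUALITY 2** from helper311's `TSN` in the windows. -/
theorem i2In_of_tsn (hD : KData Φ β T f₀ f)
    (h : InHL T fun h₀ γ ρ => EvW T fun _ _ tw te => IH Φ f₀ f T γ ρ tw → ∀ K : ℕ,
      TL311.TSN Φ f₀ (tw + h₀) K (InEq2T.lnF Φ K (tw + h₀) te γ ρ)) : I2In Φ f₀ f T :=
  i2In_of_lnN hD (h.mono fun _ _ _ _ _ h => InEq2T.lnN_of_tsn h)

end Crest.Agent.R122.I2Skel335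

end
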