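import Crest.Agent.R122.CollLeg_969

/-!
Row 122, block H7, helper969: building blocks of pair laws in the class `PX` of `PairC_292`.

* `srcN`, `PX.src` : point sources with Gaussian velocity densities, translation covariant family;
* `stepK_fwd` : forward collision steps with a fresh partner (any admissible leg);
* `PX.add`, `PX.smul`, `PX.zero`, `PX.finsum` ;
* `ae_sig_src`, `ae_sig_mkK` : the second line is born after the turning time.
-/

set_option autoImplicit false

open MeasureTheory ProbabilityTheory Set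
open Crest.AnalysisR.Kinetic
open Crest.Agent.R122.Boost969 Crest.Agent.R122.Kin416 Crest.Agent.R122.Pair292
open Crest.Agent.R122.CollLeg969
open scoped ENNReal

noncomputable section

namespace Crest.Agent.R122.PairSrc969

variable {P : PPar} {Ξ Ξ' ν ν' : Measure (Lab × LSt)} {c c' : ℝ≥0∞}

/-! ### Algebra of the class -/

theorem PX.zero : PX P 0 0 0 := by
  refine ⟨inferInstance, inferInstance, fun F _ => by simp, fun F _ => by simp, fun a => by simp⟩

theorem PX.add (h : PX P Ξ ν c) (h' : PX P Ξ' ν' c') : PX P (Ξ + Ξ') (ν + ν') (c + c') := by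
  have := h.sfν
  have := h.sfΞ
  have := h'.sfν
  have := h'.sfΞ
  refine ⟨inferInstance, inferInstance, h.spr.add h'.spr, fun F hF => ?_, fun a => ?_⟩
  · rw [lintegral_add_measure, add_mul]
    exact add_le_add (h.marg F hF) (h'.marg F hF)
  · rw [Measure.map_add _ _ (measurable_shP a), h.trans a, h'.trans a]

theorem PX.smul (h : PX P Ξ ν c) (k : ℝ≥0∞) : PX P (k • Ξ) (k • ν) (k * c) := by
  have := h.sfν
  have := h.sfΞ
  have hw : ∀ m : Measure (Lab × LSt), k • m = m.withDensity fun _ => k := fun m =>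
    (withDensity_const k).symm
  refine ⟨by rw [hw]; infer_instance, by rw [hw]; infer_instance, h.spr.smul k,
    fun F hF => ?_, fun a => ?_⟩
  · rw [lintegral_smul_measure, smul_eq_mul, mul_assoc]
    exact mul_le_mul_right (h.marg F hF) _
  · rw [Measure.map_smul, h.trans a]

theorem PX.finsum {ι : Type*} (s : Finset ι) {Ξ ν : ι → Measure (Lab × LSt)} {c : ι → ℝ≥0∞}
    (h : ∀ i ∈ s, PX P (Ξ i) (ν i) (c i)) :
    PX P (∑ i ∈ s, Ξ i) (∑ i ∈ s, ν i) (∑ i ∈ s, c i) := by
  classical
  induction s using Finset.induction_on with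
  | empty => simpa using PX.zero
  | insert a s ha ih =>
    rw [Finset.sum_insert ha, Finset.sum_insert ha, Finset.sum_insert ha]
    exact PX.add (h a (by simp)) (ih fun i hi => h i (by simp [hi]))

/-! ### Sources -/

section src

variable {Q : Type*} [MeasurableSpace Q]

/-- The law of a pair whose second line is born at the space-time point `(S q, Y q)` with velocity
density `G (q, ·)`, `q ~ μ`. -/
def srcN (μ : Measure Q) (D : Q → ML) (S : Q → ℝ) (N : Q → ℕ) (Y : Q → Space3)
    (G : Q × Space3 → ℝ≥0∞) : Measure (Lab × LSt) :=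
  ((μ.prod (volume : Measure Space3)).withDensity G).map
    (fun p => ((D p.1, (S p.1, N p.1)), (S p.1, (Y p.1, p.2))))

variable {μ : Measure Q} [SFinite μ] {D : Q → ML} {S : Q → ℝ} {N : Q → ℕ} {Y : Q → Space3}
  {G : Q × Space3 → ℝ≥0∞}

instance : SFinite (srcN μ D S N Y G) := by
  unfold srcN
  infer_instance

omit [SFinite μ] in
lemma measurable_srcmap (hD : Measurable D) (hS : Measurable S) (hN : Measurable N)
    (hY : Measurable Y) : Measurable (fun p : Q × Space3 =>
      (((D p.1, (S p.1, N p.1)), (S p.1, (Y p.1, p.2))) : Lab × LSt)) := by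
  have h1 : Measurable (fun p : Q × Space3 => D p.1) := hD.comp measurable_fst
  have h2 : Measurable (fun p : Q × Space3 => S p.1) := hS.comp measurable_fst
  have h3 : Measurable (fun p : Q × Space3 => N p.1) := hN.comp measurable_fst
  have h4 : Measurable (fun p : Q × Space3 => Y p.1) := hY.comp measurable_fst
  exact (h1.prodMk (h2.prodMk h3)).prodMk (h2.prodMk (h4.prodMk measurable_snd))

lemma lintegral_srcN (hD : Measurable D) (hS : Measurable S) (hN : Measurable N)
    (hY : Measurable Y) (hG : Measurable G) {F : Lab × LSt → ℝ≥0∞} (hF : Measurable F) :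
    ∫⁻ p, F p ∂srcN μ D S N Y G =
      ∫⁻ q, (∫⁻ v, G (q, v) * F ((D q, (S q, N q)), (S q, (Y q, v)))) ∂μ := by
  have hm := measurable_srcmap hD hS hN hY
  have hGF : Measurable (fun p : Q × Space3 => G p *
      F ((D p.1, (S p.1, N p.1)), (S p.1, (Y p.1, p.2)))) := hG.mul (hF.comp hm)
  unfold srcN
  rw [lintegral_map hF hm]
  refine (lintegral_withDensity_eq_lintegral_mul _ hG (hF.comp hm)).trans ?_
  exact lintegral_prod _ hGF.aemeasurable

/-- profile density of a source -/
def prD (A : Q → ℝ≥0∞) (b : ℝ) (p : Q × Space3) : ℝ≥0∞ :=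
  A p.1 * cB * ENNReal.ofReal (Real.exp b) * gau (b / 2) p.2

omit [SFinite μ] in
lemma measurable_prD {A : Q → ℝ≥0∞} (hA : Measurable A) (b : ℝ) : Measurable (prD A b) := by
  unfold prD
  exact (((hA.comp measurable_fst).mul_const _).mul_const _).mul
    ((measurable_gau _).comp measurable_snd)

/-- **Sources are in the class.** -/
theorem PX.src {b₀ te η : ℝ} {lam AW : ℝ≥0∞} {W : LSt → ℝ≥0∞} (hWP : WPack b₀ te η lam W AW)
    (hPW : P.W = W) (hD : Measurable D) (hS : Measurable S) (hN : Measurable N)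
    (hY : Measurable Y) (hG : Measurable G) {A : Q → ℝ≥0∞} (hA : Measurable A) {b : ℝ}
    (hb : 0 ≤ b) (hGA : ∀ q v, G (q, v) ≤ A q * gau b v) (hS0 : ∀ q, A q ≠ 0 → 0 ≤ S q)
    (T : Space3 → Q → Q) (hT : ∀ a, Measurable (T a)) (hTμ : ∀ a, μ.map (T a) = μ)
    (hTD : ∀ a q, D (T a q) = shM a (D q)) (hTS : ∀ a q, S (T a q) = S q)
    (hTN : ∀ a q, N (T a q) = N q) (hTY : ∀ a q, Y (T a q) = Y q + a)
    (hTG : ∀ a q v, G (T a q, v) = G (q, v)) {c : ℝ≥0∞}
    (hmarg : ∀ F : ML × ℝ → ℝ≥0∞, Measurable F →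
      ∫⁻ q, F (D q, S q) * (P.lam₁ ^ N q * A q) ∂μ ≤ c * P.rhs F) :
    PX P (srcN μ D S N Y (prD A b)) (srcN μ D S N Y G)
      (c * (cB * ENNReal.ofReal (Real.exp b) * (AW * ∫⁻ v, gau (b / 2 - η) v))) := by
  refine ⟨inferInstance, inferInstance, fun F hF => ?_, fun F hF => ?_, fun a => ?_⟩
  · rw [lintegral_srcN hD hS hN hY hG hF,
      lintegral_srcN hD hS hN hY (measurable_prD hA b) (measurable_avgL measurable_sig hF)]
    refine lintegral_mono fun q => ?_
    have hGq : Measurable (fun v : Space3 => G (q, v)) :=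
      hG.comp (measurable_const.prodMk measurable_id)
    have h1 := Spr.src (S q) (Y q) hb hGq (fun v => hGA q v)
    have hFq : Measurable (fun z : LSt => F ((D q, (S q, N q)), z)) :=
      hF.comp (measurable_const.prodMk measurable_id)
    have h2 := h1 _ hFq
    rw [lintegral_srcM _ _ hGq hFq, lintegral_srcM _ _ ((measurable_gau _).const_mul _)
      (measurable_avg _ hFq)] at h2
    exact h2
  · have hlm : Measurable (fun n : ℕ => P.lam₁ ^ n) := Measurable.of_discrete
    have hW := P.hW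
    have hm : Measurable (fun p : Lab × LSt =>
        F (p.1.1, p.1.2.1) * (P.lam₁ ^ p.1.2.2 * P.W p.2)) := by
      refine (hF.comp (by fun_prop)).mul (Measurable.mul ?_ (hW.comp measurable_snd))
      exact hlm.comp (by fun_prop)
    rw [lintegral_srcN hD hS hN hY (measurable_prD hA b) hm]
    set K : ℝ≥0∞ := cB * ENNReal.ofReal (Real.exp b) * (AW * ∫⁻ v, gau (b / 2 - η) v) with hK
    have key : ∀ q, ∫⁻ v, prD A b (q, v) * (F (D q, S q) * (P.lam₁ ^ N q *
        P.W (S q, (Y q, v)))) ≤ K * (F (D q, S q) * (P.lam₁ ^ N q * A q)) := by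
      intro q
      by_cases hA0 : A q = 0
      · have h0 : ∀ v, prD A b (q, v) = 0 := by
          intro v
          unfold prD
          rw [hA0]
          simp
        simp [h0]
      have hs := hS0 q hA0
      have h3 := hWP.init (γ := b / 2) (S q) hs (Y q)
      have hWq : Measurable (fun v : Space3 => gau (b / 2) v * W (S q, (Y q, v))) :=
        (measurable_gau _).mul (hWP.meas.comp (by fun_prop))
      calc ∫⁻ v, prD A b (q, v) * (F (D q, S q) * (P.lam₁ ^ N q * P.W (S q, (Y q, v))))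
          = ∫⁻ v, (A q * cB * ENNReal.ofReal (Real.exp b) * (F (D q, S q) * P.lam₁ ^ N q)) *
              (gau (b / 2) v * W (S q, (Y q, v))) := by
            refine lintegral_congr fun v => ?_
            unfold prD
            rw [hPW]
            ring
        _ = (A q * cB * ENNReal.ofReal (Real.exp b) * (F (D q, S q) * P.lam₁ ^ N q)) *
              ∫⁻ v, gau (b / 2) v * W (S q, (Y q, v)) := lintegral_const_mul _ hWq
        _ ≤ (A q * cB * ENNReal.ofReal (Real.exp b) * (F (D q, S q) * P.lam₁ ^ N q)) *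
              (AW * ∫⁻ v, gau (b / 2 - η) v) := mul_le_mul_right h3 _
        _ = _ := by rw [hK]; ring
    have hmq : Measurable (fun q => F (D q, S q) * (P.lam₁ ^ N q * A q)) :=
      (hF.comp (hD.prodMk hS)).mul ((hlm.comp hN).mul hA)
    calc ∫⁻ q, (∫⁻ v, prD A b (q, v) * (F (D q, S q) * (P.lam₁ ^ N q *
          P.W (S q, (Y q, v))))) ∂μ
        ≤ ∫⁻ q, K * (F (D q, S q) * (P.lam₁ ^ N q * A q)) ∂μ := lintegral_mono key
      _ = K * ∫⁻ q, F (D q, S q) * (P.lam₁ ^ N q * A q) ∂μ := lintegral_const_mul _ hmq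
      _ ≤ K * (c * P.rhs F) := mul_le_mul_right (hmarg F hF) _
      _ = _ := by ring
  · refine Measure.ext_of_lintegral _ fun F hF => ?_
    rw [lintegral_map hF (measurable_shP a), lintegral_srcN hD hS hN hY hG hF]
    refine (lintegral_srcN hD hS hN hY hG (hF.comp (measurable_shP a))).trans ?_
    conv_rhs => rw [← hTμ a]
    have hm := measurable_srcmap hD hS hN hY
    have hGF : Measurable (fun p : Q × Space3 => G p *
        F ((D p.1, (S p.1, N p.1)), (S p.1, (Y p.1, p.2)))) := hG.mul (hF.comp hm)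
    have hI : Measurable (fun q : Q => ∫⁻ v, G (q, v) *
        F ((D q, (S q, N q)), (S q, (Y q, v)))) := hGF.lintegral_prod_right'
    rw [lintegral_map hI (hT a)]
    refine lintegral_congr fun q => lintegral_congr fun v => ?_
    rw [hTG, hTD, hTS, hTN, hTY]
    rfl

/-- the second line is born at the turning time -/
theorem ae_sig_src (hD : Measurable D) (hS : Measurable S) (hN : Measurable N)
    (hY : Measurable Y) (hG : Measurable G) :
    ∀ᵐ p ∂srcN μ D S N Y G, sig p.1 ≤ p.2.1 := by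
  have hSm : MeasurableSet {p : Lab × LSt | ¬ sig p.1 ≤ p.2.1} :=
    (measurableSet_le (measurable_sig.comp measurable_fst)
      (measurable_fst.comp measurable_snd)).compl
  have hF : Measurable ({p : Lab × LSt | ¬ sig p.1 ≤ p.2.1}.indicator (1 : Lab × LSt → ℝ≥0∞)) :=
    measurable_one.indicator hSm
  rw [ae_iff, ← lintegral_indicator_one hSm, lintegral_srcN hD hS hN hY hG hF]
  refine (lintegral_congr fun q => ?_).trans lintegral_zero
  refine (lintegral_congr fun v => ?_).trans lintegral_zero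
  rw [indicator_of_notMem, mul_zero]
  intro h
  exact h le_rfl

end src

/-! ### Forward steps -/

lemma trK_fwd {μ : Measure EC} [SFinite μ] (L : Leg EC) (M b₀ : ℝ) :
    TrK (fwdK μ L gE M b₀) := by
  intro a z F hF
  exact TrCov.fwd (μ := μ) L measurable_gE (M := M) (β := b₀) a z F hF

instance {μ : Measure EC} [SFinite μ] (L : Leg EC) (M b₀ : ℝ) :
    IsSFiniteKernel (fwdK μ L gE M b₀) := by
  unfold fwdK
  exact isSFiniteKernel_stepK L (Nf_ne_top _ _ gE)

/-- **Forward collision steps.** -/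
theorem stepK_fwd {b₀ te η : ℝ} {lam A : ℝ≥0∞} {W : LSt → ℝ≥0∞} (h : WPack b₀ te η lam W A)
    (hPW : P.W = W) (hb : 0 ≤ b₀) {L : Leg EC} (hL : CLeg L) {f : ℕ → ℕ → ℕ}
    (hf : ∀ m n, f m n ≤ n + m) {q : ℕ → ℝ≥0∞} (hq : ∀ m, q m ≠ ∞) :
    StepK P (mkK f q (fwdK collM L gE 1 b₀)) (mkK f q (domK L b₀))
      (lam * ∑' m, P.lam₁ ^ m * q m) := by
  refine stepK_mkK hf hq (galDom_domK L hb) (trK_fwd L 1 b₀) ?_
  intro z
  rw [hPW]
  exact h.step L hL z

/-- **Forward steps without flux weight** (reference measure `refM`, e.g. after a product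
domination of the tree weights). -/
theorem stepK_fwd0 {b₀ te η : ℝ} {lam A : ℝ≥0∞} {W : LSt → ℝ≥0∞} (h : WPack b₀ te η lam W A)
    (hPW : P.W = W) (hb : 0 ≤ b₀) {L : Leg EC} (hL : CLeg L) {f : ℕ → ℕ → ℕ}
    (hf : ∀ m n, f m n ≤ n + m) {q : ℕ → ℝ≥0∞} (hq : ∀ m, q m ≠ ∞) :
    StepK P (mkK f q (fwdK refM L gE 1 b₀)) (mkK f q (domK L b₀))
      (lam * ∑' m, P.lam₁ ^ m * q m) := by
  refine stepK_mkK hf hq (galDom_domK0 L hb) (trK_fwd L 1 b₀) ?_
  intro z
  rw [hPW]
  exact h.step L hL z

/-- births increase along the kernel -/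
def UpK (κ : Kernel LSt LSt) : Prop := ∀ z, ∀ᵐ z' ∂κ z, z.1 ≤ z'.1

lemma UpK.mono {κ κ' : Kernel LSt LSt} (h : UpK κ') (hle : ∀ z, κ z ≤ κ' z) : UpK κ := fun z =>
  (Measure.absolutelyContinuous_of_le (hle z)).ae_le (h z)

lemma UpK.fwd {μ : Measure EC} [SFinite μ] {L : Leg EC} (hL : CLeg L) (M b₀ : ℝ) :
    UpK (fwdK μ L gE M b₀) := by
  intro z
  have hS : MeasurableSet {z' : LSt | ¬ z.1 ≤ z'.1} :=
    (measurableSet_le measurable_const measurable_fst).compl
  have hF : Measurable ({z' : LSt | ¬ z.1 ≤ z'.1}.indicator (1 : LSt → ℝ≥0∞)) :=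
    measurable_one.indicator hS
  rw [ae_iff, ← lintegral_indicator_one hS]
  unfold fwdK
  rw [lintegral_stepK L (measurable_Nf M b₀ measurable_gE) (Nf_ne_top M b₀ gE) hF]
  refine (lintegral_congr fun q => ?_).trans lintegral_zero
  by_cases h : z.1 < q.1
  · rw [indicator_of_notMem, mul_zero]
    intro h1
    refine h1 ?_
    have h2 := hL.dt0 q.2
    change z.1 ≤ q.1 + L.dt q.2
    linarith
  · unfold Nf
    rw [if_neg h, zero_mul]

lemma UpK.kO {ε : ℝ} {out : ℝ → Space3 → OCout796.CD → LSt} (h : OutMap out) {L : Leg EC}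
    (hoL : OutLeg out ε L) (hL : CLeg L) (b₀ te : ℝ) : UpK (kO ε b₀ te out) :=
  (UpK.fwd hL 1 b₀).mono (kO_le h hoL b₀ te)

/-- the second line is born after the turning time: preserved by mark kernels -/
theorem ae_sig_mkK {κ : Kernel LSt LSt} [IsSFiniteKernel κ] (hκ : UpK κ) {f : ℕ → ℕ → ℕ}
    {q : ℕ → ℝ≥0∞} (hq : ∀ m, q m ≠ ∞) (hsig : ∀ᵐ p ∂ν, sig p.1 ≤ p.2.1) :
    ∀ᵐ p ∂ν.bind (mkK f q κ), sig p.1 ≤ p.2.1 := by
  have hS : MeasurableSet {p : Lab × LSt | ¬ sig p.1 ≤ p.2.1} :=
    (measurableSet_le (measurable_sig.comp measurable_fst)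
      (measurable_fst.comp measurable_snd)).compl
  have hF : Measurable ({p : Lab × LSt | ¬ sig p.1 ≤ p.2.1}.indicator (1 : Lab × LSt → ℝ≥0∞)) :=
    measurable_one.indicator hS
  rw [ae_iff, ← lintegral_indicator_one hS, Measure.lintegral_bind
    (Kernel.aemeasurable _) hF.aemeasurable]
  refine (lintegral_congr_ae ?_).trans lintegral_zero
  filter_upwards [hsig] with p hp
  rw [lintegral_mkK f hq κ p hF]
  refine ENNReal.tsum_eq_zero.2 fun m => ?_
  rw [mul_eq_zero]
  right
  refine (lintegral_congr_ae ?_).trans lintegral_zero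
  filter_upwards [hκ p.2] with z' hz'
  have h1 : (incM f m p.1, z') ∉ {p : Lab × LSt | ¬ sig p.1 ≤ p.2.1} := by
    intro h
    exact h (hp.trans hz')
  exact indicator_of_notMem h1 _

end Crest.Agent.R122.PairSrc969
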