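import Crest.Agent.R122.Mark9_307
import Crest.Agent.R122.PairSrc_969

/-!
# Base pair laws (row 122, block H7b), helper307: definitions

* `BPar`, `BPar.Ok` : parameters (weight of 969, Gaussian rates, mark factor).
* `IsPP B te K Pp` : `Pp` are the class parameters with the line measure at horizon `te`.
* `Aux ε ν` : almost sure facts (births after the turning time, no atoms, separated siblings).
* `DomP` : the law of two exits of a tree is dominated by a spread pair law.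
* `rootB`, `DomR` : the same for an exit and the root reborn at its last encounter.
-/

set_option autoImplicit false
set_option maxHeartbeats 400000
set_option linter.unusedSectionVars false

open MeasureTheory ProbabilityTheory Set Filter
open scoped ENNReal Topology Classical
open Crest.AnalysisR.Kinetic
open Crest.Agent.R122.Kin796 Crest.Agent.R122.Kin796.CTree Crest.Agent.R122.Tree674
open Crest.Agent.R122.Disc416 Crest.Agent.R122.EDefs602
open Crest.Agent.R122.Boost969 Crest.Agent.R122.Kin416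
open Crest.Agent.R122.Pair292 hiding ML
open Crest.Agent.R122.CollLeg969 (WPack CLeg EC collM domK)
open Crest.Agent.R122.PairSrc969

noncomputable section

namespace Crest.Agent.R122.Mark307

/-! ### Parameters -/

/-- Parameters of the base pair laws. -/
structure BPar where
  /-- horizon -/
  T : ℝ
  /-- Gaussian rate of fresh partners -/
  b₀ : ℝ
  /-- upper bound of the Gaussian rates of the line measure -/
  bs : ℝ
  /-- growth of the weight -/
  η : ℝ
  lam : ℝ≥0∞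
  A : ℝ≥0∞
  /-- forward weight -/
  W : LSt → ℝ≥0∞
  /-- mark weight -/
  lam₁ : ℝ≥0∞
  /-- Gaussian rate of the line measure -/
  γ : ℝ → ℝ
  /-- mark factor of the line measure -/
  ρ : ℝ≥0∞

/-- Admissible parameters. -/
structure BPar.Ok (B : BPar) : Prop where
  T0 : 0 < B.T
  wp : WPack B.b₀ B.T B.η B.lam B.W B.A
  lamt : B.lam ≠ ∞
  b0 : 0 < B.b₀
  b0s : B.b₀ ≤ B.bs
  ηs : B.η < B.bs / 2
  l1 : 1 ≤ B.lam₁
  lt : B.lam₁ ≠ ∞
  γm : Measurable B.γ
  γs : ∀ τ ∈ Ioc 0 B.T, B.γ τ ≤ B.bs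
  ρ0 : B.ρ ≠ 0
  ρ1 : B.ρ ≤ 1

/-- `Pp` = the class parameters of `B` with the line measure at horizon `te` (969's `lineP`). -/
structure IsPP (B : BPar) (te : ℝ) (K : ℕ) (Pp : PPar) : Prop where
  w : Pp.W = B.W
  l : Pp.lam₁ = B.lam₁
  ell : Pp.ℓ = lineM B.γ B.ρ K te
  hor : Pp.t' = te

theorem BPar.Ok.bs0 {B : BPar} (h : B.Ok) : 0 < B.bs := h.b0.trans_le h.b0s

/-! ### Almost sure facts -/

/-- The two lines, born at the same time, are separated or touch and separate. -/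
def SibSepD (ε : ℝ) (θ : Lab × LSt) : Prop :=
  ε ≤ dist θ.1.1.1.2.1 θ.2.2.1 ∧ (dist θ.1.1.1.2.1 θ.2.2.1 = ε →
    0 < inner ℝ (θ.1.1.1.2.1 - θ.2.2.1) (θ.1.1.1.2.2 - θ.2.2.2))

/-- Almost sure facts of a base pair law: the turning time is nonnegative and before the birth of
the second line; a second line born at its turning time, after the first line, has no atom in
position; lines born at the same time are separated. -/
structure Aux (ε : ℝ) (ν : Measure (Lab × LSt)) : Prop where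
  sg : ∀ᵐ θ ∂ν, 0 ≤ θ.1.2.1 ∧ θ.1.2.1 ≤ θ.2.1
  na : ∀ Z : ML × ℝ → Space3, Measurable Z → ∀ᵐ θ ∂ν, θ.1.1.1.1 < θ.1.2.1 → θ.2.1 = θ.1.2.1 →
    θ.2.2.1 ≠ Z (θ.1.1, θ.1.2.1)
  sb : ∀ᵐ θ ∂ν, θ.1.1.1.1 = θ.2.1 → SibSepD ε θ

/-- Almost sure facts of a law of (exit, root reborn): turning time = birth of the exit. -/
structure AuxF (ε : ℝ) (ν : Measure (Lab × LSt)) : Prop where
  sg : ∀ᵐ θ ∂ν, 0 ≤ θ.1.2.1 ∧ θ.1.2.1 = θ.1.1.1.1 ∧ θ.1.1.1.1 ≤ θ.2.1
  sb : ∀ᵐ θ ∂ν, θ.1.1.1.1 = θ.2.1 → SibSepD ε θ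

variable {ε : ℝ} {ν ν' : Measure (Lab × LSt)}

theorem AuxF.aux (h : AuxF ε ν) : Aux ε ν where
  sg := by
    filter_upwards [h.sg] with θ hθ
    exact ⟨hθ.1, hθ.2.1.trans_le hθ.2.2⟩
  na := by
    intro Z _
    filter_upwards [h.sg] with θ hθ h1 _
    exact absurd h1 (by rw [hθ.2.1]; exact lt_irrefl _)
  sb := h.sb

theorem Aux.mono (h : Aux ε ν) (hle : ν' ≪ ν) : Aux ε ν' :=
  ⟨hle.ae_le h.sg, fun Z hZ => hle.ae_le (h.na Z hZ), hle.ae_le h.sb⟩

theorem AuxF.mono (h : AuxF ε ν) (hle : ν' ≪ ν) : AuxF ε ν' :=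
  ⟨hle.ae_le h.sg, hle.ae_le h.sb⟩

theorem ae_add_measure' {p : Lab × LSt → Prop} (h : ∀ᵐ θ ∂ν, p θ) (h' : ∀ᵐ θ ∂ν', p θ) :
    ∀ᵐ θ ∂(ν + ν'), p θ := ae_add_measure_iff.2 ⟨h, h'⟩

theorem Aux.add (h : Aux ε ν) (h' : Aux ε ν') : Aux ε (ν + ν') :=
  ⟨ae_add_measure' h.sg h'.sg, fun Z hZ => ae_add_measure' (h.na Z hZ) (h'.na Z hZ),
    ae_add_measure' h.sb h'.sb⟩

theorem Aux.zero : Aux ε 0 := ⟨by simp, fun _ _ => by simp, by simp⟩

theorem Aux.smul (h : Aux ε ν) (k : ℝ≥0∞) : Aux ε (k • ν) :=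
  h.mono (Measure.AbsolutelyContinuous.rfl.smul_left k)

theorem AuxF.smul (h : AuxF ε ν) (k : ℝ≥0∞) : AuxF ε (k • ν) :=
  h.mono (Measure.AbsolutelyContinuous.rfl.smul_left k)

theorem Aux.finsum {ι : Type*} (s : Finset ι) {ν : ι → Measure (Lab × LSt)}
    (h : ∀ i ∈ s, Aux ε (ν i)) : Aux ε (∑ i ∈ s, ν i) := by
  classical
  induction s using Finset.induction_on with
  | empty => simpa using Aux.zero
  | insert a s ha ih =>
    rw [Finset.sum_insert ha]
    exact Aux.add (h a (by simp)) (ih fun i hi => h i (by simp [hi]))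

/-! ### Domination of two exits -/

/-- `m'` is on the forward path of `m`: the node `m'` is above the node `m`. -/
def fwd : {P : CTree} → Mk P → Mk P → Bool
  | _, .top _ _, _ => false
  | _, .inl _ _, .top _ _ => true
  | _, .inl m _, .inl m' _ => fwd m m'
  | _, .inl _ _, .inr _ _ => false
  | _, .inr _ _, .top _ _ => true
  | _, .inr _ _, .inl _ _ => false
  | _, .inr _ m, .inr _ m' => fwd m m'

/-- Turning time of the ordered pair of exits `(m, m')`: birth of the exit `m` if `m'` is on the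
forward path of `m`, birth of the exit `m'` otherwise. -/
def sgT (Φ : Space3 → ℝ) (ε : ℝ) {P : CTree} (m m' : Mk P) (z : PhasePoint × Par P) : ℝ :=
  if fwd m m' then (exM Φ ε m z).1 else (exM Φ ε m' z).1

/-- label and second line of the ordered pair of exits `(m, m')` -/
def pairT (Φ : Space3 → ℝ) (ε : ℝ) {P : CTree} (m m' : Mk P) (z : PhasePoint × Par P) : Lab × LSt :=
  (((exM Φ ε m z, mkN m), (sgT Φ ε m m' z, mkN m')), exM Φ ε m' z)

/-- **Domination of the labelled law of two exits** `m`, `m'` of the tree `P`, uniform in `ε`, the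
horizons and the cut-off. -/
def DomP (Φ : Space3 → ℝ) (B : BPar) (b : ℝ) (P : CTree) (m m' : Mk P) : Prop :=
  ∃ c : ℝ≥0∞, c ≠ ∞ ∧ ∀ ε T' te : ℝ, 0 < ε → ε ≤ 1 → 0 < te → te ≤ T' → T' ≤ B.T →
    ∀ K : ℕ, P.leaves ≤ K → ∀ Pp : PPar, IsPP B te K Pp →
    ∃ Ξ ν : Measure (Lab × LSt), PX Pp Ξ ν c ∧ Aux ε ν ∧
      ∀ F : Lab × LSt → ℝ≥0∞, Measurable F →
        (∀ p, ¬ (p.1.1.1.1 ≤ te ∧ p.2.1 ≤ te) → F p = 0) →
        ∫⁻ z : PhasePoint × Par P, vw Φ ε P T' z * (gw b P z * F (pairT Φ ε m m' z)) ≤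
        ∫⁻ p, F p ∂ν

/-- Birth of the root: exit time of the last encounter (`0` for a leaf). -/
def topT : ∀ P : CTree, Par P → ℝ
  | leaf => fun _ => 0
  | node _ _ => fun p => p.1.1

/-- The root line, reborn at the exit time of its last encounter. -/
def rootB (P : CTree) (z : PhasePoint × Par P) : BLine := (topT P z.2, onLine z.1 (topT P z.2))

/-- **Domination of the law of (exit, root reborn).** -/
def DomR (Φ : Space3 → ℝ) (B : BPar) (b : ℝ) (P : CTree) (m : Mk P) : Prop :=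
  ∃ c : ℝ≥0∞, c ≠ ∞ ∧ ∀ ε T' te : ℝ, 0 < ε → ε ≤ 1 → 0 < te → te ≤ T' → T' ≤ B.T →
    ∀ K : ℕ, P.leaves ≤ K → ∀ Pp : PPar, IsPP B te K Pp →
    ∃ Ξ ν : Measure (Lab × LSt), PX Pp Ξ ν c ∧ AuxF ε ν ∧
      ∀ F : Lab × LSt → ℝ≥0∞, Measurable F → (∀ p, ¬ p.1.1.1.1 ≤ te → F p = 0) →
        ∫⁻ z : PhasePoint × Par P, vw Φ ε P T' z * (gw b P z *
          F (((exM Φ ε m z, mkN m), ((exM Φ ε m z).1, P.leaves)), rootB P z)) ≤
        ∫⁻ p, F p ∂ν

end Crest.Agent.R122.Mark307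

end
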