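import Crest.Agent.R122.PairStep_292
import Crest.Agent.R122.CaseC_658
import Crest.Agent.R122.CollLeg_969
import Crest.Agent.R122.PairB_307

/-!
# Row 122, section E, inequality 3 (helper85): the continuation kernels are steps of the class

* `legO`, `K3d` : the legs of the three outcomes, the dominating kernel of `K3`.
* `stepK_KO`, `stepK_K3` : `StepK P (K3 ..) (K3d ..) r₀`, `r₀ = 3 * (lam * ∑' m, lam₁ ^ m * q m)`.
* `cQ`, `tsum_qK_le` : the mark sum of the weights `qK` is bounded uniformly in `K`.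
* `parB`, `isPP_parB`, `ppOk_parB` : the class parameters of `BPar` at the horizon `te ≤ T`.
* `exists_B` : parameters `B` of the base law with contraction constant `r₀ ≤ θ`, uniform in `K`,
  `ε`, `te ≤ T`.
-/

set_option autoImplicit false
set_option linter.unusedSectionVars false

open MeasureTheory ProbabilityTheory Set Filter
open scoped ENNReal Topology
open Crest.AnalysisR.Kinetic
open Crest.Agent.R122.EDefs602 Crest.Agent.R122.Master566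
open Crest.Agent.R122.Boost969 Crest.Agent.R122.Kin416
open Crest.Agent.R122.Pair292 hiding ML
open Crest.Agent.R122.CollLeg969 Crest.Agent.R122.PairD292
open Crest.Agent.R122.CaseC658 (qK qK_ne_top)
open Crest.Agent.R122.Mark307 (BPar IsPP)

noncomputable section

namespace Crest.Agent.R122.StepK85

variable {Φ : Space3 → ℝ} {ε b₀ te η : ℝ}

/-! ### Legs of the outcomes -/

/-- leg of the outcome `k` -/
def legO (hΦ : AdmissiblePotential Φ) (ε : ℝ) : Option Bool → Leg EC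
  | none => legC hΦ ε
  | some false => legL' hΦ ε
  | some true => legC' hΦ ε

theorem outF_le (k : Option Bool) (m n : ℕ) : outF k m n ≤ n + m := by
  rcases k with _ | _
  · exact Nat.le_add_left _ _
  · exact le_rfl

theorem outO_eq (Φ : Space3 → ℝ) (ε : ℝ) (k : Option Bool) : outO Φ ε k = CaseC658.outK Φ ε k := by
  rcases k with _ | (_ | _) <;> rfl

theorem outF_eq (k : Option Bool) : outF k = CaseC658.mrk k := by
  rcases k with _ | _ <;> rfl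

theorem KO_eq (Φ : Space3 → ℝ) (ε b₀ te : ℝ) (q : ℕ → ℝ≥0∞) (k : Option Bool) :
    KO Φ ε b₀ te q k = stO ε b₀ te (CaseC658.outK Φ ε k) (CaseC658.mrk k) q := by
  unfold KO
  rw [outO_eq, outF_eq]

theorem outMap_outO (hΦ : AdmissiblePotential Φ) (ε : ℝ) (k : Option Bool) :
    OutMap (outO Φ ε k) := by
  rcases k with _ | (_ | _)
  · exact outMap_C hΦ ε
  · exact outMap_L' hΦ ε
  · exact outMap_C' hΦ ε

theorem outLeg_outO (hΦ : AdmissiblePotential Φ) (ε : ℝ) (k : Option Bool) :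
    OutLeg (outO Φ ε k) ε (legO hΦ ε k) := by
  rcases k with _ | (_ | _)
  · exact outLeg_C hΦ ε
  · exact outLeg_L' hΦ ε
  · exact outLeg_C' hΦ ε

theorem cLeg_legO (hΦ : AdmissiblePotential Φ) (hε : 0 ≤ ε) (k : Option Bool) :
    CLeg (legO hΦ ε k) := by
  rcases k with _ | (_ | _)
  · exact CLeg.legC hΦ hε
  · exact CLeg.legL' hΦ hε
  · exact CLeg.legC' hΦ hε

/-! ### Steps -/

/-- dominating kernel of the outcome `k` -/
def KOd (hΦ : AdmissiblePotential Φ) (ε b₀ : ℝ) (q : ℕ → ℝ≥0∞) (k : Option Bool) :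
    Kernel (Lab × LSt) (Lab × LSt) := mkK (outF k) q (domK (legO hΦ ε k) b₀)

/-- the dominating kernel of `K3` -/
def K3d (hΦ : AdmissiblePotential Φ) (ε b₀ : ℝ) (q : ℕ → ℝ≥0∞) :
    Kernel (Lab × LSt) (Lab × LSt) :=
  KOd hΦ ε b₀ q none + (KOd hΦ ε b₀ q (some false) + KOd hΦ ε b₀ q (some true))

variable {lam A : ℝ≥0∞} {W : LSt → ℝ≥0∞} {P : PPar} {T : ℝ}

theorem stepK_KO (hΦ : AdmissiblePotential Φ) (h : WPack b₀ T η lam W A) (hPW : P.W = W)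
    (hb : 0 ≤ b₀) (hε : 0 ≤ ε) (te : ℝ) {q : ℕ → ℝ≥0∞} (hq : ∀ m, q m ≠ ∞) (k : Option Bool) :
    StepK P (KO Φ ε b₀ te q k) (KOd hΦ ε b₀ q k) (lam * ∑' m, P.lam₁ ^ m * q m) :=
  stepK_leg h hPW hb (outMap_outO hΦ ε k) (outLeg_outO hΦ ε k) (cLeg_legO hΦ hε k) te
    (outF_le k) hq

/-- **The step property of `K3`.** -/
theorem stepK_K3 (hΦ : AdmissiblePotential Φ) (h : WPack b₀ T η lam W A) (hPW : P.W = W)
    (hb : 0 ≤ b₀) (hε : 0 ≤ ε) (te : ℝ) {q : ℕ → ℝ≥0∞} (hq : ∀ m, q m ≠ ∞) :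
    StepK P (K3 Φ ε b₀ te q) (K3d hΦ ε b₀ q) (3 * (lam * ∑' m, P.lam₁ ^ m * q m)) := by
  have h1 := (stepK_KO hΦ h hPW hb hε te hq none).add
    ((stepK_KO hΦ h hPW hb hε te hq (some false)).add (stepK_KO hΦ h hPW hb hε te hq (some true)))
  unfold K3 K3d
  refine h1.mono (le_of_eq ?_)
  ring

/-! ### The mark weights -/

/-- Bound of the mark sums. -/
def cQ (C lam lam₁ : ℝ) : ℝ≥0∞ :=
  ENNReal.ofReal C * (ENNReal.ofReal lam₁ * (1 - ENNReal.ofReal (lam₁ / lam))⁻¹)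

theorem cQ_ne_top {C lam lam₁ : ℝ} (h1 : 1 < lam₁) (h2 : lam₁ < lam) : cQ C lam lam₁ ≠ ∞ := by
  have h3 : lam₁ / lam < 1 := (div_lt_one (by linarith)).2 h2
  have h4 : ENNReal.ofReal (lam₁ / lam) < 1 := by
    rw [← ENNReal.ofReal_one]
    exact (ENNReal.ofReal_lt_ofReal_iff one_pos).2 h3
  unfold cQ
  refine ENNReal.mul_ne_top ENNReal.ofReal_ne_top (ENNReal.mul_ne_top ENNReal.ofReal_ne_top ?_)
  rw [Ne, ENNReal.inv_eq_top, tsub_eq_zero_iff_le]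
  exact not_le.2 h4

theorem tsum_qK_le {C lam lam₁ : ℝ} (h1 : 1 < lam₁) (h2 : lam₁ < lam) (K : ℕ) :
    ∑' m, ENNReal.ofReal lam₁ ^ m * qK C lam K m ≤ cQ C lam lam₁ := by
  have hl : 0 < lam := by linarith
  rw [tsum_eq_zero_add' ENNReal.summable]
  have h0 : ENNReal.ofReal lam₁ ^ 0 * qK C lam K 0 = 0 := by
    unfold qK
    rw [if_neg (by omega), mul_zero]
  rw [h0, zero_add]
  have h3 : ∀ m : ℕ, ENNReal.ofReal lam₁ ^ (m + 1) * qK C lam K (m + 1) ≤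
      ENNReal.ofReal C * (ENNReal.ofReal lam₁ * ENNReal.ofReal (lam₁ / lam) ^ m) := by
    intro m
    have h4 : qK C lam K (m + 1) ≤ ENNReal.ofReal C * ENNReal.ofReal (1 / lam) ^ m := by
      unfold qK
      split_ifs
      · exact le_rfl
      · exact zero_le
    refine (mul_le_mul_right h4 _).trans (le_of_eq ?_)
    have h5 : ENNReal.ofReal (lam₁ / lam) = ENNReal.ofReal lam₁ * ENNReal.ofReal (1 / lam) := by
      rw [← ENNReal.ofReal_mul (by linarith)]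
      congr 1
      ring
    rw [h5, mul_pow, pow_succ]
    ring
  refine (ENNReal.tsum_le_tsum h3).trans (le_of_eq ?_)
  rw [ENNReal.tsum_mul_left, ENNReal.tsum_mul_left, ENNReal.tsum_geometric]
  rfl

/-! ### The class parameters of the base law -/

/-- The class parameters of `B` with the line measure at horizon `te`. -/
def parB (B : BPar) (hB : B.Ok) {te : ℝ} (hte : te ≤ B.T) (K : ℕ) : PPar where
  W := B.W
  lam₁ := B.lam₁
  ℓ := lineM B.γ B.ρ K te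
  t' := te
  hW := hB.wp.meas
  hlam₁ := hB.l1
  hW1 z hz := hB.wp.one_le z (hz.trans hte)

theorem isPP_parB (B : BPar) (hB : B.Ok) {te : ℝ} (hte : te ≤ B.T) (K : ℕ) :
    IsPP B te K (parB B hB hte K) := ⟨rfl, rfl, rfl, rfl⟩

/-- **The parameters are admissible for the one-step inequality.** -/
theorem ppOk_parB {B : BPar} (hB : B.Ok) {Q : EPar} (hte : Q.te ≤ B.T) (hγ : Q.γ = B.γ)
    (hρ : Q.ρ = B.ρ) (hl : 1 < B.lam₁)
    (h4 : ∃ Cv : ℝ≥0∞, Cv ≠ ∞ ∧ ∀ z : LSt, z.1 ≤ B.T →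
      ENNReal.ofReal ((1 + ‖z.2.2‖) ^ 4) ≤ Cv * B.W z) :
    PPOk Q (parB B hB hte) where
  ell K := by rw [hγ, hρ]; rfl
  hor K := rfl
  vel K z hz := hB.wp.low z (hz.trans hte)
  vel4 := by
    obtain ⟨Cv, h1, h2⟩ := h4
    exact ⟨Cv, h1, fun K z hz => h2 z (hz.trans hte)⟩
  lam := ⟨B.lam₁, hl, fun _ => le_rfl⟩

/-- **The step property on the class of `B`.** -/
theorem stepK_parB (hΦ : AdmissiblePotential Φ) {B : BPar} (hB : B.Ok) {te : ℝ} (hte : te ≤ B.T)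
    (hε : 0 ≤ ε) {q : ℕ → ℕ → ℝ≥0∞} (hq : ∀ K m, q K m ≠ ∞) (K : ℕ) :
    StepK (parB B hB hte K) (K3 Φ ε B.b₀ te (q K)) (K3d hΦ ε B.b₀ (q K))
      (3 * (B.lam * ∑' m, B.lam₁ ^ m * q K m)) :=
  stepK_K3 hΦ hB.wp rfl hB.b0.le hε te (hq K)

/-- **Parameters of the base law with small contraction constant**, uniform in `K` (and in `ε`, in
`te ≤ T`). -/
theorem exists_B {T b₀ bs C lam lam₁ : ℝ} {γ : ℝ → ℝ} {ρ : ℝ≥0∞} (hT : 0 < T) (hb₀ : 0 < b₀)
    (hbs : b₀ ≤ bs) (h1 : 1 < lam₁) (h2 : lam₁ < lam) (hγ : Measurable γ)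
    (hγs : ∀ τ ∈ Ioc 0 T, γ τ ≤ bs) (hρ0 : ρ ≠ 0) (hρ1 : ρ ≤ 1) {θ : ℝ≥0∞} (hθ : 0 < θ) :
    ∃ B : BPar, B.Ok ∧ B.T = T ∧ B.b₀ = b₀ ∧ B.bs = bs ∧ B.γ = γ ∧ B.ρ = ρ ∧
      B.lam₁ = ENNReal.ofReal lam₁ ∧ (∃ Cv : ℝ≥0∞, Cv ≠ ∞ ∧ ∀ z : LSt, z.1 ≤ B.T →
        ENNReal.ofReal ((1 + ‖z.2.2‖) ^ 4) ≤ Cv * B.W z) ∧
      ∀ K, 3 * (B.lam * ∑' m, B.lam₁ ^ m * qK C lam K m) ≤ θ := by
  set c : ℝ≥0∞ := 3 * cQ C lam lam₁ + 1 with hc
  have hct : c ≠ ∞ := by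
    rw [hc]
    exact ENNReal.add_ne_top.2 ⟨ENNReal.mul_ne_top (by norm_num) (cQ_ne_top h1 h2),
      ENNReal.one_ne_top⟩
  have hc0 : c ≠ 0 := by
    rw [hc]
    simp
  obtain ⟨l, hl0, hl⟩ : ∃ l : ℝ, 0 < l ∧ ENNReal.ofReal l * c ≤ θ := by
    set θ' : ℝ≥0∞ := min θ 1 with hθ'
    have hθ't : θ' ≠ ∞ := ne_top_of_le_ne_top ENNReal.one_ne_top (min_le_right _ _)
    have hθ'0 : 0 < θ' := lt_min hθ one_pos
    have hd : θ' / c ≠ ∞ := ENNReal.div_ne_top hθ't hc0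
    have hd0 : 0 < θ' / c := ENNReal.div_pos hθ'0.ne' hct
    refine ⟨(θ' / c).toReal, ENNReal.toReal_pos hd0.ne' hd, ?_⟩
    rw [ENNReal.ofReal_toReal hd, ENNReal.div_mul_cancel hc0 hct]
    exact min_le_left _ _
  have hη : (0 : ℝ) < bs / 4 := by linarith
  obtain ⟨W, A, hW, hv⟩ := exists_weight4 (te := T) hb₀ hT hη hl0
  refine ⟨⟨T, b₀, bs, bs / 4, ENNReal.ofReal l, A, W, ENNReal.ofReal lam₁, γ, ρ⟩,
    ⟨hT, hW, ENNReal.ofReal_ne_top, hb₀, hbs, ?_, ?_, ENNReal.ofReal_ne_top, hγ, hγs, hρ0, hρ1⟩,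
    rfl, rfl, rfl, rfl, rfl, rfl, hv, fun K => ?_⟩
  · change bs / 4 < bs / 2
    linarith
  · change 1 ≤ ENNReal.ofReal lam₁
    rw [← ENNReal.ofReal_one]
    exact ENNReal.ofReal_le_ofReal h1.le
  · change 3 * (ENNReal.ofReal l * ∑' m, ENNReal.ofReal lam₁ ^ m * qK C lam K m) ≤ θ
    have h3 := tsum_qK_le (C := C) h1 h2 K
    calc 3 * (ENNReal.ofReal l * ∑' m, ENNReal.ofReal lam₁ ^ m * qK C lam K m)
        ≤ 3 * (ENNReal.ofReal l * cQ C lam lam₁) := by gcongr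
      _ = ENNReal.ofReal l * (3 * cQ C lam lam₁) := by ring
      _ ≤ ENNReal.ofReal l * c := by
          refine mul_le_mul_right ?_ _
          rw [hc]
          exact le_self_add
      _ ≤ θ := hl

/-- `KinC` is monotone in the Gaussian exponent. -/
theorem kinC_mono {Φ : Space3 → ℝ} {T : ℝ} {f : ℝ → PhasePoint → ℝ} {h₀ kap lam C b b' : ℝ}
    (h : Seg814.KinC Φ T f h₀ kap lam C b) (hb : 0 < b') (hle : b' ≤ b) :
    Seg814.KinC Φ T f h₀ kap lam C b' := by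
  obtain ⟨h1, h2, h3, h4, h5, h6⟩ := h
  have h7 : ∀ v : Space3, Kin796.wG b v ≤ Kin796.wG b' v := by
    intro v
    unfold Kin796.wG
    refine ENNReal.ofReal_le_ofReal (Real.exp_le_exp.2 ?_)
    have := mul_le_mul_of_nonneg_right hle (sq_nonneg ‖v‖)
    linarith
  refine ⟨h1, h2, h3, h4, hb, fun tw htw t ht x v => ?_⟩
  obtain ⟨h8, h9⟩ := h6 tw htw t ht x v
  exact ⟨h8.trans (mul_le_mul_right (h7 v) _), h9.trans (mul_le_mul_right (h7 v) _)⟩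

end Crest.Agent.R122.StepK85

end
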