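import Crest.Agent.R122.PairClose_566
import Crest.Agent.R122.PairStepK_85
import Crest.Agent.R122.Ineq1E_815

/-!
# Inequality 3: constants and windows (row 122, helper566)

* `Adm3` : admissible constants of inequality 3; `exists_adm3` : they exist for all small horizons and
  all line parameters.
* `parW` : class parameters of the window end `te`.
* `SlotSB` : the literal slot (one-step inequality, base law); `i3In_of_slots`.
-/

set_option autoImplicit false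

open MeasureTheory ProbabilityTheory Set Filter
open scoped ENNReal Classical Topology
open Crest.AnalysisR.Kinetic
open Crest.Agent.R122.GC311 Crest.Agent.R122.EDefs602 Crest.Agent.R122.EBasic602
open Crest.Agent.R122.Boost969 (LSt posAt)
open Crest.Agent.R122.Pair292 hiding ML
open Crest.Agent.R122.PairD292 Crest.Agent.R122.Top602 Crest.Agent.R122.Ineq1815
open Crest.Agent.R122.Master566 (KData)
open Crest.Agent.R122.Mark307 (BPar)
open Crest.Agent.R122.CaseC658 (qK)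
open Crest.Agent.R122.PairIter566 (Base3 ineq3_of)

noncomputable section

namespace Crest.Agent.R122.I3In566

set_option maxHeartbeats 400000

variable {Φ : Space3 → ℝ} {β T : ℝ} {f₀ : PhasePoint → ℝ} {f : ℝ → PhasePoint → ℝ}

/-- **Admissible constants** of inequality 3, for the line parameters `γ`, `ρ` and the horizon
`h₀` : constants `kap`, `lam`, `C`, `B.b₀` of the kinetic bounds, lower rate `g` of the line
measure, class parameters `B`. -/
structure Adm3 (Φ : Space3 → ℝ) (β T : ℝ) (f : ℝ → PhasePoint → ℝ) (γ : ℝ → ℝ) (ρ : ℝ≥0∞)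
    (h₀ kap lam C g : ℝ) (B : BPar) : Prop where
  /-- admissible class parameters -/
  ok : B.Ok
  /-- kinetic constants -/
  kin : Seg814.KinC Φ T f h₀ kap lam C B.b₀
  /-- energy weight -/
  kap_le : kap ≤ β
  /-- horizons `T' = tw + h₀` are allowed -/
  hor : T + h₀ ≤ B.T
  /-- rate of the class below the rate `2 * β` of `f₀` -/
  bs : B.bs ≤ β
  /-- line rate -/
  gam : B.γ = γ
  /-- mark factor -/
  rho : B.ρ = ρ
  /-- mark weight -/
  lam1 : 1 < B.lam₁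
  /-- mark weight and mark factor -/
  rl : B.ρ * B.lam₁ < 1
  /-- weight above the fourth power of the velocity -/
  v4 : ∃ Cv : ℝ≥0∞, Cv ≠ ∞ ∧ ∀ z : LSt, z.1 ≤ B.T →
    ENNReal.ofReal ((1 + ‖z.2.2‖) ^ 4) ≤ Cv * B.W z
  /-- positive lower rate -/
  g0 : 0 < g
  /-- fresh partners are slower than the lower rate -/
  bg : B.b₀ ≤ g
  /-- lower rate -/
  rate : ∀ τ : ℝ, τ ≤ T → g ≤ γ τ
  /-- contraction constant of the continuation kernels -/
  cst : ∀ K, 3 * (B.lam * ∑' m, B.lam₁ ^ m * qK C lam K m) ≤ 2⁻¹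

theorem kinC_hor {h₀ h₁ kap lam C b : ℝ} (h : Seg814.KinC Φ T f h₁ kap lam C b) (h0 : 0 < h₀)
    (hle : h₀ ≤ h₁) : Seg814.KinC Φ T f h₀ kap lam C b := by
  obtain ⟨h1, h2, h3, h4, h5, h6⟩ := h
  exact ⟨h0, h2, h3, h4, h5, fun tw htw t ht =>
    h6 tw htw t ⟨ht.1, ht.2.trans (add_le_add le_rfl hle)⟩⟩

/-- **The constants exist.** -/
theorem exists_adm3 (hD : KData Φ β T f₀ f) :
    InHL T fun h₀ γ ρ => h₀ ≤ 1 ∧ ∃ (kap lam C g : ℝ) (B : BPar), Adm3 Φ β T f γ ρ h₀ kap lam C g B := by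
  obtain ⟨h₁, kap, lam, C, b, hK, hkap⟩ := Q1815.exists_kinC_kdata hD
  obtain ⟨hh₁, -, hlam, hC, hb, -⟩ := id hK
  refine ⟨min h₁ 1, lt_min hh₁ one_pos, β, hD.beta_pos, 2⁻¹, by norm_num,
    fun h₀ h0 hle γ ρ hl => ⟨hle.trans (min_le_right _ _), ?_⟩⟩
  obtain ⟨γ₀, κ, hκ, hγ, hpos, hγ₀⟩ := hl.lin
  set g : ℝ := γ₀ - κ * T with hg
  have hρ0 : ρ ≠ 0 := by
    have h1 : (2⁻¹ : ℝ≥0∞) ≤ ρ := hl.lo
    intro h2
    rw [h2] at h1
    simp at h1
  have hρ1 : ρ < 1 := hl.hi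
  have hρt : ρ ≠ ∞ := (hρ1.trans_le le_top).ne
  have hbβ : min (min b g) β ≤ β := min_le_right _ _
  have hb' : 0 < min (min b g) β := lt_min (lt_min hb hpos) hD.beta_pos
  -- the mark weight
  obtain ⟨lam₁, hl1, hl2, hl3⟩ : ∃ lam₁ : ℝ, 1 < lam₁ ∧ lam₁ < lam ∧
      ρ * ENNReal.ofReal lam₁ < 1 := by
    have hρr : ρ.toReal < 1 := by
      have := (ENNReal.toReal_lt_toReal hρt ENNReal.one_ne_top).2 hρ1
      simpa using this
    have hρp : 0 < ρ.toReal := ENNReal.toReal_pos hρ0 hρt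
    have h1 : 1 < min lam (1 / ρ.toReal) := by
      refine lt_min hlam ?_
      rw [lt_div_iff₀ hρp, one_mul]
      exact hρr
    obtain ⟨x, hx1, hx2⟩ := exists_between h1
    refine ⟨x, hx1, hx2.trans_le (min_le_left _ _), ?_⟩
    have h2 : x < 1 / ρ.toReal := hx2.trans_le (min_le_right _ _)
    have h3 : ρ.toReal * x < 1 := by
      rw [lt_div_iff₀ hρp] at h2
      linarith
    rw [← ENNReal.ofReal_toReal hρt, ← ENNReal.ofReal_mul hρp.le, ← ENNReal.ofReal_one]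
    exact (ENNReal.ofReal_lt_ofReal_iff one_pos).2 h3
  have hγs : ∀ τ ∈ Ioc 0 (T + 1), γ τ ≤ β := by
    intro τ hτ
    rw [hγ]
    have := mul_pos hκ hτ.1
    simp only
    linarith
  obtain ⟨B, hB, hBT, hBb, hBs, hBγ, hBρ, hBl, hB4, hBc⟩ := StepK85.exists_B (C := C)
    (T := T + 1) (b₀ := min (min b g) β) (bs := β) (lam := lam) (lam₁ := lam₁) (γ := γ) (ρ := ρ)
    (by linarith [hD.T_pos]) hb' hbβ hl1 hl2 hl.measurable hγs hρ0 hρ1.le (θ := 2⁻¹)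
    (by norm_num)
  refine ⟨kap, lam, C, g, B, hB, ?_, hkap, ?_, hBs.le, hBγ, hBρ, ?_, ?_, hB4, hpos, ?_, ?_,
    hBc⟩
  · rw [hBb]
    exact StepK85.kinC_mono (kinC_hor hK h0 (hle.trans (min_le_left _ _))) hb'
      ((min_le_left _ _).trans (min_le_left _ _))
  · rw [hBT]
    linarith [hle.trans (min_le_right h₁ 1)]
  · rw [hBl, ← ENNReal.ofReal_one]
    exact (ENNReal.ofReal_lt_ofReal_iff (by linarith)).2 hl1
  · rw [hBρ, hBl]
    exact hl3
  · rw [hBb]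
    exact (min_le_left _ _).trans (min_le_right _ _)
  · intro τ hτ
    rw [hγ, hg]
    have := mul_le_mul_of_nonneg_left hτ hκ.le
    simp only
    linarith

/-! ### Class parameters of a window -/

/-- Class parameters with the line measure at horizon `te` (at `B.T` if `te > B.T`). -/
def parW (B : BPar) (hB : B.Ok) (te : ℝ) : ℕ → PPar :=
  if h : te ≤ B.T then StepK85.parB B hB h else StepK85.parB B hB le_rfl

theorem parW_of_le {B : BPar} (hB : B.Ok) {te : ℝ} (h : te ≤ B.T) :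
    parW B hB te = StepK85.parB B hB h := dif_pos h

section adm

variable {γ : ℝ → ℝ} {ρ : ℝ≥0∞} {h₀ kap lam C g : ℝ} {B : BPar}

theorem Adm3.h0 (h : Adm3 Φ β T f γ ρ h₀ kap lam C g B) : 0 < h₀ := h.kin.1

theorem Adm3.lt_lam (h : Adm3 Φ β T f γ ρ h₀ kap lam C g B) : 1 < lam := h.kin.2.2.1

theorem Adm3.C0 (h : Adm3 Φ β T f γ ρ h₀ kap lam C g B) : 0 ≤ C := h.kin.2.2.2.1

theorem Adm3.b0 (h : Adm3 Φ β T f γ ρ h₀ kap lam C g B) : 0 < B.b₀ := h.ok.b0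

theorem Adm3.le_BT (h : Adm3 Φ β T f γ ρ h₀ kap lam C g B) {te : ℝ} (hte : te ≤ T) :
    te ≤ B.T := by linarith [h.hor, h.h0]

theorem Adm3.ppOk (h : Adm3 Φ β T f γ ρ h₀ kap lam C g B) {L tw te : ℝ} (hte : te ≤ T) :
    PPOk (epar γ ρ L tw te) (parW B h.ok te) := by
  rw [parW_of_le h.ok (h.le_BT hte)]
  exact StepK85.ppOk_parB h.ok (Q := epar γ ρ L tw te) (h.le_BT hte) h.gam.symm h.rho.symm h.lam1
    h.v4

theorem qK_ne_top (C lam : ℝ) (K m : ℕ) : qK C lam K m ≠ ∞ := by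
  unfold qK
  split_ifs
  · exact ENNReal.mul_ne_top ENNReal.ofReal_ne_top (ENNReal.pow_ne_top ENNReal.ofReal_ne_top)
  · exact ENNReal.zero_ne_top

theorem Adm3.stepK (hΦ : AdmissiblePotential Φ) (h : Adm3 Φ β T f γ ρ h₀ kap lam C g B) {te : ℝ}
    (hte : te ≤ T) (K : ℕ) {ε : ℝ} (hε : 0 < ε) :
    StepK (parW B h.ok te K) (K3 Φ ε B.b₀ te (qK C lam K)) (StepK85.K3d hΦ ε B.b₀ (qK C lam K))
      2⁻¹ := by
  rw [parW_of_le h.ok (h.le_BT hte)]
  exact (StepK85.stepK_parB hΦ h.ok (h.le_BT hte) hε.le (fun K m => qK_ne_top C lam K m) K).mono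
    (h.cst K)

end adm

/-! ### The slot -/

/-- The one-step inequality and the base law of all windows. -/
def SlotSB (Φ : Space3 → ℝ) (f₀ : PhasePoint → ℝ) (f : ℝ → PhasePoint → ℝ) (T : ℝ) (γ : ℝ → ℝ)
    (ρ : ℝ≥0∞) (h₀ lam C : ℝ) (B : BPar) (hB : B.Ok) : Prop :=
  ∃ C₂ : ℝ≥0∞, C₂ ≠ ∞ ∧ ∃ σ₁ : ℝ → ℝ≥0∞, Tendsto σ₁ (𝓝[>] 0) (𝓝 0) ∧
    ∀ m : ℕ, ∃ c : ℝ≥0∞, c ≠ ∞ ∧ ∀ r : ℝ, 0 < r → r < 1 → ∃ o₁ : ℝ → ℝ → ℝ≥0∞, Vanish o₁ ∧
      EvW T fun h L tw te => IH Φ f₀ f T γ ρ tw → ∃ bd : ℕ → ℝ → SF2,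
        Step6 Φ f₀ (epar γ ρ L tw te) (tw + h₀) r B.b₀ (qK C lam) (parW B hB te) bd
          (σ₁ r + o₁ h L) C₂ ∧
        Base3 Φ f₀ (epar γ ρ L tw te) (tw + h₀) B.b₀ (qK C lam) (parW B hB te) bd c
          (PMn Φ f₀ γ ρ h₀ m L tw te)

/-- **INEQUALITY 3** from the pointwise form of inequality 1 and the slot. -/
theorem i3In_of_slots (hD : KData Φ β T f₀ f) (hPt : PtAll Φ f₀ f T)
    (h : InHL T fun h₀ γ ρ => ∀ (kap lam C g : ℝ) (B : BPar)
      (hA : Adm3 Φ β T f γ ρ h₀ kap lam C g B), SlotSB Φ f₀ f T γ ρ h₀ lam C B hA.ok) :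
    I3In Φ f₀ f T := by
  refine ((hPt.and (exists_adm3 hD)).and h).mono fun h₀ γ ρ h0 hl hh => ?_
  obtain ⟨g1, r1, hl⟩ := hl
  obtain ⟨⟨hP, -, kap, lam, C, g, B, hA⟩, hS⟩ := hh
  obtain ⟨C₂, hC₂, σ₁, hσ₁, hSB⟩ := hS kap lam C g B hA
  exact ineq3_of hD hl hP (PP := parW B hA.ok) (fun L tw te hte => hA.ppOk hte) le_rfl
    (fun te hte K ε hε => hA.stepK hD.adm hte K hε) hC₂ hσ₁ hSB

end Crest.Agent.R122.I3In566
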