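import Crest.Agent.R122.Link6Slots_796
import Crest.Agent.R122.EncSel_741

/-!
# Row 122, LINK6 (helper796): `NullFacts` of a countable family of pair laws, with the error term of
the pointwise inequality of inequality 3

`link6` : from `Slots6` for every tree and shape: one measurable functional `bd ≥ bd6` on the
structures of `StmtPt6` and `NullFacts Φ f₀ Q T' bd (ν j)` for every `j`.
-/

set_option autoImplicit false
set_option linter.unusedSectionVars false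

open MeasureTheory Set Filter Topology
open scoped Classical ENNReal
open Crest.AnalysisR.Kinetic
open Crest.Agent.R122.GC311 Crest.Agent.R122.EDefs602
open Crest.Agent.R122.Kin796 Crest.Agent.R122.Kin796.CTree Crest.Agent.R122.Tree674
open Crest.Agent.R122.Gate424 Crest.Agent.R122.Gate973
open Crest.Agent.R122.Boost969 (LSt)
open Crest.Agent.R122.Pair292 (Lab PPar PX)
open Crest.Agent.R122.PairD292 Crest.Agent.R122.Pt6811 Crest.Agent.R122.Third741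
open Crest.Agent.R122.PairRep581 Crest.Agent.R122.GateOS2495

noncomputable section

namespace Crest.Agent.R122.Link6796

variable {Φ : Space3 → ℝ} {f₀ : PhasePoint → ℝ}

/-- **LINK6.** -/
theorem link6 (hΦ : AdmissiblePotential Φ) {A : Space3 → ℝ≥0∞} {C b g0 : ℝ}
    (hF₀ : FOk f₀ A C b) {Q : EPar} (hQ : QOk Q g0) {PP : ℕ → PPar} (hP : PPOk Q PP) {T' : ℝ}
    {J : Type} [Countable J] {ι : J → ℕ → Type} [∀ j K, Fintype (ι j K)]
    {ν Ξ : J → ℕ → ℝ → Measure (Lab × LSt)} {S : ∀ j K, ι j K → Shp}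
    (hR : ∀ j K, Rep (ν j K) (S j K)) (hB : ∀ j K s, StandardBorelSpace (S j K s).Θ)
    (hν : ∀ j K ε, 0 < ε → SFinite (ν j K ε)) {c : J → ℝ≥0∞} (hc : ∀ j, c j ≠ ∞)
    {ε₁ : J → ℝ} (hε₁ : ∀ j, 0 < ε₁ j)
    (hPX : ∀ j K ε, 0 < ε → ε < ε₁ j → PX (PP K) (Ξ j K ε) (ν j K ε) (c j))
    (hS : ∀ j K P s, P.leaves ≤ K → Slots6 Φ f₀ Q T' K P (S j K s))
    {σ : ℝ → ℝ} (hσ : ∀ R : ℕ, ∃ ε₀ : ℝ, 0 < ε₀ ∧ ∀ ε, 0 < ε → ε < ε₀ → ε * R ≤ σ ε)
    (hok : ∀ j K ε, 0 < ε → OkAE Φ ε K (ν j K ε))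
    (hbad : ∀ j, Null fun K ε => BAD Φ f₀ ε K Q (ν j K ε)) :
    ∃ bd : ℕ → ℝ → SF2,
      (∀ (K : ℕ) (ε : ℝ), 0 < ε → ∀ (P : CTree) (z : PhasePoint × Par P) (m : ℕ)
        (w : Config m) (θ : Lab × LSt), Gd6 Φ ε K Q T' P z w θ →
        bd6 Φ Q σ K ε P z m w θ ≤ bd K ε P z m w θ) ∧
      ∀ j, NullFacts Φ f₀ Q T' bd (ν j) := by
  obtain ⟨bd, h1, h2⟩ := nullFacts_enc hΦ hF₀ hQ hP hR hB hν hc hε₁ hPX
    (F := fun R => F6 Φ Q T' (R : ℝ))
    (fun R j K P s hPK => (hS j K P s hPK).fNull hF₀.meas (Nat.cast_nonneg R)) hσ hok hbad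
  refine ⟨bd, fun K ε hε P z m w θ hg => ?_, h2⟩
  have hPK : P.leaves ≤ K := (Nat.le_add_left _ _).trans hg.small
  exact h1 K ε hε P hPK z m w θ hg.real.exw hg.real.valid hg.real.ct hg.real.okL _ fun R hRσ =>
    bd6_le_F6 hΦ hε (Nat.cast_nonneg R) hRσ hg

/-- The hypothesis of helper811's `stmtPt6_of`. -/
theorem hbd_of_gd {Q : EPar} {T' : ℝ} {σ : ℝ → ℝ} {bd : ℕ → ℝ → SF2}
    (hbd : ∀ (K : ℕ) (ε : ℝ), 0 < ε → ∀ (P : CTree) (z : PhasePoint × Par P) (m : ℕ)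
        (w : Config m) (θ : Lab × LSt), Gd6 Φ ε K Q T' P z w θ →
        bd6 Φ Q σ K ε P z m w θ ≤ bd K ε P z m w θ) :
    ∀ (K : ℕ) (ε : ℝ), 0 < ε → ∀ (P : CTree) (z : PhasePoint × Par P) (m : ℕ)
      (w : Config m) (θ : Lab × LSt), (eL θ).2 + P.leaves ≤ K → Real6 Φ ε K Q.te T' P z w θ →
      GIV566.unhit Φ ε (OneC285.ptube Φ ε P z) Q.tw w →
      bd6 Φ Q σ K ε P z m w θ ≤ bd K ε P z m w θ :=
  fun K ε hε P z m w θ hK hR hu => hbd K ε hε P z m w θ ⟨hK, hR, hu⟩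

end Crest.Agent.R122.Link6796

end
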