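import Crest.Agent.R122.TopE_602

/-!
Row 122 (helper814): the unknowns of section E vanish on empty windows (`te ≤ tw`).
-/

set_option autoImplicit false

open MeasureTheory Set Filter
open scoped ENNReal Topology
open Crest.AnalysisR.Kinetic
open Crest.Agent.R122.GC311 Crest.Agent.R122.EDefs602 Crest.Agent.R122.Top602

noncomputable section

namespace Crest.Agent.R122.WinZero814

variable {Φ : Space3 → ℝ} {f₀ : PhasePoint → ℝ} {ε : ℝ} {K : ℕ} {Q : EPar}

theorem touchW_eq_zero {ι : Type} [Fintype ι] (h : Q.te ≤ Q.tw) (Z : MW ι) (l : ML) :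
    Z.touchW Φ ε K Q l = 0 := by
  unfold MW.touchW
  exact if_neg fun hc => absurd (hc.1.trans_le hc.2) (not_lt.2 h)

theorem touchP_eq_zero {ι : Type} [Fintype ι] (h : Q.te ≤ Q.tw) (Z : MW ι) (d e : ML) :
    Z.touchP Φ ε K Q d e = 0 := by
  unfold MW.touchP
  exact if_neg fun hc => absurd (hc.1.trans_le (hc.2.1.trans hc.2.2)) (not_lt.2 h)

theorem PE_eq_zero (h : Q.te ≤ Q.tw) (ν : Measure (ML × ML)) : PE Φ f₀ ε K Q ν = 0 := by
  unfold PE
  simp only [touchP_eq_zero h, lintegral_zero]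
  exact gcE_zero f₀ ε

theorem PMn_eq_zero {γ : ℝ → ℝ} {ρ : ℝ≥0∞} {h₀ L tw te : ℝ} (h : te ≤ tw) (m : ℕ) :
    PMn Φ f₀ γ ρ h₀ m L tw te K ε = 0 :=
  PE_eq_zero (Q := epar γ ρ L tw te) h _

end Crest.Agent.R122.WinZero814

end
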