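import Crest.Agent.R122.I3Step_478
import Crest.Agent.R122.I3In_566
import Crest.Agent.R122.Link6Fin_796
import Crest.Agent.R122.WinZero_814

/-!
# Inequality 3 of section E: the final form (row 122, helper478)

* `Base3W` : the base law of one window and the facts of all levels (helper566's `Base3`), the error
  functional `bd` above helper811's `bd6`.
* `Base3In` : `Base3W` for all small horizons, all line parameters, all admissible constants and all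
  short windows with `tw < te`.
* `i3In_of_base` : **INEQUALITY 3** from inequality 1 (pointwise), the null facts of the spread terms
  and `Base3In`; `i3In_of_open` : the same from `Link4In`.
-/

set_option autoImplicit false

open MeasureTheory ProbabilityTheory Set Filter
open scoped ENNReal Classical Topology
open Crest.AnalysisR.Kinetic
open Crest.Agent.R122.Kin796 Crest.Agent.R122.Kin796.CTree Crest.Agent.R122.Tree674
open Crest.Agent.R122.GC311 Crest.Agent.R122.EDefs602 Crest.Agent.R122.EBasic602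
open Crest.Agent.R122.Boost969 (LSt posAt)
open Crest.Agent.R122.Pair292 hiding ML
open Crest.Agent.R122.PairD292 Crest.Agent.R122.Top602 Crest.Agent.R122.Ineq1815
open Crest.Agent.R122.Master566 (KData)
open Crest.Agent.R122.Mark307 (BPar)
open Crest.Agent.R122.CaseC658 (qK)
open Crest.Agent.R122.I3In566 (Adm3 parW SlotSB)
open Crest.Agent.R122.PairIter566 (Base3)
open Crest.Agent.R122.Link6796 (Gd6)
open Crest.Agent.R122.Pt6811 (bd6)
open Crest.Agent.R122.I3Step478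

noncomputable section

namespace Crest.Agent.R122.I3Fin478

set_option maxHeartbeats 400000

variable {Φ : Space3 → ℝ} {β T : ℝ} {f₀ : PhasePoint → ℝ} {f : ℝ → PhasePoint → ℝ}

/-! ### Empty windows -/

theorem px_zero (P : PPar) (c : ℝ≥0∞) : PX P (0 : Measure (Lab × LSt)) 0 c := by
  refine ⟨inferInstance, inferInstance, fun F _ => ?_, fun F _ => ?_, fun a => ?_⟩
  · simp
  · simp
  · simp

theorem bindN_zero (K : Kernel (Lab × LSt) (Lab × LSt)) (j : ℕ) :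
    bindN (0 : Measure (Lab × LSt)) K j = 0 := by
  induction j with
  | zero => rfl
  | succ j ih =>
    change (bindN (0 : Measure (Lab × LSt)) K j).bind K = 0
    rw [ih, Measure.bind_zero_left]

theorem base3_zero {Q : EPar} {T' b₀ : ℝ} {q : ℕ → ℕ → ℝ≥0∞} {PP : ℕ → PPar} {c : ℝ≥0∞}
    {PM : ℕ → ℝ → ℝ≥0∞} (hPM : ∀ K ε, PM K ε = 0) :
    Base3 Φ f₀ Q T' b₀ q PP (fun _ _ _ _ _ _ _ => 0) c PM := by
  refine ⟨fun _ _ => 0, fun _ _ => 0, fun K ε _ => px_zero _ _, ⟨fun _ _ => 0, Small.zero,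
    Ev.of_forall fun K ε _ => by rw [hPM]; exact bot_le⟩, fun j K ε _ => ?_, fun j => ?_⟩
  · rw [bindN_zero]
    simp
  · refine ⟨fun K ε _ n => ?_, ?_, fun K ε _ P m => measurable_const, ?_⟩
    · rw [bindN_zero, Measure.prod_zero]
      simp
    · refine Null.zero.mono fun K ε _ => le_of_eq ?_
      unfold BAD
      simp only [bindN_zero, lintegral_zero_measure]
      exact gcE_zero f₀ ε
    · refine Null.zero.mono fun K ε _ => le_of_eq ?_
      unfold OS2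
      simp only [bindN_zero, lintegral_zero_measure]
      simp [gcE_zero]

theorem step6_zero {Q : EPar} (h : Q.te ≤ Q.tw) {T' r b₀ : ℝ} {q : ℕ → ℕ → ℝ≥0∞}
    {PP : ℕ → PPar} {bd : ℕ → ℝ → SF2} {C₁ C₂ : ℝ≥0∞} :
    Step6 Φ f₀ Q T' r b₀ q PP bd C₁ C₂ := by
  refine ⟨fun _ _ => 0, Small.zero, fun K ε hε _ hs => ?_⟩
  exfalso
  have h1 : 0 < slk ε := Real.sqrt_pos.2 hε
  linarith

/-! ### The literal input -/

/-- One window: the error functional `bd` of the pointwise inequality, the base law and the facts of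
all its continuations. -/
def Base3W (Φ : Space3 → ℝ) (f₀ : PhasePoint → ℝ) (Q : EPar) (T' b₀ : ℝ) (q : ℕ → ℕ → ℝ≥0∞)
    (PP : ℕ → PPar) (c : ℝ≥0∞) (PM : ℕ → ℝ → ℝ≥0∞) : Prop :=
  ∃ bd : ℕ → ℝ → SF2,
    (∀ (K : ℕ) (ε : ℝ), 0 < ε → ∀ (P : CTree) (z : PhasePoint × Par P) (m : ℕ)
      (w : Config m) (θ : Lab × LSt), Gd6 Φ ε K Q T' P z w θ →
      bd6 Φ Q slk K ε P z m w θ ≤ bd K ε P z m w θ) ∧
    Base3 Φ f₀ Q T' b₀ q PP bd c PM

/-- **The base laws of all windows.** -/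
def Base3In (Φ : Space3 → ℝ) (β : ℝ) (f₀ : PhasePoint → ℝ) (f : ℝ → PhasePoint → ℝ) (T : ℝ) :
    Prop :=
  InHL T fun h₀ γ ρ => ∀ (kap lam C g : ℝ) (B : BPar)
    (hA : Adm3 Φ β T f γ ρ h₀ kap lam C g B), ∀ m : ℕ, ∃ c : ℝ≥0∞, c ≠ ∞ ∧
      EvW T fun _ L tw te => IH Φ f₀ f T γ ρ tw → tw < te → te < tw + h₀ →
        Base3W Φ f₀ (epar γ ρ L tw te) (tw + h₀) B.b₀ (qK C lam) (parW B hA.ok te) c
          (PMn Φ f₀ γ ρ h₀ m L tw te)

/-- The null facts of the spread terms, all tree horizons (helper815's form). -/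
theorem nullABIn_of (h : InHL T fun _ γ ρ => EvW T fun _ L tw te => IH Φ f₀ f T γ ρ tw →
    ∀ T' : ℝ, H5Top814.NullAB Φ f₀ (epar γ ρ L tw te) T') : NullABIn Φ f₀ f T :=
  h.mono fun _ _ _ _ _ h => h.mono fun _ _ _ _ _ _ _ hq hI => hq hI _

/-- helper566's slot. -/
theorem slotSB (hD : KData Φ β T f₀ f) {h₀ : ℝ} (h0 : 0 < h₀) {γ : ℝ → ℝ} {ρ : ℝ≥0∞}
    (hγ : Measurable γ) {kap lam C g : ℝ} {B : BPar} (hA : Adm3 Φ β T f γ ρ h₀ kap lam C g B)
    {σ : ℝ → ℝ≥0∞} (hσ : Tendsto σ (𝓝[>] 0) (𝓝 0))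
    (hS : ∀ r : ℝ, 0 < r →
        ∃ o : ℝ → ℝ → ℝ≥0∞, Vanish o ∧ EvW T fun h L tw te => IH Φ f₀ f T γ ρ tw →
          ∀ PP : ℕ → PPar, PPOk (epar γ ρ L tw te) PP →
          ∀ bd : ℕ → ℝ → SF2, (∀ K ε, 0 < ε → MeasSF2 (bd K ε)) →
          StmtPt6 Φ (epar γ ρ L tw te) (tw + h₀) r (H5994.tOc Φ (epar γ ρ L tw te) (tw + h₀))
            (H5994.tYc Φ (epar γ ρ L tw te) (tw + h₀)) bd →
          Step6 Φ f₀ (epar γ ρ L tw te) (tw + h₀) r B.b₀ (qK C lam) PP bd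
            (σ r + o h L) Direct658.v1)
    (hB : ∀ m : ℕ, ∃ c : ℝ≥0∞, c ≠ ∞ ∧
      EvW T fun _ L tw te => IH Φ f₀ f T γ ρ tw → tw < te → te < tw + h₀ →
        Base3W Φ f₀ (epar γ ρ L tw te) (tw + h₀) B.b₀ (qK C lam) (parW B hA.ok te) c
          (PMn Φ f₀ γ ρ h₀ m L tw te)) :
    SlotSB Φ f₀ f T γ ρ h₀ lam C B hA.ok := by
  refine ⟨Direct658.v1, Direct658.v1_ne_top, σ, hσ, fun m => ?_⟩
  obtain ⟨c, hc, hBm⟩ := hB m
  refine ⟨c, hc, fun r hr _ => ?_⟩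
  obtain ⟨o, ho, hSr⟩ := hS r hr
  refine ⟨o, ho, ((hSr.and hBm).and (evW_le (half_pos h0))).mono
    fun h L tw te _ hL hw hq hI => ?_⟩
  obtain ⟨⟨hq1, hq2⟩, hh⟩ := hq
  rcases le_or_gt te tw with hz | hz
  · exact ⟨_, step6_zero hz, base3_zero fun K ε => WinZero814.PMn_eq_zero hz m⟩
  have hte : te < tw + h₀ := by linarith [hw.short]
  obtain ⟨bd, hbd, hB3⟩ := hq2 hI hz hte
  have hbm : ∀ K ε, 0 < ε → MeasSF2 (bd K ε) := by
    obtain ⟨Ξ, ν, -, -, -, hN⟩ := hB3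
    exact (hN 0).meas
  refine ⟨bd, hq1 hI _ (hA.ppOk hw.le_T) bd hbm ?_, hB3⟩
  exact Pt6811.stmtPt6 hD.adm (Q := epar γ ρ L tw te) (zero_lt_one.trans_le hL)
    (hw.nonneg.trans hw.le) hte.le hγ (Link6796.hbd_of_gd hbd)

/-- **INEQUALITY 3.** -/
theorem i3In_of_base (hD : KData Φ β T f₀ f) (hPt : PtAll Φ f₀ f T) (hAB : NullABIn Φ f₀ f T)
    (hB : Base3In Φ β f₀ f T) : I3In Φ f₀ f T := by
  refine I3In566.i3In_of_slots hD hPt (((step6In hD hAB).and hB).mono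
    fun h₀ γ ρ h0 hl hh kap lam C g B hA => ?_)
  obtain ⟨g1, r1, hl⟩ := hl
  obtain ⟨hS, hB⟩ := hh
  obtain ⟨σ, hσ, hS⟩ := hS kap lam C B.b₀ hA.kin
  exact slotSB hD h0 hl.measurable hA hσ hS (hB kap lam C g B hA)

/-- **INEQUALITY 3** from its open inputs. -/
theorem i3In_of_open (hD : KData Φ β T f₀ f) (h4 : Link4In Φ f₀ f T) (hAB : NullABIn Φ f₀ f T)
    (hB : Base3In Φ β f₀ f T) : I3In Φ f₀ f T :=
  i3In_of_base hD (ptAll_of_parts hD ⟨LNSkel291.rtgIn hD, h4⟩) hAB hB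

end Crest.Agent.R122.I3Fin478

end
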