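import Crest.Agent.R122.ThirdV_796

/-!
# Members of the tree near the encounter, fixed radius (row 122, helper796)

`MemM` : `Mem` with the radius `a (1 + M + |u|)`, `M` a number; `tendsto_lintegral_memM` : the mass of
the trees and contact times with `MemM` tends to `0` when `a → 0` (helper741's families).
-/

set_option autoImplicit false

open MeasureTheory Set Filter
open scoped ENNReal Classical Topology
open Crest.AnalysisR.Kinetic
open Crest.Agent.R122.Kin796 Crest.Agent.R122.Kin796.CTree Crest.Agent.R122.Tree674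
open Crest.Agent.R122.GC311 Crest.Agent.R122.EDefs602 Crest.Agent.R122.TreeLines335
open Crest.Agent.R122.OneC285 Crest.Agent.R122.Disc416 Crest.Agent.R122.OneC423
open Crest.Agent.R122.TreeDom974 Crest.Agent.R122.Third741 Crest.Agent.R122.PathFlow968

noncomputable section

namespace Crest.Agent.R122.ThirdV796

variable {Φ : Space3 → ℝ} {f₀ : PhasePoint → ℝ}

/-- The tree is valid at time `s`, and the root has just left its last window or an exit line is
`a (1 + M + |u|)`-close (up to the relative motion during `a`) to the root line at time `s`. -/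
def MemM (Φ : Space3 → ℝ) (te a ε : ℝ) (P : CTree) (q : Space3 × Par P) (s M : ℝ) : Prop :=
  (s ≤ te ∧ Valid Φ ε P s q.1 q.2) ∧ (s ≤ rel P q.2 (root P) + a ∨ ∃ i : Idx P, i ≠ root P ∧
    dist (onLine (LineMeas994.finM Φ ε P (0, q.1) q.2 i) s).1 (s • q.1) ≤
      a * (1 + M + ‖q.1‖) + a * ‖(LineMeas994.finM Φ ε P (0, q.1) q.2 i).2 - q.1‖)

theorem mem_iff_memM {te a ε : ℝ} {P : CTree} {q : Space3 × Par P} {s : ℝ} {v : Space3} :
    Mem Φ te a ε P q s v ↔ MemM Φ te a ε P q s ‖v‖ := Iff.rfl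

theorem MemM.mono {te a ε : ℝ} {P : CTree} {q : Space3 × Par P} {s M M' : ℝ} (ha : 0 ≤ a)
    (hM : M ≤ M') (h : MemM Φ te a ε P q s M) : MemM Φ te a ε P q s M' := by
  refine ⟨h.1, h.2.imp id ?_⟩
  rintro ⟨i, hi, hd⟩
  refine ⟨i, hi, hd.trans ?_⟩
  have : a * (1 + M + ‖q.1‖) ≤ a * (1 + M' + ‖q.1‖) :=
    mul_le_mul_of_nonneg_left (by linarith) ha
  linarith

/-- Indicator of `MemM`. -/
def memI (Φ : Space3 → ℝ) (te a ε : ℝ) (P : CTree) (q : Space3 × Par P) (s M : ℝ) : ℝ≥0∞ :=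
  if MemM Φ te a ε P q s M then 1 else 0

theorem memI_le_one (te a ε : ℝ) (P : CTree) (q : Space3 × Par P) (s M : ℝ) :
    memI Φ te a ε P q s M ≤ 1 := by
  unfold memI
  split_ifs
  · exact le_rfl
  · exact bot_le

theorem memI_eq (te a ε : ℝ) (P : CTree) (q : Space3 × Par P) (s : ℝ) (v b : Space3) :
    memI Φ te a ε P q s ‖v‖ = memF Φ te a ε P q s v b := rfl

theorem exists_norm_eq {M : ℝ} (hM : 0 ≤ M) : ∃ v : Space3, ‖v‖ = M := by
  refine ⟨M • EuclideanSpace.single (0 : Fin 3) (1 : ℝ), ?_⟩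
  rw [norm_smul, Real.norm_eq_abs, abs_of_nonneg hM]
  simp

theorem measurable_memI (hΦ : AdmissiblePotential Φ) (te a ε : ℝ) (P : CTree) {M : ℝ}
    (hM : 0 ≤ M) :
    Measurable fun x : (Space3 × Par P) × ℝ => memI Φ te a ε P x.1 x.2 M := by
  obtain ⟨v, rfl⟩ := exists_norm_eq hM
  exact Measurable.comp (g := fun x : (Space3 × Par P) × (ℝ × (Space3 × Space3)) =>
      memF Φ te a ε P x.1 x.2.1 x.2.2.1 x.2.2.2)
    (f := fun x : (Space3 × Par P) × ℝ => (x.1, (x.2, (v, (0 : Space3)))))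
    (measurable_memF hΦ te a ε P) (by fun_prop)

/-- Convergence at generic parameters. -/
theorem tendsto_memI (hΦ : AdmissiblePotential Φ) {te : ℝ} {a : ℝ → ℝ}
    (ha : Tendsto a (𝓝[>] 0) (𝓝 0)) {P : CTree} {q : Space3 × Par P}
    (hq : Valid Φ 0 P te q.1 q.2 → Gen Φ P (0, q.1) q.2) {s : ℝ} (hs : s ∈ Ioc 0 te)
    {M : ℝ} (hM : 0 ≤ M) :
    Tendsto (fun ε => memI Φ te (a ε) ε P q s M) (𝓝[>] 0) (𝓝 0) := by
  obtain ⟨v, rfl⟩ := exists_norm_eq hM
  exact tendsto_memF hΦ ha hq hs v 0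

/-- The mass of the trees and contact times with `MemM` tends to `0`; any integrable majorant. -/
theorem tendsto_lintegral_memM_of (hΦ : AdmissiblePotential Φ) {te : ℝ} {a : ℝ → ℝ}
    (ha : Tendsto a (𝓝[>] 0) (𝓝 0)) {P : CTree} {M : ℝ} (hM : 0 ≤ M)
    {D : Space3 × Par P → ℝ≥0∞} (hD : Measurable D) (hDt : ∫⁻ q, D q ≠ ∞) :
    Tendsto (fun ε => ∫⁻ q : Space3 × Par P, D q *
      ∫⁻ s in Ioc 0 te, memI Φ te (a ε) ε P q s M) (𝓝[>] 0) (𝓝 0) := by
  have hz : (0 : ℝ≥0∞) = ∫⁻ _q : Space3 × Par P, (0 : ℝ≥0∞) := by simp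
  rw [hz]
  refine tendsto_lintegral_filter_of_dominated_convergence
    (fun q : Space3 × Par P => ENNReal.ofReal te * D q) ?_ ?_ ?_ ?_
  · refine Eventually.of_forall fun ε => hD.mul ?_
    exact (measurable_memI hΦ te (a ε) ε P hM).lintegral_prod_right'
  · refine Eventually.of_forall fun ε => Eventually.of_forall fun q => ?_
    have h1 : ∫⁻ s in Ioc 0 te, memI Φ te (a ε) ε P q s M ≤ ENNReal.ofReal te := by
      refine (lintegral_mono fun s => memI_le_one te (a ε) ε P q s M).trans ?_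
      rw [setLIntegral_const, Real.volume_Ioc, sub_zero, one_mul]
    calc D q * ∫⁻ s in Ioc 0 te, memI Φ te (a ε) ε P q s M ≤ D q * ENNReal.ofReal te :=
          mul_le_mul' le_rfl h1
      _ = _ := mul_comm _ _
  · rw [lintegral_const_mul' _ _ ENNReal.ofReal_ne_top]
    exact ENNReal.mul_ne_top ENNReal.ofReal_ne_top hDt
  · have hDf : ∀ᵐ q, D q < ∞ := ae_lt_top hD hDt
    filter_upwards [TreeLim974.gen_ae_q hΦ P te, hDf] with q hq hDq
    have h2 : Tendsto (fun ε => ∫⁻ s in Ioc 0 te, memI Φ te (a ε) ε P q s M) (𝓝[>] 0)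
        (𝓝 0) := by
      have hz' : (0 : ℝ≥0∞) = ∫⁻ _s in Ioc 0 te, (0 : ℝ≥0∞) := by simp
      rw [hz']
      refine tendsto_lintegral_filter_of_dominated_convergence (fun _ => 1) ?_ ?_ ?_ ?_
      · refine Eventually.of_forall fun ε => ?_
        exact Measurable.comp (g := fun x : (Space3 × Par P) × ℝ =>
          memI Φ te (a ε) ε P x.1 x.2 M) (f := fun s : ℝ => (q, s))
          (measurable_memI hΦ te (a ε) ε P hM) (measurable_const.prodMk measurable_id)
      · exact Eventually.of_forall fun ε => Eventually.of_forall fun s =>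
          memI_le_one te (a ε) ε P q s M
      · rw [setLIntegral_const, Real.volume_Ioc]
        exact ENNReal.mul_ne_top ENNReal.one_ne_top ENNReal.ofReal_ne_top
      · filter_upwards [ae_restrict_mem measurableSet_Ioc] with s hs
        exact tendsto_memI hΦ ha hq hs hM
    have h3 := ENNReal.Tendsto.const_mul (a := D q) h2 (Or.inr hDq.ne)
    simpa using h3

/-- **(3V), fixed radius** : Gaussian majorant. -/
theorem tendsto_lintegral_memM (hΦ : AdmissiblePotential Φ) {te : ℝ} {a : ℝ → ℝ}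
    (ha : Tendsto a (𝓝[>] 0) (𝓝 0)) {C' b' T' : ℝ} (hC : 0 ≤ C') (hb : 0 < b') (P : CTree)
    {M : ℝ} (hM : 0 ≤ M) :
    Tendsto (fun ε => ∫⁻ q : Space3 × Par P, domG C' b' T' P q.1 q.2 *
      ∫⁻ s in Ioc 0 te, memI Φ te (a ε) ε P q s M) (𝓝[>] 0) (𝓝 0) :=
  tendsto_lintegral_memM_of hΦ ha hM (measurable_domG hC b' T' P)
    (lintegral_domG_ne_top hC hb T' P)

/-- The same with a weight `(1 + |u|)^k`. -/
theorem tendsto_lintegral_memM_pow (hΦ : AdmissiblePotential Φ) {te : ℝ} {a : ℝ → ℝ}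
    (ha : Tendsto a (𝓝[>] 0) (𝓝 0)) {C' b' T' : ℝ} (hC : 0 ≤ C') (hb : 0 < b') (P : CTree)
    {M : ℝ} (hM : 0 ≤ M) (k : ℕ) :
    Tendsto (fun ε => ∫⁻ q : Space3 × Par P, (domG C' b' T' P q.1 q.2 *
      ENNReal.ofReal ((1 + ‖q.1‖) ^ k)) *
      ∫⁻ s in Ioc 0 te, memI Φ te (a ε) ε P q s M) (𝓝[>] 0) (𝓝 0) :=
  tendsto_lintegral_memM_of (D := fun q => domG C' b' T' P q.1 q.2 *
      ENNReal.ofReal ((1 + ‖q.1‖) ^ k)) hΦ ha hM
    ((measurable_domG hC b' T' P).mul (by fun_prop)) (lintegral_domG_pow_ne_top hC hb T' P k)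

/-- **Pointwise**: another member of the tree near the encounter, at the level of `(z, s)`. -/
theorem memM_of_near {te a ε : ℝ} {P : CTree} {z : PhasePoint × Par P} {s M : ℝ}
    (hs : s ≤ te) (hV : Valid Φ ε P s z.1.2 z.2)
    (h : s ≤ rel P z.2 (root P) + a ∨ ∃ i : Idx P, i ≠ root P ∧
      ∃ t : ℝ, |t - s| ≤ a ∧ dist (onLine (fin Φ ε P z.1 z.2 i) t).1
        (z.1.1 + t • z.1.2) ≤ a * (1 + M + ‖z.1.2‖)) :
    MemM Φ te a ε P (z.1.2, z.2) s M := by
  refine ⟨⟨hs, hV⟩, ?_⟩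
  rcases h with h | ⟨i, hi, t, ht, hd⟩
  · exact Or.inl h
  · refine Or.inr ⟨i, hi, ?_⟩
    have hA : Adm Φ P z.1.2 z.2 := hV.1
    rw [LineMeas994.finM_of_adm ε (P := P) (ℓ := (0, z.1.2)) (p := z.2) hA]
    have hsh := fin_shift (Φ := Φ) ε P z.1.1 z.1.2 z.2 i
    have hz : ((z.1.1, z.1.2) : PhasePoint) = z.1 := rfl
    rw [hz] at hsh
    set F := fin Φ ε P (0, z.1.2) z.2 i with hF
    rw [hsh] at hd
    have e1 : dist (onLine ((F.1 + z.1.1, F.2) : PhasePoint) t).1 (z.1.1 + t • z.1.2) =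
        ‖F.1 + t • (F.2 - z.1.2)‖ := by
      rw [dist_eq_norm]
      congr 1
      simp only [onLine]
      module
    have e2 : dist (onLine F s).1 (s • z.1.2) = ‖F.1 + s • (F.2 - z.1.2)‖ := by
      rw [dist_eq_norm]
      congr 1
      simp only [onLine]
      module
    rw [e1] at hd
    show dist (onLine F s).1 (s • z.1.2) ≤ _
    rw [e2]
    have e3 : F.1 + s • (F.2 - z.1.2) = (F.1 + t • (F.2 - z.1.2)) -
        (t - s) • (F.2 - z.1.2) := by module
    rw [e3]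
    refine (norm_sub_le _ _).trans (add_le_add hd ?_)
    rw [norm_smul, Real.norm_eq_abs]
    exact mul_le_mul_of_nonneg_right ht (norm_nonneg _)

end Crest.Agent.R122.ThirdV796
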