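import Crest.Agent.R122.ThirdNu_741
import Crest.Agent.R122.LongE_984
import Crest.Agent.R122.ThirdV2_796

/-!
# Bad encounters of pairs (row 122, GAP-E, row 13f), part 2

* `long_OS2_le` (13f.2): long encounters, `lamR → 0`.
* `mem_OS2_le` (13f.3): another member of the tree near the encounter.
-/

set_option autoImplicit false

open MeasureTheory Set Filter Topology
open scoped ENNReal
open Crest.AnalysisR.Kinetic
open Crest.Agent.R122.Kin796 Crest.Agent.R122.Kin796.CTree Crest.Agent.R122.Tree674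
open Crest.Agent.R122.Disc416 Crest.Agent.R122.Flux663 Crest.Agent.R122.OC663 Crest.Agent.R122.EDefs602
open Crest.Agent.R122.GC311 Crest.Agent.R122.Flow671 Crest.Agent.R122.Loc45 Crest.Agent.R122.Mom974
open Crest.Agent.R122.OneC423 Crest.Agent.R122.TreeDom974 Crest.Agent.R122.OneC285
open Crest.Agent.R122.Pair292 hiding ML
open Crest.Agent.R122.PairD292
open Crest.Agent.R122.Boost969 (LSt posAt)
open Crest.Agent.R122.Long984 (longI measurable_longI longI_le_one longI_eq_zero)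
open Crest.Agent.R122.OCout796 Crest.Agent.R122.Scat818
open Crest.Agent.R122.ThirdV796 (memI measurable_memI memI_le_one)

noncomputable section

namespace Crest.Agent.R122.Third741

variable {Φ : Space3 → ℝ} {f₀ : PhasePoint → ℝ} {ε : ℝ}

/-! ### Long encounters: the kernel -/

theorem longI_rel (R : ℝ) (v u b : Space3) :
    longI Φ R (v, u, b) = longI Φ R (v - u, 0, b) := by
  unfold longI relB
  simp only [sub_zero]

/-- Flux of the long encounters at relative velocity `g`. -/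
def lR (Φ : Space3 → ℝ) (R : ℝ) (g : Space3) : ℝ≥0∞ :=
  ENNReal.ofReal ‖g‖ * ∫⁻ b in impactDisc g, longI Φ R (g, 0, b) ∂μHE[2]

theorem measurable_lR (hΦ : AdmissiblePotential Φ) (R : ℝ) : Measurable (lR Φ R) := by
  unfold lR
  refine measurable_lintegral_disc (α := Space3) (G := fun g => g) measurable_id
    (F := fun g b => longI Φ R (g, 0, b)) ?_
  exact (measurable_longI hΦ R).comp
    (measurable_fst.prodMk (measurable_const.prodMk measurable_snd))

theorem lR_le (R : ℝ) (g : Space3) : lR Φ R g ≤ ENNReal.ofReal Real.pi * ENNReal.ofReal ‖g‖ := by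
  unfold lR
  have h := norm_mul_disc_const g 1 1
  simp only [one_mul, mul_one] at h
  rw [← h]
  exact mul_le_mul' le_rfl (lintegral_mono fun b => longI_le_one R _)

theorem tendsto_lR (hΦ : AdmissiblePotential Φ) (g : Space3) :
    Tendsto (fun R => lR Φ R g) atTop (𝓝 0) := by
  by_cases hg : g = 0
  · have h0 : (fun R => lR Φ R g) = fun _ => 0 := by
      funext R
      unfold lR
      rw [hg, norm_zero, ENNReal.ofReal_zero, zero_mul]
    rw [h0]
    exact tendsto_const_nhds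
  · have h1 : Tendsto (fun R => ∫⁻ b in impactDisc g, longI Φ R (g, 0, b) ∂μHE[2]) atTop
        (𝓝 0) := by
      have hz : (0 : ℝ≥0∞) = ∫⁻ _b in impactDisc g, (0 : ℝ≥0∞) ∂μHE[2] := by simp
      rw [hz]
      refine tendsto_lintegral_filter_of_dominated_convergence (fun _ => 1) ?_ ?_ ?_ ?_
      · refine Eventually.of_forall fun R => ?_
        exact (measurable_longI hΦ R).comp
          (measurable_const.prodMk (measurable_const.prodMk measurable_id))
      · exact Eventually.of_forall fun R => Eventually.of_forall fun b => longI_le_one R _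
      · rw [setLIntegral_const, measure_impactDisc hg, one_mul]
        exact ENNReal.ofReal_ne_top
      · refine Eventually.of_forall fun b => ?_
        refine tendsto_const_nhds.congr' ?_
        filter_upwards [eventually_ge_atTop (max (tauM Φ (relB (g, 0, b)))
          (tauM Φ (relB (g, 0, b)) * ‖g - 0‖))] with R hR
        rw [longI_eq_zero.2 ⟨(le_max_left _ _).trans hR, (le_max_right _ _).trans hR⟩]
    have h2 := ENNReal.Tendsto.const_mul (a := ENNReal.ofReal ‖g‖) h1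
      (Or.inr ENNReal.ofReal_ne_top)
    simpa [lR] using h2

/-- Flux of the long encounters against a Gaussian. -/
def kapR (Φ : Space3 → ℝ) (c R : ℝ) : ℝ≥0∞ := ∫⁻ g : Space3, wG c g * lR Φ R g

theorem lintegral_wG_one_add {c : ℝ} (hc : 0 < c) :
    ∫⁻ u : Space3, wG c u * ENNReal.ofReal (1 + ‖u‖) ≠ ∞ := by
  refine ne_top_of_le_ne_top (mom4_wG_ne_top hc) (lintegral_mono fun u => ?_)
  refine mul_le_mul' le_rfl (ENNReal.ofReal_le_ofReal ?_)
  have h1 : (1 : ℝ) ≤ 1 + ‖u‖ := by linarith [norm_nonneg u]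
  exact le_self_pow₀ h1 (by norm_num)

theorem tendsto_kapR (hΦ : AdmissiblePotential Φ) {c : ℝ} (hc : 0 < c) :
    Tendsto (kapR Φ c) atTop (𝓝 0) := by
  have hz : (0 : ℝ≥0∞) = ∫⁻ _g : Space3, (0 : ℝ≥0∞) := by simp
  rw [hz]
  refine tendsto_lintegral_filter_of_dominated_convergence
    (fun g : Space3 => ENNReal.ofReal Real.pi * (wG c g * ENNReal.ofReal (1 + ‖g‖))) ?_ ?_ ?_ ?_
  · exact Eventually.of_forall fun R => (measurable_wG1 c).mul (measurable_lR hΦ R)
  · refine Eventually.of_forall fun R => Eventually.of_forall fun g => ?_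
    calc wG c g * lR Φ R g
        ≤ wG c g * (ENNReal.ofReal Real.pi * ENNReal.ofReal (1 + ‖g‖)) := by
          refine mul_le_mul' le_rfl ((lR_le R g).trans (mul_le_mul' le_rfl ?_))
          exact ENNReal.ofReal_le_ofReal (by linarith)
      _ = _ := by ring
  · rw [lintegral_const_mul' _ _ ENNReal.ofReal_ne_top]
    exact ENNReal.mul_ne_top ENNReal.ofReal_ne_top (lintegral_wG_one_add hc)
  · refine Eventually.of_forall fun g => ?_
    have h2 := ENNReal.Tendsto.const_mul (a := wG c g) (tendsto_lR hΦ g)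
      (Or.inr ENNReal.ofReal_ne_top)
    simpa using h2

/-- Flux of the long encounters of a line of velocity `v`, Gaussian root. -/
def laR (Φ : Space3 → ℝ) (c R : ℝ) (v : Space3) : ℝ≥0∞ :=
  ∫⁻ u : Space3, wG c u * lR Φ R (v - u)

/-- Supremum over the velocity of the line. -/
def lamR (Φ : Space3 → ℝ) (c R : ℝ) : ℝ≥0∞ :=
  ⨆ v : Space3, laR Φ c R v / ENNReal.ofReal ((1 + ‖v‖) ^ 4)

theorem laR_le_lamR (c R : ℝ) (v : Space3) :
    laR Φ c R v ≤ lamR Φ c R * ENNReal.ofReal ((1 + ‖v‖) ^ 4) := by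
  have h0 : ENNReal.ofReal ((1 + ‖v‖) ^ 4) ≠ 0 := by
    have : 0 < (1 + ‖v‖) ^ 4 := by positivity
    simpa using this
  have h1 : laR Φ c R v / ENNReal.ofReal ((1 + ‖v‖) ^ 4) ≤ lamR Φ c R :=
    le_iSup (fun v : Space3 => laR Φ c R v / ENNReal.ofReal ((1 + ‖v‖) ^ 4)) v
  exact (ENNReal.div_le_iff h0 ENNReal.ofReal_ne_top).1 h1

theorem laR_le_small (hΦ : AdmissiblePotential Φ) {c : ℝ} (hc : 0 < c) (R : ℝ) {M : ℝ}
    {v : Space3} (hv : ‖v‖ ≤ M) :
    laR Φ c R v ≤ ENNReal.ofReal (Real.exp (c * M ^ 2)) * kapR Φ (c / 2) R := by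
  have hm : Measurable fun g : Space3 => wG (c / 2) g * lR Φ R g :=
    (measurable_wG1 _).mul (measurable_lR hΦ R)
  unfold laR kapR
  rw [← lintegral_const_mul _ hm, ← lintegral_sub_left_eq_self (μ := (volume : Measure Space3))
    (fun g : Space3 => ENNReal.ofReal (Real.exp (c * M ^ 2)) *
      (wG (c / 2) g * lR Φ R g)) v]
  refine lintegral_mono fun u => ?_
  rw [← mul_assoc]
  refine mul_le_mul' ?_ le_rfl
  unfold wG
  rw [← ENNReal.ofReal_mul (Real.exp_nonneg _), ← Real.exp_add]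
  refine ENNReal.ofReal_le_ofReal (Real.exp_le_exp.2 ?_)
  have h1 : ‖v - u‖ ≤ ‖v‖ + ‖u‖ := norm_sub_le v u
  have h2 : ‖v - u‖ ^ 2 ≤ 2 * M ^ 2 + 2 * ‖u‖ ^ 2 := by
    have h3 : ‖v - u‖ ^ 2 ≤ (‖v‖ + ‖u‖) ^ 2 := pow_le_pow_left₀ (norm_nonneg _) h1 2
    have h4 : ‖v‖ ^ 2 ≤ M ^ 2 := pow_le_pow_left₀ (norm_nonneg _) hv 2
    nlinarith [sq_nonneg (‖v‖ - ‖u‖)]
  nlinarith

theorem laR_le_big (c R : ℝ) (v : Space3) :
    laR Φ c R v ≤ ENNReal.ofReal (1 + ‖v‖) * (ENNReal.ofReal Real.pi *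
      ∫⁻ u : Space3, wG c u * ENNReal.ofReal (1 + ‖u‖)) := by
  unfold laR
  rw [← lintegral_const_mul' _ _ ENNReal.ofReal_ne_top,
    ← lintegral_const_mul' _ _ ENNReal.ofReal_ne_top]
  refine lintegral_mono fun u => ?_
  calc wG c u * lR Φ R (v - u)
      ≤ wG c u * (ENNReal.ofReal Real.pi *
        ENNReal.ofReal ((1 + ‖v‖) * (1 + ‖u‖))) := by
        refine mul_le_mul' le_rfl ((lR_le R _).trans (mul_le_mul' le_rfl ?_))
        exact ENNReal.ofReal_le_ofReal (norm_sub_le_mul v u)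
    _ = _ := by
        rw [ENNReal.ofReal_mul (by positivity)]
        ring

theorem tendsto_lamR (hΦ : AdmissiblePotential Φ) {c : ℝ} (hc : 0 < c) :
    Tendsto (lamR Φ c) atTop (𝓝 0) := by
  rw [ENNReal.tendsto_nhds_zero]
  intro δ hδ
  set c1 : ℝ≥0∞ := ENNReal.ofReal Real.pi *
      ∫⁻ u : Space3, wG c u * ENNReal.ofReal (1 + ‖u‖) with hc1
  have hc1t : c1 ≠ ∞ := ENNReal.mul_ne_top ENNReal.ofReal_ne_top (lintegral_wG_one_add hc)
  obtain ⟨M, hM⟩ := ENNReal.exists_nat_mul_gt hδ.ne' hc1t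
  have hlim : Tendsto (fun R => ENNReal.ofReal (Real.exp (c * (M : ℝ) ^ 2)) *
      kapR Φ (c / 2) R) atTop (𝓝 0) := by
    have h2 := ENNReal.Tendsto.const_mul (a := ENNReal.ofReal (Real.exp (c * (M : ℝ) ^ 2)))
      (tendsto_kapR hΦ (half_pos hc)) (Or.inr ENNReal.ofReal_ne_top)
    simpa using h2
  filter_upwards [(ENNReal.tendsto_nhds_zero.1 hlim) δ hδ] with R hR
  unfold lamR
  refine iSup_le fun v => ENNReal.div_le_of_le_mul ?_
  have hv1 : (1 : ℝ) ≤ 1 + ‖v‖ := by linarith [norm_nonneg v]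
  rcases le_or_gt ‖v‖ M with hv | hv
  · calc laR Φ c R v ≤ δ := (laR_le_small hΦ hc R hv).trans hR
      _ = δ * 1 := (mul_one _).symm
      _ ≤ _ := by
          refine mul_le_mul' le_rfl ?_
          rw [← ENNReal.ofReal_one]
          exact ENNReal.ofReal_le_ofReal (one_le_pow₀ hv1)
  · calc laR Φ c R v ≤ ENNReal.ofReal (1 + ‖v‖) * c1 := laR_le_big c R v
      _ ≤ ENNReal.ofReal (1 + ‖v‖) * ((M : ℝ≥0∞) * δ) := mul_le_mul' le_rfl hM.le
      _ = δ * (ENNReal.ofReal (1 + ‖v‖) * ENNReal.ofReal (M : ℝ)) := by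
          rw [ENNReal.ofReal_natCast]
          ring
      _ ≤ δ * ENNReal.ofReal ((1 + ‖v‖) ^ 4) := by
          refine mul_le_mul' le_rfl ?_
          rw [← ENNReal.ofReal_mul (by positivity)]
          refine ENNReal.ofReal_le_ofReal ?_
          have h1 : (M : ℝ) ≤ 1 + ‖v‖ := by linarith
          have h2 : (1 + ‖v‖) * (M : ℝ) ≤ (1 + ‖v‖) ^ 2 := by
            rw [pow_two]
            exact mul_le_mul_of_nonneg_left h1 (by positivity)
          exact h2.trans (pow_le_pow_right₀ hv1 (by norm_num))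

/-! ### Long encounters: the structure integral -/

/-- Long encounters. -/
def longG (Φ : Space3 → ℝ) (R : ℝ) : CF := fun _P z _m _w _s v b => longI Φ R (v, z.1.2, b)

theorem measCF_longG (hΦ : AdmissiblePotential Φ) (R : ℝ) : MeasCF (longG Φ R) := by
  intro P m
  unfold longG
  have hu : Measurable fun q : ((PhasePoint × Par P) × Config m) × (ℝ × (Space3 × Space3)) =>
      q.1.1.1.2 := measurable_snd.comp (measurable_fst.comp (measurable_fst.comp measurable_fst))
  have hv : Measurable fun q : ((PhasePoint × Par P) × Config m) × (ℝ × (Space3 × Space3)) =>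
      q.2.2.1 := measurable_fst.comp (measurable_snd.comp measurable_snd)
  have hb : Measurable fun q : ((PhasePoint × Par P) × Config m) × (ℝ × (Space3 × Space3)) =>
      q.2.2.2 := measurable_snd.comp (measurable_snd.comp measurable_snd)
  exact (measurable_longI hΦ R).comp (hv.prodMk (hu.prodMk hb))

theorem fluxM_long (te R : ℝ) (μ : Measure Space3) (P : CTree) (z : PhasePoint × Par P)
    (m : ℕ) (w : Config m) :
    fluxM te μ (longG Φ R) P z m w = ENNReal.ofReal te * ∫⁻ v, lR Φ R (v - z.1.2) ∂μ := by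
  unfold fluxM longG
  rw [setLIntegral_const, Real.volume_Ioc, sub_zero, mul_comm]
  congr 1
  refine lintegral_congr fun v => ?_
  unfold lR
  congr 1
  refine lintegral_congr fun b => ?_
  exact longI_rel R v z.1.2 b

/-- **(13f.2)** Long encounters. -/
theorem long_OS2_le (hΦ : AdmissiblePotential Φ) {A : Space3 → ℝ≥0∞} {C b g0 : ℝ}
    (hF : FOk f₀ A C b) {Q : EPar} (hQ : QOk Q g0) {PP : ℕ → PPar} (hP : PPOk Q PP)
    {Cv : ℝ≥0∞} (hV : Vel4 Q PP Cv) (K : ℕ) (T' : ℝ) :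
    ∃ D : ℝ≥0∞, D ≠ ∞ ∧ ∀ (ε : ℝ), 0 < ε → ∀ (R : ℝ),
      ∀ (Ξ ν : Measure (Lab × LSt)) (c : ℝ≥0∞), c ≠ ∞ → PX (PP K) Ξ ν c → ∀ H : SF2,
      (∀ P z m w θ, (z, θ.2) ∈ ctSet Φ ε Q.te P →
        H P z m w θ ≤ sf2Of ε K (longG Φ R) P z m w θ) →
      OS2 Φ f₀ ε Q.te T' ν H ≤ c * (D * lamR Φ (b / 2) R) := by
  have hb2 := half_pos hF.b_pos
  choose C' hC' using fun P : CTree => hF.maj.tree hΦ hb2 (half_lt_self hF.b_pos) P
  have hD4 := Dm4_ne_top hQ hV.fin K
  set IA : ℝ≥0∞ := ∫⁻ x, A x with hIA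
  have hIAt : IA ≠ ∞ := hF.maj.fin
  refine ⟨∑ P ∈ GIVStep383.trees K, IA * (ENNReal.ofReal Q.te * (ENNReal.ofReal (C' P) *
    (∫⁻ p : Par P, domP (b / 2) T' P p) * Dm4 Q g0 Cv K)), ?_, ?_⟩
  · refine ENNReal.sum_ne_top.2 fun P _ => ENNReal.mul_ne_top hIAt (ENNReal.mul_ne_top
      ENNReal.ofReal_ne_top (ENNReal.mul_ne_top (ENNReal.mul_ne_top ENNReal.ofReal_ne_top
        (lintegral_domP_ne_top hb2 T' P)) hD4))
  · intro ε hε R Ξ ν c hcν hPX H hH
    have hν := hPX.invFam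
    have := hPX.sfν
    have hμ4 := m4_muV_le hQ hP hV hPX
    set μ : Measure Space3 := muV K Q.te ν with hμ
    refine (OS2_le hΦ hε hν (measCF_longG hΦ R) hH).trans ?_
    rw [Finset.sum_mul, Finset.mul_sum]
    refine Finset.sum_le_sum fun P _ => ?_
    have hC0 := (hC' P).C_nonneg
    set F : Space3 → ℝ≥0∞ := fun u => ENNReal.ofReal Q.te * ∫⁻ v, lR Φ R (v - u) ∂μ with hFd
    have hl2 : Measurable fun q : Space3 × Space3 => lR Φ R (q.2 - q.1) :=
      (measurable_lR hΦ R).comp (measurable_snd.sub measurable_fst)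
    have hFm : Measurable F := (hl2.lintegral_prod_right' (ν := μ)).const_mul _
    have hFq : Measurable fun q : Space3 × Par P => F q.1 := hFm.comp measurable_fst
    have hgc : ∀ z : PhasePoint × Par P, gcE f₀ ε (fun m w =>
        fluxM Q.te μ (longG Φ R) P z m w) ≤ F z.1.2 := by
      intro z
      simp only [fluxM_long]
      exact Long984.gcE_const_le hF.meas hF.mass ε _
    calc ∫⁻ z : PhasePoint × Par P, {z : PhasePoint × Par P | Valid Φ ε P T' z.1.2 z.2}.indicator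
          (fun z => wt Φ P z.1.2 z.2 * (ToTree335.pf Φ f₀ ε P z *
            gcE f₀ ε (fun m w => fluxM Q.te μ (longG Φ R) P z m w))) z
        ≤ ∫⁻ z : PhasePoint × Par P, {z : PhasePoint × Par P |
            Valid Φ ε P T' z.1.2 z.2}.indicator
          (fun z => wt Φ P z.1.2 z.2 * (ToTree335.pf Φ f₀ ε P z *
            (fun q : Space3 × Par P => F q.1) (z.1.2, z.2))) z := by
          refine lintegral_mono fun z => indicator_le_indicator ?_
          exact mul_le_mul' le_rfl (mul_le_mul' le_rfl (hgc z))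
      _ ≤ IA * ∫⁻ q : Space3 × Par P, domG (C' P) (b / 2) T' P q.1 q.2 * F q.1 :=
          (hC' P).lintegral_u hΦ hε.le T' hFq
      _ = IA * ((∫⁻ p : Par P, domP (b / 2) T' P p) * ∫⁻ u : Space3,
            ENNReal.ofReal (C' P * Real.exp (-(b / 2) * ‖u‖ ^ 2)) * F u) := by
          have hvol : (volume : Measure (Space3 × Par P)) =
            (volume : Measure Space3).prod (volume : Measure (Par P)) := rfl
          have hdm : Measurable fun q : Space3 × Par P =>
              domG (C' P) (b / 2) T' P q.1 q.2 * F q.1 :=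
            (measurable_domG hC0 (b / 2) T' P).mul hFq
          rw [hvol, lintegral_prod _ hdm.aemeasurable]
          congr 1
          rw [← lintegral_const_mul' _ _ (lintegral_domP_ne_top hb2 T' P)]
          refine lintegral_congr fun u => ?_
          have hdu : Measurable fun p : Par P => domG (C' P) (b / 2) T' P u p :=
            (measurable_domG hC0 (b / 2) T' P).comp
              (f := fun p : Par P => (u, p)) (by fun_prop)
          calc ∫⁻ p : Par P, domG (C' P) (b / 2) T' P u p * F u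
              = (∫⁻ p : Par P, domG (C' P) (b / 2) T' P u p) * F u := lintegral_mul_const _ hdu
            _ = _ := by
                rw [lintegral_domG hC0]
                ring
      _ = IA * ((∫⁻ p : Par P, domP (b / 2) T' P p) * (ENNReal.ofReal (C' P) *
            (ENNReal.ofReal Q.te * ∫⁻ v, laR Φ (b / 2) R v ∂μ))) := by
          congr 2
          have e1 : ∀ u : Space3, ENNReal.ofReal (C' P * Real.exp (-(b / 2) * ‖u‖ ^ 2)) * F u =
              ENNReal.ofReal (C' P) * (ENNReal.ofReal Q.te *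
                ∫⁻ v, wG (b / 2) u * lR Φ R (v - u) ∂μ) := by
            intro u
            have e2 : ∫⁻ v, wG (b / 2) u * lR Φ R (v - u) ∂μ =
                wG (b / 2) u * ∫⁻ v, lR Φ R (v - u) ∂μ :=
              lintegral_const_mul' _ _ ENNReal.ofReal_ne_top
            rw [e2, ENNReal.ofReal_mul hC0, hFd]
            unfold wG
            rw [neg_mul]
            ring
          simp only [e1]
          rw [lintegral_const_mul' _ _ ENNReal.ofReal_ne_top,
            lintegral_const_mul' _ _ ENNReal.ofReal_ne_top]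
          congr 2
          have hsw : Measurable fun q : Space3 × Space3 => wG (b / 2) q.1 * lR Φ R (q.2 - q.1) :=
            ((measurable_wG1 (b / 2)).comp measurable_fst).mul hl2
          rw [lintegral_lintegral_swap (f := fun (u : Space3) (v : Space3) =>
            wG (b / 2) u * lR Φ R (v - u)) hsw.aemeasurable]
          rfl
      _ ≤ IA * ((∫⁻ p : Par P, domP (b / 2) T' P p) * (ENNReal.ofReal (C' P) *
            (ENNReal.ofReal Q.te * (lamR Φ (b / 2) R * (Dm4 Q g0 Cv K * c))))) := by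
          have hpm : Measurable fun v : Space3 => ENNReal.ofReal ((1 + ‖v‖) ^ 4) := by fun_prop
          refine mul_le_mul' le_rfl (mul_le_mul' le_rfl (mul_le_mul' le_rfl
            (mul_le_mul' le_rfl ?_)))
          calc ∫⁻ v, laR Φ (b / 2) R v ∂μ
              ≤ ∫⁻ v, lamR Φ (b / 2) R * ENNReal.ofReal ((1 + ‖v‖) ^ 4) ∂μ :=
                lintegral_mono fun v => laR_le_lamR _ R v
            _ = lamR Φ (b / 2) R * m4 μ := lintegral_const_mul _ hpm
            _ ≤ _ := mul_le_mul' le_rfl hμ4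
      _ = _ := by ring

/-! ### Another member of the tree near the encounter -/

/-- Another member of the tree is close to the encounter, or the encounter is at most `a` after the
last one of the root. -/
def memG (Φ : Space3 → ℝ) (te a ε : ℝ) : CF := fun P z _m _w s v _b =>
  memI Φ te a ε P (z.1.2, z.2) s ‖v‖

theorem measCF_memG (hΦ : AdmissiblePotential Φ) (te a ε : ℝ) : MeasCF (memG Φ te a ε) := by
  intro P m
  unfold memG
  simp only [ThirdV796.memI_eq _ _ _ _ _ _ _ (0 : Space3)]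
  have hu : Measurable fun q : ((PhasePoint × Par P) × Config m) × (ℝ × (Space3 × Space3)) =>
      ((q.1.1.1.2, q.1.1.2) : Space3 × Par P) :=
    (measurable_snd.comp (measurable_fst.comp (measurable_fst.comp measurable_fst))).prodMk
      (measurable_snd.comp (measurable_fst.comp measurable_fst))
  have hs : Measurable fun q : ((PhasePoint × Par P) × Config m) × (ℝ × (Space3 × Space3)) =>
      q.2.1 := measurable_fst.comp measurable_snd
  have hv : Measurable fun q : ((PhasePoint × Par P) × Config m) × (ℝ × (Space3 × Space3)) =>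
      q.2.2.1 := measurable_fst.comp (measurable_snd.comp measurable_snd)
  exact Measurable.comp (g := fun x : (Space3 × Par P) × (ℝ × (Space3 × Space3)) =>
      ThirdV796.memF Φ te a ε P x.1 x.2.1 x.2.2.1 x.2.2.2)
    (f := fun q : ((PhasePoint × Par P) × Config m) × (ℝ × (Space3 × Space3)) =>
      (((q.1.1.1.2, q.1.1.2) : Space3 × Par P), (q.2.1, (q.2.2.1, (0 : Space3)))))
    (ThirdV796.measurable_memF hΦ te a ε P) (hu.prodMk (hs.prodMk (hv.prodMk measurable_const)))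

/-- Constant of the tail. -/
theorem fluxM_mem_le {te a : ℝ} (ha : 0 ≤ a) (M : ℕ) (μ : Measure Space3)
    [SFinite μ] (hΦ : AdmissiblePotential Φ) (P : CTree) (z : PhasePoint × Par P)
    (m : ℕ) (w : Config m) :
    fluxM te μ (memG Φ te a ε) P z m w ≤ ENNReal.ofReal Real.pi * (m4 μ *
      (ENNReal.ofReal (1 + ‖z.1.2‖) * ((∫⁻ s in Ioc 0 te, memI Φ te a ε P (z.1.2, z.2) s M) +
        ENNReal.ofReal te * ENNReal.ofReal (1 / (1 + (M : ℝ)))))) := by
  set u : Space3 := z.1.2 with hu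
  set q : Space3 × Par P := (z.1.2, z.2) with hq
  have hpm : Measurable fun v : Space3 => ENNReal.ofReal ((1 + ‖v‖) ^ 4) := by fun_prop
  have hpt : ∀ (s : ℝ) (v : Space3), ENNReal.ofReal ‖v - u‖ *
      ∫⁻ b in impactDisc (v - u), memG Φ te a ε P z m w s v b ∂μHE[2] ≤
      ENNReal.ofReal ((1 + ‖v‖) ^ 4) * (ENNReal.ofReal Real.pi * (ENNReal.ofReal (1 + ‖u‖) *
        (memI Φ te a ε P q s M + ENNReal.ofReal (1 / (1 + (M : ℝ)))))) := by
    intro s v
    have hv1 : (1 : ℝ) ≤ 1 + ‖v‖ := by linarith [norm_nonneg v]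
    have e1 : ENNReal.ofReal ‖v - u‖ *
        ∫⁻ b in impactDisc (v - u), memG Φ te a ε P z m w s v b ∂μHE[2] =
        ENNReal.ofReal Real.pi * (ENNReal.ofReal ‖v - u‖ * memI Φ te a ε P q s ‖v‖) := by
      have h := norm_mul_disc_const (v - u) 1 (memI Φ te a ε P q s ‖v‖)
      rw [one_mul, one_mul] at h
      exact h
    have e2 : memI Φ te a ε P q s ‖v‖ ≤ ENNReal.ofReal ((1 + ‖v‖) ^ 3) *
        (memI Φ te a ε P q s M + ENNReal.ofReal (1 / (1 + (M : ℝ)))) := by
      rcases le_or_gt ‖v‖ M with hv | hv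
      · have h1 : memI Φ te a ε P q s ‖v‖ ≤ memI Φ te a ε P q s M := by
          unfold memI
          by_cases h : ThirdV796.MemM Φ te a ε P q s ‖v‖
          · rw [if_pos h, if_pos (h.mono ha hv)]
          · rw [if_neg h]
            exact zero_le
        calc memI Φ te a ε P q s ‖v‖ ≤ 1 * (memI Φ te a ε P q s M + 0) := by
              rw [one_mul, add_zero]; exact h1
          _ ≤ _ := by
              refine mul_le_mul' ?_ (add_le_add le_rfl zero_le)
              rw [← ENNReal.ofReal_one]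
              exact ENNReal.ofReal_le_ofReal (one_le_pow₀ hv1)
      · calc memI Φ te a ε P q s ‖v‖ ≤ 1 := memI_le_one _ _ _ _ _ _ _
          _ ≤ ENNReal.ofReal ((1 + ‖v‖) ^ 3) * ENNReal.ofReal (1 / (1 + (M : ℝ))) := by
              rw [← ENNReal.ofReal_mul (by positivity), ← ENNReal.ofReal_one]
              refine ENNReal.ofReal_le_ofReal ?_
              have hM : (0 : ℝ) ≤ M := Nat.cast_nonneg M
              rw [mul_one_div, le_div_iff₀ (by positivity), one_mul]
              calc 1 + (M : ℝ) ≤ 1 + ‖v‖ := by linarith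
                _ ≤ (1 + ‖v‖) ^ 3 := le_self_pow₀ hv1 (by norm_num)
          _ ≤ _ := mul_le_mul' le_rfl le_add_self
    rw [e1]
    calc ENNReal.ofReal Real.pi * (ENNReal.ofReal ‖v - u‖ * memI Φ te a ε P q s ‖v‖)
        ≤ ENNReal.ofReal Real.pi * (ENNReal.ofReal ((1 + ‖v‖) * (1 + ‖u‖)) *
          (ENNReal.ofReal ((1 + ‖v‖) ^ 3) *
            (memI Φ te a ε P q s M + ENNReal.ofReal (1 / (1 + (M : ℝ)))))) :=
          mul_le_mul' le_rfl (mul_le_mul' (ENNReal.ofReal_le_ofReal (norm_sub_le_mul v u)) e2)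
      _ = _ := by
          rw [show (1 + ‖v‖) ^ 4 = (1 + ‖v‖) * (1 + ‖v‖) ^ 3 by ring,
            ENNReal.ofReal_mul (p := 1 + ‖v‖) (by positivity),
            ENNReal.ofReal_mul (p := 1 + ‖v‖) (by positivity)]
          ring
  have hms : Measurable fun s : ℝ => memI Φ te a ε P q s M :=
    Measurable.comp (g := fun x : (Space3 × Par P) × ℝ => memI Φ te a ε P x.1 x.2 M)
      (f := fun s : ℝ => (q, s)) (measurable_memI hΦ te a ε P (Nat.cast_nonneg M))
      (measurable_const.prodMk measurable_id)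
  unfold fluxM
  calc ∫⁻ s in Ioc 0 te, ∫⁻ v, ENNReal.ofReal ‖v - z.1.2‖ *
        ∫⁻ b in impactDisc (v - z.1.2), memG Φ te a ε P z m w s v b ∂μHE[2] ∂μ
      ≤ ∫⁻ s in Ioc 0 te, (m4 μ * (ENNReal.ofReal Real.pi * ENNReal.ofReal (1 + ‖u‖))) *
        (memI Φ te a ε P q s M + ENNReal.ofReal (1 / (1 + (M : ℝ)))) := by
        refine lintegral_mono fun s => ?_
        refine (lintegral_mono fun v => hpt s v).trans (le_of_eq ?_)
        rw [lintegral_mul_const _ hpm]
        unfold m4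
        ring
    _ = (m4 μ * (ENNReal.ofReal Real.pi * ENNReal.ofReal (1 + ‖u‖))) *
        ∫⁻ s in Ioc 0 te, (memI Φ te a ε P q s M + ENNReal.ofReal (1 / (1 + (M : ℝ)))) :=
        lintegral_const_mul _ (hms.add_const _)
    _ = _ := by
        rw [lintegral_add_right _ measurable_const, setLIntegral_const, Real.volume_Ioc, sub_zero]
        ring

/-- The null bound of the members. -/
def memN (Φ : Space3 → ℝ) (b te T' : ℝ) (C' : CTree → ℝ) (IA : ℝ≥0∞) (Dm : ℝ≥0∞) (K : ℕ) (a ε : ℝ) :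
    ℝ≥0∞ := ⨅ M : ℕ, ∑ P ∈ GIVStep383.trees K, IA * (ENNReal.ofReal Real.pi * (Dm *
      ((∫⁻ q : Space3 × Par P, (domG (C' P) b T' P q.1 q.2 * ENNReal.ofReal ((1 + ‖q.1‖) ^ 1)) *
        ∫⁻ s in Ioc 0 te, memI Φ te a ε P q s M) +
      (∫⁻ q : Space3 × Par P, (domG (C' P) b T' P q.1 q.2 * ENNReal.ofReal ((1 + ‖q.1‖) ^ 1))) *
        (ENNReal.ofReal te * ENNReal.ofReal (1 / (1 + (M : ℝ)))))))

theorem tendsto_memN (hΦ : AdmissiblePotential Φ) {b te T' : ℝ} (hb : 0 < b) {C' : CTree → ℝ}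
    (hC : ∀ P, 0 ≤ C' P) {IA : ℝ≥0∞} (hIA : IA ≠ ∞) {Dm : ℝ≥0∞} (hDm : Dm ≠ ∞) (K : ℕ)
    {a : ℝ → ℝ} (ha : Tendsto a (𝓝[>] 0) (𝓝 0)) :
    Tendsto (fun ε => memN Φ b te T' C' IA Dm K (a ε) ε) (𝓝[>] 0) (𝓝 0) := by
  have hJ : ∀ P : CTree, ∫⁻ q : Space3 × Par P, (domG (C' P) b T' P q.1 q.2 *
      ENNReal.ofReal ((1 + ‖q.1‖) ^ 1)) ≠ ∞ := fun P =>
    lintegral_domG_pow_ne_top (hC P) hb T' P 1
  -- the tail
  have hM0 : Tendsto (fun M : ℕ => ENNReal.ofReal (1 / (1 + (M : ℝ)))) atTop (𝓝 0) := by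
    rw [← ENNReal.ofReal_zero]
    refine ENNReal.tendsto_ofReal ?_
    have h := tendsto_one_div_add_atTop_nhds_zero_nat (𝕜 := ℝ)
    refine h.congr fun n => ?_
    rw [add_comm]
  have htail : Tendsto (fun M : ℕ => ∑ P ∈ GIVStep383.trees K, IA * (ENNReal.ofReal Real.pi *
      (Dm * ((∫⁻ q : Space3 × Par P, (domG (C' P) b T' P q.1 q.2 *
        ENNReal.ofReal ((1 + ‖q.1‖) ^ 1))) * (ENNReal.ofReal te *
          ENNReal.ofReal (1 / (1 + (M : ℝ)))))))) atTop (𝓝 0) := by
    have hz : (0 : ℝ≥0∞) = ∑ P ∈ GIVStep383.trees K, IA * (ENNReal.ofReal Real.pi *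
      (Dm * ((∫⁻ q : Space3 × Par P, (domG (C' P) b T' P q.1 q.2 *
        ENNReal.ofReal ((1 + ‖q.1‖) ^ 1))) * (ENNReal.ofReal te * 0)))) := by simp
    rw [hz]
    refine tendsto_finsetSum _ fun P _ => ?_
    refine ENNReal.Tendsto.const_mul ?_ (Or.inr hIA)
    refine ENNReal.Tendsto.const_mul ?_ (Or.inr ENNReal.ofReal_ne_top)
    refine ENNReal.Tendsto.const_mul ?_ (Or.inr hDm)
    refine ENNReal.Tendsto.const_mul ?_ (Or.inr (hJ P))
    exact ENNReal.Tendsto.const_mul hM0 (Or.inr ENNReal.ofReal_ne_top)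
  have hmain : ∀ M : ℕ, Tendsto (fun ε => ∑ P ∈ GIVStep383.trees K, IA * (ENNReal.ofReal Real.pi *
      (Dm * (∫⁻ q : Space3 × Par P, (domG (C' P) b T' P q.1 q.2 *
        ENNReal.ofReal ((1 + ‖q.1‖) ^ 1)) *
        ∫⁻ s in Ioc 0 te, memI Φ te (a ε) ε P q s M)))) (𝓝[>] 0) (𝓝 0) := by
    intro M
    have hz : (0 : ℝ≥0∞) = ∑ _P ∈ GIVStep383.trees K, IA * (ENNReal.ofReal Real.pi *
      (Dm * 0)) := by simp
    rw [hz]
    refine tendsto_finsetSum _ fun P _ => ?_
    refine ENNReal.Tendsto.const_mul ?_ (Or.inr hIA)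
    refine ENNReal.Tendsto.const_mul ?_ (Or.inr ENNReal.ofReal_ne_top)
    refine ENNReal.Tendsto.const_mul ?_ (Or.inr hDm)
    exact ThirdV796.tendsto_lintegral_memM_pow hΦ ha (hC P) hb P (Nat.cast_nonneg M) 1
  rw [ENNReal.tendsto_nhds_zero]
  intro δ hδ
  have hδ2 : 0 < δ / 2 := ENNReal.half_pos hδ.ne'
  obtain ⟨M, hM⟩ := ((ENNReal.tendsto_nhds_zero.1 htail) (δ / 2) hδ2).exists
  filter_upwards [(ENNReal.tendsto_nhds_zero.1 (hmain M)) (δ / 2) hδ2] with ε hε
  unfold memN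
  refine (iInf_le _ M).trans ?_
  rw [← ENNReal.add_halves δ]
  refine le_trans (le_of_eq ?_) (add_le_add hε hM)
  rw [← Finset.sum_add_distrib]
  refine Finset.sum_congr rfl fun P _ => ?_
  rw [← mul_add, ← mul_add, ← mul_add]

/-- **(13f.3)** Another member of the tree near the encounter. -/
theorem mem_OS2_le (hΦ : AdmissiblePotential Φ) {A : Space3 → ℝ≥0∞} {C b g0 : ℝ}
    (hF : FOk f₀ A C b) {Q : EPar} (hQ : QOk Q g0) {PP : ℕ → PPar} (hP : PPOk Q PP)
    {Cv : ℝ≥0∞} (hV : Vel4 Q PP Cv) (T' : ℝ) {a : ℝ → ℝ} (ha : Tendsto a (𝓝[>] 0) (𝓝 0))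
    (ha0 : ∀ ε, 0 < ε → 0 ≤ a ε) :
    ∃ δ : ℕ → ℝ → ℝ≥0∞, (∀ K, Tendsto (δ K) (𝓝[>] 0) (𝓝 0)) ∧ ∀ (K : ℕ) (ε : ℝ), 0 < ε →
      ∀ (Ξ ν : Measure (Lab × LSt)) (c : ℝ≥0∞), c ≠ ∞ → PX (PP K) Ξ ν c → ∀ H : SF2,
      (∀ P z m w θ, (z, θ.2) ∈ ctSet Φ ε Q.te P →
        H P z m w θ ≤ sf2Of ε K (memG Φ Q.te (a ε) ε) P z m w θ) →
      OS2 Φ f₀ ε Q.te T' ν H ≤ c * δ K ε := by
  have hb2 := half_pos hF.b_pos
  choose C' hC' using fun P : CTree => hF.maj.tree hΦ hb2 (half_lt_self hF.b_pos) P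
  set IA : ℝ≥0∞ := ∫⁻ x, A x with hIA
  have hIAt : IA ≠ ∞ := hF.maj.fin
  refine ⟨fun K ε => memN Φ (b / 2) Q.te T' C' IA (Dm4 Q g0 Cv K) K (a ε) ε, fun K =>
    tendsto_memN hΦ hb2 (fun P => (hC' P).C_nonneg) hIAt (Dm4_ne_top hQ hV.fin K) K ha, ?_⟩
  intro K ε hε Ξ ν c hcν hPX H hH
  have hν := hPX.invFam
  have := hPX.sfν
  have hμ4 := m4_muV_le hQ hP hV hPX
  set μ : Measure Space3 := muV K Q.te ν with hμ
  have hte := ha0 ε hε
  have hM : ∀ M : ℕ, OS2 Φ f₀ ε Q.te T' ν H ≤ c *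
      ∑ P ∈ GIVStep383.trees K, IA * (ENNReal.ofReal Real.pi * (Dm4 Q g0 Cv K *
      ((∫⁻ q : Space3 × Par P, (domG (C' P) (b / 2) T' P q.1 q.2 *
        ENNReal.ofReal ((1 + ‖q.1‖) ^ 1)) *
        ∫⁻ s in Ioc 0 Q.te, memI Φ Q.te (a ε) ε P q s M) +
      (∫⁻ q : Space3 × Par P, (domG (C' P) (b / 2) T' P q.1 q.2 *
        ENNReal.ofReal ((1 + ‖q.1‖) ^ 1))) *
        (ENNReal.ofReal Q.te * ENNReal.ofReal (1 / (1 + (M : ℝ))))))) := by
    intro M
    refine (OS2_le hΦ hε hν (measCF_memG hΦ Q.te (a ε) ε) hH).trans ?_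
    rw [Finset.mul_sum]
    refine Finset.sum_le_sum fun P _ => ?_
    have hC0 := (hC' P).C_nonneg
    have hmI : Measurable fun q : Space3 × Par P =>
        ∫⁻ s in Ioc 0 Q.te, memI Φ Q.te (a ε) ε P q s M :=
      (measurable_memI hΦ Q.te (a ε) ε P (Nat.cast_nonneg M)).lintegral_prod_right'
    have hw1 : Measurable fun q : Space3 × Par P => ENNReal.ofReal (1 + ‖q.1‖) := by fun_prop
    set F : Space3 × Par P → ℝ≥0∞ := fun q => (ENNReal.ofReal Real.pi * m4 μ) *
      (ENNReal.ofReal (1 + ‖q.1‖) * ((∫⁻ s in Ioc 0 Q.te, memI Φ Q.te (a ε) ε P q s M) +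
        ENNReal.ofReal Q.te * ENNReal.ofReal (1 / (1 + (M : ℝ))))) with hFd
    have hFm : Measurable F := (hw1.mul (hmI.add_const _)).const_mul _
    have hgc : ∀ z : PhasePoint × Par P, gcE f₀ ε (fun m w =>
        fluxM Q.te μ (memG Φ Q.te (a ε) ε) P z m w) ≤ F (z.1.2, z.2) := by
      intro z
      refine (gcE_mono f₀ ε fun m w _ => fluxM_mem_le hte M μ hΦ P z m w).trans ?_
      refine (Long984.gcE_const_le hF.meas hF.mass ε _).trans (le_of_eq ?_)
      rw [hFd]
      ring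
    calc ∫⁻ z : PhasePoint × Par P, {z : PhasePoint × Par P | Valid Φ ε P T' z.1.2 z.2}.indicator
          (fun z => wt Φ P z.1.2 z.2 * (ToTree335.pf Φ f₀ ε P z *
            gcE f₀ ε (fun m w => fluxM Q.te μ (memG Φ Q.te (a ε) ε) P z m w))) z
        ≤ ∫⁻ z : PhasePoint × Par P, {z : PhasePoint × Par P |
            Valid Φ ε P T' z.1.2 z.2}.indicator
          (fun z => wt Φ P z.1.2 z.2 * (ToTree335.pf Φ f₀ ε P z * F (z.1.2, z.2))) z := by
          refine lintegral_mono fun z => indicator_le_indicator ?_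
          exact mul_le_mul' le_rfl (mul_le_mul' le_rfl (hgc z))
      _ ≤ IA * ∫⁻ q : Space3 × Par P, domG (C' P) (b / 2) T' P q.1 q.2 * F q :=
          (hC' P).lintegral_u hΦ hε.le T' hFm
      _ = IA * ((ENNReal.ofReal Real.pi * m4 μ) *
          ((∫⁻ q : Space3 × Par P, (domG (C' P) (b / 2) T' P q.1 q.2 *
            ENNReal.ofReal ((1 + ‖q.1‖) ^ 1)) *
            ∫⁻ s in Ioc 0 Q.te, memI Φ Q.te (a ε) ε P q s M) +
          (∫⁻ q : Space3 × Par P, (domG (C' P) (b / 2) T' P q.1 q.2 *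
            ENNReal.ofReal ((1 + ‖q.1‖) ^ 1))) *
            (ENNReal.ofReal Q.te * ENNReal.ofReal (1 / (1 + (M : ℝ)))))) := by
          have hdm : Measurable fun q : Space3 × Par P =>
              domG (C' P) (b / 2) T' P q.1 q.2 * ENNReal.ofReal (1 + ‖q.1‖) :=
            (measurable_domG hC0 (b / 2) T' P).mul hw1
          have e1 : ∀ q : Space3 × Par P, domG (C' P) (b / 2) T' P q.1 q.2 * F q =
              (ENNReal.ofReal Real.pi * m4 μ) * ((domG (C' P) (b / 2) T' P q.1 q.2 *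
                ENNReal.ofReal (1 + ‖q.1‖)) * (∫⁻ s in Ioc 0 Q.te,
                  memI Φ Q.te (a ε) ε P q s M) + (domG (C' P) (b / 2) T' P q.1 q.2 *
                ENNReal.ofReal (1 + ‖q.1‖)) * (ENNReal.ofReal Q.te *
                  ENNReal.ofReal (1 / (1 + (M : ℝ))))) := by
            intro q
            rw [hFd]
            ring
          simp only [e1, pow_one]
          have h1 : Measurable fun q : Space3 × Par P => (domG (C' P) (b / 2) T' P q.1 q.2 *
              ENNReal.ofReal (1 + ‖q.1‖)) * ∫⁻ s in Ioc 0 Q.te, memI Φ Q.te (a ε) ε P q s M :=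
            hdm.mul hmI
          have h2 : Measurable fun q : Space3 × Par P => (domG (C' P) (b / 2) T' P q.1 q.2 *
              ENNReal.ofReal (1 + ‖q.1‖)) * (ENNReal.ofReal Q.te *
                  ENNReal.ofReal (1 / (1 + (M : ℝ)))) := hdm.mul_const _
          have h12 : Measurable fun q : Space3 × Par P => (domG (C' P) (b / 2) T' P q.1 q.2 *
              ENNReal.ofReal (1 + ‖q.1‖)) * (∫⁻ s in Ioc 0 Q.te, memI Φ Q.te (a ε) ε P q s M) +
              (domG (C' P) (b / 2) T' P q.1 q.2 * ENNReal.ofReal (1 + ‖q.1‖)) *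
                (ENNReal.ofReal Q.te * ENNReal.ofReal (1 / (1 + (M : ℝ)))) := h1.add h2
          rw [lintegral_const_mul _ h12, lintegral_add_left h1, lintegral_mul_const _ hdm]
      _ ≤ IA * ((ENNReal.ofReal Real.pi * (Dm4 Q g0 Cv K * c)) *
          ((∫⁻ q : Space3 × Par P, (domG (C' P) (b / 2) T' P q.1 q.2 *
            ENNReal.ofReal ((1 + ‖q.1‖) ^ 1)) *
            ∫⁻ s in Ioc 0 Q.te, memI Φ Q.te (a ε) ε P q s M) +
          (∫⁻ q : Space3 × Par P, (domG (C' P) (b / 2) T' P q.1 q.2 *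
            ENNReal.ofReal ((1 + ‖q.1‖) ^ 1))) *
            (ENNReal.ofReal Q.te * ENNReal.ofReal (1 / (1 + (M : ℝ)))))) :=
          mul_le_mul' le_rfl (mul_le_mul' (mul_le_mul' le_rfl hμ4) le_rfl)
      _ = _ := by ring
  by_cases hc0 : c = 0
  · have h0 := hM 0
    rw [hc0, zero_mul] at h0
    exact h0.trans zero_le
  · unfold memN
    rw [ENNReal.mul_iInf_of_ne hc0 hcν]
    exact le_iInf hM

end Crest.Agent.R122.Third741
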