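import Crest.Agent.R122.VolD4_365
import Crest.Agent.R122.VolRoot_365
import Crest.Agent.R122.ClusterBC_311

/-!
Row 122, helper365: instantaneous density of the particles with a backward cluster of size at most
`K` in the real gas.
-/

set_option autoImplicit false

open MeasureTheory Set Filter
open Crest.AnalysisR.Kinetic
open Crest.Agent.R122.Flow671 Crest.Agent.R122.Loc45
open Crest.Agent.R122.Causal291 (Past Ct pth BC)
open Crest.Agent.R122.GC311
open scoped ENNReal Classical Topology

noncomputable section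

namespace Crest.Agent.R122.Vol365

variable {Φ : Space3 → ℝ} {ε : ℝ}

theorem energy_unit (Φ : Space3 → ℝ) (ε : ℝ) (y : Unit → PhasePoint) :
    energy Φ ε y = 1 / 2 * ‖(y ()).2‖ ^ 2 := by
  unfold energy
  simp

/-- **D4, one root.** -/
theorem d4_single (hΦ : AdmissiblePotential Φ) {γ : ℝ} (hγ : 0 < γ) (T : ℝ) (k : ℕ) :
    ∃ C : ℝ≥0∞, C ≠ ∞ ∧
    ∀ ε : ℝ, 0 < ε → ε ≤ 1 → ∀ (ι : Type) [Fintype ι], Fintype.card ι = k →
    ∀ i : ι, ∀ t : ℝ, 0 ≤ t → t ≤ T →
    ∀ F : PhasePoint → ℝ≥0∞, Measurable F → ∃ G : (ι → PhasePoint) → ℝ≥0∞, Measurable G ∧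
      (∀ V y, TapIn Φ ε t (fun _ : Unit => i) V y →
        ENNReal.ofReal (Real.exp (-(γ * energy Φ ε V))) * F (y ()) ≤ G V) ∧
      ∫⁻ V, G V ≤ C * ENNReal.ofReal ε ^ (2 * (k - 1)) * ∫⁻ y, gw (γ / 4) y * F y := by
  obtain ⟨C, hC, h⟩ := d4_majorant hΦ hγ T k
  refine ⟨C, hC, ?_⟩
  intro ε hε hε1 ι _ hk i t ht htT F hF
  obtain ⟨G, hG, h1, h2⟩ := h ε hε hε1 Unit ι hk (fun _ => i) (fun _ _ _ => rfl) t ht htT
    (fun y => F (y ())) (hF.comp (measurable_pi_apply ()))
  refine ⟨G, hG, h1, h2.trans (le_of_eq ?_)⟩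
  rw [hk, Fintype.card_unit]
  congr 1
  have hmp := volume_preserving_funUnique Unit PhasePoint
  have e1 : ∀ y : Unit → PhasePoint, ENNReal.ofReal (Real.exp (-(γ / 2 * energy Φ ε y))) *
      F (y ()) = (fun z : PhasePoint => gw (γ / 4) z * F z)
        (MeasurableEquiv.funUnique Unit PhasePoint y) := by
    intro y
    have e2 : MeasurableEquiv.funUnique Unit PhasePoint y = y () := rfl
    simp only [e2, energy_unit]
    unfold gw
    congr 3
    ring
  simp_rw [e1]
  exact hmp.lintegral_comp ((measurable_gw _).mul hF)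

theorem gcE_le_const {f₀ : PhasePoint → ℝ} (hf : Measurable f₀)
    (h1 : ∫⁻ z, ENNReal.ofReal (f₀ z) ≤ 1) {G : (n : ℕ) → Config n → ℝ≥0∞} {c : ℝ≥0∞}
    (h : ∀ n, ∀ Z ∈ PairExcluded ε n, G n Z ≤ c) : gcE f₀ ε G ≤ c := by
  by_cases hc : c = ∞
  · rw [hc]; exact le_top
  · exact (gcE_mono f₀ ε (G := fun _ _ => c) h).trans (gcE_const f₀ ε hf h1 hc).le

theorem gcWeight_le {f₀ : PhasePoint → ℝ} {C₀ β : ℝ} (hC₀ : 0 ≤ C₀) (hΦ : AdmissiblePotential Φ)
    (hε : 0 < ε) (hf : ∀ z : PhasePoint, f₀ z ≤ C₀ * Real.exp (-(2 * β * ‖z.2‖ ^ 2))) {k : ℕ}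
    (V : Config k) : gcWeight f₀ ε k V ≤
      ENNReal.ofReal C₀ ^ k * ENNReal.ofReal (Real.exp (-(4 * β * energy Φ ε V))) := by
  unfold gcWeight
  by_cases hV : V ∈ PairExcluded ε k
  · rw [indicator_of_mem hV]
    have h1 := prod_f0_le hC₀ hf V
    rw [Fintype.card_fin] at h1
    rwa [energy_pairExcluded hΦ hε hV]
  · rw [indicator_of_notMem hV]; exact bot_le

/-- the cluster of a marked particle of `V` in the world `V ⧺ w` -/
theorem tapIn_append (hε : 0 < ε) {k m : ℕ} {V : Config k} {w : Config m}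
    (hVw : (Fin.append V w : Config (k + m)) ∈ Dom Φ (Fin (k + m))) {t : ℝ} {j : Fin k}
    (h : BC (Ct (pth Φ ε (Fin.append V w : Config (k + m))) ε) t (Fin.castAdd m j) =
      range (Fin.castAdd m)) :
    TapIn Φ ε t (fun _ : Unit => j) V
      (fun _ => flow Φ ε t (Fin.append V w : Config (k + m)) (Fin.castAdd m j)) := by
  refine ⟨Fin (k + m), inferInstance, Fin.append V w, Fin.castAdd m, Fin.castAdd_injective k m,
    hVw, fun i => Fin.append_left V w i, ?_, fun r => rfl⟩
  rw [← h]
  ext x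
  constructor
  · rintro ⟨_, hx⟩; exact hx
  · intro hx; exact ⟨(), hx⟩

/-- **Instantaneous density of `K`-clean particles.** -/
theorem clean_density (hΦ : AdmissiblePotential Φ) {β : ℝ} (hβ : 0 < β) (T C₀ : ℝ) (hC₀ : 0 ≤ C₀)
    (K : ℕ) : ∃ C : ℝ≥0∞, C ≠ ∞ ∧ ∀ f₀ : PhasePoint → ℝ, Measurable f₀ →
      ∫⁻ z, ENNReal.ofReal (f₀ z) ≤ 1 →
      (∀ z : PhasePoint, f₀ z ≤ C₀ * Real.exp (-(2 * β * ‖z.2‖ ^ 2))) →
      ∀ ε : ℝ, 0 < ε → ε ≤ 1 → ∀ t : ℝ, 0 ≤ t → t ≤ T →
      ∀ F : PhasePoint → ℝ≥0∞, Measurable F →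
      gcE f₀ ε (fun n Z => ∑ i : Fin n, if (Master566.bc Φ ε Z t i).ncard ≤ K then
        F (flow Φ ε t Z i) else 0) ≤ C * activity ε * ∫⁻ y, gw β y * F y := by
  choose C hC h using fun k => d4_single (Φ := Φ) hΦ (γ := 4 * β) (by positivity) T k
  refine ⟨∑ k ∈ Finset.range (K + 1), (k : ℝ≥0∞) * (ENNReal.ofReal C₀ ^ k * C k), ?_, ?_⟩
  · refine ENNReal.sum_ne_top.2 fun k _ => ENNReal.mul_ne_top (by simp)
      (ENNReal.mul_ne_top (ENNReal.pow_ne_top ENNReal.ofReal_ne_top) (hC k))
  intro f₀ hf hf1 hfle ε hε hε1 t ht htT F hF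
  have hfm : ∀ n i (B : Finset (Fin n)), Measurable fun Z : Config n =>
      if B.card ≤ K then F (flow Φ ε t Z i) else 0 := by
    intro n i B
    by_cases hB : B.card ≤ K
    · simp only [hB, if_true]
      exact hF.comp ((measurable_pi_apply i).comp (measurable_flow hΦ hε t))
    · simp only [hB, if_false]; exact measurable_const
  have h0 := bc_mecke (f₀ := f₀) hf hΦ hε ht
    (F := fun n i B Z => if B.card ≤ K then F (flow Φ ε t Z i) else 0) (by
      intro n σ i B Z _
      rw [Finset.card_map]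
      by_cases hB : B.card ≤ K
      · simp only [hB, if_true]
        rw [flow_equiv hΦ hε σ t Z]
      · simp only [hB, if_false]) hfm
  have e0 : (fun (n : ℕ) (Z : Config n) => ∑ i : Fin n,
      if (Master566.bc Φ ε Z t i).ncard ≤ K then F (flow Φ ε t Z i) else 0) =
      fun (n : ℕ) (Z : Config n) => ∑ i : Fin n,
        if (Master566.bc Φ ε Z t i).toFinset.card ≤ K then F (flow Φ ε t Z i) else 0 := by
    funext n Z
    refine Finset.sum_congr rfl fun i _ => ?_
    rw [Set.ncard_eq_toFinset_card']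
  rw [e0, h0]
  have hterm : ∀ k : ℕ, activity ε ^ k / (k.factorial : ℝ≥0∞) * ∫⁻ V : Config k,
      gcWeight f₀ ε k V * gcE f₀ ε (fun m w => perpInd ε V w * ∑ j : Fin k,
        if (Master566.bc Φ ε (Fin.append V w) t (Fin.castAdd m j)).toFinset = block k m then
          (if (block k m).card ≤ K then
            F (flow Φ ε t (Fin.append V w : Config (k + m)) (Fin.castAdd m j)) else 0) else 0) ≤
      if k ≤ K then (k : ℝ≥0∞) * (ENNReal.ofReal C₀ ^ k * C k) *
        (activity ε * ∫⁻ y, gw β y * F y) else 0 := by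
    intro k
    by_cases hkK : k ≤ K
    swap
    · rw [if_neg hkK]
      have : ∀ m, ¬ (block k m).card ≤ K := fun m => by rwa [card_block]
      simp only [this, if_false, ite_self, Finset.sum_const_zero, mul_zero]
      have e1 : gcE f₀ ε (fun _ _ => (0 : ℝ≥0∞)) = 0 := by
        rw [gcE_const f₀ ε hf hf1 ENNReal.zero_ne_top]
      simp [e1]
    rw [if_pos hkK]
    rcases Nat.eq_zero_or_pos k with hk0 | hk0
    · subst hk0
      simp only [Finset.univ_eq_empty, Finset.sum_empty, mul_zero]
      have e1 : gcE f₀ ε (fun _ _ => (0 : ℝ≥0∞)) = 0 := by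
        rw [gcE_const f₀ ε hf hf1 ENNReal.zero_ne_top]
      simp [e1]
    choose G hG hG1 hG2 using fun j : Fin k =>
      h k ε hε hε1 (Fin k) (Fintype.card_fin k) j t ht htT F hF
    have hpt : ∀ V : Config k, gcWeight f₀ ε k V * gcE f₀ ε (fun m w => perpInd ε V w * ∑ j : Fin k,
        if (Master566.bc Φ ε (Fin.append V w) t (Fin.castAdd m j)).toFinset = block k m then
          (if (block k m).card ≤ K then
            F (flow Φ ε t (Fin.append V w : Config (k + m)) (Fin.castAdd m j)) else 0) else 0) ≤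
        ENNReal.ofReal C₀ ^ k * ∑ j, G j V := by
      intro V
      by_cases hV : V ∈ PairExcluded ε k
      swap
      · have : gcWeight f₀ ε k V = 0 := by simp [gcWeight, Set.indicator_of_notMem hV]
        rw [this, zero_mul]; exact bot_le
      have hw := gcWeight_le (ε := ε) hC₀ hΦ hε hfle V
      set g := ENNReal.ofReal (Real.exp (-(4 * β * energy Φ ε V))) with hg
      have hg0 : g ≠ 0 := by
        rw [hg, Ne, ENNReal.ofReal_eq_zero, not_le]; exact Real.exp_pos _
      have hgt : g ≠ ∞ := ENNReal.ofReal_ne_top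
      refine (mul_le_mul_left hw _).trans ?_
      rw [mul_assoc]
      refine mul_le_mul_right ?_ _
      have h3 : gcE f₀ ε (fun m w => perpInd ε V w * ∑ j : Fin k,
        if (Master566.bc Φ ε (Fin.append V w) t (Fin.castAdd m j)).toFinset = block k m then
          (if (block k m).card ≤ K then
            F (flow Φ ε t (Fin.append V w : Config (k + m)) (Fin.castAdd m j)) else 0) else 0) ≤
          g⁻¹ * ∑ j, G j V := by
        refine gcE_le_const hf hf1 fun m w hw' => ?_
        unfold perpInd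
        by_cases hp : Perp ε V w
        swap
        · rw [if_neg hp, zero_mul]; exact bot_le
        rw [if_pos hp, one_mul, Finset.mul_sum]
        refine Finset.sum_le_sum fun j _ => ?_
        split_ifs with hb hc
        · have hVw : (Fin.append V w : Config (k + m)) ∈ Dom Φ (Fin (k + m)) :=
            pairExcluded_subset_Dom hε _ ((append_mem_pairExcluded_iff V w).2 ⟨hV, hw', hp⟩)
          have hbc : BC (Ct (pth Φ ε (Fin.append V w : Config (k + m))) ε) t (Fin.castAdd m j) =
              range (Fin.castAdd m) := by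
            have h4 : Master566.bc Φ ε (Fin.append V w) t (Fin.castAdd m j) =
                ((block k m : Finset (Fin (k + m))) : Set (Fin (k + m))) := by
              rw [← hb, Set.coe_toFinset]
            have h5 : ((block k m : Finset (Fin (k + m))) : Set (Fin (k + m))) =
                range (Fin.castAdd m) := by
              ext x
              rw [Finset.mem_coe, mem_block]; rfl
            rw [← h5, ← h4]; rfl
          have h6 := hG1 j V _ (tapIn_append hε hVw hbc)
          rw [← hg] at h6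
          calc F (flow Φ ε t (Fin.append V w : Config (k + m)) (Fin.castAdd m j))
              = g⁻¹ * (g * F (flow Φ ε t (Fin.append V w : Config (k + m)) (Fin.castAdd m j))) := by
                rw [← mul_assoc, ENNReal.inv_mul_cancel hg0 hgt, one_mul]
            _ ≤ g⁻¹ * G j V := mul_le_mul_right h6 _
        · exact bot_le
        · exact bot_le
      calc g * gcE f₀ ε _ ≤ g * (g⁻¹ * ∑ j, G j V) := mul_le_mul_right h3 _
        _ = ∑ j, G j V := by rw [← mul_assoc, ENNReal.mul_inv_cancel hg0 hgt, one_mul]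
    have hact : activity ε ^ k * ENNReal.ofReal ε ^ (2 * (k - 1)) = activity ε := by
      obtain ⟨k', rfl⟩ : ∃ k', k = k' + 1 := ⟨k - 1, by omega⟩
      have e1 : activity ε * ENNReal.ofReal ε ^ 2 = 1 := by
        unfold activity
        rw [← ENNReal.ofReal_pow hε.le, ← ENNReal.ofReal_mul (by positivity)]
        rw [inv_mul_cancel₀ (by positivity), ENNReal.ofReal_one]
      rw [Nat.add_sub_cancel, pow_succ, pow_mul]
      calc activity ε ^ k' * activity ε * (ENNReal.ofReal ε ^ 2) ^ k'
          = (activity ε * ENNReal.ofReal ε ^ 2) ^ k' * activity ε := by rw [mul_pow]; ring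
        _ = activity ε := by rw [e1, one_pow, one_mul]
    have hfac : activity ε ^ k / (k.factorial : ℝ≥0∞) ≤ activity ε ^ k :=
      ENNReal.div_le_of_le_mul (le_mul_of_one_le_right' (by exact_mod_cast Nat.factorial_pos k))
    calc activity ε ^ k / (k.factorial : ℝ≥0∞) * ∫⁻ V : Config k,
          gcWeight f₀ ε k V * gcE f₀ ε (fun m w => perpInd ε V w * ∑ j : Fin k,
        if (Master566.bc Φ ε (Fin.append V w) t (Fin.castAdd m j)).toFinset = block k m then
          (if (block k m).card ≤ K then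
            F (flow Φ ε t (Fin.append V w : Config (k + m)) (Fin.castAdd m j)) else 0) else 0)
        ≤ activity ε ^ k * ∫⁻ V : Config k, ENNReal.ofReal C₀ ^ k * ∑ j, G j V :=
          mul_le_mul' hfac (lintegral_mono hpt)
      _ = activity ε ^ k * (ENNReal.ofReal C₀ ^ k * ∑ j, ∫⁻ V : Config k, G j V) := by
          rw [lintegral_const_mul _ (Finset.measurable_sum _ fun j _ => hG j),
            lintegral_finsetSum _ fun j _ => hG j]
      _ ≤ activity ε ^ k * (ENNReal.ofReal C₀ ^ k * ∑ _j : Fin k,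
            (C k * ENNReal.ofReal ε ^ (2 * (k - 1)) * ∫⁻ y, gw (4 * β / 4) y * F y)) := by
          refine mul_le_mul_right (mul_le_mul_right (Finset.sum_le_sum fun j _ => hG2 j) _) _
      _ = (k : ℝ≥0∞) * (ENNReal.ofReal C₀ ^ k * C k) *
            ((activity ε ^ k * ENNReal.ofReal ε ^ (2 * (k - 1))) * ∫⁻ y, gw β y * F y) := by
          rw [Finset.sum_const, Finset.card_univ, Fintype.card_fin, nsmul_eq_mul,
            show 4 * β / 4 = β by ring]
          ring
      _ = _ := by rw [hact]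
  refine (ENNReal.tsum_le_tsum hterm).trans ?_
  rw [tsum_eq_sum (s := Finset.range (K + 1)) (fun k hk => by
    rw [if_neg]; intro h; exact hk (Finset.mem_range.2 (by omega)))]
  rw [mul_assoc, Finset.sum_mul]
  refine Finset.sum_le_sum fun k hk => ?_
  rw [if_pos (by have := Finset.mem_range.1 hk; omega)]

end Crest.Agent.R122.Vol365

end
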