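import Crest.Agent.R122.NuSepDef_85
import Crest.Agent.R122.SepNull_302
import Crest.Agent.R122.OSTree_434
import Crest.Agent.R122.SmallNull_566
import Crest.Agent.R122.Q1Data_815
import Crest.Agent.R122.VolGas_365

/-!
# Row 122 (helper564): the structures whose tree is not separated are null

* `pe_nu0N_le` : `PE nu0N ≤ C * TS (wQ 1_{valid, not separated})`.
* `pe_nu0N_null`, `pe_nu0N_small` : the pair mass of helper85's `nu0N` is null.
* `pe_nu0_le` : `PE nu0 ≤ PE nu0S + PE nu0N`.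
-/

set_option autoImplicit false
set_option maxHeartbeats 400000
set_option linter.unusedSectionVars false

open MeasureTheory Set Filter
open scoped ENNReal Classical Topology
open Crest.AnalysisR.Kinetic
open Crest.Agent.R122.Kin796 Crest.Agent.R122.Kin796.CTree Crest.Agent.R122.Tree674
open Crest.Agent.R122.GC311 Crest.Agent.R122.EDefs602 Crest.Agent.R122.TreeLines335
open Crest.Agent.R122.OneC285 Crest.Agent.R122.Disc416 Crest.Agent.R122.InEq2
open Crest.Agent.R122.Nu0566 (strM nu0 lintegral_strM oneLsM measurable_pair)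
open Crest.Agent.R122.NuSep85
open Crest.Agent.R122.Small302 (setG measTS_setG nsep measurableSet_nsep sepNull wQ_ne_top)
open Crest.Agent.R122.GateOS434 (kL kL_ne_top ctInt_lineD_le one_add_root_le)

noncomputable section

namespace Crest.Agent.R122.SepNu564

variable {Φ : Space3 → ℝ} {f₀ : PhasePoint → ℝ} {ε : ℝ} {K : ℕ} {P : CTree} {Q : EPar} {T' : ℝ}
  {m₀ : ℕ}

/-- Flux of the test lines born at time `0`. -/
theorem flux0_le (hΦ : AdmissiblePotential Φ) (hε : 0 < ε) (z : PhasePoint × Par P) {te γe g : ℝ}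
    (hg : g ≤ γe) {ρ : ℝ≥0∞} (hρ : ρ ≠ ∞) (K : ℕ) :
    ∫⁻ l, {l : ML | (z, l.1) ∈ OneC423.ctSet Φ ε te P}.indicator
        (lineD (fun _ => γe) ρ K) l ∂(OneC423.baseM (Measure.dirac 0)) ≤
      ENNReal.ofReal (ε ^ 2) * (ENNReal.ofReal te * ((∑' n : ℕ, markW ρ K n) *
        (kL g * ENNReal.ofReal (1 + ‖z.1.2‖)))) := by
  have hD : Measurable (lineD (fun _ => γe) ρ K) := EBasic602.measurable_lineD measurable_const
  rw [OneC423.lintegral_ct hΦ hε z (Measure.dirac 0) hD]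
  refine mul_le_mul' le_rfl ?_
  rw [lintegral_dirac]
  calc ∫⁻ s in Ioc 0 te, {s | s ≤ te ∧ Valid Φ ε P s z.1.2 z.2}.indicator
          (fun s => OneC423.ctInt ε s z.1 0 (lineD (fun _ => γe) ρ K)) s
      ≤ ∫⁻ _s in Ioc 0 te, (∑' n : ℕ, markW ρ K n) *
          (kL g * ENNReal.ofReal (1 + ‖z.1.2‖)) := by
        refine lintegral_mono fun s => ?_
        refine (indicator_le_self _ _ _).trans ?_
        exact ctInt_lineD_le z.1 hρ K hg
    _ = ENNReal.ofReal te * ((∑' n : ℕ, markW ρ K n) *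
          (kL g * ENNReal.ofReal (1 + ‖z.1.2‖))) := by
        rw [setLIntegral_const, Real.volume_Ioc, sub_zero, mul_comm]

/-- The flux constant. -/
def cF (Q : EPar) (K : ℕ) (g : ℝ) : ℝ≥0∞ :=
  ENNReal.ofReal Q.te * ((∑' n : ℕ, markW Q.ρ K n) * kL g)

theorem cF_ne_top (hρ : Q.ρ ≠ ∞) {g : ℝ} (hg0 : 0 < g) : cF Q K g ≠ ∞ :=
  ENNReal.mul_ne_top ENNReal.ofReal_ne_top
    (ENNReal.mul_ne_top (LinkM547.tsum_markW_ne_top hρ K) (kL_ne_top hg0))

/-- Mass of a set of tree parameters in the structure measure. -/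
theorem strM_fst_le (hΦ : AdmissiblePotential Φ) (hε : 0 < ε) (hf : Measurable f₀)
    {g : ℝ} (hg0 : 0 < g) (hg : g ≤ Q.γ Q.te) (hρ : Q.ρ ≠ ∞) {B : Set (PhasePoint × Par P)}
    (hB : MeasurableSet B) :
    strM Φ f₀ ε K (fun _ => Q.γ Q.te) Q.ρ Q.te T' (Measure.dirac 0) P (Prod.fst ⁻¹' B) ≤
      ENNReal.ofReal (ε ^ 2) * (cF Q K g *
        ∫⁻ z : PhasePoint × Par P, {z : PhasePoint × Par P | Valid Φ ε P T' z.1.2 z.2}.indicator
          (fun z => wt Φ P z.1.2 z.2 * (ToTree335.pf Φ f₀ ε P z *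
            (ENNReal.ofReal (1 + ‖z.1.2‖) * B.indicator (fun _ => 1) z))) z) := by
  have hBq : MeasurableSet (Prod.fst ⁻¹' B : Set ((PhasePoint × Par P) × ML)) := measurable_fst hB
  have hm : Measurable fun q : (PhasePoint × Par P) × ML => B.indicator (fun _ => (1 : ℝ≥0∞)) q.1 :=
    (measurable_const.indicator hB).comp measurable_fst
  have e0 : strM Φ f₀ ε K (fun _ => Q.γ Q.te) Q.ρ Q.te T' (Measure.dirac 0) P (Prod.fst ⁻¹' B) =
      ∫⁻ q, B.indicator (fun _ => 1) q.1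
        ∂(strM Φ f₀ ε K (fun _ => Q.γ Q.te) Q.ρ Q.te T' (Measure.dirac 0) P) := by
    rw [← lintegral_indicator_one hBq]
    rfl
  rw [e0, lintegral_strM hΦ hf measurable_const Q.ρ Q.te T' (Measure.dirac 0) hm, ← mul_assoc,
    ← lintegral_const_mul' _ _ (ENNReal.mul_ne_top ENNReal.ofReal_ne_top (cF_ne_top hρ hg0))]
  refine lintegral_mono fun z => ?_
  by_cases hz : Valid Φ ε P T' z.1.2 z.2
  · rw [indicator_of_mem (show z ∈ {z : PhasePoint × Par P | Valid Φ ε P T' z.1.2 z.2} from hz),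
      indicator_of_mem (show z ∈ {z : PhasePoint × Par P | Valid Φ ε P T' z.1.2 z.2} from hz)]
    have h1 : ∫⁻ l, {l : ML | (z, l.1) ∈ OneC423.ctSet Φ ε Q.te P}.indicator
          (fun l => lineD (fun _ => Q.γ Q.te) Q.ρ K l * (smI K P l * B.indicator (fun _ => 1) z)) l
            ∂(OneC423.baseM (Measure.dirac 0)) ≤
        ENNReal.ofReal (ε ^ 2) * (ENNReal.ofReal Q.te * ((∑' n : ℕ, markW Q.ρ K n) *
          (kL g * ENNReal.ofReal (1 + ‖z.1.2‖)))) * B.indicator (fun _ => 1) z := by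
      have h2 : B.indicator (fun _ => (1 : ℝ≥0∞)) z ≠ ∞ := by
        by_cases hb : z ∈ B
        · rw [indicator_of_mem hb]
          exact ENNReal.one_ne_top
        · rw [indicator_of_notMem hb]
          exact ENNReal.zero_ne_top
      refine le_trans ?_ (mul_le_mul' (flux0_le hΦ hε z hg hρ K) le_rfl)
      rw [← lintegral_mul_const' _ _ h2]
      refine lintegral_mono fun l => ?_
      by_cases hl : (z, l.1) ∈ OneC423.ctSet Φ ε Q.te P
      · rw [indicator_of_mem (show l ∈ {l : ML | (z, l.1) ∈ OneC423.ctSet Φ ε Q.te P} from hl),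
          indicator_of_mem (show l ∈ {l : ML | (z, l.1) ∈ OneC423.ctSet Φ ε Q.te P} from hl)]
        refine mul_le_mul' le_rfl ?_
        unfold smI
        split_ifs
        · rw [one_mul]
        · rw [zero_mul]
          exact zero_le
      · rw [indicator_of_notMem (show l ∉ {l : ML | (z, l.1) ∈ OneC423.ctSet Φ ε Q.te P} from hl)]
        exact zero_le
    refine (mul_le_mul' le_rfl (mul_le_mul' le_rfl h1)).trans (le_of_eq ?_)
    unfold cF
    ring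
  · rw [indicator_of_notMem (show z ∉ {z : PhasePoint × Par P | Valid Φ ε P T' z.1.2 z.2}
      from hz)]
    exact zero_le

/-! ### Mass of the non-separated structures -/

theorem nuPR_univ (hΦ : AdmissiblePotential Φ) (A : Set ((PhasePoint × Par P) × ML))
    (x y : Idx P ⊕ Bool) : nuPR Φ f₀ ε K Q T' P A x y univ =
      strM Φ f₀ ε K (fun _ => Q.γ Q.te) Q.ρ Q.te T' (Measure.dirac 0) P A := by
  unfold nuPR
  rw [Measure.map_apply (measurable_pair hΦ ε P x y) MeasurableSet.univ, preimage_univ,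
    Measure.restrict_apply_univ]

theorem nu0R_univ (hΦ : AdmissiblePotential Φ) (A : ∀ P : CTree, Set ((PhasePoint × Par P) × ML)) :
    nu0R Φ f₀ ε K Q T' m₀ A univ = activity ε * ∑' P : CTree, if P.leaves ≤ m₀ then
      ∑ x ∈ exS P, ∑ _y ∈ (Finset.univ : Finset (Idx P ⊕ Bool)).erase x,
        strM Φ f₀ ε K (fun _ => Q.γ Q.te) Q.ρ Q.te T' (Measure.dirac 0) P (A P) else 0 := by
  have h := lintegral_nu0R (Φ := Φ) (f₀ := f₀) (ε := ε) (K := K) (Q := Q) (T' := T') (m₀ := m₀) A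
    (fun _ => 1)
  rw [lintegral_one] at h
  rw [h]
  congr 1
  refine tsum_congr fun P => ?_
  split_ifs
  · refine Finset.sum_congr rfl fun x _ => Finset.sum_congr rfl fun y _ => ?_
    rw [lintegral_one, nuPR_univ hΦ]
  · rfl

theorem card_pairs_le (hP : P.leaves ≤ m₀) (c : ℝ≥0∞) :
    ∑ x ∈ exS P, ∑ _y ∈ (Finset.univ : Finset (Idx P ⊕ Bool)).erase x, c ≤
      ((m₀ + 2 : ℕ) : ℝ≥0∞) ^ 2 * c := by
  have hc : Fintype.card (Idx P ⊕ Bool) ≤ m₀ + 2 := by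
    rw [Fintype.card_sum, Fintype.card_bool, Tree674.card_idx]
    exact Nat.add_le_add_right hP 2
  have h1 : ∀ x : Idx P ⊕ Bool, ∑ _y ∈ (Finset.univ : Finset (Idx P ⊕ Bool)).erase x, c ≤
      ((m₀ + 2 : ℕ) : ℝ≥0∞) * c := by
    intro x
    rw [Finset.sum_const, nsmul_eq_mul]
    refine mul_le_mul' ?_ le_rfl
    exact_mod_cast (Finset.card_le_univ _).trans hc
  refine (Finset.sum_le_sum fun x _ => h1 x).trans ?_
  rw [Finset.sum_const, nsmul_eq_mul, sq, mul_assoc]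
  refine mul_le_mul' ?_ le_rfl
  exact_mod_cast (Finset.card_le_univ _).trans hc

/-- The constant. -/
def cN (Q : EPar) (K : ℕ) (m₀ : ℕ) (g : ℝ) : ℝ≥0∞ := ((m₀ + 2 : ℕ) : ℝ≥0∞) ^ 2 * (cF Q K g * 2)

theorem cN_ne_top (hρ : Q.ρ ≠ ∞) {g : ℝ} (hg0 : 0 < g) : cN Q K m₀ g ≠ ∞ :=
  ENNReal.mul_ne_top (ENNReal.pow_ne_top (ENNReal.natCast_ne_top _))
    (ENNReal.mul_ne_top (cF_ne_top hρ hg0) (by norm_num))

/-- **Mass of the structures whose tree is not separated.** -/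
theorem nu0N_univ_le (hΦ : AdmissiblePotential Φ) (hε : 0 < ε) (hf : Measurable f₀)
    (hf1 : ∫⁻ z, ENNReal.ofReal (f₀ z) ≤ 1) {g : ℝ} (hg0 : 0 < g) (hg : g ≤ Q.γ Q.te)
    (hρ : Q.ρ ≠ ∞) :
    nu0N Φ f₀ ε K Q T' m₀ univ ≤ cN Q K m₀ g *
      InEq2.TS Φ f₀ ε T' (fun P z m w => wQ Φ ε P z * setG m₀ (nsep Φ T' ε) P z m w) := by
  unfold nu0N
  rw [nu0R_univ hΦ]
  unfold InEq2.TS
  rw [← ENNReal.tsum_mul_left, ← ENNReal.tsum_mul_left]
  refine ENNReal.tsum_le_tsum fun P => ?_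
  by_cases hP : P.leaves ≤ m₀
  swap
  · rw [if_neg hP, mul_zero]
    exact zero_le
  rw [if_pos hP]
  have hB : MeasurableSet (TreeLim974.goodS Φ ε P T')ᶜ :=
    (TreeLim974.measurableSet_goodS hΦ hε P T').compl
  have h1 := strM_fst_le (Φ := Φ) (f₀ := f₀) (K := K) (T' := T') hΦ hε hf hg0 hg hρ hB
  refine (mul_le_mul' le_rfl ((card_pairs_le hP _).trans (mul_le_mul' le_rfl h1))).trans ?_
  have hact : activity ε * ENNReal.ofReal (ε ^ 2) = 1 := by
    unfold activity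
    rw [← ENNReal.ofReal_mul (by positivity), ← ENNReal.ofReal_one]
    congr 1
    field_simp
  have h2 : ∀ X : ℝ≥0∞, activity ε * (((m₀ + 2 : ℕ) : ℝ≥0∞) ^ 2 *
      (ENNReal.ofReal (ε ^ 2) * (cF Q K g * X))) =
      (activity ε * ENNReal.ofReal (ε ^ 2)) * (((m₀ + 2 : ℕ) : ℝ≥0∞) ^ 2 * (cF Q K g * X)) :=
    fun X => by ring
  rw [h2, hact, one_mul]
  have h3 : cN Q K m₀ g = ((m₀ + 2 : ℕ) : ℝ≥0∞) ^ 2 * (cF Q K g * 2) := rfl
  rw [h3, mul_assoc, mul_assoc]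
  refine mul_le_mul' le_rfl (mul_le_mul' le_rfl ?_)
  rw [← lintegral_const_mul' _ _ (by norm_num)]
  refine lintegral_mono fun z => ?_
  by_cases hz : Valid Φ ε P T' z.1.2 z.2
  · rw [indicator_of_mem (show z ∈ {z : PhasePoint × Par P | Valid Φ ε P T' z.1.2 z.2} from hz),
      indicator_of_mem (show z ∈ {z : PhasePoint × Par P | Valid Φ ε P T' z.1.2 z.2} from hz)]
    have h4 := one_add_root_le hΦ ε (z := z) hz.1
    have h5 : gcE f₀ ε (fun m w => wQ Φ ε P z * setG m₀ (nsep Φ T' ε) P z m w) =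
        wQ Φ ε P z * (TreeLim974.goodS Φ ε P T')ᶜ.indicator (fun _ => 1) z := by
      by_cases hb : z ∈ TreeLim974.goodS Φ ε P T'
      · have h6 : z ∉ nsep Φ T' ε P := fun h => h.2 hb.2
        have h7 : (fun (m : ℕ) (w : Config m) =>
            wQ Φ ε P z * setG m₀ (nsep Φ T' ε) P z m w) = fun _ _ => 0 := by
          funext m w
          unfold setG
          rw [if_neg fun h => h6 h.2, mul_zero]
        rw [h7, gcE_zero, indicator_of_notMem (show z ∉ (TreeLim974.goodS Φ ε P T')ᶜ from fun h => h hb), mul_zero]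
      · have h6 : z ∈ nsep Φ T' ε P := ⟨hz, fun h => hb ⟨hz, h⟩⟩
        have h7 : (fun (m : ℕ) (w : Config m) =>
            wQ Φ ε P z * setG m₀ (nsep Φ T' ε) P z m w) = fun _ _ => wQ Φ ε P z := by
          funext m w
          unfold setG
          rw [if_pos ⟨hP, h6⟩, mul_one]
        rw [h7, gcE_const f₀ ε hf hf1 (wQ_ne_top z), indicator_of_mem (show z ∈ (TreeLim974.goodS Φ ε P T')ᶜ from hb), mul_one]
    rw [h5]
    calc wt Φ P z.1.2 z.2 * (ToTree335.pf Φ f₀ ε P z *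
          (ENNReal.ofReal (1 + ‖z.1.2‖) * (TreeLim974.goodS Φ ε P T')ᶜ.indicator (fun _ => 1) z))
        ≤ wt Φ P z.1.2 z.2 * (ToTree335.pf Φ f₀ ε P z *
          ((2 * wQ Φ ε P z) * (TreeLim974.goodS Φ ε P T')ᶜ.indicator (fun _ => 1) z)) :=
          mul_le_mul' le_rfl (mul_le_mul' le_rfl (mul_le_mul' h4 le_rfl))
      _ = _ := by
        show _ = 2 * (wt Φ P z.1.2 z.2 * (ToTree335.pf Φ f₀ ε P z *
          (wQ Φ ε P z * (TreeLim974.goodS Φ ε P T')ᶜ.indicator (fun _ => 1) z)))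
        ring
  · rw [indicator_of_notMem (show z ∉ {z : PhasePoint × Par P | Valid Φ ε P T' z.1.2 z.2}
      from hz)]
    exact zero_le

/-- **The pair mass of the structures whose tree is not separated.** -/
theorem pe_nu0N_le (hΦ : AdmissiblePotential Φ) (hε : 0 < ε) (hf : Measurable f₀)
    (hf1 : ∫⁻ z, ENNReal.ofReal (f₀ z) ≤ 1) {g : ℝ} (hg0 : 0 < g) (hg : g ≤ Q.γ Q.te)
    (hρ : Q.ρ ≠ ∞) (hL : 0 ≤ Q.L) :
    PE Φ f₀ ε K Q (nu0N Φ f₀ ε K Q T' m₀) ≤ cN Q K m₀ g *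
      InEq2.TS Φ f₀ ε T' (fun P z m w => wQ Φ ε P z * setG m₀ (nsep Φ T' ε) P z m w) := by
  refine le_trans ?_ (nu0N_univ_le hΦ hε hf hf1 hg0 hg hρ)
  unfold PE
  refine Vol365.gcE_le_const hf hf1 fun n w _ => ?_
  refine (lintegral_mono fun p => EBasic602.touchP_le_one hL _ _).trans ?_
  rw [lintegral_one]

/-- **The pair mass of `nu0`**: separated and non-separated structures. -/
theorem pe_nu0_le (hΦ : AdmissiblePotential Φ) (hε : 0 < ε) (hf : Measurable f₀) :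
    PE Φ f₀ ε K Q (nu0 Φ f₀ ε K Q T' m₀) ≤
      PE Φ f₀ ε K Q (nu0S Φ f₀ ε K Q T' m₀) + PE Φ f₀ ε K Q (nu0N Φ f₀ ε K Q T' m₀) := by
  unfold PE
  rw [nu0_eq hΦ hε]
  simp only [lintegral_add_measure]
  rw [gcE_add hf ε fun n => ?_]
  exact (MeasE416.measurable_touchP_cfg hΦ hε K Q n).lintegral_prod_right'

variable {β T : ℝ} {f : ℝ → PhasePoint → ℝ}

/-- **Nullity**, for every fixed `K`. -/
theorem pe_nu0N_null (hD : Master566.KData Φ β T f₀ f) {g : ℝ} (hg0 : 0 < g)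
    (hg : g ≤ Q.γ Q.te) (hρ : Q.ρ ≠ ∞) (hL : 0 ≤ Q.L) (T' : ℝ) (m₀ : ℕ) :
    Null fun K ε => PE Φ f₀ ε K Q (nu0N Φ f₀ ε K Q T' m₀) := by
  intro K δ hδ
  have hf1 : ∫⁻ z, ENNReal.ofReal (f₀ z) ≤ 1 := (Q1815.lintegral_mass hD).le
  have h1 := sepNull hD.adm (γ := 2 * β) (mul_pos two_pos hD.beta_pos) hD.contDiff.continuous
    hD.gaussian hf1 m₀ T'
  have h2 : Tendsto (fun ε => cN Q K m₀ g *
      InEq2.TS Φ f₀ ε T' (fun P z m w => wQ Φ ε P z * setG m₀ (nsep Φ T' ε) P z m w))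
      (𝓝[>] 0) (𝓝 0) := by
    have h3 := ENNReal.Tendsto.const_mul (a := cN Q K m₀ g) h1 (Or.inr (cN_ne_top hρ hg0))
    rwa [mul_zero] at h3
  have h4 : ∀ᶠ ε in 𝓝[>] (0 : ℝ), cN Q K m₀ g *
      InEq2.TS Φ f₀ ε T' (fun P z m w => wQ Φ ε P z * setG m₀ (nsep Φ T' ε) P z m w) ≤
        ENNReal.ofReal δ :=
    (h2.eventually (eventually_lt_nhds (ENNReal.ofReal_pos.2 hδ))).mono fun ε h => le_of_lt h
  obtain ⟨ε₀, hε₀, h5⟩ := (mem_nhdsGT_iff_exists_Ioo_subset).1 h4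
  refine ⟨ε₀, hε₀, fun ε hε hlt => ?_⟩
  exact (pe_nu0N_le hD.adm hε hD.contDiff.continuous.measurable hf1 hg0 hg hρ hL).trans
    (h5 ⟨hε, hlt⟩)

theorem pe_nu0N_small (hD : Master566.KData Φ β T f₀ f) {g : ℝ} (hg0 : 0 < g)
    (hg : g ≤ Q.γ Q.te) (hρ : Q.ρ ≠ ∞) (hL : 0 ≤ Q.L) (T' : ℝ) (m₀ : ℕ) :
    Small fun K ε => PE Φ f₀ ε K Q (nu0N Φ f₀ ε K Q T' m₀) :=
  (pe_nu0N_null hD hg0 hg hρ hL T' m₀).small

end Crest.Agent.R122.SepNu564

end
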