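import Crest.Agent.R122.NuLBind_85
import Crest.Agent.R122.I3In_566
import Crest.Agent.R122.WinZero_814
import Crest.Agent.R122.SepNu_564

/-!
# Row 122, inequality 3 (helper85): the base law of a window

* `nuC` : the base law of helper735, cut to `0 < ε ≤ 1`, `0 < te`.
* `nuC_px` : class and `Aux` for all `K`, `ε`, with a constant which depends on `m` only.
* `pm_le_nuC` : the pair mass `PMn` is at most the pair functional of `nuC` plus the pair mass of the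
  structures whose tree is not separated.
-/

set_option autoImplicit false
set_option linter.unusedSectionVars false

open MeasureTheory ProbabilityTheory Set Filter
open scoped ENNReal Classical Topology
open Crest.AnalysisR.Kinetic
open Crest.Agent.R122.GC311 Crest.Agent.R122.EDefs602
open Crest.Agent.R122.Boost969 (LSt)
open Crest.Agent.R122.Pair292 (Lab PPar PX shP)
open Crest.Agent.R122.PairD292 Crest.Agent.R122.Top602
open Crest.Agent.R122.Mark307 (BPar IsPP Aux)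
open Crest.Agent.R122.Master566 (KData)
open Crest.Agent.R122.I3In566 (Adm3 parW)
open Crest.Agent.R122.NuL735 (NPar nuL)
open Crest.Agent.R122.NuLBind85 Crest.Agent.R122.NuSep85

noncomputable section

namespace Crest.Agent.R122.NuC85

variable {Φ : Space3 → ℝ} {β T : ℝ} {f₀ : PhasePoint → ℝ} {f : ℝ → PhasePoint → ℝ} {ε : ℝ}
  {K : ℕ} {N : NPar}

/-- **The base law**, cut to `0 < ε ≤ 1`, `0 < te`. -/
def nuC (Φ : Space3 → ℝ) (N : NPar) (K : ℕ) (ε : ℝ) : Measure (Lab × LSt) :=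
  if 0 < ε ∧ ε ≤ 1 ∧ 0 < N.te then nuL Φ ε K N else 0

theorem nuC_of (h0 : 0 < ε) (h1 : ε ≤ 1) (h2 : 0 < N.te) : nuC Φ N K ε = nuL Φ ε K N :=
  if_pos ⟨h0, h1, h2⟩

theorem nuC_le (Φ : Space3 → ℝ) (N : NPar) (K : ℕ) (ε : ℝ) : nuC Φ N K ε ≤ nuL Φ ε K N := by
  unfold nuC
  split_ifs
  · exact le_rfl
  · exact Measure.zero_le _

instance sfinite_nuC : SFinite (nuC Φ N K ε) := by
  unfold nuC
  split_ifs <;> infer_instance

theorem nuC_tr (hΦ : AdmissiblePotential Φ) (a : Space3) :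
    (nuC Φ N K ε).map (shP a) = nuC Φ N K ε := by
  unfold nuC
  split_ifs
  · exact NuL735.nuL_tr hΦ N a
  · exact Measure.map_zero _

section adm

variable {γ : ℝ → ℝ} {ρ : ℝ≥0∞} {h₀ kap lam C g : ℝ} {B : BPar}

/-- The parameters of the base law of a window. -/
def nW (β Cf g : ℝ) (ρ : ℝ≥0∞) (h₀ : ℝ) (m : ℕ) (tw te : ℝ) : NPar :=
  npar Cf (2 * β) g ρ te (tw + h₀) m

/-- **Class and `Aux`** of the base laws of all windows, for all `K` and `ε`. -/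
theorem nuC_px (hΦ : AdmissiblePotential Φ) (hβ : 0 < β)
    (hA : Adm3 Φ β T f γ ρ h₀ kap lam C g B) (Cf : ℝ) (m : ℕ) :
    ∃ c₀ : ℝ≥0∞, c₀ ≠ ∞ ∧ ∀ tw te : ℝ, 0 ≤ tw → tw ≤ te → te ≤ T → te ≤ tw + h₀ →
      ∀ K ε, ∃ Ξ : Measure (Lab × LSt),
        PX (parW B hA.ok te K) Ξ (nuC Φ (nW β Cf g ρ h₀ m tw te) K ε) c₀ ∧
          Aux ε (nuC Φ (nW β Cf g ρ h₀ m tw te) K ε) := by
  obtain ⟨c₀, hc, h⟩ := nuL_px hΦ hA.ok hA.rl (b := 2 * β) (by linarith [hA.bs]) Cf m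
  refine ⟨c₀, hc, fun tw te htw hle hteT hteh K ε => ?_⟩
  have hw : te ≤ B.T := hA.le_BT hteT
  have hwT : tw + h₀ ≤ B.T := by linarith [hA.hor]
  by_cases hc : 0 < ε ∧ ε ≤ 1 ∧ 0 < te
  · rw [nuC_of hc.1 hc.2.1 hc.2.2]
    have hPP : IsPP B te K (parW B hA.ok te K) := by
      rw [I3In566.parW_of_le hA.ok hw]
      exact StepK85.isPP_parB B hA.ok hw K
    have := h ε (tw + h₀) te hc.1 hc.2.1 hc.2.2 hteh hwT K _ hPP g hA.bg
    rw [hA.rho] at this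
    exact this
  · have h0 : nuC Φ (nW β Cf g ρ h₀ m tw te) K ε = 0 := if_neg hc
    rw [h0]
    exact ⟨0, PairSrc969.PX.zero.mono_c zero_le, Mark307.Aux.zero⟩

/-- **The pair mass** of a window. -/
theorem pm_le_nuC (hD : KData Φ β T f₀ f) (hA : Adm3 Φ β T f γ ρ h₀ kap lam C g B) {Cf : ℝ}
    (hC : ∀ z, f₀ z ≤ Cf * Real.exp (-(2 * β * ‖z.2‖ ^ 2))) (m : ℕ) {L tw te : ℝ} (htw : 0 ≤ tw)
    (hteT : te ≤ T) (K : ℕ) (hε : 0 < ε) (hε1 : ε ≤ 1) :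
    PMn Φ f₀ γ ρ h₀ m L tw te K ε ≤
      PELK Φ f₀ ε K (epar γ ρ L tw te) (nuC Φ (nW β Cf g ρ h₀ m tw te) K ε) +
        PE Φ f₀ ε K (epar γ ρ L tw te) (nu0N Φ f₀ ε K (epar γ ρ L tw te) (tw + h₀) m) := by
  rcases le_or_gt te tw with hle | hlt
  · rw [WinZero814.PMn_eq_zero hle]
    exact zero_le
  · rw [nuC_of hε hε1 (show 0 < te by linarith)]
    exact pe_nu0_le_nuL hD.adm hε hD.contDiff.continuous.measurable hC (epar γ ρ L tw te)
      (hA.rate te hteT) (tw + h₀) m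

/-! ### The base law of a window -/

/-- The base law of a window: below 735's law, in the class, and the pair mass `PM` is eventually at
most its pair functional plus a small term. -/
structure BaseLaw (Φ : Space3 → ℝ) (f₀ : PhasePoint → ℝ) (Q : EPar) (PP : ℕ → PPar) (N : NPar)
    (c : ℝ≥0∞) (PM : ℕ → ℝ → ℝ≥0∞) (ν : ℕ → ℝ → Measure (Lab × LSt)) : Prop where
  le : ∀ K ε, 0 < ε → ν K ε ≤ nuL Φ ε K N
  px : ∀ K ε, 0 < ε → ∃ Ξ : Measure (Lab × LSt), PX (PP K) Ξ (ν K ε) c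
  aux : ∀ K ε, 0 < ε → Mark307.Aux ε (ν K ε)
  mass : ∃ S : ℕ → ℝ → ℝ≥0∞, Small S ∧ Ev fun K ε => PM K ε ≤ PELK Φ f₀ ε K Q (ν K ε) + S K ε

/-- **The base laws of all windows**, with a constant which depends on `m` only. -/
theorem baseLaw (hD : KData Φ β T f₀ f) (hρ : ρ ≠ ∞)
    (hA : Adm3 Φ β T f γ ρ h₀ kap lam C g B) (m : ℕ) :
    ∃ (Cf : ℝ) (c : ℝ≥0∞), 0 ≤ Cf ∧ (∀ z, f₀ z ≤ Cf * Real.exp (-(2 * β * ‖z.2‖ ^ 2))) ∧ c ≠ ∞ ∧
      ∀ L tw te : ℝ, 0 ≤ L → 0 ≤ tw → tw ≤ te → te ≤ T → te ≤ tw + h₀ →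
        BaseLaw Φ f₀ (epar γ ρ L tw te) (parW B hA.ok te) (nW β Cf g ρ h₀ m tw te) c
          (PMn Φ f₀ γ ρ h₀ m L tw te) (nuC Φ (nW β Cf g ρ h₀ m tw te)) := by
  obtain ⟨Cf, hCf, hC'⟩ := exists_gaussian_bound hD.gaussian
  have hC : ∀ z : PhasePoint, f₀ z ≤ Cf * Real.exp (-(2 * β * ‖z.2‖ ^ 2)) := fun z =>
    (le_abs_self _).trans (hC' z.1 z.2)
  obtain ⟨c, hc, h⟩ := nuC_px hD.adm hD.beta_pos hA Cf m
  refine ⟨Cf, c, hCf, hC, hc, fun L tw te hL htw hle hteT hteh => ?_⟩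
  refine ⟨fun K ε _ => nuC_le _ _ _ _, fun K ε _ => ?_, fun K ε _ => ?_,
    _, SepNu564.pe_nu0N_small hD (Q := epar γ ρ L tw te) hA.g0 (hA.rate te hteT) hρ hL
      (tw + h₀) m, ?_⟩
  · obtain ⟨Ξ, h1, -⟩ := h tw te htw hle hteT hteh K ε
    exact ⟨Ξ, h1⟩
  · obtain ⟨Ξ, -, h1⟩ := h tw te htw hle hteT hteh K ε
    exact h1
  · exact ⟨0, fun K _ => ⟨1, one_pos, fun ε hε hε1 => pm_le_nuC hD hA hC m htw hteT K hε hε1.le⟩⟩

end adm

end Crest.Agent.R122.NuC85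

end
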