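import Crest.Agent.R122.NullSkel_837
import Crest.Agent.R122.I3Fin_478
import Crest.Agent.R122.NuOk_735
import Crest.Agent.R122.NuC_85

/-!
# Inequality 3: the base law and the null facts of the windows (row 122), helper837

* `I3Leaves` : the gateway facts over the shapes of all continuations; `I3LeavesIn` : in all windows.
* `base3W_win` : helper478's `Base3W` of a window from helper85's `BaseLaw` and `I3Leaves`.
* `base3In_of_leaves` : `Base3In` from `I3LeavesIn`.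
-/

set_option autoImplicit false
set_option linter.unusedSectionVars false

open MeasureTheory ProbabilityTheory Set Filter Topology
open scoped ENNReal Classical
open Crest.AnalysisR.Kinetic
open Crest.Agent.R122.GC311 Crest.Agent.R122.EDefs602
open Crest.Agent.R122.Kin796 Crest.Agent.R122.Kin796.CTree Crest.Agent.R122.Tree674
open Crest.Agent.R122.Boost969 (LSt)
open Crest.Agent.R122.Pair292 hiding ML
open Crest.Agent.R122.PairD292 Crest.Agent.R122.Top602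
open Crest.Agent.R122.Gate424 Crest.Agent.R122.Gate973 Crest.Agent.R122.PairRep581
open Crest.Agent.R122.StrN998 (itS)
open Crest.Agent.R122.NuL735 (NPar nuL Ix famB)
open Crest.Agent.R122.Master566 (KData)
open Crest.Agent.R122.Mark307 (BPar Aux)
open Crest.Agent.R122.CaseC658 (qK)
open Crest.Agent.R122.PairIter566 (Base3)
open Crest.Agent.R122.I3In566 (Adm3 parW)
open Crest.Agent.R122.NuC85 (BaseLaw nW)
open Crest.Agent.R122.I3Fin478 (Base3W Base3In)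

noncomputable section

namespace Crest.Agent.R122.I3Slots837

variable {Φ : Space3 → ℝ} {β T : ℝ} {f₀ : PhasePoint → ℝ} {f : ℝ → PhasePoint → ℝ}

/-- **The gateway facts** over the shapes of all continuations of the base law. -/
structure I3Leaves (Φ : Space3 → ℝ) (f₀ : PhasePoint → ℝ) (Q : EPar) (T' b₀ : ℝ)
    (q : ℕ → ℕ → ℝ≥0∞) (N : NPar) : Prop where
  /-- pair links -/
  linkN : ∀ (j K : ℕ) (s : Ix N.m₀), GNull f₀ (itS (famB Φ K N s) Φ b₀ Q.te (q K) j).mI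
    (fun ε _ _ x w => LinkENB Φ ε K Q w ((itS (famB Φ K N s) Φ b₀ Q.te (q K) j).th ε x))
  /-- the null facts of LINK6 -/
  slots6 : ∀ (j K : ℕ) (P : CTree) (s : Ix N.m₀), P.leaves ≤ K →
    Link6796.Slots6G Φ f₀ Q T' K P (itS (famB Φ K N s) Φ b₀ Q.te (q K) j)

/-- **The gateway facts of all windows**: the open input. -/
def I3LeavesIn (Φ : Space3 → ℝ) (β : ℝ) (f₀ : PhasePoint → ℝ) (f : ℝ → PhasePoint → ℝ) (T : ℝ) :
    Prop :=
  InHL T fun h₀ γ ρ => ∀ (kap lam C g : ℝ) (B : BPar), Adm3 Φ β T f γ ρ h₀ kap lam C g B →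
    ∀ (Cf : ℝ) (m : ℕ), EvW T fun _ L tw te => IH Φ f₀ f T γ ρ tw → tw < te → te < tw + h₀ →
      I3Leaves Φ f₀ (epar γ ρ L tw te) (tw + h₀) B.b₀ (qK C lam) (nW β Cf g ρ h₀ m tw te)

/-! ### One window -/

theorem qOk_epar {g1 : ℝ} {r1 ρ : ℝ≥0∞} {γ : ℝ → ℝ} (hl : LinePar g1 r1 T γ ρ)
    {h₀ kap lam C g : ℝ} {B : BPar} (hA : Adm3 Φ β T f γ ρ h₀ kap lam C g B) {L tw te : ℝ}
    (hte : te ≤ T) : Third741.QOk (epar γ ρ L tw te) g :=
  ⟨(hl.hi.trans_le le_top).ne, hl.measurable, hA.g0, fun τ hτ => hA.rate τ (hτ.2.trans hte)⟩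

/-- **The base law and the null facts of one window.** -/
theorem base3W_win (hD : KData Φ β T f₀ f) {g1 : ℝ} {r1 ρ : ℝ≥0∞} {γ : ℝ → ℝ}
    (hl : LinePar g1 r1 T γ ρ) {h₀ kap lam C g : ℝ} {B : BPar}
    (hA : Adm3 Φ β T f γ ρ h₀ kap lam C g B) {L tw te : ℝ} (hte : te ≤ T) {Cf : ℝ} {m : ℕ}
    {c : ℝ≥0∞} (hc : c ≠ ∞) {PM : ℕ → ℝ → ℝ≥0∞} {ν : ℕ → ℝ → Measure (Lab × LSt)}
    (hν : BaseLaw Φ f₀ (epar γ ρ L tw te) (parW B hA.ok te) (nW β Cf g ρ h₀ m tw te) c PM ν)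
    (hlv : I3Leaves Φ f₀ (epar γ ρ L tw te) (tw + h₀) B.b₀ (qK C lam)
      (nW β Cf g ρ h₀ m tw te)) :
    Base3W Φ f₀ (epar γ ρ L tw te) (tw + h₀) B.b₀ (qK C lam) (parW B hA.ok te) c PM := by
  have hΦ := hD.adm
  have hρt : ρ ≠ ∞ := (hl.hi.trans_le le_top).ne
  obtain ⟨A, C₀, hF₀⟩ := Third741.FOk.of_kdata hD
  have hQ := qOk_epar hl hA (L := L) (tw := tw) hte
  have hPP : PPOk (epar γ ρ L tw te) (parW B hA.ok te) := hA.ppOk hte
  have hb0 : 0 < B.b₀ := hA.b0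
  have hb2 : B.b₀ ≤ 2 * β := by
    have h1 := hA.ok.b0s
    have h2 := hA.bs
    have h3 := hD.beta_pos
    linarith
  have hbg := hA.bg
  have hg0 := hA.g0
  have hS : ∀ (K : ℕ) (s : Ix (nW β Cf g ρ h₀ m tw te).m₀),
      ShpOk B.b₀ (B.b₀ / 2) (fun _ => 0) (famB Φ K (nW β Cf g ρ h₀ m tw te) s) := fun K s =>
    NuL735.shpOk_base hΦ K (nW β Cf g ρ h₀ m tw te) (γ := B.b₀) (β := B.b₀ / 2) hb2 hbg
      (by show B.b₀ / 2 < 2 * β; linarith) (by show B.b₀ / 2 < g; linarith) hρt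
      measurable_const s
  have hR : ∀ K : ℕ, Rep (ν K) (famB Φ K (nW β Cf g ρ h₀ m tw te)) := fun K =>
    NuL735.rep_of_le (NuL735.rep_base hΦ (nW β Cf g ρ h₀ m tw te)) fun ε hε => hν.le K ε hε
  choose Ξ hΞ using hν.px
  set Ξ' : ℕ → ℝ → Measure (Lab × LSt) := fun K ε => if h : 0 < ε then Ξ K ε h else 0 with hΞ'
  have hPX : ∀ K ε, 0 < ε → PX (parW B hA.ok te K) (Ξ' K ε) (ν K ε) c := by
    intro K ε hε
    rw [hΞ']
    simp only [dif_pos hε]
    exact hΞ K ε hε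
  obtain ⟨bd, h1, h2⟩ := NullSkel837.null6_K3 (T' := tw + h₀) hΦ hF₀ hQ hl.hi hPP
    (q := qK C lam) (fun K n => I3In566.qK_ne_top C lam K n) (b₀ := B.b₀)
    (Kd := fun K ε => StepK85.K3d hΦ ε B.b₀ (qK C lam K)) (r₀ := 2⁻¹) (by norm_num)
    (fun K ε hε => hA.stepK hΦ hte K hε) hc hPX hν.aux hR hS
    (fun K s => NuL735.stdB_base K _ s) (fun j K s => hlv.linkN j K s)
    fun j K P s hP => hlv.slots6 j K P s hP
  refine ⟨bd, fun K ε hε P z n w θ hg => h1 K ε hε P z n w θ hg.small hg.real hg.unhit, Ξ', ν,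
    hPX, hν.mass, fun j K ε hε => ?_, h2⟩
  exact NullSkel837.sig6_K3 hΦ hε (fun n => I3In566.qK_ne_top C lam K n) (hν.aux K ε hε) j

/-! ### All windows -/

/-- **The base laws of all windows** from the gateway facts. -/
theorem base3In_of_leaves (hD : KData Φ β T f₀ f) (h : I3LeavesIn Φ β f₀ f T) :
    Base3In Φ β f₀ f T := by
  refine h.mono fun h₀ γ ρ h0 hl hlv kap lam C g B hA m => ?_
  obtain ⟨g1, r1, hl⟩ := hl
  obtain ⟨Cf, c, -, -, hc, hBL⟩ := NuC85.baseLaw hD (hl.hi.trans_le le_top).ne hA m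
  refine ⟨c, hc, (hlv kap lam C g B hA Cf m).mono fun _ L tw te _ hL hw hq hI hlt hT' => ?_⟩
  exact base3W_win hD hl hA hw.le_T hc
    (hBL L tw te (zero_le_one.trans hL) hw.nonneg hw.le hw.le_T hT'.le) (hq hI hlt hT')

/-- **INEQUALITY 3** from `Link4In`, the null facts of the spread terms and the gateway facts. -/
theorem i3In_of_leaves (hD : KData Φ β T f₀ f) (h4 : Ineq1815.Link4In Φ f₀ f T)
    (hAB : I3Step478.NullABIn Φ f₀ f T) (h : I3LeavesIn Φ β f₀ f T) : I3In Φ f₀ f T :=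
  I3Fin478.i3In_of_open hD h4 hAB (base3In_of_leaves hD h)

end Crest.Agent.R122.I3Slots837

end
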