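import Crest.Agent.R122.StrMap_491
import Crest.Agent.R122.GateOsP_424
import Crest.Agent.R122.PartsCt_564

/-!
# Row 122, LN3 of S^(j) (helper331, second of helper674): the pair structure and the contact tree

Small level: labels `Idx P ⊕ κ` (tree, structure), births `osB`, states `osZ` of helper424.

* `pull_inr` : the structure is the system seen through `inr`.
* `treeIn_inl` : the tree is carried by `inl`.
* `ptree_of` : helper491's `PTree` from a pair structure and the contact data of its second line with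
  the root of the tree.
* `ptree_osP` : the same for a shape (helper581).
-/

set_option autoImplicit false
set_option linter.unusedSectionVars false

open MeasureTheory Set Filter Topology
open scoped NNReal ENNReal
open Crest.AnalysisR.Kinetic
open Crest.Agent.R122.Loc45 Crest.Agent.R122.Ins45
open Crest.Agent.R122.VL581 Crest.Agent.R122.VL581.VSys Crest.Agent.R122.VLInst442
open Crest.Agent.R122.Kin796 Crest.Agent.R122.Kin796.CTree Crest.Agent.R122.Tree674
open Crest.Agent.R122.TreeLines335 Crest.Agent.R122.EDefs602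
open Crest.Agent.R122.LNTree410 Crest.Agent.R122.LNGraft410 Crest.Agent.R122.LNEv968
open Crest.Agent.R122.PWInst442 Crest.Agent.R122.LNBridge968 Crest.Agent.R122.LNEmb410
open Crest.Agent.R122.StrG491 Crest.Agent.R122.OCout796
open Crest.Agent.R122.OneC285 (cT cB cD cX)
open Crest.Agent.R122.GateOsP424 (osB osZ)
open Crest.Agent.R122.PairRep581 (Shp ctOk ctOkS)
open Crest.Agent.R122.Boost969 (LSt)
open Crest.Agent.R122.Pair292 (Lab)
open Crest.Agent.R122.PairD292 (dL eL OkL)
open scoped Classical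

noncomputable section

namespace Crest.Agent.R122.PTreeOf331

variable {κ : Type} [Fintype κ] {P : CTree}

/-- Labels of the tree. -/
def iT (P : CTree) (κ : Type) : Idx P ↪ Idx P ⊕ κ := ⟨Sum.inl, Sum.inl_injective⟩

/-- Labels of the structure. -/
def iS (P : CTree) (κ : Type) : κ ↪ Idx P ⊕ κ := ⟨Sum.inr, Sum.inr_injective⟩

@[simp] theorem iT_apply (i : Idx P) : iT P κ i = Sum.inl i := rfl

@[simp] theorem iS_apply (k : κ) : iS P κ k = Sum.inr k := rfl

/-- The labels of the structure and of the tree are all labels. -/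
theorem union_eq [DecidableEq (Idx P ⊕ κ)] :
    (Finset.univ : Finset κ).map (iS P κ) ∪ part (iT P κ) = Finset.univ := by
  ext j
  simp only [Finset.mem_union, Finset.mem_map, Finset.mem_univ, true_and, iff_true, mem_part]
  rcases j with j | j
  · exact Or.inr ⟨j, rfl⟩
  · exact Or.inl ⟨j, rfl⟩

theorem disj : Disjoint ((Finset.univ : Finset κ).map (iS P κ)) (part (iT P κ)) := by
  rw [Finset.disjoint_left]
  intro j h1 h2
  obtain ⟨k, _, rfl⟩ := Finset.mem_map.1 h1
  obtain ⟨i, hi⟩ := mem_part.1 h2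
  exact Sum.inl_ne_inr hi

variable {Φ : Space3 → ℝ} {T ε c te : ℝ} {b : κ → ℝ} {V : κ → PhasePoint}
  {z : PhasePoint × Par P}

/-- The structure is the system seen through `inr`. -/
theorem pull_inr (bT : Idx P → ℝ) :
    Pull (VLMeas973.vsys Φ T ε b) (VLMeas973.vsys Φ T ε (Sum.elim bT b)) (iS P κ) where
  Φ := rfl
  T := rfl
  ε := rfl
  b _ := rfl
  o i := by
    constructor
    · intro h
      have h' : (none : Option κ) = some i := h
      cases h'
    · intro h
      have h' : (none : Option (Idx P ⊕ κ)) = some (iS P κ i) := h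
      cases h'
  S := rfl

/-- The tree is carried by `inl`. -/
theorem treeIn_inl (hV : Valid Φ ε P T z.1.2 z.2) (hS : Sep Φ ε P T z.1 z.2) :
    TreeIn (VLMeas973.vsys Φ T ε (Sum.elim (fun _ : Idx P => 0) b))
      (Sum.elim (linesM Φ ε P z.1 z.2) V)
      (VLMeas973.vsys Φ T ε (Sum.elim (fun _ : Idx P => 0) b)).T P z.1 z.2 (iT P κ) where
  b _ := le_rfl
  Z i := by
    change linesM Φ ε P z.1 z.2 i = lines Φ ε P z.1 z.2 i
    rw [linesM_of_adm ε hV.1]
  o i h := by
    have h' : (none : Option (Idx P ⊕ κ)) = some (iT P κ i) := h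
    cases h'
  valid := hV
  sep := hS

/-- Exit times of the tree and of the structure. -/
def bE (P : CTree) (z : PhasePoint × Par P) (β : κ → ℝ) : Idx P ⊕ κ → ℝ := Sum.elim (rel P z.2) β

variable {R : ℝ → κ → κ → Prop} {cl : κ → Finset κ} {β : κ → ℝ} {x y : κ}
  {d : ℝ × PhasePoint} {e : ML}

/-- **The pair structure and the contact tree** on the labels `Idx P ⊕ κ`. -/
theorem ptree_of (hΦ : AdmissiblePotential Φ) (hε : 0 < ε)
    (h : Pair (VLMeas973.vsys Φ T ε b) c V R Finset.univ cl β x y d e.1)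
    (hV : Valid Φ ε P T z.1.2 z.2) (hS : Sep Φ ε P T z.1 z.2)
    (hct : (z, e.1) ∈ OneC423.ctSet Φ ε te P) (hte : te < T) (hcd : CDok (cD ε z e)) :
    PTree (VLMeas973.vsys Φ T ε (Sum.elim (fun _ : Idx P => 0) b)) c
      (Sum.elim (linesM Φ ε P z.1 z.2) V) (mapR (iS P κ) R) (Finset.univ.map (iS P κ))
      (mapCl (iS P κ) cl) (bE P z β) (Sum.inr x) (Sum.inr y) d e te P z (iT P κ) where
  pr := Pair.map (M := VLMeas973.vsys Φ T ε (Sum.elim (fun _ : Idx P => 0) b))
    (M' := VLMeas973.vsys Φ T ε b) (Z := Sum.elim (linesM Φ ε P z.1 z.2) V) (e := iS P κ)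
    (pull_inr _) hΦ hε (fun _ _ => rfl) h
  tree := treeIn_inl hV hS
  dj := disj
  bP _ := rfl
  ct := hct
  te_lt := hte
  cd := hcd

/-- The same for a shape: `osB`, `osZ` of helper424, lines `d`, `e` of the structure. -/
theorem ptree_osP {S : Shp} {q : (PhasePoint × Par P) × S.Θ} {R : ℝ → S.κ → S.κ → Prop}
    {cl : S.κ → Finset S.κ} {β : S.κ → ℝ} {x y : S.κ} (hΦ : AdmissiblePotential Φ) (hε : 0 < ε)
    (h : Pair (VLMeas973.vsys Φ T ε (S.b ε q.2)) c (S.z ε q.2) R Finset.univ cl β x y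
      (dL (S.th ε q.2)).1 (eL (S.th ε q.2)).1)
    (hV : Valid Φ ε P T q.1.1.2 q.1.2) (hS : Sep Φ ε P T q.1.1 q.1.2)
    (hct : (q.1, (S.th ε q.2).2) ∈ OneC423.ctSet Φ ε te P) (hte : te < T)
    (hcd : CDok (cD ε q.1 (eL (S.th ε q.2)))) :
    PTree (VLMeas973.vsys Φ T ε (osB P S ε q)) c (osZ Φ P S ε q) (mapR (iS P S.κ) R)
      (Finset.univ.map (iS P S.κ)) (mapCl (iS P S.κ) cl) (bE P q.1 β) (Sum.inr x) (Sum.inr y)
      (dL (S.th ε q.2)).1 (eL (S.th ε q.2)) te P q.1 (iT P S.κ) :=
  ptree_of hΦ hε h hV hS hct hte hcd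

end Crest.Agent.R122.PTreeOf331

end
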