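import Crest.Agent.R122.StrMain_307
import Crest.Agent.R122.E6Str_491

/-!
# Row 122 (helper307): transversal exits and late cross contacts, encounters

* `ExitT` : every exit of a class is a transversal separation.
* `CrossT` : a contact of two classes happens after the exit of one of the two partners, which is not
  the active label `y`.
* `ExitT.graft`, `CrossT.graft` (merged classes), `ExitT.join`, `CrossT.join` (separate classes).
-/

set_option autoImplicit false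
set_option linter.unusedSectionVars false

open MeasureTheory Set Filter Topology
open scoped NNReal ENNReal
open Crest.AnalysisR.Kinetic
open Crest.Agent.R122.Flow671 hiding rel
open Crest.Agent.R122.Loc45 Crest.Agent.R122.Ins45
open Crest.Agent.R122.VL581 Crest.Agent.R122.VL581.VSys Crest.Agent.R122.VLInst442
open Crest.Agent.R122.LNInst491 Crest.Agent.R122.LN304 Crest.Agent.R122.LNg410
open Crest.Agent.R122.Kin796 Crest.Agent.R122.Kin796.CTree Crest.Agent.R122.Tree674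
open Crest.Agent.R122.PathFlow968 Crest.Agent.R122.TreeLines335 Crest.Agent.R122.EDefs602
open Crest.Agent.R122.LNTree410 Crest.Agent.R122.PWGlue491 Crest.Agent.R122.Inf879
open Crest.Agent.R122.LNGraft410 Crest.Agent.R122.LNEv968 Crest.Agent.R122.PWInst442
open Crest.Agent.R122.OCout796 Crest.Agent.R122.Scat818
open Crest.Agent.R122.StrG491
open scoped Classical

noncomputable section

namespace Crest.Agent.R122.StrMain307

/-- The separation at the end of an encounter is transversal. -/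
theorem enc_inner_pos {Φ : Space3 → ℝ} {ε s : ℝ} {y : Space3} {q : CD}
    (hΦ : AdmissiblePotential Φ) (hε : 0 < ε) (hp : CDpass Φ q) :
    0 < inner ℝ ((encPL Φ ε s y q (s + outT Φ ε q)).1 - (encPC Φ ε s y q (s + outT Φ ε q)).1)
      ((encPL Φ ε s y q (s + outT Φ ε q)).2 - (encPC Φ ε s y q (s + outT Φ ε q)).2) := by
  have h1 := hp.hasExit.inner_pos hΦ (reg_entrance Φ hp.ok.1 hp.ok.2)
  have h2 : (encPL Φ ε s y q (s + outT Φ ε q)).2 - (encPC Φ ε s y q (s + outT Φ ε q)).2 =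
      (encR Φ ε s q (s + outT Φ ε q)).2 := by
    unfold encPL encPC
    simp only
    module
  rw [h2, encPL_sub_encPC, encR_exit hε.ne', inner_smul_left]
  exact mul_pos hε h1

variable {J κ : Type} [Fintype J] {M : VSys J κ} {Z : J → PhasePoint}
variable {c : ℝ} {R R₁ R₂ : ℝ → J → J → Prop} {π π₁ π₂ S : Finset J} {cl cl₁ cl₂ : J → Finset J}
  {bD : J → ℝ} {E E₁ E₂ : Finset J} {x y a y' : J} {s ℓ ς : ℝ} {p : Space3} {q : CD}

/-- Transversal exits. -/
def ExitT (M : VSys J κ) (Z : J → PhasePoint) (cl : J → Finset J) (bD : J → ℝ) : Prop :=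
  ∀ i, i ∈ cl i → bD i ≤ M.T → bD i = M.bb i ∨ ∃ k ∈ cl i, k ≠ i ∧ M.bb k ≤ bD i ∧
    dist (M.st (cl i) (bD i) Z i).1 (M.st (cl i) (bD i) Z k).1 = M.ε ∧
    0 < inner ℝ ((M.st (cl i) (bD i) Z i).1 - (M.st (cl i) (bD i) Z k).1)
      ((M.st (cl i) (bD i) Z i).2 - (M.st (cl i) (bD i) Z k).2)

/-- Contacts of two classes happen after the exit of one of the partners, not the active label. -/
def CrossT (R : ℝ → J → J → Prop) (cl : J → Finset J) (bD : J → ℝ) (y : J) : Prop :=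
  ∀ r i j, R r i j → cl i ≠ cl j → (i ≠ y ∧ bD i ≤ r) ∨ (j ≠ y ∧ bD j ≤ r)

theorem CrossT.weak (h : CrossT R cl bD y) (r : ℝ) (i j : J) (hR : R r i j)
    (hne : cl i ≠ cl j) : bD i ≤ r ∨ bD j ≤ r :=
  (h r i j hR hne).imp And.right And.right

/-- One class. -/
theorem CrossT.of_cls (S : Finset J) (bD : J → ℝ) (y : J) :
    CrossT (RC M Z S) (clOf S) bD y := by
  intro r i j hR hne
  exact absurd (by rw [clOf_mem hR.1, clOf_mem hR.2.1]) hne

/-- A single label. -/
theorem ExitT.single {l : J} (hb : bD l = M.bb l) : ExitT M Z (clOf {l}) bD := by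
  intro i hi _
  have h1 : i ∈ ({l} : Finset J) := (mem_clOf.1 hi).1
  rw [Finset.mem_singleton] at h1
  rw [h1]
  exact Or.inl hb

theorem ExitT.congr (h : ExitT M Z cl bD) {bD' : J → ℝ} (hb : ∀ i, i ∈ cl i → bD' i = bD i) :
    ExitT M Z cl bD' := by
  intro i hi hiT
  rw [hb i hi] at hiT ⊢
  exact h i hi hiT

section meet

variable (h : Meet M c Z R₁ R₂ π₁ π₂ cl₁ cl₂ bD E₁ E₂ y a s)
include h

/-- Separate classes. -/
theorem ExitT.join (h₁ : ExitT M Z cl₁ bD) (h₂ : ExitT M Z cl₂ bD) :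
    ExitT M Z (clSep cl₁ cl₂) bD := by
  intro i hi hiT
  rcases h.mem_clSep hi with ⟨h1, h2, _⟩ | ⟨h1, h2, _⟩
  · rw [h.cl₁_of h2]
    exact h₁ i h1 hiT
  · rw [h.cl₂_of h2]
    exact h₂ i h1 hiT

/-- Separate classes: the new active label is one of the two partners, the other one has left. -/
theorem CrossT.join (h₁ : CrossT R₁ cl₁ bD y) (h₂ : CrossT R₂ cl₂ bD a)
    (hy : (y' = a ∧ bD y ≤ s) ∨ (y' = y ∧ bD a ≤ s)) :
    CrossT (joinR R₁ R₂ y a s) (clSep cl₁ cl₂) bD y' := by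
  have hyy : y' = y ∨ y' = a := hy.elim (fun h' => Or.inr h'.1) fun h' => Or.inl h'.1
  intro r i j hR hne
  rcases hR with hR | hR | ⟨rfl, ⟨rfl, rfl⟩ | ⟨rfl, rfl⟩⟩
  · obtain ⟨hi, hj⟩ := h.s₁.supp r i j hR
    rw [h.cl₁_of hi, h.cl₁_of hj] at hne
    have h3 : ∀ k ∈ π₁, k ≠ y → k ≠ y' := by
      rintro k hk hky rfl
      rcases hyy with h' | h'
      · exact hky h'
      · exact h.not₂ hk (h' ▸ h.aπ)
    exact (h₁ r i j hR hne).imp (fun h' => ⟨h3 i hi h'.1, h'.2⟩) fun h' => ⟨h3 j hj h'.1, h'.2⟩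
  · obtain ⟨hi, hj⟩ := h.s₂.supp r i j hR
    rw [h.cl₂_of hi, h.cl₂_of hj] at hne
    have h3 : ∀ k ∈ π₂, k ≠ a → k ≠ y' := by
      rintro k hk hka rfl
      rcases hyy with h' | h'
      · exact h.not₁ hk (h' ▸ h.yπ)
      · exact hka h'
    exact (h₂ r i j hR hne).imp (fun h' => ⟨h3 i hi h'.1, h'.2⟩) fun h' => ⟨h3 j hj h'.1, h'.2⟩
  · rcases hy with ⟨rfl, hb⟩ | ⟨rfl, hb⟩
    · exact Or.inl ⟨h.ne, hb⟩
    · exact Or.inr ⟨h.ne.symm, hb⟩
  · rcases hy with ⟨rfl, hb⟩ | ⟨rfl, hb⟩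
    · exact Or.inr ⟨h.ne, hb⟩
    · exact Or.inl ⟨h.ne.symm, hb⟩

end meet

section enc

variable (h : Enc M c Z R₁ R₂ π₁ π₂ cl₁ cl₂ bD E₁ E₂ y a s p q)
include h

/-- Merged classes. -/
theorem CrossT.graft (hε : 0 < M.ε) (h₁ : CrossT R₁ cl₁ bD y) (h₂ : CrossT R₂ cl₂ bD a)
    (hy : y' = y ∨ y' = a) :
    CrossT (joinR R₁ R₂ y a s) (clMrg cl₁ cl₂ y a) (grafted M.Φ M.ε bD y a s q) y' := by
  have hm := h.meet hε
  have hyS : y ∈ cl₁ y ∪ cl₂ a := Finset.mem_union_left _ (h.s₁.mem y h.hy)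
  have haS : a ∈ cl₁ y ∪ cl₂ a := Finset.mem_union_right _ (h.s₂.mem a h.ha)
  intro r i j hR hne
  rcases hR with hR | hR | ⟨_, ⟨rfl, rfl⟩ | ⟨rfl, rfl⟩⟩
  · obtain ⟨hi, hj⟩ := h.s₁.supp r i j hR
    have hne' : cl₁ i ≠ cl₁ j := by
      intro he
      have key : ∀ {i j : J}, i ∈ π₁ → cl₁ i = cl₁ j → i ∈ cl₁ y ∪ cl₂ a → j ∈ cl₁ y ∪ cl₂ a := by
        intro i j hi he hS
        have h1 : i ∈ cl₁ y := (Finset.mem_union.1 hS).resolve_right fun h' =>
          hm.not₂ hi (h.s₂.sub a h')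
        have h2 : cl₁ i = cl₁ y := h.s₁.cov.eq y i h1
        have h3 : j ∈ cl₁ j := h.s₁.cov.mem j (by rw [← he, h2]; exact ⟨i, h1⟩)
        rw [← he, h2] at h3
        exact Finset.mem_union_left _ h3
      by_cases hS : i ∈ cl₁ y ∪ cl₂ a
      · exact hne (by rw [h.clMrg_mem hS, h.clMrg_mem (key hi he hS)])
      · have hS' : j ∉ cl₁ y ∪ cl₂ a := fun h' => hS (key hj he.symm h')
        exact hne (by rw [h.clMrg_not hS, h.clMrg_not hS', hm.cl₁_of hi, hm.cl₁_of hj, he])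
    have h3 : ∀ k ∈ π₁, k ≠ y → bD k ≤ r →
        k ≠ y' ∧ grafted M.Φ M.ε bD y a s q k ≤ r := by
      intro k hk hky hb
      have hka : k ≠ a := fun h' => hm.not₂ hk (h' ▸ hm.aπ)
      refine ⟨fun h' => ?_, by rw [Enc.grafted_of_ne hky hka]; exact hb⟩
      rcases hy with h'' | h''
      · exact hky (h'.trans h'')
      · exact hka (h'.trans h'')
    exact (h₁ r i j hR hne').imp (fun h' => h3 i hi h'.1 h'.2) fun h' => h3 j hj h'.1 h'.2
  · obtain ⟨hi, hj⟩ := h.s₂.supp r i j hR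
    have hne' : cl₂ i ≠ cl₂ j := by
      intro he
      have key : ∀ {i j : J}, i ∈ π₂ → cl₂ i = cl₂ j → i ∈ cl₁ y ∪ cl₂ a → j ∈ cl₁ y ∪ cl₂ a := by
        intro i j hi he hS
        have h1 : i ∈ cl₂ a := (Finset.mem_union.1 hS).resolve_left fun h' =>
          hm.not₁ hi (h.s₁.sub y h')
        have h2 : cl₂ i = cl₂ a := h.s₂.cov.eq a i h1
        have h3 : j ∈ cl₂ j := h.s₂.cov.mem j (by rw [← he, h2]; exact ⟨i, h1⟩)
        rw [← he, h2] at h3
        exact Finset.mem_union_right _ h3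
      by_cases hS : i ∈ cl₁ y ∪ cl₂ a
      · exact hne (by rw [h.clMrg_mem hS, h.clMrg_mem (key hi he hS)])
      · have hS' : j ∉ cl₁ y ∪ cl₂ a := fun h' => hS (key hj he.symm h')
        exact hne (by rw [h.clMrg_not hS, h.clMrg_not hS', hm.cl₂_of hi, hm.cl₂_of hj, he])
    have h3 : ∀ k ∈ π₂, k ≠ a → bD k ≤ r →
        k ≠ y' ∧ grafted M.Φ M.ε bD y a s q k ≤ r := by
      intro k hk hka hb
      have hky : k ≠ y := fun h' => hm.not₁ hk (h' ▸ hm.yπ)
      refine ⟨fun h' => ?_, by rw [Enc.grafted_of_ne hky hka]; exact hb⟩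
      rcases hy with h'' | h''
      · exact hky (h'.trans h'')
      · exact hka (h'.trans h'')
    exact (h₂ r i j hR hne').imp (fun h' => h3 i hi h'.1 h'.2) fun h' => h3 j hj h'.1 h'.2
  · exact absurd (by rw [h.clMrg_mem hyS, h.clMrg_mem haS]) hne
  · exact absurd (by rw [h.clMrg_mem hyS, h.clMrg_mem haS]) hne

variable [Nonempty κ] (hC : 1 ≤ c) (hΦ : AdmissiblePotential M.Φ) (hε : 0 < M.ε)
  (hT : TL M c ℓ ς (π₁ ∪ π₂) Z) (hℓς : 2 * ℓ ≤ ς) (hp : CDpass M.Φ q)
include hC hΦ hε hT hℓς hp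

/-- **Merged classes: transversal exits.** -/
theorem ExitT.graft (h₁ : ExitT M Z cl₁ bD) (h₂ : ExitT M Z cl₂ bD) :
    ExitT M Z (clMrg cl₁ cl₂ y a) (grafted M.Φ M.ε bD y a s q) := by
  have hm := h.meet hε
  have hg := h.graftH
  have hT' := h.tl hC hε hT
  have hyS : y ∈ cl₁ y ∪ cl₂ a := Finset.mem_union_left _ (h.s₁.mem y h.hy)
  have haS : a ∈ cl₁ y ∪ cl₂ a := Finset.mem_union_right _ (h.s₂.mem a h.ha)
  have hout : s ≤ s + outT M.Φ M.ε q := (lt_add_of_pos_right s (hp.outT_pos hε)).le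
  intro i hi hiT
  by_cases hS : i ∈ cl₁ y ∪ cl₂ a
  · rw [h.clMrg_mem hS]
    by_cases hiy : i = y
    · subst hiy
      have hgr : grafted M.Φ M.ε bD i a s q i = s + outT M.Φ M.ε q := if_pos (Or.inl rfl)
      rw [hgr] at hiT ⊢
      obtain ⟨e1, e2⟩ := hg.st_pair hε hC hT' hℓς hΦ hout hiT
      refine Or.inr ⟨a, haS, hm.ne.symm, hg.bbc.le.trans hout, ?_, ?_⟩
      · rw [e1, e2]
        exact hp.dist_exit hε
      · rw [e1, e2]
        exact enc_inner_pos hΦ hε hp
    by_cases hia : i = a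
    · subst hia
      have hgr : grafted M.Φ M.ε bD y i s q i = s + outT M.Φ M.ε q := if_pos (Or.inr rfl)
      rw [hgr] at hiT ⊢
      obtain ⟨e1, e2⟩ := hg.st_pair hε hC hT' hℓς hΦ hout hiT
      refine Or.inr ⟨y, hyS, hm.ne, hg.bba.le.trans hout, ?_, ?_⟩
      · rw [e1, e2, dist_comm]
        exact hp.dist_exit hε
      · rw [e1, e2, ← neg_sub (encPL M.Φ M.ε s p q (s + outT M.Φ M.ε q)).1,
          ← neg_sub (encPL M.Φ M.ε s p q (s + outT M.Φ M.ε q)).2, inner_neg_neg]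
        exact enc_inner_pos hΦ hε hp
    rw [Enc.grafted_of_ne hiy hia] at hiT ⊢
    rcases Finset.mem_union.1 hS with hi' | hi'
    · have hci : cl₁ i = cl₁ y := h.s₁.cov.eq y i hi'
      rcases h₁ i (by rw [hci]; exact hi') hiT with h1 | ⟨k, hk, hki, hbk, hd, hin⟩
      · exact Or.inl h1
      · rw [hci] at hk hd hin
        have e1 := hg.st₁ hε hC hT' hℓς hΦ hi' hiy hiT
        have e2 : M.st (cl₁ y ∪ cl₂ a) (bD i) Z k = M.st (cl₁ y) (bD i) Z k := by
          by_cases hky : k = y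
          · subst hky
            refine (hg.st_early hε hC hT' hℓς hΦ ?_).1 k hk
            by_contra hcon
            have h5 := hg.cls₁.exit k hk (bD i) (h.lty.trans (not_le.1 hcon)) hiT i hi' hki.symm
              (hg.cls₁.bb_le i hi')
            rw [dist_comm] at h5
            exact absurd hd h5.ne'
          · exact hg.st₁ hε hC hT' hℓς hΦ hk hky hiT
        refine Or.inr ⟨k, Finset.mem_union_left _ hk, hki, hbk, ?_, ?_⟩
        · rw [e1, e2]
          exact hd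
        · rw [e1, e2]
          exact hin
    · have hci : cl₂ i = cl₂ a := h.s₂.cov.eq a i hi'
      rcases h₂ i (by rw [hci]; exact hi') hiT with h1 | ⟨k, hk, hki, hbk, hd, hin⟩
      · exact Or.inl h1
      · rw [hci] at hk hd hin
        have e1 := hg.st₂ hε hC hT' hℓς hΦ hi' hia hiT
        have e2 : M.st (cl₁ y ∪ cl₂ a) (bD i) Z k = M.st (cl₂ a) (bD i) Z k := by
          by_cases hka : k = a
          · subst hka
            refine (hg.st_early hε hC hT' hℓς hΦ ?_).2 k hk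
            by_contra hcon
            have h5 := hg.cls₂.exit k hk (bD i) (h.lta.trans (not_le.1 hcon)) hiT i hi' hki.symm
              (hg.cls₂.bb_le i hi')
            rw [dist_comm] at h5
            exact absurd hd h5.ne'
          · exact hg.st₂ hε hC hT' hℓς hΦ hk hka hiT
        refine Or.inr ⟨k, Finset.mem_union_right _ hk, hki, hbk, ?_, ?_⟩
        · rw [e1, e2]
          exact hd
        · rw [e1, e2]
          exact hin
  · have hiy : i ≠ y := fun h' => hS (h' ▸ hyS)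
    have hia : i ≠ a := fun h' => hS (h' ▸ haS)
    rw [h.clMrg_not hS] at hi ⊢
    rw [Enc.grafted_of_ne hiy hia] at hiT ⊢
    exact ExitT.join hm h₁ h₂ i hi hiT

end enc

end Crest.Agent.R122.StrMain307

end
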