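import Crest.Agent.R122.Link6G_796
import Crest.Agent.R122.PTreeOf_331
import Crest.Agent.R122.StrMotG_307
import Crest.Agent.R122.GateOsPX_973

/-!
# Row 122, LINK6 (helper796): the realisation hypothesis common to all fields of `Slots6G`

* `LevD Φ T ε c ℓ ς te K P S q` : the structure of the shape `S` at `q.2` is a pair structure with
  transversal exits and late cross contacts, it is connected and tree-like on `[0, T]`, its births are
  `0`; the tree `q.1` is valid and separated on `[0, T]`, in contact with the second line, the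
  encounter is a passage.
* `LevD.ptree` : the pair structure and the contact tree on the labels of `osB`, `osZ` (helper331).
* `PairAlt Φ f₀ Q T' K P S c` : for every structure of `StmtPt6` (for `ε` small): `LevD` with `ℓ = ρ ε`,
  or a bad event `B` (`BadF` : small for `ρ` large and `ς` small), or a null event `Ht`.
-/

set_option autoImplicit false
set_option linter.unusedSectionVars false

open MeasureTheory Set Filter Topology
open scoped Classical ENNReal
open Crest.AnalysisR.Kinetic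
open Crest.Agent.R122.GC311 Crest.Agent.R122.EDefs602
open Crest.Agent.R122.Kin796 Crest.Agent.R122.Kin796.CTree Crest.Agent.R122.Tree674
open Crest.Agent.R122.TreeLines335
open Crest.Agent.R122.Gate424 Crest.Agent.R122.Gate973
open Crest.Agent.R122.Scat818 Crest.Agent.R122.OCout796 Crest.Agent.R122.Ins45
open Crest.Agent.R122.Boost969 (LSt)
open Crest.Agent.R122.Pair292 (Lab)
open Crest.Agent.R122.OneC285 (cT cB cD cX)
open Crest.Agent.R122.VL581 Crest.Agent.R122.VL581.VSys
open Crest.Agent.R122.LN304 Crest.Agent.R122.LNg410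
open Crest.Agent.R122.StrG491 Crest.Agent.R122.StrMain307
open Crest.Agent.R122.LNBridge968 Crest.Agent.R122.LNEmb410 Crest.Agent.R122.LNEv968
open Crest.Agent.R122.GateOsP424 Crest.Agent.R122.PTreeOf331
open Crest.Agent.R122.PairD292 Crest.Agent.R122.PairRep581

noncomputable section

namespace Crest.Agent.R122.Link6796

variable {Φ : Space3 → ℝ} {f₀ : PhasePoint → ℝ} {T ε c ℓ ς te T' : ℝ} {K : ℕ} {P : CTree}
  {S : Shp}

/-- The small system of the shape `S` at the parameter `x`. -/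
abbrev sysS (Φ : Space3 → ℝ) (T ε : ℝ) (S : Shp) (x : S.Θ) :=
  VLMeas973.vsys Φ T ε (S.b ε x)

/-- The small system of tree and shape. -/
abbrev sysP (Φ : Space3 → ℝ) (T ε : ℝ) (P : CTree) (S : Shp) (q : (PhasePoint × Par P) × S.Θ) :=
  VLMeas973.vsys Φ T ε (osB P S ε q)

/-- **Level data** at `q = (tree, structure)`. -/
structure LevD (Φ : Space3 → ℝ) (T ε c ℓ ς te : ℝ) (K : ℕ) (P : CTree) (S : Shp)
    (q : (PhasePoint × Par P) × S.Θ) : Prop where
  /-- the pair structure, transversal exits, late cross contacts -/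
  pair : ∃ (R : ℝ → S.κ → S.κ → Prop) (cl : S.κ → Finset S.κ) (bD : S.κ → ℝ) (x y : S.κ),
    Pair (sysS Φ T ε S q.2) c (S.z ε q.2) R Finset.univ cl bD x y
      (dL (S.th ε q.2)).1 (eL (S.th ε q.2)).1 ∧
    ExitT (sysS Φ T ε S q.2) (S.z ε q.2) cl bD ∧ CrossT R cl bD y
  /-- all births are `0` -/
  b0 : ∀ i, S.b ε q.2 i = 0
  /-- the structure is connected and tree-like -/
  conn : (sysS Φ T ε S q.2).Conn c Finset.univ (S.z ε q.2)
  tl : TL (sysS Φ T ε S q.2) c ℓ ς Finset.univ (S.z ε q.2)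
  /-- contact of the tree with the second line, admissible labels -/
  ct : q ∈ ctOkS Φ ε K te P S
  valid : Valid Φ ε P T q.1.1.2 q.1.2
  sep : Sep Φ ε P T q.1.1 q.1.2
  /-- the encounter is a passage -/
  pass : CDpass Φ (cD ε q.1 (eL (S.th ε q.2)))

/-- **The pair structure and the contact tree** on the labels of `osB`, `osZ` (helper331). -/
theorem LevD.ptree {q : (PhasePoint × Par P) × S.Θ} (hΦ : AdmissiblePotential Φ) (hε : 0 < ε)
    (hte : te < T) (h : LevD Φ T ε c ℓ ς te K P S q) :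
    ∃ (R : ℝ → S.κ → S.κ → Prop) (cl : S.κ → Finset S.κ) (bD : S.κ → ℝ) (x y : S.κ),
      PTree (sysP Φ T ε P S q) c (osZ Φ P S ε q) (mapR (iS P S.κ) R)
        (Finset.univ.map (iS P S.κ)) (mapCl (iS P S.κ) cl) (bE P q.1 bD) (Sum.inr x) (Sum.inr y)
        (dL (S.th ε q.2)).1 (eL (S.th ε q.2)) te P q.1 (iT P S.κ) ∧
      Pair (sysS Φ T ε S q.2) c (S.z ε q.2) R Finset.univ cl bD x y
        (dL (S.th ε q.2)).1 (eL (S.th ε q.2)).1 ∧
      ExitT (sysS Φ T ε S q.2) (S.z ε q.2) cl bD ∧ CrossT R cl bD y := by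
  obtain ⟨R, cl, bD, x, y, h1, h2, h3⟩ := h.pair
  exact ⟨R, cl, bD, x, y, ptree_osP hΦ hε h1 h.valid h.sep h.ct.1 hte h.pass.ok, h1, h2, h3⟩

/-- **The realisation hypothesis**: on the structures of `StmtPt6` the level data hold, off bad and
null events. `c` = contact constant. -/
def PairAlt (Φ : Space3 → ℝ) (f₀ : PhasePoint → ℝ) (Q : EPar) (T' : ℝ) (K : ℕ) (P : CTree)
    (S : Shp) (c : ℝ) : Prop :=
  ∃ (B : ℝ → ℝ → ℝ → Unit → (n : ℕ) → ((PhasePoint × Par P) × S.Θ) → Config n → Prop)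
    (Ht : ℝ → Unit → (n : ℕ) → ((PhasePoint × Par P) × S.Θ) → Config n → Prop),
    BadF f₀ (osP Φ f₀ Q.te T' K P S) B ∧ GNull f₀ (osP Φ f₀ Q.te T' K P S) Ht ∧
    ∀ ρ > 0, ∀ ς > 0, ∃ ε₁ : ℝ, 0 < ε₁ ∧ ∀ ε : ℝ, 0 < ε → ε < ε₁ → ∀ (i : Unit) (n : ℕ)
      (q : (PhasePoint × Par P) × S.Θ) (w : Config n), w ∈ PairExcluded ε n →
      q ∈ ctOkS Φ ε K Q.te P S → Gd6 Φ ε K Q T' P q.1 w (S.th ε q.2) →
      LevD Φ T' ε c (ρ * ε) ς Q.te K P S q ∨ B ρ ς ε i n q w ∨ Ht ε i n q w

end Crest.Agent.R122.Link6796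

end
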