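import Crest.Agent.R122.LNNear8_383
import Crest.Agent.R122.Real6P_796

/-!
# Row 122, LN1 events (helper383), part 12: the fields of `Slots6G` from `PairAlt`

* `PTreeQ.of_levD` : helper796's level data give the contact tree of the structure over the gas.
* `gNull_of_pairAlt` : **the generic gate** of the fields of `Slots6G`, from helper796's `PairAlt`.
* `slot_near` : the field `near`.
-/

set_option autoImplicit false
set_option linter.unusedSectionVars false

open MeasureTheory Set Filter Topology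
open scoped ENNReal
open Crest.AnalysisR.Kinetic
open Crest.Agent.R122.GC311 Crest.Agent.R122.EDefs602
open Crest.Agent.R122.Kin796 Crest.Agent.R122.Kin796.CTree Crest.Agent.R122.Tree674
open Crest.Agent.R122.Gate424 Crest.Agent.R122.Gate973
open Crest.Agent.R122.Link6796
open Crest.Agent.R122.PairD292
open Crest.Agent.R122.GateOsP424 (osB osZ)
open Crest.Agent.R122.PairRep581 (Shp ShpOk osP)
open Crest.Agent.R122.OPX973 (OPX anT)
open scoped Classical

namespace Crest.Agent.R122.LNEv383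

noncomputable section

variable {Φ : Space3 → ℝ} {f₀ : PhasePoint → ℝ} {bg γ β te T' : ℝ} {ρ : Space3 → ℝ≥0∞}
  {gl : ℝ → ℝ} {rm : ℝ≥0∞} {P : CTree} {S : Shp} {K : ℕ} {Q : EPar}

/-- The level data give a pair structure. -/
theorem PairQ.of_levD {T ε c ℓ ς : ℝ} {q : (PhasePoint × Par P) × S.Θ}
    (h : LevD Φ T ε c ℓ ς te K P S q) : PairQ Φ T ε c S q.2 := by
  obtain ⟨R, cl, bD, x, y, h1, -, -⟩ := h.pair
  exact ⟨R, cl, bD, x, y, h1⟩

/-- The realisation of the structure, from helper796's `PairAlt`. -/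
theorem pairAltE_of {c : ℝ} (h : PairAlt Φ f₀ Q T' K P S c) : PairAltE Φ f₀ Q T' K P S c := by
  obtain ⟨B, Ht, hB, hH, h⟩ := h
  refine ⟨B, Ht, hB, hH, fun r hr ς hς => ?_⟩
  obtain ⟨ε₁, h0, h1⟩ := h r hr ς hς
  refine ⟨ε₁, h0, fun ε hε hlt n q w hw hG => ?_⟩
  obtain ⟨R, hG⟩ := hG
  rcases h1 ε hε hlt () n q w hw ⟨hG.gd.real.ct, hG.gd.real.okL⟩ hG.gd with h2 | h2 | h2
  · exact Or.inr (Or.inr (PairQ.of_levD h2))
  · exact Or.inl h2
  · exact Or.inr (Or.inl h2)

/-- **The generic gate** of the fields of `Slots6G`: an event with the guards `Gx6 R` is null if for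
every contact tree of the structure over the gas it leads to a run, a bad partition or a bad hit. -/
theorem gNull_of_pairAlt (h : OPX Φ f₀ bg γ β T' te ρ S gl rm) (hlt : Q.te < T') {c : ℝ}
    (hPA : PairAlt Φ f₀ Q T' K P S c) {R : ℝ} (K' : ℕ)
    {E : ℝ → (n : ℕ) → ((PhasePoint × Par P) × S.Θ) → Config n → Prop}
    (hE : ∀ ε n q (w : Config n), E ε n q w → Gx6 Φ ε R K Q T' P q.1 w (S.th ε q.2))
    (hdet : ∀ L : ℕ, ∃ N : ℕ, ∀ r > 0, ∀ ς > 0, ∀ ε > 0, 2 * (r * ε) ≤ ς → ∀ n q (w : Config n),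
      w ∈ PairExcluded ε n → E ε n q w → PTreeQ Φ T' Q.te ε c P S n w q →
      RunS Φ ε T' K' L (osB P S ε q) (osZ Φ P S ε q) w ∨
        LN2.BadGas Φ T' c r ς ε N 1 (anT P S) (osB P S ε q) (osZ Φ P S ε q) w ∨
        BH167.BadHitGas (BH167.bpos Φ (T' + 1) T') Φ T' c 1 ε N N 1 (anT P S) (osB P S ε q)
          (osZ Φ P S ε q) w) :
    GNull f₀ (osP Φ f₀ Q.te T' K P S) (fun ε _ n q w => E ε n q w) :=
  gNull_of_pair h hlt (pairAltE_of hPA) K' hE hdet

/-- **The field `near` of `Slots6G`.** -/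
theorem slot_near (h : OPX Φ f₀ bg γ β T' te ρ S gl rm) (hte : 0 ≤ Q.te) (hlt : Q.te < T')
    (hPA : ∀ c : ℝ, 1 ≤ c → PairAlt Φ f₀ Q T' K P S c) (R : ℝ) (_hR : 0 ≤ R) :
    GNull f₀ (osP Φ f₀ Q.te T' K P S) (fun ε _ n q w =>
      evNearG Φ Q T' R K ε P q.1 n w (S.th ε q.2)) :=
  gNull_near h hte hlt (fun c hc => pairAltE_of (hPA c hc)) R

end

end Crest.Agent.R122.LNEv383
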