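import Crest.Agent.R122.LNS3_674
import Crest.Agent.R122.E6Str_491
import Crest.Agent.R122.E6Facts_879

/-!
# Row 122, LN1 (helper304): the families `lineML`, `d` of inequality 3

* `cleanB_sep` : births are clean if no two labels of the derived world are in one class and all
  exits are in one tree-like part.
* `one_of_str` : one structure which is one part, from a `Str`.
* `exits_cfg`, `exits_ins` : exits over `cfg w`, over `(cfg w).ins d`, from a `Str`.
* `one0`, `exits0`, `exits1` : the structure of inequality 3 (`PTree` of helper491), exits over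
  `cfg w` (family `withD (lineML ..) d`) and over `(cfg w).ins d` (family `lineML`).
* `nl0_det`, `nl1_det` : the fields `nl₀`, `nl₁` of `E6Hyp` off the bad events.
-/

set_option autoImplicit false
set_option linter.unusedSectionVars false

open MeasureTheory Set Filter Topology
open scoped NNReal ENNReal
open Crest.AnalysisR.Kinetic
open Crest.Agent.R122.Loc45 Crest.Agent.R122.Ins45 Crest.Agent.R122.EDefs602
open Crest.Agent.R122.VL581 Crest.Agent.R122.VL581.VSys Crest.Agent.R122.VLInst442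
open Crest.Agent.R122.LN304 Crest.Agent.R122.LNg410 Crest.Agent.R122.LNEv968
open Crest.Agent.R122.PWGlue491 Crest.Agent.R122.PWInst442 Crest.Agent.R122.LNPart424
open Crest.Agent.R122.MWFam255 Crest.Agent.R122.LNEv818 Crest.Agent.R122.LNS674
open Crest.Agent.R122.Kin796 Crest.Agent.R122.Kin796.CTree Crest.Agent.R122.LNTree410
open Crest.Agent.R122.TreeLines335 Crest.Agent.R122.E6Hyp879 Crest.Agent.R122.Tree674
open Crest.Agent.R122.PathFlow968
open Crest.Agent.R122.StrG491 (Str joinR clSep RC PTree Pair)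
open Crest.Agent.R122.OneC285 (cT cB cD cX)
open scoped Classical

noncomputable section

namespace Crest.Agent.R122.LNS3a304

/-! ### Clean births -/

section cb

variable {J κ : Type} [Fintype J] {M : VSys J κ} {Z : J → PhasePoint} {Sp : J → Finset J}
  {bD : J → ℝ} {A : Finset J} {XD : ℝ → J → PhasePoint} {c ℓ ς : ℝ} {π : Finset J}
  {R : ℝ → J → J → Prop}

/-- **Clean births**: no two labels of the derived world are in one class, all exits are in one
tree-like part. -/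
theorem cleanB_sep [Nonempty κ] (H : GD M Z Sp bD A XD) (hc : 1 ≤ c) (hε : 0 < M.ε)
    (hℓς : 2 * ℓ ≤ ς) (hF : Fam M c Z π R) (hcn : M.Conn c π Z) (hT : TL M c ℓ ς π Z)
    (hgas : ∀ j ∈ A, Sp j = ∅ → bD j ≤ 0) (hsub : ∀ j ∈ A, (Sp j).Nonempty → Sp j ⊆ π)
    (hone : ∀ i ∈ A, ∀ j ∈ A, j ∈ Sp i → i = j)
    (hold : ∀ i ∈ A, ∀ j ∈ A, i ≠ j → i ∈ π → j ∈ π → ∀ r, R r i j → j ∈ Sp i)
    {u : ℝ} (hu : u ≤ M.T) : PW365.CleanB M Z Sp bD A XD u := by
  refine PW365.cleanB_of H (fun y hy _ e he hey hne _ j _ => absurd (hone y hy e he hey).symm hne)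
    ?_
  intro i hi hSi hbu hpos j hj hij hb hjS
  by_contra hcon
  rw [not_lt] at hcon
  have hSj : (Sp j).Nonempty := by
    by_contra hne
    rw [Finset.not_nonempty_iff_eq_empty] at hne
    exact absurd (hgas j hj hne) (not_le.2 (hb ▸ hpos))
  have hiS := H.mem i hSi
  have hjS' := H.mem j hSj
  have h1 : XD (bD i) i = M.st (Sp i) (bD i) Z i := H.hand i hi hSi (hbu.trans hu)
  have h2 : XD (bD i) j = M.st (Sp j) (bD i) Z j := by
    rw [hb]
    exact H.hand j hj hSj (hb ▸ hbu.trans hu)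
  rw [h1, h2] at hcon
  have hv : M.VCt c π i j (bD i) Z :=
    LNGraft410.vct_st hc hε (hsub i hi hSi) (hsub j hj hSj) hiS hjS'
      (ok_anti (hbu.trans hu) (H.ok i)) (ok_anti (hbu.trans hu) (H.ok j))
      (H.obsA i hi) (H.obsA j hj) hcon
  obtain ⟨r, _, hRr, _⟩ := window hF hT hcn subset_rfl hℓς (hsub i hi hSi hiS)
    (hsub j hj hSj hjS') (Ne.symm hij) ⟨hpos.le, hbu.trans hu⟩ hv
  exact hjS (hold i hi j hj hij (hsub i hi hSi hiS) (hsub j hj hSj hjS') r hRr)

end cb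

/-! ### One structure from a `Str` -/

section one

variable {σ ι μ : Type} [Fintype σ] [Fintype ι] [Fintype μ] {n : ℕ} {Φ : Space3 → ℝ} {T te ε c ℓ ς : ℝ}
  {b : σ → ℝ} {V : σ → PhasePoint} {w : Config n} {R : ℝ → Fin n ⊕ σ → Fin n ⊕ σ → Prop}
  {cl : Fin n ⊕ σ → Finset (Fin n ⊕ σ)} {bE : Fin n ⊕ σ → ℝ} {E : Finset (Fin n ⊕ σ)}

/-- One structure which is one part. -/
theorem one_of_str (hpe : w ∈ PairExcluded ε n)
    (h : Str (gsys Φ T ε n b) c (Sum.elim w V) R (pS n σ) cl bE E) :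
    One Φ T ε c b V w cl R where
  base :=
    { gas_b := fun _ => le_rfl
      gas_o := fun _ h => by cases h
      gas_cl := fun i => h.cl_empty (inl_not_mem_pS i)
      cover := h.cov }
  pe := hpe
  fam := h.fam

/-- Clean births from a `Str`, no two exits of one class. -/
theorem cb_of_str (h : Str (gsys Φ T ε n b) c (Sum.elim w V) R (pS n σ) cl bE E) (hc : 1 ≤ c)
    (hε : 0 < ε) (hℓς : 2 * ℓ ≤ ς) (hT : TL (gsys Φ T ε n b) c ℓ ς (pS n σ) (Sum.elim w V))
    {W : MW ι} {f : ι ↪ Fin n ⊕ σ}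
    (H : GD (gsys Φ T ε n b) (Sum.elim w V) cl (bD W f) (labs f) (XD W f Φ ε))
    (hb : ∀ i, f i ∉ pS n σ → W.b i ≤ 0) (hE : ∀ i, f i ∈ pS n σ → f i ∈ E)
    (hone : ∀ i j, f i ∈ E → f j ∈ cl (f i) → i = j) (hte : te ≤ T) :
    PW365.CleanB (gsys Φ T ε n b) (Sum.elim w V) cl (bD W f) (labs f) (XD W f Φ ε) te := by
  refine cleanB_sep (R := R) (π := pS n σ) H hc hε hℓς h.fam h.conn hT ?_ (fun j _ _ => h.sub j)
    ?_ ?_ hte
  · intro j hj hS
    obtain ⟨i, rfl⟩ := (mem_labs f).1 hj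
    rw [bD_apply]
    refine hb i fun hi => ?_
    have h1 := h.mem _ (hE i hi)
    rw [hS] at h1
    exact Finset.notMem_empty _ h1
  · intro j hj k hk hjk
    obtain ⟨i, rfl⟩ := (mem_labs f).1 hj
    obtain ⟨i', rfl⟩ := (mem_labs f).1 hk
    have h1 : f i ∈ pS n σ := h.sub _ (h.cov.mem _ ⟨_, hjk⟩)
    rw [hone i i' (hE i h1) hjk]
  · intro j hj k hk hjk hjπ hkπ r hr
    obtain ⟨i, rfl⟩ := (mem_labs f).1 hj
    obtain ⟨i', rfl⟩ := (mem_labs f).1 hk
    exact (h.old _ (hE i hjπ) _ (hE i' hkπ) hjk r hr).1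

/-- The line `l` is the exit with label `x` of the structure. -/
structure On (M : VSys (Fin n ⊕ σ) Unit) (Z : Fin n ⊕ σ → PhasePoint)
    (cl : Fin n ⊕ σ → Finset (Fin n ⊕ σ)) (bE : Fin n ⊕ σ → ℝ) (E : Finset (Fin n ⊕ σ)) (x : σ)
    (l : ML) : Prop where
  mem : Sum.inr x ∈ E
  b : l.1.1 = bE (Sum.inr x)
  st : l.1.1 ≤ M.T → M.st (cl (Sum.inr x)) l.1.1 Z (Sum.inr x) = l.1.2

variable {ls : μ → ML} {p : μ → σ}

/-- **Exits over `cfg w`.** -/
theorem exits_cfg (h : Str (gsys Φ T ε n b) c (Sum.elim w V) R (pS n σ) cl bE E)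
    (hpe : w ∈ PairExcluded ε n) (hΦ : AdmissiblePotential Φ) (hε : 0 < ε) (hc : 1 ≤ c)
    (hℓς : 2 * ℓ ≤ ς) (hT : TL (gsys Φ T ε n b) c ℓ ς (pS n σ) (Sum.elim w V)) (hte : te ≤ T)
    (hp : Function.Injective p)
    (hls : ∀ x, On (gsys Φ T ε n b) (Sum.elim w V) cl bE E (p x) (ls x))
    (hok : MW.OkFam Φ ε (MW.cfg w) ls) :
    Exits Φ T te ε b V w cl R (MW.cfg w) (gasE n σ) ls p := by
  have h1 := one_of_str hpe h
  have hg1 : ∀ x, ((MW.cfg w).ins (ls x)).Ok Φ ε := fun x => hok.line hΦ hε x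
  have g0 := h1.base.gd0 hΦ hε (hok.base hΦ hε)
  have g1 := fun x => h1.base.gd1 hΦ hε (h.lab_line (hls x).mem (hls x).b (hls x).st) (hg1 x)
  refine
    { inj := hp
      out := fun x i => Sum.inl_ne_inr
      mark := fun _ _ => le_rfl
      memC := fun x => h.mem _ (hls x).mem
      memB := fun i hi => absurd hi (inl_not_mem_pS i)
      ok0 := hok.base hΦ hε
      ok1 := hg1
      gd0 := g0
      gd1 := g1
      cb0 := cb_of_str h hc hε hℓς hT g0 (fun _ _ => le_rfl) (fun i hi => absurd hi (inl_not_mem_pS i))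
        (fun i j hi hj => absurd (h.mem_π hi) (inl_not_mem_pS i)) hte
      cb1 := fun x => cb_of_str h hc hε hℓς hT (g1 x) ?_ ?_ ?_ hte
      old := fun x y hxy r hr => ?_
      oldB := fun i j x y hx _ _ _ _ => by cases hx
      oldX := fun x i y hy _ _ => by cases hy }
  · rintro (i | i) hi
    · exact le_rfl
    · exact absurd (inr_mem_pS _) hi
  · rintro (i | i) hi
    · exact absurd hi (inl_not_mem_pS i)
    · exact (hls x).mem
  · rintro (i | i) (j | j) hi hj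
    · exact absurd (h.mem_π hi) (inl_not_mem_pS i)
    · exact absurd (h.mem_π hi) (inl_not_mem_pS i)
    · exact absurd (h.sub _ hj) (inl_not_mem_pS j)
    · rfl
  · have h2 := h.old _ (hls x).mem _ (hls y).mem (fun h' => hxy (hp (Sum.inr_injective h'))) r hr
    rw [(hls x).b]
    exact h2

/-- **Exits over `(cfg w).ins d`**; `d` is the exit with label `x₀`. -/
theorem exits_ins (h : Str (gsys Φ T ε n b) c (Sum.elim w V) R (pS n σ) cl bE E)
    (hpe : w ∈ PairExcluded ε n) (hΦ : AdmissiblePotential Φ) (hε : 0 < ε) (hc : 1 ≤ c)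
    (hℓς : 2 * ℓ ≤ ς) (hT : TL (gsys Φ T ε n b) c ℓ ς (pS n σ) (Sum.elim w V)) (hte : te ≤ T)
    (hp : Function.Injective p)
    (hls : ∀ x, On (gsys Φ T ε n b) (Sum.elim w V) cl bE E (p x) (ls x))
    {x₀ : σ} {d : ML} (hd : On (gsys Φ T ε n b) (Sum.elim w V) cl bE E x₀ d)
    (hx₀ : ∀ x, p x ≠ x₀) (hok : MW.OkFam Φ ε ((MW.cfg w).ins d) ls)
    (hcb : ∀ x, GD (gsys Φ T ε n b) (Sum.elim w V) cl
        (bD (((MW.cfg w).ins d).ins (ls x)) (lab2 n x₀ (p x) (hx₀ x).symm))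
        (labs (lab2 n x₀ (p x) (hx₀ x).symm))
        (XD (((MW.cfg w).ins d).ins (ls x)) (lab2 n x₀ (p x) (hx₀ x).symm) Φ ε) →
      PW365.CleanB (gsys Φ T ε n b) (Sum.elim w V) cl
        (bD (((MW.cfg w).ins d).ins (ls x)) (lab2 n x₀ (p x) (hx₀ x).symm))
        (labs (lab2 n x₀ (p x) (hx₀ x).symm))
        (XD (((MW.cfg w).ins d).ins (ls x)) (lab2 n x₀ (p x) (hx₀ x).symm) Φ ε) te) :
    Exits Φ T te ε b V w cl R ((MW.cfg w).ins d) (lab1 n x₀) ls p := by
  have h1 := one_of_str hpe h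
  have hg1 : ∀ x, (((MW.cfg w).ins d).ins (ls x)).Ok Φ ε := fun x => hok.line hΦ hε x
  have hlab := h.lab_line hd.mem hd.b hd.st
  have g0 := h1.base.gd1 hΦ hε hlab (hok.base hΦ hε)
  have g1 := fun x => h1.base.gd2 hΦ hε (hx₀ x).symm hlab
    (h.lab_line (hls x).mem (hls x).b (hls x).st) (hg1 x)
  refine
    { inj := hp
      out := fun x i => lab1_ne (hx₀ x).symm i
      mark := ?_
      memC := fun x => h.mem _ (hls x).mem
      memB := ?_
      ok0 := hok.base hΦ hε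
      ok1 := hg1
      gd0 := g0
      gd1 := g1
      cb0 := cb_of_str h hc hε hℓς hT g0 ?_ ?_ ?_ hte
      cb1 := fun x => hcb x (g1 x)
      old := fun x y hxy r hr => ?_
      oldB := ?_
      oldX := ?_ }
  · rintro (i | i) hi
    · exact le_rfl
    · exact absurd (inr_mem_pS _) hi
  · rintro (i | i) hi
    · exact absurd hi (inl_not_mem_pS i)
    · exact h.mem _ hd.mem
  · rintro (i | i) hi
    · exact le_rfl
    · exact absurd (inr_mem_pS _) hi
  · rintro (i | i) hi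
    · exact absurd hi (inl_not_mem_pS i)
    · exact hd.mem
  · rintro (i | i) (j | j) hi hj
    · exact absurd (h.mem_π hi) (inl_not_mem_pS i)
    · exact absurd (h.mem_π hi) (inl_not_mem_pS i)
    · exact absurd (h.sub _ hj) (inl_not_mem_pS j)
    · rfl
  · have h2 := h.old _ (hls x).mem _ (hls y).mem (fun h' => hxy (hp (Sum.inr_injective h'))) r hr
    rw [(hls x).b]
    exact h2
  · rintro (i | i) (j | j) x y hx hy hij
    · cases hx
    · cases hx
    · cases hy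
    · exact absurd rfl hij
  · rintro x (i | i) y hy r hr
    · cases hy
    · have hy' : y = x₀ := (Sum.inr_injective hy).symm
      subst hy'
      have hne : (Sum.inr (p x) : Fin n ⊕ σ) ≠ Sum.inr y := fun h' => hx₀ x (Sum.inr_injective h')
      have h2 := h.old _ (hls x).mem _ hd.mem hne r hr
      have h3 := h.old _ hd.mem _ (hls x).mem hne.symm r (h.fam.symm _ _ _ hr)
      refine ⟨h2.1, ?_, ?_⟩
      · rw [(hls x).b]
        exact h2.2
      · change r ≤ d.1.1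
        rw [hd.b]
        exact h3.2

/-- **Exits over `(cfg w).ins d`**, `d` in another class than the lines of the family. -/
theorem exits_ins_sep (h : Str (gsys Φ T ε n b) c (Sum.elim w V) R (pS n σ) cl bE E)
    (hpe : w ∈ PairExcluded ε n) (hΦ : AdmissiblePotential Φ) (hε : 0 < ε) (hc : 1 ≤ c)
    (hℓς : 2 * ℓ ≤ ς) (hT : TL (gsys Φ T ε n b) c ℓ ς (pS n σ) (Sum.elim w V)) (hte : te ≤ T)
    (hp : Function.Injective p)
    (hls : ∀ x, On (gsys Φ T ε n b) (Sum.elim w V) cl bE E (p x) (ls x))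
    {x₀ : σ} {d : ML} (hd : On (gsys Φ T ε n b) (Sum.elim w V) cl bE E x₀ d)
    (hx₀ : ∀ x, p x ≠ x₀) (hok : MW.OkFam Φ ε ((MW.cfg w).ins d) ls)
    (hsep : ∀ x, (Sum.inr x₀ : Fin n ⊕ σ) ∉ cl (Sum.inr (p x))) :
    Exits Φ T te ε b V w cl R ((MW.cfg w).ins d) (lab1 n x₀) ls p := by
  refine exits_ins h hpe hΦ hε hc hℓς hT hte hp hls hd hx₀ hok fun x hg =>
    cb_of_str h hc hε hℓς hT hg ?_ ?_ ?_ hte
  · rintro ((i | i) | i) hi
    · exact le_rfl
    · exact absurd (inr_mem_pS _) hi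
    · exact absurd (inr_mem_pS _) hi
  · rintro ((i | i) | i) hi
    · exact absurd hi (inl_not_mem_pS i)
    · exact hd.mem
    · exact (hls x).mem
  · have hsep' : (Sum.inr (p x) : Fin n ⊕ σ) ∉ cl (Sum.inr x₀) := fun h' =>
      hsep x (by rw [h.cov.eq _ _ h']; exact h.mem _ hd.mem)
    rintro ((i | i) | i) ((j | j) | j) hi hj
    · exact absurd (h.mem_π hi) (inl_not_mem_pS i)
    · exact absurd (h.mem_π hi) (inl_not_mem_pS i)
    · exact absurd (h.mem_π hi) (inl_not_mem_pS i)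
    · exact absurd (h.sub _ hj) (inl_not_mem_pS j)
    · rfl
    · exact absurd hj hsep'
    · exact absurd (h.sub _ hj) (inl_not_mem_pS j)
    · exact absurd hj (hsep x)
    · rfl

end one

/-! ### The structure of inequality 3 -/

section ptree

variable {σ : Type} [Fintype σ] {n : ℕ} {Φ : Space3 → ℝ} {T te tc ε c ℓ ς : ℝ} {b : σ → ℝ}
  {V : σ → PhasePoint} {w : Config n} {R : ℝ → Fin n ⊕ σ → Fin n ⊕ σ → Prop}
  {cl : Fin n ⊕ σ → Finset (Fin n ⊕ σ)} {bE : Fin n ⊕ σ → ℝ} {π : Finset (Fin n ⊕ σ)}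
  {x y : σ} {d e : ML} {P : CTree} {z : PhasePoint × Par P} {g : Idx P ↪ σ}

/-- The classes before the encounter. -/
abbrev clA (cl : Fin n ⊕ σ → Finset (Fin n ⊕ σ)) (g : Idx P ↪ σ) :
    Fin n ⊕ σ → Finset (Fin n ⊕ σ) :=
  clSep cl (StrG491.clOf (part (g.trans (strE n σ))))

/-- The connecting family. -/
abbrev RA (M : VSys (Fin n ⊕ σ) Unit) (Z : Fin n ⊕ σ → PhasePoint)
    (R : ℝ → Fin n ⊕ σ → Fin n ⊕ σ → Prop) (y : σ) (e : ML) (z : PhasePoint × Par P)
    (g : Idx P ↪ σ) : ℝ → Fin n ⊕ σ → Fin n ⊕ σ → Prop :=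
  joinR R (RC M Z (part (g.trans (strE n σ)))) (Sum.inr y) (Sum.inr (g (root P))) (cT M.ε z e)

/-- The exits before the encounter (union with the classical decidability). -/
abbrev EU {J : Type} (A B : Finset J) : Finset J := A ∪ B

/-- The exits before the encounter. -/
abbrev EA (n : ℕ) (x : σ) (g : Idx P ↪ σ) : Finset (Fin n ⊕ σ) :=
  EU {Sum.inr x} (part (g.trans (strE n σ)))

/-- The labels of the structure, from an equality of sets. -/
theorem cover_of_union {inst : DecidableEq (Fin n ⊕ σ)}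
    (h : @Union.union _ (@Finset.instUnion _ inst) π (part (g.trans (strE n σ))) = pS n σ)
    (j : Fin n ⊕ σ) : (j ∈ π ∨ j ∈ part (g.trans (strE n σ))) ↔ j ∈ pS n σ := by
  rw [← h, @Finset.mem_union _ inst]

section

variable (H : PTree (gsys Φ T ε n b) c (Sum.elim w V) R π cl bE (Sum.inr x) (Sum.inr y) d.1 e tc P
    z (g.trans (strE n σ)))
  (hπ : ∀ j : Fin n ⊕ σ, (j ∈ π ∨ j ∈ part (g.trans (strE n σ))) ↔ j ∈ pS n σ)
include H

theorem x_ne (i : Idx P) : g i ≠ x := fun h =>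
  Finset.disjoint_left.1 H.dj H.pr.xπ (h ▸ mem_part_self (e := g.trans (strE n σ)) i)

include hπ

/-- The structure before the encounter. -/
theorem strA (hΦ : AdmissiblePotential Φ) (hε : 0 < ε) (hc : 1 ≤ c) :
    Str (gsys Φ T ε n b) c (Sum.elim w V) (RA (gsys Φ T ε n b) (Sum.elim w V) R y e z g) (pS n σ)
      (clA cl g) bE (EA n x g) := by
  have h := H.str0 hc hΦ hε
  have h1 : EU π (part (g.trans (strE n σ))) = pS n σ := by
    ext j
    rw [← hπ j]
    exact @Finset.mem_union _ (fun a b => Classical.propDecidable _) _ _ _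
  rw [← h1]
  exact h

/-- **One** before the encounter. -/
theorem one0 (hpe : w ∈ PairExcluded ε n) (hΦ : AdmissiblePotential Φ) (hε : 0 < ε) (hc : 1 ≤ c) :
    One Φ T ε c b V w (clA cl g) (RA (gsys Φ T ε n b) (Sum.elim w V) R y e z g) :=
  one_of_str hpe (strA H hπ hΦ hε hc)

omit hπ in
theorem on_d (hΦ : AdmissiblePotential Φ) (hε : 0 < ε) (hc : 1 ≤ c) :
    On (gsys Φ T ε n b) (Sum.elim w V) (clA cl g) bE (EA n x g) x d where
  mem := (@Finset.mem_union _ (fun a b => Classical.propDecidable _) _ _ _).2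
    (Or.inl (Finset.mem_singleton_self _))
  b := H.pr.bx
  st ht := by
    have hm := ((H.hit hc hΦ hε).enc hΦ hε).meet hε
    unfold clA
    rw [hm.cl₁_of H.pr.xπ]
    exact H.pr.lx ht

omit hπ in
theorem on_tree (hΦ : AdmissiblePotential Φ) (hε : 0 < ε) (hc : 1 ≤ c) (i : Idx P) :
    On (gsys Φ T ε n b) (Sum.elim w V) (clA cl g) bE (EA n x g) (g i) (lineML Φ ε P z i) where
  mem := (@Finset.mem_union _ (fun a b => Classical.propDecidable _) _ _ _).2
    (Or.inr (mem_part_self (e := g.trans (strE n σ)) i))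
  b := (H.bP i).symm
  st _ := by
    have hm := ((H.hit hc hΦ hε).enc hΦ hε).meet hε
    have h1 : (Sum.inr (g i) : Fin n ⊕ σ) ∈ part (g.trans (strE n σ)) :=
      mem_part_self (e := g.trans (strE n σ)) i
    unfold clA
    rw [hm.cl₂_of h1, StrG491.clOf_mem h1]
    exact H.st_rel hΦ hε i

theorem inj0 : Function.Injective (Sum.elim g fun _ : Unit => x) := by
  rintro (i | i) (j | j) h
  · exact congrArg Sum.inl (g.injective h)
  · exact absurd h (x_ne H i)
  · exact absurd h.symm (x_ne H j)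
  · rfl

/-- **Exits over `cfg w`**: the lines of the tree (the root, too) and `d`. -/
theorem exits0 (hpe : w ∈ PairExcluded ε n) (hΦ : AdmissiblePotential Φ) (hε : 0 < ε)
    (hc : 1 ≤ c) (hℓς : 2 * ℓ ≤ ς)
    (hT : TL (gsys Φ T ε n b) c ℓ ς (pS n σ) (Sum.elim w V)) (hte : te ≤ T)
    (hok : MW.OkFam Φ ε (MW.cfg w) (withD (fun i => lineML Φ ε P z i) d)) :
    Exits Φ T te ε b V w (clA cl g) (RA (gsys Φ T ε n b) (Sum.elim w V) R y e z g) (MW.cfg w)
      (gasE n σ) (withD (fun i => lineML Φ ε P z i) d) (Sum.elim g fun _ => x) := by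
  refine exits_cfg (strA H hπ hΦ hε hc) hpe hΦ hε hc hℓς hT hte (inj0 H hπ) ?_ hok
  rintro (i | i)
  · exact on_tree H hΦ hε hc i
  · exact on_d H hΦ hε hc

/-- **Exits over `(cfg w).ins d`**: the lines of the tree (the root, too). -/
theorem exits1 (hpe : w ∈ PairExcluded ε n) (hΦ : AdmissiblePotential Φ) (hε : 0 < ε)
    (hc : 1 ≤ c) (hℓς : 2 * ℓ ≤ ς)
    (hT : TL (gsys Φ T ε n b) c ℓ ς (pS n σ) (Sum.elim w V)) (hte : te ≤ T)
    (hok : MW.OkFam Φ ε (MW.cfg w) (withD (fun i => lineML Φ ε P z i) d)) :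
    Exits Φ T te ε b V w (clA cl g) (RA (gsys Φ T ε n b) (Sum.elim w V) R y e z g)
      ((MW.cfg w).ins d) (lab1 n x) (fun i => lineML Φ ε P z i) g := by
  refine exits_ins_sep (strA H hπ hΦ hε hc) hpe hΦ hε hc hℓς hT hte g.injective
    (on_tree H hΦ hε hc) (on_d H hΦ hε hc) (x_ne H) ?_ ?_
  · intro S
    have h1 := ok_lines_add hΦ hε hok
      (⟨fun _ : Unit => Sum.inr (), fun _ _ _ => rfl⟩ : Unit ↪ Idx P ⊕ Unit)
      (⟨fun i : S => Sum.inl i.1, fun i j h => Subtype.ext (Sum.inl_injective h)⟩ :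
        S ↪ Idx P ⊕ Unit) (fun _ _ h => by cases h)
    exact h1
  · intro i hi
    have hm := ((H.hit hc hΦ hε).enc hΦ hε).meet hε
    have h1 : (Sum.inr (g i) : Fin n ⊕ σ) ∈ part (g.trans (strE n σ)) :=
      mem_part_self (e := g.trans (strE n σ)) i
    unfold clA at hi
    rw [hm.cl₂_of h1, StrG491.clOf_mem h1] at hi
    exact Finset.disjoint_left.1 H.dj H.pr.xπ hi

/-- Tree-likeness of the structure off the bad partitions. -/
theorem tlA (hpe : w ∈ PairExcluded ε n) (hΦ : AdmissiblePotential Φ) (hε : 0 < ε) (hc : 1 ≤ c)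
    {T' ρ : ℝ} (hT : T ≤ T') {N : ℕ} {A₀ : Finset σ} (hA : A₀.Nonempty)
    (hN : Fintype.card σ ≤ N) (hB : ¬ LN2.BadGas Φ T' c ρ ς ε N 1 A₀ b V w) :
    TL (gsys Φ T ε n b) c (ρ * ε) ς (pS n σ) (Sum.elim w V) := by
  have h := one0 H hπ hpe hΦ hε hc
  refine h.noBad_of hΦ hε hT hA hB (pS n σ) h.conn ⟨_, mem_LS.2 rfl, subset_rfl⟩ ?_
  refine (Finset.card_le_card (t := pS n σ) fun j hj => ?_).trans
    ((Finset.card_map _).le.trans (Finset.card_univ.le.trans hN))
  rcases (@Finset.mem_union _ (fun a b => Classical.propDecidable _) _ _ _).1 hj with h1 | h1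
  · exact h1
  · rwa [uni_LS] at h1

variable (hpe : w ∈ PairExcluded ε n) (hΦ : AdmissiblePotential Φ) (hε : 0 < ε)
  (hT0 : 0 ≤ T) (hte : te ≤ T) (hc : 1 ≤ c) {T' Te T₁ ρ : ℝ} (hρ : 2 * (ρ * ε) ≤ ς)
  (hT : T ≤ T') (hTe : T' ≤ Te) (hT₁ : Te < T₁) {K m N₁ : ℕ} {A₀ : Finset σ} (hA : A₀.Nonempty)
  (hN : (Fintype.card σ + 2 * K * (m + 2)) + (Fintype.card σ + 2 * K * (m + 2)) ≤ N₁)
  (hB : ¬ LN2.BadGas Φ T' c ρ ς ε N₁ 1 A₀ b V w)
  (hBH : ¬ BH167.BadHitGas (BH167.bpos Φ T₁ Te) Φ T' c 1 ε N₁ N₁ 1 A₀ b V w)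
  (hR : ¬ Gate424.RunS Φ ε T K m b V w)
  (hok : MW.OkFam Φ ε (MW.cfg w) (withD (fun i => lineML Φ ε P z i) d))
include hpe hΦ hε hT0 hte hc hρ hT hTe hT₁ hA hN hB hBH hR hok

/-- **Family `lineML`, `d` over `cfg w`** (field `nl₀` of helper879's `E6Hyp`). -/
theorem nl0_det : PairNL Φ ε K te (MW.cfg w) (withD (fun i => lineML Φ ε P z i) d) :=
  (one0 H hπ hpe hΦ hε hc).pairNL
    (exits0 H hπ hpe hΦ hε hc hρ (tlA H hπ hpe hΦ hε hc hT hA (by omega) hB) hte hok)
    hΦ hε hT0 hte hc hρ hT hTe hT₁ hA hN hB hBH hR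

/-- **Family `lineML` over `(cfg w).ins d`** (field `nl₁` of helper879's `E6Hyp`). -/
theorem nl1_det : PairNL Φ ε K te ((MW.cfg w).ins d) (fun i => lineML Φ ε P z i) :=
  (one0 H hπ hpe hΦ hε hc).pairNL
    (exits1 H hπ hpe hΦ hε hc hρ (tlA H hπ hpe hΦ hε hc hT hA (by omega) hB) hte hok)
    hΦ hε hT0 hte hc hρ hT hTe hT₁ hA hN hB hBH hR

end

end ptree

end Crest.Agent.R122.LNS3a304

end
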