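import Crest.Agent.R122.LNS3b_968
import Crest.Agent.R122.LNS3a_304
import Crest.Agent.R122.LNS3_674

/-!
# Row 122, LN1 (helper968): the family `nl₂` of `E6Hyp`, off the bad events

`nl2_det` : exits `lineML i`, `i ≠ root`, `e'`, `c'` are pairwise unlinked in `(cfg w).ins d`, off the
bad events of the gateway (`BadGas`, `BadHitGas`, `RunS`), and off the births close to the gas
(`NoB` of `d`, `e'`, `c'`). The same hypotheses as `nl0_det`, `nl1_det` (helper304).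
-/

set_option autoImplicit false
set_option linter.unusedSectionVars false

open MeasureTheory Set Filter Topology
open Crest.AnalysisR.Kinetic
open Crest.Agent.R122.Flow671 hiding rel
open Crest.Agent.R122.Loc45 Crest.Agent.R122.Ins45
open Crest.Agent.R122.VL581 Crest.Agent.R122.VL581.VSys Crest.Agent.R122.VLInst442
open Crest.Agent.R122.LN304 Crest.Agent.R122.LNg410 Crest.Agent.R122.LNPart424
open Crest.Agent.R122.Kin796 Crest.Agent.R122.Kin796.CTree Crest.Agent.R122.Tree674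
open Crest.Agent.R122.PathFlow968 Crest.Agent.R122.TreeLines335 Crest.Agent.R122.EDefs602
open Crest.Agent.R122.LNTree410 Crest.Agent.R122.PWGlue491 Crest.Agent.R122.Inf879
open Crest.Agent.R122.LNGraft410 Crest.Agent.R122.LNEv968 Crest.Agent.R122.PWInst442
open Crest.Agent.R122.OCout796 Crest.Agent.R122.Scat818 Crest.Agent.R122.StrG491
open Crest.Agent.R122.MWFam255 Crest.Agent.R122.LNEv818 Crest.Agent.R122.LNS674
open Crest.Agent.R122.OneC285 (cT cB cD cX)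
open Crest.Agent.R122.E6Hyp879 (plus withD)
open Crest.Agent.R122.Decomp811 (exF)
open scoped Classical

noncomputable section

namespace Crest.Agent.R122.LNS968

variable {σ : Type} [Fintype σ] {n : ℕ} {Φ : Space3 → ℝ} {T te tc ε c ℓ ς : ℝ} {b : σ → ℝ}
  {V : σ → PhasePoint} {w : Config n} {R : ℝ → Fin n ⊕ σ → Fin n ⊕ σ → Prop}
  {cl : Fin n ⊕ σ → Finset (Fin n ⊕ σ)} {bE : Fin n ⊕ σ → ℝ} {π : Finset (Fin n ⊕ σ)}
  {x y : σ} {d e : ML} {P : CTree} {z : PhasePoint × Par P} {g : Idx P ↪ σ}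

/-- The encounter ends, if it starts before `T - 2 ℓ`. -/
theorem pass_of (H : PTree (gsys Φ T ε n b) c (Sum.elim w V) R π cl bE (Sum.inr x) (Sum.inr y) d.1
      e tc P z (g.trans (strE n σ)))
    (hπ : ∀ j : Fin n ⊕ σ, (j ∈ π ∨ j ∈ part (g.trans (strE n σ))) ↔ j ∈ pS n σ)
    (hΦ : AdmissiblePotential Φ) (hε : 0 < ε) (hc : 1 ≤ c) (hℓς : 2 * ℓ ≤ ς)
    (hT : TL (gsys Φ T ε n b) c ℓ ς (pS n σ) (Sum.elim w V)) (hlT : cT ε z e + 2 * ℓ < T) :
    CDpass Φ (cD ε z e) ∧ cT ε z e + outT Φ ε (cD ε z e) ≤ T := by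
  have hen := (H.hit hc hΦ hε).enc hΦ hε
  have h1 : LNS3a304.EU π (part (g.trans (strE n σ))) = pS n σ := by
    ext j
    rw [← hπ j]
    exact @Finset.mem_union _ (fun a b => Classical.propDecidable _) _ _ _
  have hT' : TL (gsys Φ T ε n b) c ℓ ς (LNS3a304.EU π (part (g.trans (strE n σ))))
      (Sum.elim w V) := by
    rw [h1]
    exact hT
  obtain ⟨h2, h3⟩ := hen.pass_of hc hΦ hε hT' hℓς hlT
  exact ⟨h2, (add_le_add_right h3 _).trans hlT.le⟩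

/-- The data of `nl₂`. -/
theorem in6_of (H : PTree (gsys Φ T ε n b) c (Sum.elim w V) R π cl bE (Sum.inr x) (Sum.inr y) d.1
      e tc P z (g.trans (strE n σ)))
    (hπ : ∀ j : Fin n ⊕ σ, (j ∈ π ∨ j ∈ part (g.trans (strE n σ))) ↔ j ∈ pS n σ)
    (hpe : w ∈ PairExcluded ε n) (hΦ : AdmissiblePotential Φ) (hε : 0 < ε) (hc : 1 ≤ c)
    (hℓς : 2 * ℓ ≤ ς) (hT : TL (gsys Φ T ε n b) c ℓ ς (pS n σ) (Sum.elim w V))
    (hlT : cT ε z e + 2 * ℓ < T) : In6 Φ T ε c ℓ ς b V w R π cl bE x y d e tc P z g where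
  hΦ := hΦ
  hε := hε
  hC := hc
  pt := H
  full j := (hπ j).symm
  tl := hT
  hℓς := hℓς
  pass := (pass_of H hπ hΦ hε hc hℓς hT hlT).1
  le := (pass_of H hπ hΦ hε hc hℓς hT hlT).2
  pe := hpe

/-- **Family exits, `e'`, `c'` over `(cfg w).ins d`** (field `nl₂` of helper879's `E6Hyp`). -/
theorem nl2_det (H : PTree (gsys Φ T ε n b) c (Sum.elim w V) R π cl bE (Sum.inr x) (Sum.inr y) d.1
      e tc P z (g.trans (strE n σ)))
    (hπ : ∀ j : Fin n ⊕ σ, (j ∈ π ∨ j ∈ part (g.trans (strE n σ))) ↔ j ∈ pS n σ)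
    (hpe : w ∈ PairExcluded ε n) (hΦ : AdmissiblePotential Φ) (hε : 0 < ε)
    (hT0 : 0 ≤ T) (hte : te ≤ T) (hc : 1 ≤ c) {T' Te T₁ ρ : ℝ} (hρ : 2 * (ρ * ε) ≤ ς)
    (hT : T ≤ T') (hTe : T' ≤ Te) (hT₁ : Te < T₁) {K m N₁ : ℕ} {A₀ : Finset σ} (hA : A₀.Nonempty)
    (hN : 4 * (Fintype.card σ + 2 * K * (m + 2)) ≤ N₁)
    (hB : ¬ LN2.BadGas Φ T' c ρ ς ε N₁ 1 A₀ b V w)
    (hBH : ¬ BH167.BadHitGas (BH167.bpos Φ T₁ Te) Φ T' c 1 ε N₁ N₁ 1 A₀ b V w)
    (hR : ¬ Gate424.RunS Φ ε T K m b V w) (hlT : cT ε z e + 2 * (ρ * ε) < T)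
    (hok : MW.OkFam Φ ε (MW.cfg w) (withD (fun i => lineML Φ ε P z i) d))
    (hok2 : MW.OkFam Φ ε ((MW.cfg w).ins d) (fam6 Φ ε P z e))
    (hBd : PW365.NoB Φ ε (MW.cfg w) d)
    (hBo : ∀ k, PW365.NoB Φ ε (MW.cfg w) (out6 Φ ε P z e k)) :
    PairNL Φ ε K te ((MW.cfg w).ins d) (fam6 Φ ε P z e) := by
  have hTL := LNS3a304.tlA H hπ hpe hΦ hε hc hT hA (N := N₁) (by omega) hB
  have h6 := in6_of H hπ hpe hΦ hε hc hρ hTL hlT
  have h1 := LNS3a304.one0 H hπ hpe hΦ hε hc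
  have E1 := LNS3a304.exits1 H hπ hpe hΦ hε hc hρ hTL hte hok
  have E6' := h6.exits (t₀ := te) hte (hok2.base hΦ hε)
    (hok.base hΦ hε) (fun k => by
      have h3 := hok2.line hΦ hε (Sum.inr k)
      cases k <;> exact h3) hBd hBo
  have hX1 := h1.ctx hΦ hε hc hρ hT hA hB
  have hX6 := h6.one.ctx hΦ hε hc hρ hT hA hB
  refine h6.nl2 hte (N := Fintype.card σ + 2 * K * (m + 2)) (N₁ := N₁) (hok2.base hΦ hε)
    (fun k => hok2.line hΦ hε k) hX6.nb (by omega) fun k => ?_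
  rcases k with i | k
  · refine (h1.reachAll_or_run E1 hT0 hte hX1 i.1 (fun β => ?_) (by omega)).resolve_left hR
    cases β
    · exact (h1.wd hΦ hε hT0 hc hρ hT hTe hT₁ hA hBH E1.gd0).bh
    · exact (h1.wd hΦ hε hT0 hc hρ hT hTe hT₁ hA hBH (E1.gd1 i.1)).bh
  · have h2 := (h6.one.reachAll_or_run E6' hT0 hte hX6 k (fun β => by
      cases β
      · exact (h6.one.wd hΦ hε hT0 hc hρ hT hTe hT₁ hA hBH E6'.gd0).bh
      · exact (h6.one.wd hΦ hε hT0 hc hρ hT hTe hT₁ hA hBH (E6'.gd1 k)).bh)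
      (by omega)).resolve_left hR
    cases k <;> exact h2

end Crest.Agent.R122.LNS968

end
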