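import Crest.Agent.R122.LNNear9_383
import Crest.Agent.R122.LNS3d_968
import Crest.Agent.R122.GxDet_365

/-!
# Row 122, LN1 events (helper383), part 13: the fields `nl0`, `nl1`, `nl2` of `Slots6G`

* `gNull_of_pairAlt'` : the generic gate with a small parameter.
* `slot_nl0`, `slot_nl1`, `slot_nl2` : the fields, from `PairAlt`.
-/

set_option autoImplicit false
set_option linter.unusedSectionVars false

open MeasureTheory Set Filter Topology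
open scoped ENNReal
open Crest.AnalysisR.Kinetic
open Crest.Agent.R122.GC311 Crest.Agent.R122.EDefs602
open Crest.Agent.R122.Kin796 Crest.Agent.R122.Kin796.CTree Crest.Agent.R122.Tree674
open Crest.Agent.R122.Gate424 Crest.Agent.R122.Gate973
open Crest.Agent.R122.Link6796
open Crest.Agent.R122.PairD292
open Crest.Agent.R122.GateOsP424 (osB osZ)
open Crest.Agent.R122.PairRep581 (Shp ShpOk osP)
open Crest.Agent.R122.OPX973 (OPX anT)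
open scoped Classical

namespace Crest.Agent.R122.LNEv383

noncomputable section

variable {Φ : Space3 → ℝ} {f₀ : PhasePoint → ℝ} {bg γ β te T' : ℝ} {ρ : Space3 → ℝ≥0∞}
  {gl : ℝ → ℝ} {rm : ℝ≥0∞} {P : CTree} {S : Shp} {K : ℕ} {Q : EPar}

/-- **The generic gate**: events with the guards `Gx6 R`, small parameter. -/
theorem gNull_of_pairAlt' (h : OPX Φ f₀ bg γ β T' te ρ S gl rm) (hlt : Q.te < T') {c : ℝ}
    (hPA : PairAlt Φ f₀ Q T' K P S c) {R : ℝ} (K' : ℕ)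
    {E : ℝ → (n : ℕ) → ((PhasePoint × Par P) × S.Θ) → Config n → Prop}
    (hE : ∀ ε n q (w : Config n), E ε n q w → Gx6 Φ ε R K Q T' P q.1 w (S.th ε q.2))
    (hdet : ∀ L : ℕ, ∃ N : ℕ, ∀ r > 0, ∀ ς > 0, ∀ ε > 0, 2 * (r * ε) ≤ ς →
      Q.te + 2 * (r * ε) < T' → ∀ n q (w : Config n),
      w ∈ PairExcluded ε n → E ε n q w → PTreeQ Φ T' Q.te ε c P S n w q →
      RunS Φ ε T' K' L (osB P S ε q) (osZ Φ P S ε q) w ∨
        LN2.BadGas Φ T' c r ς ε N 1 (anT P S) (osB P S ε q) (osZ Φ P S ε q) w ∨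
        BH167.BadHitGas (BH167.bpos Φ (T' + 1) T') Φ T' c 1 ε N N 1 (anT P S) (osB P S ε q)
          (osZ Φ P S ε q) w) :
    GNull f₀ (osP Φ f₀ Q.te T' K P S) (fun ε _ n q w => E ε n q w) := by
  obtain ⟨B, Ht, hB, hH, hPA⟩ := pairAltE_of hPA
  refine h.gNull_of_alt (u := T') le_rfl K' (E := E) fun L => ?_
  obtain ⟨N, hd⟩ := hdet L
  refine ⟨N, c, T' + 1, T', B, Ht, by linarith [h.T_pos], hB, hH, fun r hr ς hς => ?_⟩
  obtain ⟨ε₁, h0, h1⟩ := hPA r hr ς hς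
  have hT : 0 < T' - Q.te := sub_pos.2 hlt
  refine ⟨min ε₁ (min (ς / (2 * r)) ((T' - Q.te) / (2 * r))),
    lt_min h0 (lt_min (by positivity) (by positivity)), fun ε hε hlt' n q w hw hEq => ?_⟩
  have hrε : 2 * (r * ε) ≤ ς := by
    have h2 := (hlt'.trans_le ((min_le_right _ _).trans (min_le_left _ _))).le
    rw [le_div_iff₀ (by positivity)] at h2
    linarith
  have hrT : Q.te + 2 * (r * ε) < T' := by
    have h2 := hlt'.trans_le ((min_le_right _ _).trans (min_le_right _ _))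
    rw [lt_div_iff₀ (by positivity)] at h2
    linarith
  rcases h1 ε hε (hlt'.trans_le (min_le_left _ _)) n q w hw ⟨R, hE ε n q w hEq⟩ with h2 | h2 | h2
  · exact Or.inr (Or.inr (Or.inr (Or.inl h2)))
  · exact Or.inr (Or.inr (Or.inr (Or.inr h2)))
  rcases hd r hr ς hς ε hε hrε hrT n q w hw hEq
    (ptreeQ_of_pairQ h.adm hε hlt (hE ε n q w hEq) h2) with h3 | h3 | h3
  · exact Or.inl h3
  · exact Or.inr (Or.inl h3)
  · exact Or.inr (Or.inr (Or.inl h3))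

/-- **The field `nl0` of `Slots6G`.** -/
theorem slot_nl0 (h : OPX Φ f₀ bg γ β T' te ρ S gl rm) (hlt : Q.te < T')
    (hPA : PairAlt Φ f₀ Q T' K P S 1) (R : ℝ) (_hR : 0 ≤ R) :
    GNull f₀ (osP Φ f₀ Q.te T' K P S) (fun ε _ _ q w =>
      Gx6 Φ ε R K Q T' P q.1 w (S.th ε q.2) ∧ Ok6 Φ ε P q.1 w (S.th ε q.2) ∧
        ¬ Nl0 Φ ε K Q.te P q.1 w (S.th ε q.2)) := by
  refine gNull_of_pairAlt' h hlt hPA (R := R) K
    (E := fun ε n q w => Gx6 Φ ε R K Q T' P q.1 w (S.th ε q.2) ∧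
      Ok6 Φ ε P q.1 w (S.th ε q.2) ∧ ¬ Nl0 Φ ε K Q.te P q.1 w (S.th ε q.2))
    (fun _ _ _ _ h => h.1) fun L => ⟨(Fintype.card (Idx P ⊕ S.κ) + 2 * K * (L + 2)) +
      (Fintype.card (Idx P ⊕ S.κ) + 2 * K * (L + 2)),
      fun r _ ς _ ε hε hr _ n q w hw hE hP => ?_⟩
  obtain ⟨Rc, π, cl, β', x, y, H, hπ⟩ := hP
  by_contra hcon
  push Not at hcon
  obtain ⟨hR, hB, hBH⟩ := hcon
  exact hE.2.2 (LNS3a304.nl0_det H hπ hw h.adm hε h.T_pos.le hlt.le le_rfl hr le_rfl le_rfl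
    (lt_add_one T') anT_nonempty le_rfl hB hBH hR hE.2.1.ok₁)

/-- **The field `nl1` of `Slots6G`.** -/
theorem slot_nl1 (h : OPX Φ f₀ bg γ β T' te ρ S gl rm) (hlt : Q.te < T')
    (hPA : PairAlt Φ f₀ Q T' K P S 1) (R : ℝ) (_hR : 0 ≤ R) :
    GNull f₀ (osP Φ f₀ Q.te T' K P S) (fun ε _ _ q w =>
      Gx6 Φ ε R K Q T' P q.1 w (S.th ε q.2) ∧ Ok6 Φ ε P q.1 w (S.th ε q.2) ∧
        Nl0 Φ ε K Q.te P q.1 w (S.th ε q.2) ∧ ¬ Nl1 Φ ε K Q.te P q.1 w (S.th ε q.2)) := by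
  refine gNull_of_pairAlt' h hlt hPA (R := R) K
    (E := fun ε n q w => Gx6 Φ ε R K Q T' P q.1 w (S.th ε q.2) ∧
      Ok6 Φ ε P q.1 w (S.th ε q.2) ∧ Nl0 Φ ε K Q.te P q.1 w (S.th ε q.2) ∧
      ¬ Nl1 Φ ε K Q.te P q.1 w (S.th ε q.2))
    (fun _ _ _ _ h => h.1) fun L => ⟨(Fintype.card (Idx P ⊕ S.κ) + 2 * K * (L + 2)) +
      (Fintype.card (Idx P ⊕ S.κ) + 2 * K * (L + 2)),
      fun r _ ς _ ε hε hr _ n q w hw hE hP => ?_⟩
  obtain ⟨Rc, π, cl, β', x, y, H, hπ⟩ := hP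
  by_contra hcon
  push Not at hcon
  obtain ⟨hR, hB, hBH⟩ := hcon
  exact hE.2.2.2 (LNS3a304.nl1_det H hπ hw h.adm hε h.T_pos.le hlt.le le_rfl hr le_rfl le_rfl
    (lt_add_one T') anT_nonempty le_rfl hB hBH hR hE.2.1.ok₁)

/-- **The field `nl2` of `Slots6G`.** -/
theorem slot_nl2 (h : OPX Φ f₀ bg γ β T' te ρ S gl rm) (hlt : Q.te < T')
    (hPA : PairAlt Φ f₀ Q T' K P S 1) (R : ℝ) (_hR : 0 ≤ R) :
    GNull f₀ (osP Φ f₀ Q.te T' K P S) (fun ε _ _ q w =>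
      Gx6 Φ ε R K Q T' P q.1 w (S.th ε q.2) ∧ Ok6 Φ ε P q.1 w (S.th ε q.2) ∧
        Nl0 Φ ε K Q.te P q.1 w (S.th ε q.2) ∧ Nl1 Φ ε K Q.te P q.1 w (S.th ε q.2) ∧
        ¬ Nl2 Φ ε K Q.te P q.1 w (S.th ε q.2)) := by
  refine gNull_of_pairAlt' h hlt hPA (R := R) K
    (E := fun ε n q w => Gx6 Φ ε R K Q T' P q.1 w (S.th ε q.2) ∧
      Ok6 Φ ε P q.1 w (S.th ε q.2) ∧ Nl0 Φ ε K Q.te P q.1 w (S.th ε q.2) ∧
      Nl1 Φ ε K Q.te P q.1 w (S.th ε q.2) ∧ ¬ Nl2 Φ ε K Q.te P q.1 w (S.th ε q.2))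
    (fun _ _ _ _ h => h.1) fun L => ⟨4 * (Fintype.card (Idx P ⊕ S.κ) + 2 * K * (L + 2)),
      fun r _ ς _ ε hε hr hrT n q w hw hE hP => ?_⟩
  obtain ⟨Rc, π, cl, β', x, y, H, hπ⟩ := hP
  obtain ⟨hG, hok, -, -, hnl⟩ := hE
  by_contra hcon
  push Not at hcon
  obtain ⟨hR, hB, hBH⟩ := hcon
  refine hnl (LNS968.nl2_det H hπ hw h.adm hε h.T_pos.le hlt.le le_rfl hr le_rfl le_rfl
    (lt_add_one T') anT_nonempty le_rfl hB hBH hR ?_ hok.ok₁ hok.ok₂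
    (GxDet365.noB_d h.adm hε hG) fun k => ?_)
  · have h1 := GxDet365.cT_le_te hG
    linarith
  · cases k
    · exact GxDet365.noB_out h.adm hε hG (some true)
    · exact GxDet365.noB_out h.adm hε hG (some false)

end

end Crest.Agent.R122.LNEv383
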