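import Crest.Agent.R122.PairFlux_292

/-!
Row 122, block H4 (inequality 3 of section E), helper292: the continuation kernels `kO` (a free line
meets a fresh Gaussian line; the output is one of the three lines of `OCout_796`).
-/

set_option autoImplicit false

open MeasureTheory ProbabilityTheory Set
open Crest.AnalysisR.Kinetic
open Crest.Agent.R122.Boost969 Crest.Agent.R122.Disc416 Crest.Agent.R122.Flux663
open Crest.Agent.R122.OC663 Crest.Agent.R122.Scat818 Crest.Agent.R122.Kin416
open scoped ENNReal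

noncomputable section

namespace Crest.Agent.R122.Pair292

/-! ### Output maps -/

/-- measurable translation equivariant output map -/
structure OutMap (out : ℝ → Space3 → OCout796.CD → LSt) : Prop where
  meas : Measurable fun p : ℝ × (Space3 × OCout796.CD) => out p.1 p.2.1 p.2.2
  tr : ∀ a s y q, out s (y + a) q = shL a (out s y q)

/-- output line as a function of the incoming line and the contact data -/
def outC (out : ℝ → Space3 → OCout796.CD → LSt) (ε : ℝ) (z : LSt) (c : CDat) : LSt :=
  out c.1 (xC ε z c) (cdC z c)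

variable {out : ℝ → Space3 → OCout796.CD → LSt}

lemma measurable_outC (h : OutMap out) (ε : ℝ) :
    Measurable fun p : LSt × CDat => outC out ε p.1 p.2 := by
  unfold outC
  have h1 : Measurable fun p : LSt × CDat => (p.2.1, (xC ε p.1 p.2, cdC p.1 p.2)) :=
    (measurable_fst.comp measurable_snd).prodMk ((measurable_xC ε).prodMk measurable_cdC)
  exact h.meas.comp h1

lemma outC_shL (h : OutMap out) (ε : ℝ) (a : Space3) (z : LSt) (c : CDat) :
    outC out ε (shL a z) c = shL a (outC out ε z c) := by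
  unfold outC
  rw [xC_shL, cdC_shL, h.tr]

/-! ### The kernel -/

/-- density of contacts with a fresh Gaussian line -/
def dens (b₀ : ℝ) (z : LSt) (c : CDat) : ℝ≥0∞ := rate z c * gau b₀ c.2.1

lemma measurable_dens (b₀ : ℝ) : Measurable fun p : LSt × CDat => dens b₀ p.1 p.2 := by
  unfold dens
  exact measurable_rate.mul ((measurable_gau b₀).comp (by fun_prop))

lemma dens_ne_top (b₀ : ℝ) (z : LSt) (c : CDat) : dens b₀ z c ≠ ∞ := by
  unfold dens rate gau
  refine ENNReal.mul_ne_top ?_ ENNReal.ofReal_ne_top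
  split_ifs
  · exact ENNReal.ofReal_ne_top
  · exact ENNReal.zero_ne_top

lemma dens_shL (b₀ : ℝ) (a : Space3) (z : LSt) (c : CDat) : dens b₀ (shL a z) c = dens b₀ z c := by
  unfold dens
  rw [rate_shL]

/-- contact data kernel -/
def kC (b₀ te : ℝ) : Kernel LSt CDat :=
  Kernel.withDensity (Kernel.const LSt (mC te)) (dens b₀)

instance (b₀ te : ℝ) : IsSFiniteKernel (kC b₀ te) := by
  unfold kC
  exact Kernel.IsSFiniteKernel.withDensity _ (dens_ne_top b₀)

lemma lintegral_kC (b₀ te : ℝ) (z : LSt) {F : CDat → ℝ≥0∞} (hF : Measurable F) :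
    ∫⁻ c, F c ∂kC b₀ te z = ∫⁻ c, dens b₀ z c * F c ∂mC te := by
  unfold kC
  rw [Kernel.lintegral_withDensity _ (measurable_dens b₀) z hF, Kernel.const_apply]

/-- **Continuation kernel**: the line `z` meets a fresh Gaussian line at a time in `(0, te]` after
its birth. -/
def kO (ε b₀ te : ℝ) (out : ℝ → Space3 → OCout796.CD → LSt) : Kernel LSt LSt :=
  (Kernel.id ×ₖ kC b₀ te).map fun p : LSt × CDat => outC out ε p.1 p.2

instance (ε b₀ te : ℝ) (out : ℝ → Space3 → OCout796.CD → LSt) :
    IsSFiniteKernel (kO ε b₀ te out) := by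
  unfold kO; infer_instance

lemma lintegral_kO (h : OutMap out) (ε b₀ te : ℝ) (z : LSt) {F : LSt → ℝ≥0∞}
    (hF : Measurable F) :
    ∫⁻ z', F z' ∂kO ε b₀ te out z = ∫⁻ c, dens b₀ z c * F (outC out ε z c) ∂mC te := by
  unfold kO
  have hm : Measurable fun p : LSt × CDat => F (outC out ε p.1 p.2) := hF.comp (measurable_outC h ε)
  rw [Kernel.lintegral_map _ (measurable_outC h ε) z hF, Kernel.lintegral_prod _ _ _ hm,
    Kernel.id_apply]
  have hm2 : Measurable fun b : LSt => ∫⁻ c, F (outC out ε b c) ∂kC b₀ te z := by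
    rw [show (kC b₀ te z) = (Kernel.const LSt (kC b₀ te z)) z from rfl]
    exact hm.lintegral_prod_right' (ν := kC b₀ te z)
  rw [lintegral_dirac' z hm2]
  exact lintegral_kC b₀ te z (hm.comp (measurable_const.prodMk measurable_id))

theorem trK_kO (h : OutMap out) (ε b₀ te : ℝ) : TrK (kO ε b₀ te out) := by
  intro a z F hF
  rw [lintegral_kO h ε b₀ te (shL a z) hF,
    lintegral_kO h ε b₀ te z (F := fun z' => F (shL a z')) (hF.comp (measurable_shL a))]
  refine lintegral_congr fun c => ?_
  rw [dens_shL, outC_shL h]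

/-! ### The three output maps of `OCout_796` -/

variable {Φ : Space3 → ℝ}

theorem outMap_L' (hΦ : AdmissiblePotential Φ) (ε : ℝ) : OutMap (OCout796.lineL' Φ ε) := by
  refine ⟨?_, fun a s y q => ?_⟩
  · unfold OCout796.lineL'
    have h1 := OCout796.measurable_outT hΦ ε
    have h2 := OCout796.measurable_outCM hΦ ε
    have h3 := OCout796.measurable_exB hΦ
    have hq : Measurable fun p : ℝ × (Space3 × OCout796.CD) => p.2.2 := by fun_prop
    refine (measurable_fst.add (h1.comp hq)).prodMk (Measurable.prodMk ?_ ?_)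
    · exact (measurable_fst.comp measurable_snd).add ((h2.comp hq).add
        ((measurable_fst.comp (h3.comp hq)).const_smul (ε / 2)))
    · exact (OCout796.measurable_cmvel.comp hq).add
        ((measurable_snd.comp (h3.comp hq)).const_smul (1 / 2 : ℝ))
  · unfold OCout796.lineL' shL
    simp only
    rw [add_right_comm]

theorem outMap_C' (hΦ : AdmissiblePotential Φ) (ε : ℝ) : OutMap (OCout796.lineC' Φ ε) := by
  refine ⟨?_, fun a s y q => ?_⟩
  · unfold OCout796.lineC'
    have h1 := OCout796.measurable_outT hΦ ε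
    have h2 := OCout796.measurable_outCM hΦ ε
    have h3 := OCout796.measurable_exB hΦ
    have hq : Measurable fun p : ℝ × (Space3 × OCout796.CD) => p.2.2 := by fun_prop
    refine (measurable_fst.add (h1.comp hq)).prodMk (Measurable.prodMk ?_ ?_)
    · exact (measurable_fst.comp measurable_snd).add ((h2.comp hq).sub
        ((measurable_fst.comp (h3.comp hq)).const_smul (ε / 2)))
    · exact (OCout796.measurable_cmvel.comp hq).sub
        ((measurable_snd.comp (h3.comp hq)).const_smul (1 / 2 : ℝ))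
  · unfold OCout796.lineC' shL
    simp only
    rw [add_right_comm]

theorem outMap_C (hΦ : AdmissiblePotential Φ) (ε : ℝ) : OutMap (OCout796.lineC Φ ε) := by
  refine ⟨?_, fun a s y q => ?_⟩
  · unfold OCout796.lineC
    have h1 := OCout796.measurable_outT hΦ ε
    have hq : Measurable fun p : ℝ × (Space3 × OCout796.CD) => p.2.2 := by fun_prop
    refine (measurable_fst.add (h1.comp hq)).prodMk (Measurable.prodMk ?_ ?_)
    · exact (measurable_fst.comp measurable_snd).add ((h1.comp hq).smul
        (measurable_fst.comp (measurable_snd.comp hq)))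
    · exact measurable_fst.comp (measurable_snd.comp hq)
  · unfold OCout796.lineC shL
    simp only
    rw [add_right_comm]

/-! ### Continuation steps -/

/-- kernel of one continuation step with output map `out`, mark rule `f`, mark weights `q` -/
def stO (ε b₀ te : ℝ) (out : ℝ → Space3 → OCout796.CD → LSt) (f : ℕ → ℕ → ℕ) (q : ℕ → ℝ≥0∞) :
    Kernel (Lab × LSt) (Lab × LSt) := mkK f q (kO ε b₀ te out)

theorem lintegral_stO (h : OutMap out) (ε b₀ te : ℝ) (f : ℕ → ℕ → ℕ) {q : ℕ → ℝ≥0∞}
    (hq : ∀ m, q m ≠ ∞) (p : Lab × LSt) {F : Lab × LSt → ℝ≥0∞} (hF : Measurable F) :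
    ∫⁻ p', F p' ∂stO ε b₀ te out f q p = ∑' m, q m *
      ∫⁻ c, dens b₀ p.2 c * F (incM f m p.1, outC out ε p.2 c) ∂mC te := by
  unfold stO
  rw [lintegral_mkK f hq _ p hF]
  refine tsum_congr fun m => ?_
  congr 1
  exact lintegral_kO h ε b₀ te p.2 (F := fun z' => F (incM f m p.1, z'))
    (hF.comp (measurable_const.prodMk measurable_id))

/-- **Step from a dominating kernel** (969's forward kernels). -/
theorem stepK_stO {P : PPar} (h : OutMap out) {ε b₀ te : ℝ} {f : ℕ → ℕ → ℕ}
    (hf : ∀ m n, f m n ≤ n + m) {q : ℕ → ℝ≥0∞} (hq : ∀ m, q m ≠ ∞) {κ κ' : Kernel LSt LSt}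
    [IsSFiniteKernel κ'] (hdom : ∀ z, kO ε b₀ te out z ≤ κ z) (hG : GalDom κ κ') {lam : ℝ≥0∞}
    (hκ : ∀ z, ∫⁻ z', P.W z' ∂κ' z ≤ lam * P.W z) :
    StepK P (stO ε b₀ te out f q) (mkK f q κ') (lam * ∑' m, P.lam₁ ^ m * q m) := by
  refine stepK_mkK hf hq ?_ (trK_kO h ε b₀ te) hκ
  intro s0 u hu z F hF
  exact (lintegral_mono' (hdom _) le_rfl).trans (hG s0 u hu z F hF)

end Crest.Agent.R122.Pair292
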