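import Crest.Agent.R122.PairDefs_292
import Crest.Agent.R122.Direct6b_658
import Crest.Agent.R122.PairKer_292

/-!
# Row 122, section E, inequality 3 (helper664): births of the second line close to the gas

* `PX_le_rhsG` : marginal bound for functionals of the pair with a weight in the velocity of the
  second line;
* `PX_ball_le` : the mass of the births of the second line within `δ (1 + |v|)` of a given moving
  point, uniformly over all translation invariant spread pair laws;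
* `NearB` : the second line is born within `δ (1 + |v|)` of a gas particle (path in the gas alone);
* `nearB_world`, `nearB_gas`, `birth_null` : its mass is `O(n δ³)`, so null for `δ = a ε`.
-/

set_option autoImplicit false
set_option linter.unusedSectionVars false

open MeasureTheory ProbabilityTheory Set Filter Topology
open scoped ENNReal
open Crest.AnalysisR.Kinetic
open Crest.Agent.R122.Flow671 Crest.Agent.R122.Loc45 Crest.Agent.R122.Causal291
open Crest.Agent.R122.Inf879 Crest.Agent.R122.EDefs602 Crest.Agent.R122.Ins45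
open Crest.Agent.R122.GC311 Crest.Agent.R122.Unw410 Crest.Agent.R122.Energy410
open Crest.Agent.R122.MeasE416 Crest.Agent.R122.Boost969 Crest.Agent.R122.EBasic602
open Crest.Agent.R122.Pair292 hiding ML
open Crest.Agent.R122.Conc984 Crest.Agent.R122.Direct658
open Crest.Agent.R122.PairD292

namespace Crest.Agent.R122.PairBirth664

noncomputable section

open scoped Classical

variable {Φ : Space3 → ℝ} {f₀ : PhasePoint → ℝ} {ε : ℝ} {K : ℕ} {P : PPar}
  {Ξ ν : Measure (Lab × LSt)} {c : ℝ≥0∞}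

/-! ## General bounds for pair laws -/

/-- **Marginal bound with a velocity weight.** -/
theorem PX_le_rhsG (h : PX P Ξ ν c) {g : Space3 → ℝ≥0∞} (hg : Measurable g) {Cg : ℝ≥0∞}
    (hgW : ∀ z : LSt, z.1 ≤ P.t' → ∀ u : Space3, ‖u‖ < 1 → g (z.2.2 + u) ≤ Cg * P.W z)
    {F : ML × ℝ → ℝ≥0∞} (hF : Measurable F) :
    ∫⁻ p, {p : Lab × LSt | p.2.1 ≤ P.t'}.indicator (fun p =>
      g p.2.2.2 * F (p.1.1, p.1.2.1)) p ∂ν ≤ Cg * (v1 * (c * P.rhs F)) := by
  have hset : MeasurableSet {p : Lab × LSt | p.2.1 ≤ P.t'} :=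
    measurableSet_le (by fun_prop) measurable_const
  have hF' : Measurable fun p : Lab × LSt => F (p.1.1, p.1.2.1) := hF.comp (by fun_prop)
  have hFV : Measurable fun p : Lab × LSt => g p.2.2.2 * F (p.1.1, p.1.2.1) :=
    (hg.comp (by fun_prop)).mul hF'
  have hwm : Measurable fun p : Lab × LSt =>
      F (p.1.1, p.1.2.1) * (P.lam₁ ^ p.1.2.2 * P.W p.2) := by
    refine hF'.mul (Measurable.mul ?_ (P.hW.comp measurable_snd))
    exact (Measurable.of_discrete (f := fun n : ℕ => P.lam₁ ^ n)).comp (by fun_prop)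
  calc ∫⁻ p, {p : Lab × LSt | p.2.1 ≤ P.t'}.indicator (fun p =>
        g p.2.2.2 * F (p.1.1, p.1.2.1)) p ∂ν
      ≤ ∫⁻ p, avgL sig (fun p => {p : Lab × LSt | p.2.1 ≤ P.t'}.indicator
        (fun p => g p.2.2.2 * F (p.1.1, p.1.2.1)) p) p ∂Ξ :=
        h.spr _ (hFV.indicator hset)
    _ ≤ ∫⁻ p, (Cg * v1) * (F (p.1.1, p.1.2.1) * (P.lam₁ ^ p.1.2.2 * P.W p.2)) ∂Ξ := by
        refine lintegral_mono fun p => ?_
        unfold avgL
        by_cases hp : p.2.1 ≤ P.t'
        · calc ∫⁻ u in Metric.ball (0 : Space3) 1, {p : Lab × LSt | p.2.1 ≤ P.t'}.indicator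
                (fun p => g p.2.2.2 * F (p.1.1, p.1.2.1)) (p.1, gal (sig p.1) u p.2)
              ≤ ∫⁻ _u in Metric.ball (0 : Space3) 1,
                  (Cg * P.W p.2) * F (p.1.1, p.1.2.1) := by
                refine setLIntegral_mono' measurableSet_ball fun u hu => ?_
                refine Set.indicator_apply_le' (fun _ => ?_) (fun _ => bot_le)
                refine mul_le_mul_left ?_ _
                have h1 : ‖u‖ < 1 := by simpa using hu
                exact hgW p.2 hp u h1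
            _ = (Cg * v1) * (F (p.1.1, p.1.2.1) * (1 * P.W p.2)) := by
                rw [setLIntegral_const]
                unfold v1
                ring
            _ ≤ _ := by
                refine mul_le_mul_right (mul_le_mul_right ?_ _) _
                exact mul_le_mul_left (one_le_pow_of_one_le' P.hlam₁ _) _
        · have h3 : ∀ u : Space3, {p : Lab × LSt | p.2.1 ≤ P.t'}.indicator
              (fun p => g p.2.2.2 * F (p.1.1, p.1.2.1)) (p.1, gal (sig p.1) u p.2) = 0 := by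
            intro u
            refine Set.indicator_of_notMem (fun hc => hp ?_) _
            simpa [gal] using hc
          simp only [h3, lintegral_zero]
          exact bot_le
    _ = (Cg * v1) * ∫⁻ p, F (p.1.1, p.1.2.1) * (P.lam₁ ^ p.1.2.2 * P.W p.2) ∂Ξ :=
        lintegral_const_mul _ hwm
    _ ≤ (Cg * v1) * (c * P.rhs F) := mul_le_mul_right (h.marg F hF) _
    _ = _ := by ring

/-- A probability density on space. -/
def chi (x : Space3) : ℝ≥0∞ := Boost969.cB * (Metric.ball (0 : Space3) 1).indicator 1 x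

theorem measurable_chi : Measurable chi := by
  unfold chi
  exact (measurable_one.indicator measurableSet_ball).const_mul _

theorem lintegral_chi : ∫⁻ x, chi x = 1 := by
  unfold chi
  rw [lintegral_const_mul _ (measurable_one.indicator measurableSet_ball),
    lintegral_indicator_one measurableSet_ball]
  unfold Boost969.cB
  exact ENNReal.inv_mul_cancel vol_ball_ne_zero vol_ball_ne_top

/-- The pair laws are translation invariant families. -/
theorem invFam (h : PX P Ξ ν c) :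
    InvFam shP (fun θ : Lab × LSt => θ.2) (fun θ : Lab × LSt => θ.1.1.1.2.1) ν where
  sf := h.sfν
  mT := by
    unfold shP
    have h1 : Measurable fun q : Space3 × (Lab × LSt) => shM q.1 q.2.1.1 :=
      measurable_shM'.comp (measurable_fst.prodMk
        (measurable_fst.comp (measurable_fst.comp measurable_snd)))
    have h2 : Measurable fun q : Space3 × (Lab × LSt) => shL q.1 q.2.2 :=
      measurable_shL'.comp (measurable_fst.prodMk (measurable_snd.comp measurable_snd))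
    exact (h1.prodMk (measurable_snd.comp (measurable_fst.comp measurable_snd))).prodMk h2
  me := measurable_snd
  mpos := by fun_prop
  eT := fun a θ => rfl
  posT := fun a θ => rfl
  inv := h.trans

/-- Births of the second line within `δ (1 + |v|)` of the moving point `Z`. -/
def bS (P : PPar) (Z : ℝ → Space3) (δ : ℝ) : Set (Lab × LSt) :=
  {θ | θ.2.1 ≤ P.t' ∧ dist θ.2.2.1 (Z θ.2.1) ≤ δ * (1 + ‖θ.2.2.2‖)}

theorem measurableSet_bS {Z : ℝ → Space3} (hZ : Measurable Z) (δ : ℝ) :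
    MeasurableSet (bS P Z δ) := by
  have h1 : Measurable fun θ : Lab × LSt => dist θ.2.2.1 (Z θ.2.1) :=
    (by fun_prop : Measurable fun θ : Lab × LSt => θ.2.2.1).dist
      (hZ.comp (measurable_fst.comp measurable_snd))
  have h2 : Measurable fun θ : Lab × LSt => δ * (1 + ‖θ.2.2.2‖) := by fun_prop
  have h3 : Measurable fun θ : Lab × LSt => θ.2.1 := by fun_prop
  exact (measurableSet_le h3 measurable_const).inter (measurableSet_le h1 h2)

/-- **Births of the second line close to a given moving point**, by translation invariance. -/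
theorem PX_ball_le (h : PX P Ξ ν c) {Cg : ℝ≥0∞}
    (hgW : ∀ z : LSt, z.1 ≤ P.t' → ∀ u : Space3, ‖u‖ < 1 →
      ENNReal.ofReal (1 + ‖z.2.2 + u‖) ^ 3 ≤ Cg * P.W z)
    {Z : ℝ → Space3} (hZ : Measurable Z) {δ : ℝ} (hδ : 0 ≤ δ) :
    ν (bS P Z δ) ≤ (ENNReal.ofReal δ ^ 3 * Sweep815.c3) *
      (Cg * (v1 * (c * P.rhs (fun q => chi q.1.1.2.1)))) := by
  have hset := measurableSet_bS (P := P) hZ δ
  have hset1 : MeasurableSet {θ : Lab × LSt | θ.2.1 ≤ P.t'} :=
    measurableSet_le (by fun_prop) measurable_const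
  have hgm : Measurable fun v : Space3 => ENNReal.ofReal (1 + ‖v‖) ^ 3 :=
    (Measurable.ennreal_ofReal (by fun_prop)).pow_const 3
  rw [← lintegral_indicator_one hset,
    (invFam h).disint measurable_chi lintegral_chi (measurable_one.indicator hset)]
  have h1 : ∀ θ : Lab × LSt, ∫⁻ a : Space3, (bS P Z δ).indicator 1 (shP a θ) =
      (ENNReal.ofReal δ ^ 3 * Sweep815.c3) *
        {θ : Lab × LSt | θ.2.1 ≤ P.t'}.indicator
          (fun θ => ENNReal.ofReal (1 + ‖θ.2.2.2‖) ^ 3) θ := by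
    intro θ
    by_cases hθ : θ.2.1 ≤ P.t'
    · have h2 : ∀ a : Space3, (bS P Z δ).indicator (1 : Lab × LSt → ℝ≥0∞) (shP a θ) =
          (Metric.closedBall (Z θ.2.1 - θ.2.2.1) (δ * (1 + ‖θ.2.2.2‖))).indicator 1 a := by
        intro a
        have h3 : shP a θ ∈ bS P Z δ ↔
            a ∈ Metric.closedBall (Z θ.2.1 - θ.2.2.1) (δ * (1 + ‖θ.2.2.2‖)) := by
          have h4 : dist (θ.2.2.1 + a) (Z θ.2.1) = dist a (Z θ.2.1 - θ.2.2.1) := by
            rw [dist_eq_norm, dist_eq_norm]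
            congr 1
            abel
          rw [Metric.mem_closedBall, ← h4]
          constructor
          · exact fun h5 => h5.2
          · exact fun h5 => ⟨hθ, h5⟩
        by_cases h5 : shP a θ ∈ bS P Z δ
        · rw [indicator_of_mem h5, indicator_of_mem (h3.1 h5)]
          rfl
        · rw [indicator_of_notMem h5, indicator_of_notMem (fun h6 => h5 (h3.2 h6))]
      simp only [h2]
      rw [lintegral_indicator_one Metric.isClosed_closedBall.measurableSet, Sweep815.vol_closedBall,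
        indicator_of_mem (show θ ∈ {θ : Lab × LSt | θ.2.1 ≤ P.t'} from hθ),
        ENNReal.ofReal_mul hδ]
      ring
    · have h2 : ∀ a : Space3,
          (bS P Z δ).indicator (1 : Lab × LSt → ℝ≥0∞) (shP a θ) = 0 := by
        intro a
        exact indicator_of_notMem (fun h5 => hθ h5.1) _
      simp only [h2, lintegral_zero]
      rw [indicator_of_notMem (show θ ∉ {θ : Lab × LSt | θ.2.1 ≤ P.t'} from hθ), mul_zero]
  have h6 : ∀ θ : Lab × LSt, chi θ.1.1.1.2.1 * (∫⁻ a : Space3,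
      (bS P Z δ).indicator 1 (shP a θ)) =
      (ENNReal.ofReal δ ^ 3 * Sweep815.c3) *
        {θ : Lab × LSt | θ.2.1 ≤ P.t'}.indicator (fun θ =>
          ENNReal.ofReal (1 + ‖θ.2.2.2‖) ^ 3 * chi θ.1.1.1.2.1) θ := by
    intro θ
    rw [h1]
    by_cases hθ : θ ∈ {θ : Lab × LSt | θ.2.1 ≤ P.t'}
    · rw [indicator_of_mem hθ, indicator_of_mem hθ]
      ring
    · rw [indicator_of_notMem hθ, indicator_of_notMem hθ, mul_zero, mul_zero]
  have hm : Measurable fun θ : Lab × LSt =>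
      ENNReal.ofReal (1 + ‖θ.2.2.2‖) ^ 3 * chi θ.1.1.1.2.1 :=
    (hgm.comp (by fun_prop)).mul (measurable_chi.comp (by fun_prop))
  rw [lintegral_congr h6, lintegral_const_mul _ (hm.indicator hset1)]
  refine mul_le_mul_right ?_ _
  exact PX_le_rhsG h hgm hgW (F := fun q => chi q.1.1.2.1) (measurable_chi.comp (by fun_prop))

/-! ## Births of the second line close to the gas -/

/-- The second line is born before `T`, within `δ (1 + |v|)` of a gas particle (path in the gas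
alone). -/
def NearB (Φ : Space3 → ℝ) (ε T δ : ℝ) {n : ℕ} (w : Config n) (θ : Lab × LSt) : Prop :=
  (eL θ).1.1 ≤ T ∧ ∃ i : Fin n,
    dist (eL θ).1.2.1 (flow Φ ε (eL θ).1.1 w i).1 ≤ δ * (1 + ‖(eL θ).1.2.2‖)

theorem NearB.mono {T T' δ δ' : ℝ} {n : ℕ} {w : Config n} {θ : Lab × LSt}
    (h : NearB Φ ε T δ w θ) (hT : T ≤ T') (hδ : δ ≤ δ') : NearB Φ ε T' δ' w θ := by
  obtain ⟨h1, i, h2⟩ := h
  refine ⟨h1.trans hT, i, h2.trans ?_⟩
  exact mul_le_mul_of_nonneg_right hδ (by positivity)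

/-- **One gas.** -/
theorem nearB_world (hΦ : AdmissiblePotential Φ) (hε : 0 < ε) (h : PX P Ξ ν c) {Cg : ℝ≥0∞}
    (hgW : ∀ z : LSt, z.1 ≤ P.t' → ∀ u : Space3, ‖u‖ < 1 →
      ENNReal.ofReal (1 + ‖z.2.2 + u‖) ^ 3 ≤ Cg * P.W z) {n : ℕ} (w : Config n)
    {δ : ℝ} (hδ : 0 ≤ δ) :
    ∫⁻ θ, (if NearB Φ ε P.t' δ w θ then 1 else 0) ∂ν ≤
      ((ENNReal.ofReal δ ^ 3 * Sweep815.c3) *
        (Cg * (v1 * (c * P.rhs (fun q => chi q.1.1.2.1))))) * n := by
  have hcont : Continuous fun s => flow Φ ε s w := flow_continuous_time hΦ hε w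
  have hZ : ∀ i : Fin n, Measurable fun s : ℝ => (flow Φ ε s w i).1 := fun i =>
    (((continuous_apply i).comp hcont).fst).measurable
  have hS := fun i : Fin n => measurableSet_bS (P := P) (hZ i) δ
  calc ∫⁻ θ, (if NearB Φ ε P.t' δ w θ then 1 else 0) ∂ν
      ≤ ∫⁻ θ, ∑ i : Fin n, (bS P (fun s => (flow Φ ε s w i).1) δ).indicator 1 θ ∂ν := by
        refine lintegral_mono fun θ => ?_
        by_cases hc : NearB Φ ε P.t' δ w θ
        · obtain ⟨h1, i, h2⟩ := hc
          have h3 : θ ∈ bS P (fun s => (flow Φ ε s w i).1) δ := ⟨h1, h2⟩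
          rw [if_pos ⟨h1, i, h2⟩]
          refine le_trans ?_ (Finset.single_le_sum (f := fun i : Fin n =>
            (bS P (fun s => (flow Φ ε s w i).1) δ).indicator (1 : Lab × LSt → ℝ≥0∞) θ)
            (fun _ _ => bot_le) (Finset.mem_univ i))
          simp only
          rw [indicator_of_mem h3]
          exact le_rfl
        · rw [if_neg hc]
          exact bot_le
    _ = ∑ i : Fin n, ν (bS P (fun s => (flow Φ ε s w i).1) δ) := by
        rw [lintegral_finsetSum _ fun i _ => measurable_one.indicator (hS i)]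
        exact Finset.sum_congr rfl fun i _ => lintegral_indicator_one (hS i)
    _ ≤ ∑ _i : Fin n, (ENNReal.ofReal δ ^ 3 * Sweep815.c3) *
          (Cg * (v1 * (c * P.rhs (fun q => chi q.1.1.2.1)))) :=
        Finset.sum_le_sum fun i _ => PX_ball_le h hgW (hZ i) hδ
    _ = _ := by
        rw [Finset.sum_const, Finset.card_univ, Fintype.card_fin, nsmul_eq_mul, mul_comm]

/-- mass of the unit cube -/
theorem rhs_chi_le {γ : ℝ → ℝ} {ρ : ℝ≥0∞} {T γ₀ : ℝ} (hγ : Measurable γ)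
    (hγ₀ : ∀ τ ∈ Ioc 0 T, γ₀ ≤ γ τ) (hℓ : P.ℓ = lineM γ ρ K T) (hPT : P.t' = T) :
    P.rhs (fun q => chi q.1.1.2.1) ≤
      (1 + ENNReal.ofReal T) * (ENNReal.ofReal T * (rhoS ρ * gI γ₀)) := by
  have hm : Measurable fun l : ML => chi l.1.2.1 := measurable_chi.comp (by fun_prop)
  have h1 : ∫⁻ l : ML, chi l.1.2.1 ∂lineM γ ρ K T ≤ ENNReal.ofReal T * (rhoS ρ * gI γ₀) := by
    rw [lintegral_lineM hγ hm]
    calc ∫⁻ τ in Ioc (0 : ℝ) T, ∫⁻ v : Space3, Kin796.wG (γ τ) v *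
          ∫⁻ y : Space3, ∑' n : ℕ, markW ρ K n * chi y
        ≤ ∫⁻ _τ in Ioc (0 : ℝ) T, rhoS ρ * gI γ₀ := by
          refine setLIntegral_mono' measurableSet_Ioc fun τ hτ => ?_
          have h2 : ∫⁻ y : Space3, ∑' n : ℕ, markW ρ K n * chi y = ∑' n : ℕ, markW ρ K n := by
            calc ∫⁻ y : Space3, ∑' n : ℕ, markW ρ K n * chi y
                = ∫⁻ y : Space3, (∑' n : ℕ, markW ρ K n) * chi y :=
                  lintegral_congr fun y => ENNReal.tsum_mul_right
              _ = (∑' n : ℕ, markW ρ K n) * ∫⁻ y : Space3, chi y :=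
                  lintegral_const_mul _ measurable_chi
              _ = _ := by rw [lintegral_chi, mul_one]
          simp only [h2]
          rw [lintegral_mul_const _ (Kin796.meas_wG _), mul_comm]
          refine mul_le_mul' (tsum_markW_le_rhoS _ _) ?_
          refine le_trans ?_ (gI_anti (hγ₀ τ hτ))
          unfold gI
          exact lintegral_mono fun v => le_mul_of_one_le_right' le_self_add
      _ = _ := by
          rw [setLIntegral_const, Real.volume_Ioc, sub_zero, mul_comm]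
  unfold PPar.rhs
  rw [hℓ, hPT]
  have h3 : ∀ l : ML, ∫⁻ _s in Icc 0 T, chi l.1.2.1 = ENNReal.ofReal T * chi l.1.2.1 := by
    intro l
    rw [setLIntegral_const, Real.volume_Icc, sub_zero, mul_comm]
  calc ∫⁻ l : ML, chi l.1.2.1 ∂lineM γ ρ K T +
        ∫⁻ l : ML, (∫⁻ _s in Icc 0 T, chi l.1.2.1) ∂lineM γ ρ K T
      = (1 + ENNReal.ofReal T) * ∫⁻ l : ML, chi l.1.2.1 ∂lineM γ ρ K T := by
        simp only [h3]
        rw [lintegral_const_mul _ hm, add_mul, one_mul]
    _ ≤ _ := mul_le_mul_right h1 _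

/-! ## The gas average -/

/-- Constant of the birth estimate. -/
def cBirth (ρ : ℝ≥0∞) (T γ₀ : ℝ) (Cg : ℝ≥0∞) : ℝ≥0∞ :=
  Sweep815.c3 * (Cg * (v1 * ((1 + ENNReal.ofReal T) * (ENNReal.ofReal T * (rhoS ρ * gI γ₀)))))

theorem cBirth_ne_top {ρ : ℝ≥0∞} (hρ : ρ < 1) {T γ₀ : ℝ} (hγ₀ : 0 < γ₀) {Cg : ℝ≥0∞}
    (hC : Cg ≠ ∞) : cBirth ρ T γ₀ Cg ≠ ∞ := by
  unfold cBirth
  refine ENNReal.mul_ne_top c3_ne_top (ENNReal.mul_ne_top hC (ENNReal.mul_ne_top v1_ne_top
    (ENNReal.mul_ne_top (ENNReal.add_ne_top.2 ⟨ENNReal.one_ne_top, ENNReal.ofReal_ne_top⟩)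
      (ENNReal.mul_ne_top ENNReal.ofReal_ne_top
        (ENNReal.mul_ne_top (rhoS_lt_top hρ).ne (gI_lt_top hγ₀).ne)))))

/-- Velocity weight of the class: from the fourth moment. -/
theorem vel3_of_vel4 {P : PPar} {T : ℝ} {Cv : ℝ≥0∞}
    (h : ∀ z : LSt, z.1 ≤ T → ENNReal.ofReal ((1 + ‖z.2.2‖) ^ 4) ≤ Cv * P.W z) :
    ∀ z : LSt, z.1 ≤ T → ∀ u : Space3, ‖u‖ < 1 →
      ENNReal.ofReal (1 + ‖z.2.2 + u‖) ^ 3 ≤ 8 * Cv * P.W z := by
  intro z hz u hu
  have h0 := norm_nonneg z.2.2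
  have h1 : ‖z.2.2 + u‖ ≤ ‖z.2.2‖ + 1 := (norm_add_le _ _).trans (by linarith)
  calc ENNReal.ofReal (1 + ‖z.2.2 + u‖) ^ 3
      = ENNReal.ofReal ((1 + ‖z.2.2 + u‖) ^ 3) := by
        rw [ENNReal.ofReal_pow (by positivity)]
    _ ≤ ENNReal.ofReal (8 * (1 + ‖z.2.2‖) ^ 4) := by
        refine ENNReal.ofReal_le_ofReal ?_
        calc (1 + ‖z.2.2 + u‖) ^ 3 ≤ (2 * (1 + ‖z.2.2‖)) ^ 3 := by
              gcongr
              linarith
          _ = 8 * ((1 + ‖z.2.2‖) ^ 3 * 1) := by ring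
          _ ≤ 8 * ((1 + ‖z.2.2‖) ^ 3 * (1 + ‖z.2.2‖)) := by
              gcongr
              linarith
          _ = _ := by ring
    _ = 8 * ENNReal.ofReal ((1 + ‖z.2.2‖) ^ 4) := by
        rw [ENNReal.ofReal_mul (by norm_num)]
        norm_num
    _ ≤ 8 * (Cv * P.W z) := mul_le_mul_right (h z hz) _
    _ = _ := by rw [mul_assoc]

/-- **Births of the second line close to the gas**: mass `O(activity · δ³)`, uniformly over the pair
laws of the class. -/
theorem nearB_gas (hΦ : AdmissiblePotential Φ) (hf : Measurable f₀)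
    (h1 : ∫⁻ z, ENNReal.ofReal (f₀ z) ≤ 1) (hε : 0 < ε) {Q : EPar} {γ₀ : ℝ}
    (hγ : Measurable Q.γ) (hγ₀ : ∀ τ ∈ Ioc 0 Q.te, γ₀ ≤ Q.γ τ)
    (hℓ : P.ℓ = lineM Q.γ Q.ρ K Q.te) (hPT : P.t' = Q.te) {Cg : ℝ≥0∞}
    (hgW : ∀ z : LSt, z.1 ≤ P.t' → ∀ u : Space3, ‖u‖ < 1 →
      ENNReal.ofReal (1 + ‖z.2.2 + u‖) ^ 3 ≤ Cg * P.W z)
    (h : PX P Ξ ν c) {δ : ℝ} (hδ : 0 ≤ δ) :
    gcE f₀ ε (fun _ w => ∫⁻ θ, (if NearB Φ ε Q.te δ w θ then 1 else 0) ∂ν) ≤
      c * (cBirth Q.ρ Q.te γ₀ Cg * (activity ε * ENNReal.ofReal δ ^ 3)) := by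
  have hr := rhs_chi_le (P := P) hγ hγ₀ hℓ hPT
  have hpt : ∀ (n : ℕ) (w : Config n), ∫⁻ θ, (if NearB Φ ε Q.te δ w θ then 1 else 0) ∂ν ≤
      (c * (cBirth Q.ρ Q.te γ₀ Cg * ENNReal.ofReal δ ^ 3)) * n := by
    intro n w
    rw [← hPT]
    refine (nearB_world hΦ hε h hgW w hδ).trans (mul_le_mul_left ?_ _)
    calc (ENNReal.ofReal δ ^ 3 * Sweep815.c3) *
          (Cg * (v1 * (c * P.rhs (fun q => chi q.1.1.2.1))))
        ≤ (ENNReal.ofReal δ ^ 3 * Sweep815.c3) *
          (Cg * (v1 * (c * ((1 + ENNReal.ofReal Q.te) *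
            (ENNReal.ofReal Q.te * (rhoS Q.ρ * gI γ₀)))))) := by gcongr
      _ = _ := by
          rw [hPT]
          unfold cBirth
          ring
  -- reduction to the mean number of particles
  rcases eq_or_ne (c * (cBirth Q.ρ Q.te γ₀ Cg * ENNReal.ofReal δ ^ 3)) ∞ with htop | htop
  · rcases eq_or_ne (ENNReal.ofReal δ) 0 with h0 | h0
    · rw [h0] at htop
      simp at htop
    · have h2 : c * (cBirth Q.ρ Q.te γ₀ Cg * (activity ε * ENNReal.ofReal δ ^ 3)) = ∞ := by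
        calc c * (cBirth Q.ρ Q.te γ₀ Cg * (activity ε * ENNReal.ofReal δ ^ 3))
            = activity ε * (c * (cBirth Q.ρ Q.te γ₀ Cg * ENNReal.ofReal δ ^ 3)) := by ring
          _ = ∞ := by
              rw [htop]
              exact ENNReal.mul_top (activity_ne_zero hε)
      rw [h2]
      exact le_top
  · calc gcE f₀ ε (fun _ w => ∫⁻ θ, (if NearB Φ ε Q.te δ w θ then 1 else 0) ∂ν)
        ≤ gcE f₀ ε (fun n (_ : Config n) =>
            (c * (cBirth Q.ρ Q.te γ₀ Cg * ENNReal.ofReal δ ^ 3)) * (n : ℝ≥0∞)) :=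
          gcE_mono f₀ ε fun n w _ => hpt n w
      _ = (c * (cBirth Q.ρ Q.te γ₀ Cg * ENNReal.ofReal δ ^ 3)) *
            gcE f₀ ε (fun n (_ : Config n) => (n : ℝ≥0∞)) := gcE_const_mul f₀ ε htop _
      _ ≤ (c * (cBirth Q.ρ Q.te γ₀ Cg * ENNReal.ofReal δ ^ 3)) * activity ε :=
          mul_le_mul_right (gcE_card_le hf h1 ε) _
      _ = _ := by ring

/-- **`NullFacts.bad`, births**: null, uniformly over the pair laws of the class, for every radius
`a ε (1 + |v|)`. -/
theorem birth_null (hΦ : AdmissiblePotential Φ) (hf : Measurable f₀)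
    (h1 : ∫⁻ z, ENNReal.ofReal (f₀ z) ≤ 1) {Q : EPar} {PP : ℕ → PPar} (hPP : PPOk Q PP)
    {γ₀ : ℝ} (hγp : 0 < γ₀) (hγ : Measurable Q.γ) (hγ₀ : ∀ τ ∈ Ioc 0 Q.te, γ₀ ≤ Q.γ τ)
    (hρ : Q.ρ < 1) {a : ℝ} (ha : 0 ≤ a) :
    ∃ δ : ℕ → ℝ → ℝ≥0∞, Null δ ∧ ∀ (K : ℕ) (ε : ℝ), 0 < ε →
      ∀ (Ξ ν : Measure (Lab × LSt)) (c : ℝ≥0∞), PX (PP K) Ξ ν c →
      gcE f₀ ε (fun _ w => ∫⁻ θ, (if NearB Φ ε Q.te (a * ε) w θ then 1 else 0) ∂ν) ≤
        c * δ K ε := by
  obtain ⟨Cv, hCv, hv⟩ := hPP.vel4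
  set C := cBirth Q.ρ Q.te γ₀ (8 * Cv) * ENNReal.ofReal a ^ 3 with hC
  have hCt : C ≠ ∞ := ENNReal.mul_ne_top
    (cBirth_ne_top hρ hγp (ENNReal.mul_ne_top (by norm_num) hCv))
    (ENNReal.pow_ne_top ENNReal.ofReal_ne_top)
  refine ⟨fun _ ε => C * ENNReal.ofReal ε, ?_, ?_⟩
  · refine Null.of_tendsto ?_
    have h2 : Tendsto (fun ε : ℝ => ENNReal.ofReal ε) (𝓝[>] 0) (𝓝 0) := by
      have := (ENNReal.continuous_ofReal.tendsto 0).mono_left
        (nhdsWithin_le_nhds : (𝓝[>] (0 : ℝ)) ≤ 𝓝 0)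
      rwa [ENNReal.ofReal_zero] at this
    have h3 := ENNReal.Tendsto.const_mul h2 (Or.inr hCt)
    rwa [mul_zero] at h3
  · intro K ε hε Ξ ν c h
    have hv' : ∀ z : LSt, z.1 ≤ (PP K).t' → ∀ u : Space3, ‖u‖ < 1 →
        ENNReal.ofReal (1 + ‖z.2.2 + u‖) ^ 3 ≤ 8 * Cv * (PP K).W z :=
      vel3_of_vel4 fun z hz => hv K z (by rwa [hPP.hor K] at hz)
    refine (nearB_gas hΦ hf h1 hε hγ hγ₀ (hPP.ell K) (hPP.hor K) hv' h
      (mul_nonneg ha hε.le)).trans (mul_le_mul_right (le_of_eq ?_) _)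
    rw [ENNReal.ofReal_mul ha, mul_pow, hC]
    calc cBirth Q.ρ Q.te γ₀ (8 * Cv) *
          (activity ε * (ENNReal.ofReal a ^ 3 * ENNReal.ofReal ε ^ 3))
        = (cBirth Q.ρ Q.te γ₀ (8 * Cv) * ENNReal.ofReal a ^ 3 * ENNReal.ofReal ε) *
          (activity ε * ENNReal.ofReal ε ^ 2) := by ring
      _ = _ := by rw [activity_mul_sq' hε, mul_one]

end

end Crest.Agent.R122.PairBirth664
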