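import Crest.Agent.R122.PairBadAsm_515
import Crest.Agent.R122.PairBirth_664

/-!
# Row 122, section E, inequality 3 (helper664): `NullFacts.bad` from the link fact

* `birthE_null` : the births of the second line in contact with the gas are null, for every family
  of pair laws of the class;
* `bad_null_px` : `NullFacts.bad` for every family of pair laws of the class, from `Null (LinkE)`.
-/

set_option autoImplicit false
set_option linter.unusedSectionVars false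

open MeasureTheory Set Filter Topology
open scoped ENNReal
open Crest.AnalysisR.Kinetic
open Crest.Agent.R122.GC311
open Crest.Agent.R122.Flow671 Crest.Agent.R122.EDefs602
open Crest.Agent.R122.PairD292 Crest.Agent.R122.PairBad515
open Crest.Agent.R122.Boost969 (LSt)
open Crest.Agent.R122.Pair292 (Lab PPar PX)

namespace Crest.Agent.R122.PairBirth664

noncomputable section

open scoped Classical

variable {Φ : Space3 → ℝ} {f₀ : PhasePoint → ℝ} {Q : EPar} {PP : ℕ → PPar}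
  {ν : ℕ → ℝ → Measure (Lab × LSt)} {c : ℕ → ℝ≥0∞}

theorem nearB_of_birth {ε T : ℝ} (hε : 0 < ε) {n : ℕ} {w : Config n} {θ : Lab × LSt}
    (hT : (eL θ).1.1 ≤ T) (h : Birth Φ ε w θ) : NearB Φ ε T (1 * ε) w θ := by
  obtain ⟨i, hi⟩ := h
  refine ⟨hT, i, hi.trans ?_⟩
  have := norm_nonneg (eL θ).1.2.2
  nlinarith

/-- **Births in contact with the gas are null.** -/
theorem birthE_null (hΦ : AdmissiblePotential Φ) (hf : Measurable f₀)
    (h1 : ∫⁻ z, ENNReal.ofReal (f₀ z) ≤ 1) (hPP : PPOk Q PP)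
    {γ₀ : ℝ} (hγp : 0 < γ₀) (hγ : Measurable Q.γ) (hγ₀ : ∀ τ ∈ Ioc 0 Q.te, γ₀ ≤ Q.γ τ)
    (hρ : Q.ρ < 1) (hc : ∀ K, c K ≠ ∞)
    (hν : ∀ (K : ℕ) (ε : ℝ), 0 < ε → ε ≤ 1 → ∃ Ξ, PX (PP K) Ξ (ν K ε) (c K)) :
    Null fun K ε => gcE f₀ ε fun _ w =>
      ∫⁻ θ, (if BirthE Φ ε K Q.te w θ then 1 else 0) ∂(ν K ε) := by
  obtain ⟨d, hd, hle⟩ := birth_null (a := 1) hΦ hf h1 hPP hγp hγ hγ₀ hρ zero_le_one
  intro K η hη
  -- `c K * d K ε` is null
  have hcr : 0 < (c K).toReal + 1 := by have := ENNReal.toReal_nonneg (a := c K); linarith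
  obtain ⟨ε₀, hε₀, hd'⟩ := hd K (η / ((c K).toReal + 1)) (by positivity)
  refine ⟨min ε₀ 1, lt_min hε₀ one_pos, fun ε hε hlt => ?_⟩
  obtain ⟨Ξ, hX⟩ := hν K ε hε (hlt.le.trans (min_le_right _ _))
  have h2 := hd' ε hε (hlt.trans_le (min_le_left _ _))
  calc gcE f₀ ε (fun _ w => ∫⁻ θ, (if BirthE Φ ε K Q.te w θ then 1 else 0) ∂(ν K ε))
      ≤ gcE f₀ ε (fun _ w => ∫⁻ θ, (if NearB Φ ε Q.te (1 * ε) w θ then 1 else 0) ∂(ν K ε)) := by
        refine gcE_mono f₀ ε fun n w _ => lintegral_mono fun θ => ?_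
        by_cases hb : BirthE Φ ε K Q.te w θ
        · rw [if_pos hb, if_pos (nearB_of_birth hε hb.2.2.1 hb.2.2.2)]
        · rw [if_neg hb]
          exact bot_le
    _ ≤ c K * d K ε := hle K ε hε Ξ (ν K ε) (c K) hX
    _ ≤ ENNReal.ofReal ((c K).toReal + 1) * ENNReal.ofReal (η / ((c K).toReal + 1)) := by
        refine mul_le_mul' ?_ h2
        calc c K = ENNReal.ofReal (c K).toReal := (ENNReal.ofReal_toReal (hc K)).symm
          _ ≤ _ := ENNReal.ofReal_le_ofReal (by linarith)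
    _ = ENNReal.ofReal η := by
        rw [← ENNReal.ofReal_mul hcr.le, mul_div_cancel₀ _ hcr.ne']

/-- **`NullFacts.bad`** for every family of pair laws of the class, from the link fact. -/
theorem bad_null_px (hΦ : AdmissiblePotential Φ) (hf : Measurable f₀)
    (h1 : ∫⁻ z, ENNReal.ofReal (f₀ z) ≤ 1) (hPP : PPOk Q PP)
    {γ₀ : ℝ} (hγp : 0 < γ₀) (hγ : Measurable Q.γ) (hγ₀ : ∀ τ ∈ Ioc 0 Q.te, γ₀ ≤ Q.γ τ)
    (hρ : Q.ρ < 1) (hc : ∀ K, c K ≠ ∞)
    (hν : ∀ (K : ℕ) (ε : ℝ), 0 < ε → ε ≤ 1 → ∃ Ξ, PX (PP K) Ξ (ν K ε) (c K))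
    (hL : Null fun K ε => gcE f₀ ε fun _ w =>
      ∫⁻ θ, (if LinkE Φ ε K Q w θ then 1 else 0) ∂(ν K ε)) :
    Null fun K ε => BAD Φ f₀ ε K Q (ν K ε) := by
  have hB := birthE_null (Φ := Φ) hΦ hf h1 hPP hγp hγ hγ₀ hρ hc hν
  intro K δ hδ
  obtain ⟨ε₁, h1', hB⟩ := hB K (δ / 2) (by linarith)
  obtain ⟨ε₂, h2', hL⟩ := hL K (δ / 2) (by linarith)
  refine ⟨min (min ε₁ ε₂) 1, lt_min (lt_min h1' h2') one_pos, fun ε hε hlt => ?_⟩
  have hlt' : ε < min ε₁ ε₂ := hlt.trans_le (min_le_left _ _)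
  obtain ⟨Ξ, hX⟩ := hν K ε hε (hlt.le.trans (min_le_right _ _))
  have := hX.sfν
  refine (bad_le hΦ hf hε (ν K ε)).trans ?_
  refine (add_le_add (hB ε hε (hlt'.trans_le (min_le_left _ _)))
    (hL ε hε (hlt'.trans_le (min_le_right _ _)))).trans ?_
  rw [← ENNReal.ofReal_add (by linarith) (by linarith), add_halves]

end

end Crest.Agent.R122.PairBirth664
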