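import Crest.Agent.R122.LinkENull_581
import Crest.Agent.R122.PairBirth2_664

/-!
# Row 122, inequality 3, null facts of the pair laws (helper581): the reborn second line

* `birth_le_of_link` : a line which is linked before `te` is born before `te`.
* `LinkENB` : `LinkE` off the contacts at the birth of the second line; `linkE_split`.
* `linkE_null_of_nb` : `LinkE` is null for the pair laws of the class if `LinkENB` is null.
* `linkENB_gNull`, `linkENB_null` : the gateway for `LinkENB` over the continued shapes.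
-/

set_option autoImplicit false
set_option linter.unusedSectionVars false

open MeasureTheory Set Filter Topology
open scoped Classical ENNReal
open Crest.AnalysisR.Kinetic

noncomputable section

namespace Crest.Agent.R122.PairRep581

open Crest.Agent.R122.GC311 Crest.Agent.R122.Kin796 Crest.Agent.R122.Kin796.CTree
open Crest.Agent.R122.Tree674 Crest.Agent.R122.EDefs602 Crest.Agent.R122.Ins45
open Crest.Agent.R122.Inf879
open Crest.Agent.R122.Gate424 Crest.Agent.R122.Gate973 Crest.Agent.R122.LN2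
open Crest.Agent.R122.BH167 Crest.Agent.R122.MeasPair522
open Crest.Agent.R122.TouchFlux494 (Near)
open Crest.Agent.R122.Boost969 (LSt)
open Crest.Agent.R122.Pair292 hiding ML
open Crest.Agent.R122.PairD292
open Crest.Agent.R122.StrN998 (Th Ka itS)
open Crest.Agent.R122.PairBad515

/-- A line which is linked before `te` is born before `te`. -/
theorem birth_le_of_link {Φ : Space3 → ℝ} {ε te : ℝ} {K : ℕ} {ι κ₁ : Type} [Fintype ι]
    [Fintype κ₁] (hΦ : AdmissiblePotential Φ) (hε : 0 < ε) {Z : MW ι} {A : MW κ₁} {e : ML}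
    (h : ¬ MW.NoLink Φ ε K te Z A (MW.line e)) : e.1.1 ≤ te := by
  by_contra hlt
  push Not at hlt
  refine h fun s _ hs _ _ hl => ?_
  obtain ⟨u, hu, hl⟩ := hl
  have hue : u < e.1.1 := (hu.2.trans hs).trans_lt hlt
  have hno : ∀ k : ι, ¬ Z.Fut Φ ε (MW.line e) u k := fun k =>
    MW.not_fut_of_no_contact hΦ hε (fun r hr x k hc => by
      have h1 : e.1.1 ≤ r := hc.1
      exact absurd (h1.trans hr.2) (not_le.2 hue)) k
  rcases hl with ⟨k, -, hk⟩ | ⟨x, y, -, hy, hc⟩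
  · exact hno k hk.fut
  · rcases y with k | y
    · exact hno k (hy k rfl).fut
    · have h1 : e.1.1 ≤ u := hc.2.1
      exact absurd h1 (not_le.2 hue)

/-- `LinkE` off the contacts at the birth of the second line. -/
def LinkENB (Φ : Space3 → ℝ) (ε : ℝ) (K : ℕ) (Q : EPar) {n : ℕ} (w : Config n) (θ : Lab × LSt) :
    Prop := LinkE Φ ε K Q w θ ∧ (eL θ).1.1 ≤ Q.te ∧ ¬ Birth Φ ε w θ

theorem linkE_split {Φ : Space3 → ℝ} {ε : ℝ} {K : ℕ} {Q : EPar} (hΦ : AdmissiblePotential Φ)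
    (hε : 0 < ε) {n : ℕ} {w : Config n} {θ : Lab × LSt} (h : LinkE Φ ε K Q w θ) :
    BirthE Φ ε K Q.te w θ ∨ LinkENB Φ ε K Q w θ := by
  have hb := birth_le_of_link hΦ hε h.2.2.2
  by_cases hB : Birth Φ ε w θ
  · exact Or.inl ⟨h.1, h.2.1, hb, hB⟩
  · exact Or.inr ⟨h, hb, hB⟩

variable {Φ : Space3 → ℝ} {f₀ : PhasePoint → ℝ}

theorem linkE_le (hΦ : AdmissiblePotential Φ) (hf : Measurable f₀) {ε : ℝ} (hε : 0 < ε) {K : ℕ}
    {Q : EPar} (ν : Measure (Lab × LSt)) [SFinite ν] :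
    gcE f₀ ε (fun _ w => ∫⁻ θ, (if LinkE Φ ε K Q w θ then 1 else 0) ∂ν) ≤
      gcE f₀ ε (fun _ w => ∫⁻ θ, (if BirthE Φ ε K Q.te w θ then 1 else 0) ∂ν) +
      gcE f₀ ε (fun _ w => ∫⁻ θ, (if LinkENB Φ ε K Q w θ then 1 else 0) ∂ν) := by
  have hm : ∀ n, Measurable fun q : Config n × (Lab × LSt) =>
      if BirthE Φ ε K Q.te q.1 q.2 then (1 : ℝ≥0∞) else 0 := fun n =>
    Measurable.ite (measurableSet_birthE hΦ hε Q.te n) measurable_const measurable_const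
  rw [← gcE_add hf ε (fun n => (hm n).lintegral_prod_right')]
  refine gcE_mono f₀ ε fun n w _ => ?_
  have hmw : Measurable fun θ : Lab × LSt =>
      if BirthE Φ ε K Q.te w θ then (1 : ℝ≥0∞) else 0 := (hm n).comp measurable_prodMk_left
  rw [← lintegral_add_left (μ := ν) hmw]
  refine lintegral_mono fun θ => ?_
  by_cases h : LinkE Φ ε K Q w θ
  · rw [if_pos h]
    rcases linkE_split hΦ hε h with h1 | h1
    · rw [if_pos h1]
      exact le_self_add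
    · rw [if_pos h1]
      exact le_add_self
  · rw [if_neg h]
    exact bot_le

/-- **`LinkE` is null for the pair laws of the class** if `LinkENB` is. -/
theorem linkE_null_of_nb {Q : EPar} {PP : ℕ → PPar} {c : ℕ → ℝ≥0∞}
    {ν : ℕ → ℝ → Measure (Lab × LSt)} (hΦ : AdmissiblePotential Φ) (hf : Measurable f₀)
    (h1 : ∫⁻ z, ENNReal.ofReal (f₀ z) ≤ 1) (hPP : PPOk Q PP)
    {γ₀ : ℝ} (hγp : 0 < γ₀) (hγ : Measurable Q.γ) (hγ₀ : ∀ τ ∈ Ioc 0 Q.te, γ₀ ≤ Q.γ τ)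
    (hρ : Q.ρ < 1) (hc : ∀ K, c K ≠ ∞)
    (hν : ∀ (K : ℕ) (ε : ℝ), 0 < ε → ε ≤ 1 → ∃ Ξ, PX (PP K) Ξ (ν K ε) (c K))
    (hL : Null fun K ε => gcE f₀ ε fun _ w =>
      ∫⁻ θ, (if LinkENB Φ ε K Q w θ then 1 else 0) ∂(ν K ε)) :
    Null fun K ε => gcE f₀ ε fun _ w =>
      ∫⁻ θ, (if LinkE Φ ε K Q w θ then 1 else 0) ∂(ν K ε) := by
  have hB := PairBirth664.birthE_null (Φ := Φ) hΦ hf h1 hPP hγp hγ hγ₀ hρ hc hν
  intro K δ hδ
  obtain ⟨ε₁, h1', hB⟩ := hB K (δ / 2) (by linarith)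
  obtain ⟨ε₂, h2', hL⟩ := hL K (δ / 2) (by linarith)
  refine ⟨min (min ε₁ ε₂) 1, lt_min (lt_min h1' h2') one_pos, fun ε hε hlt => ?_⟩
  have hlt' : ε < min ε₁ ε₂ := hlt.trans_le (min_le_left _ _)
  obtain ⟨Ξ, hX⟩ := hν K ε hε (hlt.le.trans (min_le_right _ _))
  have := hX.sfν
  refine (linkE_le hΦ hf hε (ν K ε)).trans ?_
  refine (add_le_add (hB ε hε (hlt'.trans_le (min_le_left _ _)))
    (hL ε hε (hlt'.trans_le (min_le_right _ _)))).trans ?_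
  rw [← ENNReal.ofReal_add (by linarith) (by linarith), add_halves]

variable {γ β β' b₀ T te te' : ℝ} {ρ : Space3 → ℝ≥0∞} {q : ℕ → ℝ≥0∞} {S : Shp}

/-- **The link events, second line not reborn near the gas, over the law of the `j`-th continuation
of a shape.** -/
theorem linkENB_gNull (H : ItCtx Φ f₀ γ β β' b₀ T ρ q) (h : ShpOk γ β ρ S) {Q : EPar} {K : ℕ}
    (hte0 : 0 ≤ Q.te) (hte : Q.te ≤ T) (j : ℕ) {u t₁ : ℝ} {K' : ℕ}
    (hdet : ItDet f₀ S Φ b₀ Q.te q T j u t₁ K'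
      (fun ε _ x w => LinkENB Φ ε K Q w ((itS S Φ b₀ Q.te q j).th ε x))) :
    GNull f₀ (itS S Φ b₀ Q.te q j).mI (fun ε _ _ x w =>
      LinkENB Φ ε K Q w ((itS S Φ b₀ Q.te q j).th ε x)) :=
  gNull_of_itDet H h hte (R₂ := 1) j (fun _ _ _ _ hε hw hE =>
    TouchFlux494.near_of_T1 H.adm hε hte0 hw hE.1.1 hE.1.2.1 hE.1.2.2.1) hdet

/-- **The link events of all levels are null**, second line not reborn near the gas. -/
theorem linkENB_null {ι : ℕ → Type} [∀ K, Fintype (ι K)] {ν : ℕ → ℝ → Measure (Lab × LSt)}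
    {S : ∀ K, ι K → Shp} {Q : EPar} {q : ℕ → ℕ → ℝ≥0∞}
    (H : ∀ K, ItCtx Φ f₀ γ β β' b₀ T ρ (q K)) (hR : ∀ K, Rep (ν K) (S K))
    (hS : ∀ K s, ShpOk γ β ρ (S K s)) (hte0 : 0 ≤ Q.te) (hte : Q.te ≤ T) (j : ℕ) {u t₁ : ℝ}
    {K' : ℕ → ℕ}
    (hdet : ∀ K s, ItDet f₀ (S K s) Φ b₀ Q.te (q K) T j u t₁ (K' K)
      (fun ε _ x w => LinkENB Φ ε K Q w ((itS (S K s) Φ b₀ Q.te (q K) j).th ε x))) :
    Null fun K ε => gcE f₀ ε fun _ w =>
      ∫⁻ θ, (if LinkENB Φ ε K Q w θ then 1 else 0) ∂(bindN (ν K ε) (K3 Φ ε b₀ Q.te (q K)) j) := by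
  have hmf := (H 0).mf
  refine null_of_rep_E hmf (ι := ι)
    (ν := fun K ε => bindN (ν K ε) (K3 Φ ε b₀ Q.te (q K)) j)
    (S := fun K s => itS (S K s) Φ b₀ Q.te (q K) j)
    (fun K => StrN998.rep_itS_D (γ := fun _ => γ) (β := fun _ => β) (hR K) (hS K) (H K).adm
      (fun m => ENNReal.ne_top_of_tsum_ne_top (H K).hq m) j)
    (E := fun K ε _ w θ => LinkENB Φ ε K Q w θ) fun K s => ?_
  exact linkENB_gNull (H K) (hS K s) hte0 hte j (hdet K s)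

/-- **The link events of all levels are null** (class `PX`). -/
theorem linkE_null_all {ι : ℕ → Type} [∀ K, Fintype (ι K)] {ν : ℕ → ℝ → Measure (Lab × LSt)}
    {S : ∀ K, ι K → Shp} {Q : EPar} {q : ℕ → ℕ → ℝ≥0∞} {PP : ℕ → PPar} {c : ℕ → ℝ≥0∞}
    (H : ∀ K, ItCtx Φ f₀ γ β β' b₀ T ρ (q K)) (hR : ∀ K, Rep (ν K) (S K))
    (hS : ∀ K s, ShpOk γ β ρ (S K s)) (hte0 : 0 ≤ Q.te) (hte : Q.te ≤ T) (j : ℕ) {u t₁ : ℝ}
    {K' : ℕ → ℕ} (hPP : PPOk Q PP)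
    {γ₀ : ℝ} (hγp : 0 < γ₀) (hγ : Measurable Q.γ) (hγ₀ : ∀ τ ∈ Ioc 0 Q.te, γ₀ ≤ Q.γ τ)
    (hρ : Q.ρ < 1) (hc : ∀ K, c K ≠ ∞)
    (hν : ∀ (K : ℕ) (ε : ℝ), 0 < ε → ε ≤ 1 →
      ∃ Ξ, PX (PP K) Ξ (bindN (ν K ε) (K3 Φ ε b₀ Q.te (q K)) j) (c K))
    (hdet : ∀ K s, ItDet f₀ (S K s) Φ b₀ Q.te (q K) T j u t₁ (K' K)
      (fun ε _ x w => LinkENB Φ ε K Q w ((itS (S K s) Φ b₀ Q.te (q K) j).th ε x))) :
    Null fun K ε => gcE f₀ ε fun _ w =>
      ∫⁻ θ, (if LinkE Φ ε K Q w θ then 1 else 0) ∂(bindN (ν K ε) (K3 Φ ε b₀ Q.te (q K)) j) :=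
  linkE_null_of_nb (H 0).adm (H 0).mf (H 0).mass hPP hγp hγ hγ₀ hρ hc hν
    (linkENB_null H hR hS hte0 hte j hdet)

end Crest.Agent.R122.PairRep581

end
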