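import Crest.Agent.R122.LinkE_726
import Crest.Agent.R122.LinkENB_581

/-!
# Row 122, inequality 3, the links of the pair laws (helper726): the deterministic input

* `PairLv` : the structure of the `j`-th continuation of a shape is a pair structure (helper491).
* `ae_ok_e'` : the world `w + e` is good almost surely, over the law of a shape.
* `itDet_linkENB` : helper581's deterministic input for `LinkENB`, from the pair structure.
* `linkENB_gNull_of_lv` : the link events over the law of the `j`-th continuation are null.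
-/

set_option autoImplicit false
set_option linter.unusedSectionVars false

open MeasureTheory Set Filter Topology
open scoped Classical ENNReal
open Crest.AnalysisR.Kinetic

noncomputable section

namespace Crest.Agent.R122.LNSE726

open Crest.Agent.R122.GC311 Crest.Agent.R122.EDefs602
open Crest.Agent.R122.Gate424 Crest.Agent.R122.Gate973
open Crest.Agent.R122.BH167 Crest.Agent.R122.MeasPair522
open Crest.Agent.R122.Boost969 (LSt)
open Crest.Agent.R122.Pair292 (Lab)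
open Crest.Agent.R122.PairD292
open Crest.Agent.R122.StrN998 (Th Ka itS)
open Crest.Agent.R122.PairBad515
open Crest.Agent.R122.PairRep581

variable {Φ : Space3 → ℝ} {f₀ : PhasePoint → ℝ} {γ β β' b₀ T te c : ℝ} {ρ : Space3 → ℝ≥0∞}
  {q : ℕ → ℝ≥0∞} {S : Shp}

/-- The structure `x` of the `j`-th continuation of a shape is a pair structure, horizon `T`. -/
def PairLv (T c : ℝ) (S : Shp) (Φ : Space3 → ℝ) (b₀ te : ℝ) (q : ℕ → ℝ≥0∞) (ε : ℝ) (j : ℕ)
    (x : (itS S Φ b₀ te q j).Θ) : Prop :=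
  ∃ (R : ℝ → (itS S Φ b₀ te q j).κ → (itS S Φ b₀ te q j).κ → Prop)
    (cl : (itS S Φ b₀ te q j).κ → Finset (itS S Φ b₀ te q j).κ)
    (bD : (itS S Φ b₀ te q j).κ → ℝ) (a b : (itS S Φ b₀ te q j).κ),
    StrG491.Pair (VLMeas973.vsys Φ T ε ((itS S Φ b₀ te q j).b ε x)) c ((itS S Φ b₀ te q j).z ε x) R
      Finset.univ cl bD a b (dL ((itS S Φ b₀ te q j).th ε x)).1 (eL ((itS S Φ b₀ te q j).th ε x)).1

/-- The world `w + e` is good almost surely, over the law of a shape. -/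
theorem ae_ok_e' (hΦ : AdmissiblePotential Φ) {ε : ℝ} (hε : 0 < ε) {Θ : Type} [MeasurableSpace Θ]
    (m : Measure Θ) [SFinite m] {th : Θ → Lab × LSt} (hth : Measurable th) (K n : ℕ) :
    ∀ᵐ q : Θ × Config n ∂(m.prod (volume : Measure (Config n))),
      q.2 ∈ PairExcluded ε n → OkL K (th q.1) → ((MW.cfg q.2).ins (eL (th q.1))).Ok Φ ε := by
  have hm : MeasurableSet {q : Θ × Config n | q.2 ∈ PairExcluded ε n → OkL K (th q.1) →
      ((MW.cfg q.2).ins (eL (th q.1))).Ok Φ ε} := by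
    have h1 : MeasurableSet {q : Θ × Config n | ((MW.cfg q.2).ins (eL (th q.1))).Ok Φ ε} :=
      measurableSet_ok hΦ hε ((MeasE416.MeasW.cfg measurable_snd).ins
        (PairD292.measurable_eL.comp (hth.comp measurable_fst)))
    have h2 : MeasurableSet {q : Θ × Config n | q.2 ∈ PairExcluded ε n} :=
      measurable_snd (measurableSet_pairExcluded ε n)
    have h3 : MeasurableSet {q : Θ × Config n | OkL K (th q.1)} :=
      measurableSet_okL K (hth.comp measurable_fst)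
    have h4 : {q : Θ × Config n | q.2 ∈ PairExcluded ε n → OkL K (th q.1) →
      ((MW.cfg q.2).ins (eL (th q.1))).Ok Φ ε} = {q : Θ × Config n | q.2 ∈ PairExcluded ε n}ᶜ ∪
        ({q : Θ × Config n | OkL K (th q.1)}ᶜ ∪
          {q : Θ × Config n | ((MW.cfg q.2).ins (eL (th q.1))).Ok Φ ε}) := by
      ext q
      simp only [mem_ofPred_eq, mem_union, mem_compl_iff]
      tauto
    rw [h4]
    exact h2.compl.union (h3.compl.union h1)
  refine (Measure.ae_prod_iff_ae_ae hm).2 (Eventually.of_forall fun θ => ?_)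
  by_cases hL : OkL K (th θ)
  · filter_upwards [TransOk151.ae_ok_line (l := eL (th θ)) hΦ hε hL.e0 n] with w h hw _
    exact h hw
  · exact Eventually.of_forall fun w _ h => absurd h hL

/-- **The deterministic input for the links**, from the pair structure of the level `j`. -/
theorem itDet_linkENB (H : ItCtx Φ f₀ γ β β' b₀ T ρ q) (h : ShpOk γ β ρ S) {Q : EPar} {K : ℕ}
    (hc : 1 ≤ c) (hte : Q.te ≤ T) (j : ℕ)
    {Gd : ℝ → (itS S Φ b₀ Q.te q j).Θ → Prop}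
    (hGd : ∀ ε, 0 < ε → ∀ᵐ x ∂((itS S Φ b₀ Q.te q j).m ε), Gd ε x)
    (hlv : ∀ N : ℕ, ∀ R > 0, ∀ ς > 0, ∃ ε₁ : ℝ, 0 < ε₁ ∧ ∀ ε : ℝ, 0 < ε → ε < ε₁ →
      ∀ (n : ℕ) (w : Config n) x, Gd ε x → (eL ((itS S Φ b₀ Q.te q j).th ε x)).1.1 ≤ Q.te →
        ¬ BadLv S Φ b₀ Q.te q T c R ς ε N w j x → PairLv T c S Φ b₀ Q.te q ε j x) :
    ItDet f₀ S Φ b₀ Q.te q T j T T K
      (fun ε _ x w => LinkENB Φ ε K Q w ((itS S Φ b₀ Q.te q j).th ε x)) := by
  intro L
  obtain ⟨C₀, he⟩ := H.env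
  have hj := StrN998.ShpOk.iter (te := Q.te) (q := q) h H.adm he.meas H.γb H.ββ H.βb H.hq j
  set N : ℕ := (Fintype.card (itS S Φ b₀ Q.te q j).κ + 2 * K * (L + 2)) +
    (Fintype.card (itS S Φ b₀ Q.te q j).κ + 2 * K * (L + 2)) with hN
  refine ⟨fun _ _ _ _ _ _ _ => False,
    fun ε _ n x w => ¬ (Gd ε x ∧ (OkL K ((itS S Φ b₀ Q.te q j).th ε x) →
      ((MW.cfg w).ins (eL ((itS S Φ b₀ Q.te q j).th ε x))).Ok Φ ε)),
    N, c, c, 1, T + 1, N, N, Finset.univ, by linarith [H.T0], ?_, ?_, fun R hR ς hς => ?_⟩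
  · exact BadF.false f₀ _
  · refine gNull_of_ae H.mf (fun ε _ => hj.sf ε) fun ε hε _ n => ?_
    have := hj.sf ε
    have h1 := ae_ok_e' H.adm hε ((itS S Φ b₀ Q.te q j).m ε) (hj.mth ε hε) K n
    have h2 : ∀ᵐ q' : (itS S Φ b₀ Q.te q j).Θ × Config n ∂(((itS S Φ b₀ Q.te q j).m ε).prod
        (volume : Measure (Config n))), Gd ε q'.1 :=
      Measure.quasiMeasurePreserving_fst.ae (hGd ε hε)
    filter_upwards [h1, h2] with q' h1 h2 hw hcon
    exact hcon ⟨h2, h1 hw⟩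
  · obtain ⟨ε₁, hε₁, hlv⟩ := hlv N R hR ς hς
    refine ⟨min ε₁ (ς / (2 * R)), lt_min hε₁ (by positivity), fun ε hε hlt _ n x w hw hE => ?_⟩
    by_cases hg : Gd ε x ∧ (OkL K ((itS S Φ b₀ Q.te q j).th ε x) →
      ((MW.cfg w).ins (eL ((itS S Φ b₀ Q.te q j).th ε x))).Ok Φ ε)
    swap
    · exact Or.inr (Or.inr (Or.inr hg))
    by_cases hB : BadLv S Φ b₀ Q.te q T c R ς ε N w j x
    · exact Or.inr (Or.inl (Or.inl hB))
    obtain ⟨⟨hL, hW, hT1, hlk⟩, hb, hnb⟩ := hE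
    obtain ⟨R', cl, bD, a, b, hP⟩ := hlv ε hε (hlt.trans_le (min_le_left _ _)) n w x hg.1 hb hB
    have hρ : 2 * (R * ε) ≤ ς := by
      have h1 := (hlt.trans_le (min_le_right _ _)).le
      rw [le_div_iff₀ (by positivity)] at h1
      linarith
    have hN' : (eL ((itS S Φ b₀ Q.te q j).th ε x)).1.1 = bD b ∨
        (0 < (eL ((itS S Φ b₀ Q.te q j).th ε x)).1.1 ∧ ∀ i : Fin n, ε < dist
          (Flow671.flow Φ ε (eL ((itS S Φ b₀ Q.te q j).th ε x)).1.1 w i).1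
          (eL ((itS S Φ b₀ Q.te q j).th ε x)).1.2.1) := by
      refine Or.inr ⟨hL.e0, fun i => ?_⟩
      by_contra hcon
      push Not at hcon
      exact hnb ⟨i, by rw [dist_comm]; exact hcon⟩
    rcases alt_of_link H.adm hε H.T0 hte hc hρ le_rfl le_rfl (T₁ := T + 1) (by linarith)
      (K := K) (m := L) (N₁ := N) hN.ge hP hw (TransOk151.ok_cfg H.adm hε hw) hW.1 (hg.2 hL) hN' hlk
      with h1 | h1 | h1
    · exact Or.inl h1
    · exact absurd (Lv.top h1) hB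
    · exact Or.inr (Or.inr (Or.inl h1))

/-- **The links over the law of the `j`-th continuation of a shape are null**, from the pair
structure of the level `j`. -/
theorem linkENB_gNull_of_lv (H : ItCtx Φ f₀ γ β β' b₀ T ρ q) (h : ShpOk γ β ρ S) {Q : EPar} {K : ℕ}
    (hc : 1 ≤ c) (hte0 : 0 ≤ Q.te) (hte : Q.te ≤ T) (j : ℕ)
    {Gd : ℝ → (itS S Φ b₀ Q.te q j).Θ → Prop}
    (hGd : ∀ ε, 0 < ε → ∀ᵐ x ∂((itS S Φ b₀ Q.te q j).m ε), Gd ε x)
    (hlv : ∀ N : ℕ, ∀ R > 0, ∀ ς > 0, ∃ ε₁ : ℝ, 0 < ε₁ ∧ ∀ ε : ℝ, 0 < ε → ε < ε₁ →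
      ∀ (n : ℕ) (w : Config n) x, Gd ε x → (eL ((itS S Φ b₀ Q.te q j).th ε x)).1.1 ≤ Q.te →
        ¬ BadLv S Φ b₀ Q.te q T c R ς ε N w j x → PairLv T c S Φ b₀ Q.te q ε j x) :
    GNull f₀ (itS S Φ b₀ Q.te q j).mI (fun ε _ _ x w =>
      LinkENB Φ ε K Q w ((itS S Φ b₀ Q.te q j).th ε x)) :=
  linkENB_gNull H h hte0 hte j (itDet_linkENB H h hc hte j hGd hlv)

end Crest.Agent.R122.LNSE726

end
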