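import Crest.Agent.R122.PairWin_796
import Crest.Agent.R122.LinkEDet_726
import Crest.Agent.R122.I3Slots_837

/-!
# Row 122, inequality 3 (helper581): the links of the pair laws, for the real base, all windows

* `linkNB_famB` : `LinkENB` is null over the laws of the `j`-th continuations of the base shapes.
* `linkNB_win` : the same for the windows of the induction: field `linkN` of helper837's `I3Leaves`.
-/

set_option autoImplicit false
set_option linter.unusedSectionVars false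
set_option maxHeartbeats 400000

open MeasureTheory ProbabilityTheory Set Filter
open scoped ENNReal Classical Topology
open Crest.AnalysisR.Kinetic
open Crest.Agent.R122.GC311 Crest.Agent.R122.EDefs602 Crest.Agent.R122.LN2
open Crest.Agent.R122.Boost969 (LSt)
open Crest.Agent.R122.PairD292 Crest.Agent.R122.Top602
open Crest.Agent.R122.Mark307 (BPar)
open Crest.Agent.R122.Master566 (KData)
open Crest.Agent.R122.I3In566 (Adm3)
open Crest.Agent.R122.Gate424 Crest.Agent.R122.Gate973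
open Crest.Agent.R122.NuL735 (NPar nuL Ix famB)
open Crest.Agent.R122.CaseC658 (qK)
open Crest.Agent.R122.PairRep581
open Crest.Agent.R122.StrN998 (Th Ka itS)
open Crest.Agent.R122.NuC85 (nW)
open Crest.Agent.R122.OpxWin796

noncomputable section

namespace Crest.Agent.R122.LinkNWin581

variable {Φ : Space3 → ℝ} {f₀ : PhasePoint → ℝ} {γ' β β' b₀ T : ℝ} {ρd : Space3 → ℝ≥0∞}
  {q : ℕ → ℝ≥0∞}

/-- **The links of the pair laws are null**, real base, every level. -/
theorem linkNB_famB (H : ItCtx Φ f₀ γ' β β' b₀ T ρd q) (N : NPar) {K₁ : ℕ} (s : Ix N.m₀)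
    (h : ShpOk γ' β ρd (famB Φ K₁ N s)) {Q : EPar} {K : ℕ} (hNte : N.te < T) (hNT : T ≤ N.T')
    (hte0 : 0 ≤ Q.te) (hte : Q.te < T) (j : ℕ) :
    GNull f₀ (itS (famB Φ K₁ N s) Φ b₀ Q.te q j).mI (fun ε _ _ x w =>
      LinkENB Φ ε K Q w ((itS (famB Φ K₁ N s) Φ b₀ Q.te q j).th ε x)) := by
  refine LNSE726.linkENB_gNull_of_lv H h (c := 1) le_rfl hte0 hte.le j
    (Gd := fun ε x => BasePair45.Good0 Φ ε N.te N.T' s.1.1 (NuHit969.bas (famB Φ K₁ N s).Θ j x) ∧
      NuHit969.HitS (famB Φ K₁ N s) Φ b₀ Q.te q ε j x)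
    (fun ε hε => NuHit969.ae_itS h H.adm hε
      (BasePair45.ae_good0 H.adm hε N s.2.1.1 s.2.1.2) j) ?_
  intro M R hR ς hς
  have hm : max N.te Q.te < T := max_lt hNte hte
  refine ⟨min (ς / (2 * R)) ((T - max N.te Q.te) / (2 * R)), lt_min (by positivity)
    (div_pos (by linarith) (by positivity)), fun ε hε hlt n w x hG _ hB => ?_⟩
  have e1 : 2 * (R * ε) < ς := by
    have := (lt_div_iff₀ (by positivity : (0 : ℝ) < 2 * R)).1 (hlt.trans_le (min_le_left _ _))
    linarith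
  have e2 : max N.te Q.te + 2 * (R * ε) < T := by
    have := (lt_div_iff₀ (by positivity : (0 : ℝ) < 2 * R)).1 (hlt.trans_le (min_le_right _ _))
    linarith
  exact (Lv726.lv_all le_rfl H.adm hε e1.le (mul_pos hR hε).le
    (lt_of_le_of_lt (add_le_add_left (le_max_left _ _) _) e2)
    (lt_of_le_of_lt (add_le_add_left (le_max_right _ _) _) e2) hNT le_rfl j hG.1 hG.2 hB).pairLv

variable {f : ℝ → PhasePoint → ℝ} {γ : ℝ → ℝ} {ρ : ℝ≥0∞} {h₀ kap lam C g : ℝ} {B : BPar}

/-- **Field `linkN` of `I3Leaves`**, all windows. -/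
theorem linkNB_win (hD : KData Φ β T f₀ f) (hA : Adm3 Φ β T f γ ρ h₀ kap lam C g B)
    (hρ : ρ ≠ ∞) (Cf : ℝ) (m : ℕ) (L : ℝ) {tw te : ℝ} (htw : 0 ≤ tw) (hte : tw < te)
    (hth : te < tw + h₀) (j K : ℕ) (s : Ix (nW β Cf g ρ h₀ m tw te).m₀) :
    GNull f₀ (itS (famB Φ K (nW β Cf g ρ h₀ m tw te) s) Φ B.b₀ te (qK C lam K) j).mI
      (fun ε _ _ x w => LinkENB Φ ε K (epar γ ρ L tw te) w
        ((itS (famB Φ K (nW β Cf g ρ h₀ m tw te) s) Φ B.b₀ te (qK C lam K) j).th ε x)) := by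
  have hb0 := hA.b0
  have hbs : B.b₀ ≤ B.bs := hA.ok.b0s
  have h1 := hA.bs
  have h2 := hA.bg
  have hh := hA.h0
  have hβ := hD.beta_pos
  obtain ⟨ρd, C₀, he⟩ := exists_env (γ' := B.b₀) (γ := 2 * β) (by linarith) hD.gaussian
  have hT' : 0 < tw + h₀ := by linarith
  refine linkNB_famB (γ' := B.b₀) (β := B.b₀ / 2) (β' := B.b₀ / 4) (T := tw + h₀) (ρd := ρd)
    (Q := epar γ ρ L tw te)
    ⟨hD.adm, Gate973.classNull hD.adm hT', hD.contDiff.continuous.measurable, lintegral_le_one hD,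
      ⟨C₀, he⟩, hb0, le_rfl, by linarith, by linarith, by linarith, tsum_qK_ne_top C lam K,
      hT'.le⟩ (nW β Cf g ρ h₀ m tw te) s ?_ hth le_rfl (htw.trans hte.le) hth j
  refine NuL735.shpOk_base hD.adm K (nW β Cf g ρ h₀ m tw te) ?_ h2 ?_ ?_ hρ he.meas s
  · show B.b₀ ≤ 2 * β
    linarith
  · show B.b₀ / 2 < 2 * β
    linarith
  · show B.b₀ / 2 < g
    linarith

end Crest.Agent.R122.LinkNWin581

end
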