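import Crest.Agent.R122.LNGraft_410
import Crest.Agent.R122.LNExit_968
import Crest.Agent.R122.PWInst2_442

/-!
# Row 122, LN1 (helper491): structures built by successive encounters

`Str M c Z R π cl bD E` : the labels `π` form one connected part; `R` is a connecting family of virtual
contacts (helper968), `cl` the classes (helper442, finer than the part), `bD` the exit times, `E` the
exits which may be present in the derived worlds.

* `Str.of_cls` : one class (a tree, a single label).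
* `Str.join` : two structures meet at time `s`, the two partners never both present (the outgoing line
  `lineC` of the hit particle, or the lines before the encounter).
* `Str.graft` : two structures meet, outgoing lines `lineL'`, `lineC'`; classes merged.
* `Str.exit0`, `Str.last`, `Str.lab` : admissible labels for helper442's glued worlds.
-/

set_option autoImplicit false
set_option linter.unusedSectionVars false

open MeasureTheory Set Filter Topology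
open scoped NNReal ENNReal
open Crest.AnalysisR.Kinetic
open Crest.Agent.R122.Flow671 hiding rel
open Crest.Agent.R122.Loc45 Crest.Agent.R122.Ins45
open Crest.Agent.R122.VL581 Crest.Agent.R122.VL581.VSys Crest.Agent.R122.VLInst442
open Crest.Agent.R122.LNInst491 Crest.Agent.R122.LN304 Crest.Agent.R122.LNg410
open Crest.Agent.R122.Kin796 Crest.Agent.R122.Kin796.CTree Crest.Agent.R122.Tree674
open Crest.Agent.R122.PathFlow968 Crest.Agent.R122.TreeLines335 Crest.Agent.R122.EDefs602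
open Crest.Agent.R122.LNTree410 Crest.Agent.R122.PWGlue491 Crest.Agent.R122.Inf879
open Crest.Agent.R122.LNGraft410 Crest.Agent.R122.LNEv968 Crest.Agent.R122.PWInst442
open Crest.Agent.R122.OCout796 Crest.Agent.R122.Scat818
open scoped Classical

noncomputable section

namespace Crest.Agent.R122.StrG491

variable {J κ : Type} [Fintype J] {M : VSys J κ} {Z : J → PhasePoint}

/-- Real contacts inside the class `S`. -/
def RC (M : VSys J κ) (Z : J → PhasePoint) (S : Finset J) (r : ℝ) (i j : J) : Prop :=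
  i ∈ S ∧ j ∈ S ∧ i ≠ j ∧ r ∈ Icc 0 M.T ∧ M.bb i ≤ r ∧ M.bb j ≤ r ∧
    dist (M.st S r Z i).1 (M.st S r Z j).1 ≤ M.ε

/-- The class function of one class. -/
def clOf (S : Finset J) (j : J) : Finset J := if j ∈ S then S else ∅

theorem clOf_mem {S : Finset J} {j : J} (h : j ∈ S) : clOf S j = S := if_pos h

theorem clOf_not {S : Finset J} {j : J} (h : j ∉ S) : clOf S j = ∅ := if_neg h

theorem mem_clOf {S : Finset J} {j k : J} : k ∈ clOf S j ↔ j ∈ S ∧ k ∈ S := by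
  unfold clOf
  split_ifs with h
  · exact ⟨fun h' => ⟨h, h'⟩, fun h' => h'.2⟩
  · exact ⟨fun h' => absurd h' (Finset.notMem_empty k), fun h' => absurd h'.1 h⟩

theorem ok_empty {t : ℝ} : M.ok ∅ t Z := fun i hi => absurd hi (Finset.notMem_empty i)

/-- A structure. -/
structure Str (M : VSys J κ) (c : ℝ) (Z : J → PhasePoint) (R : ℝ → J → J → Prop) (π : Finset J)
    (cl : J → Finset J) (bD : J → ℝ) (E : Finset J) : Prop where
  /-- the connecting family -/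
  fam : Fam M c Z π R
  supp : ∀ r j k, R r j k → j ∈ π ∧ k ∈ π
  /-- the classes -/
  cov : Cover M Z cl
  sub : ∀ j, cl j ⊆ π
  mem : ∀ a ∈ E, a ∈ cl a
  cls : ∀ a ∈ E, Cls M Z (cl a) bD
  /-- contacts of two exits are contacts of their class, before both exits -/
  old : ∀ a ∈ E, ∀ b ∈ E, a ≠ b → Old cl bD R a b

variable {c : ℝ} {R R₁ R₂ : ℝ → J → J → Prop} {π π₁ π₂ S : Finset J} {cl cl₁ cl₂ : J → Finset J}
  {bD : J → ℝ} {E E₁ E₂ : Finset J} {y a : J} {s : ℝ}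

namespace Str

theorem mem_π (h : Str M c Z R π cl bD E) {x : J} (hx : x ∈ E) : x ∈ π :=
  h.sub x (h.mem x hx)

theorem mono (h : Str M c Z R π cl bD E) {E' : Finset J} (hE : E' ⊆ E) :
    Str M c Z R π cl bD E' where
  fam := h.fam
  supp := h.supp
  cov := h.cov
  sub := h.sub
  mem a ha := h.mem a (hE ha)
  cls a ha := h.cls a (hE ha)
  old a ha b hb := h.old a (hE ha) b (hE hb)

theorem congr (h : Str M c Z R π cl bD E) {bD' : J → ℝ} (hb : ∀ i ∈ π, bD' i = bD i) :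
    Str M c Z R π cl bD' E where
  fam := h.fam
  supp := h.supp
  cov := h.cov
  sub := h.sub
  mem := h.mem
  cls a ha := (h.cls a ha).congr fun i hi => hb i (h.sub a hi)
  old a ha b hb' hab r hr := by
    rw [hb a (h.mem_π ha)]
    exact h.old a ha b hb' hab r hr

theorem conn (h : Str M c Z R π cl bD E) : M.Conn c π Z :=
  conn_of_cut h.fam.conn fun i hi j hj hij hr => by
    obtain ⟨r, hr, hR⟩ := hr
    exact ⟨r, hr, h.fam.vct r hr i hi j hj hij hR⟩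

theorem bD_nonneg (h : Str M c Z R π cl bD E) {x : J} (hx : x ∈ E) : 0 ≤ bD x :=
  (h.cls x hx).bb_nonneg' (h.mem x hx)

theorem obs (h : Str M c Z R π cl bD E) {x : J} (hx : x ∈ E) : M.o ≠ some x :=
  h.cov.obs x x (h.mem x hx)

/-- Outside the part there is no class. -/
theorem cl_empty (h : Str M c Z R π cl bD E) {x : J} (hx : x ∉ π) : cl x = ∅ := by
  by_contra hne
  exact hx (h.sub x (h.cov.mem x (Finset.nonempty_of_ne_empty hne)))

/-- **One class.** -/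
theorem of_cls [Nonempty κ] (hC : 1 ≤ c) (hε : 0 < M.ε) (h : Cls M Z S bD) :
    Str M c Z (RC M Z S) S (clOf S) bD S where
  fam :=
    { conn := h.conn.mono fun i hi j hj hij hr => by
        obtain ⟨r, hr, hbi, hbj, hd⟩ := hr
        exact Or.inl ⟨r, hr, hi, hj, hij, hr, hbi, hbj, hd⟩
      symm := fun r j k hr => by
        obtain ⟨h1, h2, h3, h4, h5, h6, h7⟩ := hr
        exact ⟨h2, h1, h3.symm, h4, h6, h5, by rw [dist_comm]; exact h7⟩
      vct := fun r hr j hj k hk _ hR => by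
        obtain ⟨_, _, _, _, _, _, hd⟩ := hR
        exact vct_st hC hε subset_rfl subset_rfl hj hk (ok_anti hr.2 h.ok)
          (ok_anti hr.2 h.ok) (h.obs j hj) (h.obs k hk) hd }
  supp r j k hr := ⟨hr.1, hr.2.1⟩
  cov :=
    { mem := fun j hj => by
        obtain ⟨k, hk⟩ := hj
        rw [mem_clOf] at hk
        rw [mem_clOf]
        exact ⟨hk.1, hk.1⟩
      eq := fun j k hk => by
        rw [mem_clOf] at hk
        rw [clOf_mem hk.1, clOf_mem hk.2]
      obs := fun j k hk => h.obs k (mem_clOf.1 hk).2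
      ok := fun j => by
        by_cases hj : j ∈ S
        · rw [clOf_mem hj]
          exact h.ok
        · rw [clOf_not hj]
          exact ok_empty }
  sub j k hk := (mem_clOf.1 hk).2
  mem a ha := mem_clOf.2 ⟨ha, ha⟩
  cls a ha := by
    rw [clOf_mem ha]
    exact h
  old a ha b hb hab r hr := by
    refine ⟨mem_clOf.2 ⟨ha, hb⟩, ?_⟩
    by_contra hcon
    obtain ⟨_, _, _, h4, _, h6, h7⟩ := hr
    exact absurd (h.exit a ha r (not_le.1 hcon) h4.2 b hb hab.symm h6) (not_lt.2 h7)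

/-! #### Admissible labels -/

/-- An exit, handed over at a time `b` after its exit time. -/
theorem exit0 (h : Str M c Z R π cl bD E) {x : J} (hx : x ∈ E) {b : ℝ} (hb : bD x ≤ b)
    {z : PhasePoint} (hz : b ≤ M.T → onLine z b = M.st (cl x) b Z x) : Exit0 M Z cl x b z where
  mem := h.mem x hx
  bb_le := ((h.cls x hx).bb_le x (h.mem x hx)).trans hb
  hand := hz
  exit t ht htT k hk hkx hbk :=
    (h.cls x hx).exit x (h.mem x hx) t (hb.trans_lt ht) htT k hk hkx hbk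

theorem last (h : Str M c Z R π cl bD E) {x : J} (hx : x ∈ E) : Last M Z cl x (bD x) :=
  (h.cls x hx).last x (h.mem x hx)

theorem lab (h : Str M c Z R π cl bD E) {x : J} (hx : x ∈ E) {z : PhasePoint}
    (hz : bD x ≤ M.T → onLine z (bD x) = M.st (cl x) (bD x) Z x) : Lab M Z cl x (bD x) z :=
  Or.inr ⟨h.exit0 hx le_rfl hz, h.last hx⟩

theorem onLine_back (e : ℝ × PhasePoint) : onLine (back e) e.1 = e.2 := by
  unfold onLine back
  refine Prod.ext ?_ rfl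
  simp

/-- A marked line as admissible label. -/
theorem lab_line (h : Str M c Z R π cl bD E) {x : J} (hx : x ∈ E) {e : ℝ × PhasePoint}
    (hb : e.1 = bD x) (hz : e.1 ≤ M.T → M.st (cl x) e.1 Z x = e.2) :
    Lab M Z cl x e.1 (back e) := by
  rw [hb] at hz ⊢
  refine h.lab hx fun ht => ?_
  rw [hz ht, ← hb, onLine_back]

theorem exit0_line (h : Str M c Z R π cl bD E) {x : J} (hx : x ∈ E) {e : ℝ × PhasePoint}
    (hb : bD x ≤ e.1) (hz : e.1 ≤ M.T → M.st (cl x) e.1 Z x = e.2) :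
    Exit0 M Z cl x e.1 (back e) :=
  h.exit0 hx hb fun ht => by rw [hz ht, onLine_back]

/-- `Old` for later hand-over times. -/
theorem old_of_le (h : Str M c Z R π cl bD E) {x z : J} (hx : x ∈ E) (hz : z ∈ E) (hxz : x ≠ z)
    {β : J → ℝ} (hβ : bD x ≤ β x) : Old cl β R x z := fun r hr =>
  ⟨(h.old x hx z hz hxz r hr).1, (h.old x hx z hz hxz r hr).2.trans hβ⟩

/-- Gas labels. -/
theorem gas (h : Str M c Z R π cl bD E) {n : ℕ} {w : Config n} {f : Fin n ↪ J}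
    (hf : ∀ i, f i ∉ π) (ho : ∀ i, M.o ≠ some (f i)) (hb : ∀ i, M.b (f i) ≤ 0)
    (hz : ∀ i, Z (f i) = w i) (i : Fin n) :
    Lab M Z cl (f i) ((MW.cfg w).b i) ((MW.cfg w).z i) :=
  lab_cfg (fun i => h.cl_empty (hf i)) ho hb hz i

/-- After its exit time an exit flies freely. -/
theorem line (h : Str M c Z R π cl bD E) (hΦ : AdmissiblePotential M.Φ) (hε : 0 < M.ε) {x : J}
    (hx : x ∈ E) {u t : ℝ} (hu : bD x ≤ u) (hut : u ≤ t) (htT : t ≤ M.T) :
    M.st (cl x) t Z x = lineAt u (M.st (cl x) u Z x) t :=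
  (h.cls x hx).line hΦ hε (h.mem x hx) hu hut htT

end Str

/-! ### Two structures meet -/

/-- The connecting family after the encounter of `y` and `a` at time `s`. -/
def joinR (R₁ R₂ : ℝ → J → J → Prop) (y a : J) (s : ℝ) (r : ℝ) (j k : J) : Prop :=
  R₁ r j k ∨ R₂ r j k ∨ (r = s ∧ ((j = y ∧ k = a) ∨ (j = a ∧ k = y)))

/-- Two disjoint structures; the exits `y`, `a` are within distance `ε` at time `s`. -/
structure Meet (M : VSys J κ) (c : ℝ) (Z : J → PhasePoint) (R₁ R₂ : ℝ → J → J → Prop)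
    (π₁ π₂ : Finset J) (cl₁ cl₂ : J → Finset J) (bD : J → ℝ) (E₁ E₂ : Finset J) (y a : J)
    (s : ℝ) : Prop where
  s₁ : Str M c Z R₁ π₁ cl₁ bD E₁
  s₂ : Str M c Z R₂ π₂ cl₂ bD E₂
  dj : Disjoint π₁ π₂
  hy : y ∈ E₁
  ha : a ∈ E₂
  hs : s ∈ Icc 0 M.T
  ct : dist (M.st (cl₁ y) s Z y).1 (M.st (cl₂ a) s Z a).1 ≤ M.ε

/-- Separate classes. -/
def clSep (cl₁ cl₂ : J → Finset J) (j : J) : Finset J := cl₁ j ∪ cl₂ j

/-- Merged classes. -/
def clMrg (cl₁ cl₂ : J → Finset J) (y a : J) (j : J) : Finset J :=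
  if j ∈ cl₁ y ∪ cl₂ a then cl₁ y ∪ cl₂ a else cl₁ j ∪ cl₂ j

namespace Meet

variable (h : Meet M c Z R₁ R₂ π₁ π₂ cl₁ cl₂ bD E₁ E₂ y a s)
include h

theorem not₂ {x : J} (hx : x ∈ π₁) : x ∉ π₂ := fun h' => Finset.disjoint_left.1 h.dj hx h'

theorem not₁ {x : J} (hx : x ∈ π₂) : x ∉ π₁ := fun h' => Finset.disjoint_left.1 h.dj h' hx

theorem yπ : y ∈ π₁ := h.s₁.mem_π h.hy

theorem aπ : a ∈ π₂ := h.s₂.mem_π h.ha

theorem ne : y ≠ a := fun h' => h.not₂ h.yπ (h' ▸ h.aπ)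

theorem cl₁_of {x : J} (hx : x ∈ π₁) : clSep cl₁ cl₂ x = cl₁ x := by
  unfold clSep
  rw [h.s₂.cl_empty (h.not₂ hx), Finset.union_empty]

theorem cl₂_of {x : J} (hx : x ∈ π₂) : clSep cl₁ cl₂ x = cl₂ x := by
  unfold clSep
  rw [h.s₁.cl_empty (h.not₁ hx), Finset.empty_union]

theorem mem_clSep {x k : J} (hk : k ∈ clSep cl₁ cl₂ x) :
    (k ∈ cl₁ x ∧ x ∈ π₁ ∧ k ∈ π₁) ∨ (k ∈ cl₂ x ∧ x ∈ π₂ ∧ k ∈ π₂) := by
  rcases Finset.mem_union.1 hk with hk | hk
  · exact Or.inl ⟨hk, h.s₁.sub x (h.s₁.cov.mem x ⟨k, hk⟩), h.s₁.sub x hk⟩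
  · exact Or.inr ⟨hk, h.s₂.sub x (h.s₂.cov.mem x ⟨k, hk⟩), h.s₂.sub x hk⟩

/-- The connecting family of the union. -/
theorem fam [Nonempty κ] (hC : 1 ≤ c) (hε : 0 < M.ε) :
    Fam M c Z (π₁ ∪ π₂) (joinR R₁ R₂ y a s) where
  conn := by
    refine (h.s₁.fam.conn.mono fun i hi j hj hij hr => Or.inl ?_).union_of_edge
      (h.s₂.fam.conn.mono fun i hi j hj hij hr => Or.inl ?_) h.yπ h.aπ (Or.inl ?_)
    · obtain ⟨r, hr, h1⟩ := hr
      exact ⟨r, hr, Or.inl h1⟩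
    · obtain ⟨r, hr, h1⟩ := hr
      exact ⟨r, hr, Or.inr (Or.inl h1)⟩
    · exact ⟨s, h.hs, Or.inr (Or.inr ⟨rfl, Or.inl ⟨rfl, rfl⟩⟩)⟩
  symm r j k hr := by
    rcases hr with hr | hr | ⟨hr, hr' | hr'⟩
    · exact Or.inl (h.s₁.fam.symm r j k hr)
    · exact Or.inr (Or.inl (h.s₂.fam.symm r j k hr))
    · exact Or.inr (Or.inr ⟨hr, Or.inr ⟨hr'.2, hr'.1⟩⟩)
    · exact Or.inr (Or.inr ⟨hr, Or.inl ⟨hr'.2, hr'.1⟩⟩)
  vct r hr j _ k _ hjk hR := by
    have hya : M.VCt c (π₁ ∪ π₂) y a s Z :=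
      vct_st hC hε ((h.s₁.sub y).trans Finset.subset_union_left)
        ((h.s₂.sub a).trans Finset.subset_union_right) (h.s₁.mem y h.hy) (h.s₂.mem a h.ha)
        (ok_anti h.hs.2 (h.s₁.cov.ok y)) (ok_anti h.hs.2 (h.s₂.cov.ok a)) (h.s₁.obs h.hy)
        (h.s₂.obs h.ha) h.ct
    rcases hR with hR | hR | ⟨rfl, ⟨rfl, rfl⟩ | ⟨rfl, rfl⟩⟩
    · obtain ⟨h1, h2⟩ := h.s₁.supp r j k hR
      exact vct_mono Finset.subset_union_left (h.s₁.fam.vct r hr j h1 k h2 hjk hR)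
    · obtain ⟨h1, h2⟩ := h.s₂.supp r j k hR
      exact vct_mono Finset.subset_union_right (h.s₂.fam.vct r hr j h1 k h2 hjk hR)
    · exact hya
    · exact vct_symm hya

theorem supp (r : ℝ) (j k : J) (hR : joinR R₁ R₂ y a s r j k) : j ∈ π₁ ∪ π₂ ∧ k ∈ π₁ ∪ π₂ := by
  rcases hR with hR | hR | ⟨_, ⟨rfl, rfl⟩ | ⟨rfl, rfl⟩⟩
  · obtain ⟨h1, h2⟩ := h.s₁.supp r j k hR
    exact ⟨Finset.mem_union_left _ h1, Finset.mem_union_left _ h2⟩
  · obtain ⟨h1, h2⟩ := h.s₂.supp r j k hR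
    exact ⟨Finset.mem_union_right _ h1, Finset.mem_union_right _ h2⟩
  · exact ⟨Finset.mem_union_left _ h.yπ, Finset.mem_union_right _ h.aπ⟩
  · exact ⟨Finset.mem_union_right _ h.aπ, Finset.mem_union_left _ h.yπ⟩

theorem cov_sep : Cover M Z (clSep cl₁ cl₂) where
  mem j hj := by
    obtain ⟨k, hk⟩ := hj
    rcases h.mem_clSep hk with ⟨h1, _, _⟩ | ⟨h1, _, _⟩
    · exact Finset.mem_union_left _ (h.s₁.cov.mem j ⟨k, h1⟩)
    · exact Finset.mem_union_right _ (h.s₂.cov.mem j ⟨k, h1⟩)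
  eq j k hk := by
    rcases h.mem_clSep hk with ⟨h1, h2, h3⟩ | ⟨h1, h2, h3⟩
    · rw [h.cl₁_of h2, h.cl₁_of h3]
      exact h.s₁.cov.eq j k h1
    · rw [h.cl₂_of h2, h.cl₂_of h3]
      exact h.s₂.cov.eq j k h1
  obs j k hk := by
    rcases h.mem_clSep hk with ⟨h1, h2, h3⟩ | ⟨h1, h2, h3⟩
    · exact h.s₁.cov.obs j k h1
    · exact h.s₂.cov.obs j k h1
  ok j := by
    by_cases hj : j ∈ π₁
    · rw [h.cl₁_of hj]
      exact h.s₁.cov.ok j
    · unfold clSep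
      rw [h.s₁.cl_empty hj, Finset.empty_union]
      exact h.s₂.cov.ok j

/-- **Encounter, separate classes**: the two partners are never both present. -/
theorem join [Nonempty κ] (hC : 1 ≤ c) (hε : 0 < M.ε) (hE : E ⊆ E₁ ∪ E₂)
    (hne : ¬ (y ∈ E ∧ a ∈ E)) :
    Str M c Z (joinR R₁ R₂ y a s) (π₁ ∪ π₂) (clSep cl₁ cl₂) bD E where
  fam := h.fam hC hε
  supp := h.supp
  cov := h.cov_sep
  sub j := Finset.union_subset_union (h.s₁.sub j) (h.s₂.sub j)
  mem x hx := by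
    rcases Finset.mem_union.1 (hE hx) with h1 | h1
    · exact Finset.mem_union_left _ (h.s₁.mem x h1)
    · exact Finset.mem_union_right _ (h.s₂.mem x h1)
  cls x hx := by
    rcases Finset.mem_union.1 (hE hx) with h1 | h1
    · rw [h.cl₁_of (h.s₁.mem_π h1)]
      exact h.s₁.cls x h1
    · rw [h.cl₂_of (h.s₂.mem_π h1)]
      exact h.s₂.cls x h1
  old x hx z hz hxz r hr := by
    rcases hr with hr | hr | ⟨_, ⟨rfl, rfl⟩ | ⟨rfl, rfl⟩⟩
    · obtain ⟨h1, h2⟩ := h.s₁.supp r x z hr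
      have hx' : x ∈ E₁ := (Finset.mem_union.1 (hE hx)).resolve_right fun h' =>
        h.not₂ h1 (h.s₂.mem_π h')
      have hz' : z ∈ E₁ := (Finset.mem_union.1 (hE hz)).resolve_right fun h' =>
        h.not₂ h2 (h.s₂.mem_π h')
      have h3 := h.s₁.old x hx' z hz' hxz r hr
      exact ⟨Finset.mem_union_left _ h3.1, h3.2⟩
    · obtain ⟨h1, h2⟩ := h.s₂.supp r x z hr
      have hx' : x ∈ E₂ := (Finset.mem_union.1 (hE hx)).resolve_left fun h' =>
        h.not₁ h1 (h.s₁.mem_π h')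
      have hz' : z ∈ E₂ := (Finset.mem_union.1 (hE hz)).resolve_left fun h' =>
        h.not₁ h2 (h.s₁.mem_π h')
      have h3 := h.s₂.old x hx' z hz' hxz r hr
      exact ⟨Finset.mem_union_right _ h3.1, h3.2⟩
    · exact absurd ⟨hx, hz⟩ hne
    · exact absurd ⟨hz, hx⟩ hne

end Meet

/-! ### Encounter with outgoing lines -/

/-- Two disjoint structures; the exits `y`, `a` meet at time `s` after their exit times, entrance data
`q`, position `p` of `a`. -/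
structure Enc (M : VSys J κ) (c : ℝ) (Z : J → PhasePoint) (R₁ R₂ : ℝ → J → J → Prop)
    (π₁ π₂ : Finset J) (cl₁ cl₂ : J → Finset J) (bD : J → ℝ) (E₁ E₂ : Finset J) (y a : J)
    (s : ℝ) (p : Space3) (q : CD) : Prop where
  s₁ : Str M c Z R₁ π₁ cl₁ bD E₁
  s₂ : Str M c Z R₂ π₂ cl₂ bD E₂
  dj : Disjoint π₁ π₂
  hy : y ∈ E₁
  ha : a ∈ E₂
  lty : bD y < s
  lta : bD a < s
  cd : CDok q
  sy : M.st (cl₁ y) s Z y = (p + M.ε • entrancePoint (relB q).1 (relB q).2, q.1)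
  sa : M.st (cl₂ a) s Z a = (p, q.2.1)
  lt_T : s < M.T

namespace Enc

variable {p : Space3} {q : CD} {ℓ ς : ℝ}
variable (h : Enc M c Z R₁ R₂ π₁ π₂ cl₁ cl₂ bD E₁ E₂ y a s p q)
include h

theorem graftH : GraftH M Z (cl₁ y) (cl₂ a) bD y a s p q where
  cls₁ := h.s₁.cls y h.hy
  cls₂ := h.s₂.cls a h.ha
  disj := Finset.disjoint_of_subset_left (h.s₁.sub y)
    (Finset.disjoint_of_subset_right (h.s₂.sub a) h.dj)
  ha := h.s₁.mem y h.hy
  hc := h.s₂.mem a h.ha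
  lta := h.lty
  ltc := h.lta
  cd := h.cd
  state_a := h.sy
  state_c := h.sa
  lt_T := h.lt_T

theorem s_pos : 0 < s := h.graftH.s_pos

theorem meet (hε : 0 < M.ε) : Meet M c Z R₁ R₂ π₁ π₂ cl₁ cl₂ bD E₁ E₂ y a s where
  s₁ := h.s₁
  s₂ := h.s₂
  dj := h.dj
  hy := h.hy
  ha := h.ha
  hs := h.graftH.mem_s
  ct := (h.graftH.dist_s hε).le

theorem conn [Nonempty κ] (hC : 1 ≤ c) (hε : 0 < M.ε) : M.Conn c (π₁ ∪ π₂) Z := by
  have hm := h.meet hε
  exact conn_of_cut (hm.fam hC hε).conn fun i hi j hj hij hr => by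
    obtain ⟨r, hr, hR⟩ := hr
    exact ⟨r, hr, (hm.fam hC hε).vct r hr i hi j hj hij hR⟩

theorem sub : cl₁ y ∪ cl₂ a ⊆ π₁ ∪ π₂ := Finset.union_subset_union (h.s₁.sub y) (h.s₂.sub a)

theorem tl [Nonempty κ] (hC : 1 ≤ c) (hε : 0 < M.ε) (hT : TL M c ℓ ς (π₁ ∪ π₂) Z) :
    TL M c ℓ ς (cl₁ y ∪ cl₂ a) Z :=
  h.graftH.tl_of_sub hε hC (h.conn hC hε) hT h.sub

/-- The encounter ends. -/
theorem pass_of [Nonempty κ] (hC : 1 ≤ c) (hΦ : AdmissiblePotential M.Φ) (hε : 0 < M.ε)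
    (hT : TL M c ℓ ς (π₁ ∪ π₂) Z) (hℓς : 2 * ℓ ≤ ς) (hlT : s + 2 * ℓ < M.T) :
    CDpass M.Φ q ∧ outT M.Φ M.ε q ≤ 2 * ℓ :=
  h.graftH.pass_of hε hC (h.tl hC hε hT) hℓς hΦ hlT

omit h in
theorem grafted_of_ne {x : J} (hy : x ≠ y) (ha : x ≠ a) :
    grafted M.Φ M.ε bD y a s q x = bD x := if_neg fun h' => h'.elim hy ha

theorem bD_le_grafted (hε : 0 < M.ε) (hp : CDpass M.Φ q) (x : J) :
    bD x ≤ grafted M.Φ M.ε bD y a s q x := by
  unfold grafted
  split_ifs with hx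
  · have h1 := hp.outT_pos hε
    rcases hx with rfl | rfl
    · exact (h.lty.trans (lt_add_of_pos_right s h1)).le
    · exact (h.lta.trans (lt_add_of_pos_right s h1)).le
  · exact le_rfl

/-- The merged class. -/
theorem clMrg_mem {x : J} (hx : x ∈ cl₁ y ∪ cl₂ a) :
    clMrg cl₁ cl₂ y a x = cl₁ y ∪ cl₂ a := if_pos hx

theorem clMrg_not {x : J} (hx : x ∉ cl₁ y ∪ cl₂ a) :
    clMrg cl₁ cl₂ y a x = clSep cl₁ cl₂ x := if_neg hx

/-- Members of the merged class. -/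
theorem cases_mem {x : J} (hε : 0 < M.ε) (hx : x ∈ cl₁ y ∪ cl₂ a) :
    clSep cl₁ cl₂ x ⊆ cl₁ y ∪ cl₂ a ∧ x ∈ clSep cl₁ cl₂ x := by
  have hm := h.meet hε
  rcases Finset.mem_union.1 hx with h1 | h1
  · rw [hm.cl₁_of (h.s₁.sub y h1), h.s₁.cov.eq y x h1]
    exact ⟨Finset.subset_union_left, h1⟩
  · rw [hm.cl₂_of (h.s₂.sub a h1), h.s₂.cov.eq a x h1]
    exact ⟨Finset.subset_union_right, h1⟩

theorem not_mem_of {x k : J} (hε : 0 < M.ε) (hx : x ∉ cl₁ y ∪ cl₂ a)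
    (hk : k ∈ clSep cl₁ cl₂ x) : k ∉ cl₁ y ∪ cl₂ a := by
  intro h1
  have hm := h.meet hε
  have h2 := (h.cases_mem hε h1).1
  rw [hm.cov_sep.eq x k hk] at h2
  exact hx (h2 (hm.cov_sep.mem x ⟨k, hk⟩))

theorem cov_mrg (hε : 0 < M.ε) (hok : M.ok (cl₁ y ∪ cl₂ a) M.T Z) :
    Cover M Z (clMrg cl₁ cl₂ y a) where
  mem j hj := by
    by_cases hx : j ∈ cl₁ y ∪ cl₂ a
    · rw [h.clMrg_mem hx]
      exact hx
    · rw [h.clMrg_not hx] at hj ⊢
      exact (h.meet hε).cov_sep.mem j hj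
  eq j k hk := by
    by_cases hx : j ∈ cl₁ y ∪ cl₂ a
    · rw [h.clMrg_mem hx] at hk ⊢
      exact h.clMrg_mem hk
    · rw [h.clMrg_not hx] at hk ⊢
      rw [h.clMrg_not (h.not_mem_of hε hx hk)]
      exact (h.meet hε).cov_sep.eq j k hk
  obs j k hk := by
    by_cases hx : j ∈ cl₁ y ∪ cl₂ a
    · rw [h.clMrg_mem hx] at hk
      exact h.graftH.obs hk
    · rw [h.clMrg_not hx] at hk
      exact (h.meet hε).cov_sep.obs j k hk
  ok j := by
    by_cases hx : j ∈ cl₁ y ∪ cl₂ a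
    · rw [h.clMrg_mem hx]
      exact hok
    · rw [h.clMrg_not hx]
      exact (h.meet hε).cov_sep.ok j

variable [Nonempty κ] (hC : 1 ≤ c) (hΦ : AdmissiblePotential M.Φ) (hε : 0 < M.ε)
  (hT : TL M c ℓ ς (π₁ ∪ π₂) Z) (hℓς : 2 * ℓ ≤ ς) (hp : CDpass M.Φ q)
  (hle : s + outT M.Φ M.ε q ≤ M.T)
include hC hΦ hε hT hℓς hp hle

/-- **Encounter with outgoing lines**: the classes of the two partners are merged. -/
theorem graft : Str M c Z (joinR R₁ R₂ y a s) (π₁ ∪ π₂) (clMrg cl₁ cl₂ y a)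
    (grafted M.Φ M.ε bD y a s q) (E₁ ∪ E₂) := by
  have hm := h.meet hε
  have hcls := h.graftH.cls hε hC (h.tl hC hε hT) hℓς hΦ hp hle
  have hmem : ∀ x ∈ E₁ ∪ E₂, x ∈ clSep cl₁ cl₂ x := by
    intro x hx
    rcases Finset.mem_union.1 hx with h1 | h1
    · exact Finset.mem_union_left _ (h.s₁.mem x h1)
    · exact Finset.mem_union_right _ (h.s₂.mem x h1)
  have hsub : ∀ x, clSep cl₁ cl₂ x ⊆ clMrg cl₁ cl₂ y a x := by
    intro x
    by_cases hx : x ∈ cl₁ y ∪ cl₂ a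
    · rw [h.clMrg_mem hx]
      exact (h.cases_mem hε hx).1
    · rw [h.clMrg_not hx]
  refine ⟨hm.fam hC hε, hm.supp, h.cov_mrg hε hcls.ok, fun j => ?_, fun x hx =>
    hsub x (hmem x hx), fun x hx => ?_, fun x hx z hz hxz r hr => ?_⟩
  · by_cases hx : j ∈ cl₁ y ∪ cl₂ a
    · rw [h.clMrg_mem hx]
      exact h.sub
    · rw [h.clMrg_not hx]
      exact Finset.union_subset_union (h.s₁.sub j) (h.s₂.sub j)
  · by_cases hx' : x ∈ cl₁ y ∪ cl₂ a
    · rw [h.clMrg_mem hx']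
      exact hcls
    · rw [h.clMrg_not hx']
      have h1 : Cls M Z (clSep cl₁ cl₂ x) bD := by
        rcases Finset.mem_union.1 hx with h1 | h1
        · rw [hm.cl₁_of (h.s₁.mem_π h1)]
          exact h.s₁.cls x h1
        · rw [hm.cl₂_of (h.s₂.mem_π h1)]
          exact h.s₂.cls x h1
      refine h1.congr fun i hi => ?_
      have h2 := h.not_mem_of hε hx' hi
      refine grafted_of_ne (fun h3 => h2 ?_) fun h3 => h2 ?_
      · rw [h3]
        exact Finset.mem_union_left _ (h.s₁.mem y h.hy)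
      · rw [h3]
        exact Finset.mem_union_right _ (h.s₂.mem a h.ha)
  · rcases hr with hr | hr | ⟨hrs, hr' | hr'⟩
    · obtain ⟨h1, h2⟩ := h.s₁.supp r x z hr
      have hx' : x ∈ E₁ := (Finset.mem_union.1 hx).resolve_right fun h' =>
        hm.not₂ h1 (h.s₂.mem_π h')
      have hz' : z ∈ E₁ := (Finset.mem_union.1 hz).resolve_right fun h' =>
        hm.not₂ h2 (h.s₂.mem_π h')
      have h3 := h.s₁.old x hx' z hz' hxz r hr
      exact ⟨hsub x (Finset.mem_union_left _ h3.1), h3.2.trans (h.bD_le_grafted hε hp x)⟩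
    · obtain ⟨h1, h2⟩ := h.s₂.supp r x z hr
      have hx' : x ∈ E₂ := (Finset.mem_union.1 hx).resolve_left fun h' =>
        hm.not₁ h1 (h.s₁.mem_π h')
      have hz' : z ∈ E₂ := (Finset.mem_union.1 hz).resolve_left fun h' =>
        hm.not₁ h2 (h.s₁.mem_π h')
      have h3 := h.s₂.old x hx' z hz' hxz r hr
      exact ⟨hsub x (Finset.mem_union_right _ h3.1), h3.2.trans (h.bD_le_grafted hε hp x)⟩
    · obtain ⟨rfl, rfl⟩ := hr'
      rw [h.clMrg_mem (Finset.mem_union_left _ (h.s₁.mem x h.hy))]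
      refine ⟨Finset.mem_union_right _ (h.s₂.mem z h.ha), ?_⟩
      have h1 : grafted M.Φ M.ε bD x z s q x = s + outT M.Φ M.ε q := if_pos (Or.inl rfl)
      rw [h1, hrs]
      exact (lt_add_of_pos_right s (hp.outT_pos hε)).le
    · obtain ⟨rfl, rfl⟩ := hr'
      rw [h.clMrg_mem (Finset.mem_union_right _ (h.s₂.mem x h.ha))]
      refine ⟨Finset.mem_union_left _ (h.s₁.mem z h.hy), ?_⟩
      have h1 : grafted M.Φ M.ε bD z x s q x = s + outT M.Φ M.ε q := if_pos (Or.inr rfl)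
      rw [h1, hrs]
      exact (lt_add_of_pos_right s (hp.outT_pos hε)).le

omit hp hle in
/-- Paths of the merged classes, members of the first structure. -/
theorem st₁ {x : J} (hx : x ∈ π₁) (hxy : x ≠ y) {t : ℝ} (ht : t ≤ M.T) :
    M.st (clMrg cl₁ cl₂ y a x) t Z x = M.st (cl₁ x) t Z x := by
  have hm := h.meet hε
  by_cases hx' : x ∈ cl₁ y ∪ cl₂ a
  · rw [h.clMrg_mem hx']
    have h1 : x ∈ cl₁ y := (Finset.mem_union.1 hx').resolve_right fun h' =>
      hm.not₂ hx (h.s₂.sub a h')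
    rw [h.graftH.st₁ hε hC (h.tl hC hε hT) hℓς hΦ h1 hxy ht, h.s₁.cov.eq y x h1]
  · rw [h.clMrg_not hx', hm.cl₁_of hx]

omit hp hle in
/-- Paths of the merged classes, members of the second structure. -/
theorem st₂ {x : J} (hx : x ∈ π₂) (hxa : x ≠ a) {t : ℝ} (ht : t ≤ M.T) :
    M.st (clMrg cl₁ cl₂ y a x) t Z x = M.st (cl₂ x) t Z x := by
  have hm := h.meet hε
  by_cases hx' : x ∈ cl₁ y ∪ cl₂ a
  · rw [h.clMrg_mem hx']
    have h1 : x ∈ cl₂ a := (Finset.mem_union.1 hx').resolve_left fun h' =>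
      hm.not₁ hx (h.s₁.sub y h')
    rw [h.graftH.st₂ hε hC (h.tl hC hε hT) hℓς hΦ h1 hxa ht, h.s₂.cov.eq a x h1]
  · rw [h.clMrg_not hx', hm.cl₂_of hx]

/-- The outgoing line of `y`. -/
theorem line_y {t : ℝ} (ht : s + outT M.Φ M.ε q ≤ t) (htT : t ≤ M.T) :
    M.st (clMrg cl₁ cl₂ y a y) t Z y =
      lineAt (s + outT M.Φ M.ε q) (lineL' M.Φ M.ε s p q).2 t := by
  rw [h.clMrg_mem (Finset.mem_union_left _ (h.s₁.mem y h.hy))]
  exact h.graftH.line_a hε hC (h.tl hC hε hT) hℓς hΦ hp hle ht htT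

/-- The outgoing line of `a`. -/
theorem line_a {t : ℝ} (ht : s + outT M.Φ M.ε q ≤ t) (htT : t ≤ M.T) :
    M.st (clMrg cl₁ cl₂ y a a) t Z a =
      lineAt (s + outT M.Φ M.ε q) (lineC' M.Φ M.ε s p q).2 t := by
  rw [h.clMrg_mem (Finset.mem_union_right _ (h.s₂.mem a h.ha))]
  exact h.graftH.line_c hε hC (h.tl hC hε hT) hℓς hΦ hp hle ht htT

end Enc

end Crest.Agent.R122.StrG491

end
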