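import Crest.Agent.R122.LNEmb_410
import Crest.Agent.R122.StrG_491

/-!
# Row 122, LN1 (helper410): structures `Str` (helper491) along an embedding of labels

`Pull M' M e` (helper968).  `mapCl e cl` : image of the classes.  `str_map` : the image of a
structure; `st_mapCl` : its paths; `sumL`, `sumR` : the two halves of a sum of label types.
-/

set_option autoImplicit false
set_option linter.unusedSectionVars false

open MeasureTheory Set Filter Topology
open Crest.AnalysisR.Kinetic
open Crest.Agent.R122.VL581 Crest.Agent.R122.VL581.VSys Crest.Agent.R122.VLInst442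
open Crest.Agent.R122.LNInst491 Crest.Agent.R122.LN304 Crest.Agent.R122.LNg410
open Crest.Agent.R122.LNTree410 Crest.Agent.R122.LNGraft410 Crest.Agent.R122.LNBridge968
open Crest.Agent.R122.LNEv968 Crest.Agent.R122.StrG491 Crest.Agent.R122.PWInst442
open scoped Classical

noncomputable section

namespace Crest.Agent.R122.LNEmb410

variable {J J' κ : Type} [Fintype J] [Fintype J'] {M : VSys J κ} {M' : VSys J' κ} {e : J' ↪ J}
  {Z : J → PhasePoint} {c : ℝ}

/-- Image of the classes. -/
def mapCl (e : J' ↪ J) (cl : J' → Finset J') (j : J) : Finset J :=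
  if h : ∃ i, e i = j then (cl h.choose).map e else ∅

@[simp] theorem mapCl_apply (cl : J' → Finset J') (i : J') : mapCl e cl (e i) = (cl i).map e := by
  have h : ∃ i', e i' = e i := ⟨i, rfl⟩
  unfold mapCl
  rw [dif_pos h, e.injective h.choose_spec]

theorem mapCl_not {cl : J' → Finset J'} {j : J} (h : ∀ i, e i ≠ j) : mapCl e cl j = ∅ :=
  dif_neg fun ⟨i, hi⟩ => h i hi

theorem exists_of_mapCl {cl : J' → Finset J'} {j k : J} (h : k ∈ mapCl e cl j) :
    ∃ i l, e i = j ∧ e l = k ∧ l ∈ cl i := by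
  by_cases hj : ∃ i, e i = j
  · obtain ⟨i, rfl⟩ := hj
    rw [mapCl_apply] at h
    obtain ⟨l, hl, rfl⟩ := Finset.mem_map.1 h
    exact ⟨i, l, rfl, rfl, hl⟩
  · rw [mapCl_not fun i hi => hj ⟨i, hi⟩] at h
    exact absurd h (Finset.notMem_empty k)

variable (h : Pull M' M e) (hΦ : AdmissiblePotential M.Φ) (hε : 0 < M.ε)
include h hΦ hε

/-- Paths of the image classes. -/
theorem st_mapCl {cl : J' → Finset J'} (i : J') (t : ℝ) :
    M.st (mapCl e cl (e i)) t Z (e i) = M'.st (cl i) t (fun k => Z (e k)) i := by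
  rw [mapCl_apply, h.st hΦ hε]

theorem cover_map {cl : J' → Finset J'} (H : Cover M' (fun k => Z (e k)) cl) :
    Cover M Z (mapCl e cl) where
  mem j hj := by
    obtain ⟨k, hk⟩ := hj
    obtain ⟨i, l, rfl, rfl, hl⟩ := exists_of_mapCl hk
    rw [mapCl_apply]
    exact Finset.mem_map_of_mem e (H.mem i ⟨l, hl⟩)
  eq j k hk := by
    obtain ⟨i, l, rfl, rfl, hl⟩ := exists_of_mapCl hk
    rw [mapCl_apply, mapCl_apply, H.eq i l hl]
  obs j k hk := by
    obtain ⟨i, l, rfl, rfl, hl⟩ := exists_of_mapCl hk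
    exact fun h' => H.obs i l hl ((h.o l).2 h')
  ok j := by
    by_cases hj : ∃ i, e i = j
    · obtain ⟨i, rfl⟩ := hj
      rw [mapCl_apply, ← h.T]
      exact (h.ok hΦ hε _).2 (H.ok i)
    · rw [mapCl_not fun i hi => hj ⟨i, hi⟩]
      exact ok_empty

/-- **The image of a structure.** -/
theorem str_map {R : ℝ → J' → J' → Prop} {π : Finset J'} {cl : J' → Finset J'} {bD : J → ℝ}
    {bD' : J' → ℝ} {E : Finset J'} (H : Str M' c (fun k => Z (e k)) R π cl bD' E)
    (hb : ∀ i ∈ π, bD (e i) = bD' i) :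
    Str M c Z (mapR e R) (π.map e) (mapCl e cl) bD (E.map e) where
  fam := fam_map h hΦ hε H.fam
  supp r j k hr := by
    obtain ⟨j', k', rfl, rfl, h1⟩ := hr
    obtain ⟨h2, h3⟩ := H.supp r j' k' h1
    exact ⟨Finset.mem_map_of_mem e h2, Finset.mem_map_of_mem e h3⟩
  cov := cover_map h hΦ hε H.cov
  sub j k hk := by
    obtain ⟨i, l, rfl, rfl, hl⟩ := exists_of_mapCl hk
    exact Finset.mem_map_of_mem e (H.sub i hl)
  mem a ha := by
    obtain ⟨a, ha', rfl⟩ := Finset.mem_map.1 ha
    rw [mapCl_apply]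
    exact Finset.mem_map_of_mem e (H.mem a ha')
  cls a ha := by
    obtain ⟨a, ha', rfl⟩ := Finset.mem_map.1 ha
    rw [mapCl_apply]
    exact cls_map h hΦ hε (H.cls a ha') fun i hi => hb i (H.sub a hi)
  old a ha b hb' hab r hr := by
    obtain ⟨a, ha', rfl⟩ := Finset.mem_map.1 ha
    obtain ⟨b, hb'', rfl⟩ := Finset.mem_map.1 hb'
    rw [mapR_iff] at hr
    have h1 := H.old a ha' b hb'' (fun h' => hab (congrArg e h')) r hr
    rw [mapCl_apply, hb a (H.mem_π ha')]
    exact ⟨Finset.mem_map_of_mem e h1.1, h1.2⟩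

end Crest.Agent.R122.LNEmb410

end
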