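import Crest.Agent.R122.E6Str_491
import Crest.Agent.R122.LNEmb2_410

/-!
# Row 122, LN1 (helper491): pair structures seen in a bigger system of labels

`Pull M' M e` (helper968): `M'` is the system `M` seen through the injection `e` of labels; `mapR`,
`mapCl`, `str_map` are helper410's.

* `Pair.map` : pair structures of `M'` are pair structures of `M`.
-/

set_option autoImplicit false
set_option linter.unusedSectionVars false

open MeasureTheory Set Filter Topology
open scoped NNReal ENNReal
open Crest.AnalysisR.Kinetic
open Crest.Agent.R122.VL581 Crest.Agent.R122.VL581.VSys Crest.Agent.R122.VLInst442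
open Crest.Agent.R122.LNGraft410 Crest.Agent.R122.LNEv968 Crest.Agent.R122.PWInst442
open Crest.Agent.R122.LNBridge968 Crest.Agent.R122.EDefs602 Crest.Agent.R122.LNEmb410
open scoped Classical

noncomputable section

namespace Crest.Agent.R122.StrG491

variable {J J' κ : Type} [Fintype J] [Fintype J'] {M : VSys J κ} {M' : VSys J' κ} {e : J' ↪ J}
  {Z : J → PhasePoint}

/-- **Pair structures in the bigger system.** -/
theorem Pair.map (hp : Pull M' M e) (hΦ : AdmissiblePotential M.Φ) (hε : 0 < M.ε)
    {c : ℝ} {R : ℝ → J' → J' → Prop} {π : Finset J'} {cl : J' → Finset J'}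
    {bD' : J' → ℝ} {bD : J → ℝ} (hb : ∀ i ∈ π, bD (e i) = bD' i) {x y : J'}
    {d f : ℝ × PhasePoint} (h : Pair M' c (fun k => Z (e k)) R π cl bD' x y d f) :
    Pair M c Z (mapR e R) (π.map e) (mapCl e cl) bD (e x) (e y) d f where
  str := by
    have h1 := str_map hp hΦ hε h.str hb
    rwa [Finset.map_insert, Finset.map_singleton] at h1
  ne h' := h.ne (e.injective h')
  bx := by rw [hb x h.xπ]; exact h.bx
  bY := by rw [hb y h.yπ]; exact h.bY
  lx ht := by
    rw [st_mapCl hp hΦ hε]
    exact h.lx (by rwa [hp.T])
  ly ht := by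
    rw [st_mapCl hp hΦ hε]
    exact h.ly (by rwa [hp.T])

end Crest.Agent.R122.StrG491

end
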