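import Crest.Agent.R122.LNS1_674
import Crest.Agent.R122.StrMap_491

/-!
# Row 122, LN1 (helper491): the gas and a structure realised on its isolated system

`Str` / `Pair` on the isolated system `vsys Φ T ε b` of the structure labels `σ` give helper674's
`One Φ T ε c b V w cl R` for every configuration `w` of the gas.

* `pull_str` : the isolated system is the system of the gas and the structure seen through `strE`.
* `bigR`, `bigCl`, `bigB` : family, classes and exit times with the gas labels.
* `Str.big`, `Pair.big` : the structure inside the system of the gas.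
* `One.of_str`, `One.of_pair`.
-/

set_option autoImplicit false
set_option linter.unusedSectionVars false

open MeasureTheory Set Filter Topology
open scoped NNReal ENNReal
open Crest.AnalysisR.Kinetic
open Crest.Agent.R122.Loc45 Crest.Agent.R122.Ins45
open Crest.Agent.R122.VL581 Crest.Agent.R122.VL581.VSys Crest.Agent.R122.VLInst442
open Crest.Agent.R122.LNGraft410 Crest.Agent.R122.LNEv968 Crest.Agent.R122.PWInst442
open Crest.Agent.R122.LNBridge968 Crest.Agent.R122.EDefs602 Crest.Agent.R122.LNEmb410
open Crest.Agent.R122.LNPart424 Crest.Agent.R122.LNS674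
open scoped Classical

noncomputable section

namespace Crest.Agent.R122.StrG491

variable {σ : Type} [Fintype σ] {n : ℕ} {Φ : Space3 → ℝ} {T ε c : ℝ} {b : σ → ℝ}
  {V : σ → PhasePoint} {w : Config n}

/-- The isolated system of the structure, seen in the system of the gas and the structure. -/
theorem pull_str (b : σ → ℝ) :
    Pull (VLMeas973.vsys Φ T ε b) (gsys Φ T ε n b) (strE n σ) where
  Φ := rfl
  T := rfl
  ε := rfl
  b _ := rfl
  o i := by
    show (none : Option _) = _ ↔ (none : Option _) = _
    simp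
  S := rfl

/-- The family with the gas labels. -/
abbrev bigR (n : ℕ) (R : ℝ → σ → σ → Prop) : ℝ → Fin n ⊕ σ → Fin n ⊕ σ → Prop :=
  mapR (strE n σ) R

/-- The classes with the gas labels. -/
abbrev bigCl (n : ℕ) (cl : σ → Finset σ) : Fin n ⊕ σ → Finset (Fin n ⊕ σ) := mapCl (strE n σ) cl

/-- The exit times with the gas labels. -/
abbrev bigB (n : ℕ) (bD : σ → ℝ) : Fin n ⊕ σ → ℝ := Sum.elim (fun _ => 0) bD

variable {R : ℝ → σ → σ → Prop} {cl : σ → Finset σ} {bD : σ → ℝ} {π E : Finset σ}

@[simp] theorem bigCl_inl (i : Fin n) : bigCl n cl (Sum.inl i) = ∅ :=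
  mapCl_not fun _ h => by cases h

theorem bigCl_inr (x : σ) : bigCl n cl (Sum.inr x) = (cl x).map (strE n σ) :=
  mapCl_apply (e := strE n σ) cl x

theorem mem_bigCl {x y : σ} :
    (Sum.inr y : Fin n ⊕ σ) ∈ bigCl n cl (Sum.inr x) ↔ y ∈ cl x := by
  rw [bigCl_inr, Finset.mem_map]
  constructor
  · rintro ⟨z, hz, h⟩
    rwa [← Sum.inr_injective h]
  · exact fun h => ⟨y, h, rfl⟩

theorem bigR_iff {r : ℝ} {x y : σ} :
    bigR n R r (Sum.inr x) (Sum.inr y) ↔ R r x y :=
  mapR_iff (e := strE n σ)

/-- **The structure inside the system of the gas.** -/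
theorem Str.big (H : Str (VLMeas973.vsys Φ T ε b) c V R π cl bD E)
    (hΦ : AdmissiblePotential Φ) (hε : 0 < ε) (w : Config n) :
    Str (gsys Φ T ε n b) c (Sum.elim w V) (bigR n R) (π.map (strE n σ)) (bigCl n cl)
      (bigB n bD) (E.map (strE n σ)) :=
  str_map (M := gsys Φ T ε n b) (M' := VLMeas973.vsys Φ T ε b) (e := strE n σ)
    (Z := Sum.elim w V) (pull_str b) hΦ hε H fun _ _ => rfl

/-- **The pair inside the system of the gas.** -/
theorem Pair.big {x y : σ} {d e : ℝ × PhasePoint}
    (H : Pair (VLMeas973.vsys Φ T ε b) c V R π cl bD x y d e)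
    (hΦ : AdmissiblePotential Φ) (hε : 0 < ε) (w : Config n) :
    Pair (gsys Φ T ε n b) c (Sum.elim w V) (bigR n R) (π.map (strE n σ)) (bigCl n cl)
      (bigB n bD) (Sum.inr x) (Sum.inr y) d e :=
  Pair.map (M := gsys Φ T ε n b) (M' := VLMeas973.vsys Φ T ε b) (e := strE n σ)
    (Z := Sum.elim w V) (pull_str b) hΦ hε (fun _ _ => rfl) H

/-- **The gas and one structure**, from the isolated system of the structure. -/
theorem One.of_str (H : Str (VLMeas973.vsys Φ T ε b) c V R Finset.univ cl bD E)
    (hΦ : AdmissiblePotential Φ) (hε : 0 < ε) (hw : w ∈ PairExcluded ε n) :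
    One Φ T ε c b V w (bigCl n cl) (bigR n R) where
  base :=
    { gas_b := fun _ => le_rfl
      gas_o := fun i h => by cases h
      gas_cl := bigCl_inl
      cover := (H.big hΦ hε w).cov }
  pe := hw
  fam := (H.big hΦ hε w).fam

theorem One.of_pair {x y : σ} {d e : ℝ × PhasePoint}
    (H : Pair (VLMeas973.vsys Φ T ε b) c V R Finset.univ cl bD x y d e)
    (hΦ : AdmissiblePotential Φ) (hε : 0 < ε) (hw : w ∈ PairExcluded ε n) :
    One Φ T ε c b V w (bigCl n cl) (bigR n R) :=
  One.of_str H.str hΦ hε hw

end Crest.Agent.R122.StrG491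

end
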