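import Crest.Agent.R122.PTreeOf_331
import Crest.Agent.R122.OneStr_491

/-!
# Row 122, LN3 of S^(j) (helper331): the pair structure and the contact tree over the gas

* `treeIn_map`, `PTree.map` : contact trees and `PTree` in a bigger system of labels (968's `Pull`).
* `PTree.big` : from the system of the structure (`vsys`) to the system of gas and structure (`gsys`).
* `union_big` : if `π` and the tree are all labels, then their images are `pS`.
* `ptreeG_of`, `ptreeG_osP` : helper491's `PTree` over the gas, labels `Fin n ⊕ (Idx P ⊕ κ)`, from a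
  pair structure.
-/

set_option autoImplicit false
set_option linter.unusedSectionVars false

open MeasureTheory Set Filter Topology
open scoped NNReal ENNReal
open Crest.AnalysisR.Kinetic
open Crest.Agent.R122.Loc45 Crest.Agent.R122.Ins45
open Crest.Agent.R122.VL581 Crest.Agent.R122.VL581.VSys Crest.Agent.R122.VLInst442
open Crest.Agent.R122.Kin796 Crest.Agent.R122.Kin796.CTree Crest.Agent.R122.Tree674
open Crest.Agent.R122.TreeLines335 Crest.Agent.R122.EDefs602
open Crest.Agent.R122.LNTree410 Crest.Agent.R122.LNGraft410 Crest.Agent.R122.LNEv968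
open Crest.Agent.R122.PWInst442 Crest.Agent.R122.LNBridge968 Crest.Agent.R122.LNEmb410
open Crest.Agent.R122.StrG491 Crest.Agent.R122.OCout796 Crest.Agent.R122.LNPart424
open Crest.Agent.R122.LNS674
open Crest.Agent.R122.OneC285 (cT cB cD cX)
open Crest.Agent.R122.GateOsP424 (osB osZ)
open Crest.Agent.R122.PairRep581 (Shp ctOk ctOkS)
open Crest.Agent.R122.Boost969 (LSt)
open Crest.Agent.R122.Pair292 (Lab)
open Crest.Agent.R122.PairD292 (dL eL OkL)
open scoped Classical

noncomputable section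

namespace Crest.Agent.R122.PTreeOf331

section map

variable {J J' κ : Type} [Fintype J] [Fintype J'] {M : VSys J κ} {M' : VSys J' κ} {e : J' ↪ J}
  {Z : J → PhasePoint} {P : CTree} {eP : Idx P ↪ J'}

theorem part_trans : part (eP.trans e) = (part eP).map e := by
  ext j
  rw [mem_part, Finset.mem_map]
  constructor
  · rintro ⟨i, rfl⟩
    exact ⟨eP i, mem_part_self i, rfl⟩
  · rintro ⟨k, hk, rfl⟩
    obtain ⟨i, rfl⟩ := mem_part.1 hk
    exact ⟨i, rfl⟩

/-- **Trees in the bigger system.** -/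
theorem treeIn_map (hp : Pull M' M e) {ℓ : PhasePoint} {p : Par P}
    (h : TreeIn M' (fun k => Z (e k)) M'.T P ℓ p eP) : TreeIn M Z M.T P ℓ p (eP.trans e) where
  b i := by
    have h1 := h.b i
    rw [hp.b] at h1
    exact h1
  Z i := by
    have h1 := h.Z i
    rw [hp.Φ, hp.ε] at h1
    exact h1
  o i hi := h.o i ((hp.o _).2 hi)
  valid := by
    have h1 := h.valid
    rw [hp.Φ, hp.ε, hp.T] at h1
    exact h1
  sep := by
    have h1 := h.sep
    rw [hp.Φ, hp.ε, hp.T] at h1
    exact h1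

/-- **`PTree` in the bigger system.** -/
theorem PTree.map (hp : Pull M' M e) (hΦ : AdmissiblePotential M.Φ) (hε : 0 < M.ε)
    {c : ℝ} {R : ℝ → J' → J' → Prop} {π : Finset J'} {cl : J' → Finset J'}
    {bD' : J' → ℝ} {bD : J → ℝ} (hb : ∀ i, bD (e i) = bD' i) {x y : J'} {d : ℝ × PhasePoint}
    {f : ML} {te : ℝ} {z : PhasePoint × Par P}
    (h : PTree M' c (fun k => Z (e k)) R π cl bD' x y d f te P z eP) :
    PTree M c Z (mapR e R) (π.map e) (mapCl e cl) bD (e x) (e y) d f te P z (eP.trans e) where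
  pr := Pair.map hp hΦ hε (fun i _ => hb i) h.pr
  tree := treeIn_map hp h.tree
  dj := by
    rw [part_trans, Finset.disjoint_map]
    exact h.dj
  bP i := by
    change bD (e (eP i)) = _
    rw [hb]
    exact h.bP i
  ct := by
    have h1 := h.ct
    rw [hp.Φ, hp.ε] at h1
    exact h1
  te_lt := by
    have h1 := h.te_lt
    rw [hp.T] at h1
    exact h1
  cd := by
    have h1 := h.cd
    rw [hp.ε] at h1
    exact h1

end map

section big

variable {σ : Type} [Fintype σ] {n : ℕ} {Φ : Space3 → ℝ} {T ε c te : ℝ} {b : σ → ℝ}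
  {V : σ → PhasePoint} {P : CTree} {z : PhasePoint × Par P} {g : Idx P ↪ σ}
  {R : ℝ → σ → σ → Prop} {cl : σ → Finset σ} {bD : σ → ℝ} {π : Finset σ} {x y : σ}
  {d : ℝ × PhasePoint} {e : ML}

/-- **`PTree` inside the system of the gas.** -/
theorem PTree.big (H : PTree (VLMeas973.vsys Φ T ε b) c V R π cl bD x y d e te P z g)
    (hΦ : AdmissiblePotential Φ) (hε : 0 < ε) (w : Config n) :
    PTree (gsys Φ T ε n b) c (Sum.elim w V) (bigR n R) (π.map (strE n σ)) (bigCl n cl)
      (bigB n bD) (Sum.inr x) (Sum.inr y) d e te P z (g.trans (strE n σ)) :=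
  PTree.map (M := gsys Φ T ε n b) (M' := VLMeas973.vsys Φ T ε b) (e := strE n σ)
    (Z := Sum.elim w V) (pull_str b) hΦ hε (fun _ => rfl) H

/-- All labels of the structure. -/
theorem union_big [DecidableEq σ] [DecidableEq (Fin n ⊕ σ)] (h : π ∪ part g = Finset.univ) :
    π.map (strE n σ) ∪ part (g.trans (strE n σ)) = pS n σ := by
  rw [part_trans]
  have h1 : (π ∪ part g).map (strE n σ) = pS n σ := by rw [h]
  rw [← h1]
  ext j
  simp only [Finset.mem_union, Finset.mem_map]
  constructor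
  · rintro (⟨k, hk, rfl⟩ | ⟨k, hk, rfl⟩)
    · exact ⟨k, Or.inl hk, rfl⟩
    · exact ⟨k, Or.inr hk, rfl⟩
  · rintro ⟨k, hk | hk, rfl⟩
    · exact Or.inl ⟨k, hk, rfl⟩
    · exact Or.inr ⟨k, hk, rfl⟩

end big

variable {κ : Type} [Fintype κ] {P : CTree} {n : ℕ} {Φ : Space3 → ℝ} {T ε c te : ℝ} {b : κ → ℝ}
  {V : κ → PhasePoint} {z : PhasePoint × Par P} {R : ℝ → κ → κ → Prop} {cl : κ → Finset κ}
  {β : κ → ℝ} {x y : κ} {d : ℝ × PhasePoint} {e : ML}

/-- **The pair structure and the contact tree over the gas.** -/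
theorem ptreeG_of (hΦ : AdmissiblePotential Φ) (hε : 0 < ε)
    (h : Pair (VLMeas973.vsys Φ T ε b) c V R Finset.univ cl β x y d e.1)
    (hV : Valid Φ ε P T z.1.2 z.2) (hS : Sep Φ ε P T z.1 z.2)
    (hct : (z, e.1) ∈ OneC423.ctSet Φ ε te P) (hte : te < T) (hcd : CDok (cD ε z e))
    (w : Config n) :
    PTree (gsys Φ T ε n (Sum.elim (fun _ : Idx P => 0) b)) c
      (Sum.elim w (Sum.elim (linesM Φ ε P z.1 z.2) V)) (bigR n (mapR (iS P κ) R))
      ((Finset.univ.map (iS P κ)).map (strE n (Idx P ⊕ κ))) (bigCl n (mapCl (iS P κ) cl))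
      (bigB n (bE P z β)) (Sum.inr (Sum.inr x)) (Sum.inr (Sum.inr y)) d e te P z
      ((iT P κ).trans (strE n (Idx P ⊕ κ))) :=
  PTree.big (ptree_of hΦ hε h hV hS hct hte hcd) hΦ hε w

/-- The labels of the structure and of the tree are all structure labels. -/
theorem unionG [DecidableEq (Fin n ⊕ (Idx P ⊕ κ))] :
    (Finset.univ.map (iS P κ)).map (strE n (Idx P ⊕ κ)) ∪
      part ((iT P κ).trans (strE n (Idx P ⊕ κ))) = pS n (Idx P ⊕ κ) :=
  union_big union_eq

/-- The same for a shape: `osB`, `osZ` of helper424. -/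
theorem ptreeG_osP {S : Shp} {q : (PhasePoint × Par P) × S.Θ} {R : ℝ → S.κ → S.κ → Prop}
    {cl : S.κ → Finset S.κ} {β : S.κ → ℝ} {x y : S.κ} (hΦ : AdmissiblePotential Φ) (hε : 0 < ε)
    (h : Pair (VLMeas973.vsys Φ T ε (S.b ε q.2)) c (S.z ε q.2) R Finset.univ cl β x y
      (dL (S.th ε q.2)).1 (eL (S.th ε q.2)).1)
    (hV : Valid Φ ε P T q.1.1.2 q.1.2) (hS : Sep Φ ε P T q.1.1 q.1.2)
    (hct : (q.1, (S.th ε q.2).2) ∈ OneC423.ctSet Φ ε te P) (hte : te < T)
    (hcd : CDok (cD ε q.1 (eL (S.th ε q.2)))) (w : Config n) :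
    PTree (gsys Φ T ε n (osB P S ε q)) c (Sum.elim w (osZ Φ P S ε q))
      (bigR n (mapR (iS P S.κ) R)) ((Finset.univ.map (iS P S.κ)).map (strE n (Idx P ⊕ S.κ)))
      (bigCl n (mapCl (iS P S.κ) cl)) (bigB n (bE P q.1 β)) (Sum.inr (Sum.inr x))
      (Sum.inr (Sum.inr y)) (dL (S.th ε q.2)).1 (eL (S.th ε q.2)) te P q.1
      ((iT P S.κ).trans (strE n (Idx P ⊕ S.κ))) :=
  PTree.big (ptree_osP hΦ hε h hV hS hct hte hcd) hΦ hε w

end Crest.Agent.R122.PTreeOf331

end
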