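import Crest.Agent.R122.LkDet_974
import Crest.Agent.R122.Real6P_796
import Crest.Agent.R122.PTreeG_331
import Crest.Agent.R122.OkX6N_942

/-!
# Row 122, LINK6 (S4): the field `lk` of `Slots6G` (helper974)

* `treeP_of_levD` : helper796's level data give the pair structure with the tree over the gas.
* `gNull_line` : the independent lines are born in `(0, te]`.
* `slot_lk` : the field `lk` of `Slots6G`, from `PairAlt` and the absolute continuity `DAc` of the law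
  of the first line. `slotP_lk` : the field `lk` of `Slots6P`.
-/

set_option autoImplicit false
set_option linter.unusedSectionVars false

open MeasureTheory Set Filter Topology
open scoped Classical ENNReal
open Crest.AnalysisR.Kinetic
open Crest.Agent.R122.GC311 Crest.Agent.R122.EDefs602
open Crest.Agent.R122.Kin796 Crest.Agent.R122.Kin796.CTree Crest.Agent.R122.Tree674
open Crest.Agent.R122.TreeLines335 Crest.Agent.R122.LNTree410
open Crest.Agent.R122.Gate424 Crest.Agent.R122.Gate973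
open Crest.Agent.R122.Boost969 (LSt)
open Crest.Agent.R122.Pair292 (Lab)
open Crest.Agent.R122.PairD292 Crest.Agent.R122.PairRep581
open Crest.Agent.R122.GateOsP424 (osB osZ)
open Crest.Agent.R122.OPX973 (OPX anT fNull_lkm)
open Crest.Agent.R122.VLInst442 Crest.Agent.R122.PWInst442 Crest.Agent.R122.LNEv968
open Crest.Agent.R122.LNPart424 Crest.Agent.R122.LNS674
open Crest.Agent.R122.StrG491 (Pair PTree)
open Crest.Agent.R122.E6Hyp879 (E6Hyp withD)
open Crest.Agent.R122.X692 (SAlt XAlt JAlt)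
open Crest.Agent.R122.PTreeOf331
open Crest.Agent.R122.LkDet974 (TreeP lk_det)
open Crest.Agent.R122.LKok416 (OkX6)
open Crest.Agent.R122.Link6796

noncomputable section

namespace Crest.Agent.R122.LkSlot974

variable {Φ : Space3 → ℝ} {f₀ : PhasePoint → ℝ} {bg γ β T' te' c : ℝ} {ρ : Space3 → ℝ≥0∞}
  {Q : EPar} {K : ℕ} {P : CTree} {S : Shp}

/-- **The pair structure with the tree** over the gas, from the level data. -/
theorem treeP_of_levD {T ε ℓ ς te : ℝ} {q : (PhasePoint × Par P) × S.Θ} {n : ℕ} {w : Config n}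
    (hΦ : AdmissiblePotential Φ) (hε : 0 < ε) (hte : te < T)
    (h : LevD Φ T ε c ℓ ς te K P S q) :
    ∃ (R₀ : ℝ → Fin n ⊕ (Idx P ⊕ S.κ) → Fin n ⊕ (Idx P ⊕ S.κ) → Prop)
      (π : Finset (Fin n ⊕ (Idx P ⊕ S.κ)))
      (cl : Fin n ⊕ (Idx P ⊕ S.κ) → Finset (Fin n ⊕ (Idx P ⊕ S.κ)))
      (bD : Fin n ⊕ (Idx P ⊕ S.κ) → ℝ) (x y : Idx P ⊕ S.κ),
      TreeP Φ T ε c (osB P S ε q) (osZ Φ P S ε q) w R₀ π cl bD x y (iT P S.κ)
        (dL (S.th ε q.2)).1 (eL (S.th ε q.2)) te q.1 := by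
  obtain ⟨R, cl, bD, x, y, h1, -, -⟩ := h.pair
  refine ⟨_, _, _, _, _, _, ⟨ptreeG_osP hΦ hε h1 h.valid h.sep h.ct.1 hte h.pass.ok w, ?_⟩⟩
  intro j
  rw [← unionG (P := P) (κ := S.κ) (n := n), Finset.mem_union]

/-- The independent lines are born in `(0, te]`. -/
theorem gNull_line {te : ℝ} (hf : Measurable f₀) {gl : ℝ → ℝ} (hgl : Measurable gl) {rm : ℝ≥0∞} {Km : ℕ} :
    GNull f₀ (fun (_ : ℝ) (_ : Unit) => lineM gl rm Km te) (fun _ _ n x (_ : Config n) =>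
      ¬ (0 < x.1.1)) := by
  refine gNull_of_ae hf (fun _ _ => inferInstance) fun ε _ _ n => ?_
  have h1 : ∀ᵐ x ∂(lineM gl rm Km te), 0 < x.1.1 :=
    (EBasic602.lineM_ae hgl).mono fun x hx => hx.1
  have h2 := (Measure.quasiMeasurePreserving_fst (μ := lineM gl rm Km te)
    (ν := (volume : Measure (Config n)))).ae h1
  filter_upwards [h2] with q hq _ hno
  exact hno hq

/-- **Capped measure of the bad lines**: any set `lk` of lines which are not good over `cfg w` or over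
`cfg w + d`, any guard `G` which contains `Gd6` and the hypotheses of the decomposition. -/
theorem fNull_lk1 (h : OPX Φ f₀ bg γ β T' Q.te ρ S Q.γ Q.ρ) (hte : Q.te < T')
    (hPA : PairAlt Φ f₀ Q T' K P S 1) (hd : OkInd942.DAc S te')
    {G : ℝ → (n : ℕ) → ((PhasePoint × Par P) × S.Θ) → Config n → Prop}
    (hG : ∀ ε n q (w : Config n), G ε n q w → Gd6 Φ ε K Q T' P q.1 w (S.th ε q.2) ∧
      Hyp6 Φ ε K Q.te P q.1 w (S.th ε q.2))
    {lk : ℝ → (n : ℕ) → ((PhasePoint × Par P) × S.Θ) → Config n → Set ML}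
    (hlk : ∀ ε n q (w : Config n) x, x ∈ lk ε n q w →
      ¬ (BadX974.GoodXB Φ ε K Q.te (MW.cfg w) P q.1 x ∧
        BadX974.GoodXB Φ ε K Q.te ((MW.cfg w).ins (dL (S.th ε q.2))) P q.1 x)) :
    FNull f₀ (osP Φ f₀ Q.te T' K P S) (fun ε _ n q w =>
      if G ε n q w then min 1 (lineM Q.γ Q.ρ K Q.te (lk ε n q w)) else 0) := by
  obtain ⟨B, Ht, hB, hH, hPA⟩ := hPA
  refine h.fNull_of_alt (u := T') le_rfl K K (G := G) (lk := lk) fun L => ?_
  refine ⟨OneX973.sz (Idx P ⊕ S.κ) K L + OneX973.sz (Idx P ⊕ S.κ) K L, 1, T' + 1, B, _, _, Ht,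
    fun _ _ n x _ => ¬ (0 < x.1.1), _, by have := h.T_pos; linarith,
    ⟨hB, h.badF_X K 1 0, h.badF_J T' K P K 1 0⟩,
    ⟨hH, gNull_line h.meas h.gl_meas, OkInd942.gNull_okX6 (K₁ := K) (te₁ := Q.te) h.adm h.meas
      h.shp.sf hd h.T_pos.le⟩, fun R hR ς hς => ?_⟩
  obtain ⟨ε₁, h0, h1⟩ := hPA R hR ς hς
  refine ⟨min ε₁ (ς / (2 * R)), lt_min h0 (by positivity), fun ε hε hlt n q x w hw hg hx => ?_⟩
  have hς2 : 2 * (R * ε) ≤ ς := by
    have h2 : ε < ς / (2 * R) := hlt.trans_le (min_le_right _ _)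
    rw [lt_div_iff₀ (by positivity)] at h2
    linarith
  obtain ⟨hgd, hhyp⟩ := hG ε n q w hg
  rcases h1 ε hε (hlt.trans_le (min_le_left _ _)) () n q w hw ⟨hgd.real.ct, hgd.real.okL⟩ hgd
    with hL | hL | hL
  swap
  · exact Or.inl (Or.inr (Or.inl hL))
  swap
  · exact Or.inl (Or.inr (Or.inr hL))
  by_cases hx0 : 0 < x.1.1
  swap
  · exact Or.inr (Or.inl (Or.inr (Or.inr hx0)))
  by_cases hox : OkX6 Φ ε (MW.cfg w) P q.1 (dL (S.th ε q.2)) x
  swap
  · exact Or.inr (Or.inr (Or.inr (Or.inr ⟨hgd.real, hox⟩)))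
  obtain ⟨R₀, π, cl, bD, x₀, y₀, hT⟩ := treeP_of_levD (w := w) h.adm hε hte hL
  rcases lk_det (K := K) (m := L) (R := R) (ς := ς) (T' := T') (T₁ := T' + 1) (A₀ := anT P S)
    (x := x) (d := dL (S.th ε q.2)) hT h.adm hε le_rfl hς2 le_rfl (by linarith)
    ⟨Sum.inl (root P), by simp⟩ hw hhyp.ok₁ hox hx0.le hgd.real.okL.d1 le_rfl
    with h3 | h3 | h3 | h3
  · exact absurd h3 (hlk ε n q w x hx)
  · exact Or.inl (Or.inl h3)
  · exact Or.inr (Or.inl (Or.inl h3))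
  · exact Or.inr (Or.inr (Or.inl h3))

/-- **The field `lk`**, any guard which contains `Gd6` and the hypotheses of the decomposition. -/
theorem fNull_lkG (h : OPX Φ f₀ bg γ β T' Q.te ρ S Q.γ Q.ρ) (hte : Q.te < T')
    (hPA : PairAlt Φ f₀ Q T' K P S 1) (hd : OkInd942.DAc S te')
    {G : ℝ → (n : ℕ) → ((PhasePoint × Par P) × S.Θ) → Config n → Prop}
    (hG : ∀ ε n q (w : Config n), G ε n q w → Gd6 Φ ε K Q T' P q.1 w (S.th ε q.2) ∧
      Hyp6 Φ ε K Q.te P q.1 w (S.th ε q.2)) :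
    FNull f₀ (osP Φ f₀ Q.te T' K P S) (fun ε _ n q w =>
      if G ε n q w then min 1 (Pt6811.lkm Φ Q K ε P q.1 n w (S.th ε q.2)) else 0) :=
  fNull_lkm h.meas ENNReal.ofReal_ne_top
    (fNull_lk1 h hte hPA hd hG fun _ _ _ _ _ hx hgood => hx (BadX974.goodX_iff.2 hgood.1))
    (fNull_lk1 h hte hPA hd hG fun _ _ _ _ _ hx hgood => hx hgood.2)

/-- **The field `lk` of `Slots6G`.** -/
theorem slot_lk (h : OPX Φ f₀ bg γ β T' Q.te ρ S Q.γ Q.ρ) (hte : Q.te < T')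
    (hPA : PairAlt Φ f₀ Q T' K P S 1) (hd : OkInd942.DAc S te') (R : ℝ) :
    FNull f₀ (osP Φ f₀ Q.te T' K P S)
      (fun ε _ n q w => fLkG Φ Q T' R K ε P q.1 n w (S.th ε q.2)) := by
  have h1 := fNull_lkG (G := fun ε _ q w => Gx6 Φ ε R K Q T' P q.1 w (S.th ε q.2) ∧
    Hyp6 Φ ε K Q.te P q.1 w (S.th ε q.2)) h hte hPA hd fun _ _ _ _ hg => ⟨hg.1.gd, hg.2⟩
  refine h1.mono ⟨1, one_pos, fun ε _ _ _ n q w _ => ?_⟩
  unfold fLkG
  by_cases hg : Gx6 Φ ε R K Q T' P q.1 w (S.th ε q.2) ∧ Hyp6 Φ ε K Q.te P q.1 w (S.th ε q.2)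
  · rw [if_pos hg, if_pos hg]
  · rw [if_neg hg]
    exact bot_le

/-- **The field `lk` of `Slots6P`.** -/
theorem slotP_lk (h : OPX Φ f₀ bg γ β T' Q.te ρ S Q.γ Q.ρ) (hte : Q.te < T')
    (hPA : PairAlt Φ f₀ Q T' K P S 1) (hd : OkInd942.DAc S te') :
    FNull f₀ (osP Φ f₀ Q.te T' K P S)
      (fun ε _ n q w => fLk6 Φ Q T' K ε P q.1 n w (S.th ε q.2)) := by
  have h1 := fNull_lkG (G := fun ε _ q w => Gd6 Φ ε K Q T' P q.1 w (S.th ε q.2) ∧
    Hyp6 Φ ε K Q.te P q.1 w (S.th ε q.2)) h hte hPA hd fun _ _ _ _ hg => hg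
  refine h1.mono ⟨1, one_pos, fun ε _ _ _ n q w _ => ?_⟩
  unfold fLk6
  by_cases hg : Gd6 Φ ε K Q T' P q.1 w (S.th ε q.2) ∧ Hyp6 Φ ε K Q.te P q.1 w (S.th ε q.2)
  · rw [if_pos hg, if_pos hg]
  · rw [if_neg hg]
    exact bot_le

end Crest.Agent.R122.LkSlot974

end
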