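import Crest.Agent.R122.Marg_494
import Crest.Agent.R122.StrN2_998
import Crest.Agent.R122.GateCap_973
import Crest.Agent.R122.ShpOkN_998

/-!
# Row 122, block H4 (helper494): the lower levels of the structures `S^(j)`

* `BaseHyp` : hypotheses on the base structures; `lv` : the structure of level `j`.
* `touchHyp_lv` : the hypotheses of helper473 at every level.
* `badF_level_near` : bad partitions of gas particles and the structure of a level `k ≤ j`, near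
  passage of the first line: `BadF` over the law of the level `j`.
* `dom_sub`, `tinvS_sub_e`, `tinvS_sub_d` : the structure of level `k` inside the law of level `j`.
-/

set_option autoImplicit false
set_option linter.unusedSectionVars false

open MeasureTheory ProbabilityTheory Set Filter
open scoped ENNReal Classical Topology
open Crest.AnalysisR.Kinetic

noncomputable section

namespace Crest.Agent.R122.Marg494

open Crest.Agent.R122.GC311 Crest.Agent.R122.EDefs602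
open Crest.Agent.R122.Boost969 (LSt posAt)
open Crest.Agent.R122.Kin416 (gau measurable_gau lintegral_gau_lt_top)
open Crest.Agent.R122.Pair292 hiding ML
open Crest.Agent.R122.PairD292 (dL eL)
open Crest.Agent.R122.PairReal998 Crest.Agent.R122.LN2 Crest.Agent.R122.StrN998
open Crest.Agent.R122.TouchFlux494 (expW_ne_top expW_add exists_one_add_le_expW Near)
open Crest.Agent.R122.Gate424 Crest.Agent.R122.Gate973

variable {Φ : Space3 → ℝ} {ε te b₀ : ℝ} {q : ℕ → ℝ≥0∞}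
variable {Θ κ : Type} [MeasurableSpace Θ] [Fintype κ]

/-- Base structures. -/
structure BaseHyp (γ : ℝ) (ρ : Space3 → ℝ≥0∞) (c : ℝ≥0∞) (Λ : Measure (κ → ℝ))
    (S : ℝ → SD Θ κ) : Prop where
  sf : ∀ ε, SFinite (S ε).m
  ok : ∀ ε, 0 < ε → (S ε).Ok
  phys : ∀ ε, 0 < ε → (S ε).Phys
  dom : ∀ ε, 0 < ε → Dom γ ρ ε 1 ∅ c Λ (S ε).m (S ε).b (S ε).z
  cf : c ≠ ∞
  mρ : Measurable ρ

/-- The structure of level `j`. -/
abbrev lv (S : ℝ → SD Θ κ) (Φ : Space3 → ℝ) (b₀ te : ℝ) (q : ℕ → ℝ≥0∞) (j : ℕ) (ε : ℝ) :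
    SD (Th Θ j) (Ka κ j) := (S ε).iter Φ ε b₀ te q j

theorem sfinite_iter {S : SD Θ κ} (h : SFinite S.m) (j : ℕ) :
    SFinite (S.iter Φ ε b₀ te q j).m := by
  induction j with
  | zero => exact h
  | succ j ih =>
    have : SFinite (S.iter Φ ε b₀ te q j).m := ih
    exact inferInstanceAs (SFinite ((S.iter Φ ε b₀ te q j).step Φ ε b₀ te q).m)

/-- The first line is the same on all levels. -/
theorem dL_prj (S : SD Θ κ) (k i : ℕ) (x : Th Θ (k + i)) :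
    dL ((S.iter Φ ε b₀ te q (k + i)).pr x) = dL ((S.iter Φ ε b₀ te q k).pr (prj Θ k i x)) := by
  induction i with
  | zero => rfl
  | succ i ih => exact ih x.1

theorem Tr_prj (S : SD Θ κ) (k i : ℕ) (a : Space3) (x : Th Θ (k + i)) :
    prj Θ k i ((S.iter Φ ε b₀ te q (k + i)).Tr a x) =
      (S.iter Φ ε b₀ te q k).Tr a (prj Θ k i x) := by
  induction i with
  | zero => rfl
  | succ i ih => exact ih x.1

theorem norm_le_of_sq {κ : Type} [Fintype κ] {v : Space3} {z : κ → PhasePoint}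
    (h : ‖v‖ ^ 2 ≤ ∑ i, ‖(z i).2‖ ^ 2) : ‖v‖ ≤ 1 * (1 + ∑ i, ‖(z i).2‖) := by
  have h1 : ∑ i, ‖(z i).2‖ ^ 2 ≤ (∑ i, ‖(z i).2‖) ^ 2 :=
    Finset.sum_sq_le_sq_sum_of_nonneg fun i _ => norm_nonneg _
  have h2 : 0 ≤ ∑ i, ‖(z i).2‖ := Finset.sum_nonneg fun i _ => norm_nonneg _
  have h3 : ‖v‖ ≤ ∑ i, ‖(z i).2‖ := (sq_le_sq₀ (norm_nonneg _) h2).1 (h.trans h1)
  linarith

section base

variable {γ : ℝ} {ρ : Space3 → ℝ≥0∞} {c : ℝ≥0∞} {Λ : Measure (κ → ℝ)} [IsFiniteMeasure Λ]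
  {S : ℝ → SD Θ κ}

/-- Domination at the level `j`. -/
theorem BaseHyp.dom_lv (h : BaseHyp γ ρ c Λ S) (hΦ : AdmissiblePotential Φ) [Nonempty κ]
    (hb : γ ≤ b₀) (j : ℕ) (hε : 0 < ε) :
    Dom γ ρ ε 1 ∅ (c * (3 * ∑' m, q m) ^ j) (LaN Λ j) (lv S Φ b₀ te q j ε).m
      (lv S Φ b₀ te q j ε).b (lv S Φ b₀ te q j ε).z := by
  have h1 := SD.dom_iter (te := te) (q := q) (h.ok ε hε) hΦ h.mρ hb hε
    (Fintype.card_pos_iff.2 inferInstance : 1 ≤ Fintype.card κ) (h.dom ε hε) j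
  rwa [anN_empty] at h1

/-- The hypotheses of helper473 for the first line at the level `j`. -/
theorem BaseHyp.touchHyp (h : BaseHyp γ ρ c Λ S) (hΦ : AdmissiblePotential Φ) [Nonempty κ]
    (hb : γ ≤ b₀) (hq : ∑' m, q m ≠ ∞) {a : ℝ} (ha : 0 < a) (haγ : a < γ) {T te' : ℝ}
    (hte : te' ≤ T) (j : ℕ) :
    TouchHyp T γ a ρ (c * (3 * ∑' m, q m) ^ j) (ENNReal.ofReal (1 + 1 / a)) (LaN Λ j)
      (fun ε (_ : Unit) => (lv S Φ b₀ te q j ε).m) (fun ε _ => (lv S Φ b₀ te q j ε).b)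
      (fun ε _ => (lv S Φ b₀ te q j ε).z) (fun ε _ => (lv S Φ b₀ te q j ε).Tr)
      (fun ε _ x => (dL ((lv S Φ b₀ te q j ε).pr x)).1) (fun _ => te') where
  sf ε _ := sfinite_iter (h.sf ε) j
  dom ε _ hε := h.dom_lv hΦ hb j hε
  tr ε _ hε := ((h.ok ε hε).iter hΦ j).tinv_d
  birth ε _ hε := ((h.phys ε hε).iter (h.ok ε hε) hΦ hε.le j).bd
  vel ε _ hε := (((h.phys ε hε).iter (h.ok ε hε) hΦ hε.le j).vd).mono fun x hx =>
    one_add_le_expW ha hx
  hor _ := hte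
  cf := ENNReal.mul_ne_top h.cf (ENNReal.pow_ne_top (ENNReal.mul_ne_top (by simp) hq))
  cvf := ENNReal.ofReal_ne_top
  aγ := haγ

theorem BaseHyp.velE (h : BaseHyp γ ρ c Λ S) (hΦ : AdmissiblePotential Φ) (hε : 0 < ε) (l : ℕ) :
    VelE ((S ε).iter Φ ε b₀ te q l) 1 :=
  (((h.phys ε hε).iter (h.ok ε hε) hΦ hε.le l).ve).mono fun _ hx => norm_le_of_sq hx

/-- **marg_le** for base structures. -/
theorem BaseHyp.marg (h : BaseHyp γ ρ c Λ S) (hΦ : AdmissiblePotential Φ)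
    (hq : ∑' m, q m ≠ ∞) (k i : ℕ) {a a' : ℝ} (haa : a < a') (ha' : a' ≤ b₀) :
    ∃ C : ℝ≥0∞, C ≠ ∞ ∧ ∀ ε : ℝ, 0 < ε → ∀ G : Th Θ k → ℝ≥0∞, Measurable G →
      ∫⁻ x, G (prj Θ k i x) * expW a ((lv S Φ b₀ te q (k + i) ε).z x)
          ∂(lv S Φ b₀ te q (k + i) ε).m ≤
        C * ∫⁻ θ, G θ * expW a' ((lv S Φ b₀ te q k ε).z θ) ∂(lv S Φ b₀ te q k ε).m := by
  obtain ⟨C, hC, hm⟩ := marg_iter (Θ := Θ) (κ := κ) (b₀ := b₀) hΦ te 1 hq k i haa ha'
  exact ⟨C, hC, fun ε hε G hG => hm ε hε q le_rfl (S ε) (h.ok ε hε)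
    (fun l => h.velE hΦ hε l) G hG⟩

/-- **Bad partitions of a lower level, near passage.** -/
theorem badF_level_near {f₀ : PhasePoint → ℝ} {C₀ : ℝ≥0∞} {T te' : ℝ}
    (h : BaseHyp γ ρ c Λ S) (hΦ : AdmissiblePotential Φ) (hCN : VLMeas973.ClassNull Φ T)
    (hf : Measurable f₀) (h1 : ∫⁻ z, ENNReal.ofReal (f₀ z) ≤ 1) (he : Env f₀ γ ρ C₀)
    (hγ : 0 < γ) [Nonempty κ] (hb : γ ≤ b₀) (hq : ∑' m, q m ≠ ∞) (hte : te' ≤ T) (k i : ℕ)
    (C R₁ : ℝ) (N : ℕ) :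
    BadF f₀ (fun ε (_ : Unit) => (lv S Φ b₀ te q (k + i) ε).m)
      (fun R ς ε _ n x w => Near Φ ε R₁ te' w (dL ((lv S Φ b₀ te q (k + i) ε).pr x)).1 ∧
        BadGas Φ T C R ς ε N 1 Finset.univ ((lv S Φ b₀ te q k ε).b (prj Θ k i x))
          ((lv S Φ b₀ te q k ε).z (prj Θ k i x)) w) := by
  intro δ hδ
  have h2 := TouchFlux494.moment_of_env hγ he
  set a' : ℝ := γ / 2 with ha'
  have ha0 : 0 < a' := by rw [ha']; linarith
  set a : ℝ := γ / 4 with ha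
  have haa : 0 < a := by rw [ha]; linarith
  obtain ⟨Cm, hCm, hm⟩ := h.marg (te := te) hΦ hq k i ha0 (show a' ≤ b₀ by linarith)
  have hCm' : Cm + 1 ≠ ∞ := ENNReal.add_ne_top.2 ⟨hCm, ENNReal.one_ne_top⟩
  have hδ' : 0 < δ / (Cm + 1) := ENNReal.div_pos hδ.ne' hCm'
  -- level `k`, weighted
  have hT := h.touchHyp (T := T) (te' := te') (te := te) hΦ hb hq haa (show a < γ by linarith)
    hte k
  have hWm : ∀ (ε : ℝ), 0 < ε → Measurable fun θ => expW a' ((lv S Φ b₀ te q k ε).z θ) :=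
    fun ε hε => (measurable_expW a').comp ((h.ok ε hε).iter hΦ k).mz
  -- the weight is measurable for all `ε`
  set W : ℝ → Unit → Th Θ k → ℝ≥0∞ := fun ε _ θ =>
    if 0 < ε then expW a' ((lv S Φ b₀ te q k ε).z θ) else 0 with hW
  have hTW := hT.weight (W := W) (a' := a') (c' := 1) ENNReal.one_ne_top
    (show a < γ - a' by rw [ha, ha']; linarith)
    (fun ε _ => by
      by_cases hε : 0 < ε
      · simp only [hW, if_pos hε]; exact hWm ε hε
      · simp only [hW, if_neg hε]; exact measurable_const)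
    (fun ε _ hε x θ => by
      simp only [hW, if_pos hε]
      rw [((h.ok ε hε).iter hΦ k).z_tr]
      unfold expW
      simp only [shX_apply])
    (fun ε _ θ => by
      rw [one_mul]
      by_cases hε : 0 < ε
      · simp only [hW, if_pos hε]; exact le_rfl
      · simp only [hW, if_neg hε]; exact zero_le)
  obtain ⟨R, hR, ς, hς, hG⟩ := gLe_badGas_touch hΦ hCN hf h1 h2
    (TouchFlux494.env_anti he (show γ - a' ≤ γ by linarith)) (by rw [ha']; linarith) hTW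
    (Classical.arbitrary (Ka κ k)) C R₁ N hδ'
  refine ⟨R, hR, ς, hς, fun R' ς' hR' _ hς' => ?_⟩
  have h3 := gle_pull (m' := fun ε (_ : Unit) => (lv S Φ b₀ te q (k + i) ε).m)
    (pr := fun _ _ => prj Θ k i) (C := Cm) hf (fun _ _ _ => measurable_prj k i)
    (fun ε _ hε F hF => by
      have h4 := hm ε hε F hF
      simp only [expW_zero, mul_one] at h4
      refine h4.trans (le_of_eq ?_)
      have h5 : W ε () = fun θ => expW a' ((lv S Φ b₀ te q k ε).z θ) := by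
        funext θ
        simp only [hW, if_pos hε]
      rw [h5, lintegral_withDensity_eq_lintegral_mul _ (hWm ε hε) hF]
      congr 1
      refine lintegral_congr fun θ => ?_
      rw [Pi.mul_apply, mul_comm]) hG
  refine h3.mono ?_ ⟨1, one_pos, fun ε hε _ _ _ x w _ hE => ?_⟩
  · calc Cm * (δ / (Cm + 1)) ≤ (Cm + 1) * (δ / (Cm + 1)) := by gcongr; exact le_self_add
      _ = δ := ENNReal.mul_div_cancel (by simp) hCm'
  · refine ⟨?_, badGas_mono hε.le hR' hς' hE.2⟩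
    have h6 := hE.1
    rwa [dL_prj] at h6

/-- **The structure of level `k` inside the law of level `k + i`**, with the velocity of the second
line as weight. -/
theorem BaseHyp.dom_sub (h : BaseHyp γ ρ c Λ S) (hΦ : AdmissiblePotential Φ) [Nonempty κ]
    (hb : γ ≤ b₀) (hq : ∑' m, q m ≠ ∞) (k i : ℕ) {a' : ℝ} (ha' : 0 < a') (hab : a' ≤ b₀) :
    ∃ C : ℝ≥0∞, C ≠ ∞ ∧ ∀ ε : ℝ, 0 < ε →
      Dom (γ - a') ρ ε 1 ∅ C (LaN Λ k)
        ((lv S Φ b₀ te q (k + i) ε).m.withDensity fun x =>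
          ENNReal.ofReal (1 + ‖(eL ((lv S Φ b₀ te q (k + i) ε).pr x)).1.2.2‖))
        (fun x => (lv S Φ b₀ te q k ε).b (prj Θ k i x))
        (fun x => (lv S Φ b₀ te q k ε).z (prj Θ k i x)) := by
  have ha2 : 0 < a' / 2 := by linarith
  obtain ⟨Cm, hCm, hm⟩ := h.marg (te := te) hΦ hq k i (show a' / 2 < a' by linarith) hab
  set cv : ℝ≥0∞ := ENNReal.ofReal (1 + 1 / (a' / 2)) with hcv
  set ck : ℝ≥0∞ := c * (3 * ∑' m, q m) ^ k with hck
  have hckt : ck ≠ ∞ :=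
    ENNReal.mul_ne_top h.cf (ENNReal.pow_ne_top (ENNReal.mul_ne_top (by simp) hq))
  refine ⟨cv * Cm * ck, ENNReal.mul_ne_top (ENNReal.mul_ne_top ENNReal.ofReal_ne_top hCm) hckt,
    fun ε hε => ?_⟩
  have hokk := (h.ok ε hε).iter (ε := ε) (b₀ := b₀) (te := te) (q := q) hΦ k
  have hokj := (h.ok ε hε).iter (ε := ε) (b₀ := b₀) (te := te) (q := q) hΦ (k + i)
  have hphj := (h.phys ε hε).iter (b₀ := b₀) (te := te) (q := q) (h.ok ε hε) hΦ hε.le (k + i)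
  have hdom := h.dom_lv (te := te) (q := q) hΦ hb k hε
  refine ⟨hokk.mb.comp (measurable_prj k i), hokk.mz.comp (measurable_prj k i), fun F hF => ?_⟩
  set G : Th Θ k → ℝ≥0∞ := fun θ => F ((lv S Φ b₀ te q k ε).b θ, (lv S Φ b₀ te q k ε).z θ)
    with hGd
  have hGm : Measurable G := hF.comp (hokk.mb.prodMk hokk.mz)
  have hve : Measurable fun x => ENNReal.ofReal
      (1 + ‖(eL ((lv S Φ b₀ te q (k + i) ε).pr x)).1.2.2‖) := by
    have h1 : Measurable fun x => (eL ((lv S Φ b₀ te q (k + i) ε).pr x)).1 :=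
      measurable_snd.comp hokj.mpr
    exact (measurable_const.add h1.snd.snd.norm).ennreal_ofReal
  have hGp : Measurable fun x => G (prj Θ k i x) := hGm.comp (measurable_prj k i)
  rw [lintegral_withDensity_eq_lintegral_mul _ hve hGp]
  have hstep : ∫⁻ x, ((fun x => ENNReal.ofReal
      (1 + ‖(eL ((lv S Φ b₀ te q (k + i) ε).pr x)).1.2.2‖)) * fun x => G (prj Θ k i x)) x
        ∂(lv S Φ b₀ te q (k + i) ε).m ≤
      cv * (Cm * ∫⁻ θ, G θ * expW a' ((lv S Φ b₀ te q k ε).z θ)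
        ∂(lv S Φ b₀ te q k ε).m) := by
    refine le_trans ?_ (mul_le_mul_right (hm ε hε G hGm) _)
    rw [← lintegral_const_mul' _ _ (ENNReal.ofReal_ne_top (r := 1 + 1 / (a' / 2)))]
    refine lintegral_mono_ae ?_
    filter_upwards [hphj.ve] with x hx
    have h2 := one_add_le_expW (v := (eL ((lv S Φ b₀ te q (k + i) ε).pr x)).1.2.2) ha2 hx
    calc ENNReal.ofReal (1 + ‖(eL ((lv S Φ b₀ te q (k + i) ε).pr x)).1.2.2‖) *
          G (prj Θ k i x)
        ≤ cv * expW (a' / 2) ((lv S Φ b₀ te q (k + i) ε).z x) * G (prj Θ k i x) :=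
          mul_le_mul_left h2 _
      _ = _ := by rw [hcv]; ring
  have hD := (hdom.weight (W := fun θ => expW a' ((lv S Φ b₀ te q k ε).z θ)) a'
    (c' := 1) ((measurable_expW a').comp hokk.mz) (fun θ => by rw [one_mul])
    ENNReal.one_ne_top).le F hF
  have hWk : Measurable fun θ => expW a' ((lv S Φ b₀ te q k ε).z θ) :=
    (measurable_expW a').comp hokk.mz
  have hD0 : ∫⁻ θ, F ((lv S Φ b₀ te q k ε).b θ, (lv S Φ b₀ te q k ε).z θ)
      ∂((lv S Φ b₀ te q k ε).m.withDensity fun θ => expW a' ((lv S Φ b₀ te q k ε).z θ)) =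
      ∫⁻ θ, G θ * expW a' ((lv S Φ b₀ te q k ε).z θ) ∂(lv S Φ b₀ te q k ε).m := by
    rw [lintegral_withDensity_eq_lintegral_mul _ hWk hGm]
    refine lintegral_congr fun θ => ?_
    rw [Pi.mul_apply, mul_comm]
  rw [hD0] at hD
  have hD' : ENNReal.ofReal (ε ^ 2) ^ (Fintype.card (Ka κ k) - 1) *
      ∫⁻ θ, G θ * expW a' ((lv S Φ b₀ te q k ε).z θ) ∂(lv S Φ b₀ te q k ε).m ≤
      ck * ∫⁻ b, (∫⁻ z, wgtA (γ - a') ρ ∅ z * F (b, z)) ∂(LaN Λ k) := by
    rw [one_mul] at hD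
    exact hD
  calc _ ≤ ENNReal.ofReal (ε ^ 2) ^ (Fintype.card (Ka κ k) - 1) *
        (cv * (Cm * ∫⁻ θ, G θ * expW a' ((lv S Φ b₀ te q k ε).z θ)
          ∂(lv S Φ b₀ te q k ε).m)) := mul_le_mul_right hstep _
    _ = cv * Cm * (ENNReal.ofReal (ε ^ 2) ^ (Fintype.card (Ka κ k) - 1) *
        ∫⁻ θ, G θ * expW a' ((lv S Φ b₀ te q k ε).z θ) ∂(lv S Φ b₀ te q k ε).m) := by ring
    _ ≤ cv * Cm * (ck * ∫⁻ b, (∫⁻ z, wgtA (γ - a') ρ ∅ z * F (b, z)) ∂(LaN Λ k)) :=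
        mul_le_mul_right hD' _
    _ = _ := by ring

/-- Translation invariance of the level `k` inside the level `k + i`, second line. -/
theorem tinvS_sub_e {S : SD Θ κ} (h : S.Ok) (hΦ : AdmissiblePotential Φ) (k i : ℕ) :
    TInvS (S.iter Φ ε b₀ te q (k + i)).m (S.iter Φ ε b₀ te q (k + i)).Tr
      (fun x => (S.iter Φ ε b₀ te q k).b (prj Θ k i x))
      (fun x => (S.iter Φ ε b₀ te q k).z (prj Θ k i x))
      (fun x => (eL ((S.iter Φ ε b₀ te q (k + i)).pr x)).1) where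
  mT := (h.iter hΦ (k + i)).mT
  inv := (h.iter hΦ (k + i)).inv
  mb := (h.iter hΦ k).mb.comp (measurable_prj k i)
  mz := (h.iter hΦ k).mz.comp (measurable_prj k i)
  md := (h.iter (ε := ε) (b₀ := b₀) (te := te) (q := q) hΦ (k + i)).tinv_e.md
  b_tr a x := by rw [Tr_prj, (h.iter hΦ k).b_tr]
  z_tr a x := by rw [Tr_prj, (h.iter hΦ k).z_tr]
  d_tr := (h.iter (ε := ε) (b₀ := b₀) (te := te) (q := q) hΦ (k + i)).tinv_e.d_tr

/-- Translation invariance of the level `k` inside the level `k + i`, first line. -/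
theorem tinvS_sub_d {S : SD Θ κ} (h : S.Ok) (hΦ : AdmissiblePotential Φ) (k i : ℕ) :
    TInvS (S.iter Φ ε b₀ te q (k + i)).m (S.iter Φ ε b₀ te q (k + i)).Tr
      (fun x => (S.iter Φ ε b₀ te q k).b (prj Θ k i x))
      (fun x => (S.iter Φ ε b₀ te q k).z (prj Θ k i x))
      (fun x => (dL ((S.iter Φ ε b₀ te q (k + i)).pr x)).1) where
  mT := (h.iter hΦ (k + i)).mT
  inv := (h.iter hΦ (k + i)).inv
  mb := (h.iter hΦ k).mb.comp (measurable_prj k i)
  mz := (h.iter hΦ k).mz.comp (measurable_prj k i)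
  md := (h.iter (ε := ε) (b₀ := b₀) (te := te) (q := q) hΦ (k + i)).tinv_d.md
  b_tr a x := by rw [Tr_prj, (h.iter hΦ k).b_tr]
  z_tr a x := by rw [Tr_prj, (h.iter hΦ k).z_tr]
  d_tr := (h.iter (ε := ε) (b₀ := b₀) (te := te) (q := q) hΦ (k + i)).tinv_d.d_tr

end base

/-! ## Shapes -/

section shapes

open Crest.Agent.R122.PairRep581

variable {γ β : ℝ} {ρ : Space3 → ℝ≥0∞} {S : Shp}

theorem shpOk_nonempty (h : ShpOk γ β ρ S) : Nonempty S.κ := ⟨h.pin.choose⟩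

theorem shpOk_baseHyp (h : ShpOk γ β ρ S) (hρ : Measurable ρ) :
    ∃ (c : ℝ≥0∞) (Λ : Measure (S.κ → ℝ)), IsFiniteMeasure Λ ∧ BaseHyp γ ρ c Λ (ofShp S) := by
  obtain ⟨c, Λ, hc, hΛ, hd⟩ := h.dom
  exact ⟨c, Λ, hΛ, fun ε => h.sf ε, fun ε hε => ShpOk.sd_ok h hε,
    fun ε hε => ShpOk.sd_phys h hε, fun ε hε => hd ε hε, hc, hρ⟩

/-- **Level package, near form.** Bad partitions of gas particles and the structure of the level
`k` of the shape `itS S (k + i)`, near passage of the first line. -/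
theorem badF_itS_near {f₀ : PhasePoint → ℝ} {C₀ : ℝ≥0∞} {T te' : ℝ}
    (h : ShpOk γ β ρ S) (hρ : Measurable ρ) (hΦ : AdmissiblePotential Φ)
    (hCN : VLMeas973.ClassNull Φ T) (hf : Measurable f₀)
    (h1 : ∫⁻ z, ENNReal.ofReal (f₀ z) ≤ 1) (he : Env f₀ γ ρ C₀) (hγ : 0 < γ) (hb : γ ≤ b₀)
    (hq : ∑' m, q m ≠ ∞) (hte : te' ≤ T) (k i : ℕ) (C R₁ : ℝ) (N : ℕ) :
    BadF f₀ (itS S Φ b₀ te q (k + i)).mI
      (fun R ς ε _ _ x w => Near Φ ε R₁ te' w (dL ((itS S Φ b₀ te q (k + i)).th ε x)).1 ∧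
        BadGas Φ T C R ς ε N 1 Finset.univ ((itS S Φ b₀ te q k).b ε (prj S.Θ k i x))
          ((itS S Φ b₀ te q k).z ε (prj S.Θ k i x)) w) := by
  have := shpOk_nonempty h
  obtain ⟨c, Λ, hΛ, hB⟩ := shpOk_baseHyp h hρ
  exact badF_level_near (te := te) hB hΦ hCN hf h1 he hγ hb hq hte k i C R₁ N

/-- **Level package**: the structure of the level `k` inside the law of the shape
`itS S (k + i)`, with the velocity of the second line as weight. -/
theorem dom_sub_itS (h : ShpOk γ β ρ S) (hρ : Measurable ρ) (hΦ : AdmissiblePotential Φ)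
    (hb : γ ≤ b₀) (hq : ∑' m, q m ≠ ∞) (k i : ℕ) {a' : ℝ} (ha' : 0 < a') (hab : a' ≤ b₀) :
    ∃ (C : ℝ≥0∞) (Λ : Measure (Ka S.κ k → ℝ)), C ≠ ∞ ∧ IsFiniteMeasure Λ ∧ ∀ ε : ℝ, 0 < ε →
      Dom (γ - a') ρ ε 1 ∅ C Λ
        (((itS S Φ b₀ te q (k + i)).m ε).withDensity fun x =>
          ENNReal.ofReal (1 + ‖(eL ((itS S Φ b₀ te q (k + i)).th ε x)).1.2.2‖))
        (fun x => (itS S Φ b₀ te q k).b ε (prj S.Θ k i x))
        (fun x => (itS S Φ b₀ te q k).z ε (prj S.Θ k i x)) := by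
  have := shpOk_nonempty h
  obtain ⟨c, Λ, hΛ, hB⟩ := shpOk_baseHyp h hρ
  obtain ⟨C, hC, hD⟩ := hB.dom_sub (te := te) (q := q) hΦ hb hq k i ha' hab
  exact ⟨C, LaN Λ k, hC, instFinLaN Λ k, hD⟩

/-- Translation invariance of the level `k` inside `itS S (k + i)`, second line. -/
theorem tinvS_sub_itS_e (h : ShpOk γ β ρ S) (hΦ : AdmissiblePotential Φ) (hε : 0 < ε) (k i : ℕ) :
    TInvS ((itS S Φ b₀ te q (k + i)).m ε) (itS S Φ b₀ te q (k + i)).Tr
      (fun x => (itS S Φ b₀ te q k).b ε (prj S.Θ k i x))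
      (fun x => (itS S Φ b₀ te q k).z ε (prj S.Θ k i x))
      (fun x => (eL ((itS S Φ b₀ te q (k + i)).th ε x)).1) := by
  have h1 := tinvS_sub_e (ε := ε) (b₀ := b₀) (te := te) (q := q) (ShpOk.sd_ok h hε) hΦ k i
  rw [iter_Tr] at h1
  exact h1

/-- Translation invariance of the level `k` inside `itS S (k + i)`, first line. -/
theorem tinvS_sub_itS_d (h : ShpOk γ β ρ S) (hΦ : AdmissiblePotential Φ) (hε : 0 < ε) (k i : ℕ) :
    TInvS ((itS S Φ b₀ te q (k + i)).m ε) (itS S Φ b₀ te q (k + i)).Tr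
      (fun x => (itS S Φ b₀ te q k).b ε (prj S.Θ k i x))
      (fun x => (itS S Φ b₀ te q k).z ε (prj S.Θ k i x))
      (fun x => (dL ((itS S Φ b₀ te q (k + i)).th ε x)).1) := by
  have h1 := tinvS_sub_d (ε := ε) (b₀ := b₀) (te := te) (q := q) (ShpOk.sd_ok h hε) hΦ k i
  rw [iter_Tr] at h1
  exact h1

end shapes

end Crest.Agent.R122.Marg494

end
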