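import Crest.Agent.R122.LinkGate2_424
import Crest.Agent.R122.LN2Touch_473

/-!
# Row 122, H11 (helper416): runs from translation invariant structures

The structure measure `m` is translation invariant (infinite mass), the run is localised by the gas
(mass transport).

* `evo_shift`, `path_shW` : the evolution with births commutes with translations.
* `runM_tail_inv` : `∫ da gcE (runM (Z + a)) ≤ η_L exp (2 β kin Z)`.
* `gLe_run_invW` : runs from a world of a translation invariant structure, pinned moment.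
* `gLe_runS_inv` : runs from the groups of members; `gLe_run_inv` : runs from finitely many lines.
-/

set_option autoImplicit false
set_option linter.unusedSectionVars false
set_option maxHeartbeats 400000

open MeasureTheory Set Filter Topology
open scoped Classical ENNReal
open Crest.AnalysisR.Kinetic
open Crest.Agent.R122.Flow671 Crest.Agent.R122.Loc45 Crest.Agent.R122.Ins45
open Crest.Agent.R122.Vol365 Crest.Agent.R122.Causal291
open Crest.Agent.R122.GC311 Crest.Agent.R122.EDefs602 Crest.Agent.R122.LinkM547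
open Crest.Agent.R122.LN2 Crest.Agent.R122.Gate424

noncomputable section

namespace Crest.Agent.R122.RunInv416

/-! ## Translations of the evolution with births -/

section evo

variable {Φ : Space3 → ℝ} {ε : ℝ} {ι : Type*} [Fintype ι]

theorem flowA_shift (hΦ : AdmissiblePotential Φ) (hε : 0 < ε) (A : Finset ι) (t : ℝ) (a : Space3)
    (Z : ι → PhasePoint) : flowA Φ ε A t (Loc45.shiftX a Z) = Loc45.shiftX a (flowA Φ ε A t Z) := by
  funext i
  by_cases h : i ∈ A
  · rw [flowA_mem A t _ h]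
    have h1 := flow_shiftX hΦ hε a t (fun j : A => Z j)
    have h2 : (fun j : A => Loc45.shiftX a Z j) = Loc45.shiftX a (fun j : A => Z j) := rfl
    rw [h2, h1]
    change _ = ((flowA Φ ε A t Z i).1 + a, (flowA Φ ε A t Z i).2)
    rw [flowA_mem A t _ h]
    rfl
  · rw [flowA_not_mem A t _ h]
    change _ = ((flowA Φ ε A t Z i).1 + a, (flowA Φ ε A t Z i).2)
    rw [flowA_not_mem A t _ h]
    change ((Z i).1 + a + t • (Z i).2, (Z i).2) = ((Z i).1 + t • (Z i).2 + a, (Z i).2)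
    rw [add_right_comm]

theorem evoN_shift (hΦ : AdmissiblePotential Φ) (hε : 0 < ε) (b : ι → ℝ) (a : Space3) (n : ℕ) :
    ∀ (s t : ℝ) (Z : ι → PhasePoint), evoN Φ ε b n s t (Loc45.shiftX a Z) =
      Loc45.shiftX a (evoN Φ ε b n s t Z) := by
  induction n with
  | zero =>
    intro s t Z
    exact flowA_shift hΦ hε _ _ a Z
  | succ n ih =>
    intro s t Z
    simp only [evoN]
    by_cases h : nxt b s t < t
    · rw [if_pos h, if_pos h, flowA_shift hΦ hε, ih]
    · rw [if_neg h, if_neg h, flowA_shift hΦ hε]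

/-- The evolution with births commutes with translations. -/
theorem evo_shift (hΦ : AdmissiblePotential Φ) (hε : 0 < ε) (b : ι → ℝ) (a : Space3) (s t : ℝ)
    (Z : ι → PhasePoint) : evo Φ ε b s t (Loc45.shiftX a Z) =
      Loc45.shiftX a (evo Φ ε b s t Z) := evoN_shift hΦ hε b a _ s t Z

end evo

variable {Φ : Space3 → ℝ} {ε : ℝ}

section world

variable {G : Type} [Fintype G]

/-- Translation of a marked world. -/
def shW (a : Space3) (Z : MW G) : MW G := ⟨Z.b, Loc45.shiftX a Z.z, Z.m⟩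

theorem path_shW (hΦ : AdmissiblePotential Φ) (hε : 0 < ε) (a : Space3) (Z : MW G) (r : ℝ)
    (q : G) : ((shW a Z).path Φ ε r q).1 = (Z.path Φ ε r q).1 + a := by
  unfold MW.path shW
  rw [evo_shift hΦ hε]
  rfl

theorem kin_shW (a : Space3) (Z : MW G) : kin (shW a Z).z = kin Z.z := rfl

end world

/-! ## The first cluster -/

/-- mass of the first cluster of a run starting at the point `x` -/
def BlP (Φ : Space3 → ℝ) (f₀ : PhasePoint → ℝ) (ε β T : ℝ) (s : Step) (r : ℝ) (x : Space3) :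
    ℝ≥0∞ :=
  ∫⁻ V : Config s.k, gcWeight f₀ ε s.k V * ENNReal.ofReal (Real.exp (2 * β * kin V)) *
    (if AllConn (NContact Φ ε 0 T V) ∧ dist (flow Φ ε r V s.e).1 x ≤ 3 * ε then 1 else 0)

theorem measurable_blPI (hΦ : AdmissiblePotential Φ) (hε : 0 < ε) {f₀ : PhasePoint → ℝ}
    (hf : Measurable f₀) (β T : ℝ) (s : Step) (r : ℝ) :
    Measurable fun p : Space3 × Config s.k => gcWeight f₀ ε s.k p.2 *
      ENNReal.ofReal (Real.exp (2 * β * kin p.2)) *
      (if AllConn (NContact Φ ε 0 T p.2) ∧ dist (flow Φ ε r p.2 s.e).1 p.1 ≤ 3 * ε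
        then (1 : ℝ≥0∞) else 0) := by
  refine Measurable.mul (((measurable_gcWeight hf ε s.k).comp measurable_snd).mul ?_) ?_
  · exact ((Real.measurable_exp.comp (measurable_kin.const_mul (2 * β))).ennreal_ofReal).comp
      measurable_snd
  · refine Measurable.ite (MeasurableSet.inter (measurable_snd (measurableSet_allConn hΦ hε T s.k))
      ?_) measurable_const measurable_const
    refine measurableSet_le (Measurable.dist ?_ measurable_fst) measurable_const
    exact (((measurable_pi_apply s.e).comp ((measurable_flow (ι := Fin s.k) hΦ hε r).comp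
      measurable_snd))).fst

theorem measurable_blP (hΦ : AdmissiblePotential Φ) (hε : 0 < ε) {f₀ : PhasePoint → ℝ}
    (hf : Measurable f₀) (β T : ℝ) (s : Step) (r : ℝ) : Measurable (BlP Φ f₀ ε β T s r) :=
  (measurable_blPI hΦ hε hf β T s r).lintegral_prod_right'

/-- First cluster, integrated over the starting point. -/
theorem lintegral_blP_le (hΦ : AdmissiblePotential Φ) (hε : 0 < ε) {f₀ : PhasePoint → ℝ}
    (hf : Measurable f₀) {β T : ℝ} {C₂ : ℝ≥0∞} (s : Step) (r : ℝ)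
    (hc : ∫⁻ V : Config s.k, gcWeight f₀ ε s.k V * ENNReal.ofReal (Real.exp (2 * β * kin V)) *
          (if AllConn (NContact Φ ε 0 T V) then 1 else 0) ≤
        C₂ * ENNReal.ofReal ε ^ (2 * (s.k - 1))) :
    ∫⁻ x, BlP Φ f₀ ε β T s r x ≤
      (ENNReal.ofReal (4 / 3 * Real.pi) * C₂) * ENNReal.ofReal ε ^ (2 * (s.k - 1)) *
        ENNReal.ofReal (3 * ε) ^ 3 := by
  have hm := measurable_blPI hΦ hε hf β T s r
  have hball : ∀ a : Space3, ∫⁻ x : Space3, (if dist a x ≤ 3 * ε then (1 : ℝ≥0∞) else 0) =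
      ENNReal.ofReal (4 / 3 * Real.pi) * ENNReal.ofReal (3 * ε) ^ 3 := by
    intro a
    have e1 : (fun x : Space3 => if dist a x ≤ 3 * ε then (1 : ℝ≥0∞) else 0) =
        (Metric.closedBall a (3 * ε)).indicator 1 := by
      funext x
      by_cases h : dist a x ≤ 3 * ε
      · rw [if_pos h, indicator_of_mem (Metric.mem_closedBall.2 (by rwa [dist_comm]))]
        rfl
      · rw [if_neg h, indicator_of_notMem fun h' => h (by
          rw [dist_comm]
          exact Metric.mem_closedBall.1 h')]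
    rw [e1, lintegral_indicator_one Metric.isClosed_closedBall.measurableSet,
      EuclideanSpace.volume_closedBall_fin_three, mul_comm]
    congr 2
    ring
  calc ∫⁻ x, BlP Φ f₀ ε β T s r x
      = ∫⁻ V : Config s.k, ∫⁻ x : Space3, gcWeight f₀ ε s.k V *
          ENNReal.ofReal (Real.exp (2 * β * kin V)) *
          (if AllConn (NContact Φ ε 0 T V) ∧ dist (flow Φ ε r V s.e).1 x ≤ 3 * ε
            then (1 : ℝ≥0∞) else 0) := lintegral_lintegral_swap hm.aemeasurable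
    _ = ∫⁻ V : Config s.k, (gcWeight f₀ ε s.k V * ENNReal.ofReal (Real.exp (2 * β * kin V)) *
          (if AllConn (NContact Φ ε 0 T V) then 1 else 0)) *
            (ENNReal.ofReal (4 / 3 * Real.pi) * ENNReal.ofReal (3 * ε) ^ 3) := by
        refine lintegral_congr fun V => ?_
        by_cases hV : AllConn (NContact Φ ε 0 T V)
        · have hmx : Measurable fun x : Space3 =>
              (if dist (flow Φ ε r V s.e).1 x ≤ 3 * ε then (1 : ℝ≥0∞) else 0) :=
            Measurable.ite (measurableSet_le (measurable_const.dist measurable_id)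
              measurable_const) measurable_const measurable_const
          simp only [hV, true_and, if_true, mul_one]
          rw [lintegral_const_mul _ hmx, hball]
        · simp [hV]
    _ = (∫⁻ V : Config s.k, gcWeight f₀ ε s.k V * ENNReal.ofReal (Real.exp (2 * β * kin V)) *
          (if AllConn (NContact Φ ε 0 T V) then 1 else 0)) *
            (ENNReal.ofReal (4 / 3 * Real.pi) * ENNReal.ofReal (3 * ε) ^ 3) :=
        lintegral_mul_const' _ _ (ENNReal.mul_ne_top ENNReal.ofReal_ne_top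
          (ENNReal.pow_ne_top ENNReal.ofReal_ne_top))
    _ ≤ (C₂ * ENNReal.ofReal ε ^ (2 * (s.k - 1))) *
          (ENNReal.ofReal (4 / 3 * Real.pi) * ENNReal.ofReal (3 * ε) ^ 3) :=
        mul_le_mul_left hc _
    _ = _ := by ring

/-- bound of one grid run from a world whose current particle is at `x r` at time `r`, kinetic
energy `E` -/
def UbP (Φ : Space3 → ℝ) (f₀ : PhasePoint → ℝ) (ε β T : ℝ) (C : ℝ≥0∞) (N : ℕ) (E : ℝ)
    (x : ℝ → Space3) : List (Step × ℝ) → ℝ≥0∞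
  | [] => ∞
  | (s, r) :: l' => ENNReal.ofReal (Real.exp (-(2 * β * (N - 1)))) *
      activity ε ^ (tot ((s, r) :: l')) *
      (l'.map fun p => C * ENNReal.ofReal ε ^ (2 * (p.1.k - 1)) *
        ENNReal.ofReal (3 * ε) ^ 3).prod *
      (ENNReal.ofReal (Real.exp (2 * β * E)) * BlP Φ f₀ ε β T s r (x r))

theorem measurable_ubP (hΦ : AdmissiblePotential Φ) (hε : 0 < ε) {f₀ : PhasePoint → ℝ}
    (hf : Measurable f₀) (β T : ℝ) (C : ℝ≥0∞) (N : ℕ) (E : ℝ) (x : ℝ → Space3)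
    (L : List (Step × ℝ)) :
    Measurable fun a : Space3 => UbP Φ f₀ ε β T C N E (fun r => x r + a) L := by
  rcases L with _ | ⟨⟨s, r⟩, l'⟩
  · exact measurable_const
  · have h1 : Measurable fun a : Space3 => BlP Φ f₀ ε β T s r (x r + a) :=
      (measurable_blP hΦ hε hf β T s r).comp (measurable_const.add measurable_id)
    exact (h1.const_mul _).const_mul _

/-- Pointwise bound. -/
theorem gcE_GI_world_le (hΦ : AdmissiblePotential Φ) {f₀ : PhasePoint → ℝ} (hf : Measurable f₀)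
    (h1 : ∫⁻ z, ENNReal.ofReal (f₀ z) ≤ 1) (hε : 0 < ε) {T β : ℝ} (hβ : 0 ≤ β) {K : ℕ}
    {C : ℝ≥0∞} (hCtop : C ≠ ∞)
    (hC : ∀ k ≤ K, ∀ (e : Fin k) (r : ℝ), 0 ≤ r → r ≤ T → ∀ a : Space3,
      ∫⁻ V : Config k, gcWeight f₀ ε k V * ENNReal.ofReal (Real.exp (2 * β * kin V)) *
          (if AllConn (NContact Φ ε 0 T V) ∧ dist (flow Φ ε r V e).1 a ≤ 3 * ε then 1 else 0) ≤
        C * ENNReal.ofReal ε ^ (2 * (k - 1)) * ENNReal.ofReal (3 * ε) ^ 3)
    {G : Type} [Fintype G] (Z : MW G) (q : G) (N : ℕ) (L : List (Step × ℝ))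
    (hk : ∀ p ∈ L, 1 ≤ p.1.k ∧ p.1.k ≤ K) (ht : ∀ p ∈ L, p.2 ∈ Icc (0 : ℝ) T) :
    gcE f₀ ε (fun n w => ∑ ι : Fin (tot L) ↪ Fin n,
      GI Φ ε T G Z q N L (fun i => w (ι i))) ≤
        UbP Φ f₀ ε β T C N (kin Z.z) (fun r => (Z.path Φ ε r q).1) L := by
  rcases L with _ | ⟨⟨s, r⟩, l'⟩
  · exact le_top
  refine (gcE_sum_emb_le hf h1 ε (GI Φ ε T G Z q N _)
    (measurable_GI hΦ hε T G Z q N _)).trans ?_
  have hle : ∀ V : Config (tot ((s, r) :: l')), GI Φ ε T G Z q N ((s, r) :: l') V ≤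
      ENNReal.ofReal (Real.exp (2 * β * (kin Z.z - (N - 1)))) *
        (ENNReal.ofReal (Real.exp (2 * β * kin V)) *
          (if Ch Φ ε T (3 * ε) ((s, r) :: l') G Z q V then (1 : ℝ≥0∞) else 0)) := by
    intro V
    unfold GI
    by_cases h : Ch Φ ε T (3 * ε) ((s, r) :: l') G Z q V ∧ (N : ℝ) - 1 ≤ kin Z.z + kin V
    · rw [if_pos h, if_pos h.1, mul_one, ← ENNReal.ofReal_mul (Real.exp_pos _).le, ← Real.exp_add,
        ENNReal.one_le_ofReal, Real.one_le_exp_iff]
      have := h.2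
      have e : 2 * β * (kin Z.z - (N - 1)) + 2 * β * kin V =
        2 * β * (kin Z.z + kin V - (N - 1)) := by ring
      rw [e]
      refine mul_nonneg (by positivity) (by linarith)
    · rw [if_neg h]; exact bot_le
  have hstep := lintegral_ch_cons hΦ hf hε (ρ := 3 * ε) (κ := 2 * β) hCtop hC s r l'
    (fun p hp => (hk p (List.mem_cons_of_mem _ hp)).2)
    (fun p hp => ht p (List.mem_cons_of_mem _ hp)) G Z q
  have hee : ENNReal.ofReal (Real.exp (2 * β * (kin Z.z - (N - 1)))) =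
      ENNReal.ofReal (Real.exp (-(2 * β * (N - 1)))) *
        ENNReal.ofReal (Real.exp (2 * β * kin Z.z)) := by
    rw [← ENNReal.ofReal_mul (Real.exp_pos _).le, ← Real.exp_add]
    congr 2
    ring
  calc activity ε ^ tot ((s, r) :: l') * ∫⁻ V : Config (tot ((s, r) :: l')),
        gcWeight f₀ ε (tot ((s, r) :: l')) V * GI Φ ε T G Z q N ((s, r) :: l') V
      ≤ activity ε ^ tot ((s, r) :: l') * ∫⁻ V : Config (tot ((s, r) :: l')),
          ENNReal.ofReal (Real.exp (2 * β * (kin Z.z - (N - 1)))) *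
          (gcWeight f₀ ε (tot ((s, r) :: l')) V * (ENNReal.ofReal (Real.exp (2 * β * kin V)) *
          (if Ch Φ ε T (3 * ε) ((s, r) :: l') G Z q V then (1 : ℝ≥0∞) else 0))) := by
        refine mul_le_mul_right (lintegral_mono fun V => ?_) _
        calc gcWeight f₀ ε (tot ((s, r) :: l')) V * GI Φ ε T G Z q N ((s, r) :: l') V
            ≤ gcWeight f₀ ε (tot ((s, r) :: l')) V *
              (ENNReal.ofReal (Real.exp (2 * β * (kin Z.z - (N - 1)))) *
              (ENNReal.ofReal (Real.exp (2 * β * kin V)) *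
              (if Ch Φ ε T (3 * ε) ((s, r) :: l') G Z q V
                then (1 : ℝ≥0∞) else 0))) := mul_le_mul_right (hle V) _
          _ = _ := by ring
    _ = ENNReal.ofReal (Real.exp (2 * β * (kin Z.z - (N - 1)))) *
          (activity ε ^ tot ((s, r) :: l') *
          ∫⁻ V : Config (tot ((s, r) :: l')), gcWeight f₀ ε (tot ((s, r) :: l')) V *
            (ENNReal.ofReal (Real.exp (2 * β * kin V)) *
            (if Ch Φ ε T (3 * ε) ((s, r) :: l') G Z q V
              then (1 : ℝ≥0∞) else 0))) := by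
        rw [lintegral_const_mul' _ _ ENNReal.ofReal_ne_top]
        ring
    _ ≤ ENNReal.ofReal (Real.exp (2 * β * (kin Z.z - (N - 1)))) *
          (activity ε ^ tot ((s, r) :: l') * (BlP Φ f₀ ε β T s r (Z.path Φ ε r q).1 *
          (l'.map fun p => C * ENNReal.ofReal ε ^ (2 * (p.1.k - 1)) *
            ENNReal.ofReal (3 * ε) ^ 3).prod)) :=
        mul_le_mul_right (mul_le_mul_right hstep _) _
    _ = UbP Φ f₀ ε β T C N (kin Z.z) (fun r => (Z.path Φ ε r q).1) ((s, r) :: l') := by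
        rw [hee]
        unfold UbP
        ring

/-- Integral of the bound over the translations. -/
theorem lintegral_ubP_le (hΦ : AdmissiblePotential Φ) (hε : 0 < ε) {f₀ : PhasePoint → ℝ}
    (hf : Measurable f₀) {β T : ℝ} {K : ℕ} {C C₁ C₂ : ℝ≥0∞}
    (hCtop : C ≠ ∞) (hC₁ : ENNReal.ofReal (4 / 3 * Real.pi) = C₁)
    (hc : ∀ k, 1 ≤ k → k ≤ K → ∫⁻ V : Config k, gcWeight f₀ ε k V *
        ENNReal.ofReal (Real.exp (2 * β * kin V)) *
          (if AllConn (NContact Φ ε 0 T V) then 1 else 0) ≤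
        C₂ * ENNReal.ofReal ε ^ (2 * (k - 1))) (N : ℕ) (E : ℝ) (x : ℝ → Space3)
    (L : List (Step × ℝ)) (hL : L ≠ []) (hk : ∀ p ∈ L, 1 ≤ p.1.k ∧ p.1.k ≤ K) :
    ∫⁻ a : Space3, UbP Φ f₀ ε β T C N E (fun r => x r + a) L ≤
      ENNReal.ofReal (Real.exp (2 * β * E)) * (ENNReal.ofReal (Real.exp (-(2 * β * (N - 1)))) *
        (27 * (C + C₁ * C₂) * ENNReal.ofReal ε) ^ L.length) := by
  rcases L with _ | ⟨⟨s, r⟩, l'⟩
  · exact absurd rfl hL
  have hks := hk (s, r) (List.mem_cons_self ..)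
  have h1 := lintegral_blP_le hΦ hε hf s r (hc s.k hks.1 hks.2)
  rw [hC₁] at h1
  have hPtop : (l'.map fun p => C * ENNReal.ofReal ε ^ (2 * (p.1.k - 1)) *
        ENNReal.ofReal (3 * ε) ^ 3).prod ≠ ∞ := by
    refine list_prod_ne_top _ ?_
    intro x hx
    rw [List.mem_map] at hx
    obtain ⟨p, -, rfl⟩ := hx
    exact ENNReal.mul_ne_top (ENNReal.mul_ne_top hCtop (ENNReal.pow_ne_top ENNReal.ofReal_ne_top))
      (ENNReal.pow_ne_top ENNReal.ofReal_ne_top)
  have hc0 : ENNReal.ofReal (Real.exp (-(2 * β * (N - 1)))) *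
      activity ε ^ (tot ((s, r) :: l')) *
      (l'.map fun p => C * ENNReal.ofReal ε ^ (2 * (p.1.k - 1)) *
        ENNReal.ofReal (3 * ε) ^ 3).prod ≠ ∞ := by
    refine ENNReal.mul_ne_top (ENNReal.mul_ne_top ENNReal.ofReal_ne_top
      (ENNReal.pow_ne_top ?_)) hPtop
    unfold activity
    exact ENNReal.ofReal_ne_top
  change ∫⁻ a : Space3, ENNReal.ofReal (Real.exp (-(2 * β * (N - 1)))) *
      activity ε ^ (tot ((s, r) :: l')) *
      (l'.map fun p => C * ENNReal.ofReal ε ^ (2 * (p.1.k - 1)) *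
        ENNReal.ofReal (3 * ε) ^ 3).prod *
      (ENNReal.ofReal (Real.exp (2 * β * E)) * BlP Φ f₀ ε β T s r (x r + a)) ≤ _
  rw [lintegral_const_mul' _ _ hc0, lintegral_const_mul' _ _ ENNReal.ofReal_ne_top,
    lintegral_add_left_eq_self (fun y => BlP Φ f₀ ε β T s r y) (x r)]
  have ha : activity ε * ENNReal.ofReal (3 * ε) ^ 3 = 27 * ENNReal.ofReal ε := by
    unfold activity
    rw [← ENNReal.ofReal_pow (by positivity), ← ENNReal.ofReal_mul (by positivity)]
    have : (ε ^ 2)⁻¹ * (3 * ε) ^ 3 = 27 * ε := by field_simp; ring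
    rw [this, ENNReal.ofReal_mul (by norm_num)]
    congr 1
    exact ENNReal.ofReal_ofNat 27
  have h2 := activity_pow_mul hε hks.1
  have h3 := activity_tot (C := C) hε l' fun p hp => (hk p (List.mem_cons_of_mem _ hp)).1
  calc ENNReal.ofReal (Real.exp (-(2 * β * (N - 1)))) * activity ε ^ (tot ((s, r) :: l')) *
      (l'.map fun p => C * ENNReal.ofReal ε ^ (2 * (p.1.k - 1)) *
        ENNReal.ofReal (3 * ε) ^ 3).prod *
      (ENNReal.ofReal (Real.exp (2 * β * E)) * ∫⁻ y, BlP Φ f₀ ε β T s r y)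
      ≤ ENNReal.ofReal (Real.exp (-(2 * β * (N - 1)))) * activity ε ^ (tot ((s, r) :: l')) *
      (l'.map fun p => C * ENNReal.ofReal ε ^ (2 * (p.1.k - 1)) *
        ENNReal.ofReal (3 * ε) ^ 3).prod *
      (ENNReal.ofReal (Real.exp (2 * β * E)) *
        ((C₁ * C₂) * ENNReal.ofReal ε ^ (2 * (s.k - 1)) * ENNReal.ofReal (3 * ε) ^ 3)) :=
        mul_le_mul_right (mul_le_mul_right h1 _) _
    _ = ENNReal.ofReal (Real.exp (2 * β * E)) * (ENNReal.ofReal (Real.exp (-(2 * β * (N - 1)))) *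
        (activity ε ^ tot l' * (l'.map fun p => C * ENNReal.ofReal ε ^ (2 * (p.1.k - 1)) *
        ENNReal.ofReal (3 * ε) ^ 3).prod) * (activity ε ^ s.k *
          ENNReal.ofReal ε ^ (2 * (s.k - 1)) * (C₁ * C₂) * ENNReal.ofReal (3 * ε) ^ 3)) := by
        change ENNReal.ofReal (Real.exp (-(2 * β * (N - 1)))) * activity ε ^ (s.k + tot l') * _ *
          _ = _
        rw [pow_add]
        ring
    _ = ENNReal.ofReal (Real.exp (2 * β * E)) * (ENNReal.ofReal (Real.exp (-(2 * β * (N - 1)))) *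
        ((27 * C * ENNReal.ofReal ε) ^ l'.length * (27 * (C₁ * C₂) * ENNReal.ofReal ε))) := by
        rw [h3, h2]
        have : activity ε * (C₁ * C₂) * ENNReal.ofReal (3 * ε) ^ 3 =
          27 * (C₁ * C₂) * ENNReal.ofReal ε := by
          calc activity ε * (C₁ * C₂) * ENNReal.ofReal (3 * ε) ^ 3
              = (activity ε * ENNReal.ofReal (3 * ε) ^ 3) * (C₁ * C₂) := by ring
            _ = _ := by rw [ha]; ring
        rw [this]
        ring
    _ ≤ ENNReal.ofReal (Real.exp (2 * β * E)) * (ENNReal.ofReal (Real.exp (-(2 * β * (N - 1)))) *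
        ((27 * (C + C₁ * C₂) * ENNReal.ofReal ε) ^ l'.length *
          (27 * (C + C₁ * C₂) * ENNReal.ofReal ε))) := by
        refine mul_le_mul_right (mul_le_mul_right (mul_le_mul' (pow_le_pow_left' ?_ _) ?_) _) _
        · exact mul_le_mul_left (mul_le_mul_right le_self_add _) _
        · exact mul_le_mul_left (mul_le_mul_right le_add_self _) _
    _ = _ := by rw [← pow_succ]; rfl

/-- **Tail of the runs from a world, integrated over the translations of the world** (the run is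
localised by the gas). -/
theorem runM_tail_inv (hΦ : AdmissiblePotential Φ) {β : ℝ} (hβ : 0 < β)
    (T A : ℝ) (hT : 0 ≤ T) (hA : 0 ≤ A) (K K0 : ℕ) {f₀ : PhasePoint → ℝ} (hf : Measurable f₀)
    (h1 : ∫⁻ z, ENNReal.ofReal (f₀ z) ≤ 1) {env : Space3 → ℝ≥0∞} (hE : EnvB β f₀ env A) :
    ∃ η : ℕ → ℝ≥0∞, Tendsto η atTop (𝓝 0) ∧ (∀ L, η L ≠ ∞) ∧
      ∀ L : ℕ, 1 ≤ L → ∃ ε₀ : ℝ, 0 < ε₀ ∧ ∀ ε : ℝ, 0 < ε → ε < ε₀ →
        ∀ (G : Type) [Fintype G], Fintype.card G ≤ K0 → ∀ (Z : MW G) (q : G),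
        ∫⁻ a : Space3, gcE f₀ ε (fun n w => runM Φ ε T K L G (shW a Z) q n w) ≤
          η L * ENNReal.ofReal (Real.exp (2 * β * kin Z.z)) := by
  have hfC : ∀ z : PhasePoint, f₀ z ≤ A * Real.exp (-(2 * β * ‖z.2‖ ^ 2)) := by
    intro z
    have h2 : ENNReal.ofReal (f₀ z) ≤ ENNReal.ofReal (A * Real.exp (-(2 * β * ‖z.2‖ ^ 2))) := by
      rw [ENNReal.ofReal_mul hA]
      exact (hE.bound z).trans (mul_le_mul_left (hE.le _) _)
    exact (ENNReal.ofReal_le_ofReal_iff (mul_nonneg hA (Real.exp_pos _).le)).1 h2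
  obtain ⟨C, hCtop, hC⟩ := step_bound hΦ hβ T A hA K
  obtain ⟨C', hC'top, hC'⟩ := conn_bound hΦ hβ T A hT K
  set C₁ : ℝ≥0∞ := ENNReal.ofReal (4 / 3 * Real.pi) with hC₁
  have hC₁top : C₁ ≠ ∞ := ENNReal.ofReal_ne_top
  set C₂ : ℝ≥0∞ := C' * ∫⁻ x, env x with hC₂
  have hC₂top : C₂ ≠ ∞ := ENNReal.mul_ne_top hC'top hE.int_ne
  have hB := stabB_nonneg Φ
  obtain ⟨η, hη, hηtop, hsum⟩ := grid_sum hB hβ T hT K K0 (C := C + C₁ * C₂)
    (ENNReal.add_ne_top.2 ⟨hCtop, ENNReal.mul_ne_top hC₁top hC₂top⟩)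
  refine ⟨η, hη, hηtop, ?_⟩
  intro L hL
  refine ⟨1 / (L + 1), by positivity, ?_⟩
  intro ε hε hεL G _ hG Z q
  have hεL' : ε * (L + 1) ≤ 1 := by
    have : (0 : ℝ) < (L : ℝ) + 1 := by positivity
    have := (lt_div_iff₀ this).1 hεL
    linarith
  have hε1 : ε ≤ 1 := by
    have : (1 : ℝ) / (L + 1) ≤ 1 := by
      rw [div_le_one (by positivity)]
      have : (0 : ℝ) ≤ (L : ℝ) := by positivity
      linarith
    linarith
  have hCf : ∀ k ≤ K, ∀ (e : Fin k) (r : ℝ), 0 ≤ r → r ≤ T → ∀ a : Space3,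
      ∫⁻ V : Config k, gcWeight f₀ ε k V * ENNReal.ofReal (Real.exp (2 * β * kin V)) *
        (if AllConn (NContact Φ ε 0 T V) ∧ dist (flow Φ ε r V e).1 a ≤ 3 * ε then 1 else 0) ≤
      C * ENNReal.ofReal ε ^ (2 * (k - 1)) * ENNReal.ofReal (3 * ε) ^ 3 := by
    intro k hk e r h0 hT' a
    exact hC f₀ hfC ε hε hε1 k hk e r h0 hT' a (3 * ε) (by positivity)
  have hconn : ∀ k, 1 ≤ k → k ≤ K → ∫⁻ V : Config k, gcWeight f₀ ε k V *
      ENNReal.ofReal (Real.exp (2 * β * kin V)) *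
        (if AllConn (NContact Φ ε 0 T V) then 1 else 0) ≤
      C₂ * ENNReal.ofReal ε ^ (2 * (k - 1)) := by
    intro k h1' hk
    refine (hC' f₀ env hE ε hε hε1 k h1' hk).trans (le_of_eq ?_)
    rw [hC₂]
    ring
  set B := stabB Φ with hBdef
  set cG : ℝ := (Fintype.card G : ℝ) with hcG
  have hcG1 : cG ≤ (K0 : ℝ) := by rw [hcG]; exact_mod_cast hG
  have hgl : ∀ (N : ℕ) (σ : Sym (Fin (mN T ε B cG L K N)) L) (st : List.Vector (StepK K) L),
      (∀ p ∈ gl (ε / MN B cG L K N) σ st, 1 ≤ p.1.k ∧ p.1.k ≤ K) ∧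
      (∀ p ∈ gl (ε / MN B cG L K N) σ st, p.2 ∈ Icc (0 : ℝ) T) ∧
      gl (ε / MN B cG L K N) σ st ≠ [] := by
    intro N σ st
    refine ⟨fun p hp => ⟨(mem_gl hp).1, (mem_gl hp).2.1⟩, fun p hp => ?_, ?_⟩
    · have hM0 : 0 < MN B cG L K N := lt_of_lt_of_le one_pos (one_le_MN _ _ _ _ _)
      have hδ : 0 < ε / MN B cG L K N := div_pos hε hM0
      obtain ⟨-, -, a, ha⟩ := mem_gl hp
      rw [ha]
      refine ⟨by positivity, ?_⟩
      have h3 : (a.1 : ℕ) ≤ ⌊T / (ε / MN B cG L K N)⌋₊ := by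
        have := a.2
        unfold mN at this
        omega
      calc ε / MN B cG L K N * ((a.1 : ℕ) : ℝ)
          ≤ ε / MN B cG L K N * (⌊T / (ε / MN B cG L K N)⌋₊ : ℝ) := by
            refine mul_le_mul_of_nonneg_left ?_ hδ.le
            exact_mod_cast h3
        _ ≤ T := (rd_bounds hδ hT).2.1
    · intro h
      have := length_gl (ε / MN B cG L K N) σ st
      rw [h] at this
      simp at this
      omega
  have hmeas : ∀ (W : MW G) (n N : ℕ) (σ : Sym (Fin (mN T ε B cG L K N)) L)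
      (st : List.Vector (StepK K) L), Measurable fun w : Config n =>
        ∑ ι : Fin (tot (gl (ε / MN B cG L K N) σ st)) ↪ Fin n,
          GI Φ ε T G W q N (gl (ε / MN B cG L K N) σ st) (fun i => w (ι i)) := by
    intro W n N σ st
    refine Finset.measurable_sum _ fun ι _ => ?_
    exact (measurable_GI hΦ hε T G W q N _).comp
      (measurable_pi_iff.2 fun i => measurable_pi_apply (ι i))
  have hpt : ∀ a : Space3, gcE f₀ ε (fun n w => runM Φ ε T K L G (shW a Z) q n w) ≤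
      ∑' N : ℕ, ∑ σ : Sym (Fin (mN T ε B cG L K N)) L, ∑ st : List.Vector (StepK K) L,
        UbP Φ f₀ ε β T C N (kin Z.z) (fun r => (Z.path Φ ε r q).1 + a)
          (gl (ε / MN B cG L K N) σ st) := by
    intro a
    calc gcE f₀ ε (fun n w => runM Φ ε T K L G (shW a Z) q n w)
        = gcE f₀ ε (fun n w => ∑' N : ℕ, ∑ σ : Sym (Fin (mN T ε B cG L K N)) L,
            ∑ st : List.Vector (StepK K) L,
              ∑ ι : Fin (tot (gl (ε / MN B cG L K N) σ st)) ↪ Fin n,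
                GI Φ ε T G (shW a Z) q N (gl (ε / MN B cG L K N) σ st)
                  (fun i => w (ι i))) := rfl
      _ = ∑' N : ℕ, ∑ σ : Sym (Fin (mN T ε B cG L K N)) L,
            ∑ st : List.Vector (StepK K) L, gcE f₀ ε (fun n w =>
              ∑ ι : Fin (tot (gl (ε / MN B cG L K N) σ st)) ↪ Fin n,
                GI Φ ε T G (shW a Z) q N (gl (ε / MN B cG L K N) σ st)
                  (fun i => w (ι i))) := by
          rw [gcE_tsum hf ε (F := fun N n w =>
            ∑ σ : Sym (Fin (mN T ε B cG L K N)) L,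
            ∑ st : List.Vector (StepK K) L,
              ∑ ι : Fin (tot (gl (ε / MN B cG L K N) σ st)) ↪ Fin n,
                GI Φ ε T G (shW a Z) q N (gl (ε / MN B cG L K N) σ st)
                  (fun i => w (ι i)))
            (fun N n => Finset.measurable_sum _ fun σ _ => Finset.measurable_sum _ fun st _ =>
              hmeas _ n N σ st)]
          refine tsum_congr fun N => ?_
          rw [gcE_finset_sum hf ε Finset.univ (F := fun σ n w =>
            ∑ st : List.Vector (StepK K) L,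
              ∑ ι : Fin (tot (gl (ε / MN B cG L K N) σ st)) ↪ Fin n,
                GI Φ ε T G (shW a Z) q N (gl (ε / MN B cG L K N) σ st)
                  (fun i => w (ι i)))
            (fun σ _ n => Finset.measurable_sum _ fun st _ => hmeas _ n N σ st)]
          refine Finset.sum_congr rfl fun σ _ => ?_
          rw [gcE_finset_sum hf ε Finset.univ (F := fun st n w =>
              ∑ ι : Fin (tot (gl (ε / MN B cG L K N) σ st)) ↪ Fin n,
                GI Φ ε T G (shW a Z) q N (gl (ε / MN B cG L K N) σ st)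
                  (fun i => w (ι i)))
            (fun st _ n => hmeas _ n N σ st)]
      _ ≤ _ := by
          refine ENNReal.tsum_le_tsum fun N => Finset.sum_le_sum fun σ _ =>
            Finset.sum_le_sum fun st _ => ?_
          have h5 := gcE_GI_world_le hΦ hf h1 hε hβ.le hCtop hCf (shW a Z) q N _ (hgl N σ st).1
            (hgl N σ st).2.1
          simp only [path_shW hΦ hε] at h5
          exact h5
  have hmU : ∀ (N : ℕ) (σ : Sym (Fin (mN T ε B cG L K N)) L) (st : List.Vector (StepK K) L),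
      Measurable fun a : Space3 => UbP Φ f₀ ε β T C N (kin Z.z)
        (fun r => (Z.path Φ ε r q).1 + a) (gl (ε / MN B cG L K N) σ st) :=
    fun N σ st => measurable_ubP hΦ hε hf β T C N _ _ _
  calc ∫⁻ a : Space3, gcE f₀ ε (fun n w => runM Φ ε T K L G (shW a Z) q n w)
      ≤ ∫⁻ a : Space3, ∑' N : ℕ, ∑ σ : Sym (Fin (mN T ε B cG L K N)) L,
          ∑ st : List.Vector (StepK K) L, UbP Φ f₀ ε β T C N (kin Z.z)
            (fun r => (Z.path Φ ε r q).1 + a) (gl (ε / MN B cG L K N) σ st) :=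
        lintegral_mono hpt
    _ = ∑' N : ℕ, ∑ σ : Sym (Fin (mN T ε B cG L K N)) L, ∑ st : List.Vector (StepK K) L,
          ∫⁻ a : Space3, UbP Φ f₀ ε β T C N (kin Z.z) (fun r => (Z.path Φ ε r q).1 + a)
            (gl (ε / MN B cG L K N) σ st) := by
        rw [lintegral_tsum fun N => (Finset.measurable_sum _ fun σ _ =>
          Finset.measurable_sum _ fun st _ => hmU N σ st).aemeasurable]
        refine tsum_congr fun N => ?_
        rw [lintegral_finsetSum _ fun σ _ => Finset.measurable_sum _ fun st _ => hmU N σ st]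
        refine Finset.sum_congr rfl fun σ _ => ?_
        rw [lintegral_finsetSum _ fun st _ => hmU N σ st]
    _ ≤ ∑' N : ℕ, ∑ σ : Sym (Fin (mN T ε B cG L K N)) L, ∑ st : List.Vector (StepK K) L,
          ENNReal.ofReal (Real.exp (2 * β * kin Z.z)) *
            (ENNReal.ofReal (Real.exp (-(2 * β * (N - 1)))) *
            (27 * (C + C₁ * C₂) * ENNReal.ofReal ε) ^ L) := by
        refine ENNReal.tsum_le_tsum fun N => Finset.sum_le_sum fun σ _ =>
          Finset.sum_le_sum fun st _ => ?_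
        have h2 := lintegral_ubP_le hΦ hε hf hCtop hC₁.symm hconn N (kin Z.z)
          (fun r => (Z.path Φ ε r q).1) (gl (ε / MN B cG L K N) σ st) (hgl N σ st).2.2
          (hgl N σ st).1
        rw [length_gl] at h2
        exact h2
    _ = ENNReal.ofReal (Real.exp (2 * β * kin Z.z)) *
          ∑' N : ℕ, ∑ σ : Sym (Fin (mN T ε B cG L K N)) L, ∑ st : List.Vector (StepK K) L,
            ENNReal.ofReal (Real.exp (-(2 * β * (N - 1)))) *
            (27 * (C + C₁ * C₂) * ENNReal.ofReal ε) ^ L := by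
        simp only [← Finset.mul_sum]
        rw [ENNReal.tsum_mul_left]
    _ ≤ ENNReal.ofReal (Real.exp (2 * β * kin Z.z)) * η L :=
        mul_le_mul_right (hsum L ε hε hεL' cG hcG1) _
    _ = _ := mul_comm _ _

/-! ## Null runs of translation invariant structures -/

theorem envB_of_env {f₀ : PhasePoint → ℝ} {γ β : ℝ} {ρ : Space3 → ℝ≥0∞} {C₀ : ℝ≥0∞}
    (he : Env f₀ γ ρ C₀) (hβ : 2 * β ≤ γ) : EnvB β f₀ (fun x => C₀ * ρ x) C₀.toReal where
  meas := he.meas.const_mul _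
  int_ne := by
    rw [lintegral_const_mul _ he.meas]
    exact ENNReal.mul_ne_top he.fin he.int.ne
  le x := by
    rw [ENNReal.ofReal_toReal he.fin]
    calc C₀ * ρ x ≤ C₀ * 1 := mul_le_mul_right (he.le_one x) _
      _ = C₀ := mul_one _
  bound z := by
    refine (he.le z).trans ?_
    rw [mul_assoc]
    refine mul_le_mul_right (mul_le_mul_right ?_ _) _
    unfold Kin796.wG
    refine ENNReal.ofReal_le_ofReal (Real.exp_le_exp.2 ?_)
    have := mul_le_mul_of_nonneg_right hβ (sq_nonneg ‖z.2‖)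
    linarith

section gate

variable {f₀ : PhasePoint → ℝ} {I Θ : Type} [MeasurableSpace Θ] {m : ℝ → I → Measure Θ}

/-- **Runs from a world of a translation invariant structure**, one starting particle. -/
theorem gLe_run_invW (hΦ : AdmissiblePotential Φ) {β : ℝ} (hβ : 0 < β) {T A : ℝ}
    (hT : 0 ≤ T) (hA : 0 ≤ A) (K : ℕ) (hf : Measurable f₀)
    (h1 : ∫⁻ z, ENNReal.ofReal (f₀ z) ≤ 1) {env : Space3 → ℝ≥0∞} (hE : EnvB β f₀ env A)
    {t : I → ℝ} (ht : ∀ i, t i ≤ T) (hsf : ∀ ε i, SFinite (m ε i))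
    {Tr : ℝ → I → Space3 → Θ → Θ} {pos : ℝ → I → Θ → Space3}
    (hTr : ∀ ε i, 0 < ε → Measurable fun q : Space3 × Θ => Tr ε i q.1 q.2)
    (hinv : ∀ ε i, 0 < ε → ∀ a, (m ε i).map (Tr ε i a) = m ε i)
    (hpos : ∀ ε i, 0 < ε → Measurable (pos ε i))
    (hposT : ∀ ε i, 0 < ε → ∀ a θ, pos ε i (Tr ε i a θ) = pos ε i θ + a)
    {G : Type} [Fintype G] {Z : ℝ → I → Θ → MW G}
    (hb : ∀ ε i, 0 < ε → Measurable fun θ => (Z ε i θ).b)
    (hz : ∀ ε i, 0 < ε → Measurable fun θ => (Z ε i θ).z)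
    (hZ : ∀ ε i, 0 < ε → ∀ a θ, Z ε i (Tr ε i a θ) = shW a (Z ε i θ)) (q : G)
    {χ : Space3 → ℝ≥0∞} (hχ : Measurable χ) (hχ1 : ∫⁻ x, χ x = 1) {M : ℝ≥0∞} (hM : M ≠ ∞)
    (hmom : ∀ ε i, 0 < ε → ∫⁻ θ, χ (pos ε i θ) *
      ENNReal.ofReal (Real.exp (2 * β * kin (Z ε i θ).z)) ∂(m ε i) ≤ M)
    {δ : ℝ≥0∞} (hδ : 0 < δ) : ∃ L₀ : ℕ, ∀ L, L₀ ≤ L →
      GLe f₀ m (fun ε i _ θ w => Run Φ ε (t i) K L (Z ε i θ) q w) δ := by
  obtain ⟨η, hη, hηt, h⟩ := runM_tail_inv hΦ hβ T A hT hA K (Fintype.card G) hf h1 hE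
  have h2 : Tendsto (fun L => η L * M) atTop (𝓝 (0 * M)) :=
    ENNReal.Tendsto.mul_const hη (Or.inr hM)
  rw [zero_mul] at h2
  obtain ⟨L₀, hL₀⟩ := eventually_atTop.1 (h2.eventually_lt_const hδ)
  refine ⟨max L₀ 1, fun L hL => ?_⟩
  obtain ⟨ε₀, h0, h⟩ := h L ((le_max_right _ _).trans hL)
  refine ⟨ε₀, h0, fun ε hε hlt i => ?_⟩
  have hmF : ∀ n, Measurable fun p : Θ × Config n => runM Φ ε T K L G (Z ε i p.1) q n p.2 :=
    fun n => measurable_runM (δ := Θ × Config n) (Z := fun p => Z ε i p.1) (w := fun p => p.2)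
      hΦ hε T K L q ((hb ε i hε).comp measurable_fst) ((hz ε i hε).comp measurable_fst)
      measurable_snd
  refine ⟨fun n p => runM Φ ε T K L G (Z ε i p.1) q n p.2, hmF,
    fun n θ w hw hR => one_le_runM_of_le hΦ hε (ht i) hw hR, ?_⟩
  have := hsf ε i
  have hI : Pair292.InvFam (Tr ε i) (fun θ => ((0, (pos ε i θ, 0)) : ℝ × PhasePoint)) (pos ε i)
      (m ε i) :=
    { sf := hsf ε i
      mT := hTr ε i hε
      me := measurable_const.prodMk ((hpos ε i hε).prodMk measurable_const)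
      mpos := hpos ε i hε
      eT := fun a θ => by
        unfold Pair292.shL
        simp only
        rw [hposT ε i hε]
      posT := hposT ε i hε
      inv := hinv ε i hε }
  have hmg : Measurable fun θ => gcE f₀ ε fun n w => runM Φ ε T K L G (Z ε i θ) q n w :=
    MeasE416.measurable_gcE_of hf ε
      (F := fun n θ w => runM Φ ε T K L G (Z ε i θ) q n w) fun n => hmF n
  have e1 := hI.disint hχ hχ1 hmg
  calc ∫⁻ θ, gcE f₀ ε (fun n w => runM Φ ε T K L G (Z ε i θ) q n w) ∂(m ε i)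
      = ∫⁻ θ, χ (pos ε i θ) * (∫⁻ a : Space3, gcE f₀ ε fun n w =>
          runM Φ ε T K L G (Z ε i (Tr ε i a θ)) q n w) ∂(m ε i) := e1
    _ ≤ ∫⁻ θ, η L * (χ (pos ε i θ) *
          ENNReal.ofReal (Real.exp (2 * β * kin (Z ε i θ).z))) ∂(m ε i) := by
        refine lintegral_mono fun θ => ?_
        simp only [hZ ε i hε]
        calc χ (pos ε i θ) * ∫⁻ a : Space3, gcE f₀ ε (fun n w =>
              runM Φ ε T K L G (shW a (Z ε i θ)) q n w)
            ≤ χ (pos ε i θ) * (η L * ENNReal.ofReal (Real.exp (2 * β * kin (Z ε i θ).z))) :=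
              mul_le_mul_right (h ε hε hlt G le_rfl (Z ε i θ) q) _
          _ = _ := by ring
    _ = η L * ∫⁻ θ, χ (pos ε i θ) *
          ENNReal.ofReal (Real.exp (2 * β * kin (Z ε i θ).z)) ∂(m ε i) :=
        lintegral_const_mul' _ _ (hηt L)
    _ ≤ η L * M := mul_le_mul_right (hmom ε i hε) _
    _ ≤ δ := (hL₀ L ((le_max_left _ _).trans hL)).le

/-- **Runs from a world of a translation invariant structure**, finitely many starting data. -/
theorem gLe_exists {α : Type*} [Fintype α] (hf : Measurable f₀)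
    {F : α → ℕ → ℝ → I → (n : ℕ) → Θ → Config n → Prop}
    (h : ∀ x : α, ∀ δ : ℝ≥0∞, 0 < δ → ∃ L₀ : ℕ, ∀ L, L₀ ≤ L → GLe f₀ m (F x L) δ)
    {δ : ℝ≥0∞} (hδ : 0 < δ) : ∃ L₀ : ℕ, ∀ L, L₀ ≤ L →
      GLe f₀ m (fun ε i n θ w => ∃ x, F x L ε i n θ w) δ := by
  set δ' : ℝ≥0∞ := δ / (Fintype.card α + 1) with hδ'
  have hc : (Fintype.card α + 1 : ℝ≥0∞) ≠ ∞ :=
    ENNReal.add_ne_top.2 ⟨ENNReal.natCast_ne_top _, ENNReal.one_ne_top⟩
  have hδ'0 : 0 < δ' := ENNReal.div_pos hδ.ne' hc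
  choose L₀ hL₀ using fun x => h x δ' hδ'0
  refine ⟨Finset.univ.sup L₀, fun L hL => ?_⟩
  have h2 := GLe.exists_fin hf Finset.univ (m := m) (d := fun _ => δ')
    (F := fun (x : α) ε i n θ w => F x L ε i n θ w)
    (fun x _ => hL₀ x L ((Finset.le_sup (Finset.mem_univ x)).trans hL))
  refine h2.mono ?_ ⟨1, one_pos, fun ε _ _ i n θ w _ ⟨x, hx⟩ => ⟨x, Finset.mem_univ _, hx⟩⟩
  rw [Finset.sum_const, Finset.card_univ, nsmul_eq_mul]
  calc (Fintype.card α : ℝ≥0∞) * δ' ≤ (Fintype.card α + 1) * δ' := by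
        gcongr
        exact le_self_add
    _ = δ := by
        rw [hδ', ENNReal.mul_div_cancel (by simp) hc]

variable {κ : Type} [Fintype κ] {b : ℝ → I → Θ → κ → ℝ} {z : ℝ → I → Θ → κ → PhasePoint}
  {Tr : ℝ → I → Space3 → Θ → Θ} {d : ℝ → I → Θ → ℝ × PhasePoint}

/-- **Runs from the groups of members of a translation invariant structure**, pinned moment. -/
theorem gLe_runS_inv (hΦ : AdmissiblePotential Φ) {β : ℝ} (hβ : 0 < β) {T A : ℝ}
    (hT : 0 ≤ T) (hA : 0 ≤ A) (K : ℕ) (hf : Measurable f₀)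
    (h1 : ∫⁻ z, ENNReal.ofReal (f₀ z) ≤ 1) {env : Space3 → ℝ≥0∞} (hE : EnvB β f₀ env A)
    {t : I → ℝ} (ht : ∀ i, t i ≤ T) (hsf : ∀ ε i, SFinite (m ε i))
    (htr : ∀ ε i, 0 < ε → TInvS (m ε i) (Tr ε i) (b ε i) (z ε i) (d ε i)) (j₀ : κ)
    {M : ℝ≥0∞} (hM : M ≠ ∞)
    (hmom : ∀ ε i, 0 < ε → ∫⁻ θ, chi (z ε i θ j₀).1 * expW β (z ε i θ) ∂(m ε i) ≤ M)
    {δ : ℝ≥0∞} (hδ : 0 < δ) : ∃ L₀ : ℕ, ∀ L, L₀ ≤ L →
      GLe f₀ m (fun ε i _ θ w => RunS Φ ε (t i) K L (b ε i θ) (z ε i θ) w) δ := by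
  have hx : ∀ x : ((D : Finset κ) × D), ∀ δ : ℝ≥0∞, 0 < δ → ∃ L₀ : ℕ, ∀ L, L₀ ≤ L →
      GLe f₀ m (fun ε i _ θ w => Run Φ ε (t i) K L (sMW (b ε i θ) (z ε i θ) x.1) x.2 w) δ := by
    intro x δ hδ
    refine gLe_run_invW (G := x.1) hΦ hβ hT hA K hf h1 hE ht hsf (Tr := Tr)
      (pos := fun ε i θ => (z ε i θ j₀).1) (fun ε i hε => (htr ε i hε).mT)
      (fun ε i hε => (htr ε i hε).inv)
      (fun ε i hε => ((measurable_pi_apply j₀).comp (htr ε i hε).mz).fst)
      (fun ε i hε a θ => by rw [(htr ε i hε).z_tr, shX_apply])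
      (Z := fun ε i θ => sMW (b ε i θ) (z ε i θ) x.1)
      (fun ε i hε => measurable_pi_iff.2 fun j =>
        (measurable_pi_apply (j : κ)).comp (htr ε i hε).mb)
      (fun ε i hε => measurable_pi_iff.2 fun j =>
        (measurable_pi_apply (j : κ)).comp (htr ε i hε).mz)
      (fun ε i hε a θ => ?_) x.2 measurable_chi lintegral_chi hM (fun ε i hε => ?_) hδ
    · unfold sMW shW
      simp only
      rw [(htr ε i hε).b_tr, (htr ε i hε).z_tr]
      congr 1
      funext j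
      rw [shX_apply]
      rfl
    · refine le_trans (lintegral_mono fun θ => ?_) (hmom ε i hε)
      exact mul_le_mul_right (exp_kin_le hβ.le _ _ _) _
  obtain ⟨L₀, h⟩ := gLe_exists hf hx hδ
  refine ⟨L₀, fun L hL => (h L hL).mono' ?_⟩
  rintro ε i n θ w ⟨D, a, ha⟩
  exact ⟨⟨D, a⟩, ha⟩

theorem line_shM (a : Space3) (l : ML) : MW.line (Pair292.shM a l) = shW a (MW.line l) := by
  unfold MW.line MW.lines shW Pair292.shM Pair292.shL back
  simp only
  congr 1
  funext _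
  change ((l.1.2.1 + a - l.1.1 • l.1.2.2, l.1.2.2) : PhasePoint) =
    (l.1.2.1 - l.1.1 • l.1.2.2 + a, l.1.2.2)
  rw [add_sub_right_comm]

/-- **Runs from finitely many lines of a translation invariant structure**, pinned moment. -/
theorem gLe_run_inv (hΦ : AdmissiblePotential Φ) {β : ℝ} (hβ : 0 < β) {T A : ℝ}
    (hT : 0 ≤ T) (hA : 0 ≤ A) (K : ℕ) (hf : Measurable f₀)
    (h1 : ∫⁻ z, ENNReal.ofReal (f₀ z) ≤ 1) {env : Space3 → ℝ≥0∞} (hE : EnvB β f₀ env A)
    {t : I → ℝ} (ht : ∀ i, t i ≤ T) (hsf : ∀ ε i, SFinite (m ε i))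
    (htr : ∀ ε i, 0 < ε → TInvS (m ε i) (Tr ε i) (b ε i) (z ε i) (d ε i)) (j₀ : κ)
    {α : Type*} [Fintype α] {ls : α → ℝ → I → Θ → ML}
    (hls : ∀ a ε i, 0 < ε → Measurable (ls a ε i))
    (hlT : ∀ a ε i, 0 < ε → ∀ x θ, ls a ε i (Tr ε i x θ) = Pair292.shM x (ls a ε i θ))
    {M : α → ℝ≥0∞} (hM : ∀ a, M a ≠ ∞)
    (hmom : ∀ a ε i, 0 < ε → ∫⁻ θ, chi (z ε i θ j₀).1 *
      ENNReal.ofReal (Real.exp (β * ‖(ls a ε i θ).1.2.2‖ ^ 2)) ∂(m ε i) ≤ M a)
    {δ : ℝ≥0∞} (hδ : 0 < δ) : ∃ L₀ : ℕ, ∀ L, L₀ ≤ L →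
      GLe f₀ m (fun ε i _ θ w => ∃ a, Run Φ ε (t i) K L (MW.line (ls a ε i θ)) () w) δ := by
  refine gLe_exists (α := α) (F := fun a L ε i _ θ w =>
    Run Φ ε (t i) K L (MW.line (ls a ε i θ)) () w) hf (fun a δ hδ => ?_) hδ
  refine gLe_run_invW (G := Unit) hΦ hβ hT hA K hf h1 hE ht hsf (Tr := Tr)
    (pos := fun ε i θ => (z ε i θ j₀).1) (fun ε i hε => (htr ε i hε).mT)
    (fun ε i hε => (htr ε i hε).inv)
    (fun ε i hε => ((measurable_pi_apply j₀).comp (htr ε i hε).mz).fst)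
    (fun ε i hε a θ => by rw [(htr ε i hε).z_tr, shX_apply])
    (Z := fun ε i θ => MW.line (ls a ε i θ))
    (fun ε i hε => measurable_line_b.comp (hls a ε i hε))
    (fun ε i hε => measurable_line_z.comp (hls a ε i hε))
    (fun ε i hε x θ => by rw [hlT a ε i hε x θ, line_shM]) () measurable_chi lintegral_chi (hM a)
    (fun ε i hε => ?_) hδ
  refine le_trans (lintegral_mono fun θ => ?_) (hmom a ε i hε)
  simp only
  rw [kin_line]
  have e : 2 * β * (1 / 2 * ‖(ls a ε i θ).1.2.2‖ ^ 2) = β * ‖(ls a ε i θ).1.2.2‖ ^ 2 := by ring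
  rw [e]

end gate

end Crest.Agent.R122.RunInv416

end
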