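import Crest.Agent.R122.ShpOk_581
import Crest.Agent.R122.RunInv_416

/-!
# Row 122 (helper416): runs from the groups of an admissible shape

`ShpOk.run` : the binding of `gLe_runS_inv` to helper581's `ShpOk`.
-/

set_option autoImplicit false

open MeasureTheory Set Filter Topology
open scoped ENNReal
open Crest.AnalysisR.Kinetic

noncomputable section

namespace Crest.Agent.R122.PairRep581

open Crest.Agent.R122.GC311 Crest.Agent.R122.EDefs602 Crest.Agent.R122.Gate424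
open Crest.Agent.R122.LN2 Crest.Agent.R122.PairD292

variable {γ β : ℝ} {ρ : Space3 → ℝ≥0∞} {S : Shp}

/-- **Runs of length `L` from any group of labels of an admissible shape** have mass `→ 0`
(`L → ∞`), uniformly in `ε`. -/
theorem ShpOk.run (h : ShpOk γ β ρ S) {Φ : Space3 → ℝ} (hΦ : AdmissiblePotential Φ) (hβ : 0 < β)
    {f₀ : PhasePoint → ℝ} (hf : Measurable f₀) (h1 : ∫⁻ z, ENNReal.ofReal (f₀ z) ≤ 1)
    {γ₀ : ℝ} {ρ₀ : Space3 → ℝ≥0∞} {C₀ : ℝ≥0∞} (he : Env f₀ γ₀ ρ₀ C₀) (hγ₀ : 0 < γ₀) {te : ℝ}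
    (K : ℕ) {δ : ℝ≥0∞} (hδ : 0 < δ) : ∃ L₀ : ℕ, ∀ L, L₀ ≤ L →
      GLe f₀ S.mI (fun ε _ _ x w => RunS Φ ε te K L (S.b ε x) (S.z ε x) w) δ := by
  set β' : ℝ := min β (γ₀ / 2) with hβ'
  have hβ'0 : 0 < β' := lt_min hβ (half_pos hγ₀)
  obtain ⟨j₀, M, hM, hpin⟩ := h.pin
  refine RunInv416.gLe_runS_inv (T := max te 0) hΦ hβ'0 (le_max_right _ _)
    ENNReal.toReal_nonneg K hf h1 (RunInv416.envB_of_env he ?_) (fun _ : Unit => le_max_left te 0)
    (fun ε _ => h.sf ε) (fun ε _ hε => h.tInv_d hε) j₀ hM (fun ε _ hε => ?_) hδ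
  · have := min_le_right β (γ₀ / 2)
    linarith
  · refine le_trans (lintegral_mono fun x => ?_) (hpin ε hε)
    exact mul_le_mul_right (expW_mono (min_le_left _ _) _) _

end Crest.Agent.R122.PairRep581

end
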