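import Crest.Agent.R122.GateMS_581
import Crest.Agent.R122.LNLevel_494
import Crest.Agent.R122.RunShp_416
import Crest.Agent.R122.XShape_692

/-!
# Row 122, inequality 3, null facts of the pair laws (helper581): levels of the structures

* `Lv P j x` : the property `P` holds at some level `k ≤ j` of `x : Th Θ j`.
* `badF_lv` : families of bad events of the levels.
* `badF_lv_near` : bad partitions of a level, near the gas.
* `gNull_itS_of_det` : **the gateway** over the law of the `j`-th continuation of a shape: runs, bad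
  partitions of a level, bad hits, further null events.
-/

set_option autoImplicit false
set_option linter.unusedSectionVars false

open MeasureTheory Set Filter Topology
open scoped Classical ENNReal
open Crest.AnalysisR.Kinetic

noncomputable section

namespace Crest.Agent.R122.PairRep581

open Crest.Agent.R122.GC311 Crest.Agent.R122.Kin796 Crest.Agent.R122.Kin796.CTree
open Crest.Agent.R122.Tree674 Crest.Agent.R122.EDefs602
open Crest.Agent.R122.Gate424 Crest.Agent.R122.Gate973 Crest.Agent.R122.LN2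
open Crest.Agent.R122.BH167
open Crest.Agent.R122.TouchFlux494 (Near)
open Crest.Agent.R122.Boost969 (LSt)
open Crest.Agent.R122.Pair292 (Lab shP shL shM)
open Crest.Agent.R122.PairD292
open Crest.Agent.R122.StrN998 (Th Ka itS)
open Crest.Agent.R122.Marg494 (prj)

/-! ### Levels -/

section levels

variable {Θ : Type}

/-- The property holds at some level. -/
def Lv (P : (k : ℕ) → Th Θ k → Prop) : (j : ℕ) → Th Θ j → Prop
  | 0, x => P 0 x
  | j + 1, x => P (j + 1) x ∨ Lv P j x.1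

theorem Lv.exists_prj {P : (k : ℕ) → Th Θ k → Prop} {j : ℕ} {x : Th Θ j} (h : Lv P j x) :
    ∃ (k i : ℕ) (e : j = k + i), P k (prj Θ k i (e ▸ x)) := by
  induction j with
  | zero => exact ⟨0, 0, rfl, h⟩
  | succ j ih =>
    rcases h with h | h
    · exact ⟨j + 1, 0, rfl, h⟩
    · obtain ⟨k, i, e, hp⟩ := ih h
      subst e
      exact ⟨k, i + 1, rfl, hp⟩

theorem Lv.of_prj {P : (k : ℕ) → Th Θ k → Prop} {k i : ℕ} {x : Th Θ (k + i)}
    (h : P k (prj Θ k i x)) : Lv P (k + i) x := by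
  induction i with
  | zero =>
    rcases k with _ | k
    · exact h
    · exact Or.inl h
  | succ i ih => exact Or.inr (ih h)

theorem Lv.mono {P Q : (k : ℕ) → Th Θ k → Prop} (hPQ : ∀ k y, P k y → Q k y) {j : ℕ}
    {x : Th Θ j} (h : Lv P j x) : Lv Q j x := by
  induction j with
  | zero => exact hPQ 0 x h
  | succ j ih =>
    rcases h with h | h
    · exact Or.inl (hPQ _ _ h)
    · exact Or.inr (ih h)

/-- The property at the top level. -/
theorem Lv.top {P : (k : ℕ) → Th Θ k → Prop} {j : ℕ} {x : Th Θ j} (h : P j x) : Lv P j x := by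
  rcases j with _ | j
  · exact h
  · exact Or.inl h

/-- **Families of bad events of the levels.** -/
theorem badF_lv {f₀ : PhasePoint → ℝ} (hf : Measurable f₀) {I Θ' : Type} [MeasurableSpace Θ']
    {m : ℝ → I → Measure Θ'} {j : ℕ} {pr : ℝ → Θ' → Th Θ j}
    {B : ℝ → ℝ → ℝ → I → (n : ℕ) → Config n → (k : ℕ) → Th Θ k → Prop}
    {G : ℝ → I → (n : ℕ) → Θ' → Config n → Prop}
    (h : ∀ (k i : ℕ) (e : j = k + i), BadF f₀ m (fun R ς ε a n x w =>
      G ε a n x w ∧ B R ς ε a n w k (prj Θ k i (e ▸ pr ε x)))) :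
    BadF f₀ m (fun R ς ε a n x w => G ε a n x w ∧ Lv (B R ς ε a n w) j (pr ε x)) := by
  have h1 : ∀ k ∈ Finset.range (j + 1), BadF f₀ m (fun R ς ε a n x w =>
      G ε a n x w ∧ ∃ (i : ℕ) (e : j = k + i), B R ς ε a n w k (prj Θ k i (e ▸ pr ε x))) := by
    intro k hk
    have hkj : k ≤ j := Nat.lt_succ_iff.1 (Finset.mem_range.1 hk)
    obtain ⟨i, e⟩ := Nat.exists_eq_add_of_le hkj
    refine (h k i e).mono fun R ς ε a n x w _ _ hE => ?_
    obtain ⟨hG, i', e', hB⟩ := hE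
    have hii : i' = i := by omega
    subst hii
    exact ⟨hG, hB⟩
  refine (BadF.exists_fin hf _ h1).mono fun R ς ε a n x w _ _ hE => ?_
  obtain ⟨k, i, e, hB⟩ := hE.2.exists_prj
  exact ⟨k, Finset.mem_range.2 (by omega), hE.1, i, e, hB⟩

end levels

/-! ### The levels of a shape -/

variable {Φ : Space3 → ℝ} {f₀ : PhasePoint → ℝ} {γ β : ℝ} {ρ : Space3 → ℝ≥0∞} {S : Shp}
  {T te te' b₀ : ℝ} {C₀ : ℝ≥0∞} {q : ℕ → ℝ≥0∞}

/-- Bad partition of gas particles and the structure of the level `k`. -/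
def BadK (S : Shp) (Φ : Space3 → ℝ) (b₀ te : ℝ) (q : ℕ → ℝ≥0∞) (T C R ς ε : ℝ) (N : ℕ) {n : ℕ}
    (w : Config n) (k : ℕ) (y : Th S.Θ k) : Prop :=
  BadGas Φ T C R ς ε N 1 Finset.univ ((itS S Φ b₀ te q k).b ε y) ((itS S Φ b₀ te q k).z ε y) w

/-- **Bad partition of gas particles and the structure of some level.** -/
def BadLv (S : Shp) (Φ : Space3 → ℝ) (b₀ te : ℝ) (q : ℕ → ℝ≥0∞) (T C R ς ε : ℝ) (N : ℕ) {n : ℕ}
    (w : Config n) (j : ℕ) (x : Th S.Θ j) : Prop :=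
  Lv (BadK S Φ b₀ te q T C R ς ε N w) j x

theorem BadLv.succ {C R ς ε : ℝ} {N n : ℕ} {w : Config n} {j : ℕ} {x : Th S.Θ (j + 1)} :
    BadLv S Φ b₀ te q T C R ς ε N w (j + 1) x ↔
      BadK S Φ b₀ te q T C R ς ε N w (j + 1) x ∨ BadLv S Φ b₀ te q T C R ς ε N w j x.1 := Iff.rfl

theorem BadLv.zero {C R ς ε : ℝ} {N n : ℕ} {w : Config n} {x : Th S.Θ 0} :
    BadLv S Φ b₀ te q T C R ς ε N w 0 x ↔ BadK S Φ b₀ te q T C R ς ε N w 0 x := Iff.rfl

/-- **Bad partitions of the levels, near the gas.** -/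
theorem badF_lv_near (h : ShpOk γ β ρ S) (hρ : Measurable ρ) (hΦ : AdmissiblePotential Φ)
    (hCN : VLMeas973.ClassNull Φ T) (hf : Measurable f₀) (h1 : ∫⁻ z, ENNReal.ofReal (f₀ z) ≤ 1)
    (he : Env f₀ γ ρ C₀) (hγ : 0 < γ) (hb : γ ≤ b₀) (hq : ∑' m, q m ≠ ∞) (hte : te' ≤ T) (j : ℕ)
    (C R₁ : ℝ) (N : ℕ) :
    BadF f₀ (itS S Φ b₀ te q j).mI (fun R ς ε _ _ x w =>
      Near Φ ε R₁ te' w (dL ((itS S Φ b₀ te q j).th ε x)).1 ∧
        BadLv S Φ b₀ te q T C R ς ε N w j x) := by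
  refine badF_lv (Θ := S.Θ) (m := (itS S Φ b₀ te q j).mI) (pr := fun _ x => x)
    (B := fun R ς ε _ _ w k y => BadK S Φ b₀ te q T C R ς ε N w k y)
    (G := fun ε _ _ x w => Near Φ ε R₁ te' w (dL ((itS S Φ b₀ te q j).th ε x)).1) hf
    fun k i e => ?_
  subst e
  exact Marg494.badF_itS_near h hρ hΦ hCN hf h1 he hγ hb hq hte k i C R₁ N

/-- The alternatives of helper692 for the structure of the top level. -/
theorem salt_lv {T₁ t C R ς ε : ℝ} {K L N n j : ℕ} {w : Config n} {x : Th S.Θ j}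
    (h : X692.SAlt Φ T T₁ t C R ς ε K L N Finset.univ ((itS S Φ b₀ te q j).b ε x)
      ((itS S Φ b₀ te q j).z ε x) w) :
    RunS Φ ε t K L ((itS S Φ b₀ te q j).b ε x) ((itS S Φ b₀ te q j).z ε x) w ∨
      BadLv S Φ b₀ te q T C R ς ε N w j x ∨
      BadHitGasN (bpos Φ T₁ T) Φ T C 1 ε N N 1 Finset.univ ((itS S Φ b₀ te q j).b ε x)
        ((itS S Φ b₀ te q j).z ε x) w := by
  rcases h with h | h | h
  · exact Or.inl h
  · exact Or.inr (Or.inl (Lv.top h))
  · exact Or.inr (Or.inr h.toN)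

/-! ### The gateway -/

/-- **The gateway over the law of the `j`-th continuation.** The event forces the first line to be
close to the gas (`hnear`); alternatives: a run from the structure, a bad partition of gas particles
and the structure of some level, a bad hit, further bad families `B` and null events `Ht`. -/
theorem gNull_itS_of_det {β' : ℝ} (h : ShpOk γ β ρ S) (hρ : Measurable ρ)
    (hΦ : AdmissiblePotential Φ) (hCN : VLMeas973.ClassNull Φ T) (hf : Measurable f₀)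
    (h1 : ∫⁻ z, ENNReal.ofReal (f₀ z) ≤ 1) (he : Env f₀ γ ρ C₀) (hγ : 0 < γ) (hb : γ ≤ b₀)
    (hβ' : 0 < β') (hβ : β' < β) (hβb : β ≤ b₀) (hq : ∑' m, q m ≠ ∞) (hT : 0 ≤ T)
    (hte : te' ≤ T) {R₂ : ℝ} (j : ℕ) {u t₁ : ℝ} {K' : ℕ}
    {E : ℝ → Unit → (n : ℕ) → (itS S Φ b₀ te q j).Θ → Config n → Prop}
    (hnear : ∀ ε i n x (w : Config n), 0 < ε → w ∈ PairExcluded ε n → E ε i n x w →
      Near Φ ε R₂ te' w (dL ((itS S Φ b₀ te q j).th ε x)).1)
    (hdet : ∀ L : ℕ, ∃ (B : ℝ → ℝ → ℝ → Unit → (n : ℕ) → (itS S Φ b₀ te q j).Θ → Config n → Prop)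
      (Ht : ℝ → Unit → (n : ℕ) → (itS S Φ b₀ te q j).Θ → Config n → Prop)
      (N : ℕ) (C C' R₁ T₁ : ℝ) (N' K₁ : ℕ) (A : Finset (itS S Φ b₀ te q j).κ), 0 ≤ T₁ ∧
      BadF f₀ (itS S Φ b₀ te q j).mI B ∧ GNull f₀ (itS S Φ b₀ te q j).mI Ht ∧
      ∀ R > 0, ∀ ς > 0, ∃ ε₁ : ℝ, 0 < ε₁ ∧ ∀ ε : ℝ, 0 < ε → ε < ε₁ → ∀ i n x (w : Config n),
        w ∈ PairExcluded ε n → E ε i n x w →
        RunS Φ ε u K' L ((itS S Φ b₀ te q j).b ε x) ((itS S Φ b₀ te q j).z ε x) w ∨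
        (BadLv S Φ b₀ te q T C R ς ε N w j x ∨ B R ς ε i n x w) ∨
        BadHitGasN (bpos Φ T₁ t₁) Φ T C' R₁ ε N' K₁ 1 A ((itS S Φ b₀ te q j).b ε x)
          ((itS S Φ b₀ te q j).z ε x) w ∨ Ht ε i n x w) :
    GNull f₀ (itS S Φ b₀ te q j).mI E := by
  have hj := StrN998.ShpOk.iter (te := te) (q := q) h hΦ hρ hb hβ hβb hq j
  choose B Ht N C C' R₁ T₁ N' K₁ A hT₁ hB hH hdet using hdet
  refine gNull_of_fam hf (m := (itS S Φ b₀ te q j).mI)
    (Rn := fun L ε _ _ x w =>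
      RunS Φ ε u K' L ((itS S Φ b₀ te q j).b ε x) ((itS S Φ b₀ te q j).z ε x) w)
    (Ht := fun L ε i n x w => BadHitGasN (bpos Φ (T₁ L) t₁) Φ T (C' L) (R₁ L) ε (N' L) (K₁ L) 1
      (A L) ((itS S Φ b₀ te q j).b ε x) ((itS S Φ b₀ te q j).z ε x) w ∨ Ht L ε i n x w)
    (fun L => ⟨_, (badF_lv_near h hρ hΦ hCN hf h1 he hγ hb hq hte j (C L) R₂ (N L)).or hf (hB L),
      fun R hR ς hς => ?_⟩)
    (fun δ hδ => hj.run hΦ hβ' hf h1 he hγ K' hδ)
    fun L => (gNull_hit_mS hj hΦ hf h1 he hγ hT (hT₁ L) t₁ (C' L) (R₁ L) (N' L) (K₁ L) (A L)).or hf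
      (hH L)
  obtain ⟨ε₁, h0, h2⟩ := hdet L R hR ς hς
  refine ⟨ε₁, h0, fun ε hε hlt i n x w hw hE => ?_⟩
  rcases h2 ε hε hlt i n x w hw hE with h3 | (h3 | h3) | h3
  · exact Or.inl h3
  · exact Or.inr (Or.inl (Or.inl ⟨hnear ε i n x w hε hw hE, h3⟩))
  · exact Or.inr (Or.inl (Or.inr h3))
  · exact Or.inr (Or.inr h3)

end Crest.Agent.R122.PairRep581

end
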