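import Crest.Agent.R122.LvStep_726
import Crest.Agent.R122.NuHitS_969
import Crest.Agent.R122.BaseAe_45
import Crest.Agent.R122.NuR_735
import Crest.Agent.R122.LevGate_581

/-!
# Levels of the pair structures (row 122, S^(j)), helper726

* `LvP T c S Φ ε x` : the structure `x` of the shape `S` is a pair structure with transversal exits and
  late cross contacts.
* `LvO` : births `0`, connected, tree-like, `LvP`.
* `lv_all` : all levels of the real base shapes, off the bad partitions of the levels.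
-/

set_option autoImplicit false
set_option linter.unusedSectionVars false

open MeasureTheory Set Filter Topology
open scoped NNReal ENNReal
open Crest.AnalysisR.Kinetic
open Crest.Agent.R122.VL581 Crest.Agent.R122.VL581.VSys
open Crest.Agent.R122.LN304 Crest.Agent.R122.LNg410
open Crest.Agent.R122.Kin796 Crest.Agent.R122.Kin796.CTree Crest.Agent.R122.Tree674
open Crest.Agent.R122.TreeLines335 Crest.Agent.R122.EDefs602
open Crest.Agent.R122.Boost969 (LSt)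
open Crest.Agent.R122.Pair292 (Lab)
open Crest.Agent.R122.PairD292 Crest.Agent.R122.PairRep581
open Crest.Agent.R122.StrN998 (Th Ka itS)
open Crest.Agent.R122.VLMeas973 (vsys)
open Crest.Agent.R122.StrG491 Crest.Agent.R122.StrMain307 Crest.Agent.R122.StrMot2_151
open Crest.Agent.R122.NuHit969 (HitD HitS bas)
open Crest.Agent.R122.BasePair45 (Good0 sys0 lB)
open Crest.Agent.R122.NuL735 (famB Ix NPar zE oneE thE)
open scoped Classical

noncomputable section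

namespace Crest.Agent.R122.Lv726

/-- Pair structure with transversal exits and late cross contacts. -/
def LvP (Φ : Space3 → ℝ) (T c ε : ℝ) (S : Shp) (x : S.Θ) : Prop :=
  ∃ (R : ℝ → S.κ → S.κ → Prop) (cl : S.κ → Finset S.κ) (bD : S.κ → ℝ) (a b : S.κ),
    Pair (vsys Φ T ε (S.b ε x)) c (S.z ε x) R Finset.univ cl bD a b
      (dL (S.th ε x)).1 (eL (S.th ε x)).1 ∧
    PT (vsys Φ T ε (S.b ε x)) (S.z ε x) R cl bD b

/-- Level data: births `0`, connected, tree-like, pair structure. -/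
structure LvO (Φ : Space3 → ℝ) (T c ℓ ς ε : ℝ) (S : Shp) (x : S.Θ) : Prop where
  b0 : ∀ i, S.b ε x i = 0
  conn : (vsys Φ T ε (S.b ε x)).Conn c Finset.univ (S.z ε x)
  tl : TL (vsys Φ T ε (S.b ε x)) c ℓ ς Finset.univ (S.z ε x)
  pair : LvP Φ T c ε S x

variable {Φ : Space3 → ℝ} {T T' T₁ te te₀ c R ς ε b₀ : ℝ} {K N₁ : ℕ} {N : NPar} {s : Ix N.m₀}
  {q : ℕ → ℝ≥0∞} {n : ℕ} {w : Config n}

/-- **The base level.** -/
theorem lv_zero (hC : 1 ≤ c) (hΦ : AdmissiblePotential Φ) (hε : 0 < ε) (hς : 2 * (R * ε) ≤ ς)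
    (hR : 0 ≤ R * ε) (hlT : te₀ + 2 * (R * ε) < T) (hTT : T ≤ T') (hT₁ : T ≤ T₁)
    {x : (famB Φ K N s).Θ} (h0 : Good0 Φ ε te₀ T' s.1.1 x)
    (hB : ¬ LN2.BadGas Φ T₁ c R ς ε N₁ 1 Finset.univ ((famB Φ K N s).b ε x)
      ((famB Φ K N s).z ε x) w) :
    LvO Φ T c (R * ε) ς ε (famB Φ K N s) x := by
  have hte : te₀ < T := by linarith
  have hconn := h0.conn (c := c) hC hΦ hε hte hTT
  have htl : TL (sys0 Φ T ε s.1.1) c (R * ε) ς Finset.univ (zE Φ ε x) :=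
    tl_of_not_badGas hΦ hε hT₁ hconn ⟨Sum.inr (), Finset.mem_univ _⟩ hB
  refine ⟨fun _ => rfl, hconn, htl, ?_⟩
  obtain ⟨R', cl, bD, h1, h2⟩ := BasePair45.pairPT0 hC hΦ hε h0.ct hte
    (LNTree410.sep_anti hTT h0.sep) (PN564.cdok_cD hε h0.proper) htl hς hlT s.2.2.1 s.2.2.2
  exact ⟨R', cl, bD, _, _, h1, h2⟩

/-- **One step.** -/
theorem lv_succ {S : Shp} {j : ℕ} (hC : 1 ≤ c) (hΦ : AdmissiblePotential Φ) (hε : 0 < ε)
    (hς : 2 * (R * ε) ≤ ς) (hR : 0 ≤ R * ε) (hlT : te + 2 * (R * ε) < T) (hT₁ : T ≤ T₁)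
    {x : Th S.Θ (j + 1)} (h : LvO Φ T c (R * ε) ς ε (itS S Φ b₀ te q j) x.1)
    (hv : HitD Φ ε te x.2.1 ((itS S Φ b₀ te q j).th ε x.1).2)
    (hB : ¬ BadK S Φ b₀ te q T₁ c R ς ε N₁ w (j + 1) x) :
    LvO Φ T c (R * ε) ς ε (itS S Φ b₀ te q (j + 1)) x := by
  obtain ⟨R', cl, bD, a, b, h1, h2⟩ := h.pair
  have hte : te < T := by linarith
  have hconn := conn_step hC hΦ hε h1 hv hte
  have htl : TL (vsys Φ T ε ((itS S Φ b₀ te q (j + 1)).b ε x)) c (R * ε) ς Finset.univ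
      ((itS S Φ b₀ te q (j + 1)).z ε x) :=
    tl_of_not_badGas hΦ hε hT₁ hconn ⟨Sum.inr (), Finset.mem_univ _⟩ hB
  refine ⟨fun i => ?_, hconn, htl, ?_⟩
  · rcases i with i | i
    · exact h.b0 i
    · rfl
  · obtain ⟨R₂, cl₂, bD₂, h3, h4⟩ := pairPT_step hC hΦ hε hς hR hlT h1 h2 hv htl x.2.2.2
    exact ⟨R₂, cl₂, bD₂, _, _, h3, h4⟩

/-- **All levels of the real base shapes**, off the bad partitions of the levels. -/
theorem lv_all (hC : 1 ≤ c) (hΦ : AdmissiblePotential Φ) (hε : 0 < ε) (hς : 2 * (R * ε) ≤ ς)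
    (hR : 0 ≤ R * ε) (hlT₀ : te₀ + 2 * (R * ε) < T) (hlT : te + 2 * (R * ε) < T) (hTT : T ≤ T')
    (hT₁ : T ≤ T₁) (j : ℕ) {x : Th (famB Φ K N s).Θ j}
    (h0 : Good0 Φ ε te₀ T' s.1.1 (bas (famB Φ K N s).Θ j x))
    (hh : HitS (famB Φ K N s) Φ b₀ te q ε j x)
    (hB : ¬ BadLv (famB Φ K N s) Φ b₀ te q T₁ c R ς ε N₁ w j x) :
    LvO Φ T c (R * ε) ς ε (itS (famB Φ K N s) Φ b₀ te q j) x := by
  induction j with
  | zero => exact lv_zero hC hΦ hε hς hR hlT₀ hTT hT₁ h0 hB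
  | succ j ih =>
    rw [BadLv.succ, not_or] at hB
    exact lv_succ hC hΦ hε hς hR hlT hT₁ (ih h0 hh.1 hB.2) hh.2 hB.1

/-- The structure of the level `j` is a pair structure (helper317's, helper726's `PairLv`). -/
theorem LvO.pairLv {S : Shp} {ℓ : ℝ} {x : S.Θ} (h : LvO Φ T c ℓ ς ε S x) :
    ∃ (R : ℝ → S.κ → S.κ → Prop) (cl : S.κ → Finset S.κ) (bD : S.κ → ℝ) (a b : S.κ),
      Pair (vsys Φ T ε (S.b ε x)) c (S.z ε x) R Finset.univ cl bD a b
        (dL (S.th ε x)).1 (eL (S.th ε x)).1 := by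
  obtain ⟨R, cl, bD, a, b, h1, -⟩ := h.pair
  exact ⟨R, cl, bD, a, b, h1⟩

/-- The same with transversal exits and late cross contacts (helper796's `LevD.pair`). -/
theorem LvO.pairD {S : Shp} {ℓ : ℝ} {x : S.Θ} (h : LvO Φ T c ℓ ς ε S x) :
    ∃ (R : ℝ → S.κ → S.κ → Prop) (cl : S.κ → Finset S.κ) (bD : S.κ → ℝ) (a b : S.κ),
      Pair (vsys Φ T ε (S.b ε x)) c (S.z ε x) R Finset.univ cl bD a b
        (dL (S.th ε x)).1 (eL (S.th ε x)).1 ∧
      ExitT (vsys Φ T ε (S.b ε x)) (S.z ε x) cl bD ∧ CrossT R cl bD b := by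
  obtain ⟨R, cl, bD, a, b, h1, h2⟩ := h.pair
  exact ⟨R, cl, bD, a, b, h1, h2.exit, h2.cross⟩

end Crest.Agent.R122.Lv726

end
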