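import Crest.Agent.R122.LN2Ct2_473

/-!
# Row 122, LN2: bad partitions of a sub-structure, including those without gas (helper473)

* `SubHyp` : some of the lines (`bs`, `zs`) of a translation invariant structure with a line `e`;
  `SubHyp.of_marg` : constructor from a marginal inequality.
* `sOnly_core` : transport.
* `gLe_badGas_sub_near` : over the structure, near the gas.
* `gLe_badGas_sub_ct` : over `ctM` (contact of `e` with a tree).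
-/

set_option autoImplicit false
set_option linter.unusedSectionVars false

open MeasureTheory Set Filter Topology
open scoped Classical ENNReal
open Crest.AnalysisR.Kinetic

noncomputable section

namespace Crest.Agent.R122.LN2

open Crest.Agent.R122.GC311 Crest.Agent.R122.Kin796 Crest.Agent.R122.Kin796.CTree
open Crest.Agent.R122.EDefs602 Crest.Agent.R122.Tree674 Crest.Agent.R122.Disc416
open Crest.Agent.R122.ToTree335 Crest.Agent.R122.OneC423 Crest.Agent.R122.VLMeas973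
open Crest.Agent.R122.Boost969 (LSt posAt)
open Crest.Agent.R122.Pair292 (shL)
open Crest.Agent.R122.TouchFlux494 Crest.Agent.R122.Gate424

variable {Φ : Space3 → ℝ} {f₀ : PhasePoint → ℝ} {T γ : ℝ} {ρ : Space3 → ℝ≥0∞} {C₀ : ℝ≥0∞}

/-- Velocity weight of a line. -/
def vW {Θ : Type} (e : Θ → LSt) (θ : Θ) : ℝ≥0∞ := ENNReal.ofReal (1 + ‖(e θ).2.2‖)

theorem measurable_vW {Θ : Type} [MeasurableSpace Θ] {e : Θ → LSt} (he : Measurable e) :
    Measurable (vW e) := (he.snd.snd.norm.const_add 1).ennreal_ofReal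

/-- **A sub-structure** (labels `κ`, births `bs`, time `0` states `zs`) of a translation invariant
structure with a line `e`. -/
structure SubHyp {Θ : Type} [MeasurableSpace Θ] {κ : Type} [Fintype κ] {I : Type} (γ : ℝ)
    (ρ : Space3 → ℝ≥0∞) (c : ℝ≥0∞) (Λ : Measure (κ → ℝ)) (m : ℝ → I → Measure Θ)
    (bs : ℝ → I → Θ → κ → ℝ) (zs : ℝ → I → Θ → κ → PhasePoint) (Tr : ℝ → I → Space3 → Θ → Θ)
    (e : ℝ → I → Θ → LSt) : Prop where
  sf : ∀ ε i, SFinite (m ε i)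
  dom : ∀ ε i, 0 < ε → Dom γ ρ ε 1 ∅ c Λ ((m ε i).withDensity (vW (e ε i))) (bs ε i) (zs ε i)
  tr : ∀ ε i, 0 < ε → TInvS (m ε i) (Tr ε i) (bs ε i) (zs ε i) (e ε i)
  birth : ∀ ε i, 0 < ε → ∀ᵐ θ ∂(m ε i), 0 ≤ (e ε i θ).1
  cf : c ≠ ∞

section core

variable {Θ : Type} [MeasurableSpace Θ] {κ : Type} [Fintype κ] {m : Measure Θ}
  {Tr : Space3 → Θ → Θ} {b : Θ → κ → ℝ} {z : Θ → κ → PhasePoint} {e : Θ → LSt} {ε : ℝ}
  {c : ℝ≥0∞} {Λ : Measure (κ → ℝ)}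

theorem avE_le_one (j₀ : κ) (E : Set ((κ → ℝ) × (κ → PhasePoint))) (θ : Θ) :
    avE z b j₀ E θ ≤ 1 := by
  unfold avE
  calc ∫⁻ a : Space3, chi ((z θ j₀).1 + a) * E.indicator 1 (b θ, shX a (z θ)) ≤
      ∫⁻ a : Space3, chi ((z θ j₀).1 + a) := by
        refine lintegral_mono fun a => ?_
        refine (mul_le_mul_right (?_ : _ ≤ (1 : ℝ≥0∞)) _).trans_eq (mul_one _)
        exact indicator_apply_le' (fun _ => le_rfl) (fun _ => zero_le_one)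
    _ = 1 := by
        rw [lintegral_add_left_eq_self (fun x => chi x), lintegral_chi]

/-- **Transport** for a sub-structure and a localising function `g` of the line `e`. -/
theorem sOnly_core [SFinite m] (hT : TInvS m Tr b z e) (j₀ : κ)
    {E : Set ((κ → ℝ) × (κ → PhasePoint))} (hE : MeasurableSet E) {g : LSt → ℝ≥0∞}
    (hg : Measurable g) {C₁ : ℝ≥0∞} (hC₁ : C₁ ≠ ∞)
    (hgW : ∀ᵐ θ ∂m, ∫⁻ a : Space3, g (shL a (e θ)) ≤ C₁ * ENNReal.ofReal (1 + ‖(e θ).2.2‖))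
    (hD : Dom γ ρ ε 1 ∅ c Λ (m.withDensity (vW e)) b z) (hε : 0 < ε) {η : ℝ≥0∞}
    (hEi : ∀ b', ∫⁻ z', wgtA γ chi {j₀} z' * E.indicator 1 (b', z') ≤
      η * ENNReal.ofReal (ε ^ 2) ^ (Fintype.card κ - 1)) :
    ∫⁻ θ, g (e θ) * avE z b j₀ E θ ∂m ≤ C₁ * (c * (Λ univ * η)) := by
  have hWm : Measurable fun l : LSt => C₁ * ENNReal.ofReal (1 + ‖l.2.2‖) :=
    ((measurable_snd.snd.norm.const_add 1).ennreal_ofReal).const_mul _
  have h1 := transport hT j₀ hE hg hWm (fun _ _ => rfl) hgW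
  refine h1.trans ?_
  obtain ⟨F, hFdef⟩ : ∃ F : (κ → ℝ) × (κ → PhasePoint) → ℝ≥0∞,
      F = fun q => chi (q.2 j₀).1 * E.indicator 1 q := ⟨_, rfl⟩
  have hFm : Measurable F := by
    rw [hFdef]
    exact (measurable_chi.comp ((measurable_pi_apply j₀).comp measurable_snd).fst).mul
      (measurable_one.indicator hE)
  have hFq : ∀ b' z', F (b', z') = chi (z' j₀).1 * E.indicator 1 (b', z') := fun b' z' => by
    rw [hFdef]
  have hFθ : Measurable fun θ => F (b θ, z θ) := hFm.comp (hT.mb.prodMk hT.mz)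
  have h2 : ∫⁻ θ, C₁ * ENNReal.ofReal (1 + ‖(e θ).2.2‖) *
      (chi (z θ j₀).1 * E.indicator 1 (b θ, z θ)) ∂m =
      C₁ * ∫⁻ θ, F (b θ, z θ) ∂(m.withDensity (vW e)) := by
    rw [lintegral_withDensity_eq_lintegral_mul _ (measurable_vW hT.md) hFθ,
      ← lintegral_const_mul' _ _ hC₁]
    refine lintegral_congr fun θ => ?_
    rw [Pi.mul_apply, hFq, vW]
    ring
  refine (le_of_eq h2).trans (mul_le_mul_right ?_ _)
  have h6 := hD.le _ hFm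
  set q : ℝ≥0∞ := ENNReal.ofReal (ε ^ 2) ^ (Fintype.card κ - 1) with hq
  have hq1 : activity ε ^ (Fintype.card κ - 1) * q = 1 := activity_pow_mul_pow hε _
  have h7 : ∀ b' : κ → ℝ, ∫⁻ z', wgtA γ ρ ∅ z' * F (b', z') ≤ η * q := by
    intro b'
    refine le_trans (le_of_eq (lintegral_congr fun z' => ?_)) (hEi b')
    have h8 : wgtA γ chi {j₀} z' = wgtA γ ρ ∅ z' * chi (z' j₀).1 := by
      unfold wgtA
      simp only [Finset.prod_empty, one_mul, Finset.prod_singleton]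
      exact mul_comm _ _
    rw [h8, mul_assoc, hFq]
  calc ∫⁻ θ, F (b θ, z θ) ∂(m.withDensity (vW e))
      = activity ε ^ (Fintype.card κ - 1) * (q *
        ∫⁻ θ, F (b θ, z θ) ∂(m.withDensity (vW e))) := by
        rw [← mul_assoc, hq1, one_mul]
    _ ≤ activity ε ^ (Fintype.card κ - 1) * (c * ∫⁻ _b', η * q ∂Λ) := by
        refine mul_le_mul_right (h6.trans (mul_le_mul_right ?_ _)) _
        exact lintegral_mono fun b' => h7 b'
    _ = (activity ε ^ (Fintype.card κ - 1) * q) * (c * (Λ univ * η)) := by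
        rw [lintegral_const]
        ring
    _ = c * (Λ univ * η) := by rw [hq1, one_mul]

/-- Structures whose translates are all in `E`: bad structures alone. -/
theorem avE_of_bad (hΦ : AdmissiblePotential Φ) (hε : 0 < ε) (j₀ : κ)
    {E : Set ((κ → ℝ) × (κ → PhasePoint))} {C R ς : ℝ}
    (hE : ∀ (b : κ → ℝ) (z : κ → PhasePoint) (V : Fin 0 → PhasePoint) (A : Finset (Fin 0 ⊕ κ)),
      (VLMeas973.vsys Φ T ε (bS 0 b)).BadPart C R ς 1 A (Sum.elim V z) → (b, z) ∈ E)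
    {θ : Θ} {V : Fin 0 → PhasePoint} {A : Finset (Fin 0 ⊕ κ)}
    (hB : (VLMeas973.vsys Φ T ε (bS 0 (b θ))).BadPart C R ς 1 A (Sum.elim V (z θ))) :
    avE z b j₀ E θ = 1 := by
  refine avE_eq_one j₀ fun a' => hE _ _ V A ?_
  have h4 := (badPart_shift (M := VLMeas973.vsys Φ T ε (bS 0 (b θ))) hΦ hε
    (fun _ h => by cases h) a').2 hB
  have h5 : shX a' (Sum.elim V (z θ)) = Sum.elim V (shX a' (z θ)) := by
    funext j
    rcases j with j | j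
    · exact j.elim0
    · rfl
  rwa [h5] at h4

end core

/-! ## The constructor -/

section marg

variable {Θ Θ' : Type} [MeasurableSpace Θ] [MeasurableSpace Θ'] {κ : Type} [Fintype κ] {I : Type}
  {m : ℝ → I → Measure Θ} {m' : ℝ → I → Measure Θ'} {Tr : ℝ → I → Space3 → Θ → Θ}
  {b : ℝ → I → Θ' → κ → ℝ} {z : ℝ → I → Θ' → κ → PhasePoint} {e : ℝ → I → Θ → LSt}
  {pr : ℝ → I → Θ → Θ'} {c : ℝ≥0∞} {Λ : Measure (κ → ℝ)}

/-- The sub-structure from a marginal inequality. -/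
theorem SubHyp.of_marg {a' : ℝ} {k : ℝ≥0∞} (hk : k ≠ ∞) (hc : c ≠ ∞)
    (sf : ∀ ε i, SFinite (m ε i))
    (hdom : ∀ ε i, 0 < ε → Dom γ ρ ε 1 ∅ c Λ (m' ε i) (b ε i) (z ε i))
    (hpr : ∀ ε i, 0 < ε → Measurable (pr ε i))
    (hmarg : ∀ ε i, 0 < ε → ∀ G : Θ' → ℝ≥0∞, Measurable G →
      ∫⁻ x, ENNReal.ofReal (1 + ‖(e ε i x).2.2‖) * G (pr ε i x) ∂(m ε i) ≤
        k * ∫⁻ θ, expW a' (z ε i θ) * G θ ∂(m' ε i))
    (htr : ∀ ε i, 0 < ε → TInvS (m ε i) (Tr ε i) (fun x => b ε i (pr ε i x))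
      (fun x => z ε i (pr ε i x)) (e ε i))
    (hb : ∀ ε i, 0 < ε → ∀ᵐ θ ∂(m ε i), 0 ≤ (e ε i θ).1) :
    SubHyp (γ - a') ρ (k * c) Λ m (fun ε i x => b ε i (pr ε i x)) (fun ε i x => z ε i (pr ε i x))
      Tr e where
  sf := sf
  tr := htr
  birth := hb
  cf := ENNReal.mul_ne_top hk hc
  dom ε i hε := by
    have hd := hdom ε i hε
    have hz : Measurable fun θ => expW a' (z ε i θ) := (measurable_expW a').comp hd.mz
    have hw := hd.weight a' (c' := 1) hz (fun z => (one_mul _).ge) ENNReal.one_ne_top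
    refine ⟨hd.mb.comp (hpr ε i hε), hd.mz.comp (hpr ε i hε), fun F hF => ?_⟩
    have hFm : Measurable fun θ => F (b ε i θ, z ε i θ) := hF.comp (hd.mb.prodMk hd.mz)
    have hv := measurable_vW (htr ε i hε).md
    have h1 : ∫⁻ x, F (b ε i (pr ε i x), z ε i (pr ε i x)) ∂((m ε i).withDensity (vW (e ε i))) =
        ∫⁻ x, ENNReal.ofReal (1 + ‖(e ε i x).2.2‖) * F (b ε i (pr ε i x), z ε i (pr ε i x))
          ∂(m ε i) := by
      have hFp : Measurable fun x => F (b ε i (pr ε i x), z ε i (pr ε i x)) :=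
        hFm.comp (hpr ε i hε)
      rw [lintegral_withDensity_eq_lintegral_mul _ hv hFp]
      rfl
    have h2 := hmarg ε i hε _ hFm
    have h3 : ∫⁻ θ, expW a' (z ε i θ) * F (b ε i θ, z ε i θ) ∂(m' ε i) =
        ∫⁻ θ, F (b ε i θ, z ε i θ) ∂((m' ε i).withDensity fun θ => expW a' (z ε i θ)) := by
      rw [lintegral_withDensity_eq_lintegral_mul _ hz hFm]
      rfl
    have h4 := hw.le F hF
    rw [one_mul] at h4
    calc ENNReal.ofReal (ε ^ 2) ^ (Fintype.card κ - 1) *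
          ∫⁻ x, F (b ε i (pr ε i x), z ε i (pr ε i x)) ∂((m ε i).withDensity (vW (e ε i)))
        ≤ ENNReal.ofReal (ε ^ 2) ^ (Fintype.card κ - 1) * (k *
            ∫⁻ θ, F (b ε i θ, z ε i θ) ∂((m' ε i).withDensity fun θ => expW a' (z ε i θ))) := by
          rw [h1, ← h3]
          exact mul_le_mul_right h2 _
      _ = k * (ENNReal.ofReal (ε ^ 2) ^ (Fintype.card κ - 1) *
            ∫⁻ θ, F (b ε i θ, z ε i θ) ∂((m' ε i).withDensity fun θ => expW a' (z ε i θ))) := by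
          ring
      _ ≤ k * (c * ∫⁻ b, (∫⁻ z, wgtA (γ - a') ρ ∅ z * F (b, z)) ∂Λ) := mul_le_mul_right h4 _
      _ = _ := by ring

end marg

/-! ## Null events -/

section null

variable {Θ : Type} [MeasurableSpace Θ] {κ : Type} [Fintype κ] {I : Type}
  {m : ℝ → I → Measure Θ} {bs : ℝ → I → Θ → κ → ℝ} {zs : ℝ → I → Θ → κ → PhasePoint}
  {Tr : ℝ → I → Space3 → Θ → Θ} {e : ℝ → I → Θ → LSt} {c : ℝ≥0∞} {Λ : Measure (κ → ℝ)}
  [IsFiniteMeasure Λ]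

/-- The bad partitions of the sub-structure alone, near the gas. -/
theorem gLe_sub_sOnly_near (hΦ : AdmissiblePotential Φ) (hCN : ClassNull Φ T) (hf : Measurable f₀)
    (h1 : ∫⁻ z, ENNReal.ofReal (f₀ z) ≤ 1)
    (h2 : ∫⁻ z, ENNReal.ofReal (f₀ z) * ENNReal.ofReal (1 + ‖z.2‖ ^ 2) ≠ ∞) (hγ : 0 < γ)
    (H : SubHyp γ ρ c Λ m bs zs Tr e) {te : I → ℝ} {T₁ : ℝ} (hte : ∀ i, te i ≤ T₁) (j₀ : κ)
    (C R₁ : ℝ) {δ : ℝ≥0∞} (hδ : 0 < δ) :
    ∃ R > 0, ∃ ς > 0, ∀ (R' ς' : ℝ), R ≤ R' → ς' ≤ ς → GLe f₀ m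
      (fun ε i _ θ w => Near Φ ε R₁ (te i) w (e ε i θ) ∧
        ∃ (V : Fin 0 → PhasePoint) (A : Finset (Fin 0 ⊕ κ)),
          (VLMeas973.vsys Φ T ε (bS 0 (bs ε i θ))).BadPart C (R' * ε) ς' 1 A
            (Sum.elim V (zs ε i θ))) δ := by
  obtain ⟨C₁, hC₁, hnear⟩ := near_le (Φ := Φ) hΦ hf h1 h2 T₁ R₁
  set K : ℝ≥0∞ := C₁ * (c * Λ univ) with hK
  have hKt : K ≠ ∞ := ENNReal.mul_ne_top hC₁ (ENNReal.mul_ne_top H.cf (measure_ne_top Λ _))
  have hKt' : K + 1 ≠ ∞ := ENNReal.add_ne_top.2 ⟨hKt, ENNReal.one_ne_top⟩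
  set δ' : ℝ≥0∞ := δ / (K + 1) with hδ'
  have hδ'0 : 0 < δ' := ENNReal.div_pos hδ.ne' hKt'
  obtain ⟨R, hR, ς, hς, ε₀, hε₀, h⟩ := s_only hCN hγ j₀ C hδ'0
  refine ⟨R, hR, ς, hς, fun R' ς' hR' hς' => ⟨min ε₀ 1, lt_min hε₀ one_pos,
    fun ε hε hlt i => ?_⟩⟩
  obtain ⟨E, hEm, hE, hEi⟩ := h ε hε (hlt.trans_le (min_le_left _ _))
  have hε1 : ε ≤ 1 := (hlt.trans_le (min_le_right _ _)).le
  have := H.sf ε i
  have hT := H.tr ε i hε
  have hav := measurable_avE (b := bs ε i) (z := zs ε i) hEm hT.mb hT.mz j₀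
  set g : LSt → ℝ≥0∞ := fun l => gcE f₀ ε fun n w => nearN Φ ε R₁ (te i) n (w, l) with hg
  have hgm : Measurable g := MeasE416.measurable_gcE_of hf ε
    (F := fun n l w => nearN Φ ε R₁ (te i) n (w, l)) fun n =>
    (measurable_nearN hΦ hε R₁ (te i) n).comp measurable_swap
  refine ⟨fun n p => nearN Φ ε R₁ (te i) n (p.2, e ε i p.1) * avE (zs ε i) (bs ε i) j₀ E p.1,
    fun n => ?_, ?_, ?_⟩
  · refine Measurable.mul ?_ (hav.comp measurable_fst)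
    exact (measurable_nearN hΦ hε R₁ (te i) n).comp
      (measurable_snd.prodMk (hT.md.comp measurable_fst))
  · rintro n θ w - ⟨hN, V, A, hB⟩
    simp only
    rw [avE_of_bad hΦ hε j₀ (hE R' ς' hR' hς') hB, mul_one]
    exact one_le_nearN hΦ hε hN
  · calc ∫⁻ θ, gcE f₀ ε (fun n w => nearN Φ ε R₁ (te i) n (w, e ε i θ) *
          avE (zs ε i) (bs ε i) j₀ E θ) ∂(m ε i)
        = ∫⁻ θ, g (e ε i θ) * avE (zs ε i) (bs ε i) j₀ E θ ∂(m ε i) := by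
          refine lintegral_congr fun θ => ?_
          have hne : avE (zs ε i) (bs ε i) j₀ E θ ≠ ∞ :=
            ((avE_le_one j₀ E θ).trans_lt ENNReal.one_lt_top).ne
          rw [hg]
          simp only
          rw [mul_comm, ← gcE_const_mul f₀ ε hne]
          exact gcE_congr f₀ ε fun n w _ => mul_comm _ _
      _ ≤ C₁ * (c * (Λ univ * δ')) := by
          refine sOnly_core hT j₀ hEm hgm hC₁ ?_ (H.dom ε i hε) hε hEi
          filter_upwards [H.birth ε i hε] with θ hθ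
          exact hnear ε hε hε1 (te i) (hte i) (e ε i θ) hθ
      _ = K * δ' := by rw [hK]; ring
      _ ≤ (K + 1) * δ' := by gcongr; exact le_self_add
      _ = δ := by rw [hδ', ENNReal.mul_div_cancel (by simp) hKt']

/-- The bad partitions of the sub-structure alone, in contact with a tree. -/
theorem gLe_sub_sOnly_ct (hΦ : AdmissiblePotential Φ) (hCN : ClassNull Φ T) (hf : Measurable f₀)
    (h1 : ∫⁻ z, ENNReal.ofReal (f₀ z) ≤ 1) {γ₀ : ℝ} {ρ₀ : Space3 → ℝ≥0∞} (he : Env f₀ γ₀ ρ₀ C₀)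
    (hγ₀ : 0 < γ₀) (hγ : 0 < γ) (H : SubHyp γ ρ c Λ m bs zs Tr e) (P : CTree) {te T' : I → ℝ}
    {T₁ : ℝ} (hte : ∀ i, te i ≤ T₁) (hT' : ∀ i, T' i ≤ T₁) (j₀ : κ) (C : ℝ) {δ : ℝ≥0∞}
    (hδ : 0 < δ) :
    ∃ R > 0, ∃ ς > 0, ∀ (R' ς' : ℝ), R ≤ R' → ς' ≤ ς →
      GLe f₀ (fun ε i => ctM Φ f₀ ε (te i) (T' i) P (m ε i) (e ε i))
      (fun ε i _ q _ => ∃ (V : Fin 0 → PhasePoint) (A : Finset (Fin 0 ⊕ κ)),
          (VLMeas973.vsys Φ T ε (bS 0 (bs ε i q.2))).BadPart C (R' * ε) ς' 1 A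
            (Sum.elim V (zs ε i q.2))) δ := by
  obtain ⟨C₁, hC₁, hct⟩ := exists_ctG hΦ hf he hγ₀ P T₁
  set K : ℝ≥0∞ := C₁ * (c * Λ univ) with hK
  have hKt : K ≠ ∞ := ENNReal.mul_ne_top hC₁ (ENNReal.mul_ne_top H.cf (measure_ne_top Λ _))
  have hKt' : K + 1 ≠ ∞ := ENNReal.add_ne_top.2 ⟨hKt, ENNReal.one_ne_top⟩
  set δ' : ℝ≥0∞ := δ / (K + 1) with hδ'
  have hδ'0 : 0 < δ' := ENNReal.div_pos hδ.ne' hKt'
  obtain ⟨R, hR, ς, hς, ε₀, hε₀, h⟩ := s_only hCN hγ j₀ C hδ'0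
  refine ⟨R, hR, ς, hς, fun R' ς' hR' hς' => ⟨ε₀, hε₀, fun ε hε hlt i => ?_⟩⟩
  obtain ⟨E, hEm, hE, hEi⟩ := h ε hε hlt
  have := H.sf ε i
  have hT := H.tr ε i hε
  have hav := measurable_avE (b := bs ε i) (z := zs ε i) hEm hT.mb hT.mz j₀
  refine ⟨fun n p => avE (zs ε i) (bs ε i) j₀ E p.1.2, fun n => ?_, ?_, ?_⟩
  · exact hav.comp measurable_fst.snd
  · rintro n q w - ⟨V, A, hB⟩
    simp only
    rw [avE_of_bad hΦ hε j₀ (hE R' ς' hR' hς') hB]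
  · calc ∫⁻ q, gcE f₀ ε (fun _ _ => avE (zs ε i) (bs ε i) j₀ E q.2)
          ∂(ctM Φ f₀ ε (te i) (T' i) P (m ε i) (e ε i))
        = ∫⁻ q, expW 0 (linesM Φ ε P q.1.1 q.1.2) * avE (zs ε i) (bs ε i) j₀ E q.2
          ∂(ctM Φ f₀ ε (te i) (T' i) P (m ε i) (e ε i)) := by
          refine lintegral_congr fun q => ?_
          rw [expW_at_zero, one_mul]
          exact gcE_const f₀ ε hf h1 ((avE_le_one j₀ E q.2).trans_lt ENNReal.one_lt_top).ne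
      _ = ∫⁻ θ, ctG Φ f₀ 0 ε (te i) (T' i) P (e ε i θ) * avE (zs ε i) (bs ε i) j₀ E θ
            ∂(m ε i) := lintegral_ctM_S hΦ hT.md 0 hav
      _ ≤ C₁ * (c * (Λ univ * δ')) := by
          refine sOnly_core hT j₀ hEm (measurable_ctG hΦ 0 ε (te i) (T' i) P) hC₁ ?_
            (H.dom ε i hε) hε hEi
          filter_upwards [H.birth ε i hε] with θ hθ
          exact (hct ε (te i) (T' i) hε (hte i) (hT' i) (e ε i θ) hθ).2
      _ = K * δ' := by rw [hK]; ring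
      _ ≤ (K + 1) * δ' := by gcongr; exact le_self_add
      _ = δ := by rw [hδ', ENNReal.mul_div_cancel (by simp) hKt']

/-- Splitting a bad partition (one group, every label is an anchor). -/
theorem badGas_split {ε C R ς R' ς' : ℝ} (hε : 0 < ε) (hR : R ≤ R') (hς : ς' ≤ ς) {N n : ℕ}
    {b : κ → ℝ} {z : κ → PhasePoint} {w : Config n}
    (h : BadGas Φ T C R' ς' ε N 1 Finset.univ b z w) :
    (∃ (V : Fin 0 → PhasePoint) (A : Finset (Fin 0 ⊕ κ)),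
      (VLMeas973.vsys Φ T ε (bS 0 b)).BadPart C (R' * ε) ς' 1 A (Sum.elim V z)) ∨
      BadGas Φ T C R ς ε N 1 ∅ b z w := by
  obtain ⟨k, hk, ι, hB⟩ := h
  rcases k with _ | k
  · exact Or.inl ⟨_, _, hB⟩
  · refine Or.inr (badGas_mono (R' := R') (ς' := ς') hε.le hR hς ⟨k + 1, hk, ι, ?_⟩)
    refine badPart_one (x := Sum.inl 0) ?_ hB
    unfold anch
    rw [Finset.inl_mem_disjSum]
    exact Finset.mem_univ _

/-- **Bad partitions of a sub-structure, near the gas.** Every label may serve as an anchor. -/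
theorem gLe_badGas_sub_near (hΦ : AdmissiblePotential Φ) (hCN : ClassNull Φ T)
    (hf : Measurable f₀) (h1 : ∫⁻ z, ENNReal.ofReal (f₀ z) ≤ 1)
    (h2 : ∫⁻ z, ENNReal.ofReal (f₀ z) * ENNReal.ofReal (1 + ‖z.2‖ ^ 2) ≠ ∞)
    (he : Env f₀ γ ρ C₀) (hγ : 0 < γ) (H : SubHyp γ ρ c Λ m bs zs Tr e) {te : I → ℝ} {T₁ : ℝ}
    (hte : ∀ i, te i ≤ T₁) (j₀ : κ) (C R₁ : ℝ) (N : ℕ) {δ : ℝ≥0∞} (hδ : 0 < δ) :
    ∃ R > 0, ∃ ς > 0, ∀ (R' ς' : ℝ), R ≤ R' → ς' ≤ ς → GLe f₀ m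
      (fun ε i _ θ w => Near Φ ε R₁ (te i) w (e ε i θ) ∧
        BadGas Φ T C R' ς' ε N 1 Finset.univ (bs ε i θ) (zs ε i θ) w) δ := by
  set δ₁ : ℝ≥0∞ := min δ 1 / 2 with hδ₁
  have hδ₁0 : 0 < δ₁ := ENNReal.div_pos (lt_min hδ one_pos).ne' (by norm_num)
  have hsum : δ₁ + δ₁ ≤ δ := by
    rw [hδ₁, ENNReal.add_halves]
    exact min_le_left _ _
  obtain ⟨R, hR, ς, hς, h⟩ := gLe_sub_sOnly_near hΦ hCN hf h1 h2 hγ H hte j₀ C R₁ hδ₁0
  obtain ⟨R₂, hR₂, ς₂, hς₂, h'⟩ := gLe_badGas hCN hf h1 he hγ C N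
    (Fintype.card_pos_iff.2 ⟨j₀⟩ : 1 ≤ Fintype.card κ) ∅ H.cf Λ H.sf
    (fun ε i hε => dom_of_weight (H.tr ε i hε).md (H.dom ε i hε)) hδ₁0
  refine ⟨max R R₂, lt_max_of_lt_left hR, min ς ς₂, lt_min hς hς₂, fun R' ς' hR' hς' => ?_⟩
  refine ((h R' ς' ((le_max_left _ _).trans hR') (hς'.trans (min_le_left _ _))).or hf h').mono hsum
    ⟨1, one_pos, fun ε hε _ i n θ w _ hE => ?_⟩
  rcases badGas_split hε ((le_max_right R R₂).trans hR') (hς'.trans (min_le_right ς ς₂)) hE.2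
    with h3 | h3
  · exact Or.inl ⟨hE.1, h3⟩
  · exact Or.inr h3

/-- **Bad partitions of a sub-structure, in contact with a tree.** Every label may serve as an
anchor. -/
theorem gLe_badGas_sub_ct (hΦ : AdmissiblePotential Φ) (hCN : ClassNull Φ T)
    (hf : Measurable f₀) (h1 : ∫⁻ z, ENNReal.ofReal (f₀ z) ≤ 1)
    (he : Env f₀ γ ρ C₀) (hγ : 0 < γ) (H : SubHyp γ ρ c Λ m bs zs Tr e) (P : CTree)
    {te T' : I → ℝ} {T₁ : ℝ} (hte : ∀ i, te i ≤ T₁) (hT' : ∀ i, T' i ≤ T₁) (j₀ : κ) (C : ℝ)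
    (N : ℕ) {δ : ℝ≥0∞} (hδ : 0 < δ) :
    ∃ R > 0, ∃ ς > 0, ∀ (R' ς' : ℝ), R ≤ R' → ς' ≤ ς →
      GLe f₀ (fun ε i => ctM Φ f₀ ε (te i) (T' i) P (m ε i) (e ε i))
      (fun ε i _ q w =>
        BadGas Φ T C R' ς' ε N 1 Finset.univ (bs ε i q.2) (zs ε i q.2) w) δ := by
  set δ₁ : ℝ≥0∞ := min δ 1 / 2 with hδ₁
  have hδ₁0 : 0 < δ₁ := ENNReal.div_pos (lt_min hδ one_pos).ne' (by norm_num)
  have hsum : δ₁ + δ₁ ≤ δ := by
    rw [hδ₁, ENNReal.add_halves]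
    exact min_le_left _ _
  obtain ⟨R, hR, ς, hς, h⟩ := gLe_sub_sOnly_ct hΦ hCN hf h1 he hγ hγ H P hte hT' j₀ C hδ₁0
  obtain ⟨C₁, hC₁, hS⟩ := exists_ctM_S hΦ hf he hγ P T₁
  have hsf : ∀ ε i, SFinite (ctM Φ f₀ ε (te i) (T' i) P (m ε i) (e ε i)) := fun ε i => by
    have := H.sf ε i
    infer_instance
  obtain ⟨R₂, hR₂, ς₂, hς₂, h'⟩ := gLe_badGas hCN hf h1 he hγ C N
    (Fintype.card_pos_iff.2 ⟨j₀⟩ : 1 ≤ Fintype.card κ) ∅ (ENNReal.mul_ne_top hC₁ H.cf) Λ hsf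
    (b := fun ε i q => bs ε i q.2) (z := fun ε i q => zs ε i q.2)
    (fun ε i hε => by
      have := H.sf ε i
      refine dom_ctS_of (fun G hG => ?_) (H.tr ε i hε).md (H.dom ε i hε)
      have h3 := hS ε (te i) (T' i) hε (hte i) (hT' i) Θ (m ε i) (e ε i) (H.tr ε i hε).md
        (H.birth ε i hε) G hG
      simpa only [expW_at_zero, one_mul] using h3) hδ₁0
  refine ⟨max R R₂, lt_max_of_lt_left hR, min ς ς₂, lt_min hς hς₂, fun R' ς' hR' hς' => ?_⟩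
  refine ((h R' ς' ((le_max_left _ _).trans hR') (hς'.trans (min_le_left _ _))).or hf h').mono hsum
    ⟨1, one_pos, fun ε hε _ i n q w _ hE => ?_⟩
  exact badGas_split hε ((le_max_right R R₂).trans hR') (hς'.trans (min_le_right ς ς₂)) hE

end null

end Crest.Agent.R122.LN2

end
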