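import Crest.Agent.R122.LevGate_581
import Crest.Agent.R122.LN2Ct3_473
import Crest.Agent.R122.GateOsP_424

/-!
# Row 122, inequality 3 (helper494): levels of the structures over the law `osP`

* `osP_le_ctM` : the law of 581 is below the law of 473.
* `subHyp_itS` : the structure of the level `k` as a sub-structure of the law of `itS S (k + i)`.
* `badF_osP_level`, `badF_lv_osP` : bad partitions of gas particles and the structure of a level,
  over the law of (contact tree, structure of the top level).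
-/

set_option autoImplicit false
set_option linter.unusedSectionVars false

open MeasureTheory Set Filter Topology
open scoped Classical ENNReal
open Crest.AnalysisR.Kinetic

noncomputable section

namespace Crest.Agent.R122.PairRep581

open Crest.Agent.R122.GC311 Crest.Agent.R122.Kin796 Crest.Agent.R122.Kin796.CTree
open Crest.Agent.R122.Tree674 Crest.Agent.R122.EDefs602
open Crest.Agent.R122.Gate424 Crest.Agent.R122.Gate973 Crest.Agent.R122.LN2
open Crest.Agent.R122.Boost969 (LSt)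
open Crest.Agent.R122.Pair292 (Lab shP shL shM)
open Crest.Agent.R122.PairD292
open Crest.Agent.R122.StrN998 (Th Ka itS)
open Crest.Agent.R122.Marg494 (prj dom_sub_itS tinvS_sub_itS_e shpOk_nonempty)

variable {Φ : Space3 → ℝ} {f₀ : PhasePoint → ℝ} {γ β : ℝ} {ρ : Space3 → ℝ≥0∞} {S : Shp}
  {T te te₁ T' T₁ b₀ ε : ℝ} {C₀ : ℝ≥0∞} {q : ℕ → ℝ≥0∞} {K : ℕ}

/-- The law of (contact tree, structure) is below the contact law of helper473. -/
theorem osP_le_ctM (hΦ : AdmissiblePotential Φ) (hf : Measurable f₀) (P : CTree) (S : Shp)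
    (hS : SFinite (S.m ε)) :
    osP Φ f₀ te₁ T' K P S ε () ≤
      ctM Φ f₀ ε te₁ T' P (S.m ε) (fun x => (eL (S.th ε x)).1) := by
  unfold osP ctM
  rw [GateOsP424.treeA_eq hΦ hf, Measure.prod_smul_left, ← Measure.restrict_smul]
  refine Measure.restrict_mono ?_ le_rfl
  intro p hp
  exact hp.1

/-- The structure of the level `k` inside the law of `itS S (k + i)`. -/
theorem subHyp_itS (h : ShpOk γ β ρ S) (hρ : Measurable ρ) (hΦ : AdmissiblePotential Φ)
    (hb : γ ≤ b₀) (hq : ∑' m, q m ≠ ∞) (k i : ℕ) {a' : ℝ} (ha' : 0 < a') (hab : a' ≤ b₀) :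
    ∃ (C : ℝ≥0∞) (Λ : Measure (Ka S.κ k → ℝ)), IsFiniteMeasure Λ ∧
      SubHyp (γ - a') ρ C Λ (itS S Φ b₀ te q (k + i)).mI
        (fun ε _ x => (itS S Φ b₀ te q k).b ε (prj S.Θ k i x))
        (fun ε _ x => (itS S Φ b₀ te q k).z ε (prj S.Θ k i x))
        (fun _ _ => (itS S Φ b₀ te q (k + i)).Tr)
        (fun ε _ x => (eL ((itS S Φ b₀ te q (k + i)).th ε x)).1) := by
  obtain ⟨C, Λ, hC, hΛ, hD⟩ := dom_sub_itS (te := te) (q := q) h hρ hΦ hb hq k i ha' hab
  refine ⟨C, Λ, hΛ, fun ε _ => ?_, fun ε _ hε => hD ε hε,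
    fun ε _ hε => tinvS_sub_itS_e h hΦ hε k i, fun ε _ hε => ?_, hC⟩
  · have h1 : SFinite (StrN998.ofShp S ε).m := h.sf ε
    exact StrN998.sfinite_iter (StrN998.ofShp S ε) (k + i)
  · exact ((StrN998.ShpOk.sd_phys h hε).iter (ε := ε) (b₀ := b₀) (te := te) (q := q)
      (StrN998.ShpOk.sd_ok h hε) hΦ hε.le (k + i)).be

/-- **Bad partitions of a level over `osP`.** -/
theorem badF_osP_level (h : ShpOk γ β ρ S) (hρ : Measurable ρ) (hΦ : AdmissiblePotential Φ)
    (hCN : VLMeas973.ClassNull Φ T) (hf : Measurable f₀) (h1 : ∫⁻ z, ENNReal.ofReal (f₀ z) ≤ 1)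
    (he : Env f₀ γ ρ C₀) (hγ : 0 < γ) (hb : γ ≤ b₀) (hq : ∑' m, q m ≠ ∞) (P : CTree) (k i : ℕ)
    (C : ℝ) (N : ℕ) :
    BadF f₀ (osP Φ f₀ te₁ T' K P (itS S Φ b₀ te q (k + i)))
      (fun R ς ε _ _ x w =>
        BadGas Φ T C R ς ε N 1 Finset.univ ((itS S Φ b₀ te q k).b ε (prj S.Θ k i x.2))
          ((itS S Φ b₀ te q k).z ε (prj S.Θ k i x.2)) w) := by
  intro δ hδ
  have ha' : 0 < γ / 2 := by linarith
  obtain ⟨Cs, Λ, hΛ, H⟩ := subHyp_itS (te := te) (q := q) h hρ hΦ hb hq k i ha'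
    (show γ / 2 ≤ b₀ by linarith)
  have hne := shpOk_nonempty h
  have j₀ : Ka S.κ k := (StrN998.instNonKa S.κ k).some
  obtain ⟨R, hR, ς, hς, hG⟩ := gLe_badGas_sub_ct hΦ hCN hf h1
    (TouchFlux494.env_anti he (show γ - γ / 2 ≤ γ by linarith)) (by linarith) H P
    (te := fun _ => te₁) (T' := fun _ => T') (T₁ := max te₁ T') (fun _ => le_max_left _ _)
    (fun _ => le_max_right _ _) j₀ C N hδ
  refine ⟨R, hR, ς, hς, fun R' ς' hR' _ hς' => ?_⟩
  have h2 := hG R' ς' hR' hς'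
  refine GLe.mono_meas h2 one_pos fun ε _ _ _ => ?_
  have hsf : SFinite ((itS S Φ b₀ te q (k + i)).m ε) := H.sf ε ()
  exact osP_le_ctM hΦ hf P (itS S Φ b₀ te q (k + i)) hsf

/-- **Bad partitions of all levels over `osP`.** -/
theorem badF_lv_osP (h : ShpOk γ β ρ S) (hρ : Measurable ρ) (hΦ : AdmissiblePotential Φ)
    (hCN : VLMeas973.ClassNull Φ T) (hf : Measurable f₀) (h1 : ∫⁻ z, ENNReal.ofReal (f₀ z) ≤ 1)
    (he : Env f₀ γ ρ C₀) (hγ : 0 < γ) (hb : γ ≤ b₀) (hq : ∑' m, q m ≠ ∞) (P : CTree) (j : ℕ)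
    (C : ℝ) (N : ℕ) :
    BadF f₀ (osP Φ f₀ te₁ T' K P (itS S Φ b₀ te q j))
      (fun R ς ε _ _ x w => BadLv S Φ b₀ te q T C R ς ε N w j x.2) := by
  refine (badF_lv (Θ := S.Θ) (m := osP Φ f₀ te₁ T' K P (itS S Φ b₀ te q j))
    (pr := fun _ x => x.2)
    (B := fun R ς ε _ _ w k y => BadK S Φ b₀ te q T C R ς ε N w k y)
    (G := fun _ _ _ _ _ => True) hf fun k i e => ?_).mono
    fun R ς ε _ _ x w _ _ hE => ⟨trivial, hE⟩
  subst e
  exact (badF_osP_level (te := te) (te₁ := te₁) (T' := T') (K := K) h hρ hΦ hCN hf h1 he hγ hb hq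
    P k i C N).mono fun R ς ε _ _ x w _ _ hE => hE.2

end Crest.Agent.R122.PairRep581

end
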