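import Crest.Agent.R122.Real6P_796
import Crest.Agent.R122.LNLevel2_494
import Crest.Agent.R122.PassAE_416
import Crest.Agent.R122.NuHitS_969
import Crest.Agent.R122.BaseAe_45
import Crest.Agent.R122.NuOk_735

/-!
# Row 122, LINK6 (helper291): the realisation hypothesis `PairAlt` for the continued base shapes

* `ae_osP_snd` : almost sure facts of the structure are almost sure facts of (tree, structure).
* `itS_b0` : all births of the continued shapes are `0`.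
* `LvFact` : the facts of a level of the structure (connected, tree-like, pair structure).
* `pairAlt_of_lv` : `PairAlt` for `itS S j` from the levels (generic base).
* `pairAlt_famB` : `PairAlt` for `itS (famB Φ K N s) j`.
* `ae_dT`, `gNull_dT` : the birth of the first line is at most `te`.
-/

set_option autoImplicit false
set_option linter.unusedSectionVars false

open MeasureTheory Set Filter Topology
open scoped Classical ENNReal
open Crest.AnalysisR.Kinetic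

noncomputable section

namespace Crest.Agent.R122.PairAlt291

open Crest.Agent.R122.GC311 Crest.Agent.R122.EDefs602
open Crest.Agent.R122.Kin796 Crest.Agent.R122.Kin796.CTree Crest.Agent.R122.Tree674
open Crest.Agent.R122.TreeLines335 Crest.Agent.R122.LN2
open Crest.Agent.R122.Gate424 Crest.Agent.R122.Gate973
open Crest.Agent.R122.Scat818 Crest.Agent.R122.OCout796 Crest.Agent.R122.Ins45
open Crest.Agent.R122.Boost969 (LSt)
open Crest.Agent.R122.Pair292 (Lab)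
open Crest.Agent.R122.OneC285 (cT cB cD cX)
open Crest.Agent.R122.VL581 Crest.Agent.R122.VL581.VSys
open Crest.Agent.R122.LN304
open Crest.Agent.R122.StrG491 Crest.Agent.R122.StrMain307
open Crest.Agent.R122.PairD292 Crest.Agent.R122.PairRep581
open Crest.Agent.R122.NuHit969 (HitS bas)
open Crest.Agent.R122.StrN998 (Th Ka itS)
open Crest.Agent.R122.NuL735 (NPar Ix famB)
open Crest.Agent.R122.Link6796

variable {Φ : Space3 → ℝ} {f₀ : PhasePoint → ℝ} {γ β β' b₀ T te T' ε c : ℝ} {ρ : Space3 → ℝ≥0∞}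
  {S : Shp} {K : ℕ} {P : CTree} {q : ℕ → ℝ≥0∞} {C₀ : ℝ≥0∞}

/-! ## Almost sure facts -/

/-- Almost sure facts of the structure are almost sure facts of (tree, structure). -/
theorem ae_osP_snd (_hsf : SFinite (S.m ε)) {p : S.Θ → Prop} (hp : ∀ᵐ x ∂(S.m ε), p x) :
    ∀ᵐ y ∂(osP Φ f₀ te T' K P S ε ()), p y.2 := by
  unfold osP
  exact ae_restrict_of_ae
    ((Measure.quasiMeasurePreserving_snd (μ := treeA Φ f₀ ε T' P) (ν := S.m ε)).ae hp)

/-- Events of the structure of probability `0` are null events. -/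
theorem gNull_snd (h : ShpOk γ β ρ S) (hf : Measurable f₀) {E : ℝ → S.Θ → Prop}
    (hE : ∀ ε : ℝ, 0 < ε → ∀ᵐ x ∂(S.m ε), ¬ E ε x) :
    GNull f₀ (osP Φ f₀ te T' K P S) (fun ε _ _ y _ => E ε y.2) :=
  PassAE416.gNull_of_aeQ h hf fun ε hε => ae_osP_snd (h.sf ε) (hE ε hε)

/-- **All births of the continuations are `0`.** -/
theorem itS_b0 (hb : ∀ ε x i, S.b ε x i = 0) (j : ℕ) (ε : ℝ)
    (x : (itS S Φ b₀ te q j).Θ) (i : (itS S Φ b₀ te q j).κ) :
    (itS S Φ b₀ te q j).b ε x i = 0 := by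
  induction j with
  | zero => exact hb ε x i
  | succ j ih =>
    have h1 := NuHit969.itS_b_succ (Φ := Φ) (b₀ := b₀) (te := te) (q := q) (ε := ε) S j x
    have h2 := congrFun h1 i
    refine h2.trans ?_
    rcases (show Ka S.κ j ⊕ Unit from i) with k | k
    · exact ih x.1 k
    · rfl

/-! ## The facts of a level -/

/-- **The facts of a level** `(b, z, d, e)` : connected, tree-like, pair structure with transversal
exits and late cross contacts. -/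
structure LvFact (Φ : Space3 → ℝ) (T ε c ℓ ς : ℝ) {κ : Type} [Fintype κ] (b : κ → ℝ)
    (z : κ → PhasePoint) (d e : ℝ × PhasePoint) : Prop where
  conn : (VLMeas973.vsys Φ T ε b).Conn c Finset.univ z
  tl : TL (VLMeas973.vsys Φ T ε b) c ℓ ς Finset.univ z
  pair : ∃ (R : ℝ → κ → κ → Prop) (cl : κ → Finset κ) (bD : κ → ℝ) (x y : κ),
    Pair (VLMeas973.vsys Φ T ε b) c z R Finset.univ cl bD x y d e ∧
    ExitT (VLMeas973.vsys Φ T ε b) z cl bD ∧ CrossT R cl bD y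

/-- The facts of the level `j` of the shape `S` for one base event `p`: the hypothesis of
`pairAlt_of_lv`. -/
def LvHyp (S : Shp) (Φ : Space3 → ℝ) (b₀ te : ℝ) (q : ℕ → ℝ≥0∞) (T' c : ℝ) (N j : ℕ)
    (p : ℝ → S.Θ → Prop) : Prop :=
  ∀ (ρ ς ε : ℝ), 0 < ρ → 0 < ς → 0 < ε → te + 2 * (ρ * ε) < T' → 2 * (ρ * ε) ≤ ς →
    ∀ (n : ℕ) (w : Config n) (x : Th S.Θ j), p ε (bas S.Θ j x) → HitS S Φ b₀ te q ε j x →
      ¬ BadLv S Φ b₀ te q T' c ρ ς ε N w j x →
      LvFact Φ T' ε c (ρ * ε) ς ((itS S Φ b₀ te q j).b ε x) ((itS S Φ b₀ te q j).z ε x)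
        (dL ((itS S Φ b₀ te q j).th ε x)).1 (eL ((itS S Φ b₀ te q j).th ε x)).1

/-- **`PairAlt` for the continued shapes** from the levels. -/
theorem pairAlt_of_lv (h : ShpOk γ β ρ S) (hρ : Measurable ρ) (hΦ : AdmissiblePotential Φ)
    (hf : Measurable f₀) (h1 : ∫⁻ z, ENNReal.ofReal (f₀ z) ≤ 1)
    (he : Env f₀ γ ρ C₀) (hγ : 0 < γ) (hb : γ ≤ b₀) (hβ : β' < β) (hβb : β ≤ b₀)
    (hq : ∑' m, q m ≠ ∞) {Q : EPar} (hT' : 0 < T') (hte : Q.te < T')
    (hb0 : ∀ ε x i, S.b ε x i = 0) (j N : ℕ)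
    {p : ℝ → S.Θ → Prop} (hp : ∀ ε : ℝ, 0 < ε → ∀ᵐ θ ∂(S.m ε), p ε θ)
    (hlv : LvHyp S Φ b₀ Q.te q T' c N j p) :
    PairAlt Φ f₀ Q T' K P (itS S Φ b₀ Q.te q j) c := by
  have hj : ShpOk γ β' ρ (itS S Φ b₀ Q.te q j) :=
    StrN998.ShpOk.iter (te := Q.te) (q := q) h hΦ hρ hb hβ hβb hq j
  refine ⟨fun R ς ε _ _ y w => BadLv S Φ b₀ Q.te q T' c R ς ε N w j y.2,
    fun ε _ _ y _ => ¬ (p ε (bas S.Θ j y.2) ∧ HitS S Φ b₀ Q.te q ε j y.2) ∨
      ¬ CDpass Φ (cD ε y.1 (eL ((itS S Φ b₀ Q.te q j).th ε y.2))),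
    badF_lv_osP h hρ hΦ (Gate973.classNull hΦ hT') hf h1 he hγ hb hq P j c N,
    (gNull_snd (E := fun ε x => ¬ (p ε (bas S.Θ j x) ∧ HitS S Φ b₀ Q.te q ε j x)) hj hf
      fun ε hε => ?_).or hf (PassAE416.gNull_pass hj hΦ hf), fun R hR ς hς => ?_⟩
  · filter_upwards [NuHit969.ae_itS (te := Q.te) (q := q) (b₀ := b₀) h hΦ hε (hp ε hε) j]
      with x hx hn
    exact hn hx
  · refine ⟨min (ς / (2 * R)) ((T' - Q.te) / (2 * R)), lt_min (by positivity)
      (div_pos (by linarith) (by positivity)), fun ε hε hlt i n y w hw hct hgd => ?_⟩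
    have e1 : 2 * (R * ε) < ς := by
      have := (lt_div_iff₀ (by positivity : (0 : ℝ) < 2 * R)).1 (hlt.trans_le (min_le_left _ _))
      linarith
    have e2 : Q.te + 2 * (R * ε) < T' := by
      have := (lt_div_iff₀ (by positivity : (0 : ℝ) < 2 * R)).1 (hlt.trans_le (min_le_right _ _))
      linarith
    by_cases hB : BadLv S Φ b₀ Q.te q T' c R ς ε N w j y.2
    · exact Or.inr (Or.inl hB)
    by_cases hH : p ε (bas S.Θ j y.2) ∧ HitS S Φ b₀ Q.te q ε j y.2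
    swap
    · exact Or.inr (Or.inr (Or.inl hH))
    by_cases hC : CDpass Φ (cD ε y.1 (eL ((itS S Φ b₀ Q.te q j).th ε y.2)))
    swap
    · exact Or.inr (Or.inr (Or.inr hC))
    have hl := hlv R ς ε hR hς hε e2 e1.le n w y.2 hH.1 hH.2 hB
    exact Or.inl ⟨hl.pair, fun k => itS_b0 hb0 j ε y.2 k, hl.conn, hl.tl, hct, hgd.real.valid,
      hgd.real.sep, hC⟩

/-! ## The base shapes -/

theorem itS_dL (j : ℕ) (ε : ℝ) (x : (itS S Φ b₀ te q j).Θ) :
    dL ((itS S Φ b₀ te q j).th ε x) = dL (S.th ε (bas S.Θ j x)) := by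
  induction j with
  | zero => rfl
  | succ j ih => exact ih x.1

/-- The births of the base shapes are `0`. -/
theorem famB_b0 (K : ℕ) (N : NPar) (s : Ix N.m₀) (ε : ℝ) (x : (famB Φ K N s).Θ)
    (i : (famB Φ K N s).κ) : (famB Φ K N s).b ε x i = 0 := rfl

/-- The first line of the base shapes is born before `te`. -/
theorem ae_dT0 (hΦ : AdmissiblePotential Φ) (K : ℕ) (N : NPar) (s : Ix N.m₀) (ε : ℝ) :
    ∀ᵐ x ∂((famB Φ K N s).m ε), (dL ((famB Φ K N s).th ε x)).1.1 ≤ N.te := by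
  have h1 : ∀ᵐ x ∂(NuL735.mP Φ ε K N s.1.1 s.2.1.1 s.2.1.2),
      x ∈ NuL735.bdE Φ ε N.te s.2.1.1 s.2.1.2 ∩ NuL735.sepE Φ ε N.T' s.1.1 := by
    unfold NuL735.mP
    exact ae_restrict_mem ((NuL735.measurableSet_bdE hΦ ε N.te s.2.1.1 s.2.1.2).inter
      (NuL735.measurableSet_sepE hΦ ε N.T' s.1.1))
  filter_upwards [h1] with x hx
  exact hx.1.1

/-- **The first line is born before `te`**, all levels, over `osP`. -/
theorem gNull_dT (N : NPar) {K₁ : ℕ} (s : Ix N.m₀) (hΦ : AdmissiblePotential Φ)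
    (hγb : γ ≤ N.b) (hγe : γ ≤ N.γe) (hβ0 : β < N.b) (hβγ : β < N.γe) (hN : N.ρ ≠ ∞)
    (hρ : Measurable ρ) (hb : γ ≤ b₀) (hβ : β' < β) (hβb : β ≤ b₀) (hq : ∑' m, q m ≠ ∞)
    (hf : Measurable f₀) (te₁ : ℝ) (j : ℕ) :
    GNull f₀ (osP Φ f₀ te₁ T' K P (itS (famB Φ K₁ N s) Φ b₀ te q j))
      (fun ε _ _ y _ => ¬ (dL ((itS (famB Φ K₁ N s) Φ b₀ te q j).th ε y.2)).1.1 ≤ N.te) := by
  have h := NuL735.shpOk_base (ρ := ρ) hΦ K₁ N hγb hγe hβ0 hβγ hN hρ s
  have hj : ShpOk γ β' ρ (itS (famB Φ K₁ N s) Φ b₀ te q j) :=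
    StrN998.ShpOk.iter (te := te) (q := q) h hΦ hρ hb hβ hβb hq j
  refine gNull_snd (E := fun ε x => ¬ (dL ((itS (famB Φ K₁ N s) Φ b₀ te q j).th ε x)).1.1 ≤ N.te)
    hj hf fun ε hε => ?_
  filter_upwards [NuHit969.ae_itS (te := te) (q := q) (b₀ := b₀) h hΦ hε
    (ae_dT0 hΦ K₁ N s ε) j] with x hx
  rw [not_not, itS_dL]
  exact hx.1

/-- **`PairAlt` for the continued base shapes** from the levels. -/
theorem pairAlt_famB (N : NPar) {K₁ : ℕ} (s : Ix N.m₀) (hΦ : AdmissiblePotential Φ)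
    (hγb : γ ≤ N.b) (hγe : γ ≤ N.γe) (hβ0 : β < N.b) (hβγ : β < N.γe) (hN : N.ρ ≠ ∞)
    (hρ : Measurable ρ) (hf : Measurable f₀) (h1 : ∫⁻ z, ENNReal.ofReal (f₀ z) ≤ 1)
    (he : Env f₀ γ ρ C₀) (hγ : 0 < γ) (hb : γ ≤ b₀) (hβ : β' < β) (hβb : β ≤ b₀)
    (hq : ∑' m, q m ≠ ∞) {Q : EPar} (hT' : 0 < T') (hte : Q.te < T') (j M : ℕ)
    (hlv : LvHyp (famB Φ K₁ N s) Φ b₀ Q.te q T' c M j
      fun ε x => BasePair45.Good0 Φ ε N.te N.T' s.1.1 x) :
    PairAlt Φ f₀ Q T' K P (itS (famB Φ K₁ N s) Φ b₀ Q.te q j) c :=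
  pairAlt_of_lv (NuL735.shpOk_base hΦ K₁ N hγb hγe hβ0 hβγ hN hρ s) hρ hΦ hf h1 he hγ hb hβ hβb
    hq hT' hte (fun _ _ _ => rfl) j M
    (fun _ hε => BasePair45.ae_good0 hΦ hε N s.2.1.1 s.2.1.2) hlv

end Crest.Agent.R122.PairAlt291

end
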