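import Crest.Agent.R122.OpxWin_796
import Crest.Agent.R122.PairAlt_291
import Crest.Agent.R122.LvAll_726

/-!
# Row 122, inequality 3 (helper796): the realisation hypothesis for the structures of all windows

* `lvHyp` : the level facts of helper291 from the levels of helper726.
* `pairAlt_win` : `PairAlt` for the structures `itW` of all windows, every `c ≥ 1`.
* `gNull_dT_win` : the birth of the first line is at most `te`.
-/

set_option autoImplicit false
set_option linter.unusedSectionVars false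
set_option maxHeartbeats 400000

open MeasureTheory ProbabilityTheory Set Filter
open scoped ENNReal Classical Topology
open Crest.AnalysisR.Kinetic
open Crest.Agent.R122.GC311 Crest.Agent.R122.EDefs602 Crest.Agent.R122.LN2
open Crest.Agent.R122.Kin796 Crest.Agent.R122.Kin796.CTree
open Crest.Agent.R122.Boost969 (LSt)
open Crest.Agent.R122.PairD292 Crest.Agent.R122.Top602
open Crest.Agent.R122.Mark307 (BPar)
open Crest.Agent.R122.Master566 (KData)
open Crest.Agent.R122.I3In566 (Adm3)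
open Crest.Agent.R122.Gate424 Crest.Agent.R122.Gate973
open Crest.Agent.R122.NuL735 (NPar nuL Ix famB)
open Crest.Agent.R122.CaseC658 (qK)
open Crest.Agent.R122.PairRep581 (Shp ShpOk Rep osP)
open Crest.Agent.R122.StrN998 (itS)
open Crest.Agent.R122.NuC85 (nW)
open Crest.Agent.R122.Link6796 (PairAlt)
open Crest.Agent.R122.PairAlt291 (LvHyp)

noncomputable section

namespace Crest.Agent.R122.OpxWin796

/-- **The level facts** of the base law. -/
theorem lvHyp {Φ : Space3 → ℝ} {b₀ te c : ℝ} {K : ℕ} (hΦ : AdmissiblePotential Φ) (N : NPar)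
    (s : Ix N.m₀) (q : ℕ → ℝ≥0∞) (hc : 1 ≤ c) (hte : N.te = te) (j M : ℕ) :
    LvHyp (famB Φ K N s) Φ b₀ te q N.T' c M j
      fun ε x => BasePair45.Good0 Φ ε N.te N.T' s.1.1 x := by
  intro ρ ς ε hρ hς hε h1 h2 n w x h0 hh hB
  have h3 := Lv726.lv_all hc hΦ hε h2 (mul_pos hρ hε).le (te₀ := N.te) (te := te) (T := N.T')
    (T' := N.T') (T₁ := N.T') (by rw [hte]; exact h1) h1 le_rfl le_rfl j h0 hh hB
  exact ⟨h3.conn, h3.tl, h3.pairD⟩

variable {Φ : Space3 → ℝ} {β T : ℝ} {f₀ : PhasePoint → ℝ} {f : ℝ → PhasePoint → ℝ}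
  {γ : ℝ → ℝ} {ρ : ℝ≥0∞} {h₀ kap lam C g : ℝ} {B : BPar}

/-- **The realisation hypothesis for the structures of all windows.** -/
theorem pairAlt_win (hD : KData Φ β T f₀ f) (hA : Adm3 Φ β T f γ ρ h₀ kap lam C g B)
    (hρ : ρ ≠ ∞) (Cf : ℝ) (m : ℕ) (L : ℝ) {tw te : ℝ} (htw : 0 ≤ tw) (hth : te < tw + h₀)
    (j K : ℕ) (s : Ix (nW β Cf g ρ h₀ m tw te).m₀) {c : ℝ} (hc : 1 ≤ c) (K₀ : ℕ) (P : CTree) :
    PairAlt Φ f₀ (epar γ ρ L tw te) (tw + h₀) K₀ P
      (itW Φ B C lam te (nW β Cf g ρ h₀ m tw te) j K s) c := by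
  have hb0 := hA.b0
  have hbs : B.b₀ ≤ B.bs := hA.ok.b0s
  have h1 := hA.bs
  have h2 := hA.bg
  have hh := hA.h0
  have hβ := hD.beta_pos
  obtain ⟨ρd, C₀, he⟩ := exists_env (γ' := B.b₀) (γ := 2 * β) (by linarith) hD.gaussian
  refine PairAlt291.pairAlt_famB (γ := B.b₀) (β := B.b₀ / 2) (β' := B.b₀ / 4) (b₀ := B.b₀)
    (ρ := ρd) (Q := epar γ ρ L tw te) (nW β Cf g ρ h₀ m tw te) s hD.adm ?_ h2 ?_ ?_ hρ he.meas
    hD.contDiff.continuous.measurable (lintegral_le_one hD) he hb0 le_rfl ?_ ?_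
    (tsum_qK_ne_top C lam K) ?_ hth j 1 (lvHyp hD.adm _ s _ hc rfl j 1)
  · show B.b₀ ≤ 2 * β
    linarith
  · show B.b₀ / 2 < 2 * β
    linarith
  · show B.b₀ / 2 < g
    linarith
  · linarith
  · linarith
  · linarith

/-- **The first line is born before `te`.** -/
theorem gNull_dT_win (hD : KData Φ β T f₀ f) (hA : Adm3 Φ β T f γ ρ h₀ kap lam C g B)
    (hρ : ρ ≠ ∞) (Cf : ℝ) (m : ℕ) (tw te te₁ T' : ℝ) (j K : ℕ)
    (s : Ix (nW β Cf g ρ h₀ m tw te).m₀) (K₀ : ℕ) (P : CTree) :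
    GNull f₀ (osP Φ f₀ te₁ T' K₀ P (itW Φ B C lam te (nW β Cf g ρ h₀ m tw te) j K s))
      (fun ε _ _ y _ =>
        ¬ (dL ((itW Φ B C lam te (nW β Cf g ρ h₀ m tw te) j K s).th ε y.2)).1.1 ≤ te) := by
  have hb0 := hA.b0
  have hbs : B.b₀ ≤ B.bs := hA.ok.b0s
  have h1 := hA.bs
  have h2 := hA.bg
  have hβ := hD.beta_pos
  refine PairAlt291.gNull_dT (γ := B.b₀) (β := B.b₀ / 2) (β' := B.b₀ / 4) (b₀ := B.b₀)
    (ρ := fun _ => 0) (nW β Cf g ρ h₀ m tw te) s hD.adm ?_ h2 ?_ ?_ hρ measurable_const le_rfl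
    ?_ ?_ (tsum_qK_ne_top C lam K) hD.contDiff.continuous.measurable te₁ j
  · show B.b₀ ≤ 2 * β
    linarith
  · show B.b₀ / 2 < 2 * β
    linarith
  · show B.b₀ / 2 < g
    linarith
  · linarith
  · linarith

end Crest.Agent.R122.OpxWin796

end
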