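import Crest.Agent.R122.LNPart_424
import Crest.Agent.R122.LNEmb_410

/-!
# Row 122, levels of the structures (helper317): tree-likeness off the bad partitions

* `pull_inr` : the isolated structure inside the system of the gas and the structure.
* `tl_of_not_badGas` : a connected structure is tree-like, or `BadGas` (no gas particle needed).
-/

set_option autoImplicit false
set_option linter.unusedSectionVars false

open MeasureTheory Set Filter Topology
open scoped Classical ENNReal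
open Crest.AnalysisR.Kinetic
open Crest.Agent.R122.VL581 Crest.Agent.R122.VL581.VSys
open Crest.Agent.R122.LN304 Crest.Agent.R122.LNBridge968 Crest.Agent.R122.LNPart424
open Crest.Agent.R122.LNEmb410
open Crest.Agent.R122.VLMeas973 (vsys)

noncomputable section

namespace Crest.Agent.R122.LvTL317

variable {Φ : Space3 → ℝ} {T T' ε c ρ ς : ℝ} {σ : Type} [Fintype σ] {b : σ → ℝ}
  {V : σ → PhasePoint} {n N : ℕ} {w : Config n}

/-- The labels of the structure. -/
def inrE (n : ℕ) (σ : Type) : σ ↪ Fin n ⊕ σ := ⟨Sum.inr, Sum.inr_injective⟩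

/-- No gas. -/
def w₀ : Config 0 := fun i => i.elim0

/-- The isolated structure inside the system of the gas and the structure. -/
theorem pull_inr (n : ℕ) (b : σ → ℝ) : Pull (vsys Φ T ε b) (gsys Φ T ε n b) (inrE n σ) where
  Φ := rfl
  T := rfl
  ε := rfl
  b i := rfl
  o i := by
    show (none : Option _) = _ ↔ (none : Option _) = _
    simp
  S := rfl

/-- The only part. -/
def L0 (σ : Type) [Fintype σ] : Finset (Finset (Fin 0 ⊕ σ)) := {Finset.univ.map (inrE 0 σ)}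

theorem mem_L0 {π : Finset (Fin 0 ⊕ σ)} : π ∈ L0 σ ↔ π = Finset.univ.map (inrE 0 σ) :=
  Finset.mem_singleton

theorem sparts0 {A₀ : Finset σ} (hA : A₀.Nonempty) : SParts (n := 0) 1 A₀ (L0 σ) where
  disj π hπ π' hπ' hne := absurd ((mem_L0.1 hπ).trans (mem_L0.1 hπ').symm) hne
  cov y := ⟨_, mem_L0.2 rfl, Finset.mem_map_of_mem (inrE 0 σ) (Finset.mem_univ y)⟩
  anch π hπ := by
    obtain ⟨y, hy⟩ := hA
    rw [mem_L0.1 hπ]
    exact ⟨y, hy, Finset.mem_map_of_mem (inrE 0 σ) (Finset.mem_univ y)⟩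
  card := le_of_eq (Finset.card_singleton _)

theorem badGas_zero {A₀ : Finset σ} {N₀ : ℕ}
    (h : LN2.BadGas Φ T' c ρ ς ε N₀ 1 A₀ b V w₀) : LN2.BadGas Φ T' c ρ ς ε N 1 A₀ b V w := by
  obtain ⟨k, _, ι, h2⟩ := h
  have hk : k = 0 := by
    by_contra hk
    exact (ι ⟨0, Nat.pos_of_ne_zero hk⟩).elim0
  subst hk
  refine ⟨0, Nat.zero_le N, ⟨fun i => i.elim0, fun i => i.elim0⟩, ?_⟩
  have h3 : (fun i : Fin 0 => w₀ (ι i)) = fun i : Fin 0 =>
      w ((⟨fun i => i.elim0, fun i => i.elim0⟩ : Fin 0 ↪ Fin n) i) := by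
    funext i
    exact i.elim0
  rw [← h3]
  exact h2

/-- **A connected structure is tree-like, off the bad partitions.** -/
theorem tl_of_not_badGas (hΦ : AdmissiblePotential Φ) (hε : 0 < ε) (hT : T ≤ T')
    (hc : (vsys Φ T ε b).Conn c Finset.univ V) {A₀ : Finset σ} (hA : A₀.Nonempty)
    (hB : ¬ LN2.BadGas Φ T' c ρ ς ε N 1 A₀ b V w) :
    TL (vsys Φ T ε b) c (ρ * ε) ς Finset.univ V := by
  have hp : Pull (vsys Φ T ε b) (gsys Φ T ε 0 b) (inrE 0 σ) := pull_inr 0 b
  have hc' : (gsys Φ T ε 0 b).Conn c (Finset.univ.map (inrE 0 σ)) (Sum.elim w₀ V) :=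
    (hp.conn (Z := Sum.elim w₀ V) hΦ hε).2 hc
  by_contra hcon
  have hcon' : ¬ TL (gsys Φ T ε 0 b) c (ρ * ε) ς (Finset.univ.map (inrE 0 σ))
      (Sum.elim w₀ V) := fun h => hcon ((tl_iff (Z := Sum.elim w₀ V) hp hΦ hε).1 h)
  have hN : ¬ NoBad (gsys Φ T ε 0 b) c (ρ * ε) ς (Sum.elim w₀ V) (L0 σ)
      (Fintype.card (Fin 0 ⊕ σ)) :=
    fun h => hcon' (h _ hc' ⟨_, mem_L0.2 rfl, subset_rfl⟩ (Finset.card_le_univ _))
  exact hB (badGas_zero (badGas_of_not hΦ hε hT (sparts0 hA)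
    (fun π hπ => by rw [mem_L0.1 hπ]; exact hc') (Or.inl hN)))

end Crest.Agent.R122.LvTL317

end
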