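import Crest.Agent.R122.BadX_974

/-!
# Row 122, LINK6 (S4): the world conditions of the good lines (helper416)

* `ok_swap`, `okFam_swap` : two objects are inserted in any order.
* `okFam_snoc` : a family in `Z` and in `Z + x` is a family with `x` in `Z`.
* `okFam_snoc2` : the same in `Z + d`, from the family with `d` in `Z` and in `Z + x`.
* `OkX6` : the two world facts of a test line `x` (families F1, F2 of helper974).
* `OkX6.ok₁`, `OkX6.okr₁` : `GoodXB.ok`, `.okr` in the world `w`; `OkX6.ok₂`, `OkX6.okr₂` in `w + d`.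
-/

set_option autoImplicit false
set_option linter.unusedSectionVars false

open MeasureTheory Set Filter Topology
open scoped ENNReal
open Crest.AnalysisR.Kinetic
open Crest.Agent.R122.EDefs602 Crest.Agent.R122.MWAlg255
open Crest.Agent.R122.Kin796 Crest.Agent.R122.Kin796.CTree Crest.Agent.R122.Tree674
open Crest.Agent.R122.TreeLines335
open Crest.Agent.R122.MWFam255 (PairNL okFam_comp)
open Crest.Agent.R122.E6Hyp879 (E6Hyp withD inlEmb)
open Crest.Agent.R122.RealL811 (treeW)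

namespace Crest.Agent.R122.LKok416

noncomputable section

open scoped Classical

variable {Φ : Space3 → ℝ} {ε te : ℝ} {K : ℕ} {ι κ μ ξ : Type}
  [Fintype ι] [Fintype κ] [Fintype μ] [Fintype ξ] {Z : MW ι} {A : MW κ} {B : MW μ} {D : MW ξ}

/-- Two objects are inserted in any order. -/
theorem ok_swap (hΦ : AdmissiblePotential Φ) (hε : 0 < ε) :
    ((Z.add A).add B).Ok Φ ε ↔ ((Z.add B).add A).Ok Φ ε := by
  rw [add_swap Z A B]
  exact MW.ok_comap_iff hΦ hε _

/-- The same below a third object. -/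
theorem ok_swap_left (hΦ : AdmissiblePotential Φ) (hε : 0 < ε) :
    (((Z.add A).add B).add D).Ok Φ ε ↔ (((Z.add B).add A).add D).Ok Φ ε := by
  rw [add_swap Z A B]
  have h1 : (((Z.add B).add A).comap (swapRight ι κ μ)).add D =
      (((Z.add B).add A).add D).comap (Equiv.sumCongr (swapRight ι κ μ) (Equiv.refl ξ)) := by
    rw [← add_comap]
    rfl
  rw [h1]
  exact MW.ok_comap_iff hΦ hε _

variable {F : κ → ML} {d x : ML}

theorem okFam_swap (hΦ : AdmissiblePotential Φ) (hε : 0 < ε)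
    (h : MW.OkFam Φ ε ((Z.ins x).ins d) F) : MW.OkFam Φ ε ((Z.ins d).ins x) F :=
  fun S => (ok_swap_left hΦ hε).1 (h S)

/-- **A family in `Z` and in `Z + x` is a family with `x` in `Z`.** -/
theorem okFam_snoc (hΦ : AdmissiblePotential Φ) (hε : 0 < ε) (h0 : MW.OkFam Φ ε Z F)
    (h1 : MW.OkFam Φ ε (Z.ins x) F) : MW.OkFam Φ ε Z (withD F x) := by
  intro S
  by_cases hx : Sum.inr () ∈ S
  · -- the line `x` is in the sub-family
    let e : Unit ⊕ {k // k ∈ S.toLeft} ≃ {j // j ∈ S} :=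
      { toFun := Sum.elim (fun _ => ⟨Sum.inr (), hx⟩)
          (fun k => ⟨Sum.inl k.1, Finset.mem_toLeft.1 k.2⟩)
        invFun := fun j => match j with
          | ⟨Sum.inl k, hk⟩ => Sum.inr ⟨k, Finset.mem_toLeft.2 hk⟩
          | ⟨Sum.inr _, _⟩ => Sum.inl ()
        left_inv := by
          rintro (k | k)
          · rfl
          · rfl
        right_inv := by
          rintro ⟨j | j, hj⟩
          · rfl
          · rfl }
    have h2 : (Z.add (sub (withD F x) S)).comap (Equiv.sumCongr (Equiv.refl ι) e) =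
        Z.add ((MW.line x).add (sub F S.toLeft)) := by
      rw [← add_comap]
      show Z.add _ = Z.add _
      congr 1
      unfold MW.comap MW.add
      congr 1 <;> · funext k; rcases k with k | k <;> rfl
    rw [← MW.ok_comap_iff hΦ hε (Equiv.sumCongr (Equiv.refl ι) e), h2, ← MW.ok_add_assoc hΦ hε]
    exact h1 _
  · let e : {k // k ∈ S.toLeft} ≃ {j // j ∈ S} :=
      { toFun := fun k => ⟨Sum.inl k.1, Finset.mem_toLeft.1 k.2⟩
        invFun := fun j => match j with
          | ⟨Sum.inl k, hk⟩ => ⟨k, Finset.mem_toLeft.2 hk⟩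
          | ⟨Sum.inr _, hk⟩ => absurd hk hx
        left_inv := fun k => rfl
        right_inv := by
          rintro ⟨j | j, hj⟩
          · rfl
          · exact absurd hj hx }
    have h2 : (Z.add (sub (withD F x) S)).comap (Equiv.sumCongr (Equiv.refl ι) e) =
        Z.add (sub F S.toLeft) := by
      rw [← add_comap]
      rfl
    rw [← MW.ok_comap_iff hΦ hε (Equiv.sumCongr (Equiv.refl ι) e), h2]
    exact h0 _

/-- The family with `x` in `Z + d`, from the families with `d` in `Z` and in `Z + x`. -/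
theorem okFam_snoc2 (hΦ : AdmissiblePotential Φ) (hε : 0 < ε)
    (h0 : MW.OkFam Φ ε (Z.ins d) F) (h1 : MW.OkFam Φ ε ((Z.ins x).ins d) F) :
    MW.OkFam Φ ε (Z.ins d) (withD F x) :=
  okFam_snoc hΦ hε h0 (okFam_swap hΦ hε h1)

/-- A member of the family is inserted in the base. -/
theorem okFam_insD (hΦ : AdmissiblePotential Φ) (hε : 0 < ε)
    (h : MW.OkFam Φ ε Z (withD F d)) : MW.OkFam Φ ε (Z.ins d) F := by
  intro S
  have h1 := MWFam255.ok_lines_add hΦ hε h
    (⟨fun _ : Unit => Sum.inr (), fun _ _ _ => rfl⟩ : Unit ↪ κ ⊕ Unit)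
    (⟨fun i : S => Sum.inl i.1, fun i j h => Subtype.ext (Sum.inl_injective h)⟩ : S ↪ κ ⊕ Unit)
    (fun _ _ h => by cases h)
  exact h1

/-! ### The two world facts of a test line -/

variable {P : CTree} {z : PhasePoint × Par P} {l : ML}

/-- **The world facts of a test line `x`** (base world `Y`, tree `z`, first line `d`). -/
structure OkX6 (Φ : Space3 → ℝ) (ε : ℝ) (Y : MW ι) (P : CTree) (z : PhasePoint × Par P)
    (d x : ML) : Prop where
  /-- the lines of the tree and `d` in `Y + x` -/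
  fam : MW.OkFam Φ ε (Y.ins x) (withD (lineML Φ ε P z) d)
  /-- `d` in `Y + V + x` -/
  real : MW.OkFam Φ ε ((Y.add (treeW Φ ε P z)).ins x) (fun _ : Unit => d)

variable {Y : MW ι}

/-- `GoodXB.ok` in the world `Y`. -/
theorem OkX6.ok₁ (hΦ : AdmissiblePotential Φ) (hε : 0 < ε) (h : OkX6 Φ ε Y P z d x)
    (hok : MW.OkFam Φ ε Y (withD (lineML Φ ε P z) d)) :
    MW.OkFam Φ ε Y (withD (lineML Φ ε P z) x) :=
  okFam_snoc hΦ hε (okFam_comp hΦ hε hok (inlEmb (Idx P) Unit))
    (okFam_comp hΦ hε h.fam (inlEmb (Idx P) Unit))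

/-- `GoodXB.okr` in the world `Y`. -/
theorem OkX6.okr₁ (hΦ : AdmissiblePotential Φ) (hε : 0 < ε) (h : OkX6 Φ ε Y P z d x) :
    ((Y.add (treeW Φ ε P z)).ins x).Ok Φ ε := h.real.base hΦ hε

/-- `GoodXB.ok` in the world `Y + d`. -/
theorem OkX6.ok₂ (hΦ : AdmissiblePotential Φ) (hε : 0 < ε) (h : OkX6 Φ ε Y P z d x)
    (hok : MW.OkFam Φ ε Y (withD (lineML Φ ε P z) d)) :
    MW.OkFam Φ ε (Y.ins d) (withD (lineML Φ ε P z) x) :=
  okFam_snoc2 hΦ hε (okFam_insD hΦ hε hok) (okFam_insD hΦ hε h.fam)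

/-- `GoodXB.okr` in the world `Y + d`. -/
theorem OkX6.okr₂ (hΦ : AdmissiblePotential Φ) (hε : 0 < ε) (h : OkX6 Φ ε Y P z d x) :
    (((Y.ins d).add (treeW Φ ε P z)).ins x).Ok Φ ε := by
  have h1 : (((Y.add (treeW Φ ε P z)).ins x).add (MW.line d)).Ok Φ ε :=
    h.real.line hΦ hε ()
  have h2 : (((Y.add (treeW Φ ε P z)).add (MW.line d)).add (MW.line x)).Ok Φ ε :=
    (ok_swap hΦ hε).1 h1
  exact (ok_swap_left hΦ hε).1 h2

/-- **The good lines** in the world `Y`, from the world facts, the absence of links and returns. -/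
theorem goodXB₁ (hΦ : AdmissiblePotential Φ) (hε : 0 < ε) (h : OkX6 Φ ε Y P z d x)
    (hok : MW.OkFam Φ ε Y (withD (lineML Φ ε P z) d))
    (hnl : ∀ i : Idx P, MW.NoLink Φ ε K te Y (MW.line (lineML Φ ε P z i)) (MW.line x))
    (hret : ¬ LNEv383.RetC Φ ε ε K te Y x (OneC285.ptube Φ ε P z)) :
    BadX974.GoodXB Φ ε K te Y P z x :=
  ⟨h.ok₁ hΦ hε hok, h.okr₁ hΦ hε, hnl, hret⟩

/-- **The good lines** in the world `Y + d`. -/
theorem goodXB₂ (hΦ : AdmissiblePotential Φ) (hε : 0 < ε) (h : OkX6 Φ ε Y P z d x)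
    (hok : MW.OkFam Φ ε Y (withD (lineML Φ ε P z) d))
    (hnl : ∀ i : Idx P, MW.NoLink Φ ε K te (Y.ins d) (MW.line (lineML Φ ε P z i)) (MW.line x))
    (hret : ¬ LNEv383.RetC Φ ε ε K te (Y.ins d) x (OneC285.ptube Φ ε P z)) :
    BadX974.GoodXB Φ ε K te (Y.ins d) P z x :=
  ⟨h.ok₂ hΦ hε hok, h.okr₂ hΦ hε, hnl, hret⟩

end

end Crest.Agent.R122.LKok416
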