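import Crest.Agent.R122.Link6Asm_796

/-!
# Row 122, LINK6 (helper796): the null facts asked from the gateway, split by owner

`Slots6P` : good worlds (`ok`), links (`nl0`, `nl1`, `nl2`), near the root line (`near`), test lines
(`lk`). Every event may use the guard `Gd6` and the negations of the earlier events. `Slots6P.slots6` :
`Slots6`.
-/

set_option autoImplicit false
set_option linter.unusedSectionVars false

open MeasureTheory Set Filter Topology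
open scoped Classical ENNReal
open Crest.AnalysisR.Kinetic
open Crest.Agent.R122.GC311 Crest.Agent.R122.EDefs602
open Crest.Agent.R122.Kin796 Crest.Agent.R122.Kin796.CTree Crest.Agent.R122.Tree674
open Crest.Agent.R122.TreeLines335 Crest.Agent.R122.MWFam255 Crest.Agent.R122.E6Hyp879
open Crest.Agent.R122.Gate424 Crest.Agent.R122.Gate973
open Crest.Agent.R122.Boost969 (LSt)
open Crest.Agent.R122.Pair292 (Lab)
open Crest.Agent.R122.PairD292 Crest.Agent.R122.Pt6811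
open Crest.Agent.R122.PairRep581
open Crest.Agent.R122.Decomp811 (exF)

noncomputable section

namespace Crest.Agent.R122.Link6796

/-- The two families of `E6Hyp` can be inserted. -/
structure Ok6 (Φ : Space3 → ℝ) (ε : ℝ) (P : CTree)
    (z : PhasePoint × Par P) {m : ℕ} (w : Config m) (θ : Lab × LSt) : Prop where
  /-- the lines of the tree and `d`, base `w` -/
  ok₁ : MW.OkFam Φ ε (MW.cfg w) (withD (lineML Φ ε P z) (dL θ))
  /-- the exits and the two output lines, base `w + d` -/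
  ok₂ : MW.OkFam Φ ε ((MW.cfg w).ins (dL θ)) (plus (exF (lineML Φ ε P z) (root P))
    (outL6 Φ ε P z (eL θ) (some false)) (outL6 Φ ε P z (eL θ) (some true)))

/-- The lines of the tree and `d` are not linked, base `w`. -/
def Nl0 (Φ : Space3 → ℝ) (ε : ℝ) (K : ℕ) (te : ℝ) (P : CTree)
    (z : PhasePoint × Par P) {m : ℕ} (w : Config m) (θ : Lab × LSt) : Prop :=
  PairNL Φ ε K te (MW.cfg w) (withD (lineML Φ ε P z) (dL θ))

/-- The lines of the tree are not linked, base `w + d`. -/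
def Nl1 (Φ : Space3 → ℝ) (ε : ℝ) (K : ℕ) (te : ℝ) (P : CTree)
    (z : PhasePoint × Par P) {m : ℕ} (w : Config m) (θ : Lab × LSt) : Prop :=
  PairNL Φ ε K te ((MW.cfg w).ins (dL θ)) (lineML Φ ε P z)

/-- The exits and the two output lines are not linked, base `w + d`. -/
def Nl2 (Φ : Space3 → ℝ) (ε : ℝ) (K : ℕ) (te : ℝ) (P : CTree)
    (z : PhasePoint × Par P) {m : ℕ} (w : Config m) (θ : Lab × LSt) : Prop :=
  PairNL Φ ε K te ((MW.cfg w).ins (dL θ)) (plus (exF (lineML Φ ε P z) (root P))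
    (outL6 Φ ε P z (eL θ) (some false)) (outL6 Φ ε P z (eL θ) (some true)))

/-- `E6Hyp` of the contact structures. -/
abbrev Hyp6 (Φ : Space3 → ℝ) (ε : ℝ) (K : ℕ) (te : ℝ) (P : CTree)
    (z : PhasePoint × Par P) {m : ℕ} (w : Config m) (θ : Lab × LSt) : Prop :=
  E6Hyp Φ ε K te (MW.cfg w) (lineML Φ ε P z) (root P) (dL θ)
    (outL6 Φ ε P z (eL θ) (some false)) (outL6 Φ ε P z (eL θ) (some true))

variable {Φ : Space3 → ℝ} {f₀ : PhasePoint → ℝ} {T' : ℝ} {K : ℕ} {Q : EPar} {P : CTree}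

/-- **The null facts asked from the gateway, split**, for one tree and one shape. -/
structure Slots6P (Φ : Space3 → ℝ) (f₀ : PhasePoint → ℝ) (Q : EPar) (T' : ℝ) (K : ℕ) (P : CTree)
    (S : Shp) : Prop where
  /-- (S1a) worlds -/
  ok : GNull f₀ (osP Φ f₀ Q.te T' K P S) (fun ε _ _ q w =>
    Gd6 Φ ε K Q T' P q.1 w (S.th ε q.2) ∧ ¬ Ok6 Φ ε P q.1 w (S.th ε q.2))
  /-- (S1b) links, base `w` -/
  nl0 : GNull f₀ (osP Φ f₀ Q.te T' K P S) (fun ε _ _ q w =>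
    Gd6 Φ ε K Q T' P q.1 w (S.th ε q.2) ∧ Ok6 Φ ε P q.1 w (S.th ε q.2) ∧
      ¬ Nl0 Φ ε K Q.te P q.1 w (S.th ε q.2))
  /-- (S1c) links of the tree, base `w + d` -/
  nl1 : GNull f₀ (osP Φ f₀ Q.te T' K P S) (fun ε _ _ q w =>
    Gd6 Φ ε K Q T' P q.1 w (S.th ε q.2) ∧ Ok6 Φ ε P q.1 w (S.th ε q.2) ∧
      Nl0 Φ ε K Q.te P q.1 w (S.th ε q.2) ∧ ¬ Nl1 Φ ε K Q.te P q.1 w (S.th ε q.2))
  /-- (S1d) links of the outputs, base `w + d` -/
  nl2 : GNull f₀ (osP Φ f₀ Q.te T' K P S) (fun ε _ _ q w =>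
    Gd6 Φ ε K Q T' P q.1 w (S.th ε q.2) ∧ Ok6 Φ ε P q.1 w (S.th ε q.2) ∧
      Nl0 Φ ε K Q.te P q.1 w (S.th ε q.2) ∧ Nl1 Φ ε K Q.te P q.1 w (S.th ε q.2) ∧
      ¬ Nl2 Φ ε K Q.te P q.1 w (S.th ε q.2))
  /-- (S2) near the root line, every fixed radius -/
  near : ∀ R : ℝ, 0 ≤ R → GNull f₀ (osP Φ f₀ Q.te T' K P S) (fun ε _ _ q w =>
    Gd6 Φ ε K Q T' P q.1 w (S.th ε q.2) ∧ Hyp6 Φ ε K Q.te P q.1 w (S.th ε q.2) ∧
      Late6 Φ ε R K Q.te P q.1 w (dL (S.th ε q.2)) (eL (S.th ε q.2)) ∧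
      ¬ Near6 Φ ε R K P q.1 w (dL (S.th ε q.2)) (eL (S.th ε q.2)))
  /-- (S4) the test lines -/
  lk : FNull f₀ (osP Φ f₀ Q.te T' K P S)
    (fun ε _ n q w => fLk6 Φ Q T' K ε P q.1 n w (S.th ε q.2))

/-- **`Slots6` from the split null facts.** -/
theorem Slots6P.slots6 {S : Shp} (hf : Measurable f₀) (h : Slots6P Φ f₀ Q T' K P S) :
    Slots6 Φ f₀ Q T' K P S := by
  have hH : GNull f₀ (osP Φ f₀ Q.te T' K P S)
      (fun ε _ n q w => evHyp Φ Q T' K ε P q.1 n w (S.th ε q.2)) := by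
    refine (((h.ok.or hf h.nl0).or hf h.nl1).or hf h.nl2).mono' fun ε _ n q w hE => ?_
    obtain ⟨hg, hH⟩ := hE
    by_cases h0 : Ok6 Φ ε P q.1 w (S.th ε q.2)
    swap
    · exact Or.inl (Or.inl (Or.inl ⟨hg, h0⟩))
    by_cases h1 : Nl0 Φ ε K Q.te P q.1 w (S.th ε q.2)
    swap
    · exact Or.inl (Or.inl (Or.inr ⟨hg, h0, h1⟩))
    by_cases h2 : Nl1 Φ ε K Q.te P q.1 w (S.th ε q.2)
    swap
    · exact Or.inl (Or.inr ⟨hg, h0, h1, h2⟩)
    by_cases h3 : Nl2 Φ ε K Q.te P q.1 w (S.th ε q.2)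
    swap
    · exact Or.inr ⟨hg, h0, h1, h2, h3⟩
    exact absurd ⟨h0.ok₁, h0.ok₂, h1, h2, h3⟩ hH
  refine ⟨hH, fun R hR => ?_, h.lk⟩
  refine (hH.or hf (h.near R hR)).mono' fun ε _ n q w hE => ?_
  obtain ⟨hg, hL, hN⟩ := hE
  by_cases hy : Hyp6 Φ ε K Q.te P q.1 w (S.th ε q.2)
  · exact Or.inr ⟨hg, hy, hL, hN⟩
  · exact Or.inl ⟨hg, hy⟩

end Crest.Agent.R122.Link6796

end
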