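import Crest.Agent.R122.TransD2_151

/-!
# Good worlds from release data with deaths (row 122), helper151

* `ae_worldD`, `ae_worldD_prod` : `ae_goodD` for an isolated group `α` and a world `ω`.
* `path_eq_of` : the path of a marked world from a world with births.
* `ok_add_last` : lines born last, at a place where nobody is.
* `ae_okFamD` : `MW.OkFam` for the released lines, and no coincidence between particles of the
  isolated group which are not dead and the world, at all times.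
-/

set_option autoImplicit false
set_option linter.unusedSectionVars false

open MeasureTheory Set Filter Topology
open scoped ENNReal NNReal
open Crest.AnalysisR.Kinetic
open Crest.Agent.R122.Flow671 Crest.Agent.R122.Loc45 Crest.Agent.R122.Ins45
open Crest.Agent.R122.Simul984 Crest.Agent.R122.Inf879 Crest.Agent.R122.EDefs602
open Crest.Agent.R122.MWAlg255

namespace Crest.Agent.R122.TransOk151

noncomputable section

open scoped Classical

variable {Φ : Space3 → ℝ} {ε : ℝ}

section world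

variable {α ω : Type} [Fintype α] [Fintype ω]

/-- **Worlds with released lines**, joint statement on `α ⊕ ω`. -/
theorem ae_worldD (hΦ : AdmissiblePotential Φ) (hε : 0 < ε) (bα : α → ℝ) (bω : ω → ℝ) :
    ∀ᵐ Z : α ⊕ ω → PhasePoint, ∀ (S : Finset α) (d : α → ℝ) (T : ℝ) (X : ℝ → α → PhasePoint),
      0 ≤ T → DWorld Φ ε bα d 0 T X → (∀ a, X 0 a = Z (Sum.inl a)) → RelD ε bα d T X →
      (∀ a ∈ S, d a ≤ T) →
      ∃ Y : ℝ → ω ⊕ S → PhasePoint, BWorld Φ ε (Sum.elim bω fun i : S => d i) 0 Y ∧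
        (Y 0 = Sum.elim (fun x => Z (Sum.inr x)) fun i : S => lineAt (d i) (X (d i) i) 0) ∧
        ∀ t ∈ Icc 0 T, ∀ a : α, t ≤ d a → (∀ y : ω, (X t a).1 ≠ (Y t (Sum.inl y)).1) ∧
          ∀ i : S, (i : α) ≠ a → d i ≤ t → (X t a).1 ≠ (Y t (Sum.inr i)).1 := by
  rw [ae_all_iff]
  intro S
  filter_upwards [ae_goodD (κ := α ⊕ ω) hΦ hε (grM ω S) (grA α ω) (Sum.elim bα bω)] with Z hZ d T X
    hT hX h0 hR hS
  have hb : (fun a : ↥(grA α ω) => Sum.elim bα bω (a : α ⊕ ω)) = fun a => bα (eqA a) := by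
    funext a
    rw [← inl_eqA a]
    rfl
  have hd : (fun a : ↥(grA α ω) => Sum.elim d (fun _ : ω => (0 : ℝ)) (a : α ⊕ ω)) =
      fun a => d (eqA a) := by
    funext a
    rw [← inl_eqA a]
    rfl
  obtain ⟨Y, hY, hY0, hN⟩ := hZ (Sum.elim d fun _ => 0) T (fun t a => X t (eqA a)) hT (by
      rw [hb, hd]
      exact hX.comp eqA.toEmbedding fun i hi => absurd ⟨eqA.symm i, eqA.apply_symm_apply i⟩ hi)
    (fun a => by rw [h0, inl_eqA]) (by
      rw [hb, hd]
      refine ⟨fun i hi => hR.pos _ hi, fun i hi => hR.born _ hi, fun i hi => ?_⟩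
      obtain ⟨p, h1, h2, h3, h4, h5⟩ := hR.exit _ hi
      refine ⟨eqA.symm p, fun h => h1 ?_, ?_, ?_, ?_, ?_⟩
      · rw [← h, Equiv.apply_symm_apply]
      · simpa only [Equiv.apply_symm_apply] using h2
      · simpa only [Equiv.apply_symm_apply] using h3
      · simpa only [Equiv.apply_symm_apply] using h4
      · simpa only [Equiv.apply_symm_apply] using h5)
    (fun a ha => by
      have ha' := ha
      rw [← inl_eqA a, inl_mem_grM] at ha'
      rw [← inl_eqA a]
      exact hS _ ha')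
  refine ⟨fun t x => Y t (eqM S x), ?_, ?_, fun t ht a hta => ⟨fun y => ?_, fun i hia hit => ?_⟩⟩
  · have h1 := hY.equiv (eqM S)
    have h2 : (fun x : ω ⊕ S => wb (grA α ω) (Sum.elim bα bω) (Sum.elim d fun _ => 0)
        (eqM S x : α ⊕ ω)) = Sum.elim bω fun i : S => d i := by
      funext x
      rcases x with x | x
      · show wb _ _ _ (Sum.inr x) = _
        unfold wb
        rw [if_neg (inr_not_mem_grA x)]
        rfl
      · show wb _ _ _ (Sum.inl x.1) = _
        unfold wb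
        rw [if_pos (inl_mem_grA x.1)]
        rfl
    rw [h2] at h1
    exact h1
  · funext x
    show Y 0 (eqM S x) = _
    rw [hY0]
    rcases x with x | x
    · show wz _ _ _ _ _ (Sum.inr x) = _
      unfold wz
      rw [dif_neg (inr_not_mem_grA x)]
      rfl
    · show wz _ _ _ _ _ (Sum.inl x.1) = _
      unfold wz
      rw [dif_pos (inl_mem_grA x.1)]
      rfl
  · have h1 := hN t ht (eqA.symm a) (show t ≤ Sum.elim d (fun _ => 0)
      ((eqA.symm a : ↥(grA α ω)) : α ⊕ ω) from hta) (eqM S (Sum.inl y)) (by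
        show (Sum.inr y : α ⊕ ω) ≠ Sum.inl a
        exact Sum.inr_ne_inl) (fun h => absurd h (inr_not_mem_grA y))
    simp only [Equiv.apply_symm_apply] at h1
    exact h1
  · have h1 := hN t ht (eqA.symm a) (show t ≤ Sum.elim d (fun _ => 0)
      ((eqA.symm a : ↥(grA α ω)) : α ⊕ ω) from hta) (eqM S (Sum.inr i)) (by
        show (Sum.inl i.1 : α ⊕ ω) ≠ Sum.inl a
        exact fun h => hia (Sum.inl_injective h)) (fun _ => hit)
    simp only [Equiv.apply_symm_apply] at h1
    exact h1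

/-- Product form. -/
theorem ae_worldD_prod (hΦ : AdmissiblePotential Φ) (hε : 0 < ε) (bα : α → ℝ) (bω : ω → ℝ) :
    ∀ᵐ p ∂((volume : Measure (α → PhasePoint)).prod (volume : Measure (ω → PhasePoint))),
      ∀ (S : Finset α) (d : α → ℝ) (T : ℝ) (X : ℝ → α → PhasePoint),
      0 ≤ T → DWorld Φ ε bα d 0 T X → X 0 = p.1 → RelD ε bα d T X → (∀ a ∈ S, d a ≤ T) →
      ∃ Y : ℝ → ω ⊕ S → PhasePoint, BWorld Φ ε (Sum.elim bω fun i : S => d i) 0 Y ∧
        (Y 0 = Sum.elim p.2 fun i : S => lineAt (d i) (X (d i) i) 0) ∧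
        ∀ t ∈ Icc 0 T, ∀ a : α, t ≤ d a → (∀ y : ω, (X t a).1 ≠ (Y t (Sum.inl y)).1) ∧
          ∀ i : S, (i : α) ≠ a → d i ≤ t → (X t a).1 ≠ (Y t (Sum.inr i)).1 := by
  have he := (volume_measurePreserving_sumPiEquivProdPi_symm
    (fun _ : α ⊕ ω => PhasePoint)).quasiMeasurePreserving
  have h1 := he.ae (ae_worldD (ω := ω) hΦ hε bα bω)
  rw [Measure.volume_eq_prod] at h1
  filter_upwards [h1] with p hp S d T X hT hX h0 hR hS
  exact hp S d T X hT hX (fun a => by rw [h0]; rfl) hR hS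

end world

/-! ### Marked worlds -/

section mw

variable {ι κ : Type} [Fintype ι] [Fintype κ]

theorem path_eq_of (hΦ : AdmissiblePotential Φ) (hε : 0 < ε) {Z : MW ι}
    {Y : ℝ → ι → PhasePoint} (hY : BWorld Φ ε Z.b 0 Y) (hY0 : Y 0 = Z.z) {t : ℝ} (ht : 0 ≤ t) :
    Z.path Φ ε t = Y t := by
  rw [hY.eq_evo hΦ hε ht, hY0]
  rfl

/-- Gluing of worlds with births (one-sided derivatives). -/
theorem bworld_glue {b : ι → ℝ} {s s' : ℝ} {X X₁ X₂ : ℝ → ι → PhasePoint} (hss' : s ≤ s')
    (h₁c : ContinuousOn X₁ (Icc s s'))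
    (h₁d : ∀ t ∈ Ico s s', HasDerivWithinAt X₁ (bf Φ ε b t (X₁ t)) (Ici t) t)
    (h₁m : ∀ t ∈ Ico s s', BDom Φ b t (X₁ t)) (h₂ : BWorld Φ ε b s' X₂)
    (hX₁ : ∀ t ∈ Icc s s', X t = X₁ t) (hX₂ : ∀ t, s' ≤ t → X t = X₂ t) :
    BWorld Φ ε b s X where
  cont := by
    have h3 : Ici s = Icc s s' ∪ Ici s' := by
      ext t
      simp only [mem_Ici, mem_union, mem_Icc]
      constructor
      · intro h
        rcases le_total t s' with h' | h'
        · exact Or.inl ⟨h, h'⟩
        · exact Or.inr h'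
      · rintro (h | h)
        · exact h.1
        · exact hss'.trans h
    rw [h3]
    refine ContinuousOn.union_of_isClosed ?_ ?_ isClosed_Icc isClosed_Ici
    · exact h₁c.congr hX₁
    · exact h₂.cont.congr fun t ht => hX₂ t ht
  der t ht := by
    rcases lt_or_ge t s' with h | h
    · rw [hX₁ t ⟨ht, h.le⟩]
      refine (h₁d t ⟨ht, h⟩).congr_of_eventuallyEq ?_ (hX₁ t ⟨ht, h.le⟩)
      have h4 : Icc t s' ∈ 𝓝[≥] t := Icc_mem_nhdsGE h
      filter_upwards [h4] with u hu
      exact hX₁ u ⟨ht.trans hu.1, hu.2⟩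
    · rw [hX₂ t h]
      exact (h₂.der t h).congr (fun u hu => hX₂ u (h.trans hu)) (hX₂ t h)
  dom t ht := by
    rcases lt_or_ge t s' with h | h
    · rw [hX₁ t ⟨ht, h.le⟩]
      exact h₁m t ⟨ht, h⟩
    · rw [hX₂ t h]
      exact h₂.dom t h

/-- **Lines born last**, at a place where nobody is. -/
theorem ok_add_last (hΦ : AdmissiblePotential Φ) (hε : 0 < ε) {Z : MW ι} (hZ : Z.Ok Φ ε)
    (hb : ∀ i, 0 ≤ Z.b i) {B : MW κ} {s : ℝ} (hs : 0 < s) (hBb : ∀ k, B.b k = s)
    (hZs : ∀ i, Z.b i < s)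
    (hBs : ∀ k l, k ≠ l → StartSep ε (lineAt 0 (B.z k) s) (lineAt 0 (B.z l) s))
    (hne : ∀ i k, (Z.path Φ ε s i).1 ≠ (lineAt 0 (B.z k) s).1) : (Z.add B).Ok Φ ε := by
  set Zs : ι ⊕ κ → PhasePoint := Sum.elim (Z.path Φ ε s) fun k => lineAt 0 (B.z k) s with hZs'
  have hBd : ∀ k l, k ≠ l → (lineAt 0 (B.z k) s).1 ≠ (lineAt 0 (B.z l) s).1 := by
    intro k l hkl h
    rcases hBs k l hkl with h1 | h1
    · rw [h, dist_self] at h1
      exact absurd h1 (not_lt.2 hε.le)
    · rw [h, dist_self] at h1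
      exact hε.ne h1.1
  have hD : Zs ∈ Dom Φ (ι ⊕ κ) :=
    Dom_sum_elim ((hZ.bw.dom s hs.le).imp id fun h i j hij => h i j hij (hZs i).le (hZs j).le)
      (Or.inr hBd) hne
  have hW : World Φ ε (fun t => flow Φ ε (t - s) Zs) := by
    have h1 := (world_flow hΦ hε hD).shift (-s)
    have h2 : (fun t => flow Φ ε (-s + t) Zs) = fun t => flow Φ ε (t - s) Zs := by
      funext t
      rw [neg_add_eq_sub]
    rwa [h2] at h1
  have hB : BWorld Φ ε (Z.add B).b s (fun t => flow Φ ε (t - s) Zs) := World.bworld hW (by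
    rintro (i | k)
    · exact (hZs i).le
    · exact (hBb k).le)
  set Y : ℝ → ι ⊕ κ → PhasePoint := fun t =>
    if t < s then Sum.elim (Z.path Φ ε t) (fun k => lineAt 0 (B.z k) t)
    else flow Φ ε (t - s) Zs with hY
  have hY₁ : ∀ t ∈ Icc 0 s, Y t = Sum.elim (Z.path Φ ε t) (fun k => lineAt 0 (B.z k) t) := by
    intro t ht
    rcases ht.2.lt_or_eq with h1 | h1
    · simp only [hY, if_pos h1]
    · subst h1
      simp only [hY, lt_irrefl, if_false]
      rw [sub_self, Flow671.flow_zero hΦ hε]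
  have hY₂ : ∀ t, s ≤ t → Y t = flow Φ ε (t - s) Zs := fun t ht => by
    simp only [hY, if_neg (not_lt.2 ht)]
  have hYw : BWorld Φ ε (Z.add B).b 0 Y := by
    refine bworld_glue hs.le ?_ (fun t ht => ?_) (fun t ht => ?_) hB hY₁ hY₂
    · refine continuousOn_pi.2 ?_
      rintro (i | k)
      · exact (hZ.bw.cont_apply i).mono fun t ht => ht.1
      · exact (continuous_lineAt 0 (B.z k)).continuousOn
    · rw [hasDerivWithinAt_pi]
      rintro (i | k)
      · have h1 := (hasDerivWithinAt_pi.1 (hZ.bw.der t ht.1)) i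
        have h2 : bf Φ ε (Z.add B).b t (Sum.elim (Z.path Φ ε t)
            fun k => lineAt 0 (B.z k) t) (Sum.inl i) = bf Φ ε Z.b t (Z.path Φ ε t) i := by
          unfold bf
          rw [Fintype.sum_sum_type]
          change ((Z.path Φ ε t i).2, if Z.b i ≤ t then -(1 / ε) •
            ((∑ j, (if Z.b j ≤ t then
              gradient Φ ((1 / ε) • ((Z.path Φ ε t i).1 - (Z.path Φ ε t j).1)) else 0)) +
            ∑ j, (if B.b j ≤ t then
              gradient Φ ((1 / ε) • ((Z.path Φ ε t i).1 - (lineAt 0 (B.z j) t).1)) else 0))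
              else 0) = _
          have h3 : (∑ j, (if B.b j ≤ t then
              gradient Φ ((1 / ε) • ((Z.path Φ ε t i).1 - (lineAt 0 (B.z j) t).1)) else 0))
              = 0 := by
            refine Finset.sum_eq_zero fun j _ => ?_
            rw [if_neg]
            rw [hBb]
            exact not_le.2 ht.2
          rw [h3, add_zero]
        rw [h2]
        exact h1
      · have h2 : bf Φ ε (Z.add B).b t (Sum.elim (Z.path Φ ε t)
            fun k => lineAt 0 (B.z k) t) (Sum.inr k) = ((lineAt 0 (B.z k) t).2, 0) := by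
          refine (bf_of_unborn Φ ε (b := (Z.add B).b) _ (i := Sum.inr k) ?_).trans rfl
          show t < B.b k
          rw [hBb]
          exact ht.2
        rw [h2]
        exact (hasDerivAt_lineAt 0 (B.z k) t).hasDerivWithinAt
    · refine (hZ.bw.dom t ht.1).imp id fun h => ?_
      rintro (i | k) (j | l) hij hi hj
      · exact h i j (fun h' => hij (by rw [h'])) hi hj
      · exact absurd (show B.b l ≤ t from hj) (by rw [hBb]; exact not_le.2 ht.2)
      · exact absurd (show B.b k ≤ t from hi) (by rw [hBb]; exact not_le.2 ht.2)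
      · exact absurd (show B.b k ≤ t from hi) (by rw [hBb]; exact not_le.2 ht.2)
  have hY0 : Y 0 = (Z.add B).z := by
    rw [hY₁ 0 ⟨le_rfl, hs.le⟩]
    funext x
    rcases x with i | k
    · show Z.path Φ ε 0 i = Z.z i
      rw [MW.path_zero hΦ hε]
    · exact lineAt_self 0 (B.z k)
  have hb' : ∀ x, 0 ≤ (Z.add B).b x := by
    rintro (i | k)
    · exact hb i
    · show 0 ≤ B.b k
      rw [hBb]
      exact hs.le
  have hX : BWorld Φ ε (Z.add B).b 0 ((Z.add B).path Φ ε) := hYw.congr fun t ht =>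
    path_eq_of hΦ hε hYw hY0 ht
  refine ⟨hX, ?_⟩
  rintro (i | k) (j | l) hij hbij
  · obtain ⟨δ, hδ, h1⟩ := hZ.sep i j (fun h => hij (by rw [h])) hbij
    have hbi : Z.b i < s := hZs i
    refine ⟨min δ (s - Z.b i), lt_min hδ (by linarith), fun t ht1 ht2 => ?_⟩
    have ht1' : Z.b i < t := ht1
    have ht2' : t < Z.b i + min δ (s - Z.b i) := ht2
    have h2 := min_le_left δ (s - Z.b i)
    have h3 := min_le_right δ (s - Z.b i)
    have h4 : t ∈ Icc 0 s := ⟨(hb i).trans ht1'.le, by linarith⟩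
    rw [path_eq_of hΦ hε hYw hY0 h4.1, hY₁ t h4]
    exact h1 t ht1' (by linarith)
  · have h1 : Z.b i = B.b l := hbij
    rw [hBb] at h1
    exact absurd h1 (hZs i).ne
  · have h1 : B.b k = Z.b j := hbij
    rw [hBb] at h1
    exact absurd h1.symm (hZs j).ne
  · have hk : ∀ k, (Z.add B).b (Sum.inr k) = s := hBb
    have hst : ∀ k, (Z.add B).path Φ ε s (Sum.inr k) = lineAt 0 (B.z k) s := fun k => by
      rw [path_eq_of hΦ hε hYw hY0 hs.le, hY₁ s ⟨hs.le, le_rfl⟩]
      rfl
    rw [hk k]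
    refine startSep_eventually (x := fun t => (Z.add B).path Φ ε t (Sum.inr k))
      (y := fun t => (Z.add B).path Φ ε t (Sum.inr l)) (bworld_deriv_pos hX hs.le _)
      (bworld_deriv_pos hX hs.le _) ?_
    rw [hst, hst]
    exact hBs k l fun h => hij (by rw [h])

end mw

/-! ### Families -/

section fam

variable {α ω : Type} [Fintype α] [Fintype ω]

/-- **A.e. all sub-families of released lines give good worlds, and no particle of the isolated
group which is not dead meets the world.** -/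
theorem ae_okFamD (hΦ : AdmissiblePotential Φ) (hε : 0 < ε) (bα : α → ℝ) (bω : ω → ℝ)
    (hbω : ∀ x, 0 ≤ bω x) :
    ∀ᵐ p ∂((volume : Measure (α → PhasePoint)).prod (volume : Measure (ω → PhasePoint))),
      ∀ (d : α → ℝ) (T : ℝ) (X : ℝ → α → PhasePoint), 0 ≤ T → DWorld Φ ε bα d 0 T X →
      X 0 = p.1 → RelD ε bα d T X →
      ∀ (κ : Type) [Fintype κ] (j : κ → α) (ls : κ → ML) (W : MW ω), Function.Injective j →
      (∀ x, d (j x) ≤ T) → (∀ x, (ls x).1 = (d (j x), X (d (j x)) (j x))) →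
      W.b = bω → W.z = p.2 → SepB ε (W.add (MW.lines ls)) →
      MW.OkFam Φ ε W ls ∧ ∀ (S : Finset κ), ∀ t ∈ Icc 0 T, ∀ a : α, t ≤ d a →
        (∀ y : ω, (X t a).1 ≠ ((W.add (sub ls S)).path Φ ε t (Sum.inl y)).1) ∧
        ∀ x : S, j x ≠ a → d (j x) ≤ t →
          (X t a).1 ≠ ((W.add (sub ls S)).path Φ ε t (Sum.inr x)).1 := by
  filter_upwards [ae_worldD_prod (α := α) hΦ hε bα bω] with p hp d T X hT hX h0 hR κ _ j ls W hj
    hjT hls hWb hWz hSep
  have key : ∀ S : Finset κ, ∃ Y : ℝ → ω ⊕ S → PhasePoint,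
      BWorld Φ ε (W.add (sub ls S)).b 0 Y ∧ Y 0 = (W.add (sub ls S)).z ∧
      ∀ t ∈ Icc 0 T, ∀ a : α, t ≤ d a → (∀ y : ω, (X t a).1 ≠ (Y t (Sum.inl y)).1) ∧
        ∀ x : S, j x ≠ a → d (j x) ≤ t → (X t a).1 ≠ (Y t (Sum.inr x)).1 := by
    intro S
    obtain ⟨Y, hY, hY0, hN⟩ := hp (S.image j) d T X hT hX h0 hR (fun a ha => by
      obtain ⟨x, _, hx⟩ := Finset.mem_image.1 ha
      rw [← hx]
      exact hjT x)
    let e : ω ⊕ S ≃ ω ⊕ (S.image j : Finset α) := Equiv.sumCongr (Equiv.refl ω)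
      { toFun := fun x => ⟨j x, Finset.mem_image_of_mem j x.2⟩
        invFun := fun a => ⟨(Finset.mem_image.1 a.2).choose,
          (Finset.mem_image.1 a.2).choose_spec.1⟩
        left_inv := fun x => Subtype.ext (hj
          (Finset.mem_image.1 (Finset.mem_image_of_mem j x.2)).choose_spec.2)
        right_inv := fun a => Subtype.ext (Finset.mem_image.1 a.2).choose_spec.2 }
    have hY' := hY.equiv e
    have hb : (fun x : ω ⊕ S => (Sum.elim bω fun i : (S.image j : Finset α) => d i) (e x)) =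
        (W.add (sub ls S)).b := by
      funext x
      rcases x with x | x
      · show bω x = W.b x
        rw [hWb]
      · show d (j x) = (ls x).1.1
        rw [hls]
    rw [hb] at hY'
    refine ⟨_, hY', ?_, fun t ht a hta => ⟨fun y => (hN t ht a hta).1 y, fun x hxa hxt => ?_⟩⟩
    · funext x
      show Y 0 (e x) = _
      rw [hY0]
      rcases x with x | x
      · show p.2 x = W.z x
        rw [hWz]
      · show lineAt (d (j x)) (X (d (j x)) (j x)) 0 = back (ls x).1
        rw [back_eq, hls]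
    · exact (hN t ht a hta).2 ⟨j x, Finset.mem_image_of_mem j x.2⟩ hxa hxt
  refine ⟨fun S => ?_, fun S t ht a hta => ?_⟩
  · obtain ⟨Y, hY, hY0, -⟩ := key S
    refine ok_of hΦ hε ?_ hY hY0 ?_
    · rintro (x | x)
      · show 0 ≤ W.b x
        rw [hWb]
        exact hbω x
      · show 0 ≤ (ls x).1.1
        rw [hls]
        exact (hR.pos _ (hjT x)).le
    · have h1 := hSep.comap (e := Sum.map id (fun x : S => (x : κ)))
        (Function.injective_id.sumMap Subtype.val_injective)
      have h2 : (W.add (MW.lines ls)).comap (Sum.map id (fun x : S => (x : κ))) =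
          W.add (sub ls S) := by
        unfold sub MW.comap MW.add MW.lines
        congr 1 <;> · funext x; rcases x with x | x <;> rfl
      rwa [h2] at h1
  · obtain ⟨Y, hY, hY0, hN⟩ := key S
    rw [path_eq_of hΦ hε hY hY0 ht.1]
    exact hN t ht a hta

end fam

end

end Crest.Agent.R122.TransOk151
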