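import Crest.Agent.R122.GateOsP_424
import Crest.Agent.R122.TransD3_151

/-!
# Row 122 (helper424): transfer of null sets to dominated structures, worlds of (tree, structure)

* `ae_of_dom`, `ae_of_dom_prod` : a property of almost every state `κ → PhasePoint` holds for almost
  every dominated structure (and jointly with an independent variable).
* `qmp_comp` : restriction of the states to a sub-family.
* `OkD` : the conclusion of helper151's `ae_okFamD` for the gas world.
* `ae_okD_osP` : `OkD` for all sub-families of the labels of (tree, structure), almost surely.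
-/

set_option autoImplicit false
set_option linter.unusedSectionVars false

open MeasureTheory Set Filter Topology
open scoped Classical ENNReal
open Crest.AnalysisR.Kinetic
open Crest.Agent.R122.GC311 Crest.Agent.R122.Kin796 Crest.Agent.R122.Kin796.CTree
open Crest.Agent.R122.Tree674 Crest.Agent.R122.EDefs602
open Crest.Agent.R122.Gate424 Crest.Agent.R122.Gate973 Crest.Agent.R122.LN2
open Crest.Agent.R122.TransOk151 Crest.Agent.R122.GateOsP424
open Crest.Agent.R122.PairRep581 (Shp ShpOk osP)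

noncomputable section

namespace Crest.Agent.R122.OkNull424

/-! ### Dominated structures -/

section dom

variable {κ Θ Ω : Type} [Fintype κ] [MeasurableSpace Θ] [MeasurableSpace Ω] {ε γ : ℝ} {s : ℕ}
  {ρ : Space3 → ℝ≥0∞} {A₀ : Finset κ} {c : ℝ≥0∞} {Λ : Measure (κ → ℝ)} {m : Measure Θ}
  {b : Θ → κ → ℝ} {z : Θ → κ → PhasePoint}

/-- A measurable null set of states is null for a dominated structure. -/
theorem dom_null (h : Dom γ ρ ε s A₀ c Λ m b z) (hε : 0 < ε) {N : Set (κ → PhasePoint)}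
    (hN : MeasurableSet N) (h0 : (volume : Measure (κ → PhasePoint)) N = 0) :
    m {θ | z θ ∈ N} = 0 := by
  have h1 : ENNReal.ofReal (ε ^ 2) ^ (Fintype.card κ - s) * ∫⁻ θ, N.indicator 1 (z θ) ∂m ≤
      c * ∫⁻ b : κ → ℝ, (∫⁻ z, wgtA γ ρ A₀ z * N.indicator 1 z) ∂Λ :=
    h.le (fun q => N.indicator 1 q.2) ((measurable_one.indicator hN).comp measurable_snd)
  have h2 : ∫⁻ z, wgtA γ ρ A₀ z * N.indicator 1 z = 0 := by
    refine lintegral_eq_zero_of_ae_eq_zero ?_
    have h3 : ∀ᵐ z : κ → PhasePoint, z ∉ N := measure_eq_zero_iff_ae_notMem.1 h0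
    filter_upwards [h3] with z hz
    rw [indicator_of_notMem hz, mul_zero]
    rfl
  have h3 : c * ∫⁻ _b : κ → ℝ, (∫⁻ z, wgtA γ ρ A₀ z * N.indicator 1 z) ∂Λ = 0 := by
    rw [h2, lintegral_zero, mul_zero]
  have h4 : ∫⁻ θ, N.indicator 1 (z θ) ∂m = 0 := by
    have h5 : ENNReal.ofReal (ε ^ 2) ^ (Fintype.card κ - s) *
        ∫⁻ θ, N.indicator 1 (z θ) ∂m = 0 := nonpos_iff_eq_zero.1 (h1.trans (le_of_eq h3))
    rcases mul_eq_zero.1 h5 with h6 | h6
    · exact absurd h6 (pow_ne_zero _ (ENNReal.ofReal_pos.2 (by positivity)).ne')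
    · exact h6
  have h5 : ∫⁻ θ, N.indicator 1 (z θ) ∂m = m {θ | z θ ∈ N} := by
    have h6 : MeasurableSet {θ | z θ ∈ N} := h.mz hN
    rw [← lintegral_indicator_one h6]
    rfl
  rw [← h5, h4]

/-- **Almost sure properties of the states hold for dominated structures.** -/
theorem ae_of_dom (h : Dom γ ρ ε s A₀ c Λ m b z) (hε : 0 < ε) {Q : (κ → PhasePoint) → Prop}
    (hQ : ∀ᵐ V : κ → PhasePoint, Q V) : ∀ᵐ θ ∂m, Q (z θ) := by
  obtain ⟨N, hN, hNm, hN0⟩ := exists_measurable_superset_of_null (ae_iff.1 hQ)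
  rw [ae_iff]
  refine measure_mono_null (fun θ hθ => ?_) (dom_null h hε hNm hN0)
  exact hN hθ

/-- **The same jointly with an independent variable.** -/
theorem ae_of_dom_prod [SFinite m] {μ : Measure Ω} [SFinite μ] (h : Dom γ ρ ε s A₀ c Λ m b z)
    (hε : 0 < ε) {Q : (κ → PhasePoint) → Ω → Prop}
    (hQ : ∀ᵐ p ∂((volume : Measure (κ → PhasePoint)).prod μ), Q p.1 p.2) :
    ∀ᵐ q ∂(m.prod μ), Q (z q.1) q.2 := by
  obtain ⟨N, hN, hNm, hN0⟩ := exists_measurable_superset_of_null (ae_iff.1 hQ)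
  have hmap : Measurable fun q : Θ × Ω => (z q.1, q.2) :=
    (h.mz.comp measurable_fst).prodMk measurable_snd
  have h1 : ∀ᵐ ω ∂μ, (volume : Measure (κ → PhasePoint)) {V | (V, ω) ∈ N} = 0 := by
    have h2 : (μ.prod (volume : Measure (κ → PhasePoint))) (Prod.swap ⁻¹' N) = 0 := by
      have h3 := Measure.map_apply (μ := μ.prod (volume : Measure (κ → PhasePoint)))
        measurable_swap hNm
      rw [← h3, Measure.prod_swap]
      exact hN0
    have h3 := (Measure.measure_prod_null (measurable_swap hNm)).1 h2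
    filter_upwards [h3] with ω hω
    exact hω
  have h4 : (m.prod μ) {q | (z q.1, q.2) ∈ N} = 0 := by
    have h5 : (μ.prod m) (Prod.swap ⁻¹' {q : Θ × Ω | (z q.1, q.2) ∈ N}) = 0 := by
      refine (Measure.measure_prod_null (measurable_swap (hmap hNm))).2 ?_
      filter_upwards [h1] with ω hω
      exact dom_null h hε (measurable_prodMk_right (y := ω) hNm) hω
    have hms : MeasurableSet {q : Θ × Ω | (z q.1, q.2) ∈ N} := hmap hNm
    have h6 := Measure.map_apply (μ := μ.prod m) measurable_swap hms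
    rw [← h6, Measure.prod_swap] at h5
    exact h5
  rw [ae_iff]
  exact measure_mono_null (fun q hq => hN hq) h4

end dom

/-! ### Sub-families -/

/-- Restriction to a sub-family is quasi measure preserving. -/
theorem qmp_comp {α κ : Type} [Fintype α] [Fintype κ] {e : α → κ} (he : Function.Injective e) :
    Measure.QuasiMeasurePreserving (fun (V : κ → PhasePoint) (a : α) => V (e a)) volume
      volume := by
  let σ : α ⊕ {k : κ // k ∉ range e} ≃ κ :=
    (Equiv.sumCongr (Equiv.ofInjective e he) (Equiv.refl _)).trans (Equiv.Set.sumCompl (range e))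
  have h1 := (volume_measurePreserving_piCongrLeft (fun _ : κ => PhasePoint) σ).symm
  have h2 := volume_measurePreserving_sumPiEquivProdPi
    (fun _ : α ⊕ {k : κ // k ∉ range e} => PhasePoint)
  have h3 := (h2.comp h1).quasiMeasurePreserving
  rw [Measure.volume_eq_prod] at h3
  have h4 := (Measure.quasiMeasurePreserving_fst
    (μ := (volume : Measure (α → PhasePoint)))
    (ν := (volume : Measure ({k : κ // k ∉ range e} → PhasePoint)))).comp h3
  exact h4

/-- Property of a sub-family, jointly with an independent variable. -/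
theorem ae_comp {α κ Ω : Type} [Fintype α] [Fintype κ] [MeasurableSpace Ω] {μ : Measure Ω}
    [SFinite μ] {e : α → κ} (he : Function.Injective e) {Q : (α → PhasePoint) → Ω → Prop}
    (hQ : ∀ᵐ p ∂((volume : Measure (α → PhasePoint)).prod μ), Q p.1 p.2) :
    ∀ᵐ p ∂((volume : Measure (κ → PhasePoint)).prod μ), Q (fun a => p.1 (e a)) p.2 := by
  have h := MeasureTheory.QuasiMeasurePreserving.prodMap (qmp_comp (κ := κ) he)
    (Measure.QuasiMeasurePreserving.id μ)
  exact h.ae hQ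

/-! ### Worlds with released lines -/

/-- The conclusion of helper151's `ae_okFamD`: `U` : states of an isolated group (births `0`),
`bω`, `V` : births and states of the world. -/
def OkD (Φ : Space3 → ℝ) (ε : ℝ) {α ω : Type} [Fintype α] [Fintype ω] (bω : ω → ℝ)
    (U : α → PhasePoint) (V : ω → PhasePoint) : Prop :=
  ∀ (d : α → ℝ) (T : ℝ) (X : ℝ → α → PhasePoint), 0 ≤ T → DWorld Φ ε (fun _ => 0) d 0 T X →
    X 0 = U → RelD ε (fun _ => 0) d T X →
    ∀ (κ : Type) [Fintype κ] (j : κ → α) (ls : κ → ML) (W : MW ω), Function.Injective j →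
    (∀ x, d (j x) ≤ T) → (∀ x, (ls x).1 = (d (j x), X (d (j x)) (j x))) →
    W.b = bω → W.z = V → SepB ε (W.add (MW.lines ls)) →
    MW.OkFam Φ ε W ls ∧ ∀ (S : Finset κ), ∀ t ∈ Icc 0 T, ∀ a : α, t ≤ d a →
      (∀ y : ω, (X t a).1 ≠ ((W.add (MWAlg255.sub ls S)).path Φ ε t (Sum.inl y)).1) ∧
      ∀ x : S, j x ≠ a → d (j x) ≤ t →
        (X t a).1 ≠ ((W.add (MWAlg255.sub ls S)).path Φ ε t (Sum.inr x)).1

section okD

variable {Φ : Space3 → ℝ} {f₀ : PhasePoint → ℝ} {ε : ℝ}

theorem ae_okD {α ω : Type} [Fintype α] [Fintype ω] (hΦ : AdmissiblePotential Φ) (hε : 0 < ε)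
    (bω : ω → ℝ) (hbω : ∀ x, 0 ≤ bω x) :
    ∀ᵐ p ∂((volume : Measure (α → PhasePoint)).prod (volume : Measure (ω → PhasePoint))),
      OkD Φ ε bω p.1 p.2 :=
  ae_okFamD hΦ hε (fun _ => 0) bω hbω

/-- All sub-families of the labels, dominated structures, jointly with the states of the world. -/
theorem ae_okD_dom {κ Θ ω : Type} [Fintype κ] [MeasurableSpace Θ] [Fintype ω]
    (hΦ : AdmissiblePotential Φ) (hε : 0 < ε) {γ : ℝ} {s : ℕ} {ρ : Space3 → ℝ≥0∞}
    {A₀ : Finset κ} {c : ℝ≥0∞} {Λ : Measure (κ → ℝ)} {m : Measure Θ} [SFinite m]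
    {b : Θ → κ → ℝ} {z : Θ → κ → PhasePoint} (h : Dom γ ρ ε s A₀ c Λ m b z) (bω : ω → ℝ)
    (hbω : ∀ x, 0 ≤ bω x) :
    ∀ᵐ q ∂(m.prod (volume : Measure (ω → PhasePoint))), ∀ A : Finset κ,
      OkD Φ ε bω (fun a : A => z q.1 a) q.2 := by
  rw [ae_all_iff]
  intro A
  exact ae_of_dom_prod (Q := fun V w => OkD Φ ε bω (fun a : A => V a) w) h hε
    (ae_comp (e := fun a : A => (a : κ)) Subtype.val_injective
      (Q := fun U w => OkD Φ ε bω U w) (ae_okD hΦ hε bω hbω))

variable {te T' γ β : ℝ} {ρ : Space3 → ℝ≥0∞} {C : ℝ≥0∞} {K : ℕ} {P : CTree} {S : Shp}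

/-- **The gate `osP`**: all sub-families of the labels of (tree, structure) and the gas. -/
theorem ae_okD_osP (hΦ : AdmissiblePotential Φ) (hf : Measurable f₀) (he : Env f₀ γ ρ C)
    (hS : ShpOk γ β ρ S) (hε : 0 < ε) (te T' : ℝ) (K : ℕ) (P : CTree) (n : ℕ) :
    ∀ᵐ q ∂((osP Φ f₀ te T' K P S ε ()).prod (volume : Measure (Config n))),
      ∀ A : Finset (Idx P ⊕ S.κ),
        OkD Φ ε (fun _ : Fin n => 0) (fun a : A => osZ Φ P S ε q.1 a) q.2 := by
  obtain ⟨c, Λ, -, -, hd⟩ := dom_osP hΦ hf he hS te T' K P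
  have := sf_osP (Φ := Φ) (f₀ := f₀) (te := te) (T' := T') (K := K) (P := P) hS ε ()
  exact ae_okD_dom hΦ hε (hd ε hε ()) (fun _ : Fin n => 0) fun _ => le_rfl

/-- **The gate `osP`**, world: the gas and a particle born at a fixed time. -/
theorem ae_okD_osPX (hΦ : AdmissiblePotential Φ) (hf : Measurable f₀) (he : Env f₀ γ ρ C)
    (hS : ShpOk γ β ρ S) (hε : 0 < ε) (te T' : ℝ) (K : ℕ) (P : CTree) {ω : Type} [Fintype ω]
    (bω : ω → ℝ) (hbω : ∀ x, 0 ≤ bω x) :
    ∀ᵐ q ∂((osP Φ f₀ te T' K P S ε ()).prod (volume : Measure (ω → PhasePoint))),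
      ∀ A : Finset (Idx P ⊕ S.κ), OkD Φ ε bω (fun a : A => osZ Φ P S ε q.1 a) q.2 := by
  obtain ⟨c, Λ, -, -, hd⟩ := dom_osP hΦ hf he hS te T' K P
  have := sf_osP (Φ := Φ) (f₀ := f₀) (te := te) (T' := T') (K := K) (P := P) hS ε ()
  exact ae_okD_dom hΦ hε (hd ε hε ()) bω hbω

/-- **From fixed births to random births**, with a guard (not necessarily measurable) which does not
depend on the new line. -/
theorem ae_births {α β γ : Type} [MeasurableSpace α] [MeasurableSpace β] [MeasurableSpace γ]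
    {μ : Measure α} {ν : Measure β} {l : Measure γ} [SFinite μ] [SFinite ν] [SFinite l]
    {G : α → Prop} {B : Set (α × (β × γ))} (hB : MeasurableSet B)
    (h : ∀ᵐ τ ∂ν, ∀ᵐ p ∂(μ.prod l), G p.1 → (p.1, (τ, p.2)) ∉ B) :
    ∀ᵐ p ∂(μ.prod (ν.prod l)), G p.1 → p ∉ B := by
  -- the restricted measure
  set μG : Measure α := μ.restrict {a | G a} with hμG
  have hBc : MeasurableSet {p : α × (β × γ) | p ∉ B} := hB.compl
  have hBτ : ∀ τ, MeasurableSet {p : α × γ | (p.1, (τ, p.2)) ∉ B} := fun τ =>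
    (hB.preimage (measurable_fst.prodMk (measurable_const.prodMk measurable_snd))).compl
  have key : ∀ᵐ p ∂(μG.prod (ν.prod l)), p ∉ B := by
    -- order of integration: births first
    have h1 : ∀ᵐ τ ∂ν, ∀ᵐ p ∂(μG.prod l), (p.1, (τ, p.2)) ∉ B := by
      filter_upwards [h] with τ hτ
      have h2 : μG.prod l = (μ.prod l).restrict ({a | G a} ×ˢ univ) := by
        rw [hμG, ← Measure.prod_restrict, Measure.restrict_univ]
      rw [h2, ae_restrict_iff (hBτ τ)]
      filter_upwards [hτ] with p hp hpG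
      exact hp hpG.1
    have hC : MeasurableSet {r : β × (α × γ) | (r.2.1, (r.1, r.2.2)) ∉ B} :=
      (hB.preimage ((measurable_snd.fst).prodMk (measurable_fst.prodMk measurable_snd.snd))).compl
    have h3 : ∀ᵐ r ∂(ν.prod (μG.prod l)), (r.2.1, (r.1, r.2.2)) ∉ B :=
      (Measure.ae_prod_iff_ae_ae hC).2 h1
    -- a.e. iterated in the order `β`, `α`, `γ`
    have h4 : ∀ᵐ τ ∂ν, ∀ᵐ a ∂μG, ∀ᵐ y ∂l, (a, (τ, y)) ∉ B := by
      filter_upwards [h1] with τ hτ
      exact Measure.ae_ae_of_ae_prod hτ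
    have hD : MeasurableSet {r : β × α | ∀ᵐ y ∂l, (r.2, (r.1, y)) ∉ B} := by
      have hE : MeasurableSet {s : (β × α) × γ | (s.1.2, (s.1.1, s.2)) ∈ B} :=
        hB.preimage ((measurable_fst.snd).prodMk (measurable_fst.fst.prodMk measurable_snd))
      have h5 := measurable_measure_prodMk_left (ν := l) hE
      have h6 : {r : β × α | ∀ᵐ y ∂l, (r.2, (r.1, y)) ∉ B} =
          (fun r : β × α => l (Prod.mk r ⁻¹' {s : (β × α) × γ | (s.1.2, (s.1.1, s.2)) ∈ B})) ⁻¹'
            {0} := by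
        ext r
        simp only [mem_ofPred_eq, mem_preimage, mem_singleton_iff, ae_iff, not_not]
        rfl
      rw [h6]
      exact h5 (measurableSet_singleton 0)
    have h7 : ∀ᵐ r ∂(ν.prod μG), ∀ᵐ y ∂l, (r.2, (r.1, y)) ∉ B :=
      (Measure.ae_prod_iff_ae_ae hD).2 h4
    have h8 : ∀ᵐ r ∂(μG.prod ν), ∀ᵐ y ∂l, (r.1, (r.2, y)) ∉ B := by
      have h9 := Measure.ae_ae_of_ae_prod h7
      have hD' : MeasurableSet {r : α × β | ∀ᵐ y ∂l, (r.1, (r.2, y)) ∉ B} :=
        hD.preimage measurable_swap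
      have h10 : ∀ᵐ r ∂((μG.prod ν).map Prod.swap), ∀ᵐ y ∂l, (r.2, (r.1, y)) ∉ B := by
        rw [Measure.prod_swap]
        exact h7
      exact (ae_map_iff measurable_swap.aemeasurable hD).1 h10
    have h11 := Measure.ae_ae_of_ae_prod h8
    refine (Measure.ae_prod_iff_ae_ae hBc).2 ?_
    filter_upwards [h11] with a ha
    have hBa : MeasurableSet {p : β × γ | (a, p) ∉ B} := (hB.preimage measurable_prodMk_left).compl
    exact (Measure.ae_prod_iff_ae_ae hBa).2 ha
  have h12 : μG.prod (ν.prod l) = (μ.prod (ν.prod l)).restrict ({a | G a} ×ˢ univ) := by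
    rw [hμG, ← Measure.prod_restrict, Measure.restrict_univ]
  rw [h12, ae_restrict_iff hBc] at key
  filter_upwards [key] with p hp hG
  exact hp ⟨hG, mem_univ _⟩

end okD

end Crest.Agent.R122.OkNull424

end
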