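import Crest.Agent.R122.StrMot_151
import Crest.Agent.R122.StrMotG_307
import Crest.Agent.R122.StrMap_491

/-!
# Transversal exits and late cross contacts (row 122), helper151

`ExitT`, `CrossT` : helper307.

* `ExitT.tree`, `ExitT.map`, `CrossT.map`, `CrossT.congr`.
* `Cls.pos_of`, `Str.pos_of` : exits of classes with at least two labels of birth `0` are positive.
* `PT M Z R cl bD y` : both properties, `y` = active label; `PT.tree`, `PT.single`, `PT.congr`,
  `PT.map`; `PT.outC`, `PT.outL`, `PT.outC'`, `PT.late` : encounters of a pair structure.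
* `PTree.pt0`, `PTree.pt6` : the structures `str0`, `str6` (helper491).
-/

set_option autoImplicit false
set_option linter.unusedSectionVars false

open MeasureTheory Set Filter Topology
open scoped NNReal ENNReal
open Crest.AnalysisR.Kinetic
open Crest.Agent.R122.Flow671 hiding rel
open Crest.Agent.R122.Loc45 Crest.Agent.R122.Ins45
open Crest.Agent.R122.VL581 Crest.Agent.R122.VL581.VSys Crest.Agent.R122.VLInst442
open Crest.Agent.R122.LNInst491 Crest.Agent.R122.LN304 Crest.Agent.R122.LNg410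
open Crest.Agent.R122.Kin796 Crest.Agent.R122.Kin796.CTree Crest.Agent.R122.Tree674
open Crest.Agent.R122.PathFlow968 Crest.Agent.R122.TreeLines335 Crest.Agent.R122.EDefs602
open Crest.Agent.R122.LNTree410 Crest.Agent.R122.PWGlue491 Crest.Agent.R122.Inf879
open Crest.Agent.R122.LNGraft410 Crest.Agent.R122.LNEv968 Crest.Agent.R122.PWInst442
open Crest.Agent.R122.LNBridge968 Crest.Agent.R122.LNEmb410
open Crest.Agent.R122.OCout796 Crest.Agent.R122.Scat818
open Crest.Agent.R122.OneC285 (cT cB cD cX)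
open Crest.Agent.R122.StrG491 Crest.Agent.R122.StrMain307
open scoped Classical

noncomputable section

namespace Crest.Agent.R122.StrMot2_151

variable {J κ : Type} [Fintype J] {M : VSys J κ} {Z : J → PhasePoint}
variable {c : ℝ} {R R₁ R₂ : ℝ → J → J → Prop} {π π₁ π₂ S : Finset J} {cl cl₁ cl₂ : J → Finset J}
  {bD : J → ℝ} {E E₁ E₂ : Finset J} {x y y' a : J} {s ℓ ς : ℝ} {p : Space3} {q : CD}

/-! ### Positive exit times -/

/-- **A class with at least two labels, births `0`: the exit times are positive.** -/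
theorem _root_.Crest.Agent.R122.LNGraft410.Cls.pos_of (h : Cls M Z S bD) (hT : 0 < M.T)
    (hb : ∀ i ∈ S, M.bb i = 0) {i k : J} (hi : i ∈ S) (hk : k ∈ S) (hki : k ≠ i) : 0 < bD i := by
  have h0 : 0 ≤ bD i := h.bb_nonneg' hi
  refine h0.lt_of_ne fun h' => ?_
  have hne : ({i} : Finset J) ≠ S := by
    intro h1
    rw [← h1, Finset.mem_singleton] at hk
    exact hki hk
  obtain ⟨i', hi', j, hj, hjQ, hR⟩ := h.conn.2 {i} (Finset.singleton_subset_iff.2 hi)
    (Finset.singleton_nonempty i) hne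
  rw [Finset.mem_singleton] at hi' hjQ
  subst hi'
  have key : ∃ r ∈ Icc 0 M.T, dist (M.st S r Z i').1 (M.st S r Z j).1 ≤ M.ε := by
    rcases hR with ⟨r, hr, -, -, hd⟩ | ⟨r, hr, -, -, hd⟩
    · exact ⟨r, hr, hd⟩
    · exact ⟨r, hr, by rw [dist_comm]; exact hd⟩
  obtain ⟨r, hr, hd⟩ := key
  rcases hr.1.eq_or_lt with h1 | h1
  · have h2 := h.ok i' hi (h.obs i' hi) (by rw [hb i' hi]; exact hT) j hj (h.obs j hj) hjQ
      (by rw [hb i' hi, hb j hj])
    rw [hb i' hi, h1] at h2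
    exact absurd hd (not_le.2 h2)
  · exact absurd hd (not_le.2 (h.exit i' hi r (by rw [← h']; exact h1) hr.2 j hj hjQ
      (by rw [hb j hj]; exact h1.le)))

/-! ### Trees -/

/-- The exits of a tree are transversal. -/
theorem _root_.Crest.Agent.R122.StrMain307.ExitT.tree (hΦ : AdmissiblePotential M.Φ) (hε : 0 < M.ε)
    (hT : 0 < M.T) {P : CTree} {z : PhasePoint × Par P} {e : Idx P ↪ J}
    (h : TreeIn M Z M.T P z.1 z.2 e) (hb : ∀ i, bD (e i) = rel P z.2 i) :
    ExitT M Z (clOf (part e)) bD := fun i hi hiT =>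
  (StrMot151.Mot.of_tree hΦ hε hT h hb (y := e (root P))).exit i hi hiT

/-! ### Changes of the exit times outside of the structure -/

theorem _root_.Crest.Agent.R122.StrMain307.CrossT.congr (h : CrossT R cl bD y)
    {bD' : J → ℝ} (hb : ∀ r i j, R r i j → bD' i = bD i ∧ bD' j = bD j) : CrossT R cl bD' y := by
  intro r i j hR hne
  rw [(hb r i j hR).1, (hb r i j hR).2]
  exact h r i j hR hne

/-! ### Embeddings of labels -/

section map

variable {J' : Type} [Fintype J'] {M' : VSys J' κ} {e : J' ↪ J} {cl' : J' → Finset J'}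
  {bD' : J' → ℝ} {R' : ℝ → J' → J' → Prop} {z : J'}

theorem _root_.Crest.Agent.R122.StrMain307.CrossT.map (h : CrossT R' cl' bD' z)
    (hb : ∀ r i j, R' r i j → bD (e i) = bD' i ∧ bD (e j) = bD' j) :
    CrossT (mapR e R') (mapCl e cl') bD (e z) := by
  intro r i j hR hne
  obtain ⟨i, j, rfl, rfl, hR⟩ := hR
  rw [mapCl_apply, mapCl_apply] at hne
  have hne' : cl' i ≠ cl' j := fun h' => hne (by rw [h'])
  rw [(hb r i j hR).1, (hb r i j hR).2]
  exact (h r i j hR hne').imp (fun h' => ⟨fun h'' => h'.1 (e.injective h''), h'.2⟩)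
    fun h' => ⟨fun h'' => h'.1 (e.injective h''), h'.2⟩

theorem _root_.Crest.Agent.R122.StrMain307.ExitT.map (hp : Pull M' M e)
    (hΦ : AdmissiblePotential M.Φ) (hε : 0 < M.ε) (h : ExitT M' (fun k => Z (e k)) cl' bD')
    (hb : ∀ i, i ∈ cl' i → bD (e i) = bD' i) : ExitT M Z (mapCl e cl') bD := by
  intro i hi hiT
  obtain ⟨i, l, rfl, hl, hil⟩ := exists_of_mapCl hi
  obtain rfl := e.injective hl
  have hbb : ∀ k, M'.bb k = M.bb (e k) := fun k => by
    unfold VSys.bb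
    rw [hp.b]
  rw [hb l hil] at hiT ⊢
  rcases h l hil (by rw [hp.T]; exact hiT) with h1 | ⟨k, hk, hkl, h1, h2, h3⟩
  · exact Or.inl (by rw [h1, hbb])
  · have e1 : M.st (mapCl e cl' (e l)) (bD' l) Z (e l) =
        M'.st (cl' l) (bD' l) (fun k => Z (e k)) l := by
      rw [mapCl_apply, hp.st hΦ hε]
    have e2 : M.st (mapCl e cl' (e l)) (bD' l) Z (e k) =
        M'.st (cl' l) (bD' l) (fun k => Z (e k)) k := by
      rw [mapCl_apply, hp.st hΦ hε]
    refine Or.inr ⟨e k, ?_, fun h' => hkl (e.injective h'), ?_, ?_, ?_⟩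
    · rw [mapCl_apply]
      exact Finset.mem_map_of_mem e hk
    · rw [← hbb]
      exact h1
    · rw [e1, e2, ← hp.ε]
      exact h2
    · rw [e1, e2]
      exact h3

end map

/-! ### Both properties -/

/-- Transversal exits and late cross contacts; `y` = active label. -/
structure PT (M : VSys J κ) (Z : J → PhasePoint) (R : ℝ → J → J → Prop) (cl : J → Finset J)
    (bD : J → ℝ) (y : J) : Prop where
  exit : ExitT M Z cl bD
  cross : CrossT R cl bD y

theorem PT.of_mot (h : StrMot151.Mot M Z R cl bD y) : PT M Z R cl bD y :=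
  ⟨fun i hi hiT => h.exit i hi hiT, h.cross⟩

theorem PT.mot (h : PT M Z R cl bD y) : StrMot151.Mot M Z R cl bD y :=
  ⟨fun i hi hiT => h.exit i hi hiT, h.cross⟩

theorem PT.single {l : J} (hb : bD l = M.bb l) : PT M Z (RC M Z {l}) (clOf {l}) bD y :=
  ⟨ExitT.single hb, CrossT.of_cls _ _ _⟩

theorem PT.tree (hΦ : AdmissiblePotential M.Φ) (hε : 0 < M.ε)
    (hT : 0 < M.T) {P : CTree} {z : PhasePoint × Par P} {e : Idx P ↪ J}
    (h : TreeIn M Z M.T P z.1 z.2 e) (hb : ∀ i, bD (e i) = rel P z.2 i) :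
    PT M Z (RC M Z (part e)) (clOf (part e)) bD y :=
  ⟨ExitT.tree hΦ hε hT h hb, CrossT.of_cls _ _ _⟩

theorem PT.congr (h : PT M Z R cl bD y) (hs : Str M c Z R π cl bD E) {bD' : J → ℝ}
    (hb : ∀ i ∈ π, bD' i = bD i) : PT M Z R cl bD' y :=
  ⟨h.exit.congr fun i hi => hb i (hs.sub i hi),
    h.cross.congr fun r i j hR => ⟨hb i (hs.supp r i j hR).1, hb j (hs.supp r i j hR).2⟩⟩

theorem PT.map {J' : Type} [Fintype J'] {M' : VSys J' κ} {e : J' ↪ J} {cl' : J' → Finset J'}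
    {bD' : J' → ℝ} {R' : ℝ → J' → J' → Prop} {π' E' : Finset J'} {z : J'} (hp : Pull M' M e)
    (hΦ : AdmissiblePotential M.Φ) (hε : 0 < M.ε)
    (hs : Str M' c (fun k => Z (e k)) R' π' cl' bD' E') (hb : ∀ i ∈ π', bD (e i) = bD' i)
    (h : PT M' (fun k => Z (e k)) R' cl' bD' z) : PT M Z (mapR e R') (mapCl e cl') bD (e z) :=
  ⟨h.exit.map hp hΦ hε fun i hi => hb i (hs.sub i hi),
    h.cross.map fun r i j hR => ⟨hb i (hs.supp r i j hR).1, hb j (hs.supp r i j hR).2⟩⟩

/-! ### Encounters of the second line of a pair structure -/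

section hit

variable {d e : ℝ × PhasePoint}
variable (h : Pair.Hit M c Z R R₂ π π₂ cl cl₂ bD E₂ x y a d e s p q)
  (hΦ : AdmissiblePotential M.Φ) (hε : 0 < M.ε)
include h hΦ hε

/-- Output `lineC`. -/
theorem PT.outC (h₁ : PT M Z R cl bD y) (h₂ : PT M Z R₂ cl₂ bD a) :
    PT M Z (joinR R R₂ y a s) (clSep cl cl₂) bD a :=
  ⟨ExitT.join ((h.enc hΦ hε).meet hε) h₁.exit h₂.exit,
    CrossT.join ((h.enc hΦ hε).meet hε) h₁.cross h₂.cross
      (Or.inl ⟨rfl, (h.pr.bY.trans_lt h.lte).le⟩)⟩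

/-- Separate classes, the second line stays active. -/
theorem PT.late (h₁ : PT M Z R cl bD y) (h₂ : PT M Z R₂ cl₂ bD a) :
    PT M Z (joinR R R₂ y a s) (clSep cl cl₂) bD y :=
  ⟨ExitT.join ((h.enc hΦ hε).meet hε) h₁.exit h₂.exit,
    CrossT.join ((h.enc hΦ hε).meet hε) h₁.cross h₂.cross (Or.inr ⟨rfl, h.lta.le⟩)⟩

/-- Outputs `lineL'` (`y' = y`), `lineC'` (`y' = a`). -/
theorem PT.graft [Nonempty κ] (hC : 1 ≤ c) (hT : TL M c ℓ ς (π ∪ π₂) Z) (hℓς : 2 * ℓ ≤ ς)
    (hp : CDpass M.Φ q) (h₁ : PT M Z R cl bD y) (h₂ : PT M Z R₂ cl₂ bD a)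
    (hy : y' = y ∨ y' = a) :
    PT M Z (joinR R R₂ y a s) (clMrg cl cl₂ y a) (grafted M.Φ M.ε bD y a s q) y' :=
  ⟨ExitT.graft (h.enc hΦ hε) hC hΦ hε hT hℓς hp h₁.exit h₂.exit,
    CrossT.graft (h.enc hΦ hε) hε h₁.cross h₂.cross hy⟩

end hit

/-! ### Pair structures and trees -/

section ptree

variable {e : ML} {te : ℝ} {P : CTree} {z : PhasePoint × Par P} {eP : Idx P ↪ J}
  {d : ℝ × PhasePoint} [Nonempty κ]
  (h : PTree M c Z R π cl bD x y d e te P z eP) (hC : 1 ≤ c) (hΦ : AdmissiblePotential M.Φ)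
  (hε : 0 < M.ε) (h₁ : PT M Z R cl bD y)
include h hC hΦ hε h₁

/-- Separate classes. -/
theorem PTree.pt0 : PT M Z (joinR R (RC M Z (part eP)) y (eP (root P)) (cT M.ε z e))
    (clSep cl (clOf (part eP))) bD (eP (root P)) :=
  PT.outC (h.hit hC hΦ hε) hΦ hε h₁ (PT.tree hΦ hε h.T_pos h.tree h.bP)

/-- Merged classes. -/
theorem PTree.pt6 (hT : TL M c ℓ ς (π ∪ part eP) Z) (hℓς : 2 * ℓ ≤ ς)
    (hp : CDpass M.Φ (cD M.ε z e)) (hy : y' = y ∨ y' = eP (root P)) :
    PT M Z (joinR R (RC M Z (part eP)) y (eP (root P)) (cT M.ε z e))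
      (clMrg cl (clOf (part eP)) y (eP (root P)))
      (grafted M.Φ M.ε bD y (eP (root P)) (cT M.ε z e) (cD M.ε z e)) y' :=
  PT.graft (h.hit hC hΦ hε) hΦ hε hC hT hℓς hp h₁ (PT.tree hΦ hε h.T_pos h.tree h.bP) hy

end ptree

end Crest.Agent.R122.StrMot2_151

end
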