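import Crest.Agent.R122.StrMotG_307

/-!
# Row 122 (helper307): positive exit times

* `cls_pos` : in a class with two members, born at time `0`, every exit time is positive.
* `cls_pos_of_last` : the same if one exit time is in `(0, T]`.
* `PTree.pos0`, `PTree.pos6` : the classes of the first line and of the tree (separate, merged).
-/

set_option autoImplicit false
set_option linter.unusedSectionVars false

open MeasureTheory Set Filter Topology
open scoped NNReal ENNReal
open Crest.AnalysisR.Kinetic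
open Crest.Agent.R122.Flow671 hiding rel
open Crest.Agent.R122.Loc45 Crest.Agent.R122.Ins45
open Crest.Agent.R122.VL581 Crest.Agent.R122.VL581.VSys Crest.Agent.R122.VLInst442
open Crest.Agent.R122.LNInst491 Crest.Agent.R122.LN304 Crest.Agent.R122.LNg410
open Crest.Agent.R122.Kin796 Crest.Agent.R122.Kin796.CTree Crest.Agent.R122.Tree674
open Crest.Agent.R122.PathFlow968 Crest.Agent.R122.TreeLines335 Crest.Agent.R122.EDefs602
open Crest.Agent.R122.LNTree410 Crest.Agent.R122.PWGlue491 Crest.Agent.R122.Inf879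
open Crest.Agent.R122.LNGraft410 Crest.Agent.R122.LNEv968 Crest.Agent.R122.PWInst442
open Crest.Agent.R122.OCout796 Crest.Agent.R122.Scat818
open Crest.Agent.R122.StrG491
open Crest.Agent.R122.OneC285 (cT cB cD cX)
open scoped Classical

noncomputable section

namespace Crest.Agent.R122.StrMain307

variable {J κ : Type} [Fintype J] {M : VSys J κ} {Z : J → PhasePoint}
variable {c : ℝ} {R R₁ R₂ : ℝ → J → J → Prop} {π π₁ π₂ S : Finset J} {cl cl₁ cl₂ : J → Finset J}
  {bD : J → ℝ} {E E₁ E₂ : Finset J} {x y a y' : J} {s ℓ ς : ℝ} {p : Space3} {q : CD}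

/-- **Positive exit times**: a class with two members. -/
theorem cls_pos (h : Cls M Z S bD) (hb : ∀ k ∈ S, M.bb k = 0) (hT : 0 < M.T) {i k : J}
    (hi : i ∈ S) (hk : k ∈ S) (hki : k ≠ i) : 0 < bD i := by
  obtain ⟨i', hi', j, hj, hji, hR⟩ := h.conn.2 {i} (Finset.singleton_subset_iff.2 hi)
    (Finset.singleton_nonempty i) (fun h' => hki (by
      rw [← h', Finset.mem_singleton] at hk
      exact hk))
  rw [Finset.mem_singleton] at hi' hji
  subst hi'
  have hR' : ∃ r ∈ Icc 0 M.T, dist (M.st S r Z i').1 (M.st S r Z j).1 ≤ M.ε := by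
    rcases hR with ⟨r, hr, _, _, hd⟩ | ⟨r, hr, _, _, hd⟩
    · exact ⟨r, hr, hd⟩
    · exact ⟨r, hr, by rw [dist_comm]; exact hd⟩
  obtain ⟨r, hr, hd⟩ := hR'
  by_contra hcon
  have h0 : 0 ≤ bD i' := h.bb_nonneg' hi
  rcases hr.1.lt_or_eq with hr0 | hr0
  · have h1 := h.exit i' hi r ((not_lt.1 hcon).trans_lt hr0) hr.2 j hj hji
      (by rw [hb j hj]; exact hr.1)
    exact absurd hd (not_le.2 h1)
  · have h1 := h.ok i' hi (h.obs i' hi) (by rw [hb i' hi]; exact hT) j hj (h.obs j hj) hji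
      (by rw [hb i' hi, hb j hj])
    rw [hb i' hi] at h1
    rw [← hr0] at hd
    exact absurd hd (not_le.2 h1)

/-- A class with an exit time in `(0, T]`. -/
theorem cls_pos_of_last (h : Cls M Z S bD) (hb : ∀ k ∈ S, M.bb k = 0) (hT : 0 < M.T) {x : J}
    (hx : x ∈ S) (hx0 : 0 < bD x) (hxT : bD x ≤ M.T) : ∀ i ∈ S, 0 < bD i := by
  rcases h.last x hx hxT with h1 | ⟨k, hk, hkx, _⟩
  · rw [hb x hx] at h1
    exact absurd h1 hx0.ne'
  · intro i hi
    by_cases hix : i = x
    · rw [hix]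
      exact hx0
    · exact cls_pos h hb hT hi hx (Ne.symm hix)

section ptree

variable {d : ℝ × PhasePoint} {e : ML} {te : ℝ} {P : CTree} {z : PhasePoint × Par P}
  {eP : Idx P ↪ J}
variable (h : PTree M c Z R π cl bD x y d e te P z eP)
include h

/-- Labels of the class of the first line have positive exit times. -/
theorem pos_x (hb : ∀ k ∈ π, M.bb k = 0) (hd0 : 0 < d.1) (hdT : d.1 ≤ M.T) :
    ∀ i ∈ cl x, 0 < bD i := by
  have hx := h.pr.str.cls x h.pr.hx
  refine cls_pos_of_last hx (fun k hk => hb k (h.pr.str.sub x hk)) (hd0.trans_le hdT)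
    (h.pr.str.mem x h.pr.hx) ?_ ?_
  · rw [← h.pr.bx]
    exact hd0
  · rw [← h.pr.bx]
    exact hdT

/-- Labels of a tree with two leaves have positive exit times. -/
theorem pos_P (hΦ : AdmissiblePotential M.Φ) (hε : 0 < M.ε) (hP : P ≠ leaf) :
    ∀ i ∈ part eP, 0 < bD i := by
  have hc := Cls.of_tree hΦ hε h.T_pos h.tree h.bP
  intro i hi
  obtain ⟨j, rfl⟩ := mem_part.1 hi
  have hcard : ∃ k : Idx P, k ≠ j := by
    cases P with
    | leaf => exact absurd rfl hP
    | node l r =>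
      rcases j with j | j
      · exact ⟨Sum.inr (root r), fun h' => by cases h'⟩
      · exact ⟨Sum.inl (root l), fun h' => by cases h'⟩
  obtain ⟨k, hk⟩ := hcard
  exact cls_pos hc (fun k hk => by
    obtain ⟨k, rfl⟩ := mem_part.1 hk
    exact h.tree.bb k) h.T_pos (mem_part_self j) (mem_part_self k)
    (fun h' => hk (eP.injective h'))

variable [Nonempty κ] (hC : 1 ≤ c) (hΦ : AdmissiblePotential M.Φ) (hε : 0 < M.ε)
  (hT : TL M c ℓ ς (π ∪ part eP) Z) (hℓς : 2 * ℓ ≤ ς) (hp : CDpass M.Φ (cD M.ε z e))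
  (hle : cT M.ε z e + outT M.Φ M.ε (cD M.ε z e) ≤ M.T)
include hC hΦ hε hT hℓς hp hle

/-- **Positive exit times in the merged classes.** -/
theorem pos6 (hb : ∀ k ∈ π, M.bb k = 0) (hd0 : 0 < d.1) (hdT : d.1 ≤ M.T) :
    ∀ i, (i ∈ clMrg cl (clOf (part eP)) y (eP (root P)) x ∨
      i ∈ clMrg cl (clOf (part eP)) y (eP (root P)) y) →
      0 < grafted M.Φ M.ε bD y (eP (root P)) (cT M.ε z e) (cD M.ε z e) i := by
  have hh := h.hit hC hΦ hε
  have hen := hh.enc hΦ hε
  have hm := hen.meet hε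
  have hs := h.str6 hC hΦ hε hT hℓς hp hle
  have hbb : ∀ k ∈ π ∪ part eP, M.bb k = 0 := by
    intro k hk
    rcases Finset.mem_union.1 hk with hk | hk
    · exact hb k hk
    · obtain ⟨k, rfl⟩ := mem_part.1 hk
      exact h.tree.bb k
  have hcls : ∀ v ∈ ({x, y} ∪ part eP : Finset J),
      Cls M Z (clMrg cl (clOf (part eP)) y (eP (root P)) v)
        (grafted M.Φ M.ε bD y (eP (root P)) (cT M.ε z e) (cD M.ε z e)) := hs.cls
  have hxE : x ∈ ({x, y} ∪ part eP : Finset J) := Finset.mem_union_left _ h.pr.hx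
  have hyE : y ∈ ({x, y} ∪ part eP : Finset J) := Finset.mem_union_left _ h.pr.hy
  rintro i (hi | hi)
  · refine cls_pos_of_last (hcls x hxE) (fun k hk => hbb k (hs.sub x hk)) h.T_pos
      (hs.mem x hxE) ?_ ?_ i hi
    · rw [Enc.grafted_of_ne h.pr.ne hh.xa, ← h.pr.bx]
      exact hd0
    · rw [Enc.grafted_of_ne h.pr.ne hh.xa, ← h.pr.bx]
      exact hdT
  · have hym : y ∈ clMrg cl (clOf (part eP)) y (eP (root P)) y := hs.mem y hyE
    refine cls_pos_of_last (hcls y hyE) (fun k hk => hbb k (hs.sub y hk)) h.T_pos hym ?_ ?_ i hi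
    · have h1 : grafted M.Φ M.ε bD y (eP (root P)) (cT M.ε z e) (cD M.ε z e) y =
          cT M.ε z e + outT M.Φ M.ε (cD M.ε z e) := if_pos (Or.inl rfl)
      rw [h1]
      exact h.cT_pos.trans (lt_add_of_pos_right _ (hp.outT_pos hε))
    · have h1 : grafted M.Φ M.ε bD y (eP (root P)) (cT M.ε z e) (cD M.ε z e) y =
          cT M.ε z e + outT M.Φ M.ε (cD M.ε z e) := if_pos (Or.inl rfl)
      rw [h1]
      exact hle

end ptree

end Crest.Agent.R122.StrMain307

end
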