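import Crest.Agent.R122.StrMain_307
import Crest.Agent.R122.OkNull_424
import Crest.Agent.R122.E6Str_491
import Crest.Agent.R122.Link6Slots_796
import Crest.Agent.R122.LKok_416
import Crest.Agent.R122.StrMot2_151
import Crest.Agent.R122.StrPos_307

/-!
# Row 122 (helper410): good worlds of the structures of inequality 3, pointwise

* `Mv` : exits are transversal separations, contacts of two classes happen after one of the exits
  (the hypotheses of helper307's `motion`), exit times positive.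
* `okFam_of_str` : lines `ls` on the paths of the exits `j` of a tree-like structure; under the
  transfer property `OkD` (helper151, helper424) at the union of the classes, the family `ls` gives
  good worlds. Simultaneous releases separate (helper307), no hypothesis on the birth times.
* `PTree.ok₁`, `PTree.ok₂` : the two families of inequality 3.
-/

set_option autoImplicit false
set_option linter.unusedSectionVars false

open MeasureTheory Set Filter Topology
open scoped NNReal ENNReal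
open Crest.AnalysisR.Kinetic
open Crest.Agent.R122.Flow671 hiding rel
open Crest.Agent.R122.Loc45 Crest.Agent.R122.Ins45
open Crest.Agent.R122.VL581 Crest.Agent.R122.VL581.VSys Crest.Agent.R122.VLInst442
open Crest.Agent.R122.LNInst491 Crest.Agent.R122.LN304 Crest.Agent.R122.LNg410
open Crest.Agent.R122.Kin796 Crest.Agent.R122.Kin796.CTree Crest.Agent.R122.Tree674
open Crest.Agent.R122.PathFlow968 Crest.Agent.R122.TreeLines335 Crest.Agent.R122.EDefs602
open Crest.Agent.R122.LNTree410 Crest.Agent.R122.PWGlue491 Crest.Agent.R122.Inf879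
open Crest.Agent.R122.LNGraft410 Crest.Agent.R122.LNEv968 Crest.Agent.R122.PWInst442
open Crest.Agent.R122.OCout796 Crest.Agent.R122.Scat818
open Crest.Agent.R122.OneC285 (cT cB cD cX)
open Crest.Agent.R122.StrG491 Crest.Agent.R122.TransOk151
open Crest.Agent.R122.GC311 Crest.Agent.R122.MWFam255
open Crest.Agent.R122.StrMot2_151 Crest.Agent.R122.PairD292 Crest.Agent.R122.E6Hyp879
open Crest.Agent.R122.Decomp811 (exF)
open scoped Classical

noncomputable section

namespace Crest.Agent.R122.Ok2P410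

variable {J κ : Type} [Fintype J] {M : VSys J κ} {Z : J → PhasePoint}
variable {c ℓ ς : ℝ} {R : ℝ → J → J → Prop} {π E : Finset J} {cl : J → Finset J} {bD : J → ℝ}

/-- The union of the classes of the exits. -/
def uc (cl : J → Finset J) (E : Finset J) : Finset J := E.biUnion cl

theorem mem_uc {i : J} : i ∈ uc cl E ↔ ∃ a ∈ E, i ∈ cl a := Finset.mem_biUnion

theorem uc_subset (h : Str M c Z R π cl bD E) : uc cl E ⊆ π := by
  intro i hi
  obtain ⟨a, _, hia⟩ := mem_uc.1 hi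
  exact h.sub a hia

/-- **Data of the motion of the classes of `E`**: the hypotheses of helper307's `motion`. -/
structure Mv (M : VSys J κ) (Z : J → PhasePoint) (R : ℝ → J → J → Prop) (cl : J → Finset J)
    (bD : J → ℝ) (E : Finset J) : Prop where
  /-- births `0` -/
  birth : ∀ i ∈ uc cl E, M.bb i = 0
  /-- positive exit times -/
  pos : ∀ i ∈ uc cl E, 0 < bD i
  exit : ∀ i, i ∈ cl i → bD i ≤ M.T → bD i = M.bb i ∨ ∃ k ∈ cl i, k ≠ i ∧ M.bb k ≤ bD i ∧
    dist (M.st (cl i) (bD i) Z i).1 (M.st (cl i) (bD i) Z k).1 = M.ε ∧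
    0 < inner ℝ ((M.st (cl i) (bD i) Z i).1 - (M.st (cl i) (bD i) Z k).1)
      ((M.st (cl i) (bD i) Z i).2 - (M.st (cl i) (bD i) Z k).2)
  cross : ∀ r i j, R r i j → cl i ≠ cl j → bD i ≤ r ∨ bD j ≤ r

variable {ω ι : Type} [Fintype ω] [Fintype ι] {bω : ω → ℝ} {V : ω → PhasePoint}

/-- **Good worlds from a tree-like structure.** -/
theorem okFam_of_str [Nonempty κ] (hΦ : AdmissiblePotential M.Φ) (hε : 0 < M.ε) (hc : 1 ≤ c)
    (hℓς : 2 * ℓ ≤ ς) (hstr : Str M c Z R π cl bD E) (htl : TL M c ℓ ς π Z)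
    (hm : Mv M Z R cl bD E)
    (hG : OkNull424.OkD M.Φ M.ε bω (fun a : (uc cl E : Finset J) => Z a) V)
    {j : ι → J} (hj : Function.Injective j) (hjE : ∀ x, j x ∈ E) {ls : ι → ML}
    (hb : ∀ x, (ls x).1.1 = bD (j x)) (hT : ∀ x, (ls x).1.1 ≤ M.T)
    (hst : ∀ x, M.st (cl (j x)) (ls x).1.1 Z (j x) = (ls x).1.2) {W : MW ω}
    (hWb : W.b = bω) (hWz : W.z = V) (hWs : SepB M.ε W)
    (hWl : ∀ i x, W.b i = (ls x).1.1 →
      StartSep M.ε (lineAt 0 (W.z i) (W.b i)) (ls x).1.2) (hT0 : 0 ≤ M.T) :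
    MW.OkFam M.Φ M.ε W ls := by
  have hself : ∀ i ∈ uc cl E, ∃ a ∈ E, i ∈ cl a := fun i hi => mem_uc.1 hi
  have hA : ∀ i ∈ uc cl E, cl i ⊆ uc cl E := by
    intro i hi
    obtain ⟨a, ha, hia⟩ := mem_uc.1 hi
    rw [hstr.cov.eq a i hia]
    exact fun k hk => mem_uc.2 ⟨a, ha, hk⟩
  obtain ⟨h1, h2, h3, h4, -⟩ := StrMain307.motion hΦ hε hc hℓς hstr htl hself hA hm.birth hm.pos
    hm.exit hm.cross
  have hjA : ∀ x, j x ∈ uc cl E := fun x => mem_uc.2 ⟨j x, hjE x, hstr.mem _ (hjE x)⟩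
  have hle : ∀ x, bD (j x) ≤ M.T := fun x => by
    rw [← hb]
    exact hT x
  have hd : ∀ x : ι, dth {i : (uc cl E : Finset J) | bD i ≤ M.T}
      (fun i : (uc cl E : Finset J) => bD i) M.T ⟨j x, hjA x⟩ = bD (j x) := fun x =>
    dth_mem (S := {i : (uc cl E : Finset J) | bD i ≤ M.T}) (hle x)
  have hls : ∀ x, (ls x).1 = (bD (j x), M.st (cl (j x)) (bD (j x)) Z (j x)) := by
    intro x
    refine Prod.ext (hb x) ?_
    show (ls x).1.2 = M.st (cl (j x)) (bD (j x)) Z (j x)
    rw [← hst x, hb]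
  refine (hG _ M.T _ hT0 h1 h3 h2 ι (fun x => ⟨j x, hjA x⟩) ls W
    (fun x y hxy => hj (congrArg Subtype.val hxy)) (fun x => ?_) (fun x => ?_) hWb hWz ?_).1
  · rw [hd]
    exact hle x
  · rw [hd]
    exact hls x
  · refine sepB_add_lines hWs (fun x y hxy hbxy => ?_) hWl
    rw [hb, hb] at hbxy
    have h5 := h4 ⟨j x, hjA x⟩ ⟨j y, hjA y⟩
      (fun h' => hxy (hj (congrArg Subtype.val h'))) (hle x) hbxy.symm
    rw [hls x, hls y]
    exact h5

/-- The same for a world born at time `0`. -/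
theorem okFam_of_str0 [Nonempty κ] (hΦ : AdmissiblePotential M.Φ) (hε : 0 < M.ε) (hc : 1 ≤ c)
    (hℓς : 2 * ℓ ≤ ς) (hstr : Str M c Z R π cl bD E) (htl : TL M c ℓ ς π Z)
    (hm : Mv M Z R cl bD E)
    (hG : OkNull424.OkD M.Φ M.ε bω (fun a : (uc cl E : Finset J) => Z a) V)
    {j : ι → J} (hj : Function.Injective j) (hjE : ∀ x, j x ∈ E) {ls : ι → ML}
    (hb : ∀ x, (ls x).1.1 = bD (j x)) (hT : ∀ x, (ls x).1.1 ≤ M.T)
    (hst : ∀ x, M.st (cl (j x)) (ls x).1.1 Z (j x) = (ls x).1.2) {W : MW ω}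
    (hWb : W.b = bω) (hWz : W.z = V) (hWs : SepB M.ε W) (hW0 : ∀ x, W.b x ≤ 0) (hT0 : 0 ≤ M.T) :
    MW.OkFam M.Φ M.ε W ls :=
  okFam_of_str hΦ hε hc hℓς hstr htl hm hG hj hjE hb hT hst hWb hWz hWs (fun i x hix => by
    have h5 := hm.pos _ (mem_uc.2 ⟨j x, hjE x, hstr.mem _ (hjE x)⟩)
    have h6 := hW0 i
    rw [hix, hb] at h6
    exact absurd h5 (not_lt.2 h6)) hT0

/-! ### The families of inequality 3 -/

section ptree

variable {x y : J} {d e : ML} {te : ℝ} {P : CTree} {z : PhasePoint × Par P} {eP : Idx P ↪ J}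
  [Nonempty κ]
  (h : PTree M c Z R π cl bD x y d.1 e te P z eP) (hpt : PT M Z R cl bD y)
  (hC : 1 ≤ c) (hΦ : AdmissiblePotential M.Φ) (hε : 0 < M.ε) (hb : ∀ k ∈ π, M.bb k = 0)
  (hd0 : 0 < d.1.1) (hdT : d.1.1 ≤ M.T)
include h hpt hC hΦ hε hb hd0 hdT

omit hpt hC hΦ hε hd0 hdT in
theorem birth_union : ∀ k ∈ π ∪ part eP, M.bb k = 0 := by
  intro k hk
  rcases Finset.mem_union.1 hk with hk | hk
  · exact hb k hk
  · obtain ⟨k, rfl⟩ := mem_part.1 hk
    exact h.tree.bb k

/-- The motion of the separate classes of `d` and the tree. -/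
theorem mv0 (hP : P ≠ leaf) :
    Mv M Z (joinR R (RC M Z (part eP)) y (eP (root P)) (cT M.ε z e))
      (clSep cl (clOf (part eP))) bD ({x} ∪ part eP) := by
  have hs := h.str0 hC hΦ hε
  have hh := h.hit hC hΦ hε
  have hm := (hh.enc hΦ hε).meet hε
  have hp := PTree.pt0 h hC hΦ hε hpt
  refine ⟨fun i hi => ?_, fun i hi => ?_, hp.exit, hp.cross.weak⟩
  · obtain ⟨a, ha, hia⟩ := mem_uc.1 hi
    exact birth_union h hb i (hs.sub a hia)
  · obtain ⟨a, ha, hia⟩ := mem_uc.1 hi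
    rcases Finset.mem_union.1 ha with ha | ha
    · rw [Finset.mem_singleton.1 ha, hm.cl₁_of h.pr.xπ] at hia
      exact StrMain307.pos_x h hb hd0 hdT i hia
    · rw [hm.cl₂_of ha, clOf_mem ha] at hia
      exact StrMain307.pos_P h hΦ hε hP i hia

/-- The lines of the tree and `d`, labels. -/
def j0 (x : J) (eP : Idx P ↪ J) : Idx P ⊕ Unit → J := Sum.elim eP fun _ => x

omit hpt hC hΦ hε hb hd0 hdT in
theorem j0_inj : Function.Injective (j0 x eP) := by
  have hx : ∀ i, eP i ≠ x := fun i h' =>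
    Finset.disjoint_left.1 h.dj h.pr.xπ (h' ▸ mem_part_self i)
  rintro (i | i) (k | k) hik
  · exact congrArg Sum.inl (eP.injective hik)
  · exact absurd hik (hx i)
  · exact absurd hik.symm (hx k)
  · rfl

/-- **The lines of the tree and `d`**, tree with at least two leaves, general world. -/
theorem ok₁_world (hP : P ≠ leaf) (hT : TL M c ℓ ς (π ∪ part eP) Z) (hℓς : 2 * ℓ ≤ ς)
    (hG : ∀ A : Finset J, A ⊆ π ∪ part eP →
      OkNull424.OkD M.Φ M.ε bω (fun a : A => Z a) V)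
    {W : MW ω} (hWb : W.b = bω) (hWz : W.z = V) (hWs : SepB M.ε W)
    (hWl : ∀ i x, W.b i = (withD (lineML M.Φ M.ε P z) d x).1.1 →
      StartSep M.ε (lineAt 0 (W.z i) (W.b i)) (withD (lineML M.Φ M.ε P z) d x).1.2) :
    MW.OkFam M.Φ M.ε W (withD (lineML M.Φ M.ε P z) d) := by
  have hs := h.str0 hC hΦ hε
  have hh := h.hit hC hΦ hε
  have hm := (hh.enc hΦ hε).meet hε
  refine okFam_of_str hΦ hε hC hℓς hs hT (mv0 h hpt hC hΦ hε hb hd0 hdT hP)
    (hG _ (uc_subset hs)) (j0_inj h)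
    ?_ ?_ ?_ ?_ hWb hWz hWs hWl h.T_pos.le
  · rintro (i | i)
    · exact Finset.mem_union_right _ (mem_part_self i)
    · exact Finset.mem_union_left _ (Finset.mem_singleton_self x)
  · rintro (i | i)
    · exact (h.bP i).symm
    · exact h.pr.bx
  · rintro (i | i)
    · exact ((h.rel_lt hε i).trans h.cT_lt).le
    · exact hdT
  · rintro (i | i)
    · show M.st (clSep cl (clOf (part eP)) (eP i)) (lineML M.Φ M.ε P z i).1.1 Z (eP i) =
        (lineML M.Φ M.ε P z i).1.2
      rw [hm.cl₂_of (mem_part_self i), clOf_mem (mem_part_self i)]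
      exact h.st_rel hΦ hε i
    · show M.st (clSep cl (clOf (part eP)) x) d.1.1 Z x = d.1.2
      rw [hm.cl₁_of h.pr.xπ]
      exact h.pr.lx hdT

/-- The line `d` alone, general world. -/
theorem okd_world (hT : TL M c ℓ ς π Z) (hℓς : 2 * ℓ ≤ ς)
    (hG : ∀ A : Finset J, A ⊆ π ∪ part eP →
      OkNull424.OkD M.Φ M.ε bω (fun a : A => Z a) V)
    {W : MW ω} (hWb : W.b = bω) (hWz : W.z = V) (hWs : SepB M.ε W)
    (hWl : ∀ i, W.b i = d.1.1 → StartSep M.ε (lineAt 0 (W.z i) (W.b i)) d.1.2) :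
    MW.OkFam M.Φ M.ε W (fun _ : Unit => d) := by
  have hs : Str M c Z R π cl bD {x} :=
    h.pr.str.mono (Finset.singleton_subset_iff.2 (Finset.mem_insert_self x _))
  have hmv : Mv M Z R cl bD {x} := by
    refine ⟨fun i hi => ?_, fun i hi => ?_, hpt.exit, hpt.cross.weak⟩
    · obtain ⟨a, ha, hia⟩ := mem_uc.1 hi
      exact hb i (hs.sub a hia)
    · obtain ⟨a, ha, hia⟩ := mem_uc.1 hi
      rw [Finset.mem_singleton.1 ha] at hia
      exact StrMain307.pos_x h hb hd0 hdT i hia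
  exact okFam_of_str hΦ hε hC hℓς hs hT hmv
    (hG _ ((uc_subset hs).trans Finset.subset_union_left)) (j := fun _ : Unit => x)
    (fun _ _ _ => rfl) (fun _ => Finset.mem_singleton_self x) (fun _ => h.pr.bx) (fun _ => hdT)
    (fun _ => h.pr.lx hdT) hWb hWz hWs (fun i _ => hWl i) h.T_pos.le

variable (hT : TL M c ℓ ς (π ∪ part eP) Z) (hℓς : 2 * ℓ ≤ ς) (hp : CDpass M.Φ (cD M.ε z e))
  (hle : cT M.ε z e + outT M.Φ M.ε (cD M.ε z e) ≤ M.T)
include hT hℓς hp hle

/-- The motion of the merged classes. -/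
theorem mv6 : Mv M Z (joinR R (RC M Z (part eP)) y (eP (root P)) (cT M.ε z e))
      (clMrg cl (clOf (part eP)) y (eP (root P)))
      (grafted M.Φ M.ε bD y (eP (root P)) (cT M.ε z e) (cD M.ε z e)) ({x, y} ∪ part eP) := by
  have hs := h.str6 hC hΦ hε hT hℓς hp hle
  have hh := h.hit hC hΦ hε
  have hen := hh.enc hΦ hε
  have hp6 := PTree.pt6 h hC hΦ hε hpt hT hℓς hp (Or.inl rfl)
  have hpos := StrMain307.pos6 h hC hΦ hε hT hℓς hp hle hb hd0 hdT
  refine ⟨fun i hi => ?_, fun i hi => ?_, hp6.exit, hp6.cross.weak⟩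
  · obtain ⟨a, ha, hia⟩ := mem_uc.1 hi
    exact birth_union h hb i (hs.sub a hia)
  · obtain ⟨a, ha, hia⟩ := mem_uc.1 hi
    rcases Finset.mem_union.1 ha with ha | ha
    · rcases Finset.mem_insert.1 ha with rfl | ha
      · exact hpos i (Or.inl hia)
      · rw [Finset.mem_singleton.1 ha] at hia
        exact hpos i (Or.inr hia)
    · refine hpos i (Or.inr ?_)
      have h1 : a ∈ cl y ∪ clOf (part eP) (eP (root P)) :=
        Finset.mem_union_right _ (by rw [clOf_mem (mem_part_self (root P))]; exact ha)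
      have h2 : y ∈ cl y ∪ clOf (part eP) (eP (root P)) :=
        Finset.mem_union_left _ (h.pr.str.mem y h.pr.hy)
      rw [hen.clMrg_mem h1] at hia
      rw [hen.clMrg_mem h2]
      exact hia

/-- The exits, `e'`, `c'` and `d`, labels. -/
def j6 (x y : J) (eP : Idx P ↪ J) : ({k : Idx P // k ≠ root P} ⊕ Bool) ⊕ Unit → J :=
  Sum.elim (Sum.elim (fun k => eP k.1) fun b => cond b y (eP (root P))) fun _ => x

omit hpt hC hΦ hε hb hd0 hdT hT hℓς hp hle in
theorem j6_inj : Function.Injective (j6 x y eP) := by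
  have hx : ∀ i, eP i ≠ x := fun i h' =>
    Finset.disjoint_left.1 h.dj h.pr.xπ (h' ▸ mem_part_self i)
  have hy : ∀ i, eP i ≠ y := fun i h' =>
    Finset.disjoint_left.1 h.dj h.pr.yπ (h' ▸ mem_part_self i)
  have hxy := h.pr.ne
  rintro ((i | (_ | _)) | i) ((k | (_ | _)) | k) hik
  · exact congrArg Sum.inl (congrArg Sum.inl (Subtype.ext (eP.injective hik)))
  · exact absurd (eP.injective hik) i.2
  · exact absurd hik (hy i)
  · exact absurd hik (hx i)
  · exact absurd (eP.injective hik).symm k.2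
  · rfl
  · exact absurd hik (hy _)
  · exact absurd hik (hx _)
  · exact absurd hik.symm (hy k)
  · exact absurd hik.symm (hy _)
  · rfl
  · exact absurd hik.symm hxy
  · exact absurd hik.symm (hx k)
  · exact absurd hik.symm (hx _)
  · exact absurd hik hxy
  · rfl

/-- **The exits, `e'`, `c'` and `d`**, general world. -/
theorem ok₂_world
    (hG : ∀ A : Finset J, A ⊆ π ∪ part eP →
      OkNull424.OkD M.Φ M.ε bω (fun a : A => Z a) V)
    {W : MW ω} (hWb : W.b = bω) (hWz : W.z = V) (hWs : SepB M.ε W)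
    (hWl : ∀ i x, W.b i = (withD (plus (exF (lineML M.Φ M.ε P z) (root P))
        (outL6 M.Φ M.ε P z e (some false)) (outL6 M.Φ M.ε P z e (some true))) d x).1.1 →
      StartSep M.ε (lineAt 0 (W.z i) (W.b i)) (withD (plus (exF (lineML M.Φ M.ε P z) (root P))
        (outL6 M.Φ M.ε P z e (some false)) (outL6 M.Φ M.ε P z e (some true))) d x).1.2) :
    MW.OkFam M.Φ M.ε W (withD (plus (exF (lineML M.Φ M.ε P z) (root P))
      (outL6 M.Φ M.ε P z e (some false)) (outL6 M.Φ M.ε P z e (some true))) d) := by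
  have hs := h.str6 hC hΦ hε hT hℓς hp hle
  have hh := h.hit hC hΦ hε
  have hen := hh.enc hΦ hε
  have hn1 : ∀ i, eP i ≠ y := fun i h' =>
    Finset.disjoint_left.1 h.dj h.pr.yπ (h' ▸ mem_part_self i)
  refine okFam_of_str hΦ hε hC hℓς hs hT (mv6 h hpt hC hΦ hε hb hd0 hdT hT hℓς hp hle)
    (hG _ (uc_subset hs)) (j6_inj h) ?_ ?_ ?_ ?_ hWb hWz hWs hWl h.T_pos.le
  · rintro ((i | (_ | _)) | i)
    · exact Finset.mem_union_right _ (mem_part_self i.1)
    · exact Finset.mem_union_right _ (mem_part_self _)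
    · exact Finset.mem_union_left _ h.pr.hy
    · exact Finset.mem_union_left _ h.pr.hx
  · rintro ((i | (_ | _)) | i)
    · show (lineML M.Φ M.ε P z i.1).1.1 =
        grafted M.Φ M.ε bD y (eP (root P)) (cT M.ε z e) (cD M.ε z e) (eP i.1)
      rw [Enc.grafted_of_ne (hn1 i.1) fun h' => i.2 (eP.injective h'), h.bP]
      rfl
    · exact (if_pos (Or.inr rfl)).symm
    · exact (if_pos (Or.inl rfl)).symm
    · show d.1.1 = grafted M.Φ M.ε bD y (eP (root P)) (cT M.ε z e) (cD M.ε z e) x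
      rw [Enc.grafted_of_ne h.pr.ne hh.xa]
      exact h.pr.bx
  · rintro ((i | (_ | _)) | i)
    · exact ((h.rel_lt hε i.1).trans h.cT_lt).le
    · exact hle
    · exact hle
    · exact hdT
  · rintro ((i | (_ | _)) | i)
    · show M.st (clMrg cl (clOf (part eP)) y (eP (root P)) (eP i.1))
        (lineML M.Φ M.ε P z i.1).1.1 Z (eP i.1) = (lineML M.Φ M.ε P z i.1).1.2
      have hlt : (lineML M.Φ M.ε P z i.1).1.1 ≤ M.T := ((h.rel_lt hε i.1).trans h.cT_lt).le
      rw [hen.st₂ hC hΦ hε hT hℓς (mem_part_self i.1) (fun h' => i.2 (eP.injective h'))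
        hlt, clOf_mem (mem_part_self i.1)]
      exact h.st_rel hΦ hε i.1
    · exact (hh.outC' hC hΦ hε hT hℓς hp hle).ly hle
    · exact (hh.outL hC hΦ hε hT hℓς hp hle).ly hle
    · show M.st (clMrg cl (clOf (part eP)) y (eP (root P)) x) d.1.1 Z x = d.1.2
      rw [hen.st₁ hC hΦ hε hT hℓς h.pr.xπ h.pr.ne hdT]
      exact h.pr.lx hdT

end ptree

end Crest.Agent.R122.Ok2P410

end
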