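import Crest.Agent.R122.OkGate_424
import Crest.Agent.R122.Ok2P_410
import Crest.Agent.R122.OkX6N_942
import Crest.Agent.R122.Real6P_796
import Crest.Agent.R122.LvTL_317

/-!
# Row 122, LINK6 (helper424): the field `ok` of the null facts asked from the gateway

* `levD_pt` : the level data give the pair structure and the contact tree with transversal exits.
* `ok2_of_levD` : the second family of `E6Hyp` can be inserted, pointwise.
* `gNull_dT` : the first line is born before the horizon, almost surely.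
* `gNull_okD0` : the gateway for good worlds, small system.
* `gNull_ok6` : the worlds of `Ok6` are good, off a null event.
-/

set_option autoImplicit false
set_option linter.unusedSectionVars false

open MeasureTheory Set Filter Topology
open scoped Classical ENNReal
open Crest.AnalysisR.Kinetic
open Crest.Agent.R122.GC311 Crest.Agent.R122.EDefs602
open Crest.Agent.R122.Kin796 Crest.Agent.R122.Kin796.CTree Crest.Agent.R122.Tree674
open Crest.Agent.R122.TreeLines335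
open Crest.Agent.R122.Gate424 Crest.Agent.R122.Gate973 Crest.Agent.R122.LN2
open Crest.Agent.R122.Scat818 Crest.Agent.R122.OCout796 Crest.Agent.R122.Ins45
open Crest.Agent.R122.OneC285 (cT cB cD cX)
open Crest.Agent.R122.VL581 Crest.Agent.R122.VL581.VSys
open Crest.Agent.R122.LN304 Crest.Agent.R122.LNg410 Crest.Agent.R122.LNTree410
open Crest.Agent.R122.StrG491 Crest.Agent.R122.StrMain307 Crest.Agent.R122.StrMot2_151
open Crest.Agent.R122.LNBridge968 Crest.Agent.R122.LNEmb410 Crest.Agent.R122.LNEv968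
open Crest.Agent.R122.GateOsP424 Crest.Agent.R122.PTreeOf331 Crest.Agent.R122.TransOk151
open Crest.Agent.R122.OkNull424 Crest.Agent.R122.OkGate424 Crest.Agent.R122.OkInd942
open Crest.Agent.R122.OPX973 (OPX)
open Crest.Agent.R122.E6Hyp879 (withD plus)
open Crest.Agent.R122.Decomp811 (exF)
open Crest.Agent.R122.PairD292 Crest.Agent.R122.PairRep581 Crest.Agent.R122.Link6796

noncomputable section

namespace Crest.Agent.R122.SlotOk424

variable {Φ : Space3 → ℝ} {f₀ : PhasePoint → ℝ} {T ε c ℓ ς te T' γ β : ℝ} {ρ : Space3 → ℝ≥0∞}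
  {C : ℝ≥0∞} {K n : ℕ} {P : CTree} {S : Shp} {q : (PhasePoint × Par P) × S.Θ} {w : Config n}

/-! ### Pointwise -/

/-- All labels (classical decidability). -/
theorem unionC : @Union.union (Finset (Idx P ⊕ S.κ))
    (@Finset.instUnion (Idx P ⊕ S.κ) fun a b => Classical.propDecidable (a = b))
    ((Finset.univ : Finset S.κ).map (iS P S.κ)) (part (iT P S.κ)) = Finset.univ :=
  @union_eq S.κ _ P fun a b => Classical.propDecidable (a = b)

/-- **The pair structure and the contact tree, transversal exits.** -/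
theorem levD_pt (hΦ : AdmissiblePotential Φ) (hε : 0 < ε) (hte : te < T)
    (h : LevD Φ T ε c ℓ ς te K P S q) :
    ∃ (R : ℝ → S.κ → S.κ → Prop) (cl : S.κ → Finset S.κ) (bD : S.κ → ℝ) (x y : S.κ),
      PTree (sysP Φ T ε P S q) c (osZ Φ P S ε q) (mapR (iS P S.κ) R)
        (Finset.univ.map (iS P S.κ)) (mapCl (iS P S.κ) cl) (bE P q.1 bD) (Sum.inr x) (Sum.inr y)
        (dL (S.th ε q.2)).1 (eL (S.th ε q.2)) te P q.1 (iT P S.κ) ∧
      PT (sysP Φ T ε P S q) (osZ Φ P S ε q) (mapR (iS P S.κ) R) (mapCl (iS P S.κ) cl)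
        (bE P q.1 bD) (Sum.inr y) := by
  obtain ⟨R, cl, bD, x, y, hPT, -, hex, hcr⟩ := h.ptree hΦ hε hte
  refine ⟨R, cl, bD, x, y, hPT, ⟨?_, ?_⟩⟩
  · exact ExitT.map (M := sysP Φ T ε P S q) (M' := sysS Φ T ε S q.2) (Z := osZ Φ P S ε q)
      (e := iS P S.κ) (bD := bE P q.1 bD) (PTreeOf331.pull_inr _) hΦ hε hex fun _ _ => rfl
  · exact CrossT.map (e := iS P S.κ) (bD := bE P q.1 bD) hcr fun _ _ _ _ => ⟨rfl, rfl⟩

/-- The births of the structure. -/
theorem levD_bb (h : LevD Φ T ε c ℓ ς te K P S q) :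
    ∀ k ∈ Finset.univ.map (iS P S.κ), (sysP Φ T ε P S q).bb k = 0 := by
  intro k hk
  obtain ⟨i, -, rfl⟩ := Finset.mem_map.1 hk
  show max (S.b ε q.2 i) 0 = 0
  rw [h.b0 i, max_self]

/-- **The exits and the two output lines, base `w + d`.** -/
theorem ok2_of_levD (hΦ : AdmissiblePotential Φ) (hε : 0 < ε) (hC : 1 ≤ c) (hte : te < T)
    (h : LevD Φ T ε c ℓ ς te K P S q) (hℓς : 2 * ℓ ≤ ς) (hlT : te + 2 * ℓ < T)
    (htl : TL (sysP Φ T ε P S q) c ℓ ς Finset.univ (osZ Φ P S ε q))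
    (hw : w ∈ PairExcluded ε n) (hd0 : 0 < (dL (S.th ε q.2)).1.1)
    (hdT : (dL (S.th ε q.2)).1.1 ≤ T) (hG : OkDAll Φ P S ε q w) :
    MW.OkFam Φ ε ((MW.cfg w).ins (dL (S.th ε q.2))) (plus (exF (lineML Φ ε P q.1) (root P))
      (outL6 Φ ε P q.1 (eL (S.th ε q.2)) (some false))
      (outL6 Φ ε P q.1 (eL (S.th ε q.2)) (some true))) := by
  obtain ⟨R, cl, bD, x, y, hPT, hpt⟩ := levD_pt hΦ hε hte h
  have htl' := htl
  rw [← unionC] at htl'
  have h1 := ((hPT.hit hC hΦ hε).enc hΦ hε).pass_of hC hΦ hε htl' hℓς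
    (by
      have := hPT.cT_le
      show cT ε q.1 (eL (S.th ε q.2)) + 2 * ℓ < T
      exact (add_le_add_left this _).trans_lt hlT)
  have hpos : 0 < cT ε q.1 (eL (S.th ε q.2)) := hPT.cT_pos
  have hout : 0 < outT Φ ε (cD ε q.1 (eL (S.th ε q.2))) := h.pass.outT_pos hε
  refine LKok416.okFam_insD hΦ hε ?_
  refine Ok2P410.ok₂_world (d := dL (S.th ε q.2)) (bω := fun _ : Fin n => 0) (V := w) hPT hpt hC hΦ
    hε (levD_bb h) hd0 hdT htl' hℓς h.pass ?_ (fun A _ => hG A) rfl rfl (sepB_cfg hw) ?_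
  · have h2 := hPT.cT_le
    have h3 := h1.2
    show cT ε q.1 (eL (S.th ε q.2)) + outT Φ ε (cD ε q.1 (eL (S.th ε q.2))) ≤ T
    have h2' : cT ε q.1 (eL (S.th ε q.2)) ≤ te := h2
    have h3' : outT Φ ε (cD ε q.1 (eL (S.th ε q.2))) ≤ 2 * ℓ := h3
    linarith
  · intro i j hij
    exfalso
    have h0 : (0 : ℝ) = (withD (plus (exF (lineML Φ ε P q.1) (root P))
      (outL6 Φ ε P q.1 (eL (S.th ε q.2)) (some false))
      (outL6 Φ ε P q.1 (eL (S.th ε q.2)) (some true))) (dL (S.th ε q.2)) j).1.1 := hij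
    have h4 : 0 < cT ε q.1 (eL (S.th ε q.2)) + outT Φ ε (cD ε q.1 (eL (S.th ε q.2))) := by
      linarith
    rcases j with (j | (_ | _)) | j
    · have h5 : 0 < (lineML Φ ε P q.1 j.1).1.1 := rel_pos hε.le h.valid.2 j.1 j.2
      exact absurd h0 h5.ne
    · exact absurd h0 h4.ne
    · exact absurd h0 h4.ne
    · exact absurd h0 hd0.ne

/-! ### Null events -/

/-- The first line is born in `(0, T₁]`, almost surely. -/
theorem gNull_dT (hS : ShpOk γ β ρ S) (hf : Measurable f₀) {te' T₁ : ℝ} (hd : DAc S te')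
    (h1 : te' ≤ T₁) : GNull f₀ (osP Φ f₀ te T' K P S)
      (fun ε _ _ q _ => ¬ (dL (S.th ε q.2)).1.1 ≤ T₁) := by
  refine PassAE416.gNull_of_aeQ hS hf fun ε hε => ?_
  have hsf := hS.sf ε
  have h2 : ∀ᵐ l ∂(lineV te'), l.1.1 ≤ te' := by
    have h3 : ∀ᵐ τ ∂((volume : Measure ℝ).restrict (Ioc (0 : ℝ) te')), τ ≤ te' :=
      (ae_restrict_mem measurableSet_Ioc).mono fun τ hτ => hτ.2
    have h4 := (Measure.quasiMeasurePreserving_fst
      (μ := (volume : Measure ℝ).restrict (Ioc (0 : ℝ) te'))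
      (ν := (volume : Measure PhasePoint))).ae h3
    exact (Measure.quasiMeasurePreserving_fst
      (μ := ((volume : Measure ℝ).restrict (Ioc (0 : ℝ) te')).prod (volume : Measure PhasePoint))
      (ν := (Measure.count : Measure ℕ))).ae h4
  have h5 := (hd ε hε).ae h2
  have h6 := (Measure.quasiMeasurePreserving_snd (μ := (volume : Measure (PhasePoint × Par P)))
    (ν := S.m ε)).ae h5
  have h7 := (osP_ac (Φ := Φ) (f₀ := f₀) (te := te) (T' := T') (K := K) (P := P)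
    (S := S) (ε := ε)).ae_le h6
  filter_upwards [h7] with q hq
  exact not_not.2 (hq.trans h1)

/-! ### The gateway, small system -/

section gate

variable (hΦ : AdmissiblePotential Φ) (hf : Measurable f₀)
  (h1 : ∫⁻ z, ENNReal.ofReal (f₀ z) ≤ 1) (he : Env f₀ γ ρ C) (hγ : 0 < γ) (hS : ShpOk γ β ρ S)
include hΦ hf h1 he hγ hS

/-- **The gateway for good worlds**, small system. -/
theorem gNull_okD0 (hCN : VLMeas973.ClassNull Φ T) (te T' : ℝ) (K : ℕ) (P : CTree) (c : ℝ)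
    {E : ℝ → Unit → (n : ℕ) → ((PhasePoint × Par P) × S.Θ) → Config n → Prop}
    {B : ℝ → ℝ → ℝ → Unit → (n : ℕ) → ((PhasePoint × Par P) × S.Θ) → Config n → Prop}
    {Ht : ℝ → Unit → (n : ℕ) → ((PhasePoint × Par P) × S.Θ) → Config n → Prop}
    (hB : BadF f₀ (osP Φ f₀ te T' K P S) B) (hH : GNull f₀ (osP Φ f₀ te T' K P S) Ht)
    (hdet : ∀ R > 0, ∀ ς > 0, ∃ ε₁ : ℝ, 0 < ε₁ ∧ ∀ ε : ℝ, 0 < ε → ε < ε₁ → ∀ i n q (w : Config n),
      w ∈ PairExcluded ε n → E ε i n q w → OkDAll Φ P S ε q w → B R ς ε i n q w ∨ Ht ε i n q w ∨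
      (sysP Φ T ε P S q).Conn c Finset.univ (osZ Φ P S ε q) ∧
        ¬ TL (sysP Φ T ε P S q) c (R * ε) ς Finset.univ (osZ Φ P S ε q)) :
    GNull f₀ (osP Φ f₀ te T' K P S) E := by
  refine gNull_of_fam hf (m := osP Φ f₀ te T' K P S) (Rn := fun _ _ _ _ _ _ => False)
    (Ht := fun _ ε i n q w => ¬ OkDAll Φ P S ε q w ∨ Ht ε i n q w)
    (fun L => ⟨_, (badF_osP hΦ hf h1 he hγ hS hCN te T' K P c 0).or hf hB, ?_⟩)
    (fun δ hδ => ⟨0, fun L _ => ?_⟩) fun L => ?_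
  · intro R hR ς hς
    obtain ⟨ε₁, hε₁, hd⟩ := hdet R hR ς hς
    refine ⟨ε₁, hε₁, fun ε hε hlt i n q w hw hE => Or.inr ?_⟩
    by_cases hk : OkDAll Φ P S ε q w
    swap
    · exact Or.inr (Or.inl hk)
    rcases hd ε hε hlt i n q w hw hE hk with h | h | ⟨hcn, hT⟩
    · exact Or.inl (Or.inr h)
    · exact Or.inr (Or.inr h)
    · refine Or.inl (Or.inl ?_)
      by_contra hcon
      exact hT (LvTL317.tl_of_not_badGas hΦ hε le_rfl hcn
        ⟨Sum.inl (root P), Finset.inl_mem_disjSum.2 (Finset.mem_univ _)⟩ hcon)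
  · exact (GLe.zero f₀ _).mono bot_le ⟨1, one_pos, fun _ _ _ _ _ _ _ _ h => h⟩
  · exact (gNull_okD hΦ hf he hS te T' K P).or hf hH

end gate

/-! ### The field `ok` -/

/-- **The second family of `E6Hyp` can be inserted**, off a null event. -/
theorem gNull_ok2 {Q : EPar} (hΦ : AdmissiblePotential Φ) (hf : Measurable f₀)
    (h1 : ∫⁻ z, ENNReal.ofReal (f₀ z) ≤ 1) (he : Env f₀ γ ρ C) (hγ : 0 < γ) (hS : ShpOk γ β ρ S)
    (hCN : VLMeas973.ClassNull Φ T') (hte : Q.te < T')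
    (hdT : GNull f₀ (osP Φ f₀ Q.te T' K P S) (fun ε _ _ q _ => ¬ (dL (S.th ε q.2)).1.1 ≤ T'))
    {c : ℝ} (hC : 1 ≤ c) (hPA : PairAlt Φ f₀ Q T' K P S c) :
    GNull f₀ (osP Φ f₀ Q.te T' K P S) (fun ε _ _ q w =>
      Gd6 Φ ε K Q T' P q.1 w (S.th ε q.2) ∧
      ¬ MW.OkFam Φ ε ((MW.cfg w).ins (dL (S.th ε q.2))) (plus (exF (lineML Φ ε P q.1) (root P))
        (outL6 Φ ε P q.1 (eL (S.th ε q.2)) (some false))
        (outL6 Φ ε P q.1 (eL (S.th ε q.2)) (some true)))) := by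
  obtain ⟨B, Ht, hB, hH, hdet⟩ := hPA
  refine gNull_okD0 hΦ hf h1 he hγ hS hCN Q.te T' K P c hB (hH.or hf hdT) ?_
  intro R hR ς hς
  obtain ⟨ε₁, hε₁, hdet⟩ := hdet R hR ς hς
  have hpos : 0 < min ς (T' - Q.te) / (4 * R) := by
    have : 0 < min ς (T' - Q.te) := lt_min hς (by linarith)
    positivity
  refine ⟨min ε₁ (min ς (T' - Q.te) / (4 * R)), lt_min hε₁ hpos,
    fun ε hε hlt i n q w hw hE hk => ?_⟩
  obtain ⟨hgd, hn⟩ := hE
  have hlt1 : ε < ε₁ := hlt.trans_le (min_le_left _ _)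
  have hlt2 : 4 * (R * ε) < min ς (T' - Q.te) := by
    have h2 := hlt.trans_le (min_le_right _ _)
    rw [lt_div_iff₀ (by positivity)] at h2
    linarith
  have hRε : 0 < R * ε := mul_pos hR hε
  have hς' : 2 * (R * ε) ≤ ς := by
    have := hlt2.trans_le (min_le_left _ _)
    linarith
  have hT' : Q.te + 2 * (R * ε) < T' := by
    have := hlt2.trans_le (min_le_right _ _)
    linarith
  rcases hdet ε hε hlt1 i n q w hw ⟨hgd.real.ct, hgd.real.okL⟩ hgd with h | h | h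
  · by_cases hdT : (dL (S.th ε q.2)).1.1 ≤ T'
    swap
    · exact Or.inr (Or.inl (Or.inr hdT))
    refine Or.inr (Or.inr ⟨?_, fun htl => hn ?_⟩)
    · obtain ⟨R', cl, bD, x, y, hPT, -⟩ := levD_pt hΦ hε hte h
      have h2 := (hPT.str0 hC hΦ hε).conn
      rwa [unionC] at h2
    · exact ok2_of_levD hΦ hε hC hte h hς' hT' htl hw hgd.real.okL.d0 hdT hk
  · exact Or.inl h
  · exact Or.inr (Or.inl (Or.inl h))

section opx

variable {Q : EPar} {bg γ β : ℝ} {gl : ℝ → ℝ} {rm : ℝ≥0∞} {tx : ℝ}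
  (h : OPX Φ f₀ bg γ β T' tx ρ S gl rm)
include h

/-- **The worlds of `Ok6` are good**, off a null event. `hdT` : the first line is born before the
horizon; `hok₁` : the first family. -/
theorem gNull_ok6 (hte : Q.te < T')
    (hdT : GNull f₀ (osP Φ f₀ Q.te T' K P S) (fun ε _ _ q _ => ¬ (dL (S.th ε q.2)).1.1 ≤ T'))
    (hok₁ : GNull f₀ (osP Φ f₀ Q.te T' K P S) (fun ε _ _ q w =>
      Gd6 Φ ε K Q T' P q.1 w (S.th ε q.2) ∧
      ¬ MW.OkFam Φ ε (MW.cfg w) (withD (lineML Φ ε P q.1) (dL (S.th ε q.2)))))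
    {c : ℝ} (hC : 1 ≤ c) (hPA : PairAlt Φ f₀ Q T' K P S c) :
    GNull f₀ (osP Φ f₀ Q.te T' K P S) (fun ε _ _ q w =>
      Gd6 Φ ε K Q T' P q.1 w (S.th ε q.2) ∧ ¬ Ok6 Φ ε P q.1 w (S.th ε q.2)) := by
  obtain ⟨C, he⟩ := h.env
  refine ((gNull_ok2 h.adm h.meas h.mass he h.γ_pos h.shp h.classNull hte hdT hC hPA).or h.meas
    hok₁).mono' fun ε _ n q w hE => ?_
  obtain ⟨hg, hk⟩ := hE
  by_cases h2 : MW.OkFam Φ ε (MW.cfg w) (withD (lineML Φ ε P q.1) (dL (S.th ε q.2)))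
  · exact Or.inl ⟨hg, fun h3 => hk ⟨h2, h3⟩⟩
  · exact Or.inr ⟨hg, h2⟩

/-- The same from the absolute continuity of the first line (helper942, helper416). -/
theorem gNull_ok6_of_dac (hte : Q.te < T') {te' : ℝ} (hd : DAc S te') (hte' : te' ≤ T')
    {c : ℝ} (hC : 1 ≤ c) (hPA : PairAlt Φ f₀ Q T' K P S c) :
    GNull f₀ (osP Φ f₀ Q.te T' K P S) (fun ε _ _ q w =>
      Gd6 Φ ε K Q T' P q.1 w (S.th ε q.2) ∧ ¬ Ok6 Φ ε P q.1 w (S.th ε q.2)) :=
  gNull_ok6 h hte (gNull_dT h.shp h.meas hd hte')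
    ((gNull_ok1 (Φ := Φ) (te := Q.te) (K := K) (K₁ := K) (te₁ := Q.te) (P := P) h.adm h.meas
      h.shp.sf hd h.T_pos.le).mono' fun _ _ _ _ _ hE => ⟨hE.1.real, hE.2⟩) hC hPA

/-- **The field `ok` of `Slots6G`**. -/
theorem slotOkG (hte : Q.te < T')
    (hdT : GNull f₀ (osP Φ f₀ Q.te T' K P S) (fun ε _ _ q _ => ¬ (dL (S.th ε q.2)).1.1 ≤ T'))
    (hok₁ : GNull f₀ (osP Φ f₀ Q.te T' K P S) (fun ε _ _ q w =>
      Gd6 Φ ε K Q T' P q.1 w (S.th ε q.2) ∧
      ¬ MW.OkFam Φ ε (MW.cfg w) (withD (lineML Φ ε P q.1) (dL (S.th ε q.2)))))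
    {c : ℝ} (hC : 1 ≤ c) (hPA : PairAlt Φ f₀ Q T' K P S c) :
    ∀ R : ℝ, 0 ≤ R → GNull f₀ (osP Φ f₀ Q.te T' K P S) (fun ε _ _ q w =>
      Gx6 Φ ε R K Q T' P q.1 w (S.th ε q.2) ∧ ¬ Ok6 Φ ε P q.1 w (S.th ε q.2)) :=
  fun _ _ => (gNull_ok6 h hte hdT hok₁ hC hPA).mono' fun _ _ _ _ _ hE => ⟨hE.1.gd, hE.2⟩

/-- **The field `ok` of `Slots6G`**, from the absolute continuity of the first line. -/
theorem slotOkG_of_dac (hte : Q.te < T') {te' : ℝ} (hd : DAc S te') (hte' : te' ≤ T')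
    {c : ℝ} (hC : 1 ≤ c) (hPA : PairAlt Φ f₀ Q T' K P S c) :
    ∀ R : ℝ, 0 ≤ R → GNull f₀ (osP Φ f₀ Q.te T' K P S) (fun ε _ _ q w =>
      Gx6 Φ ε R K Q T' P q.1 w (S.th ε q.2) ∧ ¬ Ok6 Φ ε P q.1 w (S.th ε q.2)) :=
  fun _ _ => (gNull_ok6_of_dac h hte hd hte' hC hPA).mono' fun _ _ _ _ _ hE => ⟨hE.1.gd, hE.2⟩

end opx

end Crest.Agent.R122.SlotOk424

end
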