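import Crest.Agent.R122.I3Top_478
import Crest.Agent.R122.I3Slots_837
import Crest.Agent.R122.LinkNWin_581
import Crest.Agent.R122.SlotOkG_424
import Crest.Agent.R122.LNNl_383
import Crest.Agent.R122.LNNear9_383
import Crest.Agent.R122.LkSlot_974
import Crest.Agent.R122.DLaw_416
import Crest.Agent.R122.PairWin_796

/-!
# Inequality 3 of section E: the gateway facts of all windows (row 122, helper478)

* `slots6_win` : the null facts of LINK6 in one window.
* `leavesIn` : helper837's `I3LeavesIn`; `i3In` : **INEQUALITY 3**.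
-/

set_option autoImplicit false

open MeasureTheory ProbabilityTheory Set Filter
open scoped ENNReal Classical Topology
open Crest.AnalysisR.Kinetic
open Crest.Agent.R122.Kin796 Crest.Agent.R122.Kin796.CTree Crest.Agent.R122.Tree674
open Crest.Agent.R122.GC311 Crest.Agent.R122.EDefs602
open Crest.Agent.R122.PairD292 Crest.Agent.R122.Top602
open Crest.Agent.R122.Master566 (KData)
open Crest.Agent.R122.Mark307 (BPar)
open Crest.Agent.R122.CaseC658 (qK)
open Crest.Agent.R122.I3In566 (Adm3)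
open Crest.Agent.R122.NuC85 (nW)
open Crest.Agent.R122.NuL735 (Ix famB)
open Crest.Agent.R122.PairRep581
open Crest.Agent.R122.I3Slots837

noncomputable section

namespace Crest.Agent.R122.I3Fin478

variable {Φ : Space3 → ℝ} {β T : ℝ} {f₀ : PhasePoint → ℝ} {f : ℝ → PhasePoint → ℝ}

/-- **The null facts of LINK6** in one window. -/
theorem slots6_win (hD : KData Φ β T f₀ f) {h₀ : ℝ} {γ : ℝ → ℝ} {ρ : ℝ≥0∞}
    {kap lam C g : ℝ} {B : BPar} (hA : Adm3 Φ β T f γ ρ h₀ kap lam C g B) (hγm : Measurable γ)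
    (hρ : ρ ≠ ∞) (Cf : ℝ) (m : ℕ) (L : ℝ) {tw te : ℝ} (htw : 0 ≤ tw) (hlt : tw < te)
    (hte : te ≤ T) (hT' : te < tw + h₀) (j K : ℕ) (P : CTree)
    (s : Ix (nW β Cf g ρ h₀ m tw te).m₀) :
    Link6796.Slots6G Φ f₀ (epar γ ρ L tw te) (tw + h₀) K P
      (OpxWin796.itW Φ B C lam te (nW β Cf g ρ h₀ m tw te) j K s) := by
  obtain ⟨ρd, hO⟩ := OpxWin796.opx_win hD hA hγm hρ Cf m
  have h := hO htw hlt hte hT'.le j K s
  have hPA : ∀ c : ℝ, 1 ≤ c → Link6796.PairAlt Φ f₀ (epar γ ρ L tw te) (tw + h₀) K P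
      (OpxWin796.itW Φ B C lam te (nW β Cf g ρ h₀ m tw te) j K s) c := fun c hc =>
    OpxWin796.pairAlt_win hD hA hρ Cf m L htw hT' j K s hc K P
  have hte0 : (0 : ℝ) ≤ (epar γ ρ L tw te).te := htw.trans hlt.le
  have hQT : (epar γ ρ L tw te).te < tw + h₀ := hT'
  have hb0 : 0 < B.b₀ := hA.b0
  have hb2 : B.b₀ ≤ 2 * β := by
    have h1 := hA.ok.b0s
    have h2 := hA.bs
    have h3 := hD.beta_pos
    linarith
  have hbg := hA.bg
  have hS : ∀ s : Ix (nW β Cf g ρ h₀ m tw te).m₀,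
      ShpOk B.b₀ (B.b₀ / 2) (fun _ => 0) (famB Φ K (nW β Cf g ρ h₀ m tw te) s) :=
    fun s => NuL735.shpOk_base hD.adm K (nW β Cf g ρ h₀ m tw te) (γ := B.b₀) (β := B.b₀ / 2)
      hb2 hbg (by show B.b₀ / 2 < 2 * β; linarith) (by show B.b₀ / 2 < g; linarith) hρ
      measurable_const s
  have hd : OkInd942.DAc (OpxWin796.itW Φ B C lam te (nW β Cf g ρ h₀ m tw te) j K s)
      (tw + h₀) := fun ε hε =>
    DLaw416.dac_itS_base hD.adm K (nW β Cf g ρ h₀ m tw te) hS hε s j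
  exact {
    ok := SlotOk424.slotOkG_of_dac h hQT hd le_rfl le_rfl (hPA 1 le_rfl)
    nl0 := LNEv383.slot_nl0 h hQT (hPA 1 le_rfl)
    nl1 := LNEv383.slot_nl1 h hQT (hPA 1 le_rfl)
    nl2 := LNEv383.slot_nl2 h hQT (hPA 1 le_rfl)
    near := LNEv383.slot_near h hte0 hQT hPA
    lk := fun R _ => LkSlot974.slot_lk h hQT (hPA 1 le_rfl) hd R }

/-- **The gateway facts of all windows.** -/
theorem leavesIn (hD : KData Φ β T f₀ f) : I3LeavesIn Φ β f₀ f T := by
  refine ⟨1, one_pos, 1, one_pos, 1 / 2, ENNReal.half_lt_self one_ne_zero ENNReal.one_ne_top,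
    fun h₀ h0 _ γ ρ hl kap lam C g B hA Cf m => ⟨1, one_pos, 1,
      fun h L tw te _ _ _ _ hW _ hlt hT' => ?_⟩⟩
  have hρ : ρ ≠ ∞ := (hl.hi.trans_le le_top).ne
  exact ⟨fun j K s => LinkNWin581.linkNB_win hD hA hρ Cf m L hW.nonneg hlt hT' j K s,
    fun j K P s _ => slots6_win hD hA hl.measurable hρ Cf m L hW.nonneg hlt hW.le_T hT' j K P s⟩

/-- **The base laws of all windows.** -/
theorem base3In (hD : KData Φ β T f₀ f) : Base3In Φ β f₀ f T :=
  base3In_of_leaves hD (leavesIn hD)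

/-- **INEQUALITY 3.** -/
theorem i3In (hD : KData Φ β T f₀ f) : I3In Φ f₀ f T := i3In_of_base3 hD (base3In hD)

end Crest.Agent.R122.I3Fin478

end
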