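import Crest.Agent.R122.PairWin_796
import Crest.Agent.R122.SlotOkG_424
import Crest.Agent.R122.LkSlot_974
import Crest.Agent.R122.LNNl_383
import Crest.Agent.R122.DLaw_416
import Crest.Agent.R122.LinkNWin_581
import Crest.Agent.R122.I3Slots_837

/-!
# Row 122, inequality 3 (helper796): the leaves of helper837

* `dAc_win` : the law of the first line of the structures of all windows.
* `slots6_win` : `Slots6G` for the structures of all windows.
* `i3LeavesIn` : the leaves of inequality 3, `base3In`.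
-/

set_option autoImplicit false
set_option linter.unusedSectionVars false
set_option maxHeartbeats 400000

open MeasureTheory ProbabilityTheory Set Filter
open scoped ENNReal Classical Topology
open Crest.AnalysisR.Kinetic
open Crest.Agent.R122.GC311 Crest.Agent.R122.EDefs602 Crest.Agent.R122.LN2
open Crest.Agent.R122.Kin796 Crest.Agent.R122.Kin796.CTree
open Crest.Agent.R122.Boost969 (LSt)
open Crest.Agent.R122.PairD292 Crest.Agent.R122.Top602
open Crest.Agent.R122.Mark307 (BPar)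
open Crest.Agent.R122.Master566 (KData)
open Crest.Agent.R122.I3In566 (Adm3)
open Crest.Agent.R122.Gate424 Crest.Agent.R122.Gate973
open Crest.Agent.R122.NuL735 (NPar nuL Ix famB)
open Crest.Agent.R122.CaseC658 (qK)
open Crest.Agent.R122.PairRep581 (Shp ShpOk Rep osP)
open Crest.Agent.R122.StrN998 (itS)
open Crest.Agent.R122.NuC85 (nW)
open Crest.Agent.R122.Link6796
open Crest.Agent.R122.OPX973 (OPX)
open Crest.Agent.R122.OpxWin796
open Crest.Agent.R122.I3Slots837

noncomputable section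

namespace Crest.Agent.R122.I3Done796

/-- **`Slots6G`** from the gates, the realisation and the law of the first line. -/
theorem slots6G_of {Φ : Space3 → ℝ} {f₀ : PhasePoint → ℝ} {bg γ β T' te' : ℝ}
    {ρ : Space3 → ℝ≥0∞} {P : CTree} {S : Shp} {K : ℕ} {Q : EPar}
    (h : OPX Φ f₀ bg γ β T' Q.te ρ S Q.γ Q.ρ) (h0 : 0 ≤ Q.te) (hlt : Q.te < T')
    (hPA : ∀ c : ℝ, 1 ≤ c → PairAlt Φ f₀ Q T' K P S c) (hd : OkInd942.DAc S te')
    (hte' : te' ≤ T') : Slots6G Φ f₀ Q T' K P S where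
  ok := SlotOk424.slotOkG_of_dac h hlt hd hte' le_rfl (hPA 1 le_rfl)
  nl0 := LNEv383.slot_nl0 h hlt (hPA 1 le_rfl)
  nl1 := LNEv383.slot_nl1 h hlt (hPA 1 le_rfl)
  nl2 := LNEv383.slot_nl2 h hlt (hPA 1 le_rfl)
  near := LNEv383.slot_near h h0 hlt hPA
  lk R _ := LkSlot974.slot_lk h hlt (hPA 1 le_rfl) hd R

variable {Φ : Space3 → ℝ} {β T : ℝ} {f₀ : PhasePoint → ℝ} {f : ℝ → PhasePoint → ℝ}
  {γ : ℝ → ℝ} {ρ : ℝ≥0∞} {h₀ kap lam C g : ℝ} {B : BPar}

/-- **The law of the first line** for the structures of all windows. -/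
theorem dAc_win (hD : KData Φ β T f₀ f) (hA : Adm3 Φ β T f γ ρ h₀ kap lam C g B)
    (hρ : ρ ≠ ∞) (Cf : ℝ) (m : ℕ) (tw te : ℝ) (j K : ℕ)
    (s : Ix (nW β Cf g ρ h₀ m tw te).m₀) :
    OkInd942.DAc (itW Φ B C lam te (nW β Cf g ρ h₀ m tw te) j K s) (tw + h₀) := by
  intro ε hε
  exact DLaw416.dac_itS_base (γ := B.b₀) (β := B.b₀ / 4) (ρ := fun _ => 0) hD.adm K
    (nW β Cf g ρ h₀ m tw te)
    (fun s => (rep_shpOk_win hD.adm hA hρ measurable_const hD.beta_pos Cf m tw te 0 K).2 s)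
    hε s j

/-- **`Slots6G` for the structures of all windows.** -/
theorem slots6_win (hD : KData Φ β T f₀ f) (hA : Adm3 Φ β T f γ ρ h₀ kap lam C g B)
    (hγm : Measurable γ) (hρ : ρ ≠ ∞) (Cf : ℝ) (m : ℕ) (L : ℝ) {tw te : ℝ} (htw : 0 ≤ tw)
    (hlt : tw < te) (hteT : te ≤ T) (hth : te < tw + h₀) (j K : ℕ) (P : CTree)
    (s : Ix (nW β Cf g ρ h₀ m tw te).m₀) :
    Slots6G Φ f₀ (epar γ ρ L tw te) (tw + h₀) K P
      (itW Φ B C lam te (nW β Cf g ρ h₀ m tw te) j K s) := by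
  obtain ⟨ρd, hO⟩ := opx_win hD hA hγm hρ Cf m
  exact slots6G_of (Q := epar γ ρ L tw te) (hO htw hlt hteT hth.le j K s) (htw.trans hlt.le) hth
    (fun c hc => pairAlt_win hD hA hρ Cf m L htw hth j K s hc K P)
    (dAc_win hD hA hρ Cf m tw te j K s) le_rfl

/-- **The leaves of inequality 3.** -/
theorem i3LeavesIn (hD : KData Φ β T f₀ f) : I3LeavesIn Φ β f₀ f T := by
  refine ⟨1, one_pos, 1, one_pos, 0, one_pos, fun h₀ _ _ γ ρ hl kap lam C g B hA Cf m =>
    ⟨1, one_pos, 0, fun _ L tw te _ _ _ _ hw _ hlt hth => ?_⟩⟩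
  have hρ : ρ ≠ ∞ := (hl.hi.trans_le le_top).ne
  exact ⟨fun j K s => LinkNWin581.linkNB_win hD hA hρ Cf m L hw.nonneg hlt hth j K s,
    fun j K P s _ => slots6_win hD hA hl.measurable hρ Cf m L hw.nonneg hlt hw.le_T hth j K P s⟩

/-- **The base facts of inequality 3.** -/
theorem base3In (hD : KData Φ β T f₀ f) : I3Fin478.Base3In Φ β f₀ f T :=
  base3In_of_leaves hD (i3LeavesIn hD)

end Crest.Agent.R122.I3Done796

end
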