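import Crest.Agent.R122.LinkFin2_984
import Crest.Agent.R122.XbadD_692

/-!
# `StmtLink4` (row 122, board H1) is closed

* `xdDet` : helper692's deterministic theorem; `slots4`, `link4In` : **from `KData` alone**.
-/

set_option autoImplicit false

open Crest.AnalysisR.Kinetic
open Crest.Agent.R122.Master566 Crest.Agent.R122.Top602 Crest.Agent.R122.Ineq1815
open Crest.Agent.R122.GC311

noncomputable section

open scoped Classical

namespace Crest.Agent.R122.LinkAsm984

variable {Φ : Space3 → ℝ} {f₀ : PhasePoint → ℝ} {f : ℝ → PhasePoint → ℝ} {β T : ℝ}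

/-- The deterministic theorem for `XbadD` (helper692). -/
theorem xdDet (hΦ : AdmissiblePotential Φ) : XdDet Φ := by
  intro T hT K L
  obtain ⟨N, h⟩ := X692.xd_det hΦ hT K L
  refine ⟨N, fun R ς ε te hR hε hς hte P z n w x hP hV hS hw _ hx hok hb => ?_⟩
  rcases h R ς ε te hR hε hς hte P z n w x hP hV hS hw hx hok hb with (h1 | h1) | h1 | h1
  · exact Or.inl h1
  · exact Or.inr (Or.inl h1)
  · exact Or.inr (Or.inr (Or.inl h1))
  · exact Or.inr (Or.inr (Or.inr h1))

/-- **The three null statements on the contact structures.** -/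
theorem slots4 (hD : KData Φ β T f₀ f) : Slots4 Φ f₀ := slots4_of_xd hD (xdDet hD.adm)

/-- **`StmtLink4` in the windows**, from `KData` alone. -/
theorem link4In (hD : KData Φ β T f₀ f) : Link4In Φ f₀ f T := link4In_of hD (slots4 hD)

end Crest.Agent.R122.LinkAsm984

end
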