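import Crest.Agent.R122.PairStep_292
import Crest.Agent.R122.PairStepK_85
import Crest.Agent.R122.H5Top_814
import Crest.Agent.R122.Direct6c_658
import Crest.Agent.R122.CaseC6_658
import Crest.Agent.R122.SizeCross6_815
import Crest.Agent.R122.RedFlux6_663
import Crest.Agent.R122.LNSkel_291

/-!
# Inequality 3 of section E: the one-step inequality in the windows (row 122, helper478)

* `NullABIn` : the null facts of the spread terms in the windows.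
* `step6_win` : 292's `Step6` in one window.
* `step6In` : the one-step inequality for all small `h₀`, all line parameters and short windows.
-/

set_option autoImplicit false
set_option linter.unusedSectionVars false

open MeasureTheory ProbabilityTheory Set Filter
open scoped ENNReal Classical Topology
open Crest.AnalysisR.Kinetic
open Crest.Agent.R122.Kin796 Crest.Agent.R122.Kin796.CTree Crest.Agent.R122.Tree674
open Crest.Agent.R122.GC311 Crest.Agent.R122.EDefs602 Crest.Agent.R122.Master566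
open Crest.Agent.R122.Boost969 (LSt)
open Crest.Agent.R122.Pair292 (Lab PPar PX sig)
open Crest.Agent.R122.OneC285 (rfl4 StmtRed)
open Crest.Agent.R122.PairD292 Crest.Agent.R122.Top602

noncomputable section

namespace Crest.Agent.R122.I3Step478

variable {Φ : Space3 → ℝ} {β T : ℝ} {f₀ : PhasePoint → ℝ} {f : ℝ → PhasePoint → ℝ}

/-- The null facts of the spread terms (`errA`, `errB`) in the windows. -/
def NullABIn (Φ : Space3 → ℝ) (f₀ : PhasePoint → ℝ) (f : ℝ → PhasePoint → ℝ) (T : ℝ) : Prop :=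
  InHL T fun h₀ γ ρ => EvW T fun _ L tw te => IH Φ f₀ f T γ ρ tw →
    H5Top814.NullAB Φ f₀ (epar γ ρ L tw te) (tw + h₀)

theorem evW_le {T a : ℝ} (ha : 0 < a) : EvW T fun h _ _ _ => h ≤ a :=
  ⟨a, ha, 1, fun _ _ _ _ _ h _ _ _ => h⟩

theorem evW_vanish {T : ℝ} {o : ℝ → ℝ → ℝ≥0∞} (ho : Vanish o) :
    EvW T fun h L _ _ => o h L ≠ ∞ := by
  obtain ⟨a, ha, l, hl⟩ := ho 1 one_pos
  exact ⟨a, ha, l, fun h L _ _ h0 h1 h2 _ _ =>
    ne_top_of_le_ne_top ENNReal.one_ne_top (hl h L h0 h1 h2)⟩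

theorem Step6.mono {Q : EPar} {T' r b₀ : ℝ} {q : ℕ → ℕ → ℝ≥0∞} {PP : ℕ → PPar}
    {bd : ℕ → ℝ → SF2} {C₁ C₁' C₂ : ℝ≥0∞} (h : Step6 Φ f₀ Q T' r b₀ q PP bd C₁ C₂)
    (hC : C₁ ≤ C₁') : Step6 Φ f₀ Q T' r b₀ q PP bd C₁' C₂ := by
  obtain ⟨S, hS, h⟩ := h
  refine ⟨S, hS, fun K ε hε hε1 hεw Ξ ν c hν hsig hok => ?_⟩
  refine (h K ε hε hε1 hεw Ξ ν c hν hsig hok).trans ?_
  gcongr

/-- The one-step inequality in one window. -/
theorem step6_win (hD : KData Φ β T f₀ f) {hk kap kap' lam C b b' M : ℝ}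
    (hK : Seg814.KinC Φ T f hk kap lam C b) (hM : KinL1.KinM Φ T f hk kap' lam b' M)
    {h₀ : ℝ} (hle : h₀ ≤ hk) {g1 : ℝ} {r1 ρ : ℝ≥0∞} {γ : ℝ → ℝ}
    (hl : LinePar g1 r1 T γ ρ) {h L tw te : ℝ} (hh : 0 < h) (hL : 1 ≤ L) (hw : Win h T tw te)
    (hhh : h ≤ h₀ / 2) (hIH : IH Φ f₀ f T γ ρ tw) (hred : StmtRed Φ f₀ tw te (tw + h₀))
    {r : ℝ} (hr : 0 < r) {Csp : ℝ≥0∞} (hCsp : Csp ≠ ∞) {PP : ℕ → PPar}
    (hPP : PPOk (epar γ ρ L tw te) PP)
    (hsp : StmtSP6 Φ f₀ (epar γ ρ L tw te) (tw + h₀) r PP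
      (H5994.tOc Φ (epar γ ρ L tw te) (tw + h₀)) (H5994.tYc Φ (epar γ ρ L tw te) (tw + h₀)) Csp)
    {bd : ℕ → ℝ → SF2} (hbdm : ∀ K ε, 0 < ε → MeasSF2 (bd K ε))
    (hpt : StmtPt6 Φ (epar γ ρ L tw te) (tw + h₀) r (H5994.tOc Φ (epar γ ρ L tw te) (tw + h₀))
            (H5994.tYc Φ (epar γ ρ L tw te) (tw + h₀)) bd) :
    Step6 Φ f₀ (epar γ ρ L tw te) (tw + h₀) r b (CaseC658.qK C lam) PP bd
      (Csp + (Direct658.v1 * ENNReal.ofReal r + Direct658.oDIR Φ f₀ T r h)) Direct658.v1 := by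
  have hΦ := hD.adm
  have hf : Measurable f₀ := hD.contDiff.continuous.measurable
  obtain ⟨hγ, γ₀, hγp, hγ₀⟩ := Direct658.exists_rate hl
  have hte : te ≤ tw + h₀ := by linarith [hw.short]
  have htw : tw ∈ Icc 0 T := ⟨hw.nonneg, hw.le.trans hw.le_T⟩
  have hL0 : 0 < L := by linarith
  have hte0 : 0 ≤ te := hw.nonneg.trans hw.le
  have hγ0' : ∀ τ ∈ Ioc (0 : ℝ) te, γ₀ ≤ γ τ := fun τ hτ => hγ₀ τ (hτ.2.trans hw.le_T)
  have k1 : StmtDIR Φ f₀ (epar γ ρ L tw te) r PP (Direct658.cDIR Φ f₀ te r (te - tw))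
      Direct658.v1 := Direct658.stmtDIR_of_kdata hD hl hL0 hw hr PP
  have k2 : StmtXC6 Φ f₀ (epar γ ρ L tw te) (tw + h₀) PP :=
    XC815.stmtXC6 hD (Q := epar γ ρ L tw te) htw hIH.giv hM (by linarith [hw.nonneg])
      (by change tw + h₀ ≤ tw + hk; linarith) hγ hγp hγ0' hl.hi PP
  have k3 : StmtRF6 Φ f₀ (epar γ ρ L tw te) PP (RedFlux6.cPair (epar γ ρ L tw te) γ₀) :=
    RedFlux6.rf6 hΦ hf (Q := epar γ ρ L tw te) PP hγ hγ0'
  have k4 : StmtCC6 Φ f₀ (epar γ ρ L tw te) (tw + h₀) b (CaseC658.qK C lam) PP :=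
    CaseC658.stmtCC6_win hD hK hl hL0.le hw (by linarith) hIH.giv (tw + h₀) PP
  have k5 : RedFlux6.cPair (epar γ ρ L tw te) γ₀ ≠ ∞ := RedFlux6.cPair_ne_top hγp hl.hi
  have key := step6_of hΦ hf (Q := epar γ ρ L tw te) (T' := tw + h₀) (r := r) (PP := PP)
    (b₀ := b) (q := CaseC658.qK C lam) (bd := bd) hte0 hL0.le (CaseC658.qK_ne_top C lam) hPP
    hCsp k5 hIH.tn hred hpt hbdm hsp k1 k2 k3 k4
  refine Step6.mono key (add_le_add le_rfl ?_)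
  exact Direct658.cDIR_le (Φ := Φ) (f₀ := f₀) (te := te) (T := T) (r := r) (h := h)
    (h' := te - tw) hw.le_T hr.le (by linarith [hw.short]) hh.le

/-- **The one-step inequality in the windows**, for all kinetic constants. -/
theorem step6In (hD : KData Φ β T f₀ f) (hAB : NullABIn Φ f₀ f T) :
    InHL T fun h₀ γ ρ => ∀ kap lam C b₀ : ℝ, Seg814.KinC Φ T f h₀ kap lam C b₀ →
      ∃ σ : ℝ → ℝ≥0∞, Tendsto σ (𝓝[>] 0) (𝓝 0) ∧ ∀ r : ℝ, 0 < r →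
        ∃ o : ℝ → ℝ → ℝ≥0∞, Vanish o ∧ EvW T fun h L tw te => IH Φ f₀ f T γ ρ tw →
          ∀ PP : ℕ → PPar, PPOk (epar γ ρ L tw te) PP →
          ∀ bd : ℕ → ℝ → SF2, (∀ K ε, 0 < ε → MeasSF2 (bd K ε)) →
          StmtPt6 Φ (epar γ ρ L tw te) (tw + h₀) r (H5994.tOc Φ (epar γ ρ L tw te) (tw + h₀))
            (H5994.tYc Φ (epar γ ρ L tw te) (tw + h₀)) bd →
          Step6 Φ f₀ (epar γ ρ L tw te) (tw + h₀) r b₀ (CaseC658.qK C lam) PP bd
            (σ r + o h L) Direct658.v1 := by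
  refine (((H5Top814.stmtSP6In hD).and hAB).and (LNSkel291.redIn hD)).mono ?_
  rintro h₀ γ ρ h0 ⟨g1, r1, hl⟩ ⟨⟨⟨CY, hCY, hS⟩, hE⟩, hR⟩ kap lam C b₀ hK
  obtain ⟨kap', b', M, hkap', hb', hM⟩ := KinL1.exists_kinM hD.beta_pos hD.T_pos hD.adm hD.sol
    hD.gaussian hK
  refine ⟨fun r => (CY + Direct658.v1) * ENNReal.ofReal r, ?_, fun r hr => ?_⟩
  · have h1 : Tendsto (fun r : ℝ => ENNReal.ofReal r) (𝓝[>] 0) (𝓝 0) := by
      have := (ENNReal.continuous_ofReal.tendsto 0).mono_left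
        (nhdsWithin_le_nhds : (𝓝[>] (0 : ℝ)) ≤ 𝓝 0)
      rwa [ENNReal.ofReal_zero] at this
    have h2 := ENNReal.Tendsto.const_mul h1 (Or.inr
      (ENNReal.add_ne_top.2 ⟨hCY, Direct658.v1_ne_top⟩) : (0 : ℝ≥0∞) ≠ 0 ∨ CY + Direct658.v1 ≠ ∞)
    rwa [mul_zero] at h2
  obtain ⟨o, ho, hSo⟩ := hS r hr
  have hmean := (Crest.Agent.R122.Conc984.mean_en_ne_top
    (by linarith [hD.beta_pos] : 0 < 2 * β) hD.gaussian).1
  refine ⟨fun h L => o h L + Direct658.oDIR Φ f₀ T r h, ho.add (Direct658.vanish_oDIR hmean T r),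
    ?_⟩
  refine ((hSo.and hE).and (hR.and ((evW_le (half_pos h0)).and (evW_vanish ho)))).mono ?_
  rintro h L tw te hh hL hw ⟨⟨hs, he⟩, hr', hhh, hof⟩ hIH PP hPP bd hbdm hpt
  have hte : te ≤ tw + h₀ := by linarith [hw.short]
  have hsp := hs hIH (tw + h₀) hte PP (he hIH)
  refine Step6.mono (step6_win hD hK hM le_rfl hl hh hL hw hhh hIH (hr' hIH) hr
    (ENNReal.add_ne_top.2 ⟨ENNReal.mul_ne_top hCY ENNReal.ofReal_ne_top, hof⟩) hPP hsp
    hbdm hpt) (le_of_eq ?_)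
  ring

end Crest.Agent.R122.I3Step478

end
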