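import Crest.Agent.R122.NullABFin_815
import Crest.Agent.R122.ErrBAlt_522
import Crest.Agent.R122.I3Step_478

/-!
# Row 122 (helper815): the null errors of the spread terms, closed

* `nullAB` : `NullAB` of helper814 in all windows, all tree horizons, from `KData` alone.
* `nullABIn_closed` : helper478's `NullABIn`.
-/

set_option autoImplicit false
set_option linter.unusedSectionVars false

open MeasureTheory Set Filter
open scoped ENNReal Topology
open Crest.AnalysisR.Kinetic
open Crest.Agent.R122.EDefs602 Crest.Agent.R122.GC311 Crest.Agent.R122.Master566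
open Crest.Agent.R122.Top602

noncomputable section

namespace Crest.Agent.R122.ErrAB815

open scoped Classical

variable {Φ : Space3 → ℝ} {f₀ : PhasePoint → ℝ} {f : ℝ → PhasePoint → ℝ} {β T : ℝ}

/-- **The errors of the spread terms are null**, all windows, all tree horizons. -/
theorem nullAB (hD : KData Φ β T f₀ f) :
    InHL T fun _ γ ρ => EvW T fun _ L tw te => IH Φ f₀ f T γ ρ tw → ∀ T' : ℝ,
      H5Top814.NullAB Φ f₀ (epar γ ρ L tw te) T' :=
  nullAB_of hD fun _ _ γ ρ _ L tw te hte K =>
    ⟨T + 1, K, by linarith [hD.T_pos],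
      ErrBAlt522.errBAlt (Q := epar γ ρ L tw te) hD.adm hte (by linarith) K⟩

/-- **`NullABIn` of helper478.** -/
theorem nullABIn_closed (hD : KData Φ β T f₀ f) : I3Step478.NullABIn Φ f₀ f T :=
  (nullAB hD).mono fun _ _ _ _ _ h => h.mono fun _ _ _ _ _ _ _ hq hI => hq hI _

end Crest.Agent.R122.ErrAB815

end
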