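import Crest.Agent.R122.LinkDone_984
import Crest.Agent.R122.LnNClose_291
import Crest.Agent.R122.TopJ_602

/-!
# Row 122: S0162 from INEQUALITY 3

* `open122_of_i3` : all inputs of helper602's `Open122` except INEQUALITY 3.
* `result_of_i3` : the statement of S0162 from INEQUALITY 3.
-/

set_option autoImplicit false

open MeasureTheory Set Filter Topology
open scoped ENNReal
open Crest.AnalysisR.Kinetic
open Crest.Agent.R122.Master566 Crest.Agent.R122.EDefs602 Crest.Agent.R122.GIV566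
open Crest.Agent.R122.Top602

namespace Crest.Agent.R122.TopK984

noncomputable section

/-- The inputs of S0162 from INEQUALITY 3. -/
theorem open122_of_i3 {Φ : Space3 → ℝ} {β T : ℝ} {f₀ : PhasePoint → ℝ}
    {f : ℝ → PhasePoint → ℝ} (hD : KData Φ β T f₀ f) (h : I3In Φ f₀ f T) : Open122 Φ T f₀ f :=
  ⟨LinkAsm984.link4In hD, LnN291.ftg hD, LnN291.flg hD, h⟩

/-- **The statement of S0162 from INEQUALITY 3.** -/
theorem result_of_i3
    (H : ∀ (Φ : Space3 → ℝ) (β T : ℝ) (f₀ : PhasePoint → ℝ) (f : ℝ → PhasePoint → ℝ),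
      KData Φ β T f₀ f → I3In Φ f₀ f T)
    (Φ : Space3 → ℝ) (hΦ : AdmissiblePotential Φ) (β : ℝ) (hβ : 0 < β) (T : ℝ) (hT : 0 < T)
    (f₀ : PhasePoint → ℝ) (hf₀ : ∀ z, 0 ≤ f₀ z) (hf₀d : ContDiff ℝ 1 f₀)
    (hf₀i : Integrable f₀) (hf₀m : ∫ z, f₀ z = 1)
    (hf₀b : HasSummableGaussianBound (2 * β) (fun x v => f₀ (x, v)))
    (hf₀g : HasSummableGaussianBound (2 * β) (fun x v => fderiv ℝ (fun y => f₀ (y, v)) x))
    (f : ℝ → PhasePoint → ℝ) (hf : IsRegularKineticSolution Φ β T f₀ f)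
    (Ψ : ℝ → (n : ℕ) → ℝ → Config n → Config n)
    (hΨ : ∀ ε : ℝ, 0 < ε → IsNewtonianEvolution Φ ε (Ψ ε))
    (s : ℕ) (hs : 1 ≤ s) (δ : ℝ) (hδ : 0 < δ) :
    ∃ ε₀ : ℝ, 0 < ε₀ ∧ ∀ ε : ℝ, 0 < ε → ε < ε₀ → ∀ t ∈ Set.Icc 0 T,
      ∀ A : Set (Config s), MeasurableSet A →
        factorialMarginal f₀ ε (Ψ ε) s t A ≤
            (∫⁻ Z in A, ∏ k, ENNReal.ofReal (f t (Z k))) + ENNReal.ofReal δ ∧
          (∫⁻ Z in A, ∏ k, ENNReal.ofReal (f t (Z k))) ≤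
            factorialMarginal f₀ ε (Ψ ε) s t A + ENNReal.ofReal δ :=
  result_of_open122 (fun Φ β T f₀ f hD => open122_of_i3 hD (H Φ β T f₀ f hD))
    Φ hΦ β hβ T hT f₀ hf₀ hf₀d hf₀i hf₀m hf₀b hf₀g f hf Ψ hΨ s hs δ hδ

end

end Crest.Agent.R122.TopK984
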