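import Crest.Agent.R122.I3Fin_478
import Crest.Agent.R122.LinkDone_984
import Crest.Agent.R122.NullABClose_815
import Crest.Agent.R122.TopK_984

/-!
# Inequality 3 of section E: from the base laws alone (row 122, helper478)

* `i3In_of_base3` : **INEQUALITY 3** from `Base3In`.
* `result_of_base3` : the statement of S0162 from `Base3In`.
-/

set_option autoImplicit false

open MeasureTheory Set Filter Topology
open scoped ENNReal
open Crest.AnalysisR.Kinetic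
open Crest.Agent.R122.Master566 Crest.Agent.R122.EDefs602 Crest.Agent.R122.GIV566
open Crest.Agent.R122.Top602

noncomputable section

namespace Crest.Agent.R122.I3Fin478

/-- **INEQUALITY 3** from the base laws. -/
theorem i3In_of_base3 {Φ : Space3 → ℝ} {β T : ℝ} {f₀ : PhasePoint → ℝ}
    {f : ℝ → PhasePoint → ℝ} (hD : KData Φ β T f₀ f) (hB : Base3In Φ β f₀ f T) :
    I3In Φ f₀ f T :=
  i3In_of_open hD (LinkAsm984.link4In hD) (ErrAB815.nullABIn_closed hD) hB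

/-- **The statement of S0162** from the base laws. -/
theorem result_of_base3
    (H : ∀ (Φ : Space3 → ℝ) (β T : ℝ) (f₀ : PhasePoint → ℝ) (f : ℝ → PhasePoint → ℝ),
      KData Φ β T f₀ f → Base3In Φ β f₀ f T)
    (Φ : Space3 → ℝ) (hΦ : AdmissiblePotential Φ) (β : ℝ) (hβ : 0 < β) (T : ℝ) (hT : 0 < T)
    (f₀ : PhasePoint → ℝ) (hf₀ : ∀ z, 0 ≤ f₀ z) (hf₀d : ContDiff ℝ 1 f₀)
    (hf₀i : Integrable f₀) (hf₀m : ∫ z, f₀ z = 1)
    (hf₀b : HasSummableGaussianBound (2 * β) (fun x v => f₀ (x, v)))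
    (hf₀g : HasSummableGaussianBound (2 * β) (fun x v => fderiv ℝ (fun y => f₀ (y, v)) x))
    (f : ℝ → PhasePoint → ℝ) (hf : IsRegularKineticSolution Φ β T f₀ f)
    (Ψ : ℝ → (n : ℕ) → ℝ → Config n → Config n)
    (hΨ : ∀ ε : ℝ, 0 < ε → IsNewtonianEvolution Φ ε (Ψ ε))
    (s : ℕ) (hs : 1 ≤ s) (δ : ℝ) (hδ : 0 < δ) :
    ∃ ε₀ : ℝ, 0 < ε₀ ∧ ∀ ε : ℝ, 0 < ε → ε < ε₀ → ∀ t ∈ Set.Icc 0 T,
      ∀ A : Set (Config s), MeasurableSet A →
        factorialMarginal f₀ ε (Ψ ε) s t A ≤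
            (∫⁻ Z in A, ∏ k, ENNReal.ofReal (f t (Z k))) + ENNReal.ofReal δ ∧
          (∫⁻ Z in A, ∏ k, ENNReal.ofReal (f t (Z k))) ≤
            factorialMarginal f₀ ε (Ψ ε) s t A + ENNReal.ofReal δ :=
  TopK984.result_of_i3 (fun Φ β T f₀ f hD => i3In_of_base3 hD (H Φ β T f₀ f hD))
    Φ hΦ β hβ T hT f₀ hf₀ hf₀d hf₀i hf₀m hf₀b hf₀g f hf Ψ hΨ s hs δ hδ

end Crest.Agent.R122.I3Fin478

end
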