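import Crest.Agent.R122.I3Slots_837
import Crest.Agent.R122.I3Top_478
import Crest.Agent.R122.LNNl_383
import Crest.Agent.R122.LNNear9_383
import Crest.Agent.R122.LinkNWin_581
import Crest.Agent.R122.DLaw_416
import Crest.Agent.R122.LkSlot_974
import Crest.Agent.R122.SlotOkG_424
import Crest.Agent.R122.PairWin_796

/-!
# Inequality 3: the gateway facts of all windows, closed (row 122, helper815)

* `dAc_win` : the law of the first line of the continued shapes is absolutely continuous.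
* `slots6_win` : helper796's `Slots6G` for the continued base laws of a window.
* `leavesIn` : helper837's `I3LeavesIn`; `base3In` : helper478's `Base3In`, from `KData` alone.
-/

set_option autoImplicit false
set_option linter.unusedSectionVars false

open MeasureTheory ProbabilityTheory Set Filter Topology
open scoped ENNReal Classical
open Crest.AnalysisR.Kinetic
open Crest.Agent.R122.GC311 Crest.Agent.R122.EDefs602
open Crest.Agent.R122.Kin796 Crest.Agent.R122.Kin796.CTree Crest.Agent.R122.Tree674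
open Crest.Agent.R122.Boost969 (LSt)
open Crest.Agent.R122.Pair292 hiding ML
open Crest.Agent.R122.PairD292 Crest.Agent.R122.Top602
open Crest.Agent.R122.Gate424 Crest.Agent.R122.Gate973 Crest.Agent.R122.PairRep581
open Crest.Agent.R122.StrN998 (itS)
open Crest.Agent.R122.NuL735 (NPar nuL Ix famB)
open Crest.Agent.R122.Master566 (KData)
open Crest.Agent.R122.Mark307 (BPar Aux)
open Crest.Agent.R122.CaseC658 (qK)
open Crest.Agent.R122.I3In566 (Adm3 parW)
open Crest.Agent.R122.NuC85 (BaseLaw nW)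
open Crest.Agent.R122.I3Slots837

noncomputable section

namespace Crest.Agent.R122.I3Done815

variable {Φ : Space3 → ℝ} {β T : ℝ} {f₀ : PhasePoint → ℝ} {f : ℝ → PhasePoint → ℝ}
  {γ : ℝ → ℝ} {ρ : ℝ≥0∞} {h₀ kap lam C g : ℝ} {B : BPar}

/-- The law of the first line of the continued shapes. -/
theorem dAc_win (hD : KData Φ β T f₀ f) (hA : Adm3 Φ β T f γ ρ h₀ kap lam C g B)
    (hρ : ρ ≠ ∞) (Cf : ℝ) (m : ℕ) (tw te : ℝ) (j K : ℕ) (s : Ix (nW β Cf g ρ h₀ m tw te).m₀) :
    OkInd942.DAc (OpxWin796.itW Φ B C lam te (nW β Cf g ρ h₀ m tw te) j K s) (tw + h₀) := by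
  intro ε hε
  obtain ⟨ρd, C₀, he⟩ := Crest.Agent.R122.LN2.exists_env (γ' := B.b₀) (γ := 2 * β) (by
    have := hA.bs
    have := hA.bg
    have := hA.b0
    have := hA.ok.b0s
    have := hD.beta_pos
    linarith) hD.gaussian
  exact DLaw416.dac_itS_base hD.adm K (nW β Cf g ρ h₀ m tw te)
    (OpxWin796.rep_shpOk_win hD.adm hA hρ he.meas hD.beta_pos Cf m tw te 0 K).2 hε s j

theorem slots6_win (hD : KData Φ β T f₀ f) (hA : Adm3 Φ β T f γ ρ h₀ kap lam C g B)
    (hγ : Measurable γ) (hρ : ρ ≠ ∞) (Cf : ℝ) (m : ℕ) (L : ℝ) {tw te : ℝ} (htw : 0 ≤ tw)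
    (hlt : tw < te) (hT : te ≤ T) (hth : te < tw + h₀) (j K : ℕ) (P : CTree)
    (s : Ix (nW β Cf g ρ h₀ m tw te).m₀) :
    Link6796.Slots6G Φ f₀ (epar γ ρ L tw te) (tw + h₀) K P
      (itS (famB Φ K (nW β Cf g ρ h₀ m tw te) s) Φ B.b₀ te (qK C lam K) j) := by
  obtain ⟨ρd, hO⟩ := OpxWin796.opx_win hD hA hγ hρ Cf m
  have h := hO htw hlt hT hth.le j K s
  have hP : ∀ c : ℝ, 1 ≤ c → Link6796.PairAlt Φ f₀ (epar γ ρ L tw te) (tw + h₀) K P
      (OpxWin796.itW Φ B C lam te (nW β Cf g ρ h₀ m tw te) j K s) c := fun c hc =>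
    OpxWin796.pairAlt_win hD hA hρ Cf m L htw hth j K s hc K P
  have hd := dAc_win hD hA hρ Cf m tw te j K s
  have h1 := hP 1 le_rfl
  exact {
    ok := SlotOk424.slotOkG_of_dac (Q := epar γ ρ L tw te) h hth hd le_rfl le_rfl h1
    nl0 := LNEv383.slot_nl0 (Q := epar γ ρ L tw te) h hth h1
    nl1 := LNEv383.slot_nl1 (Q := epar γ ρ L tw te) h hth h1
    nl2 := LNEv383.slot_nl2 (Q := epar γ ρ L tw te) h hth h1
    near := LNEv383.slot_near (Q := epar γ ρ L tw te) h (htw.trans hlt.le) hth hP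
    lk := fun R _ => LkSlot974.slot_lk (Q := epar γ ρ L tw te) h hth h1 hd R }

/-- **The gateway facts of all windows.** -/
theorem leavesIn (hD : KData Φ β T f₀ f) : I3LeavesIn Φ β f₀ f T := by
  refine ⟨1, one_pos, 1, one_pos, 0, zero_lt_one, fun h₀ _ _ γ ρ hl kap lam C g B hA Cf m => ?_⟩
  have hρ : ρ ≠ ∞ := (hl.hi.trans ENNReal.one_lt_top).ne
  refine EvW.of_forall fun _ L tw te _ _ _ hw _ hlt hth => ?_
  exact ⟨fun j K s => LinkNWin581.linkNB_win hD hA hρ Cf m L hw.nonneg hlt hth j K s,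
    fun j K P s _ => slots6_win hD hA hl.measurable hρ Cf m L hw.nonneg hlt hw.le_T hth j K P s⟩

/-- **INEQUALITY 3**, base input. -/
theorem base3In (hD : KData Φ β T f₀ f) : I3Fin478.Base3In Φ β f₀ f T :=
  base3In_of_leaves hD (leavesIn hD)

end Crest.Agent.R122.I3Done815

end
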