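import Crest.Agent.R122.I3In_566
import Crest.Agent.R122.I3Step_478
import Crest.Agent.R122.WinZero_814

/-!
# Inequality 3: final form (row 122, helper566)

* `Base3In` : the base laws and their null facts, for all admissible constants and all windows of
  positive length below the horizon.
* `i3In_of_base` : `Top602.I3In` from the pointwise form of inequality 1, the null facts of the spread
  terms and `Base3In`.
-/

set_option autoImplicit false

open MeasureTheory ProbabilityTheory Set Filter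
open scoped ENNReal Classical Topology
open Crest.AnalysisR.Kinetic
open Crest.Agent.R122.GC311 Crest.Agent.R122.EDefs602 Crest.Agent.R122.EBasic602
open Crest.Agent.R122.Boost969 (LSt posAt)
open Crest.Agent.R122.Pair292 hiding ML
open Crest.Agent.R122.PairD292 Crest.Agent.R122.Top602 Crest.Agent.R122.Ineq1815
open Crest.Agent.R122.Master566 (KData)
open Crest.Agent.R122.Mark307 (BPar)
open Crest.Agent.R122.CaseC658 (qK)
open Crest.Agent.R122.PairIter566 (Base3 ineq3_of)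
open Crest.Agent.R122.I3In566

noncomputable section

namespace Crest.Agent.R122.I3In566

set_option maxHeartbeats 400000

variable {Φ : Space3 → ℝ} {β T : ℝ} {f₀ : PhasePoint → ℝ} {f : ℝ → PhasePoint → ℝ}

/-- **The base laws of all windows** with their null facts (positive length, below the horizon). -/
def Base3In (Φ : Space3 → ℝ) (β T : ℝ) (f₀ : PhasePoint → ℝ) (f : ℝ → PhasePoint → ℝ) : Prop :=
  InHL T fun h₀ γ ρ => ∀ (kap lam C g : ℝ) (B : BPar) (hA : Adm3 Φ β T f γ ρ h₀ kap lam C g B),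
    ∀ m : ℕ, ∃ c : ℝ≥0∞, c ≠ ∞ ∧ EvW T fun _ L tw te => IH Φ f₀ f T γ ρ tw → tw < te →
      te < tw + h₀ → ∃ bd : ℕ → ℝ → SF2, (∀ K ε, 0 < ε → MeasSF2 (bd K ε)) ∧
        (∀ r, StmtPt6 Φ (epar γ ρ L tw te) (tw + h₀) r
          (H5994.tOc Φ (epar γ ρ L tw te) (tw + h₀)) (H5994.tYc Φ (epar γ ρ L tw te) (tw + h₀))
            bd) ∧
        Base3 Φ f₀ (epar γ ρ L tw te) (tw + h₀) B.b₀ (qK C lam) (parW B hA.ok te) bd c
          (PMn Φ f₀ γ ρ h₀ m L tw te)

theorem bindN_zero (K : Kernel (Lab × LSt) (Lab × LSt)) (j : ℕ) :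
    bindN (0 : Measure (Lab × LSt)) K j = 0 := by
  induction j with
  | zero => rfl
  | succ j ih =>
    show (bindN (0 : Measure (Lab × LSt)) K j).bind K = 0
    rw [ih]
    exact Measure.bind_zero_left _

theorem os2_zero (ε te T' : ℝ) (H : SF2) :
    OS2 Φ f₀ ε te T' (0 : Measure (Lab × LSt)) H = 0 := by
  unfold OS2
  simp only [lintegral_zero_measure, gcE_zero, mul_zero, Set.indicator_zero, lintegral_zero,
    tsum_zero]

theorem bad_zero (ε : ℝ) (K : ℕ) (Q : EPar) :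
    BAD Φ f₀ ε K Q (0 : Measure (Lab × LSt)) = 0 := by
  unfold BAD
  simp only [lintegral_zero_measure, gcE_zero]

theorem okAE_zero (ε : ℝ) (K : ℕ) : OkAE Φ ε K (0 : Measure (Lab × LSt)) := by
  intro n
  rw [Measure.prod_zero]
  exact ae_zero.le (Filter.mem_bot)

/-- The zero law. -/
theorem base3_zero (Q : EPar) (T' b₀ : ℝ) (q : ℕ → ℕ → ℝ≥0∞) (PP : ℕ → PPar)
    {bd : ℕ → ℝ → SF2} (hbd : ∀ K ε, 0 < ε → MeasSF2 (bd K ε)) (c : ℝ≥0∞)
    {PM : ℕ → ℝ → ℝ≥0∞} (hPM : ∀ K ε, PM K ε = 0) :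
    Base3 Φ f₀ Q T' b₀ q PP bd c PM := by
  refine ⟨fun _ _ => 0, fun _ _ => 0, fun K ε _ => (PairSrc969.PX.zero).mono_c zero_le, ⟨fun _ _ => 0, Small.zero,
    Ev.of_forall fun K ε _ => by rw [hPM]; exact zero_le⟩, fun j K ε _ => ?_, fun j => ?_⟩
  · rw [bindN_zero]
    exact ae_zero.le (Filter.mem_bot)
  · refine ⟨fun K ε _ => ?_, ?_, hbd, ?_⟩
    · simp only [bindN_zero]
      exact okAE_zero ε K
    · simp only [bindN_zero, bad_zero]
      exact Null.zero
    · simp only [bindN_zero, os2_zero]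
      exact Null.zero

/-- The one-step inequality is void in a window without length. -/
theorem step6_void {Q : EPar} (h : Q.te ≤ Q.tw) (T' r b₀ : ℝ) (q : ℕ → ℕ → ℝ≥0∞)
    (PP : ℕ → PPar) (bd : ℕ → ℝ → SF2) (C₁ C₂ : ℝ≥0∞) :
    Step6 Φ f₀ Q T' r b₀ q PP bd C₁ C₂ := by
  refine ⟨fun _ _ => 0, Small.zero, fun K ε hε _ hs => ?_⟩
  have h1 : 0 < slk ε := Real.sqrt_pos.2 hε
  linarith

/-- **INEQUALITY 3** from the base laws. -/
theorem i3In_of_base (hD : KData Φ β T f₀ f) (hPt : PtAll Φ f₀ f T)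
    (hAB : I3Step478.NullABIn Φ f₀ f T) (hB : Base3In Φ β T f₀ f) : I3In Φ f₀ f T := by
  refine i3In_of_slots hD hPt (((I3Step478.step6In hD hAB).and hB).mono
    fun h₀ γ ρ h0 _ hh kap lam C g B hA => ?_)
  obtain ⟨hS, hB⟩ := hh
  obtain ⟨σ, hσ, hS⟩ := hS kap lam C B.b₀ hA.kin
  refine ⟨Direct658.v1, Direct658.v1_ne_top, σ, hσ, fun m => ?_⟩
  obtain ⟨c, hc, hBm⟩ := hB kap lam C g B hA m
  refine ⟨c, hc, fun r hr _ => ?_⟩
  obtain ⟨o, ho, hSr⟩ := hS r hr
  refine ⟨o, ho, ((hSr.and hBm).and (I3Step478.evW_le (half_pos h0))).mono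
    fun h L tw te hh hL hw hq hIH => ?_⟩
  obtain ⟨⟨h1, h2⟩, h3⟩ := hq
  rcases lt_or_ge tw te with hlt | hge
  · obtain ⟨bd, hm, hpt, hb⟩ := h2 hIH hlt (by linarith [hw.short])
    exact ⟨bd, h1 hIH _ (hA.ppOk hw.le_T) bd hm (hpt r), hb⟩
  · refine ⟨fun _ _ _ _ _ _ _ => 0, step6_void hge _ _ _ _ _ _ _ _,
      base3_zero _ _ _ _ _ (fun _ _ _ _ _ => measurable_const) c fun K ε => ?_⟩
    exact WinZero814.PMn_eq_zero hge m

end Crest.Agent.R122.I3In566
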