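import Crest.Agent.R122.IDefs_317

/-!
# First good hits: configurations versus trees (row 122, helper317)

`hitMassG_eq` : for the class of tree clusters, the mass of the first good hits by clusters of `k`
particles is the sum over the tree types with `k` leaves of `Hgh`.
-/

set_option autoImplicit false

open MeasureTheory Set Filter
open scoped Classical ENNReal Topology
open Crest.AnalysisR.Kinetic

noncomputable section

namespace Crest.Agent.R122.IStep317

open Kin796 Kin796.CTree Tree674 Flow671 Loc45 Causal291 PathFlow968 Hit167 GC311 GIV566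
  TreeHit317 Relabel674

variable {Φ : Space3 → ℝ} {f₀ : PhasePoint → ℝ} {ε : ℝ} {ι : Type} {S : Tubes ι} {T tw t : ℝ}

/-- clipped hitting time -/
def tauC (Φ : Space3 → ℝ) (ε : ℝ) (S : Tubes ι) (T : ℝ) (k : ℕ) (V : Config k) (j : Fin k) : ℝ :=
  max 0 (min (hT Φ ε S V j) T)

/-- good hit, without the class -/
def GoodU (Φ : Space3 → ℝ) (ε : ℝ) (S : Tubes ι) {k : ℕ} (V : Config k) (j : Fin k) (σ : ℝ) :
    Prop :=
  GoodGhostHit (pth Φ ε V) ε S.c S.b j σ ∧ AloneAt (pth Φ ε V) ε j σ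

/-- the integrand -/
def Fint (Φ : Space3 → ℝ) (f₀ : PhasePoint → ℝ) (ε : ℝ) (S : Tubes ι) (T tw t : ℝ) (k : ℕ)
    (V : Config k) (j : Fin k) : ℝ≥0∞ :=
  gcWeight f₀ ε k V * (ind (hT Φ ε S V j ∈ Ico tw t ∧ GoodU Φ ε S V j (tauC Φ ε S T k V j)) *
    uG Φ f₀ ε (S.sum (clTubes Φ ε V j (tauC Φ ε S T k V j))) (tauC Φ ε S T k V j))

theorem tauC_eq (htw : 0 ≤ tw) (htT : t ≤ T) {k : ℕ} {V : Config k} {j : Fin k}
    (h : hT Φ ε S V j ∈ Ico tw t) : tauC Φ ε S T k V j = hT Φ ε S V j := by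
  unfold tauC
  rw [min_eq_left (h.2.le.trans htT), max_eq_right (htw.trans h.1)]

/-! ### Covariance -/

theorem hT_perm (hΦ : AdmissiblePotential Φ) (hε : 0 < ε) {k : ℕ} (g : Equiv.Perm (Fin k))
    (V : Config k) (j : Fin k) : hT Φ ε S (fun i => V (g i)) j = hT Φ ε S V (g j) := by
  unfold hT
  rw [Hit167.pth_relabel hΦ hε g V]
  rfl

theorem tauC_cov (hΦ : AdmissiblePotential Φ) (hε : 0 < ε) : Cov ε (tauC Φ ε S T) := by
  intro k g V j _
  unfold tauC
  rw [hT_perm hΦ hε]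

theorem goodU_perm (hΦ : AdmissiblePotential Φ) (hε : 0 < ε) {k : ℕ} (g : Equiv.Perm (Fin k))
    (V : Config k) (j : Fin k) (σ : ℝ) :
    GoodU Φ ε S (fun i => V (g i)) j σ ↔ GoodU Φ ε S V (g j) σ := by
  unfold GoodU
  rw [Hit167.pth_relabel hΦ hε g V]
  exact and_congr (goodGhostHit_relabel g) (aloneAt_relabel g)

theorem uG_perm (hΦ : AdmissiblePotential Φ) (hε : 0 < ε) {k : ℕ} (g : Equiv.Perm (Fin k))
    (V : Config k) (j : Fin k) (σ : ℝ) :
    uG Φ f₀ ε (S.sum (clTubes Φ ε (fun i => V (g i)) j σ)) σ =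
      uG Φ f₀ ε (S.sum (clTubes Φ ε V (g j) σ)) σ := by
  have hp := Hit167.pth_relabel hΦ hε g V
  refine uG_congr_tubes (Equiv.sumCongr (Equiv.refl ι) g) ?_ ?_
  · rintro (i | i)
    · rfl
    · show tauPre (pth Φ ε fun i => V (g i)) ε j σ i = tauPre (pth Φ ε V) ε (g j) σ (g i)
      rw [hp]
      exact tauPre_relabel g
  · rintro (i | i) s _
    · rfl
    · show (pth Φ ε (fun i => V (g i)) s i).1 = (pth Φ ε V s (g i)).1
      rw [hp]

theorem fint_cov (hΦ : AdmissiblePotential Φ) (hε : 0 < ε) : Cov ε (Fint Φ f₀ ε S T tw t) := by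
  intro k g V j hV
  unfold Fint
  rw [gcWeight_comp_perm, tauC_cov hΦ hε k g V j hV, hT_perm hΦ hε, uG_perm hΦ hε,
    ind_congr (and_congr Iff.rfl (goodU_perm hΦ hε g V j _))]

/-! ### Measurability -/

theorem measurable_hT [Finite ι] (hΦ : AdmissiblePotential Φ) (hε : 0 < ε)
    (hc : ∀ i, Continuous (S.c i)) {k : ℕ} (j : Fin k) :
    Measurable fun V : Config k => hT Φ ε S V j :=
  measurable_hitTime (x := fun V : Config k => pth Φ ε V) (fun V i => continuous_pth hΦ hε V i)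
    (fun s i => measurable_pth_id hΦ hε s i) hc 0 j

theorem measurable_tauC [Finite ι] (hΦ : AdmissiblePotential Φ) (hε : 0 < ε)
    (hc : ∀ i, Continuous (S.c i)) {k : ℕ} (j : Fin k) :
    Measurable fun V : Config k => tauC Φ ε S T k V j :=
  measurable_const.max ((measurable_hT hΦ hε hc j).min measurable_const)

theorem measurableSet_goodU [Finite ι] (hΦ : AdmissiblePotential Φ) (hε : 0 < ε)
    (hc : ∀ i, Continuous (S.c i)) {k : ℕ} (j : Fin k) {σ : Config k → ℝ} (hσ : Measurable σ) :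
    MeasurableSet {V : Config k | GoodU Φ ε S V j (σ V)} := by
  have hx : ∀ (V : Config k) i, Continuous fun s => pth Φ ε V s i :=
    fun V i => continuous_pth hΦ hε V i
  have hm : ∀ s i, Measurable fun V : Config k => pth Φ ε V s i :=
    fun s i => measurable_pth_id hΦ hε s i
  exact (measurableSet_goodGhostHit (x := fun V : Config k => pth Φ ε V) hx hm hc j hσ).inter
    (measurableSet_aloneAt (x := fun V : Config k => pth Φ ε V) hx hm hσ j)

theorem measurable_uG_cl [Finite ι] (hf : Measurable f₀) (hΦ : AdmissiblePotential Φ) (hε : 0 < ε)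
    (hT0 : 0 ≤ T) (hc : ∀ i, Continuous (S.c i)) {k : ℕ} (j : Fin k) {σ : Config k → ℝ}
    (hσ : Measurable σ) (hσT : ∀ V, σ V ≤ T) :
    Measurable fun V : Config k => uG Φ f₀ ε (S.sum (clTubes Φ ε V j (σ V))) (σ V) := by
  haveI : Countable ι := Finite.to_countable
  refine measurable_uG (S := fun V : Config k => S.sum (clTubes Φ ε V j (σ V))) hf hΦ hε hT0
    ?_ ?_ ?_ hσ hσT
  · rintro V (i | i)
    · exact (hc i).continuousOn
    · exact (continuous_pth hΦ hε V i).fst.continuousOn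
  · rintro (i | i) s
    · exact measurable_const
    · exact (measurable_pth_id hΦ hε s i).fst
  · rintro (i | i)
    · exact measurable_const
    · exact measurable_tauPre (x := fun V : Config k => pth Φ ε V)
        (fun V i => continuous_pth hΦ hε V i) (fun s i => measurable_pth_id hΦ hε s i) j i hσ

theorem measurable_fint [Finite ι] (hf : Measurable f₀) (hΦ : AdmissiblePotential Φ) (hε : 0 < ε)
    (hT0 : 0 ≤ T) (hc : ∀ i, Continuous (S.c i)) (k : ℕ) (j : Fin k) :
    Measurable fun V : Config k => Fint Φ f₀ ε S T tw t k V j := by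
  unfold Fint
  refine (measurable_gcWeight hf ε k).mul (Measurable.mul ?_ ?_)
  · refine measurable_ind ?_
    exact ((measurable_hT hΦ hε hc j) measurableSet_Ico).inter
      (measurableSet_goodU hΦ hε hc j (measurable_tauC hΦ hε hc j))
  · exact measurable_uG_cl hf hΦ hε hT0 hc j (measurable_tauC hΦ hε hc j)
      (fun V => max_le hT0 (min_le_right _ _))

/-! ### The configuration side -/

theorem goodV_iff {k : ℕ} {V : Config k} {j : Fin k} {σ : ℝ} :
    GoodV Φ ε S.c S.b (treeCls Φ ε) V j σ ↔ GoodU Φ ε S V j σ ∧ TreeLike Φ ε σ V j :=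
  ⟨fun h => ⟨⟨h.good, h.alone⟩, h.cls⟩, fun h => ⟨h.1.1, h.1.2, h.2⟩⟩

theorem integrand_cfg (htw : 0 ≤ tw) (htT : t ≤ T) {k : ℕ} (V : Config k) :
    gcWeight f₀ ε k V * ∑ j : Fin k, ind (hT Φ ε S V j ∈ Ico tw t ∧
        GoodV Φ ε S.c S.b (treeCls Φ ε) V j (hT Φ ε S V j)) *
      uG Φ f₀ ε (S.sum (clTubes Φ ε V j (hT Φ ε S V j))) (hT Φ ε S V j) =
      ∑ j : Fin k, (if TreeLike Φ ε (tauC Φ ε S T k V j) V j then
        Fint Φ f₀ ε S T tw t k V j else 0) := by
  rw [Finset.mul_sum]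
  refine Finset.sum_congr rfl fun j _ => ?_
  by_cases h : hT Φ ε S V j ∈ Ico tw t
  · unfold Fint
    rw [tauC_eq htw htT h]
    by_cases h2 : TreeLike Φ ε (hT Φ ε S V j) V j
    · rw [if_pos h2]
      congr 2
      refine ind_congr (and_congr Iff.rfl ?_)
      rw [goodV_iff]
      exact ⟨fun h => h.1, fun h => ⟨h, h2⟩⟩
    · rw [if_neg h2, ind_false, zero_mul, mul_zero]
      rintro ⟨_, h3⟩
      exact h2 (goodV_iff.1 h3).2
  · rw [ind_false fun h' => h h'.1, zero_mul, mul_zero]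
    unfold Fint
    rw [ind_false fun h' => h h'.1, zero_mul, mul_zero, ite_self]

/-! ### The tree side -/

theorem prod_confOf (P : CTree) (W : Idx P → PhasePoint) :
    ∏ i, ENNReal.ofReal (f₀ (confOf P W i)) = ∏ x, ENNReal.ofReal (f₀ (W x)) :=
  Equiv.prod_comp (eP P).symm fun x => ENNReal.ofReal (f₀ (W x))

theorem pth_confOf (hΦ : AdmissiblePotential Φ) (hε : 0 < ε) (P : CTree)
    (W : Idx P → PhasePoint) :
    pth Φ ε (confOf P W) = fun s i => pth Φ ε W s ((eP P).symm i) :=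
  Hit167.pth_relabel hΦ hε (eP P).symm W

theorem hT_confOf (hΦ : AdmissiblePotential Φ) (hε : 0 < ε) (P : CTree)
    (W : Idx P → PhasePoint) : hT Φ ε S (confOf P W) (eP P (root P)) =
      hitTime (pth Φ ε W) ε S.c S.b 0 (root P) := by
  unfold hT
  rw [pth_confOf hΦ hε, hitTime_relabel (eP P).symm, Equiv.symm_apply_apply]

theorem goodU_confOf (hΦ : AdmissiblePotential Φ) (hε : 0 < ε) (P : CTree)
    (W : Idx P → PhasePoint) (σ : ℝ) : GoodU Φ ε S (confOf P W) (eP P (root P)) σ ↔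
      GoodGhostHit (pth Φ ε W) ε S.c S.b (root P) σ ∧ AloneAt (pth Φ ε W) ε (root P) σ := by
  unfold GoodU
  rw [pth_confOf hΦ hε, goodGhostHit_relabel (eP P).symm, aloneAt_relabel (eP P).symm,
    Equiv.symm_apply_apply]

theorem uG_confOf (hΦ : AdmissiblePotential Φ) (hε : 0 < ε) {P : CTree} {z : PhasePoint × Par P}
    {σ : ℝ} (hσ : 0 < σ) (hv : Valid Φ ε P σ z.1.2 z.2) (hs : Sep Φ ε P σ z.1 z.2) :
    uG Φ f₀ ε (S.sum (clTubes Φ ε (confOf P (lines Φ ε P z.1 z.2)) (eP P (root P)) σ)) σ =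
      uG Φ f₀ ε (S.sum (ptubes Φ ε P z.1 z.2 σ)) σ := by
  refine (uG_congr_tubes (Equiv.sumCongr (Equiv.refl ι) (eP P)) ?_ ?_).symm
  · rintro (i | i)
    · rfl
    · show prot P σ z.2 i = tauPre (pth Φ ε (confOf P (lines Φ ε P z.1 z.2))) ε
        (eP P (root P)) σ (eP P i)
      rw [pth_confOf hΦ hε, tauPre_relabel (eP P).symm, Equiv.symm_apply_apply,
        Equiv.symm_apply_apply, tauPre_eq hΦ hε hσ hv hs]
  · rintro (i | i) s hs'
    · rfl
    · show (path Φ ε P z.1 z.2 s i).1 =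
        (pth Φ ε (confOf P (lines Φ ε P z.1 z.2)) s (eP P i)).1
      rw [pth_confOf hΦ hε]
      show _ = (pth Φ ε (lines Φ ε P z.1 z.2) s ((eP P).symm (eP P i))).1
      rw [Equiv.symm_apply_apply, path_eq_flow hΦ hε hv hs
        ⟨hs'.1, hs'.2.trans (min_le_right _ _)⟩]
      rfl

theorem gcWeight_confOf (hε : 0 < ε) {P : CTree} {z : PhasePoint × Par P} {σ : ℝ} (hσ : 0 ≤ σ)
    (hv : Valid Φ ε P σ z.1.2 z.2) (hs : Sep Φ ε P σ z.1 z.2) :
    gcWeight f₀ ε P.leaves (confOf P (lines Φ ε P z.1 z.2)) =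
      ∏ x, ENNReal.ofReal (f₀ (lines Φ ε P z.1 z.2 x)) := by
  have h1 : confOf P (lines Φ ε P z.1 z.2) ∈ PairExcluded ε P.leaves :=
    confOf_excluded hε hσ (t := σ) (Φ := Φ) ⟨z.1, z.2, hv, hs, rfl⟩
  unfold gcWeight
  rw [Set.indicator_of_mem h1, prod_confOf]

theorem integrand_tree (hΦ : AdmissiblePotential Φ) (hε : 0 < ε) (htw : 0 ≤ tw) (htT : t ≤ T)
    (P : CTree) (z : PhasePoint × Par P) :
    (VST Φ ε P (tauP (tauC Φ ε S T) P)).indicator
          (fun z => wt Φ P z.1.2 z.2 * Fint Φ f₀ ε S T tw t P.leaves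
            (confOf P (lines Φ ε P z.1 z.2)) (eP P (root P))) z =
      if sigHit Φ ε P S z ∈ Ico tw t ∧ 0 < sigHit Φ ε P S z ∧
        FirstAt Φ ε P S z (sigHit Φ ε P S z) then
      wt Φ P z.1.2 z.2 * ((∏ x, ENNReal.ofReal (f₀ (lines Φ ε P z.1 z.2 x))) *
        uG Φ f₀ ε (S.sum (ptubes Φ ε P z.1 z.2 (sigHit Φ ε P S z))) (sigHit Φ ε P S z))
      else 0 := by
  set W := lines Φ ε P z.1 z.2 with hW
  set σ := hitTime (pth Φ ε W) ε S.c S.b 0 (root P) with hσ
  have hhT : hT Φ ε S (confOf P W) (eP P (root P)) = σ := hT_confOf hΦ hε P W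
  -- the condition on the right side implies that the hitting times agree
  have hR : ∀ (_ : sigHit Φ ε P S z ∈ Ico tw t ∧ 0 < sigHit Φ ε P S z ∧
      FirstAt Φ ε P S z (sigHit Φ ε P S z)), sigHit Φ ε P S z = σ := by
    rintro ⟨_, h2, h3⟩
    have h4 := ((firstAt_iff hΦ hε h2).1 h3).2.2
    exact (hitTime_eq h2.le h4.hits fun s hs => h4.unhit s hs (root P)
      (mem_preAct_self hs.2)).symm
  by_cases hI : σ ∈ Ico tw t
  · have hτ : tauP (tauC Φ ε S T) P W = σ := by
      unfold tauP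
      rw [tauC_eq htw htT (by rw [hhT]; exact hI), hhT]
    have hτ' : tauC Φ ε S T P.leaves (confOf P W) (eP P (root P)) = σ := hτ
    by_cases hV : Valid Φ ε P σ z.1.2 z.2 ∧ Sep Φ ε P σ z.1 z.2
    · have hmem : z ∈ VST Φ ε P (tauP (tauC Φ ε S T) P) := by
        show Valid Φ ε P (tauP (tauC Φ ε S T) P W) z.1.2 z.2 ∧
          Sep Φ ε P (tauP (tauC Φ ε S T) P W) z.1 z.2
        rw [hτ]
        exact hV
      rw [indicator_of_mem hmem]
      show wt Φ P z.1.2 z.2 * Fint Φ f₀ ε S T tw t P.leaves (confOf P W) (eP P (root P)) = _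
      unfold Fint
      rw [hτ', hhT]
      by_cases hG : GoodGhostHit (pth Φ ε W) ε S.c S.b (root P) σ
      · have hpos : 0 < σ := hG.pos (htw.trans hI.1)
        have hF : FirstAt Φ ε P S z σ := (firstAt_iff hΦ hε hpos).2 ⟨hV.1, hV.2, hG⟩
        have hs : sigHit Φ ε P S z = σ := hF.sigHit_eq hε hpos.le
        rw [hs, if_pos ⟨hI, hpos, hF⟩, ind_true, one_mul, uG_confOf hΦ hε hpos hV.1 hV.2,
          gcWeight_confOf hε hpos.le hV.1 hV.2]
        exact ⟨hI, (goodU_confOf hΦ hε P W σ).2 ⟨hG, aloneAt hΦ hε hpos hV.1 hV.2⟩⟩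
      · rw [ind_false, zero_mul, mul_zero, mul_zero, if_neg]
        · intro h
          have hs := hR h
          rw [hs] at h
          exact hG ((firstAt_iff hΦ hε h.2.1).1 h.2.2).2.2
        · rintro ⟨_, h⟩
          exact hG ((goodU_confOf hΦ hε P W σ).1 h).1
    · have hmem : z ∉ VST Φ ε P (tauP (tauC Φ ε S T) P) := by
        intro h
        have h' : Valid Φ ε P (tauP (tauC Φ ε S T) P W) z.1.2 z.2 ∧
          Sep Φ ε P (tauP (tauC Φ ε S T) P W) z.1 z.2 := h
        rw [hτ] at h'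
        exact hV h'
      rw [indicator_of_notMem hmem, if_neg]
      intro h
      have hs := hR h
      rw [hs] at h
      exact hV ⟨h.2.2.valid, h.2.2.sep⟩
  · have hF0 : Fint Φ f₀ ε S T tw t P.leaves (confOf P W) (eP P (root P)) = 0 := by
      unfold Fint
      rw [ind_false, zero_mul, mul_zero]
      rintro ⟨h, _⟩
      rw [hhT] at h
      exact hI h
    rw [if_neg]
    · by_cases hmem : z ∈ VST Φ ε P (tauP (tauC Φ ε S T) P)
      · rw [indicator_of_mem hmem]
        show wt Φ P z.1.2 z.2 * Fint Φ f₀ ε S T tw t P.leaves (confOf P W) (eP P (root P)) = 0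
        rw [hF0, mul_zero]
      · rw [indicator_of_notMem hmem]
    · intro h
      have hs := hR h
      rw [hs] at h
      exact hI h.1

/-- **First good hits: from configurations to trees.** -/
theorem hitMassG_eq [Finite ι] (hf : Measurable f₀) (hΦ : AdmissiblePotential Φ) (hε : 0 < ε)
    (hc : ∀ i, Continuous (S.c i)) (htw : 0 ≤ tw) (k : ℕ) :
    hitMassG Φ f₀ ε S (treeCls Φ ε) tw t k =
      ∑' P : CTree, if P.leaves = k then Hgh Φ f₀ ε P S tw t else 0 := by
  set T : ℝ := max 0 t with hTdef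
  have hT0 : 0 ≤ T := le_max_left _ _
  have htT : t ≤ T := le_max_right _ _
  unfold hitMassG
  have h1 : (∫⁻ V : Config k, gcWeight f₀ ε k V *
      ∑ j : Fin k, ind (hT Φ ε S V j ∈ Ico tw t ∧
        GoodV Φ ε S.c S.b (treeCls Φ ε) V j (hT Φ ε S V j)) *
      uG Φ f₀ ε (S.sum (clTubes Φ ε V j (hT Φ ε S V j))) (hT Φ ε S V j)) =
      ∫⁻ V : Config k, ∑ j : Fin k, (if TreeLike Φ ε (tauC Φ ε S T k V j) V j then
        Fint Φ f₀ ε S T tw t k V j else 0) :=
    lintegral_congr fun V => integrand_cfg htw htT V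
  rw [h1, tree_transport_tau hΦ hε (tauC_cov hΦ hε) (fun k j => measurable_tauC hΦ hε hc j)
    (fun _ _ _ => le_max_left _ _) (fun _ _ _ => max_le hT0 (min_le_right _ _))
    (fint_cov hΦ hε) (fun k j => measurable_fint hf hΦ hε hT0 hc k j) k, ← ENNReal.tsum_mul_left]
  refine tsum_congr fun P => ?_
  by_cases hP : P.leaves = k
  · rw [if_pos hP, if_pos hP]
    unfold Hgh
    congr 1
    exact lintegral_congr fun z => integrand_tree hΦ hε htw htT P z
  · rw [if_neg hP, if_neg hP, mul_zero]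

end Crest.Agent.R122.IStep317
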