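import Crest.Agent.R122.IStep1_317
import Crest.Agent.R122.BadHit_370

/-!
# The first-hit inequality in tree form (row 122, helper317)

* `treeCls_inv`, `treeCls_meas` : the class of tree clusters is invariant and measurable;
* `first_hit_tree` : `adiff (U tw) (U t + ∑_{P.leaves ≤ K} Hgh P) ≤ P(BadR) + ∑_{k ≤ K} errC k`.
-/

set_option autoImplicit false

open MeasureTheory Set Filter
open scoped Classical ENNReal Topology
open Crest.AnalysisR.Kinetic

noncomputable section

namespace Crest.Agent.R122.IStep317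

open Kin796 Kin796.CTree Tree674 Flow671 Loc45 Causal291 PathFlow968 Hit167 GC311 GIV566
  TreeHit317 Relabel674

variable {Φ : Space3 → ℝ} {f₀ : PhasePoint → ℝ} {ε : ℝ} {ι : Type} {S : Tubes ι} {T tw t : ℝ}

/-! ### The class of tree clusters -/

theorem treeCls_inv : (treeCls Φ ε).Inv := by
  intro k V j σ g
  constructor
  · rintro ⟨P, e, h0, ℓ, p, h1, h2, h3⟩
    refine ⟨P, e.trans g, ?_, ℓ, p, h1, h2, fun x => ?_⟩
    · show g (e (root P)) = g j
      rw [h0]
    · exact h3 x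
  · rintro ⟨P, e, h0, ℓ, p, h1, h2, h3⟩
    refine ⟨P, e.trans g.symm, ?_, ℓ, p, h1, h2, fun x => ?_⟩
    · show g.symm (e (root P)) = j
      rw [h0, Equiv.symm_apply_apply]
    · show V (g (g.symm (e x))) = _
      rw [Equiv.apply_symm_apply]
      exact h3 x

theorem measurableSet_skS_joint (hΦ : AdmissiblePotential Φ) (hε : 0 < ε) (P : CTree) :
    MeasurableSet {q : ℝ × (Idx P → PhasePoint) | q.2 ∈ SkS Φ ε P q.1} := by
  have key : {q : ℝ × (Idx P → PhasePoint) | q.2 ∈ SkS Φ ε P q.1} =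
      ⋃ n : ℕ, ({q : ℝ × (Idx P → PhasePoint) | q.1 ≤ (n : ℝ)} ∩
        ((fun q : ℝ × (Idx P → PhasePoint) => q.2) ⁻¹' Skel Φ ε P n ∩
        (fun q : ℝ × (Idx P → PhasePoint) => (q.1, Tree674.inv Φ ε P n q.2)) ⁻¹'
          {q : ℝ × (PhasePoint × Par P) | Valid Φ ε P q.1 q.2.1.2 q.2.2 ∧
            Sep Φ ε P q.1 q.2.1 q.2.2})) := by
    ext ⟨s, W⟩
    simp only [mem_iUnion, mem_inter_iff, mem_preimage, mem_ofPred_eq]
    constructor
    · intro h
      obtain ⟨n, hn⟩ := exists_nat_ge s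
      have h1 := (mem_skT_iff hΦ hε (τ := fun _ => s) (T := n) (fun _ => hn) (W := W)).1 h
      exact ⟨n, hn, h1.1, h1.2⟩
    · rintro ⟨n, hn, h1, h2⟩
      have h3 := (lines_inv hΦ hε h1).2
      exact ⟨_, _, h2.1, h2.2, h3⟩
  rw [key]
  refine MeasurableSet.iUnion fun n => ?_
  refine (measurableSet_le measurable_fst measurable_const).inter
    ((measurable_snd (measurableSet_skel hΦ hε P n)).inter ?_)
  exact (measurable_fst.prodMk ((measurable_inv hΦ hε P n).comp measurable_snd))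
    (measurableSet_validSep2 hΦ hε P)

theorem treeCls_meas (hΦ : AdmissiblePotential Φ) (hε : 0 < ε) : (treeCls Φ ε).Meas := by
  intro k j
  have key : {p : Config k × ℝ | treeCls Φ ε k p.1 j p.2} =
      ⋃ P : CTree, ⋃ e : Idx P ≃ Fin k, ⋃ _ : e (root P) = j,
        (fun p : Config k × ℝ => (p.2, fun x => p.1 (e x))) ⁻¹'
          {q : ℝ × (Idx P → PhasePoint) | q.2 ∈ SkS Φ ε P q.1} := by
    ext ⟨V, s⟩
    simp only [treeCls, TreeLike, isTree_iff, mem_iUnion, mem_preimage, mem_ofPred_eq,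
      exists_prop]
  rw [key]
  refine MeasurableSet.iUnion fun P => MeasurableSet.iUnion fun e => MeasurableSet.iUnion fun _ => ?_
  refine Measurable.prodMk measurable_snd ?_ (measurableSet_skS_joint hΦ hε P)
  exact measurable_pi_iff.2 fun x => (measurable_pi_apply (e x)).comp measurable_fst

/-! ### Real versus ghost mass -/

theorem measurable_restE [Finite ι] (hf : Measurable f₀) (hΦ : AdmissiblePotential Φ) (hε : 0 < ε)
    (hc : ∀ i, Continuous (S.c i)) {k : ℕ} (j : Fin k) {σ : Config k → ℝ} (hσ : Measurable σ) :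
    Measurable fun V : Config k => restE f₀ Φ ε S.c S.b V j (σ V) := by
  unfold restE
  refine BadHit370.measurable_gcE_param hf ε (X := Config k)
    (F := fun m V w => perpInd ε V w *
      ind (RestV Φ ε S.c S.b (Fin.append V w : Config (k + m)) (Fin.castAdd m) j (σ V)))
    fun m => ?_
  refine (measurable_perpInd ε k m).mul (measurable_ind ?_)
  exact measurableSet_restV (Ω := Config k × Config m) hΦ hε hc (Fin.castAdd_injective k m) j
    measurable_append (hσ.comp measurable_fst)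

/-- the indicator of a good cluster in the window -/
def indG (Φ : Space3 → ℝ) (ε : ℝ) (S : Tubes ι) (tw t : ℝ) {k : ℕ} (V : Config k) (j : Fin k) :
    ℝ≥0∞ :=
  ind (hT Φ ε S V j ∈ Ico tw t ∧ GoodV Φ ε S.c S.b (treeCls Φ ε) V j (hT Φ ε S V j))

theorem measurable_indG [Finite ι] (hΦ : AdmissiblePotential Φ) (hε : 0 < ε)
    (hc : ∀ i, Continuous (S.c i)) {k : ℕ} (j : Fin k) :
    Measurable fun V : Config k => indG Φ ε S tw t V j := by
  refine measurable_ind ?_
  exact ((measurable_hT hΦ hε hc j) measurableSet_Ico).inter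
    (measurableSet_goodV hΦ hε hc (treeCls_meas hΦ hε) j measurable_id (measurable_hT hΦ hε hc j))

theorem lintegral_add_le {Ω : Type*} [MeasurableSpace Ω] {μ : Measure Ω} {a b c : Ω → ℝ≥0∞}
    (hb : Measurable b) (h : ∀ ω, a ω ≤ b ω + c ω) : ∫⁻ ω, a ω ∂μ ≤ ∫⁻ ω, b ω ∂μ + ∫⁻ ω, c ω ∂μ := by
  rw [← lintegral_add_left hb]
  exact lintegral_mono h

/-- clipped version of the ghost term, to have measurability -/
theorem indG_mul_uG (htw : 0 ≤ tw) (htT : t ≤ T) {k : ℕ} (V : Config k) (j : Fin k) :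
    indG Φ ε S tw t V j * uG Φ f₀ ε (S.sum (clTubes Φ ε V j (hT Φ ε S V j))) (hT Φ ε S V j) =
      indG Φ ε S tw t V j *
        uG Φ f₀ ε (S.sum (clTubes Φ ε V j (tauC Φ ε S T k V j))) (tauC Φ ε S T k V j) := by
  by_cases h : hT Φ ε S V j ∈ Ico tw t
  · rw [tauC_eq htw htT h]
  · unfold indG
    rw [ind_false fun h' => h h'.1, zero_mul, zero_mul]

theorem measurable_ghost [Finite ι] (hf : Measurable f₀) (hΦ : AdmissiblePotential Φ) (hε : 0 < ε)
    (hc : ∀ i, Continuous (S.c i)) (htw : 0 ≤ tw) {k : ℕ} (j : Fin k) :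
    Measurable fun V : Config k => indG Φ ε S tw t V j *
      uG Φ f₀ ε (S.sum (clTubes Φ ε V j (hT Φ ε S V j))) (hT Φ ε S V j) := by
  have h : (fun V : Config k => indG Φ ε S tw t V j *
      uG Φ f₀ ε (S.sum (clTubes Φ ε V j (hT Φ ε S V j))) (hT Φ ε S V j)) =
      fun V : Config k => indG Φ ε S tw t V j * uG Φ f₀ ε
        (S.sum (clTubes Φ ε V j (tauC Φ ε S (max 0 t) k V j))) (tauC Φ ε S (max 0 t) k V j) :=
    funext fun V => indG_mul_uG htw (le_max_right _ _) V j
  rw [h]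
  exact (measurable_indG hΦ hε hc j).mul (measurable_uG_cl hf hΦ hε (le_max_left _ _) hc j
    (measurable_tauC hΦ hε hc j) (fun V => max_le (le_max_left _ _) (min_le_right _ _)))

theorem le_add_adiff (a b : ℝ≥0∞) : a ≤ b + adiff a b := by
  unfold adiff
  calc a ≤ b + (a - b) := le_add_tsub
    _ ≤ b + ((a - b) + (b - a)) := add_le_add le_rfl le_self_add

theorem hitMass_le [Finite ι] (hf : Measurable f₀) (hΦ : AdmissiblePotential Φ) (hε : 0 < ε)
    (hc : ∀ i, Continuous (S.c i)) (htw : 0 ≤ tw) (k : ℕ) :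
    hitMass f₀ Φ ε S.c S.b (treeCls Φ ε) tw t k ≤
      hitMassG Φ f₀ ε S (treeCls Φ ε) tw t k + errC Φ f₀ ε S (treeCls Φ ε) tw t k := by
  unfold hitMass hitMassG errC
  rw [← mul_add]
  refine mul_le_mul_right ?_ _
  refine lintegral_add_le ?_ fun V => ?_
  · refine (measurable_gcWeight hf ε k).mul (Finset.measurable_sum _ fun j _ => ?_)
    exact measurable_ghost hf hΦ hε hc htw j
  · rw [← mul_add, ← Finset.sum_add_distrib]
    refine mul_le_mul_right (Finset.sum_le_sum fun j _ => ?_) _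
    rw [← mul_add]
    exact mul_le_mul_right (le_add_adiff _ _) _

theorem hitMassG_le [Finite ι] (hf : Measurable f₀) (hΦ : AdmissiblePotential Φ) (hε : 0 < ε)
    (hc : ∀ i, Continuous (S.c i)) (k : ℕ) :
    hitMassG Φ f₀ ε S (treeCls Φ ε) tw t k ≤
      hitMass f₀ Φ ε S.c S.b (treeCls Φ ε) tw t k + errC Φ f₀ ε S (treeCls Φ ε) tw t k := by
  unfold hitMass hitMassG errC
  rw [← mul_add]
  refine mul_le_mul_right ?_ _
  refine lintegral_add_le ?_ fun V => ?_
  · refine (measurable_gcWeight hf ε k).mul (Finset.measurable_sum _ fun j _ => ?_)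
    exact (measurable_indG hΦ hε hc j).mul
      (measurable_restE hf hΦ hε hc j (measurable_hT hΦ hε hc j))
  · rw [← mul_add, ← Finset.sum_add_distrib]
    refine mul_le_mul_right (Finset.sum_le_sum fun j _ => ?_) _
    change indG Φ ε S tw t V j * _ ≤ indG Φ ε S tw t V j *
      restE f₀ Φ ε S.c S.b V j (hT Φ ε S V j) + indG Φ ε S tw t V j * _
    rw [← mul_add, adiff_comm]
    exact mul_le_mul_right (le_add_adiff _ _) _

/-! ### The inequality -/

theorem sum_hitMassG [Finite ι] (hf : Measurable f₀) (hΦ : AdmissiblePotential Φ) (hε : 0 < ε)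
    (hc : ∀ i, Continuous (S.c i)) (htw : 0 ≤ tw) (K : ℕ) :
    ∑ k ∈ Finset.range (K + 1), hitMassG Φ f₀ ε S (treeCls Φ ε) tw t k =
      ∑' P : CTree, if P.leaves ≤ K then Hgh Φ f₀ ε P S tw t else 0 := by
  have h1 : ∀ k ∈ Finset.range (K + 1), hitMassG Φ f₀ ε S (treeCls Φ ε) tw t k =
      ∑' P : CTree, if P.leaves = k then Hgh Φ f₀ ε P S tw t else 0 :=
    fun k _ => hitMassG_eq hf hΦ hε hc htw k
  rw [Finset.sum_congr rfl h1, ← Summable.tsum_finsetSum fun _ _ => ENNReal.summable]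
  refine tsum_congr fun P => ?_
  rw [Finset.sum_ite_eq (Finset.range (K + 1)) P.leaves]
  simp only [Finset.mem_range, Nat.lt_succ_iff]

/-- **First-hit inequality in tree form.** -/
theorem first_hit_tree [Finite ι] (hf : Measurable f₀) (hΦ : AdmissiblePotential Φ) (hε : 0 < ε)
    (hc : ∀ i, Continuous (S.c i)) (htw : 0 ≤ tw) (htt : tw ≤ t) (K : ℕ)
    (hM : ∀ n, ∀ᵐ Z : Config n, Z ∈ PairExcluded ε n → ¬ MultHit Φ ε S.c S.b tw t Z) :
    adiff (U f₀ Φ ε S.c S.b tw)
        (U f₀ Φ ε S.c S.b t + ∑' P : CTree, if P.leaves ≤ K then Hgh Φ f₀ ε P S tw t else 0) ≤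
      gcE f₀ ε (fun _ Z => ind (BadR Φ ε S.c S.b (treeCls Φ ε) tw t K Z)) +
        ∑ k ∈ Finset.range (K + 1), errC Φ f₀ ε S (treeCls Φ ε) tw t k := by
  have h1 := unhit_le (θ := S.b) (t := t) hf hΦ hε hc treeCls_inv (treeCls_meas hΦ hε) htw K
  have h2 := le_unhit (θ := S.b) (t := t) hf hΦ hε hc treeCls_inv (treeCls_meas hΦ hε) htw htt K hM
  rw [← sum_hitMassG hf hΦ hε hc htw K]
  set A := U f₀ Φ ε S.c S.b tw
  set B := U f₀ Φ ε S.c S.b t
  set M := ∑ k ∈ Finset.range (K + 1), hitMass f₀ Φ ε S.c S.b (treeCls Φ ε) tw t k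
  set G := ∑ k ∈ Finset.range (K + 1), hitMassG Φ f₀ ε S (treeCls Φ ε) tw t k
  set E := ∑ k ∈ Finset.range (K + 1), errC Φ f₀ ε S (treeCls Φ ε) tw t k
  set R := gcE f₀ ε (fun _ Z => ind (BadR Φ ε S.c S.b (treeCls Φ ε) tw t K Z))
  have hMG : M ≤ G + E := by
    rw [← Finset.sum_add_distrib]
    exact Finset.sum_le_sum fun k _ => hitMass_le hf hΦ hε hc htw k
  have hGM : G ≤ M + E := by
    rw [← Finset.sum_add_distrib]
    exact Finset.sum_le_sum fun k _ => hitMassG_le hf hΦ hε hc k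
  have h3 : A - (B + G) ≤ R + E := by
    rw [tsub_le_iff_left]
    calc A ≤ B + M + R := h1
      _ ≤ B + (G + E) + R := by gcongr
      _ = B + G + (R + E) := by ring
  have h4 : (B + G) - A ≤ R + E := by
    rw [tsub_le_iff_left]
    calc B + G ≤ B + (M + E) := by gcongr
      _ = (B + M) + E := by ring
      _ ≤ A + E := by gcongr
      _ ≤ A + (R + E) := by gcongr; exact le_add_self
  unfold adiff
  rcases le_total A (B + G) with h | h
  · rw [tsub_eq_zero_of_le h, zero_add]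
    exact h4
  · rw [tsub_eq_zero_of_le h, add_zero]
    exact h3

end Crest.Agent.R122.IStep317
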