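import Crest.Agent.R122.ForestLim_399
import Crest.Agent.R122.KinMain_796
import Crest.Agent.R122.Master_566

/-!
Row 122, block I1 (helper399): continuity in time of the damped forest densities, forest form of
the tensor powers of the kinetic solution.
-/

set_option autoImplicit false

open MeasureTheory Set Filter Topology Crest.AnalysisR.Kinetic
open scoped Classical ENNReal NNReal

noncomputable section

namespace Crest.Agent.R122.Forest399

open Kin796 Kin796.CTree Kin416 Disc416 Tree674 TreeEps399 PiTrans399 TreeFatou399 Hid424 GIV566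
  GIVUse424 Boltz814

variable {Φ : Space3 → ℝ} {s : ℕ} {β T : ℝ} {f₀ : PhasePoint → ℝ} {f : ℝ → PhasePoint → ℝ}

/-! ### Continuity in time -/

section time

variable {B : Type*} {F : Filter B} {τ : B → ℝ} {t₀ : ℝ}

theorem lossInt_line (r t : ℝ) (ℓ : PhasePoint) :
    lossInt T f r t (ℓ.1 + t • ℓ.2) ℓ.2 = ∫⁻ u in Ioc r t, nuF T f u (ℓ.1 + u • ℓ.2) ℓ.2 := by
  unfold lossInt
  refine lintegral_congr fun u => ?_
  congr 1
  module

theorem tendsto_lossInt (hβ : 0 < β) (hT : 0 < T) (hf : IsRegularKineticSolution Φ β T f₀ f)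
    [F.IsCountablyGenerated] (hτ : Tendsto τ F (𝓝 t₀)) (r : ℝ) (ℓ : PhasePoint) :
    Tendsto (fun b => lossInt T f r (τ b) (ℓ.1 + τ b • ℓ.2) ℓ.2) F
      (𝓝 (lossInt T f r t₀ (ℓ.1 + t₀ • ℓ.2) ℓ.2)) := by
  obtain ⟨L, hL, h⟩ := exists_nuF_le hβ hT hf
  simp only [lossInt_line]
  have hm : Measurable fun u : ℝ => nuF T f u (ℓ.1 + u • ℓ.2) ℓ.2 :=
    (measurable_nuF hf).comp (f := fun u : ℝ => (u, ℓ.1 + u • ℓ.2, ℓ.2)) (by fun_prop)
  have hrw : ∀ t : ℝ, ∫⁻ u in Ioc r t, nuF T f u (ℓ.1 + u • ℓ.2) ℓ.2 =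
      ∫⁻ u, (Ioc r t).indicator (fun u => nuF T f u (ℓ.1 + u • ℓ.2) ℓ.2) u := fun t =>
    (lintegral_indicator measurableSet_Ioc _).symm
  simp only [hrw]
  refine tendsto_lintegral_filter_of_dominated_convergence'
    ((Ioc r (t₀ + 1)).indicator fun _ => ENNReal.ofReal (L * (1 + ‖ℓ.2‖))) ?_ ?_ ?_ ?_
  · exact Eventually.of_forall fun b => (hm.indicator measurableSet_Ioc).aemeasurable
  · filter_upwards [hτ.eventually (gt_mem_nhds (by linarith : t₀ < t₀ + 1))] with b hb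
    refine Eventually.of_forall fun u => ?_
    by_cases hu : u ∈ Ioc r (τ b)
    · rw [indicator_of_mem hu, indicator_of_mem (show u ∈ Ioc r (t₀ + 1) from ⟨hu.1, hu.2.trans hb.le⟩)]
      exact h _ _ _
    · rw [indicator_of_notMem hu]
      exact bot_le
  · rw [lintegral_indicator measurableSet_Ioc, setLIntegral_const]
    exact ENNReal.mul_ne_top ENNReal.ofReal_ne_top (by simp)
  · have h0 : ∀ᵐ u : ℝ, u ≠ t₀ := by
      rw [ae_iff]
      simp
    filter_upwards [h0] with u hu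
    rcases lt_or_gt_of_ne hu with h1 | h1
    · refine tendsto_const_nhds.congr' ?_
      filter_upwards [hτ.eventually (lt_mem_nhds h1)] with b hb
      by_cases hr : r < u
      · rw [indicator_of_mem (show u ∈ Ioc r (τ b) from ⟨hr, hb.le⟩),
          indicator_of_mem (show u ∈ Ioc r t₀ from ⟨hr, h1.le⟩)]
      · rw [indicator_of_notMem (fun h => hr h.1), indicator_of_notMem (fun h => hr h.1)]
    · refine tendsto_const_nhds.congr' ?_
      filter_upwards [hτ.eventually (gt_mem_nhds h1)] with b hb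
      rw [indicator_of_notMem (fun h => absurd h.2 (not_le.2 h1)),
        indicator_of_notMem (fun h => absurd h.2 (not_le.2 hb))]

theorem lossInt_ne_top (hβ : 0 < β) (hT : 0 < T) (hf : IsRegularKineticSolution Φ β T f₀ f)
    (r t : ℝ) (ℓ : PhasePoint) : lossInt T f r t (ℓ.1 + t • ℓ.2) ℓ.2 ≠ ∞ := by
  rw [lossInt_line]
  exact finRate_nuF hβ hT hf ℓ r t

theorem tendsto_damp (hβ : 0 < β) (hT : 0 < T) (hf : IsRegularKineticSolution Φ β T f₀ f)
    [F.IsCountablyGenerated] (hτ : Tendsto τ F (𝓝 t₀)) (r : ℝ) (ℓ : PhasePoint) :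
    Tendsto (fun b => damp T f r (τ b) (ℓ.1 + τ b • ℓ.2) ℓ.2) F
      (𝓝 (damp T f r t₀ (ℓ.1 + t₀ • ℓ.2) ℓ.2)) := by
  unfold damp
  refine (ENNReal.continuous_ofReal.tendsto _).comp ((Real.continuous_exp.tendsto _).comp ?_)
  exact ((ENNReal.tendsto_toReal (lossInt_ne_top hβ hT hf r t₀ ℓ)).comp
    (tendsto_lossInt hβ hT hf hτ r ℓ)).neg

theorem dens_ne_top {f0 : Space3 → Space3 → ℝ≥0∞} (h0 : ∀ x v, f0 x v ≠ ∞) :
    ∀ (P : CTree) (t : ℝ) (ℓ : PhasePoint) (p : Par P), dens Φ (damp T f) f0 P t ℓ p ≠ ∞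
  | leaf, t, ℓ, p => ENNReal.mul_ne_top
      (ne_top_of_le_ne_top ENNReal.one_ne_top (damp_le_one _ _ _ _)) (h0 _ _)
  | node l r, t, ℓ, p => ENNReal.mul_ne_top
      (ne_top_of_le_ne_top ENNReal.one_ne_top (damp_le_one _ _ _ _))
      (ENNReal.mul_ne_top (dens_ne_top h0 l _ _ _) (dens_ne_top h0 r _ _ _))

theorem fE_ne_top (t : ℝ) (x v : Space3) : fE T f t x v ≠ ∞ := by
  unfold fE
  split_ifs
  · exact ENNReal.ofReal_ne_top
  · exact ENNReal.zero_ne_top

theorem tendsto_tdens (hβ : 0 < β) (hT : 0 < T) (hf : IsRegularKineticSolution Φ β T f₀ f)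
    [F.IsCountablyGenerated] (hτ : Tendsto τ F (𝓝 t₀)) (P : CTree) {z : PhasePoint × Par P}
    (hV : Valid Φ 0 P t₀ z.1.2 z.2) :
    Tendsto (fun b => tdens Φ (damp T f) (fE T f 0) P (τ b) z) F
      (𝓝 (tdens Φ (damp T f) (fE T f 0) P t₀ z)) := by
  obtain ⟨κ, hκ, hV2⟩ := valid_open P t₀ z.1.2 z.2 hV
  have hev : ∀ᶠ b in F, wt Φ P z.1.2 z.2 * dens Φ (damp T f) (fE T f 0) P (τ b) z.1 z.2 =
      tdens Φ (damp T f) (fE T f 0) P (τ b) z := by
    filter_upwards [hτ.eventually (lt_mem_nhds (by linarith : t₀ - κ < t₀))] with b hb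
    unfold tdens
    rw [indicator_of_mem (show z ∈ {z : PhasePoint × Par P | Valid Φ 0 P (τ b) z.1.2 z.2} from
      valid_mono hb.le hV2)]
  refine Tendsto.congr' hev ?_
  unfold tdens
  rw [indicator_of_mem (show z ∈ {z : PhasePoint × Par P | Valid Φ 0 P t₀ z.1.2 z.2} from hV)]
  refine ENNReal.Tendsto.const_mul ?_ (Or.inr (wt_ne_top _ _ _))
  cases P with
  | leaf =>
    simp only [dens]
    exact ENNReal.Tendsto.mul_const (tendsto_damp hβ hT hf hτ 0 z.1) (Or.inr (fE_ne_top _ _ _))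
  | node l r =>
    simp only [dens]
    refine ENNReal.Tendsto.mul_const (tendsto_damp hβ hT hf hτ z.2.1.1 z.1) (Or.inr ?_)
    exact ENNReal.mul_ne_top (dens_ne_top (fun x v => fE_ne_top _ _ _) l _ _ _)
      (dens_ne_top (fun x v => fE_ne_top _ _ _) r _ _ _)

theorem tdens_ne_top (P : CTree) (t : ℝ) (z : PhasePoint × Par P) :
    tdens Φ (damp T f) (fE T f 0) P t z ≠ ∞ := by
  unfold tdens
  refine ne_top_of_le_ne_top (b := wt Φ P z.1.2 z.2 * dens Φ (damp T f) (fE T f 0) P t z.1 z.2)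
    (ENNReal.mul_ne_top (wt_ne_top _ _ _) (dens_ne_top (fun x v => fE_ne_top _ _ _) _ _ _ _)) ?_
  exact indicator_le_self _ _ z

/-- continuity in time at the valid parameters -/
theorem tendsto_g0 (hβ : 0 < β) (hT : 0 < T) (hf : IsRegularKineticSolution Φ β T f₀ f)
    [F.IsCountablyGenerated] (hτ : Tendsto τ F (𝓝 t₀)) (Ps : Fin s → CTree) {q : FPar Ps}
    (hV : FValid Φ 0 Ps t₀ q) :
    Tendsto (fun b => g0 Φ T f Ps (τ b) q) F (𝓝 (g0 Φ T f Ps t₀ q)) :=
  ENNReal.tendsto_finsetProd_of_ne_top _ (fun i _ => tendsto_tdens hβ hT hf hτ (Ps i) (hV i))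
    fun i _ => tdens_ne_top _ _ _

theorem g0_ne_top (Ps : Fin s → CTree) (t : ℝ) (q : FPar Ps) : g0 Φ T f Ps t q ≠ ∞ :=
  ENNReal.prod_ne_top fun _ _ => tdens_ne_top _ _ _

/-- `∫ (g₀(t₀) - g₀(τ))₊ → 0` -/
theorem lim_time (hβ : 0 < β) (hT : 0 < T) (hΦ : AdmissiblePotential Φ)
    (hf : IsRegularKineticSolution Φ β T f₀ f)
    [F.IsCountablyGenerated] (hτ : Tendsto τ F (𝓝 t₀)) (Ps : Fin s → CTree)
    (hfin : ∫⁻ q, g0 Φ T f Ps t₀ q ≠ ∞) :
    Tendsto (fun b => ∫⁻ q, (g0 Φ T f Ps t₀ q - g0 Φ T f Ps (τ b) q)) F (𝓝 0) := by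
  have h0 : ∫⁻ _ : FPar Ps, (0 : ℝ≥0∞) = 0 := by simp
  rw [← h0]
  refine tendsto_lintegral_filter_of_dominated_convergence' (g0 Φ T f Ps t₀) ?_ ?_ hfin ?_
  · exact Eventually.of_forall fun b =>
      ((measurable_g0 hΦ hf Ps t₀).sub (measurable_g0 hΦ hf Ps (τ b))).aemeasurable
  · exact Eventually.of_forall fun b => Eventually.of_forall fun q => tsub_le_self
  · refine Eventually.of_forall fun q => ?_
    by_cases hV : FValid Φ 0 Ps t₀ q
    · have := ENNReal.Tendsto.sub (f := F) (tendsto_const_nhds (x := g0 Φ T f Ps t₀ q))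
        (tendsto_g0 hβ hT hf hτ Ps hV) (Or.inl (g0_ne_top Ps t₀ q))
      simpa using this
    · simp only [g0_of_not_valid hV, zero_tsub]
      exact tendsto_const_nhds

end time

/-! ### Tensor powers -/

theorem hκ_kapQ (hΦ : AdmissiblePotential Φ) (v : Space3) (H : Space3 × Space3 → ℝ≥0∞)
    (hH : Measurable H) : ∫⁻ p, H p ∂(kapQ Φ v) = ∫⁻ w, ENNReal.ofReal ‖v - w‖ *
      ∫⁻ b in impactDisc (v - w), H (postVelocities Φ b v w) ∂μHE[2] :=
  lintegral_kapQ (Scat818.scatFacts hΦ) v hH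

theorem lintegral_g0 (hΦ : AdmissiblePotential Φ) (hf : IsRegularKineticSolution Φ β T f₀ f)
    (Ps : Fin s → CTree) {t : ℝ} (ht : 0 ≤ t) {φ : (Fin s → PhasePoint) → ℝ≥0∞}
    (hφ : Measurable φ) :
    ∫⁻ q : FPar Ps, g0 Φ T f Ps t q * φ (fun i => onLine (q i).1 t) =
      ∫⁻ Z : Fin s → PhasePoint, (∏ i, TF Φ T f (Ps i) t (Z i).1 (Z i).2) * φ Z :=
  lintegral_forest hΦ (kapQ Φ) (fun v H hH => hκ_kapQ hΦ v H hH) (meas4_damp hf)
    (meas_fE_zero hf) Ps ht hφ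

/-- trees of height `< K` -/
def SF (Φ : Space3 → ℝ) (T : ℝ) (f : ℝ → PhasePoint → ℝ) (K : ℕ) (t : ℝ) (z : PhasePoint) : ℝ≥0∞ :=
  ∑ P ∈ CTree.lt K, TF Φ T f P t z.1 z.2

theorem measurable_TF (hf : IsRegularKineticSolution Φ β T f₀ f) (P : CTree) (t : ℝ) :
    Measurable fun z : PhasePoint => TF Φ T f P t z.1 z.2 :=
  (meas_TF hf P).comp (f := fun z : PhasePoint => (t, z.1, z.2)) (by fun_prop)

theorem measurable_SF (hf : IsRegularKineticSolution Φ β T f₀ f) (K : ℕ) (t : ℝ) :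
    Measurable (SF Φ T f K t) :=
  Finset.measurable_sum _ fun P _ => measurable_TF hf P t

theorem SF_le (hβ : 0 < β) (hT : 0 < T) (hΦ : AdmissiblePotential Φ)
    (hf : IsRegularKineticSolution Φ β T f₀ f) (K : ℕ) {t : ℝ} (ht : t ∈ Icc 0 T)
    (z : PhasePoint) : SF Φ T f K t z ≤ ENNReal.ofReal (f t z) := by
  rw [show z = (z.1, z.2) from rfl, series_eq hβ hT hΦ hf ht]
  exact ENNReal.sum_le_tsum _

theorem TS_le_SF (K : ℕ) (t : ℝ) (z : PhasePoint) :
    TS Φ T f K t z.1 z.2 ≤ SF Φ T f K t z := by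
  unfold TS SK SF
  rw [tsum_eq_sum (s := CTree.lt K) (fun P hP => if_neg fun h => hP (CTree.mem_lt.2
    ((CTree.height_le_size P).trans_lt h)))]
  refine Finset.sum_le_sum fun P _ => ?_
  split_ifs
  · exact le_rfl
  · exact bot_le

theorem mass_one (hf : IsRegularKineticSolution Φ β T f₀ f) {t : ℝ} (ht : t ∈ Icc 0 T) :
    ∫⁻ z, ENNReal.ofReal (f t z) = 1 := by
  rw [← ofReal_integral_eq_lintegral_ofReal (hf.density t ht).1
    (Eventually.of_forall fun z => hf.nonneg t ht z), (hf.density t ht).2, ENNReal.ofReal_one]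

theorem SF_mass_ge (hβ : 0 < β) (hT : 0 < T) (hΦ : AdmissiblePotential Φ)
    (hf : IsRegularKineticSolution Φ β T f₀ f) {δ : ℝ≥0∞} (hδ : 0 < δ) :
    ∃ K : ℕ, ∀ t ∈ Icc 0 T, 1 ≤ (∫⁻ z, SF Φ T f K t z) + δ := by
  obtain ⟨K, hK⟩ := mass_TS_ge hβ hT hΦ hf hδ
  refine ⟨K, fun t ht => (hK K le_rfl t ht).trans ?_⟩
  gcongr
  exact TS_le_SF K t _

theorem SF_mass_le (hβ : 0 < β) (hT : 0 < T) (hΦ : AdmissiblePotential Φ)
    (hf : IsRegularKineticSolution Φ β T f₀ f) (K : ℕ) {t : ℝ} (ht : t ∈ Icc 0 T) :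
    ∫⁻ z, SF Φ T f K t z ≤ 1 := by
  rw [← mass_one hf ht]
  exact lintegral_mono fun z => SF_le hβ hT hΦ hf K ht z

/-- the forests with trees of height `< K` -/
def FK (s K : ℕ) : Finset (Fin s → CTree) := Fintype.piFinset fun _ => CTree.lt K

theorem prod_SF (K : ℕ) (t : ℝ) (Z : Fin s → PhasePoint) :
    ∏ i, SF Φ T f K t (Z i) = ∑ Ps ∈ FK s K, ∏ i, TF Φ T f (Ps i) t (Z i).1 (Z i).2 := by
  unfold SF FK
  exact Finset.prod_univ_sum _ _

theorem sum_lintegral_g0 (hΦ : AdmissiblePotential Φ) (hf : IsRegularKineticSolution Φ β T f₀ f)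
    (K : ℕ) {t : ℝ} (ht : 0 ≤ t) {φ : (Fin s → PhasePoint) → ℝ≥0∞} (hφ : Measurable φ) :
    ∑ Ps ∈ FK s K, ∫⁻ q : FPar Ps, g0 Φ T f Ps t q * φ (fun i => onLine (q i).1 t) =
      ∫⁻ Z : Fin s → PhasePoint, (∏ i, SF Φ T f K t (Z i)) * φ Z := by
  simp only [lintegral_g0 hΦ hf _ ht hφ, prod_SF, Finset.sum_mul]
  rw [lintegral_finsetSum]
  intro Ps _
  exact (Finset.measurable_prod _ fun i _ =>
    (measurable_TF hf (Ps i) t).comp (measurable_pi_apply i)).mul hφ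

theorem lintegral_prod_same {h : PhasePoint → ℝ≥0∞} (hh : Measurable h) :
    ∫⁻ Z : Fin s → PhasePoint, ∏ i, h (Z i) = (∫⁻ z, h z) ^ s := by
  have := lintegral_pi_prod (X := fun _ : Fin s => PhasePoint) (fun _ => volume)
    (w := fun _ => h) (fun _ => hh)
  rw [show (∫⁻ Z : Fin s → PhasePoint, ∏ i, h (Z i)) = ∏ _i : Fin s, ∫⁻ z, h z from this]
  simp

theorem pow_bound {m δ : ℝ≥0∞} (hm : m ≤ 1) (h : 1 ≤ m + δ) (s : ℕ) : 1 ≤ m ^ s + s * δ := by
  induction s with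
  | zero => simp
  | succ s ih =>
    calc (1 : ℝ≥0∞) ≤ m ^ s + s * δ := ih
      _ ≤ m ^ s * (m + δ) + s * δ := by
          gcongr
          calc m ^ s = m ^ s * 1 := (mul_one _).symm
            _ ≤ m ^ s * (m + δ) := by gcongr
      _ = m ^ (s + 1) + (m ^ s * δ + s * δ) := by ring
      _ ≤ m ^ (s + 1) + (1 * δ + s * δ) := by
          gcongr
          exact pow_le_one' hm s
      _ = m ^ (s + 1) + ((s + 1 : ℕ) : ℝ≥0∞) * δ := by
          push_cast
          ring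

/-- mass of the forests of height `< K` -/
theorem sum_mass_g0 (hΦ : AdmissiblePotential Φ) (hf : IsRegularKineticSolution Φ β T f₀ f)
    (K : ℕ) {t : ℝ} (ht : 0 ≤ t) :
    ∑ Ps ∈ FK s K, ∫⁻ q : FPar Ps, g0 Φ T f Ps t q = (∫⁻ z, SF Φ T f K t z) ^ s := by
  have h := sum_lintegral_g0 (s := s) hΦ hf K ht (φ := fun _ => 1) measurable_const
  simp only [mul_one] at h
  rw [h, lintegral_prod_same (measurable_SF hf K t)]

theorem lintegral_g0_le (hβ : 0 < β) (hT : 0 < T) (hΦ : AdmissiblePotential Φ)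
    (hf : IsRegularKineticSolution Φ β T f₀ f) (Ps : Fin s → CTree) {t : ℝ} (ht : t ∈ Icc 0 T) :
    ∫⁻ q : FPar Ps, g0 Φ T f Ps t q ≤ 1 := by
  have h := lintegral_g0 hΦ hf Ps ht.1 (φ := fun _ => 1) measurable_const
  simp only [mul_one] at h
  rw [h]
  have hft : Measurable fun z => ENNReal.ofReal (f t z) := by
    have h1 : Measurable fun z : PhasePoint => fE T f t z.1 z.2 :=
      (meas3_fE hf).comp (f := fun z : PhasePoint => (t, z.1, z.2)) (by fun_prop)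
    convert h1 using 1
    funext z
    rw [fE_of_mem ht]
  calc ∫⁻ Z : Fin s → PhasePoint, ∏ i, TF Φ T f (Ps i) t (Z i).1 (Z i).2
      ≤ ∫⁻ Z : Fin s → PhasePoint, ∏ i, ENNReal.ofReal (f t (Z i)) := by
        refine lintegral_mono fun Z => Finset.prod_le_prod' fun i _ => ?_
        rw [show Z i = ((Z i).1, (Z i).2) from rfl, series_eq hβ hT hΦ hf ht]
        exact ENNReal.le_tsum (Ps i)
    _ = 1 := by rw [lintegral_prod_same hft, mass_one hf ht, one_pow]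

/-- **Truncation**: on every measurable set the tensor power of the solution is, up to
`s * δ`, the contribution of the forests of height `< K`. -/
theorem tensor_le (hβ : 0 < β) (hT : 0 < T) (hΦ : AdmissiblePotential Φ)
    (hf : IsRegularKineticSolution Φ β T f₀ f) {K : ℕ} {δ : ℝ≥0∞} {t : ℝ} (ht : t ∈ Icc 0 T)
    (hK : 1 ≤ (∫⁻ z, SF Φ T f K t z) + δ) {A : Set (Fin s → PhasePoint)} (hA : MeasurableSet A) :
    ∫⁻ Z in A, ∏ i, ENNReal.ofReal (f t (Z i)) ≤
      (∑ Ps ∈ FK s K, ∫⁻ q : FPar Ps, g0 Φ T f Ps t q *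
        A.indicator 1 (fun i => onLine (q i).1 t)) + s * δ := by
  have hft : Measurable fun z => ENNReal.ofReal (f t z) := by
    have h1 : Measurable fun z : PhasePoint => fE T f t z.1 z.2 :=
      (meas3_fE hf).comp (f := fun z : PhasePoint => (t, z.1, z.2)) (by fun_prop)
    convert h1 using 1
    funext z
    rw [fE_of_mem ht]
  set m := ∫⁻ z, SF Φ T f K t z with hm
  have hm1 : m ≤ 1 := SF_mass_le hβ hT hΦ hf K ht
  set G : (Fin s → PhasePoint) → ℝ≥0∞ := fun Z => ∏ i, SF Φ T f K t (Z i) with hG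
  set H : (Fin s → PhasePoint) → ℝ≥0∞ := fun Z => ∏ i, ENNReal.ofReal (f t (Z i)) with hH
  have hGm : Measurable G := Finset.measurable_prod _ fun i _ =>
    (measurable_SF hf K t).comp (measurable_pi_apply i)
  have hHm : Measurable H := Finset.measurable_prod _ fun i _ => hft.comp (measurable_pi_apply i)
  have hGH : ∀ Z, G Z ≤ H Z := fun Z => Finset.prod_le_prod' fun i _ =>
    SF_le hβ hT hΦ hf K ht (Z i)
  have hGi : ∫⁻ Z, G Z = m ^ s := lintegral_prod_same (measurable_SF hf K t)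
  have hHi : ∫⁻ Z, H Z = 1 := by
    rw [hH, lintegral_prod_same hft, mass_one hf ht, one_pow]
  have hGf : ∫⁻ Z, G Z ≠ ∞ := by
    rw [hGi]
    exact ENNReal.pow_ne_top (ne_top_of_le_ne_top ENNReal.one_ne_top hm1)
  have hdiff : ∫⁻ Z, (H Z - G Z) ≤ s * δ := by
    rw [lintegral_sub hGm hGf (Eventually.of_forall hGH), hHi, hGi, tsub_le_iff_left]
    exact pow_bound hm1 hK s
  rw [sum_lintegral_g0 hΦ hf K ht.1 (measurable_one.indicator hA)]
  calc ∫⁻ Z in A, H Z ≤ ∫⁻ Z in A, (G Z + (H Z - G Z)) := by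
        refine lintegral_mono fun Z => ?_
        rw [add_tsub_cancel_of_le (hGH Z)]
    _ = (∫⁻ Z in A, G Z) + ∫⁻ Z in A, (H Z - G Z) := lintegral_add_left hGm _
    _ ≤ (∫⁻ Z in A, G Z) + ∫⁻ Z, (H Z - G Z) := by
        gcongr
        exact Measure.restrict_le_self
    _ ≤ (∫⁻ Z, G Z * A.indicator 1 Z) + s * δ := by
        refine add_le_add ?_ hdiff
        rw [← lintegral_indicator hA]
        refine lintegral_mono fun Z => ?_
        by_cases hZ : Z ∈ A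
        · rw [indicator_of_mem hZ, indicator_of_mem hZ, Pi.one_apply, mul_one]
        · rw [indicator_of_notMem hZ]
          exact bot_le

end Crest.Agent.R122.Forest399

end
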