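import Crest.Agent.R122.InEq2APt_263
import Crest.Agent.R122.InEq2Main_311
import Crest.Agent.R122.Q1Data_815

/-!
# Row 122, INEQUALITY 2': the untouched flux term `InB FA` (helper263)

* `card_le_of_JI`, `range_of_JI` : the cluster of a joining has at most `K` particles, the labelling
  of its history covers the block.
* `FA_le_ways` : `FA ≤ ways (HA)` pointwise.
* `inB_FA` : **`InB FA`** for all horizons `h₀ ≤ h₁` (`h₁` from the data).
-/

set_option autoImplicit false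

open MeasureTheory Set Filter
open scoped ENNReal Topology
open Crest.AnalysisR.Kinetic
open Crest.Agent.R122.Flow671 Crest.Agent.R122.Loc45 Crest.Agent.R122.Causal291
open Crest.Agent.R122.Inf879 Crest.Agent.R122.GC311 Crest.Agent.R122.EDefs602
open Crest.Agent.R122.Kin796 Crest.Agent.R122.Kin796.CTree Crest.Agent.R122.Tree674
open Crest.Agent.R122.InEq2 Crest.Agent.R122.GIV566 Crest.Agent.R122.TreeBound335
open Crest.Agent.R122.Master566 Crest.Agent.R122.Top602 Crest.Agent.R122.Unw410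

noncomputable section

open scoped Classical

namespace Crest.Agent.R122.InEq2A263

section pt

variable {Φ : Space3 → ℝ} {ε : ℝ} {K : ℕ} {A : EPar} {T' : ℝ} {k m : ℕ} {V : Config k}
  {w : Config m} {j : Fin k}

theorem sgm_pos (htw : 0 ≤ A.tw) (h : JI Φ ε K A V w j) : 0 < sgm Φ ε K A V w j :=
  htw.trans_lt h.2.1.1

theorem sgm_le (h : JI Φ ε K A V w j) : sgm Φ ε K A V w j ≤ A.te := h.2.1.2

/-- The cluster of a joining has at most `K` particles. -/
theorem card_le_of_JI (hΦ : AdmissiblePotential Φ) (hε : 0 < ε) (htw : 0 ≤ A.tw)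
    (h : JI Φ ε K A V w j) : k ≤ K := by
  have h1 : (preC Φ ε (cat V w) (sgm Φ ε K A V w j) (Fin.castAdd m j)).card ≤ K :=
    card_preC_le hΦ hε (sgm_pos htw h)
  rw [h.1, card_block] at h1
  exact h1

/-- The labelling of the history covers the block. -/
theorem range_of_JI (hε : 0 < ε) (hT : 0 ≤ T') (htw : 0 ≤ A.tw)
    (h : JI Φ ε K A V w j) {R : CTree} {ℓ : PhasePoint} {p : Par R} {e : Idx R → Fin (k + m)}
    (ht : HTreeP Φ ε T' (sgm Φ ε K A V w j) (cat V w) (Fin.castAdd m j) R ℓ p e) :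
    range e = ((block k m : Finset (Fin (k + m))) : Set (Fin (k + m))) := by
  rw [ht.range_eq hε hT (sgm_pos htw h), ← h.1]
  ext q
  rw [Finset.mem_coe]
  exact (mem_preC_iff_pre _ (sgm_pos htw h) _ _).symm

/-- **Pointwise**: `FA` is at most `ways (HA)`. -/
theorem FA_le_ways (hΦ : AdmissiblePotential Φ) (hε : 0 < ε) (hL : 0 ≤ A.L) (htw : 0 ≤ A.tw)
    (hT : A.te ≤ T') (V : Config k) (w : Config m) (j : Fin k) :
    FA Φ ε K A T' k m V w j ≤ ways Φ ε T' (fun R z => HA Φ ε K A R z m w) V j := by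
  unfold FA
  split_ifs with h
  swap
  · exact bot_le
  obtain ⟨hJ, -, ⟨R, ℓ, p, e, ht, hun⟩, hfree, l, hl, hd⟩ := h
  have hσ := sgm_pos htw hJ
  have hσe := sgm_le hJ
  have h0 : 0 ≤ T' := (hσ.le.trans hσe).trans hT
  have hfr := ht.free hΦ hε hσ (hσe.trans hT) hfree
  have hl' : iTime Φ ε K A.te w l ≤ sgm Φ ε K A V w j :=
    ((gInfB_iff_sig hΦ hε (b := A.te + 1) (hσe.trans (by linarith))).1 hl).le
  rw [dist_comm] at hd
  refine le_trans (le_of_eq ?_) (le_ways_HA hΦ hε hL h0 hσ (card_le_of_JI hΦ hε htw hJ)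
    hJ.2.1.1.le hσe ht (range_of_JI hε h0 htw hJ ht) hun hfr hl' hd)
  unfold bwt wmw
  rw [mul_assoc]

end pt

variable {Φ : Space3 → ℝ} {f₀ : PhasePoint → ℝ} {f : ℝ → PhasePoint → ℝ} {β T : ℝ}

/-- **`InB FA`.** -/
theorem inB_FA (hD : KData Φ β T f₀ f) :
    ∃ h₁ : ℝ, 0 < h₁ ∧ ∀ (γ : ℝ → ℝ) (ρ : ℝ≥0∞) (h₀ : ℝ), 0 < h₀ → h₀ ≤ h₁ →
      InB Φ f₀ f T γ ρ h₀ FA := by
  have hΦ := hD.adm
  have hf : Measurable f₀ := hD.contDiff.continuous.measurable
  obtain ⟨h₁, hh₁, c, hc, hfl⟩ := fluxA (f₀ := f₀) hΦ hD.beta_pos hD.T_pos hD.sol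
  refine ⟨h₁, hh₁, fun γ ρ h₀ hh₀ hle => ?_⟩
  refine ⟨0, ENNReal.zero_ne_top, fun x _ => (c * ENNReal.ofReal (cB Φ) * 2) * ENNReal.ofReal x,
    Vanish.length.const_mul (ENNReal.mul_ne_top (ENNReal.mul_ne_top hc ENNReal.ofReal_ne_top)
      (by norm_num)), h₀, hh₀, 1, fun h L tw te hh hhle _ hL hw hIH => ?_⟩
  have htw : 0 ≤ tw := hw.nonneg
  have hteT : te ≤ tw + h₀ := hw.short.trans (by linarith)
  have hX := Q1815.Ctx.of_ih hD (tw := tw) ⟨htw, hw.le.trans hw.le_T⟩ hIH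
    (T₀ := tw + h₀) (by linarith)
  obtain ⟨q, hq, hb⟩ := hfl (epar γ ρ L tw te) (tw + h₀) (tw + h₀) hX
    (zero_le_one.trans hL) hw.le ⟨by linarith, by show tw + h₀ ≤ tw + h₁; linarith⟩ le_rfl
  have hJ : Small fun K ε => JE Φ f₀ ε K tw := by
    refine Small.mono hIH.je fun K ε _ => ?_
    exact le_iSup₂_of_le tw ⟨htw, le_rfl⟩ le_rfl
  refine ⟨fun K ε => (c * ENNReal.ofReal (1 + h)) * JE Φ f₀ ε K tw + q K ε,
    (hJ.const_mul (ENNReal.mul_ne_top hc ENNReal.ofReal_ne_top)).add hq.small, ?_⟩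
  refine ⟨0, fun K _ => ⟨min 1 h, lt_min one_pos hh, fun ε hε hεlt => ?_⟩⟩
  have hε1 : ε ≤ 1 := hεlt.le.trans (min_le_left _ _)
  have hεh : ε ≤ h := hεlt.le.trans (min_le_right _ _)
  refine Bnd.of_H (measTS_HA hΦ hε K (epar γ ρ L tw te)) (fun k m V w j _ _ _ =>
    FA_le_ways hΦ hε (zero_le_one.trans hL) htw hteT V w j) ?_
  refine (hb K ε hε).trans ?_
  have h1 : ENNReal.ofReal (ε + ((epar γ ρ L tw te).te - (epar γ ρ L tw te).tw)) ≤
      ENNReal.ofReal (1 + h) := ENNReal.ofReal_le_ofReal (by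
        show ε + (te - tw) ≤ 1 + h
        linarith [hw.short])
  have h2 : ENNReal.ofReal (ε + ((epar γ ρ L tw te).te - (epar γ ρ L tw te).tw)) ≤
      2 * ENNReal.ofReal h := by
    have e2 : (2 : ℝ≥0∞) * ENNReal.ofReal h = ENNReal.ofReal (2 * h) := by
      rw [ENNReal.ofReal_mul (by norm_num), ENNReal.ofReal_ofNat]
    rw [e2]
    refine ENNReal.ofReal_le_ofReal ?_
    show ε + (te - tw) ≤ 2 * h
    linarith [hw.short]
  rw [zero_mul, zero_add]
  calc c * ENNReal.ofReal (ε + ((epar γ ρ L tw te).te - (epar γ ρ L tw te).tw)) *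
        (JE Φ f₀ ε K tw + ENNReal.ofReal (cB Φ) * aE Φ f₀ ε K (epar γ ρ L tw te)) + q K ε
      = c * ENNReal.ofReal (ε + ((epar γ ρ L tw te).te - (epar γ ρ L tw te).tw)) *
        JE Φ f₀ ε K tw + c * ENNReal.ofReal (ε + ((epar γ ρ L tw te).te -
        (epar γ ρ L tw te).tw)) * (ENNReal.ofReal (cB Φ) * aE Φ f₀ ε K (epar γ ρ L tw te)) +
        q K ε := by ring
    _ ≤ c * ENNReal.ofReal (1 + h) * JE Φ f₀ ε K tw + c * (2 * ENNReal.ofReal h) *
        (ENNReal.ofReal (cB Φ) * aE Φ f₀ ε K (epar γ ρ L tw te)) + q K ε := by gcongr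
    _ = _ := by ring

end Crest.Agent.R122.InEq2A263

end
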