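import Crest.Agent.R122.InEq2Defs_311
import Crest.Agent.R122.Q1Wgt_815
import Crest.Agent.R122.Direct4_658
import Crest.Agent.R122.BadHit_370
import Crest.Agent.R122.ForestFatou_399

/-!
# Row 122, INEQUALITY 2', the untouched flux term (F_A) in the names of `InEq2Defs_311` (helper263)

* `tI` : first contact time in `[max tw σ_i, te]` of the free line `l` with the gas particle `i`.
* `hA` : the weight `Wm` of the gas at the first such time (sup over `i`): measurable in `(w, l)`,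
  `hA ≤ hitC` and `Wm s ≤ hA` for a contact at `s` with a particle infected at `s`.
* `HA` : the tree functional `[leaves ≤ K] act⁻¹ · wQ · 1[hidden tubes unhit up to tw] · hA`.
* `measTS_HA`, `TS_HA_le` : `act · TS T' HA ≤ (M C) K_G (ε + h) (JE tw + c_B aE) + δ`, `δ` Null.
-/

set_option autoImplicit false

open MeasureTheory Set Filter
open scoped ENNReal
open Crest.AnalysisR.Kinetic
open Crest.Agent.R122.Flow671 Crest.Agent.R122.Loc45 Crest.Agent.R122.Causal291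
open Crest.Agent.R122.Inf879 Crest.Agent.R122.GC311 Crest.Agent.R122.EDefs602
open Crest.Agent.R122.Kin796 Crest.Agent.R122.Kin796.CTree Crest.Agent.R122.Tree674
open Crest.Agent.R122.InEq2 Crest.Agent.R122.InEq2U263 Crest.Agent.R122.MeasE416
open Crest.Agent.R122.Hid424 Crest.Agent.R122.QDens815 Crest.Agent.R122.Q1815
open Crest.Agent.R122.GIV566 Crest.Agent.R122.Unw410 Crest.Agent.R122.ToTree335
open Crest.Agent.R122.EW370

noncomputable section

open scoped Classical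

namespace Crest.Agent.R122.InEq2A263

variable {Φ : Space3 → ℝ} {f₀ : PhasePoint → ℝ} {ε : ℝ} {K : ℕ} {P : EPar}

/-! ### The contact weight -/

/-- First contact time of the free line `l` with the gas particle `i` in `[max tw σ_i, te]`. -/
def tI (Φ : Space3 → ℝ) (ε : ℝ) (K : ℕ) (P : EPar) {n : ℕ} (w : Config n) (l : PhasePoint)
    (i : Fin n) : ℝ :=
  first (max P.tw (iTime Φ ε K P.te w i)) P.te
    fun s => dist (l.1 + s • l.2) (Flow671.flow Φ ε s w i).1 ≤ ε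

/-- Weight at the first contact of the free line `l` with the infected family of `w`. -/
def hA (Φ : Space3 → ℝ) (ε : ℝ) (K : ℕ) (P : EPar) {n : ℕ} (w : Config n) (l : PhasePoint) :
    ℝ≥0∞ :=
  ⨆ i : Fin n, if tI Φ ε K P w l i ≤ P.te then (MW.cfg w).Wm Φ ε K P (tI Φ ε K P w l i) else 0

theorem cf0_line (hΦ : AdmissiblePotential Φ) (hε : 0 < ε) {Ω : Type*} [MeasurableSpace Ω] {n : ℕ}
    {w : Ω → Config n} (hw : Measurable w) {l : Ω → PhasePoint} (hl : Measurable l) (i : Fin n) :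
    CF0 fun ω s => dist ((l ω).1 + s • (l ω).2) (Flow671.flow Φ ε s (w ω) i).1 := by
  refine ⟨fun ω => ?_, fun s => ?_⟩
  · have h1 : Continuous fun s => Flow671.flow Φ ε s (w ω) :=
      Flow671.flow_continuous_time hΦ hε (w ω)
    have h2 : Continuous fun s => (Flow671.flow Φ ε s (w ω) i).1 :=
      continuous_fst.comp ((continuous_apply i).comp h1)
    have h3 : Continuous fun s : ℝ => (l ω).1 + s • (l ω).2 := by fun_prop
    exact h3.dist h2
  · have h1 : Measurable fun ω => Flow671.flow Φ ε s (w ω) :=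
      (Flow671.measurable_flow hΦ hε s).comp hw
    have h2 : Measurable fun ω => (Flow671.flow Φ ε s (w ω) i).1 :=
      ((measurable_pi_apply i).comp h1).fst
    have h3 : Measurable fun ω => (l ω).1 + s • (l ω).2 := hl.fst.add (hl.snd.const_smul s)
    exact h3.dist h2

theorem measurable_tI (hΦ : AdmissiblePotential Φ) (hε : 0 < ε) {Ω : Type*} [MeasurableSpace Ω]
    {n : ℕ} {w : Ω → Config n} (hw : Measurable w) {l : Ω → PhasePoint} (hl : Measurable l)
    (i : Fin n) : Measurable fun ω => tI Φ ε K P (w ω) (l ω) i := by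
  unfold tI
  have h1 : Measurable fun ω => iTime Φ ε K P.te (w ω) i :=
    (measurable_iTime hΦ hε K P.te n i).comp hw
  exact measurable_first (RCE.of_le (cf0_line hΦ hε hw hl i) ε) (measurable_const.max h1)
    measurable_const

theorem measurable_hA (hΦ : AdmissiblePotential Φ) (hε : 0 < ε) {Ω : Type*} [MeasurableSpace Ω]
    {n : ℕ} {w : Ω → Config n} (hw : Measurable w) {l : Ω → PhasePoint} (hl : Measurable l) :
    Measurable fun ω => hA Φ ε K P (w ω) (l ω) := by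
  unfold hA
  refine Measurable.iSup fun i => ?_
  have h1 := measurable_tI (K := K) (P := P) hΦ hε hw hl i
  exact Measurable.ite (measurableSet_le h1 measurable_const)
    ((MeasW.cfg hw).Wm hΦ hε K P h1) measurable_const

theorem isClosed_line (hΦ : AdmissiblePotential Φ) (hε : 0 < ε) {n : ℕ} (w : Config n)
    (l : PhasePoint) (i : Fin n) :
    IsClosed {s : ℝ | dist (l.1 + s • l.2) (Flow671.flow Φ ε s w i).1 ≤ ε} := by
  have h := cf0_line (Ω := Unit) hΦ hε (w := fun _ => w) measurable_const (l := fun _ => l)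
    measurable_const i
  exact isClosed_le (h.cont ()) continuous_const

theorem tI_le_iff (hΦ : AdmissiblePotential Φ) (hε : 0 < ε) {n : ℕ} {w : Config n}
    {l : PhasePoint} {i : Fin n} {s : ℝ} (hs : s ≤ P.te) :
    tI Φ ε K P w l i ≤ s ↔ ∃ r ∈ Icc (max P.tw (iTime Φ ε K P.te w i)) s,
      dist (l.1 + r • l.2) (Flow671.flow Φ ε r w i).1 ≤ ε :=
  first_le_iff (isClosed_line hΦ hε w l i) hs

/-- The weight at a contact with an infected particle is at most `hA`. -/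
theorem le_hA (hΦ : AdmissiblePotential Φ) (hε : 0 < ε) (hL : 0 ≤ P.L) {n : ℕ} {w : Config n}
    {l : PhasePoint} {i : Fin n} {s : ℝ} (h1 : P.tw ≤ s) (h2 : s ≤ P.te)
    (hi : iTime Φ ε K P.te w i ≤ s) (hd : dist (l.1 + s • l.2) (Flow671.flow Φ ε s w i).1 ≤ ε) :
    (MW.cfg w).Wm Φ ε K P s ≤ hA Φ ε K P w l := by
  have h3 : tI Φ ε K P w l i ≤ s := (tI_le_iff hΦ hε h2).2 ⟨s, ⟨max_le h1 hi, le_rfl⟩, hd⟩
  refine (antitone_Wm hL (MW.cfg w) h3).trans ?_
  refine le_iSup_of_le i ?_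
  rw [if_pos (h3.trans h2)]

/-- `hA` is below the contact weight of `InEq2U_263`. -/
theorem hA_le_hitC (hΦ : AdmissiblePotential Φ) (hε : 0 < ε) (htw : 0 ≤ P.tw) {n : ℕ}
    (w : Config n) (l : PhasePoint) :
    hA Φ ε K P w l ≤ hitC (fun i s => (Flow671.flow Φ ε s w i).1) ε (bad Φ ε K w)
      ((MW.cfg w).Wm Φ ε K P) P.tw P.te l := by
  refine iSup_le fun i => ?_
  split_ifs with h
  · obtain ⟨r, hr, hd⟩ := (tI_le_iff hΦ hε (le_refl P.te)).1 h
    have hex : ∃ s ∈ Icc (max P.tw (iTime Φ ε K P.te w i)) P.te,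
        dist (l.1 + s • l.2) (Flow671.flow Φ ε s w i).1 ≤ ε := ⟨r, hr, hd⟩
    set t := tI Φ ε K P w l i with ht
    have hle : max P.tw (iTime Φ ε K P.te w i) ≤ t := le_first (hr.1.trans hr.2)
    have hd' : dist (l.1 + t • l.2) (Flow671.flow Φ ε t w i).1 ≤ ε := by
      have h4 : t ≤ t := le_rfl
      obtain ⟨r', hr', hd'⟩ := (tI_le_iff hΦ hε (K := K) (s := t) h).1 (by rw [ht])
      have h5 : tI Φ ε K P w l i ≤ r' :=
        (tI_le_iff hΦ hε (hr'.2.trans h)).2 ⟨r', ⟨hr'.1, le_rfl⟩, hd'⟩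
      have h6 : r' = t := le_antisymm hr'.2 h5
      rw [h6] at hd'
      exact hd'
    have h1 : P.tw ≤ t := (le_max_left _ _).trans hle
    have h2 : iTime Φ ε K P.te w i ≤ t := (le_max_right _ _).trans hle
    have hi : i ∈ bad Φ ε K w t :=
      (mem_bad_iff (T := P.te) hΦ hε w (htw.trans h1) (by linarith) i).2 h2
    exact le_hitC (c := fun i s => (Flow671.flow Φ ε s w i).1) (ω := (MW.cfg w).Wm Φ ε K P)
      ⟨h1, h⟩ hi hd'
  · exact bot_le

/-! ### The tree functional -/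

/-- The tree functional of the untouched flux term. -/
def HA (Φ : Space3 → ℝ) (ε : ℝ) (K : ℕ) (P : EPar) (R : CTree) (z : PhasePoint × Par R) (m : ℕ)
    (w : Config m) : ℝ≥0∞ :=
  if R.leaves ≤ K then (activity ε)⁻¹ * (wQ Φ ε R z *
    (unhitInd Φ ε (hidM Φ ε R z.1 z.2) P.tw w * hA Φ ε K P w z.1)) else 0

theorem measurable_unhitM (hΦ : AdmissiblePotential Φ) (hε : 0 < ε) (R : CTree) (tw : ℝ) (m : ℕ) :
    Measurable fun q : (PhasePoint × Par R) × Config m =>
      unhitInd Φ ε (hidM Φ ε R q.1.1 q.1.2) tw q.2 := by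
  have h := measurable_unhit_hidM hΦ hε R (tw := tw) (W := PhasePoint × Par R)
      (ℓ := fun z => z.1) measurable_fst (p := fun z => z.2) measurable_snd
  exact h.comp (f := fun q : (PhasePoint × Par R) × Config m =>
    ((⟨m, q.2⟩ : Σ n : ℕ, Config n), q.1))
    (((measurable_sigmaMk' m).comp measurable_snd).prodMk measurable_fst)

theorem measTS_HA (hΦ : AdmissiblePotential Φ) (hε : 0 < ε) (K : ℕ) (P : EPar) :
    MeasTS (HA Φ ε K P) := by
  intro R m
  unfold HA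
  by_cases h : R.leaves ≤ K
  · simp only [if_pos h]
    refine Measurable.const_mul ?_ _
    refine ((measurable_wQ hΦ R).comp measurable_fst).mul ?_
    exact (measurable_unhitM hΦ hε R P.tw m).mul
      (measurable_hA hΦ hε measurable_snd measurable_fst.fst)
  · simp only [if_neg h]
    exact measurable_const

/-- The quenched tree density. -/
def dA (Φ : Space3 → ℝ) (f₀ : PhasePoint → ℝ) (ε T' : ℝ) (K : ℕ) (tw : ℝ) (R : CTree) (n : ℕ)
    (w : Config n) (q : PhasePoint × Par R) : ℝ≥0∞ :=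
  gw Φ f₀ R (cutW K R (wtE Φ R)) ε T' q.1 q.2 * unhitInd Φ ε (hid Φ ε R q.1 q.2) tw w

theorem measurable_dA (hΦ : AdmissiblePotential Φ) (hf : Measurable f₀) (hε : 0 < ε) (T' : ℝ)
    (K : ℕ) (tw : ℝ) (R : CTree) (n : ℕ) :
    Measurable fun q : Config n × (PhasePoint × Par R) => dA Φ f₀ ε T' K tw R n q.1 q.2 :=
  measurable_gw_unhit hΦ hf (measurable_cutW (measurable_wtE hΦ R)) hε tw T' n

/-- One tree shape: the integrand of `act · TS`. -/
theorem integrand_le (hΦ : AdmissiblePotential Φ) (hε : 0 < ε) {T' : ℝ} (R : CTree)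
    (z : PhasePoint × Par R) :
    activity ε * {z : PhasePoint × Par R | Valid Φ ε R T' z.1.2 z.2}.indicator
      (fun z => wt Φ R z.1.2 z.2 * (pf Φ f₀ ε R z * gcE f₀ ε fun m w => HA Φ ε K P R z m w)) z ≤
    gcE f₀ ε fun n w => dA Φ f₀ ε T' K P.tw R n w z * hA Φ ε K P w z.1 := by
  by_cases hz : Valid Φ ε R T' z.1.2 z.2
  swap
  · rw [indicator_of_notMem (show z ∉ {z : PhasePoint × Par R | Valid Φ ε R T' z.1.2 z.2} from hz),
      mul_zero]
    exact bot_le
  rw [indicator_of_mem (show z ∈ {z : PhasePoint × Par R | Valid Φ ε R T' z.1.2 z.2} from hz)]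
  by_cases hK : R.leaves ≤ K
  swap
  · have h0 : (gcE f₀ ε fun m w => HA Φ ε K P R z m w) = 0 := by
      rw [← gcE_zero f₀ ε]
      refine gcE_congr f₀ ε fun m w _ => ?_
      unfold HA
      rw [if_neg hK]
    rw [h0, mul_zero, mul_zero, mul_zero]
    exact bot_le
  have hact : (activity ε)⁻¹ ≠ ∞ := ENNReal.inv_ne_top.2 (activity_ne_zero hε)
  have hQ : wQ Φ ε R z ≠ ∞ := by
    unfold wQ
    exact ENNReal.sum_ne_top.2 fun _ _ => ENNReal.ofReal_ne_top
  have hpf : pf Φ f₀ ε R z ≠ ∞ := ENNReal.prod_ne_top fun _ _ => ENNReal.ofReal_ne_top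
  have hwt : wt Φ R z.1.2 z.2 ≠ ∞ := Forest399.wt_ne_top R _ _
  set X : ℝ≥0∞ := gcE f₀ ε fun m w =>
    unhitInd Φ ε (hid Φ ε R z.1 z.2) P.tw w * hA Φ ε K P w z.1 with hX
  have e1 : (gcE f₀ ε fun m w => HA Φ ε K P R z m w) = (activity ε)⁻¹ * (wQ Φ ε R z * X) := by
    rw [hX, ← gcE_const_mul f₀ ε hQ, ← gcE_const_mul f₀ ε hact]
    refine gcE_congr f₀ ε fun m w _ => ?_
    unfold HA
    rw [if_pos hK, hidM_of_adm hz.1]
  have e2 : (gcE f₀ ε fun n w => dA Φ f₀ ε T' K P.tw R n w z * hA Φ ε K P w z.1) =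
      (wt Φ R z.1.2 z.2 * pf Φ f₀ ε R z * wQ Φ ε R z) * X := by
    rw [hX, ← gcE_const_mul f₀ ε (ENNReal.mul_ne_top (ENNReal.mul_ne_top hwt hpf) hQ)]
    refine gcE_congr f₀ ε fun m w _ => ?_
    unfold dA
    rw [gw_of_valid hz, cutW_of_le hK, wtE_eq hΦ hz.1, wtA_eq_lines (ε := ε), wQ_eq hz.1]
    simp only [fp, pf]
    ring
  rw [e1, e2]
  refine le_of_eq ?_
  calc activity ε * (wt Φ R z.1.2 z.2 * (pf Φ f₀ ε R z *
        ((activity ε)⁻¹ * (wQ Φ ε R z * X))))
      = (activity ε * (activity ε)⁻¹) * (wt Φ R z.1.2 z.2 * pf Φ f₀ ε R z * wQ Φ ε R z * X) := by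
        ring
    _ = _ := by
        rw [ENNReal.mul_inv_cancel (activity_ne_zero hε) (activity_ne_top ε), one_mul]

/-- **The tree integral of `HA` is below the untouched half of inequality 2'.** -/
theorem TS_HA_le_gcE (hΦ : AdmissiblePotential Φ) (hf : Measurable f₀) (hε : 0 < ε)
    (htw : 0 ≤ P.tw) {T' : ℝ} :
    activity ε * InEq2.TS Φ f₀ ε T' (HA Φ ε K P) ≤
      gcE f₀ ε (fun n w => ∑' R, ∫⁻ q : PhasePoint × Par R, dA Φ f₀ ε T' K P.tw R n w q *
        hitC (fun i s => (Flow671.flow Φ ε s w i).1) ε (bad Φ ε K w)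
          ((MW.cfg w).Wm Φ ε K P) P.tw P.te q.1) := by
  have hM : ∀ (R : CTree) (n : ℕ), Measurable fun q : Config n × (PhasePoint × Par R) =>
      dA Φ f₀ ε T' K P.tw R n q.1 q.2 * hA Φ ε K P q.1 q.2.1 := fun R n =>
    (measurable_dA hΦ hf hε T' K P.tw R n).mul
      (measurable_hA hΦ hε measurable_fst measurable_snd.fst)
  have h1 : ∀ R : CTree, activity ε * ∫⁻ z : PhasePoint × Par R,
      {z : PhasePoint × Par R | Valid Φ ε R T' z.1.2 z.2}.indicator
      (fun z => wt Φ R z.1.2 z.2 * (pf Φ f₀ ε R z * gcE f₀ ε fun m w => HA Φ ε K P R z m w)) z ≤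
      gcE f₀ ε fun n w => ∫⁻ z : PhasePoint × Par R,
        dA Φ f₀ ε T' K P.tw R n w z * hA Φ ε K P w z.1 := by
    intro R
    rw [← lintegral_const_mul' _ _ (activity_ne_top ε)]
    refine (lintegral_mono fun z => integrand_le hΦ hε R z).trans (le_of_eq ?_)
    refine BadHit370.lintegral_gcE hf ε (volume : Measure (PhasePoint × Par R))
      (F := fun n z w => dA Φ f₀ ε T' K P.tw R n w z * hA Φ ε K P w z.1) fun n => ?_
    exact (hM R n).comp measurable_swap
  unfold InEq2.TS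
  rw [← ENNReal.tsum_mul_left]
  refine (ENNReal.tsum_le_tsum h1).trans ?_
  rw [← gcE_tsum hf ε (F := fun R n w => ∫⁻ z : PhasePoint × Par R,
        dA Φ f₀ ε T' K P.tw R n w z * hA Φ ε K P w z.1) fun R n => (hM R n).lintegral_prod_right']
  refine gcE_mono f₀ ε fun n w _ => ENNReal.tsum_le_tsum fun R => lintegral_mono fun z =>
    mul_le_mul_right (hA_le_hitC hΦ hε htw w z.1) _

/-- The velocity constant of the flux bound is finite. -/
theorem fluxK_wG_ne_top {b : ℝ} (hb : 0 < b) : fluxK (Kin796.wG b) ≠ ∞ := by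
  have h3 : Sweep815.c3 ≠ ∞ := by
    unfold Sweep815.c3
    exact ENNReal.ofReal_ne_top
  rw [Direct658.fluxK_eq_gI]
  exact ENNReal.mul_ne_top (ENNReal.mul_ne_top ENNReal.ofNat_ne_top h3) (Unw410.gI_lt_top hb).ne

/-- The error of the quenched tree densities. -/
def dErr (Φ : Space3 → ℝ) (f₀ : PhasePoint → ℝ) (T' tw M C b : ℝ) (K : ℕ) (ε : ℝ) : ℝ≥0∞ :=
  gcE f₀ ε fun _ w => ∫⁻ ℓ : PhasePoint,
      ((∑' R, ∫⁻ p : Par R, gw Φ f₀ R (cutW K R (wtE Φ R)) ε T' ℓ p *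
        GIV566.unhitInd Φ ε (hid Φ ε R ℓ p) tw w) -
          (ENNReal.ofReal M * ENNReal.ofReal C) * wG b ℓ.2)

/-- **The tree integral of `HA`** (any quenched constants). -/
theorem TS_HA_le (hΦ : AdmissiblePotential Φ) (hf : Measurable f₀) (hε : 0 < ε) (hL : 0 ≤ P.L)
    (htw : 0 ≤ P.tw) (hte : P.tw ≤ P.te) {T' M C b : ℝ} (hb : 0 < b) :
    activity ε * InEq2.TS Φ f₀ ε T' (HA Φ ε K P) ≤
      (ENNReal.ofReal M * ENNReal.ofReal C) * fluxK (Kin796.wG b) *
        ENNReal.ofReal (ε + (P.te - P.tw)) *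
        (JE Φ f₀ ε K P.tw + ENNReal.ofReal (cB Φ) * aE Φ f₀ ε K P) +
      dErr Φ f₀ T' P.tw M C b K ε := by
  refine (TS_HA_le_gcE hΦ hf hε htw).trans ?_
  exact ineq2_untouched hΦ hε hf hL htw hte (Kin796.meas_wG b) (Direct658.wG_ne_zero b)
    (Direct658.wG_ne_top b) (A := fun R n w q => dA Φ f₀ ε T' K P.tw R n w q)
    (fun R n => measurable_dA hΦ hf hε T' K P.tw R n)
    (ENNReal.mul_ne_top ENNReal.ofReal_ne_top ENNReal.ofReal_ne_top) (fluxK_wG_ne_top hb) le_rfl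

/-- The error of the quenched tree densities is `Null` (helper815). -/
theorem null_dErr {β T T₀ tw : ℝ} {f : ℝ → PhasePoint → ℝ} (X : Ctx Φ β T f₀ f T₀ tw)
    {h₀ kap lam C b : ℝ} (hK : Seg814.KinC Φ T f h₀ kap lam C b) (hkap : kap ≤ β) {T' : ℝ}
    (ht : T' ∈ Icc 0 (tw + h₀)) (htT : T' ≤ T₀) {M : ℝ}
    (hM : ∀ (R : CTree) (s : ℝ) (ℓ : PhasePoint) (p : Par R),
      wtA Φ R (s, ℓ, p) ≤ ENNReal.ofReal M * ENNReal.ofReal lam ^ R.size *
        ENNReal.ofReal (Real.exp (kap * Seg814.eng Φ R ℓ.2 p))) :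
    Null (dErr Φ f₀ T' tw M C b) :=
  energy_excess_time X hK hkap ht htT hM

/-- The constant of the untouched flux term. -/
def cFA (M C b : ℝ) : ℝ≥0∞ := (ENNReal.ofReal M * ENNReal.ofReal C) * fluxK (Kin796.wG b)

theorem cFA_ne_top {M C b : ℝ} (hb : 0 < b) : cFA M C b ≠ ∞ :=
  ENNReal.mul_ne_top (ENNReal.mul_ne_top ENNReal.ofReal_ne_top ENNReal.ofReal_ne_top)
    (fluxK_wG_ne_top hb)

/-- **(F_A), tree side**: constants `h₀, c` from the data; for every window with quenched input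
`Ctx` at `tw` and every horizon `T' ≤ tw + h₀`, `T' ≤ T₀`, the tree integral of `HA` is at most
`c (ε + h) (JE tw + c_B aE)` up to a `Null` error. -/
theorem fluxA (hΦ : AdmissiblePotential Φ) {β T : ℝ} {f : ℝ → PhasePoint → ℝ} (hβ : 0 < β)
    (hT : 0 < T) (hf : IsRegularKineticSolution Φ β T f₀ f) :
    ∃ h₀ : ℝ, 0 < h₀ ∧ ∃ c : ℝ≥0∞, c ≠ ∞ ∧ ∀ (P : EPar) (T₀ T' : ℝ), Ctx Φ β T f₀ f T₀ P.tw →
      0 ≤ P.L → P.tw ≤ P.te → T' ∈ Icc 0 (P.tw + h₀) → T' ≤ T₀ →
      ∃ q : ℕ → ℝ → ℝ≥0∞, Null q ∧ ∀ (K : ℕ) (ε : ℝ), 0 < ε →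
        activity ε * InEq2.TS Φ f₀ ε T' (HA Φ ε K P) ≤
          c * ENNReal.ofReal (ε + (P.te - P.tw)) *
            (JE Φ f₀ ε K P.tw + ENNReal.ofReal (cB Φ) * aE Φ f₀ ε K P) + q K ε := by
  obtain ⟨h₀, kap, lam, C, b, hK, hkap⟩ := exists_kinC_le hΦ hβ hT hf
  obtain ⟨M, -, hM⟩ := exists_wtA_le Φ hK.2.2.1 hK.2.1
  have hb : 0 < b := hK.2.2.2.2.1
  refine ⟨h₀, hK.1, cFA M C b, cFA_ne_top hb, fun P T₀ T' X hL hte ht htT =>
    ⟨_, null_dErr X hK hkap ht htT hM, fun K ε hε => ?_⟩⟩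
  exact TS_HA_le hΦ X.cont.measurable hε hL X.htw.1 hte hb

end Crest.Agent.R122.InEq2A263

end
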