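import Crest.Agent.R122.InEq2Hist_311
import Crest.Agent.R122.Simul2_984
import Crest.Agent.R122.Band1_974

/-!
# Row 122, INEQUALITY 2' (helper311): the majorant calculus

`Bnd F q` : the Mecke'd functional `F` (not necessarily measurable) is at most a measurable functional
of ONE valid tree writing the cluster plus a measurable error, with total mass at most `q`.

* `Bnd.add`, `Bnd.mono`, `Bnd.MS_le` (`Bnd F q → MS F ≤ q`), `Bnd.of_ae`.
* `JI`, `FaI`, `FT`, `FNG`, `FR`, `FL`, `FA`, `FB` : the functionals of inequality 2', and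
  `bnd_split` : the whole is bounded by the parts.
-/

set_option autoImplicit false

open MeasureTheory Set Filter Topology
open scoped ENNReal
open Crest.AnalysisR.Kinetic
open Crest.Agent.R122.Flow671 Crest.Agent.R122.Loc45 Crest.Agent.R122.Causal291
open Crest.Agent.R122.Inf879 Crest.Agent.R122.GC311 Crest.Agent.R122.EDefs602
open Crest.Agent.R122.Kin796 Crest.Agent.R122.Kin796.CTree Crest.Agent.R122.Tree674
open Crest.Agent.R122.Relabel674 Crest.Agent.R122.TreeBound335 Crest.Agent.R122.ToTree335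

noncomputable section

open scoped Classical

namespace Crest.Agent.R122.InEq2

variable {Φ : Space3 → ℝ} {f₀ : PhasePoint → ℝ} {ε : ℝ}

/-! ### The calculus -/

theorem ways_add {T : ℝ} (G G' : (P : CTree) → PhasePoint × Par P → ℝ≥0∞) {k : ℕ} (V : Config k)
    (j : Fin k) : ways Φ ε T (fun P z => G P z + G' P z) V j =
      ways Φ ε T G V j + ways Φ ε T G' V j := by
  unfold ways
  rw [← ENNReal.tsum_add]
  refine tsum_congr fun P => ?_
  rw [← Finset.sum_add_distrib]
  refine Finset.sum_congr rfl fun e _ => ?_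
  by_cases h : e (Tree674.root P) = j ∧ (fun x => V (e x)) ∈ Skel Φ ε P T
  · rw [if_pos h, if_pos h, if_pos h]
  · rw [if_neg h, if_neg h, if_neg h, add_zero]

theorem ways_zero {T : ℝ} {k : ℕ} (V : Config k) (j : Fin k) :
    ways Φ ε T (fun _ _ => 0) V j = 0 := by
  unfold ways
  simp

/-- The functional `F` has a majorant (trees + measurable error) of mass at most `q`. -/
def Bnd (Φ : Space3 → ℝ) (f₀ : PhasePoint → ℝ) (ε T' : ℝ)
    (F : (k m : ℕ) → Config k → Config m → Fin k → ℝ≥0∞) (q : ℝ≥0∞) : Prop :=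
  ∃ (H : (P : CTree) → PhasePoint × Par P → (m : ℕ) → Config m → ℝ≥0∞)
    (B : (k m : ℕ) → Config k → Config m → Fin k → ℝ≥0∞), MeasTS H ∧ MeasMS B ∧
    (∀ (k m : ℕ) (V : Config k) (w : Config m) (j : Fin k),
      V ∈ PairExcluded ε k → w ∈ PairExcluded ε m → Perp ε V w →
      F k m V w j ≤ ways Φ ε T' (fun P z => H P z m w) V j + B k m V w j) ∧
    activity ε * TS Φ f₀ ε T' H + MS f₀ ε B ≤ q

variable {T' : ℝ} {F G : (k m : ℕ) → Config k → Config m → Fin k → ℝ≥0∞} {q q' : ℝ≥0∞}

theorem Bnd.MS_le (hΦ : AdmissiblePotential Φ) (hf : Measurable f₀) (hε : 0 < ε)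
    (h : Bnd Φ f₀ ε T' F q) : MS f₀ ε F ≤ q := by
  obtain ⟨H, B, hH, hB, hpt, hq⟩ := h
  exact (to_tree1 hΦ hf hε hH hB hpt).trans hq

theorem Bnd.mono_le (h : Bnd Φ f₀ ε T' F q) (hq : q ≤ q') : Bnd Φ f₀ ε T' F q' := by
  obtain ⟨H, B, hH, hB, hpt, hq0⟩ := h
  exact ⟨H, B, hH, hB, hpt, hq0.trans hq⟩

theorem Bnd.mono (h : Bnd Φ f₀ ε T' G q)
    (hFG : ∀ (k m : ℕ) (V : Config k) (w : Config m) (j : Fin k), V ∈ PairExcluded ε k →
      w ∈ PairExcluded ε m → Perp ε V w → F k m V w j ≤ G k m V w j) : Bnd Φ f₀ ε T' F q := by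
  obtain ⟨H, B, hH, hB, hpt, hq0⟩ := h
  exact ⟨H, B, hH, hB, fun k m V w j hV hw hp => (hFG k m V w j hV hw hp).trans
    (hpt k m V w j hV hw hp), hq0⟩

theorem Bnd.add (hΦ : AdmissiblePotential Φ) (hf : Measurable f₀) (h : Bnd Φ f₀ ε T' F q)
    (h' : Bnd Φ f₀ ε T' G q') :
    Bnd Φ f₀ ε T' (fun k m V w j => F k m V w j + G k m V w j) (q + q') := by
  obtain ⟨H, B, hH, hB, hpt, hq⟩ := h
  obtain ⟨H', B', hH', hB', hpt', hq'⟩ := h'
  refine ⟨fun P z m w => H P z m w + H' P z m w, fun k m V w j => B k m V w j + B' k m V w j,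
    fun P m => (hH P m).add (hH' P m), fun k m j => (hB k m j).add (hB' k m j), ?_, ?_⟩
  · intro k m V w j hV hw hp
    rw [ways_add (fun P z => H P z m w) (fun P z => H' P z m w)]
    calc F k m V w j + G k m V w j
        ≤ (ways Φ ε T' (fun P z => H P z m w) V j + B k m V w j) +
          (ways Φ ε T' (fun P z => H' P z m w) V j + B' k m V w j) :=
        add_le_add (hpt k m V w j hV hw hp) (hpt' k m V w j hV hw hp)
      _ = _ := by ring
  · rw [TS_add hΦ hf hH, MS_add hf hB']
    calc activity ε * (TS Φ f₀ ε T' H + TS Φ f₀ ε T' H') + (MS f₀ ε B + MS f₀ ε B')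
        = (activity ε * TS Φ f₀ ε T' H + MS f₀ ε B) +
          (activity ε * TS Φ f₀ ε T' H' + MS f₀ ε B') := by ring
      _ ≤ q + q' := add_le_add hq hq'

theorem MS_zero : MS f₀ ε (fun _ _ _ _ _ => 0) = 0 := by
  unfold MS
  simp [gcE_zero]

theorem TS_zero {T : ℝ} : TS Φ f₀ ε T (fun _ _ _ _ => 0) = 0 := by
  unfold TS
  simp [gcE_zero]

/-- A bound by a functional of trees. -/
theorem Bnd.of_H {H : (P : CTree) → PhasePoint × Par P → (m : ℕ) → Config m → ℝ≥0∞}
    (hH : MeasTS H)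
    (hpt : ∀ (k m : ℕ) (V : Config k) (w : Config m) (j : Fin k), V ∈ PairExcluded ε k →
      w ∈ PairExcluded ε m → Perp ε V w → F k m V w j ≤ ways Φ ε T' (fun P z => H P z m w) V j)
    (hq : activity ε * TS Φ f₀ ε T' H ≤ q) : Bnd Φ f₀ ε T' F q := by
  refine ⟨H, fun _ _ _ _ _ => 0, hH, fun k m j => measurable_const, ?_, ?_⟩
  · intro k m V w j hV hw hp
    rw [add_zero]
    exact hpt k m V w j hV hw hp
  · rw [MS_zero, add_zero]
    exact hq

/-- A bound by a measurable functional. -/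
theorem Bnd.of_B {B : (k m : ℕ) → Config k → Config m → Fin k → ℝ≥0∞} (hB : MeasMS B)
    (hpt : ∀ (k m : ℕ) (V : Config k) (w : Config m) (j : Fin k), V ∈ PairExcluded ε k →
      w ∈ PairExcluded ε m → Perp ε V w → F k m V w j ≤ B k m V w j)
    (hq : MS f₀ ε B ≤ q) : Bnd Φ f₀ ε T' F q := by
  refine ⟨fun _ _ _ _ => 0, B, fun P m => measurable_const, hB, ?_, ?_⟩
  · intro k m V w j hV hw hp
    rw [ways_zero, zero_add]
    exact hpt k m V w j hV hw hp
  · rw [TS_zero, mul_zero, zero_add]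
    exact hq

theorem Bnd.zero : Bnd Φ f₀ ε T' (fun _ _ _ _ _ => 0) 0 :=
  Bnd.of_B (fun _ _ _ => measurable_const) (fun _ _ _ _ _ _ _ _ => le_rfl) MS_zero.le

theorem Bnd.const_mul (h : Bnd Φ f₀ ε T' F q) {c : ℝ≥0∞}
    (hc : c ≠ ∞) : Bnd Φ f₀ ε T' (fun k m V w j => c * F k m V w j) (c * q) := by
  obtain ⟨H, B, hH, hB, hpt, hq⟩ := h
  refine ⟨fun P z m w => c * H P z m w, fun k m V w j => c * B k m V w j,
    fun P m => (hH P m).const_mul c, fun k m j => (hB k m j).const_mul c, ?_, ?_⟩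
  · intro k m V w j hV hw hp
    have h1 := mul_le_mul_right (hpt k m V w j hV hw hp) c
    rw [mul_add, mul_ways] at h1
    exact h1
  · rw [TS_const_mul hc, MS_const_mul hc]
    calc activity ε * (c * TS Φ f₀ ε T' H) + c * MS f₀ ε B
        = c * (activity ε * TS Φ f₀ ε T' H + MS f₀ ε B) := by ring
      _ ≤ c * q := mul_le_mul_right hq c

/-- Null sets of configurations do not matter. -/
theorem Bnd.of_ae (hΦ : AdmissiblePotential Φ) (hf : Measurable f₀)
    {Good : (n : ℕ) → Config n → Prop} (hGood : ∀ n, ∀ᵐ Z : Config n, Good n Z)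
    (h : Bnd Φ f₀ ε T' G q)
    (hFG : ∀ (k m : ℕ) (V : Config k) (w : Config m) (j : Fin k), V ∈ PairExcluded ε k →
      w ∈ PairExcluded ε m → Perp ε V w → Good (k + m) (Fin.append V w) →
      F k m V w j ≤ G k m V w j) : Bnd Φ f₀ ε T' F q := by
  set M : (n : ℕ) → Set (Config n) := fun n => toMeasurable volume {Z | ¬ Good n Z} with hM
  have hM0 : ∀ n, volume (M n) = 0 := by
    intro n
    rw [hM, measure_toMeasurable]
    exact hGood n
  have hMm : ∀ n, MeasurableSet (M n) := fun n => measurableSet_toMeasurable _ _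
  have hsub : ∀ n Z, ¬ Good n Z → Z ∈ M n := fun n Z hZ => subset_toMeasurable _ _ hZ
  set B₀ : (k m : ℕ) → Config k → Config m → Fin k → ℝ≥0∞ := fun k m V w _ =>
    (M (k + m)).indicator (fun _ => (∞ : ℝ≥0∞)) (Fin.append V w : Config (k + m)) with hB₀
  have hB₀m : MeasMS B₀ := fun k m j =>
    (measurable_const.indicator (hMm (k + m))).comp measurable_append
  have hB₀0 : MS f₀ ε B₀ = 0 := by
    unfold MS
    rw [ENNReal.tsum_eq_zero]
    intro k
    refine mul_eq_zero_of_right _ ?_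
    have hz : ∀ m, ∀ᵐ V : Config k, ∀ᵐ w : Config m, (Fin.append V w : Config (k + m)) ∉ M (k + m) := by
      intro m
      have h1 : ∫⁻ Z : Config (k + m), (M (k + m)).indicator (fun _ => (1 : ℝ≥0∞)) Z = 0 := by
        rw [lintegral_indicator_const (hMm _), hM0, mul_zero]
      rw [lintegral_append _ (measurable_const.indicator (hMm _))] at h1
      have hm2 : Measurable fun V : Config k => ∫⁻ w : Config m,
          (M (k + m)).indicator (fun _ => (1 : ℝ≥0∞)) (Fin.append V w : Config (k + m)) :=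
        Measurable.lintegral_prod_right' (f := fun p : Config k × Config m =>
          (M (k + m)).indicator (fun _ => (1 : ℝ≥0∞)) (Fin.append p.1 p.2 : Config (k + m)))
          ((measurable_const.indicator (hMm _)).comp measurable_append)
      rw [lintegral_eq_zero_iff hm2] at h1
      filter_upwards [h1] with V hV
      have hV' : ∫⁻ w : Config m,
          (M (k + m)).indicator (fun _ => (1 : ℝ≥0∞)) (Fin.append V w : Config (k + m)) = 0 := hV
      have hm3 : Measurable fun w : Config m =>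
          (M (k + m)).indicator (fun _ => (1 : ℝ≥0∞)) (Fin.append V w : Config (k + m)) :=
        (measurable_const.indicator (hMm _)).comp (measurable_append_right V)
      rw [lintegral_eq_zero_iff hm3] at hV'
      filter_upwards [hV'] with w hw hmem
      rw [Pi.zero_apply, indicator_of_mem hmem] at hw
      exact one_ne_zero hw
    have hz' : ∀ᵐ V : Config k, ∀ m, ∀ᵐ w : Config m,
        (Fin.append V w : Config (k + m)) ∉ M (k + m) := ae_all_iff.2 hz
    rw [lintegral_congr_ae (g := fun _ => 0) ?_]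
    · simp
    filter_upwards [hz'] with V hV
    refine mul_eq_zero_of_right _ ?_
    refine Simul984.gcE_eq_zero_of_ae f₀ ε fun m => ?_
    filter_upwards [hV m] with w hw
    simp [hB₀, indicator_of_notMem hw]
  have hsum : Bnd Φ f₀ ε T' (fun k m V w j => G k m V w j + B₀ k m V w j) (q + 0) :=
    h.add hΦ hf (Bnd.of_B hB₀m (fun _ _ _ _ _ _ _ _ => le_rfl) hB₀0.le)
  rw [add_zero] at hsum
  refine hsum.mono fun k m V w j hV hw hp => ?_
  by_cases hg : Good (k + m) (Fin.append V w)
  · exact (hFG k m V w j hV hw hp hg).trans le_self_add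
  · have h1 : (Fin.append V w : Config (k + m)) ∈ M (k + m) := hsub _ _ hg
    have h2 : B₀ k m V w j = ∞ := by
      rw [hB₀]
      exact indicator_of_mem h1 _
    rw [h2, add_top]
    exact le_top

/-- One tree is enough (`HTreeP` writes the cluster). -/
theorem le_ways_of (hΦ : AdmissiblePotential Φ) (hε : 0 < ε) {k : ℕ} {V : Config k} {j : Fin k}
    {c : ℝ≥0∞} {H : (P : CTree) → PhasePoint × Par P → ℝ≥0∞} {P : CTree} {ℓ : PhasePoint}
    {p : Par P} (e : Idx P ≃ Fin k) (h0 : e (Tree674.root P) = j) (hv : Valid Φ ε P T' ℓ.2 p)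
    (hV : ∀ x, V (e x) = lines Φ ε P ℓ p x) (hc : c ≤ H P (ℓ, p)) :
    c ≤ ways Φ ε T' H V j := hc.trans (le_ways hΦ hε h0 hv hV)

end Crest.Agent.R122.InEq2

end
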