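import Crest.Agent.R122.InEq2BindA_311
import Crest.Agent.R122.SizeX4_974
import Crest.Agent.R122.D5Main_726

/-!
# Row 122, INEQUALITY 2' (helper311): histories which are not trees (`FNG`, `FNC`)

From D5 (helper726, helper416): the clusters whose history is not a tree have mass `→ 0`.
-/

set_option autoImplicit false

open MeasureTheory Set Filter Topology
open scoped ENNReal
open Crest.AnalysisR.Kinetic
open Crest.Agent.R122.Master566 Crest.Agent.R122.GIV566 Crest.Agent.R122.Top602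
open Crest.Agent.R122.EDefs602 Crest.Agent.R122.GC311 Crest.Agent.R122.Causal291
open Crest.Agent.R122.Kin796 Crest.Agent.R122.Kin796.CTree Crest.Agent.R122.Tree674

noncomputable section

open scoped Classical

namespace Crest.Agent.R122.InEq2

variable {Φ : Space3 → ℝ} {f₀ : PhasePoint → ℝ} {f : ℝ → PhasePoint → ℝ} {ε : ℝ} {K : ℕ}
  {A : EPar} {T' te : ℝ}

/-- **The bad clusters**: a measurable functional of mass `→ 0` which dominates the energy weight
of the clusters with at most `K` members whose history is not a tree. -/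
theorem exists_bad {β T : ℝ} (hD : KData Φ β T f₀ f) (K : ℕ) (hte : 0 ≤ te) (hteT : te < T') :
    ∃ (q : ℝ → ℝ≥0∞) (B : ℝ → (k m : ℕ) → Config k → Config m → Fin k → ℝ≥0∞),
      Tendsto q (𝓝[>] 0) (𝓝 0) ∧ (∀ ε, MeasMS (B ε)) ∧ (∀ ε, 0 < ε → MS f₀ ε (B ε) ≤ q ε) ∧
      ∀ ε, 0 < ε → ∀ (k m : ℕ) (V : Config k) (w : Config m) (j : Fin k), k ≤ K →
        V ∈ PairExcluded ε k → w ∈ PairExcluded ε m → Perp ε V w →
        ((∃ s ∈ Icc 0 te, (BC (Ct (pth Φ ε (cat V w)) ε) s (Fin.castAdd m j)).toFinset =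
            block k m ∧ ¬ ∃ (P : CTree) (ℓ : PhasePoint) (p : Par P) (e : Idx P → Fin (k + m)),
              HTreeC Φ ε T' s (cat V w) (Fin.castAdd m j) P ℓ p e) ∨
          (∃ s ∈ Ioc 0 te, preC Φ ε (cat V w) s (Fin.castAdd m j) = block k m ∧
            ¬ ∃ (P : CTree) (ℓ : PhasePoint) (p : Par P) (e : Idx P → Fin (k + m)),
              HTreeP Φ ε T' s (cat V w) (Fin.castAdd m j) P ℓ p e)) →
        bwt ε V w ≤ B ε k m V w j := by
  have hfm : Measurable f₀ := hD.contDiff.continuous.measurable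
  have h1 : ∫⁻ z, ENNReal.ofReal (f₀ z) ≤ 1 :=
    (FM167.lintegral_density_eq_one hD.nonneg hD.integrable hD.mass).le
  obtain ⟨γ, -, hγ, hvol⟩ := Chain726.d5Vol_of_kData hD
  obtain ⟨N, hNm, -, -, hNb, hN⟩ := NG416.ngin_mecke (Chain726.permCov_badFam hD.adm T' te) hγ
    (hvol te T' hte hteT K) hfm h1 hD.gaussian
  refine ⟨fun ε => (activity ε)⁻¹ * MS f₀ ε (fun k m V w j => NG416.Wt V * N ε k V j),
    fun ε k m V w j => if 0 < ε then (activity ε)⁻¹ * (NG416.Wt V * N ε k V j) else 0, hN,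
    fun ε k m j => ?_, fun ε hε => ?_, fun ε hε k m V w j hk hV hw hp hs => ?_⟩
  · by_cases hε : 0 < ε
    · simp only [if_pos hε]
      exact ((NG416.measurable_Wt.comp measurable_fst).mul
        ((hNm ε k j).comp measurable_fst)).const_mul _
    · simp only [if_neg hε]
      exact measurable_const
  · simp only [if_pos hε]
    exact (MS_const_mul (ENNReal.inv_ne_top.2 (activity_ne_zero hε)) _).le
  · have hdom : (Fin.append V w : Config (k + m)) ∈ Flow671.Dom Φ (Fin (k + m)) :=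
      append_dom hε hV hw hp
    have e : (fun x => (Fin.append V w : Config (k + m)) (Fin.castAddEmb m x)) = V := by
      funext x
      exact Fin.append_left _ _ _
    have key : Chain726.BadCh Φ ε T' te
        (fun x => (Fin.append V w : Config (k + m)) (Fin.castAddEmb m x)) j →
        bwt ε V w ≤ if 0 < ε then (activity ε)⁻¹ * (NG416.Wt V * N ε k V j) else 0 := by
      intro h
      rw [if_pos hε]
      unfold bwt
      rw [show eW (cat V w) (block k m) = NG416.Wt V from SizeX974.eW_append_block V w]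
      refine mul_le_mul_right ?_ _
      rw [e] at h
      exact le_mul_of_one_le_right bot_le (hNb ε hε k hk V hV j ⟨hε, h⟩)
    rcases hs with ⟨s, hs, hb, hno⟩ | ⟨s, hs, hb, hno⟩
    · have hVr : ∀ a, Past (Ct (pth Φ ε (Fin.append V w : Config (k + m))) ε) s
          ((Fin.castAddEmb m) j) 0 a ↔ a ∈ range (Fin.castAddEmb m : Fin k ↪ Fin (k + m)) := by
        intro a
        have h2 : a ∈ (BC (Ct (pth Φ ε (cat V w)) ε) s (Fin.castAdd m j)).toFinset ↔
            a ∈ block k m := by rw [hb]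
        rw [Set.mem_toFinset] at h2
        refine Iff.trans h2 ?_
        rw [mem_block]
        rfl
      rcases Chain726.det_pth (T := T') hD.adm hε hdom hs hteT hVr with ⟨Q, g, ℓ, p, h⟩ | h
      · exact absurd ⟨Q, ℓ, p, _, h⟩ hno
      · exact key h
    · have hVr : ∀ a, a ∈ Inf879.pre (Ct (pth Φ ε (Fin.append V w : Config (k + m))) ε)
          ((Fin.castAddEmb m) j) s 0 ↔ a ∈ range (Fin.castAddEmb m : Fin k ↪ Fin (k + m)) := by
        intro a
        have h2 : a ∈ preC Φ ε (cat V w) s (Fin.castAdd m j) ↔ a ∈ block k m := by rw [hb]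
        rw [mem_preC_iff_pre (cat V w) hs.1] at h2
        refine Iff.trans h2 ?_
        rw [mem_block]
        rfl
      rcases Chain726.det_pth_pre (T := T') hD.adm hε hdom hs hteT hVr with ⟨Q, g, ℓ, p, h⟩ | h
      · exact absurd ⟨Q, ℓ, p, _, h⟩ hno
      · exact key h

/-- **Histories before the infection time which are not trees.** -/
theorem inB_FNG {β T : ℝ} {γ : ℝ → ℝ} {ρ : ℝ≥0∞} (hD : KData Φ β T f₀ f) {h₀ : ℝ}
    (hh₀ : 0 < h₀) : InB Φ f₀ f T γ ρ h₀ FNG := by
  refine InB.of_null ⟨h₀ / 2, half_pos hh₀, 1, fun h L tw te hh hhle _ _ hwin _ K => ?_⟩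
  have hte0 : 0 ≤ te := hwin.nonneg.trans hwin.le
  have hteT : te < tw + h₀ := by linarith [hwin.short]
  obtain ⟨q, B, hq, hBm, hBq, hb⟩ := exists_bad hD K hte0 hteT
  refine ⟨q, hq, ?_⟩
  filter_upwards [self_mem_nhdsWithin] with ε hε
  refine Bnd.of_B (hBm ε) (fun k m V w j hV hw hp => ?_) (hBq ε hε)
  unfold FNG
  by_cases hF : JI Φ ε K (epar γ ρ L tw te) V w j ∧
      ¬ HT Φ ε K (epar γ ρ L tw te) (tw + h₀) V w j
  · rw [if_pos hF]
    have htw : 0 ≤ (epar γ ρ L tw te).tw := hwin.nonneg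
    refine hb ε hε k m V w j (hF.1.le_K hD.adm hε htw) hV hw hp (Or.inr
      ⟨sgm Φ ε K (epar γ ρ L tw te) V w j, ⟨hF.1.pos htw, hF.1.2.1.2⟩, hF.1.1, hF.2⟩)
  · rw [if_neg hF]
    exact zero_le

/-- The closed cluster has at most `2K` members. -/
theorem JC.le {k m : ℕ} {V : Config k} {w : Config m} {j : Fin k} (h : JC Φ ε K A V w j) :
    k ≤ 2 * K := by
  have h1 : gasSize Φ ε (k + m) (cat V w) (sgm Φ ε K A V w j) (Fin.castAdd m j) = k := by
    have h2 : gasSize Φ ε (k + m) (cat V w) (sgm Φ ε K A V w j) (Fin.castAdd m j) =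
        (BC (Ct (pth Φ ε (cat V w)) ε) (sgm Φ ε K A V w j) (Fin.castAdd m j)).ncard := rfl
    rw [h2, ← Set.coe_toFinset (BC (Ct (pth Φ ε (cat V w)) ε) (sgm Φ ε K A V w j)
      (Fin.castAdd m j)), h.1, ncard_coe_finset, card_block]
  have h3 := h.2.2.2
  rw [h1] at h3
  exact h3

/-- **Closed histories which are not trees**, size in `(K, 2K]`. -/
theorem inB_FNC {β T : ℝ} {γ : ℝ → ℝ} {ρ : ℝ≥0∞} (hD : KData Φ β T f₀ f) {h₀ : ℝ}
    (hh₀ : 0 < h₀) : InB Φ f₀ f T γ ρ h₀ FNC := by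
  refine InB.of_null ⟨h₀ / 2, half_pos hh₀, 1, fun h L tw te hh hhle _ _ hwin _ K => ?_⟩
  have hte0 : 0 ≤ te := hwin.nonneg.trans hwin.le
  have hteT : te < tw + h₀ := by linarith [hwin.short]
  obtain ⟨q, B, hq, hBm, hBq, hb⟩ := exists_bad hD (2 * K) hte0 hteT
  refine ⟨q, hq, ?_⟩
  filter_upwards [self_mem_nhdsWithin] with ε hε
  refine Bnd.of_B (hBm ε) (fun k m V w j hV hw hp => ?_) (hBq ε hε)
  unfold FNC
  by_cases hF : JC Φ ε K (epar γ ρ L tw te) V w j ∧
      ¬ HTc Φ ε K (epar γ ρ L tw te) (tw + h₀) V w j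
  · rw [if_pos hF]
    refine hb ε hε k m V w j hF.1.le hV hw hp (Or.inl
      ⟨sgm Φ ε K (epar γ ρ L tw te) V w j, ⟨iTime_nonneg hte0 _ _, hF.1.2.1.2⟩, hF.1.1, hF.2⟩)
  · rw [if_neg hF]
    exact zero_le

end Crest.Agent.R122.InEq2

end
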