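import Crest.Agent.R122.TreeOwn_335
import Crest.Agent.R122.RtGDet_302
import Crest.Agent.R122.InEq2Defs_311
import Crest.Agent.R122.H5Defs_994

/-!
# Row 122, INEQUALITY 2', touched half (helper335): the deterministic bound

* `cut_of_hTreeP` : helper311's history `HTreeP` gives helper302's `Cut` at every earlier time.
* `exists_exit_touch` : if the cluster `V` (a tree up to `σ-`) has touched the gas `w` before `σ`,
  then an exit line of the tree touches `w` by the time `thV`.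
* `wm_touched_le` : the weight at `σ` is at most the sum over the exit lines of `phi1 + phi2`, plus
  the link term.
-/

set_option autoImplicit false
set_option linter.unusedSectionVars false

open MeasureTheory Set Filter Topology
open scoped ENNReal
open Crest.AnalysisR.Kinetic
open Crest.Agent.R122.Flow671 Crest.Agent.R122.Causal291 Crest.Agent.R122.Loc45
open Crest.Agent.R122.Inf879 Crest.Agent.R122.GC311 Crest.Agent.R122.EDefs602
open Crest.Agent.R122.InEq2 Crest.Agent.R122.EBasic602 Crest.Agent.R122.MWAlg255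
open Crest.Agent.R122.Kin796 Crest.Agent.R122.Kin796.CTree Crest.Agent.R122.Tree674
open Crest.Agent.R122.PathFlow968 Crest.Agent.R122.TreeLines335
open Crest.Agent.R122.RtG302 Crest.Agent.R122.Weight984

namespace Crest.Agent.R122.InEq2T

noncomputable section

open scoped Classical

section det

variable {Φ : Space3 → ℝ} {ε : ℝ} {k m K : ℕ} {V : Config k} {w : Config m} {P : CTree}
  {z : PhasePoint × Par P} {T' σ v te tw : ℝ}

theorem cut_of_hTreeP {κ : Type} [Fintype κ] {Z : κ → PhasePoint} {i : κ} {e : Idx P → κ}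
    (h : HTreeP Φ ε T' σ Z i P z.1 z.2 e) (hv : v < σ) : Cut Φ ε T' v Z P z e where
  inj := h.inj
  agree k s h0 hs hk := h.agree k s h0 (hs.trans_lt hv) hk
  avoid s hs k hk j hj := by
    have hsσ : s < σ := hs.2.trans_lt hv
    by_contra hno
    push Not at hno
    have hk' : e k ∈ pre (Ct (pth Φ ε Z) ε) i σ s := (h.past s hs.1 hsσ (e k)).2 ⟨k, rfl, hk⟩
    obtain ⟨r, hr, hp⟩ := hk'
    have hc : Ct (pth Φ ε Z) ε s (e k) j := by
      unfold Ct
      rw [h.agree k s hs.1 hsσ hk]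
      exact hno
    have hj' : j ∈ pre (Ct (pth Φ ε Z) ε) i σ s := ⟨r, hr, hp.contact hc⟩
    obtain ⟨m', hm', hm2⟩ := (h.past s hs.1 hsσ j).1 hj'
    exact absurd (hj m' hm') (not_lt.2 hm2)

theorem gasP_append (V : Config k) (w : Config m) :
    gasP (Fin.append V w : Config (k + m)) (Fin.natAdd k) = w := by
  funext i
  simp [gasP]

theorem shadowS_of_cut (hΦ : AdmissiblePotential Φ) (hε : 0 < ε) (hT : 0 ≤ T')
    (hV : Valid Φ ε P T' z.1.2 z.2) (hvT : v ≤ T')
    (hX : (Fin.append V w : Config (k + m)) ∈ PairExcluded ε (k + m)) (e : Idx P ≃ Fin k)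
    (h : Cut Φ ε T' v (Fin.append V w) P z (Fin.castAdd m ∘ e)) :
    ShadowS Φ ε (treeStr Φ ε P T' z hε hT hV) v (Fin.append V w) (Fin.castAdd m ∘ e)
      (Fin.natAdd k) where
  toShadow := h.shadow hΦ hε hT hV hvT (pairExcluded_subset_Dom hε _ hX) e
  isoS s hs x hx q hq := by
    rw [h.agree x s hs.1 hs.2.le hx]
    exact h.avoid s ⟨hs.1, hs.2.le⟩ x hx q hq
  excl i j hij := hX i j hij

/-- **The exit lines carry the touch of the cluster.** -/
theorem exists_exit_touch (hΦ : AdmissiblePotential Φ) (hε : 0 < ε) (hT : 0 ≤ T')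
    (hX : (Fin.append V w : Config (k + m)) ∈ PairExcluded ε (k + m))
    (hw : w ∈ PairExcluded ε m) (e : Idx P ≃ Fin k) {i : Fin (k + m)}
    (h : HTreeP Φ ε T' σ (Fin.append V w : Config (k + m)) i P z.1 z.2 (Fin.castAdd m ∘ e))
    (hK : P.leaves ≤ K) (hσte : σ ≤ te) (hteT : te ≤ T')
    (hOk : AllOk Φ ε w (exL Φ ε P z)) (hL : ¬ LinkEx Φ ε K te w (exL Φ ε P z))
    {s : ℝ} (hs : s < σ) (ht : TchV Φ ε K V w s) :
    ∃ x, (MW.cfg w).thetaL Φ ε K te (exL Φ ε P z x) ≤ thV Φ ε K te V w := by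
  have h0 : 0 ≤ s := tchV_nonneg hΦ hε ht
  have hte : 0 ≤ te := (h0.trans hs.le).trans hσte
  set θ := thV Φ ε K te V w with hθ
  have hθs : θ ≤ s := thV_le_of_tchV hΦ hε hw hX ⟨h0, hs.le.trans hσte⟩ ht
  have hθ0 : 0 ≤ θ := MW.theta_nonneg hte
  have hθσ : θ < σ := hθs.trans_lt hs
  obtain ⟨v, hv1, hv2⟩ := exists_between hθσ
  have hvT : v ≤ T' := (hv2.le.trans hσte).trans hteT
  have hcut := cut_of_hTreeP h hv2
  have hS := shadowS_of_cut hΦ hε hT h.valid hvT hX e hcut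
  have hOk' : ((treeStr Φ ε P T' z hε hT h.valid).wL v
      (gasP (Fin.append V w : Config (k + m)) (Fin.natAdd k))).Ok Φ ε := by
    rw [gasP_append]
    exact hOk _
  have htθ : TchV Φ ε K V w θ :=
    (tchV_iff_thV hΦ hε hw hX ⟨hθ0, (hθσ.le.trans hσte)⟩).2 le_rfl
  have hK' : Fintype.card (Idx P) ≤ K := by rw [card_idx]; exact hK
  have hmk : ∀ x ∈ (treeStr Φ ε P T' z hε hT h.valid).born v,
      (BC (Ct (pth Φ ε (Fin.append V w : Config (k + m))) ε)
        ((treeStr Φ ε P T' z hε hT h.valid).σ ((treeStr Φ ε P T' z hε hT h.valid).j x))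
        ((Fin.castAdd m ∘ e) ((treeStr Φ ε P T' z hε hT h.valid).j x))).ncard ≤
      ((treeStr Φ ε P T' z hε hT h.valid).ls x).2 := by
    intro x hx
    have hx' : prot P T' z.2 x.1 < v := Str.mem_born.1 hx
    exact own_card hΦ hε hT h.valid h.sep hvT hS x.2 hx'
  have ht' : Causal291.Touched
      (pth Φ ε (gasP (Fin.append V w : Config (k + m)) (Fin.natAdd k)))
      (pth Φ ε (Fin.append V w : Config (k + m))) (Fin.natAdd k) ε
      (fun s l => K < (BC (Ct (pth Φ ε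
        (gasP (Fin.append V w : Config (k + m)) (Fin.natAdd k))) ε) s l).ncard)
      (fun s j => K < (BC (Ct (pth Φ ε (Fin.append V w : Config (k + m))) ε) s j).ncard) θ := by
    rw [gasP_append]
    unfold TchV at htθ
    simp only [gInf_iff] at htθ
    exact htθ
  have htt := hS.touched_exits hΦ hε (hθ0.trans hv1.le) hOk' hmk hK' hv1 ht'
  rw [gasP_append] at htt
  rcases exists_touch hΦ hε hOk ⟨hθ0, hθσ.le.trans hσte⟩ htt with ⟨x, _, hx⟩ | hl
  · exact ⟨x, hx⟩
  · exact absurd hl hL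

/-! ### The weights -/

/-- Touch in the window of a marked line born before the end of the window. -/
def phi1 (Φ : Space3 → ℝ) (ε : ℝ) (K : ℕ) (Q : EPar) (m : ℕ) (w : Config m) (l : ML) : ℝ≥0∞ :=
  if l.1.1 ≤ Q.te then (MW.cfg w).touchW Φ ε K Q l else 0

/-- Touch before the window. -/
def phi2 (Φ : Space3 → ℝ) (ε : ℝ) (K : ℕ) (Q : EPar) (m : ℕ) (w : Config m) (l : ML) : ℝ≥0∞ :=
  if l.1.1 ≤ Q.tw ∧ (MW.cfg w).thetaL Φ ε K Q.tw l ≤ Q.tw then 1 else 0

/-- **The weight at the infection time**, touched case. -/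
theorem wm_touched_le (hΦ : AdmissiblePotential Φ) (hε : 0 < ε) (hT : 0 ≤ T') {Q : EPar}
    (hQL : 0 < Q.L) (htw : 0 ≤ Q.tw) (htwe : Q.tw ≤ Q.te) (hteT : Q.te ≤ T')
    (hX : (Fin.append V w : Config (k + m)) ∈ PairExcluded ε (k + m))
    (hw : w ∈ PairExcluded ε m) (e : Idx P ≃ Fin k) {i : Fin (k + m)}
    (h : HTreeP Φ ε T' σ (Fin.append V w : Config (k + m)) i P z.1 z.2 (Fin.castAdd m ∘ e))
    (hK : P.leaves ≤ K) (hσte : σ ≤ Q.te)
    (hOk : AllOk Φ ε w (exL Φ ε P z)) (hL : ¬ LinkEx Φ ε K Q.te w (exL Φ ε P z))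
    {s : ℝ} (hs : s < σ) (ht : TchV Φ ε K V w s) :
    (MW.cfg (Fin.append V w : Config (k + m))).Wm Φ ε K Q σ ≤
      (∑ x, (phi1 Φ ε K Q m w (exL Φ ε P z x) + phi2 Φ ε K Q m w (exL Φ ε P z x))) +
        ENNReal.ofReal Q.L * lineM Q.γ Q.ρ K Q.te (lkV Φ ε K Q.te V w) := by
  have h0 : 0 ≤ s := tchV_nonneg hΦ hε ht
  have hte : 0 ≤ Q.te := htw.trans htwe
  set θ := thV Φ ε K Q.te V w with hθ
  have hθs : θ ≤ s := thV_le_of_tchV hΦ hε hw hX ⟨h0, hs.le.trans hσte⟩ ht
  have hθ0 : 0 ≤ θ := MW.theta_nonneg hte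
  have hθσ : θ < σ := hθs.trans_lt hs
  obtain ⟨x, hx⟩ := exists_exit_touch hΦ hε hT hX hw e h hK hσte hteT hOk hL hs ht
  rw [← hθ] at hx
  set θx := (MW.cfg w).thetaL Φ ε K Q.te (exL Φ ε P z x) with hθx
  have hok := MWFam255.okF_of_okFam hΦ hε hOk
  have hbirth : (exL Φ ε P z x).1.1 ≤ θx := by
    have h1 := MW.birth_le_theta (K := K) (T := Q.te) hΦ hε hok.z (hok.line hΦ hε x)
      (τ := min (exL Φ ε P z x).1.1 Q.te) (min_le_right _ _) (fun _ => min_le_left _ _) (by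
        show ∑ _y : Unit, (exL Φ ε P z x).2 ≤ K
        rw [Finset.univ_unique, Finset.sum_singleton]
        exact (mk_le P x.1).trans hK)
    have hb0 : 0 ≤ (exL Φ ε P z x).1.1 :=
      TreeLines335.rel_nonneg hε.le h.valid.2 x.1
    rcases h1 with h1 | h1
    · rcases min_le_iff.1 h1 with h2 | h2
      · exact h2
      · exact absurd ((h2.trans hx).trans_lt hθσ) (not_lt.2 hσte)
    · exact absurd h1 (not_lt.2 (le_min hb0 hte))
  have h1 := wm_append_le (P := Q) hΦ hε hQL (V := V) (w := w) (s := θ) (s' := σ) le_rfl hθσ.le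
  refine h1.trans (add_le_add ?_ le_rfl)
  have h2 : (MW.cfg w).Wm Φ ε K Q θ ≤ (MW.cfg w).Wm Φ ε K Q θx := W_anti hQL.le (XRm_mono hx)
  refine le_trans ?_ (Finset.single_le_sum (f := fun x => phi1 Φ ε K Q m w (exL Φ ε P z x) +
    phi2 Φ ε K Q m w (exL Φ ε P z x)) (fun _ _ => bot_le) (Finset.mem_univ x))
  rcases lt_or_ge Q.tw θx with h3 | h3
  · refine (h2.trans ?_).trans le_self_add
    unfold phi1
    rw [if_pos (hbirth.trans ((hx.trans hθσ.le).trans hσte))]
    unfold MW.touchW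
    rw [if_pos ⟨h3, (hx.trans hθσ.le).trans hσte⟩]
  · refine le_trans ?_ le_add_self
    unfold phi2
    have h4 : (MW.cfg w).thetaL Φ ε K Q.tw (exL Φ ε P z x) ≤ Q.tw :=
      (MW.theta_le_iff_horizon hΦ hε hok.z (hok.line hΦ hε x) htw htwe le_rfl).1 h3
    rw [if_pos ⟨hbirth.trans h3, h4⟩]
    exact W_le_one hQL.le _

end det

end

end Crest.Agent.R122.InEq2T
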