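import Crest.Agent.R122.InEq2World_311
import Crest.Agent.R122.EBasic_602
import Crest.Agent.R122.EquivE_416
import Crest.Agent.R122.Decomp3E_811
import Crest.Agent.R122.EW1_879
import Crest.Agent.R122.UnwE_410
import Crest.Agent.R122.EFam_879

/-!
# Row 122, INEQUALITY 2', touched half (helper335): the cluster `V` as an inserted world

* `appE` : `Fin m ⊕ Fin k ≃ Fin (k + m)`; `cfg_append` : the gas `V ∪ w` is `cfg w + cfg V` relabelled.
* `tchV_iff` : `TchV` of helper311 is `Touched` of `EDefs_602` for `Z = cfg w`, `A = cfg V`.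
* `thV` : touch time of `V`; `wm_append_le` : comparison of the weights.
-/

set_option autoImplicit false

open MeasureTheory Set Filter Topology
open scoped ENNReal
open Crest.AnalysisR.Kinetic
open Crest.Agent.R122.Flow671 Crest.Agent.R122.Causal291
open Crest.Agent.R122.Inf879 Crest.Agent.R122.GC311 Crest.Agent.R122.EDefs602
open Crest.Agent.R122.EquivE416 Crest.Agent.R122.InEq2 Crest.Agent.R122.Loc45
open Crest.Agent.R122.EBasic602 Crest.Agent.R122.Decomp811 Crest.Agent.R122.Weight984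

namespace Crest.Agent.R122.InEq2T

noncomputable section

open scoped Classical

variable {Φ : Space3 → ℝ} {ε : ℝ} {K : ℕ} {P : EPar} {k m : ℕ}

/-- `w` first, then `V`. -/
def appE (k m : ℕ) : Fin m ⊕ Fin k ≃ Fin (k + m) := (Equiv.sumComm _ _).trans finSumFinEquiv

@[simp] theorem appE_inl (i : Fin m) : appE k m (Sum.inl i) = Fin.natAdd k i := rfl
@[simp] theorem appE_inr (j : Fin k) : appE k m (Sum.inr j) = Fin.castAdd m j := rfl

/-- The gas `V ∪ w` is `cfg w + cfg V` relabelled. -/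
theorem cfg_append (V : Config k) (w : Config m) :
    (MW.cfg (Fin.append V w : Config (k + m))).comap (appE k m) =
      (MW.cfg w).add (MW.cfg V) := by
  unfold MW.comap MW.add MW.cfg
  congr 1
  · funext x; rcases x with x | x <;> rfl
  · funext x
    rcases x with x | x
    · exact Fin.append_right V w x
    · exact Fin.append_left V w x
  · funext x; rcases x with x | x <;> rfl

theorem path_append (hΦ : AdmissiblePotential Φ) (hε : 0 < ε) (V : Config k) (w : Config m)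
    (t : ℝ) (x : Fin m ⊕ Fin k) :
    ((MW.cfg w).add (MW.cfg V)).path Φ ε t x =
      pth Φ ε (Fin.append V w : Config (k + m)) t (appE k m x) := by
  rw [← cfg_append, path_comap hΦ hε]
  exact congrFun (congrFun (cfg_path hΦ hε (Fin.append V w : Config (k + m))) t) _

/-- Contacts of `cfg w + cfg V` are the contacts of the gas `V ∪ w`. -/
theorem C_append (hΦ : AdmissiblePotential Φ) (hε : 0 < ε) {V : Config k} {w : Config m}
    (hVw : (Fin.append V w : Config (k + m)) ∈ PairExcluded ε (k + m)) {s : ℝ} (hs : 0 ≤ s)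
    (x y : Fin m ⊕ Fin k) : ((MW.cfg w).add (MW.cfg V)).C Φ ε s x y ↔
      Ct (pth Φ ε (Fin.append V w : Config (k + m))) ε s (appE k m x) (appE k m y) := by
  rw [← cfg_append, C_comap hΦ hε]
  exact cfg_C_iff hΦ hε hVw hs _ _

/-- Infection in `cfg w + cfg V` is the infection in the gas `V ∪ w`. -/
theorem inf_append (hΦ : AdmissiblePotential Φ) (hε : 0 < ε) {V : Config k} {w : Config m}
    (hVw : (Fin.append V w : Config (k + m)) ∈ PairExcluded ε (k + m)) (s : ℝ)
    (x : Fin m ⊕ Fin k) : ((MW.cfg w).add (MW.cfg V)).Inf Φ ε K s x ↔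
      GInf Φ ε K (Fin.append V w : Config (k + m)) s (appE k m x) := by
  rw [← cfg_append, inf_comap hΦ hε, gInf_iff]
  exact cfg_inf_iff_size hΦ hε hVw s _

theorem inf_gas (hΦ : AdmissiblePotential Φ) (hε : 0 < ε) {w : Config m}
    (hw : w ∈ PairExcluded ε m) (s : ℝ) (i : Fin m) :
    (MW.cfg w).Inf Φ ε K s i ↔ GInf Φ ε K w s i := by
  rw [gInf_iff]
  exact cfg_inf_iff_size hΦ hε hw s i

theorem not_mem_range_natAdd {j : Fin (k + m)} (h : j ∉ range (Fin.natAdd k : Fin m → Fin (k + m))) :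
    ∃ i : Fin k, j = Fin.castAdd m i := by
  induction j using Fin.addCases with
  | left i => exact ⟨i, rfl⟩
  | right l => exact absurd ⟨l, rfl⟩ h

/-- The influence of `V` on the gas `w`. -/
theorem fut_iff (hΦ : AdmissiblePotential Φ) (hε : 0 < ε) {V : Config k} {w : Config m}
    (hw : w ∈ PairExcluded ε m)
    (hVw : (Fin.append V w : Config (k + m)) ∈ PairExcluded ε (k + m)) {s : ℝ} {i : Fin m} :
    Causal291.Fut (pth Φ ε w) (pth Φ ε (Fin.append V w : Config (k + m))) id (Fin.natAdd k) ε s i ↔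
      (MW.cfg w).Fut Φ ε (MW.cfg V) s i := by
  have hp0 : ∀ i, (MW.cfg w).path Φ ε 0 i = pth Φ ε w 0 i := fun i => by rw [cfg_path hΦ hε]
  have hp1 : ∀ i : Fin m, ((MW.cfg w).add (MW.cfg V)).path Φ ε 0 (Sum.inl i) =
      pth Φ ε (Fin.append V w : Config (k + m)) 0 (Fin.natAdd k i) := fun i =>
    path_append hΦ hε V w 0 (Sum.inl i)
  constructor
  · intro h
    unfold MW.Fut
    induction h with
    | @init s i h hs =>
      refine .init ?_ hs
      show (MW.cfg w).path Φ ε 0 i ≠ ((MW.cfg w).add (MW.cfg V)).path Φ ε 0 (Sum.inl i)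
      rw [hp0, hp1]; exact h
    | new₁ j hj => exact absurd ⟨j, rfl⟩ hj
    | @new₂ s s' i j hj hc h0 hs =>
      obtain ⟨x, rfl⟩ := not_mem_range_natAdd hj
      exact .new₂ (Sum.inr x) (by rintro ⟨y, hy⟩; cases hy)
        ((C_append hΦ hε hVw h0 (Sum.inr x) (Sum.inl i)).2 hc) h0 hs
    | @chain₁ s s' i l h hc hs ih =>
      exact .chain₁ ih ((cfg_C_iff hΦ hε hw h.nonneg l i).2 hc) hs
    | @chain₂ s s' i l h hc hs ih =>
      exact .chain₂ ih ((C_append hΦ hε hVw h.nonneg (Sum.inl l) (Sum.inl i)).2 hc) hs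
  · intro h
    unfold MW.Fut at h
    induction h with
    | @init s i h hs =>
      refine .init ?_ hs
      have h' : (MW.cfg w).path Φ ε 0 i ≠ ((MW.cfg w).add (MW.cfg V)).path Φ ε 0 (Sum.inl i) := h
      rw [hp0, hp1] at h'; exact h'
    | new₁ j hj => exact absurd ⟨j, rfl⟩ hj
    | @new₂ s s' i j hj hc h0 hs =>
      rcases j with j | x
      · exact absurd ⟨j, rfl⟩ hj
      · refine .new₂ (Fin.castAdd m x) ?_ ((C_append hΦ hε hVw h0 (Sum.inr x) (Sum.inl i)).1 hc) h0 hs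
        rintro ⟨l, hl⟩
        have := congrArg Fin.val hl
        simp only [Fin.val_natAdd, Fin.val_castAdd] at this
        omega
    | @chain₁ s s' i l h hc hs ih =>
      exact .chain₁ ih ((cfg_C_iff hΦ hε hw h.nonneg l i).1 hc) hs
    | @chain₂ s s' i l h hc hs ih =>
      exact .chain₂ ih ((C_append hΦ hε hVw h.nonneg (Sum.inl l) (Sum.inl i)).1 hc) hs

/-- **`TchV` is the touch event of `EDefs_602`.** -/
theorem tchV_iff (hΦ : AdmissiblePotential Φ) (hε : 0 < ε) {V : Config k} {w : Config m}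
    (hw : w ∈ PairExcluded ε m)
    (hVw : (Fin.append V w : Config (k + m)) ∈ PairExcluded ε (k + m)) (s : ℝ) :
    TchV Φ ε K V w s ↔ (MW.cfg w).Touched Φ ε K (MW.cfg V) s := by
  constructor
  · rintro (⟨l, hl, h⟩ | ⟨j, hj, h⟩)
    · refine Or.inl ⟨l, (fut_iff hΦ hε hw hVw).1 hl, ?_⟩
      rcases h with h | h
      · exact Or.inl ((inf_gas hΦ hε hw s l).2 h)
      · exact Or.inr ((inf_append hΦ hε hVw s (Sum.inl l)).2 h)
    · obtain ⟨x, rfl⟩ := not_mem_range_natAdd hj
      exact Or.inr (Or.inr ⟨Sum.inr x, (by rintro ⟨y, hy⟩; cases hy),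
        (inf_append hΦ hε hVw s (Sum.inr x)).2 h⟩)
  · rintro (⟨l, hl, h⟩ | ⟨j, hj, h⟩ | ⟨j, hj, h⟩)
    · refine Or.inl ⟨l, (fut_iff hΦ hε hw hVw).2 hl, ?_⟩
      rcases h with h | h
      · exact Or.inl ((inf_gas hΦ hε hw s l).1 h)
      · exact Or.inr ((inf_append hΦ hε hVw s (Sum.inl l)).1 h)
    · exact absurd ⟨j, rfl⟩ hj
    · rcases j with j | x
      · exact absurd ⟨j, rfl⟩ hj
      · refine Or.inr ⟨Fin.castAdd m x, ?_, (inf_append hΦ hε hVw s (Sum.inr x)).1 h⟩
        rintro ⟨l, hl⟩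
        have := congrArg Fin.val hl
        simp only [Fin.val_natAdd, Fin.val_castAdd] at this
        omega

/-! ### Good worlds -/

theorem add_ok (hΦ : AdmissiblePotential Φ) (hε : 0 < ε) {V : Config k} {w : Config m}
    (hVw : (Fin.append V w : Config (k + m)) ∈ PairExcluded ε (k + m)) :
    ((MW.cfg w).add (MW.cfg V)).Ok Φ ε := by
  rw [← cfg_append]
  exact (Unw410.cfg_ok hΦ hε hVw).comap hΦ hε _

/-- Touch time of the cluster `V` in the gas `w`, horizon `T`. -/
def thV (Φ : Space3 → ℝ) (ε : ℝ) (K : ℕ) (T : ℝ) (V : Config k) (w : Config m) : ℝ :=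
  (MW.cfg w).theta Φ ε K T (MW.cfg V)

theorem tchV_iff_thV (hΦ : AdmissiblePotential Φ) (hε : 0 < ε) {V : Config k} {w : Config m}
    (hw : w ∈ PairExcluded ε m)
    (hVw : (Fin.append V w : Config (k + m)) ∈ PairExcluded ε (k + m)) {s T : ℝ}
    (hs : s ∈ Icc 0 T) : TchV Φ ε K V w s ↔ thV Φ ε K T V w ≤ s := by
  rw [tchV_iff hΦ hε hw hVw]
  exact MW.touched_iff hΦ hε (Unw410.cfg_ok hΦ hε hw) (add_ok hΦ hε hVw) hs

theorem thV_le_of_tchV (hΦ : AdmissiblePotential Φ) (hε : 0 < ε) {V : Config k} {w : Config m}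
    (hw : w ∈ PairExcluded ε m)
    (hVw : (Fin.append V w : Config (k + m)) ∈ PairExcluded ε (k + m)) {s T : ℝ}
    (hs : s ∈ Icc 0 T) (h : TchV Φ ε K V w s) : thV Φ ε K T V w ≤ s :=
  (tchV_iff_thV hΦ hε hw hVw hs).1 h

theorem tchV_nonneg (hΦ : AdmissiblePotential Φ) (hε : 0 < ε) {V : Config k} {w : Config m} {s : ℝ}
    (h : TchV Φ ε K V w s) : 0 ≤ s := by
  rcases h with ⟨l, hl, _⟩ | ⟨j, _, h⟩
  · exact hl.nonneg
  · exact Infd.nonneg h

/-- Untouched before `σ ≤ T`. -/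
theorem le_thV (hΦ : AdmissiblePotential Φ) (hε : 0 < ε) {V : Config k} {w : Config m}
    (hw : w ∈ PairExcluded ε m)
    (hVw : (Fin.append V w : Config (k + m)) ∈ PairExcluded ε (k + m)) {σ T : ℝ}
    (hσ0 : 0 ≤ σ) (hσ : σ ≤ T) (h : ∀ s < σ, ¬ TchV Φ ε K V w s) : σ ≤ thV Φ ε K T V w := by
  by_contra hlt
  push Not at hlt
  have h0 : 0 ≤ thV Φ ε K T V w := MW.theta_nonneg (hσ0.trans hσ)
  exact h _ hlt ((tchV_iff_thV hΦ hε hw hVw ⟨h0, hlt.le.trans hσ⟩).2 le_rfl)

/-! ### Weights -/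

/-- The lines linked to `V` (complement of the set on which world consistency holds). -/
def lkV (Φ : Space3 → ℝ) (ε : ℝ) (K : ℕ) (T : ℝ) (V : Config k) (w : Config m) : Set ML :=
  badN Φ ε K T (MW.cfg w) (MW.cfg V)

theorem wm_append (hΦ : AdmissiblePotential Φ) (hε : 0 < ε) (V : Config k) (w : Config m) (s : ℝ) :
    (MW.cfg (Fin.append V w : Config (k + m))).Wm Φ ε K P s =
      ((MW.cfg w).add (MW.cfg V)).Wm Φ ε K P s := by
  rw [← cfg_append, Wm_comap hΦ hε]

/-- **Comparison of the weights**: the weight of the gas `V ∪ w` at a time `s' ≥ s`, `s ≤ θ_V`. -/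
theorem wm_append_le (hΦ : AdmissiblePotential Φ) (hε : 0 < ε) (hL : 0 < P.L) {V : Config k}
    {w : Config m} {s s' : ℝ} (hs : s ≤ thV Φ ε K P.te V w) (hss : s ≤ s') :
    (MW.cfg (Fin.append V w : Config (k + m))).Wm Φ ε K P s' ≤
      (MW.cfg w).Wm Φ ε K P s +
        ENNReal.ofReal P.L * lineM P.γ P.ρ K P.te (lkV Φ ε K P.te V w) := by
  rw [wm_append hΦ hε]
  have h1 : ((MW.cfg w).add (MW.cfg V)).Wm Φ ε K P s' ≤
      ((MW.cfg w).add (MW.cfg V)).Wm Φ ε K P s := W_anti hL.le (XRm_mono hss)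
  exact h1.trans ((cons1_badN Φ ε K P.te (MW.cfg w) (MW.cfg V)).W_XRm_le hL hs)

end

end Crest.Agent.R122.InEq2T
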