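import Crest.Agent.R122.RtGKey_302
import Crest.Agent.R122.InEq2TWorld_335

/-!
# Row 122, INEQUALITY 2', touched half (helper335): from the cluster to its exit lines

`ShadowS` : helper302's `Shadow` with strict isolation of the protected legs.  If, in the real world
`X` (structure + gas `w`), the gas `w` is touched by the structure at a time `s < v`, then the exit
lines born before `v`, inserted in `w`, have touched at time `s` (`ShadowS.touched_exits`).
No link condition is needed: the exit lines carry as marks (upper bounds of) the sizes of the own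
backward clusters.
-/

set_option autoImplicit false
set_option linter.unusedSectionVars false

open MeasureTheory Set Filter Topology
open Crest.AnalysisR.Kinetic
open Crest.Agent.R122.Flow671 Crest.Agent.R122.Causal291
open Crest.Agent.R122.Inf879 Crest.Agent.R122.GC311 Crest.Agent.R122.EDefs602
open Crest.Agent.R122.InEq2 Crest.Agent.R122.EBasic602 Crest.Agent.R122.MWAlg255
open Crest.Agent.R122.RtG302

namespace Crest.Agent.R122.InEq2T

noncomputable section

open scoped Classical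

variable {κ' Ex κ : Type} [Fintype κ'] [Fintype Ex] [Fintype κ]
variable {Φ : Space3 → ℝ} {ε v : ℝ} {G : Str κ' Ex} {m K : ℕ} {X : κ → PhasePoint} {e : κ' → κ}
  {g : Fin m → κ}

/-- `Shadow` with strict isolation and initial exclusion. -/
structure ShadowS (Φ : Space3 → ℝ) (ε : ℝ) (G : Str κ' Ex) (v : ℝ) (X : κ → PhasePoint)
    (e : κ' → κ) (g : Fin m → κ) : Prop extends Shadow Φ ε G v X e g where
  isoS : ∀ s ∈ Ico 0 v, ∀ x, s ≤ G.σ x → ∀ q, (∀ y, e y = q → G.σ y < s) →
    ε < dist (pth Φ ε X s (e x)).1 (pth Φ ε X s q).1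
  excl : ∀ i j, i ≠ j → ε < dist (X i).1 (X j).1

/-- The gas part. -/
def gasP (X : κ → PhasePoint) (g : Fin m → κ) : Config m := fun i => X (g i)

namespace ShadowS

variable (h : ShadowS Φ ε G v X e g)

include h

/-- Protected members are in contact with protected members only. -/
theorem sealed {r : ℝ} (hr : r ∈ Ico 0 v) {x : κ'} (hx : r ≤ G.σ x) {q : κ}
    (hc : Ct (pth Φ ε X) ε r (e x) q) : ∃ y, e y = q ∧ r ≤ G.σ y := by
  by_contra hno
  push Not at hno
  exact absurd hc (not_le.2 (h.isoS r hr x hx q hno))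

theorem gas_mem : gasP X g ∈ PairExcluded ε m := by
  intro i j hij
  exact h.excl _ _ (h.g_inj.ne hij)

/-- strictly visible at time `r` -/
def visS (_ : ShadowS Φ ε G v X e g) (r : ℝ) : Fin m ⊕ G.born v → Prop :=
  Sum.elim (fun _ => True) fun x => G.σ (G.j x) < r

theorem lab_inj : Function.Injective (G.lab v e g) := by
  rintro (a | a) (b | b) hab
  · exact congrArg Sum.inl (h.g_inj hab)
  · exact absurd hab.symm (h.disj _ _)
  · exact absurd hab (h.disj _ _)
  · exact congrArg Sum.inr (Subtype.ext (G.j_inj (h.e_inj hab)))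

theorem path3 (hΦ : AdmissiblePotential Φ) (hε : 0 < ε) (hv0 : 0 ≤ v)
    (hOk : (G.wL v (gasP X g)).Ok Φ ε) {r : ℝ} (hr : r ∈ Icc 0 v) {a : Fin m ⊕ G.born v}
    (ha : (G.wL v (gasP X g)).b a ≤ r) :
    (G.wL v (gasP X g)).path Φ ε r a = pth Φ ε X r (G.lab v e g a) := by
  rcases a with a | a
  · exact h.toShadow.path_eq hΦ hε hv0 hOk.bw hr a
  · refine h.toShadow.path_eq_exit hΦ hε hv0 hOk.bw hr a ?_
    rw [← G.birth]
    exact ha

/-- A contact of a strictly visible particle is a contact of the world with lines. -/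
theorem real_c3 (hΦ : AdmissiblePotential Φ) (hε : 0 < ε) (hv0 : 0 ≤ v)
    (hOk : (G.wL v (gasP X g)).Ok Φ ε) {r : ℝ} (hr : r ∈ Ico 0 v) {a : Fin m ⊕ G.born v}
    (ha : h.visS r a) {q : κ} (hc : Ct (pth Φ ε X) ε r (G.lab v e g a) q) :
    ∃ b, h.visS r b ∧ q = G.lab v e g b ∧ (G.wL v (gasP X g)).C Φ ε r a b := by
  have hba : (G.wL v (gasP X g)).b a ≤ r ∧ (0 < r → (G.wL v (gasP X g)).b a < r) := by
    rcases a with a | a
    · exact ⟨hr.1, fun h0 => h0⟩
    · have h1 : G.σ (G.j a) < r := ha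
      have h2 : (G.ls a).1.1 < r := by rw [G.birth]; exact h1
      exact ⟨h2.le, fun _ => h2⟩
  have hr' : r ∈ Icc 0 v := ⟨hr.1, hr.2.le⟩
  -- the partner
  obtain ⟨b, hb, rfl⟩ : ∃ b, h.visS r b ∧ q = G.lab v e g b := by
    rcases h.cover q with ⟨y, rfl⟩ | ⟨i, rfl⟩
    · have hy : G.σ y < r := by
        by_contra hno
        push Not at hno
        obtain ⟨y', hy', hy2⟩ := h.sealed hr hno hc.symm
        rcases a with a | a
        · exact h.disj y' a hy'
        · have : y' = G.j a := h.e_inj hy'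
          subst this
          exact absurd ha (not_lt.2 hy2)
      obtain ⟨x, rfl⟩ := h.exits y (hy.trans hr.2)
      exact ⟨Sum.inr ⟨x, Str.mem_born.2 (hy.trans hr.2)⟩, hy, rfl⟩
    · exact ⟨Sum.inl i, trivial, rfl⟩
  refine ⟨b, hb, rfl, ?_⟩
  have hbb : (G.wL v (gasP X g)).b b ≤ r := by
    rcases b with b | b
    · exact hr.1
    · have h1 : G.σ (G.j b) < r := hb
      have h2 : (G.ls b).1.1 < r := by rw [G.birth]; exact h1
      exact h2.le
  refine ⟨hba.1, hbb, ?_, ?_⟩
  · rcases hr.1.lt_or_eq with h0 | h0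
    · exact Or.inr (Or.inl (hba.2 h0))
    · left
      by_contra hab
      have h1 := h.excl _ _ (h.lab_inj.ne hab)
      subst h0
      have h2 : Ct (pth Φ ε X) ε 0 (G.lab v e g a) (G.lab v e g b) := hc
      unfold Ct at h2
      have h3 : pth Φ ε X 0 = X := flow_zero hΦ hε X
      rw [h3] at h2
      exact absurd h2 (not_le.2 h1)
  · rw [h.path3 hΦ hε hv0 hOk hr' hba.1, h.path3 hΦ hε hv0 hOk hr' hbb]
    exact hc

/-- The structure influences the gas only through its exit lines. -/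
theorem fut_exits (hΦ : AdmissiblePotential Φ) (hε : 0 < ε) (hv0 : 0 ≤ v)
    (hOk : (G.wL v (gasP X g)).Ok Φ ε) {s : ℝ} (hs : s < v) {i : Fin m}
    (hf : Causal291.Fut (pth Φ ε (gasP X g)) (pth Φ ε X) id g ε s i) :
    (MW.cfg (gasP X g)).Fut Φ ε (sub G.ls (G.born v)) s i := by
  revert hs
  induction hf with
  | @init s i h0 _ =>
    intro _
    refine absurd ?_ h0
    have h1 : pth Φ ε (gasP X g) 0 = gasP X g := flow_zero hΦ hε _
    have h2 : pth Φ ε X 0 = X := flow_zero hΦ hε X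
    rw [h1, h2]
    rfl
  | new₁ j hj => exact absurd ⟨j, rfl⟩ hj
  | @new₂ s s' i j hj hc h0 hs' =>
    intro hs
    have hr : s' ∈ Ico 0 v := ⟨h0, hs'.trans_lt hs⟩
    obtain ⟨b, hb, hq, hC⟩ := h.real_c3 hΦ hε hv0 hOk hr (a := Sum.inl i) trivial hc.symm
    rcases b with b | b
    · exact absurd ⟨b, hq.symm⟩ hj
    · exact .new₂ (Sum.inr b) (by rintro ⟨y, hy⟩; cases hy) (MW.C_symm _ hC) h0 hs'
  | @chain₁ s s' i l hl hc hs' ih =>
    intro hs
    exact .chain₁ (ih (hs'.trans_lt hs)) ((cfg_C_iff hΦ hε h.gas_mem hl.nonneg l i).2 hc) hs'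
  | @chain₂ s s' i l hl hc hs' ih =>
    intro hs
    have hr : s' ∈ Ico 0 v := ⟨hl.nonneg, hs'.trans_lt hs⟩
    obtain ⟨b, _, hq, hC⟩ := h.real_c3 hΦ hε hv0 hOk hr (a := Sum.inl l) trivial hc
    have hb : b = Sum.inl i := h.lab_inj hq.symm
    subst hb
    exact .chain₂ (ih (hs'.trans_lt hs)) hC hs'

/-- Explorations in the real world in terms of explorations in the world with exit lines. -/
theorem past_dec (hΦ : AdmissiblePotential Φ) (hε : 0 < ε) (hv0 : 0 ≤ v)
    (hOk : (G.wL v (gasP X g)).Ok Φ ε) {s : ℝ} (hs : s < v) {a : Fin m ⊕ G.born v}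
    (ha : h.visS s a) {r : ℝ} {q : κ} (hp : Past (Ct (pth Φ ε X) ε) s (G.lab v e g a) r q) :
    0 ≤ r → (∃ b, h.visS r b ∧ q = G.lab v e g b ∧ Past ((G.wL v (gasP X g)).C Φ ε) s a r b) ∨
      ∃ x : G.born v, r ≤ G.σ (G.j x) ∧
        Past ((G.wL v (gasP X g)).C Φ ε) s a (G.σ (G.j x)) (Sum.inr x) ∧
        Past (Ct (pth Φ ε X) ε) (G.σ (G.j x)) (e (G.j x)) r q := by
  induction hp with
  | @root r hr =>
    intro _
    rcases a with a | a
    · exact Or.inl ⟨Sum.inl a, trivial, rfl, .root hr⟩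
    · rcases lt_or_ge (G.σ (G.j a)) r with h1 | h1
      · exact Or.inl ⟨Sum.inr a, h1, rfl, .root hr⟩
      · have h2 : G.σ (G.j a) < s := ha
        exact Or.inr ⟨a, h1, .root h2.le, .root h1⟩
  | @step r s' q q' hq hc hr ih =>
    intro hr0
    have hs'0 : 0 ≤ s' := hr0.trans hr
    have hs's : s' ≤ s := hq.le
    rcases ih hs'0 with ⟨b, hb, rfl, hb'⟩ | ⟨x, hx, hx1, hx2⟩
    · obtain ⟨b', hb1, rfl, hC⟩ := h.real_c3 hΦ hε hv0 hOk ⟨hs'0, hs's.trans_lt hs⟩ hb hc
      rcases b' with b' | b'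
      · exact Or.inl ⟨Sum.inl b', trivial, rfl, .step hb' hC hr⟩
      · have hlt : G.σ (G.j b') < s' := hb1
        rcases lt_or_ge (G.σ (G.j b')) r with h1 | h1
        · exact Or.inl ⟨Sum.inr b', h1, rfl, .step hb' hC hr⟩
        · exact Or.inr ⟨b', h1, .step hb' hC hlt.le, .root h1⟩
    · exact Or.inr ⟨x, hr.trans hx, hx1, .step hx2 hc hr⟩

/-- **The real size is at most the marked size in the world with exit lines.** -/
theorem size_le (hΦ : AdmissiblePotential Φ) (hε : 0 < ε) (hv0 : 0 ≤ v)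
    (hOk : (G.wL v (gasP X g)).Ok Φ ε)
    (hmk : ∀ x ∈ G.born v, (BC (Ct (pth Φ ε X) ε) (G.σ (G.j x)) (e (G.j x))).ncard ≤ (G.ls x).2)
    {s : ℝ} (hs : s < v) {a : Fin m ⊕ G.born v} (ha : h.visS s a) :
    (BC (Ct (pth Φ ε X) ε) s (G.lab v e g a)).ncard ≤
      msize ((G.wL v (gasP X g)).C Φ ε) (G.wL v (gasP X g)).m s a := by
  set C3 := (G.wL v (gasP X g)).C Φ ε with hC3
  let own : Fin m ⊕ G.born v → Set κ :=
    Sum.elim (fun i => {g i}) fun x => BC (Ct (pth Φ ε X) ε) (G.σ (G.j x)) (e (G.j x))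
  have hsub : (BC (Ct (pth Φ ε X) ε) s (G.lab v e g a)).toFinset ⊆
      (Finset.univ.filter fun b => b ∈ BC C3 s a).biUnion fun b => (own b).toFinset := by
    intro q hq
    rw [Set.mem_toFinset] at hq
    rw [Finset.mem_biUnion]
    rcases h.past_dec hΦ hε hv0 hOk hs ha hq le_rfl with ⟨b, hb, rfl, hb'⟩ | ⟨x, hx, hx1, hx2⟩
    · rcases b with b | b
      · exact ⟨Sum.inl b, Finset.mem_filter.2 ⟨Finset.mem_univ _, hb'⟩, by
          rw [Set.mem_toFinset]; exact mem_singleton _⟩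
      · exact absurd hb (not_lt.2 (G.nonneg _))
    · exact ⟨Sum.inr x, Finset.mem_filter.2 ⟨Finset.mem_univ _, hx1.mono (G.nonneg _)⟩, by
        rw [Set.mem_toFinset]; exact hx2⟩
  have hown : ∀ b, (own b).toFinset.card ≤ (G.wL v (gasP X g)).m b := by
    rintro (b | b)
    · rw [← Set.ncard_eq_toFinset_card']
      exact (Set.ncard_singleton (g b)).le
    · have h1 := hmk b b.2
      rw [Set.ncard_eq_toFinset_card'] at h1
      exact h1
  rw [Set.ncard_eq_toFinset_card']
  calc (BC (Ct (pth Φ ε X) ε) s (G.lab v e g a)).toFinset.card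
      ≤ ((Finset.univ.filter fun b => b ∈ BC C3 s a).biUnion fun b => (own b).toFinset).card :=
        Finset.card_le_card hsub
    _ ≤ ∑ b ∈ Finset.univ.filter fun b => b ∈ BC C3 s a, (own b).toFinset.card :=
        Finset.card_biUnion_le
    _ ≤ ∑ b ∈ Finset.univ.filter fun b => b ∈ BC C3 s a, (G.wL v (gasP X g)).m b :=
        Finset.sum_le_sum fun b _ => hown b
    _ = msize C3 (G.wL v (gasP X g)).m s a := by
        unfold msize
        rw [Finset.sum_filter]

/-- The own past of a protected member consists of members. -/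
theorem past_prot {s : ℝ} (hs : s < v) {x : κ'} (hx : s ≤ G.σ x) {r : ℝ} {q : κ}
    (hp : Past (Ct (pth Φ ε X) ε) s (e x) r q) : 0 ≤ r → ∃ y, e y = q ∧ r ≤ G.σ y := by
  induction hp with
  | @root r hr => exact fun _ => ⟨x, rfl, hr.trans hx⟩
  | @step r s' q q' hq hc hr ih =>
    intro h0
    obtain ⟨y, rfl, hy⟩ := ih (h0.trans hr)
    obtain ⟨y', hy', hy2⟩ := h.sealed ⟨h0.trans hr, hq.le.trans_lt hs⟩ hy hc
    exact ⟨y', hy', hr.trans hy2⟩

/-- **A touch by the structure is a touch by its exit lines.** -/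
theorem touched_exits (hΦ : AdmissiblePotential Φ) (hε : 0 < ε) (hv0 : 0 ≤ v)
    (hOk : (G.wL v (gasP X g)).Ok Φ ε)
    (hmk : ∀ x ∈ G.born v, (BC (Ct (pth Φ ε X) ε) (G.σ (G.j x)) (e (G.j x))).ncard ≤ (G.ls x).2)
    (hK : Fintype.card κ' ≤ K) {s : ℝ} (hs : s < v)
    (ht : Causal291.Touched (pth Φ ε (gasP X g)) (pth Φ ε X) g ε
      (fun s l => K < (BC (Ct (pth Φ ε (gasP X g)) ε) s l).ncard)
      (fun s j => K < (BC (Ct (pth Φ ε X) ε) s j).ncard) s) :
    (MW.cfg (gasP X g)).Touched Φ ε K (sub G.ls (G.born v)) s := by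
  rcases ht with ⟨l, hl, hP⟩ | ⟨j, hj, hP⟩
  · refine Or.inl ⟨l, h.fut_exits hΦ hε hv0 hOk hs hl, ?_⟩
    rcases hP with hP | hP
    · left
      show (MW.cfg (gasP X g)).Inf Φ ε K s l
      rw [cfg_inf_iff_size hΦ hε h.gas_mem]
      exact hP
    · right
      have h1 := h.size_le hΦ hε hv0 hOk hmk hs (a := Sum.inl l) trivial
      exact lt_of_lt_of_le hP h1
  · rcases h.cover j with ⟨y, rfl⟩ | ⟨i, rfl⟩
    · rcases lt_or_ge (G.σ y) s with h1 | h1
      · obtain ⟨x, rfl⟩ := h.exits y (h1.trans hs)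
        have h2 := h.size_le hΦ hε hv0 hOk hmk hs
          (a := Sum.inr ⟨x, Str.mem_born.2 (h1.trans hs)⟩) h1
        exact Or.inr (Or.inr ⟨Sum.inr ⟨x, Str.mem_born.2 (h1.trans hs)⟩,
          (by rintro ⟨y, hy⟩; cases hy), lt_of_lt_of_le hP h2⟩)
      · exfalso
        have h2 : (BC (Ct (pth Φ ε X) ε) s (e y)).ncard ≤ Fintype.card κ' := by
          have h3 : BC (Ct (pth Φ ε X) ε) s (e y) ⊆ range e := by
            intro q hq
            obtain ⟨z, hz, _⟩ := h.past_prot hs h1 hq le_rfl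
            exact ⟨z, hz⟩
          refine (Set.ncard_le_ncard h3 (Set.toFinite _)).trans ?_
          rw [← Set.image_univ, Set.ncard_image_of_injective _ h.e_inj, Set.ncard_univ]
          exact le_of_eq Nat.card_eq_fintype_card
        omega
    · exact absurd ⟨i, rfl⟩ hj

end ShadowS

end

end Crest.Agent.R122.InEq2T
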