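import Crest.Agent.R122.StmtEX_837
import Crest.Agent.R122.EMDefs_602
import Crest.Agent.R122.Q1Data_815

/-!
# Row 122 (helper837): `StmtEX` in the window form of helper602

* `stmtEX_win` : for admissible line parameters (`LinePar`) and all windows.
-/

set_option autoImplicit false

open MeasureTheory Set Filter Topology
open Crest.AnalysisR.Kinetic
open scoped ENNReal

noncomputable section

namespace Crest.Agent.R122.QExit837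

open Crest.Agent.R122.EDefs602 Crest.Agent.R122.Master566 Crest.Agent.R122.OneC285
open Crest.Agent.R122.Top602

variable {Φ : Space3 → ℝ} {f₀ : PhasePoint → ℝ} {f : ℝ → PhasePoint → ℝ}

theorem LinePar.measurable {g1 : ℝ} {r1 : ℝ≥0∞} {T : ℝ} {γ : ℝ → ℝ} {ρ : ℝ≥0∞}
    (h : LinePar g1 r1 T γ ρ) : Measurable γ := by
  obtain ⟨g0, κ, -, hγ, -, -⟩ := h.lin
  rw [hγ]
  fun_prop

/-- **`StmtEX` for all windows.** -/
theorem stmtEX_win {β T : ℝ} (hD : KData Φ β T f₀ f) {h₀ kap lam C b : ℝ}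
    (hK : Seg814.KinC Φ T f h₀ kap lam C b) (hkap : kap ≤ β) :
    ∃ g1 : ℝ, 0 < g1 ∧ ∃ r1 : ℝ≥0∞, r1 < 1 ∧ ∃ r : ℝ≥0∞, r < 1 ∧
      ∀ (γ : ℝ → ℝ) (ρ : ℝ≥0∞), LinePar g1 r1 T γ ρ → ∃ C₀ : ℝ≥0∞, C₀ ≠ ∞ ∧
        ∀ h L tw te : ℝ, Win h T tw te → GIV566.GIV Φ f₀ f T tw →
        ∀ T' : ℝ, 0 < T' → T' ≤ tw + h₀ →
        ∀ m₀ : ℕ, StmtEX Φ f₀ (epar γ ρ L tw te) T' m₀ (C₀ * r ^ m₀) := by
  obtain ⟨g₁, hg₁, ρ₁, hρ₁, r, hr, H⟩ := stmtEX hD hK hkap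
  refine ⟨g₁, hg₁, ρ₁, hρ₁, r, hr, fun γ ρ hP => ?_⟩
  obtain ⟨g0, κ, hκ, hγ, hlow, hup⟩ := hP.lin
  obtain ⟨C₀, hC₀, H'⟩ := H γ ρ (LinePar.measurable hP) hP.lo hP.hi (g0 - κ * T) hlow
  refine ⟨C₀, hC₀, fun h L tw te hW hG T' hT' hT'h m₀ => ?_⟩
  refine H' (epar γ ρ L tw te) rfl rfl ⟨hW.nonneg, hW.le.trans hW.le_T⟩ hG hW.le_T
    (fun τ hτ => ?_) T' hT' hT'h (fun τ hτ => ?_) m₀
  · rw [hγ]
    have h1 : τ ≤ T := hτ.2.trans hW.le_T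
    have h2 := mul_le_mul_of_nonneg_left h1 hκ.le
    show g0 - κ * T ≤ g0 - κ * τ
    linarith
  · rw [hγ]
    have h2 := mul_pos hκ hτ.1
    show g0 - κ * τ ≤ g₁
    linarith

end Crest.Agent.R122.QExit837

end
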