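import Crest.Agent.R122.OneCW_423
import Crest.Agent.R122.StmtEXW_837
import Crest.Agent.R122.SizeCross_815

/-!
# The gas-independent inputs of inequality 1 in the windows (row 122, board H1)

`pieces_evW` : successors (NS), size crossings (XC) and exits (EX) of the one-contact step, with one
horizon `T' = tw + h0` and constants independent of the window.
-/

set_option autoImplicit false

open MeasureTheory Set Filter Topology
open scoped ENNReal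
open Crest.AnalysisR.Kinetic
open Crest.Agent.R122.EDefs602 Crest.Agent.R122.Master566 Crest.Agent.R122.Top602
open Crest.Agent.R122.Q1815 Crest.Agent.R122.OneC285

noncomputable section

namespace Crest.Agent.R122.OneNS423

variable {Φ : Space3 → ℝ} {β T : ℝ} {f₀ : PhasePoint → ℝ} {f : ℝ → PhasePoint → ℝ}

/-- **(NS), (XC), (EX) in the windows**, horizon `T' = tw + h0`. -/
theorem pieces_evW (hD : KData Φ β T f₀ f) : ∃ h1 : ℝ, 0 < h1 ∧ ∃ g1 : ℝ, 0 < g1 ∧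
    ∃ r1 : ℝ≥0∞, r1 < 1 ∧ ∀ (γ : ℝ → ℝ) (ρ : ℝ≥0∞), LinePar g1 r1 T γ ρ →
      ∃ CN : ℝ≥0∞, CN ≠ ∞ ∧ ∃ C0 : ℝ≥0∞, C0 ≠ ∞ ∧ ∃ r : ℝ≥0∞, r < 1 ∧
        ∀ h0 : ℝ, 0 < h0 → h0 ≤ h1 → EvW T fun _ L tw te => IH Φ f₀ f T γ ρ tw →
          te < tw + h0 ∧ StmtNS Φ f₀ (epar γ ρ L tw te) (tw + h0) CN ∧
            StmtXC Φ f₀ (epar γ ρ L tw te) (tw + h0) ∧
              ∀ m : ℕ, StmtEX Φ f₀ (epar γ ρ L tw te) (tw + h0) m (C0 * r ^ m) := by
  obtain ⟨ha, kap, lam, C, b, hK, hkap⟩ := exists_kinC_kdata hD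
  obtain ⟨kap', b', M, -, -, hM⟩ := KinL1.exists_kinM hD.beta_pos hD.T_pos hD.adm hD.sol
    hD.gaussian hK
  have hK0 : 0 < ha := hK.1
  obtain ⟨g1, hg1, r1, hr1, H1⟩ := stmtNS_win hD hK hkap
  obtain ⟨g2, hg2, r2, hr2, r, hr, H2⟩ := QExit837.stmtEX_win hD hK hkap
  refine ⟨ha, hK0, min g1 g2, lt_min hg1 hg2, max r1 r2, max_lt hr1 hr2,
    fun γ ρ hl => ?_⟩
  obtain ⟨CN, hCN, HN⟩ := H1 γ ρ (hl.mono (min_le_left _ _) (le_max_left _ _))
  obtain ⟨C0, hC0, HE⟩ := H2 γ ρ (hl.mono (min_le_right _ _) (le_max_right _ _))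
  obtain ⟨γ₀, hγ₀, hlow⟩ := hl.lower
  refine ⟨CN, hCN, C0, hC0, r, hr, fun h0 hh0 hh1 => ⟨h0 / 2, by positivity, 1, ?_⟩⟩
  intro h L tw te hh hhle _ _ hw hIH
  have hte : te ≤ tw + h0 / 2 := hw.short.trans (by linarith)
  have hta : tw + h0 ≤ tw + ha := by linarith
  have hpos : 0 < tw + h0 := by
    have := hw.nonneg
    linarith
  refine ⟨by linarith, HN h L tw te hw (by linarith) hIH.giv (tw + h0), ?_, ?_⟩
  · exact XC815.stmtXC (Q := epar γ ρ L tw te) hD ⟨hw.nonneg, hw.le.trans hw.le_T⟩ hIH.giv hM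
      hpos hta hl.measurable hγ₀ (fun τ hτ => hlow τ (hτ.2.trans hw.le_T)) hl.hi
  · exact HE h L tw te hw hIH.giv (tw + h0) hpos hta

end Crest.Agent.R122.OneNS423

end
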