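import Crest.Agent.R122.Ineq2_311
import Crest.Agent.R122.QXE_837
import Crest.Agent.R122.IneqW1_423

/-!
# Row 122, INEQUALITY 2' (helper837): the touched half and the weight comparison along the windows

* `BndT`, `BndL` : the pointwise-in-`(K, ε)` bounds of helper335 with null errors.
* `inHL_FTg`, `inHL_FLg` : the fields `touched`, `weight` of helper311's `I2Parts`.
-/

set_option autoImplicit false

open MeasureTheory Set Filter Topology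
open scoped ENNReal
open Crest.AnalysisR.Kinetic
open Crest.Agent.R122.Master566 Crest.Agent.R122.GIV566 Crest.Agent.R122.Top602
open Crest.Agent.R122.EDefs602 Crest.Agent.R122.GC311 Crest.Agent.R122.InEq2
open Crest.Agent.R122.InEq2T (FTg FLg)

noncomputable section

open scoped Classical

namespace Crest.Agent.R122.InEq2TW837

variable {Φ : Space3 → ℝ} {f₀ : PhasePoint → ℝ} {f : ℝ → PhasePoint → ℝ} {β T : ℝ} {γ : ℝ → ℝ}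
  {ρ : ℝ≥0∞} {h₀ : ℝ}

/-- helper335's bound of the touched half, errors `q`. -/
def BndT (Φ : Space3 → ℝ) (f₀ : PhasePoint → ℝ) (γ : ℝ → ℝ) (ρ : ℝ≥0∞) (L tw te T' : ℝ)
    (q : ℕ → ℝ → ℝ≥0∞) : Prop :=
  ∀ (K : ℕ) (ε : ℝ), 0 < ε → ∀ C δ : ℝ≥0∞, InEq2T.QXE Φ f₀ ε K T' tw γ ρ C δ →
    Bnd Φ f₀ ε T' (FTg Φ ε K (epar γ ρ L tw te) T')
      (C * XI Φ f₀ ε K (epar γ ρ L tw te) + C * tnMass Φ f₀ γ ρ ε K tw + 2 * δ + q K ε)

/-- helper335's bound of the weight comparison, errors `q`. -/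
def BndL (Φ : Space3 → ℝ) (f₀ : PhasePoint → ℝ) (γ : ℝ → ℝ) (ρ : ℝ≥0∞) (L tw te T' : ℝ)
    (q : ℕ → ℝ → ℝ≥0∞) : Prop :=
  ∀ (K : ℕ) (ε : ℝ), 0 < ε →
    Bnd Φ f₀ ε T' (FLg Φ ε K (epar γ ρ L tw te) T') (q K ε)

/-- **The weight comparison.** -/
theorem inB_FLg (hb : EvW T fun _ L tw te => IH Φ f₀ f T γ ρ tw →
    ∃ q : ℕ → ℝ → ℝ≥0∞, Null q ∧ BndL Φ f₀ γ ρ L tw te (tw + h₀) q) :
    InB Φ f₀ f T γ ρ h₀ FLg :=
  InB.of_small <| hb.mono fun _ _ _ _ _ _ _ hq hIH => by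
    obtain ⟨q, hq0, hB⟩ := hq hIH
    exact ⟨q, hq0.small, Ev.of_forall fun K ε hε => hB K ε hε⟩

/-- **The touched half.** -/
theorem inB_FTg {C : ℝ≥0∞} (hC : C ≠ ∞)
    (hQ : EvW T fun _ L tw te => IH Φ f₀ f T γ ρ tw → ∃ δ : ℕ → ℝ → ℝ≥0∞, Null δ ∧
      ∀ (K : ℕ) (ε : ℝ), 0 < ε → InEq2T.QXE Φ f₀ ε K (tw + h₀) tw γ ρ C (δ K ε))
    (hb : EvW T fun _ L tw te => IH Φ f₀ f T γ ρ tw →
      ∃ q : ℕ → ℝ → ℝ≥0∞, Null q ∧ BndT Φ f₀ γ ρ L tw te (tw + h₀) q) :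
    InB Φ f₀ f T γ ρ h₀ FTg := by
  refine ⟨C, hC, fun _ _ => 0, Vanish.zero, (hQ.and hb).mono fun _ L tw te _ _ _ hq hIH => ?_⟩
  obtain ⟨δ, hδ0, hδ⟩ := hq.1 hIH
  obtain ⟨q, hq0, hB⟩ := hq.2 hIH
  have htn : Small fun K ε => tnMass Φ f₀ γ ρ ε K tw := hIH.tn
  refine ⟨fun K ε => C * tnMass Φ f₀ γ ρ ε K tw + (2 * δ K ε + q K ε),
    (htn.const_mul hC).add ((hδ0.const_mul (by norm_num)).add hq0).small,
    Ev.of_forall fun K ε hε => ?_⟩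
  refine (hB K ε hε C (δ K ε) (hδ K ε hε)).mono_le (le_of_eq ?_)
  rw [zero_mul, add_zero]
  ring

/-- **The field `weight` of `I2Parts`.** -/
theorem inHL_FLg (hb : InHL T fun h₀ γ ρ => EvW T fun _ L tw te => IH Φ f₀ f T γ ρ tw →
    ∃ q : ℕ → ℝ → ℝ≥0∞, Null q ∧ BndL Φ f₀ γ ρ L tw te (tw + h₀) q) :
    InHL T fun h₀ γ ρ => InB Φ f₀ f T γ ρ h₀ FLg :=
  hb.mono fun _ _ _ _ _ h => inB_FLg h

/-- **The field `touched` of `I2Parts`.** -/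
theorem inHL_FTg (hD : KData Φ β T f₀ f)
    (hb : InHL T fun h₀ γ ρ => EvW T fun _ L tw te => IH Φ f₀ f T γ ρ tw →
      ∃ q : ℕ → ℝ → ℝ≥0∞, Null q ∧ BndT Φ f₀ γ ρ L tw te (tw + h₀) q) :
    InHL T fun h₀ γ ρ => InB Φ f₀ f T γ ρ h₀ FTg := by
  obtain ⟨a, kap, lam, C, b, hK, hkap⟩ := Q1815.exists_kinC_kdata hD
  obtain ⟨g₁, hg₁, ρ₁, hρ₁, C₀, hC₀, H⟩ := QExit837.qxe_win hD hK hkap
  have ha : 0 < a := hK.1
  obtain ⟨h₁, hh₁, g2, hg2, r2, hr2, hb⟩ := hb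
  refine ⟨min a h₁, lt_min ha hh₁, min g₁ g2, lt_min hg₁ hg2, max ρ₁ r2, max_lt hρ₁ hr2,
    fun h₀ h0 hle γ ρ hl => ?_⟩
  refine inB_FTg hC₀ ?_ (hb h₀ h0 (hle.trans (min_le_right _ _)) γ ρ
    (hl.mono (min_le_right _ _) (le_max_right _ _)))
  refine EvW.of_forall fun h L tw te _ _ _ hW hIH => ?_
  exact H γ ρ (hl.mono (min_le_left _ _) (le_max_left _ _)) h tw te hW hIH.giv (tw + h₀)
    (by linarith [hW.nonneg]) (by linarith [hle.trans (min_le_left a h₁)])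

end Crest.Agent.R122.InEq2TW837

end
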