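import Crest.Agent.R122.Q1Tail_815
import Crest.Agent.R122.InEq2Defs_311
import Crest.Agent.R122.RealMeas_674
import Crest.Agent.R122.RtGDet_302

/-!
helper815, row 122, INEQUALITY 2', the tail of case (C): large trees whose protected tubes are not
hit are rare.

* `HC` : `[k₁ < leaves ≤ k₂] wQ 1[protected tubes unhit up to tw]` (measurable form), `measTS_HC`;
* `le_HC` : the majorant of the literal weight;
* `TS_HC_le`, `small_TS_HC` : `TS T' HC` is small when `k₁ K → ∞`, for every horizon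
  `0 < T' ≤ tw + h₀`.
-/

set_option autoImplicit false

open MeasureTheory Set Filter
open scoped ENNReal Topology Classical
open Crest.AnalysisR.Kinetic Crest.Agent.R122.Kin796 Crest.Agent.R122.Disc416
  Crest.Agent.R122.Kin416 Crest.Agent.R122.Tree674
  Crest.Agent.R122.Hid424 Crest.Agent.R122.Quench815 Crest.Agent.R122.QDens815
  Crest.Agent.R122.GC311 Crest.Agent.R122.EDefs602 Crest.Agent.R122.Q1815
  Crest.Agent.R122.Master566 Crest.Agent.R122.InEq2 Crest.Agent.R122.RealTree674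

noncomputable section

namespace Crest.Agent.R122.Tail815

open CTree

variable {Φ : Space3 → ℝ} {f₀ : PhasePoint → ℝ} {f : ℝ → PhasePoint → ℝ} {β T : ℝ}

/-- the tail functional of the tree and the gas -/
def HC (Φ : Space3 → ℝ) (ε T' tw : ℝ) (k₁ k₂ : ℕ) (P : CTree) (z : PhasePoint × Par P) (m : ℕ)
    (w : Config m) : ℝ≥0∞ :=
  if (k₁ < P.leaves ∧ P.leaves ≤ k₂) ∧ GIV566.unhit Φ ε (PTm Φ ε P T' z.1 z.2) tw w then
    wQ Φ ε P z else 0

theorem measTS_HC (hΦ : AdmissiblePotential Φ) {ε : ℝ} (hε : 0 < ε) (T' tw : ℝ) (k₁ k₂ : ℕ) :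
    MeasTS (HC Φ ε T' tw k₁ k₂) := by
  intro P m
  unfold HC
  refine Measurable.ite ?_ ((measurable_wQ hΦ P).comp measurable_fst) measurable_const
  have h := measurableSet_unhit' hΦ hε (Ω := (PhasePoint × Par P) × Config m)
    (w := fun q => q.2) measurable_snd (S := fun q => PTm Φ ε P T' q.1.1 q.1.2)
    (fun q i => Hid424.continuous_curveM hΦ hε P q.1.1 q.1.2 i)
    (fun i s => (Hid424.measurable_curveM hΦ hε P i).comp
      (f := fun q : (PhasePoint × Par P) × Config m => (s, q.1))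
      (measurable_const.prodMk measurable_fst))
    (fun i => (measurable_prot P i).comp
      (f := fun q : (PhasePoint × Par P) × Config m => (T', q.1.2))
      (measurable_const.prodMk measurable_fst.snd)) (t := fun _ => tw) measurable_const
  by_cases hP : k₁ < P.leaves ∧ P.leaves ≤ k₂
  · simp only [hP, true_and]
    exact h
  · have : {q : (PhasePoint × Par P) × Config m | (k₁ < P.leaves ∧ P.leaves ≤ k₂) ∧
        GIV566.unhit Φ ε (PTm Φ ε P T' q.1.1 q.1.2) tw q.2} = ∅ := by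
      ext q
      simp only [mem_ofPred_eq, mem_empty_iff_false, iff_false]
      exact fun hh => hP hh.1
    rw [this]
    exact MeasurableSet.empty

/-- the protected tubes of a valid separated tree and their measurable form -/
theorem unhit_PTm_iff (hΦ : AdmissiblePotential Φ) {ε : ℝ} (hε : 0 < ε) {P : CTree} {T' : ℝ}
    {z : PhasePoint × Par P} (hV : Valid Φ ε P T' z.1.2 z.2) (hS : Sep Φ ε P T' z.1 z.2) (tw : ℝ)
    {m : ℕ} (w : Config m) : GIV566.unhit Φ ε (RtG302.protT Φ ε P T' z) tw w ↔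
      GIV566.unhit Φ ε (PTm Φ ε P T' z.1 z.2) tw w := by
  refine GIVUse424.unhit_congr rfl fun i s hs => ?_
  show (path Φ ε P z.1 z.2 s i).1 = Hid424.curveM Φ ε P z.1 z.2 i s
  rw [Hid424.curveM_of_adm (ℓ := z.1) hV.1]
  have hs1 : s ≤ T' := (hs.2.trans (min_le_left _ _)).trans
    (PathFlow968.prot_le hε.le P T' z.1.2 z.2 hV.2 i)
  exact (Hid424.curve_eq_path hΦ hε hV hS ⟨hs.1, hs1⟩ i).symm

/-- the literal weight against the measurable functional -/
theorem le_HC (hΦ : AdmissiblePotential Φ) {ε : ℝ} (hε : 0 < ε) {P : CTree} {T' : ℝ}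
    {z : PhasePoint × Par P} (hV : Valid Φ ε P T' z.1.2 z.2) (hS : Sep Φ ε P T' z.1 z.2) (tw : ℝ)
    {k₁ k₂ m : ℕ} (w : Config m) (h1 : k₁ < P.leaves) (h2 : P.leaves ≤ k₂) :
    wQ Φ ε P z * GIV566.unhitInd Φ ε (RtG302.protT Φ ε P T' z) tw w ≤ HC Φ ε T' tw k₁ k₂ P z m w := by
  unfold HC GIV566.unhitInd
  by_cases hu : GIV566.unhit Φ ε (RtG302.protT Φ ε P T' z) tw w
  · rw [if_pos hu, if_pos ⟨⟨h1, h2⟩, (unhit_PTm_iff hΦ hε hV hS tw w).1 hu⟩, mul_one]
  · rw [if_neg hu, mul_zero]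
    exact bot_le

/-- weight of the quenched densities -/
def φC (Φ : Space3 → ℝ) (k₁ k₂ : ℕ) (P : CTree) : ℝ × PhasePoint × Par P → ℝ≥0∞ := fun q =>
  if k₁ < P.leaves ∧ P.leaves ≤ k₂ then wtE Φ P q else 0

theorem measurable_φC (hΦ : AdmissiblePotential Φ) (k₁ k₂ : ℕ) (P : CTree) :
    Measurable (φC Φ k₁ k₂ P) := by
  unfold φC
  by_cases h : k₁ < P.leaves ∧ P.leaves ≤ k₂
  · simp only [if_pos h]; exact measurable_wtE hΦ P
  · simp only [if_neg h]; exact measurable_const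

theorem φC_ne_top (k₁ k₂ : ℕ) (P : CTree) (q : ℝ × PhasePoint × Par P) :
    φC Φ k₁ k₂ P q ≠ ∞ := by
  unfold φC wtE
  by_cases h : k₁ < P.leaves ∧ P.leaves ≤ k₂
  · rw [if_pos h]
    by_cases hA : (q.2.1.2, q.2.2) ∈ {z : Space3 × Par P | Adm Φ P z.1 z.2}
    · rw [indicator_of_mem hA]
      exact ENNReal.ofReal_ne_top
    · rw [indicator_of_notMem hA]
      exact ENNReal.zero_ne_top
  · rw [if_neg h]
    exact ENNReal.zero_ne_top

/-- mass of the gas-quenched trees seen at time `t` -/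
theorem lintegral_gw_unhitC (hΦ : AdmissiblePotential Φ) (hf : Measurable f₀) {P : CTree}
    {φ : ℝ × PhasePoint × Par P → ℝ≥0∞} (hφ : Measurable φ) (hφt : ∀ q, φ q ≠ ∞) {ε : ℝ}
    (hε : 0 < ε) (tw t : ℝ) :
    ∫⁻ z : PhasePoint × Par P, gw Φ f₀ P φ ε t z.1 z.2 *
        gcE f₀ ε (fun _ w => GIV566.unhitInd Φ ε (hid Φ ε P z.1 z.2) tw w) =
      gcE f₀ ε fun _ w => ∫⁻ ℓ : PhasePoint, Dw Φ f₀ P φ ε tw t ℓ w := by
  have hm := fun n => measurable_gw_unhit hΦ hf hφ hε tw t n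
  have hg : ∀ z : PhasePoint × Par P, gw Φ f₀ P φ ε t z.1 z.2 ≠ ∞ := by
    intro z
    by_cases hV : Valid Φ ε P t z.1.2 z.2
    · rw [gw_of_valid hV]
      exact ENNReal.mul_ne_top (ENNReal.mul_ne_top wt_ne_top' (fp_ne_top ε P z.1 z.2)) (hφt _)
    · rw [gw_of_not_valid hV]
      exact ENNReal.zero_ne_top
  have h1 : ∀ z : PhasePoint × Par P, gw Φ f₀ P φ ε t z.1 z.2 *
      gcE f₀ ε (fun _ w => GIV566.unhitInd Φ ε (hid Φ ε P z.1 z.2) tw w) =
      gcE f₀ ε (fun _ w => gw Φ f₀ P φ ε t z.1 z.2 *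
        GIV566.unhitInd Φ ε (hid Φ ε P z.1 z.2) tw w) := fun z =>
    (gcE_const_mul f₀ ε (hg z) _).symm
  simp only [h1]
  rw [BadHit370.lintegral_gcE hf ε (volume : Measure (PhasePoint × Par P))
    (F := fun n (z : PhasePoint × Par P) (w : Config n) => gw Φ f₀ P φ ε t z.1 z.2 *
      GIV566.unhitInd Φ ε (hid Φ ε P z.1 z.2) tw w) (fun n => (hm n).comp measurable_swap)]
  congr 1
  funext n w
  have hmw : Measurable fun z : PhasePoint × Par P => gw Φ f₀ P φ ε t z.1 z.2 *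
      GIV566.unhitInd Φ ε (hid Φ ε P z.1 z.2) tw w := (hm n).comp measurable_prodMk_left
  rw [show (volume : Measure (PhasePoint × Par P)) = (volume : Measure PhasePoint).prod volume
    from rfl, lintegral_prod _ hmw.aemeasurable]
  rfl

/-- the tree integral of the tail functional against the quenched densities -/
theorem TS_HC_le (hΦ : AdmissiblePotential Φ) (hf : Measurable f₀) {ε : ℝ} (hε : 0 < ε)
    {T' : ℝ} (hT' : 0 ≤ T') (tw : ℝ) (k₁ k₂ : ℕ) :
    InEq2.TS Φ f₀ ε T' (HC Φ ε T' tw k₁ k₂) ≤ gcE f₀ ε fun _ w => ∑ P ∈ GIVStep383.trees k₂,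
      ∫⁻ ℓ : PhasePoint, Dw Φ f₀ P (φC Φ k₁ k₂ P) ε tw T' ℓ w := by
  have hmD : ∀ P : CTree, ∀ n, Measurable fun w : Config n => ∫⁻ ℓ : PhasePoint,
      Dw Φ f₀ P (φC Φ k₁ k₂ P) ε tw T' ℓ w := fun P n => by
    have h := (measurable_Dw_n hΦ hf (measurable_φC hΦ k₁ k₂ P) hε tw n).comp
      (f := fun q : Config n × PhasePoint => (q.1, (T', q.2))) (by fun_prop)
    exact h.lintegral_prod_right'
  have e1 : (gcE f₀ ε fun (n : ℕ) (w : Config n) => ∑ P ∈ GIVStep383.trees k₂,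
      ∫⁻ ℓ : PhasePoint, Dw Φ f₀ P (φC Φ k₁ k₂ P) ε tw T' ℓ w) =
      ∑ P ∈ GIVStep383.trees k₂, gcE f₀ ε fun (n : ℕ) (w : Config n) =>
        ∫⁻ ℓ : PhasePoint, Dw Φ f₀ P (φC Φ k₁ k₂ P) ε tw T' ℓ w :=
    gcE_finset_sum hf ε (GIVStep383.trees k₂) (F := fun P n w =>
      ∫⁻ ℓ : PhasePoint, Dw Φ f₀ P (φC Φ k₁ k₂ P) ε tw T' ℓ w) fun P _ n => hmD P n
  rw [e1]
  unfold InEq2.TS
  have e2 : ∀ P ∉ GIVStep383.trees k₂, (∫⁻ z : PhasePoint × Par P,
      {z : PhasePoint × Par P | Valid Φ ε P T' z.1.2 z.2}.indicator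
      (fun z => wt Φ P z.1.2 z.2 * (ToTree335.pf Φ f₀ ε P z *
        gcE f₀ ε fun m w => HC Φ ε T' tw k₁ k₂ P z m w)) z) = 0 := by
    intro P hP
    have hP' : ¬ P.leaves ≤ k₂ := fun hh => hP (GIVStep383.mem_trees.2 hh)
    have e3 : ∀ z : PhasePoint × Par P, (gcE f₀ ε fun m w => HC Φ ε T' tw k₁ k₂ P z m w) = 0 := by
      intro z
      rw [← gcE_zero f₀ ε]
      congr 1
      funext m w
      unfold HC
      exact if_neg fun hh => hP' hh.1.2
    simp only [e3, mul_zero, indicator_zero, lintegral_zero]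
  rw [tsum_eq_sum e2]
  refine Finset.sum_le_sum fun P _ => ?_
  rw [← lintegral_gw_unhitC hΦ hf (measurable_φC hΦ k₁ k₂ P) (φC_ne_top k₁ k₂ P) hε tw T']
  refine lintegral_mono fun z => ?_
  by_cases hV : Valid Φ ε P T' z.1.2 z.2
  · rw [indicator_of_mem (show z ∈ {z : PhasePoint × Par P | Valid Φ ε P T' z.1.2 z.2} from hV),
      gw_of_valid hV]
    have h1 : (gcE f₀ ε fun m w => HC Φ ε T' tw k₁ k₂ P z m w) ≤ φC Φ k₁ k₂ P (T', z) *
        gcE f₀ ε (fun _ w => GIV566.unhitInd Φ ε (hid Φ ε P z.1 z.2) tw w) := by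
      rw [← gcE_const_mul f₀ ε (φC_ne_top k₁ k₂ P (T', z))]
      refine gcE_mono f₀ ε fun m w _ => ?_
      unfold HC
      by_cases hh : (k₁ < P.leaves ∧ P.leaves ≤ k₂) ∧
          GIV566.unhit Φ ε (PTm Φ ε P T' z.1 z.2) tw w
      · rw [if_pos hh]
        have e4 : φC Φ k₁ k₂ P (T', z) = wQ Φ ε P z := by
          unfold φC
          rw [if_pos hh.1, show (T', z) = (T', z.1, z.2) from rfl, wtE_eq hΦ hV.1,
            wtA_eq_lines (ε := ε), wQ_eq hV.1]
        have e5 : GIV566.unhitInd Φ ε (hid Φ ε P z.1 z.2) tw w = 1 := by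
          unfold GIV566.unhitInd
          rw [if_pos]
          intro i j s hs
          have h3 := hh.2 i j s ⟨hs.1, hs.2.trans (min_le_min_right tw
            (hS_le_prot P (by linarith) z.1.2 z.2 (valid_mono hε.le le_rfl hV) i))⟩
          have e6 : (PTm Φ ε P T' z.1 z.2).c i s = (hid Φ ε P z.1 z.2).c i s := by
            show Hid424.curveM Φ ε P z.1 z.2 i s = curve Φ ε P z.1 z.2 i s
            rw [Hid424.curveM_of_adm (ℓ := z.1) hV.1]
          rwa [e6] at h3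
        rw [e4, e5, mul_one]
      · rw [if_neg hh]
        exact bot_le
    calc wt Φ P z.1.2 z.2 * (ToTree335.pf Φ f₀ ε P z *
          gcE f₀ ε fun m w => HC Φ ε T' tw k₁ k₂ P z m w)
        ≤ wt Φ P z.1.2 z.2 * (ToTree335.pf Φ f₀ ε P z * (φC Φ k₁ k₂ P (T', z) *
          gcE f₀ ε (fun _ w => GIV566.unhitInd Φ ε (hid Φ ε P z.1 z.2) tw w))) := by gcongr
      _ = _ := by
          rw [← mul_assoc, ← mul_assoc]
          rfl
  · rw [indicator_of_notMem (show z ∉ {z : PhasePoint × Par P | Valid Φ ε P T' z.1.2 z.2} from hV)]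
    exact bot_le

/-- the tail weight against the kinetic weight -/
theorem φC_le (hΦ : AdmissiblePotential Φ) {lam lam₁ kap M : ℝ} (h1 : 0 < lam₁)
    (h2 : lam₁ ≤ lam) (hM : ∀ (P : CTree) (s : ℝ) (ℓ : PhasePoint) (p : Par P),
      wtA Φ P (s, ℓ, p) ≤ ENNReal.ofReal M * ENNReal.ofReal lam₁ ^ P.size *
        ENNReal.ofReal (Real.exp (kap * Seg814.eng Φ P ℓ.2 p)))
    (k₁ k₂ : ℕ) (P : CTree) (s : ℝ) (ℓ : PhasePoint) (p : Par P) :
    φC Φ k₁ k₂ P (s, ℓ, p) ≤ (ENNReal.ofReal M * ENNReal.ofReal (lam₁ / lam) ^ k₁) *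
      ENNReal.ofReal lam ^ P.size * ENNReal.ofReal (Real.exp (kap * Seg814.eng Φ P ℓ.2 p)) := by
  unfold φC
  by_cases h : k₁ < P.leaves ∧ P.leaves ≤ k₂
  · rw [if_pos h]
    have hsz : k₁ ≤ P.size := by
      have := CTree.leaves_eq P
      omega
    have hlam : 0 < lam := h1.trans_le h2
    have e1 : ENNReal.ofReal lam₁ = ENNReal.ofReal (lam₁ / lam) * ENNReal.ofReal lam := by
      rw [← ENNReal.ofReal_mul (by positivity), div_mul_cancel₀ _ hlam.ne']
    have e2 : ENNReal.ofReal (lam₁ / lam) ^ P.size ≤ ENNReal.ofReal (lam₁ / lam) ^ k₁ := by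
      refine pow_le_pow_of_le_one (by positivity) ?_ hsz
      rw [← ENNReal.ofReal_one]
      exact ENNReal.ofReal_le_ofReal ((div_le_one hlam).2 h2)
    calc wtE Φ P (s, ℓ, p) ≤ ENNReal.ofReal M * ENNReal.ofReal lam₁ ^ P.size *
          ENNReal.ofReal (Real.exp (kap * Seg814.eng Φ P ℓ.2 p)) := (wtE_le hΦ _).trans (hM P s ℓ p)
      _ = ENNReal.ofReal M * (ENNReal.ofReal (lam₁ / lam) ^ P.size * ENNReal.ofReal lam ^ P.size) *
          ENNReal.ofReal (Real.exp (kap * Seg814.eng Φ P ℓ.2 p)) := by rw [e1, mul_pow]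
      _ ≤ ENNReal.ofReal M * (ENNReal.ofReal (lam₁ / lam) ^ k₁ * ENNReal.ofReal lam ^ P.size) *
          ENNReal.ofReal (Real.exp (kap * Seg814.eng Φ P ℓ.2 p)) := by gcongr
      _ = _ := by ring
  · rw [if_neg h]
    exact bot_le

/-- **The tail of case (C)**: sizes between `k₁ K → ∞` and `k₂ K`. -/
theorem small_TS_HC (hD : KData Φ β T f₀ f) {tw : ℝ} (htw : tw ∈ Icc 0 T)
    (hG : GIV566.GIV Φ f₀ f T tw) {h₀ kap lam b M : ℝ}
    (hK : KinL1.KinM Φ T f h₀ kap lam b M) {T' : ℝ} (hT' : 0 < T') (hT'2 : T' ≤ tw + h₀)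
    {k₁ k₂ : ℕ → ℕ} (hk : Tendsto k₁ atTop atTop) :
    Small fun K ε => InEq2.TS Φ f₀ ε T' (HC Φ ε T' tw (k₁ K) (k₂ K)) := by
  have hΦ := hD.adm
  have hf : Measurable f₀ := hD.contDiff.continuous.measurable
  have X : Ctx Φ β T f₀ f T' tw := Ctx.of_kdata hD htw hG hT'
  have hβ := hD.beta_pos
  have hlam : 1 < lam := hK.2.2.1
  have hkap : 0 < kap := hK.2.1
  set lam₁ : ℝ := Real.sqrt lam with hl1
  have hl1' : 1 < lam₁ := by
    rw [hl1]
    exact Real.lt_sqrt_of_sq_lt (by simpa using hlam)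
  have hl2 : lam₁ < lam := by
    rw [hl1, Real.sqrt_lt' (by linarith)]
    nlinarith
  set kap' : ℝ := min kap β with hkap'
  have hkap'0 : 0 < kap' := lt_min hkap hβ
  obtain ⟨MA, hMA, hMAle⟩ := exists_wtA_le Φ hl1' hkap'0
  have hr1 : lam₁ / lam < 1 := (div_lt_one (by linarith)).2 hl2
  have hexp : ∀ (P : CTree) (v : Space3) (p : Par P),
      ENNReal.ofReal (Real.exp (kap' * Seg814.eng Φ P v p)) ≤
        ENNReal.ofReal (Real.exp (kap * Seg814.eng Φ P v p)) := fun P v p =>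
    ENNReal.ofReal_le_ofReal (Real.exp_le_exp.2 (mul_le_mul_of_nonneg_right (min_le_left _ _)
      (Seg814.eng_nonneg P v p)))
  have hat : ∀ K, ENNReal.ofReal MA * ENNReal.ofReal (lam₁ / lam) ^ (k₁ K) ≠ ∞ := fun K =>
    ENNReal.mul_ne_top ENNReal.ofReal_ne_top (ENNReal.pow_ne_top ENNReal.ofReal_ne_top)
  have ha : Tendsto (fun K => ENNReal.ofReal MA * ENNReal.ofReal (lam₁ / lam) ^ (k₁ K)) atTop
      (𝓝 0) := by
    have h3 : ENNReal.ofReal (lam₁ / lam) < 1 := by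
      rw [← ENNReal.ofReal_one]
      exact (ENNReal.ofReal_lt_ofReal_iff one_pos).2 hr1
    have h4 := (ENNReal.tendsto_pow_atTop_nhds_zero_of_lt_one h3).comp hk
    have := ENNReal.Tendsto.const_mul (a := ENNReal.ofReal MA) h4 (Or.inr ENNReal.ofReal_ne_top)
    rwa [mul_zero] at this
  have hsmall := small_time X hK (t := T') ⟨hT'.le, hT'2⟩ le_rfl
    (φ := fun K P => φC Φ (k₁ K) (k₂ K) P) (N := k₂) (fun K P =>
      Wgt.of_le (measurable_φC hΦ _ _ P) (kap := kap') (lam := lam)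
        (by linarith [min_le_right kap β]) (hat K)
        (fun s ℓ p _ => φC_le hΦ (by linarith) hl2.le hMAle _ _ P s ℓ p))
    hat ha (fun K P ℓ p _ _ => (φC_le hΦ (by linarith) hl2.le hMAle _ _ P T' ℓ p).trans
      (mul_le_mul_right (hexp P ℓ.2 p) _))
  exact Small.mono hsmall fun K ε hε => TS_HC_le hΦ hf hε hT'.le tw (k₁ K) (k₂ K)

end Crest.Agent.R122.Tail815

end
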