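import Crest.Agent.R122.YoungX_763
import Crest.Agent.R122.EMaster_602

/-!
helper815, row 122, INEQUALITY 1, closing part A.

* `PtIn` : the pointwise-in-the-birth-time form, along the windows;
* `ineq1_of_ptIn` : `PtIn → Top602.Ineq1`;
* `youngX_of_ptIn` : the bound of the young lines, along the windows.
-/

set_option autoImplicit false

open MeasureTheory Set Filter
open scoped ENNReal Topology
open Crest.AnalysisR.Kinetic
open Crest.Agent.R122.Master566 Crest.Agent.R122.EDefs602 Crest.Agent.R122.GIV566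
  Crest.Agent.R122.Top602 Crest.Agent.R122.Young763 Crest.Agent.R122.Unw410

noncomputable section

namespace Crest.Agent.R122.Ineq1815

variable {Φ : Space3 → ℝ} {f₀ : PhasePoint → ℝ} {f : ℝ → PhasePoint → ℝ} {β T : ℝ}
  {γ : ℝ → ℝ} {ρ : ℝ≥0∞} {PM : PMass}

/-- **Inequality 1, pointwise in the birth time, along the windows.** -/
def PtIn (Φ : Space3 → ℝ) (f₀ : PhasePoint → ℝ) (f : ℝ → PhasePoint → ℝ) (T : ℝ) (γ : ℝ → ℝ)
    (ρ : ℝ≥0∞) (PM : PMass) : Prop :=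
  ∃ C : ℝ, 0 ≤ C ∧ ∃ x : ℕ → ℝ≥0∞, Tendsto x atTop (𝓝 0) ∧ (∀ m, x m ≠ ∞) ∧
    ∀ m : ℕ, ∃ C' : ℝ≥0∞, C' ≠ ∞ ∧
    ∃ o : ℝ → ℝ → ℝ≥0∞, Vanish o ∧ EvW T fun h L tw te => IH Φ f₀ f T γ ρ tw →
      ∃ S : ℕ → ℝ → ℝ → ℝ≥0∞, (Small fun K ε => ∫⁻ τ in Ioc 0 te, S K ε τ) ∧ Ev fun K ε =>
        PtIneq Φ f₀ ε K (epar γ ρ L tw te) C
          ((x m + o h L) * XI Φ f₀ ε K (epar γ ρ L tw te) +
            o h L * aE Φ f₀ ε K (epar γ ρ L tw te) + C' * PM m L tw te K ε) (S K ε)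

/-- finiteness of `XI` along a window -/
theorem ev_XI_ne_top (hD : KData Φ β T f₀ f) {g1 : ℝ} {r1 : ℝ≥0∞} (hl : LinePar g1 r1 T γ ρ)
    {h L tw te : ℝ} (hL : 1 ≤ L) (hw : Win h T tw te) :
    Ev fun K ε => XI Φ f₀ ε K (epar γ ρ L tw te) ≠ ∞ := by
  have hP : PGood (epar γ ρ L tw te) :=
    pGood_epar hl (zero_le_one.trans hL) hw.nonneg hw.le hw.le_T
  have hf : Measurable f₀ := hD.contDiff.continuous.measurable
  have hmass : ∫⁻ z, ENNReal.ofReal (f₀ z) ≤ 1 :=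
    (FM167.lintegral_density_eq_one hD.nonneg hD.integrable hD.mass).le
  have hg : 0 < 2 * β := by linarith [hD.beta_pos]
  exact (EvK.of_eps one_pos fun K ε hε hε1 =>
      XI_ne_top hD.adm hf hmass hg hD.gaussian hε hε1.le hP).ev

/-- **Inequality 1 from its pointwise form.** -/
theorem ineq1_of_ptIn (hD : KData Φ β T f₀ f) {g1 : ℝ} {r1 : ℝ≥0∞} (hl : LinePar g1 r1 T γ ρ)
    (h : PtIn Φ f₀ f T γ ρ PM) : Ineq1 Φ f₀ f T γ ρ PM := by
  obtain ⟨C, hC, x, hx, -, h⟩ := h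
  obtain ⟨g0, κ, hκ, hγ, -, -⟩ := hl.lin
  obtain ⟨μ, hμ, hsm⟩ := exists_rate hκ hC
  have hf : Measurable f₀ := hD.contDiff.continuous.measurable
  set A : ℝ≥0∞ := ENNReal.ofReal (2 * Real.exp (μ * T) * T) with hA
  have hAt : A ≠ ∞ := ENNReal.ofReal_ne_top
  refine ⟨fun m => A * x m, ?_, fun m => ?_⟩
  · have := ENNReal.Tendsto.const_mul (a := A) hx (Or.inr hAt)
    rwa [mul_zero] at this
  obtain ⟨C', hC', o, ho, hw⟩ := h m
  refine ⟨A * C', ENNReal.mul_ne_top hAt hC', fun y z => A * o y z, ho.const_mul hAt,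
    hw.mono fun h' L tw te _ hL hwin hq hIH => ?_⟩
  obtain ⟨S, hS, hE⟩ := hq hIH
  obtain ⟨S', hS', hE'⟩ := ineq1_small (P := epar γ ρ L tw te) hD.adm hf (γ₀ := g0)
    (T := T) hγ hκ hC hμ hsm hwin.le_T hS (ev_XI_ne_top hD hl hL hwin) hE
  refine ⟨S', hS', hE'.mono fun K ε _ hh => hh.trans (le_of_eq ?_)⟩
  rw [← hA]
  ring

/-- **Young lines along the windows** : lines born in `(max 0 (tw - r), te]`. -/
theorem youngX_of_ptIn (hD : KData Φ β T f₀ f) {g1 : ℝ} {r1 : ℝ≥0∞} (hl : LinePar g1 r1 T γ ρ)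
    (h : PtIn Φ f₀ f T γ ρ PM) (m : ℕ) :
    ∃ Cy : ℝ≥0∞, Cy ≠ ∞ ∧ ∀ r : ℝ, 0 ≤ r → r < 1 →
      EvW T fun h L tw te => IH Φ f₀ f T γ ρ tw →
        ∃ S : ℕ → ℝ → ℝ≥0∞, Small S ∧ Ev fun K ε =>
          XJ Φ f₀ ε K (epar γ ρ L tw te) (Ioc (max 0 (tw - r)) te) ≤ S K ε +
            Cy * ENNReal.ofReal (Real.sqrt (r + h)) * (XI Φ f₀ ε K (epar γ ρ L tw te) +
              aE Φ f₀ ε K (epar γ ρ L tw te) + PM m L tw te K ε) := by
  obtain ⟨C, hC, x, -, hxt, h⟩ := h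
  obtain ⟨g0, κ, hκ, hγ, -, -⟩ := hl.lin
  have hf : Measurable f₀ := hD.contDiff.continuous.measurable
  obtain ⟨C', hC', o, ho, hw⟩ := h m
  set c : ℝ := C * (1 + 3 * (Real.sqrt κ)⁻¹) with hc
  have hc0 : 0 ≤ c := by positivity
  refine ⟨ENNReal.ofReal c + (x m + 1 + C'), ENNReal.add_ne_top.2 ⟨ENNReal.ofReal_ne_top,
    ENNReal.add_ne_top.2 ⟨ENNReal.add_ne_top.2 ⟨hxt m, ENNReal.one_ne_top⟩, hC'⟩⟩,
    fun r hr hr1 => ?_⟩
  obtain ⟨a, ha, l, hal⟩ := ho 1 one_pos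
  obtain ⟨b, hb, l', hbl⟩ := hw
  refine ⟨min (min a b) (1 - r), lt_min (lt_min ha hb) (by linarith), max l l',
    fun h' L tw te hh hhle hLle hL hwin hIH => ?_⟩
  have hha : h' ≤ a := hhle.trans ((min_le_left _ _).trans (min_le_left _ _))
  have hhb : h' ≤ b := hhle.trans ((min_le_left _ _).trans (min_le_right _ _))
  have hh1 : h' ≤ 1 - r := hhle.trans (min_le_right _ _)
  have ho1 : o h' L ≤ 1 := hal h' L hh hha ((le_max_left _ _).trans hLle)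
  obtain ⟨S, hS, hE⟩ := hbl h' L tw te hh hhb ((le_max_right _ _).trans hLle) hL hwin hIH
  obtain ⟨S', hS', hE'⟩ := youngX_small (P := epar γ ρ L tw te) (r := r) (h' := h') hD.adm hf
    (γ₀ := g0) hγ hκ hC hwin.nonneg hwin.le hwin.short hr (by linarith) hS hE
  refine ⟨S', hS', hE'.mono fun K ε _ hh => hh.trans ?_⟩
  set X := XI Φ f₀ ε K (epar γ ρ L tw te) with hX
  set E := aE Φ f₀ ε K (epar γ ρ L tw te) with hEE
  set P := PM m L tw te K ε with hP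
  have hrh : 0 ≤ r + h' := by linarith
  have hsq : r + h' ≤ Real.sqrt (r + h') := Real.le_sqrt_of_sq_le (by nlinarith)
  have h1 : ENNReal.ofReal (r + h') ≤ ENNReal.ofReal (Real.sqrt (r + h')) :=
    ENNReal.ofReal_le_ofReal hsq
  have h2 : (x m + o h' L) * X + o h' L * E + C' * P ≤ (x m + 1 + C') * (X + E + P) := by
    have k1 : x m + o h' L ≤ x m + 1 + C' := (add_le_add le_rfl ho1).trans le_self_add
    have k2 : o h' L ≤ x m + 1 + C' := ho1.trans (le_add_right le_add_self)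
    have k3 : C' ≤ x m + 1 + C' := le_add_self
    calc (x m + o h' L) * X + o h' L * E + C' * P
        ≤ (x m + 1 + C') * X + (x m + 1 + C') * E + (x m + 1 + C') * P :=
          add_le_add (add_le_add (mul_le_mul_left k1 X) (mul_le_mul_left k2 E))
            (mul_le_mul_left k3 P)
      _ = _ := by ring
  have h3 : ENNReal.ofReal (C * (1 + 3 * (Real.sqrt κ)⁻¹) * Real.sqrt (r + h')) * X ≤
      ENNReal.ofReal c * ENNReal.ofReal (Real.sqrt (r + h')) * (X + E + P) := by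
    rw [← hc, ENNReal.ofReal_mul hc0]
    exact mul_le_mul_right (le_add_right le_self_add) _
  calc S' K ε + ENNReal.ofReal (C * (1 + 3 * (Real.sqrt κ)⁻¹) * Real.sqrt (r + h')) * X +
        ENNReal.ofReal (r + h') * ((x m + o h' L) * X + o h' L * E + C' * P)
      ≤ S' K ε + ENNReal.ofReal c * ENNReal.ofReal (Real.sqrt (r + h')) * (X + E + P) +
        ENNReal.ofReal (Real.sqrt (r + h')) * ((x m + 1 + C') * (X + E + P)) := by gcongr
    _ = _ := by ring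

end Crest.Agent.R122.Ineq1815

end
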