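import Crest.Agent.R122.Ineq1A_815

/-!
helper815, row 122, INEQUALITY 1, closing part B: the error calculus along the windows.

* `RawIn` : the pointwise form with the errors of `Ineq1Pt_285`;
* `ptIn_of_raw` : `RawIn → PtIn`.
-/

set_option autoImplicit false

open MeasureTheory Set Filter
open scoped ENNReal Topology
open Crest.AnalysisR.Kinetic
open Crest.Agent.R122.Master566 Crest.Agent.R122.EDefs602 Crest.Agent.R122.GIV566
  Crest.Agent.R122.Top602 Crest.Agent.R122.Young763 Crest.Agent.R122.Unw410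

noncomputable section

namespace Crest.Agent.R122.Ineq1815

variable {Φ : Space3 → ℝ} {f₀ : PhasePoint → ℝ} {f : ℝ → PhasePoint → ℝ} {β T : ℝ}
  {γ : ℝ → ℝ} {ρ : ℝ≥0∞} {PM : PMass}

/-- Pointwise form with the errors of the one-contact step. -/
def RawIn (Φ : Space3 → ℝ) (f₀ : PhasePoint → ℝ) (f : ℝ → PhasePoint → ℝ) (T : ℝ) (γ : ℝ → ℝ)
    (ρ : ℝ≥0∞) (PM : PMass) : Prop :=
  ∃ C : ℝ, 0 ≤ C ∧ ∃ x : ℕ → ℝ≥0∞, Tendsto x atTop (𝓝 0) ∧ (∀ m, x m ≠ ∞) ∧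
    ∃ cD : ℝ≥0∞, cD ≠ ∞ ∧ ∃ cB : ℝ≥0∞, cB ≠ ∞ ∧ ∃ cP : ℝ≥0∞, cP ≠ ∞ ∧ ∀ m : ℕ,
      EvW T fun _ L tw te => IH Φ f₀ f T γ ρ tw →
        ∃ S : ℕ → ℝ → ℝ → ℝ≥0∞, (Small fun K ε => ∫⁻ τ in Ioc 0 te, S K ε τ) ∧ Ev fun K ε =>
          PtIneq Φ f₀ ε K (epar γ ρ L tw te) C
            (x m * XI Φ f₀ ε K (epar γ ρ L tw te) + cD * ENNReal.ofReal (ε + (te - tw)) *
              (JE Φ f₀ ε K tw + cB * aE Φ f₀ ε K (epar γ ρ L tw te)) +
              cP * PM m L tw te K ε) (S K ε)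

theorem PtIneq.mono {ε : ℝ} {K : ℕ} {P : EPar} {C : ℝ} {A A' : ℝ≥0∞} {S S' : ℝ → ℝ≥0∞}
    (h : PtIneq Φ f₀ ε K P C A S) (hA : ∀ τ, S τ + A ≤ S' τ + A') :
    PtIneq Φ f₀ ε K P C A' S' := by
  unfold PtIneq at h ⊢
  filter_upwards [h] with τ hτ
  exact hτ.trans (add_le_add (hA τ) le_rfl)

/-- `JE` at the time `tw` is small under the induction hypothesis -/
theorem small_JE {tw : ℝ} (htw : 0 ≤ tw) (h : JSup Φ f₀ tw) :
    Small fun K ε => JE Φ f₀ ε K tw :=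
  Small.mono h fun K ε _ => le_iSup₂ (f := fun s (_ : s ∈ Icc 0 tw) => JE Φ f₀ ε K s) tw
    ⟨htw, le_rfl⟩

theorem ptIn_of_raw (h : RawIn Φ f₀ f T γ ρ PM) : PtIn Φ f₀ f T γ ρ PM := by
  obtain ⟨C, hC, x, hx, hxt, cD, hcD, cB, hcB, cP, hcP, h⟩ := h
  refine ⟨C, hC, x, hx, hxt, fun m => ⟨cP, hcP,
    fun y _ => (cD * cB) * ENNReal.ofReal (2 * y), ?_, ?_⟩⟩
  · refine Vanish.const_mul ?_ (ENNReal.mul_ne_top hcD hcB)
    exact Vanish.of_length (u := fun y => 2 * y) (by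
      have : Tendsto (fun y : ℝ => 2 * y) (𝓝 0) (𝓝 (2 * 0)) :=
        ((continuous_const (y := (2 : ℝ))).mul continuous_id).tendsto (0 : ℝ)
      rw [mul_zero] at this
      exact this.mono_left nhdsWithin_le_nhds)
  · refine (h m).mono fun y L tw te hy hL hwin hq hIH => ?_
    obtain ⟨S, hS, hE⟩ := hq hIH
    have hJ := small_JE hwin.nonneg hIH.je
    have hte : te - tw ≤ y := by linarith [hwin.short]
    refine ⟨fun K ε τ => S K ε τ + cD * ENNReal.ofReal (2 * y) * JE Φ f₀ ε K tw, ?_, ?_⟩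
    · have e1 : ∀ (K : ℕ) (ε : ℝ), ∫⁻ τ in Ioc 0 te, (S K ε τ +
          cD * ENNReal.ofReal (2 * y) * JE Φ f₀ ε K tw) = (∫⁻ τ in Ioc 0 te, S K ε τ) +
            (cD * ENNReal.ofReal (2 * y) * ENNReal.ofReal te) * JE Φ f₀ ε K tw := by
        intro K ε
        rw [lintegral_add_right _ measurable_const, setLIntegral_const, Real.volume_Ioc, sub_zero]
        ring
      simp only [e1]
      exact hS.add (hJ.const_mul (ENNReal.mul_ne_top (ENNReal.mul_ne_top hcD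
        ENNReal.ofReal_ne_top) ENNReal.ofReal_ne_top))
    · have hy' : Ev fun (_ : ℕ) ε => ε < y := (EvK.of_eps hy fun K ε _ hlt => hlt).ev
      refine (hE.and hy').mono fun K ε hε hh => PtIneq.mono hh.1 fun τ => ?_
      have h1 : ENNReal.ofReal (ε + (te - tw)) ≤ ENNReal.ofReal (2 * y) :=
        ENNReal.ofReal_le_ofReal (by linarith [hh.2])
      set X := XI Φ f₀ ε K (epar γ ρ L tw te)
      set E := aE Φ f₀ ε K (epar γ ρ L tw te)
      set J := JE Φ f₀ ε K tw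
      set P := PM m L tw te K ε
      calc S K ε τ + (x m * X + cD * ENNReal.ofReal (ε + (te - tw)) * (J + cB * E) + cP * P)
          ≤ S K ε τ + (x m * X + cD * ENNReal.ofReal (2 * y) * (J + cB * E) + cP * P) := by
            gcongr
        _ ≤ S K ε τ + (x m * X + cD * ENNReal.ofReal (2 * y) * (J + cB * E) + cP * P) +
            cD * cB * ENNReal.ofReal (2 * y) * X := le_self_add
        _ = _ := by ring

end Crest.Agent.R122.Ineq1815

end
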