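import Crest.Agent.R122.OSCalc_495
import Crest.Agent.R122.Line3_285

/-!
# The structure integral of the majorant `majT` (row 122, board H2)

* `xcF`, `nsF`, `exF` : the integrands of `StmtXC`, `StmtNS`, `StmtEX`.
* `OS_majT` : `OS κ (majT m₀ bd)` is the sum of the structure integrals of the pieces.
* `lintegral_OS_*` : each piece is the integral in the birth time of its `dirac` version.
-/

set_option autoImplicit false
set_option linter.unusedSectionVars false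

open MeasureTheory Set Filter
open scoped ENNReal Classical Topology
open Crest.AnalysisR.Kinetic
open Crest.Agent.R122.Kin796 Crest.Agent.R122.Kin796.CTree Crest.Agent.R122.Tree674
open Crest.Agent.R122.GC311 Crest.Agent.R122.EDefs602 Crest.Agent.R122.TreeLines335
open Crest.Agent.R122.OneC285 Crest.Agent.R122.MeasE416 Crest.Agent.R122.Line285
open Crest.Agent.R122.GSCalc495

noncomputable section

namespace Crest.Agent.R122.GSCalc495

/-- Switch on a condition measurable on valid trees. -/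
theorem MeasVP.ite_val {Φ : Space3 → ℝ} {ε T' : ℝ} {P : CTree} {α : Type*} [MeasurableSpace α]
    {F F' : PF P α} {p : ∀ (_ : PhasePoint × Par P) (m : ℕ) (_ : Config m) (_ : α), Prop}
    (hp : ∀ m, MeasurableSet {q : (PhasePoint × Par P) × (Config m × α) |
      Valid Φ ε P T' q.1.1.2 q.1.2 ∧ p q.1 m q.2.1 q.2.2})
    (h : MeasVP Φ ε T' P F) (h' : MeasVP Φ ε T' P F') :
    MeasVP Φ ε T' P (fun z m w l => if p z m w l then F z m w l else F' z m w l) := by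
  intro m
  have h2 : (fun q : (PhasePoint × Par P) × (Config m × α) =>
      if Valid Φ ε P T' q.1.1.2 q.1.2 then
        (if p q.1 m q.2.1 q.2.2 then F q.1 m q.2.1 q.2.2 else F' q.1 m q.2.1 q.2.2) else 0) =
      fun q => if Valid Φ ε P T' q.1.1.2 q.1.2 ∧ p q.1 m q.2.1 q.2.2 then
        (if Valid Φ ε P T' q.1.1.2 q.1.2 then F q.1 m q.2.1 q.2.2 else 0) else
        (if Valid Φ ε P T' q.1.1.2 q.1.2 then F' q.1 m q.2.1 q.2.2 else 0) := by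
    funext q
    by_cases hv : Valid Φ ε P T' q.1.1.2 q.1.2
    · by_cases hq : p q.1 m q.2.1 q.2.2
      · rw [if_pos hv, if_pos hq, if_pos ⟨hv, hq⟩, if_pos hv]
      · rw [if_pos hv, if_neg hq, if_neg fun h => hq h.2, if_pos hv]
    · rw [if_neg hv, if_neg fun h => hv h.1, if_neg hv]
  rw [h2]
  exact Measurable.ite (hp m) (h m) (h' m)

end Crest.Agent.R122.GSCalc495

namespace Crest.Agent.R122.OSCalc495

variable {Φ : Space3 → ℝ} {f₀ : PhasePoint → ℝ} {ε : ℝ} {K : ℕ} {Q : EPar} {T' : ℝ}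
  {κ : Measure ℝ} {P : CTree}

/-- Integrand of `StmtXC`. -/
def xcF (Φ : Space3 → ℝ) (ε : ℝ) (K : ℕ) (tw : ℝ) : SF := fun P z _ w l =>
  (if P.leaves ≤ K ∧ K < l.2 + P.leaves then 1 else 0) * uI Φ ε tw P z w

/-- Integrand of `StmtNS`. -/
def nsF (Φ : Space3 → ℝ) (ε : ℝ) (K : ℕ) (tw : ℝ) (G : LF) (k : ∀ P : CTree, Idx P ⊕ Bool) :
    SF := fun P z m w l =>
  smI K P l * (uI Φ ε tw P z w * G m w (oneLs Φ ε P z l (k P)))

/-- Integrand of `StmtEX`. -/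
def exF (Φ : Space3 → ℝ) (ε : ℝ) (K : ℕ) (tw T' : ℝ) (m₀ : ℕ) (G : LF) : SF := fun P z m w l =>
  (if m₀ < P.leaves ∧ Sep Φ ε P T' z.1 z.2 then smI K P l else 0) * (uI Φ ε tw P z w *
    ∑ i ∈ Finset.univ.filter (fun i : Idx P => i ≠ root P), G m w (lineML Φ ε P z i))

/-- Integrand of `OSP`. -/
def spF (Φ : Space3 → ℝ) (ε : ℝ) (K : ℕ) (Q : EPar) (m₀ : ℕ) : SF := fun P z _ w l =>
  (if P.leaves ≤ m₀ then smI K P l else 0) *
    ∑ d ∈ exS P, ∑ e ∈ Finset.univ.erase d,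
      (MW.cfg w).touchP Φ ε K Q (oneLs Φ ε P z l d) (oneLs Φ ε P z l e)

/-- The three successors, for every shape. -/
def k₁ (P : CTree) : Idx P ⊕ Bool := Sum.inl (root P)
/-- The line `l'`. -/
def k₂ (P : CTree) : Idx P ⊕ Bool := Sum.inr false
/-- The line `c'`. -/
def k₃ (P : CTree) : Idx P ⊕ Bool := Sum.inr true

/-- Touch functional as a functional of the gas and of a line. -/
def gW (Φ : Space3 → ℝ) (ε : ℝ) (K : ℕ) (Q : EPar) : LF := fun _ w l =>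
  (MW.cfg w).touchW Φ ε K Q l

/-- Early touch as a functional of the gas and of a line. -/
def gB (Φ : Space3 → ℝ) (ε : ℝ) (K : ℕ) (Q : EPar) : LF := fun _ w l =>
  tB Q.tw ((MW.cfg w).thetaL Φ ε K Q.te l)

theorem measLF_gW (hΦ : AdmissiblePotential Φ) (hε : 0 < ε) (K : ℕ) (Q : EPar) :
    MeasLF (gW Φ ε K Q) := measLF_touchW hΦ hε K Q

theorem measLF_gB (hΦ : AdmissiblePotential Φ) (hε : 0 < ε) (K : ℕ) (Q : EPar) :
    MeasLF (gB Φ ε K Q) := measLF_tB hΦ hε K Q.te Q.tw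

theorem gW_le_one (hL : 0 ≤ Q.L) (m : ℕ) (w : Config m) (l : ML) : gW Φ ε K Q m w l ≤ 1 :=
  touchW_le_one hL _ _

theorem gB_le_one (m : ℕ) (w : Config m) (l : ML) : gB Φ ε K Q m w l ≤ 1 := by
  unfold gB tB
  split_ifs
  · exact le_rfl
  · exact zero_le_one

theorem measV_xcF (hΦ : AdmissiblePotential Φ) (hε : 0 < ε) (K : ℕ) (tw : ℝ) :
    MeasV Φ ε T' (xcF Φ ε K tw) := fun P =>
  (measVP_mark hΦ (P := P) fun n => if P.leaves ≤ K ∧ K < n + P.leaves then 1 else 0).mul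
    (measVP_uI hΦ hε tw P)

theorem measV_nsF (hΦ : AdmissiblePotential Φ) (hε : 0 < ε) (K : ℕ) (tw : ℝ) {G : LF}
    (hG : MeasLF G) (k : ∀ P : CTree, Idx P ⊕ Bool) : MeasV Φ ε T' (nsF Φ ε K tw G k) := fun P =>
  (measVP_smI hΦ K P).mul ((measVP_uI hΦ hε tw P).mul (measVP_oneLs hΦ hG P (k P)))

/-- The separation switch. -/
theorem measVP_sep (hΦ : AdmissiblePotential Φ) (hε : 0 < ε) (c : Prop) [Decidable c] {α : Type*}
    [MeasurableSpace α] {F : PF P α} (hF : MeasVP Φ ε T' P F) :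
    MeasVP Φ ε T' P (fun z m w l => if c ∧ Sep Φ ε P T' z.1 z.2 then F z m w l else 0) := by
  have h := MeasVP.ite_val (P := P) (F := F) (F' := fun _ _ _ _ => 0)
    (p := fun z _ _ _ => c ∧ Sep Φ ε P T' z.1 z.2) (fun m => ?_) hF MeasVP.zero
  · convert h
  by_cases hc : c
  · have h1 : {q : (PhasePoint × Par P) × (Config m × α) | Valid Φ ε P T' q.1.1.2 q.1.2 ∧
        (c ∧ Sep Φ ε P T' q.1.1 q.1.2)} = Prod.fst ⁻¹' {z : PhasePoint × Par P |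
        Valid Φ ε P T' z.1.2 z.2 ∧ Sep Φ ε P T' z.1 z.2} := by
      ext q
      exact ⟨fun h => ⟨h.1, h.2.2⟩, fun h => ⟨h.1, hc, h.2⟩⟩
    rw [h1]
    exact measurable_fst (measurableSet_validSep hΦ hε P T')
  · have h1 : {q : (PhasePoint × Par P) × (Config m × α) | Valid Φ ε P T' q.1.1.2 q.1.2 ∧
        (c ∧ Sep Φ ε P T' q.1.1 q.1.2)} = ∅ := by
      ext q
      exact ⟨fun h => hc h.2.1, fun h => h.elim⟩
    rw [h1]
    exact MeasurableSet.empty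

theorem measV_exF (hΦ : AdmissiblePotential Φ) (hε : 0 < ε) (K : ℕ) (tw : ℝ) (m₀ : ℕ) {G : LF}
    (hG : MeasLF G) : MeasV Φ ε T' (exF Φ ε K tw T' m₀ G) := fun P =>
  (measVP_sep hΦ hε (m₀ < P.leaves) (measVP_smI hΦ K P)).mul
    ((measVP_uI hΦ hε tw P).mul (MeasVP.sum _ fun i _ => measVP_lineML hΦ hG P i))

theorem measV_spF (hΦ : AdmissiblePotential Φ) (hε : 0 < ε) (K : ℕ) (Q : EPar) (m₀ : ℕ) :
    MeasV Φ ε T' (spF Φ ε K Q m₀) := fun P =>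
  (MeasVP.ite_const (P.leaves ≤ m₀) (measVP_smI hΦ K P) MeasVP.zero).mul
    (MeasVP.sum _ fun d _ => MeasVP.sum _ fun e _ => measVP_touchP hΦ hε K Q P d e)

/-- Measurability of the majorant on valid trees. -/
theorem majT_eq (m₀ : ℕ) (bd : SF) (P : CTree) (z : PhasePoint × Par P) (m : ℕ) (w : Config m)
    (l : ML) : majT Φ ε K Q T' m₀ bd P z m w l =
      xcF Φ ε K Q.tw P z m w l +
      ((nsF Φ ε K Q.tw (gW Φ ε K Q) k₁ P z m w l + nsF Φ ε K Q.tw (gB Φ ε K Q) k₁ P z m w l) +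
      ((nsF Φ ε K Q.tw (gW Φ ε K Q) k₂ P z m w l + nsF Φ ε K Q.tw (gB Φ ε K Q) k₂ P z m w l) +
      ((nsF Φ ε K Q.tw (gW Φ ε K Q) k₃ P z m w l + nsF Φ ε K Q.tw (gB Φ ε K Q) k₃ P z m w l) +
      (exF Φ ε K Q.tw T' m₀ (gW Φ ε K Q) P z m w l +
      (spF Φ ε K Q m₀ P z m w l +
      (exF Φ ε K Q.tw T' 0 (gB Φ ε K Q) P z m w l +
      (1 + ENNReal.ofReal Q.L) * bd P z m w l)))))) := by
  have hs : sucT Φ ε K Q P z w l =
      (gW Φ ε K Q m w (oneLs Φ ε P z l (k₁ P)) + gB Φ ε K Q m w (oneLs Φ ε P z l (k₁ P))) +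
      ((gW Φ ε K Q m w (oneLs Φ ε P z l (k₂ P)) + gB Φ ε K Q m w (oneLs Φ ε P z l (k₂ P))) +
      (gW Φ ε K Q m w (oneLs Φ ε P z l (k₃ P)) + gB Φ ε K Q m w (oneLs Φ ε P z l (k₃ P)))) := by
    unfold sucT suc
    rw [Finset.sum_insert (by simp), Finset.sum_insert (by simp), Finset.sum_singleton]
    rfl
  unfold majT
  rw [hs]
  unfold xcF nsF exF spF exT exB pairT gW gB
  ring

theorem OS_majT (hΦ : AdmissiblePotential Φ) (hε : 0 < ε) (hf : Measurable f₀)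
    (hγ : Measurable Q.γ) [SFinite κ] (m₀ : ℕ) (bd : SF) :
    OS Φ f₀ ε K Q T' κ (majT Φ ε K Q T' m₀ bd) =
      OS Φ f₀ ε K Q T' κ (xcF Φ ε K Q.tw) +
      ((OS Φ f₀ ε K Q T' κ (nsF Φ ε K Q.tw (gW Φ ε K Q) k₁) +
        OS Φ f₀ ε K Q T' κ (nsF Φ ε K Q.tw (gB Φ ε K Q) k₁)) +
      ((OS Φ f₀ ε K Q T' κ (nsF Φ ε K Q.tw (gW Φ ε K Q) k₂) +
        OS Φ f₀ ε K Q T' κ (nsF Φ ε K Q.tw (gB Φ ε K Q) k₂)) +
      ((OS Φ f₀ ε K Q T' κ (nsF Φ ε K Q.tw (gW Φ ε K Q) k₃) +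
        OS Φ f₀ ε K Q T' κ (nsF Φ ε K Q.tw (gB Φ ε K Q) k₃)) +
      (OS Φ f₀ ε K Q T' κ (exF Φ ε K Q.tw T' m₀ (gW Φ ε K Q)) +
      (OSP Φ f₀ ε K Q T' m₀ κ +
      (OS Φ f₀ ε K Q T' κ (exF Φ ε K Q.tw T' 0 (gB Φ ε K Q)) +
      (1 + ENNReal.ofReal Q.L) * OS Φ f₀ ε K Q T' κ bd)))))) := by
  have hW := measLF_gW hΦ hε K Q
  have hB := measLF_gB hΦ hε K Q
  have hns : ∀ {G : LF}, MeasLF G → ∀ k : ∀ P : CTree, Idx P ⊕ Bool,
      MeasV Φ ε T' (nsF Φ ε K Q.tw G k) := fun hG k => measV_nsF hΦ hε K Q.tw hG k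
  have hc : (1 + ENNReal.ofReal Q.L) ≠ ∞ := ENNReal.add_ne_top.2
    ⟨ENNReal.one_ne_top, ENNReal.ofReal_ne_top⟩
  have h0 : OS Φ f₀ ε K Q T' κ (majT Φ ε K Q T' m₀ bd) = OS Φ f₀ ε K Q T' κ _ :=
    OS_congr_on fun P z m w l _ _ => majT_eq m₀ bd P z m w l
  rw [h0, OS_add hΦ hf hγ (measV_xcF hΦ hε K Q.tw),
    OS_add hΦ hf hγ ((hns hW k₁).add (hns hB k₁)), OS_add hΦ hf hγ (hns hW k₁),
    OS_add hΦ hf hγ ((hns hW k₂).add (hns hB k₂)), OS_add hΦ hf hγ (hns hW k₂),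
    OS_add hΦ hf hγ ((hns hW k₃).add (hns hB k₃)), OS_add hΦ hf hγ (hns hW k₃),
    OS_add hΦ hf hγ (measV_exF hΦ hε K Q.tw m₀ hW), OS_add hΦ hf hγ (measV_spF hΦ hε K Q m₀),
    OS_add hΦ hf hγ (measV_exF hΦ hε K Q.tw 0 hB), OS_const_mul hc]
  rfl

end Crest.Agent.R122.OSCalc495

end
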