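import Crest.Agent.R122.Disc_416

/-!
Row 122, block BO, helper969: the entrance point instead of the impact parameter.

`sphM` is the surface measure of the unit sphere of `Space3` (as a measure on `Space3`).  For `g ≠ 0`
the image of the flux measure `‖g‖ dy` on the unit disc under `y ↦ entrancePoint (frameMap g y) g` is
`(-⟪g, ω⟫)₊ sphM (dω)`.
-/

set_option autoImplicit false

open MeasureTheory Crest.AnalysisR.Kinetic
open Crest.Agent.R122.Disc416
open scoped Classical ENNReal

noncomputable section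

namespace Crest.Agent.R122.Omega969

/-- the annulus `1 < ‖x‖ < 2` -/
def ann : Set Space3 := {x | 1 < ‖x‖ ∧ ‖x‖ < 2}

lemma measurableSet_ann : MeasurableSet ann := by
  unfold ann
  exact (measurableSet_lt measurable_const measurable_norm).inter
    (measurableSet_lt measurable_norm measurable_const)

/-- radial projection -/
def rproj (x : Space3) : Space3 := ‖x‖⁻¹ • x

lemma measurable_rproj : Measurable rproj := by
  unfold rproj
  exact (measurable_norm.inv).smul measurable_id

/-- **Surface measure of the unit sphere.** -/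
def sphM : Measure Space3 := ENNReal.ofReal (3 / 7) • ((volume.restrict ann).map rproj)

lemma lintegral_sphM {F : Space3 → ℝ≥0∞} (hF : Measurable F) :
    ∫⁻ w, F w ∂sphM = ENNReal.ofReal (3 / 7) * ∫⁻ x in ann, F (rproj x) := by
  unfold sphM
  rw [lintegral_smul_measure, lintegral_map hF measurable_rproj, smul_eq_mul]

lemma norm_rproj {x : Space3} (hx : x ∈ ann) : ‖rproj x‖ = 1 := by
  have h0 : (0 : ℝ) < ‖x‖ := by linarith [hx.1]
  unfold rproj
  rw [norm_smul, norm_inv, norm_norm, inv_mul_cancel₀ h0.ne']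

lemma volume_ann_lt_top : volume ann < ∞ := by
  refine lt_of_le_of_lt (measure_mono ?_) (measure_ball_lt_top (x := (0 : Space3)) (r := 2))
  intro x hx
  simpa using hx.2

instance isFiniteMeasure_sphM : IsFiniteMeasure sphM := by
  constructor
  unfold sphM
  rw [Measure.smul_apply, Measure.map_apply measurable_rproj MeasurableSet.univ, Set.preimage_univ,
    Measure.restrict_apply_univ, smul_eq_mul]
  exact ENNReal.mul_lt_top ENNReal.ofReal_lt_top volume_ann_lt_top

lemma ae_norm_sphM : ∀ᵐ w ∂sphM, ‖w‖ = 1 := by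
  have hs : MeasurableSet {w : Space3 | ¬ ‖w‖ = 1} :=
    (measurable_norm (measurableSet_singleton (1 : ℝ))).compl
  rw [ae_iff, ← lintegral_indicator_one hs, lintegral_sphM (measurable_one.indicator hs)]
  have : ∀ x ∈ ann, ({w : Space3 | ¬ ‖w‖ = 1}).indicator (1 : Space3 → ℝ≥0∞) (rproj x) = 0 := by
    intro x hx
    rw [Set.indicator_of_notMem]
    simpa using norm_rproj hx
  rw [setLIntegral_congr_fun measurableSet_ann this]
  simp

/-! ### One-dimensional change of variables -/

/-- the set of radii -/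
def Srad (a : ℝ) : Set ℝ := {R | 1 < R ∧ R < 2 ∧ a < R}

/-- the set of heights -/
def Shei (a : ℝ) : Set ℝ := {t | t < 0 ∧ 1 < a ^ 2 + t ^ 2 ∧ a ^ 2 + t ^ 2 < 4}

lemma measurableSet_Srad (a : ℝ) : MeasurableSet (Srad a) := by
  unfold Srad
  exact measurableSet_Ioi.inter (measurableSet_Iio.inter measurableSet_Ioi)

lemma measurableSet_Shei (a : ℝ) : MeasurableSet (Shei a) := by
  unfold Shei
  refine measurableSet_Iio.inter (MeasurableSet.inter ?_ ?_)
  · exact measurableSet_lt measurable_const (measurable_const.add (measurable_id.pow_const 2))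
  · exact measurableSet_lt (measurable_const.add (measurable_id.pow_const 2)) measurable_const

/-- height as a function of the radius -/
def hgt (a R : ℝ) : ℝ := -Real.sqrt (R ^ 2 - a ^ 2)

lemma Srad_pos {a R : ℝ} (ha : 0 ≤ a) (hR : R ∈ Srad a) : 0 < R ^ 2 - a ^ 2 := by
  have h1 := hR.1
  have h2 := hR.2.2
  nlinarith

lemma image_hgt {a : ℝ} (ha : 0 ≤ a) : hgt a '' Srad a = Shei a := by
  ext t
  constructor
  · rintro ⟨R, hR, rfl⟩
    have h0 := Srad_pos ha hR
    have h1 : hgt a R ^ 2 = R ^ 2 - a ^ 2 := by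
      unfold hgt
      rw [neg_sq, Real.sq_sqrt h0.le]
    refine ⟨?_, ?_, ?_⟩
    · unfold hgt
      have := Real.sqrt_pos.2 h0
      linarith
    · rw [h1]; nlinarith [hR.1]
    · rw [h1]; nlinarith [hR.1, hR.2.1]
  · rintro ⟨ht, h1, h2⟩
    have hp : 0 < a ^ 2 + t ^ 2 := by linarith
    refine ⟨Real.sqrt (a ^ 2 + t ^ 2), ⟨?_, ?_, ?_⟩, ?_⟩
    · rw [Real.lt_sqrt zero_le_one]; linarith
    · rw [Real.sqrt_lt' (by norm_num)]; linarith
    · rw [Real.lt_sqrt ha]
      have : 0 < t ^ 2 := by nlinarith [mul_pos_of_neg_of_neg ht ht]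
      linarith
    · unfold hgt
      rw [Real.sq_sqrt hp.le, show a ^ 2 + t ^ 2 - a ^ 2 = t ^ 2 by ring,
        Real.sqrt_sq_eq_abs, abs_of_neg ht, neg_neg]

lemma hasDerivAt_hgt {a R : ℝ} (ha : 0 ≤ a) (hR : R ∈ Srad a) :
    HasDerivAt (hgt a) (-(R / Real.sqrt (R ^ 2 - a ^ 2))) R := by
  have h0 := Srad_pos ha hR
  have h1 : HasDerivAt (fun R : ℝ => R ^ 2 - a ^ 2) (2 * R) R := by
    have := (hasDerivAt_pow 2 R).sub_const (a ^ 2)
    simpa using this
  have h2 := (h1.sqrt h0.ne').neg
  convert! h2 using 1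
  have : Real.sqrt (R ^ 2 - a ^ 2) ≠ 0 := (Real.sqrt_pos.2 h0).ne'
  field_simp

lemma injOn_hgt {a : ℝ} (ha : 0 ≤ a) : Set.InjOn (hgt a) (Srad a) := by
  intro R hR R' hR' h
  have h0 := Srad_pos ha hR
  have h0' := Srad_pos ha hR'
  unfold hgt at h
  have h1 : Real.sqrt (R ^ 2 - a ^ 2) = Real.sqrt (R' ^ 2 - a ^ 2) := by linarith
  have h2 : R ^ 2 - a ^ 2 = R' ^ 2 - a ^ 2 := by
    rw [← Real.sq_sqrt h0.le, ← Real.sq_sqrt h0'.le, h1]
  have h3 : R ^ 2 = R' ^ 2 := by linarith
  have hp : 0 < R := by linarith [hR.1]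
  have hp' : 0 < R' := by linarith [hR'.1]
  nlinarith [sq_nonneg (R - R'), sq_nonneg (R + R')]

/-- radial change of variables at fixed distance `a` from the axis -/
lemma radial {a : ℝ} (ha : 0 ≤ a) (H : ℝ → ℝ≥0∞) :
    ∫⁻ t in Shei a, ENNReal.ofReal (-t / Real.sqrt (a ^ 2 + t ^ 2)) * H t =
      ∫⁻ R in Srad a, H (hgt a R) := by
  rw [← image_hgt ha, lintegral_image_eq_lintegral_abs_deriv_mul (measurableSet_Srad a)
    (fun R hR => (hasDerivAt_hgt ha hR).hasDerivWithinAt) (injOn_hgt ha)]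
  refine setLIntegral_congr_fun (measurableSet_Srad a) fun R hR => ?_
  have h0 := Srad_pos ha hR
  have hR0 : 0 < R := by linarith [hR.1]
  have hs : 0 < Real.sqrt (R ^ 2 - a ^ 2) := Real.sqrt_pos.2 h0
  have h1 : a ^ 2 + hgt a R ^ 2 = R ^ 2 := by
    unfold hgt
    rw [neg_sq, Real.sq_sqrt h0.le]; ring
  rw [h1, Real.sqrt_sq hR0.le, ← mul_assoc, ← ENNReal.ofReal_mul (abs_nonneg _), abs_neg,
    abs_of_pos (by positivity)]
  have h2 : R / Real.sqrt (R ^ 2 - a ^ 2) * (-hgt a R / R) = 1 := by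
    unfold hgt
    rw [neg_neg]
    field_simp
  rw [h2, ENNReal.ofReal_one, one_mul]

/-! ### The flux measure in terms of the entrance point -/

/-- point of the sphere of radius `R` on the incoming side -/
def sp (g : Space3) (R : ℝ) (y : Plane) : Space3 := frameMap g y + hgt ‖y‖ R • dir g

lemma norm_cyl_sq {g : Space3} (hg : g ≠ 0) (y : Plane) (t : ℝ) :
    ‖frameMap g y + t • dir g‖ ^ 2 = ‖y‖ ^ 2 + t ^ 2 := by
  rw [norm_add_sq_real, norm_frameMap hg, norm_smul, norm_dir hg, mul_one, Real.norm_eq_abs,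
    sq_abs, inner_smul_right]
  have : inner ℝ (frameMap g y) (dir g) = 0 := by
    unfold dir
    rw [inner_smul_right, inner_frameMap_self, mul_zero]
  rw [this]; ring

lemma norm_cyl {g : Space3} (hg : g ≠ 0) (y : Plane) (t : ℝ) :
    ‖frameMap g y + t • dir g‖ = Real.sqrt (‖y‖ ^ 2 + t ^ 2) := by
  rw [← norm_cyl_sq hg, Real.sqrt_sq (norm_nonneg _)]

lemma mem_ann_cyl {g : Space3} (hg : g ≠ 0) (y : Plane) (t : ℝ) :
    frameMap g y + t • dir g ∈ ann ↔ 1 < ‖y‖ ^ 2 + t ^ 2 ∧ ‖y‖ ^ 2 + t ^ 2 < 4 := by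
  unfold ann
  simp only [Set.mem_ofPred_eq]
  rw [norm_cyl hg, Real.lt_sqrt zero_le_one, Real.sqrt_lt' (by norm_num)]
  norm_num

lemma inner_cyl {g : Space3} (hg : g ≠ 0) (y : Plane) (t : ℝ) :
    inner ℝ g (frameMap g y + t • dir g) = t * ‖g‖ := by
  have h0 : ‖g‖ ≠ 0 := norm_ne_zero_iff.2 hg
  rw [inner_add_right, real_inner_comm, inner_frameMap_self, zero_add]
  unfold dir
  rw [smul_smul, inner_smul_right, real_inner_self_eq_norm_sq]
  field_simp

lemma sp_scale {g : Space3} {R : ℝ} (hR : 0 < R) (y : Plane) :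
    R⁻¹ • sp g R (R • y) = frameMap g y + hgt ‖y‖ 1 • dir g := by
  unfold sp hgt
  rw [frameMap_smul, smul_add, smul_smul, inv_mul_cancel₀ hR.ne', one_smul, smul_smul, norm_smul,
    Real.norm_eq_abs, abs_of_pos hR]
  congr 2
  have h1 : R ^ 2 - (R * ‖y‖) ^ 2 = R ^ 2 * (1 ^ 2 - ‖y‖ ^ 2) := by ring
  rw [h1, Real.sqrt_mul (sq_nonneg R), Real.sqrt_sq hR.le]
  field_simp

lemma entrance_eq {g : Space3} (hg : g ≠ 0) (y : Plane) :
    frameMap g y + hgt ‖y‖ 1 • dir g = entrancePoint (frameMap g y) g := by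
  unfold hgt entrancePoint dir
  rw [norm_frameMap hg, neg_smul, smul_smul, ← sub_eq_add_neg, one_pow]
  congr 2

lemma measurable_entrance (g : Space3) : Measurable (fun y : Plane => entrancePoint (frameMap g y) g) := by
  have h1 : Measurable (fun y : Plane => frameMap g y) :=
    measurable_frameMap.comp (measurable_const.prodMk measurable_id)
  unfold entrancePoint
  exact h1.sub ((((measurable_const.sub (h1.norm.pow_const 2)).sqrt).div_const _).smul_const g)

/-- scaling of the disc -/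
lemma lintegral_disc_scale {R : ℝ} (hR : 0 < R) {F : Plane → ℝ≥0∞} (hF : Measurable F) :
    ∫⁻ y in Metric.ball (0 : Plane) R, F y =
      ENNReal.ofReal (R ^ 2) * ∫⁻ y in Metric.ball (0 : Plane) 1, F (R • y) := by
  have h1 := Measure.map_addHaar_smul (volume : Measure Plane) hR.ne'
  have hm : Measurable (fun y : Plane => (Metric.ball (0 : Plane) R).indicator F y) :=
    hF.indicator measurableSet_ball
  have h2 : ∫⁻ y, (Metric.ball (0 : Plane) R).indicator F (R • y) =
      ENNReal.ofReal (R ^ 2)⁻¹ * ∫⁻ y, (Metric.ball (0 : Plane) R).indicator F y := by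
    rw [← lintegral_map hm (measurable_const_smul R), h1, lintegral_smul_measure, smul_eq_mul]
    congr 2
    rw [show Module.finrank ℝ Plane = 2 by simp, abs_inv, abs_of_pos (by positivity)]
  have h3 : ∀ y : Plane, (Metric.ball (0 : Plane) R).indicator F (R • y) =
      (Metric.ball (0 : Plane) 1).indicator (fun y => F (R • y)) y := by
    intro y
    have hiff : R • y ∈ Metric.ball (0 : Plane) R ↔ y ∈ Metric.ball (0 : Plane) 1 := by
      simp only [Metric.mem_ball, dist_zero_right, norm_smul, Real.norm_eq_abs, abs_of_pos hR]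
      constructor
      · intro h; exact lt_of_mul_lt_mul_left (by linarith) hR.le
      · intro h; nlinarith
    by_cases hy : y ∈ Metric.ball (0 : Plane) 1
    · rw [Set.indicator_of_mem hy, Set.indicator_of_mem (hiff.2 hy)]
    · rw [Set.indicator_of_notMem hy, Set.indicator_of_notMem (fun h => hy (hiff.1 h))]
  simp_rw [h3] at h2
  rw [lintegral_indicator measurableSet_ball, lintegral_indicator measurableSet_ball] at h2
  rw [h2, ← mul_assoc, ← ENNReal.ofReal_mul (by positivity), mul_inv_cancel₀ (by positivity),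
    ENNReal.ofReal_one, one_mul]

lemma int_sq_Ioo : ∫⁻ R in Set.Ioo (1 : ℝ) 2, ENNReal.ofReal (R ^ 2) = ENNReal.ofReal (7 / 3) := by
  have hint : IntegrableOn (fun R : ℝ => R ^ 2) (Set.Ioo 1 2) :=
    ((continuous_pow 2).integrableOn_Icc (a := 1) (b := 2)).mono_set Set.Ioo_subset_Icc_self
  rw [← ofReal_integral_eq_lintegral_ofReal hint (Filter.Eventually.of_forall fun R => sq_nonneg R)]
  congr 1
  rw [← integral_Ioc_eq_integral_Ioo, ← intervalIntegral.integral_of_le (by norm_num)]
  rw [integral_pow]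
  norm_num

/-- **Entrance point form of the flux measure.** -/
theorem omega_disc {g : Space3} (hg : g ≠ 0) {ψ : Space3 → ℝ≥0∞} (hψ : Measurable ψ) :
    ENNReal.ofReal ‖g‖ * ∫⁻ y in Metric.ball (0 : Plane) 1, ψ (entrancePoint (frameMap g y) g) =
      ∫⁻ w, ENNReal.ofReal (-inner ℝ g w) * ψ w ∂sphM := by
  have hmi : Measurable (fun w : Space3 => ENNReal.ofReal (-inner ℝ g w)) :=
    ENNReal.measurable_ofReal.comp (Continuous.measurable (by fun_prop))
  have hmm : Measurable (fun w : Space3 => ENNReal.ofReal (-inner ℝ g w) * ψ w) := hmi.mul hψ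
  rw [lintegral_sphM hmm, ← lintegral_indicator measurableSet_ann]
  have hmF : Measurable (ann.indicator fun x : Space3 =>
      ENNReal.ofReal (-inner ℝ g (rproj x)) * ψ (rproj x)) :=
    ((hmi.comp measurable_rproj).mul (hψ.comp measurable_rproj)).indicator measurableSet_ann
  rw [lintegral_cylinder hg hmF]
  have hmF2 : Measurable (fun p : Plane × ℝ => ann.indicator (fun x : Space3 =>
      ENNReal.ofReal (-inner ℝ g (rproj x)) * ψ (rproj x)) (frameMap g p.1 + p.2 • dir g)) :=
    hmF.comp (measurePreserving_cylinder hg).measurable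
  rw [Measure.volume_eq_prod, lintegral_prod _ hmF2.aemeasurable]
  have hg0 : 0 < ‖g‖ := norm_pos_iff.2 hg
  -- inner integral
  have hin : ∀ y : Plane, ∫⁻ t : ℝ, ann.indicator (fun x : Space3 =>
      ENNReal.ofReal (-inner ℝ g (rproj x)) * ψ (rproj x)) (frameMap g y + t • dir g) =
      ENNReal.ofReal ‖g‖ * ∫⁻ R in Srad ‖y‖, ψ (R⁻¹ • sp g R y) := by
    intro y
    have e1 : ∀ t : ℝ, ann.indicator (fun x : Space3 =>
        ENNReal.ofReal (-inner ℝ g (rproj x)) * ψ (rproj x)) (frameMap g y + t • dir g) =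
        (Shei ‖y‖).indicator (fun t => ENNReal.ofReal ‖g‖ *
          (ENNReal.ofReal (-t / Real.sqrt (‖y‖ ^ 2 + t ^ 2)) *
          ψ ((Real.sqrt (‖y‖ ^ 2 + t ^ 2))⁻¹ • (frameMap g y + t • dir g)))) t := by
      intro t
      have hrp : rproj (frameMap g y + t • dir g) =
          (Real.sqrt (‖y‖ ^ 2 + t ^ 2))⁻¹ • (frameMap g y + t • dir g) := by
        unfold rproj; rw [norm_cyl hg]
      have hinn : -inner ℝ g (rproj (frameMap g y + t • dir g)) =
          ‖g‖ * (-t / Real.sqrt (‖y‖ ^ 2 + t ^ 2)) := by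
        rw [hrp, inner_smul_right, inner_cyl hg]
        ring
      by_cases hA : frameMap g y + t • dir g ∈ ann
      · rw [Set.indicator_of_mem hA, hinn, ENNReal.ofReal_mul hg0.le, hrp, mul_assoc]
        have hA' := (mem_ann_cyl hg y t).1 hA
        by_cases ht : t < 0
        · rw [Set.indicator_of_mem (show t ∈ Shei ‖y‖ from ⟨ht, hA'⟩)]
        · rw [Set.indicator_of_notMem (show t ∉ Shei ‖y‖ from fun h => ht h.1)]
          have h2 : -t / Real.sqrt (‖y‖ ^ 2 + t ^ 2) ≤ 0 := by
            refine div_nonpos_of_nonpos_of_nonneg ?_ (Real.sqrt_nonneg _)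
            push Not at ht
            linarith
          rw [ENNReal.ofReal_of_nonpos h2]
          simp
      · rw [Set.indicator_of_notMem hA]
        rw [Set.indicator_of_notMem]
        intro h
        exact hA ((mem_ann_cyl hg y t).2 h.2)
    simp_rw [e1]
    rw [lintegral_indicator (measurableSet_Shei _), lintegral_const_mul', radial (norm_nonneg y)]
    · congr 1
      refine setLIntegral_congr_fun (measurableSet_Srad _) fun R hR => ?_
      have h0 := Srad_pos (norm_nonneg y) hR
      have hR0 : 0 < R := by linarith [hR.1]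
      have h1 : ‖y‖ ^ 2 + hgt ‖y‖ R ^ 2 = R ^ 2 := by
        unfold hgt
        rw [neg_sq, Real.sq_sqrt h0.le]; ring
      rw [h1, Real.sqrt_sq hR0.le]
      rfl
    · exact ENNReal.ofReal_ne_top
  simp_rw [hin]
  -- exchange the integrals
  have hmsp : Measurable (fun p : Plane × ℝ => p.2⁻¹ • sp g p.2 p.1) := by
    have h1 : Measurable (fun p : Plane × ℝ => frameMap g p.1) :=
      measurable_frameMap.comp (measurable_const.prodMk measurable_fst)
    have h2 : Measurable (fun p : Plane × ℝ => hgt ‖p.1‖ p.2) := by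
      unfold hgt
      exact (((measurable_snd.pow_const 2).sub (measurable_fst.norm.pow_const 2)).sqrt).neg
    unfold sp
    exact (measurable_snd.inv).smul (h1.add (h2.smul_const _))
  have hmS : MeasurableSet {p : Plane × ℝ | p.2 ∈ Srad ‖p.1‖} := by
    have : {p : Plane × ℝ | p.2 ∈ Srad ‖p.1‖} =
        {p : Plane × ℝ | 1 < p.2} ∩ ({p | p.2 < 2} ∩ {p | ‖p.1‖ < p.2}) := rfl
    rw [this]
    refine (measurableSet_lt measurable_const measurable_snd).inter
      ((measurableSet_lt measurable_snd measurable_const).inter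
      (measurableSet_lt measurable_fst.norm measurable_snd))
  have hmK : Measurable (fun p : Plane × ℝ =>
      {p : Plane × ℝ | p.2 ∈ Srad ‖p.1‖}.indicator (fun p => ψ (p.2⁻¹ • sp g p.2 p.1)) p) :=
    (hψ.comp hmsp).indicator hmS
  have hsw : ∫⁻ y : Plane, ENNReal.ofReal ‖g‖ * ∫⁻ R in Srad ‖y‖, ψ (R⁻¹ • sp g R y) =
      ENNReal.ofReal ‖g‖ * ∫⁻ R in Set.Ioo (1 : ℝ) 2, ∫⁻ y in Metric.ball (0 : Plane) R,
        ψ (R⁻¹ • sp g R y) := by
    rw [lintegral_const_mul' _ _ ENNReal.ofReal_ne_top]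
    congr 1
    have e2 : ∀ y : Plane, ∫⁻ R in Srad ‖y‖, ψ (R⁻¹ • sp g R y) =
        ∫⁻ R : ℝ, {p : Plane × ℝ | p.2 ∈ Srad ‖p.1‖}.indicator
          (fun p => ψ (p.2⁻¹ • sp g p.2 p.1)) (y, R) := by
      intro y
      rw [← lintegral_indicator (measurableSet_Srad _)]
      rfl
    simp_rw [e2]
    rw [lintegral_lintegral_swap hmK.aemeasurable, ← lintegral_indicator measurableSet_Ioo]
    refine lintegral_congr fun R => ?_
    by_cases hR : R ∈ Set.Ioo (1 : ℝ) 2
    · rw [Set.indicator_of_mem hR, ← lintegral_indicator measurableSet_ball]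
      refine lintegral_congr fun y => ?_
      have hiff : ((y, R) : Plane × ℝ) ∈ {p : Plane × ℝ | p.2 ∈ Srad ‖p.1‖} ↔
          y ∈ Metric.ball (0 : Plane) R := by
        simp only [Set.mem_ofPred_eq, Srad, Metric.mem_ball, dist_zero_right]
        exact ⟨fun h => h.2.2, fun h => ⟨hR.1, hR.2, h⟩⟩
      by_cases hy : y ∈ Metric.ball (0 : Plane) R
      · rw [Set.indicator_of_mem hy, Set.indicator_of_mem (hiff.2 hy)]
      · rw [Set.indicator_of_notMem hy, Set.indicator_of_notMem (fun h => hy (hiff.1 h))]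
    · rw [Set.indicator_of_notMem hR]
      have : ∀ y : Plane, {p : Plane × ℝ | p.2 ∈ Srad ‖p.1‖}.indicator
          (fun p => ψ (p.2⁻¹ • sp g p.2 p.1)) (y, R) = 0 := by
        intro y
        refine Set.indicator_of_notMem (fun h => hR ?_) _
        exact ⟨h.1, h.2.1⟩
      simp [this]
  rw [hsw]
  have hlast : ∀ R ∈ Set.Ioo (1 : ℝ) 2, ∫⁻ y in Metric.ball (0 : Plane) R, ψ (R⁻¹ • sp g R y) =
      ENNReal.ofReal (R ^ 2) *
        ∫⁻ y in Metric.ball (0 : Plane) 1, ψ (entrancePoint (frameMap g y) g) := by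
    intro R hR
    have hR0 : 0 < R := by linarith [hR.1]
    have hmy : Measurable (fun y : Plane => ψ (R⁻¹ • sp g R y)) :=
      hψ.comp (hmsp.comp (measurable_id.prodMk measurable_const))
    rw [lintegral_disc_scale hR0 hmy]
    congr 1
    refine lintegral_congr fun y => ?_
    rw [sp_scale hR0, entrance_eq hg]
  have hmR : Measurable (fun R : ℝ => ENNReal.ofReal (R ^ 2)) :=
    ENNReal.measurable_ofReal.comp (measurable_id.pow_const 2)
  rw [setLIntegral_congr_fun measurableSet_Ioo hlast, lintegral_mul_const _ hmR, int_sq_Ioo]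
  rw [← mul_assoc, ← mul_assoc, mul_comm (ENNReal.ofReal (3 / 7)), mul_assoc (ENNReal.ofReal ‖g‖),
    ← ENNReal.ofReal_mul (by norm_num)]
  norm_num

/-- the impact parameter recovered from the entrance point -/
lemma perp_entrance {g : Space3} (hg : g ≠ 0) (y : Plane) :
    entrancePoint (frameMap g y) g -
      (inner ℝ (entrancePoint (frameMap g y) g) g / ‖g‖ ^ 2) • g = frameMap g y := by
  have h0 : ‖g‖ ^ 2 ≠ 0 := pow_ne_zero 2 (norm_ne_zero_iff.2 hg)
  unfold entrancePoint
  rw [inner_sub_left, inner_frameMap_self, real_inner_smul_left, real_inner_self_eq_norm_sq,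
    zero_sub, neg_div, mul_div_assoc, div_self h0, mul_one]
  module

lemma measurable_perp (g : Space3) :
    Measurable (fun w : Space3 => w - (inner ℝ w g / ‖g‖ ^ 2) • g) :=
  Continuous.measurable (by fun_prop)

/-- `omega_disc` for functions of the impact parameter (plane coordinates). -/
theorem omega_disc_perp {g : Space3} (hg : g ≠ 0) {ψ : Space3 → ℝ≥0∞} (hψ : Measurable ψ) :
    ENNReal.ofReal ‖g‖ * ∫⁻ y in Metric.ball (0 : Plane) 1, ψ (frameMap g y) =
      ∫⁻ w, ENNReal.ofReal (-inner ℝ g w) * ψ (w - (inner ℝ w g / ‖g‖ ^ 2) • g) ∂sphM := by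
  have h := omega_disc hg (hψ.comp (measurable_perp g))
  simp only [Function.comp_def] at h
  rw [← h]
  congr 1
  refine lintegral_congr fun y => ?_
  rw [perp_entrance hg]

/-- `omega_disc` with the Hausdorff measure of the impact disc (every `g`). -/
theorem omega_impactDisc (g : Space3) {ψ : Space3 → ℝ≥0∞} (hψ : Measurable ψ) :
    ENNReal.ofReal ‖g‖ * ∫⁻ b in impactDisc g, ψ (entrancePoint b g) ∂μHE[2] =
      ∫⁻ w, ENNReal.ofReal (-inner ℝ g w) * ψ w ∂sphM := by
  by_cases hg : g = 0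
  · simp [hg]
  · rw [lintegral_impactDisc hg, omega_disc hg hψ]

/-- Functions of the impact parameter and the entrance point. -/
theorem omega_impactDisc_perp (g : Space3) {ψ : Space3 → ℝ≥0∞} (hψ : Measurable ψ) :
    ENNReal.ofReal ‖g‖ * ∫⁻ b in impactDisc g, ψ b ∂μHE[2] =
      ∫⁻ w, ENNReal.ofReal (-inner ℝ g w) * ψ (w - (inner ℝ w g / ‖g‖ ^ 2) • g) ∂sphM := by
  by_cases hg : g = 0
  · simp [hg]
  · rw [lintegral_impactDisc hg, omega_disc_perp hg hψ]

/-- The total mass of `sphM`. -/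
theorem sphM_univ : sphM Set.univ = ENNReal.ofReal (4 * Real.pi) := by
  have hb2 : volume (Metric.ball (0 : Space3) 2) = ENNReal.ofReal 2 ^ 3 * ENNReal.ofReal (Real.pi * 4 / 3) :=
    EuclideanSpace.volume_ball_fin_three _ _
  have hb1 : volume (Metric.closedBall (0 : Space3) 1) =
      ENNReal.ofReal 1 ^ 3 * ENNReal.ofReal (Real.pi * 4 / 3) :=
    EuclideanSpace.volume_closedBall_fin_three _ _
  have hann : ann = Metric.ball (0 : Space3) 2 \ Metric.closedBall (0 : Space3) 1 := by
    ext x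
    simp [ann, and_comm]
  have hsub : Metric.closedBall (0 : Space3) 1 ⊆ Metric.ball (0 : Space3) 2 :=
    Metric.closedBall_subset_ball (by norm_num)
  have hv : volume ann = ENNReal.ofReal (7 * (Real.pi * 4 / 3)) := by
    rw [hann, measure_sdiff hsub measurableSet_closedBall.nullMeasurableSet
      (measure_closedBall_lt_top).ne, hb2, hb1, ← ENNReal.ofReal_pow (by norm_num),
      ← ENNReal.ofReal_pow (by norm_num), ← ENNReal.ofReal_mul (by norm_num),
      ← ENNReal.ofReal_mul (by norm_num), ← ENNReal.ofReal_sub _ (by positivity)]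
    congr 1
    ring
  unfold sphM
  rw [Measure.smul_apply, Measure.map_apply measurable_rproj MeasurableSet.univ, Set.preimage_univ,
    Measure.restrict_apply_univ, smul_eq_mul, hv, ← ENNReal.ofReal_mul (by norm_num)]
  congr 1
  ring

end Crest.Agent.R122.Omega969
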