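import Crest.Agent.R122.OneCDefs_285
import Crest.Agent.R122.OCfluxC1_663
import Crest.Agent.R122.InEq2Split_311
import Crest.Agent.R122.EBasic_602

/-!
# Row 122 (helper663): flux of errors (helper285's item (3))

The error functionals of the one-contact step, evaluated at the first contact of a free test line with
the gas, are bounded by the real flux form `rfl4`.

* `lintegral_baseM_le` : iterated upper bound of integrals over test lines born at `τ` (no
  measurability).
* `lintegral_line_firstHit_le` : one particle of a Newton world, functionals of a test line supported on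
  first hits of this particle.
* `rf_of_firstHit` : Mecke'd sum over clusters.
-/

set_option autoImplicit false

open MeasureTheory Set Filter
open scoped ENNReal Classical Topology
open Crest.AnalysisR.Kinetic
open Crest.Agent.R122.Kin796 Crest.Agent.R122.GC311 Crest.Agent.R122.Flow671
open Crest.Agent.R122.EDefs602 Crest.Agent.R122.Loc45 Crest.Agent.R122.OC663
open Crest.Agent.R122.InEq2 Crest.Agent.R122.Relabel674 Crest.Agent.R122.Causal291
open Crest.Agent.R122.EBasic602

noncomputable section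

namespace Crest.Agent.R122.RedFlux663

open OneC285

/-! ### Integrals over test lines -/

/-- Iterated upper bound, no measurability. -/
theorem lintegral_baseM_le (τ : ℝ) (F : ML → ℝ≥0∞) :
    ∫⁻ l, F l ∂(OneC423.baseM (Measure.dirac τ)) ≤
      ∑' n : ℕ, ∫⁻ v : Space3, ∫⁻ y : Space3, F ((τ, (y, v)), n) := by
  unfold OneC423.baseM
  set D : Measure ℝ := Measure.dirac τ with hD
  calc ∫⁻ l, F l ∂((D.prod (volume : Measure PhasePoint)).prod Measure.count)
      = ∫⁻ q : ℕ × (ℝ × PhasePoint), F (q.2, q.1)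
          ∂((Measure.count : Measure ℕ).prod (D.prod (volume : Measure PhasePoint))) := by
        rw [← Measure.prod_swap]
        exact lintegral_map_equiv F MeasurableEquiv.prodComm
    _ ≤ ∫⁻ n : ℕ, ∫⁻ e : ℝ × PhasePoint, F (e, n)
          ∂(D.prod (volume : Measure PhasePoint)) ∂Measure.count :=
        lintegral_prod_le fun q : ℕ × (ℝ × PhasePoint) => F (q.2, q.1)
    _ = ∑' n : ℕ, ∫⁻ e : ℝ × PhasePoint, F (e, n) ∂(D.prod (volume : Measure PhasePoint)) :=
        lintegral_count _
    _ ≤ ∑' n : ℕ, ∫⁻ v : Space3, ∫⁻ y : Space3, F ((τ, (y, v)), n) := by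
        refine ENNReal.tsum_le_tsum fun n => ?_
        refine (lintegral_prod_le fun e : ℝ × PhasePoint => F (e, n)).trans ?_
        rw [hD, lintegral_dirac]
        have hv : (volume : Measure PhasePoint) =
            (volume : Measure Space3).prod (volume : Measure Space3) := rfl
        rw [hv, ← Measure.prod_swap]
        refine le_trans (le_of_eq (lintegral_map_equiv (fun z : PhasePoint => F ((τ, z), n))
          MeasurableEquiv.prodComm)) ?_
        exact lintegral_prod_le fun q : Space3 × Space3 =>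
          (fun z : PhasePoint => F ((τ, z), n)) (MeasurableEquiv.prodComm q)

/-- Constant of the flux inequality. -/
def cFlux (g₀ : ℝ) (ρ : ℝ≥0∞) : ℝ≥0∞ :=
  (∑' n : ℕ, ρ ^ n) * (ENNReal.ofReal Real.pi * ∫⁻ v : Space3, wG g₀ v * ENNReal.ofReal (1 + ‖v‖))

theorem cFlux_ne_top {g₀ : ℝ} (hg : 0 < g₀) {ρ : ℝ≥0∞} (hρ : ρ < 1) : cFlux g₀ ρ ≠ ∞ := by
  unfold cFlux
  refine ENNReal.mul_ne_top ?_ (ENNReal.mul_ne_top ENNReal.ofReal_ne_top ?_)
  · rw [ENNReal.tsum_geometric]
    exact ENNReal.inv_ne_top.2 (tsub_pos_of_lt hρ).ne'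
  · have h1 := (Boltz814.integrable_one_add_pow_mul_gauss hg 1).lintegral_lt_top
    refine ne_of_lt (lt_of_eq_of_lt (lintegral_congr fun v => ?_) h1)
    unfold wG
    rw [← ENNReal.ofReal_mul (Real.exp_pos _).le, mul_comm, pow_one, neg_mul]

variable {Φ : Space3 → ℝ} {ε : ℝ}

theorem markW_le (ρ : ℝ≥0∞) (K n : ℕ) : markW ρ K n ≤ ρ ^ n := by
  unfold markW
  split_ifs
  · exact le_rfl
  · exact bot_le

/-- **Flux inequality for one particle of a Newton world.** The functional `H` of the test line is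
supported on first hits of the particle `q` in `(τ, te]` and bounded there by `G` at the hitting
time. -/
theorem lintegral_line_firstHit_le (hΦ : AdmissiblePotential Φ) (hε : 0 < ε) {ι : Type*}
    [Fintype ι] {Z : ι → PhasePoint} (hZ : Z ∈ Dom Φ ι) (q : ι) {γ : ℝ → ℝ} {ρ : ℝ≥0∞} {K : ℕ}
    {g₀ τ te : ℝ} (hγ : g₀ ≤ γ τ) (hρ : ρ < 1) {G : ℝ → ℝ≥0∞} (hG : Measurable G)
    {H : ML → ℝ≥0∞}
    (hH : ∀ y v n, H ((τ, (y, v)), n) ≠ 0 → ∃ s ∈ Ioc τ te,
      FirstHit ε (fun r => y + (r - τ) • v) (fun s => (flow Φ ε s Z q).1) τ s)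
    (hHG : ∀ y v n, ∀ s ∈ Ioc τ te,
      FirstHit ε (fun r => y + (r - τ) • v) (fun s => (flow Φ ε s Z q).1) τ s →
      H ((τ, (y, v)), n) ≤ G s) :
    ∫⁻ l, lineD γ ρ K l * H l ∂(OneC423.baseM (Measure.dirac τ)) ≤
      cFlux g₀ ρ * ∫⁻ s in Ioc τ te,
        ENNReal.ofReal (ε ^ 2 * (1 + ‖(flow Φ ε s Z q).2‖)) * G s := by
  have hcont : Continuous fun s => flow Φ ε s Z := flow_continuous_time hΦ hε Z
  have hy : Continuous fun s => (flow Φ ε s Z q).1 := ((continuous_apply q).comp hcont).fst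
  have hy' : Continuous fun s => (flow Φ ε s Z q).2 := ((continuous_apply q).comp hcont).snd
  have hwm : Measurable fun v : Space3 => wG (γ τ) v := by unfold wG; fun_prop
  have hwt : ∀ v : Space3, wG (γ τ) v ≠ ∞ := fun v => ENNReal.ofReal_ne_top
  have hwle : ∀ v : Space3, wG (γ τ) v ≤ wG g₀ v := fun v => wG_anti hγ v
  -- the inner disc integral
  have hdisc : ∀ (s : ℝ) (v : Space3),
      ENNReal.ofReal ‖v - (flow Φ ε s Z q).2‖ *
        ∫⁻ _ in impactDisc (v - (flow Φ ε s Z q).2), G s ∂μHE[2] ≤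
      ENNReal.ofReal (1 + ‖v‖) * (ENNReal.ofReal Real.pi *
        (ENNReal.ofReal (1 + ‖(flow Φ ε s Z q).2‖) * G s)) := by
    intro s v
    by_cases h0 : v - (flow Φ ε s Z q).2 = 0
    · rw [h0, norm_zero, ENNReal.ofReal_zero, zero_mul]
      exact bot_le
    rw [lintegral_const, Measure.restrict_apply_univ, Boltz814.hausdorff_impactDisc h0]
    have h1 : ENNReal.ofReal ‖v - (flow Φ ε s Z q).2‖ ≤
        ENNReal.ofReal (1 + ‖v‖) * ENNReal.ofReal (1 + ‖(flow Φ ε s Z q).2‖) := by
      rw [← ENNReal.ofReal_mul (by positivity)]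
      refine ENNReal.ofReal_le_ofReal ?_
      have h2 := norm_sub_le v (flow Φ ε s Z q).2
      nlinarith [norm_nonneg v, norm_nonneg (flow Φ ε s Z q).2]
    calc ENNReal.ofReal ‖v - (flow Φ ε s Z q).2‖ * (G s * ENNReal.ofReal Real.pi)
        ≤ (ENNReal.ofReal (1 + ‖v‖) * ENNReal.ofReal (1 + ‖(flow Φ ε s Z q).2‖)) *
          (G s * ENNReal.ofReal Real.pi) := mul_le_mul_left h1 _
      _ = _ := by ring
  -- one mark
  have hone : ∀ n : ℕ, ∫⁻ v : Space3, wG (γ τ) v * ∫⁻ y : Space3, H ((τ, (y, v)), n) ≤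
      (ENNReal.ofReal Real.pi * ∫⁻ v : Space3, wG g₀ v * ENNReal.ofReal (1 + ‖v‖)) *
        ∫⁻ s in Ioc τ te, ENNReal.ofReal (ε ^ 2 * (1 + ‖(flow Φ ε s Z q).2‖)) * G s := by
    intro n
    have h := lintegral_firstHit_C1_vel_le hε hy hy'.measurable (J := Ioc τ te) measurableSet_Ioc
      (fun s _ => hasDerivAt_pos_flow hΦ hε hZ s q) (τ := τ) (σ := τ)
      (H := fun y v => H ((τ, (y, v)), n)) (Φ := fun s _ _ => G s) (hG.comp measurable_fst)
      (k := fun v => wG (γ τ) v) hwm (fun y v => hH y v n)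
      (fun y v s hs _ _ hF _ => hHG y v n s hs hF)
    refine h.trans ?_
    set M : ℝ≥0∞ := ∫⁻ v : Space3, wG g₀ v * ENNReal.ofReal (1 + ‖v‖) with hM
    have hg1 : Measurable fun s => ENNReal.ofReal (1 + ‖(flow Φ ε s Z q).2‖) * G s :=
      (hy'.norm.measurable.const_add 1).ennreal_ofReal.mul hG
    calc ENNReal.ofReal (ε ^ 2) * ∫⁻ s in Ioc τ te, ∫⁻ v, wG (γ τ) v *
          (ENNReal.ofReal ‖v - (flow Φ ε s Z q).2‖ *
            ∫⁻ _ in impactDisc (v - (flow Φ ε s Z q).2), G s ∂μHE[2])
        ≤ ENNReal.ofReal (ε ^ 2) * ∫⁻ s in Ioc τ te, ∫⁻ v, (wG g₀ v * ENNReal.ofReal (1 + ‖v‖)) *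
            (ENNReal.ofReal Real.pi * (ENNReal.ofReal (1 + ‖(flow Φ ε s Z q).2‖) * G s)) := by
          refine mul_le_mul_right (lintegral_mono fun s => lintegral_mono fun v => ?_) _
          rw [mul_assoc]
          exact mul_le_mul' (hwle v) (hdisc s v)
      _ = ENNReal.ofReal (ε ^ 2) * ∫⁻ s in Ioc τ te, M *
            (ENNReal.ofReal Real.pi * (ENNReal.ofReal (1 + ‖(flow Φ ε s Z q).2‖) * G s)) := by
          congr 1
          refine lintegral_congr fun s => ?_
          rw [lintegral_mul_const]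
          unfold wG
          fun_prop
      _ = ENNReal.ofReal (ε ^ 2) * (M * (ENNReal.ofReal Real.pi *
            ∫⁻ s in Ioc τ te, ENNReal.ofReal (1 + ‖(flow Φ ε s Z q).2‖) * G s)) := by
          rw [lintegral_const_mul _ (hg1.const_mul _), lintegral_const_mul _ hg1]
      _ = (ENNReal.ofReal Real.pi * M) * (ENNReal.ofReal (ε ^ 2) *
            ∫⁻ s in Ioc τ te, ENNReal.ofReal (1 + ‖(flow Φ ε s Z q).2‖) * G s) := by ring
      _ = _ := by
          rw [← lintegral_const_mul _ hg1]
          congr 1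
          refine lintegral_congr fun s => ?_
          rw [← mul_assoc, ← ENNReal.ofReal_mul (by positivity)]
  -- all marks
  have hmk : ∀ n, markW ρ K n ≠ ∞ := fun n =>
    ne_top_of_le_ne_top (ENNReal.pow_ne_top (hρ.trans ENNReal.one_lt_top).ne) (markW_le ρ K n)
  refine (lintegral_baseM_le τ _).trans ?_
  calc ∑' n : ℕ, ∫⁻ v : Space3, ∫⁻ y : Space3,
        lineD γ ρ K ((τ, (y, v)), n) * H ((τ, (y, v)), n)
      = ∑' n : ℕ, markW ρ K n * ∫⁻ v : Space3, wG (γ τ) v *
          ∫⁻ y : Space3, H ((τ, (y, v)), n) := by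
        refine tsum_congr fun n => ?_
        rw [← lintegral_const_mul' _ _ (hmk n)]
        refine lintegral_congr fun v => ?_
        rw [← lintegral_const_mul' _ _ (hwt v), ← lintegral_const_mul' _ _ (hmk n)]
        refine lintegral_congr fun y => ?_
        simp only [lineD]
        ring
    _ ≤ ∑' n : ℕ, ρ ^ n * ((ENNReal.ofReal Real.pi *
          ∫⁻ v : Space3, wG g₀ v * ENNReal.ofReal (1 + ‖v‖)) *
        ∫⁻ s in Ioc τ te, ENNReal.ofReal (ε ^ 2 * (1 + ‖(flow Φ ε s Z q).2‖)) * G s) :=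
        ENNReal.tsum_le_tsum fun n => mul_le_mul' (markW_le ρ K n) (hone n)
    _ = _ := by
        rw [ENNReal.tsum_mul_right, cFlux]
        ring

/-! ### First contact of a test line with the gas -/

theorem lpos_eq (τ : ℝ) (y v : Space3) (n : ℕ) (r : ℝ) :
    lpos ((τ, (y, v)), n) r = y + (r - τ) • v := by
  simp only [lpos, back]
  rw [sub_smul]
  abel

/-- The first contact of the test line is a first hit of the particle met. -/
theorem Meet.firstHit (hΦ : AdmissiblePotential Φ) (hε : 0 < ε) {T : ℝ} {n : ℕ} {w : Config n}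
    {l : ML} {i : Fin n} (h : Meet Φ ε T w l i) :
    FirstHit ε (lpos l) (fun s => (flow Φ ε s w i).1) l.1.1 (mT Φ ε w l) := by
  have hbdd : BddBelow (mSet Φ ε w l) := ⟨l.1.1, fun s hs => hs.1⟩
  have hcont : Continuous fun s => flow Φ ε s w := flow_continuous_time hΦ hε w
  have hy : Continuous fun s => (flow Φ ε s w i).1 := ((continuous_apply i).comp hcont).fst
  have hl : Continuous (lpos l) := by unfold lpos; fun_prop
  have hbef : ∀ r ∈ Ioo l.1.1 (mT Φ ε w l), ε < ‖lpos l r - (flow Φ ε r w i).1‖ := by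
    intro r hr
    by_contra hlt
    rw [not_lt, ← dist_eq_norm] at hlt
    exact absurd (csInf_le hbdd (show r ∈ mSet Φ ε w l from ⟨hr.1.le, i, hlt⟩)) (not_le.2 hr.2)
  refine ⟨h.lt, le_antisymm ?_ ?_, hbef⟩
  · rw [← dist_eq_norm]; exact h.dist
  · -- by continuity
    have hc : Continuous fun r => ‖lpos l r - (flow Φ ε r w i).1‖ := (hl.sub hy).norm
    have h1 : mT Φ ε w l ∈ closure (Ioo l.1.1 (mT Φ ε w l)) := by
      rw [closure_Ioo h.lt.ne]
      exact right_mem_Icc.2 h.lt.le
    exact closure_minimal (fun r hr => (hbef r hr).le) (isClosed_le continuous_const hc) h1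

theorem measurableSet_preC_eq {n : ℕ} (w : Config n) (q : Fin n) (D : Finset (Fin n)) :
    MeasurableSet {s : ℝ | preC Φ ε w s q = D} := by
  have hmono : ∀ s s', s ≤ s' → preC Φ ε w s q ⊆ preC Φ ε w s' q := by
    intro s s' hs k hk
    simp only [preC, Finset.mem_filter, Finset.mem_univ, true_and] at hk ⊢
    rcases hk with hk | ⟨r, h0, hr, hR⟩
    · exact Or.inl hk
    · exact Or.inr ⟨r, h0, hr.trans_le hs, hR⟩
  refine OrdConnected.measurableSet ⟨fun s hs s' hs' r hr => ?_⟩
  have hs1 : preC Φ ε w s q = D := hs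
  have hs2 : preC Φ ε w s' q = D := hs'
  refine Finset.Subset.antisymm ?_ ?_
  · exact (hmono r s' hr.2).trans hs2.le
  · exact hs1.ge.trans (hmono s r hr.1)

theorem block_ne_empty {k m : ℕ} (j : Fin k) : block k m ≠ ∅ := by
  intro h
  have : Fin.castAddEmb m j ∈ block k m := by
    unfold block
    exact Finset.mem_map_of_mem _ (Finset.mem_univ j)
  rw [h] at this
  exact absurd this (Finset.notMem_empty _)

theorem card_block (k m : ℕ) : (block k m).card = k := by
  unfold block
  simp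

/-- **Flux of errors** (helper285's item (3)). -/
theorem rf_of_firstHit (hΦ : AdmissiblePotential Φ) (hε : 0 < ε) {f₀ : PhasePoint → ℝ}
    {γ : ℝ → ℝ} {ρ : ℝ≥0∞} {K : ℕ} {g₀ τ te : ℝ} (hτ : 0 < τ) (hg₀ : 0 < g₀) (hγ : g₀ ≤ γ τ)
    (hρ : ρ < 1) {B : RF} (hB : MeasRF B) :
    ∑' k : ℕ, activity ε ^ k / (k.factorial : ℝ≥0∞) * ∫⁻ V : Config k, gcWeight f₀ ε k V *
      gcE f₀ ε (fun m w => perpInd ε V w * ∑ j : Fin k,
        ∫⁻ l, lineD γ ρ K l * (if clM Φ ε K te (k + m) (Fin.append V w) (Fin.castAdd m j) l =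
          block k m then B k m V w j (mT Φ ε (Fin.append V w) l) else 0)
          ∂(OneC423.baseM (Measure.dirac τ))) ≤
      cFlux g₀ ρ * rfl4 Φ f₀ ε K te B := by
  have hC : cFlux g₀ ρ ≠ ∞ := cFlux_ne_top hg₀ hρ
  -- pointwise inequality
  have key : ∀ (k m : ℕ) (V : Config k) (w : Config m) (j : Fin k), V ∈ PairExcluded ε k →
      w ∈ PairExcluded ε m → Perp ε V w →
      ∫⁻ l, lineD γ ρ K l * (if clM Φ ε K te (k + m) (Fin.append V w) (Fin.castAdd m j) l =
          block k m then B k m V w j (mT Φ ε (Fin.append V w) l) else 0)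
          ∂(OneC423.baseM (Measure.dirac τ)) ≤
      cFlux g₀ ρ * ∫⁻ s in Ioc 0 te,
        ENNReal.ofReal (ε ^ 2 * (1 + ‖(flow Φ ε s (Fin.append V w) (Fin.castAdd m j)).2‖)) *
        (if k ≤ K ∧ preC Φ ε (Fin.append V w) s (Fin.castAdd m j) = block k m then
          B k m V w j s else 0) := by
    intro k m V w j hV hw hp
    set Z : Config (k + m) := Fin.append V w with hZdef
    set q : Fin (k + m) := Fin.castAdd m j with hq
    have hZ : Z ∈ PairExcluded ε (k + m) := (append_mem_pairExcluded_iff V w).2 ⟨hV, hw, hp⟩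
    have hD : Z ∈ Dom Φ (Fin (k + m)) := pairExcluded_subset_Dom hε _ hZ
    set G : ℝ → ℝ≥0∞ := fun s => if k ≤ K ∧ preC Φ ε Z s q = block k m then B k m V w j s else 0
      with hGdef
    have hBm : Measurable fun s => B k m V w j s :=
      (hB k m j).comp (measurable_const.prodMk (measurable_const.prodMk measurable_id))
    have hGm : Measurable G := by
      refine Measurable.ite ?_ hBm measurable_const
      by_cases hk : k ≤ K
      · have : {s : ℝ | k ≤ K ∧ preC Φ ε Z s q = block k m} =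
            {s : ℝ | preC Φ ε Z s q = block k m} := by
          ext s; simp [hk]
        rw [this]
        exact measurableSet_preC_eq Z q _
      · have : {s : ℝ | k ≤ K ∧ preC Φ ε Z s q = block k m} = ∅ := by
          ext s; simp [hk]
        rw [this]
        exact MeasurableSet.empty
    -- consequences of `clM = block`
    have hcl : ∀ l : ML, l.1.1 = τ → clM Φ ε K te (k + m) Z q l = block k m →
        Meet Φ ε te Z l q ∧ k ≤ K ∧ preC Φ ε Z (mT Φ ε Z l) q = block k m := by
      intro l hl h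
      unfold clM at h
      split_ifs at h with hc
      · refine ⟨hc.1, ?_, h⟩
        have hpos : 0 < mT Φ ε Z l := by
          have := hc.1.lt
          rw [hl] at this
          exact hτ.trans this
        have h1 : ¬ K < gasSize Φ ε (k + m) Z (mT Φ ε Z l) q := fun h' =>
          hc.2 ((cfg_inf_iff_size hΦ hε hZ _ _).2 h')
        rw [not_lt] at h1
        have h2 := Finset.card_le_card (preC_subset (Φ := Φ) (ε := ε) Z hpos.le q)
        rw [h, card_block] at h2
        have h3 : gasSize Φ ε (k + m) Z (mT Φ ε Z l) q =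
            (BC (Causal291.Ct (pth Φ ε Z) ε) (mT Φ ε Z l) q).toFinset.card := by
          rw [← ncard_eq_toFinset_card']
          rfl
        rw [← h3] at h2
        exact h2.trans h1
      · exact absurd h.symm (block_ne_empty j)
    have hmain := lintegral_line_firstHit_le hΦ hε hD q (γ := γ) (ρ := ρ) (K := K) (g₀ := g₀)
      (τ := τ) (te := te) hγ hρ hGm
      (H := fun l => if clM Φ ε K te (k + m) Z q l = block k m then
        B k m V w j (mT Φ ε Z l) else 0) ?_ ?_
    · refine hmain.trans (mul_le_mul_right ?_ _)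
      exact lintegral_mono_set (Ioc_subset_Ioc_left hτ.le)
    · intro y v n hne
      have h : clM Φ ε K te (k + m) Z q ((τ, (y, v)), n) = block k m := by
        by_contra h
        exact hne (if_neg h)
      obtain ⟨hM, -, -⟩ := hcl _ rfl h
      refine ⟨mT Φ ε Z ((τ, (y, v)), n), ⟨hM.lt, hM.le⟩, ?_⟩
      have := Meet.firstHit hΦ hε hM
      rwa [show lpos ((τ, (y, v)), n) = fun r => y + (r - τ) • v from
        funext fun r => lpos_eq τ y v n r] at this
    · intro y v n s hs hF
      show (if clM Φ ε K te (k + m) Z q ((τ, (y, v)), n) = block k m then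
        B k m V w j (mT Φ ε Z ((τ, (y, v)), n)) else 0) ≤ G s
      split_ifs with h
      · obtain ⟨hM, hk, hpre⟩ := hcl _ rfl h
        have hF' := Meet.firstHit hΦ hε hM
        rw [show lpos ((τ, (y, v)), n) = fun r => y + (r - τ) • v from
          funext fun r => lpos_eq τ y v n r] at hF'
        have hs' : mT Φ ε Z ((τ, (y, v)), n) = s := hF'.unique hF
        rw [hs'] at hpre ⊢
        rw [hGdef]
        simp only [hk, hpre, and_self, if_true, le_refl]
      · exact bot_le
  -- the sums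
  unfold rfl4
  rw [← ENNReal.tsum_mul_left]
  refine ENNReal.tsum_le_tsum fun k => ?_
  rw [mul_left_comm (cFlux g₀ ρ)]
  refine mul_le_mul_right ?_ _
  rw [← lintegral_const_mul' _ _ hC]
  refine lintegral_mono fun V => ?_
  by_cases hV : V ∈ PairExcluded ε k
  swap
  · have h0 : gcWeight f₀ ε k V = 0 := by simp [gcWeight, Set.indicator_of_notMem hV]
    rw [h0, zero_mul]
    exact bot_le
  rw [mul_left_comm (cFlux g₀ ρ)]
  refine mul_le_mul_right ?_ _
  rw [← gcE_const_mul f₀ ε hC]
  refine gcE_mono f₀ ε fun m w hw => ?_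
  rw [mul_left_comm (cFlux g₀ ρ), Finset.mul_sum (Finset.univ : Finset (Fin k)) _ (cFlux g₀ ρ)]
  unfold perpInd
  by_cases hp : Perp ε V w
  · rw [if_pos hp, one_mul, one_mul]
    exact Finset.sum_le_sum fun j _ => key k m V w j hV hw hp
  · rw [if_neg hp, zero_mul, zero_mul]

end Crest.Agent.R122.RedFlux663

end
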