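import Crest.Agent.R122.Asm1_285
import Crest.Agent.R122.OSMaj_495
import Crest.Agent.R122.Direct4_658
import Crest.Agent.R122.RedFlux_663
import Crest.Agent.R122.Nu0B_566

/-!
# INEQUALITY 1 (row 122, board H2): pointwise form in the birth time

* `majAt_cut` : the majorant `majT` dominates the touch functional on real structures.
* `XE_le` : `XE τ ≤ born + (direct + (OS (dirac τ) majT + flux of errors))`.
* `ineq1_pt` : helper763's `PtIneq`, with a small source, for `K` large and `ε` small.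
-/

set_option autoImplicit false
set_option linter.unusedSectionVars false

open MeasureTheory Set Filter
open scoped ENNReal Classical Topology
open Crest.AnalysisR.Kinetic
open Crest.Agent.R122.Kin796 Crest.Agent.R122.Kin796.CTree Crest.Agent.R122.Tree674
open Crest.Agent.R122.GC311 Crest.Agent.R122.Flow671
open Crest.Agent.R122.EDefs602 Crest.Agent.R122.Unw410 Crest.Agent.R122.Line285
open Crest.Agent.R122.Volt796 Crest.Agent.R122.OC285 Crest.Agent.R122.OSCalc495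
open Crest.Agent.R122.GSCalc495 Crest.Agent.R122.Direct658 Crest.Agent.R122.Master566

noncomputable section

namespace Crest.Agent.R122.OneC285

variable {Φ : Space3 → ℝ} {f₀ : PhasePoint → ℝ} {ε : ℝ} {K : ℕ} {Q : EPar} {T' : ℝ}

/-! ## The majorant -/

/-- The pointwise part of `StmtLink` at fixed `K`, `ε`. -/
def LinkAt (Φ : Space3 → ℝ) (ε : ℝ) (K : ℕ) (Q : EPar) (T' : ℝ) (bd : SF) : Prop :=
  ∀ (P : CTree) (z : PhasePoint × Par P) (m : ℕ) (w : Config m)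
    (l : ML), l.2 + P.leaves ≤ K → Real4 Φ ε K Q.te T' P z w l →
    GIV566.unhit Φ ε (ptube Φ ε P z) Q.tw w →
    (if Good4 Φ ε K Q.te P z w l then lineM Q.γ Q.ρ K Q.te (Nbad4 Φ ε K Q.te P z w l)
      else 1) ≤ bd P z m w l

theorem majAt_cut (hΦ : AdmissiblePotential Φ) (hε : 0 < ε) (hL : 0 < Q.L) (m₀ : ℕ) {bd : SF}
    (h : LinkAt Φ ε K Q T' bd) :
    MajAt Φ ε K Q T' (cut Φ ε T' (majT Φ ε K Q T' m₀ bd)) := by
  intro P z m w l hPK hr hu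
  have h1 : cut Φ ε T' (majT Φ ε K Q T' m₀ bd) P z m w l = majT Φ ε K Q T' m₀ bd P z m w l :=
    if_pos hr.valid
  rw [h1]
  exact line3b hΦ hε hL m₀ hPK hr.sep hu fun hl => h P z m w l hl hr hu

theorem measV_majT (hΦ : AdmissiblePotential Φ) (hε : 0 < ε) (m₀ : ℕ) {bd : SF}
    (hbd : MeasSF bd) : MeasV Φ ε T' (majT Φ ε K Q T' m₀ bd) := by
  have hW := measLF_gW hΦ hε K Q
  have hB := measLF_gB hΦ hε K Q
  have hns : ∀ {G : LF}, MeasLF G → ∀ k : ∀ P : CTree, Idx P ⊕ Bool,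
      MeasV Φ ε T' (nsF Φ ε K Q.tw G k) := fun hG k => measV_nsF hΦ hε K Q.tw hG k
  refine ((measV_xcF hΦ hε K Q.tw).add (((hns hW k₁).add (hns hB k₁)).add
    (((hns hW k₂).add (hns hB k₂)).add (((hns hW k₃).add (hns hB k₃)).add
    ((measV_exF hΦ hε K Q.tw m₀ hW).add ((measV_spF hΦ hε K Q m₀).add
    ((measV_exF hΦ hε K Q.tw 0 hB).add ((OSCalc495.MeasSF.measV hΦ hbd).const_mul
      (1 + ENNReal.ofReal Q.L)))))))) : MeasV Φ ε T' _).congr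
    fun P z m w l _ => ?_
  exact majT_eq m₀ bd P z m w l

/-- Constant of the lines born in contact. -/
def cBorn (g₀ : ℝ) (ρ : ℝ≥0∞) (ε : ℝ) : ℝ≥0∞ :=
  rhoS ρ * (∫⁻ v : Space3, wG g₀ v) * (ENNReal.ofReal ε * Sweep815.c3)

theorem wG_int_ne_top {g₀ : ℝ} (h : 0 < g₀) : ∫⁻ v : Space3, wG g₀ v ≠ ∞ := by
  refine ne_top_of_le_ne_top (gI_lt_top h).ne (lintegral_mono fun v => ?_)
  calc wG g₀ v = wG g₀ v * 1 := (mul_one _).symm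
    _ ≤ _ := mul_le_mul' le_rfl le_self_add

theorem measurable_wG (g : ℝ) : Measurable fun v : Space3 => wG g v := by
  unfold Kin796.wG
  fun_prop

theorem XE_le (hΦ : AdmissiblePotential Φ) (hf : Measurable f₀)
    (h1 : ∫⁻ z, ENNReal.ofReal (f₀ z) ≤ 1) (hε : 0 < ε) (hγ : Measurable Q.γ) (hL : 0 < Q.L)
    (htw0 : 0 ≤ Q.tw) (htw : Q.tw ≤ Q.te) (hρ : Q.ρ < 1) {g₀ : ℝ} (hg₀ : 0 < g₀)
    (hcl : PClusterMap ε (clM Φ ε K Q.te))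
    (hmT : ∀ n : ℕ, Measurable fun q : Config n × ML => mT Φ ε q.1 q.2) {B : RF} (hBm : MeasRF B)
    (hB : RedAt Φ ε K Q.tw Q.te T' B) {m₀ : ℕ} {bd : SF} (hbd : MeasSF bd)
    (hLk : LinkAt Φ ε K Q T' bd) {τ : ℝ} (hτ : 0 < τ) (hgτ : g₀ ≤ Q.γ τ) :
    XE Φ f₀ ε K Q τ ≤ cBorn g₀ Q.ρ ε + (Direct658.cD g₀ Q.ρ *
        ENNReal.ofReal (ε + (Q.te - Q.tw)) *
        (JE Φ f₀ ε K Q.tw + ENNReal.ofReal (Unw410.cB Φ) * aE Φ f₀ ε K Q) +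
      (OS Φ f₀ ε K Q T' (Measure.dirac τ) (majT Φ ε K Q T' m₀ bd) +
        RedFlux663.cFlux g₀ Q.ρ * rfl4 Φ f₀ ε K Q.te B)) := by
  refine (XE_split hΦ hf hε hγ hL.le hτ hcl).trans ?_
  refine add_le_add ?_ (add_le_add ?_ ?_)
  · have h2 := born4 (Φ := Φ) (K := K) hf h1 hε τ (measurable_wG (Q.γ τ))
      (wG_int_ne_top (hg₀.trans_le hgτ)) (ρ := Q.ρ)
      (ne_top_of_le_ne_top (rhoS_lt_top hρ).ne (tsum_markW_le_rhoS _ _))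
    have h3 : gcE f₀ ε (fun n (w : Config n) => gInt Q.γ Q.ρ K τ fun l =>
        if BornIn Φ ε w l then 1 else 0) =
        gcE f₀ ε (fun n (w : Config n) => ∫⁻ v : Space3, wG (Q.γ τ) v * ∫⁻ y : Space3,
        ∑' m : ℕ, markW Q.ρ K m * (if ∃ i, dist y (flow Φ ε τ w i).1 ≤ ε then 1 else 0)) := by
      refine gcE_congr f₀ ε fun n w _ => ?_
      unfold gInt
      refine lintegral_congr fun v => ?_
      congr 1
      refine lintegral_congr fun y => tsum_congr fun m => ?_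
      congr 1
      exact if_congr Iff.rfl rfl rfl
    rw [h3]
    refine h2.trans ?_
    unfold cBorn
    exact mul_le_mul' (mul_le_mul' (tsum_markW_le_rhoS _ _)
      (lintegral_mono fun v => Kin796.wG_anti hgτ v)) le_rfl
  · exact direct4_unif hΦ hf hε hL.le htw0 htw hρ hg₀ hτ hgτ
  · have h3 := clus_tree hΦ hf hε hL.le hγ (Measure.dirac τ) hcl hmT hBm hB
      (M := cut Φ ε T' (majT Φ ε K Q T' m₀ bd)) ((measV_majT hΦ hε m₀ hbd).cut)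
      (majAt_cut hΦ hε hL m₀ hLk)
    rw [OS_cut] at h3
    refine h3.trans (add_le_add le_rfl ?_)
    exact RedFlux663.rf_of_firstHit hΦ hε hτ hg₀ hgτ hρ hBm

/-! ## Pointwise inequality at fixed `K`, `ε` -/

theorem volG_mul {c : ℝ≥0∞} (hc : c ≠ ∞) {C : ℝ} {G : LF} {τ : ℝ} :
    c * volG f₀ ε K Q C G τ = volG f₀ ε K Q (c.toReal * C) G τ := by
  unfold volG
  rw [← lintegral_const_mul' _ _ hc]
  refine lintegral_congr fun s => ?_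
  rw [← lintegral_const_mul' _ _ hc]
  refine lintegral_congr fun v => ?_
  rw [mul_assoc c.toReal, ENNReal.ofReal_mul ENNReal.toReal_nonneg, ENNReal.ofReal_toReal hc,
    mul_assoc]

/-- The source of the pointwise inequality. -/
def srcT (Φ : Space3 → ℝ) (f₀ : PhasePoint → ℝ) (ε : ℝ) (K : ℕ) (Q : EPar) (T' : ℝ)
    (g₀ h C : ℝ) (C0 sX sN sE sE0 : ℝ≥0∞) (B : RF) (bd : SF) (τ : ℝ) : ℝ≥0∞ :=
  (cBorn g₀ Q.ρ ε + (Direct658.cD g₀ Q.ρ * ENNReal.ofReal (2 * h) * JE Φ f₀ ε K Q.tw +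
    (sX + (6 * sN + (sE + (sE0 + (C0 * tnMass Φ f₀ Q.γ Q.ρ ε K Q.tw +
      RedFlux663.cFlux g₀ Q.ρ * rfl4 Φ f₀ ε K Q.te B))))))) +
  ((1 + ENNReal.ofReal Q.L) * OS Φ f₀ ε K Q T' (Measure.dirac τ) bd +
    volG f₀ ε K Q (3 * C) (GB Φ ε K Q) τ)

theorem pt_fixed (hΦ : AdmissiblePotential Φ) (hf : Measurable f₀)
    (h1 : ∫⁻ z, ENNReal.ofReal (f₀ z) ≤ 1) (hε : 0 < ε) (hγ : Measurable Q.γ) (hL : 0 < Q.L)
    (htw0 : 0 ≤ Q.tw) (htw : Q.tw ≤ Q.te) (hρ : Q.ρ < 1) {g₀ : ℝ} (hg₀ : 0 < g₀)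
    (hgτ : ∀ τ ∈ Ioc 0 Q.te, g₀ ≤ Q.γ τ) (hanti : ∀ τ ∈ Ioc 0 Q.te, Q.γ Q.te ≤ Q.γ τ)
    {h : ℝ} (hh : Q.te - Q.tw ≤ h) (hεh : ε ≤ h)
    (hcl : PClusterMap ε (clM Φ ε K Q.te))
    (hmT : ∀ n : ℕ, Measurable fun q : Config n × ML => mT Φ ε q.1 q.2) {B : RF} (hBm : MeasRF B)
    (hB : RedAt Φ ε K Q.tw Q.te T' B) {m₀ : ℕ} {bd : SF} (hbd : MeasSF bd)
    (hLk : LinkAt Φ ε K Q T' bd) {C Cm C0 sX sN sE sE0 : ℝ≥0∞} (hC : C ≠ ∞)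
    (hXC : ∀ τ ∈ Ioc 0 Q.te, OS Φ f₀ ε K Q T' (Measure.dirac τ) (xcF Φ ε K Q.tw) ≤ sX)
    (hNS : ∀ G : LF, MeasLF G → (∀ m w l, G m w l ≤ 1) → ∀ τ ∈ Ioc 0 Q.te,
      ∀ k : ∀ P : CTree, Idx P ⊕ Bool,
      ((∀ P, k P = Sum.inl (root P)) ∨ (∀ P, k P = Sum.inr false) ∨
        (∀ P, k P = Sum.inr true)) →
      OS Φ f₀ ε K Q T' (Measure.dirac τ) (nsF Φ ε K Q.tw G k) ≤
      C * (∫⁻ s in Ioi τ, ∫⁻ v : Space3, ENNReal.ofReal (1 + ‖v‖) *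
        (wG (Q.γ τ) v * XG f₀ ε K Q.ρ G s v)) + sN)
    (hEX : ∀ τ ∈ Ioc 0 Q.te, OS Φ f₀ ε K Q T' (Measure.dirac τ)
      (exF Φ ε K Q.tw T' m₀ (GW Φ ε K Q)) ≤
      Cm * gcE f₀ ε (fun m w => ∫⁻ l, GW Φ ε K Q m w l ∂(lineM Q.γ Q.ρ K Q.te)) + sE)
    (hEX0 : ∀ τ ∈ Ioc 0 Q.te, OS Φ f₀ ε K Q T' (Measure.dirac τ)
      (exF Φ ε K Q.tw T' 0 (GB Φ ε K Q)) ≤
      C0 * gcE f₀ ε (fun m w => ∫⁻ l, GB Φ ε K Q m w l ∂(lineM Q.γ Q.ρ K Q.te)) + sE0)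
    {τ : ℝ} (hτ : τ ∈ Ioc 0 Q.te) :
    XE Φ f₀ ε K Q τ ≤ srcT Φ f₀ ε K Q T' g₀ h C.toReal C0 sX sN sE sE0 B bd τ +
      (Cm * XI Φ f₀ ε K Q + (Direct658.cD g₀ Q.ρ * ENNReal.ofReal (2 * h) *
        ENNReal.ofReal (Unw410.cB Φ) * aE Φ f₀ ε K Q +
        PE Φ f₀ ε K Q (Nu0566.nu0 Φ f₀ ε K Q T' m₀))) +
      volG f₀ ε K Q (3 * C.toReal) (GW Φ ε K Q) τ := by
  have hte : 0 ≤ Q.te := htw0.trans htw
  refine (XE_le hΦ hf h1 hε hγ hL htw0 htw hρ hg₀ hcl hmT hBm hB (m₀ := m₀) hbd hLk hτ.1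
    (hgτ τ hτ)).trans ?_
  rw [OS_majT hΦ hε hf hγ m₀ bd]
  -- the pieces
  have eW : gW Φ ε K Q = GW Φ ε K Q := rfl
  have eB : gB Φ ε K Q = GB Φ ε K Q := rfl
  have nsW : ∀ k : ∀ P : CTree, Idx P ⊕ Bool, ((∀ P, k P = Sum.inl (root P)) ∨
      (∀ P, k P = Sum.inr false) ∨ (∀ P, k P = Sum.inr true)) →
      OS Φ f₀ ε K Q T' (Measure.dirac τ) (nsF Φ ε K Q.tw (gW Φ ε K Q) k) ≤
        volG f₀ ε K Q C.toReal (GW Φ ε K Q) τ + sN := fun k hk =>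
    (hNS _ (measLF_GW hΦ hε K Q) (GW_le_one hL.le) τ hτ k hk).trans
      (add_le_add (vol_le_volG hC fun s v hs => XG_GW_late hΦ hε hs v) le_rfl)
  have nsB : ∀ k : ∀ P : CTree, Idx P ⊕ Bool, ((∀ P, k P = Sum.inl (root P)) ∨
      (∀ P, k P = Sum.inr false) ∨ (∀ P, k P = Sum.inr true)) →
      OS Φ f₀ ε K Q T' (Measure.dirac τ) (nsF Φ ε K Q.tw (gB Φ ε K Q) k) ≤
        volG f₀ ε K Q C.toReal (GB Φ ε K Q) τ + sN := fun k hk =>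
    (hNS _ (measLF_GB hΦ hε K Q) (GB_le_one Φ ε K Q) τ hτ k hk).trans
      (add_le_add (vol_le_volG hC fun s v hs =>
        XG_GB_late hΦ hε htw0 htw (htw.trans_lt hs) v) le_rfl)
  have e1 : (∀ P, k₁ P = Sum.inl (root P)) ∨ (∀ P, k₁ P = Sum.inr false) ∨
      (∀ P, k₁ P = Sum.inr true) := Or.inl fun P => rfl
  have e2 : (∀ P, k₂ P = Sum.inl (root P)) ∨ (∀ P, k₂ P = Sum.inr false) ∨
      (∀ P, k₂ P = Sum.inr true) := Or.inr (Or.inl fun P => rfl)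
  have e3 : (∀ P, k₃ P = Sum.inl (root P)) ∨ (∀ P, k₃ P = Sum.inr false) ∨
      (∀ P, k₃ P = Sum.inr true) := Or.inr (Or.inr fun P => rfl)
  have hexW : OS Φ f₀ ε K Q T' (Measure.dirac τ) (exF Φ ε K Q.tw T' m₀ (gW Φ ε K Q)) ≤
      Cm * XI Φ f₀ ε K Q + sE := by
    refine (hEX τ hτ).trans (le_of_eq ?_)
    rw [EBasic602.XI_eq hf hγ fun n => MeasE416.measurable_touchW_cfg hΦ hε K Q n]
    rfl
  have hexB : OS Φ f₀ ε K Q T' (Measure.dirac τ) (exF Φ ε K Q.tw T' 0 (gB Φ ε K Q)) ≤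
      C0 * tnMass Φ f₀ Q.γ Q.ρ ε K Q.tw + sE0 :=
    (hEX0 τ hτ).trans (add_le_add (mul_le_mul' le_rfl
      (lintegral_GB_le hΦ hf hε hγ htw0 htw)) le_rfl)
  have hsp : OSP Φ f₀ ε K Q T' m₀ (Measure.dirac τ) ≤
      PE Φ f₀ ε K Q (Nu0566.nu0 Φ f₀ ε K Q T' m₀) :=
    Nu0566.osp_le hΦ hf hε hγ hτ.1.le (hanti τ hτ) m₀
  have hdir : Direct658.cD g₀ Q.ρ * ENNReal.ofReal (ε + (Q.te - Q.tw)) *
      (JE Φ f₀ ε K Q.tw + ENNReal.ofReal (Unw410.cB Φ) * aE Φ f₀ ε K Q) ≤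
      Direct658.cD g₀ Q.ρ * ENNReal.ofReal (2 * h) * JE Φ f₀ ε K Q.tw +
      Direct658.cD g₀ Q.ρ * ENNReal.ofReal (2 * h) *
        ENNReal.ofReal (Unw410.cB Φ) * aE Φ f₀ ε K Q := by
    refine (mul_le_mul' (mul_le_mul' le_rfl (ENNReal.ofReal_le_ofReal (q := 2 * h)
      (by linarith))) le_rfl).trans (le_of_eq ?_)
    ring
  have e3v : ∀ G : LF, volG f₀ ε K Q (3 * C.toReal) G τ = 3 * volG f₀ ε K Q C.toReal G τ := by
    intro G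
    rw [volG_mul (by norm_num)]
    norm_num
  unfold srcT
  rw [e3v, e3v]
  set vW := volG f₀ ε K Q C.toReal (GW Φ ε K Q) τ
  set vB := volG f₀ ε K Q C.toReal (GB Φ ε K Q) τ
  set ob := OS Φ f₀ ε K Q T' (Measure.dirac τ) bd
  calc _ ≤ cBorn g₀ Q.ρ ε + ((Direct658.cD g₀ Q.ρ * ENNReal.ofReal (2 * h) *
        JE Φ f₀ ε K Q.tw + Direct658.cD g₀ Q.ρ * ENNReal.ofReal (2 * h) *
        ENNReal.ofReal (Unw410.cB Φ) * aE Φ f₀ ε K Q) +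
      ((sX + (((vW + sN) + (vB + sN)) + (((vW + sN) + (vB + sN)) + (((vW + sN) + (vB + sN)) +
        ((Cm * XI Φ f₀ ε K Q + sE) + (PE Φ f₀ ε K Q (Nu0566.nu0 Φ f₀ ε K Q T' m₀) +
        ((C0 * tnMass Φ f₀ Q.γ Q.ρ ε K Q.tw + sE0) +
        (1 + ENNReal.ofReal Q.L) * ob))))))) +
        RedFlux663.cFlux g₀ Q.ρ * rfl4 Φ f₀ ε K Q.te B)) := by
        refine add_le_add le_rfl (add_le_add hdir (add_le_add ?_ le_rfl))
        exact add_le_add (hXC τ hτ) (add_le_add (add_le_add (nsW _ e1) (nsB _ e1))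
          (add_le_add (add_le_add (nsW _ e2) (nsB _ e2))
          (add_le_add (add_le_add (nsW _ e3) (nsB _ e3))
          (add_le_add hexW (add_le_add hsp (add_le_add hexB le_rfl))))))
    _ = _ := by ring

/-! ## Eventual form -/

theorem null_ofReal : Null fun _ ε => ENNReal.ofReal ε :=
  fun _ δ hδ => ⟨δ, hδ, fun _ _ h => ENNReal.ofReal_le_ofReal h.le⟩

theorem null_cBorn {g₀ : ℝ} (hg₀ : 0 < g₀) {ρ : ℝ≥0∞} (hρ : ρ < 1) :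
    Null fun _ ε => cBorn g₀ ρ ε := by
  unfold cBorn
  refine (null_ofReal.mul_const (c := Sweep815.c3) ?_).const_mul
    (ENNReal.mul_ne_top (rhoS_lt_top hρ).ne (wG_int_ne_top hg₀))
  unfold Sweep815.c3
  exact ENNReal.ofReal_ne_top

/-- The constant part of the source. -/
def srcC (Φ : Space3 → ℝ) (f₀ : PhasePoint → ℝ) (ε : ℝ) (K : ℕ) (Q : EPar)
    (g₀ h : ℝ) (C0 sX sN sE sE0 : ℝ≥0∞) (B : RF) : ℝ≥0∞ :=
  cBorn g₀ Q.ρ ε + (Direct658.cD g₀ Q.ρ * ENNReal.ofReal (2 * h) * JE Φ f₀ ε K Q.tw +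
    (sX + (6 * sN + (sE + (sE0 + (C0 * tnMass Φ f₀ Q.γ Q.ρ ε K Q.tw +
      RedFlux663.cFlux g₀ Q.ρ * rfl4 Φ f₀ ε K Q.te B))))))

/-- Integral of the source over the birth times. -/
theorem lintegral_srcT_le (hΦ : AdmissiblePotential Φ) (hf : Measurable f₀) (hε : 0 < ε)
    {γ₀ κ : ℝ} (hγ : Q.γ = fun τ => γ₀ - κ * τ) (hκ : 0 < κ) (htw0 : 0 ≤ Q.tw)
    (htw : Q.tw ≤ Q.te) {g₀ h C : ℝ} (hC : 0 ≤ C) {C0 sX sN sE sE0 : ℝ≥0∞} {B : RF} {bd : SF}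
    (hbd : MeasSF bd) :
    ∫⁻ τ in Ioc 0 Q.te, srcT Φ f₀ ε K Q T' g₀ h C C0 sX sN sE sE0 B bd τ ≤
      ENNReal.ofReal Q.te * srcC Φ f₀ ε K Q g₀ h C0 sX sN sE sE0 B +
      ((1 + ENNReal.ofReal Q.L) * OS Φ f₀ ε K Q T' (volume.restrict (Ioc 0 Q.te)) bd +
        ENNReal.ofReal (3 * C * (Q.te + 3 * (Real.sqrt κ)⁻¹ * Real.sqrt Q.te)) *
          tnMass Φ f₀ Q.γ Q.ρ ε K Q.tw) := by
  have hγm : Measurable Q.γ := Young763.gam_meas hγ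
  have hc : (1 + ENNReal.ofReal Q.L) ≠ ∞ := ENNReal.add_ne_top.2
    ⟨ENNReal.one_ne_top, ENNReal.ofReal_ne_top⟩
  have hm : Measurable fun τ => OS Φ f₀ ε K Q T' (Measure.dirac τ) bd :=
    measurable_OS_dirac hΦ hf hγm (OSCalc495.MeasSF.measV hΦ hbd)
  have h0 : ∀ τ, srcT Φ f₀ ε K Q T' g₀ h C C0 sX sN sE sE0 B bd τ =
      srcC Φ f₀ ε K Q g₀ h C0 sX sN sE sE0 B +
        ((1 + ENNReal.ofReal Q.L) * OS Φ f₀ ε K Q T' (Measure.dirac τ) bd +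
        volG f₀ ε K Q (3 * C) (GB Φ ε K Q) τ) := fun τ => rfl
  simp only [h0]
  rw [lintegral_add_left measurable_const, lintegral_add_left (hm.const_mul _),
    lintegral_const_mul _ hm, lintegral_OS_Ioc hΦ hf hγm (OSCalc495.MeasSF.measV hΦ hbd)]
  refine add_le_add (le_of_eq ?_) (add_le_add le_rfl ?_)
  · rw [setLIntegral_const, Real.volume_Ioc, sub_zero, mul_comm]
  · refine (lintegral_volG_le hf hγ hκ (by positivity) (htw0.trans htw)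
      (measLF_GB hΦ hε K Q)).trans ?_
    exact mul_le_mul' le_rfl (lintegral_GB_le hΦ hf hε hγm htw0 htw)

/-- The master part of the source. -/
def mastA (Φ : Space3 → ℝ) (f₀ : PhasePoint → ℝ) (ε : ℝ) (K : ℕ) (Q : EPar) (T' g₀ h : ℝ)
    (Cm : ℝ≥0∞) (m₀ : ℕ) : ℝ≥0∞ :=
  Cm * XI Φ f₀ ε K Q + (Direct658.cD g₀ Q.ρ * ENNReal.ofReal (2 * h) *
    ENNReal.ofReal (Unw410.cB Φ) * aE Φ f₀ ε K Q +
    PE Φ f₀ ε K Q (Nu0566.nu0 Φ f₀ ε K Q T' m₀))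

/-- **INEQUALITY 1, pointwise in the birth time.** -/
theorem ineq1_pt (hΦ : AdmissiblePotential Φ) (hf : Measurable f₀)
    (h1 : ∫⁻ z, ENNReal.ofReal (f₀ z) ≤ 1) {γ₀ κ g₀ : ℝ} (hγ : Q.γ = fun τ => γ₀ - κ * τ)
    (hκ : 0 < κ) (hg₀ : 0 < g₀) (hg : g₀ ≤ γ₀ - κ * Q.te) (hρ : Q.ρ < 1) (hL : 0 < Q.L)
    (htw0 : 0 ≤ Q.tw) (htw : Q.tw ≤ Q.te) {h : ℝ} (hh0 : 0 < h) (hh : Q.te - Q.tw ≤ h) (m₀ : ℕ)
    (hcl : ∀ (K : ℕ) (ε : ℝ), 0 < ε → PClusterMap ε (clM Φ ε K Q.te))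
    (hmT : ∀ ε : ℝ, 0 < ε → ∀ n : ℕ, Measurable fun q : Config n × ML => mT Φ ε q.1 q.2)
    (hRed : StmtRed Φ f₀ Q.tw Q.te T') (hLink : StmtLink Φ f₀ Q T')
    {C : ℝ≥0∞} (hC : C ≠ ∞) (hNS : StmtNS Φ f₀ Q T' C) (hXC : StmtXC Φ f₀ Q T')
    {Cm C0 : ℝ≥0∞} (hEX : StmtEX Φ f₀ Q T' m₀ Cm) (hC0 : C0 ≠ ∞) (hEX0 : StmtEX Φ f₀ Q T' 0 C0)
    (hTN : TN Φ f₀ Q.γ Q.ρ Q.tw) (hJ : JS Φ f₀ Q.tw) :
    ∃ S : ℕ → ℝ → ℝ → ℝ≥0∞, Small (fun K ε => ∫⁻ τ in Ioc 0 Q.te, S K ε τ) ∧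
      Ev fun K ε => Young763.PtIneq Φ f₀ ε K Q (3 * C.toReal)
        (mastA Φ f₀ ε K Q T' g₀ h Cm m₀) (S K ε) := by
  obtain ⟨B, hBm, hB, hBn⟩ := hRed
  obtain ⟨bd, hbm, hbd, hbn⟩ := hLink
  obtain ⟨δN, hδN, hNS⟩ := hNS
  obtain ⟨sX, hsX, hXC⟩ := hXC
  obtain ⟨δE, hδE, hEX⟩ := hEX
  obtain ⟨δE0, hδE0, hEX0⟩ := hEX0
  have hγm : Measurable Q.γ := Young763.gam_meas hγ
  have hte : 0 ≤ Q.te := htw0.trans htw
  have hgτ : ∀ τ ∈ Ioc 0 Q.te, g₀ ≤ Q.γ τ := by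
    intro τ hτ
    rw [hγ]
    have := mul_le_mul_of_nonneg_left hτ.2 hκ.le
    show g₀ ≤ γ₀ - κ * τ
    linarith
  have hanti : ∀ τ ∈ Ioc 0 Q.te, Q.γ Q.te ≤ Q.γ τ := by
    intro τ hτ
    rw [hγ]
    have := mul_le_mul_of_nonneg_left hτ.2 hκ.le
    show γ₀ - κ * Q.te ≤ γ₀ - κ * τ
    linarith
  have hc3 : (1 + ENNReal.ofReal Q.L) ≠ ∞ := ENNReal.add_ne_top.2
    ⟨ENNReal.one_ne_top, ENNReal.ofReal_ne_top⟩
  refine ⟨fun K ε => srcT Φ f₀ ε K Q T' g₀ h C.toReal C0 (sX K ε) (δN K ε) (δE K ε) (δE0 K ε)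
    (B K ε) (bd K ε), ?_, ?_⟩
  · have hsm : Small fun K ε =>
        ENNReal.ofReal Q.te * srcC Φ f₀ ε K Q g₀ h C0 (sX K ε) (δN K ε) (δE K ε) (δE0 K ε)
          (B K ε) + ((1 + ENNReal.ofReal Q.L) *
          OS Φ f₀ ε K Q T' (volume.restrict (Ioc 0 Q.te)) (bd K ε) +
        ENNReal.ofReal (3 * C.toReal * (Q.te + 3 * (Real.sqrt κ)⁻¹ * Real.sqrt Q.te)) *
          tnMass Φ f₀ Q.γ Q.ρ ε K Q.tw) := by
      have hTN' : Small fun K ε => tnMass Φ f₀ Q.γ Q.ρ ε K Q.tw := hTN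
      have hJ' : Small fun K ε => JE Φ f₀ ε K Q.tw := hJ
      refine Small.add (Small.const_mul ?_ ENNReal.ofReal_ne_top)
        (Small.add (hbn.small.const_mul hc3) (hTN'.const_mul ENNReal.ofReal_ne_top))
      unfold srcC
      refine Small.add (null_cBorn hg₀ hρ).small (Small.add (hJ'.const_mul
        (ENNReal.mul_ne_top (Direct658.cD_ne_top hg₀ hρ) ENNReal.ofReal_ne_top))
        (Small.add hsX (Small.add (hδN.small.const_mul (by norm_num))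
        (Small.add hδE.small (Small.add hδE0.small (Small.add (hTN'.const_mul hC0)
        (hBn.small.const_mul (RedFlux663.cFlux_ne_top hg₀ hρ))))))))
    refine hsm.mono fun K ε hε => ?_
    exact lintegral_srcT_le hΦ hf hε hγ hκ htw0 htw ENNReal.toReal_nonneg (hbm K ε)
  · refine EvK.ev (EvK.of_eps hh0 fun K ε hε hεh => ?_)
    unfold Young763.PtIneq
    refine (ae_restrict_iff' measurableSet_Ioc).2 (Eventually.of_forall fun τ hτ => ?_)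
    exact pt_fixed hΦ hf h1 hε hγm hL htw0 htw hρ hg₀ hgτ hanti hh hεh.le (hcl K ε hε)
      (hmT ε hε) (hBm K ε) (fun k m V w j s => hB K ε hε k m V w j s) (m₀ := m₀) (hbm K ε)
      (fun P z m w l => hbd K ε hε P z m w l) hC (hXC K ε hε)
      (fun G hG hG1 τ hτ k hk => hNS K ε hε G hG hG1 τ hτ k hk)
      (fun τ hτ => hEX K ε hε _ (measLF_GW hΦ hε K Q) (GW_le_one hL.le) τ hτ)
      (fun τ hτ => hEX0 K ε hε _ (measLF_GB hΦ hε K Q) (GB_le_one Φ ε K Q) τ hτ) hτ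

end Crest.Agent.R122.OneC285

end
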