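import Crest.Agent.R122.Ineq1B_815
import Crest.Agent.R122.Ineq1Pt_285
import Crest.Agent.R122.IneqW1_423
import Crest.Agent.R122.MeasOC_434
import Crest.Agent.R122.TopE_602

/-!
helper815, row 122, INEQUALITY 1, closing part C: the assembly.
-/

set_option autoImplicit false

open MeasureTheory Set Filter
open scoped ENNReal Topology
open Crest.AnalysisR.Kinetic
open Crest.Agent.R122.Master566 Crest.Agent.R122.EDefs602 Crest.Agent.R122.GIV566
  Crest.Agent.R122.Top602 Crest.Agent.R122.Young763 Crest.Agent.R122.Unw410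
  Crest.Agent.R122.OneC285

noncomputable section

namespace Crest.Agent.R122.Ineq1815

variable {Φ : Space3 → ℝ} {f₀ : PhasePoint → ℝ} {f : ℝ → PhasePoint → ℝ} {β T : ℝ}
  {γ : ℝ → ℝ} {ρ : ℝ≥0∞} {PM : PMass}

/-- The reduction to good trees and the long connections, along the windows. -/
def RLIn (Φ : Space3 → ℝ) (f₀ : PhasePoint → ℝ) (f : ℝ → PhasePoint → ℝ) (T : ℝ) : Prop :=
  InHL T fun h₀ γ ρ => EvW T fun _ L tw te => IH Φ f₀ f T γ ρ tw →
    StmtRed Φ f₀ tw te (tw + h₀) ∧ StmtLink Φ f₀ (epar γ ρ L tw te) (tw + h₀)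

/-- The pointwise form of inequality 1, for all small horizons and all line parameters. -/
def PtAll (Φ : Space3 → ℝ) (f₀ : PhasePoint → ℝ) (f : ℝ → PhasePoint → ℝ) (T : ℝ) : Prop :=
  InHL T fun h₀ γ ρ => PtIn Φ f₀ f T γ ρ (PMn Φ f₀ γ ρ h₀)

/-- **INEQUALITY 1** from its pointwise form. -/
theorem i1In_of_ptAll (hD : KData Φ β T f₀ f) (h : PtAll Φ f₀ f T) : I1In Φ f₀ f T :=
  h.mono fun _ _ _ _ hl hp => by
    obtain ⟨g1, r1, hl⟩ := hl
    exact ineq1_of_ptIn hD hl hp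

/-- **The pointwise form** from the reduction to good trees and the long connections. -/
theorem ptAll_of_rl (hD : KData Φ β T f₀ f) (h : RLIn Φ f₀ f T) : PtAll Φ f₀ f T := by
  obtain ⟨a, ha, g1, hg1, r1, hr1, h⟩ := h
  obtain ⟨b, hb, g2, hg2, r2, hr2, hP⟩ := OneNS423.pieces_evW hD
  refine ⟨min a b, lt_min ha hb, min g1 g2, lt_min hg1 hg2, max r1 r2, max_lt hr1 hr2,
    fun h₀ h0 hle γ ρ hl => ?_⟩
  have hRL := h h₀ h0 (hle.trans (min_le_left _ _)) γ ρ
    (hl.mono (min_le_left _ _) (le_max_left _ _))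
  obtain ⟨CN, hCN, C0, hC0, r, hr, hPc⟩ := hP γ ρ (hl.mono (min_le_right _ _) (le_max_right _ _))
  have hPc := hPc h₀ h0 (hle.trans (min_le_right _ _))
  obtain ⟨γ₀, κ, hκ, hγ, hpos, -⟩ := hl.lin
  have hf : Measurable f₀ := hD.contDiff.continuous.measurable
  have hmass : ∫⁻ z, ENNReal.ofReal (f₀ z) ≤ 1 :=
    (FM167.lintegral_density_eq_one hD.nonneg hD.integrable hD.mass).le
  set g₀ : ℝ := γ₀ - κ * T with hg₀
  have hcD : Direct658.cD g₀ ρ * ENNReal.ofReal (Unw410.cB Φ) ≠ ∞ :=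
    ENNReal.mul_ne_top (Direct658.cD_ne_top hpos hl.hi) ENNReal.ofReal_ne_top
  refine ⟨3 * CN.toReal, by positivity, fun m => C0 * r ^ m, ?_, ?_, ?_⟩
  · have := ENNReal.Tendsto.const_mul (a := C0) (ENNReal.tendsto_pow_atTop_nhds_zero_of_lt_one hr)
      (Or.inr hC0)
    rwa [mul_zero] at this
  · exact fun m => ENNReal.mul_ne_top hC0 (ENNReal.pow_ne_top (hr.trans ENNReal.one_lt_top).ne)
  intro m
  refine ⟨1, ENNReal.one_ne_top, fun y _ => Direct658.cD g₀ ρ * ENNReal.ofReal (Unw410.cB Φ) *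
    ENNReal.ofReal (2 * y), ?_, ?_⟩
  · refine Vanish.const_mul ?_ hcD
    exact Vanish.of_length (u := fun y => 2 * y) (by
      have : Tendsto (fun y : ℝ => 2 * y) (𝓝 0) (𝓝 (2 * 0)) :=
        ((continuous_const (y := (2 : ℝ))).mul continuous_id).tendsto (0 : ℝ)
      rw [mul_zero] at this
      exact this.mono_left nhdsWithin_le_nhds)
  refine (hRL.and hPc).mono fun y L tw te hy hL hw hq hIH => ?_
  obtain ⟨hRed, hLink⟩ := hq.1 hIH
  obtain ⟨-, hNS, hXC, hEX⟩ := hq.2 hIH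
  have hg : g₀ ≤ γ₀ - κ * te := by
    have := mul_le_mul_of_nonneg_left hw.le_T hκ.le
    linarith
  have hEX0 : StmtEX Φ f₀ (epar γ ρ L tw te) (tw + h₀) 0 C0 := by
    have := hEX 0
    rwa [pow_zero, mul_one] at this
  obtain ⟨S, hS, hE⟩ := ineq1_pt (Q := epar γ ρ L tw te) (T' := tw + h₀) hD.adm hf hmass hγ hκ
    hpos hg hl.hi (zero_lt_one.trans_le hL) hw.nonneg hw.le hy (by
      have := hw.short
      show te - tw ≤ y
      linarith) m (fun K ε hε => MeasOC434.pClusterMap_clM hD.adm hε K te)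
    (fun ε hε n => MeasOC434.measurable_mT hD.adm hε n) hRed hLink hCN hNS hXC (hEX m) hC0 hEX0
    hIH.tn (small_JE hw.nonneg hIH.je)
  refine ⟨S, hS, hE.mono fun K ε _ hh => PtIneq.mono hh fun τ => ?_⟩
  unfold mastA PMn
  set X := XI Φ f₀ ε K (epar γ ρ L tw te)
  set E := aE Φ f₀ ε K (epar γ ρ L tw te)
  set P := PE Φ f₀ ε K (epar γ ρ L tw te) (Nu0566.nu0 Φ f₀ ε K (epar γ ρ L tw te) (tw + h₀) m)
  show S K ε τ + (C0 * r ^ m * X + (Direct658.cD g₀ ρ * ENNReal.ofReal (2 * y) *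
    ENNReal.ofReal (Unw410.cB Φ) * E + P)) ≤ _
  calc _ ≤ S K ε τ + (C0 * r ^ m * X + (Direct658.cD g₀ ρ * ENNReal.ofReal (2 * y) *
        ENNReal.ofReal (Unw410.cB Φ) * E + P)) + Direct658.cD g₀ ρ *
          ENNReal.ofReal (Unw410.cB Φ) * ENNReal.ofReal (2 * y) * X := le_self_add
    _ = _ := by ring

/-- **INEQUALITY 1** from the reduction to good trees and the long connections. -/
theorem i1In_of_rl (hD : KData Φ β T f₀ f) (h : RLIn Φ f₀ f T) : I1In Φ f₀ f T :=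
  i1In_of_ptAll hD (ptAll_of_rl hD h)

end Crest.Agent.R122.Ineq1815

end
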