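import Crest.Agent.R122.Ineq1Pt_285
import Crest.Agent.R122.MeasOC_434
import Crest.Agent.R122.Line3G_984

/-!
# INEQUALITY 1 (row 122, board H2): pointwise form in the birth time, version 4

Version of `Ineq1Pt_285` for the branch `Alt4` (an exit touched before the contact), helper984's
`majT4`, `StmtLink4`, and `StmtEXW` (exits, contact time in the window).

* `XE_leM` : `XE τ ≤ born + (direct + (OS (dirac τ) M + flux of errors))`, any majorant `M`.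
* `ineq1_pt4` : helper763's `PtIneq`, with a small source, for `K` large and `ε` small.
-/

set_option autoImplicit false
set_option linter.unusedSectionVars false

open MeasureTheory Set Filter
open scoped ENNReal Classical Topology
open Crest.AnalysisR.Kinetic
open Crest.Agent.R122.Kin796 Crest.Agent.R122.Kin796.CTree Crest.Agent.R122.Tree674
open Crest.Agent.R122.GC311 Crest.Agent.R122.Flow671 Crest.Agent.R122.TreeLines335
open Crest.Agent.R122.EDefs602 Crest.Agent.R122.Unw410 Crest.Agent.R122.Line285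
open Crest.Agent.R122.Volt796 Crest.Agent.R122.OC285 Crest.Agent.R122.OSCalc495
open Crest.Agent.R122.GSCalc495 Crest.Agent.R122.Direct658 Crest.Agent.R122.Master566

noncomputable section

namespace Crest.Agent.R122.OneC285

variable {Φ : Space3 → ℝ} {f₀ : PhasePoint → ℝ} {ε : ℝ} {K : ℕ} {Q : EPar} {T' : ℝ}

/-! ## Any majorant -/

theorem XE_leM (hΦ : AdmissiblePotential Φ) (hf : Measurable f₀)
    (h1 : ∫⁻ z, ENNReal.ofReal (f₀ z) ≤ 1) (hε : 0 < ε) (hγ : Measurable Q.γ) (hL : 0 < Q.L)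
    (htw0 : 0 ≤ Q.tw) (htw : Q.tw ≤ Q.te) (hρ : Q.ρ < 1) {g₀ : ℝ} (hg₀ : 0 < g₀)
    {B : RF} (hBm : MeasRF B) (hB : RedAt Φ ε K Q.tw Q.te T' B) {M : SF}
    (hMm : MeasV Φ ε T' M) (hM : MajAt Φ ε K Q T' M) {τ : ℝ} (hτ : 0 < τ) (hgτ : g₀ ≤ Q.γ τ) :
    XE Φ f₀ ε K Q τ ≤ cBorn g₀ Q.ρ ε + (Direct658.cD g₀ Q.ρ *
        ENNReal.ofReal (ε + (Q.te - Q.tw)) *
        (JE Φ f₀ ε K Q.tw + ENNReal.ofReal (Unw410.cB Φ) * aE Φ f₀ ε K Q) +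
      (OS Φ f₀ ε K Q T' (Measure.dirac τ) M +
        RedFlux663.cFlux g₀ Q.ρ * rfl4 Φ f₀ ε K Q.te B)) := by
  have hcl := MeasOC434.pClusterMap_clM hΦ hε K Q.te
  have hmT := MeasOC434.measurable_mT hΦ hε
  have hM' : MajAt Φ ε K Q T' (cut Φ ε T' M) := by
    intro P z m w l hPK hr hu
    have h1 : cut Φ ε T' M P z m w l = M P z m w l := if_pos hr.valid
    rw [h1]
    exact hM P z m w l hPK hr hu
  refine (XE_split hΦ hf hε hγ hL.le hτ hcl).trans ?_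
  refine add_le_add ?_ (add_le_add ?_ ?_)
  · have h2 := born4 (Φ := Φ) (K := K) hf h1 hε τ (measurable_wG (Q.γ τ))
      (wG_int_ne_top (hg₀.trans_le hgτ)) (ρ := Q.ρ)
      (ne_top_of_le_ne_top (rhoS_lt_top hρ).ne (tsum_markW_le_rhoS _ _))
    have h3 : gcE f₀ ε (fun n (w : Config n) => gInt Q.γ Q.ρ K τ fun l =>
        if BornIn Φ ε w l then 1 else 0) =
        gcE f₀ ε (fun n (w : Config n) => ∫⁻ v : Space3, wG (Q.γ τ) v * ∫⁻ y : Space3,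
        ∑' m : ℕ, markW Q.ρ K m * (if ∃ i, dist y (flow Φ ε τ w i).1 ≤ ε then 1 else 0)) := by
      refine gcE_congr f₀ ε fun n w _ => ?_
      unfold gInt
      refine lintegral_congr fun v => ?_
      congr 1
      refine lintegral_congr fun y => tsum_congr fun m => ?_
      congr 1
      exact if_congr Iff.rfl rfl rfl
    rw [h3]
    refine h2.trans ?_
    unfold cBorn
    exact mul_le_mul' (mul_le_mul' (tsum_markW_le_rhoS _ _)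
      (lintegral_mono fun v => Kin796.wG_anti hgτ v)) le_rfl
  · exact direct4_unif hΦ hf hε hL.le htw0 htw hρ hg₀ hτ hgτ
  · have h3 := clus_tree hΦ hf hε hL.le hγ (Measure.dirac τ) hcl hmT hBm hB
      (M := cut Φ ε T' M) hMm.cut hM'
    rw [OS_cut] at h3
    refine h3.trans (add_le_add le_rfl ?_)
    exact RedFlux663.rf_of_firstHit hΦ hε hτ hg₀ hgτ hρ hBm

/-! ## The pieces of `majT` -/

/-- **`OS (majT)` at a fixed birth time** : source, master terms, Volterra term. -/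
theorem OS_majT_le (hΦ : AdmissiblePotential Φ) (hf : Measurable f₀) (hε : 0 < ε)
    (hγ : Measurable Q.γ) (hL : 0 < Q.L) (htw0 : 0 ≤ Q.tw) (htw : Q.tw ≤ Q.te)
    (hanti : ∀ τ ∈ Ioc 0 Q.te, Q.γ Q.te ≤ Q.γ τ) {m₀ : ℕ} {bd : SF}
    {C Cm C0 sX sN sE sE0 : ℝ≥0∞} (hC : C ≠ ∞)
    (hXC : ∀ τ ∈ Ioc 0 Q.te, OS Φ f₀ ε K Q T' (Measure.dirac τ) (xcF Φ ε K Q.tw) ≤ sX)
    (hNS : ∀ G : LF, MeasLF G → (∀ m w l, G m w l ≤ 1) → ∀ τ ∈ Ioc 0 Q.te,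
      ∀ k : ∀ P : CTree, Idx P ⊕ Bool,
      ((∀ P, k P = Sum.inl (root P)) ∨ (∀ P, k P = Sum.inr false) ∨
        (∀ P, k P = Sum.inr true)) →
      OS Φ f₀ ε K Q T' (Measure.dirac τ) (nsF Φ ε K Q.tw G k) ≤
      C * (∫⁻ s in Ioi τ, ∫⁻ v : Space3, ENNReal.ofReal (1 + ‖v‖) *
        (wG (Q.γ τ) v * XG f₀ ε K Q.ρ G s v)) + sN)
    (hEX : ∀ τ ∈ Ioc 0 Q.te, OS Φ f₀ ε K Q T' (Measure.dirac τ)
      (exF Φ ε K Q.tw T' m₀ (GW Φ ε K Q)) ≤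
      Cm * gcE f₀ ε (fun m w => ∫⁻ l, GW Φ ε K Q m w l ∂(lineM Q.γ Q.ρ K Q.te)) + sE)
    (hEX0 : ∀ τ ∈ Ioc 0 Q.te, OS Φ f₀ ε K Q T' (Measure.dirac τ)
      (exF Φ ε K Q.tw T' 0 (GB Φ ε K Q)) ≤
      C0 * gcE f₀ ε (fun m w => ∫⁻ l, GB Φ ε K Q m w l ∂(lineM Q.γ Q.ρ K Q.te)) + sE0)
    {τ : ℝ} (hτ : τ ∈ Ioc 0 Q.te) :
    OS Φ f₀ ε K Q T' (Measure.dirac τ) (majT Φ ε K Q T' m₀ bd) ≤
      ((sX + (6 * sN + (sE + (sE0 + C0 * tnMass Φ f₀ Q.γ Q.ρ ε K Q.tw)))) +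
        ((1 + ENNReal.ofReal Q.L) * OS Φ f₀ ε K Q T' (Measure.dirac τ) bd +
          volG f₀ ε K Q (3 * C.toReal) (GB Φ ε K Q) τ)) +
      ((Cm * XI Φ f₀ ε K Q + PE Φ f₀ ε K Q (Nu0566.nu0 Φ f₀ ε K Q T' m₀)) +
        volG f₀ ε K Q (3 * C.toReal) (GW Φ ε K Q) τ) := by
  have hte : 0 ≤ Q.te := htw0.trans htw
  rw [OS_majT hΦ hε hf hγ m₀ bd]
  -- the pieces
  have nsW : ∀ k : ∀ P : CTree, Idx P ⊕ Bool, ((∀ P, k P = Sum.inl (root P)) ∨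
      (∀ P, k P = Sum.inr false) ∨ (∀ P, k P = Sum.inr true)) →
      OS Φ f₀ ε K Q T' (Measure.dirac τ) (nsF Φ ε K Q.tw (gW Φ ε K Q) k) ≤
        volG f₀ ε K Q C.toReal (GW Φ ε K Q) τ + sN := fun k hk =>
    (hNS _ (measLF_GW hΦ hε K Q) (GW_le_one hL.le) τ hτ k hk).trans
      (add_le_add (vol_le_volG hC fun s v hs => XG_GW_late hΦ hε hs v) le_rfl)
  have nsB : ∀ k : ∀ P : CTree, Idx P ⊕ Bool, ((∀ P, k P = Sum.inl (root P)) ∨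
      (∀ P, k P = Sum.inr false) ∨ (∀ P, k P = Sum.inr true)) →
      OS Φ f₀ ε K Q T' (Measure.dirac τ) (nsF Φ ε K Q.tw (gB Φ ε K Q) k) ≤
        volG f₀ ε K Q C.toReal (GB Φ ε K Q) τ + sN := fun k hk =>
    (hNS _ (measLF_GB hΦ hε K Q) (GB_le_one Φ ε K Q) τ hτ k hk).trans
      (add_le_add (vol_le_volG hC fun s v hs =>
        XG_GB_late hΦ hε htw0 htw (htw.trans_lt hs) v) le_rfl)
  have e1 : (∀ P, k₁ P = Sum.inl (root P)) ∨ (∀ P, k₁ P = Sum.inr false) ∨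
      (∀ P, k₁ P = Sum.inr true) := Or.inl fun P => rfl
  have e2 : (∀ P, k₂ P = Sum.inl (root P)) ∨ (∀ P, k₂ P = Sum.inr false) ∨
      (∀ P, k₂ P = Sum.inr true) := Or.inr (Or.inl fun P => rfl)
  have e3 : (∀ P, k₃ P = Sum.inl (root P)) ∨ (∀ P, k₃ P = Sum.inr false) ∨
      (∀ P, k₃ P = Sum.inr true) := Or.inr (Or.inr fun P => rfl)
  have hexW : OS Φ f₀ ε K Q T' (Measure.dirac τ) (exF Φ ε K Q.tw T' m₀ (gW Φ ε K Q)) ≤
      Cm * XI Φ f₀ ε K Q + sE := by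
    refine (hEX τ hτ).trans (le_of_eq ?_)
    rw [EBasic602.XI_eq hf hγ fun n => MeasE416.measurable_touchW_cfg hΦ hε K Q n]
    rfl
  have hexB : OS Φ f₀ ε K Q T' (Measure.dirac τ) (exF Φ ε K Q.tw T' 0 (gB Φ ε K Q)) ≤
      C0 * tnMass Φ f₀ Q.γ Q.ρ ε K Q.tw + sE0 :=
    (hEX0 τ hτ).trans (add_le_add (mul_le_mul' le_rfl
      (lintegral_GB_le hΦ hf hε hγ htw0 htw)) le_rfl)
  have hsp : OSP Φ f₀ ε K Q T' m₀ (Measure.dirac τ) ≤
      PE Φ f₀ ε K Q (Nu0566.nu0 Φ f₀ ε K Q T' m₀) :=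
    Nu0566.osp_le hΦ hf hε hγ hτ.1.le (hanti τ hτ) m₀
  have e3v : ∀ G : LF, volG f₀ ε K Q (3 * C.toReal) G τ = 3 * volG f₀ ε K Q C.toReal G τ := by
    intro G
    rw [volG_mul (by norm_num)]
    norm_num
  rw [e3v, e3v]
  set vW := volG f₀ ε K Q C.toReal (GW Φ ε K Q) τ
  set vB := volG f₀ ε K Q C.toReal (GB Φ ε K Q) τ
  set ob := OS Φ f₀ ε K Q T' (Measure.dirac τ) bd
  refine (add_le_add (hXC τ hτ) (add_le_add (add_le_add (nsW _ e1) (nsB _ e1))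
    (add_le_add (add_le_add (nsW _ e2) (nsB _ e2)) (add_le_add (add_le_add (nsW _ e3) (nsB _ e3))
    (add_le_add hexW (add_le_add hsp (add_le_add hexB le_rfl))))))).trans (le_of_eq ?_)
  ring

/-! ## The new piece -/

/-- Integrand of `StmtEXW`. -/
def exWF (Φ : Space3 → ℝ) (ε : ℝ) (K : ℕ) (tw T' : ℝ) (m₀ : ℕ) (G : LF) : SF :=
  fun P z m w l => (if P.leaves ≤ m₀ ∧ Sep Φ ε P T' z.1 z.2 ∧ tw < cT ε z l then
      smI K P l else 0) * (uI Φ ε tw P z w *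
    ∑ i ∈ Finset.univ.filter (fun i : Idx P => i ≠ root P), G m w (lineML Φ ε P z i))

theorem measV_exWF (hΦ : AdmissiblePotential Φ) (hε : 0 < ε) (K : ℕ) (tw : ℝ) (m₀ : ℕ) {G : LF}
    (hG : MeasLF G) : MeasV Φ ε T' (exWF Φ ε K tw T' m₀ G) := by
  intro P
  have h1 : MeasVP Φ ε T' P (fun z (m : ℕ) (_ : Config m) (l : ML) =>
      if P.leaves ≤ m₀ ∧ Sep Φ ε P T' z.1 z.2 ∧ tw < cT ε z l then smI K P l else 0) := by
    have h := MeasVP.ite_val (P := P) (F := fun _ _ _ (l : ML) => smI K P l)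
      (F' := fun _ _ _ _ => 0)
      (p := fun z _ _ (l : ML) => P.leaves ≤ m₀ ∧ Sep Φ ε P T' z.1 z.2 ∧ tw < cT ε z l)
      (fun m => ?_) (measVP_smI hΦ K P) (MeasVP.zero (Φ := Φ) (ε := ε) (T' := T'))
    · convert h
    by_cases hc : P.leaves ≤ m₀
    · have h2 : {q : (PhasePoint × Par P) × (Config m × ML) | Valid Φ ε P T' q.1.1.2 q.1.2 ∧
          (P.leaves ≤ m₀ ∧ Sep Φ ε P T' q.1.1 q.1.2 ∧ tw < cT ε q.1 q.2.2)} =
          Prod.fst ⁻¹' {z : PhasePoint × Par P | Valid Φ ε P T' z.1.2 z.2 ∧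
            Sep Φ ε P T' z.1 z.2} ∩ {q | tw < cT ε q.1 q.2.2} := by
        ext q
        exact ⟨fun h => ⟨⟨h.1, h.2.2.1⟩, h.2.2.2⟩, fun h => ⟨h.1.1, hc, h.1.2, h.2⟩⟩
      rw [h2]
      exact (measurable_fst (measurableSet_validSep hΦ hε P T')).inter
        (measurableSet_lt measurable_const (MeasOC434.measurable_cT_of ε measurable_fst
          (measurable_snd.comp measurable_snd)))
    · have h2 : {q : (PhasePoint × Par P) × (Config m × ML) | Valid Φ ε P T' q.1.1.2 q.1.2 ∧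
          (P.leaves ≤ m₀ ∧ Sep Φ ε P T' q.1.1 q.1.2 ∧ tw < cT ε q.1 q.2.2)} = ∅ := by
        ext q
        exact ⟨fun h => hc h.2.1, fun h => h.elim⟩
      rw [h2]
      exact MeasurableSet.empty
  exact h1.mul ((measVP_uI hΦ hε tw P).mul (MeasVP.sum _ fun i _ => measVP_lineML hΦ hG P i))

theorem majT4_eq (m₀ : ℕ) (bd : SF) : majT4 Φ ε K Q T' m₀ bd = fun P z m w l =>
    majT Φ ε K Q T' m₀ bd P z m w l + exWF Φ ε K Q.tw T' m₀ (GW Φ ε K Q) P z m w l := by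
  funext P z m w l
  rfl

theorem measV_majT4 (hΦ : AdmissiblePotential Φ) (hε : 0 < ε) (m₀ : ℕ) {bd : SF}
    (hbd : MeasSF bd) : MeasV Φ ε T' (majT4 Φ ε K Q T' m₀ bd) := by
  rw [majT4_eq]
  exact (measV_majT hΦ hε m₀ hbd).add (measV_exWF hΦ hε K Q.tw m₀ (measLF_GW hΦ hε K Q))

/-- The pointwise part of `StmtLink4` at fixed `K`, `ε`. -/
def LinkAt4 (Φ : Space3 → ℝ) (ε : ℝ) (K : ℕ) (Q : EPar) (T' : ℝ) (bd : SF) : Prop :=
  ∀ (P : CTree) (z : PhasePoint × Par P) (m : ℕ) (w : Config m)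
    (l : ML), l.2 + P.leaves ≤ K → Real4 Φ ε K Q.te T' P z w l →
    GIV566.unhit Φ ε (ptube Φ ε P z) Q.tw w → err4 Φ ε K Q P z w l ≤ bd P z m w l

theorem majAt4 (hΦ : AdmissiblePotential Φ) (hε : 0 < ε) (hL : 0 < Q.L) (m₀ : ℕ) {bd : SF}
    (h : LinkAt4 Φ ε K Q T' bd) : MajAt Φ ε K Q T' (majT4 Φ ε K Q T' m₀ bd) :=
  fun P z m w l hPK hr hu => line3b4 hΦ hε hL m₀ hPK hr hu fun hl => h P z m w l hl hr hu

/-! ## Eventual form -/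

/-- **INEQUALITY 1, pointwise in the birth time (version with `StmtLink4`, `StmtEXW`).** -/
theorem ineq1_pt4 (hΦ : AdmissiblePotential Φ) (hf : Measurable f₀)
    (h1 : ∫⁻ z, ENNReal.ofReal (f₀ z) ≤ 1) {γ₀ κ g₀ : ℝ} (hγ : Q.γ = fun τ => γ₀ - κ * τ)
    (hκ : 0 < κ) (hg₀ : 0 < g₀) (hg : g₀ ≤ γ₀ - κ * Q.te) (hρ : Q.ρ < 1) (hL : 0 < Q.L)
    (htw0 : 0 ≤ Q.tw) (htw : Q.tw ≤ Q.te) {h : ℝ} (hh0 : 0 < h) (hh : Q.te - Q.tw ≤ h) (m₀ : ℕ)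
    (hRed : StmtRed Φ f₀ Q.tw Q.te T') (hLink : StmtLink4 Φ f₀ Q T')
    {C : ℝ≥0∞} (hC : C ≠ ∞) (hNS : StmtNS Φ f₀ Q T' C) (hXC : StmtXC Φ f₀ Q T')
    {Cm Cw C0 : ℝ≥0∞} (hEX : StmtEX Φ f₀ Q T' m₀ Cm) (hEXW : StmtEXW Φ f₀ Q T' m₀ Cw)
    (hC0 : C0 ≠ ∞) (hEX0 : StmtEX Φ f₀ Q T' 0 C0)
    (hTN : TN Φ f₀ Q.γ Q.ρ Q.tw) (hJ : JS Φ f₀ Q.tw) :
    ∃ S : ℕ → ℝ → ℝ → ℝ≥0∞, Small (fun K ε => ∫⁻ τ in Ioc 0 Q.te, S K ε τ) ∧
      Ev fun K ε => Young763.PtIneq Φ f₀ ε K Q (3 * C.toReal)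
        (mastA Φ f₀ ε K Q T' g₀ h (Cm + Cw * ENNReal.ofReal (Q.te - Q.tw)) m₀) (S K ε) := by
  obtain ⟨B, hBm, hB, hBn⟩ := hRed
  obtain ⟨bd, hbm, hbd, hbn⟩ := hLink
  obtain ⟨δN, hδN, hNS⟩ := hNS
  obtain ⟨sX, hsX, hXC⟩ := hXC
  obtain ⟨δE, hδE, hEX⟩ := hEX
  obtain ⟨δW, hδW, hEXW⟩ := hEXW
  obtain ⟨δE0, hδE0, hEX0⟩ := hEX0
  have hγm : Measurable Q.γ := Young763.gam_meas hγ
  have hte : 0 ≤ Q.te := htw0.trans htw
  have hgτ : ∀ τ ∈ Ioc 0 Q.te, g₀ ≤ Q.γ τ := by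
    intro τ hτ
    rw [hγ]
    have := mul_le_mul_of_nonneg_left hτ.2 hκ.le
    show g₀ ≤ γ₀ - κ * τ
    linarith
  have hanti : ∀ τ ∈ Ioc 0 Q.te, Q.γ Q.te ≤ Q.γ τ := by
    intro τ hτ
    rw [hγ]
    have := mul_le_mul_of_nonneg_left hτ.2 hκ.le
    show γ₀ - κ * Q.te ≤ γ₀ - κ * τ
    linarith
  have hc3 : (1 + ENNReal.ofReal Q.L) ≠ ∞ := ENNReal.add_ne_top.2
    ⟨ENNReal.one_ne_top, ENNReal.ofReal_ne_top⟩
  refine ⟨fun K ε => srcT Φ f₀ ε K Q T' g₀ h C.toReal C0 (sX K ε) (δN K ε) (δE K ε + δW K ε)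
    (δE0 K ε) (B K ε) (bd K ε), ?_, ?_⟩
  · have hsm : Small fun K ε =>
        ENNReal.ofReal Q.te * srcC Φ f₀ ε K Q g₀ h C0 (sX K ε) (δN K ε) (δE K ε + δW K ε)
          (δE0 K ε) (B K ε) + ((1 + ENNReal.ofReal Q.L) *
          OS Φ f₀ ε K Q T' (volume.restrict (Ioc 0 Q.te)) (bd K ε) +
        ENNReal.ofReal (3 * C.toReal * (Q.te + 3 * (Real.sqrt κ)⁻¹ * Real.sqrt Q.te)) *
          tnMass Φ f₀ Q.γ Q.ρ ε K Q.tw) := by
      have hTN' : Small fun K ε => tnMass Φ f₀ Q.γ Q.ρ ε K Q.tw := hTN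
      have hJ' : Small fun K ε => JE Φ f₀ ε K Q.tw := hJ
      refine Small.add (Small.const_mul ?_ ENNReal.ofReal_ne_top)
        (Small.add (hbn.small.const_mul hc3) (hTN'.const_mul ENNReal.ofReal_ne_top))
      unfold srcC
      refine Small.add (null_cBorn hg₀ hρ).small (Small.add (hJ'.const_mul
        (ENNReal.mul_ne_top (Direct658.cD_ne_top hg₀ hρ) ENNReal.ofReal_ne_top))
        (Small.add hsX (Small.add (hδN.small.const_mul (by norm_num))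
        (Small.add (hδE.small.add hδW.small) (Small.add hδE0.small (Small.add (hTN'.const_mul hC0)
        (hBn.small.const_mul (RedFlux663.cFlux_ne_top hg₀ hρ))))))))
    refine hsm.mono fun K ε hε => ?_
    exact lintegral_srcT_le hΦ hf hε hγ hκ htw0 htw ENNReal.toReal_nonneg (hbm K ε)
  · refine EvK.ev (EvK.of_eps hh0 fun K ε hε hεh => ?_)
    unfold Young763.PtIneq
    refine (ae_restrict_iff' measurableSet_Ioc).2 (Eventually.of_forall fun τ hτ => ?_)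
    have hxe := XE_leM hΦ hf h1 hε hγm hL htw0 htw hρ hg₀ (hBm K ε)
      (fun k m V w j s => hB K ε hε k m V w j s)
      (measV_majT4 hΦ hε m₀ (hbm K ε)) (majAt4 hΦ hε hL m₀ (T' := T') (bd := bd K ε)
        fun P z m w l => hbd K ε hε P z m w l) hτ.1 (hgτ τ hτ)
    refine hxe.trans ?_
    rw [majT4_eq, OS_add hΦ hf hγm (measV_majT hΦ hε m₀ (hbm K ε))]
    have hmaj := OS_majT_le (m₀ := m₀) (bd := bd K ε) hΦ hf hε hγm hL htw0 htw hanti hC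
      (hXC K ε hε)
      (fun G hG hG1 τ hτ k hk => hNS K ε hε G hG hG1 τ hτ k hk)
      (fun τ hτ => hEX K ε hε _ (measLF_GW hΦ hε K Q) (GW_le_one hL.le) τ hτ)
      (fun τ hτ => hEX0 K ε hε _ (measLF_GB hΦ hε K Q) (GB_le_one Φ ε K Q) τ hτ) hτ
    have hexw : OS Φ f₀ ε K Q T' (Measure.dirac τ) (exWF Φ ε K Q.tw T' m₀ (GW Φ ε K Q)) ≤
        Cw * ENNReal.ofReal (Q.te - Q.tw) * XI Φ f₀ ε K Q + δW K ε := by
      refine (hEXW K ε hε _ (measLF_GW hΦ hε K Q) (GW_le_one hL.le) τ hτ).trans (le_of_eq ?_)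
      rw [EBasic602.XI_eq hf hγm fun n => MeasE416.measurable_touchW_cfg hΦ hε K Q n]
      rfl
    have hdir : Direct658.cD g₀ Q.ρ * ENNReal.ofReal (ε + (Q.te - Q.tw)) *
        (JE Φ f₀ ε K Q.tw + ENNReal.ofReal (Unw410.cB Φ) * aE Φ f₀ ε K Q) ≤
        Direct658.cD g₀ Q.ρ * ENNReal.ofReal (2 * h) * JE Φ f₀ ε K Q.tw +
        Direct658.cD g₀ Q.ρ * ENNReal.ofReal (2 * h) *
          ENNReal.ofReal (Unw410.cB Φ) * aE Φ f₀ ε K Q := by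
      refine (mul_le_mul' (mul_le_mul' le_rfl (ENNReal.ofReal_le_ofReal (q := 2 * h)
        (by linarith))) le_rfl).trans (le_of_eq ?_)
      ring
    refine (add_le_add le_rfl (add_le_add hdir (add_le_add (add_le_add hmaj hexw)
      le_rfl))).trans (le_of_eq ?_)
    show _ = srcT Φ f₀ ε K Q T' g₀ h C.toReal C0 (sX K ε) (δN K ε) (δE K ε + δW K ε) (δE0 K ε)
      (B K ε) (bd K ε) τ + mastA Φ f₀ ε K Q T' g₀ h (Cm + Cw * ENNReal.ofReal (Q.te - Q.tw)) m₀ +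
      volG f₀ ε K Q (3 * C.toReal) (GW Φ ε K Q) τ
    unfold srcT mastA
    ring

end Crest.Agent.R122.OneC285

end
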