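import Crest.Agent.R122.Ineq1C_815
import Crest.Agent.R122.Ineq1Pt4_285
import Crest.Agent.R122.EXWBind_285

/-!
helper815, row 122, INEQUALITY 1, closing part D: the assembly with the branch of the exits touched
before the contact (`StmtLink4`, `StmtEXW`).

* `exw_evW` : `StmtEXW` in the windows;
* `RL4In` : the two remaining inputs, `StmtRed` and `StmtLink4`, in the windows;
* `ptAll_of_rl4`, `i1In_of_rl4` : inequality 1.
-/

set_option autoImplicit false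

open MeasureTheory Set Filter
open scoped ENNReal Topology
open Crest.AnalysisR.Kinetic
open Crest.Agent.R122.Master566 Crest.Agent.R122.EDefs602 Crest.Agent.R122.GIV566
  Crest.Agent.R122.Top602 Crest.Agent.R122.Young763 Crest.Agent.R122.Unw410
  Crest.Agent.R122.OneC285 Crest.Agent.R122.Q1815

noncomputable section

namespace Crest.Agent.R122.Ineq1815

variable {Φ : Space3 → ℝ} {f₀ : PhasePoint → ℝ} {f : ℝ → PhasePoint → ℝ} {β T : ℝ}
  {γ : ℝ → ℝ} {ρ : ℝ≥0∞} {PM : PMass}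

/-- **(EXW) in the windows**, horizon `T' = tw + h0`. -/
theorem exw_evW (hD : KData Φ β T f₀ f) : ∃ h1 : ℝ, 0 < h1 ∧ ∃ g1 : ℝ, 0 < g1 ∧
    ∃ r1 : ℝ≥0∞, r1 < 1 ∧ ∀ (γ : ℝ → ℝ) (ρ : ℝ≥0∞), LinePar g1 r1 T γ ρ →
      ∃ CW : ℝ≥0∞, CW ≠ ∞ ∧ ∀ h0 : ℝ, 0 < h0 → h0 ≤ h1 → EvW T fun _ L tw te =>
        IH Φ f₀ f T γ ρ tw → ∀ m : ℕ, StmtEXW Φ f₀ (epar γ ρ L tw te) (tw + h0) m CW := by
  obtain ⟨ha, kap, lam, C, b, hK, hkap⟩ := exists_kinC_kdata hD
  have hK0 : 0 < ha := hK.1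
  obtain ⟨g1, hg1, r1, hr1, H⟩ := QExit837.stmtEXW_win hD hK hkap
  refine ⟨ha, hK0, g1, hg1, r1, hr1, fun γ ρ hl => ?_⟩
  obtain ⟨CW, hCW, HW⟩ := H γ ρ hl
  refine ⟨CW, hCW, fun h0 hh0 hh1 => EvW.of_forall fun h L tw te _ _ _ hw hIH m => ?_⟩
  refine stmtEXW_of_837 (HW h L tw te hw hIH.giv (tw + h0) ?_ (by linarith) m)
  have := hw.nonneg
  linarith

/-- The two remaining inputs of inequality 1 : the reduction to good trees and the long
connections, along the windows. -/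
def RL4In (Φ : Space3 → ℝ) (f₀ : PhasePoint → ℝ) (f : ℝ → PhasePoint → ℝ) (T : ℝ) : Prop :=
  InHL T fun h₀ γ ρ => EvW T fun _ L tw te => IH Φ f₀ f T γ ρ tw →
    StmtRed Φ f₀ tw te (tw + h₀) ∧ StmtLink4 Φ f₀ (epar γ ρ L tw te) (tw + h₀)

/-- **The pointwise form** from the reduction to good trees and the long connections. -/
theorem ptAll_of_rl4 (hD : KData Φ β T f₀ f) (h : RL4In Φ f₀ f T) : PtAll Φ f₀ f T := by
  obtain ⟨a, ha, g1, hg1, r1, hr1, h⟩ := h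
  obtain ⟨b, hb, g2, hg2, r2, hr2, hP⟩ := OneNS423.pieces_evW hD
  obtain ⟨c, hc, g3, hg3, r3, hr3, hX⟩ := exw_evW hD
  refine ⟨min a (min b c), lt_min ha (lt_min hb hc), min g1 (min g2 g3),
    lt_min hg1 (lt_min hg2 hg3), max r1 (max r2 r3), max_lt hr1 (max_lt hr2 hr3),
    fun h₀ h0 hle γ ρ hl => ?_⟩
  have hl1 := hl.mono (min_le_left _ _) (le_max_left _ _)
  have hl' := hl.mono (min_le_right _ _) (le_max_right _ _)
  have hRL := h h₀ h0 (hle.trans (min_le_left _ _)) γ ρ hl1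
  obtain ⟨CN, hCN, C0, hC0, r, hr, hPc⟩ := hP γ ρ (hl'.mono (min_le_left _ _) (le_max_left _ _))
  have hPc := hPc h₀ h0 (hle.trans ((min_le_right _ _).trans (min_le_left _ _)))
  obtain ⟨CW, hCW, hXc⟩ := hX γ ρ (hl'.mono (min_le_right _ _) (le_max_right _ _))
  have hXc := hXc h₀ h0 (hle.trans ((min_le_right _ _).trans (min_le_right _ _)))
  obtain ⟨γ₀, κ, hκ, hγ, hpos, -⟩ := hl.lin
  have hf : Measurable f₀ := hD.contDiff.continuous.measurable
  have hmass : ∫⁻ z, ENNReal.ofReal (f₀ z) ≤ 1 :=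
    (FM167.lintegral_density_eq_one hD.nonneg hD.integrable hD.mass).le
  set g₀ : ℝ := γ₀ - κ * T with hg₀
  set cd : ℝ≥0∞ := Direct658.cD g₀ ρ * ENNReal.ofReal (Unw410.cB Φ) with hcd
  have hcdt : cd ≠ ∞ :=
    ENNReal.mul_ne_top (Direct658.cD_ne_top hpos hl.hi) ENNReal.ofReal_ne_top
  refine ⟨3 * CN.toReal, by positivity, fun m => C0 * r ^ m, ?_, ?_, ?_⟩
  · have := ENNReal.Tendsto.const_mul (a := C0) (ENNReal.tendsto_pow_atTop_nhds_zero_of_lt_one hr)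
      (Or.inr hC0)
    rwa [mul_zero] at this
  · exact fun m => ENNReal.mul_ne_top hC0 (ENNReal.pow_ne_top (hr.trans ENNReal.one_lt_top).ne)
  intro m
  refine ⟨1, ENNReal.one_ne_top, fun y _ => (cd + CW) * ENNReal.ofReal (2 * y), ?_, ?_⟩
  · refine Vanish.const_mul ?_ (ENNReal.add_ne_top.2 ⟨hcdt, hCW⟩)
    exact Vanish.of_length (u := fun y => 2 * y) (by
      have : Tendsto (fun y : ℝ => 2 * y) (𝓝 0) (𝓝 (2 * 0)) :=
        ((continuous_const (y := (2 : ℝ))).mul continuous_id).tendsto (0 : ℝ)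
      rw [mul_zero] at this
      exact this.mono_left nhdsWithin_le_nhds)
  refine ((hRL.and hPc).and hXc).mono fun y L tw te hy hL hw hq hIH => ?_
  obtain ⟨hRed, hLink⟩ := hq.1.1 hIH
  obtain ⟨-, hNS, hXC, hEX⟩ := hq.1.2 hIH
  have hEXW := hq.2 hIH
  have hg : g₀ ≤ γ₀ - κ * te := by
    have := mul_le_mul_of_nonneg_left hw.le_T hκ.le
    linarith
  have hEX0 : StmtEX Φ f₀ (epar γ ρ L tw te) (tw + h₀) 0 C0 := by
    have := hEX 0
    rwa [pow_zero, mul_one] at this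
  have hte : te - tw ≤ y := by
    have := hw.short
    linarith
  obtain ⟨S, hS, hE⟩ := ineq1_pt4 (Q := epar γ ρ L tw te) (T' := tw + h₀) hD.adm hf hmass hγ hκ
    hpos hg hl.hi (zero_lt_one.trans_le hL) hw.nonneg hw.le hy hte m hRed hLink hCN hNS hXC
    (hEX m) (hEXW m) hC0 hEX0 hIH.tn (small_JE hw.nonneg hIH.je)
  refine ⟨S, hS, hE.mono fun K ε _ hh => PtIneq.mono hh fun τ => ?_⟩
  unfold mastA PMn
  set X := XI Φ f₀ ε K (epar γ ρ L tw te)
  set E := aE Φ f₀ ε K (epar γ ρ L tw te)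
  set P := PE Φ f₀ ε K (epar γ ρ L tw te) (Nu0566.nu0 Φ f₀ ε K (epar γ ρ L tw te) (tw + h₀) m)
  have h1 : ENNReal.ofReal (te - tw) ≤ ENNReal.ofReal (2 * y) :=
    ENNReal.ofReal_le_ofReal (by linarith)
  show S K ε τ + ((C0 * r ^ m + CW * ENNReal.ofReal (te - tw)) * X +
    (Direct658.cD g₀ ρ * ENNReal.ofReal (2 * y) * ENNReal.ofReal (Unw410.cB Φ) * E + P)) ≤ _
  calc _ ≤ S K ε τ + ((C0 * r ^ m + CW * ENNReal.ofReal (2 * y)) * X +
        (Direct658.cD g₀ ρ * ENNReal.ofReal (2 * y) * ENNReal.ofReal (Unw410.cB Φ) * E + P)) := by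
        gcongr
    _ ≤ S K ε τ + ((C0 * r ^ m + CW * ENNReal.ofReal (2 * y)) * X +
        (Direct658.cD g₀ ρ * ENNReal.ofReal (2 * y) * ENNReal.ofReal (Unw410.cB Φ) * E + P)) +
          (cd * ENNReal.ofReal (2 * y) * X + CW * ENNReal.ofReal (2 * y) * E) := le_self_add
    _ = _ := by
        rw [hcd]
        ring

/-- **INEQUALITY 1** from the reduction to good trees and the long connections. -/
theorem i1In_of_rl4 (hD : KData Φ β T f₀ f) (h : RL4In Φ f₀ f T) : I1In Φ f₀ f T :=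
  i1In_of_ptAll hD (ptAll_of_rl4 hD h)

end Crest.Agent.R122.Ineq1815

end
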