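import Crest.Agent.R122.KinB_796

/-!
Consequences of the weighted estimates: tails, mass tightness, short-window (Lanford) bounds
(row 122, block F6, helper796).
-/

set_option autoImplicit false
set_option linter.unusedSectionVars false
set_option linter.unusedVariables false
open MeasureTheory ProbabilityTheory Set
open scoped ENNReal

noncomputable section

namespace Crest.Agent.R122.Kin796

open CTree

variable {E : Type*} [NormedAddCommGroup E] [NormedSpace ℝ E] [MeasurableSpace E] [BorelSpace E]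
  [SecondCountableTopology E]

/-- Part of the tree series with fewer than `K` collisions. -/
def SK (κ : Kernel E (E × E)) (D : ℝ → ℝ → E → E → ℝ≥0∞) (f0 : E → E → ℝ≥0∞) (K : ℕ)
    (t : ℝ) (x v : E) : ℝ≥0∞ :=
  ∑' τ : CTree, if τ.size < K then F κ D f0 τ t x v else 0

/-- Tail of the tree series: at least `K` collisions. -/
def RK (κ : Kernel E (E × E)) (D : ℝ → ℝ → E → E → ℝ≥0∞) (f0 : E → E → ℝ≥0∞) (K : ℕ)
    (t : ℝ) (x v : E) : ℝ≥0∞ :=
  ∑' τ : CTree, if K ≤ τ.size then F κ D f0 τ t x v else 0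

theorem SK_add_RK (κ : Kernel E (E × E)) (D : ℝ → ℝ → E → E → ℝ≥0∞) (f0 : E → E → ℝ≥0∞) (K : ℕ)
    (t : ℝ) (x v : E) :
    SK κ D f0 K t x v + RK κ D f0 K t x v = ∑' τ : CTree, F κ D f0 τ t x v := by
  unfold SK RK
  rw [← ENNReal.tsum_add]
  refine tsum_congr fun τ => ?_
  by_cases h : τ.size < K
  · simp [h, Nat.not_le.2 h]
  · simp [h, Nat.not_lt.1 h]

theorem SK_mono (κ : Kernel E (E × E)) (D : ℝ → ℝ → E → E → ℝ≥0∞) (f0 : E → E → ℝ≥0∞) {K L : ℕ}
    (hKL : K ≤ L) (t : ℝ) (x v : E) : SK κ D f0 K t x v ≤ SK κ D f0 L t x v := by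
  refine ENNReal.tsum_le_tsum fun τ => ?_
  by_cases h : τ.size < K
  · simp [h, lt_of_lt_of_le h hKL]
  · simp [h]

theorem RK_anti (κ : Kernel E (E × E)) (D : ℝ → ℝ → E → E → ℝ≥0∞) (f0 : E → E → ℝ≥0∞) {K L : ℕ}
    (hKL : K ≤ L) (t : ℝ) (x v : E) : RK κ D f0 L t x v ≤ RK κ D f0 K t x v := by
  refine ENNReal.tsum_le_tsum fun τ => ?_
  by_cases h : L ≤ τ.size
  · simp [h, le_trans hKL h]
  · simp [h]

theorem meas_SK {κ : Kernel E (E × E)} [IsSFiniteKernel κ] {D : ℝ → ℝ → E → E → ℝ≥0∞}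
    (hD : Meas4 D) {f0 : E → E → ℝ≥0∞} (hf : Measurable fun p : E × E => f0 p.1 p.2) (K : ℕ) :
    Meas3 (SK κ D f0 K) := by
  unfold Meas3 SK
  refine Measurable.tsum fun τ => ?_
  by_cases h : τ.size < K
  · simp only [h, if_true]
    exact meas_F κ hD hf τ
  · simp [h]

theorem meas_RK {κ : Kernel E (E × E)} [IsSFiniteKernel κ] {D : ℝ → ℝ → E → E → ℝ≥0∞}
    (hD : Meas4 D) {f0 : E → E → ℝ≥0∞} (hf : Measurable fun p : E × E => f0 p.1 p.2) (K : ℕ) :
    Meas3 (RK κ D f0 K) := by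
  unfold Meas3 RK
  refine Measurable.tsum fun τ => ?_
  by_cases h : K ≤ τ.size
  · simp only [h, if_true]
    exact meas_F κ hD hf τ
  · simp [h]

/-- Chebyshev: exponential moment controls the tail. -/
theorem RK_le_of_moment {κ : Kernel E (E × E)} {D : ℝ → ℝ → E → E → ℝ≥0∞} {f0 : E → E → ℝ≥0∞}
    {lam : ℝ} (hlam : 1 < lam) {B : ℝ≥0∞} {t : ℝ} {x v : E}
    (h : ∑' τ : CTree, ENNReal.ofReal lam ^ τ.size * F κ D f0 τ t x v ≤ B) (K : ℕ) :
    RK κ D f0 K t x v ≤ ENNReal.ofReal ((lam⁻¹) ^ K) * B := by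
  have hlam0 : 0 < lam := by linarith
  have h1 : ENNReal.ofReal (lam ^ K) * RK κ D f0 K t x v ≤ B := by
    refine le_trans ?_ h
    unfold RK
    rw [← ENNReal.tsum_mul_left]
    refine ENNReal.tsum_le_tsum fun τ => ?_
    by_cases hK : K ≤ τ.size
    · simp only [hK, if_true]
      refine mul_le_mul' ?_ le_rfl
      rw [← ENNReal.ofReal_pow hlam0.le]
      exact ENNReal.ofReal_le_ofReal (pow_le_pow_right₀ hlam.le hK)
    · simp [hK]
  calc RK κ D f0 K t x v = ENNReal.ofReal ((lam⁻¹) ^ K) * (ENNReal.ofReal (lam ^ K) *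
        RK κ D f0 K t x v) := by
        rw [← mul_assoc, ← ENNReal.ofReal_mul (by positivity), ← mul_pow,
          inv_mul_cancel₀ hlam0.ne', one_pow, ENNReal.ofReal_one, one_mul]
    _ ≤ _ := mul_le_mul' le_rfl h1

section main

variable {κ : Kernel E (E × E)} [IsSFiniteKernel κ] {β T C0 C1 : ℝ} {D : ℝ → ℝ → E → E → ℝ≥0∞}
  {f : ℝ → E → E → ℝ≥0∞}

/-- Uniform geometric tail of the tree series. -/
theorem tail_geometric (hβ : 0 < β) (hT : 0 < T) (hC0 : 0 ≤ C0) (hC1 : 0 ≤ C1)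
    (hκ : KernelBound κ β C1) (hD1 : ∀ s t x v, D s t x v ≤ 1) (hD : Meas4 D) (hf : Meas3 f)
    (hfb : ∀ t ∈ Icc 0 T, ∀ x v, f t x v ≤ ENNReal.ofReal C0 * wG (2 * β) v)
    (hmild : IsMild κ D T f) :
    ∃ r : ℝ, 0 < r ∧ r < 1 ∧ ∀ K : ℕ, ∀ t ∈ Icc 0 T, ∀ x v,
      RK κ D (f 0) K t x v ≤ ENNReal.ofReal (r ^ K * (C0 + 1)) * wG β v := by
  obtain ⟨lam, hlam, h⟩ := exp_moment hβ hT hC0 hC1 hκ hD1 hD hf hfb hmild
  refine ⟨lam⁻¹, by positivity, inv_lt_one_of_one_lt₀ hlam, fun K t ht x v => ?_⟩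
  refine (RK_le_of_moment hlam (h t ht x v) K).trans (le_of_eq ?_)
  rw [← mul_assoc, ← ENNReal.ofReal_mul (by positivity)]

/-- **Theorem T4** (uniform mass tightness of the number of collisions). `m` is phase space volume,
or phase space volume weighted with `1 + ‖v‖ ^ 2`. -/
theorem mass_tight (hβ : 0 < β) (hT : 0 < T) (hC0 : 0 ≤ C0) (hC1 : 0 ≤ C1)
    (hκ : KernelBound κ β C1) (hD1 : ∀ s t x v, D s t x v ≤ 1) (hD : Meas4 D) (hf : Meas3 f)
    (hfb : ∀ t ∈ Icc 0 T, ∀ x v, f t x v ≤ ENNReal.ofReal C0 * wG (2 * β) v)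
    (hmild : IsMild κ D T f) (m : Measure (E × E)) {M : ℝ≥0∞} (hM : M ≠ ∞)
    (hcont : ∀ x v, ContinuousOn (fun t => f t x v) (Icc 0 T))
    (hmass : ∀ t ∈ Icc 0 T, ∫⁻ z, f t z.1 z.2 ∂m = M) {δ : ℝ≥0∞} (hδ : 0 < δ) :
    ∃ K : ℕ, ∀ t ∈ Icc 0 T, ∫⁻ z, RK κ D (f 0) K t z.1 z.2 ∂m ≤ δ := by
  have hf0 : Measurable fun p : E × E => f 0 p.1 p.2 :=
    hf.comp (f := fun p : E × E => ((0 : ℝ), p.1, p.2)) (by fun_prop)
  by_contra hcon
  push Not at hcon
  choose t ht hlt using hcon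
  obtain ⟨r, hr0, hr1, htail⟩ := tail_geometric hβ hT hC0 hC1 hκ hD1 hD hf hfb hmild
  have hseries : ∀ s ∈ Icc 0 T, ∀ x v (K : ℕ),
      SK κ D (f 0) K s x v + RK κ D (f 0) K s x v = f s x v := by
    intro s hs x v K
    rw [SK_add_RK, ← eq_tsum hβ hT hC0 hC1 hκ hD1 hD hf hfb hmild hs]
  obtain ⟨t', ht', φ, hφ, hlim⟩ := isCompact_Icc.tendsto_subseq ht
  have hmS : ∀ (K : ℕ) (s : ℝ), Measurable fun z : E × E => SK κ D (f 0) K s z.1 z.2 := fun K s =>
    (meas_SK hD hf0 K).comp (f := fun p : E × E => (s, p.1, p.2)) (by fun_prop)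
  have hmR : ∀ (K : ℕ) (s : ℝ), Measurable fun z : E × E => RK κ D (f 0) K s z.1 z.2 := fun K s =>
    (meas_RK hD hf0 K).comp (f := fun p : E × E => (s, p.1, p.2)) (by fun_prop)
  have hint : ∀ n, ∫⁻ z, SK κ D (f 0) (φ n) (t (φ n)) z.1 z.2 ∂m ≤ M - δ := by
    intro n
    have h1 : (∫⁻ z, SK κ D (f 0) (φ n) (t (φ n)) z.1 z.2 ∂m) +
        ∫⁻ z, RK κ D (f 0) (φ n) (t (φ n)) z.1 z.2 ∂m = M := by
      rw [← lintegral_add_left (hmS _ _), ← hmass _ (ht (φ n))]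
      exact lintegral_congr fun z => hseries _ (ht _) _ _ _
    have h2 := hlt (φ n)
    have h3 : (∫⁻ z, SK κ D (f 0) (φ n) (t (φ n)) z.1 z.2 ∂m) + δ ≤ M := by
      rw [← h1]; exact add_le_add le_rfl h2.le
    exact ENNReal.le_sub_of_add_le_right (ne_top_of_le_ne_top hM ((le_add_left le_rfl).trans h3)) h3
  have hpt : ∀ z : E × E, Filter.Tendsto
      (fun n => SK κ D (f 0) (φ n) (t (φ n)) z.1 z.2) Filter.atTop (nhds (f t' z.1 z.2)) := by
    intro z
    have hfin : ∀ s ∈ Icc 0 T, f s z.1 z.2 ≠ ∞ := fun s hs =>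
      ne_top_of_le_ne_top (ENNReal.mul_ne_top ENNReal.ofReal_ne_top ENNReal.ofReal_ne_top)
        (hfb s hs z.1 z.2)
    have h1 : Filter.Tendsto (fun n => f (t (φ n)) z.1 z.2) Filter.atTop
        (nhds (f t' z.1 z.2)) := by
      have h2 := (hcont z.1 z.2) t' ht'
      exact h2.tendsto.comp (tendsto_nhdsWithin_iff.2 ⟨hlim, Filter.Eventually.of_forall
        fun n => ht (φ n)⟩)
    have h3 : Filter.Tendsto (fun n => RK κ D (f 0) (φ n) (t (φ n)) z.1 z.2) Filter.atTop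
        (nhds 0) := by
      have h4 : Filter.Tendsto (fun n : ℕ => ENNReal.ofReal (r ^ (φ n) * (C0 + 1)) *
          wG β z.2) Filter.atTop (nhds (ENNReal.ofReal (0 * (C0 + 1)) * wG β z.2)) := by
        refine ENNReal.Tendsto.mul_const ?_ (Or.inr ENNReal.ofReal_ne_top)
        refine (ENNReal.continuous_ofReal.tendsto _).comp (Filter.Tendsto.mul_const _ ?_)
        exact (tendsto_pow_atTop_nhds_zero_of_lt_one hr0.le hr1).comp hφ.tendsto_atTop
      rw [zero_mul, ENNReal.ofReal_zero, zero_mul] at h4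
      exact tendsto_of_tendsto_of_tendsto_of_le_of_le tendsto_const_nhds h4
        (fun n => zero_le) (fun n => htail _ _ (ht _) _ _)
    have h5 : ∀ n, SK κ D (f 0) (φ n) (t (φ n)) z.1 z.2 =
        f (t (φ n)) z.1 z.2 - RK κ D (f 0) (φ n) (t (φ n)) z.1 z.2 := by
      intro n
      have h6 := hseries _ (ht (φ n)) z.1 z.2 (φ n)
      rw [← h6, ENNReal.add_sub_cancel_right]
      refine ne_top_of_le_ne_top (hfin _ (ht (φ n))) ?_
      rw [← h6]; exact le_add_self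
    simp_rw [h5]
    have h7 := ENNReal.Tendsto.sub h1 h3 (Or.inl (hfin t' ht'))
    rwa [tsub_zero] at h7
  have hfatou : M ≤ M - δ := by
    calc M = ∫⁻ z, f t' z.1 z.2 ∂m := (hmass t' ht').symm
      _ = ∫⁻ z, Filter.liminf (fun n => SK κ D (f 0) (φ n) (t (φ n)) z.1 z.2) Filter.atTop ∂m :=
          lintegral_congr fun z => ((hpt z).liminf_eq).symm
      _ ≤ Filter.liminf (fun n => ∫⁻ z, SK κ D (f 0) (φ n) (t (φ n)) z.1 z.2 ∂m)
            Filter.atTop := lintegral_liminf_le fun n => hmS _ _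
      _ ≤ Filter.liminf (fun _ : ℕ => M - δ) Filter.atTop := by
          refine Filter.liminf_le_liminf (Filter.Eventually.of_forall hint) ?_ ?_ <;> isBoundedDefault
      _ = M - δ := Filter.liminf_const _
  have hMpos : M ≠ 0 := by
    intro h0
    have h1 := hlt 0
    have h2 : ∫⁻ z, RK κ D (f 0) 0 (t 0) z.1 z.2 ∂m ≤ M := by
      rw [← hmass _ (ht 0)]
      refine lintegral_mono fun z => ?_
      rw [← hseries _ (ht 0) z.1 z.2 0]
      exact le_add_self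
    rw [h0] at h2
    exact absurd (lt_of_lt_of_le h1 h2) not_lt_zero
  exact absurd hfatou (not_le.2 (ENNReal.sub_lt_self hM hMpos hδ.ne'))

end main

/-- **Theorem T5** (short window, Lanford): any damping `D ≤ 1` (in particular `D = 1`). -/
theorem lanford {κ : Kernel E (E × E)} [IsSFiniteKernel κ] {β T C0 C1 μ : ℝ}
    {D : ℝ → ℝ → E → E → ℝ≥0∞} {f0 : E → E → ℝ≥0∞} (hβ : 0 < β) (hT : 0 < T) (hμ : 0 < μ)
    (hC0 : 0 ≤ C0) (hC1 : 0 ≤ C1)
    (hκ : KernelBound κ β C1) (hD1 : ∀ s t x v, D s t x v ≤ 1) (hD : Meas4 D)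
    (hf : Measurable fun p : E × E => f0 p.1 p.2)
    (hfb : ∀ x v, f0 x v ≤ ENNReal.ofReal C0 * wG (2 * β) v) {lam : ℝ} (hlam : 0 ≤ lam)
    (hpsi : 4 * lam * C0 * C1 * Real.exp (μ * T) * psi β T μ ≤ 1) {t : ℝ} (ht : t ∈ Icc 0 T) (x v : E) :
    ∑' τ : CTree, ENNReal.ofReal lam ^ τ.size * F κ D f0 τ t x v ≤
      ENNReal.ofReal (2 * C0) * wT β T μ t v := by
  rw [tsum_eq_iSup κ hD hf]
  refine iSup_le fun n => ?_
  refine P_le_super κ (T := T) (H := fun t _ v => ENNReal.ofReal (2 * C0) * wT β T μ t v)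
    (fun t ht x v => ?_) n ht x v
  have h0 : D 0 t x v * f0 (x - t • v) v ≤ ENNReal.ofReal C0 * wT β T μ t v := by
    calc D 0 t x v * f0 (x - t • v) v ≤ 1 * (ENNReal.ofReal C0 * wG (2 * β) v) :=
          mul_le_mul' (hD1 _ _ _ _) (hfb _ _)
      _ ≤ _ := by
          rw [one_mul]
          exact mul_le_mul' le_rfl ((wG_anti (rate_mem hβ hT ht).2 v).trans
            (wG_le_wT hβ hT hμ ht v))
  set q : ℝ → E → E → ℝ≥0∞ := fun s _ u => ENNReal.ofReal lam *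
    Q κ (fun w => ENNReal.ofReal (2 * C0) * wT β T μ s w)
      (fun w => ENNReal.ofReal (2 * C0) * wT β T μ s w) u with hq
  have hqb : ∀ s ∈ Icc 0 T, ∀ y u, q s y u ≤
      ENNReal.ofReal (lam * (2 * C0 * Real.exp (μ * T) * (2 * C0) * C1)) * gB β T μ s u := by
    intro s hs y u
    have hb := (Q_bound hβ hT hC1 hκ μ (a := 2 * C0 * Real.exp (μ * T)) (c := 2 * C0)
      (by positivity) (by positivity) hs (μ * s) le_rfl
      (h := fun w => ENNReal.ofReal (2 * C0) * wT β T μ s w)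
      (k := fun w => ENNReal.ofReal (2 * C0) * wT β T μ s w) (fun w => by
        rw [wT_eq, ENNReal.ofReal_mul (by positivity : (0:ℝ) ≤ 2 * C0), mul_assoc]
        refine mul_le_mul' le_rfl (mul_le_mul' (ENNReal.ofReal_le_ofReal
          (Real.exp_le_exp.2 ?_)) le_rfl)
        exact mul_le_mul_of_nonneg_left hs.2 hμ.le) (fun w => by
        rw [wT_eq, ENNReal.ofReal_mul (by positivity : (0:ℝ) ≤ 2 * C0), mul_assoc]) u).1
    calc q s y u ≤ ENNReal.ofReal lam * (ENNReal.ofReal (2 * C0 * Real.exp (μ * T) * (2 * C0) * C1)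
          * gB β T μ s u) := mul_le_mul' le_rfl hb
      _ = _ := by rw [← mul_assoc, ← ENNReal.ofReal_mul hlam]
  have h1 : ∫⁻ s in Ioc 0 t, D s t x v * q s (x - (t - s) • v) v ≤
      ENNReal.ofReal C0 * wT β T μ t v := by
    refine (duh_bound hβ hT hμ (by positivity) hD1 hqb ht x v).trans
      (mul_le_mul' (ENNReal.ofReal_le_ofReal ?_) le_rfl)
    have e1 : lam * (2 * C0 * Real.exp (μ * T) * (2 * C0) * C1) * psi β T μ =
        C0 * (4 * lam * C0 * C1 * Real.exp (μ * T) * psi β T μ) := by ring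
    rw [e1]
    calc C0 * (4 * lam * C0 * C1 * Real.exp (μ * T) * psi β T μ) ≤ C0 * 1 :=
          mul_le_mul_of_nonneg_left hpsi hC0
      _ = C0 := mul_one _
  calc _ ≤ ENNReal.ofReal C0 * wT β T μ t v + ENNReal.ofReal C0 * wT β T μ t v :=
        add_le_add h0 h1
    _ = ENNReal.ofReal (2 * C0) * wT β T μ t v := by
        rw [← add_mul, ← ENNReal.ofReal_add hC0 hC0]; congr 2; ring

/-- Explicit form of the smallness condition in `lanford`: for every bound `C0` there is a window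
length `T0` such that the (marked, undamped) tree series over any window `T ≤ T0` is bounded by
`6 C0 exp (-β‖v‖²)`. -/
theorem exists_lanford {κ : Kernel E (E × E)} [IsSFiniteKernel κ] {β C0 C1 : ℝ} (hβ : 0 < β)
    (hC0 : 0 ≤ C0) (hC1 : 0 ≤ C1) (hκ : KernelBound κ β C1) {lam : ℝ} (hlam : 0 ≤ lam) :
    ∃ T0 : ℝ, 0 < T0 ∧ ∀ T, 0 < T → T ≤ T0 → ∀ {D : ℝ → ℝ → E → E → ℝ≥0∞} {f0 : E → E → ℝ≥0∞},
      (∀ s t x v, D s t x v ≤ 1) → Meas4 D → (Measurable fun p : E × E => f0 p.1 p.2) →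
      (∀ x v, f0 x v ≤ ENNReal.ofReal C0 * wG (2 * β) v) → ∀ t ∈ Icc 0 T, ∀ x v,
      ∑' τ : CTree, ENNReal.ofReal lam ^ τ.size * F κ D f0 τ t x v ≤
        ENNReal.ofReal (6 * C0) * wG β v := by
  have hs : 0 < Real.sqrt β := Real.sqrt_pos.2 hβ
  set A : ℝ := 12 * lam * C0 * C1 * (1 + 1 / (2 * Real.sqrt β)) with hA
  have hA0 : 0 ≤ A := by positivity
  refine ⟨1 / (A + 1), by positivity, fun T hT hTle D f0 hD1 hD hf hfb t ht x v => ?_⟩
  have hμ : 0 < 1 / T := by positivity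
  have hμT : 1 / T * T = 1 := by field_simp
  have he : Real.exp (1 / T * T) ≤ 3 := by
    rw [hμT]; exact (Real.exp_one_lt_d9.le).trans (by norm_num)
  have hpsi : psi β T (1 / T) = T * (1 + 1 / (2 * Real.sqrt β)) := by
    unfold psi
    have h1 : Real.sqrt (1 / T * (β / T)) = Real.sqrt β / T := by
      rw [show 1 / T * (β / T) = β / T ^ 2 by field_simp, Real.sqrt_div hβ.le,
        Real.sqrt_sq hT.le]
    rw [h1]
    field_simp
  have hcond : 4 * lam * C0 * C1 * Real.exp (1 / T * T) * psi β T (1 / T) ≤ 1 := by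
    rw [hpsi]
    have h2 : 4 * lam * C0 * C1 * Real.exp (1 / T * T) * (T * (1 + 1 / (2 * Real.sqrt β))) ≤
        4 * lam * C0 * C1 * 3 * (T * (1 + 1 / (2 * Real.sqrt β))) := by
      gcongr
    refine h2.trans ?_
    have h3 : 4 * lam * C0 * C1 * 3 * (T * (1 + 1 / (2 * Real.sqrt β))) = A * T := by
      rw [hA]; ring
    rw [h3]
    calc A * T ≤ A * (1 / (A + 1)) := mul_le_mul_of_nonneg_left hTle hA0
      _ ≤ 1 := by rw [mul_one_div, div_le_one (by positivity)]; linarith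
  refine (lanford hβ hT hμ hC0 hC1 hκ hD1 hD hf hfb hlam hcond ht x v).trans ?_
  calc ENNReal.ofReal (2 * C0) * wT β T (1 / T) t v
      ≤ ENNReal.ofReal (2 * C0) * (ENNReal.ofReal (Real.exp (1 / T * T)) * wG β v) :=
        mul_le_mul' le_rfl (wT_le hβ hT hμ ht v)
    _ ≤ ENNReal.ofReal (2 * C0) * (ENNReal.ofReal 3 * wG β v) :=
        mul_le_mul' le_rfl (mul_le_mul' (ENNReal.ofReal_le_ofReal he) le_rfl)
    _ = ENNReal.ofReal (6 * C0) * wG β v := by
        rw [← mul_assoc, ← ENNReal.ofReal_mul (by positivity)]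
        congr 2; ring

end Crest.Agent.R122.Kin796
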