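import Crest.Agent.R122.KinMain_796
import Crest.Agent.R122.BoltzSeg2_814

/-!
Exponential moments with perturbed leaf data and energy weights on the leaves (row 122, block F6 / B4,
helper796).
-/

set_option autoImplicit false
set_option linter.unusedSectionVars false
set_option linter.unusedVariables false
open MeasureTheory ProbabilityTheory Set
open scoped ENNReal

noncomputable section

namespace Crest.Agent.R122.Kin796

open CTree

section main

variable {E : Type*} [NormedAddCommGroup E] [NormedSpace ℝ E] [MeasurableSpace E] [BorelSpace E]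
  [SecondCountableTopology E]

variable {κ : Kernel E (E × E)} [IsSFiniteKernel κ] {β T C0 C1 : ℝ} {D : ℝ → ℝ → E → E → ℝ≥0∞}
  {f : ℝ → E → E → ℝ≥0∞}

/-- **Theorem T3'** (exponential moment of the number of collisions, perturbed leaf datum). -/
theorem exp_moment_leaf (hβ : 0 < β) (hT : 0 < T) (hC0 : 0 ≤ C0) (hC1 : 0 ≤ C1)
    (hκ : KernelBound κ β C1) (hD1 : ∀ s t x v, D s t x v ≤ 1) (hD : Meas4 D) (hf : Meas3 f)
    (hfb : ∀ t ∈ Icc 0 T, ∀ x v, f t x v ≤ ENNReal.ofReal C0 * wG (2 * β) v)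
    (hmild : IsMild κ D T f) :
    ∃ lam del : ℝ, 1 < lam ∧ 0 < del ∧ ∀ k : E → E → ℝ≥0∞,
      (Measurable fun p : E × E => k p.1 p.2) →
      (∀ x v, k x v ≤ f 0 x v + ENNReal.ofReal del * wG (2 * β) v) → ∀ t ∈ Icc 0 T, ∀ x v,
      ∑' τ : CTree, ENNReal.ofReal lam ^ τ.size * F κ D k τ t x v ≤
        ENNReal.ofReal (C0 + 1) * wG β v := by
  have hf0 : Measurable fun p : E × E => f 0 p.1 p.2 :=
    hf.comp (f := fun p : E × E => ((0 : ℝ), p.1, p.2)) (by fun_prop)
  have hfb' : ∀ s ∈ Icc 0 T, ∀ x v, f s x v ≤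
      ENNReal.ofReal C0 * wG (2 * β - β / T * s) v := by
    intro s hs x v
    exact (hfb s hs x v).trans (mul_le_mul' le_rfl (wG_anti (rate_mem hβ hT hs).2 v))
  obtain ⟨μ, hμ, hpsi⟩ := exists_psi_le (β := β) (T := T)
    (ε := 1 / (8 * (2 * C0 + 1) * C1 + 1)) hβ hT (by positivity)
  have hpsi0 : 0 ≤ psi β T μ := psi_nonneg hμ
  have hpsi' : 2 * (2 * C0 + 1) * C1 * psi β T μ ≤ 1 / 4 := by
    have h2 : 2 * (2 * C0 + 1) * C1 * psi β T μ ≤
        2 * (2 * C0 + 1) * C1 * (1 / (8 * (2 * C0 + 1) * C1 + 1)) :=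
      mul_le_mul_of_nonneg_left hpsi (by positivity)
    refine h2.trans ?_
    rw [mul_one_div, div_le_div_iff₀ (by positivity) (by norm_num)]
    nlinarith [mul_nonneg hC0 hC1]
  set η : ℝ := Real.exp (-(μ * T)) with hη
  have hη0 : 0 < η := Real.exp_pos _
  have hη1 : η ≤ 1 := Real.exp_le_one_iff.2 (by have := mul_nonneg hμ.le hT.le; linarith)
  set δ : ℝ := min 1 (η / (4 * C0 ^ 2 * C1 * psi β T μ + 1)) with hδ
  have hδ0 : 0 < δ := lt_min one_pos (by positivity)
  have hδ1 : δ ≤ 1 := min_le_left _ _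
  have hδ2 : δ * (C0 ^ 2 * C1 * psi β T μ) ≤ η / 4 := by
    have h3 : δ ≤ η / (4 * C0 ^ 2 * C1 * psi β T μ + 1) := min_le_right _ _
    rw [le_div_iff₀ (by positivity)] at h3
    nlinarith
  refine ⟨1 + δ, η / 2, by linarith, by positivity, fun k hk hkf t ht x v => ?_⟩
  rw [tsum_eq_iSup κ hD hk]
  set H : ℝ → E → E → ℝ≥0∞ := fun t x v => f t x v + ENNReal.ofReal η * wT β T μ t v with hH
  have hHb : ∀ t ∈ Icc 0 T, ∀ x v, H t x v ≤ ENNReal.ofReal (C0 + 1) * wG β v := by
    intro t ht x v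
    have h1 : ENNReal.ofReal η * wT β T μ t v ≤ ENNReal.ofReal 1 * wG β v := by
      calc ENNReal.ofReal η * wT β T μ t v
          ≤ ENNReal.ofReal η * (ENNReal.ofReal (Real.exp (μ * T)) * wG β v) :=
            mul_le_mul' le_rfl (wT_le hβ hT hμ ht v)
        _ = ENNReal.ofReal 1 * wG β v := by
            rw [← mul_assoc, ← ENNReal.ofReal_mul hη0.le, hη, ← Real.exp_add]
            simp
    calc H t x v ≤ ENNReal.ofReal C0 * wG β v + ENNReal.ofReal 1 * wG β v :=
          add_le_add ((hfb t ht x v).trans (mul_le_mul' le_rfl (wG_anti (by linarith) v))) h1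
      _ = _ := by rw [← add_mul, ← ENNReal.ofReal_add hC0 zero_le_one]
  refine (iSup_le fun n => ?_).trans (hHb t ht x v)
  refine P_le_super κ (T := T) (fun t ht x v => ?_) n ht x v
  -- supersolution inequality
  set q1 : ℝ → E → E → ℝ≥0∞ := fun s y u => Q κ (f s y) (f s y) u with hq1
  have hq1m : Meas3 q1 := meas_Q κ hf hf
  set A : ℝ := δ * (C0 ^ 2 * C1) + 2 * ((2 * C0 + 1) * η * C1) with hA
  have hA0 : 0 ≤ A := by positivity
  -- pointwise bound of the source
  have hsrc : ∀ s ∈ Icc 0 T, ∀ y u, ENNReal.ofReal (1 + δ) * Q κ (H s y) (H s y) u ≤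
      q1 s y u + ENNReal.ofReal A * gB β T μ s u := by
    intro s hs y u
    have mf := meas_slice hD hf0 hf s y
    have hRm : Meas3 fun s (y : E) (u : E) => ENNReal.ofReal η * wT β T μ s u :=
      meas_mul3 measurable_const (meas_wT β T μ)
    have mR := meas_slice hD hf0 hRm s y
    set R : E → ℝ≥0∞ := fun w => ENNReal.ofReal η * wT β T μ s w with hRdef
    have hRb : ∀ w, R w ≤ ENNReal.ofReal (η * Real.exp (μ * s)) * wG (2 * β - β / T * s) w := by
      intro w
      rw [hRdef]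
      simp only
      rw [wT_eq, ENNReal.ofReal_mul hη0.le, mul_assoc]
    have hRb1 : ∀ w, R w ≤ ENNReal.ofReal 1 * wG (2 * β - β / T * s) w := by
      intro w
      refine (hRb w).trans (mul_le_mul' (ENNReal.ofReal_le_ofReal ?_) le_rfl)
      rw [hη, ← Real.exp_add]
      refine Real.exp_le_one_iff.2 ?_
      have := mul_le_mul_of_nonneg_left hs.2 hμ.le
      linarith
    have hexp : Q κ (H s y) (H s y) u = Q κ (f s y) (f s y) u +
        (Q κ (f s y) R u + (Q κ R (f s y) u + Q κ R R u)) := by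
      have e1 : Q κ (H s y) (H s y) u = Q κ (f s y) (H s y) u + Q κ R (H s y) u :=
        Q_add_left κ mf (mf.add mR) u
      have e2 : Q κ (f s y) (H s y) u = Q κ (f s y) (f s y) u + Q κ (f s y) R u :=
        Q_add_right κ mf mf u
      have e3 : Q κ R (H s y) u = Q κ R (f s y) u + Q κ R R u := Q_add_right κ mR mf u
      rw [e1, e2, e3, add_assoc]
    have b0 := (Q_bound hβ hT hC1 hκ μ hC0 hC0 hs 0 (mul_nonneg hμ.le hs.1) (hfb' s hs y)
      (k := f s y) (by simpa using hfb' s hs y) u).1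
    have b1 := Q_bound hβ hT hC1 hκ μ hC0 hη0.le hs (μ * s) le_rfl (hfb' s hs y) hRb u
    have b2 := (Q_bound hβ hT hC1 hκ μ zero_le_one hη0.le hs (μ * s) le_rfl hRb1 hRb u).1
    have hsum : Q κ (f s y) R u + (Q κ R (f s y) u + Q κ R R u) ≤
        ENNReal.ofReal ((2 * C0 + 1) * η * C1) * gB β T μ s u := by
      calc Q κ (f s y) R u + (Q κ R (f s y) u + Q κ R R u)
          ≤ ENNReal.ofReal (C0 * η * C1) * gB β T μ s u +
            (ENNReal.ofReal (C0 * η * C1) * gB β T μ s u +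
              ENNReal.ofReal (1 * η * C1) * gB β T μ s u) :=
            add_le_add b1.1 (add_le_add b1.2 b2)
        _ = _ := by
            rw [← add_mul, ← add_mul, ← ENNReal.ofReal_add (by positivity) (by positivity),
              ← ENNReal.ofReal_add (by positivity) (by positivity)]
            congr 2; ring
    calc ENNReal.ofReal (1 + δ) * Q κ (H s y) (H s y) u
        = q1 s y u + (ENNReal.ofReal δ * Q κ (f s y) (f s y) u + ENNReal.ofReal (1 + δ) *
          (Q κ (f s y) R u + (Q κ R (f s y) u + Q κ R R u))) := by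
          rw [hexp, mul_add, ENNReal.ofReal_add zero_le_one hδ0.le, ENNReal.ofReal_one]
          rw [add_mul 1, one_mul, hq1]
          ring
      _ ≤ q1 s y u + (ENNReal.ofReal δ * (ENNReal.ofReal (C0 * C0 * C1) * gB β T μ s u) +
          ENNReal.ofReal 2 * (ENNReal.ofReal ((2 * C0 + 1) * η * C1) * gB β T μ s u)) := by
          refine add_le_add le_rfl (add_le_add (mul_le_mul' le_rfl b0)
            (mul_le_mul' (ENNReal.ofReal_le_ofReal (by linarith)) hsum))
      _ = q1 s y u + ENNReal.ofReal A * gB β T μ s u := by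
          rw [← mul_assoc, ← mul_assoc, ← ENNReal.ofReal_mul hδ0.le,
            ← ENNReal.ofReal_mul (by norm_num : (0:ℝ) ≤ 2), ← add_mul,
            ← ENNReal.ofReal_add (by positivity) (by positivity)]
          congr 3
          rw [hA]; ring
  have hfin : A * psi β T μ ≤ η / 2 := by
    have e1 : A * psi β T μ = δ * (C0 ^ 2 * C1 * psi β T μ) +
        η * (2 * (2 * C0 + 1) * C1 * psi β T μ) := by rw [hA]; ring
    rw [e1]
    have e2 := mul_le_mul_of_nonneg_left hpsi' hη0.le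
    linarith
  have hleaf : D 0 t x v * k (x - t • v) v ≤ D 0 t x v * f 0 (x - t • v) v +
      ENNReal.ofReal (η / 2) * wT β T μ t v := by
    have h5 : wG (2 * β) v ≤ wT β T μ t v := by
      rw [wT_eq]
      calc wG (2 * β) v = 1 * wG (2 * β) v := (one_mul _).symm
        _ ≤ _ := by
          refine mul_le_mul' ?_ (wG_anti (rate_mem hβ hT ht).2 v)
          rw [← ENNReal.ofReal_one]
          exact ENNReal.ofReal_le_ofReal (Real.one_le_exp (mul_nonneg hμ.le ht.1))
    calc D 0 t x v * k (x - t • v) v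
        ≤ D 0 t x v * (f 0 (x - t • v) v + ENNReal.ofReal (η / 2) * wG (2 * β) v) :=
          mul_le_mul' le_rfl (hkf _ _)
      _ = D 0 t x v * f 0 (x - t • v) v + D 0 t x v * (ENNReal.ofReal (η / 2) * wG (2 * β) v) :=
          mul_add _ _ _
      _ ≤ _ := by
          refine add_le_add le_rfl ?_
          calc D 0 t x v * (ENNReal.ofReal (η / 2) * wG (2 * β) v)
              ≤ 1 * (ENNReal.ofReal (η / 2) * wT β T μ t v) :=
                mul_le_mul' (hD1 _ _ _ _) (mul_le_mul' le_rfl h5)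
            _ = _ := one_mul _
  calc D 0 t x v * k (x - t • v) v + ∫⁻ s in Ioc 0 t, D s t x v *
        (ENNReal.ofReal (1 + δ) * Q κ (H s (x - (t - s) • v)) (H s (x - (t - s) • v)) v)
      ≤ (D 0 t x v * f 0 (x - t • v) v + ENNReal.ofReal (η / 2) * wT β T μ t v) +
        ∫⁻ s in Ioc 0 t, (D s t x v * q1 s (x - (t - s) • v) v +
          D s t x v * (ENNReal.ofReal A * gB β T μ s v)) := by
        refine add_le_add hleaf (setLIntegral_mono' measurableSet_Ioc fun s hs => ?_)
        rw [← mul_add]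
        exact mul_le_mul' le_rfl (hsrc s ⟨hs.1.le, hs.2.trans ht.2⟩ _ _)
    _ = (D 0 t x v * f 0 (x - t • v) v + ENNReal.ofReal (η / 2) * wT β T μ t v) +
          ((∫⁻ s in Ioc 0 t, D s t x v * q1 s (x - (t - s) • v) v) +
          ∫⁻ s in Ioc 0 t, D s t x v * (ENNReal.ofReal A * gB β T μ s v)) := by
        rw [lintegral_add_left (meas_integrand hD hf0 hq1m t x v)]
    _ = f t x v + (ENNReal.ofReal (η / 2) * wT β T μ t v +
          ∫⁻ s in Ioc 0 t, D s t x v * (ENNReal.ofReal A * gB β T μ s v)) := by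
        rw [hmild t ht x v]
        abel
    _ ≤ f t x v + (ENNReal.ofReal (η / 2) * wT β T μ t v +
          ENNReal.ofReal (A * psi β T μ) * wT β T μ t v) :=
        add_le_add le_rfl (add_le_add le_rfl (duh_bound hβ hT hμ hA0 hD1 (q := fun s y u =>
          ENNReal.ofReal A * gB β T μ s u) (fun s hs y u => le_rfl) ht x v))
    _ ≤ H t x v := by
        refine add_le_add le_rfl ?_
        rw [← add_mul, ← ENNReal.ofReal_add (by positivity) (mul_nonneg hA0 hpsi0)]
        exact mul_le_mul' (ENNReal.ofReal_le_ofReal (by linarith)) le_rfl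

end main

/-! ### Concrete form: energy weights on the leaves -/

section concrete

open Crest.AnalysisR.Kinetic
open Crest.Agent.R122.Boltz814 Crest.Agent.R122.Kin416 Crest.Agent.R122.Seg814

variable {Φ : Space3 → ℝ} {β T : ℝ} {f₀ : PhasePoint → ℝ} {f : ℝ → PhasePoint → ℝ}

/-- Initial datum with an exponential energy weight. -/
def kE (T : ℝ) (f : ℝ → PhasePoint → ℝ) (kap : ℝ) (x v : Space3) : ℝ≥0∞ :=
  ENNReal.ofReal (Real.exp (kap * ‖v‖ ^ 2)) * fE T f 0 x v

theorem meas_kE (hf : IsRegularKineticSolution Φ β T f₀ f) (kap : ℝ) :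
    Measurable fun p : Space3 × Space3 => kE T f kap p.1 p.2 := by
  unfold kE
  exact (by fun_prop : Measurable fun p : Space3 × Space3 =>
    ENNReal.ofReal (Real.exp (kap * ‖p.2‖ ^ 2))).mul (meas_fE_zero hf)

/-- elementary estimate for the perturbation of the datum -/
theorem exp_perturb {β kap C0 del r : ℝ} (hβ : 0 < β) (hkap : 0 ≤ kap) (hkap2 : kap ≤ β / 2)
    (hC0 : 0 ≤ C0) (hdel : C0 * (kap * (2 / β)) ≤ del) (hr : 0 ≤ r) :
    (Real.exp (kap * r) - 1) * (C0 * Real.exp (-(2 * β * r))) ≤ del * Real.exp (-(β * r)) := by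
  have h1 : Real.exp (kap * r) - 1 ≤ kap * r * Real.exp (kap * r) := by
    have h2 := Real.add_one_le_exp (-(kap * r))
    have h3 : Real.exp (-(kap * r)) * Real.exp (kap * r) = 1 := by
      rw [← Real.exp_add]; simp
    nlinarith [Real.exp_pos (kap * r)]
  have h4 : r * Real.exp (-(β / 2 * r)) ≤ 2 / β := by
    have h5 := Real.add_one_le_exp (β / 2 * r)
    have h6 : Real.exp (β / 2 * r) * Real.exp (-(β / 2 * r)) = 1 := by
      rw [← Real.exp_add]; simp
    have h7 := Real.exp_pos (-(β / 2 * r))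
    have h8 : β / 2 * r * Real.exp (-(β / 2 * r)) ≤ 1 := by nlinarith
    rw [le_div_iff₀ hβ]
    nlinarith
  have h9 : Real.exp (kap * r) ≤ Real.exp (β / 2 * r) :=
    Real.exp_le_exp.2 (mul_le_mul_of_nonneg_right hkap2 hr)
  have h10 : (Real.exp (kap * r) - 1) * Real.exp (-(β * r)) ≤ kap * (2 / β) := by
    calc (Real.exp (kap * r) - 1) * Real.exp (-(β * r))
        ≤ kap * r * Real.exp (kap * r) * Real.exp (-(β * r)) :=
          mul_le_mul_of_nonneg_right h1 (Real.exp_pos _).le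
      _ ≤ kap * r * Real.exp (β / 2 * r) * Real.exp (-(β * r)) := by gcongr
      _ = kap * (r * Real.exp (-(β / 2 * r))) := by
          rw [mul_assoc, ← Real.exp_add, mul_assoc]
          congr 3; ring
      _ ≤ kap * (2 / β) := mul_le_mul_of_nonneg_left h4 hkap
  have h11 : Real.exp (-(2 * β * r)) = Real.exp (-(β * r)) * Real.exp (-(β * r)) := by
    rw [← Real.exp_add]; congr 1; ring
  rw [h11]
  have h12 := Real.exp_pos (-(β * r))
  calc (Real.exp (kap * r) - 1) * (C0 * (Real.exp (-(β * r)) * Real.exp (-(β * r))))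
      = C0 * ((Real.exp (kap * r) - 1) * Real.exp (-(β * r))) * Real.exp (-(β * r)) := by ring
    _ ≤ C0 * (kap * (2 / β)) * Real.exp (-(β * r)) := by gcongr
    _ ≤ del * Real.exp (-(β * r)) := mul_le_mul_of_nonneg_right hdel h12.le

/-- **Energy moment**, fixed damping. -/
theorem energy_moment (hβ : 0 < β) (hT : 0 < T) (hΦ : AdmissiblePotential Φ)
    (hf : IsRegularKineticSolution Φ β T f₀ f) :
    ∃ kap lam C : ℝ, 0 < kap ∧ 1 < lam ∧ 0 ≤ C ∧ (∀ x v, kE T f kap x v ≤
      ENNReal.ofReal C * wG β v) ∧ ∀ t ∈ Icc 0 T, ∀ x v,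
      ∑' τ : CTree, ENNReal.ofReal lam ^ τ.size * F (kapQ Φ) (damp T f) (kE T f kap) τ t x v ≤
        ENNReal.ofReal C * wG (β / 2) v := by
  have S := Scat818.scatFacts hΦ
  obtain ⟨C0, hC0, hb⟩ := exists_bound hT hf
  have hβ2 : 0 < β / 2 := by positivity
  obtain ⟨lam, del, hlam, hdel, H⟩ := exp_moment_leaf (κ := kapQ Φ) (β := β / 2) (T := T)
    (C0 := C0) (C1 := C1G (β / 2)) (D := damp T f) (f := fE T f) hβ2 hT hC0 (C1G_nonneg _)
    (kernelBound_kapQ S hβ2) damp_le_one (meas4_damp hf) (meas3_fE hf)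
    (fun t _ x v => (hb t x v).trans (mul_le_mul' le_rfl (wG_anti (by linarith) v)))
    (isMild hβ hT hΦ hf)
  set kap : ℝ := min (β / 2) (del * β / (2 * (C0 + 1))) with hkap
  have hkap0 : 0 < kap := lt_min hβ2 (by positivity)
  have hkap2 : kap ≤ β / 2 := min_le_left _ _
  have hkd : C0 * (kap * (2 / β)) ≤ del := by
    have h1 : kap ≤ del * β / (2 * (C0 + 1)) := min_le_right _ _
    calc C0 * (kap * (2 / β)) ≤ C0 * (del * β / (2 * (C0 + 1)) * (2 / β)) := by gcongr
      _ = C0 / (C0 + 1) * del := by field_simp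
      _ ≤ 1 * del := by
          refine mul_le_mul_of_nonneg_right ?_ hdel.le
          rw [div_le_one (by linarith)]; linarith
      _ = del := one_mul _
  have hk : ∀ x v, kE T f kap x v ≤ fE T f 0 x v + ENNReal.ofReal del * wG (2 * (β / 2)) v := by
    intro x v
    unfold kE
    have h1 : ENNReal.ofReal (Real.exp (kap * ‖v‖ ^ 2)) =
        1 + ENNReal.ofReal (Real.exp (kap * ‖v‖ ^ 2) - 1) := by
      rw [← ENNReal.ofReal_one, ← ENNReal.ofReal_add zero_le_one]
      · congr 1; ring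
      · have := Real.one_le_exp (mul_nonneg hkap0.le (sq_nonneg ‖v‖))
        linarith
    rw [h1, add_mul, one_mul]
    refine add_le_add le_rfl ?_
    calc ENNReal.ofReal (Real.exp (kap * ‖v‖ ^ 2) - 1) * fE T f 0 x v
        ≤ ENNReal.ofReal (Real.exp (kap * ‖v‖ ^ 2) - 1) * (ENNReal.ofReal C0 * wG (2 * β) v) :=
          mul_le_mul' le_rfl (hb 0 x v)
      _ ≤ _ := by
          unfold wG
          rw [← ENNReal.ofReal_mul hC0, ← ENNReal.ofReal_mul hdel.le, ← ENNReal.ofReal_mul (by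
            have := Real.one_le_exp (mul_nonneg hkap0.le (sq_nonneg ‖v‖))
            linarith)]
          refine ENNReal.ofReal_le_ofReal ?_
          have := exp_perturb hβ hkap0.le hkap2 hC0 hkd (sq_nonneg ‖v‖)
          rw [show 2 * (β / 2) = β by ring]
          exact this
  refine ⟨kap, lam, C0 + 1 + del, hkap0, hlam, by positivity, fun x v => ?_, fun t ht x v => ?_⟩
  · refine (hk x v).trans ?_
    rw [show 2 * (β / 2) = β by ring]
    calc fE T f 0 x v + ENNReal.ofReal del * wG β v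
        ≤ ENNReal.ofReal C0 * wG β v + ENNReal.ofReal del * wG β v :=
          add_le_add ((hb 0 x v).trans (mul_le_mul' le_rfl (wG_anti (by linarith) v))) le_rfl
      _ = ENNReal.ofReal (C0 + del) * wG β v := by
          rw [← add_mul, ← ENNReal.ofReal_add hC0 hdel.le]
      _ ≤ _ := mul_le_mul' (ENNReal.ofReal_le_ofReal (by linarith)) le_rfl
  · exact (H (kE T f kap) (meas_kE hf kap) hk t ht x v).trans
      (mul_le_mul' (ENNReal.ofReal_le_ofReal (by linarith)) le_rfl)

/-- **Energy moment in a window**: damping restricted to `[0, tw]`, times up to `tw + h₀`. -/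
theorem energy_window_moment (hβ : 0 < β) (hT : 0 < T) (hΦ : AdmissiblePotential Φ)
    (hf : IsRegularKineticSolution Φ β T f₀ f) :
    ∃ h₀ kap lam C : ℝ, 0 < h₀ ∧ 0 < kap ∧ 1 < lam ∧ 0 ≤ C ∧
      (∀ x v, kE T f kap x v ≤ ENNReal.ofReal C * wG β v) ∧
      ∀ tw ∈ Icc 0 T, ∀ t ∈ Icc 0 (tw + h₀), ∀ x v,
      ∑' τ : CTree, ENNReal.ofReal lam ^ τ.size *
        F (kapQ Φ) (Dwin (damp T f) tw) (kE T f kap) τ t x v ≤ ENNReal.ofReal C * wG (β / 4) v := by
  have S := Scat818.scatFacts hΦ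
  obtain ⟨kap, lam, C, hkap, hlam, hC, hk, H⟩ := energy_moment hβ hT hΦ hf
  have hβ4 : 0 < β / 4 := by positivity
  obtain ⟨h₀, hh₀, H2⟩ := exists_window_moment (κ := kapQ Φ) (β := β / 4) (C0 := C)
    (C1 := C1G (β / 4)) hβ4 hC (C1G_nonneg _) (kernelBound_kapQ S hβ4) (lam := lam) (by linarith)
  refine ⟨h₀, kap, lam, 6 * C, hh₀, hkap, hlam, by positivity, fun x v => ?_,
    fun tw htw t ht x v => ?_⟩
  · exact (hk x v).trans (mul_le_mul' (ENNReal.ofReal_le_ofReal (by linarith)) le_rfl)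
  · refine H2 damp_le_one (meas4_damp hf) (meas_kE hf kap) (fun t ht x v => ?_) tw htw t ht x v
    rw [show 2 * (β / 4) = β / 2 by ring]
    exact H t ht x v

/-- **Energy moment without damping on the straight line of the root.** -/
theorem energy_straight_moment (hβ : 0 < β) (hT : 0 < T) (hΦ : AdmissiblePotential Φ)
    (hf : IsRegularKineticSolution Φ β T f₀ f) :
    ∃ h₀ kap lam C : ℝ, 0 < h₀ ∧ 0 < kap ∧ 1 < lam ∧ 0 ≤ C ∧
      ∀ tw ∈ Icc 0 T, ∀ t ∈ Icc 0 (tw + h₀), ∀ x v,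
      ∑' τ : CTree, ENNReal.ofReal lam ^ τ.size *
        FS (kapQ Φ) (Dwin (damp T f) tw) (kE T f kap) τ t x v ≤ ENNReal.ofReal C * wG (β / 8) v := by
  have S := Scat818.scatFacts hΦ
  obtain ⟨h₀, kap, lam, C, hh₀, hkap, hlam, hC, hk, H⟩ := energy_window_moment hβ hT hΦ hf
  have hβ4 : 0 < β / 4 := by positivity
  have hlam0 : 0 ≤ lam := by linarith
  set C2 : ℝ := (CG (β / 4)).toReal with hC2
  have hC20 : 0 ≤ C2 := ENNReal.toReal_nonneg
  have hCG : CG (β / 4) = ENNReal.ofReal C2 := (ENNReal.ofReal_toReal (CG_lt_top hβ4).ne).symm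
  set T' : ℝ := T + h₀ with hT'
  have hT'0 : 0 ≤ T' := by positivity
  set M : ℝ := T' * (lam * (C ^ 2 * C1G (β / 4))) with hM
  have hM0 : 0 ≤ M := by have := C1G_nonneg (β / 4); positivity
  set a : ℝ := 2 * lam * C * C2 * T' with ha
  have ha0 : 0 ≤ a := by positivity
  refine ⟨h₀, kap, lam, (C + M) * Real.exp (a + (1 + a) ^ 2 / (2 * (β / 4))), hh₀, hkap, hlam,
    by positivity, fun tw htw t ht x v => ?_⟩
  have ht' : t ∈ Icc 0 (tw + h₀) := ht
  have hsum : ∀ n : ℕ, ∑ τ ∈ CTree.lt n, ENNReal.ofReal lam ^ τ.size *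
      FS (kapQ Φ) (Dwin (damp T f) tw) (kE T f kap) τ t x v ≤
      ENNReal.ofReal (sA (β / 4) C C (C1G (β / 4)) lam (tw + h₀) v *
        Real.exp (sa C C2 lam v * t)) := by
    intro n
    refine FS_sum_le (κ := kapQ Φ) (T := tw + h₀) hC hC (C1G_nonneg _) hC20 hlam0
      (by linarith [htw.1]) ?_ ?_ ?_ (kapQ_diag S) (fun t ht x v => H tw htw t ht x v) ?_ n t ht' x v
    · exact fun v => kernelBound_kapQ S hβ4 (β / 4) ⟨le_rfl, by linarith⟩ v
    · intro v
      refine (kapQ_fst_le S (β / 4) v).trans (le_of_eq ?_)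
      rw [hCG, ENNReal.ofReal_mul hC20]
    · intro v
      refine (kapQ_snd_le S (β / 4) v).trans (le_of_eq ?_)
      rw [hCG, ENNReal.ofReal_mul hC20]
    · intro x v
      exact (hk x v).trans (mul_le_mul' le_rfl (wG_anti (by linarith) v))
  rw [ENNReal.tsum_eq_iSup_sum' CTree.lt CTree.exists_subset_lt]
  refine iSup_le fun n => (hsum n).trans ?_
  unfold wG
  rw [← ENNReal.ofReal_mul (by positivity)]
  refine ENNReal.ofReal_le_ofReal ?_
  have hv := norm_nonneg v
  have h1 : sA (β / 4) C C (C1G (β / 4)) lam (tw + h₀) v ≤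
      C * Real.exp (-(β / 4 * ‖v‖ ^ 2)) + M * ((1 + ‖v‖) * Real.exp (-(β / 4 * ‖v‖ ^ 2))) := by
    unfold sA
    have h2 : (tw + h₀) * (lam * (C ^ 2 * (C1G (β / 4) * ((1 + ‖v‖) *
        Real.exp (-(β / 4 * ‖v‖ ^ 2)))))) ≤
        T' * (lam * (C ^ 2 * (C1G (β / 4) * ((1 + ‖v‖) * Real.exp (-(β / 4 * ‖v‖ ^ 2)))))) := by
      refine mul_le_mul_of_nonneg_right (by linarith [htw.2]) ?_
      have := C1G_nonneg (β / 4)
      positivity
    have h3 : T' * (lam * (C ^ 2 * (C1G (β / 4) * ((1 + ‖v‖) * Real.exp (-(β / 4 * ‖v‖ ^ 2)))))) =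
        M * ((1 + ‖v‖) * Real.exp (-(β / 4 * ‖v‖ ^ 2))) := by rw [hM]; ring
    linarith
  have h4 : Real.exp (sa C C2 lam v * t) ≤ Real.exp (a * (1 + ‖v‖)) := by
    refine Real.exp_le_exp.2 ?_
    have h5 : t ≤ T' := ht.2.trans (by linarith [htw.2])
    have h6 : sa C C2 lam v * t ≤ sa C C2 lam v * T' :=
      mul_le_mul_of_nonneg_left h5 (sa_nonneg hC hC20 hlam0 v)
    refine h6.trans (le_of_eq ?_)
    unfold sa
    rw [ha]; ring
  refine (mul_le_mul h1 h4 (Real.exp_pos _).le (by positivity)).trans ?_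
  refine (absorb hβ4 hC hM0 ha0 hv).trans (le_of_eq ?_)
  rw [show β / 4 / 2 = β / 8 by ring]

end concrete

end Crest.Agent.R122.Kin796
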