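import Crest.Agent.R122.BoltzL1c_814
import Crest.Agent.R122.BoltzEn2_814

/-!
Row 122 (helper263): `x`-integrated (`L¹`) energy moments, part 1.

* `gronwall_sing` : the singular Gronwall induction.
* `phI_duh` : one Duhamel step in weighted `L¹`.
* `L1_P` : `L¹` exponential moment of the Picard iterates for a general damping `D ≤ 1` and a
  general datum.
* `L1_FS` : the same for the finite sums of `FS` (no damping on the straight line of the root).
-/

set_option autoImplicit false
set_option linter.unusedSectionVars false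
set_option maxHeartbeats 1000000

open MeasureTheory ProbabilityTheory Set
open Crest.AnalysisR.Kinetic
open Crest.Agent.R122.Boltz814 Crest.Agent.R122.Kin416 Crest.Agent.R122.Kin796
  Crest.Agent.R122.Disc416 Crest.Agent.R122.Seg814
open scoped Classical ENNReal

noncomputable section

namespace Crest.Agent.R122.KinL1

variable {Φ : Space3 → ℝ}

/-- the singular Gronwall induction -/
theorem gronwall_sing {A0 : ℝ≥0∞} {CB lb μ T1 : ℝ} (hμ : 0 < μ)
    (hker : ∫⁻ u in Ioi (0 : ℝ), ENNReal.ofReal (CB * (1 + 1 / Real.sqrt (lb * u)) *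
      Real.exp (-μ * u)) ≤ ENNReal.ofReal (1 / 2)) (hCB : 0 ≤ CB)
    {φ : ℕ → ℝ → ℝ≥0∞} (h0 : ∀ t ∈ Icc 0 T1, φ 0 t = 0)
    (hs : ∀ n, ∀ t ∈ Icc 0 T1, φ (n + 1) t ≤ A0 + ∫⁻ s in Ioo 0 t,
      ENNReal.ofReal (CB * (1 + 1 / Real.sqrt (lb * (t - s)))) * φ n s) (hA0 : A0 ≠ ∞) :
    ∀ n, ∀ t ∈ Icc 0 T1, φ n t ≤ ENNReal.ofReal (Real.exp (μ * t)) * (2 * A0) := by
  intro n
  induction n with
  | zero => intro t ht; rw [h0 t ht]; exact bot_le
  | succ n ih =>
    intro t ht
    have h8 : (1 : ℝ≥0∞) ≤ ENNReal.ofReal (Real.exp (μ * t)) := by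
      rw [← ENNReal.ofReal_one]
      exact ENNReal.ofReal_le_ofReal (Real.one_le_exp (mul_nonneg hμ.le ht.1))
    have h7 : ∫⁻ s in Ioo 0 t, ENNReal.ofReal (CB * (1 + 1 / Real.sqrt (lb * (t - s)))) * φ n s ≤
        ENNReal.ofReal (Real.exp (μ * t)) * A0 := by
      calc ∫⁻ s in Ioo 0 t, ENNReal.ofReal (CB * (1 + 1 / Real.sqrt (lb * (t - s)))) * φ n s
          ≤ ∫⁻ s in Ioo 0 t, ENNReal.ofReal (CB * (1 + 1 / Real.sqrt (lb * (t - s))) *
              Real.exp (μ * s)) * (2 * A0) := by
            refine setLIntegral_mono' measurableSet_Ioo fun s hs => ?_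
            have hs' : s ∈ Icc 0 T1 := ⟨hs.1.le, hs.2.le.trans ht.2⟩
            refine (mul_le_mul' le_rfl (ih s hs')).trans (le_of_eq ?_)
            rw [← mul_assoc, ← ENNReal.ofReal_mul (by positivity)]
        _ ≤ ∫⁻ s in Ioc 0 t, ENNReal.ofReal (CB * (1 + 1 / Real.sqrt (lb * (t - s))) *
              Real.exp (μ * s)) * (2 * A0) := lintegral_mono_set Ioo_subset_Ioc_self
        _ = (∫⁻ s in Ioc 0 t, ENNReal.ofReal (CB * (1 + 1 / Real.sqrt (lb * (t - s))) *
              Real.exp (μ * s))) * (2 * A0) :=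
              lintegral_mul_const' _ _ (ENNReal.mul_ne_top (by simp) hA0)
        _ ≤ (ENNReal.ofReal (Real.exp (μ * t)) * ENNReal.ofReal (1 / 2)) * (2 * A0) :=
              mul_le_mul' (lintegral_singular_le hker t) le_rfl
        _ = ENNReal.ofReal (Real.exp (μ * t)) * (ENNReal.ofReal (1 / 2) * 2) * A0 := by ring
        _ = ENNReal.ofReal (Real.exp (μ * t)) * A0 := by
              have : ENNReal.ofReal (1 / 2) * 2 = 1 := by
                rw [show (2 : ℝ≥0∞) = ENNReal.ofReal 2 by simp, ← ENNReal.ofReal_mul (by norm_num)]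
                norm_num
              rw [this, mul_one]
    calc φ (n + 1) t ≤ A0 + ENNReal.ofReal (Real.exp (μ * t)) * A0 :=
          (hs n t ht).trans (add_le_add le_rfl h7)
      _ ≤ ENNReal.ofReal (Real.exp (μ * t)) * A0 + ENNReal.ofReal (Real.exp (μ * t)) * A0 := by
          gcongr
          calc A0 = 1 * A0 := (one_mul _).symm
            _ ≤ _ := mul_le_mul' h8 le_rfl
      _ = _ := by ring

/-- one Duhamel step in weighted `L¹` -/
theorem phI_duh {W : Space3 → Space3 → ℝ≥0∞} {g0 : Space3 → Space3 → ℝ≥0∞}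
    {R : ℝ → Space3 → Space3 → ℝ≥0∞} {w : Space3 → ℝ≥0∞} (hw : Measurable w)
    (hg : Measurable fun p : Space3 × Space3 => g0 p.1 p.2) (hR : Meas3 R) (t : ℝ)
    (hW : ∀ x v, W x v ≤ g0 (x - t • v) v + ∫⁻ s in Ioc 0 t, R s (x - (t - s) • v) v) :
    phI (fun x v => w v * W x v) ≤ phI (fun x v => w v * g0 x v) +
      ∫⁻ s in Ioo 0 t, phI (fun x v => w v * R s x v) := by
  have hpt : ∀ x v, w v * W x v ≤ w v * g0 (x - t • v) v +
      ∫⁻ s in Ioc 0 t, w v * R s (x - (t - s) • v) v := by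
    intro x v
    have hm1 : Measurable fun s => R s (x - (t - s) • v) v := by
      have hm : Measurable fun s : ℝ => (s, x - (t - s) • v, v) := by fun_prop
      exact Measurable.comp hR hm
    rw [lintegral_const_mul _ hm1, ← mul_add]
    exact mul_le_mul' le_rfl (hW x v)
  refine (phI_mono hpt).trans ?_
  have hf0m : Measurable (Function.uncurry fun x v : Space3 => w v * g0 x v) :=
    (hw.comp measurable_snd).mul hg
  have hf0m' : Measurable (Function.uncurry fun x v : Space3 => w v * g0 (x - t • v) v) := by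
    have hm : Measurable fun p : Space3 × Space3 => (p.1 - t • p.2, p.2) := by fun_prop
    exact hf0m.comp hm
  rw [phI_add hf0m', phI_transport (G := fun x v => w v * g0 x v) hf0m]
  refine add_le_add le_rfl ?_
  have ha : Measurable fun p : ℝ × Space3 × Space3 => w p.2.2 *
      R p.1 (p.2.1 - (t - p.1) • p.2.2) p.2.2 := by
    refine Measurable.mul (hw.comp (by fun_prop)) ?_
    have hm : Measurable fun p : ℝ × Space3 × Space3 =>
      (p.1, p.2.1 - (t - p.1) • p.2.2, p.2.2) := by fun_prop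
    have h2 := Measurable.comp hR hm
    exact h2
  rw [phI_time (a := fun s x v => w v * R s (x - (t - s) • v) v) _ ha,
    setLIntegral_congr Ioo_ae_eq_Ioc.symm]
  refine lintegral_mono fun s => ?_
  have hG : Measurable (Function.uncurry fun x v : Space3 => w v * R s x v) := by
    refine (hw.comp measurable_snd).mul ?_
    exact meas3_uncurry hR s
  exact le_of_eq (phI_transport (G := fun x v => w v * R s x v) hG (t - s))

/-- weight exchange -/
theorem weight_exchange {b T1 : ℝ} (hb : 0 < b) (hT1 : 0 < T1) {s t : ℝ} (hst : s < t)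
    (v : Space3) : ENNReal.ofReal (1 + ‖v‖) * gau (-(gam b T1 t)) v ≤
      ENNReal.ofReal (1 + 1 / Real.sqrt (b / (4 * T1) * (t - s))) * gau (-(gam b T1 s)) v := by
  have hlb0 : 0 < b / (4 * T1) := by positivity
  have h5 : gau (-(gam b T1 t)) v = gau (b / (4 * T1) * (t - s)) v * gau (-(gam b T1 s)) v := by
    rw [← gau_add]; congr 1; unfold gam; ring
  rw [h5, ← mul_assoc]
  refine mul_le_mul' ?_ le_rfl
  unfold gau
  rw [← ENNReal.ofReal_mul (by positivity)]
  refine ENNReal.ofReal_le_ofReal ?_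
  exact one_add_mul_exp_le hlb0 (by linarith)

/-- one gain step in weighted `L¹` -/
theorem gain_le (hΦ : AdmissiblePotential Φ) {b A T1 : ℝ} (hb : 0 < b) (hT1 : 0 < T1)
    {s t : ℝ} (hs0 : 0 ≤ s) (hst : s < t) (htT : t ≤ T1)
    {h : Space3 → Space3 → ℝ≥0∞} (hm : Measurable fun p : Space3 × Space3 => h p.1 p.2)
    (hA : ∀ x v, h x v ≤ ENNReal.ofReal A * gau b v) :
    phI (fun x v => gau (-(gam b T1 t)) v * Q (kapQ Φ) (h x) (h x) v) ≤
      (ENNReal.ofReal A * CG (b / 2) *
        ENNReal.ofReal (1 + 1 / Real.sqrt (b / (4 * T1) * (t - s)))) *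
        phI (fun x v => gau (-(gam b T1 s)) v * h x v) := by
  have hS := Scat818.scatFacts hΦ
  have hgt := gam_mem hb hT1 (t := t) ⟨hs0.trans hst.le, htT⟩
  have hgt0 : 0 ≤ gam b T1 t := le_trans (by positivity) hgt.1
  have h3 : ∀ x, ∫⁻ v, gau (-(gam b T1 t)) v * Q (kapQ Φ) (h x) (h x) v ≤
      ∫⁻ v, (ENNReal.ofReal A * CG (b / 2) *
        ENNReal.ofReal (1 + 1 / Real.sqrt (b / (4 * T1) * (t - s)))) *
          (gau (-(gam b T1 s)) v * h x v) := by
    intro x
    have hslice : Measurable (h x) := hm.comp measurable_prodMk_left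
    have hQe : ∀ v, Q (kapQ Φ) (h x) (h x) v = Qp Φ (h x) (h x) v := fun v =>
      Q_kapQ hS hslice hslice v
    simp_rw [hQe]
    refine (lintegral_gau_mul_Qp_le' hΦ (δ := b / 2) hgt0 hslice hslice
      (A := ENNReal.ofReal A) ?_).trans ?_
    · intro w
      refine (hA x w).trans (mul_le_mul' le_rfl (gau_antitone ?_ w))
      linarith [hgt.2]
    · refine lintegral_mono fun v => ?_
      have h4 := weight_exchange hb hT1 hst v
      calc ENNReal.ofReal A * CG (b / 2) * ENNReal.ofReal (1 + ‖v‖) *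
            (gau (-(gam b T1 t)) v * h x v)
          = ENNReal.ofReal A * CG (b / 2) * (ENNReal.ofReal (1 + ‖v‖) *
            gau (-(gam b T1 t)) v) * h x v := by ring
        _ ≤ ENNReal.ofReal A * CG (b / 2) *
            (ENNReal.ofReal (1 + 1 / Real.sqrt (b / (4 * T1) * (t - s))) *
              gau (-(gam b T1 s)) v) * h x v := by gcongr
        _ = _ := by ring
  have hm' : Measurable (Function.uncurry fun x v : Space3 => gau (-(gam b T1 s)) v * h x v) :=
    ((measurable_gau _).comp measurable_snd).mul hm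
  rw [← phI_const_mul hm']
  exact lintegral_mono h3

/-- `L¹` exponential moment of the Picard iterates. The constant `μ` only depends on
`lam, A, b, T1`. -/
theorem L1_P (hΦ : AdmissiblePotential Φ) {lam A b T1 : ℝ} (hlam : 0 ≤ lam) (hA0 : 0 ≤ A)
    (hb : 0 < b) (hT1 : 0 < T1) {μ : ℝ} (hμ : 0 < μ)
    (hker : ∫⁻ u in Ioi (0 : ℝ), ENNReal.ofReal (lam * A * (CG (b / 2)).toReal *
      (1 + 1 / Real.sqrt (b / (4 * T1) * u)) * Real.exp (-μ * u)) ≤ ENNReal.ofReal (1 / 2))
    {D : ℝ → ℝ → Space3 → Space3 → ℝ≥0∞} (hD : Meas4 D) (hD1 : ∀ s t x v, D s t x v ≤ 1)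
    {f0 : Space3 → Space3 → ℝ≥0∞} (hf0 : Measurable fun p : Space3 × Space3 => f0 p.1 p.2)
    {T2 : ℝ} (hT2 : T2 ≤ T1)
    (hsup : ∀ n, ∀ t ∈ Icc 0 T2, ∀ x v, P (kapQ Φ) D f0 (ENNReal.ofReal lam) n t x v ≤
      ENNReal.ofReal A * gau b v)
    (hini : phI (fun x v => gau (-(b / 2)) v * f0 x v) ≠ ∞) (n : ℕ) {t : ℝ} (ht : t ∈ Icc 0 T2) :
    phI (fun x v => gau (-(gam b T1 t)) v * P (kapQ Φ) D f0 (ENNReal.ofReal lam) n t x v) ≤
      ENNReal.ofReal (Real.exp (μ * t)) *
        (2 * phI (fun x v => gau (-(b / 2)) v * f0 x v)) := by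
  refine gronwall_sing (φ := fun n t => phI (fun x v => gau (-(gam b T1 t)) v *
    P (kapQ Φ) D f0 (ENNReal.ofReal lam) n t x v)) hμ hker (by positivity) (T1 := T2) ?_ ?_ hini
    n t ht
  · intro t ht
    show phI _ = 0
    unfold phI P; simp
  · intro n t ht
    have htT : t ∈ Icc 0 T1 := ⟨ht.1, ht.2.trans hT2⟩
    have hgt := gam_mem hb hT1 htT
    set Pn := P (kapQ Φ) D f0 (ENNReal.ofReal lam) n with hPn
    have hPm : Meas3 Pn := meas_P (kapQ Φ) hD hf0 _ n
    have hRm : Meas3 fun s x v => ENNReal.ofReal lam * Q (kapQ Φ) (Pn s x) (Pn s x) v :=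
      meas_mul3 measurable_const (meas_Q _ hPm hPm)
    refine (phI_duh (g0 := f0) (R := fun s x v => ENNReal.ofReal lam *
      Q (kapQ Φ) (Pn s x) (Pn s x) v) (measurable_gau _) hf0 hRm t ?_).trans ?_
    · intro x v
      have hstep : P (kapQ Φ) D f0 (ENNReal.ofReal lam) (n + 1) t x v =
        D 0 t x v * f0 (x - t • v) v + ∫⁻ s in Ioc 0 t, D s t x v *
          (ENNReal.ofReal lam * Q (kapQ Φ) (Pn s (x - (t - s) • v)) (Pn s (x - (t - s) • v)) v) :=
        rfl
      rw [hstep]
      refine add_le_add ?_ (lintegral_mono fun s => ?_)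
      · calc D 0 t x v * f0 (x - t • v) v ≤ 1 * f0 (x - t • v) v := mul_le_mul' (hD1 _ _ _ _) le_rfl
          _ = _ := one_mul _
      · calc D s t x v * (ENNReal.ofReal lam * Q (kapQ Φ) (Pn s (x - (t - s) • v))
              (Pn s (x - (t - s) • v)) v)
            ≤ 1 * (ENNReal.ofReal lam * Q (kapQ Φ) (Pn s (x - (t - s) • v))
              (Pn s (x - (t - s) • v)) v) := mul_le_mul' (hD1 _ _ _ _) le_rfl
          _ = _ := one_mul _
    · refine add_le_add ?_ (setLIntegral_mono' measurableSet_Ioo fun s hs => ?_)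
      · refine phI_mono fun x v => mul_le_mul' (gau_antitone ?_ v) le_rfl
        linarith [hgt.2]
      · have hs' : s ∈ Icc 0 T2 := ⟨hs.1.le, hs.2.le.trans ht.2⟩
        have hsl : Measurable fun p : Space3 × Space3 => Pn s p.1 p.2 := meas3_uncurry hPm s
        have hQm : Measurable (Function.uncurry fun x v : Space3 => gau (-(gam b T1 t)) v *
            Q (kapQ Φ) (Pn s x) (Pn s x) v) :=
          ((measurable_gau _).comp measurable_snd).mul (meas3_uncurry (meas_Q _ hPm hPm) s)
        have e1 : phI (fun x v => gau (-(gam b T1 t)) v * (ENNReal.ofReal lam *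
            Q (kapQ Φ) (Pn s x) (Pn s x) v)) = ENNReal.ofReal lam *
            phI (fun x v => gau (-(gam b T1 t)) v * Q (kapQ Φ) (Pn s x) (Pn s x) v) := by
          rw [← phI_const_mul hQm]
          congr 1
          funext x v
          ring
        rw [e1]
        have hCGt : CG (b / 2) = ENNReal.ofReal (CG (b / 2)).toReal :=
          (ENNReal.ofReal_toReal (CG_lt_top (by positivity)).ne).symm
        have h6 := gain_le hΦ hb hT1 hs.1.le hs.2 htT.2 hsl (fun x v => hsup n s hs' x v)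
        refine (mul_le_mul' le_rfl h6).trans (le_of_eq ?_)
        rw [← mul_assoc]
        congr 1
        rw [hCGt, ← ENNReal.ofReal_mul (by positivity), ← ENNReal.ofReal_mul (by positivity),
          ← ENNReal.ofReal_mul (by positivity)]
        congr 1
        simp only [ENNReal.toReal_ofReal ENNReal.toReal_nonneg]
        ring

end Crest.Agent.R122.KinL1
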