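import Crest.Agent.R122.KinL1a_263

/-!
Row 122 (helper263): `x`-integrated (`L¹`) energy moments, part 2: `FS` (no damping on the
straight line of the root).
-/

set_option autoImplicit false
set_option linter.unusedSectionVars false
set_option maxHeartbeats 1000000

open MeasureTheory ProbabilityTheory Set
open Crest.AnalysisR.Kinetic
open Crest.Agent.R122.Boltz814 Crest.Agent.R122.Kin416 Crest.Agent.R122.Kin796
  Crest.Agent.R122.Disc416 Crest.Agent.R122.Seg814
open scoped Classical ENNReal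

noncomputable section

namespace Crest.Agent.R122.KinL1

open Kin796.CTree

section step

variable {E : Type*} [NormedAddCommGroup E] [NormedSpace ℝ E] [MeasurableSpace E] [BorelSpace E]
  [SecondCountableTopology E]

/-- finite sums of `FS` -/
def SFn (κ : Kernel E (E × E)) (D : ℝ → ℝ → E → E → ℝ≥0∞) (f0 : E → E → ℝ≥0∞) (L : ℝ≥0∞)
    (n : ℕ) (t : ℝ) (x v : E) : ℝ≥0∞ := ∑ τ ∈ CTree.lt n, L ^ τ.size * FS κ D f0 τ t x v

theorem SFn_zero (κ : Kernel E (E × E)) (D : ℝ → ℝ → E → E → ℝ≥0∞) (f0 : E → E → ℝ≥0∞)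
    (L : ℝ≥0∞) (t : ℝ) (x v : E) : SFn κ D f0 L 0 t x v = 0 := by
  simp [SFn, CTree.lt]

theorem meas_SFn {κ : Kernel E (E × E)} [IsSFiniteKernel κ] {D : ℝ → ℝ → E → E → ℝ≥0∞}
    {f0 : E → E → ℝ≥0∞} (hD : Meas4 D) (hf : Measurable fun p : E × E => f0 p.1 p.2)
    (L : ℝ≥0∞) (n : ℕ) : Meas3 (SFn κ D f0 L n) := by
  have h1 : ∀ τ : CTree, Measurable fun p : ℝ × E × E =>
      L ^ τ.size * FS κ D f0 τ p.1 p.2.1 p.2.2 := fun τ =>
    Measurable.const_mul (f := fun p : ℝ × E × E => FS κ D f0 τ p.1 p.2.1 p.2.2)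
      (meas_FS hD hf τ) _
  have h2 : Measurable fun p : ℝ × E × E => ∑ τ ∈ CTree.lt n,
      L ^ τ.size * FS κ D f0 τ p.1 p.2.1 p.2.2 := Finset.measurable_fun_sum _ fun τ _ => h1 τ
  exact h2

variable {κ : Kernel E (E × E)} {D : ℝ → ℝ → E → E → ℝ≥0∞} {f0 : E → E → ℝ≥0∞}
  {γ C C2 T : ℝ}

/-- Recursive inequality of the finite sums of `FS`; `H` is a majorant of the full series of
`F`. -/
theorem SFn_succ_le (hC : 0 ≤ C) (hC2 : 0 ≤ C2) {L : ℝ≥0∞} (hL : L ≠ ∞)
    (hS1 : ∀ v, ∫⁻ p in {p : E × E | p.1 = v}, wG γ p.2 ∂(κ v) ≤ ENNReal.ofReal (C2 * (1 + ‖v‖)))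
    (hS2 : ∀ v, ∫⁻ p in {p : E × E | p.2 = v}, wG γ p.1 ∂(κ v) ≤ ENNReal.ofReal (C2 * (1 + ‖v‖)))
    (hS3 : ∀ v, κ v {p : E × E | p.1 = v ∧ p.2 = v} = 0)
    {H : ℝ → E → E → ℝ≥0∞} (hHm : Meas3 H)
    (hPH : ∀ t ∈ Icc 0 T, ∀ x v, ∑' τ : CTree, L ^ τ.size * F κ D f0 τ t x v ≤ H t x v)
    (hH : ∀ t ∈ Icc 0 T, ∀ x v, H t x v ≤ ENNReal.ofReal C * wG γ v) (n : ℕ)
    {t : ℝ} (ht : t ∈ Icc 0 T) (x v : E) :
    SFn κ D f0 L (n + 1) t x v ≤ f0 (x - t • v) v + ∫⁻ s in Ioc 0 t,
      L * (Q κ (H s (x - (t - s) • v)) (H s (x - (t - s) • v)) v +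
        ENNReal.ofReal (2 * C * C2 * (1 + ‖v‖)) * SFn κ D f0 L n s (x - (t - s) • v) v) := by
  unfold SFn
  have hnot : leaf ∉ ((CTree.lt n ×ˢ CTree.lt n).image fun p => node p.1 p.2) := by simp
  have hinj : Set.InjOn (fun p : CTree × CTree => node p.1 p.2)
      (CTree.lt n ×ˢ CTree.lt n : Finset (CTree × CTree)) := by
    intro p _ q _ h
    simp only [node.injEq] at h
    exact Prod.ext h.1 h.2
  rw [CTree.lt, Finset.sum_insert hnot, Finset.sum_image hinj]
  -- the two factors
  set a : CTree → ℝ → E × E → ℝ≥0∞ := fun l s p =>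
    if p.1 = v then FS κ D f0 l s (x - (t - s) • v) p.1
      else F κ D f0 l s (x - (t - s) • v) p.1 with ha
  set b : CTree → ℝ → E × E → ℝ≥0∞ := fun r s p =>
    if p.2 = v then FS κ D f0 r s (x - (t - s) • v) p.2
      else F κ D f0 r s (x - (t - s) • v) p.2 with hb
  set B : ℝ → ℝ≥0∞ := fun s =>
    ∑ τ ∈ CTree.lt n, L ^ τ.size * FS κ D f0 τ s (x - (t - s) • v) v with hB
  have hasum : ∀ s ∈ Ioc 0 t, ∀ p : E × E, ∑ l ∈ CTree.lt n, L ^ l.size * a l s p ≤
      if p.1 = v then B s else H s (x - (t - s) • v) p.1 := by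
    intro s hs p
    have hs' : s ∈ Icc 0 T := ⟨hs.1.le, hs.2.trans ht.2⟩
    by_cases h : p.1 = v
    · simp only [ha, h, if_true]
      exact le_rfl
    · simp only [ha, h, if_false]
      exact (ENNReal.sum_le_tsum _).trans (hPH s hs' _ _)
  have hbsum : ∀ s ∈ Ioc 0 t, ∀ p : E × E, ∑ r ∈ CTree.lt n, L ^ r.size * b r s p ≤
      if p.2 = v then B s else H s (x - (t - s) • v) p.2 := by
    intro s hs p
    have hs' : s ∈ Icc 0 T := ⟨hs.1.le, hs.2.trans ht.2⟩
    by_cases h : p.2 = v
    · simp only [hb, h, if_true]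
      exact le_rfl
    · simp only [hb, h, if_false]
      exact (ENNReal.sum_le_tsum _).trans (hPH s hs' _ _)
  -- kernel integral of the product
  have hprod : ∀ s ∈ Ioc 0 t, ∫⁻ p, (∑ l ∈ CTree.lt n, L ^ l.size * a l s p) *
      (∑ r ∈ CTree.lt n, L ^ r.size * b r s p) ∂(κ v) ≤
      Q κ (H s (x - (t - s) • v)) (H s (x - (t - s) • v)) v +
        ENNReal.ofReal (2 * C * C2 * (1 + ‖v‖)) * B s := by
    intro s hs
    have hs' : s ∈ Icc 0 T := ⟨hs.1.le, hs.2.trans ht.2⟩
    have hae : ∀ᵐ p ∂(κ v), ¬ (p.1 = v ∧ p.2 = v) := by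
      rw [ae_iff]
      simpa using hS3 v
    have hm1 : MeasurableSet {p : E × E | p.1 = v} :=
      measurableSet_eq_fun measurable_fst measurable_const
    have hm2 : MeasurableSet {p : E × E | p.2 = v} :=
      measurableSet_eq_fun measurable_snd measurable_const
    have hw1 : Measurable fun p : E × E => wG γ p.1 := (meas_wG γ).comp measurable_fst
    have hw2 : Measurable fun p : E × E => wG γ p.2 := (meas_wG γ).comp measurable_snd
    have hsl : Measurable (H s (x - (t - s) • v)) := by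
      have hm : Measurable fun u : E => ((s, x - (t - s) • v, u) : ℝ × E × E) := by fun_prop
      have h2 := Measurable.comp hHm hm
      exact h2
    calc ∫⁻ p, (∑ l ∈ CTree.lt n, L ^ l.size * a l s p) *
          (∑ r ∈ CTree.lt n, L ^ r.size * b r s p) ∂(κ v)
        ≤ ∫⁻ p, (H s (x - (t - s) • v) p.1 * H s (x - (t - s) • v) p.2 +
            (B s * ENNReal.ofReal C * ({p : E × E | p.1 = v}.indicator (fun p => wG γ p.2) p) +
            B s * ENNReal.ofReal C * ({p : E × E | p.2 = v}.indicator (fun p => wG γ p.1) p)))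
            ∂(κ v) := by
          refine lintegral_mono_ae ?_
          filter_upwards [hae] with p hp
          refine (mul_le_mul' (hasum s hs p) (hbsum s hs p)).trans ?_
          by_cases h1 : p.1 = v
          · have h2 : ¬ p.2 = v := fun h => hp ⟨h1, h⟩
            rw [if_pos h1, if_neg h2, indicator_of_mem (show p ∈ {p : E × E | p.1 = v} from h1),
              indicator_of_notMem (show p ∉ {p : E × E | p.2 = v} from h2), mul_zero, add_zero]
            refine le_trans ?_ le_add_self
            rw [mul_assoc]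
            exact mul_le_mul' le_rfl (hH s hs' _ _)
          · rw [if_neg h1, indicator_of_notMem (show p ∉ {p : E × E | p.1 = v} from h1),
              mul_zero, zero_add]
            by_cases h2 : p.2 = v
            · rw [if_pos h2, indicator_of_mem (show p ∈ {p : E × E | p.2 = v} from h2)]
              refine le_trans ?_ le_add_self
              rw [mul_comm, mul_assoc]
              exact mul_le_mul' le_rfl (hH s hs' _ _)
            · rw [if_neg h2, indicator_of_notMem (show p ∉ {p : E × E | p.2 = v} from h2),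
                mul_zero, add_zero]
      _ = Q κ (H s (x - (t - s) • v)) (H s (x - (t - s) • v)) v +
            (B s * ENNReal.ofReal C * ∫⁻ p in {p : E × E | p.1 = v}, wG γ p.2 ∂(κ v) +
            B s * ENNReal.ofReal C * ∫⁻ p in {p : E × E | p.2 = v}, wG γ p.1 ∂(κ v)) := by
          have hw12 : Measurable fun p : E × E =>
              H s (x - (t - s) • v) p.1 * H s (x - (t - s) • v) p.2 :=
            (hsl.comp measurable_fst).mul (hsl.comp measurable_snd)
          have hi1 : Measurable fun p : E × E =>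
              {p : E × E | p.1 = v}.indicator (fun p => wG γ p.2) p := hw2.indicator hm1
          have hi2 : Measurable fun p : E × E =>
              {p : E × E | p.2 = v}.indicator (fun p => wG γ p.1) p := hw1.indicator hm2
          rw [lintegral_add_left hw12, lintegral_add_left (hi1.const_mul _),
            lintegral_const_mul _ hi1, lintegral_const_mul _ hi2,
            lintegral_indicator hm1, lintegral_indicator hm2]
          rfl
      _ ≤ Q κ (H s (x - (t - s) • v)) (H s (x - (t - s) • v)) v +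
            (B s * ENNReal.ofReal C * ENNReal.ofReal (C2 * (1 + ‖v‖)) +
            B s * ENNReal.ofReal C * ENNReal.ofReal (C2 * (1 + ‖v‖))) := by
          gcongr
          · exact hS1 v
          · exact hS2 v
      _ = _ := by
          congr 1
          have hn : 0 ≤ 1 + ‖v‖ := by positivity
          rw [← mul_add, ← ENNReal.ofReal_add (by positivity) (by positivity), mul_assoc,
            ← ENNReal.ofReal_mul hC, mul_comm]
          congr 2
          ring
  -- sum over the pairs of trees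
  have hpairs : ∑ p ∈ CTree.lt n ×ˢ CTree.lt n, L ^ (node p.1 p.2).size *
      FS κ D f0 (node p.1 p.2) t x v ≤ ∫⁻ s in Ioc 0 t, L * ∫⁻ p,
        (∑ l ∈ CTree.lt n, L ^ l.size * a l s p) *
        (∑ r ∈ CTree.lt n, L ^ r.size * b r s p) ∂(κ v) := by
    have hterm : ∀ q : CTree × CTree, L ^ (node q.1 q.2).size *
        FS κ D f0 (node q.1 q.2) t x v ≤ ∫⁻ s in Ioc 0 t, L * ∫⁻ p,
          (L ^ q.1.size * a q.1 s p) * (L ^ q.2.size * b q.2 s p) ∂(κ v) := by
      intro q
      have h1 : FS κ D f0 (node q.1 q.2) t x v =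
          ∫⁻ s in Ioc 0 t, ∫⁻ p, a q.1 s p * b q.2 s p ∂(κ v) := rfl
      have hfin : L ^ (node q.1 q.2).size ≠ ∞ := ENNReal.pow_ne_top hL
      rw [h1, ← lintegral_const_mul' _ _ hfin]
      refine lintegral_mono fun s => ?_
      show L ^ (node q.1 q.2).size * _ ≤ _
      rw [← lintegral_const_mul' _ _ hfin, ← lintegral_const_mul' _ _ hL]
      refine lintegral_mono fun p => le_of_eq ?_
      simp only [CTree.size, pow_add, pow_one]
      ring
    refine (Finset.sum_le_sum fun q _ => hterm q).trans ?_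
    have hsup : ∀ (S : Finset (CTree × CTree)) (g : CTree × CTree → ℝ → ℝ≥0∞),
        ∑ q ∈ S, ∫⁻ s in Ioc 0 t, g q s ≤ ∫⁻ s in Ioc 0 t, ∑ q ∈ S, g q s := by
      intro S g
      induction S using Finset.induction_on with
      | empty => simp
      | insert q S hq ihS =>
        rw [Finset.sum_insert hq]
        refine (add_le_add le_rfl ihS).trans ?_
        refine (le_lintegral_add _ _).trans (le_of_eq ?_)
        refine lintegral_congr fun s => ?_
        rw [Finset.sum_insert hq]
    have hsup2 : ∀ (S : Finset (CTree × CTree)) (g : CTree × CTree → E × E → ℝ≥0∞),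
        ∑ q ∈ S, ∫⁻ p, g q p ∂(κ v) ≤ ∫⁻ p, ∑ q ∈ S, g q p ∂(κ v) := by
      intro S g
      induction S using Finset.induction_on with
      | empty => simp
      | insert q S hq ihS =>
        rw [Finset.sum_insert hq]
        refine (add_le_add le_rfl ihS).trans ?_
        refine (le_lintegral_add _ _).trans (le_of_eq ?_)
        refine lintegral_congr fun s => ?_
        rw [Finset.sum_insert hq]
    refine (hsup _ _).trans (lintegral_mono fun s => ?_)
    show ∑ q ∈ CTree.lt n ×ˢ CTree.lt n, L * ∫⁻ p,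
          (L ^ q.1.size * a q.1 s p) * (L ^ q.2.size * b q.2 s p) ∂(κ v) ≤ _
    rw [← Finset.mul_sum]
    refine mul_le_mul' le_rfl ((hsup2 _ _).trans (lintegral_mono fun p => le_of_eq ?_))
    rw [Finset.sum_mul_sum, Finset.sum_product]
  have h0 : L ^ leaf.size * FS κ D f0 leaf t x v = f0 (x - t • v) v := by
    have h1 : FS κ D f0 leaf t x v = f0 (x - t • v) v := rfl
    rw [h1]
    simp only [CTree.size, pow_zero, one_mul]
  rw [h0]
  refine add_le_add le_rfl (hpairs.trans (setLIntegral_mono' measurableSet_Ioc fun s hs => ?_))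
  exact mul_le_mul' le_rfl (hprod s hs)

end step

variable {Φ : Space3 → ℝ}

/-- `L¹` exponential moment of the finite sums of `FS`. -/
theorem L1_FS (hΦ : AdmissiblePotential Φ) {lam A b T1 : ℝ} (hlam : 0 ≤ lam) (hA0 : 0 ≤ A)
    (hb : 0 < b) (hT1 : 0 < T1) {μ : ℝ} (hμ : 0 < μ)
    (hker : ∫⁻ u in Ioi (0 : ℝ), ENNReal.ofReal (lam * A * (CG (b / 2)).toReal *
      (1 + 1 / Real.sqrt (b / (4 * T1) * u)) * Real.exp (-μ * u)) ≤ ENNReal.ofReal (1 / 2))
    {μ' : ℝ} (hμ' : 0 < μ')
    (hker' : ∫⁻ u in Ioi (0 : ℝ), ENNReal.ofReal (lam * (2 * A * (CG b).toReal) *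
      (1 + 1 / Real.sqrt (b / (4 * T1) * u)) * Real.exp (-μ' * u)) ≤ ENNReal.ofReal (1 / 2))
    {D : ℝ → ℝ → Space3 → Space3 → ℝ≥0∞} (hD : Meas4 D)
    {f0 : Space3 → Space3 → ℝ≥0∞} (hf0 : Measurable fun p : Space3 × Space3 => f0 p.1 p.2)
    {T2 : ℝ} (hT2 : T2 ≤ T1)
    {H : ℝ → Space3 → Space3 → ℝ≥0∞} (hHm : Meas3 H)
    (hPH : ∀ t ∈ Icc 0 T2, ∀ x v, ∑' τ : CTree, ENNReal.ofReal lam ^ τ.size *
      F (kapQ Φ) D f0 τ t x v ≤ H t x v)
    (hH : ∀ t ∈ Icc 0 T2, ∀ x v, H t x v ≤ ENNReal.ofReal A * gau b v)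
    {M : ℝ≥0∞} (hM : ∀ t ∈ Icc 0 T2, phI (fun x v => gau (-(gam b T1 t)) v * H t x v) ≤
      ENNReal.ofReal (Real.exp (μ * t)) * M) (hMt : M ≠ ∞)
    (hini : phI (fun x v => gau (-(b / 2)) v * f0 x v) ≠ ∞) (n : ℕ) {t : ℝ} (ht : t ∈ Icc 0 T2) :
    phI (fun x v => gau (-(gam b T1 t)) v * SFn (kapQ Φ) D f0 (ENNReal.ofReal lam) n t x v) ≤
      ENNReal.ofReal (Real.exp (μ' * t)) *
        (2 * (phI (fun x v => gau (-(b / 2)) v * f0 x v) +
          ENNReal.ofReal (Real.exp (μ * T1)) * M)) := by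
  have hS := Scat818.scatFacts hΦ
  have hT2' : (0:ℝ) ≤ T1 := hT1.le
  have hAt : phI (fun x v => gau (-(b / 2)) v * f0 x v) +
          ENNReal.ofReal (Real.exp (μ * T1)) * M ≠ ∞ :=
    ENNReal.add_ne_top.2 ⟨hini, ENNReal.mul_ne_top ENNReal.ofReal_ne_top hMt⟩
  refine gronwall_sing (φ := fun n t => phI (fun x v => gau (-(gam b T1 t)) v *
    SFn (kapQ Φ) D f0 (ENNReal.ofReal lam) n t x v)) hμ' hker' (by positivity) (T1 := T2) ?_ ?_
    hAt n t ht
  · intro t ht
    show phI _ = 0
    simp only [SFn_zero, mul_zero]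
    unfold phI; simp
  · intro n t ht
    have htT : t ∈ Icc 0 T1 := ⟨ht.1, ht.2.trans hT2⟩
    have hgt := gam_mem hb hT1 htT
    set Sn := SFn (kapQ Φ) D f0 (ENNReal.ofReal lam) n with hSn
    have hSm : Meas3 Sn := meas_SFn hD hf0 _ n
    have hn1 : Meas3 fun (_ : ℝ) (_ v : Space3) =>
        ENNReal.ofReal (2 * A * (CG b).toReal * (1 + ‖v‖)) := by
      unfold Meas3; fun_prop
    have hQm : Meas3 fun s x v => Q (kapQ Φ) (H s x) (H s x) v := meas_Q _ hHm hHm
    have hRm : Meas3 fun s x v => ENNReal.ofReal lam * (Q (kapQ Φ) (H s x) (H s x) v +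
        ENNReal.ofReal (2 * A * (CG b).toReal * (1 + ‖v‖)) * Sn s x v) :=
      meas_mul3 measurable_const (meas_add3 hQm (meas_mul3 hn1 hSm))
    have hCG : CG b = ENNReal.ofReal (CG b).toReal :=
      (ENNReal.ofReal_toReal (CG_lt_top hb).ne).symm
    refine (phI_duh (g0 := f0) (R := fun s x v => ENNReal.ofReal lam *
      (Q (kapQ Φ) (H s x) (H s x) v +
        ENNReal.ofReal (2 * A * (CG b).toReal * (1 + ‖v‖)) * Sn s x v))
      (measurable_gau _) hf0 hRm t ?_).trans ?_
    · intro x v
      refine SFn_succ_le (κ := kapQ Φ) (γ := b) (T := T2) hA0 ENNReal.toReal_nonneg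
        ENNReal.ofReal_ne_top ?_ ?_ (kapQ_diag hS) hHm hPH
        (fun t ht x v => by rw [wG_eq_gau]; exact hH t ht x v) n ht x v
      · intro v
        refine (kapQ_fst_le hS b v).trans (le_of_eq ?_)
        rw [ENNReal.ofReal_mul ENNReal.toReal_nonneg, ← hCG]
      · intro v
        refine (kapQ_snd_le hS b v).trans (le_of_eq ?_)
        rw [ENNReal.ofReal_mul ENNReal.toReal_nonneg, ← hCG]
    · -- split
      have hQ2 : ∀ s, Measurable (Function.uncurry fun x v : Space3 => gau (-(gam b T1 t)) v *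
            Q (kapQ Φ) (H s x) (H s x) v) := fun s =>
          ((measurable_gau _).comp measurable_snd).mul (meas3_uncurry hQm s)
      have hS2 : ∀ s, Measurable (Function.uncurry fun x v : Space3 => gau (-(gam b T1 s)) v *
            Sn s x v) := fun s =>
          ((measurable_gau _).comp measurable_snd).mul (meas3_uncurry hSm s)
      have hterm : ∀ s ∈ Ioo 0 t, phI (fun x v => gau (-(gam b T1 t)) v *
          (ENNReal.ofReal lam * (Q (kapQ Φ) (H s x) (H s x) v +
          ENNReal.ofReal (2 * A * (CG b).toReal * (1 + ‖v‖)) * Sn s x v))) ≤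
          ENNReal.ofReal (lam * A * (CG (b / 2)).toReal *
            (1 + 1 / Real.sqrt (b / (4 * T1) * (t - s))) * Real.exp (μ * s)) * M +
          ENNReal.ofReal (lam * (2 * A * (CG b).toReal) *
            (1 + 1 / Real.sqrt (b / (4 * T1) * (t - s)))) *
            phI (fun x v => gau (-(gam b T1 s)) v * Sn s x v) := by
        intro s hs
        have hs' : s ∈ Icc 0 T2 := ⟨hs.1.le, hs.2.le.trans ht.2⟩
        have hk0 : 0 ≤ 1 + 1 / Real.sqrt (b / (4 * T1) * (t - s)) := by positivity
        have e1 : phI (fun x v => gau (-(gam b T1 t)) v *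
            (ENNReal.ofReal lam * (Q (kapQ Φ) (H s x) (H s x) v +
            ENNReal.ofReal (2 * A * (CG b).toReal * (1 + ‖v‖)) * Sn s x v))) ≤
            phI (fun x v => ENNReal.ofReal lam * (gau (-(gam b T1 t)) v *
              Q (kapQ Φ) (H s x) (H s x) v) + ENNReal.ofReal (lam * (2 * A * (CG b).toReal) *
            (1 + 1 / Real.sqrt (b / (4 * T1) * (t - s)))) * (gau (-(gam b T1 s)) v * Sn s x v)) := by
          refine phI_mono fun x v => ?_
          have h4 := weight_exchange hb hT1 hs.2 v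
          calc gau (-(gam b T1 t)) v *
              (ENNReal.ofReal lam * (Q (kapQ Φ) (H s x) (H s x) v +
              ENNReal.ofReal (2 * A * (CG b).toReal * (1 + ‖v‖)) * Sn s x v))
              = ENNReal.ofReal lam * (gau (-(gam b T1 t)) v *
              Q (kapQ Φ) (H s x) (H s x) v) + ENNReal.ofReal lam *
                ENNReal.ofReal (2 * A * (CG b).toReal) * (ENNReal.ofReal (1 + ‖v‖) *
                gau (-(gam b T1 t)) v) * Sn s x v := by
                rw [ENNReal.ofReal_mul (p := 2 * A * (CG b).toReal) (by positivity)]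
                ring
            _ ≤ ENNReal.ofReal lam * (gau (-(gam b T1 t)) v *
              Q (kapQ Φ) (H s x) (H s x) v) + ENNReal.ofReal lam *
                ENNReal.ofReal (2 * A * (CG b).toReal) *
                (ENNReal.ofReal (1 + 1 / Real.sqrt (b / (4 * T1) * (t - s))) *
                  gau (-(gam b T1 s)) v) * Sn s x v := by gcongr
            _ = _ := by
                rw [ENNReal.ofReal_mul (p := lam * (2 * A * (CG b).toReal)) (by positivity),
                  ENNReal.ofReal_mul (p := lam) hlam]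
                ring
        refine e1.trans ?_
        rw [phI_add (by exact (hQ2 s).const_mul _), phI_const_mul (hQ2 s), phI_const_mul (hS2 s)]
        refine add_le_add ?_ le_rfl
        have hsl : Measurable fun p : Space3 × Space3 => H s p.1 p.2 := meas3_uncurry hHm s
        have h6 := gain_le hΦ hb hT1 hs.1.le hs.2 htT.2 hsl (fun x v => hH s hs' x v)
        have hCGt : CG (b / 2) = ENNReal.ofReal (CG (b / 2)).toReal :=
          (ENNReal.ofReal_toReal (CG_lt_top (by positivity)).ne).symm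
        calc ENNReal.ofReal lam * phI (fun x v => gau (-(gam b T1 t)) v *
              Q (kapQ Φ) (H s x) (H s x) v)
            ≤ ENNReal.ofReal lam * ((ENNReal.ofReal A * CG (b / 2) *
              ENNReal.ofReal (1 + 1 / Real.sqrt (b / (4 * T1) * (t - s)))) *
              (ENNReal.ofReal (Real.exp (μ * s)) * M)) :=
              mul_le_mul' le_rfl (h6.trans (mul_le_mul' le_rfl (hM s hs')))
          _ = (ENNReal.ofReal lam * ENNReal.ofReal A * CG (b / 2) *
              ENNReal.ofReal (1 + 1 / Real.sqrt (b / (4 * T1) * (t - s))) *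
              ENNReal.ofReal (Real.exp (μ * s))) * M := by ring
          _ = _ := by
              congr 1
              rw [hCGt, ← ENNReal.ofReal_mul hlam, ← ENNReal.ofReal_mul (by positivity),
                ← ENNReal.ofReal_mul (by positivity), ← ENNReal.ofReal_mul (by positivity)]
              simp only [ENNReal.toReal_ofReal ENNReal.toReal_nonneg]
      have hadd : phI (fun x v => gau (-(gam b T1 t)) v * f0 x v) + ∫⁻ s in Ioo 0 t,
          phI (fun x v => gau (-(gam b T1 t)) v *
          (ENNReal.ofReal lam * (Q (kapQ Φ) (H s x) (H s x) v +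
          ENNReal.ofReal (2 * A * (CG b).toReal * (1 + ‖v‖)) * Sn s x v))) ≤
          phI (fun x v => gau (-(b / 2)) v * f0 x v) + ((∫⁻ s in Ioo 0 t,
            ENNReal.ofReal (lam * A * (CG (b / 2)).toReal *
            (1 + 1 / Real.sqrt (b / (4 * T1) * (t - s))) * Real.exp (μ * s)) * M) +
          ∫⁻ s in Ioo 0 t, ENNReal.ofReal (lam * (2 * A * (CG b).toReal) *
            (1 + 1 / Real.sqrt (b / (4 * T1) * (t - s)))) *
            phI (fun x v => gau (-(gam b T1 s)) v * Sn s x v)) := by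
        refine add_le_add (phI_mono fun x v => mul_le_mul' (gau_antitone (by linarith [hgt.2]) v)
          le_rfl) ?_
        refine (setLIntegral_mono' measurableSet_Ioo hterm).trans (le_of_eq ?_)
        exact lintegral_add_left (by fun_prop) _
      refine hadd.trans ?_
      rw [← add_assoc]
      refine add_le_add (add_le_add le_rfl ?_) le_rfl
      calc ∫⁻ s in Ioo 0 t, ENNReal.ofReal (lam * A * (CG (b / 2)).toReal *
            (1 + 1 / Real.sqrt (b / (4 * T1) * (t - s))) * Real.exp (μ * s)) * M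
          ≤ ∫⁻ s in Ioc 0 t, ENNReal.ofReal (lam * A * (CG (b / 2)).toReal *
            (1 + 1 / Real.sqrt (b / (4 * T1) * (t - s))) * Real.exp (μ * s)) * M :=
            lintegral_mono_set Ioo_subset_Ioc_self
        _ = (∫⁻ s in Ioc 0 t, ENNReal.ofReal (lam * A * (CG (b / 2)).toReal *
            (1 + 1 / Real.sqrt (b / (4 * T1) * (t - s))) * Real.exp (μ * s))) * M :=
            lintegral_mul_const' _ _ hMt
        _ ≤ (ENNReal.ofReal (Real.exp (μ * t)) * ENNReal.ofReal (1 / 2)) * M :=
            mul_le_mul' (lintegral_singular_le hker t) le_rfl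
        _ ≤ (ENNReal.ofReal (Real.exp (μ * T1)) * 1) * M := by
            gcongr
            · exact htT.2
            · rw [← ENNReal.ofReal_one]
              exact ENNReal.ofReal_le_ofReal (by norm_num)
        _ = _ := by rw [mul_one]

end Crest.Agent.R122.KinL1
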