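import Crest.Agent.R122.GateOsP_424
import Crest.Agent.R122.OsPMom_581
import Crest.Agent.R122.GateOS_973
import Crest.Agent.R122.RunInv_416
import Crest.Agent.R122.XDet_692
import Crest.Agent.R122.TLGate_311
import Crest.Agent.R122.GateOSc_434

/-!
# The gateway of `osP` for helper692's alternatives (row 122, LINK6), helper974

* `CtxP` : the constants of the gateway for a contact tree, a structure and an independent line.
* `gNull_SHit`, `gNull_XHit`, `badF_X`, `badF_J` : bad hits and bad partitions.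
* `fNull_osP_of_alt` : for every `L` the event implies `SAlt`, `XAlt`, `JAlt` (helper692) or further
  bad events; then the capped measure of the independent line is null.
-/

set_option autoImplicit false
set_option linter.unusedSectionVars false

open MeasureTheory Set Filter Topology
open scoped Classical ENNReal
open Crest.AnalysisR.Kinetic
open Crest.Agent.R122.GC311 Crest.Agent.R122.Kin796 Crest.Agent.R122.Kin796.CTree
open Crest.Agent.R122.Tree674 Crest.Agent.R122.EDefs602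
open Crest.Agent.R122.Gate424 Crest.Agent.R122.Gate973 Crest.Agent.R122.LN2
open Crest.Agent.R122.BH167 Crest.Agent.R122.LinkM547
open Crest.Agent.R122.PairRep581 (Shp ShpOk osP treeA ctOkS)
open Crest.Agent.R122.GateOsP424 (osB osZ)

noncomputable section

namespace Crest.Agent.R122.LK6974

variable {Φ : Space3 → ℝ} {f₀ : PhasePoint → ℝ} {bG T te T' γ β : ℝ} {ρ : Space3 → ℝ≥0∞}
  {C₀ : ℝ≥0∞} {g : ℝ → ℝ} {ρm : ℝ≥0∞} {K Km : ℕ} {P : CTree} {S : Shp}

/-- The constants of the gateway for a contact tree, a structure and an independent line. -/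
structure CtxP (Φ : Space3 → ℝ) (f₀ : PhasePoint → ℝ) (bG T te γ β : ℝ) (ρ : Space3 → ℝ≥0∞)
    (C₀ : ℝ≥0∞) (g : ℝ → ℝ) (ρm : ℝ≥0∞) : Prop where
  adm : AdmissiblePotential Φ
  meas : Measurable f₀
  mass : ∫⁻ z, ENNReal.ofReal (f₀ z) ≤ 1
  gauss : HasSummableGaussianBound bG (fun x v => f₀ (x, v))
  bG_pos : 0 < bG
  env : Env f₀ γ ρ C₀
  γ_pos : 0 < γ
  β_pos : 0 < β
  T_pos : 0 < T
  te_le : te ≤ T
  g_meas : Measurable g
  g_le : ∀ τ ∈ Ioc (0 : ℝ) te, γ ≤ g τ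
  mark : ρm ≠ ∞

/-- Anchors: the tree. -/
abbrev aP (P : CTree) (S : Shp) : Finset (Idx P ⊕ S.κ) := Finset.univ.disjSum ∅

theorem aP_nonempty : (aP P S).Nonempty :=
  ⟨Sum.inl (root P), Finset.inl_mem_disjSum.2 (Finset.mem_univ _)⟩

theorem aP_map : (aP P S).map (Function.Embedding.inl : Idx P ⊕ S.κ ↪ (Idx P ⊕ S.κ) ⊕ Unit) =
    (aP P S).disjSum (∅ : Finset Unit) := by
  ext x
  rw [Finset.mem_map, Finset.mem_disjSum]
  constructor
  · rintro ⟨y, hy, rfl⟩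
    exact Or.inl ⟨y, hy, rfl⟩
  · rintro (⟨y, hy, rfl⟩ | ⟨y, hy, -⟩)
    · exact ⟨y, hy, rfl⟩
    · exact absurd hy (Finset.notMem_empty y)

section

variable (h : CtxP Φ f₀ bG T te γ β ρ C₀ g ρm) (hS : ShpOk γ β ρ S)
include h

/-- Bad hits of the independent line, not anchored. -/
theorem CtxP.gNull_XHit (Km : ℕ) (C R T₁ : ℝ) (hT₁ : 0 ≤ T₁) (N K₁ : ℕ) :
    GNull f₀ (fun (_ : ℝ) (_ : Unit) => lineM g ρm Km te) (fun ε _ _ l w =>
      BadHitGasN (bpos Φ T₁ T) Φ T C R ε N K₁ 1 (∅ : Finset Unit) (fun _ => l.1.1)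
        (fun _ => back l.1) w) :=
  gNull_badPosN (I := Unit) (m := fun _ _ => lineM g ρm Km te) h.adm h.T_pos.le T hT₁ h.meas h.mass
    h.env h.γ_pos C R N K₁ (s := 1) le_rfl ∅ (c := ∑' n : ℕ, markW ρm Km n)
    (sum_markW_ne_top h.mark Km) (lineΛ te) (b := fun _ _ l _ => l.1.1)
    (z := fun _ _ l _ => back l.1) (fun _ _ => inferInstance)
    fun ε _ _ => dom_line h.g_le h.g_meas ρm Km ε

/-- Bad clusters of the independent line. -/
theorem CtxP.badF_X (Km : ℕ) (C : ℝ) (N : ℕ) :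
    BadF f₀ (fun (_ : ℝ) (_ : Unit) => lineM g ρm Km te) (fun R ς ε _ _ l w =>
      BadGas Φ T C R ς ε N 1 (∅ : Finset Unit) (fun _ => l.1.1) (fun _ => back l.1) w) :=
  badF_badX (I := Unit) (classNull h.adm h.T_pos) h.meas h.mass h.env h.γ_pos C N h.g_meas h.g_le
    h.mark Km

include hS

/-- Bad hits of the contact tree and the structure. -/
theorem CtxP.gNull_SHit (te' T' : ℝ) (K : ℕ) (P : CTree) (C R T₁ : ℝ) (hT₁ : 0 ≤ T₁)
    (N K₁ : ℕ) :
    GNull f₀ (osP Φ f₀ te' T' K P S) (fun ε _ _ q w =>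
      BadHitGas (bpos Φ T₁ T) Φ T C R ε N K₁ 1 (aP P S) (osB P S ε q) (osZ Φ P S ε q) w) := by
  obtain ⟨c₁, Λ, hc, hΛ, hd⟩ := GateOsP424.dom_osP h.adm h.meas h.env hS te' T' K P
  exact gNull_badPos (I := Unit) (m := osP Φ f₀ te' T' K P S) (b := fun ε _ q => osB P S ε q)
    (z := fun ε _ q => osZ Φ P S ε q) h.adm h.T_pos.le T hT₁ h.meas h.mass h.env h.γ_pos C R N K₁
    ((by omega : 1 ≤ 2).trans (GateOsP424.card_le hS)) (aP P S) hc Λ
    (fun ε i => GateOsP424.sf_osP hS ε i) fun ε i hε => hd ε hε i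

/-- Bad partitions of the contact tree, the structure and the line. -/
theorem CtxP.badF_J (T' : ℝ) (K Km : ℕ) (P : CTree) (C : ℝ) (N : ℕ) :
    BadF f₀ (fun ε i => (osP Φ f₀ te T' K P S ε i).prod (lineM g ρm Km te))
      (fun R ς ε _ _ θ w => X692.JAlt Φ T C R ς ε N (aP P S) (osB P S ε θ.1) (osZ Φ P S ε θ.1)
        θ.2 w) := by
  refine (GateOsP424.badF_osPX h.adm h.meas h.mass h.env h.γ_pos hS (classNull h.adm h.T_pos) te T'
    K P C N h.g_meas h.g_le h.mark Km).mono fun R ς ε i n θ w _ _ hE => ?_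
  unfold X692.JAlt at hE
  rw [aP_map] at hE
  exact hE

/-- **The gateway for helper692's alternatives.** -/
theorem fNull_osP_of_alt (T' : ℝ) (K Km : ℕ) (P : CTree) {t : ℝ} (ht : t ≤ T) {K' : ℕ}
    {E : ℝ → Unit → (n : ℕ) → ((PhasePoint × Par P) × S.Θ) → ML → Config n → Prop}
    (hdet : ∀ L : ℕ, ∃ (BS : ℝ → ℝ → ℝ → Unit → (n : ℕ) → ((PhasePoint × Par P) × S.Θ) →
        Config n → Prop)
      (HS : ℝ → Unit → (n : ℕ) → ((PhasePoint × Par P) × S.Θ) → Config n → Prop)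
      (HJ : ℝ → Unit → (n : ℕ) → ((PhasePoint × Par P) × S.Θ) × ML → Config n → Prop)
      (N : ℕ) (C T₁ : ℝ), BadF f₀ (osP Φ f₀ te T' K P S) BS ∧
      GNull f₀ (osP Φ f₀ te T' K P S) HS ∧
      GNull f₀ (fun ε i => (osP Φ f₀ te T' K P S ε i).prod (lineM g ρm Km te)) HJ ∧ 0 ≤ T₁ ∧
      ∀ R > 0, ∀ ς > 0, ∃ ε₁ : ℝ, 0 < ε₁ ∧ ∀ ε : ℝ, 0 < ε → ε < ε₁ → ∀ i n q x (w : Config n),
        w ∈ PairExcluded ε n → E ε i n q x w →
        (BS R ς ε i n q w ∨ HS ε i n q w ∨ HJ ε i n (q, x) w) ∨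
        X692.SAlt Φ T T₁ t C R ς ε K' L N (aP P S) (osB P S ε q) (osZ Φ P S ε q) w ∨
        X692.XAlt Φ T T₁ t C R ς ε K' L N x w ∨
        X692.JAlt Φ T C R ς ε N (aP P S) (osB P S ε q) (osZ Φ P S ε q) x w) :
    FNull f₀ (osP Φ f₀ te T' K P S)
      (fun ε i n q w => min 1 ((lineM g ρm Km te) {x | E ε i n q x w})) := by
  -- constants of the runs
  set b : ℝ := min (bG / 4) (β / 2) with hb
  have hb0 : 0 < b := lt_min (by have := h.bG_pos; positivity) (by have := h.β_pos; positivity)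
  have hb1 : b ≤ bG / 4 := min_le_left _ _
  have hb2 : b ≤ β / 2 := min_le_right _ _
  obtain ⟨A, hA, hG⟩ := exists_gauss h.gauss (β := b) (by have := h.bG_pos; linarith)
  obtain ⟨M₁, hM₁, hmom⟩ := PairRep581.osP_moment (te := te) (T' := T') (K := K) hS h.adm h.meas
    h.gauss (a := b) (β' := b) (by have := h.β_pos; linarith) (by have := h.bG_pos; linarith) P
  obtain ⟨M₂, hM₂, hmass⟩ := PairRep581.osP_mass (te := te) (T' := T') (K := K) hS h.adm h.meas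
    h.bG_pos h.β_pos h.gauss P
  have hEb : EnvB (γ / 2) f₀ (fun x => C₀ * ρ x) C₀.toReal :=
    RunInv416.envB_of_env h.env (by linarith)
  refine GateOsP424.fNull_osP_of_det h.adm h.meas h.mass hS hb0 h.T_pos.le hA hG ht h.te_le
    (K' := K') (M := M₁ + M₂) (ENNReal.add_ne_top.2 ⟨hM₁, hM₂⟩)
    (fun ε hε => (hmom ε hε ()).trans le_self_add) (fun ε hε => (hmass ε hε ()).trans le_add_self)
    (half_pos h.γ_pos) (half_lt_self h.γ_pos) ENNReal.toReal_nonneg hEb h.g_meas h.g_le h.mark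
    fun L => ?_
  obtain ⟨BS, HS, HJ, N, C, T₁, hBS, hHS, hHJ, hT₁, hd⟩ := hdet L
  refine ⟨fun R ς ε i n q w => BadGas Φ T C R ς ε N 1 (aP P S) (osB P S ε q) (osZ Φ P S ε q) w ∨
      BS R ς ε i n q w,
    fun R ς ε _ n l w => BadGas Φ T C R ς ε N 1 (∅ : Finset Unit) (fun _ => l.1.1)
      (fun _ => back l.1) w,
    fun R ς ε _ n θ w => X692.JAlt Φ T C R ς ε N (aP P S) (osB P S ε θ.1) (osZ Φ P S ε θ.1) θ.2 w,
    fun ε i n q w => BadHitGas (bpos Φ T₁ T) Φ T C 1 ε N N 1 (aP P S) (osB P S ε q)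
      (osZ Φ P S ε q) w ∨ HS ε i n q w,
    fun ε _ n l w => BadHitGasN (bpos Φ T₁ T) Φ T C 1 ε N N 1 (∅ : Finset Unit) (fun _ => l.1.1)
      (fun _ => back l.1) w, HJ, ⟨?_, ?_, ?_⟩, ⟨?_, ?_, hHJ⟩, fun R hR ς hς => ?_⟩
  · exact (GateOsP424.badF_osP h.adm h.meas h.mass h.env h.γ_pos hS (classNull h.adm h.T_pos) te T'
      K P C N).or h.meas hBS
  · exact h.badF_X Km C N
  · exact h.badF_J hS T' K Km P C N
  · exact (h.gNull_SHit hS te T' K P C 1 T₁ hT₁ N N).or h.meas hHS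
  · exact h.gNull_XHit Km C 1 T₁ hT₁ N N
  · obtain ⟨ε₁, h0, hd⟩ := hd R hR ς hς
    refine ⟨ε₁, h0, fun ε hε hlt i n q x w hw hE => ?_⟩
    rcases hd ε hε hlt i n q x w hw hE with (h2 | h2 | h2) | (h2 | h2 | h2) | (h2 | h2 | h2) | h2
    · exact Or.inl (Or.inr (Or.inl (Or.inr h2)))
    · exact Or.inl (Or.inr (Or.inr (Or.inr h2)))
    · exact Or.inr (Or.inr (Or.inr h2))
    · exact Or.inl (Or.inl h2)
    · exact Or.inl (Or.inr (Or.inl (Or.inl h2)))
    · exact Or.inl (Or.inr (Or.inr (Or.inl h2)))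
    · exact Or.inr (Or.inl (Or.inl h2))
    · exact Or.inr (Or.inl (Or.inr (Or.inl h2)))
    · exact Or.inr (Or.inl (Or.inr (Or.inr h2)))
    · exact Or.inr (Or.inr (Or.inl h2))

end

end Crest.Agent.R122.LK6974

end
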