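import Crest.Agent.R122.LK6ae_973

/-!
# Row 122, helper973: the world gas + tree with released groups of the structure, almost surely
-/

set_option autoImplicit false
set_option linter.unusedSectionVars false

open MeasureTheory Set Filter Topology
open scoped Classical ENNReal
open Crest.AnalysisR.Kinetic
open Crest.Agent.R122.GC311 Crest.Agent.R122.Kin796 Crest.Agent.R122.Kin796.CTree
open Crest.Agent.R122.Tree674 Crest.Agent.R122.EDefs602 Crest.Agent.R122.TreeLines335
open Crest.Agent.R122.Gate424 Crest.Agent.R122.Gate973 Crest.Agent.R122.LN2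
open Crest.Agent.R122.GateOsP424 Crest.Agent.R122.OkNull424
open Crest.Agent.R122.AllOk663 Crest.Agent.R122.MWAlg255 Crest.Agent.R122.MeasE416
open Crest.Agent.R122.PairRep581 (Shp ShpOk osP)

noncomputable section

namespace Crest.Agent.R122.LK6ae973

variable {Φ : Space3 → ℝ} {f₀ : PhasePoint → ℝ} {te T' γ β ε : ℝ} {ρ : Space3 → ℝ≥0∞}
  {C : ℝ≥0∞} {K n : ℕ} {P : CTree} {S : Shp}

/-- **The world gas + tree**, with released groups of the structure, almost surely. -/
theorem ae_okTW (hΦ : AdmissiblePotential Φ) (hf : Measurable f₀) (he : Env f₀ γ ρ C)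
    (hS : ShpOk γ β ρ S) (hε : 0 < ε) (te T' : ℝ) (K : ℕ) (P : CTree) (n : ℕ) :
    ∀ᵐ q ∂((osP Φ f₀ te T' K P S ε ()).prod (volume : Measure (Config n))),
      ∀ A : Finset S.κ, OkD Φ ε (fun _ : Fin n ⊕ Idx P => 0) (fun a : A => S.z ε q.1.2 a)
        (Sum.elim q.2 (linesM Φ ε P q.1.1.1 q.1.1.2)) := by
  have hsf := sf_osP (Φ := Φ) (f₀ := f₀) (te := te) (T' := T') (K := K) (P := P) hS ε ()
  obtain ⟨c, Λ, -, -, hd⟩ := dom_osP hΦ hf he hS te T' K P
  refine ae_all_iff.2 fun A => ?_
  have h4 := ae_comp (e := fun a : A => (a : S.κ)) Subtype.val_injective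
    (Q := fun U w => OkD Φ ε (fun _ : Fin n ⊕ Idx P => 0) U w)
    (ae_okD (α := A) (ω := Fin n ⊕ Idx P) hΦ hε (fun _ => 0) (fun _ => le_rfl))
  -- `(V, w) ↦ (V ∘ inr, elim w (V ∘ inl))`
  have mp : MeasurePreserving (fun p : (Idx P ⊕ S.κ → PhasePoint) × Config n =>
      ((fun a => p.1 (Sum.inr a), Sum.elim p.2 fun i => p.1 (Sum.inl i)) :
        (S.κ → PhasePoint) × (Fin n ⊕ Idx P → PhasePoint)))
      ((volume : Measure (Idx P ⊕ S.κ → PhasePoint)).prod (volume : Measure (Config n)))
      ((volume : Measure (S.κ → PhasePoint)).prod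
        (volume : Measure (Fin n ⊕ Idx P → PhasePoint))) := by
    have a1 := (volume_measurePreserving_sumPiEquivProdPi (fun _ : Idx P ⊕ S.κ => PhasePoint)).prod
      (MeasurePreserving.id (volume : Measure (Config n)))
    have a2 := (Measure.measurePreserving_swap (μ := (volume : Measure (Idx P → PhasePoint)))
      (ν := (volume : Measure (S.κ → PhasePoint)))).prod
      (MeasurePreserving.id (volume : Measure (Config n)))
    have a3 := measurePreserving_prodAssoc (volume : Measure (S.κ → PhasePoint))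
      (volume : Measure (Idx P → PhasePoint)) (volume : Measure (Config n))
    have b2 := Measure.measurePreserving_swap (μ := (volume : Measure (Idx P → PhasePoint)))
      (ν := (volume : Measure (Config n)))
    have b3 := volume_measurePreserving_sumPiEquivProdPi_symm
      (fun _ : Fin n ⊕ Idx P => PhasePoint)
    have a4 := (MeasurePreserving.id (volume : Measure (S.κ → PhasePoint))).prod (b3.comp b2)
    exact a4.comp (a3.comp (a2.comp a1))
  have h5 := mp.quasiMeasurePreserving.ae h4
  exact ae_of_dom_prod (Q := fun V (u : Config n) =>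
    OkD Φ ε (fun _ : Fin n ⊕ Idx P => 0) (fun a : A => V (Sum.inr a))
      (Sum.elim u fun i => V (Sum.inl i))) (hd ε hε ()) hε h5

end Crest.Agent.R122.LK6ae973

end
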