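import Crest.Agent.R122.OkNull_424
import Crest.Agent.R122.GoodXOk_663
import Crest.Agent.R122.LKok_416
import Crest.Agent.R122.PairRep_581

/-!
# Row 122, LINK6 (S4), helper973: the worlds of an independent line, almost surely

* `ae_lineV_guard` : helper663's `ae_lineV` with a guard (not necessarily measurable).
* `OkDX` : helper424's `OkD` for all groups of labels of (tree, structure) in the world gas + `x`,
  and for all groups of labels of the structure in the world gas + tree + `x`.
* `ae_okDX` : almost surely, for a fixed birth of `x`.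
* `SepX`, `ae_sepX` : the birth of `x` is not the birth of an exit.
* `ae_okX6`, `gNull_okX6` : **helper416's `OkX6` for almost every (tree, structure), gas and line**,
  from a pointwise theorem.
-/

set_option autoImplicit false
set_option linter.unusedSectionVars false

open MeasureTheory Set Filter Topology
open scoped Classical ENNReal
open Crest.AnalysisR.Kinetic
open Crest.Agent.R122.GC311 Crest.Agent.R122.Kin796 Crest.Agent.R122.Kin796.CTree
open Crest.Agent.R122.Tree674 Crest.Agent.R122.EDefs602 Crest.Agent.R122.TreeLines335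
open Crest.Agent.R122.Gate424 Crest.Agent.R122.Gate973 Crest.Agent.R122.LN2
open Crest.Agent.R122.GateOsP424 Crest.Agent.R122.OkNull424
open Crest.Agent.R122.AllOk663 Crest.Agent.R122.MWAlg255 Crest.Agent.R122.MeasE416
open Crest.Agent.R122.LineMeas994 Crest.Agent.R122.LKok416
open Crest.Agent.R122.PairD292 (dL eL)
open Crest.Agent.R122.E6Hyp879 (withD)
open Crest.Agent.R122.PairRep581 (Shp ShpOk osP)

noncomputable section

namespace Crest.Agent.R122.LK6ae973

/-! ### Guards -/

/-- Almost every line, from almost every state at fixed birth time and mark, with a guard which does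
not depend on the line. -/
theorem ae_lineV_guard {A : Type*} [MeasurableSpace A] {μ : Measure A} [SFinite μ] {T : ℝ}
    {Gd : A → Prop} {G : Set (A × ML)} (hG : MeasurableSet G)
    (h : ∀ τ ∈ Ioc 0 T, ∀ n : ℕ, ∀ᵐ q ∂(μ.prod (volume : Measure PhasePoint)),
      Gd q.1 → (q.1, ((τ, q.2), n)) ∈ G) : ∀ᵐ q ∂(μ.prod (lineV T)), Gd q.1 → q ∈ G := by
  have h1 : ∀ᵐ q ∂((μ.restrict {a | Gd a}).prod (lineV T)), q ∈ G := by
    refine ae_lineV hG fun τ hτ n => ?_
    have h2 : (μ.restrict {a | Gd a}).prod (volume : Measure PhasePoint) =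
        (μ.prod volume).restrict ({a | Gd a} ×ˢ univ) := by
      rw [← Measure.prod_restrict, Measure.restrict_univ]
    have hm : MeasurableSet {q : A × PhasePoint | (q.1, ((τ, q.2), n)) ∈ G} := by
      refine hG.preimage (f := fun q : A × PhasePoint => (q.1, ((τ, q.2), n))) ?_
      exact measurable_fst.prodMk ((measurable_const.prodMk measurable_snd).prodMk
        measurable_const)
    rw [h2, ae_restrict_iff hm]
    filter_upwards [h τ hτ n] with q hq hqG
    exact hq hqG.1
  have h3 : (μ.restrict {a | Gd a}).prod (lineV T) =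
      (μ.prod (lineV T)).restrict ({a | Gd a} ×ˢ univ) := by
    rw [← Measure.prod_restrict, Measure.restrict_univ]
  rw [h3, ae_restrict_iff (p := fun q => q ∈ G) hG] at h1
  filter_upwards [h1] with q hq hqG
  exact hq ⟨hqG, mem_univ _⟩

/-- The birth of almost every line is not a given function of the other variables. -/
theorem ae_birth_ne {A : Type*} [MeasurableSpace A] {μ : Measure A} [SFinite μ] (te : ℝ)
    {g : A → ℝ} (hg : Measurable g) : ∀ᵐ q ∂(μ.prod (lineV te)), g q.1 ≠ q.2.1.1 := by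
  have hm : MeasurableSet {q : A × ML | g q.1 = q.2.1.1} :=
    measurableSet_eq_fun (hg.comp measurable_fst) measurable_snd.fst.fst
  have h0 : (μ.prod (lineV te)) {q | g q.1 = q.2.1.1} = 0 := by
    rw [Measure.measure_prod_null hm]
    refine Eventually.of_forall fun a => ?_
    have h1 : ∀ᵐ τ ∂(volume.restrict (Ioc (0 : ℝ) te)), g a ≠ τ := by
      refine ae_restrict_of_ae ?_
      rw [ae_iff]
      simp
    have h2 : ∀ᵐ x ∂((volume.restrict (Ioc (0 : ℝ) te)).prod (volume : Measure PhasePoint)),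
        g a ≠ x.1 := Measure.quasiMeasurePreserving_fst.ae h1
    have h3 : ∀ᵐ l ∂(lineV te), g a ≠ l.1.1 := Measure.quasiMeasurePreserving_fst.ae h2
    rw [ae_iff] at h3
    simpa using h3
  filter_upwards [compl_mem_ae_iff.2 h0] with q hq
  exact hq

/-! ### Data -/

/-- Births of the gas and of `x`. -/
abbrev bG (n : ℕ) (τ : ℝ) : Fin n ⊕ Unit → ℝ := Sum.elim (fun _ => 0) fun _ => τ

/-- Births of the gas, the tree and of `x`. -/
abbrev bGT (n : ℕ) (P : CTree) (τ : ℝ) : (Fin n ⊕ Idx P) ⊕ Unit → ℝ :=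
  Sum.elim (fun _ => 0) fun _ => τ

variable {Φ : Space3 → ℝ} {f₀ : PhasePoint → ℝ} {te T' γ β ε : ℝ} {ρ : Space3 → ℝ≥0∞}
  {C : ℝ≥0∞} {K n : ℕ} {P : CTree} {S : Shp}

/-- **Worlds with released groups**: the groups of (tree, structure) in the world gas + `x`, the
groups of the structure in the world gas + tree + `x`. -/
structure OkDX (Φ : Space3 → ℝ) (ε : ℝ) (P : CTree) (S : Shp)
    (q : (PhasePoint × Par P) × S.Θ) (w : Config n) (x : ML) : Prop where
  gas : ∀ A : Finset (Idx P ⊕ S.κ), OkD Φ ε (bG n x.1.1) (fun a : A => osZ Φ P S ε q a)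
    (Sum.elim w fun _ => back x.1)
  tree : ∀ A : Finset S.κ, OkD Φ ε (bGT n P x.1.1) (fun a : A => S.z ε q.2 a)
    (Sum.elim (Sum.elim w (linesM Φ ε P q.1.1 q.1.2)) fun _ => back x.1)

/-- The birth of `x` is not the birth of an exit. -/
structure SepX (ε : ℝ) (P : CTree) (S : Shp) (q : (PhasePoint × Par P) × S.Θ) (x : ML) :
    Prop where
  tree : ∀ i, rel P q.1.2 i ≠ x.1.1
  line : (dL (S.th ε q.2)).1.1 ≠ x.1.1

/-- **For a fixed birth of `x`**, almost surely. -/
theorem ae_okDX (hΦ : AdmissiblePotential Φ) (hf : Measurable f₀) (he : Env f₀ γ ρ C)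
    (hS : ShpOk γ β ρ S) (hε : 0 < ε) (te T' : ℝ) (K : ℕ) (P : CTree) (n : ℕ) {τ : ℝ}
    (hτ : 0 ≤ τ) (k : ℕ) :
    ∀ᵐ q ∂(((osP Φ f₀ te T' K P S ε ()).prod (volume : Measure (Config n))).prod
      (volume : Measure PhasePoint)), OkDX Φ ε P S q.1.1 q.1.2 ((τ, q.2), k) := by
  have hsf := sf_osP (Φ := Φ) (f₀ := f₀) (te := te) (T' := T') (K := K) (P := P) hS ε ()
  -- the world gas + `x`
  have h1 := ae_okD_osPX hΦ hf he hS hε te T' K P (ω := Fin n ⊕ Unit) (bG n τ)
    (by rintro (i | i); exacts [le_rfl, hτ])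
  have mA := measurePreserving_prodAssoc (osP Φ f₀ te T' K P S ε ())
    (volume : Measure (Config n)) (volume : Measure PhasePoint)
  have m1 := ((MeasurePreserving.id (osP Φ f₀ te T' K P S ε ())).prod
    (measurePreserving_gasLine (ι := Fin n) τ)).comp mA
  have h2 := m1.quasiMeasurePreserving.ae h1
  -- the world gas + tree + `x`
  obtain ⟨c, Λ, -, -, hd⟩ := dom_osP hΦ hf he hS te T' K P
  have h3 : ∀ A : Finset S.κ, ∀ᵐ q ∂((osP Φ f₀ te T' K P S ε ()).prod
      ((volume : Measure (Config n)).prod (volume : Measure PhasePoint))),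
      OkD Φ ε (bGT n P τ) (fun a : A => S.z ε q.1.2 a)
        (Sum.elim (Sum.elim q.2.1 (linesM Φ ε P q.1.1.1 q.1.1.2)) fun _ => back (τ, q.2.2)) := by
    intro A
    have h4 := ae_comp (e := fun a : A => (a : S.κ)) Subtype.val_injective
      (Q := fun U w => OkD Φ ε (bGT n P τ) U w)
      (ae_okD (α := A) (ω := (Fin n ⊕ Idx P) ⊕ Unit) hΦ hε (bGT n P τ)
        (by rintro (i | i); exacts [le_rfl, hτ]))
    -- `(V, (w, y)) ↦ (V ∘ inr, elim (elim w (V ∘ inl)) (back y))`
    have mp : MeasurePreserving (fun p : (Idx P ⊕ S.κ → PhasePoint) × (Config n × PhasePoint) =>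
        ((fun a => p.1 (Sum.inr a), Sum.elim (Sum.elim p.2.1 fun i => p.1 (Sum.inl i))
          fun _ => back (τ, p.2.2)) : (S.κ → PhasePoint) × ((Fin n ⊕ Idx P) ⊕ Unit → PhasePoint)))
        ((volume : Measure (Idx P ⊕ S.κ → PhasePoint)).prod
          ((volume : Measure (Config n)).prod (volume : Measure PhasePoint)))
        ((volume : Measure (S.κ → PhasePoint)).prod
          (volume : Measure ((Fin n ⊕ Idx P) ⊕ Unit → PhasePoint))) := by
      have a1 := (volume_measurePreserving_sumPiEquivProdPi (fun _ : Idx P ⊕ S.κ => PhasePoint)).prod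
        (MeasurePreserving.id ((volume : Measure (Config n)).prod (volume : Measure PhasePoint)))
      have a2 := (Measure.measurePreserving_swap (μ := (volume : Measure (Idx P → PhasePoint)))
        (ν := (volume : Measure (S.κ → PhasePoint)))).prod
        (MeasurePreserving.id ((volume : Measure (Config n)).prod (volume : Measure PhasePoint)))
      have a3 := measurePreserving_prodAssoc (volume : Measure (S.κ → PhasePoint))
        (volume : Measure (Idx P → PhasePoint))
        ((volume : Measure (Config n)).prod (volume : Measure PhasePoint))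
      have b1 := (measurePreserving_prodAssoc (volume : Measure (Idx P → PhasePoint))
        (volume : Measure (Config n)) (volume : Measure PhasePoint)).symm
      have b2 := (Measure.measurePreserving_swap (μ := (volume : Measure (Idx P → PhasePoint)))
        (ν := (volume : Measure (Config n)))).prod
        (MeasurePreserving.id (volume : Measure PhasePoint))
      have b3 := (volume_measurePreserving_sumPiEquivProdPi_symm
        (fun _ : Fin n ⊕ Idx P => PhasePoint)).prod
        (MeasurePreserving.id (volume : Measure PhasePoint))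
      have b4 := measurePreserving_gasLine (ι := Fin n ⊕ Idx P) τ
      have b5 := b4.comp (b3.comp (b2.comp b1))
      have a4 := (MeasurePreserving.id (volume : Measure (S.κ → PhasePoint))).prod b5
      exact a4.comp (a3.comp (a2.comp a1))
    have h5 := mp.quasiMeasurePreserving.ae h4
    exact ae_of_dom_prod (Q := fun V (u : Config n × PhasePoint) =>
      OkD Φ ε (bGT n P τ) (fun a : A => V (Sum.inr a))
        (Sum.elim (Sum.elim u.1 fun i => V (Sum.inl i)) fun _ => back (τ, u.2)))
      (hd ε hε ()) hε h5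
  have h6 := mA.quasiMeasurePreserving.ae (ae_all_iff.2 h3)
  filter_upwards [h2, h6] with q hq1 hq2
  exact ⟨hq1, hq2⟩

/-- Almost surely the birth of `x` is not the birth of an exit. -/
theorem ae_sepX (hS : ShpOk γ β ρ S) (hε : 0 < ε) (te T' : ℝ) (K : ℕ) (P : CTree) (n : ℕ)
    (te' : ℝ) :
    ∀ᵐ q ∂(((osP Φ f₀ te T' K P S ε ()).prod (volume : Measure (Config n))).prod (lineV te')),
      SepX ε P S q.1.1 q.2 := by
  have hsf := sf_osP (Φ := Φ) (f₀ := f₀) (te := te) (T' := T') (K := K) (P := P) hS ε ()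
  have h1 : ∀ᵐ q ∂(((osP Φ f₀ te T' K P S ε ()).prod (volume : Measure (Config n))).prod
      (lineV te')), ∀ i, rel P q.1.1.1.2 i ≠ q.2.1.1 := by
    rw [ae_all_iff]
    exact fun i => ae_birth_ne te' ((measurable_rel P i).comp measurable_fst.fst.snd)
  have h2 := ae_birth_ne (μ := (osP Φ f₀ te T' K P S ε ()).prod (volume : Measure (Config n)))
    te' (g := fun a => (dL (S.th ε a.1.2)).1.1)
    ((PairRep581.measurable_dLx hS hε).comp measurable_fst.snd).fst
  filter_upwards [h1, h2] with q h3 h4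
  exact ⟨h3, h4⟩

/-! ### The world facts of an independent line -/

/-- The measurable version of helper416's `OkX6`. -/
def OkX6M (Φ : Space3 → ℝ) (ε : ℝ) (P : CTree) (z : PhasePoint × Par P) (w : Config n)
    (d x : ML) : Prop :=
  (∀ A : Finset (Idx P ⊕ Unit),
    (((MW.cfg w).ins x).add (sub (withD (lineMM Φ ε P z) d) A)).Ok Φ ε) ∧
  ∀ A : Finset Unit, ((((MW.cfg w).add (InEq2T.treeW Φ ε P z)).ins x).add
    (sub (fun _ : Unit => d) A)).Ok Φ ε

theorem okX6_iff {z : PhasePoint × Par P} {w : Config n} {d x : ML} (h : Adm Φ P z.1.2 z.2) :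
    OkX6M Φ ε P z w d x ↔ OkX6 Φ ε (MW.cfg w) P z d x := by
  have e1 : lineMM Φ ε P z = lineML Φ ε P z := funext fun i => lineMM_of_adm ε h i
  have e2 : InEq2T.treeW Φ ε P z = RealL811.treeW Φ ε P z := by
    unfold InEq2T.treeW RealL811.treeW
    rw [linesM_of_adm ε h]
  unfold OkX6M
  rw [e1, e2]
  exact ⟨fun h => ⟨h.1, h.2⟩, fun h => ⟨h.fam, h.real⟩⟩

theorem measurableSet_okX6M (hΦ : AdmissiblePotential Φ) (hε : 0 < ε) {Ω : Type*}
    [MeasurableSpace Ω] {z : Ω → PhasePoint × Par P} {w : Ω → Config n} {d x : Ω → ML}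
    (hz : Measurable z) (hw : Measurable w) (hd : Measurable d) (hx : Measurable x) :
    MeasurableSet {ω | OkX6M Φ ε P (z ω) (w ω) (d ω) (x ω)} := by
  unfold OkX6M
  refine MeasurableSet.inter ?_ ?_
  · have e : {ω | ∀ A : Finset (Idx P ⊕ Unit),
        (((MW.cfg (w ω)).ins (x ω)).add (sub (withD (lineMM Φ ε P (z ω)) (d ω)) A)).Ok Φ ε} =
        ⋂ A : Finset (Idx P ⊕ Unit), {ω |
          (((MW.cfg (w ω)).ins (x ω)).add (sub (withD (lineMM Φ ε P (z ω)) (d ω)) A)).Ok Φ ε} := by
      ext ω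
      simp only [mem_ofPred_eq, mem_iInter]
    change MeasurableSet {ω | ∀ A : Finset (Idx P ⊕ Unit),
        (((MW.cfg (w ω)).ins (x ω)).add (sub (withD (lineMM Φ ε P (z ω)) (d ω)) A)).Ok Φ ε}
    rw [e]
    refine MeasurableSet.iInter fun A => MeasPair522.measurableSet_ok hΦ hε ?_
    refine ((MeasW.cfg hw).add (MeasW.line hx)).add (MeasW.lines fun k => ?_)
    rcases k with ⟨k | k, hk⟩
    · exact (measurable_lineMM hΦ ε P k).comp hz
    · exact hd
  · have e : {ω | ∀ A : Finset Unit,
        ((((MW.cfg (w ω)).add (InEq2T.treeW Φ ε P (z ω))).ins (x ω)).add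
          (sub (fun _ : Unit => d ω) A)).Ok Φ ε} =
        ⋂ A : Finset Unit, {ω |
          ((((MW.cfg (w ω)).add (InEq2T.treeW Φ ε P (z ω))).ins (x ω)).add
            (sub (fun _ : Unit => d ω) A)).Ok Φ ε} := by
      ext ω
      simp only [mem_ofPred_eq, mem_iInter]
    change MeasurableSet {ω | ∀ A : Finset Unit,
        ((((MW.cfg (w ω)).add (InEq2T.treeW Φ ε P (z ω))).ins (x ω)).add
          (sub (fun _ : Unit => d ω) A)).Ok Φ ε}
    rw [e]
    refine MeasurableSet.iInter fun A => MeasPair522.measurableSet_ok hΦ hε ?_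
    exact (((MeasW.cfg hw).add ((InEq2T.measW_treeW hΦ ε P).comp hz)).add
      (MeasW.line hx)).add (MeasW.lines fun _ => hd)

/-- **`OkX6` for almost every (tree, structure), gas and line**, from a pointwise theorem. `Gd` : a
guard which does not depend on the line. -/
theorem ae_okX6 (hΦ : AdmissiblePotential Φ) (hf : Measurable f₀) (he : Env f₀ γ ρ C)
    (hS : ShpOk γ β ρ S) (hε : 0 < ε) (te T' : ℝ) (K : ℕ) (P : CTree) (n : ℕ) {te' : ℝ}
    {Gd : ((PhasePoint × Par P) × S.Θ) → Config n → Prop}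
    (hGA : ∀ q w, Gd q w → Adm Φ P q.1.1.2 q.1.2)
    (hpt : ∀ q (w : Config n) (x : ML), w ∈ PairExcluded ε n → Gd q w → 0 < x.1.1 → x.1.1 ≤ te' →
      SepX ε P S q x → OkDX Φ ε P S q w x → OkX6 Φ ε (MW.cfg w) P q.1 (dL (S.th ε q.2)) x) :
    ∀ᵐ p ∂(((osP Φ f₀ te T' K P S ε ()).prod (volume : Measure (Config n))).prod (lineV te')),
      Gd p.1.1 p.1.2 → p.1.2 ∈ PairExcluded ε n →
        OkX6 Φ ε (MW.cfg p.1.2) P p.1.1.1 (dL (S.th ε p.1.1.2)) p.2 := by
  have hsf := sf_osP (Φ := Φ) (f₀ := f₀) (te := te) (T' := T') (K := K) (P := P) hS ε ()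
  have hdm := PairRep581.measurable_dLx hS hε
  set G : Set ((((PhasePoint × Par P) × S.Θ) × Config n) × ML) :=
    {p | SepX ε P S p.1.1 p.2 → OkX6M Φ ε P p.1.1.1 p.1.2 (dL (S.th ε p.1.1.2)) p.2} with hG
  have hGm : MeasurableSet G := by
    refine MeasurableSet.imp ?_ ?_
    · have e : {p : (((PhasePoint × Par P) × S.Θ) × Config n) × ML | SepX ε P S p.1.1 p.2} =
          (⋂ i, {p | rel P p.1.1.1.2 i = p.2.1.1}ᶜ) ∩
            {p | (dL (S.th ε p.1.1.2)).1.1 = p.2.1.1}ᶜ := by
        ext p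
        simp only [mem_ofPred_eq, mem_inter_iff, mem_iInter, mem_compl_iff]
        exact ⟨fun h => ⟨h.tree, h.line⟩, fun h => ⟨h.1, h.2⟩⟩
      rw [e]
      refine MeasurableSet.inter (MeasurableSet.iInter fun i => ?_) ?_
      · exact (measurableSet_eq_fun ((measurable_rel P i).comp measurable_fst.fst.fst.snd)
          measurable_snd.fst.fst).compl
      · exact (measurableSet_eq_fun ((hdm.comp measurable_fst.fst.snd).fst)
          measurable_snd.fst.fst).compl
    · refine measurableSet_okX6M hΦ hε measurable_fst.fst.fst measurable_fst.snd ?_ measurable_snd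
      exact (measurable_fst.fst.comp (hS.mth ε hε)).comp measurable_fst.fst.snd
  have h1 : ∀ᵐ p ∂(((osP Φ f₀ te T' K P S ε ()).prod (volume : Measure (Config n))).prod
      (lineV te')), (Gd p.1.1 p.1.2 ∧ p.1.2 ∈ PairExcluded ε n) → p ∈ G := by
    refine ae_lineV_guard (Gd := fun a : ((PhasePoint × Par P) × S.Θ) × Config n =>
      Gd a.1 a.2 ∧ a.2 ∈ PairExcluded ε n) hGm fun τ hτ k => ?_
    filter_upwards [ae_okDX hΦ hf he hS hε te T' K P n hτ.1.le k] with q hq hgd hsep
    exact (okX6_iff (hGA _ _ hgd.1)).2 (hpt _ _ _ hgd.2 hgd.1 hτ.1 hτ.2 hsep hq)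
  filter_upwards [h1, ae_sepX (Φ := Φ) (f₀ := f₀) hS hε te T' K P n te'] with p hp hsep hgd hw
  exact (okX6_iff (hGA _ _ hgd)).1 (hp ⟨hgd, hw⟩ hsep)

/-- **The bad worlds of an independent line are null.** -/
theorem gNull_okX6 (hΦ : AdmissiblePotential Φ) (hf : Measurable f₀) (he : Env f₀ γ ρ C)
    (hS : ShpOk γ β ρ S) (te T' : ℝ) (K : ℕ) (P : CTree) (gl : ℝ → ℝ) (rm : ℝ≥0∞) (Km : ℕ)
    (te' : ℝ) {Gd : ℝ → (n : ℕ) → ((PhasePoint × Par P) × S.Θ) → Config n → Prop}
    (hGA : ∀ ε, 0 < ε → ∀ n q w, Gd ε n q w → Adm Φ P q.1.1.2 q.1.2)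
    (hpt : ∀ ε, 0 < ε → ∀ n q (w : Config n) (x : ML), w ∈ PairExcluded ε n → Gd ε n q w →
      0 < x.1.1 → x.1.1 ≤ te' → SepX ε P S q x → OkDX Φ ε P S q w x →
        OkX6 Φ ε (MW.cfg w) P q.1 (dL (S.th ε q.2)) x) :
    GNull f₀ (fun ε i => (osP Φ f₀ te T' K P S ε i).prod (lineM gl rm Km te'))
      (fun ε _ n θ w => Gd ε n θ.1 w ∧
        ¬ OkX6 Φ ε (MW.cfg w) P θ.1.1 (dL (S.th ε θ.1.2)) θ.2) := by
  refine PairRep581.gNull_of_ae hf (fun ε i => ?_) fun ε hε i n => ?_
  · have := sf_osP (Φ := Φ) (f₀ := f₀) (te := te) (T' := T') (K := K) (P := P) hS ε i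
    infer_instance
  have hsf := sf_osP (Φ := Φ) (f₀ := f₀) (te := te) (T' := T') (K := K) (P := P) hS ε ()
  have h1 := ae_okX6 hΦ hf he hS hε te T' K P n (te' := te') (Gd := Gd ε n)
    (hGA ε hε n) (hpt ε hε n)
  have hac : lineM gl rm Km te' ≪ lineV te' := withDensity_absolutelyContinuous _ _
  have h2 := (Measure.AbsolutelyContinuous.rfl (μ :=
    (osP Φ f₀ te T' K P S ε ()).prod (volume : Measure (Config n)))).prod hac |>.ae_le h1
  -- `((q, x), w) ↦ ((q, w), x)`
  have m1 := measurePreserving_prodAssoc (osP Φ f₀ te T' K P S ε ()) (lineM gl rm Km te')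
    (volume : Measure (Config n))
  have m2 := (MeasurePreserving.id (osP Φ f₀ te T' K P S ε ())).prod
    (Measure.measurePreserving_swap (μ := lineM gl rm Km te') (ν := (volume : Measure (Config n))))
  have m3 := (measurePreserving_prodAssoc (osP Φ f₀ te T' K P S ε ())
    (volume : Measure (Config n)) (lineM gl rm Km te')).symm
  have h3 := (m3.comp (m2.comp m1)).quasiMeasurePreserving.ae h2
  filter_upwards [h3] with p hp hw hbad
  exact hbad.2 (hp hbad.1 hw)

end Crest.Agent.R122.LK6ae973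

end
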