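import Mathlib

/-!
Row 122 (helper974): abstract weak law of large numbers by second moments.

`A i w z V ∈ [0,1]` is a random functional of a mark `V` (e.g. "the cluster `V` is not hit in the
world `w`"), `μ z` a finite measure on marks, depending on a macroscopic parameter `z` (e.g. the
birth point of the last leg), `P i` the law of `w`.  If the one and two point expectations converge
to `p` and `p ⊗ p` almost everywhere, the random densities `∫ A dμ z` converge to `∫ p dμ z` in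
`L¹(P i ⊗ ν)`.
-/

set_option autoImplicit false
set_option linter.unusedSectionVars false

noncomputable section

namespace Crest.Agent.R122.LLN974

open MeasureTheory Filter Topology ProbabilityTheory
open scoped ENNReal

/-! ### One parameter value -/

section one

variable {Ω Y : Type*} [MeasurableSpace Ω] [MeasurableSpace Y]

/-- covariance kernel -/
def cv (P : Measure Ω) (a : Ω → Y → ℝ) (p : Y → ℝ) (q : Y × Y) : ℝ :=
  ∫ w, (a w q.1 - p q.1) * (a w q.2 - p q.2) ∂P

variable {P : Measure Ω} [IsProbabilityMeasure P] {a : Ω → Y → ℝ} {p : Y → ℝ}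

theorem abs_sub_le_one {x y : ℝ} (hx0 : 0 ≤ x) (hx1 : x ≤ 1) (hy0 : 0 ≤ y) (hy1 : y ≤ 1) :
    |x - y| ≤ 1 := by
  rw [abs_le]
  constructor <;> linarith

theorem measurable_pair (ham : Measurable (Function.uncurry a)) (hpm : Measurable p) :
    Measurable fun r : Ω × Y × Y => (a r.1 r.2.1 - p r.2.1) * (a r.1 r.2.2 - p r.2.2) := by
  have h1 : Measurable fun r : Ω × Y × Y => a r.1 r.2.1 :=
    ham.comp (measurable_fst.prodMk (measurable_fst.comp measurable_snd))
  have h2 : Measurable fun r : Ω × Y × Y => a r.1 r.2.2 :=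
    ham.comp (measurable_fst.prodMk (measurable_snd.comp measurable_snd))
  exact (h1.sub (hpm.comp (measurable_fst.comp measurable_snd))).mul
    (h2.sub (hpm.comp (measurable_snd.comp measurable_snd)))

theorem abs_pair_le (ha0 : ∀ w V, 0 ≤ a w V) (ha1 : ∀ w V, a w V ≤ 1) (hp0 : ∀ V, 0 ≤ p V)
    (hp1 : ∀ V, p V ≤ 1) (w : Ω) (V V' : Y) : |(a w V - p V) * (a w V' - p V')| ≤ 1 := by
  rw [abs_mul]
  have h1 := abs_sub_le_one (ha0 w V) (ha1 w V) (hp0 V) (hp1 V)
  have h2 := abs_sub_le_one (ha0 w V') (ha1 w V') (hp0 V') (hp1 V')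
  calc |a w V - p V| * |a w V' - p V'| ≤ 1 * 1 := by gcongr
    _ = 1 := one_mul 1

theorem measurable_cv (ham : Measurable (Function.uncurry a)) (hpm : Measurable p) :
    Measurable (cv P a p) := by
  have h := measurable_pair ham hpm
  have h2 : StronglyMeasurable (Function.uncurry fun (q : Y × Y) (w : Ω) =>
      (a w q.1 - p q.1) * (a w q.2 - p q.2)) :=
    (h.comp (measurable_snd.prodMk measurable_fst)).stronglyMeasurable
  exact (h2.integral_prod_right (ν := P)).measurable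

theorem abs_cv_le (ha0 : ∀ w V, 0 ≤ a w V) (ha1 : ∀ w V, a w V ≤ 1) (hp0 : ∀ V, 0 ≤ p V)
    (hp1 : ∀ V, p V ≤ 1) (q : Y × Y) : |cv P a p q| ≤ 1 := by
  unfold cv
  have h := norm_integral_le_of_norm_le_const (μ := P)
    (f := fun w => (a w q.1 - p q.1) * (a w q.2 - p q.2)) (C := 1)
    (Eventually.of_forall fun w => abs_pair_le ha0 ha1 hp0 hp1 w q.1 q.2)
  simpa using h

/-- **second moment bound**, uniform in the weight `φ` -/
theorem second_moment_le (ham : Measurable (Function.uncurry a)) (hpm : Measurable p)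
    (ha0 : ∀ w V, 0 ≤ a w V) (ha1 : ∀ w V, a w V ≤ 1) (hp0 : ∀ V, 0 ≤ p V) (hp1 : ∀ V, p V ≤ 1)
    (μ : Measure Y) [IsFiniteMeasure μ] {φ : Y → ℝ} (hφm : Measurable φ) (hφ : ∀ V, |φ V| ≤ 1) :
    ∫ w, (∫ V, φ V * (a w V - p V) ∂μ) ^ 2 ∂P ≤ ∫ q, |cv P a p q| ∂(μ.prod μ) := by
  have hpair := measurable_pair ham hpm
  have hF : Measurable fun r : Ω × Y × Y =>
      (φ r.2.1 * φ r.2.2) * ((a r.1 r.2.1 - p r.2.1) * (a r.1 r.2.2 - p r.2.2)) :=
    ((hφm.comp (measurable_fst.comp measurable_snd)).mul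
      (hφm.comp (measurable_snd.comp measurable_snd))).mul hpair
  have hFb : ∀ r : Ω × Y × Y, ‖(φ r.2.1 * φ r.2.2) *
      ((a r.1 r.2.1 - p r.2.1) * (a r.1 r.2.2 - p r.2.2))‖ ≤ 1 := by
    intro r
    rw [norm_mul, norm_mul, Real.norm_eq_abs, Real.norm_eq_abs, Real.norm_eq_abs]
    have h1 := abs_pair_le ha0 ha1 hp0 hp1 r.1 r.2.1 r.2.2
    have h2 : |φ r.2.1| * |φ r.2.2| ≤ 1 * 1 := by
      gcongr
      · exact hφ _
      · exact hφ _
    calc |φ r.2.1| * |φ r.2.2| * |(a r.1 r.2.1 - p r.2.1) * (a r.1 r.2.2 - p r.2.2)|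
        ≤ (1 * 1) * 1 := by gcongr
      _ = 1 := by norm_num
  have hFi : Integrable (Function.uncurry fun (w : Ω) (q : Y × Y) =>
      (φ q.1 * φ q.2) * ((a w q.1 - p q.1) * (a w q.2 - p q.2))) (P.prod (μ.prod μ)) := by
    refine Integrable.of_bound (C := 1) hF.aestronglyMeasurable (Eventually.of_forall ?_)
    intro r
    exact hFb r
  have h1 : ∀ w, (∫ V, φ V * (a w V - p V) ∂μ) ^ 2 =
      ∫ q : Y × Y, (φ q.1 * φ q.2) * ((a w q.1 - p q.1) * (a w q.2 - p q.2)) ∂(μ.prod μ) := by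
    intro w
    rw [sq, ← integral_prod_mul]
    refine integral_congr_ae (Eventually.of_forall fun q => ?_)
    simp only
    ring
  simp only [h1]
  rw [integral_integral_swap hFi]
  have h2 : ∀ q : Y × Y, ∫ w, (φ q.1 * φ q.2) * ((a w q.1 - p q.1) * (a w q.2 - p q.2)) ∂P =
      (φ q.1 * φ q.2) * cv P a p q := fun q => integral_const_mul _ _
  simp only [h2]
  have hcvm := measurable_cv (P := P) ham hpm
  have hcvi : Integrable (fun q => |cv P a p q|) (μ.prod μ) :=
    Integrable.of_bound (C := 1) hcvm.abs.aestronglyMeasurable (Eventually.of_forall fun q => by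
      rw [Real.norm_eq_abs, abs_abs]
      exact abs_cv_le ha0 ha1 hp0 hp1 q)
  have hl : Integrable (fun q : Y × Y => (φ q.1 * φ q.2) * cv P a p q) (μ.prod μ) := by
    refine hcvi.mono' (((hφm.comp measurable_fst).mul
      (hφm.comp measurable_snd)).mul hcvm).aestronglyMeasurable (Eventually.of_forall fun q => ?_)
    rw [norm_mul, norm_mul, Real.norm_eq_abs, Real.norm_eq_abs, Real.norm_eq_abs]
    have h3 : |φ q.1| * |φ q.2| ≤ 1 * 1 := by
      gcongr
      · exact hφ _
      · exact hφ _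
    calc |φ q.1| * |φ q.2| * |cv P a p q| ≤ (1 * 1) * |cv P a p q| := by gcongr
      _ = |cv P a p q| := by ring
  refine integral_mono hl hcvi fun q => ?_
  have h3 : |φ q.1| * |φ q.2| ≤ 1 * 1 := by
    gcongr
    · exact hφ _
    · exact hφ _
  refine (le_abs_self _).trans ?_
  rw [abs_mul, abs_mul]
  calc |φ q.1| * |φ q.2| * |cv P a p q| ≤ (1 * 1) * |cv P a p q| := by gcongr
    _ = |cv P a p q| := by ring

/-- first absolute moment, uniform in the weight -/
theorem first_moment_le (ham : Measurable (Function.uncurry a)) (hpm : Measurable p)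
    (ha0 : ∀ w V, 0 ≤ a w V) (ha1 : ∀ w V, a w V ≤ 1) (hp0 : ∀ V, 0 ≤ p V) (hp1 : ∀ V, p V ≤ 1)
    (μ : Measure Y) [IsFiniteMeasure μ] {φ : Y → ℝ} (hφm : Measurable φ) (hφ : ∀ V, |φ V| ≤ 1) :
    ∫ w, |∫ V, φ V * (a w V - p V) ∂μ| ∂P ≤
      Real.sqrt (∫ q, |cv P a p q| ∂(μ.prod μ)) := by
  set g : Ω → ℝ := fun w => ∫ V, φ V * (a w V - p V) ∂μ with hg
  have hgm : Measurable g := by
    have h2 : StronglyMeasurable (Function.uncurry fun (w : Ω) (V : Y) => φ V * (a w V - p V)) :=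
      ((hφm.comp measurable_snd).mul (ham.sub (hpm.comp measurable_snd))).stronglyMeasurable
    exact (h2.integral_prod_right (ν := μ)).measurable
  have hgb : ∀ w, |g w| ≤ μ.real Set.univ := by
    intro w
    have h := norm_integral_le_of_norm_le_const (μ := μ) (f := fun V => φ V * (a w V - p V))
      (C := 1) (Eventually.of_forall fun V => by
        rw [norm_mul, Real.norm_eq_abs, Real.norm_eq_abs]
        calc |φ V| * |a w V - p V| ≤ 1 * 1 := by
              gcongr
              · exact hφ _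
              · exact abs_sub_le_one (ha0 w V) (ha1 w V) (hp0 V) (hp1 V)
          _ = 1 := by norm_num)
    simpa using h
  have hg2 : MemLp (fun w => |g w|) 2 P :=
    MemLp.of_bound hgm.abs.aestronglyMeasurable (μ.real Set.univ)
      (Eventually.of_forall fun w => by
        rw [Real.norm_eq_abs, abs_abs]
        exact hgb w)
  have hvar : 0 ≤ Var[fun w => |g w|; P] := variance_nonneg _ _
  rw [variance_eq_sub hg2] at hvar
  have h3 : (∫ w, |g w| ∂P) ^ 2 ≤ ∫ w, (g w) ^ 2 ∂P := by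
    have e : (P[(fun w => |g w|) ^ 2]) = ∫ w, (g w) ^ 2 ∂P := by
      refine integral_congr_ae (Eventually.of_forall fun w => ?_)
      simp [sq_abs]
    rw [e] at hvar
    linarith
  have h4 := second_moment_le (P := P) ham hpm ha0 ha1 hp0 hp1 μ hφm hφ
  exact Real.le_sqrt_of_sq_le (h3.trans h4)

/-- convergence of the covariance kernel -/
theorem tendsto_cv {ι : Type*} {l : Filter ι} [l.IsCountablyGenerated] {P : ι → Measure Ω}
    [∀ i, IsProbabilityMeasure (P i)] {a : ι → Ω → Y → ℝ} {p : Y → ℝ}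
    (ham : ∀ i, Measurable (Function.uncurry (a i))) (hpm : Measurable p)
    (ha0 : ∀ i w V, 0 ≤ a i w V) (ha1 : ∀ i w V, a i w V ≤ 1) (hp0 : ∀ V, 0 ≤ p V)
    (hp1 : ∀ V, p V ≤ 1) (μ : Measure Y) [IsFiniteMeasure μ]
    (h1 : ∀ᵐ V ∂μ, Tendsto (fun i => ∫ w, a i w V ∂P i) l (𝓝 (p V)))
    (h2 : ∀ᵐ q ∂(μ.prod μ), Tendsto (fun i => ∫ w, a i w q.1 * a i w q.2 ∂P i) l
      (𝓝 (p q.1 * p q.2))) :
    Tendsto (fun i => ∫ q, |cv (P i) (a i) p q| ∂(μ.prod μ)) l (𝓝 0) := by
  have h0 : (0 : ℝ) = ∫ _q : Y × Y, (0 : ℝ) ∂(μ.prod μ) := by simp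
  rw [h0]
  refine tendsto_integral_filter_of_dominated_convergence (fun _ => (1 : ℝ)) ?_ ?_
    (integrable_const _) ?_
  · exact Eventually.of_forall fun i => (measurable_cv (ham i) hpm).abs.aestronglyMeasurable
  · refine Eventually.of_forall fun i => Eventually.of_forall fun q => ?_
    rw [Real.norm_eq_abs, abs_abs]
    exact abs_cv_le (ha0 i) (ha1 i) hp0 hp1 q
  · have e1 : ∀ᵐ q ∂(μ.prod μ), Tendsto (fun i => ∫ w, a i w q.1 ∂P i) l (𝓝 (p q.1)) :=
      Measure.quasiMeasurePreserving_fst.ae h1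
    have e2 : ∀ᵐ q ∂(μ.prod μ), Tendsto (fun i => ∫ w, a i w q.2 ∂P i) l (𝓝 (p q.2)) :=
      Measure.quasiMeasurePreserving_snd.ae h1
    filter_upwards [e1, e2, h2] with q t1 t2 t12
    have e3 : ∀ i, cv (P i) (a i) p q = (∫ w, a i w q.1 * a i w q.2 ∂P i)
        - p q.2 * (∫ w, a i w q.1 ∂P i) - p q.1 * (∫ w, a i w q.2 ∂P i) + p q.1 * p q.2 := by
      intro i
      have am : ∀ V, Measurable fun w => a i w V := fun V =>
        (ham i).comp (measurable_id.prodMk measurable_const)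
      have ai : ∀ V, Integrable (fun w => a i w V) (P i) := fun V =>
        Integrable.of_bound (C := 1) (am V).aestronglyMeasurable
          (Eventually.of_forall fun w => by
            rw [Real.norm_eq_abs, abs_of_nonneg (ha0 i w V)]
            exact ha1 i w V)
      have aai : Integrable (fun w => a i w q.1 * a i w q.2) (P i) :=
        Integrable.of_bound (C := 1) ((am q.1).mul (am q.2)).aestronglyMeasurable
          (Eventually.of_forall fun w => by
            rw [norm_mul, Real.norm_eq_abs, Real.norm_eq_abs, abs_of_nonneg (ha0 i w q.1),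
              abs_of_nonneg (ha0 i w q.2)]
            calc a i w q.1 * a i w q.2 ≤ 1 * 1 := by
                  gcongr
                  · exact ha0 i w q.2
                  · exact ha1 i w q.1
                  · exact ha1 i w q.2
              _ = 1 := by norm_num)
      have e4 : ∀ w, (a i w q.1 - p q.1) * (a i w q.2 - p q.2) =
          a i w q.1 * a i w q.2 - p q.2 * a i w q.1 - p q.1 * a i w q.2 + p q.1 * p q.2 := by
        intro w; ring
      have b1 : Integrable (fun w => p q.2 * a i w q.1) (P i) := (ai q.1).const_mul _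
      have b2 : Integrable (fun w => p q.1 * a i w q.2) (P i) := (ai q.2).const_mul _
      have b3 : Integrable (fun w => a i w q.1 * a i w q.2 - p q.2 * a i w q.1) (P i) :=
        aai.sub b1
      have b4 : Integrable (fun w => a i w q.1 * a i w q.2 - p q.2 * a i w q.1 -
          p q.1 * a i w q.2) (P i) := b3.sub b2
      have c1 : ∫ w, (a i w q.1 * a i w q.2 - p q.2 * a i w q.1 - p q.1 * a i w q.2 +
          p q.1 * p q.2) ∂P i = (∫ w, (a i w q.1 * a i w q.2 - p q.2 * a i w q.1 -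
          p q.1 * a i w q.2) ∂P i) + ∫ _w, p q.1 * p q.2 ∂P i :=
        integral_add b4 (integrable_const _)
      have c2 : ∫ w, (a i w q.1 * a i w q.2 - p q.2 * a i w q.1 - p q.1 * a i w q.2) ∂P i =
          (∫ w, (a i w q.1 * a i w q.2 - p q.2 * a i w q.1) ∂P i) -
          ∫ w, p q.1 * a i w q.2 ∂P i := integral_sub b3 b2
      have c3 : ∫ w, (a i w q.1 * a i w q.2 - p q.2 * a i w q.1) ∂P i =
          (∫ w, a i w q.1 * a i w q.2 ∂P i) - ∫ w, p q.2 * a i w q.1 ∂P i :=
        integral_sub aai b1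
      unfold cv
      simp only [e4]
      rw [c1, c2, c3, integral_const_mul, integral_const_mul]
      simp
    simp only [e3]
    have e5 : Tendsto (fun i => (∫ w, a i w q.1 * a i w q.2 ∂P i)
        - p q.2 * (∫ w, a i w q.1 ∂P i) - p q.1 * (∫ w, a i w q.2 ∂P i) + p q.1 * p q.2) l
        (𝓝 (p q.1 * p q.2 - p q.2 * p q.1 - p q.1 * p q.2 + p q.1 * p q.2)) :=
      ((t12.sub (t1.const_mul _)).sub (t2.const_mul _)).add_const _
    have e6 : p q.1 * p q.2 - p q.2 * p q.1 - p q.1 * p q.2 + p q.1 * p q.2 = 0 := by ring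
    rw [e6] at e5
    simpa using e5.abs

/-- **law of large numbers at one parameter**, uniform in the weight -/
theorem lln_one {ι : Type*} {l : Filter ι} [l.IsCountablyGenerated] {P : ι → Measure Ω}
    [∀ i, IsProbabilityMeasure (P i)] {a : ι → Ω → Y → ℝ} {p : Y → ℝ}
    (ham : ∀ i, Measurable (Function.uncurry (a i))) (hpm : Measurable p)
    (ha0 : ∀ i w V, 0 ≤ a i w V) (ha1 : ∀ i w V, a i w V ≤ 1) (hp0 : ∀ V, 0 ≤ p V)
    (hp1 : ∀ V, p V ≤ 1) (μ : Measure Y) [IsFiniteMeasure μ]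
    (h1 : ∀ᵐ V ∂μ, Tendsto (fun i => ∫ w, a i w V ∂P i) l (𝓝 (p V)))
    (h2 : ∀ᵐ q ∂(μ.prod μ), Tendsto (fun i => ∫ w, a i w q.1 * a i w q.2 ∂P i) l
      (𝓝 (p q.1 * p q.2))) {δ : ℝ} (hδ : 0 < δ) :
    ∀ᶠ i in l, ∀ φ : Y → ℝ, Measurable φ → (∀ V, |φ V| ≤ 1) →
      ∫ w, |∫ V, φ V * (a i w V - p V) ∂μ| ∂P i ≤ δ := by
  have h3 := tendsto_cv ham hpm ha0 ha1 hp0 hp1 μ h1 h2
  filter_upwards [h3.eventually (gt_mem_nhds (show (0 : ℝ) < δ ^ 2 by positivity))] with i hi φ hφm hφ
  refine (first_moment_le (P := P i) (ham i) hpm (ha0 i) (ha1 i) hp0 hp1 μ hφm hφ).trans ?_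
  rw [Real.sqrt_le_left hδ.le]
  exact hi.le

end one

end Crest.Agent.R122.LLN974
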