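import Crest.Agent.R122.LN2Ct_473

/-!
# Row 122, LN2: bad partitions of a structure in contact with a tree (helper473)

`ctM .. P m e` : measure on (tree, structure): the line `e` of the structure meets the root of the
tree; the activity is included.

* `lintegral_ctM`, `lintegral_ctM_S`, `lintegral_ctM_inv_le`, `lintegral_ctM_P_le`.
* `dom_ct` (tree and structure), `dom_ctS` (a sub-structure), `dom_ctP` (the tree).
* `SubHyp` : a sub-structure (part of the lines) of a translation invariant structure.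
* `gLe_sOnly_ct`, `gLe_badGas_ct` : the bad partitions of a sub-structure, including those without
  gas, are null over `ctM`.
* `gLe_sOnly_near`, `gLe_badGas_near` : the same for the structure near the gas.
-/

set_option autoImplicit false
set_option linter.unusedSectionVars false

open MeasureTheory Set Filter Topology
open scoped Classical ENNReal
open Crest.AnalysisR.Kinetic

noncomputable section

namespace Crest.Agent.R122.LN2

open Crest.Agent.R122.GC311 Crest.Agent.R122.Kin796 Crest.Agent.R122.Kin796.CTree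
open Crest.Agent.R122.EDefs602 Crest.Agent.R122.Tree674 Crest.Agent.R122.Disc416
open Crest.Agent.R122.ToTree335 Crest.Agent.R122.OneC423 Crest.Agent.R122.VLMeas973
open Crest.Agent.R122.Boost969 (LSt posAt)
open Crest.Agent.R122.Pair292 (shL)
open Crest.Agent.R122.TouchFlux494 Crest.Agent.R122.Gate424

variable {Φ : Space3 → ℝ} {f₀ : PhasePoint → ℝ} {ε γ a : ℝ} {ρ : Space3 → ℝ≥0∞} {C₀ : ℝ≥0∞}

theorem Env.mono {γ' : ℝ} (he : Env f₀ γ ρ C₀) (h : γ' ≤ γ) : Env f₀ γ' ρ C₀ where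
  meas := he.meas
  le_one := he.le_one
  int := he.int
  fin := he.fin
  le z := (he.le z).trans (mul_le_mul_right (mul_le_mul_right (wG_anti h _) _) _)

/-! ## Changing the structure measure -/

section meas

variable {Θ : Type} [MeasurableSpace Θ] {I : Type} {m m' : ℝ → I → Measure Θ}
  {E : ℝ → I → (n : ℕ) → Θ → Config n → Prop} {c : ℝ≥0∞}

/-- Smaller measures, for small `ε`. -/
theorem GLe.mono_meas (h : GLe f₀ m E c) {ε₁ : ℝ} (h1 : 0 < ε₁)
    (hm : ∀ ε i, 0 < ε → ε < ε₁ → m' ε i ≤ m ε i) : GLe f₀ m' E c := by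
  obtain ⟨ε₀, h0, h⟩ := h
  refine ⟨min ε₀ ε₁, lt_min h0 h1, fun ε hε hlt i => ?_⟩
  obtain ⟨G, hGm, hG, hGi⟩ := h ε hε (hlt.trans_le (min_le_left _ _)) i
  exact ⟨G, hGm, hG, (lintegral_mono' (hm ε i hε (hlt.trans_le (min_le_right _ _)))
    le_rfl).trans hGi⟩

theorem GNull.mono_meas (h : GNull f₀ m E) {ε₁ : ℝ} (h1 : 0 < ε₁)
    (hm : ∀ ε i, 0 < ε → ε < ε₁ → m' ε i ≤ m ε i) : GNull f₀ m' E :=
  fun δ hδ => GLe.mono_meas (h δ hδ) h1 hm

/-- Domination with a constant, for small `ε`. -/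
theorem GLe.mono_measC (h : GLe f₀ m E c) {ε₁ : ℝ} (h1 : 0 < ε₁) {k : ℝ≥0∞} (hf : Measurable f₀)
    (hm : ∀ ε i, 0 < ε → ε < ε₁ → ∀ F : Θ → ℝ≥0∞, Measurable F →
      ∫⁻ θ, F θ ∂(m' ε i) ≤ k * ∫⁻ θ, F θ ∂(m ε i)) : GLe f₀ m' E (k * c) := by
  obtain ⟨ε₀, h0, h⟩ := h
  refine ⟨min ε₀ ε₁, lt_min h0 h1, fun ε hε hlt i => ?_⟩
  obtain ⟨G, hGm, hG, hGi⟩ := h ε hε (hlt.trans_le (min_le_left _ _)) i
  refine ⟨G, hGm, hG, ?_⟩
  have hmeas : Measurable fun θ => gcE f₀ ε fun n w => G n (θ, w) :=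
    MeasE416.measurable_gcE_of hf ε (F := fun n θ w => G n (θ, w)) fun n => hGm n
  exact (hm ε i hε (hlt.trans_le (min_le_right _ _)) _ hmeas).trans (mul_le_mul_right hGi _)

end meas

/-! ## The measure -/

section ctM

variable {Θ : Type} [MeasurableSpace Θ] {m : Measure Θ} {e : Θ → LSt} {te T' : ℝ} {P : CTree}

/-- Measure on (tree, structure): the line `e` of the structure meets the root of the tree; the
activity is included. -/
def ctM (Φ : Space3 → ℝ) (f₀ : PhasePoint → ℝ) (ε te T' : ℝ) (P : CTree) (m : Measure Θ)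
    (e : Θ → LSt) : Measure ((PhasePoint × Par P) × Θ) :=
  activity ε • ((treeM Φ f₀ ε P T').prod m).restrict {q | (q.1, e q.2) ∈ ctSet Φ ε te P}

instance [SFinite m] : SFinite (ctM Φ f₀ ε te T' P m e) := by
  unfold ctM; infer_instance

theorem measurableSet_ctq (hΦ : AdmissiblePotential Φ) (he : Measurable e) (ε te : ℝ) :
    MeasurableSet {q : (PhasePoint × Par P) × Θ | (q.1, e q.2) ∈ ctSet Φ ε te P} := by
  have h : Measurable fun q : (PhasePoint × Par P) × Θ => (q.1, e q.2) :=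
    measurable_fst.prodMk (he.comp measurable_snd)
  exact h (measurableSet_ctSet hΦ ε te P)

/-- Integrals against `ctM`. -/
theorem lintegral_ctM (hΦ : AdmissiblePotential Φ) [SFinite m] (he : Measurable e)
    {F : (PhasePoint × Par P) × Θ → ℝ≥0∞} (hF : Measurable F) :
    ∫⁻ q, F q ∂(ctM Φ f₀ ε te T' P m e) = activity ε *
      ∫⁻ θ, ∫⁻ z, ctI Φ ε te P (e θ) z * F (z, θ) ∂(treeM Φ f₀ ε P T') ∂m := by
  have hS := measurableSet_ctq (P := P) hΦ he ε te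
  unfold ctM
  rw [lintegral_smul_measure, smul_eq_mul, ← lintegral_indicator hS,
    lintegral_prod_symm _ (hF.indicator hS).aemeasurable]
  congr 1
  refine lintegral_congr fun θ => lintegral_congr fun z => ?_
  by_cases h : (z, e θ) ∈ ctSet Φ ε te P
  · rw [indicator_of_mem (show (z, θ) ∈ {q : (PhasePoint × Par P) × Θ |
      (q.1, e q.2) ∈ ctSet Φ ε te P} from h), ctI_of_mem h, one_mul]
  · rw [indicator_of_notMem (show (z, θ) ∉ {q : (PhasePoint × Par P) × Θ |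
      (q.1, e q.2) ∈ ctSet Φ ε te P} from h), ctI_of_notMem h, zero_mul]

/-- Marginal on the structure. -/
theorem lintegral_ctM_S (hΦ : AdmissiblePotential Φ) [SFinite m] (he : Measurable e) (a : ℝ)
    {H : Θ → ℝ≥0∞} (hH : Measurable H) :
    ∫⁻ q, expW a (linesM Φ ε P q.1.1 q.1.2) * H q.2 ∂(ctM Φ f₀ ε te T' P m e) =
      ∫⁻ θ, ctG Φ f₀ a ε te T' P (e θ) * H θ ∂m := by
  have hexp : Measurable fun z : PhasePoint × Par P => expW a (linesM Φ ε P z.1 z.2) :=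
    (measurable_expW a).comp (measurable_linesM hΦ ε P)
  rw [lintegral_ctM (F := fun q : (PhasePoint × Par P) × Θ =>
    expW a (linesM Φ ε P q.1.1 q.1.2) * H q.2) hΦ he
    ((hexp.comp measurable_fst).mul (hH.comp measurable_snd))]
  have h1 : ∀ θ, ∫⁻ z, ctI Φ ε te P (e θ) z * (expW a (linesM Φ ε P z.1 z.2) * H θ)
      ∂(treeM Φ f₀ ε P T') =
      (∫⁻ z, ctI Φ ε te P (e θ) z * expW a (linesM Φ ε P z.1 z.2) ∂(treeM Φ f₀ ε P T')) * H θ := by
    intro θ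
    have h2 : Measurable fun z : PhasePoint × Par P =>
        ctI Φ ε te P (e θ) z * expW a (linesM Φ ε P z.1 z.2) :=
      measurable_ctE_comp hΦ a ε te P measurable_const measurable_id
    rw [← lintegral_mul_const _ h2]
    exact lintegral_congr fun z => (mul_assoc _ _ _).symm
  simp only [h1]
  have h3 : Measurable fun θ => (∫⁻ z, ctI Φ ε te P (e θ) z * expW a (linesM Φ ε P z.1 z.2)
      ∂(treeM Φ f₀ ε P T')) * H θ := by
    have h4 : Measurable fun q : Θ × (PhasePoint × Par P) =>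
        ctI Φ ε te P (e q.1) q.2 * expW a (linesM Φ ε P q.2.1 q.2.2) :=
      measurable_ctE_comp hΦ a ε te P (he.comp measurable_fst) measurable_snd
    exact (h4.lintegral_prod_right').mul hH
  rw [← lintegral_const_mul _ h3]
  refine lintegral_congr fun θ => ?_
  unfold ctG
  rw [mul_assoc]

theorem expW_at_zero {κ : Type} [Fintype κ] (z : κ → PhasePoint) : expW 0 z = 1 := by
  unfold expW
  simp

/-- **Marginal on the structure, pointwise bound.** -/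
theorem exists_ctM_S (hΦ : AdmissiblePotential Φ) (hf : Measurable f₀) (he : Env f₀ γ ρ C₀)
    (ha : a < γ) (P : CTree) (T : ℝ) : ∃ C : ℝ≥0∞, C ≠ ∞ ∧
      ∀ (ε te T' : ℝ), 0 < ε → te ≤ T → T' ≤ T → ∀ (Θ : Type) [MeasurableSpace Θ] (m : Measure Θ)
        [SFinite m] (e : Θ → LSt), Measurable e → (∀ᵐ θ ∂m, 0 ≤ (e θ).1) →
        ∀ H : Θ → ℝ≥0∞, Measurable H →
          ∫⁻ q, expW a (linesM Φ ε P q.1.1 q.1.2) * H q.2 ∂(ctM Φ f₀ ε te T' P m e) ≤
            C * ∫⁻ θ, ENNReal.ofReal (1 + ‖(e θ).2.2‖) * H θ ∂m := by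
  obtain ⟨C, hC, h⟩ := exists_ctG hΦ hf he ha P T
  refine ⟨C, hC, fun ε te T' hε hte hT' Θ _ m _ e hem hb H hH => ?_⟩
  rw [lintegral_ctM_S hΦ hem a hH, ← lintegral_const_mul' _ _ hC]
  refine lintegral_mono_ae ?_
  filter_upwards [hb] with θ hθ
  rw [← mul_assoc]
  exact mul_le_mul_left (h ε te T' hε hte hT' (e θ) hθ).1 _

end ctM

section inv

variable {Θ : Type} [MeasurableSpace Θ] {m : Measure Θ} {Tr : Space3 → Θ → Θ} {e : Θ → LSt}
  {pos : Θ → Space3}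

/-- **Mass transport.** Invariant functionals of the structure. -/
theorem exists_ctM_inv (hΦ : AdmissiblePotential Φ) (hf : Measurable f₀) (he : Env f₀ γ ρ C₀)
    (ha : a < γ) (P : CTree) (T : ℝ) : ∃ C : ℝ≥0∞, C ≠ ∞ ∧
      ∀ (ε te T' : ℝ), 0 < ε → te ≤ T → T' ≤ T → ∀ (Θ : Type) [MeasurableSpace Θ] (m : Measure Θ)
        (Tr : Space3 → Θ → Θ) (e : Θ → LSt) (pos : Θ → Space3), Pair292.InvFam Tr e pos m →
        (∀ᵐ θ ∂m, 0 ≤ (e θ).1) →
        ∀ χ : Space3 → ℝ≥0∞, Measurable χ → ∫⁻ x, χ x = 1 →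
        ∀ H : Θ → ℝ≥0∞, Measurable H → (∀ a' θ, H (Tr a' θ) = H θ) →
          ∫⁻ q, expW a (linesM Φ ε P q.1.1 q.1.2) * H q.2 ∂(ctM Φ f₀ ε te T' P m e) ≤
            C * ∫⁻ θ, χ (pos θ) * (ENNReal.ofReal (1 + ‖(e θ).2.2‖) * H θ) ∂m := by
  obtain ⟨C, hC, h⟩ := exists_ctG hΦ hf he ha P T
  refine ⟨C, hC, fun ε te T' hε hte hT' Θ _ m Tr e pos hI hb χ hχ hχ1 H hH hHT => ?_⟩
  have := hI.sf
  rw [lintegral_ctM_S hΦ hI.me a hH]
  have hg : Measurable fun θ => ctG Φ f₀ a ε te T' P (e θ) * H θ :=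
    ((measurable_ctG hΦ a ε te T' P).comp hI.me).mul hH
  rw [hI.disint hχ hχ1 hg, ← lintegral_const_mul' _ _ hC]
  refine lintegral_mono_ae ?_
  filter_upwards [hb] with θ hθ
  simp only [hHT, hI.eT]
  have h1 : Measurable fun a' : Space3 => ctG Φ f₀ a ε te T' P (shL a' (e θ)) :=
    (measurable_ctG hΦ a ε te T' P).comp (measurable_shL_a _)
  rw [lintegral_mul_const _ h1]
  calc χ (pos θ) * ((∫⁻ a' : Space3, ctG Φ f₀ a ε te T' P (shL a' (e θ))) * H θ)
      ≤ χ (pos θ) * ((C * ENNReal.ofReal (1 + ‖(e θ).2.2‖)) * H θ) :=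
        mul_le_mul_right (mul_le_mul_left (h ε te T' hε hte hT' (e θ) hθ).2 _) _
    _ = _ := by ring

/-- **Marginal on the tree.** -/
theorem lintegral_ctM_P_le (hΦ : AdmissiblePotential Φ) {P : CTree} {te T' : ℝ} (hε : 0 < ε)
    (hI : Pair292.InvFam Tr e pos m) (hb : ∀ᵐ θ ∂m, 0 ≤ (e θ).1) {χ : Space3 → ℝ≥0∞}
    (hχ : Measurable χ) (hχ1 : ∫⁻ x, χ x = 1) {F : PhasePoint × Par P → ℝ≥0∞} (hF : Measurable F) :
    ∫⁻ q, F q.1 ∂(ctM Φ f₀ ε te T' P m e) ≤ (ENNReal.ofReal te * cP *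
      ∫⁻ θ, χ (pos θ) * ENNReal.ofReal (1 + ‖(e θ).2.2‖) ∂m) *
        ∫⁻ z, ENNReal.ofReal (1 + ‖z.1.2‖) * F z ∂(treeM Φ f₀ ε P T') := by
  have := hI.sf
  rw [lintegral_ctM (F := fun q : (PhasePoint × Par P) × Θ => F q.1) hΦ hI.me
    (hF.comp measurable_fst)]
  have hctF : Measurable fun q : Θ × (PhasePoint × Par P) => ctI Φ ε te P (e q.1) q.2 * F q.2 :=
    (measurable_ctI_comp hΦ ε te P (hI.me.comp measurable_fst) measurable_snd).mul
      (hF.comp measurable_snd)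
  rw [lintegral_lintegral_swap (f := fun (θ : Θ) (z : PhasePoint × Par P) =>
    ctI Φ ε te P (e θ) z * F z) hctF.aemeasurable]
  set M : ℝ≥0∞ := ∫⁻ θ, χ (pos θ) * ENNReal.ofReal (1 + ‖(e θ).2.2‖) ∂m with hM
  have hin : ∀ z : PhasePoint × Par P, ∫⁻ θ, ctI Φ ε te P (e θ) z * F z ∂m ≤
      ENNReal.ofReal (ε ^ 2) * (ENNReal.ofReal te * cP * M *
        (ENNReal.ofReal (1 + ‖z.1.2‖) * F z)) := by
    intro z
    have h1 : Measurable fun θ => ctI Φ ε te P (e θ) z :=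
      measurable_ctI_comp hΦ ε te P hI.me measurable_const
    rw [lintegral_mul_const _ h1, hI.disint hχ hχ1 h1]
    have hne : ENNReal.ofReal (ε ^ 2) * (ENNReal.ofReal te * cP * ENNReal.ofReal (1 + ‖z.1.2‖)) ≠
        ∞ := ENNReal.mul_ne_top ENNReal.ofReal_ne_top (ENNReal.mul_ne_top
          (ENNReal.mul_ne_top ENNReal.ofReal_ne_top cP_ne_top) ENNReal.ofReal_ne_top)
    have h2 : ∫⁻ θ, χ (pos θ) * (∫⁻ a' : Space3, ctI Φ ε te P (e (Tr a' θ)) z) ∂m ≤
        (ENNReal.ofReal (ε ^ 2) * (ENNReal.ofReal te * cP * ENNReal.ofReal (1 + ‖z.1.2‖))) *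
          M := by
      rw [hM, ← lintegral_const_mul' _ _ hne]
      refine lintegral_mono_ae ?_
      filter_upwards [hb] with θ hθ
      simp only [hI.eT]
      calc χ (pos θ) * (∫⁻ a' : Space3, ctI Φ ε te P (shL a' (e θ)) z)
          ≤ χ (pos θ) * (ENNReal.ofReal (ε ^ 2) * (ENNReal.ofReal te * cP *
              (ENNReal.ofReal (1 + ‖(e θ).2.2‖) * ENNReal.ofReal (1 + ‖z.1.2‖)))) :=
            mul_le_mul_right (avg_ct_le hΦ hε hθ z) _
        _ = _ := by ring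
    calc (∫⁻ θ, χ (pos θ) * (∫⁻ a' : Space3, ctI Φ ε te P (e (Tr a' θ)) z) ∂m) * F z
        ≤ ((ENNReal.ofReal (ε ^ 2) * (ENNReal.ofReal te * cP * ENNReal.ofReal (1 + ‖z.1.2‖))) *
            M) * F z := mul_le_mul_left h2 _
      _ = _ := by ring
  have hF2 : Measurable fun z : PhasePoint × Par P => ENNReal.ofReal (1 + ‖z.1.2‖) * F z :=
    ((measurable_fst.snd.norm.const_add 1).ennreal_ofReal).mul hF
  calc activity ε * ∫⁻ z, (∫⁻ θ, ctI Φ ε te P (e θ) z * F z ∂m) ∂(treeM Φ f₀ ε P T')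
      ≤ activity ε * ∫⁻ z, ENNReal.ofReal (ε ^ 2) * (ENNReal.ofReal te * cP * M *
          (ENNReal.ofReal (1 + ‖z.1.2‖) * F z)) ∂(treeM Φ f₀ ε P T') :=
        mul_le_mul_right (lintegral_mono hin) _
    _ = activity ε * (ENNReal.ofReal (ε ^ 2) * (ENNReal.ofReal te * cP * M *
          ∫⁻ z, ENNReal.ofReal (1 + ‖z.1.2‖) * F z ∂(treeM Φ f₀ ε P T'))) := by
        rw [lintegral_const_mul _ (hF2.const_mul _), lintegral_const_mul _ hF2]
    _ = _ := by rw [← mul_assoc, activity_mul hε, one_mul]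

end inv

/-! ## Domination -/

section dom

variable {Θ : Type} [MeasurableSpace Θ] {κ : Type} [Fintype κ] {m : Measure Θ} {e : Θ → LSt}
  {te T' : ℝ} {c : ℝ≥0∞} {Λ : Measure (κ → ℝ)} {b : Θ → κ → ℝ} {z : Θ → κ → PhasePoint}
  {ρ' : Space3 → ℝ≥0∞}

/-- **Tree and structure**: one group, the anchors are the particles of the tree. -/
theorem dom_ct (hΦ : AdmissiblePotential Φ) (hf : Measurable f₀) (he : Env f₀ γ ρ C₀)
    (hε : 0 < ε) (P : CTree) (T' : ℝ) [SFinite m] [SFinite Λ] (hκ : 1 ≤ Fintype.card κ)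
    (h : Dom γ ρ ε 1 ∅ c Λ m b z) :
    Dom γ ρ ε 1 (Finset.univ.disjSum ∅) (C₀ ^ Fintype.card (Idx P) * c)
      (prodΛ (Measure.dirac fun _ : Idx P => (0 : ℝ)) Λ) (ctM Φ f₀ ε te T' P m e)
      (fun q => Sum.elim (fun _ : Idx P => (0 : ℝ)) (b q.2))
      (fun q => Sum.elim (linesM Φ ε P q.1.1 q.1.2) (z q.2)) := by
  have h1 := Dom.prod he.meas (dom_tree hΦ hf he hε P T') h
    (Fintype.card_pos_iff.2 ⟨root P⟩ : 1 ≤ Fintype.card (Idx P)) hκ
  have h2 := (h1.restrict {q | (q.1, e q.2) ∈ ctSet Φ ε te P}).smul_act hε (by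
    have := (Fintype.card_pos_iff.2 ⟨root P⟩ : 0 < Fintype.card (Idx P))
    rw [Fintype.card_sum]
    omega)
  exact h2

/-- A sub-structure. -/
theorem dom_ctS_of {P : CTree} {C : ℝ≥0∞} (hm : ∀ H : Θ → ℝ≥0∞, Measurable H →
      ∫⁻ q, H q.2 ∂(ctM Φ f₀ ε te T' P m e) ≤ C * ∫⁻ θ, ENNReal.ofReal (1 + ‖(e θ).2.2‖) * H θ ∂m)
    (hem : Measurable e)
    (h : Dom γ ρ ε 1 ∅ c Λ (m.withDensity fun θ => ENNReal.ofReal (1 + ‖(e θ).2.2‖)) b z) :
    Dom γ ρ ε 1 ∅ (C * c) Λ (ctM Φ f₀ ε te T' P m e) (fun q => b q.2) (fun q => z q.2) where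
  mb := h.mb.comp measurable_snd
  mz := h.mz.comp measurable_snd
  le F hF := by
    have hFm : Measurable fun θ => F (b θ, z θ) := hF.comp (h.mb.prodMk h.mz)
    have hv : Measurable fun θ => ENNReal.ofReal (1 + ‖(e θ).2.2‖) :=
      (hem.snd.snd.norm.const_add 1).ennreal_ofReal
    have h1 : ∫⁻ θ, F (b θ, z θ) ∂(m.withDensity fun θ => ENNReal.ofReal (1 + ‖(e θ).2.2‖)) =
        ∫⁻ θ, ENNReal.ofReal (1 + ‖(e θ).2.2‖) * F (b θ, z θ) ∂m := by
      rw [lintegral_withDensity_eq_lintegral_mul _ hv hFm]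
      rfl
    calc ENNReal.ofReal (ε ^ 2) ^ (Fintype.card κ - 1) *
          ∫⁻ q, F (b q.2, z q.2) ∂(ctM Φ f₀ ε te T' P m e)
        ≤ ENNReal.ofReal (ε ^ 2) ^ (Fintype.card κ - 1) *
            (C * ∫⁻ θ, ENNReal.ofReal (1 + ‖(e θ).2.2‖) * F (b θ, z θ) ∂m) :=
          mul_le_mul_right (hm _ hFm) _
      _ = C * (ENNReal.ofReal (ε ^ 2) ^ (Fintype.card κ - 1) *
            ∫⁻ θ, F (b θ, z θ) ∂(m.withDensity fun θ => ENNReal.ofReal (1 + ‖(e θ).2.2‖))) := by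
          rw [h1]
          ring
      _ ≤ C * (c * ∫⁻ b, (∫⁻ z, wgtA γ ρ ∅ z * F (b, z)) ∂Λ) := mul_le_mul_right (h.le F hF) _
      _ = _ := by ring

/-- Without the velocity weight. -/
theorem dom_of_weight (hem : Measurable e)
    (h : Dom γ ρ ε 1 ∅ c Λ (m.withDensity fun θ => ENNReal.ofReal (1 + ‖(e θ).2.2‖)) b z) :
    Dom γ ρ ε 1 ∅ c Λ m b z where
  mb := h.mb
  mz := h.mz
  le F hF := by
    have hFm : Measurable fun θ => F (b θ, z θ) := hF.comp (h.mb.prodMk h.mz)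
    have hv : Measurable fun θ => ENNReal.ofReal (1 + ‖(e θ).2.2‖) :=
      (hem.snd.snd.norm.const_add 1).ennreal_ofReal
    refine le_trans (mul_le_mul_right ?_ _) (h.le F hF)
    rw [lintegral_withDensity_eq_lintegral_mul _ hv hFm]
    refine lintegral_mono fun θ => ?_
    have h1 : 1 ≤ ENNReal.ofReal (1 + ‖(e θ).2.2‖) := by
      rw [← ENNReal.ofReal_one]
      exact ENNReal.ofReal_le_ofReal (by linarith [norm_nonneg (e θ).2.2])
    exact le_mul_of_one_le_left bot_le h1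

/-- The velocity weight is an exponential weight of the tree. -/
theorem one_add_root_le (hΦ : AdmissiblePotential Φ) {a : ℝ} (ha : 0 < a) : ∃ k : ℝ≥0∞, k ≠ ∞ ∧
    ∀ (ε : ℝ) (P : CTree) (z : PhasePoint × Par P), Adm Φ P z.1.2 z.2 →
      ENNReal.ofReal (1 + ‖z.1.2‖) ≤ k * expW a (linesM Φ ε P z.1 z.2) := by
  obtain ⟨k, hk, h⟩ := ofReal_one_add_le ha
  refine ⟨ENNReal.ofReal k, ENNReal.ofReal_ne_top, fun ε P z hz => ?_⟩
  rw [linesM_of_adm ε hz]
  have h1 : expW a (lines Φ ε P z.1 z.2) =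
      ENNReal.ofReal (Real.exp (a * ∑ i, ‖(lines Φ ε P z.1 z.2 i).2‖ ^ 2)) := by
    unfold expW
    rw [← ENNReal.ofReal_prod_of_nonneg fun i _ => (Real.exp_pos _).le, ← Real.exp_sum,
      ← Finset.mul_sum]
  have h2 : ∀ i, (lines Φ ε P z.1 z.2 i).2 = vels Φ P z.1.2 z.2 i :=
    Hid424.lines_vel ε P z.1 z.2
  rw [h1, ← ENNReal.ofReal_mul hk]
  refine ENNReal.ofReal_le_ofReal (h _ _ (norm_nonneg _) ?_)
  simp only [h2]
  rw [TreeDom974.sum_vels_sq hΦ hz]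
  have := TreeDom974.nodeE_nonneg P z.2
  linarith

/-- **The tree**: one group, all particles are anchors. -/
theorem exists_dom_ctP (hΦ : AdmissiblePotential Φ) (hf : Measurable f₀) (he : Env f₀ γ ρ C₀)
    {a : ℝ} (ha : 0 < a) (P : CTree) (T : ℝ) {M : ℝ≥0∞} (hM : M ≠ ∞) :
    ∃ c : ℝ≥0∞, c ≠ ∞ ∧ ∀ (ε te T' : ℝ), 0 < ε → te ≤ T →
      ∀ (Θ : Type) [MeasurableSpace Θ] (m : Measure Θ) (Tr : Space3 → Θ → Θ) (e : Θ → LSt)
        (pos : Θ → Space3), Pair292.InvFam Tr e pos m → (∀ᵐ θ ∂m, 0 ≤ (e θ).1) →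
        ∀ χ : Space3 → ℝ≥0∞, Measurable χ → ∫⁻ x, χ x = 1 →
        ∫⁻ θ, χ (pos θ) * ENNReal.ofReal (1 + ‖(e θ).2.2‖) ∂m ≤ M →
        Dom (γ - a) ρ ε 1 Finset.univ c (Measure.dirac fun _ : Idx P => (0 : ℝ))
          (ctM Φ f₀ ε te T' P m e) (fun _ _ => 0) (fun q => linesM Φ ε P q.1.1 q.1.2) := by
  obtain ⟨k, hk, hkle⟩ := one_add_root_le hΦ ha
  refine ⟨(ENNReal.ofReal T * cP * M * k) * C₀ ^ Fintype.card (Idx P),
    ENNReal.mul_ne_top (ENNReal.mul_ne_top (ENNReal.mul_ne_top (ENNReal.mul_ne_top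
      ENNReal.ofReal_ne_top cP_ne_top) hM) hk) (ENNReal.pow_ne_top he.fin),
    fun ε te T' hε hte Θ _ m Tr e pos hI hb χ hχ hχ1 hmom => ?_⟩
  have hlin := measurable_linesM hΦ ε P
  have hW : Measurable fun z : PhasePoint × Par P => expW a (linesM Φ ε P z.1 z.2) :=
    (measurable_expW a).comp hlin
  have hd := (dom_tree hΦ hf he hε P T').weight a (c' := 1) hW (fun z => (one_mul _).ge)
    ENNReal.one_ne_top
  refine ⟨measurable_const, hlin.comp measurable_fst, fun F hF => ?_⟩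
  have hFz : Measurable fun z : PhasePoint × Par P =>
      F ((fun _ : Idx P => (0 : ℝ)), linesM Φ ε P z.1 z.2) :=
    hF.comp (measurable_const.prodMk hlin)
  have h1 : ∫⁻ q, F ((fun _ : Idx P => (0 : ℝ)), linesM Φ ε P q.1.1 q.1.2)
      ∂(ctM Φ f₀ ε te T' P m e) ≤ (ENNReal.ofReal T * cP * M * k) *
        ∫⁻ z, F ((fun _ : Idx P => (0 : ℝ)), linesM Φ ε P z.1 z.2)
          ∂((treeM Φ f₀ ε P T').withDensity fun z => expW a (linesM Φ ε P z.1 z.2)) := by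
    refine (lintegral_ctM_P_le (f₀ := f₀) (te := te) (T' := T') hΦ hε hI hb hχ hχ1
      (F := fun z => F ((fun _ : Idx P => (0 : ℝ)), linesM Φ ε P z.1 z.2)) hFz).trans ?_
    rw [lintegral_withDensity_eq_lintegral_mul _ hW hFz]
    have hD := measurable_treeD hΦ hf ε P T'
    have h2 : ∫⁻ z, ENNReal.ofReal (1 + ‖z.1.2‖) *
        F ((fun _ : Idx P => (0 : ℝ)), linesM Φ ε P z.1 z.2) ∂(treeM Φ f₀ ε P T') ≤
        k * ∫⁻ z, ((fun z : PhasePoint × Par P => expW a (linesM Φ ε P z.1 z.2)) *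
          fun z : PhasePoint × Par P =>
          F ((fun _ : Idx P => (0 : ℝ)), linesM Φ ε P z.1 z.2)) z ∂(treeM Φ f₀ ε P T') := by
      have hr : Measurable fun z : PhasePoint × Par P => ENNReal.ofReal (1 + ‖z.1.2‖) *
          F ((fun _ : Idx P => (0 : ℝ)), linesM Φ ε P z.1 z.2) :=
        ((measurable_fst.snd.norm.const_add 1).ennreal_ofReal).mul hFz
      unfold treeM
      rw [lintegral_withDensity_eq_lintegral_mul _ hD hr,
        lintegral_withDensity_eq_lintegral_mul _ hD (hW.mul hFz),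
        ← lintegral_const_mul' _ _ hk]
      refine lintegral_mono fun z => ?_
      simp only [Pi.mul_apply]
      by_cases hz : Valid Φ ε P T' z.1.2 z.2
      · calc treeD Φ f₀ ε P T' z * (ENNReal.ofReal (1 + ‖z.1.2‖) *
              F ((fun _ : Idx P => (0 : ℝ)), linesM Φ ε P z.1 z.2))
            ≤ treeD Φ f₀ ε P T' z * ((k * expW a (linesM Φ ε P z.1 z.2)) *
              F ((fun _ : Idx P => (0 : ℝ)), linesM Φ ε P z.1 z.2)) :=
              mul_le_mul_right (mul_le_mul_left (hkle ε P z hz.1) _) _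
          _ = _ := by ring
      · unfold treeD
        rw [indicator_of_notMem
          (show z ∉ {z : PhasePoint × Par P | Valid Φ ε P T' z.1.2 z.2} from hz)]
        simp
    calc ENNReal.ofReal te * cP * (∫⁻ θ, χ (pos θ) * ENNReal.ofReal (1 + ‖(e θ).2.2‖) ∂m) *
          ∫⁻ z, ENNReal.ofReal (1 + ‖z.1.2‖) *
            F ((fun _ : Idx P => (0 : ℝ)), linesM Φ ε P z.1 z.2) ∂(treeM Φ f₀ ε P T')
        ≤ ENNReal.ofReal T * cP * M * (k * ∫⁻ z, ((fun z : PhasePoint × Par P =>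
            expW a (linesM Φ ε P z.1 z.2)) * fun z : PhasePoint × Par P =>
            F ((fun _ : Idx P => (0 : ℝ)), linesM Φ ε P z.1 z.2)) z ∂(treeM Φ f₀ ε P T')) :=
          mul_le_mul' (mul_le_mul' (mul_le_mul_left (ENNReal.ofReal_le_ofReal hte) _) hmom) h2
      _ = _ := by ring
  have h3 := hd.le F hF
  rw [one_mul] at h3
  calc ENNReal.ofReal (ε ^ 2) ^ (Fintype.card (Idx P) - 1) *
        ∫⁻ q, F ((fun _ : Idx P => (0 : ℝ)), linesM Φ ε P q.1.1 q.1.2)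
          ∂(ctM Φ f₀ ε te T' P m e)
      ≤ ENNReal.ofReal (ε ^ 2) ^ (Fintype.card (Idx P) - 1) *
          ((ENNReal.ofReal T * cP * M * k) *
            ∫⁻ z, F ((fun _ : Idx P => (0 : ℝ)), linesM Φ ε P z.1 z.2)
              ∂((treeM Φ f₀ ε P T').withDensity fun z => expW a (linesM Φ ε P z.1 z.2))) :=
        mul_le_mul_right h1 _
    _ = (ENNReal.ofReal T * cP * M * k) * (ENNReal.ofReal (ε ^ 2) ^ (Fintype.card (Idx P) - 1) *
            ∫⁻ z, F ((fun _ : Idx P => (0 : ℝ)), linesM Φ ε P z.1 z.2)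
              ∂((treeM Φ f₀ ε P T').withDensity fun z => expW a (linesM Φ ε P z.1 z.2))) := by
        ring
    _ ≤ _ := by
        rw [mul_assoc (ENNReal.ofReal T * cP * M * k)]
        exact mul_le_mul_right h3 _

end dom

end Crest.Agent.R122.LN2

end
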