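import Crest.Agent.R122.LinkD2_331

/-!
# Row 122, LN3-D (helper331): existence of entry chains

`FJ C S s k`: the particle `k` is influenced at time `s` (generated by the members of `S` and the
contacts of both worlds).
* `FJ.exists_first`: first influence time.
* `exists_ec`: every influenced particle is the head of an entry chain.
* `EC.suffix`, `EC.drop`: initial pieces of entry chains.
-/

set_option autoImplicit false

open Set

namespace Crest.Agent.R122.LinkD331

open Crest.Agent.R122.Causal291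

variable {J : Type} {T : ℝ} {C : Bool → ℝ → J → J → Prop}

/-- Influence: generated by `S` and the contacts of both worlds. -/
inductive FJ (C : Bool → ℝ → J → J → Prop) (S : Set J) : ℝ → J → Prop
  | base {s : ℝ} {k : J} (hk : k ∈ S) : FJ C S s k
  | step {s s' : ℝ} {l k : J} {b : Bool} (h : FJ C S s' l) (hc : C b s' l k) (hs : s' ≤ s) :
      FJ C S s k

variable {S : Set J}

theorem FJ.mono {s s' : ℝ} {k : J} (h : FJ C S s k) (hs : s ≤ s') : FJ C S s' k := by
  cases h with
  | base hk => exact .base hk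
  | step h hc h' => exact .step h hc (h'.trans hs)

theorem FJ.con {s : ℝ} {j k : J} {b : Bool} (h : FJ C S s j) (hc : C b s j k) : FJ C S s k :=
  .step h hc le_rfl

theorem FJ.pos (hpos : ∀ b s j k, C b s j k → j ≠ k → 0 < s) {s : ℝ} {k : J} (h : FJ C S s k)
    (hk : k ∉ S) : 0 < s := by
  induction h with
  | base h => exact absurd h hk
  | @step s s' l k b h hc hs ih =>
    by_cases hlk : l = k
    · subst hlk
      exact (ih hk).trans_le hs
    · exact (hpos b s' l k hc hlk).trans_le hs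

/-- The first influence time is attained. -/
theorem FJ.exists_first [Finite J]
    (hclosed : ∀ b j k, j ≠ k → IsClosed {s | s ∈ Icc 0 T ∧ C b s j k})
    (hpos : ∀ b s j k, C b s j k → j ≠ k → 0 < s) {s : ℝ} {k : J} (h : FJ C S s k) (hk : k ∉ S)
    (hs : s ≤ T) : ∃ r ≤ s, FJ C S r k ∧ ∀ r' < r, ¬ FJ C S r' k := by
  set R : Set ℝ := {r | FJ C S r k} with hR
  have hbdd : BddBelow R := ⟨0, fun r hr => (FJ.pos hpos hr hk).le⟩
  have hne : R.Nonempty := ⟨s, h⟩
  set r := sInf R with hr
  have hrs : r ≤ s := csInf_le hbdd h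
  have hr0 : 0 ≤ r := le_csInf hne fun r hr => (FJ.pos hpos hr hk).le
  have hlow : ∀ r' < r, ¬ FJ C S r' k := fun r' h1 h2 => absurd (csInf_le hbdd h2) (not_le.2 h1)
  refine ⟨r, hrs, ?_, hlow⟩
  by_contra hcon
  have hrs' : r < s := lt_of_le_of_ne hrs fun h' => hcon (h' ▸ h)
  have hiso : ∀ b, ∃ δ > 0, ∀ s' ∈ Icc r (r + δ), ∀ j ∈ {j | FJ C S r j}, ∀ l ∈ {j | ¬ FJ C S r j},
      ¬ C b s' j l := by
    intro b
    obtain ⟨δ, hδ, _, h1⟩ := CausalGen291.exists_isolated (hclosed b) ⟨hr0, hrs'.trans_le hs⟩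
      {j | FJ C S r j} {j | ¬ FJ C S r j} (fun x hx hx' => hx' hx)
      (fun x hx j hj hc => hj (FJ.con hx hc))
    exact ⟨δ, hδ, h1⟩
  obtain ⟨δ₁, hδ₁, h1⟩ := hiso true
  obtain ⟨δ₂, hδ₂, h2⟩ := hiso false
  have key : ∀ (s' : ℝ) (l : J), FJ C S s' l → s' ≤ r + min δ₁ δ₂ → FJ C S r l := by
    intro s' l hl
    induction hl with
    | base h => exact fun _ => .base h
    | @step s₁ s₂ l k b h hc hs ih =>
      intro h3
      have h4 := ih (hs.trans h3)
      rcases le_or_gt s₂ r with h5 | h5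
      · exact .step h hc h5
      · by_contra hk'
        cases b with
        | true =>
          exact h1 s₂ ⟨h5.le, (hs.trans h3).trans (by linarith [min_le_left δ₁ δ₂])⟩ l h4 k hk' hc
        | false =>
          exact h2 s₂ ⟨h5.le, (hs.trans h3).trans (by linarith [min_le_right δ₁ δ₂])⟩ l h4 k hk' hc
  have h6 : r + min δ₁ δ₂ ≤ r := by
    refine le_csInf hne fun x hx => ?_
    by_contra hlt
    push Not at hlt
    exact hcon (key x k hx hlt.le)
  linarith [lt_min hδ₁ hδ₂]

/-- Initial pieces of entry chains. -/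
theorem EC.suffix {F : ℝ → J → Prop} {a : J} {L : List J} {s : ℝ} (h : EC C F a L s) {k : J}
    (hk : k ∈ L) : ∃ tl s', EC C F a (k :: tl) s' ∧ s' ≤ s := by
  induction h with
  | root =>
    rw [List.mem_singleton] at hk
    subst hk
    exact ⟨[], 0, .root, le_rfl⟩
  | @cons l k' ps s s' b h hs hk' hc hn ih =>
    rcases List.mem_cons.1 hk with rfl | hk
    · exact ⟨_, s', .cons h hs hk' hc hn, le_rfl⟩
    · obtain ⟨tl, s₁, h1, h2⟩ := ih hk
      exact ⟨tl, s₁, h1, h2.trans hs⟩

/-- Initial pieces of prescribed length. -/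
theorem EC.drop {F : ℝ → J → Prop} {a : J} {L : List J} {s : ℝ} (h : EC C F a L s) {m : ℕ}
    (hm : m + 1 ≤ L.length) : ∃ L' s', EC C F a L' s' ∧ s' ≤ s ∧ L'.length = m + 1 ∧
      ∀ x ∈ L', x ∈ L := by
  induction h with
  | root =>
    simp only [List.length_singleton] at hm
    exact ⟨[a], 0, .root, le_rfl, by simp; omega, fun x hx => hx⟩
  | @cons l k' ps s s' b h hs hk' hc hn ih =>
    rcases Nat.lt_or_ge (m + 1) (k' :: l :: ps).length with h1 | h1
    · obtain ⟨L', s₁, h2, h3, h4, h5⟩ := ih (by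
        simp only [List.length_cons] at h1 ⊢
        omega)
      exact ⟨L', s₁, h2, h3.trans hs, h4, fun x hx => List.mem_cons_of_mem _ (h5 x hx)⟩
    · exact ⟨_, s', .cons h hs hk' hc hn, le_rfl, le_antisymm h1 hm, fun x hx => hx⟩

/-- The end of an entry chain is the first influence time of its head. -/
theorem EC.end_le {F : ℝ → J → Prop} {a : J} {L : List J} {s : ℝ} (h : EC C F a L s) {k : J}
    {tl : List J} (hL : L = k :: tl) {r : ℝ} (hr : 0 ≤ r) (hF : F r k) : s ≤ r := by
  cases h with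
  | root => exact hr
  | @cons l k' ps s s' b h hs hk' hc hn =>
    rw [List.cons.injEq] at hL
    obtain ⟨rfl, rfl⟩ := hL
    by_contra hlt
    exact hn r (not_le.1 hlt) hF

/-- **Existence of entry chains.** -/
theorem exists_ec [Finite J] {a : J}
    (hclosed : ∀ b j k, j ≠ k → IsClosed {s | s ∈ Icc 0 T ∧ C b s j k})
    (hpos : ∀ b s j k, C b s j k → j ≠ k → 0 < s)
    (hS : ∀ b s x k, C b s x k → x ∈ S → k ∉ S → x = a) (haS : a ∈ S) {s : ℝ} {k : J}
    (h : FJ C S s k) (hk : k ∉ S) (hs : s ≤ T) :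
    ∃ tl s', EC C (FJ C S) a (k :: tl) s' ∧ s' ≤ s := by
  classical
  -- it suffices to find a chain
  suffices hgood : ∃ tl s', EC C (FJ C S) a (k :: tl) s' by
    obtain ⟨tl, s', h'⟩ := hgood
    exact ⟨tl, s', h', h'.end_le rfl (FJ.pos hpos h hk).le h⟩
  by_contra hbad
  set B : Set J := {x | x ∉ S ∧ (∃ r ≤ T, FJ C S r x) ∧ ¬ ∃ tl s', EC C (FJ C S) a (x :: tl) s'}
    with hB
  have hfirst : ∀ x : J, ∃ r, (x ∈ B → r ≤ T ∧ FJ C S r x ∧ ∀ r' < r, ¬ FJ C S r' x) := by
    intro x
    by_cases hx : x ∈ B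
    · obtain ⟨r, hr, h1⟩ := hx.2.1
      obtain ⟨r', h2, h3, h4⟩ := h1.exists_first hclosed hpos hx.1 hr
      exact ⟨r', fun _ => ⟨h2.trans hr, h3, h4⟩⟩
    · exact ⟨0, fun h => absurd h hx⟩
  choose τ hτ using hfirst
  obtain ⟨x, hxB, hmin⟩ := (Set.toFinite B).exists_minimalFor τ B ⟨k, hk, ⟨s, hs, h⟩, hbad⟩
  have hmin' : ∀ y ∈ B, τ x ≤ τ y := by
    intro y hy
    rcases le_total (τ y) (τ x) with h1 | h1
    · exact hmin hy h1
    · exact h1
  obtain ⟨h1, h2, h3⟩ := hτ x hxB
  have key : ∀ (s' : ℝ) (l : J), FJ C S s' l → s' ≤ τ x → l ∉ S →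
      ∃ tl s₁, EC C (FJ C S) a (l :: tl) s₁ := by
    intro s' l hl
    induction hl with
    | base h => exact fun _ h' => absurd h h'
    | @step s₁ s₂ l k b h hc hs ih =>
      intro h4 hkS
      by_cases hlk : l = k
      · subst hlk
        exact ih (hs.trans h4) hkS
      by_cases h5 : ∃ r < s₂, FJ C S r k
      · obtain ⟨r, hr, hFr⟩ := h5
        by_contra hng
        have hkB : k ∈ B := ⟨hkS, ⟨r, (hr.le.trans (hs.trans h4)).trans h1, hFr⟩, hng⟩
        have h6 := hmin' k hkB
        exact (hτ k hkB).2.2 r (hr.trans_le ((hs.trans h4).trans h6)) hFr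
      · push Not at h5
        have hs₂ : 0 < s₂ := hpos b s₂ l k hc hlk
        by_cases hlS : l ∈ S
        · have hla : l = a := hS b s₂ l k hc hlS hkS
          subst hla
          refine ⟨[l], s₂, .cons .root hs₂.le ?_ hc h5⟩
          rw [List.mem_singleton]
          exact Ne.symm hlk
        · obtain ⟨tl, s₃, h6⟩ := ih (hs.trans h4) hlS
          have h7 : s₃ ≤ s₂ := h6.end_le rfl hs₂.le h
          by_cases hmem : k ∈ l :: tl
          · obtain ⟨tl', s', h8, _⟩ := h6.suffix hmem
            exact ⟨tl', s', h8⟩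
          · exact ⟨_, s₂, .cons h6 h7 hmem hc h5⟩
  exact hxB.2.2 (key (τ x) x h2 le_rfl hxB.1)

/-- The members of an entry chain are influenced. -/
theorem EC.fj {S : Set J} {a : J} (haS : a ∈ S) {L : List J} {s : ℝ} (h : EC C (FJ C S) a L s)
    {k : J} (hk : k ∈ L) : FJ C S s k := by
  induction h generalizing k with
  | root =>
    rw [List.mem_singleton] at hk
    subst hk
    exact .base haS
  | @cons l k' ps s s' b h hs hk' hc hn ih =>
    rcases List.mem_cons.1 hk with rfl | hk
    · exact .step ((ih List.mem_cons_self).mono hs) hc le_rfl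
    · exact (ih hk).mono hs

/-- The members of an entry chain which are not the root are not in `S`. -/
theorem EC.not_mem {S : Set J} {a : J} {L : List J} {s : ℝ} (h : EC C (FJ C S) a L s)
    {k : J} (hk : k ∈ L) (hka : k ≠ a) : k ∉ S := by
  induction h with
  | root =>
    rw [List.mem_singleton] at hk
    exact absurd hk hka
  | @cons l k' ps s s' b h hs hk' hc hn ih =>
    rcases List.mem_cons.1 hk with rfl | hk
    · exact fun h' => hn (s' - 1) (by linarith) (.base h')
    · exact ih hk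

end Crest.Agent.R122.LinkD331
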