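import Crest.Agent.R122.LNLinkB_818
import Crest.Agent.R122.LNReachA_818
import Crest.Agent.R122.LNRet_383

/-!
# Row 122, EVENTS (helper302): contacts of the exits themselves, from `ReachAll`

Everything over one master system `M` with parts `Λ`, `π` the part of the exit `p`.

* `Big` : connected sets containing `π`, with the contacts inside `π` taken from a family `R`.
* `cf_of_contact` : a contact with the inserted line before the touch time is a clean influence.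
* `line_free` : if the exit `p` is in virtual contact with another member `k` of its part at a time
  `v ≤ θ`, then (off `¬ NoBad`) the line has no contact in `Z + a` before `v`.
* `exits_apart` : two exits of one part do not meet each other (the hypothesis `h3` of
  `LNEv818.pairNL_of_reach`).
* `not_retB_of`, `not_retA_of` : no return of an exit resp. of its influence to its part.
-/

set_option autoImplicit false
set_option linter.unusedSectionVars false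

open MeasureTheory Set Filter Topology
open Crest.AnalysisR.Kinetic
open Crest.Agent.R122.GIV566 Crest.Agent.R122.VL581 Crest.Agent.R122.LNg410
open Crest.Agent.R122.Causal291 Crest.Agent.R122.LN304 Crest.Agent.R122.Ins45
open Crest.Agent.R122.Inf879 Crest.Agent.R122.EDefs602 Crest.Agent.R122.MWFam255
open Crest.Agent.R122.LNEv968 Crest.Agent.R122.LNEv818 Crest.Agent.R122.LNEv383
open Crest.Agent.R122.RtG302 (near)
open scoped Classical

noncomputable section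

namespace Crest.Agent.R122.Bind302

/-! ### Big sets -/

section big

variable {J κ : Type} [Fintype J] {M : VSys J κ} {c ℓ ς : ℝ} {Z : J → PhasePoint}
  {Λ : Finset (Finset J)} {π P P' Y : Finset J} {a p k g : J} {N N' : ℕ} {v s : ℝ}
  {R : ℝ → J → J → Prop}

/-- Contacts of the part: a family `R` of times of contacts inside `π` which connects `π`. -/
structure PartR (M : VSys J κ) (c : ℝ) (Z : J → PhasePoint) (π : Finset J)
    (R : ℝ → J → J → Prop) : Prop where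
  cut : CutConn π fun j k => ∃ r ∈ Icc 0 M.T, R r j k
  symm : ∀ r j k, R r j k → R r k j
  vct : ∀ r ∈ Icc 0 M.T, ∀ j ∈ π, ∀ k ∈ π, j ≠ k → R r j k → M.VCt c π j k r Z

/-- A set which contains the part `π` and is connected to it by contacts outside `π`. -/
structure Big (M : VSys J κ) (c : ℝ) (Z : J → PhasePoint) (Λ : Finset (Finset J)) (π : Finset J)
    (R : ℝ → J → J → Prop) (N : ℕ) (P : Finset J) : Prop where
  sub : π ⊆ P
  conn : CutConn P fun i j => (i ∈ π ∧ j ∈ π ∧ ∃ r ∈ Icc 0 M.T, R r i j) ∨ outR M c P Z π i j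
  card : (P ∪ uni Λ).card ≤ N

theorem PartR.big (hR : PartR M c Z π R) (h : Grp M c Z Λ π a N Y) (hπ : π ∈ Λ) (ha : a ∈ π) :
    Big M c Z Λ π R N (π ∪ Y) where
  sub := Finset.subset_union_left
  conn := (hR.cut.mono fun i hi j hj _ h => Or.inl (Or.inl ⟨hi, hj, h⟩)).union
      (h.conn.mono fun _ _ _ _ _ h => Or.inl (Or.inr h)) ⟨a, Finset.mem_inter.2 ⟨ha, h.root⟩⟩
  card := by
    refine (Finset.card_le_card ?_).trans h.card
    intro z hz
    simp only [Finset.mem_union] at hz ⊢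
    rcases hz with (hz | hz) | hz
    · exact Or.inr (sub_uni hπ hz)
    · exact Or.inl hz
    · exact Or.inr hz

theorem Big.mono (h : Big M c Z Λ π R N P) (hN : N ≤ N') : Big M c Z Λ π R N' P :=
  ⟨h.sub, h.conn, h.card.trans hN⟩

theorem Big.union (h : Big M c Z Λ π R N P) (h' : Big M c Z Λ π R N' P') (ha : a ∈ π) :
    Big M c Z Λ π R (N + N') (P ∪ P') where
  sub := h.sub.trans Finset.subset_union_left
  conn := (h.conn.mono fun _ _ _ _ _ h => Or.inl (h.imp id fun h =>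
      outR_mono Finset.subset_union_left h)).union
    (h'.conn.mono fun _ _ _ _ _ h => Or.inl (h.imp id fun h =>
      outR_mono Finset.subset_union_right h)) ⟨a, Finset.mem_inter.2 ⟨h.sub ha, h'.sub ha⟩⟩
  card := by
    refine le_trans ((Finset.card_le_card ?_).trans (Finset.card_union_le (P ∪ uni Λ)
      (P' ∪ uni Λ))) (Nat.add_le_add h.card h'.card)
    intro z hz
    simp only [Finset.mem_union] at hz ⊢
    tauto

theorem Big.conn' (h : Big M c Z Λ π R N P) (hR : PartR M c Z π R) : M.Conn c P Z :=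
  conn_of_cut h.conn fun i hi j hj hij h' => by
    rcases h' with ⟨hi, hj, r, hr, h'⟩ | h'
    · exact ⟨r, hr, vct_mono h.sub (hR.vct r hr i hi j hj hij h')⟩
    · obtain ⟨_, t, ht⟩ := h'
      exact ⟨t, ht⟩

theorem noBad_mono (h : NoBad M c ℓ ς Z Λ N') (hN : N ≤ N') : NoBad M c ℓ ς Z Λ N :=
  fun P h1 h2 h3 => h P h1 h2 (h3.trans hN)

theorem Big.tl (h : Big M c Z Λ π R N P) (hR : PartR M c Z π R) (hπ : π ∈ Λ)
    (hNB : NoBad M c ℓ ς Z Λ N) : TL M c ℓ ς P Z :=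
  hNB _ (h.conn' hR) ⟨π, hπ, h.sub⟩ h.card

/-- **Window**: the virtual contact of `p` and `k` at time `v` belongs to a contact of the part. -/
theorem Big.exists_r (h : Big M c Z Λ π R N P) (hR : PartR M c Z π R) (hπ : π ∈ Λ)
    (hNB : NoBad M c ℓ ς Z Λ N) (hp : p ∈ π) (hk : k ∈ π) (hkp : k ≠ p) (hv : v ∈ Icc 0 M.T)
    (hvc : M.VCt c P p k v Z) : ∃ r ∈ Icc 0 M.T, R r p k := by
  have hT := h.tl hR hπ hNB
  have h3 := hT.2.mem_of_cutConn h.conn (fun i _ j _ hij h' => by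
    rcases h' with ⟨hi, hj, r, hr, h'⟩ | h'
    · exact ⟨r, Or.inl ⟨hr, vct_mono h.sub (hR.vct r hr i hi j hj hij h')⟩⟩
    · obtain ⟨_, t, ht⟩ := h'
      exact ⟨t, Or.inl ht⟩) (h.sub hp) (h.sub hk) hkp.symm (t := v) ⟨hv, hvc⟩
  rcases h3 with (⟨_, _, h⟩ | h) | (⟨_, _, r, hr, h⟩ | h)
  · exact h
  · exact absurd h.1 (by push Not; exact ⟨hp, hk⟩)
  · exact ⟨r, hr, hR.symm r k p h⟩
  · exact absurd h.1 (by push Not; exact ⟨hk, hp⟩)

/-- No third particle in the window. -/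
theorem Big.third (h : Big M c Z Λ π R N P) (hR : PartR M c Z π R) (hπ : π ∈ Λ)
    (hNB : NoBad M c ℓ ς Z Λ N) (hℓς : 2 * ℓ ≤ ς) (hp : p ∈ π) (hk : k ∈ π) (hkp : k ≠ p)
    (hv : v ∈ Icc 0 M.T) (hvc : M.VCt c P p k v Z) {r : ℝ} (hr : r ∈ Icc 0 M.T) (hRr : R r p k)
    (hg : g ∈ P) (hgp : g ≠ p) (hs : s ∈ Icc 0 M.T) (hrs : r ≤ s) (hsv : s ≤ v)
    (hsc : M.VCt c P p g s Z) : g = k := by
  have hT := h.tl hR hπ hNB
  have h5 := hT.2.sep (conn_iff.1 (h.conn' hR)) hℓς (h.sub hp) (h.sub hk) hkp.symm (h.sub hp) hg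
    (Ne.symm hgp) (t := r) (t' := v) (t'' := s)
    ⟨hr, vct_mono h.sub (hR.vct r hr p hp k hk hkp.symm hRr)⟩ ⟨hv, hvc⟩ ⟨hs, hsc⟩ hrs hsv
  rcases h5 with ⟨_, h5⟩ | ⟨h5, _⟩
  · exact h5.symm
  · exact absurd h5.symm hgp

/-- Two contacts of `p` at the same time are with the same particle. -/
theorem Big.same (h : Big M c Z Λ π R N P) (hR : PartR M c Z π R) (hπ : π ∈ Λ)
    (hNB : NoBad M c ℓ ς Z Λ N) (hℓς : 2 * ℓ ≤ ς) (hp : p ∈ P) (hk : k ∈ P) (hkp : k ≠ p)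
    (hg : g ∈ P) (hgp : g ≠ p) (hv : v ∈ Icc 0 M.T) (h1 : M.VCt c P p k v Z)
    (h2 : M.VCt c P p g v Z) : k = g := by
  have hT := h.tl hR hπ hNB
  have h5 := hT.2.two_windows hp hk hkp.symm hp hg hgp.symm (t := v) (t' := v) ⟨hv, h1⟩ ⟨hv, h2⟩
    (by rw [sub_self, abs_zero]; linarith)
  rcases h5 with ⟨_, h5⟩ | ⟨h5, _⟩
  · exact h5
  · exact absurd h5.symm hgp

end big

/-! ### Marked worlds -/

section mw

variable {ι κ : Type} [Fintype ι] {Φ : Space3 → ℝ} {ε T : ℝ} {K : ℕ} {Z : MW ι} {a b : ML}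
  {s v : ℝ} {g : ι}

/-- Influence of a line starts at its birth. -/
theorem birth_le_of_fut (hΦ : AdmissiblePotential Φ) (hε : 0 < ε)
    (h : Z.Fut Φ ε (MW.line a) s g) : a.1.1 ≤ s := by
  have key : ∀ {s : ℝ} {g : ι}, Z.Fut Φ ε (MW.line a) s g → a.1.1 ≤ s := by
    intro s g h
    induction h with
    | @init s k h hs =>
      exfalso
      apply h
      change Z.path Φ ε 0 k = (Z.add (MW.line a)).path Φ ε 0 (Sum.inl k)
      rw [MW.path_zero hΦ hε, MW.path_zero hΦ hε]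
      rfl
    | @new₁ s s' k j hj hc h0 hs => exact absurd ⟨j, rfl⟩ hj
    | @new₂ s s' k j hj hc h0' hs =>
      rcases j with j | x
      · exact absurd ⟨j, rfl⟩ hj
      · have h1 : (Z.add (MW.line a)).b (Sum.inr x) ≤ s' := MW.C_born hc
        exact le_trans h1 hs
    | chain₁ _ _ hs ih => exact ih.trans hs
    | chain₂ _ _ hs ih => exact ih.trans hs
  exact key h

/-- A contact with the inserted line before the touch time is a clean influence. -/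
theorem cf_of_contact (hΦ : AdmissiblePotential Φ) (hε : 0 < ε) (hZ : Z.Ok Φ ε)
    (hZa : (Z.ins a).Ok Φ ε) (hs : s ∈ Icc 0 T) (hlt : s < Z.thetaL Φ ε K T a)
    (hc : (Z.ins a).C Φ ε s (Sum.inr ()) (Sum.inl g)) : CF Φ ε K Z (MW.line a) s g := by
  have hnt : ¬ Z.Touched Φ ε K (MW.line a) s := fun h =>
    absurd (MW.theta_le_of_touched hs h) (not_le.2 hlt)
  refine cf_of_fut hΦ hε hZ hZa hs hnt (.new₂ (Sum.inr ()) ?_ hc hs.1 le_rfl)
  rintro ⟨k, hk⟩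
  cases hk

/-- A line without contact before `v` is on its free line at time `v`. -/
theorem path_free (hΦ : AdmissiblePotential Φ) (hε : 0 < ε) (hZa : (Z.ins a).Ok Φ ε)
    (hv : 0 ≤ v)
    (hno : ∀ s g, a.1.1 ≤ s → s < v → ¬ (Z.ins a).C Φ ε s (Sum.inr ()) (Sum.inl g)) :
    (Z.ins a).path Φ ε v (Sum.inr ()) = lineAt a.1.1 a.1.2 v := by
  have h1 := hZa.bw.free hΦ hε (Sum.inr ()) (a := 0) (T := v) le_rfl
    (fun r hr hb x hx hbx => by
      rcases x with k | u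
      · exact hZa.bw.le_dist_of_not_ctB hr.1 hr.2 hb hbx fun r' hr' hc =>
          hno r' k (hb.trans hr'.1.le) hr'.2 hc
      · exact absurd rfl hx) v ⟨hv, le_rfl⟩
  rw [h1, MW.path_zero hΦ hε]
  have h2 : (Z.ins a).z (Sum.inr ()) = lineAt a.1.1 a.1.2 0 := RtG302.back_eq_lineAt a.1
  rw [h2]
  exact lineAt_lineAt a.1.1 0 v a.1.2

end mw

/-! ### Exits -/

section exits

variable {ι J κ : Type} [Fintype ι] [Fintype J] [Nonempty κ]
variable {Φ : Space3 → ℝ} {ε T : ℝ} {K : ℕ} {Z : MW ι} {M : VSys J κ} {c ℓ ς : ℝ}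
  {Zc : J → PhasePoint} {Λ : Finset (Finset J)} {π P : Finset J} {N N₁ : ℕ} {lab : ι → J}
  {R : ℝ → J → J → Prop} {a b : ML} {p p' k : J} {v u : ℝ}

/-- **No contact of the exit in the window**. -/
theorem line_free (hΦ : AdmissiblePotential Φ) (hε : 0 < ε) (hMε : M.ε = ε) (hTM : T ≤ M.T)
    (h1c : 1 ≤ c) (hℓς : 2 * ℓ ≤ ς) (hR : PartR M c Zc π R) (hπ : π ∈ Λ)
    (hZ : Z.Ok Φ ε) (hZa : (Z.ins a).Ok Φ ε)
    (hRA : ReachAll (Reach M c Zc Λ π p N) Φ ε K T Z lab a p) (hlp : ∀ g, lab g ≠ p)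
    (hB : Big M c Zc Λ π R N₁ P) (hNB : NoBad M c ℓ ς Zc Λ (N₁ + (N + N)))
    (hp : p ∈ π) (hk : k ∈ π) (hkp : k ≠ p) (hv : v ∈ Icc 0 T) (hvθ : v ≤ Z.thetaL Φ ε K T a)
    (hvc : M.VCt c P p k v Zc) (hRb : ∀ r ∈ Icc 0 M.T, R r p k → r ≤ a.1.1)
    (hkb : ∀ g, lab g = k → v ≤ Z.b g) :
    ∀ s g, a.1.1 ≤ s → s < v → ¬ (Z.ins a).C Φ ε s (Sum.inr ()) (Sum.inl g) := by
  intro s g hbs hsv hc
  have hvM : v ∈ Icc 0 M.T := ⟨hv.1, hv.2.trans hTM⟩
  obtain ⟨r, hr, hRr⟩ := hB.exists_r hR hπ (noBad_mono hNB (Nat.le_add_right _ _)) hp hk hkp hvM hvc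
  have hra := hRb r hr hRr
  have hs0 : 0 ≤ s := (hr.1.trans hra).trans hbs
  have hs : s ∈ Icc 0 T := ⟨hs0, hsv.le.trans hv.2⟩
  have hsM : s ∈ Icc 0 M.T := ⟨hs.1, hs.2.trans hTM⟩
  have hlt : s < Z.thetaL Φ ε K T a := hsv.trans_le hvθ
  have hcf := cf_of_contact hΦ hε hZ hZa hs hlt hc
  have hgb : (Z.ins a).b (Sum.inl g) ≤ s := MW.C_born' hc
  have h1 := (hRA s hs hlt.le (Sum.inl g) (ci_inl hcf) hgb).1
  have h2 := (hRA s hs hlt.le (Sum.inr ()) ci_inr hbs).1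
  obtain ⟨Y, hY, hgY, A, hA, hgA, hokA, hqA⟩ := h1
  obtain ⟨Y', hY', hpY', A', hA', hpA', hokA', hqA'⟩ := h2
  change lab g ∈ Y at hgY
  change lab g ∈ A at hgA
  change p ∈ A' at hpA'
  have hd : dist (M.st A' s Zc p).1 (M.st A s Zc (lab g)).1 ≤ c * M.ε := by
    have h3 : dist ((Z.ins a).path Φ ε s (Sum.inr ())).1 ((Z.ins a).path Φ ε s (Sum.inl g)).1 ≤ ε :=
      hc.2.2.2
    have h4 : (M.st A' s Zc p).1 = ((Z.ins a).path Φ ε s (Sum.inr ())).1 := hqA'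
    have h5 : (M.st A s Zc (lab g)).1 = ((Z.ins a).path Φ ε s (Sum.inl g)).1 := hqA
    rw [h4, h5, hMε]
    nlinarith
  have hBB : Big M c Zc Λ π R (N₁ + (N + N)) (P ∪ ((π ∪ Y) ∪ (π ∪ Y'))) :=
    hB.union ((hR.big hY hπ hp).union (hR.big hY' hπ hp) hp) hp
  have hsub1 : A ⊆ P ∪ ((π ∪ Y) ∪ (π ∪ Y')) := by
    intro z hz
    have := hA hz
    simp only [Finset.mem_union] at this ⊢
    tauto
  have hsub2 : A' ⊆ P ∪ ((π ∪ Y) ∪ (π ∪ Y')) := by
    intro z hz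
    have := hA' hz
    simp only [Finset.mem_union] at this ⊢
    tauto
  have hsc : M.VCt c (P ∪ ((π ∪ Y) ∪ (π ∪ Y'))) p (lab g) s Zc :=
    vct_of_st hsub2 hsub1 hpA' hgA hokA' hokA (hY'.obs p hpY') (hY.obs _ hgY) hd
  have hgk : lab g = k := hBB.third hR hπ hNB hℓς hp hk hkp hvM
    (vct_mono Finset.subset_union_left hvc) hr hRr (hsub1 hgA) (hlp g) hsM (hra.trans hbs) hsv.le hsc
  exact absurd hsv (not_lt.2 ((hkb g hgk).trans hgb))

/-- **Two exits of one part do not meet each other.** -/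
theorem exits_apart (hΦ : AdmissiblePotential Φ) (hε : 0 < ε) (hMε : M.ε = ε) (hTM : T ≤ M.T)
    (h1c : 1 ≤ c) (hℓς : 2 * ℓ ≤ ς) (hR : PartR M c Zc π R) (hπ : π ∈ Λ)
    (hZ : Z.Ok Φ ε) (hZa : (Z.ins a).Ok Φ ε) (hZb : (Z.ins b).Ok Φ ε)
    (hRA : ReachAll (Reach M c Zc Λ π p N) Φ ε K T Z lab a p)
    (hRA' : ReachAll (Reach M c Zc Λ π p' N) Φ ε K T Z lab b p')
    (hlp : ∀ g, lab g ≠ p) (hlp' : ∀ g, lab g ≠ p')
    (hNB : NoBad M c ℓ ς Zc Λ (N + N + (N + N))) (hp : p ∈ π) (hp' : p' ∈ π) (hpp : p ≠ p')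
    (hRb : ∀ r ∈ Icc 0 M.T, R r p p' → r ≤ a.1.1 ∧ r ≤ b.1.1)
    (hexit : ∀ u ∈ Icc 0 M.T, a.1.1 ≤ u → b.1.1 ≤ u → (a.1.1 < u ∨ b.1.1 < u) →
      ε < dist (lineAt a.1.1 a.1.2 u).1 (lineAt b.1.1 b.1.2 u).1)
    (hu : u ∈ Icc 0 T) (hua : u ≤ Z.thetaL Φ ε K T a) (hub : u ≤ Z.thetaL Φ ε K T b)
    (hau : a.1.1 ≤ u) (hbu : b.1.1 ≤ u) (hne : a.1.1 < u ∨ b.1.1 < u) :
    ε < dist ((Z.add (MW.line a)).path Φ ε u (Sum.inr ())).1
        ((Z.add (MW.line b)).path Φ ε u (Sum.inr ())).1 := by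
  by_contra hcon
  rw [not_lt] at hcon
  have huM : u ∈ Icc 0 M.T := ⟨hu.1, hu.2.trans hTM⟩
  have h1 := (hRA u hu hua (Sum.inr ()) ci_inr hau).1
  have h2 := (hRA' u hu hub (Sum.inr ()) ci_inr hbu).1
  obtain ⟨Y, hY, hpY, A, hA, hpA, hokA, hqA⟩ := h1
  obtain ⟨Y', hY', hpY', A', hA', hpA', hokA', hqA'⟩ := h2
  change p ∈ Y at hpY
  change p ∈ A at hpA
  change p' ∈ Y' at hpY'
  change p' ∈ A' at hpA'
  have hd : dist (M.st A u Zc p).1 (M.st A' u Zc p').1 ≤ c * M.ε := by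
    have h4 : (M.st A u Zc p).1 = ((Z.add (MW.line a)).path Φ ε u (Sum.inr ())).1 := hqA
    have h5 : (M.st A' u Zc p').1 = ((Z.add (MW.line b)).path Φ ε u (Sum.inr ())).1 := hqA'
    rw [h4, h5, hMε]
    nlinarith
  have hB : Big M c Zc Λ π R (N + N) ((π ∪ Y) ∪ (π ∪ Y')) :=
    (hR.big hY hπ hp).union (hR.big hY' hπ hp') hp
  have hvc : M.VCt c ((π ∪ Y) ∪ (π ∪ Y')) p p' u Zc :=
    vct_of_st (hA.trans Finset.subset_union_left) (hA'.trans Finset.subset_union_right) hpA hpA'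
      hokA hokA' (hY.obs p hpY) (hY'.obs p' hpY') hd
  have hfa := line_free hΦ hε hMε hTM h1c hℓς hR hπ hZ hZa hRA hlp hB hNB hp hp' hpp.symm hu hua
    hvc (fun r hr h => (hRb r hr h).1) (fun g hg => absurd hg (hlp' g))
  have hfb := line_free hΦ hε hMε hTM h1c hℓς hR hπ hZ hZb hRA' hlp' hB hNB hp' hp hpp hu hub
    (vct_symm hvc) (fun r hr h => (hRb r hr (hR.symm r p' p h)).2) (fun g hg => absurd hg (hlp g))
  have ha : ((Z.add (MW.line a)).path Φ ε u (Sum.inr ())) = lineAt a.1.1 a.1.2 u :=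
    path_free hΦ hε hZa hu.1 hfa
  have hb : ((Z.add (MW.line b)).path Φ ε u (Sum.inr ())) = lineAt b.1.1 b.1.2 u :=
    path_free hΦ hε hZb hu.1 hfb
  rw [ha, hb] at hcon
  exact absurd (hexit u huM hau hbu hne) (not_lt.2 hcon)

/-- **No return of the influence of an exit** (radius `r ≤ c ε`). -/
theorem not_retA_of {ξ : Type} {O : Tubes ξ} {r : ℝ} (hΦ : AdmissiblePotential Φ) (hε : 0 < ε)
    (hTM : T ≤ M.T) (hrc : r ≤ c * M.ε) (hℓς : 2 * ℓ ≤ ς) (hR : PartR M c Zc π R)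
    (hπ : π ∈ Λ) (hZ : Z.Ok Φ ε) (hZa : (Z.ins a).Ok Φ ε)
    (hRA : ReachAll (Reach M c Zc Λ π p N) Φ ε K T Z lab a p) (hlp : ∀ g, lab g ≠ p)
    (hNB : NoBad M c ℓ ς Zc Λ N) (hp : p ∈ π)
    (hO : ∀ x, ∀ v ∈ Icc 0 T, a.1.1 ≤ v → v ≤ O.b x →
      (∃ k ∈ π, k ≠ p ∧ M.o ≠ some k ∧ M.ok π v Zc ∧ O.c x v = (M.st π v Zc k).1) ∨
      (∃ k ∈ π, k ≠ p ∧ M.o ≠ some p ∧ M.ok π v Zc ∧ O.c x v = (M.st π v Zc p).1 ∧
        M.VCt c π p k v Zc)) : ¬ RetA Φ ε r K T Z a O := by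
  rintro ⟨v, hv, hnt, i, hi, hn⟩
  have hvM : v ∈ Icc 0 M.T := ⟨hv.1, hv.2.trans hTM⟩
  have h1 : CF Φ ε K Z (MW.line a) v i := cf_of_fut hΦ hε hZ hZa hv hnt hi
  have h2 : v ≤ Z.thetaL Φ ε K T a := (lt_theta_of_not_touched hΦ hε hZ hZa hv hnt).le
  have h0 : (Z.add (MW.line a)).b (Sum.inl i) ≤ v := by
    have h := born_of_fut hΦ hε hi
    exact h
  have hb : a.1.1 ≤ v := birth_le_of_fut hΦ hε hi
  have h3 := hRA v hv h2 (Sum.inl i) (ci_inl h1) h0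
  have hcπ : M.Conn c π Zc := conn_of_cut hR.cut fun i hi j hj hij ⟨r, hr, h⟩ =>
    ⟨r, hr, hR.vct r hr i hi j hj hij h⟩
  have key : ∀ q, Reach M c Zc Λ π p N (lab i) v q → near r O v q → False := by
    rintro q hq ⟨x, hx, hd⟩
    rcases hO x v hv hb hx with ⟨k, hk, hkp, hko, hok, hc⟩ | ⟨k, hk, hkp, hpo, hok, hc, hvc⟩
    · refine Reach.ret hq hπ hcπ hp (B := π) hk subset_rfl hkp (hlp i) hvM hok hko ?_ hNB
      rw [← hc, dist_comm]
      exact hd.trans hrc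
    · obtain ⟨Y, hY, hiY, A, hA, hiA, hokA, hqA⟩ := hq
      have hB := hR.big hY hπ hp
      have hiP : lab i ∈ π ∪ Y := hA hiA
      have hvc' : M.VCt c (π ∪ Y) p (lab i) v Zc := by
        refine vct_of_st Finset.subset_union_left hA hp hiA hok hokA hpo (hY.obs _ hiY) ?_
        rw [hqA, ← hc]
        exact hd.trans hrc
      have h5 := hB.same hR hπ hNB hℓς (hB.sub hp) (hB.sub hk) hkp hiP (hlp i) hvM
        (vct_mono Finset.subset_union_left hvc) hvc'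
      exact hY.not_mem hπ hiY (hlp i) (h5 ▸ hk)
  rcases hn with hn | hn
  · exact key _ (h3.2 i rfl) hn
  · exact key _ h3.1 hn

/-- **No return of an exit** to its part. -/
theorem not_retB_of {ξ : Type} {O : Tubes ξ} (hΦ : AdmissiblePotential Φ) (hε : 0 < ε)
    (hMε : M.ε = ε) (hTM : T ≤ M.T) (h1c : 1 ≤ c) (hℓς : 2 * ℓ ≤ ς) (hR : PartR M c Zc π R)
    (hπ : π ∈ Λ) (hZ : Z.Ok Φ ε) (hZa : (Z.ins a).Ok Φ ε)
    (hRA : ReachAll (Reach M c Zc Λ π p N) Φ ε K T Z lab a p) (hlp : ∀ g, lab g ≠ p)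
    (hNB : NoBad M c ℓ ς Zc Λ (N + (N + N))) (hp : p ∈ π)
    (hO : ∀ x, ∀ v ∈ Icc 0 T, a.1.1 < v → v ≤ O.b x → ∃ k ∈ π, k ≠ p ∧ M.o ≠ some k ∧
      M.ok π v Zc ∧ O.c x v = (M.st π v Zc k).1 ∧ (∀ g, lab g = k → v ≤ Z.b g) ∧
      (∀ r ∈ Icc 0 M.T, R r p k → r ≤ a.1.1) ∧
      ε < dist (O.c x v) (lineAt a.1.1 a.1.2 v).1) : ¬ RetB Φ ε ε K T Z a O := by
  rintro ⟨v, hv, hnt, hb, x, hx, hd⟩
  have hvM : v ∈ Icc 0 M.T := ⟨hv.1, hv.2.trans hTM⟩
  have h2 : v ≤ Z.thetaL Φ ε K T a := (lt_theta_of_not_touched hΦ hε hZ hZa hv hnt).le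
  obtain ⟨k, hk, hkp, hko, hok, hc, hkb, hRb, hfar⟩ := hO x v hv hb hx
  obtain ⟨Y, hY, hpY, A, hA, hpA, hokA, hqA⟩ := (hRA v hv h2 (Sum.inr ()) ci_inr hb.le).1
  change p ∈ Y at hpY
  change p ∈ A at hpA
  have hqA' : (M.st A v Zc p).1 = ((Z.ins a).path Φ ε v (Sum.inr ())).1 := hqA
  have hvc : M.VCt c (π ∪ Y) p k v Zc := by
    refine vct_of_st hA Finset.subset_union_left hpA hk hokA hok (hY.obs _ hpY) hko ?_
    rw [hqA', ← hc, dist_comm, hMε]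
    nlinarith
  have hf := line_free hΦ hε hMε hTM h1c hℓς hR hπ hZ hZa hRA hlp (hR.big hY hπ hp) hNB hp hk hkp
    hv h2 hvc hRb hkb
  rw [path_free hΦ hε hZa hv.1 hf] at hd
  exact absurd hfar (not_lt.2 hd)

end exits

end Crest.Agent.R122.Bind302

end
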