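import Crest.Agent.R122.LNBind_302
import Crest.Agent.R122.LNGraft_410
import Crest.Agent.R122.LNExit_968

/-!
# Row 122, EVENTS (helper515): exits of one class are pairwise unlinked, from `ReachAll`

General form of helper302's `pairNL_tree`: master system `M`, part `π ∈ Λ`, a class `S ⊆ π`
(helper410's `Cls`) with exit times `bD`, a connecting family `R` of contacts of `π` whose contacts
inside `S` are not later than the exits, an arbitrary base world `Z` with labels `lab`, lines `ls x`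
which are the exits of the class.
-/

set_option autoImplicit false
set_option linter.unusedSectionVars false

open MeasureTheory Set Filter Topology
open Crest.AnalysisR.Kinetic
open Crest.Agent.R122.GIV566 Crest.Agent.R122.VL581 Crest.Agent.R122.LNg410
open Crest.Agent.R122.LN304 Crest.Agent.R122.Ins45
open Crest.Agent.R122.Inf879 Crest.Agent.R122.EDefs602 Crest.Agent.R122.MWFam255
open Crest.Agent.R122.LNEv968 Crest.Agent.R122.LNEv818 Crest.Agent.R122.LNEv383
open Crest.Agent.R122.LNGraft410 Crest.Agent.R122.Bind302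
open scoped Classical

noncomputable section

namespace Crest.Agent.R122.LNCls515

variable {ι μ J κ : Type} [Fintype ι] [Fintype μ] [Fintype J] [Nonempty κ]
variable {Φ : Space3 → ℝ} {ε u₀ c ℓ ς : ℝ} {K N : ℕ} {M : VSys J κ} {Zc : J → PhasePoint}
  {Λ : Finset (Finset J)} {π S : Finset J} {bD : J → ℝ} {R : ℝ → J → J → Prop}
  {Z : MW ι} {lab : ι → J} {g : μ → J} {ls : μ → ML}

/-- The lines `ls x` are exits (labels `g x`) of the class `S`. -/
structure Exits (M : VSys J κ) (Zc : J → PhasePoint) (S : Finset J) (bD : J → ℝ) (g : μ → J)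
    (ls : μ → ML) : Prop where
  inj : Function.Injective g
  mem : ∀ x, g x ∈ S
  birth : ∀ x, (ls x).1.1 = bD (g x)
  line : ∀ x t, bD (g x) ≤ t → t ≤ M.T →
    M.st S t Zc (g x) = lineAt (ls x).1.1 (ls x).1.2 t

theorem Exits.far (hS : Cls M Zc S bD) (hE : Exits M Zc S bD g ls) {x y : μ} (hxy : x ≠ y) {t : ℝ}
    (htT : t ≤ M.T) (h1 : (ls x).1.1 ≤ t) (h2 : (ls y).1.1 ≤ t)
    (h3 : (ls x).1.1 < t ∨ (ls y).1.1 < t) :
    M.ε < dist (lineAt (ls x).1.1 (ls x).1.2 t).1 (lineAt (ls y).1.1 (ls y).1.2 t).1 := by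
  have hbx := hE.birth x
  have hby := hE.birth y
  have hne : g x ≠ g y := fun h => hxy (hE.inj h)
  rw [← hE.line x t (by rw [← hbx]; exact h1) htT, ← hE.line y t (by rw [← hby]; exact h2) htT]
  rcases h3 with h3 | h3
  · refine hS.exit (g x) (hE.mem x) t (by rw [← hbx]; exact h3) htT (g y) (hE.mem y) hne.symm ?_
    exact (hS.bb_le _ (hE.mem y)).trans (by rw [← hby]; exact h2)
  · rw [dist_comm]
    refine hS.exit (g y) (hE.mem y) t (by rw [← hby]; exact h3) htT (g x) (hE.mem x) hne ?_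
    exact (hS.bb_le _ (hE.mem x)).trans (by rw [← hbx]; exact h1)

/-- **Exits of one class are pairwise unlinked.** -/
theorem pairNL_cls (hΦ : AdmissiblePotential Φ) (hε : 0 < ε) (hMε : M.ε = ε) (hu : u₀ ≤ M.T)
    (hc : 1 ≤ c) (hℓς : 2 * ℓ ≤ ς) (hR : PartR M c Zc π R) (hπ : π ∈ Λ)
    (hconn : ∀ π ∈ Λ, M.Conn c π Zc) (hS : Cls M Zc S bD) (hSπ : S ⊆ π)
    (hold : ∀ j ∈ S, ∀ k ∈ S, j ≠ k → ∀ r ∈ Icc 0 M.T, R r j k → r ≤ bD j ∧ r ≤ bD k)
    (hE : Exits M Zc S bD g ls) (hlab : Function.Injective lab) (hlg : ∀ x i, lab i ≠ g x)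
    (hZ : Z.Ok Φ ε) (hOk : ∀ x, (Z.ins (ls x)).Ok Φ ε)
    (hNB : NoBad M c ℓ ς Zc Λ (N + N + (N + N))) (hNT : NoTwo M c Zc Λ (N + N))
    (hRA : ∀ x, ReachAll (Reach M c Zc Λ π (g x) N) Φ ε K u₀ Z lab (ls x) (g x)) :
    PairNL Φ ε K u₀ Z ls := by
  refine pairNL_of_reach hΦ hε (M := M) (c := c) (ℓ := ℓ) (ς := ς)
    (Zc := Zc) (Λ := Λ) (N := N) hMε hu hc hconn
    (noBad_mono hNB (Nat.le_add_right _ _)) hNT hlab (P := fun _ => π)
    (p := g) (fun _ => hπ) (fun x => hSπ (hE.mem x)) hE.inj (fun x h => ?_) hRA ?_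
  · obtain ⟨i, hi⟩ := h
    exact hlg x i hi
  · intro x y hxy _ u hu' hux huy hbx hby hb
    have hne : g x ≠ g y := fun h => hxy (hE.inj h)
    refine exits_apart hΦ hε (M := M) (c := c) (ℓ := ℓ) (ς := ς) hMε hu hc hℓς hR hπ
      hZ (hOk x) (hOk y) (hRA x) (hRA y) (hlg x) (hlg y) hNB (hSπ (hE.mem x)) (hSπ (hE.mem y)) hne
      (fun r hr h => ?_) ?_ hu' hux huy hbx hby hb
    · have := hold (g x) (hE.mem x) (g y) (hE.mem y) hne r hr h
      rw [hE.birth x, hE.birth y]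
      exact this
    · intro t ht h1 h2 h3
      have := hE.far hS hxy ht.2 h1 h2 h3
      rwa [hMε] at this

end Crest.Agent.R122.LNCls515

end
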