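import Crest.Agent.R122.LNLinkEx_818
import Crest.Agent.R122.LNReach_968

/-!
# Pairs of lines are unlinked off the bad events (row 122, EVENTS, helper818)

`pairNL_of_reach`: lines `ls x` with labels `p x` in parts `P x`; if each line reaches only its
groups (`Reach` of helper968), then off `NoBad`, `NoTwo` violations the family is pairwise unlinked,
provided that two exits of one part do not meet each other themselves.
-/

set_option autoImplicit false
set_option linter.unusedSectionVars false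

open MeasureTheory Set Filter Topology
open Crest.AnalysisR.Kinetic
open Crest.Agent.R122.Ins45 Crest.Agent.R122.EDefs602 Crest.Agent.R122.CausalGen291
open Crest.Agent.R122.MWFam255 Crest.Agent.R122.VL581 Crest.Agent.R122.LN304
open Crest.Agent.R122.LNEv968
open scoped Classical

noncomputable section

namespace Crest.Agent.R122.LNEv818

variable {ι κ μ J : Type} [Fintype ι] [Fintype μ] [Fintype J] [Nonempty κ]
variable {Φ : Space3 → ℝ} {ε T : ℝ} {K : ℕ} {Z : MW ι}

/-- **Pairwise unlinked lines.** -/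
theorem pairNL_of_reach (hΦ : AdmissiblePotential Φ) (hε : 0 < ε) {M : VSys J κ}
    {c ℓ ς : ℝ} {Zc : J → PhasePoint} {Λ : Finset (Finset J)} {N : ℕ} (hMε : M.ε = ε)
    (hTM : T ≤ M.T) (h1c : 1 ≤ c) (hconn : ∀ π ∈ Λ, M.Conn c π Zc)
    (hNB : NoBad M c ℓ ς Zc Λ (N + N)) (hNT : NoTwo M c Zc Λ (N + N))
    {lab : ι → J} (hlab : Function.Injective lab) {ls : μ → ML} {P : μ → Finset J} {p : μ → J}
    (hP : ∀ x, P x ∈ Λ) (hp : ∀ x, p x ∈ P x) (hpi : Function.Injective p)
    (hpl : ∀ x, p x ∉ range lab)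
    (hR : ∀ x, ReachAll (Reach M c Zc Λ (P x) (p x) N) Φ ε K T Z lab (ls x) (p x))
    (h3 : ∀ x y, x ≠ y → P x = P y → ∀ u ∈ Icc 0 T, u ≤ Z.thetaL Φ ε K T (ls x) →
      u ≤ Z.thetaL Φ ε K T (ls y) → (ls x).1.1 ≤ u → (ls y).1.1 ≤ u →
      ((ls x).1.1 < u ∨ (ls y).1.1 < u) →
      ε < dist ((Z.add (MW.line (ls x))).path Φ ε u (Sum.inr ())).1
        ((Z.add (MW.line (ls y))).path Φ ε u (Sum.inr ())).1) :
    PairNL Φ ε K T Z ls := by
  have hM0 : ∀ {u}, u ∈ Icc 0 T → u ∈ Icc 0 M.T := fun hu => ⟨hu.1, hu.2.trans hTM⟩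
  have hcε : ∀ {d : ℝ}, d ≤ ε → d ≤ c * M.ε := by
    intro d hd
    rw [hMε]
    nlinarith
  refine pairNL_of_reachAll hΦ hε (R := fun x => Reach M c Zc Λ (P x) (p x) N) hlab hR ?_ ?_ hpl ?_
  · intro x y hxy k u q q' hu hq hq'
    by_cases hpp : P x = P y
    · rw [← hpp] at hq'
      exact Reach.common hq hq' (hP x) (hconn _ (hP x)) (hp x) (hpp ▸ hp y) (hpi.ne hxy) hNB
    · exact Reach.two_common hq hq' (hP x) (hP y) (hconn _ (hP x)) (hconn _ (hP y)) (hp x) (hp y)
        hpp hNT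
  · intro x y hxy i j u q q' hu hij hne hq hq' hd
    by_cases hpp : P x = P y
    · rw [← hpp] at hq'
      refine Reach.contact hq hq' (hP x) (hconn _ (hP x)) (hp x) (hpp ▸ hp y) (hpi.ne hxy) ?_
        (hM0 hu) (hcε hd) hNB
      rintro ⟨rfl, rfl⟩
      exact hij.elim (hpl x) (hpl y)
    · exact Reach.two_contact hq hq' (hP x) (hP y) (hconn _ (hP x)) (hconn _ (hP y)) (hp x) (hp y)
        hpp (hM0 hu) (hcε hd) hNT
  · intro x y hxy u hu hux huy hbx hby hb hq hq'
    by_cases hpp : P x = P y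
    · exact h3 x y hxy hpp u hu hux huy hbx hby hb
    · by_contra hcon
      exact Reach.two_contact hq hq' (hP x) (hP y) (hconn _ (hP x)) (hconn _ (hP y)) (hp x) (hp y)
        hpp (hM0 hu) (hcε (not_lt.1 hcon)) hNT

end Crest.Agent.R122.LNEv818

end
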