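import Crest.Agent.R122.LNRet_383
import Crest.Agent.R122.LNLinkB_818
import Crest.Agent.R122.LNvs3_410

/-!
# Row 122, LN1 events (helper383), part 2: no returns off the bad events

* `birth_le_of_fut` : influenced particles of a line are influenced after its birth;
  `ReachAll.born` : the same in `ReachAll`.
* `Grp.ret_own` : an influenced particle near the exit `a` at a time of contact of `a` with another
  member of its part.
* `TubeOf` : a family of tubes which are isolated paths of members of parts.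
* `not_retA_of_reach`, `not_retB_of_reach`, `not_retD_of_reach`, `not_retC_of_reach` : no returns
  (radius `≤ c ε`) off `NoBad`, `NoTwo` violations. The line `a` itself near the tube of another
  member of its own part is excluded separately (exit data).
-/

set_option autoImplicit false
set_option linter.unusedSectionVars false

open MeasureTheory Set Filter Topology
open scoped ENNReal
open Crest.AnalysisR.Kinetic
open Crest.Agent.R122.Flow671 Crest.Agent.R122.Ins45 Crest.Agent.R122.Causal291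
open Crest.Agent.R122.Inf879 Crest.Agent.R122.GC311 Crest.Agent.R122.EDefs602
open Crest.Agent.R122.EDefs602.MW Crest.Agent.R122.MWFam255 Crest.Agent.R122.GIV566
open Crest.Agent.R122.VL581 Crest.Agent.R122.LN304 Crest.Agent.R122.LNg410
open Crest.Agent.R122.LNEv968
open Crest.Agent.R122.RtG302 (near RetL RetM RetEx RetLn)
open Crest.Agent.R122.LNEv818 (ReachAll)
open scoped Classical

namespace Crest.Agent.R122.LNEv383

noncomputable section

variable {ι κ ξ J : Type} [Fintype ι] [Fintype J]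
variable {Φ : Space3 → ℝ} {ε T s r : ℝ} {K : ℕ} {Z : MW ι}

/-! ### Births -/

/-- Particles influenced by a line are influenced after its birth. -/
theorem birth_le_of_fut (hΦ : AdmissiblePotential Φ) (hε : 0 < ε) {l : ML} {k : ι}
    (h : Z.Fut Φ ε (MW.line l) s k) : l.1.1 ≤ s := by
  have key : ∀ {s : ℝ} {k : ι}, Z.Fut Φ ε (MW.line l) s k → l.1.1 ≤ s := by
    intro s k h
    induction h with
    | init h0 _ =>
      refine absurd ?_ h0
      rw [MW.path_zero hΦ hε, MW.path_zero hΦ hε]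
      rfl
    | new₁ j hj _ _ _ => exact absurd ⟨j, rfl⟩ hj
    | @new₂ s s' i j hj hc _ hs =>
      rcases j with j | j
      · exact absurd ⟨j, rfl⟩ hj
      · have h1 : l.1.1 ≤ s' := hc.1
        exact h1.trans hs
    | chain₁ _ _ hs ih => exact ih.trans hs
    | chain₂ _ _ hs ih => exact ih.trans hs
  exact key h

/-- `ReachAll` after the birth of the line. -/
theorem reachAll_born (hΦ : AdmissiblePotential Φ) (hε : 0 < ε) {R : J → ℝ → Space3 → Prop}
    {lab : ι → J} {a : ML} {p : J} (h : ReachAll R Φ ε K T Z lab a p) :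
    ReachAll (fun j v q => R j v q ∧ a.1.1 ≤ v) Φ ε K T Z lab a p := by
  intro u hu hle x hx hb
  have hbu : a.1.1 ≤ u := by
    rcases x with x | x
    · exact birth_le_of_fut hΦ hε (hx.inl).fut
    · exact hb
  obtain ⟨h1, h2⟩ := h u hu hle x hx hb
  exact ⟨⟨h1, hbu⟩, fun k hk => ⟨h2 k hk, hbu⟩⟩

/-! ### The own tube -/

variable {M : VSys J κ} {c ℓ ς : ℝ} {Zc : J → PhasePoint} {Λ : Finset (Finset J)}
  {π π' Y : Finset J} {a g i : J} {N : ℕ} {v : ℝ} {q : Space3}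

/-- An influenced particle near the exit `a` at a time at which `a` is in contact with another member
`g` of its part. -/
theorem grp_ret_own (h : Grp M c Zc Λ π a N Y) (hπ : π ∈ Λ) (hc : M.Conn c π Zc) (ha : a ∈ π)
    (hℓς : 2 * ℓ ≤ ς) (hg : g ∈ π) (hga : g ≠ a) (hi : i ∈ Y) (hia : i ≠ a)
    (hv : v ∈ Icc 0 M.T) (hvc : M.VCt c (π ∪ Y) i a v Zc) (hvg : M.VCt c π a g v Zc) :
    ¬ NoBad M c ℓ ς Zc Λ N := by
  intro hNB
  have h1 : M.Conn c (π ∪ Y) Zc := h.conn_union hc ha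
  have h2 : (π ∪ Y ∪ uni Λ).card ≤ N := by
    refine (Finset.card_le_card ?_).trans h.card
    intro z hz
    simp only [Finset.mem_union] at hz ⊢
    rcases hz with (hz | hz) | hz
    · exact Or.inr (sub_uni hπ hz)
    · exact Or.inl hz
    · exact Or.inr hz
  have hT := hNB _ h1 ⟨π, hπ, Finset.subset_union_left⟩ h2
  have h3 := tl_between hT.2 h1 hℓς (Finset.mem_union_right _ hi) (Finset.mem_union_left _ ha) hia
    (Finset.mem_union_left _ ha) (Finset.mem_union_left _ hg) (Ne.symm hga) hv hvc hv hvc hv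
    (vct_mono Finset.subset_union_left hvg) le_rfl le_rfl
  have hiπ : i ∉ π := h.not_mem hπ hi hia
  rcases h3 with ⟨h3, _⟩ | ⟨h3, _⟩
  · exact hia h3
  · exact hiπ (h3 ▸ hg)

/-- The same in terms of positions. -/
theorem reach_ret_own [Nonempty κ] {B : Finset J} (h : Reach M c Zc Λ π a N i v q) (hπ : π ∈ Λ)
    (hc : M.Conn c π Zc) (ha : a ∈ π) (hℓς : 2 * ℓ ≤ ς) (hg : g ∈ π) (hga : g ≠ a) (hia : i ≠ a)
    (hv : v ∈ Icc 0 M.T) (hvg : M.VCt c π a g v Zc) (haB : a ∈ B) (hB : B ⊆ π)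
    (hok : M.ok B v Zc) (hoa : M.o ≠ some a) (hd : dist q (M.st B v Zc a).1 ≤ c * M.ε) :
    ¬ NoBad M c ℓ ς Zc Λ N := by
  obtain ⟨Y, hY, hi, A, hA, hiA, hokA, hq⟩ := h
  refine grp_ret_own hY hπ hc ha hℓς hg hga hi hia hv ?_ hvg
  exact vct_of_st hA (hB.trans Finset.subset_union_left) hiA haB hokA hok (hY.obs i hi) hoa
    (by rwa [hq])

/-! ### Tubes of members of parts -/

/-- The tube `O.c k` (on `[0, min T (O.b k)]`) is the isolated path of the member `m k` of the part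
`Q k`. -/
structure TubeOf (M : VSys J κ) (Zc : J → PhasePoint) (Λ : Finset (Finset J)) (O : Tubes ξ)
    (T : ℝ) (Q : ξ → Finset J) (m : ξ → J) : Prop where
  part : ∀ k, Q k ∈ Λ
  mem : ∀ k, m k ∈ Q k
  obs : ∀ k, M.o ≠ some (m k)
  path : ∀ k, ∀ v ∈ Icc 0 T, v ≤ O.b k → ∃ B ⊆ Q k, m k ∈ B ∧ M.ok B v Zc ∧
    O.c k v = (M.st B v Zc (m k)).1

variable {O : Tubes ξ} {Q : ξ → Finset J} {m : ξ → J}

/-- **A reached particle which is not the line is not near the tubes.** -/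
theorem not_near_of_reach [Nonempty κ] (hO : TubeOf M Zc Λ O T Q m) (hTM : T ≤ M.T)
    (hr : r ≤ c * M.ε) (hℓς : 2 * ℓ ≤ ς) (hconn : ∀ π ∈ Λ, M.Conn c π Zc)
    (hNB : NoBad M c ℓ ς Zc Λ N) (hNT : NoTwo M c Zc Λ N)
    (hπ : π ∈ Λ) (ha : a ∈ π)
    (hown : ∀ k, m k = a → v ≤ O.b k → ∃ g ∈ π, g ≠ a ∧ M.VCt c π a g v Zc)
    (hv : v ∈ Icc 0 T) (hia : i ≠ a) (h : Reach M c Zc Λ π a N i v q) : ¬ near r O v q := by
  rintro ⟨k, hk, hd⟩
  have hvM : v ∈ Icc 0 M.T := ⟨hv.1, hv.2.trans hTM⟩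
  obtain ⟨B, hB, hkB, hok, hpos⟩ := hO.path k v hv hk
  have hd' : dist q (M.st B v Zc (m k)).1 ≤ c * M.ε := by
    rw [← hpos, dist_comm]
    exact hd.trans hr
  by_cases hQ : π = Q k
  · by_cases hka : m k = a
    · obtain ⟨g, hg, hga, hvg⟩ := hown k hka hk
      rw [hka] at hkB hd'
      exact reach_ret_own h hπ (hconn π hπ) ha hℓς hg hga hia hvM hvg hkB (hQ ▸ hB) hok
        (hka ▸ hO.obs k) hd' hNB
    · exact h.ret hπ (hconn π hπ) ha hkB (hQ ▸ hB) hka hia hvM hok (hO.obs k) hd' hNB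
  · exact h.ret_other hπ (hO.part k) (hconn π hπ) (hconn _ (hO.part k)) ha hkB hB hQ hvM hok
      (hO.obs k) hd' hNT

/-- **The line is not near the tubes of other parts.** -/
theorem not_near_other [Nonempty κ] (hO : TubeOf M Zc Λ O T Q m) (hTM : T ≤ M.T)
    (hr : r ≤ c * M.ε) (hconn : ∀ π ∈ Λ, M.Conn c π Zc) (hNT : NoTwo M c Zc Λ N)
    (hπ : π ∈ Λ) (ha : a ∈ π) (hv : v ∈ Icc 0 T) (h : Reach M c Zc Λ π a N i v q) {k : ξ}
    (hQ : π ≠ Q k) (hk : v ≤ O.b k) : ¬ dist (O.c k v) q ≤ r := by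
  intro hd
  have hvM : v ∈ Icc 0 M.T := ⟨hv.1, hv.2.trans hTM⟩
  obtain ⟨B, hB, hkB, hok, hpos⟩ := hO.path k v hv hk
  have hd' : dist q (M.st B v Zc (m k)).1 ≤ c * M.ε := by
    rw [← hpos, dist_comm]
    exact hd.trans hr
  exact h.ret_other hπ (hO.part k) (hconn π hπ) (hconn _ (hO.part k)) ha hkB hB hQ hvM hok
      (hO.obs k) hd' hNT

/-! ### No returns -/

variable {lab : ι → J} {l : ML}

/-- Hypotheses for the exclusion of returns of the line `l`, label `a`, part `π`. -/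
structure RetHyp (M : VSys J κ) (c ℓ ς : ℝ) (Zc : J → PhasePoint) (Λ : Finset (Finset J))
    (π : Finset J) (a : J) (N : ℕ) (O : Tubes ξ) (T : ℝ) (Q : ξ → Finset J) (m : ξ → J)
    (lab : ι → J) (l : ML) (r : ℝ) : Prop where
  tube : TubeOf M Zc Λ O T Q m
  hTM : T ≤ M.T
  hr : r ≤ c * M.ε
  hℓς : 2 * ℓ ≤ ς
  conn : ∀ π ∈ Λ, M.Conn c π Zc
  noBad : NoBad M c ℓ ς Zc Λ N
  noTwo : NoTwo M c Zc Λ N
  part : π ∈ Λ
  mem : a ∈ π
  lab : ∀ k, lab k ≠ a
  /-- the own tube ends at the birth of the line, at a contact with another member -/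
  own : ∀ k, m k = a → O.b k ≤ l.1.1 ∧ (l.1.1 ≤ T → ∃ g ∈ π, g ≠ a ∧ M.VCt c π a g l.1.1 Zc)

theorem RetHyp.not_near [Nonempty κ] (h : RetHyp M c ℓ ς Zc Λ π a N O T Q m lab l r)
    (hv : v ∈ Icc 0 T) (hb : l.1.1 ≤ v) {k : ι} (hR : Reach M c Zc Λ π a N (lab k) v q) :
    ¬ near r O v q := by
  refine not_near_of_reach h.tube h.hTM h.hr h.hℓς h.conn h.noBad h.noTwo h.part h.mem ?_ hv
    (h.lab k) hR
  intro k' hk' hvk
  obtain ⟨h1, h2⟩ := h.own k' hk'
  have h3 : v = l.1.1 := le_antisymm (hvk.trans h1) hb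
  rw [h3]
  exact h2 (h3 ▸ hv.2)

/-- **No return of the influence** (open form, both worlds). -/
theorem RetHyp.not_retA [Nonempty κ] (h : RetHyp M c ℓ ς Zc Λ π a N O T Q m lab l r)
    (hΦ : AdmissiblePotential Φ) (hε : 0 < ε) (hZ : Z.Ok Φ ε) (hZa : (Z.ins l).Ok Φ ε)
    (hR : ReachAll (Reach M c Zc Λ π a N) Φ ε K T Z lab l a) : ¬ RetA Φ ε r K T Z l O :=
  LNEv383.not_retA hΦ hε hZ hZa (reachAll_born hΦ hε hR)
    fun _ _ _ hv hq => h.not_near hv hq.2 hq.1

/-- **No return of the line** (open form): the line near a tube of its own part is excluded by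
`hl`. -/
theorem RetHyp.not_retB [Nonempty κ] (h : RetHyp M c ℓ ς Zc Λ π a N O T Q m lab l r)
    (hΦ : AdmissiblePotential Φ) (hε : 0 < ε) (hZ : Z.Ok Φ ε) (hZa : (Z.ins l).Ok Φ ε)
    (hR : ReachAll (Reach M c Zc Λ π a N) Φ ε K T Z lab l a)
    (hl : ∀ k, Q k = π → m k ≠ a → ∀ v ∈ Icc 0 T, v ≤ Z.thetaL Φ ε K T l → l.1.1 < v →
      v ≤ O.b k → r < dist (O.c k v) ((Z.ins l).path Φ ε v (Sum.inr ())).1) :
    ¬ RetB Φ ε r K T Z l O := by
  rintro ⟨v, hv, hnt, hb, k, hk, hd⟩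
  have h2 : v ≤ Z.thetaL Φ ε K T l := (lt_theta_of_not_touched hΦ hε hZ hZa hv hnt).le
  have h3 := (hR v hv h2 (Sum.inr ()) ci_inr hb.le).1
  by_cases hQ : Q k = π
  · by_cases hka : m k = a
    · exact absurd (hk.trans (h.own k hka).1) (not_le.2 hb)
    · exact absurd hd (not_le.2 (hl k hQ hka v hv h2 hb hk))
  · exact not_near_other h.tube h.hTM h.hr h.conn h.noTwo h.part h.mem hv h3 (Ne.symm hQ) hk hd

/-- **No return** (closed form, both worlds) to tubes of other parts. -/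
theorem RetHyp.not_retD [Nonempty κ] (h : RetHyp M c ℓ ς Zc Λ π a N O T Q m lab l r)
    (hΦ : AdmissiblePotential Φ) (hε : 0 < ε)
    (hR : ReachAll (Reach M c Zc Λ π a N) Φ ε K T Z lab l a) (hQ : ∀ k, Q k ≠ π) :
    ¬ RetD Φ ε r K T Z l O := by
  refine LNEv383.not_retD hΦ hε (reachAll_born hΦ hε hR) (fun _ _ _ hv hq => h.not_near hv hq.2 hq.1)
    ?_
  rintro v q hv hb ⟨hq, _⟩ ⟨k, hk, hd⟩
  exact not_near_other h.tube h.hTM h.hr h.conn h.noTwo h.part h.mem hv hq (Ne.symm (hQ k)) hk hd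

theorem RetHyp.not_retC [Nonempty κ] (h : RetHyp M c ℓ ς Zc Λ π a N O T Q m lab l r)
    (hΦ : AdmissiblePotential Φ) (hε : 0 < ε)
    (hR : ReachAll (Reach M c Zc Λ π a N) Φ ε K T Z lab l a) (hQ : ∀ k, Q k ≠ π) :
    ¬ RetC Φ ε r K T Z l O := fun hc => h.not_retD hΦ hε hR hQ (retC_retD hc)

end

end Crest.Agent.R122.LNEv383
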