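import Crest.Agent.R122.LNS3_674
import Crest.Agent.R122.LNRetB_383
import Crest.Agent.R122.E6Facts_879

/-!
# Row 122, LN1 (helper674): lines born after the horizon; families of inequality 3

* `noLink_late`, `noLink_late'` : a line which is born after the horizon has no link.
* `pairNL_plus_late` : exits and two late lines.
-/

set_option autoImplicit false
set_option linter.unusedSectionVars false

open MeasureTheory Set Filter Topology
open scoped NNReal ENNReal
open Crest.AnalysisR.Kinetic
open Crest.Agent.R122.Ins45 Crest.Agent.R122.EDefs602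
open Crest.Agent.R122.MWFam255 Crest.Agent.R122.LNEv818
open Crest.Agent.R122.E6Hyp879
open scoped Classical

noncomputable section

namespace Crest.Agent.R122.LNS674

variable {ι : Type} [Fintype ι] {Φ : Space3 → ℝ} {ε T : ℝ} {K : ℕ} {Z : MW ι}

theorem reachAll_late (hΦ : AdmissiblePotential Φ) (hε : 0 < ε) {J : Type} {R : J → ℝ → Space3 → Prop}
    {lab : ι → J} {a : ML} {p : J} (h : T < a.1.1) : ReachAll R Φ ε K T Z lab a p := by
  intro u hu _ x hx hb
  exfalso
  have h1 : a.1.1 ≤ u := by
    rcases x with x | x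
    · exact LNEv383.birth_le_of_fut hΦ hε (hx.inl).fut
    · exact hb
  exact absurd (h1.trans hu.2) (not_le.2 h)

/-- A line born after the horizon has no link. -/
theorem noLink_late (hΦ : AdmissiblePotential Φ) (hε : 0 < ε) {a b : ML} (h : T < a.1.1) :
    MW.NoLink Φ ε K T Z (MW.line a) (MW.line b) := by
  refine noLink_of_reachAll hΦ hε (Ra := fun _ _ _ => False) (Rb := fun _ _ _ => True)
    (lab := (Sum.inl : ι → ι ⊕ Bool)) Sum.inl_injective (p := Sum.inr true) (q := Sum.inr false)
    (reachAll_late hΦ hε h) (fun u hu hθ x hx hb => ⟨trivial, fun _ _ => trivial⟩)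
    (fun _ _ _ _ _ h1 _ => h1) (fun _ _ _ _ _ _ _ h1 _ _ => h1) (fun _ _ _ _ _ h1 _ _ => h1) ?_
  intro u _ _ _ _ _ _ h1 _
  exact absurd h1 id

theorem noLink_late' (hΦ : AdmissiblePotential Φ) (hε : 0 < ε) {a b : ML} (h : T < b.1.1) :
    MW.NoLink Φ ε K T Z (MW.line a) (MW.line b) := by
  refine noLink_of_reachAll hΦ hε (Ra := fun _ _ _ => True) (Rb := fun _ _ _ => False)
    (lab := (Sum.inl : ι → ι ⊕ Bool)) Sum.inl_injective (p := Sum.inr true) (q := Sum.inr false)
    (fun u hu hθ x hx hb => ⟨trivial, fun _ _ => trivial⟩) (reachAll_late hΦ hε h)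
    (fun _ _ _ _ _ _ h1 => h1) (fun _ _ _ _ _ _ _ _ h1 _ => h1) (fun _ _ _ _ _ _ h1 _ => h1) ?_
  intro u _ _ _ _ _ _ _ h1
  exact absurd h1 id

/-- Exits and two late lines. -/
theorem pairNL_plus_late (hΦ : AdmissiblePotential Φ) (hε : 0 < ε) {κ : Type} {F : κ → ML}
    {e' c' : ML} (h : PairNL Φ ε K T Z F) (he : T < e'.1.1) (hc : T < c'.1.1) :
    PairNL Φ ε K T Z (plus F e' c') := by
  have key : ∀ β : Bool, T < (plus F e' c' (Sum.inr β)).1.1 := by
    intro β
    cases β
    · exact hc
    · exact he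
  rintro (i | i) (j | j) hij
  · exact h i j fun h' => hij (by rw [h'])
  · exact noLink_late' hΦ hε (key j)
  · exact noLink_late hΦ hε (key i)
  · exact noLink_late hΦ hε (key i)

end Crest.Agent.R122.LNS674

end
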