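import Crest.Agent.R122.LNTreeIn_317
import Crest.Agent.R122.LNForest_424

/-!
# Row 122, EVENTS (helper317): the events of a forest from `ReachAll`

* `RAllF` : everything which is influenced by an exit line of the forest up to its touch time is
  reached (`LNEv818.ReachAll` for every exit line, base world `cfg w`).
* `FOut` : output of the deterministic theory for a forest (`NoBad`, `NoTwo`, `RAllF`).
* `FOut.pairNL`, `FOut.not_linkEv` : exit lines are pairwise unlinked.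
* `FOut.not_retEv` : no return to the protected tubes of the trees.
-/

set_option autoImplicit false
set_option linter.unusedSectionVars false

open MeasureTheory Set Filter Topology
open Crest.AnalysisR.Kinetic
open Crest.Agent.R122.GIV566 Crest.Agent.R122.VL581 Crest.Agent.R122.LNg410
open Crest.Agent.R122.LN304 Crest.Agent.R122.Ins45
open Crest.Agent.R122.Inf879 Crest.Agent.R122.EDefs602 Crest.Agent.R122.MWFam255
open Crest.Agent.R122.LNEv968 Crest.Agent.R122.LNEv818 Crest.Agent.R122.LNEv383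
open Crest.Agent.R122.LNTree410 Crest.Agent.R122.Bind302 Crest.Agent.R122.TreeIn317
open Crest.Agent.R122.TreeLines335 Crest.Agent.R122.Kin796 Crest.Agent.R122.Kin796.CTree
open Crest.Agent.R122.Tree674 Crest.Agent.R122.PathFlow968
open Crest.Agent.R122.Ret424 Crest.Agent.R122.LNFor424 Crest.Agent.R122.LNPart424
open Crest.Agent.R122.Forest399 (FIdx FPar flines FValid FVS)
open Crest.Agent.R122.RtG302 (near protT AllOk RetL RetM)
open scoped Classical

noncomputable section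

namespace Crest.Agent.R122.ForBind317

variable {Φ : Space3 → ℝ} {ε t c ℓ ς : ℝ} {s n N K : ℕ} {Ps : Fin s → CTree} {q : FPar Ps}
  {w : Config n}

/-- Everything which is influenced by an exit line of the forest up to its touch time is
reached. -/
def RAllF (Φ : Space3 → ℝ) (t c ε : ℝ) (K N : ℕ) (q : FPar Ps) (w : Config n) : Prop :=
  ∀ x : FEx Ps, ReachAll (Reach (fM Φ ε t n Ps) c (fZ Φ ε q w) (fΛ n Ps)
    (part (fe n Ps x.1.1)) (Sum.inr x.1) N) Φ ε K t (MW.cfg w) Sum.inl (fexL Φ ε Ps q x)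
      (Sum.inr x.1)

/-- Output of the deterministic theory for a forest. -/
structure FOut (Φ : Space3 → ℝ) (t c ℓ ς ε : ℝ) (K N : ℕ) (q : FPar Ps) (w : Config n) : Prop where
  nb : NoBad (fM Φ ε t n Ps) c ℓ ς (fZ Φ ε q w) (fΛ n Ps) (N + N + (N + N))
  nt : NoTwo (fM Φ ε t n Ps) c (fZ Φ ε q w) (fΛ n Ps) (N + N)
  reach : RAllF Φ t c ε K N q w

theorem part_inj {i j : Fin s} (h : part (fe n Ps i) = part (fe n Ps j)) : i = j := by
  have h1 : (Sum.inr ⟨i, root (Ps i)⟩ : FJ n Ps) ∈ part (fe n Ps j) := by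
    rw [← h]
    exact inr_mem_part.2 rfl
  exact inr_mem_part.1 h1

theorem noTwo_mono {J κ : Type} [Fintype J] {M : VSys J κ} {Z : J → PhasePoint}
    {Λ : Finset (Finset J)} {N N' : ℕ} (h : NoTwo M c Z Λ N') (hN : N ≤ N') :
    NoTwo M c Z Λ N := fun P h1 h2 => h P h1 (h2.trans hN)

/-- A forest with an exit has a positive horizon. -/
theorem pos_of_exit (hε : 0 < ε) (hq : q ∈ FVS Φ ε Ps t) (x : FEx Ps) : 0 < t := by
  have hV : Valid Φ ε (Ps x.1.1) t (q x.1.1).1.2 (q x.1.1).2 := hq.1 x.1.1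
  refine (rel_pos hε.le hV.2 x.1.2 x.2).trans_le ?_
  rw [rel_eq_prot (Ps x.1.1) t (q x.1.1).2 x.1.2 x.2]
  exact prot_le hε.le (Ps x.1.1) t (q x.1.1).1.2 (q x.1.1).2 hV.2 x.1.2

namespace FOut

variable (h : FOut Φ t c ℓ ς ε K N q w) (hΦ : AdmissiblePotential Φ) (hε : 0 < ε)
  (hq : q ∈ FVS Φ ε Ps t) (hOk : AllOk Φ ε w (fexL Φ ε Ps q)) (hc : 1 ≤ c) (hℓς : 2 * ℓ ≤ ς)
include h hΦ hε hq hOk hc hℓς

/-- **Exit lines of a forest are pairwise unlinked.** -/
theorem pairNL : PairNL Φ ε K t (MW.cfg w) (fexL Φ ε Ps q) := by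
  have hok := MWFam255.okF_of_okFam hΦ hε hOk
  refine pairNL_of_reach hΦ hε (M := fM Φ ε t n Ps) (c := c) (ℓ := ℓ) (ς := ς)
    (Zc := fZ Φ ε q w) (Λ := fΛ n Ps) (N := N) rfl le_rfl hc (conn_parts hΦ hε hc hq)
    (noBad_mono h.nb (Nat.le_add_right _ _)) h.nt Sum.inl_injective
    (P := fun x => part (fe n Ps x.1.1)) (p := fun x => Sum.inr x.1)
    (fun x => part_mem x.1.1) (fun x => inr_mem_part.2 rfl)
    (fun x y hxy => Subtype.ext (Sum.inr_injective hxy)) ?_ h.reach ?_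
  · rintro x ⟨k, hk⟩
    cases hk
  · rintro ⟨⟨i, a⟩, ha⟩ ⟨⟨j, b⟩, hb⟩ hxy hP u hu hux huy hbx hby hlt
    have hij : i = j := part_inj hP
    subst hij
    have hab : a ≠ b := by
      rintro rfl
      exact hxy rfl
    have ht : 0 < t := pos_of_exit hε hq ⟨⟨i, a⟩, ha⟩
    exact exits_apart_in (M := fM Φ ε t n Ps) (Zc := fZ Φ ε q w) (Λ := fΛ n Ps) (c := c) (ℓ := ℓ)
      (ς := ς) (P := Ps i) (z := q i) (e := fe n Ps i) hΦ hε rfl rfl ((forest hq).tree i)
      (part_mem i) ht.le le_rfl hc hℓς hab (fun g h' => by cases h') (fun g h' => by cases h')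
      hok.z (hok.line hΦ hε ⟨⟨i, a⟩, ha⟩) (hok.line hΦ hε ⟨⟨i, b⟩, hb⟩)
      (h.reach ⟨⟨i, a⟩, ha⟩) (h.reach ⟨⟨i, b⟩, hb⟩) h.nb hu hux huy hbx hby hlt

/-- **Exit lines of a forest are not linked.** -/
theorem not_linkEv {x y : FEx Ps} (hxy : x ≠ y) : ¬ LinkEv Φ K Ps x y ε t n q w := by
  unfold LinkEv
  rw [not_not]
  exact h.pairNL hΦ hε hq hOk hc hℓς x y hxy

theorem retHyp (x : FEx Ps) (i : Fin s) :
    RetHyp (fM Φ ε t n Ps) c ℓ ς (fZ Φ ε q w) (fΛ n Ps) (part (fe n Ps x.1.1)) (Sum.inr x.1) N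
      (protT Φ ε (Ps i) t (q i)) t (fun _ => part (fe n Ps i)) (fe n Ps i)
      (Sum.inl : Fin n → FJ n Ps) (fexL Φ ε Ps q x) ε where
  tube := tubeOf_protT (M := fM Φ ε t n Ps) hΦ hε ((forest hq).tree i) (part_mem i) le_rfl t
  hTM := le_rfl
  hr := by
    change ε ≤ c * ε
    nlinarith
  hℓς := hℓς
  conn := conn_parts hΦ hε hc hq
  noBad := noBad_mono h.nb (by omega)
  noTwo := noTwo_mono h.nt (by omega)
  part := part_mem x.1.1
  mem := inr_mem_part.2 rfl
  lab k h' := by cases h'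
  own k hk := by
    obtain ⟨⟨j, a⟩, ha⟩ := x
    have h1 : (⟨i, k⟩ : FIdx Ps) = ⟨j, a⟩ := Sum.inr_injective hk
    obtain ⟨rfl, h2⟩ := Sigma.mk.inj h1
    obtain rfl := eq_of_heq h2
    have ht : 0 < t := pos_of_exit hε hq ⟨⟨i, k⟩, ha⟩
    exact own_protT (M := fM Φ ε t n Ps) (T := t) hΦ hε hc ((forest hq).tree i) ht ha k rfl

/-- **No return to the protected tubes.** -/
theorem not_retEv (x : FEx Ps) (i : Fin s) : ¬ RetEv Φ K Ps x i ε t n q w := by
  have hok := MWFam255.okF_of_okFam hΦ hε hOk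
  have ht : 0 < t := pos_of_exit hε hq x
  have hH := h.retHyp hΦ hε hq hOk hc hℓς x i
  rintro (h' | h')
  · exact hH.not_retA hΦ hε hok.z (hok.line hΦ hε x) (h.reach x) ((retL_iff hΦ hε _ _ _ _).1 h')
  · have h2 := (retM_iff _ _ _ _).1 h'
    by_cases hi : i = x.1.1
    · subst hi
      exact not_retB_in (M := fM Φ ε t n Ps) (Zc := fZ Φ ε q w) (Λ := fΛ n Ps) (c := c) (ℓ := ℓ)
        (ς := ς) (P := Ps x.1.1) (z := q x.1.1) (e := fe n Ps x.1.1) hΦ hε rfl rfl
        ((forest hq).tree x.1.1) (part_mem x.1.1) ht le_rfl hc hℓς x.2 (lab := Sum.inl)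
        (fun g h' => by cases h') (fun g y h' => by cases h') hok.z (hok.line hΦ hε x) (h.reach x)
        (noBad_mono h.nb (by omega)) h2
    · refine hH.not_retB hΦ hε hok.z (hok.line hΦ hε x) (h.reach x) (fun k hk => ?_) h2
      exact absurd (part_inj hk) hi

end FOut

end Crest.Agent.R122.ForBind317

end
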