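import Crest.Agent.R122.LN2Main_473

/-!
# Row 122 (helper424): change of the horizon of a virtual system

* `hor M t` : the system `M` with the horizon `t`; `VCt`, `Conn`, `ok` for `hor M t` and `M`.
* `TLw` : tree-like without the upper bound `σ e < T - ς` of the edge times (births of the part).
* `tlw_hor` : `TLP M` implies `TLw (hor M t)`, `t ≤ M.T`.
* `conn_and_not_tlp` : a part connected and not weakly tree-like at the horizon `t` is connected and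
  not tree-like at the horizon `M.T`.
-/

set_option autoImplicit false
set_option linter.unusedSectionVars false

open MeasureTheory Set
open scoped Classical ENNReal
open Crest.AnalysisR.Kinetic
open Crest.Agent.R122.VL581 Crest.Agent.R122.VLMeas973

noncomputable section

namespace Crest.Agent.R122.LNHor424

variable {J κ : Type} [Fintype J] {M : VSys J κ} {t : ℝ} {C ℓ ς : ℝ} {P : Finset J}
  {Z : J → PhasePoint}

/-- The system with the horizon `t`. -/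
def hor (M : VSys J κ) (t : ℝ) : VSys J κ := { M with T := t }

/-- Weakly tree-like: no upper bound on the edge times. -/
def TLw (M : VSys J κ) (C ℓ ς : ℝ) (P : Finset J) (Z : J → PhasePoint) : Prop :=
  (∀ A ⊆ P, M.ok A M.T Z) ∧
  ∃ (E : Finset (J × J)) (σ : J × J → ℝ), E.card + 1 = P.card ∧
    (∀ e ∈ E, e.1 ∈ P ∧ e.2 ∈ P ∧ e.1 ≠ e.2) ∧
    (∀ e ∈ E, ς < σ e) ∧
    (∀ e ∈ E, ∀ i ∈ P, ς < |σ e - M.b i|) ∧
    (∀ e ∈ E, ∀ e' ∈ E, e ≠ e' → ς < |σ e - σ e'|) ∧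
    (∀ i ∈ P, ∀ j ∈ P, i ≠ j → ∀ t ∈ Icc 0 M.T, M.VCt C P i j t Z →
      ∃ e ∈ E, (e = (i, j) ∨ e = (j, i)) ∧ |t - σ e| ≤ ℓ)

theorem TLw.of_tlp (h : TLP M C ℓ ς P Z) : TLw M C ℓ ς P Z := by
  obtain ⟨h1, E, σ, h2, h3, h4, h5, h6, h7⟩ := h
  exact ⟨h1, E, σ, h2, h3, fun e he => (h4 e he).1, h5, h6, h7⟩

theorem TLw.of_treeLike (h : M.TreeLike C ℓ ς P Z) : TLw M C ℓ ς P Z :=
  TLw.of_tlp (TLP.of_treeLike h)

theorem ok_hor {A : Finset J} {s : ℝ} : (hor M t).ok A s Z ↔ M.ok A s Z := Iff.rfl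

theorem st_hor {A : Finset J} {s : ℝ} {i : J} : (hor M t).st A s Z i = M.st A s Z i := rfl

theorem ok_anti {A : Finset J} {s s' : ℝ} (h : s ≤ s') (hok : M.ok A s' Z) : M.ok A s Z :=
  fun i hi ho hb => hok i hi ho (hb.trans_le h)

theorem pos_hor {A : Finset J} {k : κ} {s : ℝ} {i : J} (hs : s ≤ t) (htT : t ≤ M.T) :
    (hor M t).pos A k s Z i = M.pos A k s Z i := by
  unfold VSys.pos
  have h1 : min s (hor M t).T = min s M.T := by
    rw [min_eq_left (hs.trans htT)]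
    exact min_eq_left hs
  rw [h1]
  rfl

theorem ct_hor {A B : Finset J} {k l : κ} {i j : J} {s : ℝ} (hs : s ≤ t) (htT : t ≤ M.T) :
    (hor M t).Ct C A k i B l j s Z ↔ M.Ct C A k i B l j s Z := by
  unfold VSys.Ct
  rw [pos_hor hs htT, pos_hor hs htT]
  exact Iff.rfl

theorem vct_hor {i j : J} {s : ℝ} (hs : s ≤ t) (htT : t ≤ M.T) :
    (hor M t).VCt C P i j s Z ↔ M.VCt C P i j s Z := by
  unfold VSys.VCt
  simp only [ct_hor hs htT]

theorem conn_hor (htT : t ≤ M.T) (h : (hor M t).Conn C P Z) : M.Conn C P Z := by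
  refine ⟨h.1, fun Q hQ hne hneP => ?_⟩
  obtain ⟨i, hi, j, hj, s, hs, hv⟩ := h.2 Q hQ hne hneP
  exact ⟨i, hi, j, hj, s, ⟨hs.1, hs.2.trans htT⟩, (vct_hor hs.2 htT).1 hv⟩

/-- **Change of the horizon.** -/
theorem TLw.hor (htT : t ≤ M.T) (h : TLw M C ℓ ς P Z) : TLw (hor M t) C ℓ ς P Z := by
  obtain ⟨h1, E, σ, h2, h3, h4, h5, h6, h7⟩ := h
  exact ⟨fun A hA => ok_anti htT (h1 A hA), E, σ, h2, h3, h4, h5, h6,
    fun i hi j hj hij s hs hv => h7 i hi j hj hij s ⟨hs.1, hs.2.trans htT⟩ ((vct_hor hs.2 htT).1 hv)⟩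

theorem tlw_hor (htT : t ≤ M.T) (h : TLP M C ℓ ς P Z) : TLw (hor M t) C ℓ ς P Z :=
  (TLw.of_tlp h).hor htT

/-- A part which is connected and not weakly tree-like at the horizon `t ≤ T` is connected and not
tree-like at the horizon `T`. -/
theorem conn_and_not_tlp (htT : t ≤ M.T) (hc : (hor M t).Conn C P Z)
    (h : ¬ TLw (hor M t) C ℓ ς P Z) : M.Conn C P Z ∧ ¬ TLP M C ℓ ς P Z :=
  ⟨conn_hor htT hc, fun h' => h (tlw_hor htT h')⟩

/-- Bad partition with the weak notion of tree-like. -/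
def BadPartW (M : VSys J κ) (C ℓ ς : ℝ) (s : ℕ) (A : Finset J) (Z : J → PhasePoint) : Prop :=
  ∃ π : Finpartition (Finset.univ : Finset J),
    (∀ P ∈ π.parts, M.Conn C P Z ∧ ∃ x ∈ P, x ∈ A) ∧
    (π.parts.card < s ∨ (π.parts.card = s ∧ ∃ P ∈ π.parts, ¬ TLw M C ℓ ς P Z))

theorem badPart_of_hor {s : ℕ} {A : Finset J} (htT : t ≤ M.T)
    (h : BadPartW (hor M t) C ℓ ς s A Z) : M.BadPart C ℓ ς s A Z := by
  obtain ⟨π, h1, h2⟩ := h
  refine ⟨π, fun P hP => ⟨conn_hor htT (h1 P hP).1, (h1 P hP).2⟩, h2.imp_right ?_⟩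
  rintro ⟨h3, P, hP, h4⟩
  exact ⟨h3, P, hP, fun h5 => h4 (tlw_hor htT h5)⟩

/-- Some `Y ⊆ w` with `|Y| ≤ N` forms a (weakly) bad partition together with the structure. -/
def BadGasW (Φ : Space3 → ℝ) (t C R ς ε : ℝ) (N s : ℕ) {κ : Type} [Fintype κ] (A₀ : Finset κ)
    (b : κ → ℝ) (z : κ → PhasePoint) {n : ℕ} (w : Config n) : Prop :=
  ∃ k ≤ N, ∃ ι : Fin k ↪ Fin n, BadPartW (VLMeas973.vsys Φ t ε (LN2.bS k b)) C (R * ε) ς s
    (LN2.anch k A₀) (Sum.elim (fun i => w (ι i)) z)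

/-- The bad event at the horizon `t` is contained in the bad event at the horizon `T ≥ t`. -/
theorem badGas_of_hor {Φ : Space3 → ℝ} {t T C R ς ε : ℝ} {N s : ℕ} {κ : Type} [Fintype κ]
    {A₀ : Finset κ} {b : κ → ℝ} {z : κ → PhasePoint} {n : ℕ} {w : Config n} (htT : t ≤ T)
    (h : BadGasW Φ t C R ς ε N s A₀ b z w) : LN2.BadGas Φ T C R ς ε N s A₀ b z w := by
  obtain ⟨k, hk, ι, h⟩ := h
  exact ⟨k, hk, ι, badPart_of_hor (M := VLMeas973.vsys Φ T ε (LN2.bS k b)) htT h⟩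

end Crest.Agent.R122.LNHor424

end
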