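import Crest.Agent.R122.LNLine_522
import Crest.Agent.R122.XMap_547
import Crest.Agent.R122.ErrBGate_823
import Crest.Agent.R122.H5B_994
import Crest.Agent.R122.LNGraftCt_410

/-!
# Row 122, LN1 (helper522): two independent lines `d`, `x` (the deterministic side of `ErrB`)

* `meet_of_conn` : two labels which are connected without gas meet freely.
* `det_ll` : `x ∈ badN .. (cfg w) (line d)` implies an alternative of `d` alone, of `x` alone
  (helper692's `XAlt`), a direct meeting, or a bad partition of `d`, `x` and the gas (`s = 2`).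
-/

set_option autoImplicit false
set_option linter.unusedSectionVars false

open MeasureTheory Set Filter Topology
open scoped Classical ENNReal
open Crest.AnalysisR.Kinetic
open Crest.Agent.R122.Ins45 Crest.Agent.R122.EDefs602
open Crest.Agent.R122.VL581 Crest.Agent.R122.VL581.VSys Crest.Agent.R122.VLInst442
open Crest.Agent.R122.VLMeas973 Crest.Agent.R122.LNg410
open Crest.Agent.R122.LN304 Crest.Agent.R122.LNBridge968 Crest.Agent.R122.LNPart424
open Crest.Agent.R122.LNEv818 Crest.Agent.R122.LNEv968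
open Crest.Agent.R122.X692 Crest.Agent.R122.BH167 Crest.Agent.R122.Line522
open Crest.Agent.R122.Decomp811 Crest.Agent.R122.Boost969

noncomputable section

namespace Crest.Agent.R122.LNLL522

/-! ### Two labels without gas -/

section meet

variable {J κ : Type} [Fintype J] {M : VSys J κ} {Z : J → PhasePoint} {c : ℝ} {p q : J}

/-- Two labels which stay apart on their free lines fly freely. -/
theorem st_free (hΦ : AdmissiblePotential M.Φ) (hε : 0 < M.ε) (hop : M.o ≠ some p)
    (hoq : M.o ≠ some q) (hpq : p ≠ q)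
    (hfar : ∀ s ∈ Icc 0 M.T, M.ε < dist (fl s (Z p)).1 (fl s (Z q)).1) {A : Finset J}
    (hA : ∀ y ∈ A, y = p ∨ y = q) (hp : p ∈ A) {t : ℝ} (ht : t ∈ Icc 0 M.T) :
    M.st A t Z p = fl t (Z p) := by
  by_cases hq : q ∈ A
  · have hAe : A = {p} ∪ {q} := by
      apply Finset.Subset.antisymm
      · intro x hx
        simpa using hA x hx
      · intro x hx
        rw [Finset.mem_union, Finset.mem_singleton, Finset.mem_singleton] at hx
        rcases hx with rfl | rfl
        · exact hp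
        · exact hq
    have hok : ∀ r : J, M.ok {r} t Z := by
      intro r i hi _ _ j hj _ hji _
      exact absurd ((Finset.mem_singleton.1 hj).trans (Finset.mem_singleton.1 hi).symm) hji
    have h1 := (VLInst442.st_union hΦ hε (A := {p}) (B := {q}) (Z := Z) (t := t)
      (Finset.disjoint_singleton.2 hpq) (hok p) (hok q) (fun s hs i hi j hj _ _ _ _ => by
        rw [Finset.mem_singleton] at hi hj
        rw [hi, hj, LNGraft410.st_single hΦ hε hop (hs.2.le.trans ht.2),
          LNGraft410.st_single hΦ hε hoq (hs.2.le.trans ht.2)]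
        exact (hfar s ⟨hs.1, hs.2.le.trans ht.2⟩).le) t le_rfl).1 p (Finset.mem_singleton_self p)
    rw [hAe, h1]
    exact LNGraft410.st_single hΦ hε hop ht.2
  · have hAe : A = {p} := by
      apply Finset.Subset.antisymm
      · intro x hx
        rcases hA x hx with rfl | rfl
        · exact Finset.mem_singleton_self _
        · exact absurd hx hq
      · intro x hx
        rw [Finset.mem_singleton] at hx
        exact hx ▸ hp
    rw [hAe]
    exact LNGraft410.st_single hΦ hε hop ht.2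

/-- **Two labels connected without gas meet freely.** -/
theorem meet_of_conn (hΦ : AdmissiblePotential M.Φ) (hε : 0 < M.ε) (hc : 1 ≤ c)
    (hop : M.o ≠ some p) (hoq : M.o ≠ some q) (hpq : p ≠ q) {P : Finset J}
    (hP : ∀ y, y ∈ P ↔ y = p ∨ y = q) (h : M.Conn c P Z) :
    ∃ s ∈ Icc 0 M.T, dist (fl s (Z p)).1 (fl s (Z q)).1 ≤ c * M.ε := by
  by_contra hcon
  push Not at hcon
  have hcε : M.ε ≤ c * M.ε := le_mul_of_one_le_left hε.le hc
  have hfar : ∀ s ∈ Icc 0 M.T, M.ε < dist (fl s (Z p)).1 (fl s (Z q)).1 := fun s hs =>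
    hcε.trans_lt (hcon s hs)
  obtain ⟨i, hi, j, hj, t, ht, A, hA, B, hB, k, l, hiA, hjB, _, _, _, _, hd⟩ := h.2 {p}
    (fun x hx => by
      rw [Finset.mem_singleton] at hx
      exact (hP x).2 (Or.inl hx)) (Finset.singleton_nonempty p) (fun h' => by
      have h1 : q ∈ ({p} : Finset J) := by
        rw [h']
        exact (hP q).2 (Or.inr rfl)
      exact hpq (Finset.mem_singleton.1 h1).symm)
  rw [Finset.mem_singleton] at hi
  rw [Finset.mem_sdiff, hP, Finset.mem_singleton] at hj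
  have hj' : j = q := hj.1.resolve_left hj.2
  subst hi hj'
  unfold VSys.pos at hd
  rw [if_neg hop, if_neg hoq, st_free hΦ hε hop hoq hpq hfar (fun y hy => (hP y).1 (hA hy)) hiA ht,
    st_free hΦ hε hoq hop (Ne.symm hpq) (fun s hs => by
      rw [dist_comm]
      exact hfar s hs) (fun y hy => ((hP y).1 (hB hy)).symm) hjB ht] at hd
  exact absurd hd (not_le.2 (hcon t ht))

theorem fl_back_fst (s : ℝ) (l : ℝ × PhasePoint) : (fl s (back l)).1 = posAt s l := by
  rw [LNGraft410.fl_back]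
  rfl

end meet

/-! ### Two independent lines -/

variable {Φ : Space3 → ℝ} {ε t T T₁ c R ς : ℝ} {n N K m : ℕ} {w : Config n} {d x : ML}

/-- The structure is one line. -/
theorem piS_unit : piS n Unit = {Sum.inr (Sum.inl ())} := by
  ext j
  rw [mem_piS, Finset.mem_singleton]
  exact ⟨fun ⟨_, h⟩ => h, fun h => ⟨(), h⟩⟩

theorem conn_unit {M : VSys (Fin n ⊕ (Unit ⊕ Unit)) Unit}
    {Z : Fin n ⊕ (Unit ⊕ Unit) → PhasePoint} : M.Conn c (piS n Unit) Z := by
  rw [piS_unit]
  exact LNg410.conn_singleton _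

/-- **No link** between the two lines, off the alternatives. -/
theorem noLink (hΦ : AdmissiblePotential Φ) (hε : 0 < ε) (hc : 1 ≤ c) {N' : ℕ}
    (hd : RAll1 Φ t c ε K N d w) (hx : RAll1 Φ t c ε K N' x w)
    (hJ : ¬ Joint (gsys Φ t ε n (bx (fun _ : Unit => d.1.1) x.1.1)) c
      (Sum.elim w (zx (fun _ : Unit => back d.1) (back x.1))) (piS n Unit) (px n Unit)
      (N + 1 + (N' + 1))) :
    MW.NoLink Φ ε K t (MW.cfg w) (MW.line d) (MW.line x) := by
  have hcov : ∀ u : Unit, (Sum.inr u : Fin n ⊕ Unit) ∈ uni (L1 n) := fun u => by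
    rw [uni_L1]
    exact Finset.mem_singleton_self _
  have ha := XG547.reachAll_eS (S := Unit) (b := fun _ => d.1.1) (z := fun _ => back d.1)
    (τ := x.1.1) (y := back x.1) (Λ' := L1 n) (lab := Sum.inl) (lab' := Sum.inl) hΦ hε hcov
    (fun j => by
      rw [Finset.mem_singleton]
      exact ⟨fun h => ⟨(), h⟩, fun ⟨_, h⟩ => h⟩) (fun _ => rfl) hd
  have hb := XG547.reachAll_eL (S := Unit) (b := fun _ => d.1.1) (z := fun _ => back d.1)
    (τ := x.1.1) (y := back x.1) (Λ' := L1 n) (lab := Sum.inl) (lab' := Sum.inl) hΦ hε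
    (hcov ()) (fun _ => rfl) hx
  rw [Fintype.card_unit] at hb
  exact XG547.noLink_x (M := gsys Φ t ε n (bx (fun _ : Unit => d.1.1) x.1.1)) hΦ hε rfl le_rfl hc
    conn_unit (mem_piS.2 ⟨(), rfl⟩) px_notMem_piS hJ Sum.inl_injective ha hb

/-- **The deterministic side of `ErrB`.** -/
theorem det_ll (hΦ : AdmissiblePotential Φ) (hε : 0 < ε) (ht : 0 < t) (htT : t ≤ T)
    (hT₁ : T < T₁) (hc : 1 ≤ c) (hς : 2 * (R * ε) ≤ ς) (hw : w ∈ PairExcluded ε n)
    (hd0 : 0 ≤ d.1.1) (hx0 : 0 ≤ x.1.1) (hd : ((MW.cfg w).ins d).Ok Φ ε)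
    (hx : ((MW.cfg w).ins x).Ok Φ ε) (hdx : (((MW.cfg w).ins d).ins x).Ok Φ ε)
    (hN : 1 + 2 * K * (m + 2) ≤ N) {N' : ℕ}
    (hN' : 1 + 2 * K * (m + 2) + 1 + (1 + 2 * K * (m + 2) + 1) ≤ N')
    (hb : x ∈ badN Φ ε K t (MW.cfg w) (MW.line d)) :
    XAlt Φ T T₁ t c R ς ε K m N d w ∨ XAlt Φ T T₁ t c R ς ε K m N x w ∨
      ErrB823.Meet ε c t d.1 x.1 ∨
      LN2.BadGas Φ T c R ς ε N' 2 (∅ : Finset (Unit ⊕ Unit))
        (bx (fun _ : Unit => d.1.1) x.1.1) (zx (fun _ : Unit => back d.1) (back x.1)) w := by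
  have hok := Unw410.cfg_ok (Φ := Φ) hΦ hε hw
  rcases rAll1_or (T := T) (T₁ := T₁) (m := m) (N := N) hΦ hε hd0 hok hd ht htT hT₁ hc hς hw hN with
    h1 | h1
  swap
  · exact Or.inl h1
  rcases rAll1_or (T := T) (T₁ := T₁) (m := m) (N := N) hΦ hε hx0 hok hx ht htT hT₁ hc hς hw hN with
    h2 | h2
  swap
  · exact Or.inr (Or.inl h2)
  by_cases hJ : Joint (gsys Φ t ε n (bx (fun _ : Unit => d.1.1) x.1.1)) c
      (Sum.elim w (zx (fun _ : Unit => back d.1) (back x.1))) (piS n Unit) (px n Unit)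
      (1 + 2 * K * (m + 2) + 1 + (1 + 2 * K * (m + 2) + 1))
  · rcases joint_gas' (R := R) (ς := ς) hΦ hε (hJ.mono hN') with
      h | h
    · refine Or.inr (Or.inr (Or.inl ?_))
      obtain ⟨s, hs, h3⟩ := meet_of_conn (M := gsys Φ t ε n (bx (fun _ : Unit => d.1.1) x.1.1))
        (p := px n Unit) (q := Sum.inr (Sum.inl ())) hΦ hε hc (fun h' => by cases h')
        (fun h' => by cases h') (by simp) (fun y => (@Finset.mem_insert _ (_) _ _ _).trans
          (or_congr Iff.rfl (by rw [piS_unit, Finset.mem_singleton]))) h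
      have h4 : dist (fl s (back x.1)).1 (fl s (back d.1)).1 ≤ c * ε := h3
      rw [fl_back_fst, fl_back_fst] at h4
      exact ⟨s, hs, h4⟩
    · exact Or.inr (Or.inr (Or.inr (LN2.badGasW_hor htT h).badGas))
  · exfalso
    refine hb ?_
    exact MW.W1_of_noLink hΦ hε hok hd hx hdx ht.le (noLink hΦ hε hc h1 h2 hJ)

end Crest.Agent.R122.LNLL522

end
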