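import Crest.Agent.R122.LNNearS_383
import Crest.Agent.R122.Link6Pt_796

/-!
# Row 122, LN1 events (helper383), part 9: the near-line event of inequality 3 (slot S2)

* `near6_of_nearFam` : helper796's `Near6` from `NearFam` of the exits and `d`.
* `near6_of_one` : `Near6` from helper674's frame (family `withD (lineML Φ ε P z) d` over `cfg w`).
* `not_evNear_of_one` : the event `evNear` does not occur.
-/

set_option autoImplicit false
set_option linter.unusedSectionVars false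

open MeasureTheory Set Filter Topology
open scoped ENNReal
open Crest.AnalysisR.Kinetic
open Crest.Agent.R122.Flow671 hiding rel
open Crest.Agent.R122.Ins45 Crest.Agent.R122.Causal291
open Crest.Agent.R122.Inf879 Crest.Agent.R122.GC311 Crest.Agent.R122.EDefs602
open Crest.Agent.R122.EDefs602.MW Crest.Agent.R122.MWFam255 Crest.Agent.R122.GIV566
open Crest.Agent.R122.VL581 Crest.Agent.R122.LN304 Crest.Agent.R122.LNg410
open Crest.Agent.R122.LNEv968
open Crest.Agent.R122.Kin796 Crest.Agent.R122.Kin796.CTree Crest.Agent.R122.Tree674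
open Crest.Agent.R122.PathFlow968 Crest.Agent.R122.TreeLines335
open Crest.Agent.R122.LNTree410
open Crest.Agent.R122.LNEv818 (ReachAll)
open Crest.Agent.R122.LNPart424 (gsys)
open Crest.Agent.R122.OneC285 (ptube cT cD)
open Crest.Agent.R122.OCout796
open Crest.Agent.R122.E6Hyp879 (withD)
open Crest.Agent.R122.LNS674 (One Exits pS LS)
open Crest.Agent.R122.Link6796
open Crest.Agent.R122.Boost969 (LSt)
open Crest.Agent.R122.Pair292 (Lab)
open Crest.Agent.R122.PairD292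
open scoped Classical

namespace Crest.Agent.R122.LNEv383

noncomputable section

variable {σ : Type} [Fintype σ] {n : ℕ} {Φ : Space3 → ℝ} {T₀ T' te ε c ℓ ς ρ : ℝ}
  {K N N₁ : ℕ} {b : σ → ℝ} {w : Config n} {V : σ → PhasePoint}
  {cl : Fin n ⊕ σ → Finset (Fin n ⊕ σ)} {R : ℝ → Fin n ⊕ σ → Fin n ⊕ σ → Prop}
  {f : Fin n ↪ Fin n ⊕ σ} {P : CTree} {z : PhasePoint × Par P} {g : Idx P ↪ σ} {d e : ML} {x : σ}

/-- **The LINK class part of the encounter event**, from the near-line data. -/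
theorem near6_of_nearFam
    (h : NearFam Φ T₀ te T' ε K c ℓ ς ((ρ + 2) * ε) N b w V R P z g (withD (exL Φ ε P z) d)
      (Sum.elim (fun j => g j.1) fun _ => x))
    (h0 : 0 ≤ cT ε z e) (hr : TreeLines335.rel P z.2 (root P) ≤ cT ε z e)
    (hL : Late6 Φ ε ρ K te P z w d e) : Near6 Φ ε ρ K P z w d e where
  cf _ ht ht' j hj _ hk :=
    h.cf (x := Sum.inl ⟨j, hj⟩) (h0.trans ht) (hr.trans ht) (ht'.trans hL.hor)
      (ht'.trans (hL.unt j).le) hk
  cfd _ ht ht' _ hk :=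
    h.cf (x := Sum.inr ()) (h0.trans ht) (hr.trans ht) (ht'.trans hL.hor)
      (ht'.trans hL.untd.le) hk
  line _ ht ht' j hj hk :=
    h.line (x := Sum.inl ⟨j, hj⟩) (h0.trans ht) (hr.trans ht) (ht'.trans hL.hor)
      (ht'.trans (hL.unt j).le) hk
  lined _ ht ht' _ hk :=
    h.line (x := Sum.inr ()) (h0.trans ht) (hr.trans ht) (ht'.trans hL.hor)
      (ht'.trans hL.untd.le) hk

/-- **The LINK class part of the encounter event**, from helper674's frame. -/
theorem near6_of_one (h : One Φ T₀ ε c b V w cl R)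
    (E : Exits Φ T₀ te ε b V w cl R (MW.cfg w) f (withD (lineML Φ ε P z) d)
      (Sum.elim g fun _ => x)) (hf : ∀ i, f i = Sum.inl i)
    (hΦ : AdmissiblePotential Φ) (hε : 0 < ε) (hte : 0 ≤ te) (hT : te ≤ T') (hT₀ : te ≤ T₀)
    (hc : 1 ≤ c) (hr : ρ + 2 ≤ c) (hℓ : 2 * ℓ ≤ ς)
    (hNB : NoBad (gsys Φ T₀ ε n b) c ℓ ς (Sum.elim w V) (LS n σ) N₁) (hN : N + N + N ≤ N₁)
    (hRA : ∀ y, ReachAll (Reach (gsys Φ T₀ ε n b) c (Sum.elim w V) (LS n σ) (pS n σ)
      (Sum.inr (Sum.elim g (fun _ => x) y)) N) Φ ε K te (MW.cfg w) f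
      (withD (lineML Φ ε P z) d y) (Sum.inr (Sum.elim g (fun _ => x) y)))
    (hTr : TreeIn (gsys Φ T₀ ε n b) (Sum.elim w V) T' P z.1 z.2
      (g.trans Function.Embedding.inr))
    (h0 : 0 ≤ cT ε z e) (hrel : TreeLines335.rel P z.2 (root P) ≤ cT ε z e)
    (hL : Late6 Φ ε ρ K te P z w d e) : Near6 Φ ε ρ K P z w d e :=
  near6_of_nearFam (nearD_of_one h E hf hΦ hε hte hT hT₀ hc
    (mul_le_mul_of_nonneg_right hr hε.le) hℓ hNB hN hRA hTr) h0 hrel hL

/-- **Slot (S2), deterministic part**: `evNear` does not occur. -/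
theorem not_evNear_of_one {Q : EPar} {θ : Lab × LSt} (h : One Φ T₀ ε c b V w cl R)
    (E : Exits Φ T₀ Q.te ε b V w cl R (MW.cfg w) f (withD (lineML Φ ε P z) (dL θ))
      (Sum.elim g fun _ => x)) (hf : ∀ i, f i = Sum.inl i)
    (hΦ : AdmissiblePotential Φ) (hε : 0 < ε) (hte : 0 ≤ Q.te) (hT : Q.te ≤ T')
    (hT₀ : Q.te ≤ T₀) (hc : 1 ≤ c) (hr : ρ + 2 ≤ c) (hℓ : 2 * ℓ ≤ ς)
    (hNB : NoBad (gsys Φ T₀ ε n b) c ℓ ς (Sum.elim w V) (LS n σ) N₁) (hN : N + N + N ≤ N₁)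
    (hRA : ∀ y, ReachAll (Reach (gsys Φ T₀ ε n b) c (Sum.elim w V) (LS n σ) (pS n σ)
      (Sum.inr (Sum.elim g (fun _ => x) y)) N) Φ ε K Q.te (MW.cfg w) f
      (withD (lineML Φ ε P z) (dL θ) y) (Sum.inr (Sum.elim g (fun _ => x) y)))
    (hTr : TreeIn (gsys Φ T₀ ε n b) (Sum.elim w V) T' P z.1 z.2
      (g.trans Function.Embedding.inr)) :
    ¬ evNear Φ Q T' ρ K ε P z n w θ := by
  rintro ⟨hG, hL, hN'⟩
  have h0 := R6Tree974.R6.cT_pos hG.real
  exact hN' (near6_of_one h E hf hΦ hε hte hT hT₀ hc hr hℓ hNB hN hRA hTr h0.le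
    (TreeLines335.rel_lt hε.le h0 hG.real.real.valid.2 _).le hL)

end

end Crest.Agent.R122.LNEv383
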