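import Crest.Agent.R122.LNNear6_383
import Crest.Agent.R122.LNS3_674

/-!
# Row 122, LN1 events (helper383), part 10: the near-line event of inequality 3 off the bad events

* `reachAll_of_events` : (RA) of all exits off the bad events, in the form of helper674's
  `One.pairNL`.
* `near6_of_events` : helper796's `Near6` off the bad events; `det_near` : the alternatives.
-/

set_option autoImplicit false
set_option linter.unusedSectionVars false

open MeasureTheory Set Filter Topology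
open scoped ENNReal
open Crest.AnalysisR.Kinetic
open Crest.Agent.R122.Flow671 hiding rel
open Crest.Agent.R122.Ins45 Crest.Agent.R122.Causal291
open Crest.Agent.R122.Inf879 Crest.Agent.R122.GC311 Crest.Agent.R122.EDefs602
open Crest.Agent.R122.EDefs602.MW Crest.Agent.R122.MWFam255 Crest.Agent.R122.GIV566
open Crest.Agent.R122.VL581 Crest.Agent.R122.LN304 Crest.Agent.R122.LNg410
open Crest.Agent.R122.LNEv968
open Crest.Agent.R122.Kin796 Crest.Agent.R122.Kin796.CTree Crest.Agent.R122.Tree674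
open Crest.Agent.R122.PathFlow968 Crest.Agent.R122.TreeLines335
open Crest.Agent.R122.LNTree410
open Crest.Agent.R122.LNEv818 (ReachAll)
open Crest.Agent.R122.LNPart424 (gsys)
open Crest.Agent.R122.OneC285 (ptube cT cD)
open Crest.Agent.R122.OCout796
open Crest.Agent.R122.E6Hyp879 (withD)
open Crest.Agent.R122.LNS674
open Crest.Agent.R122.Link6796
open Crest.Agent.R122.Boost969 (LSt)
open Crest.Agent.R122.Pair292 (Lab)
open Crest.Agent.R122.PairD292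
open scoped Classical

namespace Crest.Agent.R122.LNEv383

noncomputable section

variable {σ ι μ : Type} [Fintype σ] [Fintype ι] {n : ℕ} {Φ : Space3 → ℝ}
  {T T' Te T₁ te ε c ς ρ r : ℝ}
  {K m N₁ : ℕ} {b : σ → ℝ} {w : Config n} {V : σ → PhasePoint}
  {cl : Fin n ⊕ σ → Finset (Fin n ⊕ σ)} {R : ℝ → Fin n ⊕ σ → Fin n ⊕ σ → Prop}
  {W : MW ι} {ls : μ → ML} {p : μ → σ} {A₀ : Finset σ}

/-- **(RA) for all exits, off the bad events.** -/
theorem reachAll_of_events {f : ι ↪ Fin n ⊕ σ} (h : One Φ T ε c b V w cl R)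
    (E : Exits Φ T te ε b V w cl R W f ls p) (hΦ : AdmissiblePotential Φ) (hε : 0 < ε)
    (hT0 : 0 ≤ T) (hte : te ≤ T) (hc : 1 ≤ c) (hρ : 2 * (ρ * ε) ≤ ς)
    (hT : T ≤ T') (hTe : T' ≤ Te) (hT₁ : Te < T₁) (hA : A₀.Nonempty)
    (hN : Fintype.card σ + 2 * K * (m + 2) ≤ N₁)
    (hB : ¬ LN2.BadGas Φ T' c ρ ς ε N₁ 1 A₀ b V w)
    (hBH : ¬ BH167.BadHitGas (BH167.bpos Φ T₁ Te) Φ T' c 1 ε N₁ N₁ 1 A₀ b V w)
    (hR : ¬ Gate424.RunS Φ ε T K m b V w) (x : μ) :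
    ReachAll (Reach (gsys Φ T ε n b) c (Sum.elim w V) (LS n σ) (pS n σ) (Sum.inr (p x))
        (Fintype.card σ + 2 * K * (m + 2))) Φ ε K te W f (ls x) (Sum.inr (p x)) := by
  have hX := h.ctx hΦ hε hc hρ hT hA hB
  refine (h.reachAll_or_run E hT0 hte hX x (fun β => ?_) hN).resolve_left hR
  cases β
  · exact (h.wd hΦ hε hT0 hc hρ hT hTe hT₁ hA hBH E.gd0).bh
  · exact (h.wd hΦ hε hT0 hc hρ hT hTe hT₁ hA hBH (E.gd1 x)).bh

variable {P : CTree} {z : PhasePoint × Par P} {g : Idx P ↪ σ} {x : σ} {d e : ML}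
  {f : Fin n ↪ Fin n ⊕ σ}

/-- **`Near6` off the bad events** (radius `r`, contact constant `c ≥ r + 2`). -/
theorem near6_of_events (h : One Φ T ε c b V w cl R)
    (E : Exits Φ T te ε b V w cl R (MW.cfg w) f (withD (lineML Φ ε P z) d)
      (Sum.elim g fun _ => x)) (hf : ∀ i, f i = Sum.inl i)
    (hTr : TreeIn (gsys Φ T ε n b) (Sum.elim w V) T P z.1 z.2 (g.trans Function.Embedding.inr))
    (hΦ : AdmissiblePotential Φ) (hε : 0 < ε) (hte0 : 0 ≤ te) (hte : te ≤ T)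
    (hc : 1 ≤ c) (hr : r + 2 ≤ c) (hρ : 2 * (ρ * ε) ≤ ς)
    (hT : T ≤ T') (hTe : T' ≤ Te) (hT₁ : Te < T₁) (hA : A₀.Nonempty)
    (hN : 3 * (Fintype.card σ + 2 * K * (m + 2)) ≤ N₁)
    (hB : ¬ LN2.BadGas Φ T' c ρ ς ε N₁ 1 A₀ b V w)
    (hBH : ¬ BH167.BadHitGas (BH167.bpos Φ T₁ Te) Φ T' c 1 ε N₁ N₁ 1 A₀ b V w)
    (hR : ¬ Gate424.RunS Φ ε T K m b V w)
    (h0 : 0 ≤ cT ε z e) (hrel : TreeLines335.rel P z.2 (root P) ≤ cT ε z e)
    (hL : Late6 Φ ε r K te P z w d e) : Near6 Φ ε r K P z w d e :=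
  near6_of_one h E hf hΦ hε hte0 hte hte hc hr hρ
    (h.noBad_of hΦ hε hT hA hB) (by omega)
    (fun y => reachAll_of_events h E hΦ hε (hte0.trans hte) hte hc hρ hT hTe hT₁ hA (by omega)
      hB hBH hR y) hTr h0 hrel hL

/-- **The deterministic alternatives of slot (S2).** -/
theorem det_near {Q : EPar} {T₂ : ℝ} {θ : Lab × LSt} (h : One Φ T ε c b V w cl R)
    (E : Exits Φ T Q.te ε b V w cl R (MW.cfg w) f (withD (lineML Φ ε P z) (dL θ))
      (Sum.elim g fun _ => x)) (hf : ∀ i, f i = Sum.inl i)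
    (hTr : TreeIn (gsys Φ T ε n b) (Sum.elim w V) T P z.1 z.2 (g.trans Function.Embedding.inr))
    (hΦ : AdmissiblePotential Φ) (hε : 0 < ε) (hte0 : 0 ≤ Q.te) (hte : Q.te ≤ T)
    (hc : 1 ≤ c) (hr : r + 2 ≤ c) (hρ : 2 * (ρ * ε) ≤ ς)
    (hT : T ≤ T') (hTe : T' ≤ Te) (hT₁ : Te < T₁) (hA : A₀.Nonempty)
    (hN : 3 * (Fintype.card σ + 2 * K * (m + 2)) ≤ N₁)
    (hev : evNear Φ Q T₂ r K ε P z n w θ) :
    Gate424.RunS Φ ε T K m b V w ∨ LN2.BadGas Φ T' c ρ ς ε N₁ 1 A₀ b V w ∨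
      BH167.BadHitGas (BH167.bpos Φ T₁ Te) Φ T' c 1 ε N₁ N₁ 1 A₀ b V w := by
  by_contra hcon
  push Not at hcon
  obtain ⟨hR, hB, hBH⟩ := hcon
  obtain ⟨hG, hL, hN'⟩ := hev
  have h0 := R6Tree974.R6.cT_pos hG.real
  exact hN' (near6_of_events h E hf hTr hΦ hε hte0 hte hc hr hρ hT hTe hT₁ hA hN hB hBH hR
    h0.le (TreeLines335.rel_lt hε.le h0 hG.real.real.valid.2 _).le hL)

end

end Crest.Agent.R122.LNEv383
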