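import Crest.Agent.R122.LNNear7_383
import Crest.Agent.R122.LNS3a_304
import Crest.Agent.R122.PTreeG_331
import Crest.Agent.R122.GateOsPX_973
import Crest.Agent.R122.Link6G_796

/-!
# Row 122, LN1 events (helper383), part 11: the fields of `Slots6G` from the pair structure

* `PairAltE` : over `osP`, off a bad family and a null event, the structure is a pair structure
  (helper491's `Pair`) with contact constant `c`.
* `gNull_of_pair` : **the generic gate** of the fields of helper796's `Slots6G`: an event with the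
  guards `Gx6 R` which for every contact tree of the structure (`PTree` over the gas) leads to a run, a
  bad partition or a bad hit is null.
* `near_det`, `gNull_near` : the field `near`.
-/

set_option autoImplicit false
set_option linter.unusedSectionVars false

open MeasureTheory Set Filter Topology
open scoped ENNReal
open Crest.AnalysisR.Kinetic
open Crest.Agent.R122.Flow671 hiding rel
open Crest.Agent.R122.Ins45 Crest.Agent.R122.Causal291
open Crest.Agent.R122.Inf879 Crest.Agent.R122.GC311 Crest.Agent.R122.EDefs602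
open Crest.Agent.R122.EDefs602.MW Crest.Agent.R122.MWFam255 Crest.Agent.R122.GIV566
open Crest.Agent.R122.VL581 Crest.Agent.R122.LN304 Crest.Agent.R122.LNg410
open Crest.Agent.R122.LNEv968
open Crest.Agent.R122.Kin796 Crest.Agent.R122.Kin796.CTree Crest.Agent.R122.Tree674
open Crest.Agent.R122.PathFlow968 Crest.Agent.R122.TreeLines335
open Crest.Agent.R122.LNTree410 Crest.Agent.R122.VLInst442 Crest.Agent.R122.PWInst442
open Crest.Agent.R122.LNPart424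
open Crest.Agent.R122.OneC285 (ptube cT cD)
open Crest.Agent.R122.OCout796
open Crest.Agent.R122.E6Hyp879 (withD)
open Crest.Agent.R122.LNS674
open Crest.Agent.R122.Link6796
open Crest.Agent.R122.Boost969 (LSt)
open Crest.Agent.R122.Pair292 (Lab)
open Crest.Agent.R122.PairD292
open Crest.Agent.R122.Gate424 Crest.Agent.R122.Gate973
open Crest.Agent.R122.StrG491 (PTree)
open Crest.Agent.R122.GateOsP424 (osB osZ)
open Crest.Agent.R122.PairRep581 (Shp ShpOk osP)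
open Crest.Agent.R122.OPX973 (OPX anT)
open Crest.Agent.R122.PTreeOf331 (iT iS)
open scoped Classical

namespace Crest.Agent.R122.LNEv383

noncomputable section

/-! ### The contact tree of a structure over the gas -/

section ptree

variable {Φ : Space3 → ℝ} {T' ε c R : ℝ} {K n : ℕ} {Q : EPar} {P : CTree} {S : Shp}
  {q : (PhasePoint × Par P) × S.Θ} {w : Config n}

/-- The structure `q` is a pair structure, horizon `T`, contact constant `c`. -/
def PairQ (Φ : Space3 → ℝ) (T ε c : ℝ) (S : Shp) (θ : S.Θ) : Prop :=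
  ∃ (R : ℝ → S.κ → S.κ → Prop) (cl : S.κ → Finset S.κ) (β : S.κ → ℝ) (x y : S.κ),
    StrG491.Pair (VLMeas973.vsys Φ T ε (S.b ε θ)) c (S.z ε θ) R Finset.univ cl β x y
      (dL (S.th ε θ)).1 (eL (S.th ε θ)).1

/-- `q` with its contact tree is a `PTree` over the gas. -/
def PTreeQ (Φ : Space3 → ℝ) (T te ε c : ℝ) (P : CTree) (S : Shp) (n : ℕ) (w : Config n)
    (q : (PhasePoint × Par P) × S.Θ) : Prop :=
  ∃ (R : ℝ → Fin n ⊕ (Idx P ⊕ S.κ) → Fin n ⊕ (Idx P ⊕ S.κ) → Prop)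
    (π : Finset (Fin n ⊕ (Idx P ⊕ S.κ)))
    (cl : Fin n ⊕ (Idx P ⊕ S.κ) → Finset (Fin n ⊕ (Idx P ⊕ S.κ)))
    (β : Fin n ⊕ (Idx P ⊕ S.κ) → ℝ) (x y : Idx P ⊕ S.κ),
    PTree (gsys Φ T ε n (osB P S ε q)) c (Sum.elim w (osZ Φ P S ε q)) R π cl β (Sum.inr x)
      (Sum.inr y) (dL (S.th ε q.2)).1 (eL (S.th ε q.2)) te P q.1
      ((iT P S.κ).trans (strE n (Idx P ⊕ S.κ))) ∧
    ∀ j : Fin n ⊕ (Idx P ⊕ S.κ),
      (j ∈ π ∨ j ∈ part ((iT P S.κ).trans (strE n (Idx P ⊕ S.κ)))) ↔ j ∈ pS n (Idx P ⊕ S.κ)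

theorem ptreeQ_of_pairQ (hΦ : AdmissiblePotential Φ) (hε : 0 < ε) (hlt : Q.te < T')
    (hG : Gx6 Φ ε R K Q T' P q.1 w (S.th ε q.2)) (h : PairQ Φ T' ε c S q.2) :
    PTreeQ Φ T' Q.te ε c P S n w q := by
  obtain ⟨Rc, cl, β, x, y, h⟩ := h
  refine ⟨_, _, _, _, _, _, PTreeOf331.ptreeG_osP hΦ hε h hG.gd.real.valid hG.gd.real.sep
    hG.gd.real.ct hlt hG.enc.pass.ok w, fun j => ?_⟩
  exact LNS3a304.cover_of_union (PTreeOf331.unionG (P := P) (κ := S.κ) (n := n)) j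

end ptree

/-! ### The generic gate -/

section gate

variable {Φ : Space3 → ℝ} {f₀ : PhasePoint → ℝ} {bg γ β te T' : ℝ} {ρ : Space3 → ℝ≥0∞}
  {gl : ℝ → ℝ} {rm : ℝ≥0∞} {P : CTree} {S : Shp} {K : ℕ} {Q : EPar}

/-- **The realisation of the structure**, contact constant `c`: off a bad family and a null event
the structure is a pair structure. -/
def PairAltE (Φ : Space3 → ℝ) (f₀ : PhasePoint → ℝ) (Q : EPar) (T' : ℝ) (K : ℕ) (P : CTree)
    (S : Shp) (c : ℝ) : Prop :=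
  ∃ (B : ℝ → ℝ → ℝ → Unit → (n : ℕ) → ((PhasePoint × Par P) × S.Θ) → Config n → Prop)
    (Ht : ℝ → Unit → (n : ℕ) → ((PhasePoint × Par P) × S.Θ) → Config n → Prop),
    BadF f₀ (osP Φ f₀ Q.te T' K P S) B ∧ GNull f₀ (osP Φ f₀ Q.te T' K P S) Ht ∧
    ∀ r > 0, ∀ ς > 0, ∃ ε₁ : ℝ, 0 < ε₁ ∧ ∀ ε : ℝ, 0 < ε → ε < ε₁ → ∀ n q (w : Config n),
      w ∈ PairExcluded ε n → (∃ R, Gx6 Φ ε R K Q T' P q.1 w (S.th ε q.2)) →
      B r ς ε () n q w ∨ Ht ε () n q w ∨ PairQ Φ T' ε c S q.2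

/-- **The generic gate**: events with the guards `Gx6 R`. -/
theorem gNull_of_pair (h : OPX Φ f₀ bg γ β T' te ρ S gl rm) (hlt : Q.te < T') {c : ℝ}
    (hPA : PairAltE Φ f₀ Q T' K P S c) {R : ℝ} (K' : ℕ)
    {E : ℝ → (n : ℕ) → ((PhasePoint × Par P) × S.Θ) → Config n → Prop}
    (hE : ∀ ε n q (w : Config n), E ε n q w → Gx6 Φ ε R K Q T' P q.1 w (S.th ε q.2))
    (hdet : ∀ L : ℕ, ∃ N : ℕ, ∀ r > 0, ∀ ς > 0, ∀ ε > 0, 2 * (r * ε) ≤ ς → ∀ n q (w : Config n),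
      w ∈ PairExcluded ε n → E ε n q w → PTreeQ Φ T' Q.te ε c P S n w q →
      RunS Φ ε T' K' L (osB P S ε q) (osZ Φ P S ε q) w ∨
        LN2.BadGas Φ T' c r ς ε N 1 (anT P S) (osB P S ε q) (osZ Φ P S ε q) w ∨
        BH167.BadHitGas (BH167.bpos Φ (T' + 1) T') Φ T' c 1 ε N N 1 (anT P S) (osB P S ε q)
          (osZ Φ P S ε q) w) :
    GNull f₀ (osP Φ f₀ Q.te T' K P S) (fun ε _ n q w => E ε n q w) := by
  obtain ⟨B, Ht, hB, hH, hPA⟩ := hPA
  refine h.gNull_of_alt (u := T') le_rfl K' (E := E) fun L => ?_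
  obtain ⟨N, hd⟩ := hdet L
  refine ⟨N, c, T' + 1, T', B, Ht, by linarith [h.T_pos], hB, hH, fun r hr ς hς => ?_⟩
  obtain ⟨ε₁, h0, h1⟩ := hPA r hr ς hς
  refine ⟨min ε₁ (ς / (2 * r)), lt_min h0 (by positivity), fun ε hε hlt' n q w hw hEq => ?_⟩
  have hrε : 2 * (r * ε) ≤ ς := by
    have h2 := (hlt'.trans_le (min_le_right _ _)).le
    rw [le_div_iff₀ (by positivity)] at h2
    linarith
  rcases h1 ε hε (hlt'.trans_le (min_le_left _ _)) n q w hw ⟨R, hE ε n q w hEq⟩ with h2 | h2 | h2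
  · exact Or.inr (Or.inr (Or.inr (Or.inl h2)))
  · exact Or.inr (Or.inr (Or.inr (Or.inr h2)))
  rcases hd r hr ς hς ε hε hrε n q w hw hEq
    (ptreeQ_of_pairQ h.adm hε hlt (hE ε n q w hEq) h2) with h3 | h3 | h3
  · exact Or.inl h3
  · exact Or.inr (Or.inl h3)
  · exact Or.inr (Or.inr (Or.inl h3))

/-! ### The field `near` -/

theorem anT_nonempty : (anT P S).Nonempty :=
  ⟨Sum.inl (root P), by simp [anT]⟩

/-- The deterministic alternatives of the field `near`. -/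
theorem near_det {R r ς ε c : ℝ} {n m N : ℕ} {q : (PhasePoint × Par P) × S.Θ} {w : Config n}
    (hΦ : AdmissiblePotential Φ) (hε : 0 < ε) (hte : 0 ≤ Q.te) (hlt : Q.te < T') (hc : 1 ≤ c)
    (hR : R + 2 ≤ c) (hr : 2 * (r * ε) ≤ ς)
    (hN : 3 * (Fintype.card (Idx P ⊕ S.κ) + 2 * K * (m + 2)) ≤ N) (hw : w ∈ PairExcluded ε n)
    (hE : evNearG Φ Q T' R K ε P q.1 n w (S.th ε q.2)) (hP : PTreeQ Φ T' Q.te ε c P S n w q) :
    RunS Φ ε T' K m (osB P S ε q) (osZ Φ P S ε q) w ∨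
      LN2.BadGas Φ T' c r ς ε N 1 (anT P S) (osB P S ε q) (osZ Φ P S ε q) w ∨
      BH167.BadHitGas (BH167.bpos Φ (T' + 1) T') Φ T' c 1 ε N N 1 (anT P S) (osB P S ε q)
        (osZ Φ P S ε q) w := by
  obtain ⟨Rc, π, cl, β', x, y, H, hπ⟩ := hP
  obtain ⟨hG, hH, hL, hN'⟩ := hE
  by_cases hB : LN2.BadGas Φ T' c r ς ε N 1 (anT P S) (osB P S ε q) (osZ Φ P S ε q) w
  · exact Or.inr (Or.inl hB)
  have h1 := LNS3a304.one0 H hπ hw hΦ hε hc
  have hTL := LNS3a304.tlA H hπ hw hΦ hε hc (T' := T') le_rfl anT_nonempty (by omega) hB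
  have h2 := LNS3a304.exits0 H hπ hw hΦ hε hc hr hTL hlt.le hH.ok₁
  exact det_near h1 h2 (fun _ => rfl) H.tree hΦ hε hte hlt.le hc hR hr le_rfl le_rfl
    (lt_add_one T') anT_nonempty hN ⟨hG.gd, hL, hN'⟩

/-- **The field `near` of `Slots6G`.** -/
theorem gNull_near (h : OPX Φ f₀ bg γ β T' te ρ S gl rm) (hte : 0 ≤ Q.te) (hlt : Q.te < T')
    (hPA : ∀ c : ℝ, 1 ≤ c → PairAltE Φ f₀ Q T' K P S c) (R : ℝ) :
    GNull f₀ (osP Φ f₀ Q.te T' K P S) (fun ε _ n q w =>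
      evNearG Φ Q T' R K ε P q.1 n w (S.th ε q.2)) :=
  gNull_of_pair h hlt (hPA (max 1 (R + 2)) (le_max_left _ _)) (R := R) K
    (E := fun ε n q w => evNearG Φ Q T' R K ε P q.1 n w (S.th ε q.2)) (fun _ _ _ _ h => h.1)
    fun L => ⟨3 * (Fintype.card (Idx P ⊕ S.κ) + 2 * K * (L + 2)),
      fun _ _ _ _ _ hε hrς _ _ _ hw hE hP => near_det h.adm hε hte hlt (le_max_left _ _)
        (le_max_right _ _) hrς le_rfl hw hE hP⟩

end gate

end

end Crest.Agent.R122.LNEv383
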