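import Crest.Agent.R122.LNNearT_383
import Crest.Agent.R122.EncFar6_45

/-!
# Row 122, LN1 events (helper383), part 6: the near-line fields of the encounter events

* `exL` : the exits of a tree; `NearFam.encParts` : `EncParts` (helper45, one contact);
* `NearFam.encParts6` : `EncParts6` (helper45, inequality 3), family of the exits and `d`.
-/

set_option autoImplicit false
set_option linter.unusedSectionVars false

open MeasureTheory Set Filter Topology
open scoped ENNReal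
open Crest.AnalysisR.Kinetic
open Crest.Agent.R122.Flow671 hiding rel
open Crest.Agent.R122.Ins45 Crest.Agent.R122.Causal291
open Crest.Agent.R122.Inf879 Crest.Agent.R122.GC311 Crest.Agent.R122.EDefs602
open Crest.Agent.R122.EDefs602.MW Crest.Agent.R122.MWFam255
open Crest.Agent.R122.Kin796 Crest.Agent.R122.Kin796.CTree Crest.Agent.R122.Tree674
open Crest.Agent.R122.PathFlow968 Crest.Agent.R122.TreeLines335
open Crest.Agent.R122.Scat818 Crest.Agent.R122.OCout796
open Crest.Agent.R122.OneC285 (lpos cfT rt cT cB cD cX)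
open Crest.Agent.R122.E6Hyp879 (withD)
open scoped Classical

namespace Crest.Agent.R122.LNEv383

noncomputable section

variable {σ : Type} [Fintype σ] {n : ℕ} {Φ : Space3 → ℝ} {T₀ te T' ε c ℓ ς ρ : ℝ} {K N : ℕ}
  {b : σ → ℝ} {w : Config n} {V : σ → PhasePoint} {R : ℝ → Fin n ⊕ σ → Fin n ⊕ σ → Prop}
  {P : CTree} {z : PhasePoint × Par P} {g : Idx P ↪ σ} {l d e : ML}

/-- The exits of a tree (without the root). -/
abbrev exL (Φ : Space3 → ℝ) (ε : ℝ) (P : CTree) (z : PhasePoint × Par P) (j : {j // j ≠ root P}) :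
    ML := lineML Φ ε P z j.1

/-- **The encounter event of the one-contact structures**: the LINK fields. -/
theorem NearFam.encParts
    (h : NearFam Φ T₀ te T' ε K c ℓ ς ((ρ + 2) * ε) N b w V R P z g (exL Φ ε P z) fun j => g j.1)
    (h0 : 0 ≤ cT ε z l) (hr : TreeLines335.rel P z.2 (root P) ≤ cT ε z l)
    (pass : CDpass Φ (cD ε z l)) (tau : tauM Φ (relB (cD ε z l)) ≤ ρ)
    (disp : tauM Φ (relB (cD ε z l)) * ‖(relB (cD ε z l)).2‖ ≤ ρ)
    (hor : cT ε z l + ε * ρ ≤ te)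
    (unt : ∀ j, j ≠ root P →
      cT ε z l + ε * ρ < (MW.cfg w).thetaL Φ ε K te (lineML Φ ε P z j))
    (gas : ∀ t, cT ε z l ≤ t → t ≤ cT ε z l + ε * ρ → ∀ i : Fin n,
      (ρ + 2) * ε < dist ((MW.cfg w).path Φ ε t i).1 (z.1.1 + t • z.1.2))
    (mem : ∀ t, cT ε z l ≤ t → t ≤ cT ε z l + ε * ρ → ∀ j, j ≠ root P →
      (ρ + 2) * ε < dist (lpos (lineML Φ ε P z j) t) (z.1.1 + t • z.1.2)) :
    EncParts Φ ε ρ K te P z w l where
  pass := pass
  tau := tau
  disp := disp
  hor := hor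
  unt := unt
  gas := gas
  mem := mem
  cf t ht ht' j hj k hk :=
    h.cf (x := ⟨j, hj⟩) (h0.trans ht) (hr.trans ht) (ht'.trans hor) (ht'.trans (unt j hj).le) hk
  line t ht ht' j hj hk :=
    h.line (x := ⟨j, hj⟩) (h0.trans ht) (hr.trans ht) (ht'.trans hor) (ht'.trans (unt j hj).le) hk

/-- **The encounter event of inequality 3**: the LINK fields. `x` is the label of `d`. -/
theorem NearFam.encParts6 {x : σ}
    (h : NearFam Φ T₀ te T' ε K c ℓ ς ((ρ + 2) * ε) N b w V R P z g (withD (exL Φ ε P z) d)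
      (Sum.elim (fun j => g j.1) fun _ => x))
    (h0 : 0 ≤ cT ε z e) (hr : TreeLines335.rel P z.2 (root P) ≤ cT ε z e)
    (pass : CDpass Φ (cD ε z e)) (tau : tauM Φ (relB (cD ε z e)) ≤ ρ)
    (disp : tauM Φ (relB (cD ε z e)) * ‖(relB (cD ε z e)).2‖ ≤ ρ)
    (hor : cT ε z e + ε * ρ ≤ te)
    (unt : ∀ j, j ≠ root P →
      cT ε z e + ε * ρ < (MW.cfg w).thetaL Φ ε K te (lineML Φ ε P z j))
    (untd : cT ε z e + ε * ρ < (MW.cfg w).thetaL Φ ε K te d)
    (gas : ∀ t, cT ε z e ≤ t → t ≤ cT ε z e + ε * ρ → ∀ i : Fin n,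
      (ρ + 2) * ε < dist ((MW.cfg w).path Φ ε t i).1 (z.1.1 + t • z.1.2))
    (mem : ∀ t, cT ε z e ≤ t → t ≤ cT ε z e + ε * ρ → ∀ j, j ≠ root P →
      (ρ + 2) * ε < dist (lpos (lineML Φ ε P z j) t) (z.1.1 + t • z.1.2))
    (memd : ∀ t, cT ε z e ≤ t → t ≤ cT ε z e + ε * ρ → d.1.1 ≤ t →
      (ρ + 2) * ε < dist (lpos d t) (z.1.1 + t • z.1.2))
    (nobd : d.1.1 ≠ cT ε z e + outT Φ ε (cD ε z e)) :
    EncParts6 Φ ε ρ K te P z w d e where
  pass := pass
  tau := tau
  disp := disp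
  hor := hor
  unt := unt
  untd := untd
  gas := gas
  mem := mem
  memd := memd
  cf t ht ht' j hj k hk :=
    h.cf (x := Sum.inl ⟨j, hj⟩) (h0.trans ht) (hr.trans ht) (ht'.trans hor)
      (ht'.trans (unt j hj).le) hk
  cfd t ht ht' k hk :=
    h.cf (x := Sum.inr ()) (h0.trans ht) (hr.trans ht) (ht'.trans hor) (ht'.trans untd.le) hk
  line t ht ht' j hj hk :=
    h.line (x := Sum.inl ⟨j, hj⟩) (h0.trans ht) (hr.trans ht) (ht'.trans hor)
      (ht'.trans (unt j hj).le) hk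
  lined t ht ht' _ hk :=
    h.line (x := Sum.inr ()) (h0.trans ht) (hr.trans ht) (ht'.trans hor) (ht'.trans untd.le) hk
  nobd := nobd

end

end Crest.Agent.R122.LNEv383
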