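import Mathlib
import Crest.Prelude.Def_KineticLimit
import Crest.Agent.R122.PWInst3_442
import Crest.Agent.R122.LNH3_968
import Crest.Agent.R122.PWPast_365
import Crest.Agent.R122.LNReachA_818
import Crest.Agent.R122.LNLinkB_818
import Crest.Agent.R122.LNWRW_291
import Crest.Agent.R122.BHPull_726
import Crest.Agent.R122.LinkGate2_424

/-!
# Row 122, LN1 (helper674): instances with one part

The labels are `Fin n ⊕ σ` (gas, structure); all structure labels form ONE part `pS n σ`.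

* `One` : the gas `w` and the structure `(b, V)` with classes `cl` and a family `R` of virtual
  contacts which connects the structure.
* `One.parts`, `One.sparts`, `One.noTwo`, `One.noBad_of`, `One.ctx`, `One.wd` : the graph
  alternatives and the real worlds off the bad events of the gateway.
* `Exits` : a family of lines which are exits of the structure, over a base world.
-/

set_option autoImplicit false
set_option linter.unusedSectionVars false

open MeasureTheory Set Filter Topology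
open scoped NNReal ENNReal
open Crest.AnalysisR.Kinetic
open Crest.Agent.R122.Loc45 Crest.Agent.R122.Ins45 Crest.Agent.R122.EDefs602
open Crest.Agent.R122.VL581 Crest.Agent.R122.VL581.VSys
open Crest.Agent.R122.LN304 Crest.Agent.R122.LNg410 Crest.Agent.R122.LNEv968
open Crest.Agent.R122.PWGlue491 Crest.Agent.R122.PWInst442 Crest.Agent.R122.LNPart424
open Crest.Agent.R122.MWFam255 Crest.Agent.R122.LNEv818
open scoped Classical

noncomputable section

namespace Crest.Agent.R122.LNS674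

variable {σ : Type} [Fintype σ] {n : ℕ}

/-- All labels of the structure. -/
abbrev pS (n : ℕ) (σ : Type) [Fintype σ] : Finset (Fin n ⊕ σ) := Finset.univ.map (strE n σ)

/-- The set of parts. -/
abbrev LS (n : ℕ) (σ : Type) [Fintype σ] : Finset (Finset (Fin n ⊕ σ)) := {pS n σ}

theorem mem_pS {j : Fin n ⊕ σ} : j ∈ pS n σ ↔ ∃ x, j = Sum.inr x := by
  rw [Finset.mem_map]
  exact ⟨fun ⟨x, _, h⟩ => ⟨x, h.symm⟩, fun ⟨x, h⟩ => ⟨x, Finset.mem_univ _, h.symm⟩⟩

theorem inr_mem_pS (x : σ) : (Sum.inr x : Fin n ⊕ σ) ∈ pS n σ := mem_pS.2 ⟨x, rfl⟩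

theorem inl_not_mem_pS (i : Fin n) : (Sum.inl i : Fin n ⊕ σ) ∉ pS n σ := by
  rw [mem_pS]
  rintro ⟨x, hx⟩
  cases hx

theorem mem_LS {π : Finset (Fin n ⊕ σ)} : π ∈ LS n σ ↔ π = pS n σ := Finset.mem_singleton

theorem uni_LS : uni (LS n σ) = pS n σ := by
  ext j
  rw [LNPart424.mem_uni]
  constructor
  · rintro ⟨π, hπ, hj⟩
    rwa [mem_LS.1 hπ] at hj
  · intro hj
    exact ⟨_, mem_LS.2 rfl, hj⟩

theorem card_cover {J : Type} {A B U S S' : Finset J} (hA : ∀ j ∈ A, j ∈ S ∨ j ∈ U)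
    (hB : ∀ j ∈ B, j ∈ S' ∨ j ∈ U) : (A ∪ B ∪ U).card ≤ U.card + (S.card + S'.card) := by
  have h4 : (A ∪ B ∪ U) ⊆ U ∪ (S ∪ S') := by
    intro j hj
    simp only [Finset.mem_union] at hj ⊢
    rcases hj with (hj | hj) | hj
    · rcases hA j hj with h | h
      · exact Or.inr (Or.inl h)
      · exact Or.inl h
    · rcases hB j hj with h | h
      · exact Or.inr (Or.inr h)
      · exact Or.inl h
    · exact Or.inl hj
  refine (Finset.card_le_card h4).trans ((Finset.card_union_le _ _).trans ?_)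
  have h5 := Finset.card_union_le S S'
  omega

/-- One structure which is one part. -/
structure One (Φ : Space3 → ℝ) (T ε c : ℝ) (b : σ → ℝ) (V : σ → PhasePoint) (w : Config n)
    (cl : Fin n ⊕ σ → Finset (Fin n ⊕ σ)) (R : ℝ → Fin n ⊕ σ → Fin n ⊕ σ → Prop) : Prop where
  base : Base (gsys Φ T ε n b) w V cl
  pe : w ∈ PairExcluded ε n
  fam : Fam (gsys Φ T ε n b) c (Sum.elim w V) (pS n σ) R

namespace One

variable {Φ : Space3 → ℝ} {T ε c : ℝ} {b : σ → ℝ} {V : σ → PhasePoint} {w : Config n}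
  {cl : Fin n ⊕ σ → Finset (Fin n ⊕ σ)} {R : ℝ → Fin n ⊕ σ → Fin n ⊕ σ → Prop}
  (h : One Φ T ε c b V w cl R)
include h

theorem conn : (gsys Φ T ε n b).Conn c (pS n σ) (Sum.elim w V) :=
  conn_of_cut h.fam.conn fun i hi j hj hij ⟨r, hr, hR⟩ => ⟨r, hr, h.fam.vct r hr i hi j hj hij hR⟩

theorem parts : Parts (gsys Φ T ε n b) c (Sum.elim w V) (LS n σ) :=
  parts_one (fun _ => le_rfl) h.base.gas_o h.pe h.conn

theorem sparts {A₀ : Finset σ} (hA : A₀.Nonempty) : SParts (n := n) 1 A₀ (LS n σ) where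
  disj π hπ π' hπ' hne := absurd ((mem_LS.1 hπ).trans (mem_LS.1 hπ').symm) hne
  cov y := ⟨_, mem_LS.2 rfl, inr_mem_pS y⟩
  anch π hπ := by
    obtain ⟨y, hy⟩ := hA
    exact ⟨y, hy, by rw [mem_LS.1 hπ]; exact inr_mem_pS y⟩
  card := le_of_eq (Finset.card_singleton _)

theorem noTwo (N : ℕ) : NoTwo (gsys Φ T ε n b) c (Sum.elim w V) (LS n σ) N :=
  fun _ _ _ π hπ π' hπ' _ _ => (mem_LS.1 hπ).trans (mem_LS.1 hπ').symm

/-- Off the bad partitions all connected sets which contain the structure are tree-like. -/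
theorem noBad_of (hΦ : AdmissiblePotential Φ) (hε : 0 < ε) {T' ρ ς : ℝ} (hT : T ≤ T') {N : ℕ}
    {A₀ : Finset σ} (hA : A₀.Nonempty) (hB : ¬ LN2.BadGas Φ T' c ρ ς ε N 1 A₀ b V w) :
    NoBad (gsys Φ T ε n b) c (ρ * ε) ς (Sum.elim w V) (LS n σ) N := by
  by_contra hcon
  exact hB (badGas_of_not hΦ hε hT (h.sparts hA) h.parts.conn (Or.inl hcon))

/-- The standing hypotheses of helper968. -/
theorem ctx (hΦ : AdmissiblePotential Φ) (hε : 0 < ε) (hc : 1 ≤ c) {T' ρ ς : ℝ}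
    (hρ : 2 * (ρ * ε) ≤ ς) (hT : T ≤ T') {N : ℕ}
    {A₀ : Finset σ} (hA : A₀.Nonempty) (hB : ¬ LN2.BadGas Φ T' c ρ ς ε N 1 A₀ b V w) :
    Ctx (gsys Φ T ε n b) c (ρ * ε) ς (Sum.elim w V) (LS n σ) N :=
  ⟨hΦ, hε, hc, hρ, h.parts, h.noBad_of hΦ hε hT hA hB, h.noTwo N⟩

/-- A glued world over the structure, off the bad hits. -/
theorem wd (hΦ : AdmissiblePotential Φ) (hε : 0 < ε) (hT0 : 0 ≤ T) (hc : 1 ≤ c) {T' te T₁ ℓ ς : ℝ}
    (hℓ : 2 * ℓ ≤ ς) (hT : T ≤ T') (hte : T' ≤ te) (hT₁ : te < T₁) {N : ℕ} {A₀ : Finset σ}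
    (hA : A₀.Nonempty)
    (hB : ¬ BH167.BadHitGas (BH167.bpos Φ T₁ te) Φ T' c 1 ε N N 1 A₀ b V w)
    {bD : Fin n ⊕ σ → ℝ} {A : Finset (Fin n ⊕ σ)} {XD : ℝ → Fin n ⊕ σ → PhasePoint}
    (H : GD (gsys Φ T ε n b) (Sum.elim w V) cl bD A XD) :
    Wd (gsys Φ T ε n b) c ℓ ς (Sum.elim w V) (XG (gsys Φ T ε n b) (Sum.elim w V) cl bD A XD)
      (CG (gsys Φ T ε n b) (Sum.elim w V) cl bD A XD) (LS n σ) N := by
  have h1 : RW (gsys Φ T ε n b) (Sum.elim w V) (XG (gsys Φ T ε n b) (Sum.elim w V) cl bD A XD)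
      (CG (gsys Φ T ε n b) (Sum.elim w V) cl bD A XD) := H.rw hΦ hε hT0
  refine ⟨h1, ?_, fun hbh => hB ?_⟩
  · exact LNW291.wcore (M := gsys Φ T ε n b) hΦ hε h1 hc hℓ
  · exact Chain726.badHitGas_of_badHit hΦ hε hT hte hT₁ (h.sparts hA) h.parts H h.base.gas_cl hbh

end One

/-! ### Exits -/

/-- A family of lines which are exits of the structure with labels `p`, over the base world `W` with
labels `f` (which may contain exits of the structure, too). -/
structure Exits {ι μ : Type} [Fintype ι] (Φ : Space3 → ℝ) (T te ε : ℝ) (b : σ → ℝ)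
    (V : σ → PhasePoint) (w : Config n) (cl : Fin n ⊕ σ → Finset (Fin n ⊕ σ))
    (R : ℝ → Fin n ⊕ σ → Fin n ⊕ σ → Prop) (W : MW ι) (f : ι ↪ Fin n ⊕ σ) (ls : μ → ML)
    (p : μ → σ) : Prop where
  inj : Function.Injective p
  out : ∀ x i, f i ≠ Sum.inr (p x)
  mark : ∀ i, f i ∉ pS n σ → 1 ≤ W.m i
  /-- the exits have a class -/
  memC : ∀ x, Sum.inr (p x) ∈ cl (Sum.inr (p x))
  memB : ∀ i, f i ∈ pS n σ → f i ∈ cl (f i)
  ok0 : W.Ok Φ ε
  ok1 : ∀ x, (W.ins (ls x)).Ok Φ ε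
  gd0 : GD (gsys Φ T ε n b) (Sum.elim w V) cl (bD W f) (labs f) (XD W f Φ ε)
  gd1 : ∀ x, GD (gsys Φ T ε n b) (Sum.elim w V) cl
    (bD (W.ins (ls x)) (insF f (Sum.inr (p x)) (out x)))
    (labs (insF f (Sum.inr (p x)) (out x)))
    (XD (W.ins (ls x)) (insF f (Sum.inr (p x)) (out x)) Φ ε)
  cb0 : PW365.CleanB (gsys Φ T ε n b) (Sum.elim w V) cl (bD W f) (labs f) (XD W f Φ ε) te
  cb1 : ∀ x, PW365.CleanB (gsys Φ T ε n b) (Sum.elim w V) cl
    (bD (W.ins (ls x)) (insF f (Sum.inr (p x)) (out x)))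
    (labs (insF f (Sum.inr (p x)) (out x)))
    (XD (W.ins (ls x)) (insF f (Sum.inr (p x)) (out x)) Φ ε) te
  /-- contacts of two exits of the family in the connecting family are contacts of their class
  before both exits -/
  old : ∀ x y, x ≠ y → ∀ r, R r (Sum.inr (p x)) (Sum.inr (p y)) →
    Sum.inr (p y) ∈ cl (Sum.inr (p x)) ∧ r ≤ (ls x).1.1
  /-- the same for two exits in the base world -/
  oldB : ∀ i j x y, f i = Sum.inr x → f j = Sum.inr y → i ≠ j →
    ∀ r, R r (Sum.inr x) (Sum.inr y) → Sum.inr y ∈ cl (Sum.inr x) ∧ r ≤ W.b i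
  /-- the same for an exit of the family and an exit in the base world -/
  oldX : ∀ x i y, f i = Sum.inr y → ∀ r, R r (Sum.inr (p x)) (Sum.inr y) →
    Sum.inr y ∈ cl (Sum.inr (p x)) ∧ r ≤ (ls x).1.1 ∧ r ≤ W.b i

namespace Exits

variable {ι μ : Type} [Fintype ι] {Φ : Space3 → ℝ} {T te ε : ℝ} {b : σ → ℝ}
  {V : σ → PhasePoint} {w : Config n} {cl : Fin n ⊕ σ → Finset (Fin n ⊕ σ)}
  {R : ℝ → Fin n ⊕ σ → Fin n ⊕ σ → Prop} {W : MW ι} {f : ι ↪ Fin n ⊕ σ} {ls : μ → ML} {p : μ → σ}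
  (E : Exits Φ T te ε b V w cl R W f ls p)
include E

/-- Sub-families. -/
theorem comp {ν : Type} (g : ν ↪ μ) :
    Exits Φ T te ε b V w cl R W f (fun x => ls (g x)) (fun x => p (g x)) where
  inj x y h := g.injective (E.inj h)
  out x i := E.out (g x) i
  mark := E.mark
  memC x := E.memC (g x)
  memB := E.memB
  ok0 := E.ok0
  ok1 x := E.ok1 (g x)
  gd0 := E.gd0
  gd1 x := E.gd1 (g x)
  cb0 := E.cb0
  cb1 x := E.cb1 (g x)
  old x y h := E.old (g x) (g y) (fun h' => h (g.injective h'))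
  oldB := E.oldB
  oldX x := E.oldX (g x)

end Exits

section pairNL

variable {ι μ : Type} [Fintype ι] [Fintype μ] {Φ : Space3 → ℝ} {T te ε c ℓ ς : ℝ} {b : σ → ℝ}
  {V : σ → PhasePoint} {w : Config n} {cl : Fin n ⊕ σ → Finset (Fin n ⊕ σ)}
  {R : ℝ → Fin n ⊕ σ → Fin n ⊕ σ → Prop} {W : MW ι} {f : ι ↪ Fin n ⊕ σ} {ls : μ → ML} {p : μ → σ}
  {K N N₁ : ℕ}

/-- The strict past of an exit which is not touched. -/
theorem preF_exit (h : One Φ T ε c b V w cl R) (E : Exits Φ T te ε b V w cl R W f ls p)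
    (x : μ) {u : ℝ} (hu : u ≤ te) (hθ : u ≤ W.thetaL Φ ε K te (ls x)) :
    ∃ S : Finset (Fin n ⊕ σ), S.card ≤ K ∧
      ∀ j ∈ preF (CG (gsys Φ T ε n b) (Sum.elim w V) cl
        (bD (W.ins (ls x)) (insF f (Sum.inr (p x)) (E.out x)))
        (labs (insF f (Sum.inr (p x)) (E.out x)))
        (XD (W.ins (ls x)) (insF f (Sum.inr (p x)) (E.out x)) Φ ε)) (Sum.inr (p x)) u,
        j ∈ S ∨ j ∈ uni (LS n σ) := by
  have h1 := PW365.card_preF_le (M := gsys Φ T ε n b) (W := W.ins (ls x))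
    (f := insF f (Sum.inr (p x)) (E.out x)) (Λ := LS n σ) (K := K) (E.gd1 x) (E.cb1 x) hu
    (fun j => ?_) (fun k hk => ?_) (i := Sum.inr ()) (fun s hs0 hsu => ?_)
  · refine ⟨_, h1, fun j hj => ?_⟩
    by_cases hU : j ∈ uni (LS n σ)
    · exact Or.inr hU
    · exact Or.inl ((@Finset.mem_sdiff _ (fun a b => Classical.propDecidable _) _ _ _).2 ⟨hj, hU⟩)
  · rw [uni_LS]
    intro k hk
    rcases j with j | j
    · rw [h.base.gas_cl] at hk
      exact absurd hk (Finset.notMem_empty k)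
    · rcases k with k | k
      · have h2 := h.base.cover.eq _ _ hk
        rw [h.base.gas_cl] at h2
        rw [← h2] at hk
        exact absurd hk (Finset.notMem_empty _)
      · exact inr_mem_pS k
  · rw [uni_LS] at hk
    rcases k with k | k
    · exact E.mark k hk
    · exact absurd (inr_mem_pS (p x)) hk
  · exact not_inf_of_new (Z := W) (A := MW.line (ls x)) hθ hu () hs0 hsu

/-- **Exits of one part are pairwise unlinked** off the bad events, from the reachability of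
everything which they influence. -/
theorem One.pairNL_of_reachAll (h : One Φ T ε c b V w cl R)
    (E : Exits Φ T te ε b V w cl R W f ls p) (hΦ : AdmissiblePotential Φ) (hε : 0 < ε)
    (hte : te ≤ T) (hX : Ctx (gsys Φ T ε n b) c ℓ ς (Sum.elim w V) (LS n σ) N₁)
    (hW : ∀ x, Wd (gsys Φ T ε n b) c ℓ ς (Sum.elim w V)
      (XG (gsys Φ T ε n b) (Sum.elim w V) cl (bD (W.ins (ls x)) (insF f (Sum.inr (p x)) (E.out x)))
        (labs (insF f (Sum.inr (p x)) (E.out x)))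
        (XD (W.ins (ls x)) (insF f (Sum.inr (p x)) (E.out x)) Φ ε))
      (CG (gsys Φ T ε n b) (Sum.elim w V) cl (bD (W.ins (ls x)) (insF f (Sum.inr (p x)) (E.out x)))
        (labs (insF f (Sum.inr (p x)) (E.out x)))
        (XD (W.ins (ls x)) (insF f (Sum.inr (p x)) (E.out x)) Φ ε)) (LS n σ) N₁)
    (hRA : ∀ x, ReachAll (Reach (gsys Φ T ε n b) c (Sum.elim w V) (LS n σ) (pS n σ)
      (Sum.inr (p x)) N) Φ ε K te W f (ls x) (Sum.inr (p x)))
    (hN : N + N ≤ N₁) (hK : Fintype.card σ + (K + K) ≤ N₁) : PairNL Φ ε K te W ls := by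
  have hX' := hX.mono hN
  refine pairNL_of_reach (M := gsys Φ T ε n b) (lab := f) (P := fun _ => pS n σ)
    (p := fun x => Sum.inr (p x)) (Λ := LS n σ) (ℓ := ℓ) (ς := ς) hΦ hε rfl hte hX.hc
    h.parts.conn hX'.nb hX'.nt f.injective (fun _ => mem_LS.2 rfl) (fun x => inr_mem_pS (p x))
    (fun x y hxy => E.inj (Sum.inr_injective hxy)) (fun x hx => ?_) hRA ?_
  · obtain ⟨i, hi⟩ := hx
    exact E.out x i hi
  · intro x y hxy _ u hu hux huy hbx hby hb
    obtain ⟨A, hA, hA'⟩ := preF_exit h E x (K := K) hu.2 hux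
    obtain ⟨B, hB, hB'⟩ := preF_exit h E y (K := K) hu.2 huy
    have h3 : (uni (LS n σ)).card = Fintype.card σ := by
      rw [uni_LS, Finset.card_map, Finset.card_univ]
    have hc := (card_cover hA' hB').trans
      (show (uni (LS n σ)).card + (A.card + B.card) ≤ N₁ by omega)
    exact h3_lab (M := gsys Φ T ε n b) (cl := cl) (W := W) (la := ls x) (lb := ls y) (f := f) hX
      (E.out x) (E.out y) (fun h' => hxy (E.inj (Sum.inr_injective h'))) (E.gd1 x) (hW x)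
      (E.gd1 y) (hW y) (mem_LS.2 rfl) (inr_mem_pS _) (inr_mem_pS _) h.fam
      (fun r hr => ⟨(E.old x y hxy r hr).1, (E.old x y hxy r hr).2,
        (E.old y x (Ne.symm hxy) r (h.fam.symm r _ _ hr)).2⟩) (hu.2.trans hte) hbx hby hb hc

end pairNL

end Crest.Agent.R122.LNS674

end
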